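import Vale.Agent.Lib.P154.PChain.BN.R4_0

set_option linter.all false

namespace Vale.Agent.Lib.P154.PChain.BN.S5

open Vale.Agent.Lib.P154.Chain

noncomputable def pc0 : PT := (PT.nd (nat_lit 3993834) (PT.nd (nat_lit 3790878) (PT.nd (nat_lit 3669198) (PT.nd (nat_lit 3628560) (PT.nd (nat_lit 3628482) (PT.nd (nat_lit 3587922) PT.nil (PT.lf (nat_lit 76) (nat_lit 3) (nat_lit 1) (nat_lit 1) (nat_lit 151) (nat_lit 88) (nat_lit 151))) (PT.lf (nat_lit 152) (nat_lit 6) (nat_lit 2) (nat_lit 3) (nat_lit 150) (nat_lit 89) (nat_lit 151))) (PT.nd (nat_lit 40482) (PT.lf (nat_lit 152) (nat_lit 6) (nat_lit 2) (nat_lit 1) (nat_lit 151) (nat_lit 89) (nat_lit 150)) (PT.nd (nat_lit 78) (PT.lf (nat_lit 228) (nat_lit 6) (nat_lit 3) (nat_lit 3) (nat_lit 149) (nat_lit 90) (nat_lit 151)) (PT.lf (nat_lit 304) (nat_lit 3) (nat_lit 4) (nat_lit 1) (nat_lit 150) (nat_lit 90) (nat_lit 150))))) (PT.nd (nat_lit 81042) (PT.nd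 (nat_lit 40482) (PT.lf (nat_lit 228) (nat_lit 6) (nat_lit 3) (nat_lit 1) (nat_lit 151) (nat_lit 90) (nat_lit 149)) (PT.nd (nat_lit 78) (PT.lf (nat_lit 380) (nat_lit 6) (nat_lit 5) (nat_lit 3) (nat_lit 149) (nat_lit 91) (nat_lit 150)) (PT.lf (nat_lit 380) (nat_lit 6) (nat_lit 5) (nat_lit 1) (nat_lit 150) (nat_lit 91) (nat_lit 149)))) (PT.nd (nat_lit 78) (PT.lf (nat_lit 456) (nat_lit 6) (nat_lit 6) (nat_lit 3) (nat_lit 148) (nat_lit 92) (nat_lit 150)) (PT.nd (nat_lit 78) (PT.lf (nat_lit 532) (nat_lit 3) (nat_lit 7) (nat_lit 1) (nat_lit 149) (nat_lit 92) (nat_lit 149)) (PT.lf (nat_lit 456) (nat_lit 6) (nat_lit 6) (nat_lit 1) (nat_lit 150) (nat_lit 92) (nat_lit 148)))))) (PT.nd (nat_lit 81276) (PT.nd (nat_lit 40638) (PT.nd (nat_lit 78) (PT.lf (nat_lit 608) (nat_lit 6) (nat_lit 8) (nat_lit 3) (nat_lit 148) (nat_lit 93) (nat_lit 149)) (PT.nd (nat_lit 40482) (PT.lf (nat_lit 608) (nat_lit 6) (nat_lit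 8) (nat_lit 1) (nat_lit 149) (nat_lit 93) (nat_lit 148)) (PT.lf (nat_lit 684) (nat_lit 6) (nat_lit 9) (nat_lit 3) (nat_lit 147) (nat_lit 94) (nat_lit 149)))) (PT.nd (nat_lit 78) (PT.lf (nat_lit 760) (nat_lit 3) (nat_lit 10) (nat_lit 1) (nat_lit 148) (nat_lit 94) (nat_lit 148)) (PT.nd (nat_lit 40482) (PT.lf (nat_lit 684) (nat_lit 6) (nat_lit 9) (nat_lit 1) (nat_lit 149) (nat_lit 94) (nat_lit 147)) (PT.lf (nat_lit 836) (nat_lit 6) (nat_lit 11) (nat_lit 3) (nat_lit 147) (nat_lit 95) (nat_lit 148))))) (PT.nd (nat_lit 40638) (PT.nd (nat_lit 40482) (PT.lf (nat_lit 836) (nat_lit 6) (nat_lit 11) (nat_lit 1) (nat_lit 148) (nat_lit 95) (nat_lit 147)) (PT.nd (nat_lit 78) (PT.lf (nat_lit 912) (nat_lit 6) (nat_lit 12) (nat_lit 3) (nat_lit 146) (nat_lit 96) (nat_lit 148)) (PT.lf (nat_lit 988) (nat_lit 3) (nat_lit 13) (nat_lit 1) (nat_lit 147) (nat_lit 96) (nat_lit 147)))) (PT.nd (nat_lit 40482) (PT.lf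 (nat_lit 912) (nat_lit 6) (nat_lit 12) (nat_lit 1) (nat_lit 148) (nat_lit 96) (nat_lit 146)) (PT.nd (nat_lit 78) (PT.lf (nat_lit 1064) (nat_lit 6) (nat_lit 14) (nat_lit 3) (nat_lit 146) (nat_lit 97) (nat_lit 147)) (PT.lf (nat_lit 1064) (nat_lit 6) (nat_lit 14) (nat_lit 1) (nat_lit 147) (nat_lit 97) (nat_lit 146))))))) (PT.nd (nat_lit 121836) (PT.nd (nat_lit 40716) (PT.nd (nat_lit 156) (PT.nd (nat_lit 78) (PT.lf (nat_lit 1140) (nat_lit 6) (nat_lit 15) (nat_lit 3) (nat_lit 145) (nat_lit 98) (nat_lit 147)) (PT.lf (nat_lit 1216) (nat_lit 3) (nat_lit 16) (nat_lit 1) (nat_lit 146) (nat_lit 98) (nat_lit 146))) (PT.nd (nat_lit 40404) (PT.lf (nat_lit 1140) (nat_lit 6) (nat_lit 15) (nat_lit 1) (nat_lit 147) (nat_lit 98) (nat_lit 145)) (PT.nd (nat_lit 78) (PT.lf (nat_lit 1292) (nat_lit 6) (nat_lit 17) (nat_lit 3) (nat_lit 144) (nat_lit 99) (nat_lit 147)) (PT.lf (nat_lit 1368) (nat_lit 6) (nat_lit 18)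 (nat_lit 3) (nat_lit 145) (nat_lit 99) (nat_lit 146))))) (PT.nd (nat_lit 40560) (PT.nd (nat_lit 78) (PT.lf (nat_lit 1368) (nat_lit 6) (nat_lit 18) (nat_lit 1) (nat_lit 146) (nat_lit 99) (nat_lit 145)) (PT.nd (nat_lit 40404) (PT.lf (nat_lit 1292) (nat_lit 6) (nat_lit 17) (nat_lit 1) (nat_lit 147) (nat_lit 99) (nat_lit 144)) (PT.lf (nat_lit 1444) (nat_lit 6) (nat_lit 19) (nat_lit 3) (nat_lit 144) (nat_lit 100) (nat_lit 146)))) (PT.nd (nat_lit 78) (PT.lf (nat_lit 1520) (nat_lit 3) (nat_lit 20) (nat_lit 1) (nat_lit 145) (nat_lit 100) (nat_lit 145)) (PT.nd (nat_lit 40404) (PT.lf (nat_lit 1444) (nat_lit 6) (nat_lit 19) (nat_lit 1) (nat_lit 146) (nat_lit 100) (nat_lit 144)) (PT.lf (nat_lit 1596) (nat_lit 6) (nat_lit 21) (nat_lit 3) (nat_lit 143) (nat_lit 101) (nat_lit 146)))))) (PT.nd (nat_lit 81120) (PT.nd (nat_lit 40560) (PT.nd (nat_lit 78) (PT.lf (nat_lit 1672) (nat_lit 6) (nat_lit 22) (nat_lit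 3) (nat_lit 144) (nat_lit 101) (nat_lit 145)) (PT.nd (nat_lit 78) (PT.lf (nat_lit 1672) (nat_lit 6) (nat_lit 22) (nat_lit 1) (nat_lit 145) (nat_lit 101) (nat_lit 144)) (PT.lf (nat_lit 1596) (nat_lit 6) (nat_lit 21) (nat_lit 1) (nat_lit 146) (nat_lit 101) (nat_lit 143)))) (PT.nd (nat_lit 78) (PT.lf (nat_lit 1748) (nat_lit 6) (nat_lit 23) (nat_lit 3) (nat_lit 143) (nat_lit 102) (nat_lit 145)) (PT.nd (nat_lit 78) (PT.lf (nat_lit 1824) (nat_lit 3) (nat_lit 24) (nat_lit 1) (nat_lit 144) (nat_lit 102) (nat_lit 144)) (PT.lf (nat_lit 1748) (nat_lit 6) (nat_lit 23) (nat_lit 1) (nat_lit 145) (nat_lit 102) (nat_lit 143))))) (PT.nd (nat_lit 234) (PT.nd (nat_lit 78) (PT.lf (nat_lit 1900) (nat_lit 6) (nat_lit 25) (nat_lit 3) (nat_lit 142) (nat_lit 103) (nat_lit 145)) (PT.nd (nat_lit 78) (PT.lf (nat_lit 1976) (nat_lit 6) (nat_lit 26) (nat_lit 3) (nat_lit 143) (nat_lit 103) (nat_lit 144)) (PT.lf (nat_lit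 1976) (nat_lit 6) (nat_lit 26) (nat_lit 1) (nat_lit 144) (nat_lit 103) (nat_lit 143)))) (PT.nd (nat_lit 40404) (PT.lf (nat_lit 1900) (nat_lit 6) (nat_lit 25) (nat_lit 1) (nat_lit 145) (nat_lit 103) (nat_lit 142)) (PT.nd (nat_lit 78) (PT.lf (nat_lit 2052) (nat_lit 6) (nat_lit 27) (nat_lit 3) (nat_lit 142) (nat_lit 104) (nat_lit 144)) (PT.lf (nat_lit 2128) (nat_lit 3) (nat_lit 28) (nat_lit 1) (nat_lit 143) (nat_lit 104) (nat_lit 143))))))))
noncomputable def pc1 : PT := (PT.nd (nat_lit 203034) (PT.nd (nat_lit 121680) (PT.nd (nat_lit 80964) (PT.nd (nat_lit 40482) (PT.nd (nat_lit 40404) (PT.lf (nat_lit 2052) (nat_lit 6) (nat_lit 27) (nat_lit 1) (nat_lit 144) (nat_lit 104) (nat_lit 142)) (PT.lf (nat_lit 2204) (nat_lit 6) (nat_lit 29) (nat_lit 3) (nat_lit 141) (nat_lit 105) (nat_lit 144))) (PT.nd (nat_lit 78) (PT.lf (nat_lit 2280) (nat_lit 6) (nat_lit 30) (nat_lit 3) (nat_lit 142) (nat_lit 105)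 (nat_lit 143)) (PT.nd (nat_lit 78) (PT.lf (nat_lit 2280) (nat_lit 6) (nat_lit 30) (nat_lit 1) (nat_lit 143) (nat_lit 105) (nat_lit 142)) (PT.lf (nat_lit 2204) (nat_lit 6) (nat_lit 29) (nat_lit 1) (nat_lit 144) (nat_lit 105) (nat_lit 141))))) (PT.nd (nat_lit 234) (PT.nd (nat_lit 78) (PT.lf (nat_lit 2356) (nat_lit 6) (nat_lit 31) (nat_lit 3) (nat_lit 140) (nat_lit 106) (nat_lit 144)) (PT.nd (nat_lit 78) (PT.lf (nat_lit 2432) (nat_lit 6) (nat_lit 32) (nat_lit 3) (nat_lit 141) (nat_lit 106) (nat_lit 143)) (PT.lf (nat_lit 2508) (nat_lit 3) (nat_lit 33) (nat_lit 1) (nat_lit 142) (nat_lit 106) (nat_lit 142)))) (PT.nd (nat_lit 78) (PT.lf (nat_lit 2432) (nat_lit 6) (nat_lit 32) (nat_lit 1) (nat_lit 143) (nat_lit 106) (nat_lit 141)) (PT.nd (nat_lit 40326) (PT.lf (nat_lit 2356) (nat_lit 6) (nat_lit 31) (nat_lit 1) (nat_lit 144) (nat_lit 106) (nat_lit 140)) (PT.lf (nat_lit 2584) (nat_lit 6) (nat_lit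 34) (nat_lit 3) (nat_lit 140) (nat_lit 107) (nat_lit 143)))))) (PT.nd (nat_lit 40716) (PT.nd (nat_lit 40482) (PT.nd (nat_lit 78) (PT.lf (nat_lit 2660) (nat_lit 6) (nat_lit 35) (nat_lit 3) (nat_lit 141) (nat_lit 107) (nat_lit 142)) (PT.nd (nat_lit 78) (PT.lf (nat_lit 2660) (nat_lit 6) (nat_lit 35) (nat_lit 1) (nat_lit 142) (nat_lit 107) (nat_lit 141)) (PT.lf (nat_lit 2584) (nat_lit 6) (nat_lit 34) (nat_lit 1) (nat_lit 143) (nat_lit 107) (nat_lit 140)))) (PT.nd (nat_lit 78) (PT.lf (nat_lit 2736) (nat_lit 6) (nat_lit 36) (nat_lit 3) (nat_lit 139) (nat_lit 108) (nat_lit 143)) (PT.nd (nat_lit 78) (PT.lf (nat_lit 2812) (nat_lit 6) (nat_lit 37) (nat_lit 3) (nat_lit 140) (nat_lit 108) (nat_lit 142)) (PT.lf (nat_lit 2888) (nat_lit 3) (nat_lit 38) (nat_lit 1) (nat_lit 141) (nat_lit 108) (nat_lit 141))))) (PT.nd (nat_lit 40404) (PT.nd (nat_lit 78) (PT.lf (nat_lit 2812) (nat_lit 6) (nat_lit 37) (nat_lit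 1) (nat_lit 142) (nat_lit 108) (nat_lit 140)) (PT.nd (nat_lit 40248) (PT.lf (nat_lit 2736) (nat_lit 6) (nat_lit 36) (nat_lit 1) (nat_lit 143) (nat_lit 108) (nat_lit 139)) (PT.lf (nat_lit 2964) (nat_lit 6) (nat_lit 39) (nat_lit 3) (nat_lit 138) (nat_lit 109) (nat_lit 143)))) (PT.nd (nat_lit 78) (PT.lf (nat_lit 3040) (nat_lit 6) (nat_lit 40) (nat_lit 3) (nat_lit 139) (nat_lit 109) (nat_lit 142)) (PT.nd (nat_lit 78) (PT.lf (nat_lit 3116) (nat_lit 6) (nat_lit 41) (nat_lit 3) (nat_lit 140) (nat_lit 109) (nat_lit 141)) (PT.lf (nat_lit 3116) (nat_lit 6) (nat_lit 41) (nat_lit 1) (nat_lit 141) (nat_lit 109) (nat_lit 140))))))) (PT.nd (nat_lit 81276) (PT.nd (nat_lit 40638) (PT.nd (nat_lit 40404) (PT.nd (nat_lit 78) (PT.lf (nat_lit 3040) (nat_lit 6) (nat_lit 40) (nat_lit 1) (nat_lit 142) (nat_lit 109) (nat_lit 139)) (PT.nd (nat_lit 40248) (PT.lf (nat_lit 2964) (nat_lit 6) (nat_lit 39) (nat_lit 1) (nat_lit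 143) (nat_lit 109) (nat_lit 138)) (PT.lf (nat_lit 3192) (nat_lit 6) (nat_lit 42) (nat_lit 3) (nat_lit 138) (nat_lit 110) (nat_lit 142)))) (PT.nd (nat_lit 78) (PT.lf (nat_lit 3268) (nat_lit 6) (nat_lit 43) (nat_lit 3) (nat_lit 139) (nat_lit 110) (nat_lit 141)) (PT.nd (nat_lit 78) (PT.lf (nat_lit 3344) (nat_lit 3) (nat_lit 44) (nat_lit 1) (nat_lit 140) (nat_lit 110) (nat_lit 140)) (PT.lf (nat_lit 3268) (nat_lit 6) (nat_lit 43) (nat_lit 1) (nat_lit 141) (nat_lit 110) (nat_lit 139))))) (PT.nd (nat_lit 40404) (PT.nd (nat_lit 40248) (PT.lf (nat_lit 3192) (nat_lit 6) (nat_lit 42) (nat_lit 1) (nat_lit 142) (nat_lit 110) (nat_lit 138)) (PT.nd (nat_lit 78) (PT.lf (nat_lit 3420) (nat_lit 6) (nat_lit 45) (nat_lit 3) (nat_lit 137) (nat_lit 111) (nat_lit 142)) (PT.lf (nat_lit 3496) (nat_lit 6) (nat_lit 46) (nat_lit 3) (nat_lit 138) (nat_lit 111) (nat_lit 141)))) (PT.nd (nat_lit 78) (PT.lf (nat_lit 3572)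 (nat_lit 6) (nat_lit 47) (nat_lit 3) (nat_lit 139) (nat_lit 111) (nat_lit 140)) (PT.nd (nat_lit 78) (PT.lf (nat_lit 3572) (nat_lit 6) (nat_lit 47) (nat_lit 1) (nat_lit 140) (nat_lit 111) (nat_lit 139)) (PT.lf (nat_lit 3496) (nat_lit 6) (nat_lit 46) (nat_lit 1) (nat_lit 141) (nat_lit 111) (nat_lit 138)))))) (PT.nd (nat_lit 40560) (PT.nd (nat_lit 40326) (PT.nd (nat_lit 40170) (PT.lf (nat_lit 3420) (nat_lit 6) (nat_lit 45) (nat_lit 1) (nat_lit 142) (nat_lit 111) (nat_lit 137)) (PT.nd (nat_lit 78) (PT.lf (nat_lit 3648) (nat_lit 6) (nat_lit 48) (nat_lit 3) (nat_lit 136) (nat_lit 112) (nat_lit 142)) (PT.lf (nat_lit 3724) (nat_lit 6) (nat_lit 49) (nat_lit 3) (nat_lit 137) (nat_lit 112) (nat_lit 141)))) (PT.nd (nat_lit 78) (PT.lf (nat_lit 3800) (nat_lit 6) (nat_lit 50) (nat_lit 3) (nat_lit 138) (nat_lit 112) (nat_lit 140)) (PT.nd (nat_lit 78) (PT.lf (nat_lit 3876) (nat_lit 3) (nat_lit 51) (nat_lit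 1) (nat_lit 139) (nat_lit 112) (nat_lit 139)) (PT.lf (nat_lit 3800) (nat_lit 6) (nat_lit 50) (nat_lit 1) (nat_lit 140) (nat_lit 112) (nat_lit 138))))) (PT.nd (nat_lit 40326) (PT.nd (nat_lit 78) (PT.lf (nat_lit 3724) (nat_lit 6) (nat_lit 49) (nat_lit 1) (nat_lit 141) (nat_lit 112) (nat_lit 137)) (PT.nd (nat_lit 40170) (PT.lf (nat_lit 3648) (nat_lit 6) (nat_lit 48) (nat_lit 1) (nat_lit 142) (nat_lit 112) (nat_lit 136)) (PT.lf (nat_lit 3952) (nat_lit 6) (nat_lit 52) (nat_lit 3) (nat_lit 136) (nat_lit 113) (nat_lit 141)))) (PT.nd (nat_lit 78) (PT.lf (nat_lit 4028) (nat_lit 6) (nat_lit 53) (nat_lit 3) (nat_lit 137) (nat_lit 113) (nat_lit 140)) (PT.nd (nat_lit 78) (PT.lf (nat_lit 4104) (nat_lit 6) (nat_lit 54) (nat_lit 3) (nat_lit 138) (nat_lit 113) (nat_lit 139)) (PT.lf (nat_lit 4104) (nat_lit 6) (nat_lit 54) (nat_lit 1) (nat_lit 139) (nat_lit 113) (nat_lit 138))))))))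
noncomputable def pc2 : PT := (PT.nd (nat_lit 121836) (PT.nd (nat_lit 80964) (PT.nd (nat_lit 40482) (PT.nd (nat_lit 40248) (PT.nd (nat_lit 78) (PT.lf (nat_lit 4028) (nat_lit 6) (nat_lit 53) (nat_lit 1) (nat_lit 140) (nat_lit 113) (nat_lit 137)) (PT.lf (nat_lit 3952) (nat_lit 6) (nat_lit 52) (nat_lit 1) (nat_lit 141) (nat_lit 113) (nat_lit 136))) (PT.nd (nat_lit 78) (PT.lf (nat_lit 4180) (nat_lit 6) (nat_lit 55) (nat_lit 3) (nat_lit 135) (nat_lit 114) (nat_lit 141)) (PT.nd (nat_lit 78) (PT.lf (nat_lit 4256) (nat_lit 6) (nat_lit 56) (nat_lit 3) (nat_lit 136) (nat_lit 114) (nat_lit 140)) (PT.lf (nat_lit 4332) (nat_lit 6) (nat_lit 57) (nat_lit 3) (nat_lit 137) (nat_lit 114) (nat_lit 139))))) (PT.nd (nat_lit 234) (PT.nd (nat_lit 78) (PT.lf (nat_lit 4408) (nat_lit 3) (nat_lit 58) (nat_lit 1) (nat_lit 138) (nat_lit 114) (nat_lit 138)) (PT.nd (nat_lit 78) (PT.lf (nat_lit 4332) (nat_lit 6) (nat_lit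 57) (nat_lit 1) (nat_lit 139) (nat_lit 114) (nat_lit 137)) (PT.lf (nat_lit 4256) (nat_lit 6) (nat_lit 56) (nat_lit 1) (nat_lit 140) (nat_lit 114) (nat_lit 136)))) (PT.nd (nat_lit 40092) (PT.lf (nat_lit 4180) (nat_lit 6) (nat_lit 55) (nat_lit 1) (nat_lit 141) (nat_lit 114) (nat_lit 135)) (PT.nd (nat_lit 78) (PT.lf (nat_lit 4484) (nat_lit 6) (nat_lit 59) (nat_lit 3) (nat_lit 134) (nat_lit 115) (nat_lit 141)) (PT.lf (nat_lit 4560) (nat_lit 6) (nat_lit 60) (nat_lit 3) (nat_lit 135) (nat_lit 115) (nat_lit 140)))))) (PT.nd (nat_lit 40404) (PT.nd (nat_lit 234) (PT.nd (nat_lit 78) (PT.lf (nat_lit 4636) (nat_lit 6) (nat_lit 61) (nat_lit 3) (nat_lit 136) (nat_lit 115) (nat_lit 139)) (PT.nd (nat_lit 78) (PT.lf (nat_lit 4712) (nat_lit 6) (nat_lit 62) (nat_lit 3) (nat_lit 137) (nat_lit 115) (nat_lit 138)) (PT.lf (nat_lit 4712) (nat_lit 6) (nat_lit 62) (nat_lit 1) (nat_lit 138) (nat_lit 115) (nat_lit 137))))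 (PT.nd (nat_lit 78) (PT.lf (nat_lit 4636) (nat_lit 6) (nat_lit 61) (nat_lit 1) (nat_lit 139) (nat_lit 115) (nat_lit 136)) (PT.nd (nat_lit 78) (PT.lf (nat_lit 4560) (nat_lit 6) (nat_lit 60) (nat_lit 1) (nat_lit 140) (nat_lit 115) (nat_lit 135)) (PT.lf (nat_lit 4484) (nat_lit 6) (nat_lit 59) (nat_lit 1) (nat_lit 141) (nat_lit 115) (nat_lit 134))))) (PT.nd (nat_lit 234) (PT.nd (nat_lit 78) (PT.lf (nat_lit 4788) (nat_lit 6) (nat_lit 63) (nat_lit 3) (nat_lit 133) (nat_lit 116) (nat_lit 141)) (PT.nd (nat_lit 78) (PT.lf (nat_lit 4864) (nat_lit 6) (nat_lit 64) (nat_lit 3) (nat_lit 134) (nat_lit 116) (nat_lit 140)) (PT.lf (nat_lit 4940) (nat_lit 6) (nat_lit 65) (nat_lit 3) (nat_lit 135) (nat_lit 116) (nat_lit 139)))) (PT.nd (nat_lit 78) (PT.lf (nat_lit 5016) (nat_lit 6) (nat_lit 66) (nat_lit 3) (nat_lit 136) (nat_lit 116) (nat_lit 138)) (PT.nd (nat_lit 78) (PT.lf (nat_lit 5092) (nat_lit 3) (nat_lit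 67) (nat_lit 1) (nat_lit 137) (nat_lit 116) (nat_lit 137)) (PT.lf (nat_lit 5016) (nat_lit 6) (nat_lit 66) (nat_lit 1) (nat_lit 138) (nat_lit 116) (nat_lit 136))))))) (PT.nd (nat_lit 80808) (PT.nd (nat_lit 40404) (PT.nd (nat_lit 40170) (PT.nd (nat_lit 78) (PT.lf (nat_lit 4940) (nat_lit 6) (nat_lit 65) (nat_lit 1) (nat_lit 139) (nat_lit 116) (nat_lit 135)) (PT.nd (nat_lit 78) (PT.lf (nat_lit 4864) (nat_lit 6) (nat_lit 64) (nat_lit 1) (nat_lit 140) (nat_lit 116) (nat_lit 134)) (PT.lf (nat_lit 4788) (nat_lit 6) (nat_lit 63) (nat_lit 1) (nat_lit 141) (nat_lit 116) (nat_lit 133)))) (PT.nd (nat_lit 78) (PT.lf (nat_lit 5168) (nat_lit 6) (nat_lit 68) (nat_lit 3) (nat_lit 133) (nat_lit 117) (nat_lit 140)) (PT.nd (nat_lit 78) (PT.lf (nat_lit 5244) (nat_lit 6) (nat_lit 69) (nat_lit 3) (nat_lit 134) (nat_lit 117) (nat_lit 139)) (PT.lf (nat_lit 5320) (nat_lit 6) (nat_lit 70) (nat_lit 3) (nat_lit 135) (nat_lit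 117) (nat_lit 138))))) (PT.nd (nat_lit 234) (PT.nd (nat_lit 78) (PT.lf (nat_lit 5396) (nat_lit 6) (nat_lit 71) (nat_lit 3) (nat_lit 136) (nat_lit 117) (nat_lit 137)) (PT.nd (nat_lit 78) (PT.lf (nat_lit 5396) (nat_lit 6) (nat_lit 71) (nat_lit 1) (nat_lit 137) (nat_lit 117) (nat_lit 136)) (PT.lf (nat_lit 5320) (nat_lit 6) (nat_lit 70) (nat_lit 1) (nat_lit 138) (nat_lit 117) (nat_lit 135)))) (PT.nd (nat_lit 78) (PT.lf (nat_lit 5244) (nat_lit 6) (nat_lit 69) (nat_lit 1) (nat_lit 139) (nat_lit 117) (nat_lit 134)) (PT.nd (nat_lit 40014) (PT.lf (nat_lit 5168) (nat_lit 6) (nat_lit 68) (nat_lit 1) (nat_lit 140) (nat_lit 117) (nat_lit 133)) (PT.lf (nat_lit 5472) (nat_lit 6) (nat_lit 72) (nat_lit 3) (nat_lit 132) (nat_lit 118) (nat_lit 140)))))) (PT.nd (nat_lit 468) (PT.nd (nat_lit 234) (PT.nd (nat_lit 78) (PT.lf (nat_lit 5548) (nat_lit 6) (nat_lit 73) (nat_lit 3) (nat_lit 133) (nat_lit 118) (nat_lit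 139)) (PT.nd (nat_lit 78) (PT.lf (nat_lit 5624) (nat_lit 6) (nat_lit 74) (nat_lit 3) (nat_lit 134) (nat_lit 118) (nat_lit 138)) (PT.lf (nat_lit 5700) (nat_lit 6) (nat_lit 75) (nat_lit 3) (nat_lit 135) (nat_lit 118) (nat_lit 137)))) (PT.nd (nat_lit 78) (PT.lf (nat_lit 5776) (nat_lit 3) (nat_lit 76) (nat_lit 1) (nat_lit 136) (nat_lit 118) (nat_lit 136)) (PT.nd (nat_lit 78) (PT.lf (nat_lit 5700) (nat_lit 6) (nat_lit 75) (nat_lit 1) (nat_lit 137) (nat_lit 118) (nat_lit 135)) (PT.lf (nat_lit 5624) (nat_lit 6) (nat_lit 74) (nat_lit 1) (nat_lit 138) (nat_lit 118) (nat_lit 134))))) (PT.nd (nat_lit 40092) (PT.nd (nat_lit 78) (PT.lf (nat_lit 5548) (nat_lit 6) (nat_lit 73) (nat_lit 1) (nat_lit 139) (nat_lit 118) (nat_lit 133)) (PT.nd (nat_lit 39936) (PT.lf (nat_lit 5472) (nat_lit 6) (nat_lit 72) (nat_lit 1) (nat_lit 140) (nat_lit 118) (nat_lit 132)) (PT.lf (nat_lit 5852) (nat_lit 6) (nat_lit 77) (nat_lit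 3) (nat_lit 131) (nat_lit 119) (nat_lit 140)))) (PT.nd (nat_lit 78) (PT.lf (nat_lit 5928) (nat_lit 6) (nat_lit 78) (nat_lit 3) (nat_lit 132) (nat_lit 119) (nat_lit 139)) (PT.nd (nat_lit 78) (PT.lf (nat_lit 6004) (nat_lit 6) (nat_lit 79) (nat_lit 3) (nat_lit 133) (nat_lit 119) (nat_lit 138)) (PT.lf (nat_lit 6080) (nat_lit 6) (nat_lit 80) (nat_lit 3) (nat_lit 134) (nat_lit 119) (nat_lit 137))))))))
noncomputable def pc3 : PT := (PT.nd (nat_lit 81276) (PT.nd (nat_lit 40638) (PT.nd (nat_lit 390) (PT.nd (nat_lit 156) (PT.nd (nat_lit 78) (PT.lf (nat_lit 6156) (nat_lit 6) (nat_lit 81) (nat_lit 3) (nat_lit 135) (nat_lit 119) (nat_lit 136)) (PT.lf (nat_lit 6156) (nat_lit 6) (nat_lit 81) (nat_lit 1) (nat_lit 136) (nat_lit 119) (nat_lit 135))) (PT.nd (nat_lit 78) (PT.lf (nat_lit 6080) (nat_lit 6) (nat_lit 80) (nat_lit 1) (nat_lit 137) (nat_lit 119) (nat_lit 134)) (PT.nd (nat_lit 78) (PT.lf (nat_lit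 6004) (nat_lit 6) (nat_lit 79) (nat_lit 1) (nat_lit 138) (nat_lit 119) (nat_lit 133)) (PT.lf (nat_lit 5928) (nat_lit 6) (nat_lit 78) (nat_lit 1) (nat_lit 139) (nat_lit 119) (nat_lit 132))))) (PT.nd (nat_lit 40014) (PT.nd (nat_lit 39858) (PT.lf (nat_lit 5852) (nat_lit 6) (nat_lit 77) (nat_lit 1) (nat_lit 140) (nat_lit 119) (nat_lit 131)) (PT.nd (nat_lit 78) (PT.lf (nat_lit 6384) (nat_lit 6) (nat_lit 84) (nat_lit 3) (nat_lit 130) (nat_lit 120) (nat_lit 140)) (PT.lf (nat_lit 6460) (nat_lit 6) (nat_lit 85) (nat_lit 3) (nat_lit 131) (nat_lit 120) (nat_lit 139)))) (PT.nd (nat_lit 78) (PT.lf (nat_lit 6536) (nat_lit 6) (nat_lit 86) (nat_lit 3) (nat_lit 132) (nat_lit 120) (nat_lit 138)) (PT.nd (nat_lit 78) (PT.lf (nat_lit 6612) (nat_lit 6) (nat_lit 87) (nat_lit 3) (nat_lit 133) (nat_lit 120) (nat_lit 137)) (PT.lf (nat_lit 6688) (nat_lit 6) (nat_lit 88) (nat_lit 3) (nat_lit 134) (nat_lit 120) (nat_lit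 136)))))) (PT.nd (nat_lit 40170) (PT.nd (nat_lit 234) (PT.nd (nat_lit 78) (PT.lf (nat_lit 6764) (nat_lit 3) (nat_lit 89) (nat_lit 1) (nat_lit 135) (nat_lit 120) (nat_lit 135)) (PT.nd (nat_lit 78) (PT.lf (nat_lit 6688) (nat_lit 6) (nat_lit 88) (nat_lit 1) (nat_lit 136) (nat_lit 120) (nat_lit 134)) (PT.lf (nat_lit 6612) (nat_lit 6) (nat_lit 87) (nat_lit 1) (nat_lit 137) (nat_lit 120) (nat_lit 133)))) (PT.nd (nat_lit 78) (PT.lf (nat_lit 6536) (nat_lit 6) (nat_lit 86) (nat_lit 1) (nat_lit 138) (nat_lit 120) (nat_lit 132)) (PT.nd (nat_lit 78) (PT.lf (nat_lit 6460) (nat_lit 6) (nat_lit 85) (nat_lit 1) (nat_lit 139) (nat_lit 120) (nat_lit 131)) (PT.lf (nat_lit 6384) (nat_lit 6) (nat_lit 84) (nat_lit 1) (nat_lit 140) (nat_lit 120) (nat_lit 130))))) (PT.nd (nat_lit 234) (PT.nd (nat_lit 78) (PT.lf (nat_lit 6308) (nat_lit 6) (nat_lit 83) (nat_lit 3) (nat_lit 129) (nat_lit 121) (nat_lit 140)) (PT.nd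 (nat_lit 78) (PT.lf (nat_lit 7144) (nat_lit 6) (nat_lit 94) (nat_lit 3) (nat_lit 130) (nat_lit 121) (nat_lit 139)) (PT.lf (nat_lit 7220) (nat_lit 6) (nat_lit 95) (nat_lit 3) (nat_lit 131) (nat_lit 121) (nat_lit 138)))) (PT.nd (nat_lit 78) (PT.lf (nat_lit 7296) (nat_lit 6) (nat_lit 96) (nat_lit 3) (nat_lit 132) (nat_lit 121) (nat_lit 137)) (PT.nd (nat_lit 78) (PT.lf (nat_lit 7372) (nat_lit 6) (nat_lit 97) (nat_lit 3) (nat_lit 133) (nat_lit 121) (nat_lit 136)) (PT.lf (nat_lit 7448) (nat_lit 6) (nat_lit 98) (nat_lit 3) (nat_lit 134) (nat_lit 121) (nat_lit 135))))))) (PT.nd (nat_lit 40638) (PT.nd (nat_lit 40170) (PT.nd (nat_lit 234) (PT.nd (nat_lit 78) (PT.lf (nat_lit 7448) (nat_lit 6) (nat_lit 98) (nat_lit 1) (nat_lit 135) (nat_lit 121) (nat_lit 134)) (PT.nd (nat_lit 78) (PT.lf (nat_lit 7372) (nat_lit 6) (nat_lit 97) (nat_lit 1) (nat_lit 136) (nat_lit 121) (nat_lit 133)) (PT.lf (nat_lit 7296)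 (nat_lit 6) (nat_lit 96) (nat_lit 1) (nat_lit 137) (nat_lit 121) (nat_lit 132)))) (PT.nd (nat_lit 78) (PT.lf (nat_lit 7220) (nat_lit 6) (nat_lit 95) (nat_lit 1) (nat_lit 138) (nat_lit 121) (nat_lit 131)) (PT.nd (nat_lit 78) (PT.lf (nat_lit 7144) (nat_lit 6) (nat_lit 94) (nat_lit 1) (nat_lit 139) (nat_lit 121) (nat_lit 130)) (PT.lf (nat_lit 6308) (nat_lit 6) (nat_lit 83) (nat_lit 1) (nat_lit 140) (nat_lit 121) (nat_lit 129))))) (PT.nd (nat_lit 234) (PT.nd (nat_lit 78) (PT.lf (nat_lit 7068) (nat_lit 6) (nat_lit 93) (nat_lit 3) (nat_lit 129) (nat_lit 122) (nat_lit 139)) (PT.nd (nat_lit 78) (PT.lf (nat_lit 7828) (nat_lit 6) (nat_lit 103) (nat_lit 3) (nat_lit 130) (nat_lit 122) (nat_lit 138)) (PT.lf (nat_lit 7904) (nat_lit 6) (nat_lit 104) (nat_lit 3) (nat_lit 131) (nat_lit 122) (nat_lit 137)))) (PT.nd (nat_lit 78) (PT.lf (nat_lit 7980) (nat_lit 6) (nat_lit 105) (nat_lit 3) (nat_lit 132) (nat_lit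 122) (nat_lit 136)) (PT.nd (nat_lit 78) (PT.lf (nat_lit 8056) (nat_lit 6) (nat_lit 106) (nat_lit 3) (nat_lit 133) (nat_lit 122) (nat_lit 135)) (PT.lf (nat_lit 8132) (nat_lit 3) (nat_lit 107) (nat_lit 1) (nat_lit 134) (nat_lit 122) (nat_lit 134)))))) (PT.nd (nat_lit 40170) (PT.nd (nat_lit 234) (PT.nd (nat_lit 78) (PT.lf (nat_lit 8056) (nat_lit 6) (nat_lit 106) (nat_lit 1) (nat_lit 135) (nat_lit 122) (nat_lit 133)) (PT.nd (nat_lit 78) (PT.lf (nat_lit 7980) (nat_lit 6) (nat_lit 105) (nat_lit 1) (nat_lit 136) (nat_lit 122) (nat_lit 132)) (PT.lf (nat_lit 7904) (nat_lit 6) (nat_lit 104) (nat_lit 1) (nat_lit 137) (nat_lit 122) (nat_lit 131)))) (PT.nd (nat_lit 78) (PT.lf (nat_lit 7828) (nat_lit 6) (nat_lit 103) (nat_lit 1) (nat_lit 138) (nat_lit 122) (nat_lit 130)) (PT.nd (nat_lit 39780) (PT.lf (nat_lit 7068) (nat_lit 6) (nat_lit 93) (nat_lit 1) (nat_lit 139) (nat_lit 122) (nat_lit 129)) (PT.lf (nat_lit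 6992) (nat_lit 6) (nat_lit 92) (nat_lit 3) (nat_lit 128) (nat_lit 123) (nat_lit 139))))) (PT.nd (nat_lit 234) (PT.nd (nat_lit 78) (PT.lf (nat_lit 7752) (nat_lit 6) (nat_lit 102) (nat_lit 3) (nat_lit 129) (nat_lit 123) (nat_lit 138)) (PT.nd (nat_lit 78) (PT.lf (nat_lit 8436) (nat_lit 6) (nat_lit 111) (nat_lit 3) (nat_lit 130) (nat_lit 123) (nat_lit 137)) (PT.lf (nat_lit 8512) (nat_lit 6) (nat_lit 112) (nat_lit 3) (nat_lit 131) (nat_lit 123) (nat_lit 136)))) (PT.nd (nat_lit 78) (PT.lf (nat_lit 8588) (nat_lit 6) (nat_lit 113) (nat_lit 3) (nat_lit 132) (nat_lit 123) (nat_lit 135)) (PT.nd (nat_lit 78) (PT.lf (nat_lit 8664) (nat_lit 6) (nat_lit 114) (nat_lit 3) (nat_lit 133) (nat_lit 123) (nat_lit 134)) (PT.lf (nat_lit 8664) (nat_lit 6) (nat_lit 114) (nat_lit 1) (nat_lit 134) (nat_lit 123) (nat_lit 133))))))))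
noncomputable def pc4 : PT := (PT.nd (nat_lit 80964) (PT.nd (nat_lit 40482) (PT.nd (nat_lit 40014) (PT.nd (nat_lit 156) (PT.nd (nat_lit 78) (PT.lf (nat_lit 8588) (nat_lit 6) (nat_lit 113) (nat_lit 1) (nat_lit 135) (nat_lit 123) (nat_lit 132)) (PT.lf (nat_lit 8512) (nat_lit 6) (nat_lit 112) (nat_lit 1) (nat_lit 136) (nat_lit 123) (nat_lit 131))) (PT.nd (nat_lit 78) (PT.lf (nat_lit 8436) (nat_lit 6) (nat_lit 111) (nat_lit 1) (nat_lit 137) (nat_lit 123) (nat_lit 130)) (PT.nd (nat_lit 78) (PT.lf (nat_lit 7752) (nat_lit 6) (nat_lit 102) (nat_lit 1) (nat_lit 138) (nat_lit 123) (nat_lit 129)) (PT.lf (nat_lit 6992) (nat_lit 6) (nat_lit 92) (nat_lit 1) (nat_lit 139) (nat_lit 123) (nat_lit 128))))) (PT.nd (nat_lit 234) (PT.nd (nat_lit 78) (PT.lf (nat_lit 6916) (nat_lit 6) (nat_lit 91) (nat_lit 3) (nat_lit 127) (nat_lit 124) (nat_lit 139)) (PT.nd (nat_lit 78) (PT.lf (nat_lit 7676) (nat_lit 6) (nat_lit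 101) (nat_lit 3) (nat_lit 128) (nat_lit 124) (nat_lit 138)) (PT.lf (nat_lit 8360) (nat_lit 6) (nat_lit 110) (nat_lit 3) (nat_lit 129) (nat_lit 124) (nat_lit 137)))) (PT.nd (nat_lit 78) (PT.lf (nat_lit 8968) (nat_lit 6) (nat_lit 118) (nat_lit 3) (nat_lit 130) (nat_lit 124) (nat_lit 136)) (PT.nd (nat_lit 78) (PT.lf (nat_lit 9044) (nat_lit 6) (nat_lit 119) (nat_lit 3) (nat_lit 131) (nat_lit 124) (nat_lit 135)) (PT.lf (nat_lit 9120) (nat_lit 6) (nat_lit 120) (nat_lit 3) (nat_lit 132) (nat_lit 124) (nat_lit 134)))))) (PT.nd (nat_lit 468) (PT.nd (nat_lit 234) (PT.nd (nat_lit 78) (PT.lf (nat_lit 9196) (nat_lit 3) (nat_lit 121) (nat_lit 1) (nat_lit 133) (nat_lit 124) (nat_lit 133)) (PT.nd (nat_lit 78) (PT.lf (nat_lit 9120) (nat_lit 6) (nat_lit 120) (nat_lit 1) (nat_lit 134) (nat_lit 124) (nat_lit 132)) (PT.lf (nat_lit 9044) (nat_lit 6) (nat_lit 119) (nat_lit 1) (nat_lit 135) (nat_lit 124) (nat_lit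 131)))) (PT.nd (nat_lit 78) (PT.lf (nat_lit 8968) (nat_lit 6) (nat_lit 118) (nat_lit 1) (nat_lit 136) (nat_lit 124) (nat_lit 130)) (PT.nd (nat_lit 78) (PT.lf (nat_lit 8360) (nat_lit 6) (nat_lit 110) (nat_lit 1) (nat_lit 137) (nat_lit 124) (nat_lit 129)) (PT.lf (nat_lit 7676) (nat_lit 6) (nat_lit 101) (nat_lit 1) (nat_lit 138) (nat_lit 124) (nat_lit 128))))) (PT.nd (nat_lit 39780) (PT.nd (nat_lit 39624) (PT.lf (nat_lit 6916) (nat_lit 6) (nat_lit 91) (nat_lit 1) (nat_lit 139) (nat_lit 124) (nat_lit 127)) (PT.nd (nat_lit 78) (PT.lf (nat_lit 6840) (nat_lit 6) (nat_lit 90) (nat_lit 3) (nat_lit 126) (nat_lit 125) (nat_lit 139)) (PT.lf (nat_lit 7600) (nat_lit 6) (nat_lit 100) (nat_lit 3) (nat_lit 127) (nat_lit 125) (nat_lit 138)))) (PT.nd (nat_lit 78) (PT.lf (nat_lit 8284) (nat_lit 6) (nat_lit 109) (nat_lit 3) (nat_lit 128) (nat_lit 125) (nat_lit 137)) (PT.nd (nat_lit 78) (PT.lf (nat_lit 8892) (nat_lit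 6) (nat_lit 117) (nat_lit 3) (nat_lit 129) (nat_lit 125) (nat_lit 136)) (PT.lf (nat_lit 9424) (nat_lit 6) (nat_lit 124) (nat_lit 3) (nat_lit 130) (nat_lit 125) (nat_lit 135))))))) (PT.nd (nat_lit 40326) (PT.nd (nat_lit 390) (PT.nd (nat_lit 156) (PT.nd (nat_lit 78) (PT.lf (nat_lit 9500) (nat_lit 6) (nat_lit 125) (nat_lit 3) (nat_lit 131) (nat_lit 125) (nat_lit 134)) (PT.lf (nat_lit 9576) (nat_lit 6) (nat_lit 126) (nat_lit 3) (nat_lit 132) (nat_lit 125) (nat_lit 133))) (PT.nd (nat_lit 78) (PT.lf (nat_lit 9576) (nat_lit 6) (nat_lit 126) (nat_lit 1) (nat_lit 133) (nat_lit 125) (nat_lit 132)) (PT.nd (nat_lit 78) (PT.lf (nat_lit 9500) (nat_lit 6) (nat_lit 125) (nat_lit 1) (nat_lit 134) (nat_lit 125) (nat_lit 131)) (PT.lf (nat_lit 9424) (nat_lit 6) (nat_lit 124) (nat_lit 1) (nat_lit 135) (nat_lit 125) (nat_lit 130))))) (PT.nd (nat_lit 234) (PT.nd (nat_lit 78) (PT.lf (nat_lit 8892) (nat_lit 6) (nat_lit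 117) (nat_lit 1) (nat_lit 136) (nat_lit 125) (nat_lit 129)) (PT.nd (nat_lit 78) (PT.lf (nat_lit 8284) (nat_lit 6) (nat_lit 109) (nat_lit 1) (nat_lit 137) (nat_lit 125) (nat_lit 128)) (PT.lf (nat_lit 7600) (nat_lit 6) (nat_lit 100) (nat_lit 1) (nat_lit 138) (nat_lit 125) (nat_lit 127)))) (PT.nd (nat_lit 39546) (PT.lf (nat_lit 6840) (nat_lit 6) (nat_lit 90) (nat_lit 1) (nat_lit 139) (nat_lit 125) (nat_lit 126)) (PT.nd (nat_lit 78) (PT.lf (nat_lit 6840) (nat_lit 6) (nat_lit 90) (nat_lit 5) (nat_lit 125) (nat_lit 126) (nat_lit 139)) (PT.lf (nat_lit 7524) (nat_lit 3) (nat_lit 99) (nat_lit 3) (nat_lit 126) (nat_lit 126) (nat_lit 138)))))) (PT.nd (nat_lit 468) (PT.nd (nat_lit 234) (PT.nd (nat_lit 78) (PT.lf (nat_lit 8208) (nat_lit 6) (nat_lit 108) (nat_lit 3) (nat_lit 127) (nat_lit 126) (nat_lit 137)) (PT.nd (nat_lit 78) (PT.lf (nat_lit 8816) (nat_lit 6) (nat_lit 116) (nat_lit 3) (nat_lit 128) (nat_lit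 126) (nat_lit 136)) (PT.lf (nat_lit 9348) (nat_lit 6) (nat_lit 123) (nat_lit 3) (nat_lit 129) (nat_lit 126) (nat_lit 135)))) (PT.nd (nat_lit 78) (PT.lf (nat_lit 9804) (nat_lit 6) (nat_lit 129) (nat_lit 3) (nat_lit 130) (nat_lit 126) (nat_lit 134)) (PT.nd (nat_lit 78) (PT.lf (nat_lit 9880) (nat_lit 6) (nat_lit 130) (nat_lit 3) (nat_lit 131) (nat_lit 126) (nat_lit 133)) (PT.lf (nat_lit 9956) (nat_lit 3) (nat_lit 131) (nat_lit 1) (nat_lit 132) (nat_lit 126) (nat_lit 132))))) (PT.nd (nat_lit 234) (PT.nd (nat_lit 78) (PT.lf (nat_lit 9880) (nat_lit 6) (nat_lit 130) (nat_lit 1) (nat_lit 133) (nat_lit 126) (nat_lit 131)) (PT.nd (nat_lit 78) (PT.lf (nat_lit 9804) (nat_lit 6) (nat_lit 129) (nat_lit 1) (nat_lit 134) (nat_lit 126) (nat_lit 130)) (PT.lf (nat_lit 9348) (nat_lit 6) (nat_lit 123) (nat_lit 1) (nat_lit 135) (nat_lit 126) (nat_lit 129)))) (PT.nd (nat_lit 78) (PT.lf (nat_lit 8816) (nat_lit 6)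 (nat_lit 116) (nat_lit 1) (nat_lit 136) (nat_lit 126) (nat_lit 128)) (PT.nd (nat_lit 78) (PT.lf (nat_lit 8208) (nat_lit 6) (nat_lit 108) (nat_lit 1) (nat_lit 137) (nat_lit 126) (nat_lit 127)) (PT.lf (nat_lit 7524) (nat_lit 3) (nat_lit 99) (nat_lit 0) (nat_lit 138) (nat_lit 126) (nat_lit 126))))))))
noncomputable def pc5 : PT := (PT.nd (nat_lit 80496) (PT.nd (nat_lit 40248) (PT.nd (nat_lit 39780) (PT.nd (nat_lit 39546) (PT.nd (nat_lit 39468) (PT.lf (nat_lit 6840) (nat_lit 6) (nat_lit 90) (nat_lit 0) (nat_lit 139) (nat_lit 126) (nat_lit 125)) (PT.lf (nat_lit 6916) (nat_lit 6) (nat_lit 91) (nat_lit 5) (nat_lit 124) (nat_lit 127) (nat_lit 139))) (PT.nd (nat_lit 78) (PT.lf (nat_lit 7600) (nat_lit 6) (nat_lit 100) (nat_lit 5) (nat_lit 125) (nat_lit 127) (nat_lit 138)) (PT.nd (nat_lit 78) (PT.lf (nat_lit 8208) (nat_lit 6) (nat_lit 108) (nat_lit 5) (nat_lit 126) (nat_lit 127) (nat_lit 137)) (PT.lf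 (nat_lit 8740) (nat_lit 3) (nat_lit 115) (nat_lit 3) (nat_lit 127) (nat_lit 127) (nat_lit 136))))) (PT.nd (nat_lit 234) (PT.nd (nat_lit 78) (PT.lf (nat_lit 9272) (nat_lit 6) (nat_lit 122) (nat_lit 3) (nat_lit 128) (nat_lit 127) (nat_lit 135)) (PT.nd (nat_lit 78) (PT.lf (nat_lit 9728) (nat_lit 6) (nat_lit 128) (nat_lit 3) (nat_lit 129) (nat_lit 127) (nat_lit 134)) (PT.lf (nat_lit 10108) (nat_lit 6) (nat_lit 133) (nat_lit 3) (nat_lit 130) (nat_lit 127) (nat_lit 133)))) (PT.nd (nat_lit 78) (PT.lf (nat_lit 10184) (nat_lit 6) (nat_lit 134) (nat_lit 3) (nat_lit 131) (nat_lit 127) (nat_lit 132)) (PT.nd (nat_lit 78) (PT.lf (nat_lit 10184) (nat_lit 6) (nat_lit 134) (nat_lit 1) (nat_lit 132) (nat_lit 127) (nat_lit 131)) (PT.lf (nat_lit 10108) (nat_lit 6) (nat_lit 133) (nat_lit 1) (nat_lit 133) (nat_lit 127) (nat_lit 130)))))) (PT.nd (nat_lit 39780) (PT.nd (nat_lit 234) (PT.nd (nat_lit 78) (PT.lf (nat_lit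 9728) (nat_lit 6) (nat_lit 128) (nat_lit 1) (nat_lit 134) (nat_lit 127) (nat_lit 129)) (PT.nd (nat_lit 78) (PT.lf (nat_lit 9272) (nat_lit 6) (nat_lit 122) (nat_lit 1) (nat_lit 135) (nat_lit 127) (nat_lit 128)) (PT.lf (nat_lit 8740) (nat_lit 3) (nat_lit 115) (nat_lit 0) (nat_lit 136) (nat_lit 127) (nat_lit 127)))) (PT.nd (nat_lit 78) (PT.lf (nat_lit 8208) (nat_lit 6) (nat_lit 108) (nat_lit 0) (nat_lit 137) (nat_lit 127) (nat_lit 126)) (PT.nd (nat_lit 78) (PT.lf (nat_lit 7600) (nat_lit 6) (nat_lit 100) (nat_lit 0) (nat_lit 138) (nat_lit 127) (nat_lit 125)) (PT.lf (nat_lit 6916) (nat_lit 6) (nat_lit 91) (nat_lit 0) (nat_lit 139) (nat_lit 127) (nat_lit 124))))) (PT.nd (nat_lit 234) (PT.nd (nat_lit 78) (PT.lf (nat_lit 6992) (nat_lit 6) (nat_lit 92) (nat_lit 5) (nat_lit 123) (nat_lit 128) (nat_lit 139)) (PT.nd (nat_lit 78) (PT.lf (nat_lit 7676) (nat_lit 6) (nat_lit 101) (nat_lit 5) (nat_lit 124)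 (nat_lit 128) (nat_lit 138)) (PT.lf (nat_lit 8284) (nat_lit 6) (nat_lit 109) (nat_lit 5) (nat_lit 125) (nat_lit 128) (nat_lit 137)))) (PT.nd (nat_lit 78) (PT.lf (nat_lit 8816) (nat_lit 6) (nat_lit 116) (nat_lit 5) (nat_lit 126) (nat_lit 128) (nat_lit 136)) (PT.nd (nat_lit 78) (PT.lf (nat_lit 9272) (nat_lit 6) (nat_lit 122) (nat_lit 5) (nat_lit 127) (nat_lit 128) (nat_lit 135)) (PT.lf (nat_lit 9652) (nat_lit 3) (nat_lit 127) (nat_lit 3) (nat_lit 128) (nat_lit 128) (nat_lit 134))))))) (PT.nd (nat_lit 40092) (PT.nd (nat_lit 468) (PT.nd (nat_lit 234) (PT.nd (nat_lit 78) (PT.lf (nat_lit 10032) (nat_lit 6) (nat_lit 132) (nat_lit 3) (nat_lit 129) (nat_lit 128) (nat_lit 133)) (PT.nd (nat_lit 78) (PT.lf (nat_lit 10336) (nat_lit 6) (nat_lit 136) (nat_lit 3) (nat_lit 130) (nat_lit 128) (nat_lit 132)) (PT.lf (nat_lit 10412) (nat_lit 3) (nat_lit 137) (nat_lit 1) (nat_lit 131) (nat_lit 128) (nat_lit 131))))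 (PT.nd (nat_lit 78) (PT.lf (nat_lit 10336) (nat_lit 6) (nat_lit 136) (nat_lit 1) (nat_lit 132) (nat_lit 128) (nat_lit 130)) (PT.nd (nat_lit 78) (PT.lf (nat_lit 10032) (nat_lit 6) (nat_lit 132) (nat_lit 1) (nat_lit 133) (nat_lit 128) (nat_lit 129)) (PT.lf (nat_lit 9652) (nat_lit 3) (nat_lit 127) (nat_lit 0) (nat_lit 134) (nat_lit 128) (nat_lit 128))))) (PT.nd (nat_lit 234) (PT.nd (nat_lit 78) (PT.lf (nat_lit 9272) (nat_lit 6) (nat_lit 122) (nat_lit 0) (nat_lit 135) (nat_lit 128) (nat_lit 127)) (PT.nd (nat_lit 78) (PT.lf (nat_lit 8816) (nat_lit 6) (nat_lit 116) (nat_lit 0) (nat_lit 136) (nat_lit 128) (nat_lit 126)) (PT.lf (nat_lit 8284) (nat_lit 6) (nat_lit 109) (nat_lit 0) (nat_lit 137) (nat_lit 128) (nat_lit 125)))) (PT.nd (nat_lit 78) (PT.lf (nat_lit 7676) (nat_lit 6) (nat_lit 101) (nat_lit 0) (nat_lit 138) (nat_lit 128) (nat_lit 124)) (PT.nd (nat_lit 39234) (PT.lf (nat_lit 6992) (nat_lit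 6) (nat_lit 92) (nat_lit 0) (nat_lit 139) (nat_lit 128) (nat_lit 123)) (PT.lf (nat_lit 6308) (nat_lit 6) (nat_lit 83) (nat_lit 5) (nat_lit 121) (nat_lit 129) (nat_lit 140)))))) (PT.nd (nat_lit 468) (PT.nd (nat_lit 234) (PT.nd (nat_lit 78) (PT.lf (nat_lit 7068) (nat_lit 6) (nat_lit 93) (nat_lit 5) (nat_lit 122) (nat_lit 129) (nat_lit 139)) (PT.nd (nat_lit 78) (PT.lf (nat_lit 7752) (nat_lit 6) (nat_lit 102) (nat_lit 5) (nat_lit 123) (nat_lit 129) (nat_lit 138)) (PT.lf (nat_lit 8360) (nat_lit 6) (nat_lit 110) (nat_lit 5) (nat_lit 124) (nat_lit 129) (nat_lit 137)))) (PT.nd (nat_lit 78) (PT.lf (nat_lit 8892) (nat_lit 6) (nat_lit 117) (nat_lit 5) (nat_lit 125) (nat_lit 129) (nat_lit 136)) (PT.nd (nat_lit 78) (PT.lf (nat_lit 9348) (nat_lit 6) (nat_lit 123) (nat_lit 5) (nat_lit 126) (nat_lit 129) (nat_lit 135)) (PT.lf (nat_lit 9728) (nat_lit 6) (nat_lit 128) (nat_lit 5) (nat_lit 127) (nat_lit 129)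 (nat_lit 134))))) (PT.nd (nat_lit 234) (PT.nd (nat_lit 78) (PT.lf (nat_lit 10032) (nat_lit 6) (nat_lit 132) (nat_lit 5) (nat_lit 128) (nat_lit 129) (nat_lit 133)) (PT.nd (nat_lit 78) (PT.lf (nat_lit 10260) (nat_lit 3) (nat_lit 135) (nat_lit 3) (nat_lit 129) (nat_lit 129) (nat_lit 132)) (PT.lf (nat_lit 10488) (nat_lit 6) (nat_lit 138) (nat_lit 3) (nat_lit 130) (nat_lit 129) (nat_lit 131)))) (PT.nd (nat_lit 78) (PT.lf (nat_lit 10488) (nat_lit 6) (nat_lit 138) (nat_lit 1) (nat_lit 131) (nat_lit 129) (nat_lit 130)) (PT.nd (nat_lit 78) (PT.lf (nat_lit 10260) (nat_lit 3) (nat_lit 135) (nat_lit 0) (nat_lit 132) (nat_lit 129) (nat_lit 129)) (PT.lf (nat_lit 10032) (nat_lit 6) (nat_lit 132) (nat_lit 0) (nat_lit 133) (nat_lit 129) (nat_lit 128))))))))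
noncomputable def pc6 : PT := (PT.nd (nat_lit 40794) (PT.nd (nat_lit 39858) (PT.nd (nat_lit 390) (PT.nd (nat_lit 156) (PT.nd (nat_lit 78) (PT.lf (nat_lit 9728) (nat_lit 6) (nat_lit 128) (nat_lit 0) (nat_lit 134) (nat_lit 129) (nat_lit 127)) (PT.lf (nat_lit 9348) (nat_lit 6) (nat_lit 123) (nat_lit 0) (nat_lit 135) (nat_lit 129) (nat_lit 126))) (PT.nd (nat_lit 78) (PT.lf (nat_lit 8892) (nat_lit 6) (nat_lit 117) (nat_lit 0) (nat_lit 136) (nat_lit 129) (nat_lit 125)) (PT.nd (nat_lit 78) (PT.lf (nat_lit 8360) (nat_lit 6) (nat_lit 110) (nat_lit 0) (nat_lit 137) (nat_lit 129) (nat_lit 124)) (PT.lf (nat_lit 7752) (nat_lit 6) (nat_lit 102) (nat_lit 0) (nat_lit 138) (nat_lit 129) (nat_lit 123))))) (PT.nd (nat_lit 39234) (PT.nd (nat_lit 78) (PT.lf (nat_lit 7068) (nat_lit 6) (nat_lit 93) (nat_lit 0) (nat_lit 139) (nat_lit 129) (nat_lit 122)) (PT.nd (nat_lit 39078) (PT.lf (nat_lit 6308) (nat_lit 6) (nat_lit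 83) (nat_lit 0) (nat_lit 140) (nat_lit 129) (nat_lit 121)) (PT.lf (nat_lit 6384) (nat_lit 6) (nat_lit 84) (nat_lit 5) (nat_lit 120) (nat_lit 130) (nat_lit 140)))) (PT.nd (nat_lit 78) (PT.lf (nat_lit 7144) (nat_lit 6) (nat_lit 94) (nat_lit 5) (nat_lit 121) (nat_lit 130) (nat_lit 139)) (PT.nd (nat_lit 78) (PT.lf (nat_lit 7828) (nat_lit 6) (nat_lit 103) (nat_lit 5) (nat_lit 122) (nat_lit 130) (nat_lit 138)) (PT.lf (nat_lit 8436) (nat_lit 6) (nat_lit 111) (nat_lit 5) (nat_lit 123) (nat_lit 130) (nat_lit 137)))))) (PT.nd (nat_lit 468) (PT.nd (nat_lit 234) (PT.nd (nat_lit 78) (PT.lf (nat_lit 8968) (nat_lit 6) (nat_lit 118) (nat_lit 5) (nat_lit 124) (nat_lit 130) (nat_lit 136)) (PT.nd (nat_lit 78) (PT.lf (nat_lit 9424) (nat_lit 6) (nat_lit 124) (nat_lit 5) (nat_lit 125) (nat_lit 130) (nat_lit 135)) (PT.lf (nat_lit 9804) (nat_lit 6) (nat_lit 129) (nat_lit 5) (nat_lit 126) (nat_lit 130) (nat_lit 134))))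 (PT.nd (nat_lit 78) (PT.lf (nat_lit 10108) (nat_lit 6) (nat_lit 133) (nat_lit 5) (nat_lit 127) (nat_lit 130) (nat_lit 133)) (PT.nd (nat_lit 78) (PT.lf (nat_lit 10336) (nat_lit 6) (nat_lit 136) (nat_lit 5) (nat_lit 128) (nat_lit 130) (nat_lit 132)) (PT.lf (nat_lit 10488) (nat_lit 6) (nat_lit 138) (nat_lit 5) (nat_lit 129) (nat_lit 130) (nat_lit 131))))) (PT.nd (nat_lit 234) (PT.nd (nat_lit 78) (PT.lf (nat_lit 10564) (nat_lit 1) (nat_lit 139) (nat_lit 0) (nat_lit 130) (nat_lit 130) (nat_lit 130)) (PT.nd (nat_lit 78) (PT.lf (nat_lit 10488) (nat_lit 6) (nat_lit 138) (nat_lit 0) (nat_lit 131) (nat_lit 130) (nat_lit 129)) (PT.lf (nat_lit 10336) (nat_lit 6) (nat_lit 136) (nat_lit 0) (nat_lit 132) (nat_lit 130) (nat_lit 128)))) (PT.nd (nat_lit 78) (PT.lf (nat_lit 10108) (nat_lit 6) (nat_lit 133) (nat_lit 0) (nat_lit 133) (nat_lit 130) (nat_lit 127)) (PT.nd (nat_lit 78) (PT.lf (nat_lit 9804) (nat_lit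 6) (nat_lit 129) (nat_lit 0) (nat_lit 134) (nat_lit 130) (nat_lit 126)) (PT.lf (nat_lit 9424) (nat_lit 6) (nat_lit 124) (nat_lit 0) (nat_lit 135) (nat_lit 130) (nat_lit 125))))))) (PT.nd (nat_lit 39858) (PT.nd (nat_lit 39390) (PT.nd (nat_lit 234) (PT.nd (nat_lit 78) (PT.lf (nat_lit 8968) (nat_lit 6) (nat_lit 118) (nat_lit 0) (nat_lit 136) (nat_lit 130) (nat_lit 124)) (PT.nd (nat_lit 78) (PT.lf (nat_lit 8436) (nat_lit 6) (nat_lit 111) (nat_lit 0) (nat_lit 137) (nat_lit 130) (nat_lit 123)) (PT.lf (nat_lit 7828) (nat_lit 6) (nat_lit 103) (nat_lit 0) (nat_lit 138) (nat_lit 130) (nat_lit 122)))) (PT.nd (nat_lit 78) (PT.lf (nat_lit 7144) (nat_lit 6) (nat_lit 94) (nat_lit 0) (nat_lit 139) (nat_lit 130) (nat_lit 121)) (PT.nd (nat_lit 39000) (PT.lf (nat_lit 6384) (nat_lit 6) (nat_lit 84) (nat_lit 0) (nat_lit 140) (nat_lit 130) (nat_lit 120)) (PT.lf (nat_lit 5852) (nat_lit 6) (nat_lit 77) (nat_lit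 5) (nat_lit 119) (nat_lit 131) (nat_lit 140))))) (PT.nd (nat_lit 234) (PT.nd (nat_lit 78) (PT.lf (nat_lit 6460) (nat_lit 6) (nat_lit 85) (nat_lit 5) (nat_lit 120) (nat_lit 131) (nat_lit 139)) (PT.nd (nat_lit 78) (PT.lf (nat_lit 7220) (nat_lit 6) (nat_lit 95) (nat_lit 5) (nat_lit 121) (nat_lit 131) (nat_lit 138)) (PT.lf (nat_lit 7904) (nat_lit 6) (nat_lit 104) (nat_lit 5) (nat_lit 122) (nat_lit 131) (nat_lit 137)))) (PT.nd (nat_lit 78) (PT.lf (nat_lit 8512) (nat_lit 6) (nat_lit 112) (nat_lit 5) (nat_lit 123) (nat_lit 131) (nat_lit 136)) (PT.nd (nat_lit 78) (PT.lf (nat_lit 9044) (nat_lit 6) (nat_lit 119) (nat_lit 5) (nat_lit 124) (nat_lit 131) (nat_lit 135)) (PT.lf (nat_lit 9500) (nat_lit 6) (nat_lit 125) (nat_lit 5) (nat_lit 125) (nat_lit 131) (nat_lit 134)))))) (PT.nd (nat_lit 468) (PT.nd (nat_lit 234) (PT.nd (nat_lit 78) (PT.lf (nat_lit 9880) (nat_lit 6) (nat_lit 130) (nat_lit 5) (nat_lit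 126) (nat_lit 131) (nat_lit 133)) (PT.nd (nat_lit 78) (PT.lf (nat_lit 10184) (nat_lit 6) (nat_lit 134) (nat_lit 5) (nat_lit 127) (nat_lit 131) (nat_lit 132)) (PT.lf (nat_lit 10412) (nat_lit 3) (nat_lit 137) (nat_lit 4) (nat_lit 128) (nat_lit 131) (nat_lit 131)))) (PT.nd (nat_lit 78) (PT.lf (nat_lit 10488) (nat_lit 6) (nat_lit 138) (nat_lit 4) (nat_lit 129) (nat_lit 131) (nat_lit 130)) (PT.nd (nat_lit 78) (PT.lf (nat_lit 10488) (nat_lit 6) (nat_lit 138) (nat_lit 2) (nat_lit 130) (nat_lit 131) (nat_lit 129)) (PT.lf (nat_lit 10412) (nat_lit 3) (nat_lit 137) (nat_lit 0) (nat_lit 131) (nat_lit 131) (nat_lit 128))))) (PT.nd (nat_lit 234) (PT.nd (nat_lit 78) (PT.lf (nat_lit 10184) (nat_lit 6) (nat_lit 134) (nat_lit 0) (nat_lit 132) (nat_lit 131) (nat_lit 127)) (PT.nd (nat_lit 78) (PT.lf (nat_lit 9880) (nat_lit 6) (nat_lit 130) (nat_lit 0) (nat_lit 133) (nat_lit 131) (nat_lit 126)) (PT.lf (nat_lit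 9500) (nat_lit 6) (nat_lit 125) (nat_lit 0) (nat_lit 134) (nat_lit 131) (nat_lit 125)))) (PT.nd (nat_lit 78) (PT.lf (nat_lit 9044) (nat_lit 6) (nat_lit 119) (nat_lit 0) (nat_lit 135) (nat_lit 131) (nat_lit 124)) (PT.nd (nat_lit 78) (PT.lf (nat_lit 8512) (nat_lit 6) (nat_lit 112) (nat_lit 0) (nat_lit 136) (nat_lit 131) (nat_lit 123)) (PT.lf (nat_lit 7904) (nat_lit 6) (nat_lit 104) (nat_lit 0) (nat_lit 137) (nat_lit 131) (nat_lit 122))))))))
noncomputable def pc7 : PT := (PT.nd (nat_lit 40638) (PT.nd (nat_lit 39702) (PT.nd (nat_lit 39234) (PT.nd (nat_lit 156) (PT.nd (nat_lit 78) (PT.lf (nat_lit 7220) (nat_lit 6) (nat_lit 95) (nat_lit 0) (nat_lit 138) (nat_lit 131) (nat_lit 121)) (PT.lf (nat_lit 6460) (nat_lit 6) (nat_lit 85) (nat_lit 0) (nat_lit 139) (nat_lit 131) (nat_lit 120))) (PT.nd (nat_lit 38922) (PT.lf (nat_lit 5852) (nat_lit 6) (nat_lit 77) (nat_lit 0) (nat_lit 140) (nat_lit 131) (nat_lit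 119)) (PT.nd (nat_lit 78) (PT.lf (nat_lit 5472) (nat_lit 6) (nat_lit 72) (nat_lit 5) (nat_lit 118) (nat_lit 132) (nat_lit 140)) (PT.lf (nat_lit 5928) (nat_lit 6) (nat_lit 78) (nat_lit 5) (nat_lit 119) (nat_lit 132) (nat_lit 139))))) (PT.nd (nat_lit 234) (PT.nd (nat_lit 78) (PT.lf (nat_lit 6536) (nat_lit 6) (nat_lit 86) (nat_lit 5) (nat_lit 120) (nat_lit 132) (nat_lit 138)) (PT.nd (nat_lit 78) (PT.lf (nat_lit 7296) (nat_lit 6) (nat_lit 96) (nat_lit 5) (nat_lit 121) (nat_lit 132) (nat_lit 137)) (PT.lf (nat_lit 7980) (nat_lit 6) (nat_lit 105) (nat_lit 5) (nat_lit 122) (nat_lit 132) (nat_lit 136)))) (PT.nd (nat_lit 78) (PT.lf (nat_lit 8588) (nat_lit 6) (nat_lit 113) (nat_lit 5) (nat_lit 123) (nat_lit 132) (nat_lit 135)) (PT.nd (nat_lit 78) (PT.lf (nat_lit 9120) (nat_lit 6) (nat_lit 120) (nat_lit 5) (nat_lit 124) (nat_lit 132) (nat_lit 134)) (PT.lf (nat_lit 9576) (nat_lit 6) (nat_lit 126) (nat_lit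 5) (nat_lit 125) (nat_lit 132) (nat_lit 133)))))) (PT.nd (nat_lit 468) (PT.nd (nat_lit 234) (PT.nd (nat_lit 78) (PT.lf (nat_lit 9956) (nat_lit 3) (nat_lit 131) (nat_lit 4) (nat_lit 126) (nat_lit 132) (nat_lit 132)) (PT.nd (nat_lit 78) (PT.lf (nat_lit 10184) (nat_lit 6) (nat_lit 134) (nat_lit 4) (nat_lit 127) (nat_lit 132) (nat_lit 131)) (PT.lf (nat_lit 10336) (nat_lit 6) (nat_lit 136) (nat_lit 4) (nat_lit 128) (nat_lit 132) (nat_lit 130)))) (PT.nd (nat_lit 78) (PT.lf (nat_lit 10260) (nat_lit 3) (nat_lit 135) (nat_lit 2) (nat_lit 129) (nat_lit 132) (nat_lit 129)) (PT.nd (nat_lit 78) (PT.lf (nat_lit 10336) (nat_lit 6) (nat_lit 136) (nat_lit 2) (nat_lit 130) (nat_lit 132) (nat_lit 128)) (PT.lf (nat_lit 10184) (nat_lit 6) (nat_lit 134) (nat_lit 2) (nat_lit 131) (nat_lit 132) (nat_lit 127))))) (PT.nd (nat_lit 234) (PT.nd (nat_lit 78) (PT.lf (nat_lit 9956) (nat_lit 3) (nat_lit 131) (nat_lit 0)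 (nat_lit 132) (nat_lit 132) (nat_lit 126)) (PT.nd (nat_lit 78) (PT.lf (nat_lit 9576) (nat_lit 6) (nat_lit 126) (nat_lit 0) (nat_lit 133) (nat_lit 132) (nat_lit 125)) (PT.lf (nat_lit 9120) (nat_lit 6) (nat_lit 120) (nat_lit 0) (nat_lit 134) (nat_lit 132) (nat_lit 124)))) (PT.nd (nat_lit 78) (PT.lf (nat_lit 8588) (nat_lit 6) (nat_lit 113) (nat_lit 0) (nat_lit 135) (nat_lit 132) (nat_lit 123)) (PT.nd (nat_lit 78) (PT.lf (nat_lit 7980) (nat_lit 6) (nat_lit 105) (nat_lit 0) (nat_lit 136) (nat_lit 132) (nat_lit 122)) (PT.lf (nat_lit 7296) (nat_lit 6) (nat_lit 96) (nat_lit 0) (nat_lit 137) (nat_lit 132) (nat_lit 121))))))) (PT.nd (nat_lit 39624) (PT.nd (nat_lit 39156) (PT.nd (nat_lit 38922) (PT.nd (nat_lit 78) (PT.lf (nat_lit 6536) (nat_lit 6) (nat_lit 86) (nat_lit 0) (nat_lit 138) (nat_lit 132) (nat_lit 120)) (PT.nd (nat_lit 78) (PT.lf (nat_lit 5928) (nat_lit 6) (nat_lit 78) (nat_lit 0) (nat_lit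 139) (nat_lit 132) (nat_lit 119)) (PT.lf (nat_lit 5472) (nat_lit 6) (nat_lit 72) (nat_lit 0) (nat_lit 140) (nat_lit 132) (nat_lit 118)))) (PT.nd (nat_lit 78) (PT.lf (nat_lit 4788) (nat_lit 6) (nat_lit 63) (nat_lit 5) (nat_lit 116) (nat_lit 133) (nat_lit 141)) (PT.nd (nat_lit 78) (PT.lf (nat_lit 5168) (nat_lit 6) (nat_lit 68) (nat_lit 5) (nat_lit 117) (nat_lit 133) (nat_lit 140)) (PT.lf (nat_lit 5548) (nat_lit 6) (nat_lit 73) (nat_lit 5) (nat_lit 118) (nat_lit 133) (nat_lit 139))))) (PT.nd (nat_lit 234) (PT.nd (nat_lit 78) (PT.lf (nat_lit 6004) (nat_lit 6) (nat_lit 79) (nat_lit 5) (nat_lit 119) (nat_lit 133) (nat_lit 138)) (PT.nd (nat_lit 78) (PT.lf (nat_lit 6612) (nat_lit 6) (nat_lit 87) (nat_lit 5) (nat_lit 120) (nat_lit 133) (nat_lit 137)) (PT.lf (nat_lit 7372) (nat_lit 6) (nat_lit 97) (nat_lit 5) (nat_lit 121) (nat_lit 133) (nat_lit 136)))) (PT.nd (nat_lit 78) (PT.lf (nat_lit 8056) (nat_lit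 6) (nat_lit 106) (nat_lit 5) (nat_lit 122) (nat_lit 133) (nat_lit 135)) (PT.nd (nat_lit 78) (PT.lf (nat_lit 8664) (nat_lit 6) (nat_lit 114) (nat_lit 5) (nat_lit 123) (nat_lit 133) (nat_lit 134)) (PT.lf (nat_lit 9196) (nat_lit 3) (nat_lit 121) (nat_lit 4) (nat_lit 124) (nat_lit 133) (nat_lit 133)))))) (PT.nd (nat_lit 468) (PT.nd (nat_lit 234) (PT.nd (nat_lit 78) (PT.lf (nat_lit 9576) (nat_lit 6) (nat_lit 126) (nat_lit 4) (nat_lit 125) (nat_lit 133) (nat_lit 132)) (PT.nd (nat_lit 78) (PT.lf (nat_lit 9880) (nat_lit 6) (nat_lit 130) (nat_lit 4) (nat_lit 126) (nat_lit 133) (nat_lit 131)) (PT.lf (nat_lit 10108) (nat_lit 6) (nat_lit 133) (nat_lit 4) (nat_lit 127) (nat_lit 133) (nat_lit 130)))) (PT.nd (nat_lit 78) (PT.lf (nat_lit 10032) (nat_lit 6) (nat_lit 132) (nat_lit 4) (nat_lit 128) (nat_lit 133) (nat_lit 129)) (PT.nd (nat_lit 78) (PT.lf (nat_lit 10032) (nat_lit 6) (nat_lit 132) (nat_lit 2)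 (nat_lit 129) (nat_lit 133) (nat_lit 128)) (PT.lf (nat_lit 10108) (nat_lit 6) (nat_lit 133) (nat_lit 2) (nat_lit 130) (nat_lit 133) (nat_lit 127))))) (PT.nd (nat_lit 234) (PT.nd (nat_lit 78) (PT.lf (nat_lit 9880) (nat_lit 6) (nat_lit 130) (nat_lit 2) (nat_lit 131) (nat_lit 133) (nat_lit 126)) (PT.nd (nat_lit 78) (PT.lf (nat_lit 9576) (nat_lit 6) (nat_lit 126) (nat_lit 2) (nat_lit 132) (nat_lit 133) (nat_lit 125)) (PT.lf (nat_lit 9196) (nat_lit 3) (nat_lit 121) (nat_lit 0) (nat_lit 133) (nat_lit 133) (nat_lit 124)))) (PT.nd (nat_lit 78) (PT.lf (nat_lit 8664) (nat_lit 6) (nat_lit 114) (nat_lit 0) (nat_lit 134) (nat_lit 133) (nat_lit 123)) (PT.nd (nat_lit 78) (PT.lf (nat_lit 8056) (nat_lit 6) (nat_lit 106) (nat_lit 0) (nat_lit 135) (nat_lit 133) (nat_lit 122)) (PT.lf (nat_lit 7372) (nat_lit 6) (nat_lit 97) (nat_lit 0) (nat_lit 136) (nat_lit 133) (nat_lit 121))))))))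
noncomputable def pc8 : PT := (PT.nd (nat_lit 40326) (PT.nd (nat_lit 39390) (PT.nd (nat_lit 38922) (PT.nd (nat_lit 156) (PT.nd (nat_lit 78) (PT.lf (nat_lit 6612) (nat_lit 6) (nat_lit 87) (nat_lit 0) (nat_lit 137) (nat_lit 133) (nat_lit 120)) (PT.lf (nat_lit 6004) (nat_lit 6) (nat_lit 79) (nat_lit 0) (nat_lit 138) (nat_lit 133) (nat_lit 119))) (PT.nd (nat_lit 78) (PT.lf (nat_lit 5548) (nat_lit 6) (nat_lit 73) (nat_lit 0) (nat_lit 139) (nat_lit 133) (nat_lit 118)) (PT.nd (nat_lit 78) (PT.lf (nat_lit 5168) (nat_lit 6) (nat_lit 68) (nat_lit 0) (nat_lit 140) (nat_lit 133) (nat_lit 117)) (PT.lf (nat_lit 4788) (nat_lit 6) (nat_lit 63) (nat_lit 0) (nat_lit 141) (nat_lit 133) (nat_lit 116))))) (PT.nd (nat_lit 234) (PT.nd (nat_lit 78) (PT.lf (nat_lit 4484) (nat_lit 6) (nat_lit 59) (nat_lit 5) (nat_lit 115) (nat_lit 134) (nat_lit 141)) (PT.nd (nat_lit 78) (PT.lf (nat_lit 4864) (nat_lit 6) (nat_lit 64)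 (nat_lit 5) (nat_lit 116) (nat_lit 134) (nat_lit 140)) (PT.lf (nat_lit 5244) (nat_lit 6) (nat_lit 69) (nat_lit 5) (nat_lit 117) (nat_lit 134) (nat_lit 139)))) (PT.nd (nat_lit 78) (PT.lf (nat_lit 5624) (nat_lit 6) (nat_lit 74) (nat_lit 5) (nat_lit 118) (nat_lit 134) (nat_lit 138)) (PT.nd (nat_lit 78) (PT.lf (nat_lit 6080) (nat_lit 6) (nat_lit 80) (nat_lit 5) (nat_lit 119) (nat_lit 134) (nat_lit 137)) (PT.lf (nat_lit 6688) (nat_lit 6) (nat_lit 88) (nat_lit 5) (nat_lit 120) (nat_lit 134) (nat_lit 136)))))) (PT.nd (nat_lit 468) (PT.nd (nat_lit 234) (PT.nd (nat_lit 78) (PT.lf (nat_lit 7448) (nat_lit 6) (nat_lit 98) (nat_lit 5) (nat_lit 121) (nat_lit 134) (nat_lit 135)) (PT.nd (nat_lit 78) (PT.lf (nat_lit 8132) (nat_lit 3) (nat_lit 107) (nat_lit 4) (nat_lit 122) (nat_lit 134) (nat_lit 134)) (PT.lf (nat_lit 8664) (nat_lit 6) (nat_lit 114) (nat_lit 4) (nat_lit 123) (nat_lit 134) (nat_lit 133))))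 (PT.nd (nat_lit 78) (PT.lf (nat_lit 9120) (nat_lit 6) (nat_lit 120) (nat_lit 4) (nat_lit 124) (nat_lit 134) (nat_lit 132)) (PT.nd (nat_lit 78) (PT.lf (nat_lit 9500) (nat_lit 6) (nat_lit 125) (nat_lit 4) (nat_lit 125) (nat_lit 134) (nat_lit 131)) (PT.lf (nat_lit 9804) (nat_lit 6) (nat_lit 129) (nat_lit 4) (nat_lit 126) (nat_lit 134) (nat_lit 130))))) (PT.nd (nat_lit 234) (PT.nd (nat_lit 78) (PT.lf (nat_lit 9728) (nat_lit 6) (nat_lit 128) (nat_lit 4) (nat_lit 127) (nat_lit 134) (nat_lit 129)) (PT.nd (nat_lit 78) (PT.lf (nat_lit 9652) (nat_lit 3) (nat_lit 127) (nat_lit 2) (nat_lit 128) (nat_lit 134) (nat_lit 128)) (PT.lf (nat_lit 9728) (nat_lit 6) (nat_lit 128) (nat_lit 2) (nat_lit 129) (nat_lit 134) (nat_lit 127)))) (PT.nd (nat_lit 78) (PT.lf (nat_lit 9804) (nat_lit 6) (nat_lit 129) (nat_lit 2) (nat_lit 130) (nat_lit 134) (nat_lit 126)) (PT.nd (nat_lit 78) (PT.lf (nat_lit 9500) (nat_lit 6)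 (nat_lit 125) (nat_lit 2) (nat_lit 131) (nat_lit 134) (nat_lit 125)) (PT.lf (nat_lit 9120) (nat_lit 6) (nat_lit 120) (nat_lit 2) (nat_lit 132) (nat_lit 134) (nat_lit 124))))))) (PT.nd (nat_lit 39312) (PT.nd (nat_lit 390) (PT.nd (nat_lit 156) (PT.nd (nat_lit 78) (PT.lf (nat_lit 8664) (nat_lit 6) (nat_lit 114) (nat_lit 2) (nat_lit 133) (nat_lit 134) (nat_lit 123)) (PT.lf (nat_lit 8132) (nat_lit 3) (nat_lit 107) (nat_lit 0) (nat_lit 134) (nat_lit 134) (nat_lit 122))) (PT.nd (nat_lit 78) (PT.lf (nat_lit 7448) (nat_lit 6) (nat_lit 98) (nat_lit 0) (nat_lit 135) (nat_lit 134) (nat_lit 121)) (PT.nd (nat_lit 78) (PT.lf (nat_lit 6688) (nat_lit 6) (nat_lit 88) (nat_lit 0) (nat_lit 136) (nat_lit 134) (nat_lit 120)) (PT.lf (nat_lit 6080) (nat_lit 6) (nat_lit 80) (nat_lit 0) (nat_lit 137) (nat_lit 134) (nat_lit 119))))) (PT.nd (nat_lit 234) (PT.nd (nat_lit 78) (PT.lf (nat_lit 5624) (nat_lit 6) (nat_lit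 74) (nat_lit 0) (nat_lit 138) (nat_lit 134) (nat_lit 118)) (PT.nd (nat_lit 78) (PT.lf (nat_lit 5244) (nat_lit 6) (nat_lit 69) (nat_lit 0) (nat_lit 139) (nat_lit 134) (nat_lit 117)) (PT.lf (nat_lit 4864) (nat_lit 6) (nat_lit 64) (nat_lit 0) (nat_lit 140) (nat_lit 134) (nat_lit 116)))) (PT.nd (nat_lit 38532) (PT.lf (nat_lit 4484) (nat_lit 6) (nat_lit 59) (nat_lit 0) (nat_lit 141) (nat_lit 134) (nat_lit 115)) (PT.nd (nat_lit 78) (PT.lf (nat_lit 4180) (nat_lit 6) (nat_lit 55) (nat_lit 5) (nat_lit 114) (nat_lit 135) (nat_lit 141)) (PT.lf (nat_lit 4560) (nat_lit 6) (nat_lit 60) (nat_lit 5) (nat_lit 115) (nat_lit 135) (nat_lit 140)))))) (PT.nd (nat_lit 468) (PT.nd (nat_lit 234) (PT.nd (nat_lit 78) (PT.lf (nat_lit 4940) (nat_lit 6) (nat_lit 65) (nat_lit 5) (nat_lit 116) (nat_lit 135) (nat_lit 139)) (PT.nd (nat_lit 78) (PT.lf (nat_lit 5320) (nat_lit 6) (nat_lit 70) (nat_lit 5) (nat_lit 117) (nat_lit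 135) (nat_lit 138)) (PT.lf (nat_lit 5700) (nat_lit 6) (nat_lit 75) (nat_lit 5) (nat_lit 118) (nat_lit 135) (nat_lit 137)))) (PT.nd (nat_lit 78) (PT.lf (nat_lit 6156) (nat_lit 6) (nat_lit 81) (nat_lit 5) (nat_lit 119) (nat_lit 135) (nat_lit 136)) (PT.nd (nat_lit 78) (PT.lf (nat_lit 6764) (nat_lit 3) (nat_lit 89) (nat_lit 4) (nat_lit 120) (nat_lit 135) (nat_lit 135)) (PT.lf (nat_lit 7448) (nat_lit 6) (nat_lit 98) (nat_lit 4) (nat_lit 121) (nat_lit 135) (nat_lit 134))))) (PT.nd (nat_lit 234) (PT.nd (nat_lit 78) (PT.lf (nat_lit 8056) (nat_lit 6) (nat_lit 106) (nat_lit 4) (nat_lit 122) (nat_lit 135) (nat_lit 133)) (PT.nd (nat_lit 78) (PT.lf (nat_lit 8588) (nat_lit 6) (nat_lit 113) (nat_lit 4) (nat_lit 123) (nat_lit 135) (nat_lit 132)) (PT.lf (nat_lit 9044) (nat_lit 6) (nat_lit 119) (nat_lit 4) (nat_lit 124) (nat_lit 135) (nat_lit 131)))) (PT.nd (nat_lit 78) (PT.lf (nat_lit 9424) (nat_lit 6) (nat_lit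 124) (nat_lit 4) (nat_lit 125) (nat_lit 135) (nat_lit 130)) (PT.nd (nat_lit 78) (PT.lf (nat_lit 9348) (nat_lit 6) (nat_lit 123) (nat_lit 4) (nat_lit 126) (nat_lit 135) (nat_lit 129)) (PT.lf (nat_lit 9272) (nat_lit 6) (nat_lit 122) (nat_lit 4) (nat_lit 127) (nat_lit 135) (nat_lit 128))))))))
noncomputable def pc9 : PT := (PT.nd (nat_lit 40092) (PT.nd (nat_lit 858) (PT.nd (nat_lit 390) (PT.nd (nat_lit 156) (PT.nd (nat_lit 78) (PT.lf (nat_lit 9272) (nat_lit 6) (nat_lit 122) (nat_lit 2) (nat_lit 128) (nat_lit 135) (nat_lit 127)) (PT.lf (nat_lit 9348) (nat_lit 6) (nat_lit 123) (nat_lit 2) (nat_lit 129) (nat_lit 135) (nat_lit 126))) (PT.nd (nat_lit 78) (PT.lf (nat_lit 9424) (nat_lit 6) (nat_lit 124) (nat_lit 2) (nat_lit 130) (nat_lit 135) (nat_lit 125)) (PT.nd (nat_lit 78) (PT.lf (nat_lit 9044) (nat_lit 6) (nat_lit 119) (nat_lit 2) (nat_lit 131) (nat_lit 135) (nat_lit 124)) (PT.lf (nat_lit 8588)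 (nat_lit 6) (nat_lit 113) (nat_lit 2) (nat_lit 132) (nat_lit 135) (nat_lit 123))))) (PT.nd (nat_lit 234) (PT.nd (nat_lit 78) (PT.lf (nat_lit 8056) (nat_lit 6) (nat_lit 106) (nat_lit 2) (nat_lit 133) (nat_lit 135) (nat_lit 122)) (PT.nd (nat_lit 78) (PT.lf (nat_lit 7448) (nat_lit 6) (nat_lit 98) (nat_lit 2) (nat_lit 134) (nat_lit 135) (nat_lit 121)) (PT.lf (nat_lit 6764) (nat_lit 3) (nat_lit 89) (nat_lit 0) (nat_lit 135) (nat_lit 135) (nat_lit 120)))) (PT.nd (nat_lit 78) (PT.lf (nat_lit 6156) (nat_lit 6) (nat_lit 81) (nat_lit 0) (nat_lit 136) (nat_lit 135) (nat_lit 119)) (PT.nd (nat_lit 78) (PT.lf (nat_lit 5700) (nat_lit 6) (nat_lit 75) (nat_lit 0) (nat_lit 137) (nat_lit 135) (nat_lit 118)) (PT.lf (nat_lit 5320) (nat_lit 6) (nat_lit 70) (nat_lit 0) (nat_lit 138) (nat_lit 135) (nat_lit 117)))))) (PT.nd (nat_lit 38766) (PT.nd (nat_lit 38532) (PT.nd (nat_lit 78) (PT.lf (nat_lit 4940) (nat_lit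 6) (nat_lit 65) (nat_lit 0) (nat_lit 139) (nat_lit 135) (nat_lit 116)) (PT.nd (nat_lit 78) (PT.lf (nat_lit 4560) (nat_lit 6) (nat_lit 60) (nat_lit 0) (nat_lit 140) (nat_lit 135) (nat_lit 115)) (PT.lf (nat_lit 4180) (nat_lit 6) (nat_lit 55) (nat_lit 0) (nat_lit 141) (nat_lit 135) (nat_lit 114)))) (PT.nd (nat_lit 78) (PT.lf (nat_lit 3648) (nat_lit 6) (nat_lit 48) (nat_lit 5) (nat_lit 112) (nat_lit 136) (nat_lit 142)) (PT.nd (nat_lit 78) (PT.lf (nat_lit 3952) (nat_lit 6) (nat_lit 52) (nat_lit 5) (nat_lit 113) (nat_lit 136) (nat_lit 141)) (PT.lf (nat_lit 4256) (nat_lit 6) (nat_lit 56) (nat_lit 5) (nat_lit 114) (nat_lit 136) (nat_lit 140))))) (PT.nd (nat_lit 234) (PT.nd (nat_lit 78) (PT.lf (nat_lit 4636) (nat_lit 6) (nat_lit 61) (nat_lit 5) (nat_lit 115) (nat_lit 136) (nat_lit 139)) (PT.nd (nat_lit 78) (PT.lf (nat_lit 5016) (nat_lit 6) (nat_lit 66) (nat_lit 5) (nat_lit 116) (nat_lit 136) (nat_lit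 138)) (PT.lf (nat_lit 5396) (nat_lit 6) (nat_lit 71) (nat_lit 5) (nat_lit 117) (nat_lit 136) (nat_lit 137)))) (PT.nd (nat_lit 78) (PT.lf (nat_lit 5776) (nat_lit 3) (nat_lit 76) (nat_lit 4) (nat_lit 118) (nat_lit 136) (nat_lit 136)) (PT.nd (nat_lit 78) (PT.lf (nat_lit 6156) (nat_lit 6) (nat_lit 81) (nat_lit 4) (nat_lit 119) (nat_lit 136) (nat_lit 135)) (PT.lf (nat_lit 6688) (nat_lit 6) (nat_lit 88) (nat_lit 4) (nat_lit 120) (nat_lit 136) (nat_lit 134))))))) (PT.nd (nat_lit 936) (PT.nd (nat_lit 468) (PT.nd (nat_lit 234) (PT.nd (nat_lit 78) (PT.lf (nat_lit 7372) (nat_lit 6) (nat_lit 97) (nat_lit 4) (nat_lit 121) (nat_lit 136) (nat_lit 133)) (PT.nd (nat_lit 78) (PT.lf (nat_lit 7980) (nat_lit 6) (nat_lit 105) (nat_lit 4) (nat_lit 122) (nat_lit 136) (nat_lit 132)) (PT.lf (nat_lit 8512) (nat_lit 6) (nat_lit 112) (nat_lit 4) (nat_lit 123) (nat_lit 136) (nat_lit 131)))) (PT.nd (nat_lit 78) (PT.lf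 (nat_lit 8968) (nat_lit 6) (nat_lit 118) (nat_lit 4) (nat_lit 124) (nat_lit 136) (nat_lit 130)) (PT.nd (nat_lit 78) (PT.lf (nat_lit 8892) (nat_lit 6) (nat_lit 117) (nat_lit 4) (nat_lit 125) (nat_lit 136) (nat_lit 129)) (PT.lf (nat_lit 8816) (nat_lit 6) (nat_lit 116) (nat_lit 4) (nat_lit 126) (nat_lit 136) (nat_lit 128))))) (PT.nd (nat_lit 234) (PT.nd (nat_lit 78) (PT.lf (nat_lit 8740) (nat_lit 3) (nat_lit 115) (nat_lit 2) (nat_lit 127) (nat_lit 136) (nat_lit 127)) (PT.nd (nat_lit 78) (PT.lf (nat_lit 8816) (nat_lit 6) (nat_lit 116) (nat_lit 2) (nat_lit 128) (nat_lit 136) (nat_lit 126)) (PT.lf (nat_lit 8892) (nat_lit 6) (nat_lit 117) (nat_lit 2) (nat_lit 129) (nat_lit 136) (nat_lit 125)))) (PT.nd (nat_lit 78) (PT.lf (nat_lit 8968) (nat_lit 6) (nat_lit 118) (nat_lit 2) (nat_lit 130) (nat_lit 136) (nat_lit 124)) (PT.nd (nat_lit 78) (PT.lf (nat_lit 8512) (nat_lit 6) (nat_lit 112) (nat_lit 2) (nat_lit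 131) (nat_lit 136) (nat_lit 123)) (PT.lf (nat_lit 7980) (nat_lit 6) (nat_lit 105) (nat_lit 2) (nat_lit 132) (nat_lit 136) (nat_lit 122)))))) (PT.nd (nat_lit 468) (PT.nd (nat_lit 234) (PT.nd (nat_lit 78) (PT.lf (nat_lit 7372) (nat_lit 6) (nat_lit 97) (nat_lit 2) (nat_lit 133) (nat_lit 136) (nat_lit 121)) (PT.nd (nat_lit 78) (PT.lf (nat_lit 6688) (nat_lit 6) (nat_lit 88) (nat_lit 2) (nat_lit 134) (nat_lit 136) (nat_lit 120)) (PT.lf (nat_lit 6156) (nat_lit 6) (nat_lit 81) (nat_lit 2) (nat_lit 135) (nat_lit 136) (nat_lit 119)))) (PT.nd (nat_lit 78) (PT.lf (nat_lit 5776) (nat_lit 3) (nat_lit 76) (nat_lit 0) (nat_lit 136) (nat_lit 136) (nat_lit 118)) (PT.nd (nat_lit 78) (PT.lf (nat_lit 5396) (nat_lit 6) (nat_lit 71) (nat_lit 0) (nat_lit 137) (nat_lit 136) (nat_lit 117)) (PT.lf (nat_lit 5016) (nat_lit 6) (nat_lit 66) (nat_lit 0) (nat_lit 138) (nat_lit 136) (nat_lit 116))))) (PT.nd (nat_lit 234)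 (PT.nd (nat_lit 78) (PT.lf (nat_lit 4636) (nat_lit 6) (nat_lit 61) (nat_lit 0) (nat_lit 139) (nat_lit 136) (nat_lit 115)) (PT.nd (nat_lit 78) (PT.lf (nat_lit 4256) (nat_lit 6) (nat_lit 56) (nat_lit 0) (nat_lit 140) (nat_lit 136) (nat_lit 114)) (PT.lf (nat_lit 3952) (nat_lit 6) (nat_lit 52) (nat_lit 0) (nat_lit 141) (nat_lit 136) (nat_lit 113)))) (PT.nd (nat_lit 38220) (PT.lf (nat_lit 3648) (nat_lit 6) (nat_lit 48) (nat_lit 0) (nat_lit 142) (nat_lit 136) (nat_lit 112)) (PT.nd (nat_lit 78) (PT.lf (nat_lit 3420) (nat_lit 6) (nat_lit 45) (nat_lit 5) (nat_lit 111) (nat_lit 137) (nat_lit 142)) (PT.lf (nat_lit 3724) (nat_lit 6) (nat_lit 49) (nat_lit 5) (nat_lit 112) (nat_lit 137) (nat_lit 141))))))))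
noncomputable def pc10 : PT := (PT.nd (nat_lit 1794) (PT.nd (nat_lit 858) (PT.nd (nat_lit 390) (PT.nd (nat_lit 156) (PT.nd (nat_lit 78) (PT.lf (nat_lit 4028) (nat_lit 6) (nat_lit 53) (nat_lit 5) (nat_lit 113) (nat_lit 137) (nat_lit 140)) (PT.lf (nat_lit 4332) (nat_lit 6) (nat_lit 57) (nat_lit 5) (nat_lit 114) (nat_lit 137) (nat_lit 139))) (PT.nd (nat_lit 78) (PT.lf (nat_lit 4712) (nat_lit 6) (nat_lit 62) (nat_lit 5) (nat_lit 115) (nat_lit 137) (nat_lit 138)) (PT.nd (nat_lit 78) (PT.lf (nat_lit 5092) (nat_lit 3) (nat_lit 67) (nat_lit 4) (nat_lit 116) (nat_lit 137) (nat_lit 137)) (PT.lf (nat_lit 5396) (nat_lit 6) (nat_lit 71) (nat_lit 4) (nat_lit 117) (nat_lit 137) (nat_lit 136))))) (PT.nd (nat_lit 234) (PT.nd (nat_lit 78) (PT.lf (nat_lit 5700) (nat_lit 6) (nat_lit 75) (nat_lit 4) (nat_lit 118) (nat_lit 137) (nat_lit 135)) (PT.nd (nat_lit 78) (PT.lf (nat_lit 6080) (nat_lit 6) (nat_lit 80) (nat_lit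 4) (nat_lit 119) (nat_lit 137) (nat_lit 134)) (PT.lf (nat_lit 6612) (nat_lit 6) (nat_lit 87) (nat_lit 4) (nat_lit 120) (nat_lit 137) (nat_lit 133)))) (PT.nd (nat_lit 78) (PT.lf (nat_lit 7296) (nat_lit 6) (nat_lit 96) (nat_lit 4) (nat_lit 121) (nat_lit 137) (nat_lit 132)) (PT.nd (nat_lit 78) (PT.lf (nat_lit 7904) (nat_lit 6) (nat_lit 104) (nat_lit 4) (nat_lit 122) (nat_lit 137) (nat_lit 131)) (PT.lf (nat_lit 8436) (nat_lit 6) (nat_lit 111) (nat_lit 4) (nat_lit 123) (nat_lit 137) (nat_lit 130)))))) (PT.nd (nat_lit 468) (PT.nd (nat_lit 234) (PT.nd (nat_lit 78) (PT.lf (nat_lit 8360) (nat_lit 6) (nat_lit 110) (nat_lit 4) (nat_lit 124) (nat_lit 137) (nat_lit 129)) (PT.nd (nat_lit 78) (PT.lf (nat_lit 8284) (nat_lit 6) (nat_lit 109) (nat_lit 4) (nat_lit 125) (nat_lit 137) (nat_lit 128)) (PT.lf (nat_lit 8208) (nat_lit 6) (nat_lit 108) (nat_lit 4) (nat_lit 126) (nat_lit 137) (nat_lit 127)))) (PT.nd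 (nat_lit 78) (PT.lf (nat_lit 8208) (nat_lit 6) (nat_lit 108) (nat_lit 2) (nat_lit 127) (nat_lit 137) (nat_lit 126)) (PT.nd (nat_lit 78) (PT.lf (nat_lit 8284) (nat_lit 6) (nat_lit 109) (nat_lit 2) (nat_lit 128) (nat_lit 137) (nat_lit 125)) (PT.lf (nat_lit 8360) (nat_lit 6) (nat_lit 110) (nat_lit 2) (nat_lit 129) (nat_lit 137) (nat_lit 124))))) (PT.nd (nat_lit 234) (PT.nd (nat_lit 78) (PT.lf (nat_lit 8436) (nat_lit 6) (nat_lit 111) (nat_lit 2) (nat_lit 130) (nat_lit 137) (nat_lit 123)) (PT.nd (nat_lit 78) (PT.lf (nat_lit 7904) (nat_lit 6) (nat_lit 104) (nat_lit 2) (nat_lit 131) (nat_lit 137) (nat_lit 122)) (PT.lf (nat_lit 7296) (nat_lit 6) (nat_lit 96) (nat_lit 2) (nat_lit 132) (nat_lit 137) (nat_lit 121)))) (PT.nd (nat_lit 78) (PT.lf (nat_lit 6612) (nat_lit 6) (nat_lit 87) (nat_lit 2) (nat_lit 133) (nat_lit 137) (nat_lit 120)) (PT.nd (nat_lit 78) (PT.lf (nat_lit 6080) (nat_lit 6) (nat_lit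 80) (nat_lit 2) (nat_lit 134) (nat_lit 137) (nat_lit 119)) (PT.lf (nat_lit 5700) (nat_lit 6) (nat_lit 75) (nat_lit 2) (nat_lit 135) (nat_lit 137) (nat_lit 118))))))) (PT.nd (nat_lit 38922) (PT.nd (nat_lit 468) (PT.nd (nat_lit 234) (PT.nd (nat_lit 78) (PT.lf (nat_lit 5396) (nat_lit 6) (nat_lit 71) (nat_lit 2) (nat_lit 136) (nat_lit 137) (nat_lit 117)) (PT.nd (nat_lit 78) (PT.lf (nat_lit 5092) (nat_lit 3) (nat_lit 67) (nat_lit 0) (nat_lit 137) (nat_lit 137) (nat_lit 116)) (PT.lf (nat_lit 4712) (nat_lit 6) (nat_lit 62) (nat_lit 0) (nat_lit 138) (nat_lit 137) (nat_lit 115)))) (PT.nd (nat_lit 78) (PT.lf (nat_lit 4332) (nat_lit 6) (nat_lit 57) (nat_lit 0) (nat_lit 139) (nat_lit 137) (nat_lit 114)) (PT.nd (nat_lit 78) (PT.lf (nat_lit 4028) (nat_lit 6) (nat_lit 53) (nat_lit 0) (nat_lit 140) (nat_lit 137) (nat_lit 113)) (PT.lf (nat_lit 3724) (nat_lit 6) (nat_lit 49) (nat_lit 0) (nat_lit 141) (nat_lit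 137) (nat_lit 112))))) (PT.nd (nat_lit 38220) (PT.nd (nat_lit 38064) (PT.lf (nat_lit 3420) (nat_lit 6) (nat_lit 45) (nat_lit 0) (nat_lit 142) (nat_lit 137) (nat_lit 111)) (PT.nd (nat_lit 78) (PT.lf (nat_lit 2964) (nat_lit 6) (nat_lit 39) (nat_lit 5) (nat_lit 109) (nat_lit 138) (nat_lit 143)) (PT.lf (nat_lit 3192) (nat_lit 6) (nat_lit 42) (nat_lit 5) (nat_lit 110) (nat_lit 138) (nat_lit 142)))) (PT.nd (nat_lit 78) (PT.lf (nat_lit 3496) (nat_lit 6) (nat_lit 46) (nat_lit 5) (nat_lit 111) (nat_lit 138) (nat_lit 141)) (PT.nd (nat_lit 78) (PT.lf (nat_lit 3800) (nat_lit 6) (nat_lit 50) (nat_lit 5) (nat_lit 112) (nat_lit 138) (nat_lit 140)) (PT.lf (nat_lit 4104) (nat_lit 6) (nat_lit 54) (nat_lit 5) (nat_lit 113) (nat_lit 138) (nat_lit 139)))))) (PT.nd (nat_lit 468) (PT.nd (nat_lit 234) (PT.nd (nat_lit 78) (PT.lf (nat_lit 4408) (nat_lit 3) (nat_lit 58) (nat_lit 4) (nat_lit 114) (nat_lit 138) (nat_lit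 138)) (PT.nd (nat_lit 78) (PT.lf (nat_lit 4712) (nat_lit 6) (nat_lit 62) (nat_lit 4) (nat_lit 115) (nat_lit 138) (nat_lit 137)) (PT.lf (nat_lit 5016) (nat_lit 6) (nat_lit 66) (nat_lit 4) (nat_lit 116) (nat_lit 138) (nat_lit 136)))) (PT.nd (nat_lit 78) (PT.lf (nat_lit 5320) (nat_lit 6) (nat_lit 70) (nat_lit 4) (nat_lit 117) (nat_lit 138) (nat_lit 135)) (PT.nd (nat_lit 78) (PT.lf (nat_lit 5624) (nat_lit 6) (nat_lit 74) (nat_lit 4) (nat_lit 118) (nat_lit 138) (nat_lit 134)) (PT.lf (nat_lit 6004) (nat_lit 6) (nat_lit 79) (nat_lit 4) (nat_lit 119) (nat_lit 138) (nat_lit 133))))) (PT.nd (nat_lit 234) (PT.nd (nat_lit 78) (PT.lf (nat_lit 6536) (nat_lit 6) (nat_lit 86) (nat_lit 4) (nat_lit 120) (nat_lit 138) (nat_lit 132)) (PT.nd (nat_lit 78) (PT.lf (nat_lit 7220) (nat_lit 6) (nat_lit 95) (nat_lit 4) (nat_lit 121) (nat_lit 138) (nat_lit 131)) (PT.lf (nat_lit 7828) (nat_lit 6) (nat_lit 103) (nat_lit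 4) (nat_lit 122) (nat_lit 138) (nat_lit 130)))) (PT.nd (nat_lit 78) (PT.lf (nat_lit 7752) (nat_lit 6) (nat_lit 102) (nat_lit 4) (nat_lit 123) (nat_lit 138) (nat_lit 129)) (PT.nd (nat_lit 78) (PT.lf (nat_lit 7676) (nat_lit 6) (nat_lit 101) (nat_lit 4) (nat_lit 124) (nat_lit 138) (nat_lit 128)) (PT.lf (nat_lit 7600) (nat_lit 6) (nat_lit 100) (nat_lit 4) (nat_lit 125) (nat_lit 138) (nat_lit 127))))))))
noncomputable def pc11 : PT := (PT.nd (nat_lit 39624) (PT.nd (nat_lit 858) (PT.nd (nat_lit 390) (PT.nd (nat_lit 156) (PT.nd (nat_lit 78) (PT.lf (nat_lit 7524) (nat_lit 3) (nat_lit 99) (nat_lit 2) (nat_lit 126) (nat_lit 138) (nat_lit 126)) (PT.lf (nat_lit 7600) (nat_lit 6) (nat_lit 100) (nat_lit 2) (nat_lit 127) (nat_lit 138) (nat_lit 125))) (PT.nd (nat_lit 78) (PT.lf (nat_lit 7676) (nat_lit 6) (nat_lit 101) (nat_lit 2) (nat_lit 128) (nat_lit 138) (nat_lit 124)) (PT.nd (nat_lit 78) (PT.lf (nat_lit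 7752) (nat_lit 6) (nat_lit 102) (nat_lit 2) (nat_lit 129) (nat_lit 138) (nat_lit 123)) (PT.lf (nat_lit 7828) (nat_lit 6) (nat_lit 103) (nat_lit 2) (nat_lit 130) (nat_lit 138) (nat_lit 122))))) (PT.nd (nat_lit 234) (PT.nd (nat_lit 78) (PT.lf (nat_lit 7220) (nat_lit 6) (nat_lit 95) (nat_lit 2) (nat_lit 131) (nat_lit 138) (nat_lit 121)) (PT.nd (nat_lit 78) (PT.lf (nat_lit 6536) (nat_lit 6) (nat_lit 86) (nat_lit 2) (nat_lit 132) (nat_lit 138) (nat_lit 120)) (PT.lf (nat_lit 6004) (nat_lit 6) (nat_lit 79) (nat_lit 2) (nat_lit 133) (nat_lit 138) (nat_lit 119)))) (PT.nd (nat_lit 78) (PT.lf (nat_lit 5624) (nat_lit 6) (nat_lit 74) (nat_lit 2) (nat_lit 134) (nat_lit 138) (nat_lit 118)) (PT.nd (nat_lit 78) (PT.lf (nat_lit 5320) (nat_lit 6) (nat_lit 70) (nat_lit 2) (nat_lit 135) (nat_lit 138) (nat_lit 117)) (PT.lf (nat_lit 5016) (nat_lit 6) (nat_lit 66) (nat_lit 2) (nat_lit 136) (nat_lit 138) (nat_lit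 116)))))) (PT.nd (nat_lit 468) (PT.nd (nat_lit 234) (PT.nd (nat_lit 78) (PT.lf (nat_lit 4712) (nat_lit 6) (nat_lit 62) (nat_lit 2) (nat_lit 137) (nat_lit 138) (nat_lit 115)) (PT.nd (nat_lit 78) (PT.lf (nat_lit 4408) (nat_lit 3) (nat_lit 58) (nat_lit 0) (nat_lit 138) (nat_lit 138) (nat_lit 114)) (PT.lf (nat_lit 4104) (nat_lit 6) (nat_lit 54) (nat_lit 0) (nat_lit 139) (nat_lit 138) (nat_lit 113)))) (PT.nd (nat_lit 78) (PT.lf (nat_lit 3800) (nat_lit 6) (nat_lit 50) (nat_lit 0) (nat_lit 140) (nat_lit 138) (nat_lit 112)) (PT.nd (nat_lit 78) (PT.lf (nat_lit 3496) (nat_lit 6) (nat_lit 46) (nat_lit 0) (nat_lit 141) (nat_lit 138) (nat_lit 111)) (PT.lf (nat_lit 3192) (nat_lit 6) (nat_lit 42) (nat_lit 0) (nat_lit 142) (nat_lit 138) (nat_lit 110))))) (PT.nd (nat_lit 38064) (PT.nd (nat_lit 37908) (PT.lf (nat_lit 2964) (nat_lit 6) (nat_lit 39) (nat_lit 0) (nat_lit 143) (nat_lit 138) (nat_lit 109)) (PT.nd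 (nat_lit 78) (PT.lf (nat_lit 2736) (nat_lit 6) (nat_lit 36) (nat_lit 5) (nat_lit 108) (nat_lit 139) (nat_lit 143)) (PT.lf (nat_lit 3040) (nat_lit 6) (nat_lit 40) (nat_lit 5) (nat_lit 109) (nat_lit 139) (nat_lit 142)))) (PT.nd (nat_lit 78) (PT.lf (nat_lit 3268) (nat_lit 6) (nat_lit 43) (nat_lit 5) (nat_lit 110) (nat_lit 139) (nat_lit 141)) (PT.nd (nat_lit 78) (PT.lf (nat_lit 3572) (nat_lit 6) (nat_lit 47) (nat_lit 5) (nat_lit 111) (nat_lit 139) (nat_lit 140)) (PT.lf (nat_lit 3876) (nat_lit 3) (nat_lit 51) (nat_lit 4) (nat_lit 112) (nat_lit 139) (nat_lit 139))))))) (PT.nd (nat_lit 936) (PT.nd (nat_lit 468) (PT.nd (nat_lit 234) (PT.nd (nat_lit 78) (PT.lf (nat_lit 4104) (nat_lit 6) (nat_lit 54) (nat_lit 4) (nat_lit 113) (nat_lit 139) (nat_lit 138)) (PT.nd (nat_lit 78) (PT.lf (nat_lit 4332) (nat_lit 6) (nat_lit 57) (nat_lit 4) (nat_lit 114) (nat_lit 139) (nat_lit 137)) (PT.lf (nat_lit 4636) (nat_lit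 6) (nat_lit 61) (nat_lit 4) (nat_lit 115) (nat_lit 139) (nat_lit 136)))) (PT.nd (nat_lit 78) (PT.lf (nat_lit 4940) (nat_lit 6) (nat_lit 65) (nat_lit 4) (nat_lit 116) (nat_lit 139) (nat_lit 135)) (PT.nd (nat_lit 78) (PT.lf (nat_lit 5244) (nat_lit 6) (nat_lit 69) (nat_lit 4) (nat_lit 117) (nat_lit 139) (nat_lit 134)) (PT.lf (nat_lit 5548) (nat_lit 6) (nat_lit 73) (nat_lit 4) (nat_lit 118) (nat_lit 139) (nat_lit 133))))) (PT.nd (nat_lit 234) (PT.nd (nat_lit 78) (PT.lf (nat_lit 5928) (nat_lit 6) (nat_lit 78) (nat_lit 4) (nat_lit 119) (nat_lit 139) (nat_lit 132)) (PT.nd (nat_lit 78) (PT.lf (nat_lit 6460) (nat_lit 6) (nat_lit 85) (nat_lit 4) (nat_lit 120) (nat_lit 139) (nat_lit 131)) (PT.lf (nat_lit 7144) (nat_lit 6) (nat_lit 94) (nat_lit 4) (nat_lit 121) (nat_lit 139) (nat_lit 130)))) (PT.nd (nat_lit 78) (PT.lf (nat_lit 7068) (nat_lit 6) (nat_lit 93) (nat_lit 4) (nat_lit 122) (nat_lit 139) (nat_lit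 129)) (PT.nd (nat_lit 78) (PT.lf (nat_lit 6992) (nat_lit 6) (nat_lit 92) (nat_lit 4) (nat_lit 123) (nat_lit 139) (nat_lit 128)) (PT.lf (nat_lit 6916) (nat_lit 6) (nat_lit 91) (nat_lit 4) (nat_lit 124) (nat_lit 139) (nat_lit 127)))))) (PT.nd (nat_lit 468) (PT.nd (nat_lit 234) (PT.nd (nat_lit 78) (PT.lf (nat_lit 6840) (nat_lit 6) (nat_lit 90) (nat_lit 4) (nat_lit 125) (nat_lit 139) (nat_lit 126)) (PT.nd (nat_lit 78) (PT.lf (nat_lit 6840) (nat_lit 6) (nat_lit 90) (nat_lit 2) (nat_lit 126) (nat_lit 139) (nat_lit 125)) (PT.lf (nat_lit 6916) (nat_lit 6) (nat_lit 91) (nat_lit 2) (nat_lit 127) (nat_lit 139) (nat_lit 124)))) (PT.nd (nat_lit 78) (PT.lf (nat_lit 6992) (nat_lit 6) (nat_lit 92) (nat_lit 2) (nat_lit 128) (nat_lit 139) (nat_lit 123)) (PT.nd (nat_lit 78) (PT.lf (nat_lit 7068) (nat_lit 6) (nat_lit 93) (nat_lit 2) (nat_lit 129) (nat_lit 139) (nat_lit 122)) (PT.lf (nat_lit 7144) (nat_lit 6)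 (nat_lit 94) (nat_lit 2) (nat_lit 130) (nat_lit 139) (nat_lit 121))))) (PT.nd (nat_lit 234) (PT.nd (nat_lit 78) (PT.lf (nat_lit 6460) (nat_lit 6) (nat_lit 85) (nat_lit 2) (nat_lit 131) (nat_lit 139) (nat_lit 120)) (PT.nd (nat_lit 78) (PT.lf (nat_lit 5928) (nat_lit 6) (nat_lit 78) (nat_lit 2) (nat_lit 132) (nat_lit 139) (nat_lit 119)) (PT.lf (nat_lit 5548) (nat_lit 6) (nat_lit 73) (nat_lit 2) (nat_lit 133) (nat_lit 139) (nat_lit 118)))) (PT.nd (nat_lit 78) (PT.lf (nat_lit 5244) (nat_lit 6) (nat_lit 69) (nat_lit 2) (nat_lit 134) (nat_lit 139) (nat_lit 117)) (PT.nd (nat_lit 78) (PT.lf (nat_lit 4940) (nat_lit 6) (nat_lit 65) (nat_lit 2) (nat_lit 135) (nat_lit 139) (nat_lit 116)) (PT.lf (nat_lit 4636) (nat_lit 6) (nat_lit 61) (nat_lit 2) (nat_lit 136) (nat_lit 139) (nat_lit 115))))))))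
noncomputable def pc12 : PT := (PT.nd (nat_lit 40014) (PT.nd (nat_lit 38532) (PT.nd (nat_lit 390) (PT.nd (nat_lit 156) (PT.nd (nat_lit 78) (PT.lf (nat_lit 4332) (nat_lit 6) (nat_lit 57) (nat_lit 2) (nat_lit 137) (nat_lit 139) (nat_lit 114)) (PT.lf (nat_lit 4104) (nat_lit 6) (nat_lit 54) (nat_lit 2) (nat_lit 138) (nat_lit 139) (nat_lit 113))) (PT.nd (nat_lit 78) (PT.lf (nat_lit 3876) (nat_lit 3) (nat_lit 51) (nat_lit 0) (nat_lit 139) (nat_lit 139) (nat_lit 112)) (PT.nd (nat_lit 78) (PT.lf (nat_lit 3572) (nat_lit 6) (nat_lit 47) (nat_lit 0) (nat_lit 140) (nat_lit 139) (nat_lit 111)) (PT.lf (nat_lit 3268) (nat_lit 6) (nat_lit 43) (nat_lit 0) (nat_lit 141) (nat_lit 139) (nat_lit 110))))) (PT.nd (nat_lit 37908) (PT.nd (nat_lit 78) (PT.lf (nat_lit 3040) (nat_lit 6) (nat_lit 40) (nat_lit 0) (nat_lit 142) (nat_lit 139) (nat_lit 109)) (PT.nd (nat_lit 37752) (PT.lf (nat_lit 2736) (nat_lit 6) (nat_lit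 36) (nat_lit 0) (nat_lit 143) (nat_lit 139) (nat_lit 108)) (PT.lf (nat_lit 2356) (nat_lit 6) (nat_lit 31) (nat_lit 5) (nat_lit 106) (nat_lit 140) (nat_lit 144)))) (PT.nd (nat_lit 78) (PT.lf (nat_lit 2584) (nat_lit 6) (nat_lit 34) (nat_lit 5) (nat_lit 107) (nat_lit 140) (nat_lit 143)) (PT.nd (nat_lit 78) (PT.lf (nat_lit 2812) (nat_lit 6) (nat_lit 37) (nat_lit 5) (nat_lit 108) (nat_lit 140) (nat_lit 142)) (PT.lf (nat_lit 3116) (nat_lit 6) (nat_lit 41) (nat_lit 5) (nat_lit 109) (nat_lit 140) (nat_lit 141)))))) (PT.nd (nat_lit 468) (PT.nd (nat_lit 234) (PT.nd (nat_lit 78) (PT.lf (nat_lit 3344) (nat_lit 3) (nat_lit 44) (nat_lit 4) (nat_lit 110) (nat_lit 140) (nat_lit 140)) (PT.nd (nat_lit 78) (PT.lf (nat_lit 3572) (nat_lit 6) (nat_lit 47) (nat_lit 4) (nat_lit 111) (nat_lit 140) (nat_lit 139)) (PT.lf (nat_lit 3800) (nat_lit 6) (nat_lit 50) (nat_lit 4) (nat_lit 112) (nat_lit 140) (nat_lit 138))))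 (PT.nd (nat_lit 78) (PT.lf (nat_lit 4028) (nat_lit 6) (nat_lit 53) (nat_lit 4) (nat_lit 113) (nat_lit 140) (nat_lit 137)) (PT.nd (nat_lit 78) (PT.lf (nat_lit 4256) (nat_lit 6) (nat_lit 56) (nat_lit 4) (nat_lit 114) (nat_lit 140) (nat_lit 136)) (PT.lf (nat_lit 4560) (nat_lit 6) (nat_lit 60) (nat_lit 4) (nat_lit 115) (nat_lit 140) (nat_lit 135))))) (PT.nd (nat_lit 234) (PT.nd (nat_lit 78) (PT.lf (nat_lit 4864) (nat_lit 6) (nat_lit 64) (nat_lit 4) (nat_lit 116) (nat_lit 140) (nat_lit 134)) (PT.nd (nat_lit 78) (PT.lf (nat_lit 5168) (nat_lit 6) (nat_lit 68) (nat_lit 4) (nat_lit 117) (nat_lit 140) (nat_lit 133)) (PT.lf (nat_lit 5472) (nat_lit 6) (nat_lit 72) (nat_lit 4) (nat_lit 118) (nat_lit 140) (nat_lit 132)))) (PT.nd (nat_lit 78) (PT.lf (nat_lit 5852) (nat_lit 6) (nat_lit 77) (nat_lit 4) (nat_lit 119) (nat_lit 140) (nat_lit 131)) (PT.nd (nat_lit 78) (PT.lf (nat_lit 6384) (nat_lit 6) (nat_lit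 84) (nat_lit 4) (nat_lit 120) (nat_lit 140) (nat_lit 130)) (PT.lf (nat_lit 6308) (nat_lit 6) (nat_lit 83) (nat_lit 4) (nat_lit 121) (nat_lit 140) (nat_lit 129))))))) (PT.nd (nat_lit 858) (PT.nd (nat_lit 390) (PT.nd (nat_lit 156) (PT.nd (nat_lit 78) (PT.lf (nat_lit 6308) (nat_lit 6) (nat_lit 83) (nat_lit 2) (nat_lit 129) (nat_lit 140) (nat_lit 121)) (PT.lf (nat_lit 6384) (nat_lit 6) (nat_lit 84) (nat_lit 2) (nat_lit 130) (nat_lit 140) (nat_lit 120))) (PT.nd (nat_lit 78) (PT.lf (nat_lit 5852) (nat_lit 6) (nat_lit 77) (nat_lit 2) (nat_lit 131) (nat_lit 140) (nat_lit 119)) (PT.nd (nat_lit 78) (PT.lf (nat_lit 5472) (nat_lit 6) (nat_lit 72) (nat_lit 2) (nat_lit 132) (nat_lit 140) (nat_lit 118)) (PT.lf (nat_lit 5168) (nat_lit 6) (nat_lit 68) (nat_lit 2) (nat_lit 133) (nat_lit 140) (nat_lit 117))))) (PT.nd (nat_lit 234) (PT.nd (nat_lit 78) (PT.lf (nat_lit 4864) (nat_lit 6) (nat_lit 64) (nat_lit 2)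 (nat_lit 134) (nat_lit 140) (nat_lit 116)) (PT.nd (nat_lit 78) (PT.lf (nat_lit 4560) (nat_lit 6) (nat_lit 60) (nat_lit 2) (nat_lit 135) (nat_lit 140) (nat_lit 115)) (PT.lf (nat_lit 4256) (nat_lit 6) (nat_lit 56) (nat_lit 2) (nat_lit 136) (nat_lit 140) (nat_lit 114)))) (PT.nd (nat_lit 78) (PT.lf (nat_lit 4028) (nat_lit 6) (nat_lit 53) (nat_lit 2) (nat_lit 137) (nat_lit 140) (nat_lit 113)) (PT.nd (nat_lit 78) (PT.lf (nat_lit 3800) (nat_lit 6) (nat_lit 50) (nat_lit 2) (nat_lit 138) (nat_lit 140) (nat_lit 112)) (PT.lf (nat_lit 3572) (nat_lit 6) (nat_lit 47) (nat_lit 2) (nat_lit 139) (nat_lit 140) (nat_lit 111)))))) (PT.nd (nat_lit 37986) (PT.nd (nat_lit 234) (PT.nd (nat_lit 78) (PT.lf (nat_lit 3344) (nat_lit 3) (nat_lit 44) (nat_lit 0) (nat_lit 140) (nat_lit 140) (nat_lit 110)) (PT.nd (nat_lit 78) (PT.lf (nat_lit 3116) (nat_lit 6) (nat_lit 41) (nat_lit 0) (nat_lit 141) (nat_lit 140) (nat_lit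 109)) (PT.lf (nat_lit 2812) (nat_lit 6) (nat_lit 37) (nat_lit 0) (nat_lit 142) (nat_lit 140) (nat_lit 108)))) (PT.nd (nat_lit 78) (PT.lf (nat_lit 2584) (nat_lit 6) (nat_lit 34) (nat_lit 0) (nat_lit 143) (nat_lit 140) (nat_lit 107)) (PT.nd (nat_lit 37596) (PT.lf (nat_lit 2356) (nat_lit 6) (nat_lit 31) (nat_lit 0) (nat_lit 144) (nat_lit 140) (nat_lit 106)) (PT.lf (nat_lit 2204) (nat_lit 6) (nat_lit 29) (nat_lit 5) (nat_lit 105) (nat_lit 141) (nat_lit 144))))) (PT.nd (nat_lit 234) (PT.nd (nat_lit 78) (PT.lf (nat_lit 2432) (nat_lit 6) (nat_lit 32) (nat_lit 5) (nat_lit 106) (nat_lit 141) (nat_lit 143)) (PT.nd (nat_lit 78) (PT.lf (nat_lit 2660) (nat_lit 6) (nat_lit 35) (nat_lit 5) (nat_lit 107) (nat_lit 141) (nat_lit 142)) (PT.lf (nat_lit 2888) (nat_lit 3) (nat_lit 38) (nat_lit 4) (nat_lit 108) (nat_lit 141) (nat_lit 141)))) (PT.nd (nat_lit 78) (PT.lf (nat_lit 3116) (nat_lit 6) (nat_lit 41) (nat_lit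 4) (nat_lit 109) (nat_lit 141) (nat_lit 140)) (PT.nd (nat_lit 78) (PT.lf (nat_lit 3268) (nat_lit 6) (nat_lit 43) (nat_lit 4) (nat_lit 110) (nat_lit 141) (nat_lit 139)) (PT.lf (nat_lit 3496) (nat_lit 6) (nat_lit 46) (nat_lit 4) (nat_lit 111) (nat_lit 141) (nat_lit 138))))))))
noncomputable def pc13 : PT := (PT.nd (nat_lit 40404) (PT.nd (nat_lit 2106) (PT.nd (nat_lit 1638) (PT.nd (nat_lit 156) (PT.nd (nat_lit 78) (PT.lf (nat_lit 3724) (nat_lit 6) (nat_lit 49) (nat_lit 4) (nat_lit 112) (nat_lit 141) (nat_lit 137)) (PT.lf (nat_lit 3952) (nat_lit 6) (nat_lit 52) (nat_lit 4) (nat_lit 113) (nat_lit 141) (nat_lit 136))) (PT.nd (nat_lit 78) (PT.lf (nat_lit 4180) (nat_lit 6) (nat_lit 55) (nat_lit 4) (nat_lit 114) (nat_lit 141) (nat_lit 135)) (PT.nd (nat_lit 78) (PT.lf (nat_lit 4484) (nat_lit 6) (nat_lit 59) (nat_lit 4) (nat_lit 115) (nat_lit 141) (nat_lit 134)) (PT.lf (nat_lit 4788) (nat_lit 6) (nat_lit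 63) (nat_lit 4) (nat_lit 116) (nat_lit 141) (nat_lit 133))))) (PT.nd (nat_lit 234) (PT.nd (nat_lit 78) (PT.lf (nat_lit 4788) (nat_lit 6) (nat_lit 63) (nat_lit 2) (nat_lit 133) (nat_lit 141) (nat_lit 116)) (PT.nd (nat_lit 78) (PT.lf (nat_lit 4484) (nat_lit 6) (nat_lit 59) (nat_lit 2) (nat_lit 134) (nat_lit 141) (nat_lit 115)) (PT.lf (nat_lit 4180) (nat_lit 6) (nat_lit 55) (nat_lit 2) (nat_lit 135) (nat_lit 141) (nat_lit 114)))) (PT.nd (nat_lit 78) (PT.lf (nat_lit 3952) (nat_lit 6) (nat_lit 52) (nat_lit 2) (nat_lit 136) (nat_lit 141) (nat_lit 113)) (PT.nd (nat_lit 78) (PT.lf (nat_lit 3724) (nat_lit 6) (nat_lit 49) (nat_lit 2) (nat_lit 137) (nat_lit 141) (nat_lit 112)) (PT.lf (nat_lit 3496) (nat_lit 6) (nat_lit 46) (nat_lit 2) (nat_lit 138) (nat_lit 141) (nat_lit 111)))))) (PT.nd (nat_lit 37830) (PT.nd (nat_lit 234) (PT.nd (nat_lit 78) (PT.lf (nat_lit 3268) (nat_lit 6) (nat_lit 43) (nat_lit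 2) (nat_lit 139) (nat_lit 141) (nat_lit 110)) (PT.nd (nat_lit 78) (PT.lf (nat_lit 3116) (nat_lit 6) (nat_lit 41) (nat_lit 2) (nat_lit 140) (nat_lit 141) (nat_lit 109)) (PT.lf (nat_lit 2888) (nat_lit 3) (nat_lit 38) (nat_lit 0) (nat_lit 141) (nat_lit 141) (nat_lit 108)))) (PT.nd (nat_lit 78) (PT.lf (nat_lit 2660) (nat_lit 6) (nat_lit 35) (nat_lit 0) (nat_lit 142) (nat_lit 141) (nat_lit 107)) (PT.nd (nat_lit 78) (PT.lf (nat_lit 2432) (nat_lit 6) (nat_lit 32) (nat_lit 0) (nat_lit 143) (nat_lit 141) (nat_lit 106)) (PT.lf (nat_lit 2204) (nat_lit 6) (nat_lit 29) (nat_lit 0) (nat_lit 144) (nat_lit 141) (nat_lit 105))))) (PT.nd (nat_lit 234) (PT.nd (nat_lit 78) (PT.lf (nat_lit 1900) (nat_lit 6) (nat_lit 25) (nat_lit 5) (nat_lit 103) (nat_lit 142) (nat_lit 145)) (PT.nd (nat_lit 78) (PT.lf (nat_lit 2052) (nat_lit 6) (nat_lit 27) (nat_lit 5) (nat_lit 104) (nat_lit 142) (nat_lit 144)) (PT.lf (nat_lit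 2280) (nat_lit 6) (nat_lit 30) (nat_lit 5) (nat_lit 105) (nat_lit 142) (nat_lit 143)))) (PT.nd (nat_lit 78) (PT.lf (nat_lit 2508) (nat_lit 3) (nat_lit 33) (nat_lit 4) (nat_lit 106) (nat_lit 142) (nat_lit 142)) (PT.nd (nat_lit 78) (PT.lf (nat_lit 2660) (nat_lit 6) (nat_lit 35) (nat_lit 4) (nat_lit 107) (nat_lit 142) (nat_lit 141)) (PT.lf (nat_lit 2812) (nat_lit 6) (nat_lit 37) (nat_lit 4) (nat_lit 108) (nat_lit 142) (nat_lit 140))))))) (PT.nd (nat_lit 2730) (PT.nd (nat_lit 2262) (PT.nd (nat_lit 234) (PT.nd (nat_lit 78) (PT.lf (nat_lit 3040) (nat_lit 6) (nat_lit 40) (nat_lit 4) (nat_lit 109) (nat_lit 142) (nat_lit 139)) (PT.nd (nat_lit 78) (PT.lf (nat_lit 3192) (nat_lit 6) (nat_lit 42) (nat_lit 4) (nat_lit 110) (nat_lit 142) (nat_lit 138)) (PT.lf (nat_lit 3420) (nat_lit 6) (nat_lit 45) (nat_lit 4) (nat_lit 111) (nat_lit 142) (nat_lit 137)))) (PT.nd (nat_lit 1872) (PT.lf (nat_lit 3648) (nat_lit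 6) (nat_lit 48) (nat_lit 4) (nat_lit 112) (nat_lit 142) (nat_lit 136)) (PT.nd (nat_lit 78) (PT.lf (nat_lit 3648) (nat_lit 6) (nat_lit 48) (nat_lit 2) (nat_lit 136) (nat_lit 142) (nat_lit 112)) (PT.lf (nat_lit 3420) (nat_lit 6) (nat_lit 45) (nat_lit 2) (nat_lit 137) (nat_lit 142) (nat_lit 111))))) (PT.nd (nat_lit 234) (PT.nd (nat_lit 78) (PT.lf (nat_lit 3192) (nat_lit 6) (nat_lit 42) (nat_lit 2) (nat_lit 138) (nat_lit 142) (nat_lit 110)) (PT.nd (nat_lit 78) (PT.lf (nat_lit 3040) (nat_lit 6) (nat_lit 40) (nat_lit 2) (nat_lit 139) (nat_lit 142) (nat_lit 109)) (PT.lf (nat_lit 2812) (nat_lit 6) (nat_lit 37) (nat_lit 2) (nat_lit 140) (nat_lit 142) (nat_lit 108)))) (PT.nd (nat_lit 78) (PT.lf (nat_lit 2660) (nat_lit 6) (nat_lit 35) (nat_lit 2) (nat_lit 141) (nat_lit 142) (nat_lit 107)) (PT.nd (nat_lit 78) (PT.lf (nat_lit 2508) (nat_lit 3) (nat_lit 33) (nat_lit 0) (nat_lit 142) (nat_lit 142) (nat_lit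 106)) (PT.lf (nat_lit 2280) (nat_lit 6) (nat_lit 30) (nat_lit 0) (nat_lit 143) (nat_lit 142) (nat_lit 105)))))) (PT.nd (nat_lit 37596) (PT.nd (nat_lit 37362) (PT.nd (nat_lit 78) (PT.lf (nat_lit 2052) (nat_lit 6) (nat_lit 27) (nat_lit 0) (nat_lit 144) (nat_lit 142) (nat_lit 104)) (PT.nd (nat_lit 37206) (PT.lf (nat_lit 1900) (nat_lit 6) (nat_lit 25) (nat_lit 0) (nat_lit 145) (nat_lit 142) (nat_lit 103)) (PT.lf (nat_lit 1596) (nat_lit 6) (nat_lit 21) (nat_lit 5) (nat_lit 101) (nat_lit 143) (nat_lit 146)))) (PT.nd (nat_lit 78) (PT.lf (nat_lit 1748) (nat_lit 6) (nat_lit 23) (nat_lit 5) (nat_lit 102) (nat_lit 143) (nat_lit 145)) (PT.nd (nat_lit 78) (PT.lf (nat_lit 1976) (nat_lit 6) (nat_lit 26) (nat_lit 5) (nat_lit 103) (nat_lit 143) (nat_lit 144)) (PT.lf (nat_lit 2128) (nat_lit 3) (nat_lit 28) (nat_lit 4) (nat_lit 104) (nat_lit 143) (nat_lit 143))))) (PT.nd (nat_lit 234) (PT.nd (nat_lit 78) (PT.lf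 (nat_lit 2280) (nat_lit 6) (nat_lit 30) (nat_lit 4) (nat_lit 105) (nat_lit 143) (nat_lit 142)) (PT.nd (nat_lit 78) (PT.lf (nat_lit 2432) (nat_lit 6) (nat_lit 32) (nat_lit 4) (nat_lit 106) (nat_lit 143) (nat_lit 141)) (PT.lf (nat_lit 2584) (nat_lit 6) (nat_lit 34) (nat_lit 4) (nat_lit 107) (nat_lit 143) (nat_lit 140)))) (PT.nd (nat_lit 78) (PT.lf (nat_lit 2736) (nat_lit 6) (nat_lit 36) (nat_lit 4) (nat_lit 108) (nat_lit 143) (nat_lit 139)) (PT.nd (nat_lit 2262) (PT.lf (nat_lit 2964) (nat_lit 6) (nat_lit 39) (nat_lit 4) (nat_lit 109) (nat_lit 143) (nat_lit 138)) (PT.lf (nat_lit 2964) (nat_lit 6) (nat_lit 39) (nat_lit 2) (nat_lit 138) (nat_lit 143) (nat_lit 109))))))))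
noncomputable def pc14 : PT := (PT.nd (nat_lit 41262) (PT.nd (nat_lit 37752) (PT.nd (nat_lit 390) (PT.nd (nat_lit 156) (PT.nd (nat_lit 78) (PT.lf (nat_lit 2736) (nat_lit 6) (nat_lit 36) (nat_lit 2) (nat_lit 139) (nat_lit 143) (nat_lit 108)) (PT.lf (nat_lit 2584) (nat_lit 6) (nat_lit 34) (nat_lit 2) (nat_lit 140) (nat_lit 143) (nat_lit 107))) (PT.nd (nat_lit 78) (PT.lf (nat_lit 2432) (nat_lit 6) (nat_lit 32) (nat_lit 2) (nat_lit 141) (nat_lit 143) (nat_lit 106)) (PT.nd (nat_lit 78) (PT.lf (nat_lit 2280) (nat_lit 6) (nat_lit 30) (nat_lit 2) (nat_lit 142) (nat_lit 143) (nat_lit 105)) (PT.lf (nat_lit 2128) (nat_lit 3) (nat_lit 28) (nat_lit 0) (nat_lit 143) (nat_lit 143) (nat_lit 104))))) (PT.nd (nat_lit 37128) (PT.nd (nat_lit 78) (PT.lf (nat_lit 1976) (nat_lit 6) (nat_lit 26) (nat_lit 0) (nat_lit 144) (nat_lit 143) (nat_lit 103)) (PT.nd (nat_lit 78) (PT.lf (nat_lit 1748) (nat_lit 6) (nat_lit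 23) (nat_lit 0) (nat_lit 145) (nat_lit 143) (nat_lit 102)) (PT.lf (nat_lit 1596) (nat_lit 6) (nat_lit 21) (nat_lit 0) (nat_lit 146) (nat_lit 143) (nat_lit 101)))) (PT.nd (nat_lit 78) (PT.lf (nat_lit 1292) (nat_lit 6) (nat_lit 17) (nat_lit 5) (nat_lit 99) (nat_lit 144) (nat_lit 147)) (PT.nd (nat_lit 78) (PT.lf (nat_lit 1444) (nat_lit 6) (nat_lit 19) (nat_lit 5) (nat_lit 100) (nat_lit 144) (nat_lit 146)) (PT.lf (nat_lit 1672) (nat_lit 6) (nat_lit 22) (nat_lit 5) (nat_lit 101) (nat_lit 144) (nat_lit 145)))))) (PT.nd (nat_lit 3042) (PT.nd (nat_lit 234) (PT.nd (nat_lit 78) (PT.lf (nat_lit 1824) (nat_lit 3) (nat_lit 24) (nat_lit 4) (nat_lit 102) (nat_lit 144) (nat_lit 144)) (PT.nd (nat_lit 78) (PT.lf (nat_lit 1976) (nat_lit 6) (nat_lit 26) (nat_lit 4) (nat_lit 103) (nat_lit 144) (nat_lit 143)) (PT.lf (nat_lit 2052) (nat_lit 6) (nat_lit 27) (nat_lit 4) (nat_lit 104) (nat_lit 144) (nat_lit 142))))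 (PT.nd (nat_lit 78) (PT.lf (nat_lit 2204) (nat_lit 6) (nat_lit 29) (nat_lit 4) (nat_lit 105) (nat_lit 144) (nat_lit 141)) (PT.nd (nat_lit 2652) (PT.lf (nat_lit 2356) (nat_lit 6) (nat_lit 31) (nat_lit 4) (nat_lit 106) (nat_lit 144) (nat_lit 140)) (PT.lf (nat_lit 2356) (nat_lit 6) (nat_lit 31) (nat_lit 2) (nat_lit 140) (nat_lit 144) (nat_lit 106))))) (PT.nd (nat_lit 234) (PT.nd (nat_lit 78) (PT.lf (nat_lit 2204) (nat_lit 6) (nat_lit 29) (nat_lit 2) (nat_lit 141) (nat_lit 144) (nat_lit 105)) (PT.nd (nat_lit 78) (PT.lf (nat_lit 2052) (nat_lit 6) (nat_lit 27) (nat_lit 2) (nat_lit 142) (nat_lit 144) (nat_lit 104)) (PT.lf (nat_lit 1976) (nat_lit 6) (nat_lit 26) (nat_lit 2) (nat_lit 143) (nat_lit 144) (nat_lit 103)))) (PT.nd (nat_lit 78) (PT.lf (nat_lit 1824) (nat_lit 3) (nat_lit 24) (nat_lit 0) (nat_lit 144) (nat_lit 144) (nat_lit 102)) (PT.nd (nat_lit 78) (PT.lf (nat_lit 1672) (nat_lit 6) (nat_lit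 22) (nat_lit 0) (nat_lit 145) (nat_lit 144) (nat_lit 101)) (PT.lf (nat_lit 1444) (nat_lit 6) (nat_lit 19) (nat_lit 0) (nat_lit 146) (nat_lit 144) (nat_lit 100))))))) (PT.nd (nat_lit 40638) (PT.nd (nat_lit 37206) (PT.nd (nat_lit 36972) (PT.nd (nat_lit 36816) (PT.lf (nat_lit 1292) (nat_lit 6) (nat_lit 17) (nat_lit 0) (nat_lit 147) (nat_lit 144) (nat_lit 99)) (PT.nd (nat_lit 78) (PT.lf (nat_lit 1140) (nat_lit 6) (nat_lit 15) (nat_lit 5) (nat_lit 98) (nat_lit 145) (nat_lit 147)) (PT.lf (nat_lit 1368) (nat_lit 6) (nat_lit 18) (nat_lit 5) (nat_lit 99) (nat_lit 145) (nat_lit 146)))) (PT.nd (nat_lit 78) (PT.lf (nat_lit 1520) (nat_lit 3) (nat_lit 20) (nat_lit 4) (nat_lit 100) (nat_lit 145) (nat_lit 145)) (PT.nd (nat_lit 78) (PT.lf (nat_lit 1672) (nat_lit 6) (nat_lit 22) (nat_lit 4) (nat_lit 101) (nat_lit 145) (nat_lit 144)) (PT.lf (nat_lit 1748) (nat_lit 6) (nat_lit 23) (nat_lit 4) (nat_lit 102) (nat_lit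 145) (nat_lit 143))))) (PT.nd (nat_lit 3198) (PT.nd (nat_lit 3042) (PT.lf (nat_lit 1900) (nat_lit 6) (nat_lit 25) (nat_lit 4) (nat_lit 103) (nat_lit 145) (nat_lit 142)) (PT.nd (nat_lit 78) (PT.lf (nat_lit 1900) (nat_lit 6) (nat_lit 25) (nat_lit 2) (nat_lit 142) (nat_lit 145) (nat_lit 103)) (PT.lf (nat_lit 1748) (nat_lit 6) (nat_lit 23) (nat_lit 2) (nat_lit 143) (nat_lit 145) (nat_lit 102)))) (PT.nd (nat_lit 78) (PT.lf (nat_lit 1672) (nat_lit 6) (nat_lit 22) (nat_lit 2) (nat_lit 144) (nat_lit 145) (nat_lit 101)) (PT.nd (nat_lit 78) (PT.lf (nat_lit 1520) (nat_lit 3) (nat_lit 20) (nat_lit 0) (nat_lit 145) (nat_lit 145) (nat_lit 100)) (PT.lf (nat_lit 1368) (nat_lit 6) (nat_lit 18) (nat_lit 0) (nat_lit 146) (nat_lit 145) (nat_lit 99)))))) (PT.nd (nat_lit 37050) (PT.nd (nat_lit 36816) (PT.nd (nat_lit 36660) (PT.lf (nat_lit 1140) (nat_lit 6) (nat_lit 15) (nat_lit 0) (nat_lit 147) (nat_lit 145) (nat_lit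 98)) (PT.nd (nat_lit 78) (PT.lf (nat_lit 912) (nat_lit 6) (nat_lit 12) (nat_lit 5) (nat_lit 96) (nat_lit 146) (nat_lit 148)) (PT.lf (nat_lit 1064) (nat_lit 6) (nat_lit 14) (nat_lit 5) (nat_lit 97) (nat_lit 146) (nat_lit 147)))) (PT.nd (nat_lit 78) (PT.lf (nat_lit 1216) (nat_lit 3) (nat_lit 16) (nat_lit 4) (nat_lit 98) (nat_lit 146) (nat_lit 146)) (PT.nd (nat_lit 78) (PT.lf (nat_lit 1368) (nat_lit 6) (nat_lit 18) (nat_lit 4) (nat_lit 99) (nat_lit 146) (nat_lit 145)) (PT.lf (nat_lit 1444) (nat_lit 6) (nat_lit 19) (nat_lit 4) (nat_lit 100) (nat_lit 146) (nat_lit 144))))) (PT.nd (nat_lit 3432) (PT.nd (nat_lit 3276) (PT.lf (nat_lit 1596) (nat_lit 6) (nat_lit 21) (nat_lit 4) (nat_lit 101) (nat_lit 146) (nat_lit 143)) (PT.nd (nat_lit 78) (PT.lf (nat_lit 1596) (nat_lit 6) (nat_lit 21) (nat_lit 2) (nat_lit 143) (nat_lit 146) (nat_lit 101)) (PT.lf (nat_lit 1444) (nat_lit 6) (nat_lit 19) (nat_lit 2)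 (nat_lit 144) (nat_lit 146) (nat_lit 100)))) (PT.nd (nat_lit 78) (PT.lf (nat_lit 1368) (nat_lit 6) (nat_lit 18) (nat_lit 2) (nat_lit 145) (nat_lit 146) (nat_lit 99)) (PT.nd (nat_lit 78) (PT.lf (nat_lit 1216) (nat_lit 3) (nat_lit 16) (nat_lit 0) (nat_lit 146) (nat_lit 146) (nat_lit 98)) (PT.lf (nat_lit 1064) (nat_lit 6) (nat_lit 14) (nat_lit 0) (nat_lit 147) (nat_lit 146) (nat_lit 97))))))))
noncomputable def pc15 : PT := (PT.nd (nat_lit 117390) (PT.nd (nat_lit 40638) (PT.nd (nat_lit 36738) (PT.nd (nat_lit 36504) (PT.nd (nat_lit 36426) (PT.lf (nat_lit 912) (nat_lit 6) (nat_lit 12) (nat_lit 0) (nat_lit 148) (nat_lit 146) (nat_lit 96)) (PT.lf (nat_lit 684) (nat_lit 6) (nat_lit 9) (nat_lit 5) (nat_lit 94) (nat_lit 147) (nat_lit 149))) (PT.nd (nat_lit 78) (PT.lf (nat_lit 836) (nat_lit 6) (nat_lit 11) (nat_lit 5) (nat_lit 95) (nat_lit 147) (nat_lit 148)) (PT.nd (nat_lit 78) (PT.lf (nat_lit 988)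 (nat_lit 3) (nat_lit 13) (nat_lit 4) (nat_lit 96) (nat_lit 147) (nat_lit 147)) (PT.lf (nat_lit 1064) (nat_lit 6) (nat_lit 14) (nat_lit 4) (nat_lit 97) (nat_lit 147) (nat_lit 146))))) (PT.nd (nat_lit 3666) (PT.nd (nat_lit 78) (PT.lf (nat_lit 1140) (nat_lit 6) (nat_lit 15) (nat_lit 4) (nat_lit 98) (nat_lit 147) (nat_lit 145)) (PT.nd (nat_lit 3510) (PT.lf (nat_lit 1292) (nat_lit 6) (nat_lit 17) (nat_lit 4) (nat_lit 99) (nat_lit 147) (nat_lit 144)) (PT.lf (nat_lit 1292) (nat_lit 6) (nat_lit 17) (nat_lit 2) (nat_lit 144) (nat_lit 147) (nat_lit 99)))) (PT.nd (nat_lit 78) (PT.lf (nat_lit 1140) (nat_lit 6) (nat_lit 15) (nat_lit 2) (nat_lit 145) (nat_lit 147) (nat_lit 98)) (PT.nd (nat_lit 78) (PT.lf (nat_lit 1064) (nat_lit 6) (nat_lit 14) (nat_lit 2) (nat_lit 146) (nat_lit 147) (nat_lit 97)) (PT.lf (nat_lit 988) (nat_lit 3) (nat_lit 13) (nat_lit 0) (nat_lit 147) (nat_lit 147) (nat_lit 96)))))) (PT.nd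 (nat_lit 36582) (PT.nd (nat_lit 36348) (PT.nd (nat_lit 78) (PT.lf (nat_lit 836) (nat_lit 6) (nat_lit 11) (nat_lit 0) (nat_lit 148) (nat_lit 147) (nat_lit 95)) (PT.nd (nat_lit 36192) (PT.lf (nat_lit 684) (nat_lit 6) (nat_lit 9) (nat_lit 0) (nat_lit 149) (nat_lit 147) (nat_lit 94)) (PT.lf (nat_lit 456) (nat_lit 6) (nat_lit 6) (nat_lit 5) (nat_lit 92) (nat_lit 148) (nat_lit 150)))) (PT.nd (nat_lit 78) (PT.lf (nat_lit 608) (nat_lit 6) (nat_lit 8) (nat_lit 5) (nat_lit 93) (nat_lit 148) (nat_lit 149)) (PT.nd (nat_lit 78) (PT.lf (nat_lit 760) (nat_lit 3) (nat_lit 10) (nat_lit 4) (nat_lit 94) (nat_lit 148) (nat_lit 148)) (PT.lf (nat_lit 836) (nat_lit 6) (nat_lit 11) (nat_lit 4) (nat_lit 95) (nat_lit 148) (nat_lit 147))))) (PT.nd (nat_lit 4056) (PT.nd (nat_lit 3900) (PT.lf (nat_lit 912) (nat_lit 6) (nat_lit 12) (nat_lit 4) (nat_lit 96) (nat_lit 148) (nat_lit 146)) (PT.nd (nat_lit 78) (PT.lf (nat_lit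 912) (nat_lit 6) (nat_lit 12) (nat_lit 2) (nat_lit 146) (nat_lit 148) (nat_lit 96)) (PT.lf (nat_lit 836) (nat_lit 6) (nat_lit 11) (nat_lit 2) (nat_lit 147) (nat_lit 148) (nat_lit 95)))) (PT.nd (nat_lit 78) (PT.lf (nat_lit 760) (nat_lit 3) (nat_lit 10) (nat_lit 0) (nat_lit 148) (nat_lit 148) (nat_lit 94)) (PT.nd (nat_lit 78) (PT.lf (nat_lit 608) (nat_lit 6) (nat_lit 8) (nat_lit 0) (nat_lit 149) (nat_lit 148) (nat_lit 93)) (PT.lf (nat_lit 456) (nat_lit 6) (nat_lit 6) (nat_lit 0) (nat_lit 150) (nat_lit 148) (nat_lit 92))))))) (PT.nd (nat_lit 40716) (PT.nd (nat_lit 4524) (PT.nd (nat_lit 234) (PT.nd (nat_lit 78) (PT.lf (nat_lit 228) (nat_lit 6) (nat_lit 3) (nat_lit 5) (nat_lit 90) (nat_lit 149) (nat_lit 151)) (PT.nd (nat_lit 78) (PT.lf (nat_lit 380) (nat_lit 6) (nat_lit 5) (nat_lit 5) (nat_lit 91) (nat_lit 149) (nat_lit 150)) (PT.lf (nat_lit 532) (nat_lit 3) (nat_lit 7) (nat_lit 4) (nat_lit 92)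 (nat_lit 149) (nat_lit 149)))) (PT.nd (nat_lit 78) (PT.lf (nat_lit 608) (nat_lit 6) (nat_lit 8) (nat_lit 4) (nat_lit 93) (nat_lit 149) (nat_lit 148)) (PT.nd (nat_lit 4134) (PT.lf (nat_lit 684) (nat_lit 6) (nat_lit 9) (nat_lit 4) (nat_lit 94) (nat_lit 149) (nat_lit 147)) (PT.lf (nat_lit 684) (nat_lit 6) (nat_lit 9) (nat_lit 2) (nat_lit 147) (nat_lit 149) (nat_lit 94))))) (PT.nd (nat_lit 234) (PT.nd (nat_lit 78) (PT.lf (nat_lit 608) (nat_lit 6) (nat_lit 8) (nat_lit 2) (nat_lit 148) (nat_lit 149) (nat_lit 93)) (PT.nd (nat_lit 78) (PT.lf (nat_lit 532) (nat_lit 3) (nat_lit 7) (nat_lit 0) (nat_lit 149) (nat_lit 149) (nat_lit 92)) (PT.lf (nat_lit 380) (nat_lit 6) (nat_lit 5) (nat_lit 0) (nat_lit 150) (nat_lit 149) (nat_lit 91)))) (PT.nd (nat_lit 35802) (PT.lf (nat_lit 228) (nat_lit 6) (nat_lit 3) (nat_lit 0) (nat_lit 151) (nat_lit 149) (nat_lit 90)) (PT.nd (nat_lit 78) (PT.lf (nat_lit 152) (nat_lit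 6) (nat_lit 2) (nat_lit 5) (nat_lit 89) (nat_lit 150) (nat_lit 151)) (PT.lf (nat_lit 304) (nat_lit 3) (nat_lit 4) (nat_lit 4) (nat_lit 90) (nat_lit 150) (nat_lit 150)))))) (PT.nd (nat_lit 40404) (PT.nd (nat_lit 4524) (PT.nd (nat_lit 78) (PT.lf (nat_lit 380) (nat_lit 6) (nat_lit 5) (nat_lit 4) (nat_lit 91) (nat_lit 150) (nat_lit 149)) (PT.nd (nat_lit 4368) (PT.lf (nat_lit 456) (nat_lit 6) (nat_lit 6) (nat_lit 4) (nat_lit 92) (nat_lit 150) (nat_lit 148)) (PT.lf (nat_lit 456) (nat_lit 6) (nat_lit 6) (nat_lit 2) (nat_lit 148) (nat_lit 150) (nat_lit 92)))) (PT.nd (nat_lit 78) (PT.lf (nat_lit 380) (nat_lit 6) (nat_lit 5) (nat_lit 2) (nat_lit 149) (nat_lit 150) (nat_lit 91)) (PT.nd (nat_lit 78) (PT.lf (nat_lit 304) (nat_lit 3) (nat_lit 4) (nat_lit 0) (nat_lit 150) (nat_lit 150) (nat_lit 90)) (PT.lf (nat_lit 152) (nat_lit 6) (nat_lit 2) (nat_lit 0) (nat_lit 151) (nat_lit 150) (nat_lit 89))))) (PT.nd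 (nat_lit 4758) (PT.nd (nat_lit 78) (PT.lf (nat_lit 76) (nat_lit 3) (nat_lit 1) (nat_lit 4) (nat_lit 88) (nat_lit 151) (nat_lit 151)) (PT.nd (nat_lit 78) (PT.lf (nat_lit 152) (nat_lit 6) (nat_lit 2) (nat_lit 4) (nat_lit 89) (nat_lit 151) (nat_lit 150)) (PT.lf (nat_lit 228) (nat_lit 6) (nat_lit 3) (nat_lit 4) (nat_lit 90) (nat_lit 151) (nat_lit 149)))) (PT.nd (nat_lit 78) (PT.lf (nat_lit 228) (nat_lit 6) (nat_lit 3) (nat_lit 2) (nat_lit 149) (nat_lit 151) (nat_lit 90)) (PT.nd (nat_lit 78) (PT.lf (nat_lit 152) (nat_lit 6) (nat_lit 2) (nat_lit 2) (nat_lit 150) (nat_lit 151) (nat_lit 89)) (PT.lf (nat_lit 76) (nat_lit 3) (nat_lit 1) (nat_lit 0) (nat_lit 151) (nat_lit 151) (nat_lit 88))))))))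
noncomputable def xc0 : XT := (XT.nd (nat_lit 162162) (nat_lit 0) (nat_lit 0) (XT.nd (nat_lit 81354) (nat_lit 0) (nat_lit 0) (XT.nd (nat_lit 40716) (nat_lit 0) (nat_lit 0) (XT.nd (nat_lit 40482) (nat_lit 0) (nat_lit 0) (XT.nd (nat_lit 78) (nat_lit 0) (nat_lit 0) (XT.lf (nat_lit 0) (nat_lit 6381338949) (nat_lit 152) (nat_lit 79129860849) (nat_lit 0) (nat_lit 6381338949) (nat_lit 1) (nat_lit 5) (nat_lit 3) (nat_lit 4) (nat_lit 1) (nat_lit 4) (nat_lit 364) (nat_lit 208) (nat_lit 208)) (XT.nd (nat_lit 78) (nat_lit 0) (nat_lit 0) (XT.lf (nat_lit 0) (nat_lit 16496325757) (nat_lit 152) (nat_lit 160021509963) (nat_lit 0) (nat_lit 16358650996) (nat_lit 1) (nat_lit 5) (nat_lit 3) (nat_lit 4) (nat_lit 1) (nat_lit 4) (nat_lit 365) (nat_lit 208) (nat_lit 207)) (XT.lf (nat_lit 0) (nat_lit 20314626076) (nat_lit 152) (nat_lit 162065088954) (nat_lit 0) (nat_lit 20045832495) (nat_lit 1) (nat_lit 5) (nat_lit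 3) (nat_lit 4) (nat_lit 1) (nat_lit 4) (nat_lit 366) (nat_lit 208) (nat_lit 206)))) (XT.nd (nat_lit 78) (nat_lit 0) (nat_lit 0) (XT.lf (nat_lit 0) (nat_lit 2856696049) (nat_lit 152) (nat_lit 77730612923) (nat_lit 0) (nat_lit 2856696049) (nat_lit 1) (nat_lit 5) (nat_lit 3) (nat_lit 4) (nat_lit 1) (nat_lit 4) (nat_lit 362) (nat_lit 209) (nat_lit 209)) (XT.nd (nat_lit 78) (nat_lit 0) (nat_lit 0) (XT.lf (nat_lit 0) (nat_lit 9249351364) (nat_lit 152) (nat_lit 156775529427) (nat_lit 0) (nat_lit 9104792865) (nat_lit 1) (nat_lit 5) (nat_lit 3) (nat_lit 4) (nat_lit 1) (nat_lit 4) (nat_lit 363) (nat_lit 209) (nat_lit 208)) (XT.lf (nat_lit 0) (nat_lit 12854977165) (nat_lit 152) (nat_lit 158358934566) (nat_lit 0) (nat_lit 12572743905) (nat_lit 1) (nat_lit 5) (nat_lit 3) (nat_lit 4) (nat_lit 1) (nat_lit 4) (nat_lit 364) (nat_lit 209) (nat_lit 207))))) (XT.nd (nat_lit 40326) (nat_lit 0) (nat_lit 0) (XT.nd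 (nat_lit 78) (nat_lit 0) (nat_lit 0) (XT.lf (nat_lit 0) (nat_lit 16538854325) (nat_lit 152) (nat_lit 160215211276) (nat_lit 0) (nat_lit 16125502244) (nat_lit 1) (nat_lit 5) (nat_lit 3) (nat_lit 4) (nat_lit 1) (nat_lit 4) (nat_lit 365) (nat_lit 209) (nat_lit 206)) (XT.nd (nat_lit 40170) (nat_lit 0) (nat_lit 152) (XT.lf (nat_lit 0) (nat_lit 20309753979) (nat_lit 152) (nat_lit 162348779264) (nat_lit 0) (nat_lit 19771526831) (nat_lit 1) (nat_lit 5) (nat_lit 3) (nat_lit 4) (nat_lit 1) (nat_lit 4) (nat_lit 366) (nat_lit 209) (nat_lit 205)) (XT.lf (nat_lit 0) (nat_lit 74821000720) (nat_lit 76) (nat_lit 482054470) (nat_lit 76) (nat_lit 482054470) (nat_lit 3) (nat_lit 4) (nat_lit 4) (nat_lit 5) (nat_lit 4) (nat_lit 4) (nat_lit 360) (nat_lit 210) (nat_lit 210)))) (XT.nd (nat_lit 156) (nat_lit 0) (nat_lit 0) (XT.nd (nat_lit 78) (nat_lit 0) (nat_lit 0) (XT.lf (nat_lit 0) (nat_lit 2390466841) (nat_lit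 152) (nat_lit 154412894530) (nat_lit 0) (nat_lit 2238680417) (nat_lit 1) (nat_lit 5) (nat_lit 3) (nat_lit 4) (nat_lit 1) (nat_lit 4) (nat_lit 361) (nat_lit 210) (nat_lit 209)) (XT.lf (nat_lit 0) (nat_lit 5810306328) (nat_lit 152) (nat_lit 155565399358) (nat_lit 0) (nat_lit 5513961404) (nat_lit 1) (nat_lit 5) (nat_lit 3) (nat_lit 4) (nat_lit 1) (nat_lit 4) (nat_lit 362) (nat_lit 210) (nat_lit 208))) (XT.nd (nat_lit 78) (nat_lit 0) (nat_lit 0) (XT.lf (nat_lit 0) (nat_lit 9294006360) (nat_lit 152) (nat_lit 156978915807) (nat_lit 0) (nat_lit 8859986675) (nat_lit 1) (nat_lit 5) (nat_lit 3) (nat_lit 4) (nat_lit 1) (nat_lit 4) (nat_lit 363) (nat_lit 210) (nat_lit 207)) (XT.lf (nat_lit 0) (nat_lit 12849861463) (nat_lit 152) (nat_lit 158656809392) (nat_lit 0) (nat_lit 12284722958) (nat_lit 1) (nat_lit 5) (nat_lit 3) (nat_lit 4) (nat_lit 1) (nat_lit 4) (nat_lit 364) (nat_lit 210) (nat_lit 206))))))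 (XT.nd (nat_lit 40482) (nat_lit 0) (nat_lit 0) (XT.nd (nat_lit 40170) (nat_lit 0) (nat_lit 0) (XT.nd (nat_lit 78) (nat_lit 0) (nat_lit 0) (XT.lf (nat_lit 0) (nat_lit 16486337958) (nat_lit 152) (nat_lit 160603075098) (nat_lit 0) (nat_lit 15796324386) (nat_lit 1) (nat_lit 5) (nat_lit 3) (nat_lit 4) (nat_lit 1) (nat_lit 4) (nat_lit 365) (nat_lit 210) (nat_lit 205)) (XT.nd (nat_lit 40014) (nat_lit 0) (nat_lit 152) (XT.lf (nat_lit 0) (nat_lit 20212094121) (nat_lit 152) (nat_lit 162822346891) (nat_lit 0) (nat_lit 19403151914) (nat_lit 1) (nat_lit 5) (nat_lit 3) (nat_lit 4) (nat_lit 1) (nat_lit 4) (nat_lit 366) (nat_lit 210) (nat_lit 204)) (XT.lf (nat_lit 0) (nat_lit 61565289400) (nat_lit 76) (nat_lit 3637384547) (nat_lit 76) (nat_lit 3637384547) (nat_lit 3) (nat_lit 4) (nat_lit 4) (nat_lit 5) (nat_lit 4) (nat_lit 4) (nat_lit 358) (nat_lit 211) (nat_lit 211)))) (XT.nd (nat_lit 156) (nat_lit 152)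 (nat_lit 0) (XT.nd (nat_lit 78) (nat_lit 0) (nat_lit 0) (XT.lf (nat_lit 0) (nat_lit 136116714207) (nat_lit 76) (nat_lit 4251180133) (nat_lit 76) (nat_lit 4087023115) (nat_lit 3) (nat_lit 4) (nat_lit 4) (nat_lit 5) (nat_lit 4) (nat_lit 4) (nat_lit 359) (nat_lit 211) (nat_lit 210)) (XT.lf (nat_lit 0) (nat_lit 149537091971) (nat_lit 76) (nat_lit 1177650944) (nat_lit 76) (nat_lit 857153909) (nat_lit 3) (nat_lit 4) (nat_lit 4) (nat_lit 5) (nat_lit 4) (nat_lit 4) (nat_lit 360) (nat_lit 211) (nat_lit 209))) (XT.nd (nat_lit 78) (nat_lit 0) (nat_lit 0) (XT.lf (nat_lit 0) (nat_lit 2437354587) (nat_lit 152) (nat_lit 154626450229) (nat_lit 0) (nat_lit 1981633918) (nat_lit 1) (nat_lit 5) (nat_lit 3) (nat_lit 4) (nat_lit 1) (nat_lit 4) (nat_lit 361) (nat_lit 211) (nat_lit 208)) (XT.lf (nat_lit 0) (nat_lit 5804934840) (nat_lit 152) (nat_lit 155878167925) (nat_lit 0) (nat_lit 5211539410) (nat_lit 1) (nat_lit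 5) (nat_lit 3) (nat_lit 4) (nat_lit 1) (nat_lit 4) (nat_lit 362) (nat_lit 211) (nat_lit 207))))) (XT.nd (nat_lit 234) (nat_lit 0) (nat_lit 0) (XT.nd (nat_lit 78) (nat_lit 0) (nat_lit 0) (XT.lf (nat_lit 0) (nat_lit 9238864175) (nat_lit 152) (nat_lit 157386172819) (nat_lit 0) (nat_lit 8514349924) (nat_lit 1) (nat_lit 5) (nat_lit 3) (nat_lit 4) (nat_lit 1) (nat_lit 4) (nat_lit 363) (nat_lit 211) (nat_lit 206)) (XT.nd (nat_lit 78) (nat_lit 0) (nat_lit 0) (XT.lf (nat_lit 0) (nat_lit 12747318612) (nat_lit 152) (nat_lit 159154055400) (nat_lit 0) (nat_lit 11897929295) (nat_lit 1) (nat_lit 5) (nat_lit 3) (nat_lit 4) (nat_lit 1) (nat_lit 4) (nat_lit 364) (nat_lit 211) (nat_lit 205)) (XT.lf (nat_lit 0) (nat_lit 16338651616) (nat_lit 152) (nat_lit 161186024912) (nat_lit 0) (nat_lit 15370333663) (nat_lit 1) (nat_lit 5) (nat_lit 3) (nat_lit 4) (nat_lit 1) (nat_lit 4) (nat_lit 365) (nat_lit 211) (nat_lit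 204)))) (XT.nd (nat_lit 39936) (nat_lit 0) (nat_lit 152) (XT.nd (nat_lit 39858) (nat_lit 0) (nat_lit 152) (XT.lf (nat_lit 0) (nat_lit 20021413979) (nat_lit 152) (nat_lit 163486919377) (nat_lit 0) (nat_lit 18939830660) (nat_lit 1) (nat_lit 5) (nat_lit 3) (nat_lit 4) (nat_lit 1) (nat_lit 4) (nat_lit 366) (nat_lit 211) (nat_lit 203)) (XT.lf (nat_lit 0) (nat_lit 49226990282) (nat_lit 76) (nat_lit 6659369287) (nat_lit 76) (nat_lit 6659369287) (nat_lit 3) (nat_lit 4) (nat_lit 4) (nat_lit 5) (nat_lit 4) (nat_lit 4) (nat_lit 356) (nat_lit 212) (nat_lit 212))) (XT.nd (nat_lit 78) (nat_lit 0) (nat_lit 0) (XT.lf (nat_lit 0) (nat_lit 110547766382) (nat_lit 76) (nat_lit 10427981717) (nat_lit 76) (nat_lit 10255616849) (nat_lit 3) (nat_lit 4) (nat_lit 4) (nat_lit 5) (nat_lit 4) (nat_lit 4) (nat_lit 357) (nat_lit 212) (nat_lit 211)) (XT.lf (nat_lit 0) (nat_lit 123020423858) (nat_lit 76) (nat_lit 7498988198)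 (nat_lit 76) (nat_lit 7162466311) (nat_lit 3) (nat_lit 4) (nat_lit 4) (nat_lit 5) (nat_lit 4) (nat_lit 4) (nat_lit 358) (nat_lit 212) (nat_lit 210))))))) (XT.nd (nat_lit 40716) (nat_lit 0) (nat_lit 0) (XT.nd (nat_lit 546) (nat_lit 0) (nat_lit 0) (XT.nd (nat_lit 234) (nat_lit 0) (nat_lit 0) (XT.nd (nat_lit 78) (nat_lit 152) (nat_lit 0) (XT.lf (nat_lit 0) (nat_lit 135901649794) (nat_lit 76) (nat_lit 4524784222) (nat_lit 76) (nat_lit 4031922318) (nat_lit 3) (nat_lit 4) (nat_lit 4) (nat_lit 5) (nat_lit 4) (nat_lit 4) (nat_lit 359) (nat_lit 212) (nat_lit 209)) (XT.nd (nat_lit 78) (nat_lit 152) (nat_lit 0) (XT.lf (nat_lit 0) (nat_lit 149222113778) (nat_lit 76) (nat_lit 1498288352) (nat_lit 76) (nat_lit 856531194) (nat_lit 3) (nat_lit 4) (nat_lit 4) (nat_lit 5) (nat_lit 4) (nat_lit 4) (nat_lit 360) (nat_lit 212) (nat_lit 208)) (XT.lf (nat_lit 0) (nat_lit 2379455292) (nat_lit 152) (nat_lit 155054070092)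 (nat_lit 0) (nat_lit 1618715329) (nat_lit 1) (nat_lit 5) (nat_lit 3) (nat_lit 4) (nat_lit 1) (nat_lit 4) (nat_lit 361) (nat_lit 212) (nat_lit 207)))) (XT.nd (nat_lit 156) (nat_lit 0) (nat_lit 0) (XT.nd (nat_lit 78) (nat_lit 0) (nat_lit 0) (XT.lf (nat_lit 0) (nat_lit 5697264847) (nat_lit 152) (nat_lit 156400276234) (nat_lit 0) (nat_lit 4805406063) (nat_lit 1) (nat_lit 5) (nat_lit 3) (nat_lit 4) (nat_lit 1) (nat_lit 4) (nat_lit 362) (nat_lit 212) (nat_lit 206)) (XT.lf (nat_lit 0) (nat_lit 9083793516) (nat_lit 152) (nat_lit 157998270124) (nat_lit 0) (nat_lit 8067059666) (nat_lit 1) (nat_lit 5) (nat_lit 3) (nat_lit 4) (nat_lit 1) (nat_lit 4) (nat_lit 363) (nat_lit 212) (nat_lit 205))) (XT.nd (nat_lit 78) (nat_lit 0) (nat_lit 0) (XT.lf (nat_lit 0) (nat_lit 12547104463) (nat_lit 152) (nat_lit 159851856511) (nat_lit 0) (nat_lit 11411441978) (nat_lit 1) (nat_lit 5) (nat_lit 3) (nat_lit 4) (nat_lit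 1) (nat_lit 4) (nat_lit 364) (nat_lit 212) (nat_lit 204)) (XT.lf (nat_lit 0) (nat_lit 16095443667) (nat_lit 152) (nat_lit 161965448695) (nat_lit 0) (nat_lit 14846515814) (nat_lit 1) (nat_lit 5) (nat_lit 3) (nat_lit 4) (nat_lit 1) (nat_lit 4) (nat_lit 365) (nat_lit 212) (nat_lit 203))))) (XT.nd (nat_lit 39858) (nat_lit 0) (nat_lit 152) (XT.nd (nat_lit 39702) (nat_lit 0) (nat_lit 152) (XT.lf (nat_lit 0) (nat_lit 19737259553) (nat_lit 152) (nat_lit 164344079038) (nat_lit 0) (nat_lit 18380459923) (nat_lit 1) (nat_lit 5) (nat_lit 3) (nat_lit 4) (nat_lit 1) (nat_lit 4) (nat_lit 366) (nat_lit 212) (nat_lit 202)) (XT.nd (nat_lit 78) (nat_lit 0) (nat_lit 0) (XT.lf (nat_lit 0) (nat_lit 37705062165) (nat_lit 76) (nat_lit 9568406245) (nat_lit 76) (nat_lit 9568406245) (nat_lit 3) (nat_lit 4) (nat_lit 4) (nat_lit 5) (nat_lit 4) (nat_lit 4) (nat_lit 354) (nat_lit 213) (nat_lit 213)) (XT.lf (nat_lit 0) (nat_lit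 86710271676) (nat_lit 76) (nat_lit 16359124638) (nat_lit 76) (nat_lit 16178141526) (nat_lit 3) (nat_lit 4) (nat_lit 4) (nat_lit 5) (nat_lit 4) (nat_lit 4) (nat_lit 355) (nat_lit 213) (nat_lit 212)))) (XT.nd (nat_lit 156) (nat_lit 0) (nat_lit 0) (XT.nd (nat_lit 78) (nat_lit 0) (nat_lit 0) (XT.lf (nat_lit 0) (nat_lit 98338317874) (nat_lit 76) (nat_lit 13554168634) (nat_lit 76) (nat_lit 13200820653) (nat_lit 3) (nat_lit 4) (nat_lit 4) (nat_lit 5) (nat_lit 4) (nat_lit 4) (nat_lit 356) (nat_lit 213) (nat_lit 211)) (XT.lf (nat_lit 0) (nat_lit 110321948749) (nat_lit 76) (nat_lit 10715266011) (nat_lit 76) (nat_lit 10197761012) (nat_lit 3) (nat_lit 4) (nat_lit 4) (nat_lit 5) (nat_lit 4) (nat_lit 4) (nat_lit 357) (nat_lit 213) (nat_lit 210))) (XT.nd (nat_lit 78) (nat_lit 0) (nat_lit 0) (XT.lf (nat_lit 0) (nat_lit 122689696755) (nat_lit 76) (nat_lit 7835657476) (nat_lit 76) (nat_lit 7161812460) (nat_lit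 3) (nat_lit 4) (nat_lit 4) (nat_lit 5) (nat_lit 4) (nat_lit 4) (nat_lit 358) (nat_lit 213) (nat_lit 209)) (XT.lf (nat_lit 0) (nat_lit 135471008911) (nat_lit 76) (nat_lit 4908486820) (nat_lit 76) (nat_lit 4085746549) (nat_lit 3) (nat_lit 4) (nat_lit 4) (nat_lit 5) (nat_lit 4) (nat_lit 4) (nat_lit 359) (nat_lit 213) (nat_lit 208)))))) (XT.nd (nat_lit 40014) (nat_lit 0) (nat_lit 152) (XT.nd (nat_lit 234) (nat_lit 0) (nat_lit 0) (XT.nd (nat_lit 78) (nat_lit 152) (nat_lit 0) (XT.lf (nat_lit 0) (nat_lit 148696316913) (nat_lit 76) (nat_lit 1926784587) (nat_lit 76) (nat_lit 962239313) (nat_lit 3) (nat_lit 4) (nat_lit 4) (nat_lit 5) (nat_lit 4) (nat_lit 4) (nat_lit 360) (nat_lit 213) (nat_lit 207)) (XT.nd (nat_lit 78) (nat_lit 0) (nat_lit 0) (XT.lf (nat_lit 0) (nat_lit 2216631101) (nat_lit 152) (nat_lit 155696772262) (nat_lit 0) (nat_lit 1149060558) (nat_lit 1) (nat_lit 5) (nat_lit 3) (nat_lit 4)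 (nat_lit 1) (nat_lit 4) (nat_lit 361) (nat_lit 213) (nat_lit 206)) (XT.lf (nat_lit 0) (nat_lit 5487039991) (nat_lit 152) (nat_lit 157132967400) (nat_lit 0) (nat_lit 4294594381) (nat_lit 1) (nat_lit 5) (nat_lit 3) (nat_lit 4) (nat_lit 1) (nat_lit 4) (nat_lit 362) (nat_lit 213) (nat_lit 205)))) (XT.nd (nat_lit 156) (nat_lit 0) (nat_lit 0) (XT.nd (nat_lit 78) (nat_lit 0) (nat_lit 0) (XT.lf (nat_lit 0) (nat_lit 8828425169) (nat_lit 152) (nat_lit 158816665096) (nat_lit 0) (nat_lit 7517050924) (nat_lit 1) (nat_lit 5) (nat_lit 3) (nat_lit 4) (nat_lit 1) (nat_lit 4) (nat_lit 363) (nat_lit 213) (nat_lit 204)) (XT.lf (nat_lit 0) (nat_lit 12248742316) (nat_lit 152) (nat_lit 160751874155) (nat_lit 0) (nat_lit 10824102704) (nat_lit 1) (nat_lit 5) (nat_lit 3) (nat_lit 4) (nat_lit 1) (nat_lit 4) (nat_lit 364) (nat_lit 213) (nat_lit 203))) (XT.nd (nat_lit 78) (nat_lit 0) (nat_lit 0) (XT.lf (nat_lit 0) (nat_lit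 15756135043) (nat_lit 152) (nat_lit 162943202217) (nat_lit 0) (nat_lit 14223623653) (nat_lit 1) (nat_lit 5) (nat_lit 3) (nat_lit 4) (nat_lit 1) (nat_lit 4) (nat_lit 365) (nat_lit 213) (nat_lit 202)) (XT.lf (nat_lit 0) (nat_lit 19358954284) (nat_lit 152) (nat_lit 165395866729) (nat_lit 0) (nat_lit 17723707868) (nat_lit 1) (nat_lit 5) (nat_lit 3) (nat_lit 4) (nat_lit 1) (nat_lit 4) (nat_lit 366) (nat_lit 213) (nat_lit 201))))) (XT.nd (nat_lit 234) (nat_lit 0) (nat_lit 0) (XT.nd (nat_lit 78) (nat_lit 0) (nat_lit 0) (XT.lf (nat_lit 0) (nat_lit 26907070257) (nat_lit 76) (nat_lit 12383396618) (nat_lit 76) (nat_lit 12383396618) (nat_lit 3) (nat_lit 4) (nat_lit 4) (nat_lit 5) (nat_lit 4) (nat_lit 4) (nat_lit 352) (nat_lit 214) (nat_lit 214)) (XT.nd (nat_lit 78) (nat_lit 0) (nat_lit 0) (XT.lf (nat_lit 0) (nat_lit 64410970725) (nat_lit 76) (nat_lit 22083877999) (nat_lit 76) (nat_lit 21893845731) (nat_lit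 3) (nat_lit 4) (nat_lit 4) (nat_lit 5) (nat_lit 4) (nat_lit 4) (nat_lit 353) (nat_lit 214) (nat_lit 213)) (XT.lf (nat_lit 0) (nat_lit 75288678506) (nat_lit 76) (nat_lit 19384014051) (nat_lit 76) (nat_lit 19012998671) (nat_lit 3) (nat_lit 4) (nat_lit 4) (nat_lit 5) (nat_lit 4) (nat_lit 4) (nat_lit 354) (nat_lit 214) (nat_lit 212)))) (XT.nd (nat_lit 156) (nat_lit 0) (nat_lit 0) (XT.nd (nat_lit 78) (nat_lit 0) (nat_lit 0) (XT.lf (nat_lit 0) (nat_lit 86473163162) (nat_lit 76) (nat_lit 16660773146) (nat_lit 76) (nat_lit 16117392897) (nat_lit 3) (nat_lit 4) (nat_lit 4) (nat_lit 5) (nat_lit 4) (nat_lit 4) (nat_lit 355) (nat_lit 214) (nat_lit 211)) (XT.lf (nat_lit 0) (nat_lit 97991054417) (nat_lit 76) (nat_lit 13907671377) (nat_lit 76) (nat_lit 13200134110) (nat_lit 3) (nat_lit 4) (nat_lit 4) (nat_lit 5) (nat_lit 4) (nat_lit 4) (nat_lit 356) (nat_lit 214) (nat_lit 210))) (XT.nd (nat_lit 78) (nat_lit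 0) (nat_lit 0) (XT.lf (nat_lit 0) (nat_lit 109869775822) (nat_lit 76) (nat_lit 11118153739) (nat_lit 76) (nat_lit 10254276455) (nat_lit 3) (nat_lit 4) (nat_lit 4) (nat_lit 5) (nat_lit 4) (nat_lit 4) (nat_lit 357) (nat_lit 214) (nat_lit 209)) (XT.lf (nat_lit 0) (nat_lit 122137610047) (nat_lit 76) (nat_lit 8285578523) (nat_lit 76) (nat_lit 7272805985) (nat_lit 3) (nat_lit 4) (nat_lit 4) (nat_lit 5) (nat_lit 4) (nat_lit 4) (nat_lit 358) (nat_lit 214) (nat_lit 208))))))))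
noncomputable def xc1 : XT := (XT.nd (nat_lit 80652) (nat_lit 0) (nat_lit 0) (XT.nd (nat_lit 40404) (nat_lit 0) (nat_lit 0) (XT.nd (nat_lit 546) (nat_lit 0) (nat_lit 0) (XT.nd (nat_lit 234) (nat_lit 0) (nat_lit 0) (XT.nd (nat_lit 78) (nat_lit 152) (nat_lit 0) (XT.lf (nat_lit 0) (nat_lit 134823766222) (nat_lit 76) (nat_lit 5403201505) (nat_lit 76) (nat_lit 4248623962) (nat_lit 3) (nat_lit 4) (nat_lit 4) (nat_lit 5) (nat_lit 4) (nat_lit 4) (nat_lit 359) (nat_lit 214) (nat_lit 207)) (XT.nd (nat_lit 78) (nat_lit 152) (nat_lit 0) (XT.lf (nat_lit 0) (nat_lit 147958449480) (nat_lit 76) (nat_lit 2464159879) (nat_lit 76) (nat_lit 1174529952) (nat_lit 3) (nat_lit 4) (nat_lit 4) (nat_lit 5) (nat_lit 4) (nat_lit 4) (nat_lit 360) (nat_lit 214) (nat_lit 206)) (XT.lf (nat_lit 0) (nat_lit 1948494336) (nat_lit 152) (nat_lit 156556086982) (nat_lit 0) (nat_lit 571551379) (nat_lit 1) (nat_lit 5) (nat_lit 3)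 (nat_lit 4) (nat_lit 1) (nat_lit 4) (nat_lit 361) (nat_lit 214) (nat_lit 205)))) (XT.nd (nat_lit 156) (nat_lit 0) (nat_lit 0) (XT.nd (nat_lit 78) (nat_lit 0) (nat_lit 0) (XT.lf (nat_lit 0) (nat_lit 5173759736) (nat_lit 152) (nat_lit 158077985926) (nat_lit 0) (nat_lit 3677888143) (nat_lit 1) (nat_lit 5) (nat_lit 3) (nat_lit 4) (nat_lit 1) (nat_lit 4) (nat_lit 362) (nat_lit 214) (nat_lit 204)) (XT.lf (nat_lit 0) (nat_lit 8472151114) (nat_lit 152) (nat_lit 159843306294) (nat_lit 0) (nat_lit 6863014155) (nat_lit 1) (nat_lit 5) (nat_lit 3) (nat_lit 4) (nat_lit 1) (nat_lit 4) (nat_lit 363) (nat_lit 214) (nat_lit 203))) (XT.nd (nat_lit 78) (nat_lit 0) (nat_lit 0) (XT.lf (nat_lit 0) (nat_lit 11851521784) (nat_lit 152) (nat_lit 161856251231) (nat_lit 0) (nat_lit 10134513047) (nat_lit 1) (nat_lit 5) (nat_lit 3) (nat_lit 4) (nat_lit 1) (nat_lit 4) (nat_lit 364) (nat_lit 214) (nat_lit 202)) (XT.lf (nat_lit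 0) (nat_lit 15319917866) (nat_lit 152) (nat_lit 164121613463) (nat_lit 0) (nat_lit 13500174102) (nat_lit 1) (nat_lit 5) (nat_lit 3) (nat_lit 4) (nat_lit 1) (nat_lit 4) (nat_lit 365) (nat_lit 214) (nat_lit 201))))) (XT.nd (nat_lit 39546) (nat_lit 0) (nat_lit 152) (XT.nd (nat_lit 39390) (nat_lit 0) (nat_lit 152) (XT.lf (nat_lit 0) (nat_lit 18885597446) (nat_lit 152) (nat_lit 166644786709) (nat_lit 0) (nat_lit 16968010800) (nat_lit 1) (nat_lit 5) (nat_lit 3) (nat_lit 4) (nat_lit 1) (nat_lit 4) (nat_lit 366) (nat_lit 214) (nat_lit 200)) (XT.nd (nat_lit 78) (nat_lit 0) (nat_lit 0) (XT.lf (nat_lit 0) (nat_lit 16748346657) (nat_lit 76) (nat_lit 15121904373) (nat_lit 76) (nat_lit 15121904373) (nat_lit 3) (nat_lit 4) (nat_lit 4) (nat_lit 5) (nat_lit 4) (nat_lit 4) (nat_lit 350) (nat_lit 215) (nat_lit 215)) (XT.lf (nat_lit 0) (nat_lit 43472957325) (nat_lit 76) (nat_lit 27638681540) (nat_lit 76) (nat_lit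 27439147659) (nat_lit 3) (nat_lit 4) (nat_lit 4) (nat_lit 5) (nat_lit 4) (nat_lit 4) (nat_lit 351) (nat_lit 215) (nat_lit 214)))) (XT.nd (nat_lit 156) (nat_lit 0) (nat_lit 0) (XT.nd (nat_lit 78) (nat_lit 0) (nat_lit 0) (XT.lf (nat_lit 0) (nat_lit 53686622398) (nat_lit 76) (nat_lit 25026354877) (nat_lit 76) (nat_lit 24636788728) (nat_lit 3) (nat_lit 4) (nat_lit 4) (nat_lit 5) (nat_lit 4) (nat_lit 4) (nat_lit 352) (nat_lit 215) (nat_lit 213)) (XT.lf (nat_lit 0) (nat_lit 64162006785) (nat_lit 76) (nat_lit 22400608932) (nat_lit 76) (nat_lit 21830059671) (nat_lit 3) (nat_lit 4) (nat_lit 4) (nat_lit 5) (nat_lit 4) (nat_lit 4) (nat_lit 353) (nat_lit 215) (nat_lit 212))) (XT.nd (nat_lit 78) (nat_lit 0) (nat_lit 0) (XT.lf (nat_lit 0) (nat_lit 74924051876) (nat_lit 76) (nat_lit 19755191931) (nat_lit 76) (nat_lit 19012277801) (nat_lit 3) (nat_lit 4) (nat_lit 4) (nat_lit 5) (nat_lit 4) (nat_lit 4) (nat_lit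 354) (nat_lit 215) (nat_lit 211)) (XT.lf (nat_lit 0) (nat_lit 85998381588) (nat_lit 76) (nat_lit 17083805260) (nat_lit 76) (nat_lit 16176734112) (nat_lit 3) (nat_lit 4) (nat_lit 4) (nat_lit 5) (nat_lit 4) (nat_lit 4) (nat_lit 355) (nat_lit 215) (nat_lit 210)))))) (XT.nd (nat_lit 546) (nat_lit 0) (nat_lit 0) (XT.nd (nat_lit 234) (nat_lit 152) (nat_lit 0) (XT.nd (nat_lit 78) (nat_lit 0) (nat_lit 0) (XT.lf (nat_lit 0) (nat_lit 97411363373) (nat_lit 76) (nat_lit 14380088476) (nat_lit 76) (nat_lit 13316677311) (nat_lit 3) (nat_lit 4) (nat_lit 4) (nat_lit 5) (nat_lit 4) (nat_lit 4) (nat_lit 356) (nat_lit 215) (nat_lit 209)) (XT.nd (nat_lit 78) (nat_lit 0) (nat_lit 0) (XT.lf (nat_lit 0) (nat_lit 109190170998) (nat_lit 76) (nat_lit 11637604158) (nat_lit 76) (nat_lit 10425297738) (nat_lit 3) (nat_lit 4) (nat_lit 4) (nat_lit 5) (nat_lit 4) (nat_lit 4) (nat_lit 357) (nat_lit 215) (nat_lit 208)) (XT.lf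 (nat_lit 0) (nat_lit 121362849242) (nat_lit 76) (nat_lit 8849822580) (nat_lit 76) (nat_lit 7495711157) (nat_lit 3) (nat_lit 4) (nat_lit 4) (nat_lit 5) (nat_lit 4) (nat_lit 4) (nat_lit 358) (nat_lit 215) (nat_lit 207)))) (XT.nd (nat_lit 156) (nat_lit 152) (nat_lit 0) (XT.nd (nat_lit 78) (nat_lit 0) (nat_lit 0) (XT.lf (nat_lit 0) (nat_lit 133958380672) (nat_lit 76) (nat_lit 6010106168) (nat_lit 76) (nat_lit 4520942360) (nat_lit 3) (nat_lit 4) (nat_lit 4) (nat_lit 5) (nat_lit 4) (nat_lit 4) (nat_lit 359) (nat_lit 215) (nat_lit 206)) (XT.lf (nat_lit 0) (nat_lit 147006754650) (nat_lit 76) (nat_lit 3111693693) (nat_lit 76) (nat_lit 1493908565) (nat_lit 3) (nat_lit 4) (nat_lit 4) (nat_lit 5) (nat_lit 4) (nat_lit 4) (nat_lit 360) (nat_lit 215) (nat_lit 205))) (XT.nd (nat_lit 78) (nat_lit 0) (nat_lit 0) (XT.lf (nat_lit 0) (nat_lit 1458056184) (nat_lit 76) (nat_lit 117479680) (nat_lit 152) (nat_lit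 157517709846) (nat_lit 1) (nat_lit 5) (nat_lit 2) (nat_lit 5) (nat_lit 3) (nat_lit 4) (nat_lit 361) (nat_lit 215) (nat_lit 204)) (XT.lf (nat_lit 0) (nat_lit 4756678177) (nat_lit 152) (nat_lit 159237581856) (nat_lit 0) (nat_lit 2953819003) (nat_lit 1) (nat_lit 5) (nat_lit 3) (nat_lit 4) (nat_lit 1) (nat_lit 4) (nat_lit 362) (nat_lit 215) (nat_lit 203))))) (XT.nd (nat_lit 234) (nat_lit 0) (nat_lit 0) (XT.nd (nat_lit 78) (nat_lit 0) (nat_lit 0) (XT.lf (nat_lit 0) (nat_lit 8014123078) (nat_lit 152) (nat_lit 161080638102) (nat_lit 0) (nat_lit 6103392126) (nat_lit 1) (nat_lit 5) (nat_lit 3) (nat_lit 4) (nat_lit 1) (nat_lit 4) (nat_lit 363) (nat_lit 215) (nat_lit 202)) (XT.nd (nat_lit 78) (nat_lit 0) (nat_lit 0) (XT.lf (nat_lit 0) (nat_lit 11354497104) (nat_lit 152) (nat_lit 163167617209) (nat_lit 0) (nat_lit 9341031125) (nat_lit 1) (nat_lit 5) (nat_lit 3) (nat_lit 4) (nat_lit 1) (nat_lit 4) (nat_lit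 364) (nat_lit 215) (nat_lit 201)) (XT.lf (nat_lit 0) (nat_lit 14785753525) (nat_lit 152) (nat_lit 165503488174) (nat_lit 0) (nat_lit 12674444664) (nat_lit 1) (nat_lit 5) (nat_lit 3) (nat_lit 4) (nat_lit 1) (nat_lit 4) (nat_lit 365) (nat_lit 215) (nat_lit 200)))) (XT.nd (nat_lit 39312) (nat_lit 0) (nat_lit 152) (XT.nd (nat_lit 39234) (nat_lit 0) (nat_lit 152) (XT.lf (nat_lit 0) (nat_lit 18316061999) (nat_lit 152) (nat_lit 168093812594) (nat_lit 0) (nat_lit 16111569440) (nat_lit 1) (nat_lit 5) (nat_lit 3) (nat_lit 4) (nat_lit 1) (nat_lit 4) (nat_lit 366) (nat_lit 215) (nat_lit 199)) (XT.lf (nat_lit 0) (nat_lit 7151226926) (nat_lit 76) (nat_lit 17800301564) (nat_lit 76) (nat_lit 17800301564) (nat_lit 3) (nat_lit 4) (nat_lit 4) (nat_lit 5) (nat_lit 4) (nat_lit 4) (nat_lit 348) (nat_lit 216) (nat_lit 216))) (XT.nd (nat_lit 78) (nat_lit 0) (nat_lit 0) (XT.lf (nat_lit 0) (nat_lit 23734077358) (nat_lit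 76) (nat_lit 33057449758) (nat_lit 76) (nat_lit 32847939183) (nat_lit 3) (nat_lit 4) (nat_lit 4) (nat_lit 5) (nat_lit 4) (nat_lit 4) (nat_lit 349) (nat_lit 216) (nat_lit 215)) (XT.lf (nat_lit 0) (nat_lit 33362799293) (nat_lit 76) (nat_lit 30516348469) (nat_lit 76) (nat_lit 30107304012) (nat_lit 3) (nat_lit 4) (nat_lit 4) (nat_lit 5) (nat_lit 4) (nat_lit 4) (nat_lit 350) (nat_lit 216) (nat_lit 214))))))) (XT.nd (nat_lit 1092) (nat_lit 0) (nat_lit 0) (XT.nd (nat_lit 546) (nat_lit 152) (nat_lit 0) (XT.nd (nat_lit 234) (nat_lit 0) (nat_lit 0) (XT.nd (nat_lit 78) (nat_lit 0) (nat_lit 0) (XT.lf (nat_lit 0) (nat_lit 43211545187) (nat_lit 76) (nat_lit 27971249020) (nat_lit 76) (nat_lit 27372172295) (nat_lit 3) (nat_lit 4) (nat_lit 4) (nat_lit 5) (nat_lit 4) (nat_lit 4) (nat_lit 351) (nat_lit 216) (nat_lit 213)) (XT.nd (nat_lit 78) (nat_lit 0) (nat_lit 0) (XT.lf (nat_lit 0) (nat_lit 53303764436) (nat_lit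 76) (nat_lit 25416091650) (nat_lit 76) (nat_lit 24636031814) (nat_lit 3) (nat_lit 4) (nat_lit 4) (nat_lit 5) (nat_lit 4) (nat_lit 4) (nat_lit 352) (nat_lit 216) (nat_lit 212)) (XT.lf (nat_lit 0) (nat_lit 63663486132) (nat_lit 76) (nat_lit 22844792652) (nat_lit 76) (nat_lit 21892367947) (nat_lit 3) (nat_lit 4) (nat_lit 4) (nat_lit 5) (nat_lit 4) (nat_lit 4) (nat_lit 353) (nat_lit 216) (nat_lit 211)))) (XT.nd (nat_lit 156) (nat_lit 0) (nat_lit 0) (XT.nd (nat_lit 78) (nat_lit 0) (nat_lit 0) (XT.lf (nat_lit 0) (nat_lit 74315376280) (nat_lit 76) (nat_lit 20251229885) (nat_lit 76) (nat_lit 19134648162) (nat_lit 3) (nat_lit 4) (nat_lit 4) (nat_lit 5) (nat_lit 4) (nat_lit 4) (nat_lit 354) (nat_lit 216) (nat_lit 210)) (XT.lf (nat_lit 0) (nat_lit 85284796523) (nat_lit 76) (nat_lit 17629228200) (nat_lit 76) (nat_lit 16356306460) (nat_lit 3) (nat_lit 4) (nat_lit 4) (nat_lit 5) (nat_lit 4) (nat_lit 4)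 (nat_lit 355) (nat_lit 216) (nat_lit 209))) (XT.nd (nat_lit 78) (nat_lit 0) (nat_lit 0) (XT.lf (nat_lit 0) (nat_lit 96597864528) (nat_lit 76) (nat_lit 14972544736) (nat_lit 76) (nat_lit 13550727741) (nat_lit 3) (nat_lit 4) (nat_lit 4) (nat_lit 5) (nat_lit 4) (nat_lit 4) (nat_lit 356) (nat_lit 216) (nat_lit 208)) (XT.lf (nat_lit 0) (nat_lit 108281516171) (nat_lit 76) (nat_lit 12274854055) (nat_lit 76) (nat_lit 10711232056) (nat_lit 3) (nat_lit 4) (nat_lit 4) (nat_lit 5) (nat_lit 4) (nat_lit 4) (nat_lit 357) (nat_lit 216) (nat_lit 207))))) (XT.nd (nat_lit 234) (nat_lit 152) (nat_lit 0) (XT.nd (nat_lit 78) (nat_lit 0) (nat_lit 0) (XT.lf (nat_lit 0) (nat_lit 120363569671) (nat_lit 76) (nat_lit 9529733084) (nat_lit 76) (nat_lit 7831058700) (nat_lit 3) (nat_lit 4) (nat_lit 4) (nat_lit 5) (nat_lit 4) (nat_lit 4) (nat_lit 358) (nat_lit 216) (nat_lit 206)) (XT.nd (nat_lit 78) (nat_lit 0) (nat_lit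 0) (XT.lf (nat_lit 0) (nat_lit 132872791821) (nat_lit 76) (nat_lit 6730645822) (nat_lit 76) (nat_lit 4903350119) (nat_lit 3) (nat_lit 4) (nat_lit 4) (nat_lit 5) (nat_lit 4) (nat_lit 4) (nat_lit 359) (nat_lit 216) (nat_lit 205)) (XT.lf (nat_lit 0) (nat_lit 145838966484) (nat_lit 76) (nat_lit 3870927775) (nat_lit 76) (nat_lit 1921135578) (nat_lit 3) (nat_lit 4) (nat_lit 4) (nat_lit 5) (nat_lit 4) (nat_lit 4) (nat_lit 360) (nat_lit 216) (nat_lit 204)))) (XT.nd (nat_lit 156) (nat_lit 0) (nat_lit 0) (XT.nd (nat_lit 78) (nat_lit 0) (nat_lit 0) (XT.lf (nat_lit 0) (nat_lit 171469390) (nat_lit 76) (nat_lit 930956676) (nat_lit 152) (nat_lit 158011250888) (nat_lit 1) (nat_lit 5) (nat_lit 2) (nat_lit 5) (nat_lit 3) (nat_lit 4) (nat_lit 361) (nat_lit 216) (nat_lit 203)) (XT.lf (nat_lit 0) (nat_lit 4234802263) (nat_lit 152) (nat_lit 160614516133) (nat_lit 0) (nat_lit 2120662985) (nat_lit 1) (nat_lit 5)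 (nat_lit 3) (nat_lit 4) (nat_lit 1) (nat_lit 4) (nat_lit 362) (nat_lit 216) (nat_lit 202))) (XT.nd (nat_lit 78) (nat_lit 0) (nat_lit 0) (XT.lf (nat_lit 0) (nat_lit 7453250520) (nat_lit 152) (nat_lit 162531606549) (nat_lit 0) (nat_lit 5236376216) (nat_lit 1) (nat_lit 5) (nat_lit 3) (nat_lit 4) (nat_lit 1) (nat_lit 4) (nat_lit 363) (nat_lit 216) (nat_lit 201)) (XT.lf (nat_lit 0) (nat_lit 10756484884) (nat_lit 152) (nat_lit 164689094388) (nat_lit 0) (nat_lit 8441767697) (nat_lit 1) (nat_lit 5) (nat_lit 3) (nat_lit 4) (nat_lit 1) (nat_lit 4) (nat_lit 364) (nat_lit 216) (nat_lit 200)))))) (XT.nd (nat_lit 39546) (nat_lit 0) (nat_lit 152) (XT.nd (nat_lit 39234) (nat_lit 0) (nat_lit 152) (XT.nd (nat_lit 78) (nat_lit 0) (nat_lit 0) (XT.lf (nat_lit 0) (nat_lit 14152370199) (nat_lit 152) (nat_lit 167092116528) (nat_lit 0) (nat_lit 11744469315) (nat_lit 1) (nat_lit 5) (nat_lit 3) (nat_lit 4) (nat_lit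 1) (nat_lit 4) (nat_lit 365) (nat_lit 216) (nat_lit 199)) (XT.nd (nat_lit 39078) (nat_lit 0) (nat_lit 228) (XT.lf (nat_lit 0) (nat_lit 17648991905) (nat_lit 152) (nat_lit 169746394447) (nat_lit 0) (nat_lit 15152344643) (nat_lit 1) (nat_lit 5) (nat_lit 3) (nat_lit 4) (nat_lit 1) (nat_lit 4) (nat_lit 366) (nat_lit 216) (nat_lit 198)) (XT.lf (nat_lit 0) (nat_lit 18497055611) (nat_lit 152) (nat_lit 1917482770) (nat_lit 0) (nat_lit 18497055611) (nat_lit 4) (nat_lit 5) (nat_lit 6) (nat_lit 4) (nat_lit 4) (nat_lit 4) (nat_lit 346) (nat_lit 217) (nat_lit 217)))) (XT.nd (nat_lit 156) (nat_lit 0) (nat_lit 0) (XT.nd (nat_lit 78) (nat_lit 0) (nat_lit 0) (XT.lf (nat_lit 0) (nat_lit 5045472533) (nat_lit 76) (nat_lit 38371849812) (nat_lit 76) (nat_lit 38151863708) (nat_lit 3) (nat_lit 4) (nat_lit 4) (nat_lit 5) (nat_lit 4) (nat_lit 4) (nat_lit 347) (nat_lit 217) (nat_lit 216)) (XT.lf (nat_lit 0) (nat_lit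 14161865130) (nat_lit 76) (nat_lit 35886769837) (nat_lit 76) (nat_lit 35457273157) (nat_lit 3) (nat_lit 4) (nat_lit 4) (nat_lit 5) (nat_lit 4) (nat_lit 4) (nat_lit 348) (nat_lit 217) (nat_lit 215))) (XT.nd (nat_lit 78) (nat_lit 0) (nat_lit 0) (XT.lf (nat_lit 0) (nat_lit 23459594613) (nat_lit 76) (nat_lit 33406645612) (nat_lit 76) (nat_lit 32777615052) (nat_lit 3) (nat_lit 4) (nat_lit 4) (nat_lit 5) (nat_lit 4) (nat_lit 4) (nat_lit 349) (nat_lit 217) (nat_lit 214)) (XT.lf (nat_lit 0) (nat_lit 32960798432) (nat_lit 76) (nat_lit 30925572081) (nat_lit 76) (nat_lit 30106509253) (nat_lit 3) (nat_lit 4) (nat_lit 4) (nat_lit 5) (nat_lit 4) (nat_lit 4) (nat_lit 350) (nat_lit 217) (nat_lit 213))))) (XT.nd (nat_lit 234) (nat_lit 0) (nat_lit 0) (XT.nd (nat_lit 78) (nat_lit 0) (nat_lit 0) (XT.lf (nat_lit 0) (nat_lit 42688098502) (nat_lit 76) (nat_lit 28437641926) (nat_lit 76) (nat_lit 27437595985) (nat_lit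 3) (nat_lit 4) (nat_lit 4) (nat_lit 5) (nat_lit 4) (nat_lit 4) (nat_lit 351) (nat_lit 217) (nat_lit 212)) (XT.nd (nat_lit 78) (nat_lit 0) (nat_lit 0) (XT.lf (nat_lit 0) (nat_lit 52664655061) (nat_lit 76) (nat_lit 25936931503) (nat_lit 76) (nat_lit 24764520693) (nat_lit 3) (nat_lit 4) (nat_lit 4) (nat_lit 5) (nat_lit 4) (nat_lit 4) (nat_lit 352) (nat_lit 217) (nat_lit 211)) (XT.lf (nat_lit 0) (nat_lit 62914221814) (nat_lit 76) (nat_lit 23417486739) (nat_lit 76) (nat_lit 22080918912) (nat_lit 3) (nat_lit 4) (nat_lit 4) (nat_lit 5) (nat_lit 4) (nat_lit 4) (nat_lit 353) (nat_lit 217) (nat_lit 210)))) (XT.nd (nat_lit 156) (nat_lit 0) (nat_lit 0) (XT.nd (nat_lit 78) (nat_lit 0) (nat_lit 0) (XT.lf (nat_lit 0) (nat_lit 73461202492) (nat_lit 76) (nat_lit 20873308958) (nat_lit 76) (nat_lit 19380401113) (nat_lit 3) (nat_lit 4) (nat_lit 4) (nat_lit 5) (nat_lit 4) (nat_lit 4) (nat_lit 354) (nat_lit 217)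 (nat_lit 209)) (XT.lf (nat_lit 0) (nat_lit 84330708955) (nat_lit 76) (nat_lit 18298340592) (nat_lit 76) (nat_lit 16656537493) (nat_lit 3) (nat_lit 4) (nat_lit 4) (nat_lit 5) (nat_lit 4) (nat_lit 4) (nat_lit 355) (nat_lit 217) (nat_lit 208))) (XT.nd (nat_lit 78) (nat_lit 0) (nat_lit 0) (XT.lf (nat_lit 0) (nat_lit 95548620978) (nat_lit 76) (nat_lit 15686450765) (nat_lit 76) (nat_lit 13902842662) (nat_lit 3) (nat_lit 4) (nat_lit 4) (nat_lit 5) (nat_lit 4) (nat_lit 4) (nat_lit 356) (nat_lit 217) (nat_lit 207)) (XT.lf (nat_lit 0) (nat_lit 107141647877) (nat_lit 76) (nat_lit 13031420691) (nat_lit 76) (nat_lit 11112760203) (nat_lit 3) (nat_lit 4) (nat_lit 4) (nat_lit 5) (nat_lit 4) (nat_lit 4) (nat_lit 357) (nat_lit 217) (nat_lit 206))))))))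
noncomputable def xc2 : XT := (XT.nd (nat_lit 40950) (nat_lit 0) (nat_lit 0) (XT.nd (nat_lit 39858) (nat_lit 0) (nat_lit 152) (XT.nd (nat_lit 468) (nat_lit 0) (nat_lit 0) (XT.nd (nat_lit 234) (nat_lit 152) (nat_lit 0) (XT.nd (nat_lit 78) (nat_lit 0) (nat_lit 0) (XT.lf (nat_lit 0) (nat_lit 119137392097) (nat_lit 76) (nat_lit 10326928870) (nat_lit 76) (nat_lit 8279647064) (nat_lit 3) (nat_lit 4) (nat_lit 4) (nat_lit 5) (nat_lit 4) (nat_lit 4) (nat_lit 358) (nat_lit 217) (nat_lit 205)) (XT.nd (nat_lit 78) (nat_lit 0) (nat_lit 0) (XT.lf (nat_lit 0) (nat_lit 131564414933) (nat_lit 76) (nat_lit 7566536036) (nat_lit 76) (nat_lit 5396757735) (nat_lit 3) (nat_lit 4) (nat_lit 4) (nat_lit 5) (nat_lit 4) (nat_lit 4) (nat_lit 359) (nat_lit 217) (nat_lit 204)) (XT.lf (nat_lit 0) (nat_lit 144452304534) (nat_lit 76) (nat_lit 4743669826) (nat_lit 76) (nat_lit 2457228197) (nat_lit 3) (nat_lit 4) (nat_lit 4)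 (nat_lit 5) (nat_lit 4) (nat_lit 4) (nat_lit 360) (nat_lit 217) (nat_lit 203)))) (XT.nd (nat_lit 78) (nat_lit 76) (nat_lit 0) (XT.lf (nat_lit 0) (nat_lit 535287167) (nat_lit 152) (nat_lit 1310916609) (nat_lit 76) (nat_lit 157291053835) (nat_lit 2) (nat_lit 5) (nat_lit 4) (nat_lit 5) (nat_lit 3) (nat_lit 4) (nat_lit 361) (nat_lit 217) (nat_lit 202)) (XT.nd (nat_lit 78) (nat_lit 0) (nat_lit 0) (XT.lf (nat_lit 0) (nat_lit 3606889432) (nat_lit 152) (nat_lit 162212067171) (nat_lit 0) (nat_lit 1176436386) (nat_lit 1) (nat_lit 5) (nat_lit 3) (nat_lit 4) (nat_lit 1) (nat_lit 4) (nat_lit 362) (nat_lit 217) (nat_lit 201)) (XT.lf (nat_lit 0) (nat_lit 6788198028) (nat_lit 152) (nat_lit 164199666320) (nat_lit 0) (nat_lit 4259902099) (nat_lit 1) (nat_lit 5) (nat_lit 3) (nat_lit 4) (nat_lit 1) (nat_lit 4) (nat_lit 363) (nat_lit 217) (nat_lit 200))))) (XT.nd (nat_lit 39078) (nat_lit 0) (nat_lit 152) (XT.nd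 (nat_lit 78) (nat_lit 0) (nat_lit 0) (XT.lf (nat_lit 0) (nat_lit 10056061286) (nat_lit 152) (nat_lit 166424305334) (nat_lit 0) (nat_lit 7434581660) (nat_lit 1) (nat_lit 5) (nat_lit 3) (nat_lit 4) (nat_lit 1) (nat_lit 4) (nat_lit 364) (nat_lit 217) (nat_lit 199)) (XT.nd (nat_lit 78) (nat_lit 0) (nat_lit 0) (XT.lf (nat_lit 0) (nat_lit 13418259833) (nat_lit 152) (nat_lit 168891280973) (nat_lit 0) (nat_lit 10708033828) (nat_lit 1) (nat_lit 5) (nat_lit 3) (nat_lit 4) (nat_lit 1) (nat_lit 4) (nat_lit 365) (nat_lit 217) (nat_lit 198)) (XT.lf (nat_lit 0) (nat_lit 16882798904) (nat_lit 152) (nat_lit 171606466987) (nat_lit 0) (nat_lit 14088052538) (nat_lit 1) (nat_lit 5) (nat_lit 3) (nat_lit 4) (nat_lit 1) (nat_lit 4) (nat_lit 366) (nat_lit 217) (nat_lit 197)))) (XT.nd (nat_lit 156) (nat_lit 76) (nat_lit 0) (XT.nd (nat_lit 78) (nat_lit 0) (nat_lit 0) (XT.lf (nat_lit 0) (nat_lit 12501391168) (nat_lit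 152) (nat_lit 10430361479) (nat_lit 0) (nat_lit 12501391168) (nat_lit 4) (nat_lit 5) (nat_lit 6) (nat_lit 4) (nat_lit 4) (nat_lit 4) (nat_lit 344) (nat_lit 218) (nat_lit 218)) (XT.lf (nat_lit 0) (nat_lit 31004177117) (nat_lit 152) (nat_lit 12481341547) (nat_lit 0) (nat_lit 30773191708) (nat_lit 4) (nat_lit 5) (nat_lit 6) (nat_lit 4) (nat_lit 4) (nat_lit 4) (nat_lit 345) (nat_lit 218) (nat_lit 217))) (XT.nd (nat_lit 78) (nat_lit 76) (nat_lit 0) (XT.lf (nat_lit 0) (nat_lit 37148387102) (nat_lit 152) (nat_lit 3979703138) (nat_lit 0) (nat_lit 36697415589) (nat_lit 4) (nat_lit 5) (nat_lit 6) (nat_lit 4) (nat_lit 4) (nat_lit 4) (nat_lit 346) (nat_lit 218) (nat_lit 216)) (XT.lf (nat_lit 0) (nat_lit 4757265651) (nat_lit 76) (nat_lit 38738505459) (nat_lit 76) (nat_lit 38078023370) (nat_lit 3) (nat_lit 4) (nat_lit 4) (nat_lit 5) (nat_lit 4) (nat_lit 4) (nat_lit 347) (nat_lit 218) (nat_lit 215))))))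 (XT.nd (nat_lit 546) (nat_lit 0) (nat_lit 0) (XT.nd (nat_lit 234) (nat_lit 0) (nat_lit 0) (XT.nd (nat_lit 78) (nat_lit 0) (nat_lit 0) (XT.lf (nat_lit 0) (nat_lit 13739764227) (nat_lit 76) (nat_lit 36316454629) (nat_lit 76) (nat_lit 35456438660) (nat_lit 3) (nat_lit 4) (nat_lit 4) (nat_lit 5) (nat_lit 4) (nat_lit 4) (nat_lit 348) (nat_lit 218) (nat_lit 214)) (XT.nd (nat_lit 78) (nat_lit 0) (nat_lit 0) (XT.lf (nat_lit 0) (nat_lit 22909975594) (nat_lit 76) (nat_lit 33896358163) (nat_lit 76) (nat_lit 32846309926) (nat_lit 3) (nat_lit 4) (nat_lit 4) (nat_lit 5) (nat_lit 4) (nat_lit 4) (nat_lit 349) (nat_lit 218) (nat_lit 213)) (XT.lf (nat_lit 0) (nat_lit 32289733589) (nat_lit 76) (nat_lit 31472453926) (nat_lit 76) (nat_lit 30241422576) (nat_lit 3) (nat_lit 4) (nat_lit 4) (nat_lit 5) (nat_lit 4) (nat_lit 4) (nat_lit 350) (nat_lit 218) (nat_lit 212)))) (XT.nd (nat_lit 156) (nat_lit 0) (nat_lit 0)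 (XT.nd (nat_lit 78) (nat_lit 0) (nat_lit 0) (XT.lf (nat_lit 0) (nat_lit 41901370968) (nat_lit 76) (nat_lit 29038970717) (nat_lit 76) (nat_lit 27635574498) (nat_lit 3) (nat_lit 4) (nat_lit 4) (nat_lit 5) (nat_lit 4) (nat_lit 4) (nat_lit 351) (nat_lit 218) (nat_lit 211)) (XT.lf (nat_lit 0) (nat_lit 51767772584) (nat_lit 76) (nat_lit 26590114529) (nat_lit 76) (nat_lit 25022561292) (nat_lit 3) (nat_lit 4) (nat_lit 4) (nat_lit 5) (nat_lit 4) (nat_lit 4) (nat_lit 352) (nat_lit 218) (nat_lit 210))) (XT.nd (nat_lit 78) (nat_lit 0) (nat_lit 0) (XT.lf (nat_lit 0) (nat_lit 61912429867) (nat_lit 76) (nat_lit 24120054751) (nat_lit 76) (nat_lit 22396161497) (nat_lit 3) (nat_lit 4) (nat_lit 4) (nat_lit 5) (nat_lit 4) (nat_lit 4) (nat_lit 353) (nat_lit 218) (nat_lit 209)) (XT.lf (nat_lit 0) (nat_lit 72359496765) (nat_lit 76) (nat_lit 21622910289) (nat_lit 76) (nat_lit 19750121781) (nat_lit 3) (nat_lit 4)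 (nat_lit 4) (nat_lit 5) (nat_lit 4) (nat_lit 4) (nat_lit 354) (nat_lit 218) (nat_lit 208))))) (XT.nd (nat_lit 234) (nat_lit 0) (nat_lit 0) (XT.nd (nat_lit 78) (nat_lit 0) (nat_lit 0) (XT.lf (nat_lit 0) (nat_lit 83133847246) (nat_lit 76) (nat_lit 19092735560) (nat_lit 76) (nat_lit 17078142048) (nat_lit 3) (nat_lit 4) (nat_lit 4) (nat_lit 5) (nat_lit 4) (nat_lit 4) (nat_lit 355) (nat_lit 218) (nat_lit 207)) (XT.nd (nat_lit 78) (nat_lit 0) (nat_lit 0) (XT.lf (nat_lit 0) (nat_lit 94261134525) (nat_lit 76) (nat_lit 16523506340) (nat_lit 76) (nat_lit 14373860443) (nat_lit 3) (nat_lit 4) (nat_lit 4) (nat_lit 5) (nat_lit 4) (nat_lit 4) (nat_lit 356) (nat_lit 218) (nat_lit 206)) (XT.lf (nat_lit 0) (nat_lit 105767852144) (nat_lit 76) (nat_lit 13909105416) (nat_lit 76) (nat_lit 11630838200) (nat_lit 3) (nat_lit 4) (nat_lit 4) (nat_lit 5) (nat_lit 4) (nat_lit 4) (nat_lit 357) (nat_lit 218) (nat_lit 205))))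 (XT.nd (nat_lit 156) (nat_lit 0) (nat_lit 0) (XT.nd (nat_lit 78) (nat_lit 0) (nat_lit 0) (XT.lf (nat_lit 0) (nat_lit 117681397049) (nat_lit 76) (nat_lit 11243308024) (nat_lit 76) (nat_lit 8842544313) (nat_lit 3) (nat_lit 4) (nat_lit 4) (nat_lit 5) (nat_lit 4) (nat_lit 4) (nat_lit 358) (nat_lit 218) (nat_lit 204)) (XT.lf (nat_lit 0) (nat_lit 130030134824) (nat_lit 76) (nat_lit 8519767026) (nat_lit 76) (nat_lit 6002339988) (nat_lit 3) (nat_lit 4) (nat_lit 4) (nat_lit 5) (nat_lit 4) (nat_lit 4) (nat_lit 359) (nat_lit 218) (nat_lit 203))) (XT.nd (nat_lit 78) (nat_lit 0) (nat_lit 0) (XT.lf (nat_lit 0) (nat_lit 142843467224) (nat_lit 76) (nat_lit 5731997802) (nat_lit 76) (nat_lit 3103462833) (nat_lit 3) (nat_lit 4) (nat_lit 4) (nat_lit 5) (nat_lit 4) (nat_lit 4) (nat_lit 360) (nat_lit 218) (nat_lit 202)) (XT.lf (nat_lit 0) (nat_lit 156151902185) (nat_lit 76) (nat_lit 2873362807) (nat_lit 76) (nat_lit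 139010760) (nat_lit 3) (nat_lit 4) (nat_lit 4) (nat_lit 5) (nat_lit 4) (nat_lit 4) (nat_lit 361) (nat_lit 218) (nat_lit 201))))))) (XT.nd (nat_lit 39780) (nat_lit 0) (nat_lit 0) (XT.nd (nat_lit 39234) (nat_lit 0) (nat_lit 152) (XT.nd (nat_lit 234) (nat_lit 0) (nat_lit 0) (XT.nd (nat_lit 78) (nat_lit 0) (nat_lit 0) (XT.lf (nat_lit 0) (nat_lit 2871444654) (nat_lit 152) (nat_lit 164034038665) (nat_lit 0) (nat_lit 118891047) (nat_lit 1) (nat_lit 5) (nat_lit 3) (nat_lit 4) (nat_lit 1) (nat_lit 4) (nat_lit 362) (nat_lit 218) (nat_lit 200)) (XT.nd (nat_lit 78) (nat_lit 0) (nat_lit 0) (XT.lf (nat_lit 0) (nat_lit 6017382144) (nat_lit 152) (nat_lit 166088788988) (nat_lit 0) (nat_lit 3171644839) (nat_lit 1) (nat_lit 5) (nat_lit 3) (nat_lit 4) (nat_lit 1) (nat_lit 4) (nat_lit 363) (nat_lit 218) (nat_lit 199)) (XT.lf (nat_lit 0) (nat_lit 9251558634) (nat_lit 152) (nat_lit 168377381502) (nat_lit 0) (nat_lit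 6317074950) (nat_lit 1) (nat_lit 5) (nat_lit 3) (nat_lit 4) (nat_lit 1) (nat_lit 4) (nat_lit 364) (nat_lit 218) (nat_lit 198)))) (XT.nd (nat_lit 38844) (nat_lit 0) (nat_lit 228) (XT.nd (nat_lit 78) (nat_lit 0) (nat_lit 0) (XT.lf (nat_lit 0) (nat_lit 12581674545) (nat_lit 152) (nat_lit 170905265235) (nat_lit 0) (nat_lit 9562670501) (nat_lit 1) (nat_lit 5) (nat_lit 3) (nat_lit 4) (nat_lit 1) (nat_lit 4) (nat_lit 365) (nat_lit 218) (nat_lit 197)) (XT.lf (nat_lit 0) (nat_lit 16015658724) (nat_lit 152) (nat_lit 173678458958) (nat_lit 0) (nat_lit 12916159098) (nat_lit 1) (nat_lit 5) (nat_lit 3) (nat_lit 4) (nat_lit 1) (nat_lit 4) (nat_lit 366) (nat_lit 218) (nat_lit 196))) (XT.nd (nat_lit 78) (nat_lit 0) (nat_lit 0) (XT.lf (nat_lit 0) (nat_lit 6849347599) (nat_lit 152) (nat_lit 18586350819) (nat_lit 0) (nat_lit 6849347599) (nat_lit 4) (nat_lit 5) (nat_lit 6) (nat_lit 4) (nat_lit 4) (nat_lit 4)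 (nat_lit 342) (nat_lit 219) (nat_lit 219)) (XT.lf (nat_lit 0) (nat_lit 19372448405) (nat_lit 152) (nat_lit 29137798283) (nat_lit 0) (nat_lit 19129913725) (nat_lit 4) (nat_lit 5) (nat_lit 6) (nat_lit 4) (nat_lit 4) (nat_lit 4) (nat_lit 343) (nat_lit 219) (nat_lit 218))))) (XT.nd (nat_lit 234) (nat_lit 76) (nat_lit 0) (XT.nd (nat_lit 78) (nat_lit 0) (nat_lit 0) (XT.lf (nat_lit 0) (nat_lit 25164772011) (nat_lit 152) (nat_lit 21012697436) (nat_lit 0) (nat_lit 24691251922) (nat_lit 4) (nat_lit 5) (nat_lit 6) (nat_lit 4) (nat_lit 4) (nat_lit 4) (nat_lit 344) (nat_lit 219) (nat_lit 217)) (XT.nd (nat_lit 78) (nat_lit 0) (nat_lit 0) (XT.lf (nat_lit 0) (nat_lit 31089457262) (nat_lit 152) (nat_lit 12778053621) (nat_lit 0) (nat_lit 30395951069) (nat_lit 4) (nat_lit 5) (nat_lit 6) (nat_lit 4) (nat_lit 4) (nat_lit 4) (nat_lit 345) (nat_lit 219) (nat_lit 216)) (XT.lf (nat_lit 0) (nat_lit 37160610553) (nat_lit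 152) (nat_lit 4414260542) (nat_lit 0) (nat_lit 36257593784) (nat_lit 4) (nat_lit 5) (nat_lit 6) (nat_lit 4) (nat_lit 4) (nat_lit 4) (nat_lit 346) (nat_lit 219) (nat_lit 215)))) (XT.nd (nat_lit 156) (nat_lit 0) (nat_lit 0) (XT.nd (nat_lit 78) (nat_lit 0) (nat_lit 0) (XT.lf (nat_lit 0) (nat_lit 4180165681) (nat_lit 76) (nat_lit 39252703638) (nat_lit 76) (nat_lit 38150152988) (nat_lit 3) (nat_lit 4) (nat_lit 4) (nat_lit 5) (nat_lit 4) (nat_lit 4) (nat_lit 347) (nat_lit 219) (nat_lit 214)) (XT.lf (nat_lit 0) (nat_lit 13035146141) (nat_lit 76) (nat_lit 36890680567) (nat_lit 76) (nat_lit 35598097649) (nat_lit 3) (nat_lit 4) (nat_lit 4) (nat_lit 5) (nat_lit 4) (nat_lit 4) (nat_lit 348) (nat_lit 219) (nat_lit 213))) (XT.nd (nat_lit 78) (nat_lit 0) (nat_lit 0) (XT.lf (nat_lit 0) (nat_lit 22083911683) (nat_lit 76) (nat_lit 34527753394) (nat_lit 76) (nat_lit 33054187365) (nat_lit 3) (nat_lit 4) (nat_lit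 4) (nat_lit 5) (nat_lit 4) (nat_lit 4) (nat_lit 349) (nat_lit 219) (nat_lit 212)) (XT.lf (nat_lit 0) (nat_lit 31348006988) (nat_lit 76) (nat_lit 32158296103) (nat_lit 76) (nat_lit 30512365205) (nat_lit 3) (nat_lit 4) (nat_lit 4) (nat_lit 5) (nat_lit 4) (nat_lit 4) (nat_lit 350) (nat_lit 219) (nat_lit 211)))))) (XT.nd (nat_lit 546) (nat_lit 152) (nat_lit 0) (XT.nd (nat_lit 234) (nat_lit 0) (nat_lit 0) (XT.nd (nat_lit 78) (nat_lit 0) (nat_lit 0) (XT.lf (nat_lit 0) (nat_lit 40849489424) (nat_lit 76) (nat_lit 29776667129) (nat_lit 76) (nat_lit 27966579213) (nat_lit 3) (nat_lit 4) (nat_lit 4) (nat_lit 5) (nat_lit 4) (nat_lit 4) (nat_lit 351) (nat_lit 219) (nat_lit 210)) (XT.nd (nat_lit 78) (nat_lit 0) (nat_lit 0) (XT.lf (nat_lit 0) (nat_lit 50610981570) (nat_lit 76) (nat_lit 27377195926) (nat_lit 76) (nat_lit 25410767992) (nat_lit 3) (nat_lit 4) (nat_lit 4) (nat_lit 5) (nat_lit 4) (nat_lit 4)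 (nat_lit 352) (nat_lit 219) (nat_lit 209)) (XT.lf (nat_lit 0) (nat_lit 60655725073) (nat_lit 76) (nat_lit 24954169467) (nat_lit 76) (nat_lit 22838846280) (nat_lit 3) (nat_lit 4) (nat_lit 4) (nat_lit 5) (nat_lit 4) (nat_lit 4) (nat_lit 353) (nat_lit 219) (nat_lit 208)))) (XT.nd (nat_lit 156) (nat_lit 0) (nat_lit 0) (XT.nd (nat_lit 78) (nat_lit 0) (nat_lit 0) (XT.lf (nat_lit 0) (nat_lit 71007635990) (nat_lit 76) (nat_lit 22501818643) (nat_lit 76) (nat_lit 20244690451) (nat_lit 3) (nat_lit 4) (nat_lit 4) (nat_lit 5) (nat_lit 4) (nat_lit 4) (nat_lit 354) (nat_lit 219) (nat_lit 207)) (XT.lf (nat_lit 0) (nat_lit 81691361727) (nat_lit 76) (nat_lit 20014304522) (nat_lit 76) (nat_lit 17622123945) (nat_lit 3) (nat_lit 4) (nat_lit 4) (nat_lit 5) (nat_lit 4) (nat_lit 4) (nat_lit 355) (nat_lit 219) (nat_lit 206))) (XT.nd (nat_lit 78) (nat_lit 0) (nat_lit 0) (XT.lf (nat_lit 0) (nat_lit 92732339726) (nat_lit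 76) (nat_lit 17485704451) (nat_lit 76) (nat_lit 14964902556) (nat_lit 3) (nat_lit 4) (nat_lit 4) (nat_lit 5) (nat_lit 4) (nat_lit 4) (nat_lit 356) (nat_lit 219) (nat_lit 205)) (XT.lf (nat_lit 0) (nat_lit 104156858030) (nat_lit 76) (nat_lit 14909997955) (nat_lit 76) (nat_lit 12266699565) (nat_lit 3) (nat_lit 4) (nat_lit 4) (nat_lit 5) (nat_lit 4) (nat_lit 4) (nat_lit 357) (nat_lit 219) (nat_lit 204))))) (XT.nd (nat_lit 234) (nat_lit 152) (nat_lit 0) (XT.nd (nat_lit 78) (nat_lit 0) (nat_lit 0) (XT.lf (nat_lit 0) (nat_lit 115992117874) (nat_lit 76) (nat_lit 12281052399) (nat_lit 76) (nat_lit 9521090682) (nat_lit 3) (nat_lit 4) (nat_lit 4) (nat_lit 5) (nat_lit 4) (nat_lit 4) (nat_lit 358) (nat_lit 219) (nat_lit 203)) (XT.nd (nat_lit 78) (nat_lit 0) (nat_lit 0) (XT.lf (nat_lit 0) (nat_lit 128266298447) (nat_lit 76) (nat_lit 9592608389) (nat_lit 76) (nat_lit 6721538740) (nat_lit 3) (nat_lit 4)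 (nat_lit 4) (nat_lit 5) (nat_lit 4) (nat_lit 4) (nat_lit 359) (nat_lit 219) (nat_lit 202)) (XT.lf (nat_lit 0) (nat_lit 141008623989) (nat_lit 76) (nat_lit 6838264867) (nat_lit 76) (nat_lit 3861378141) (nat_lit 3) (nat_lit 4) (nat_lit 4) (nat_lit 5) (nat_lit 4) (nat_lit 4) (nat_lit 360) (nat_lit 219) (nat_lit 201)))) (XT.nd (nat_lit 156) (nat_lit 0) (nat_lit 0) (XT.nd (nat_lit 78) (nat_lit 152) (nat_lit 0) (XT.lf (nat_lit 0) (nat_lit 154249433370) (nat_lit 76) (nat_lit 4011463873) (nat_lit 76) (nat_lit 933798978) (nat_lit 3) (nat_lit 4) (nat_lit 4) (nat_lit 5) (nat_lit 4) (nat_lit 4) (nat_lit 361) (nat_lit 219) (nat_lit 200)) (XT.lf (nat_lit 0) (nat_lit 961577580) (nat_lit 76) (nat_lit 1075477436) (nat_lit 152) (nat_lit 165019629351) (nat_lit 1) (nat_lit 5) (nat_lit 2) (nat_lit 5) (nat_lit 3) (nat_lit 4) (nat_lit 362) (nat_lit 219) (nat_lit 199))) (XT.nd (nat_lit 78) (nat_lit 0) (nat_lit 0)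 (XT.lf (nat_lit 0) (nat_lit 5138967591) (nat_lit 152) (nat_lit 168203472463) (nat_lit 0) (nat_lit 1969013345) (nat_lit 1) (nat_lit 5) (nat_lit 3) (nat_lit 4) (nat_lit 1) (nat_lit 4) (nat_lit 363) (nat_lit 219) (nat_lit 198)) (XT.lf (nat_lit 0) (nat_lit 8341061446) (nat_lit 152) (nat_lit 170552973071) (nat_lit 0) (nat_lit 5086586838) (nat_lit 1) (nat_lit 5) (nat_lit 3) (nat_lit 4) (nat_lit 1) (nat_lit 4) (nat_lit 364) (nat_lit 219) (nat_lit 197))))))))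
noncomputable def xc3 : XT := (XT.nd (nat_lit 40716) (nat_lit 0) (nat_lit 0) (XT.nd (nat_lit 39624) (nat_lit 0) (nat_lit 0) (XT.nd (nat_lit 39078) (nat_lit 0) (nat_lit 152) (XT.nd (nat_lit 38766) (nat_lit 0) (nat_lit 228) (XT.nd (nat_lit 78) (nat_lit 0) (nat_lit 0) (XT.lf (nat_lit 0) (nat_lit 11640622465) (nat_lit 152) (nat_lit 173138864513) (nat_lit 0) (nat_lit 8305652277) (nat_lit 1) (nat_lit 5) (nat_lit 3) (nat_lit 4) (nat_lit 1) (nat_lit 4) (nat_lit 365) (nat_lit 219) (nat_lit 196)) (XT.nd (nat_lit 38610) (nat_lit 0) (nat_lit 228) (XT.lf (nat_lit 0) (nat_lit 15045506748) (nat_lit 152) (nat_lit 175967303674) (nat_lit 0) (nat_lit 11633874101) (nat_lit 1) (nat_lit 5) (nat_lit 3) (nat_lit 4) (nat_lit 1) (nat_lit 4) (nat_lit 366) (nat_lit 219) (nat_lit 195)) (XT.lf (nat_lit 0) (nat_lit 1498288332) (nat_lit 152) (nat_lit 26440358851) (nat_lit 0) (nat_lit 1498288332) (nat_lit 4) (nat_lit 5)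 (nat_lit 6) (nat_lit 4) (nat_lit 4) (nat_lit 4) (nat_lit 340) (nat_lit 220) (nat_lit 220)))) (XT.nd (nat_lit 156) (nat_lit 0) (nat_lit 0) (XT.nd (nat_lit 78) (nat_lit 0) (nat_lit 0) (XT.lf (nat_lit 0) (nat_lit 8384664868) (nat_lit 152) (nat_lit 45136538227) (nat_lit 0) (nat_lit 8130003454) (nat_lit 4) (nat_lit 5) (nat_lit 6) (nat_lit 4) (nat_lit 4) (nat_lit 4) (nat_lit 341) (nat_lit 220) (nat_lit 219)) (XT.lf (nat_lit 0) (nat_lit 13868784356) (nat_lit 152) (nat_lit 37332274840) (nat_lit 0) (nat_lit 13371588263) (nat_lit 4) (nat_lit 5) (nat_lit 6) (nat_lit 4) (nat_lit 4) (nat_lit 4) (nat_lit 342) (nat_lit 220) (nat_lit 218))) (XT.nd (nat_lit 78) (nat_lit 0) (nat_lit 0) (XT.lf (nat_lit 0) (nat_lit 19461992557) (nat_lit 152) (nat_lit 29449345960) (nat_lit 0) (nat_lit 18733811055) (nat_lit 4) (nat_lit 5) (nat_lit 6) (nat_lit 4) (nat_lit 4) (nat_lit 4) (nat_lit 343) (nat_lit 220) (nat_lit 217))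 (XT.lf (nat_lit 0) (nat_lit 25177606634) (nat_lit 152) (nat_lit 21468982711) (nat_lit 0) (nat_lit 24229439027) (nat_lit 4) (nat_lit 5) (nat_lit 6) (nat_lit 4) (nat_lit 4) (nat_lit 4) (nat_lit 344) (nat_lit 220) (nat_lit 216))))) (XT.nd (nat_lit 234) (nat_lit 0) (nat_lit 0) (XT.nd (nat_lit 78) (nat_lit 76) (nat_lit 0) (XT.lf (nat_lit 0) (nat_lit 31029235191) (nat_lit 152) (nat_lit 13372184226) (nat_lit 0) (nat_lit 29871557009) (nat_lit 4) (nat_lit 5) (nat_lit 6) (nat_lit 4) (nat_lit 4) (nat_lit 4) (nat_lit 345) (nat_lit 220) (nat_lit 215)) (XT.nd (nat_lit 78) (nat_lit 76) (nat_lit 0) (XT.lf (nat_lit 0) (nat_lit 37030810677) (nat_lit 152) (nat_lit 5139672414) (nat_lit 0) (nat_lit 35673598614) (nat_lit 4) (nat_lit 5) (nat_lit 6) (nat_lit 4) (nat_lit 4) (nat_lit 4) (nat_lit 346) (nat_lit 220) (nat_lit 214)) (XT.lf (nat_lit 0) (nat_lit 3312798575) (nat_lit 76) (nat_lit 39915668630) (nat_lit 76)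 (nat_lit 38368424299) (nat_lit 3) (nat_lit 4) (nat_lit 4) (nat_lit 5) (nat_lit 4) (nat_lit 4) (nat_lit 347) (nat_lit 220) (nat_lit 213)))) (XT.nd (nat_lit 156) (nat_lit 0) (nat_lit 0) (XT.nd (nat_lit 78) (nat_lit 0) (nat_lit 0) (XT.lf (nat_lit 0) (nat_lit 12046333210) (nat_lit 76) (nat_lit 37610814853) (nat_lit 76) (nat_lit 35882587409) (nat_lit 3) (nat_lit 4) (nat_lit 4) (nat_lit 5) (nat_lit 4) (nat_lit 4) (nat_lit 348) (nat_lit 220) (nat_lit 212)) (XT.lf (nat_lit 0) (nat_lit 20979436062) (nat_lit 76) (nat_lit 35302334627) (nat_lit 76) (nat_lit 33401742315) (nat_lit 3) (nat_lit 4) (nat_lit 4) (nat_lit 5) (nat_lit 4) (nat_lit 4) (nat_lit 349) (nat_lit 220) (nat_lit 211))) (XT.nd (nat_lit 78) (nat_lit 0) (nat_lit 0) (XT.lf (nat_lit 0) (nat_lit 30133376423) (nat_lit 76) (nat_lit 32984731571) (nat_lit 76) (nat_lit 30919982241) (nat_lit 3) (nat_lit 4) (nat_lit 4) (nat_lit 5) (nat_lit 4) (nat_lit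 4) (nat_lit 350) (nat_lit 220) (nat_lit 210)) (XT.lf (nat_lit 0) (nat_lit 39529949391) (nat_lit 76) (nat_lit 30652487582) (nat_lit 76) (nat_lit 28431398234) (nat_lit 3) (nat_lit 4) (nat_lit 4) (nat_lit 5) (nat_lit 4) (nat_lit 4) (nat_lit 351) (nat_lit 220) (nat_lit 209)))))) (XT.nd (nat_lit 546) (nat_lit 152) (nat_lit 0) (XT.nd (nat_lit 234) (nat_lit 0) (nat_lit 0) (XT.nd (nat_lit 78) (nat_lit 0) (nat_lit 0) (XT.lf (nat_lit 0) (nat_lit 49191527756) (nat_lit 76) (nat_lit 28300049698) (nat_lit 76) (nat_lit 25930065096) (nat_lit 3) (nat_lit 4) (nat_lit 4) (nat_lit 5) (nat_lit 4) (nat_lit 4) (nat_lit 352) (nat_lit 220) (nat_lit 208)) (XT.nd (nat_lit 78) (nat_lit 0) (nat_lit 0) (XT.lf (nat_lit 0) (nat_lit 59141115278) (nat_lit 76) (nat_lit 25921816877) (nat_lit 76) (nat_lit 23410027271) (nat_lit 3) (nat_lit 4) (nat_lit 4) (nat_lit 5) (nat_lit 4) (nat_lit 4) (nat_lit 353) (nat_lit 220) (nat_lit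 207)) (XT.lf (nat_lit 0) (nat_lit 69402401450) (nat_lit 76) (nat_lit 23512126659) (nat_lit 76) (nat_lit 20865284669) (nat_lit 3) (nat_lit 4) (nat_lit 4) (nat_lit 5) (nat_lit 4) (nat_lit 4) (nat_lit 354) (nat_lit 220) (nat_lit 206)))) (XT.nd (nat_lit 156) (nat_lit 0) (nat_lit 0) (XT.nd (nat_lit 78) (nat_lit 0) (nat_lit 0) (XT.lf (nat_lit 0) (nat_lit 79999817907) (nat_lit 76) (nat_lit 21065241688) (nat_lit 76) (nat_lit 18289778378) (nat_lit 3) (nat_lit 4) (nat_lit 4) (nat_lit 5) (nat_lit 4) (nat_lit 4) (nat_lit 355) (nat_lit 220) (nat_lit 205)) (XT.lf (nat_lit 0) (nat_lit 90958596591) (nat_lit 76) (nat_lit 18575336046) (nat_lit 76) (nat_lit 15677376242) (nat_lit 3) (nat_lit 4) (nat_lit 4) (nat_lit 5) (nat_lit 4) (nat_lit 4) (nat_lit 356) (nat_lit 220) (nat_lit 204))) (XT.nd (nat_lit 78) (nat_lit 0) (nat_lit 0) (XT.lf (nat_lit 0) (nat_lit 102304829834) (nat_lit 76) (nat_lit 16036481386) (nat_lit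 76) (nat_lit 13021858255) (nat_lit 3) (nat_lit 4) (nat_lit 4) (nat_lit 5) (nat_lit 4) (nat_lit 4) (nat_lit 357) (nat_lit 220) (nat_lit 203)) (XT.lf (nat_lit 0) (nat_lit 114065532476) (nat_lit 76) (nat_lit 13442632817) (nat_lit 76) (nat_lit 10316901755) (nat_lit 3) (nat_lit 4) (nat_lit 4) (nat_lit 5) (nat_lit 4) (nat_lit 4) (nat_lit 358) (nat_lit 220) (nat_lit 202))))) (XT.nd (nat_lit 234) (nat_lit 152) (nat_lit 0) (XT.nd (nat_lit 78) (nat_lit 0) (nat_lit 0) (XT.lf (nat_lit 0) (nat_lit 126268706191) (nat_lit 76) (nat_lit 10787614509) (nat_lit 76) (nat_lit 7556066369) (nat_lit 3) (nat_lit 4) (nat_lit 4) (nat_lit 5) (nat_lit 4) (nat_lit 4) (nat_lit 359) (nat_lit 220) (nat_lit 201)) (XT.nd (nat_lit 78) (nat_lit 0) (nat_lit 0) (XT.lf (nat_lit 0) (nat_lit 138943406153) (nat_lit 76) (nat_lit 8065104989) (nat_lit 76) (nat_lit 4732778680) (nat_lit 3) (nat_lit 4) (nat_lit 4) (nat_lit 5) (nat_lit 4)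 (nat_lit 4) (nat_lit 360) (nat_lit 220) (nat_lit 200)) (XT.lf (nat_lit 0) (nat_lit 152119810221) (nat_lit 76) (nat_lit 5268622092) (nat_lit 76) (nat_lit 1840316575) (nat_lit 3) (nat_lit 4) (nat_lit 4) (nat_lit 5) (nat_lit 4) (nat_lit 4) (nat_lit 361) (nat_lit 220) (nat_lit 199)))) (XT.nd (nat_lit 156) (nat_lit 0) (nat_lit 0) (XT.nd (nat_lit 78) (nat_lit 76) (nat_lit 0) (XT.lf (nat_lit 0) (nat_lit 1106191383) (nat_lit 152) (nat_lit 1274145778) (nat_lit 76) (nat_lit 164711929036) (nat_lit 2) (nat_lit 5) (nat_lit 4) (nat_lit 5) (nat_lit 3) (nat_lit 4) (nat_lit 362) (nat_lit 220) (nat_lit 198)) (XT.lf (nat_lit 0) (nat_lit 4150862908) (nat_lit 152) (nat_lit 170548751705) (nat_lit 0) (nat_lit 649144210) (nat_lit 1) (nat_lit 5) (nat_lit 3) (nat_lit 4) (nat_lit 1) (nat_lit 4) (nat_lit 363) (nat_lit 220) (nat_lit 197))) (XT.nd (nat_lit 78) (nat_lit 0) (nat_lit 0) (XT.lf (nat_lit 0) (nat_lit 7322401871)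 (nat_lit 152) (nat_lit 172956260023) (nat_lit 0) (nat_lit 3740187591) (nat_lit 1) (nat_lit 5) (nat_lit 3) (nat_lit 4) (nat_lit 1) (nat_lit 4) (nat_lit 364) (nat_lit 220) (nat_lit 196)) (XT.lf (nat_lit 0) (nat_lit 10592862994) (nat_lit 152) (nat_lit 175597396902) (nat_lit 0) (nat_lit 6933986256) (nat_lit 1) (nat_lit 5) (nat_lit 3) (nat_lit 4) (nat_lit 1) (nat_lit 4) (nat_lit 365) (nat_lit 220) (nat_lit 195))))))) (XT.nd (nat_lit 39468) (nat_lit 0) (nat_lit 0) (XT.nd (nat_lit 38922) (nat_lit 0) (nat_lit 152) (XT.nd (nat_lit 38610) (nat_lit 0) (nat_lit 228) (XT.nd (nat_lit 38454) (nat_lit 0) (nat_lit 380) (XT.lf (nat_lit 0) (nat_lit 13970033089) (nat_lit 152) (nat_lit 178478450765) (nat_lit 0) (nat_lit 10238144486) (nat_lit 1) (nat_lit 5) (nat_lit 3) (nat_lit 4) (nat_lit 1) (nat_lit 4) (nat_lit 366) (nat_lit 220) (nat_lit 194)) (XT.nd (nat_lit 78) (nat_lit 0) (nat_lit 0) (XT.lf (nat_lit 0) (nat_lit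 19745548646) (nat_lit 76) (nat_lit 3555787933) (nat_lit 76) (nat_lit 3555787933) (nat_lit 6) (nat_lit 4) (nat_lit 7) (nat_lit 5) (nat_lit 7) (nat_lit 4) (nat_lit 338) (nat_lit 221) (nat_lit 221)) (XT.lf (nat_lit 0) (nat_lit 51924922965) (nat_lit 76) (nat_lit 2291000226) (nat_lit 76) (nat_lit 2015583907) (nat_lit 6) (nat_lit 4) (nat_lit 7) (nat_lit 5) (nat_lit 7) (nat_lit 4) (nat_lit 339) (nat_lit 221) (nat_lit 220)))) (XT.nd (nat_lit 156) (nat_lit 0) (nat_lit 0) (XT.nd (nat_lit 78) (nat_lit 0) (nat_lit 0) (XT.lf (nat_lit 0) (nat_lit 3175170281) (nat_lit 152) (nat_lit 53048269563) (nat_lit 0) (nat_lit 2653114383) (nat_lit 4) (nat_lit 5) (nat_lit 6) (nat_lit 4) (nat_lit 4) (nat_lit 4) (nat_lit 340) (nat_lit 221) (nat_lit 219)) (XT.lf (nat_lit 0) (nat_lit 8478686228) (nat_lit 152) (nat_lit 45463663289) (nat_lit 0) (nat_lit 7714095650) (nat_lit 4) (nat_lit 5) (nat_lit 6) (nat_lit 4) (nat_lit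 4) (nat_lit 4) (nat_lit 341) (nat_lit 221) (nat_lit 218))) (XT.nd (nat_lit 78) (nat_lit 0) (nat_lit 0) (XT.lf (nat_lit 0) (nat_lit 13882260710) (nat_lit 152) (nat_lit 37811374378) (nat_lit 0) (nat_lit 12886684723) (nat_lit 4) (nat_lit 5) (nat_lit 6) (nat_lit 4) (nat_lit 4) (nat_lit 4) (nat_lit 342) (nat_lit 221) (nat_lit 217)) (XT.lf (nat_lit 0) (nat_lit 19398759383) (nat_lit 152) (nat_lit 30073183095) (nat_lit 0) (nat_lit 18183197291) (nat_lit 4) (nat_lit 5) (nat_lit 6) (nat_lit 4) (nat_lit 4) (nat_lit 4) (nat_lit 343) (nat_lit 221) (nat_lit 216))))) (XT.nd (nat_lit 234) (nat_lit 76) (nat_lit 0) (XT.nd (nat_lit 78) (nat_lit 0) (nat_lit 0) (XT.lf (nat_lit 0) (nat_lit 25041316765) (nat_lit 152) (nat_lit 22230665176) (nat_lit 0) (nat_lit 23616244098) (nat_lit 4) (nat_lit 5) (nat_lit 6) (nat_lit 4) (nat_lit 4) (nat_lit 4) (nat_lit 344) (nat_lit 221) (nat_lit 215)) (XT.nd (nat_lit 78) (nat_lit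 0) (nat_lit 0) (XT.lf (nat_lit 0) (nat_lit 30823367518) (nat_lit 152) (nat_lit 14265147958) (nat_lit 0) (nat_lit 29198760970) (nat_lit 4) (nat_lit 5) (nat_lit 6) (nat_lit 4) (nat_lit 4) (nat_lit 4) (nat_lit 345) (nat_lit 221) (nat_lit 214)) (XT.lf (nat_lit 0) (nat_lit 36758678429) (nat_lit 152) (nat_lit 6157665925) (nat_lit 0) (nat_lit 34944039613) (nat_lit 4) (nat_lit 5) (nat_lit 6) (nat_lit 4) (nat_lit 4) (nat_lit 4) (nat_lit 346) (nat_lit 221) (nat_lit 213)))) (XT.nd (nat_lit 156) (nat_lit 0) (nat_lit 0) (XT.nd (nat_lit 78) (nat_lit 0) (nat_lit 0) (XT.lf (nat_lit 0) (nat_lit 2153099172) (nat_lit 76) (nat_lit 40728978924) (nat_lit 76) (nat_lit 38733356996) (nat_lit 3) (nat_lit 4) (nat_lit 4) (nat_lit 5) (nat_lit 4) (nat_lit 4) (nat_lit 347) (nat_lit 221) (nat_lit 212)) (XT.lf (nat_lit 0) (nat_lit 10770971117) (nat_lit 76) (nat_lit 38478572093) (nat_lit 76) (nat_lit 36310585297) (nat_lit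 3) (nat_lit 4) (nat_lit 4) (nat_lit 5) (nat_lit 4) (nat_lit 4) (nat_lit 348) (nat_lit 221) (nat_lit 211))) (XT.nd (nat_lit 78) (nat_lit 0) (nat_lit 0) (XT.lf (nat_lit 0) (nat_lit 19593919027) (nat_lit 76) (nat_lit 36221946102) (nat_lit 76) (nat_lit 33889802288) (nat_lit 3) (nat_lit 4) (nat_lit 4) (nat_lit 5) (nat_lit 4) (nat_lit 4) (nat_lit 349) (nat_lit 221) (nat_lit 210)) (XT.lf (nat_lit 0) (nat_lit 28642949919) (nat_lit 76) (nat_lit 33953728031) (nat_lit 76) (nat_lit 31465244200) (nat_lit 3) (nat_lit 4) (nat_lit 4) (nat_lit 5) (nat_lit 4) (nat_lit 4) (nat_lit 350) (nat_lit 221) (nat_lit 209)))))) (XT.nd (nat_lit 546) (nat_lit 152) (nat_lit 0) (XT.nd (nat_lit 234) (nat_lit 0) (nat_lit 0) (XT.nd (nat_lit 78) (nat_lit 0) (nat_lit 0) (XT.lf (nat_lit 0) (nat_lit 37939609105) (nat_lit 76) (nat_lit 31668517361) (nat_lit 76) (nat_lit 29031138276) (nat_lit 3) (nat_lit 4) (nat_lit 4) (nat_lit 5)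 (nat_lit 4) (nat_lit 4) (nat_lit 351) (nat_lit 221) (nat_lit 208)) (XT.nd (nat_lit 78) (nat_lit 0) (nat_lit 0) (XT.lf (nat_lit 0) (nat_lit 47506031489) (nat_lit 76) (nat_lit 29360873115) (nat_lit 76) (nat_lit 26581689025) (nat_lit 3) (nat_lit 4) (nat_lit 4) (nat_lit 5) (nat_lit 4) (nat_lit 4) (nat_lit 352) (nat_lit 221) (nat_lit 207)) (XT.lf (nat_lit 0) (nat_lit 57364994267) (nat_lit 76) (nat_lit 27025300901) (nat_lit 76) (nat_lit 24111064426) (nat_lit 3) (nat_lit 4) (nat_lit 4) (nat_lit 5) (nat_lit 4) (nat_lit 4) (nat_lit 353) (nat_lit 221) (nat_lit 206)))) (XT.nd (nat_lit 156) (nat_lit 0) (nat_lit 0) (XT.nd (nat_lit 78) (nat_lit 0) (nat_lit 0) (XT.lf (nat_lit 0) (nat_lit 67539971159) (nat_lit 76) (nat_lit 24656239833) (nat_lit 76) (nat_lit 21613382040) (nat_lit 3) (nat_lit 4) (nat_lit 4) (nat_lit 5) (nat_lit 4) (nat_lit 4) (nat_lit 354) (nat_lit 221) (nat_lit 205)) (XT.lf (nat_lit 0) (nat_lit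 78055188301) (nat_lit 76) (nat_lit 22248049290) (nat_lit 76) (nat_lit 19082695002) (nat_lit 3) (nat_lit 4) (nat_lit 4) (nat_lit 5) (nat_lit 4) (nat_lit 4) (nat_lit 355) (nat_lit 221) (nat_lit 204))) (XT.nd (nat_lit 78) (nat_lit 0) (nat_lit 0) (XT.lf (nat_lit 0) (nat_lit 88935681924) (nat_lit 76) (nat_lit 19794995485) (nat_lit 76) (nat_lit 16512977869) (nat_lit 3) (nat_lit 4) (nat_lit 4) (nat_lit 5) (nat_lit 4) (nat_lit 4) (nat_lit 356) (nat_lit 221) (nat_lit 203)) (XT.lf (nat_lit 0) (nat_lit 100207357966) (nat_lit 76) (nat_lit 17291237812) (nat_lit 76) (nat_lit 13898112265) (nat_lit 3) (nat_lit 4) (nat_lit 4) (nat_lit 5) (nat_lit 4) (nat_lit 4) (nat_lit 357) (nat_lit 221) (nat_lit 202))))) (XT.nd (nat_lit 234) (nat_lit 152) (nat_lit 0) (XT.nd (nat_lit 78) (nat_lit 0) (nat_lit 0) (XT.lf (nat_lit 0) (nat_lit 111897053749) (nat_lit 76) (nat_lit 14730814945) (nat_lit 76) (nat_lit 11231872321)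 (nat_lit 3) (nat_lit 4) (nat_lit 4) (nat_lit 5) (nat_lit 4) (nat_lit 4) (nat_lit 358) (nat_lit 221) (nat_lit 201)) (XT.nd (nat_lit 78) (nat_lit 0) (nat_lit 0) (XT.lf (nat_lit 0) (nat_lit 124032601885) (nat_lit 76) (nat_lit 12107630639) (nat_lit 76) (nat_lit 8507909845) (nat_lit 3) (nat_lit 4) (nat_lit 4) (nat_lit 5) (nat_lit 4) (nat_lit 4) (nat_lit 359) (nat_lit 221) (nat_lit 200)) (XT.lf (nat_lit 0) (nat_lit 136642896533) (nat_lit 76) (nat_lit 9415439216) (nat_lit 76) (nat_lit 5719739214) (nat_lit 3) (nat_lit 4) (nat_lit 4) (nat_lit 5) (nat_lit 4) (nat_lit 4) (nat_lit 360) (nat_lit 221) (nat_lit 199)))) (XT.nd (nat_lit 156) (nat_lit 76) (nat_lit 0) (XT.nd (nat_lit 78) (nat_lit 76) (nat_lit 0) (XT.lf (nat_lit 0) (nat_lit 149757962207) (nat_lit 76) (nat_lit 6647830697) (nat_lit 76) (nat_lit 2860721925) (nat_lit 3) (nat_lit 4) (nat_lit 4) (nat_lit 5) (nat_lit 4) (nat_lit 4) (nat_lit 361) (nat_lit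 221) (nat_lit 198)) (XT.lf (nat_lit 0) (nat_lit 74467161) (nat_lit 152) (nat_lit 3722996404) (nat_lit 76) (nat_lit 163333806117) (nat_lit 2) (nat_lit 5) (nat_lit 4) (nat_lit 5) (nat_lit 3) (nat_lit 4) (nat_lit 362) (nat_lit 221) (nat_lit 197))) (XT.nd (nat_lit 78) (nat_lit 0) (nat_lit 0) (XT.lf (nat_lit 0) (nat_lit 2251621740) (nat_lit 76) (nat_lit 806849654) (nat_lit 152) (nat_lit 172331116991) (nat_lit 1) (nat_lit 5) (nat_lit 2) (nat_lit 5) (nat_lit 3) (nat_lit 4) (nat_lit 363) (nat_lit 221) (nat_lit 196)) (XT.lf (nat_lit 0) (nat_lit 6193154529) (nat_lit 152) (nat_lit 175592964468) (nat_lit 0) (nat_lit 2274671495) (nat_lit 1) (nat_lit 5) (nat_lit 3) (nat_lit 4) (nat_lit 1) (nat_lit 4) (nat_lit 364) (nat_lit 221) (nat_lit 195))))))))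
noncomputable def xc4 : XT := (XT.nd (nat_lit 40326) (nat_lit 0) (nat_lit 0) (XT.nd (nat_lit 39234) (nat_lit 0) (nat_lit 152) (XT.nd (nat_lit 38688) (nat_lit 0) (nat_lit 228) (XT.nd (nat_lit 38454) (nat_lit 0) (nat_lit 380) (XT.nd (nat_lit 78) (nat_lit 0) (nat_lit 0) (XT.lf (nat_lit 0) (nat_lit 9435901465) (nat_lit 152) (nat_lit 178286716050) (nat_lit 0) (nat_lit 5444406566) (nat_lit 1) (nat_lit 5) (nat_lit 3) (nat_lit 4) (nat_lit 1) (nat_lit 4) (nat_lit 365) (nat_lit 221) (nat_lit 194)) (XT.nd (nat_lit 38298) (nat_lit 0) (nat_lit 380) (XT.lf (nat_lit 0) (nat_lit 12786677097) (nat_lit 152) (nat_lit 181217879153) (nat_lit 0) (nat_lit 8725647088) (nat_lit 1) (nat_lit 5) (nat_lit 3) (nat_lit 4) (nat_lit 1) (nat_lit 4) (nat_lit 366) (nat_lit 221) (nat_lit 193)) (XT.lf (nat_lit 0) (nat_lit 7779886481) (nat_lit 76) (nat_lit 8371733455) (nat_lit 76) (nat_lit 8371733455) (nat_lit 6) (nat_lit 4) (nat_lit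 7) (nat_lit 5) (nat_lit 7) (nat_lit 4) (nat_lit 336) (nat_lit 222) (nat_lit 222)))) (XT.nd (nat_lit 78) (nat_lit 0) (nat_lit 0) (XT.lf (nat_lit 0) (nat_lit 27319995958) (nat_lit 76) (nat_lit 12145678098) (nat_lit 76) (nat_lit 11856490963) (nat_lit 6) (nat_lit 4) (nat_lit 7) (nat_lit 5) (nat_lit 7) (nat_lit 4) (nat_lit 337) (nat_lit 222) (nat_lit 221)) (XT.nd (nat_lit 78) (nat_lit 0) (nat_lit 0) (XT.lf (nat_lit 0) (nat_lit 39322399376) (nat_lit 76) (nat_lit 7479585056) (nat_lit 76) (nat_lit 6914981602) (nat_lit 6) (nat_lit 4) (nat_lit 7) (nat_lit 5) (nat_lit 7) (nat_lit 4) (nat_lit 338) (nat_lit 222) (nat_lit 220)) (XT.lf (nat_lit 0) (nat_lit 51595560366) (nat_lit 76) (nat_lit 2734078036) (nat_lit 76) (nat_lit 1907173326) (nat_lit 6) (nat_lit 4) (nat_lit 7) (nat_lit 5) (nat_lit 7) (nat_lit 4) (nat_lit 339) (nat_lit 222) (nat_lit 219))))) (XT.nd (nat_lit 234) (nat_lit 0) (nat_lit 0) (XT.nd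 (nat_lit 78) (nat_lit 0) (nat_lit 0) (XT.lf (nat_lit 0) (nat_lit 3189320453) (nat_lit 152) (nat_lit 53551324078) (nat_lit 0) (nat_lit 2143965667) (nat_lit 4) (nat_lit 5) (nat_lit 6) (nat_lit 4) (nat_lit 4) (nat_lit 4) (nat_lit 340) (nat_lit 222) (nat_lit 218)) (XT.nd (nat_lit 78) (nat_lit 0) (nat_lit 0) (XT.lf (nat_lit 0) (nat_lit 8412291394) (nat_lit 152) (nat_lit 46118692280) (nat_lit 0) (nat_lit 7135951199) (nat_lit 4) (nat_lit 5) (nat_lit 6) (nat_lit 4) (nat_lit 4) (nat_lit 4) (nat_lit 341) (nat_lit 222) (nat_lit 217)) (XT.lf (nat_lit 0) (nat_lit 13739156348) (nat_lit 152) (nat_lit 38611140967) (nat_lit 0) (nat_lit 12242830048) (nat_lit 4) (nat_lit 5) (nat_lit 6) (nat_lit 4) (nat_lit 4) (nat_lit 4) (nat_lit 342) (nat_lit 222) (nat_lit 216)))) (XT.nd (nat_lit 156) (nat_lit 0) (nat_lit 0) (XT.nd (nat_lit 78) (nat_lit 0) (nat_lit 0) (XT.lf (nat_lit 0) (nat_lit 19182598326) (nat_lit 152)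 (nat_lit 31010795014) (nat_lit 0) (nat_lit 17476761451) (nat_lit 4) (nat_lit 5) (nat_lit 6) (nat_lit 4) (nat_lit 4) (nat_lit 4) (nat_lit 343) (nat_lit 222) (nat_lit 215)) (XT.lf (nat_lit 0) (nat_lit 24755577904) (nat_lit 152) (nat_lit 23299558362) (nat_lit 0) (nat_lit 22850207148) (nat_lit 4) (nat_lit 5) (nat_lit 6) (nat_lit 4) (nat_lit 4) (nat_lit 4) (nat_lit 344) (nat_lit 222) (nat_lit 214))) (XT.nd (nat_lit 78) (nat_lit 0) (nat_lit 0) (XT.lf (nat_lit 0) (nat_lit 30471364081) (nat_lit 152) (nat_lit 15459070922) (nat_lit 0) (nat_lit 28375961057) (nat_lit 4) (nat_lit 5) (nat_lit 6) (nat_lit 4) (nat_lit 4) (nat_lit 4) (nat_lit 345) (nat_lit 222) (nat_lit 213)) (XT.lf (nat_lit 0) (nat_lit 36343565873) (nat_lit 152) (nat_lit 7470664868) (nat_lit 0) (nat_lit 34067179737) (nat_lit 4) (nat_lit 5) (nat_lit 6) (nat_lit 4) (nat_lit 4) (nat_lit 4) (nat_lit 346) (nat_lit 222) (nat_lit 212)))))) (XT.nd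 (nat_lit 546) (nat_lit 0) (nat_lit 0) (XT.nd (nat_lit 234) (nat_lit 0) (nat_lit 0) (XT.nd (nat_lit 78) (nat_lit 0) (nat_lit 0) (XT.lf (nat_lit 0) (nat_lit 698306285) (nat_lit 76) (nat_lit 41694570973) (nat_lit 76) (nat_lit 39245819968) (nat_lit 3) (nat_lit 4) (nat_lit 4) (nat_lit 5) (nat_lit 4) (nat_lit 4) (nat_lit 347) (nat_lit 222) (nat_lit 211)) (XT.nd (nat_lit 78) (nat_lit 0) (nat_lit 0) (XT.lf (nat_lit 0) (nat_lit 9206023287) (nat_lit 76) (nat_lit 39496018377) (nat_lit 76) (nat_lit 36883110354) (nat_lit 3) (nat_lit 4) (nat_lit 4) (nat_lit 5) (nat_lit 4) (nat_lit 4) (nat_lit 348) (nat_lit 222) (nat_lit 210)) (XT.lf (nat_lit 0) (nat_lit 17924061727) (nat_lit 76) (nat_lit 37288777371) (nat_lit 76) (nat_lit 34519529331) (nat_lit 3) (nat_lit 4) (nat_lit 4) (nat_lit 5) (nat_lit 4) (nat_lit 4) (nat_lit 349) (nat_lit 222) (nat_lit 209)))) (XT.nd (nat_lit 156) (nat_lit 0) (nat_lit 0) (XT.nd (nat_lit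 78) (nat_lit 0) (nat_lit 0) (XT.lf (nat_lit 0) (nat_lit 26873178838) (nat_lit 76) (nat_lit 35067592619) (nat_lit 76) (nat_lit 32149449325) (nat_lit 3) (nat_lit 4) (nat_lit 4) (nat_lit 5) (nat_lit 4) (nat_lit 4) (nat_lit 350) (nat_lit 222) (nat_lit 208)) (XT.lf (nat_lit 0) (nat_lit 36074682044) (nat_lit 76) (nat_lit 32827175587) (nat_lit 76) (nat_lit 29767227289) (nat_lit 3) (nat_lit 4) (nat_lit 4) (nat_lit 5) (nat_lit 4) (nat_lit 4) (nat_lit 351) (nat_lit 222) (nat_lit 207))) (XT.nd (nat_lit 78) (nat_lit 0) (nat_lit 0) (XT.lf (nat_lit 0) (nat_lit 45550479684) (nat_lit 76) (nat_lit 30562191948) (nat_lit 76) (nat_lit 27367191265) (nat_lit 3) (nat_lit 4) (nat_lit 4) (nat_lit 5) (nat_lit 4) (nat_lit 4) (nat_lit 352) (nat_lit 222) (nat_lit 206)) (XT.lf (nat_lit 0) (nat_lit 55323133181) (nat_lit 76) (nat_lit 28267248884) (nat_lit 76) (nat_lit 24943626881) (nat_lit 3) (nat_lit 4) (nat_lit 4) (nat_lit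 5) (nat_lit 4) (nat_lit 4) (nat_lit 353) (nat_lit 222) (nat_lit 205))))) (XT.nd (nat_lit 234) (nat_lit 0) (nat_lit 0) (XT.nd (nat_lit 78) (nat_lit 0) (nat_lit 0) (XT.lf (nat_lit 0) (nat_lit 65415910758) (nat_lit 76) (nat_lit 25936882244) (nat_lit 76) (nat_lit 22490763748) (nat_lit 3) (nat_lit 4) (nat_lit 4) (nat_lit 5) (nat_lit 4) (nat_lit 4) (nat_lit 354) (nat_lit 222) (nat_lit 204)) (XT.nd (nat_lit 78) (nat_lit 0) (nat_lit 0) (XT.lf (nat_lit 0) (nat_lit 75852842839) (nat_lit 76) (nat_lit 23565543538) (nat_lit 76) (nat_lit 20002761713) (nat_lit 3) (nat_lit 4) (nat_lit 4) (nat_lit 5) (nat_lit 4) (nat_lit 4) (nat_lit 355) (nat_lit 222) (nat_lit 203)) (XT.lf (nat_lit 0) (nat_lit 86658779261) (nat_lit 76) (nat_lit 21147586719) (nat_lit 76) (nat_lit 17473696963) (nat_lit 3) (nat_lit 4) (nat_lit 4) (nat_lit 5) (nat_lit 4) (nat_lit 4) (nat_lit 356) (nat_lit 222) (nat_lit 202)))) (XT.nd (nat_lit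 156) (nat_lit 0) (nat_lit 0) (XT.nd (nat_lit 78) (nat_lit 0) (nat_lit 0) (XT.lf (nat_lit 0) (nat_lit 97859448444) (nat_lit 76) (nat_lit 18677254749) (nat_lit 76) (nat_lit 14897547915) (nat_lit 3) (nat_lit 4) (nat_lit 4) (nat_lit 5) (nat_lit 4) (nat_lit 4) (nat_lit 357) (nat_lit 222) (nat_lit 201)) (XT.lf (nat_lit 0) (nat_lit 109481518648) (nat_lit 76) (nat_lit 16148665884) (nat_lit 76) (nat_lit 12268180881) (nat_lit 3) (nat_lit 4) (nat_lit 4) (nat_lit 5) (nat_lit 4) (nat_lit 4) (nat_lit 358) (nat_lit 222) (nat_lit 200))) (XT.nd (nat_lit 78) (nat_lit 0) (nat_lit 0) (XT.lf (nat_lit 0) (nat_lit 121552661470) (nat_lit 76) (nat_lit 13555799674) (nat_lit 76) (nat_lit 9579335464) (nat_lit 3) (nat_lit 4) (nat_lit 4) (nat_lit 5) (nat_lit 4) (nat_lit 4) (nat_lit 359) (nat_lit 222) (nat_lit 199)) (XT.lf (nat_lit 0) (nat_lit 134101617724) (nat_lit 76) (nat_lit 10892482629) (nat_lit 76) (nat_lit 6824609649)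 (nat_lit 3) (nat_lit 4) (nat_lit 4) (nat_lit 5) (nat_lit 4) (nat_lit 4) (nat_lit 360) (nat_lit 222) (nat_lit 198))))))) (XT.nd (nat_lit 39156) (nat_lit 0) (nat_lit 152) (XT.nd (nat_lit 38610) (nat_lit 0) (nat_lit 228) (XT.nd (nat_lit 234) (nat_lit 76) (nat_lit 0) (XT.nd (nat_lit 78) (nat_lit 76) (nat_lit 0) (XT.lf (nat_lit 0) (nat_lit 147158265880) (nat_lit 76) (nat_lit 8152373518) (nat_lit 76) (nat_lit 3997444566) (nat_lit 3) (nat_lit 4) (nat_lit 4) (nat_lit 5) (nat_lit 4) (nat_lit 4) (nat_lit 361) (nat_lit 222) (nat_lit 197)) (XT.nd (nat_lit 78) (nat_lit 76) (nat_lit 0) (XT.lf (nat_lit 0) (nat_lit 160753693193) (nat_lit 76) (nat_lit 5328948272) (nat_lit 76) (nat_lit 1091108871) (nat_lit 3) (nat_lit 4) (nat_lit 4) (nat_lit 5) (nat_lit 4) (nat_lit 4) (nat_lit 362) (nat_lit 222) (nat_lit 196)) (XT.lf (nat_lit 0) (nat_lit 1864215736) (nat_lit 152) (nat_lit 532443789) (nat_lit 76) (nat_lit 173037229069)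 (nat_lit 2) (nat_lit 5) (nat_lit 4) (nat_lit 5) (nat_lit 3) (nat_lit 4) (nat_lit 363) (nat_lit 222) (nat_lit 195)))) (XT.nd (nat_lit 156) (nat_lit 0) (nat_lit 0) (XT.nd (nat_lit 78) (nat_lit 0) (nat_lit 0) (XT.lf (nat_lit 0) (nat_lit 4950630737) (nat_lit 152) (nat_lit 178469364276) (nat_lit 0) (nat_lit 686549227) (nat_lit 1) (nat_lit 5) (nat_lit 3) (nat_lit 4) (nat_lit 1) (nat_lit 4) (nat_lit 364) (nat_lit 222) (nat_lit 194)) (XT.lf (nat_lit 0) (nat_lit 8166983209) (nat_lit 152) (nat_lit 181213225098) (nat_lit 0) (nat_lit 3833366589) (nat_lit 1) (nat_lit 5) (nat_lit 3) (nat_lit 4) (nat_lit 1) (nat_lit 4) (nat_lit 365) (nat_lit 222) (nat_lit 193))) (XT.nd (nat_lit 38142) (nat_lit 0) (nat_lit 456) (XT.lf (nat_lit 0) (nat_lit 11492621256) (nat_lit 152) (nat_lit 184192111287) (nat_lit 0) (nat_lit 7092780722) (nat_lit 1) (nat_lit 5) (nat_lit 3) (nat_lit 4) (nat_lit 1) (nat_lit 4) (nat_lit 366)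 (nat_lit 222) (nat_lit 192)) (XT.lf (nat_lit 0) (nat_lit 9451858609) (nat_lit 152) (nat_lit 3509962113) (nat_lit 0) (nat_lit 9451858609) (nat_lit 7) (nat_lit 5) (nat_lit 9) (nat_lit 4) (nat_lit 7) (nat_lit 4) (nat_lit 334) (nat_lit 223) (nat_lit 223))))) (XT.nd (nat_lit 234) (nat_lit 152) (nat_lit 0) (XT.nd (nat_lit 78) (nat_lit 0) (nat_lit 0) (XT.lf (nat_lit 0) (nat_lit 4013729857) (nat_lit 76) (nat_lit 21587545097) (nat_lit 76) (nat_lit 21283898606) (nat_lit 6) (nat_lit 4) (nat_lit 7) (nat_lit 5) (nat_lit 7) (nat_lit 4) (nat_lit 335) (nat_lit 223) (nat_lit 222)) (XT.nd (nat_lit 78) (nat_lit 0) (nat_lit 0) (XT.lf (nat_lit 0) (nat_lit 15382640150) (nat_lit 76) (nat_lit 17129876557) (nat_lit 76) (nat_lit 16537042931) (nat_lit 6) (nat_lit 4) (nat_lit 7) (nat_lit 5) (nat_lit 7) (nat_lit 4) (nat_lit 336) (nat_lit 223) (nat_lit 221)) (XT.lf (nat_lit 0) (nat_lit 26974165230) (nat_lit 76) (nat_lit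 12610909799) (nat_lit 76) (nat_lit 11742659854) (nat_lit 6) (nat_lit 4) (nat_lit 7) (nat_lit 5) (nat_lit 7) (nat_lit 4) (nat_lit 337) (nat_lit 223) (nat_lit 220)))) (XT.nd (nat_lit 156) (nat_lit 152) (nat_lit 0) (XT.nd (nat_lit 78) (nat_lit 0) (nat_lit 0) (XT.lf (nat_lit 0) (nat_lit 38815903966) (nat_lit 76) (nat_lit 8019885378) (nat_lit 76) (nat_lit 6889334177) (nat_lit 6) (nat_lit 4) (nat_lit 7) (nat_lit 5) (nat_lit 7) (nat_lit 4) (nat_lit 338) (nat_lit 223) (nat_lit 219)) (XT.lf (nat_lit 0) (nat_lit 50936050973) (nat_lit 76) (nat_lit 3345872285) (nat_lit 76) (nat_lit 1965510363) (nat_lit 6) (nat_lit 4) (nat_lit 7) (nat_lit 5) (nat_lit 7) (nat_lit 4) (nat_lit 339) (nat_lit 223) (nat_lit 218))) (XT.nd (nat_lit 78) (nat_lit 0) (nat_lit 0) (XT.lf (nat_lit 0) (nat_lit 3039060873) (nat_lit 152) (nat_lit 54391078996) (nat_lit 0) (nat_lit 1467918258) (nat_lit 4) (nat_lit 5) (nat_lit 6) (nat_lit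 4) (nat_lit 4) (nat_lit 4) (nat_lit 340) (nat_lit 223) (nat_lit 217)) (XT.lf (nat_lit 0) (nat_lit 8185322285) (nat_lit 152) (nat_lit 47103184795) (nat_lit 0) (nat_lit 6394193566) (nat_lit 4) (nat_lit 5) (nat_lit 6) (nat_lit 4) (nat_lit 4) (nat_lit 4) (nat_lit 341) (nat_lit 223) (nat_lit 216)))))) (XT.nd (nat_lit 546) (nat_lit 0) (nat_lit 0) (XT.nd (nat_lit 234) (nat_lit 76) (nat_lit 0) (XT.nd (nat_lit 78) (nat_lit 0) (nat_lit 0) (XT.lf (nat_lit 0) (nat_lit 13439130544) (nat_lit 152) (nat_lit 39733478812) (nat_lit 0) (nat_lit 11438491250) (nat_lit 4) (nat_lit 5) (nat_lit 6) (nat_lit 4) (nat_lit 4) (nat_lit 4) (nat_lit 342) (nat_lit 223) (nat_lit 215)) (XT.nd (nat_lit 78) (nat_lit 0) (nat_lit 0) (XT.lf (nat_lit 0) (nat_lit 18812994718) (nat_lit 152) (nat_lit 32264414127) (nat_lit 0) (nat_lit 16612821542) (nat_lit 4) (nat_lit 5) (nat_lit 6) (nat_lit 4) (nat_lit 4) (nat_lit 4) (nat_lit 343) (nat_lit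 223) (nat_lit 214)) (XT.lf (nat_lit 0) (nat_lit 24319709720) (nat_lit 152) (nat_lit 24678207253) (nat_lit 0) (nat_lit 21929504277) (nat_lit 4) (nat_lit 5) (nat_lit 6) (nat_lit 4) (nat_lit 4) (nat_lit 4) (nat_lit 344) (nat_lit 223) (nat_lit 213)))) (XT.nd (nat_lit 156) (nat_lit 76) (nat_lit 0) (XT.nd (nat_lit 78) (nat_lit 0) (nat_lit 0) (XT.lf (nat_lit 0) (nat_lit 29972386778) (nat_lit 152) (nat_lit 16956795792) (nat_lit 0) (nat_lit 27401198223) (nat_lit 4) (nat_lit 5) (nat_lit 6) (nat_lit 4) (nat_lit 4) (nat_lit 4) (nat_lit 345) (nat_lit 223) (nat_lit 212)) (XT.lf (nat_lit 0) (nat_lit 35784484647) (nat_lit 152) (nat_lit 9081795432) (nat_lit 0) (nat_lit 33040931223) (nat_lit 4) (nat_lit 5) (nat_lit 6) (nat_lit 4) (nat_lit 4) (nat_lit 4) (nat_lit 346) (nat_lit 223) (nat_lit 211))) (XT.nd (nat_lit 78) (nat_lit 76) (nat_lit 0) (XT.lf (nat_lit 0) (nat_lit 41769841654) (nat_lit 152) (nat_lit 1034456172)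 (nat_lit 0) (nat_lit 38862131211) (nat_lit 4) (nat_lit 5) (nat_lit 6) (nat_lit 4) (nat_lit 4) (nat_lit 4) (nat_lit 347) (nat_lit 223) (nat_lit 210)) (XT.lf (nat_lit 0) (nat_lit 7347763653) (nat_lit 76) (nat_lit 40665576194) (nat_lit 76) (nat_lit 37601525735) (nat_lit 3) (nat_lit 4) (nat_lit 4) (nat_lit 5) (nat_lit 4) (nat_lit 4) (nat_lit 348) (nat_lit 223) (nat_lit 209))))) (XT.nd (nat_lit 234) (nat_lit 0) (nat_lit 0) (XT.nd (nat_lit 78) (nat_lit 0) (nat_lit 0) (XT.lf (nat_lit 0) (nat_lit 15965888312) (nat_lit 76) (nat_lit 38505368508) (nat_lit 76) (nat_lit 35292422794) (nat_lit 3) (nat_lit 4) (nat_lit 4) (nat_lit 5) (nat_lit 4) (nat_lit 4) (nat_lit 349) (nat_lit 223) (nat_lit 208)) (XT.nd (nat_lit 78) (nat_lit 0) (nat_lit 0) (XT.lf (nat_lit 0) (nat_lit 24819849442) (nat_lit 76) (nat_lit 36328977394) (nat_lit 76) (nat_lit 32974226676) (nat_lit 3) (nat_lit 4) (nat_lit 4) (nat_lit 5) (nat_lit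 4) (nat_lit 4) (nat_lit 350) (nat_lit 223) (nat_lit 207)) (XT.lf (nat_lit 0) (nat_lit 33930727903) (nat_lit 76) (nat_lit 34131220969) (nat_lit 76) (nat_lit 30641417866) (nat_lit 3) (nat_lit 4) (nat_lit 4) (nat_lit 5) (nat_lit 4) (nat_lit 4) (nat_lit 351) (nat_lit 223) (nat_lit 206)))) (XT.nd (nat_lit 156) (nat_lit 0) (nat_lit 0) (XT.nd (nat_lit 78) (nat_lit 0) (nat_lit 0) (XT.lf (nat_lit 0) (nat_lit 43320216263) (nat_lit 76) (nat_lit 31906866479) (nat_lit 76) (nat_lit 28288442058) (nat_lit 3) (nat_lit 4) (nat_lit 4) (nat_lit 5) (nat_lit 4) (nat_lit 4) (nat_lit 352) (nat_lit 223) (nat_lit 205)) (XT.lf (nat_lit 0) (nat_lit 53010670446) (nat_lit 76) (nat_lit 29650617844) (nat_lit 76) (nat_lit 25909696928) (nat_lit 3) (nat_lit 4) (nat_lit 4) (nat_lit 5) (nat_lit 4) (nat_lit 4) (nat_lit 353) (nat_lit 223) (nat_lit 204))) (XT.nd (nat_lit 78) (nat_lit 0) (nat_lit 0) (XT.lf (nat_lit 0) (nat_lit 63025162962)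 (nat_lit 76) (nat_lit 27357103040) (nat_lit 76) (nat_lit 23499518797) (nat_lit 3) (nat_lit 4) (nat_lit 4) (nat_lit 5) (nat_lit 4) (nat_lit 4) (nat_lit 354) (nat_lit 223) (nat_lit 203)) (XT.lf (nat_lit 0) (nat_lit 73387537841) (nat_lit 76) (nat_lit 25020861321) (nat_lit 76) (nat_lit 21052169146) (nat_lit 3) (nat_lit 4) (nat_lit 4) (nat_lit 5) (nat_lit 4) (nat_lit 4) (nat_lit 355) (nat_lit 223) (nat_lit 202))))))))
noncomputable def xc5 : XT := (XT.nd (nat_lit 40170) (nat_lit 0) (nat_lit 0) (XT.nd (nat_lit 39078) (nat_lit 0) (nat_lit 152) (XT.nd (nat_lit 546) (nat_lit 152) (nat_lit 0) (XT.nd (nat_lit 234) (nat_lit 0) (nat_lit 0) (XT.nd (nat_lit 78) (nat_lit 0) (nat_lit 0) (XT.lf (nat_lit 0) (nat_lit 84122467405) (nat_lit 76) (nat_lit 22636330204) (nat_lit 76) (nat_lit 18561820952) (nat_lit 3) (nat_lit 4) (nat_lit 4) (nat_lit 5) (nat_lit 4) (nat_lit 4) (nat_lit 356) (nat_lit 223) (nat_lit 201))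 (XT.nd (nat_lit 78) (nat_lit 0) (nat_lit 0) (XT.lf (nat_lit 0) (nat_lit 95255511008) (nat_lit 76) (nat_lit 20197832236) (nat_lit 76) (nat_lit 16022544815) (nat_lit 3) (nat_lit 4) (nat_lit 4) (nat_lit 5) (nat_lit 4) (nat_lit 4) (nat_lit 357) (nat_lit 223) (nat_lit 200)) (XT.lf (nat_lit 0) (nat_lit 106813175899) (nat_lit 76) (nat_lit 17699561468) (nat_lit 76) (nat_lit 13428294838) (nat_lit 3) (nat_lit 4) (nat_lit 4) (nat_lit 5) (nat_lit 4) (nat_lit 4) (nat_lit 358) (nat_lit 223) (nat_lit 199)))) (XT.nd (nat_lit 156) (nat_lit 0) (nat_lit 0) (XT.nd (nat_lit 78) (nat_lit 0) (nat_lit 0) (XT.lf (nat_lit 0) (nat_lit 118822980326) (nat_lit 76) (nat_lit 15135569636) (nat_lit 76) (nat_lit 10772894237) (nat_lit 3) (nat_lit 4) (nat_lit 4) (nat_lit 5) (nat_lit 4) (nat_lit 4) (nat_lit 359) (nat_lit 223) (nat_lit 198)) (XT.lf (nat_lit 0) (nat_lit 131313519063) (nat_lit 76) (nat_lit 12499751999) (nat_lit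 76) (nat_lit 8050020628) (nat_lit 3) (nat_lit 4) (nat_lit 4) (nat_lit 5) (nat_lit 4) (nat_lit 4) (nat_lit 360) (nat_lit 223) (nat_lit 197))) (XT.nd (nat_lit 78) (nat_lit 0) (nat_lit 0) (XT.lf (nat_lit 0) (nat_lit 144314531486) (nat_lit 76) (nat_lit 9785832801) (nat_lit 76) (nat_lit 5253190980) (nat_lit 3) (nat_lit 4) (nat_lit 4) (nat_lit 5) (nat_lit 4) (nat_lit 4) (nat_lit 361) (nat_lit 223) (nat_lit 196)) (XT.lf (nat_lit 0) (nat_lit 157856972389) (nat_lit 76) (nat_lit 6987350327) (nat_lit 76) (nat_lit 2375746175) (nat_lit 3) (nat_lit 4) (nat_lit 4) (nat_lit 5) (nat_lit 4) (nat_lit 4) (nat_lit 362) (nat_lit 223) (nat_lit 195))))) (XT.nd (nat_lit 38220) (nat_lit 0) (nat_lit 380) (XT.nd (nat_lit 78) (nat_lit 76) (nat_lit 0) (XT.lf (nat_lit 0) (nat_lit 577668118) (nat_lit 152) (nat_lit 3514140092) (nat_lit 76) (nat_lit 171389584242) (nat_lit 2) (nat_lit 5) (nat_lit 4) (nat_lit 5) (nat_lit 3)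 (nat_lit 4) (nat_lit 363) (nat_lit 223) (nat_lit 194)) (XT.nd (nat_lit 78) (nat_lit 0) (nat_lit 0) (XT.lf (nat_lit 0) (nat_lit 2553531263) (nat_lit 76) (nat_lit 1048418884) (nat_lit 152) (nat_lit 180553967175) (nat_lit 1) (nat_lit 5) (nat_lit 2) (nat_lit 5) (nat_lit 3) (nat_lit 4) (nat_lit 364) (nat_lit 223) (nat_lit 193)) (XT.lf (nat_lit 0) (nat_lit 6783086991) (nat_lit 152) (nat_lit 184383891924) (nat_lit 0) (nat_lit 2097030517) (nat_lit 1) (nat_lit 5) (nat_lit 3) (nat_lit 4) (nat_lit 1) (nat_lit 4) (nat_lit 365) (nat_lit 223) (nat_lit 192)))) (XT.nd (nat_lit 156) (nat_lit 76) (nat_lit 0) (XT.nd (nat_lit 78) (nat_lit 0) (nat_lit 0) (XT.lf (nat_lit 0) (nat_lit 3186294583) (nat_lit 152) (nat_lit 14133930633) (nat_lit 0) (nat_lit 3186294583) (nat_lit 7) (nat_lit 5) (nat_lit 9) (nat_lit 4) (nat_lit 7) (nat_lit 4) (nat_lit 332) (nat_lit 224) (nat_lit 224)) (XT.lf (nat_lit 0) (nat_lit 12690697546)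 (nat_lit 152) (nat_lit 17809609962) (nat_lit 0) (nat_lit 12371868730) (nat_lit 7) (nat_lit 5) (nat_lit 9) (nat_lit 4) (nat_lit 7) (nat_lit 4) (nat_lit 333) (nat_lit 224) (nat_lit 223))) (XT.nd (nat_lit 78) (nat_lit 76) (nat_lit 0) (XT.lf (nat_lit 0) (nat_lit 19125245740) (nat_lit 152) (nat_lit 7202284356) (nat_lit 0) (nat_lit 18502770432) (nat_lit 7) (nat_lit 5) (nat_lit 9) (nat_lit 4) (nat_lit 7) (nat_lit 4) (nat_lit 334) (nat_lit 224) (nat_lit 222)) (XT.lf (nat_lit 0) (nat_lit 3650607592) (nat_lit 76) (nat_lit 22076038383) (nat_lit 76) (nat_lit 21164375940) (nat_lit 6) (nat_lit 4) (nat_lit 7) (nat_lit 5) (nat_lit 7) (nat_lit 4) (nat_lit 335) (nat_lit 224) (nat_lit 221)))))) (XT.nd (nat_lit 546) (nat_lit 76) (nat_lit 0) (XT.nd (nat_lit 234) (nat_lit 152) (nat_lit 0) (XT.nd (nat_lit 78) (nat_lit 0) (nat_lit 0) (XT.lf (nat_lit 0) (nat_lit 14850819969) (nat_lit 76) (nat_lit 17697191896) (nat_lit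 76) (nat_lit 16510113134) (nat_lit 6) (nat_lit 4) (nat_lit 7) (nat_lit 5) (nat_lit 7) (nat_lit 4) (nat_lit 336) (nat_lit 224) (nat_lit 220)) (XT.nd (nat_lit 78) (nat_lit 0) (nat_lit 0) (XT.lf (nat_lit 0) (nat_lit 26281680367) (nat_lit 76) (nat_lit 13253293760) (nat_lit 76) (nat_lit 11803913742) (nat_lit 6) (nat_lit 4) (nat_lit 7) (nat_lit 5) (nat_lit 7) (nat_lit 4) (nat_lit 337) (nat_lit 224) (nat_lit 219)) (XT.lf (nat_lit 0) (nat_lit 37970405119) (nat_lit 76) (nat_lit 8733763265) (nat_lit 76) (nat_lit 7034572527) (nat_lit 6) (nat_lit 4) (nat_lit 7) (nat_lit 5) (nat_lit 7) (nat_lit 4) (nat_lit 338) (nat_lit 224) (nat_lit 218)))) (XT.nd (nat_lit 156) (nat_lit 0) (nat_lit 0) (XT.nd (nat_lit 78) (nat_lit 152) (nat_lit 0) (XT.lf (nat_lit 0) (nat_lit 49944824524) (nat_lit 76) (nat_lit 4127839625) (nat_lit 76) (nat_lit 2190733915) (nat_lit 6) (nat_lit 4) (nat_lit 7) (nat_lit 5) (nat_lit 7) (nat_lit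 4) (nat_lit 339) (nat_lit 224) (nat_lit 217)) (XT.lf (nat_lit 0) (nat_lit 2724033778) (nat_lit 152) (nat_lit 55569533734) (nat_lit 0) (nat_lit 623362520) (nat_lit 4) (nat_lit 5) (nat_lit 6) (nat_lit 4) (nat_lit 4) (nat_lit 4) (nat_lit 340) (nat_lit 224) (nat_lit 216))) (XT.nd (nat_lit 78) (nat_lit 0) (nat_lit 0) (XT.lf (nat_lit 0) (nat_lit 7797238496) (nat_lit 152) (nat_lit 48419484864) (nat_lit 0) (nat_lit 5487056662) (nat_lit 4) (nat_lit 5) (nat_lit 6) (nat_lit 4) (nat_lit 4) (nat_lit 4) (nat_lit 341) (nat_lit 224) (nat_lit 215)) (XT.lf (nat_lit 0) (nat_lit 12981468951) (nat_lit 152) (nat_lit 41181060147) (nat_lit 0) (nat_lit 10471753236) (nat_lit 4) (nat_lit 5) (nat_lit 6) (nat_lit 4) (nat_lit 4) (nat_lit 4) (nat_lit 342) (nat_lit 224) (nat_lit 214))))) (XT.nd (nat_lit 234) (nat_lit 76) (nat_lit 0) (XT.nd (nat_lit 78) (nat_lit 0) (nat_lit 0) (XT.lf (nat_lit 0) (nat_lit 18289068549) (nat_lit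 152) (nat_lit 33837025240) (nat_lit 0) (nat_lit 15589320566) (nat_lit 4) (nat_lit 5) (nat_lit 6) (nat_lit 4) (nat_lit 4) (nat_lit 4) (nat_lit 343) (nat_lit 224) (nat_lit 213)) (XT.nd (nat_lit 78) (nat_lit 0) (nat_lit 0) (XT.lf (nat_lit 0) (nat_lit 23732674433) (nat_lit 152) (nat_lit 26369894345) (nat_lit 0) (nat_lit 20851943337) (nat_lit 4) (nat_lit 5) (nat_lit 6) (nat_lit 4) (nat_lit 4) (nat_lit 4) (nat_lit 344) (nat_lit 224) (nat_lit 212)) (XT.lf (nat_lit 0) (nat_lit 29325247568) (nat_lit 152) (nat_lit 18761888579) (nat_lit 0) (nat_lit 26272151603) (nat_lit 4) (nat_lit 5) (nat_lit 6) (nat_lit 4) (nat_lit 4) (nat_lit 4) (nat_lit 345) (nat_lit 224) (nat_lit 211)))) (XT.nd (nat_lit 156) (nat_lit 76) (nat_lit 0) (XT.nd (nat_lit 78) (nat_lit 0) (nat_lit 0) (XT.lf (nat_lit 0) (nat_lit 35080103604) (nat_lit 152) (nat_lit 10994893643) (nat_lit 0) (nat_lit 31862850622) (nat_lit 4) (nat_lit 5) (nat_lit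 6) (nat_lit 4) (nat_lit 4) (nat_lit 4) (nat_lit 346) (nat_lit 224) (nat_lit 210)) (XT.lf (nat_lit 0) (nat_lit 41010944581) (nat_lit 152) (nat_lit 3050416690) (nat_lit 0) (nat_lit 37637351582) (nat_lit 4) (nat_lit 5) (nat_lit 6) (nat_lit 4) (nat_lit 4) (nat_lit 4) (nat_lit 347) (nat_lit 224) (nat_lit 209))) (XT.nd (nat_lit 78) (nat_lit 0) (nat_lit 0) (XT.lf (nat_lit 0) (nat_lit 5191767787) (nat_lit 76) (nat_lit 41990030208) (nat_lit 76) (nat_lit 38467541954) (nat_lit 3) (nat_lit 4) (nat_lit 4) (nat_lit 5) (nat_lit 4) (nat_lit 4) (nat_lit 348) (nat_lit 224) (nat_lit 208)) (XT.lf (nat_lit 0) (nat_lit 13714736465) (nat_lit 76) (nat_lit 39874616159) (nat_lit 76) (nat_lit 36210322901) (nat_lit 3) (nat_lit 4) (nat_lit 4) (nat_lit 5) (nat_lit 4) (nat_lit 4) (nat_lit 349) (nat_lit 224) (nat_lit 207))))))) (XT.nd (nat_lit 1092) (nat_lit 152) (nat_lit 0) (XT.nd (nat_lit 546) (nat_lit 0) (nat_lit 0)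 (XT.nd (nat_lit 234) (nat_lit 0) (nat_lit 0) (XT.nd (nat_lit 78) (nat_lit 0) (nat_lit 0) (XT.lf (nat_lit 0) (nat_lit 22478072851) (nat_lit 76) (nat_lit 37740885652) (nat_lit 76) (nat_lit 33941540009) (nat_lit 3) (nat_lit 4) (nat_lit 4) (nat_lit 5) (nat_lit 4) (nat_lit 4) (nat_lit 350) (nat_lit 224) (nat_lit 206)) (XT.nd (nat_lit 78) (nat_lit 0) (nat_lit 0) (XT.lf (nat_lit 0) (nat_lit 31502642032) (nat_lit 76) (nat_lit 35583758377) (nat_lit 76) (nat_lit 31655791415) (nat_lit 3) (nat_lit 4) (nat_lit 4) (nat_lit 5) (nat_lit 4) (nat_lit 4) (nat_lit 351) (nat_lit 224) (nat_lit 205)) (XT.lf (nat_lit 0) (nat_lit 40809931077) (nat_lit 76) (nat_lit 33398098315) (nat_lit 76) (nat_lit 29347634860) (nat_lit 3) (nat_lit 4) (nat_lit 4) (nat_lit 5) (nat_lit 4) (nat_lit 4) (nat_lit 352) (nat_lit 224) (nat_lit 204)))) (XT.nd (nat_lit 156) (nat_lit 0) (nat_lit 0) (XT.nd (nat_lit 78) (nat_lit 0) (nat_lit 0)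 (XT.lf (nat_lit 0) (nat_lit 50422100198) (nat_lit 76) (nat_lit 31178701516) (nat_lit 76) (nat_lit 27011574732) (nat_lit 3) (nat_lit 4) (nat_lit 4) (nat_lit 5) (nat_lit 4) (nat_lit 4) (nat_lit 353) (nat_lit 224) (nat_lit 203)) (XT.lf (nat_lit 0) (nat_lit 60362035513) (nat_lit 76) (nat_lit 28920283700) (nat_lit 76) (nat_lit 24642048985) (nat_lit 3) (nat_lit 4) (nat_lit 4) (nat_lit 5) (nat_lit 4) (nat_lit 4) (nat_lit 354) (nat_lit 224) (nat_lit 202))) (XT.nd (nat_lit 78) (nat_lit 0) (nat_lit 0) (XT.lf (nat_lit 0) (nat_lit 70653403534) (nat_lit 76) (nat_lit 26617467682) (nat_lit 76) (nat_lit 22233415890) (nat_lit 3) (nat_lit 4) (nat_lit 4) (nat_lit 5) (nat_lit 4) (nat_lit 4) (nat_lit 355) (nat_lit 224) (nat_lit 201)) (XT.lf (nat_lit 0) (nat_lit 81320707518) (nat_lit 76) (nat_lit 24264770568) (nat_lit 76) (nat_lit 19779940606) (nat_lit 3) (nat_lit 4) (nat_lit 4) (nat_lit 5) (nat_lit 4) (nat_lit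 4) (nat_lit 356) (nat_lit 224) (nat_lit 200))))) (XT.nd (nat_lit 234) (nat_lit 0) (nat_lit 0) (XT.nd (nat_lit 78) (nat_lit 0) (nat_lit 0) (XT.lf (nat_lit 0) (nat_lit 92389345808) (nat_lit 76) (nat_lit 21856590696) (nat_lit 76) (nat_lit 17275781526) (nat_lit 3) (nat_lit 4) (nat_lit 4) (nat_lit 5) (nat_lit 4) (nat_lit 4) (nat_lit 357) (nat_lit 224) (nat_lit 199)) (XT.nd (nat_lit 78) (nat_lit 0) (nat_lit 0) (XT.lf (nat_lit 0) (nat_lit 103885672304) (nat_lit 76) (nat_lit 19387194306) (nat_lit 76) (nat_lit 14714976367) (nat_lit 3) (nat_lit 4) (nat_lit 4) (nat_lit 5) (nat_lit 4) (nat_lit 4) (nat_lit 358) (nat_lit 224) (nat_lit 198)) (XT.lf (nat_lit 0) (nat_lit 115837059214) (nat_lit 76) (nat_lit 16850701883) (nat_lit 76) (nat_lit 12091427972) (nat_lit 3) (nat_lit 4) (nat_lit 4) (nat_lit 5) (nat_lit 4) (nat_lit 4) (nat_lit 359) (nat_lit 224) (nat_lit 197)))) (XT.nd (nat_lit 156) (nat_lit 0) (nat_lit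 0) (XT.nd (nat_lit 78) (nat_lit 0) (nat_lit 0) (XT.lf (nat_lit 0) (nat_lit 128271962218) (nat_lit 76) (nat_lit 14241074158) (nat_lit 76) (nat_lit 9398889798) (nat_lit 3) (nat_lit 4) (nat_lit 4) (nat_lit 5) (nat_lit 4) (nat_lit 4) (nat_lit 360) (nat_lit 224) (nat_lit 196)) (XT.lf (nat_lit 0) (nat_lit 141219988231) (nat_lit 76) (nat_lit 11552097732) (nat_lit 76) (nat_lit 6630951040) (nat_lit 3) (nat_lit 4) (nat_lit 4) (nat_lit 5) (nat_lit 4) (nat_lit 4) (nat_lit 361) (nat_lit 224) (nat_lit 195))) (XT.nd (nat_lit 78) (nat_lit 0) (nat_lit 0) (XT.lf (nat_lit 0) (nat_lit 154711965885) (nat_lit 76) (nat_lit 8777370282) (nat_lit 76) (nat_lit 3781021368) (nat_lit 3) (nat_lit 4) (nat_lit 4) (nat_lit 5) (nat_lit 4) (nat_lit 4) (nat_lit 362) (nat_lit 224) (nat_lit 194)) (XT.lf (nat_lit 0) (nat_lit 168780018936) (nat_lit 76) (nat_lit 5910285311) (nat_lit 76) (nat_lit 842315234) (nat_lit 3) (nat_lit 4)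 (nat_lit 4) (nat_lit 5) (nat_lit 4) (nat_lit 4) (nat_lit 363) (nat_lit 224) (nat_lit 193)))))) (XT.nd (nat_lit 38376) (nat_lit 0) (nat_lit 228) (XT.nd (nat_lit 38064) (nat_lit 0) (nat_lit 456) (XT.nd (nat_lit 78) (nat_lit 76) (nat_lit 0) (XT.lf (nat_lit 0) (nat_lit 2149387258) (nat_lit 152) (nat_lit 772924574) (nat_lit 76) (nat_lit 181286550893) (nat_lit 2) (nat_lit 5) (nat_lit 4) (nat_lit 5) (nat_lit 3) (nat_lit 4) (nat_lit 364) (nat_lit 224) (nat_lit 192)) (XT.nd (nat_lit 37908) (nat_lit 0) (nat_lit 608) (XT.lf (nat_lit 0) (nat_lit 5280917821) (nat_lit 152) (nat_lit 187806265735) (nat_lit 0) (nat_lit 231264214) (nat_lit 1) (nat_lit 5) (nat_lit 3) (nat_lit 4) (nat_lit 1) (nat_lit 4) (nat_lit 365) (nat_lit 224) (nat_lit 191)) (XT.lf (nat_lit 0) (nat_lit 13304337497) (nat_lit 76) (nat_lit 2738979072) (nat_lit 76) (nat_lit 2738979072) (nat_lit 9) (nat_lit 4) (nat_lit 10) (nat_lit 5) (nat_lit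 10) (nat_lit 4) (nat_lit 330) (nat_lit 225) (nat_lit 225)))) (XT.nd (nat_lit 156) (nat_lit 0) (nat_lit 0) (XT.nd (nat_lit 78) (nat_lit 0) (nat_lit 0) (XT.lf (nat_lit 0) (nat_lit 490647745) (nat_lit 152) (nat_lit 38601938868) (nat_lit 0) (nat_lit 155877488) (nat_lit 7) (nat_lit 5) (nat_lit 9) (nat_lit 4) (nat_lit 7) (nat_lit 4) (nat_lit 331) (nat_lit 225) (nat_lit 224)) (XT.lf (nat_lit 0) (nat_lit 6605194115) (nat_lit 152) (nat_lit 28459339402) (nat_lit 0) (nat_lit 5951595042) (nat_lit 7) (nat_lit 5) (nat_lit 9) (nat_lit 4) (nat_lit 7) (nat_lit 4) (nat_lit 332) (nat_lit 225) (nat_lit 223))) (XT.nd (nat_lit 78) (nat_lit 0) (nat_lit 0) (XT.lf (nat_lit 0) (nat_lit 12826002199) (nat_lit 152) (nat_lit 18183448225) (nat_lit 0) (nat_lit 11868756634) (nat_lit 7) (nat_lit 5) (nat_lit 9) (nat_lit 4) (nat_lit 7) (nat_lit 4) (nat_lit 333) (nat_lit 225) (nat_lit 222)) (XT.lf (nat_lit 0) (nat_lit 19167883446)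 (nat_lit 152) (nat_lit 7749798932) (nat_lit 0) (nat_lit 17921450746) (nat_lit 7) (nat_lit 5) (nat_lit 9) (nat_lit 4) (nat_lit 7) (nat_lit 4) (nat_lit 334) (nat_lit 225) (nat_lit 221))))) (XT.nd (nat_lit 234) (nat_lit 152) (nat_lit 0) (XT.nd (nat_lit 78) (nat_lit 0) (nat_lit 0) (XT.lf (nat_lit 0) (nat_lit 2923498486) (nat_lit 76) (nat_lit 22750541542) (nat_lit 76) (nat_lit 21228692524) (nat_lit 6) (nat_lit 4) (nat_lit 7) (nat_lit 5) (nat_lit 7) (nat_lit 4) (nat_lit 335) (nat_lit 225) (nat_lit 220)) (XT.nd (nat_lit 78) (nat_lit 0) (nat_lit 0) (XT.lf (nat_lit 0) (nat_lit 13963046181) (nat_lit 76) (nat_lit 18446763677) (nat_lit 76) (nat_lit 16662613403) (nat_lit 6) (nat_lit 4) (nat_lit 7) (nat_lit 5) (nat_lit 7) (nat_lit 4) (nat_lit 336) (nat_lit 225) (nat_lit 219)) (XT.lf (nat_lit 0) (nat_lit 25240892595) (nat_lit 76) (nat_lit 14074359467) (nat_lit 76) (nat_lit 12040398472) (nat_lit 6) (nat_lit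 4) (nat_lit 7) (nat_lit 5) (nat_lit 7) (nat_lit 4) (nat_lit 337) (nat_lit 225) (nat_lit 218)))) (XT.nd (nat_lit 156) (nat_lit 152) (nat_lit 0) (XT.nd (nat_lit 78) (nat_lit 0) (nat_lit 0) (XT.lf (nat_lit 0) (nat_lit 36783889745) (nat_lit 76) (nat_lit 9622918426) (nat_lit 76) (nat_lit 7351042459) (nat_lit 6) (nat_lit 4) (nat_lit 7) (nat_lit 5) (nat_lit 7) (nat_lit 4) (nat_lit 338) (nat_lit 225) (nat_lit 217)) (XT.lf (nat_lit 0) (nat_lit 48619520956) (nat_lit 76) (nat_lit 5081841883) (nat_lit 76) (nat_lit 2583380230) (nat_lit 6) (nat_lit 4) (nat_lit 7) (nat_lit 5) (nat_lit 7) (nat_lit 4) (nat_lit 339) (nat_lit 225) (nat_lit 216))) (XT.nd (nat_lit 78) (nat_lit 0) (nat_lit 0) (XT.lf (nat_lit 0) (nat_lit 1847821184) (nat_lit 76) (nat_lit 399508239) (nat_lit 152) (nat_lit 56693826214) (nat_lit 4) (nat_lit 5) (nat_lit 5) (nat_lit 5) (nat_lit 6) (nat_lit 4) (nat_lit 340) (nat_lit 225) (nat_lit 215))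 (XT.lf (nat_lit 0) (nat_lit 7247116020) (nat_lit 152) (nat_lit 50070726533) (nat_lit 0) (nat_lit 4412380637) (nat_lit 4) (nat_lit 5) (nat_lit 6) (nat_lit 4) (nat_lit 4) (nat_lit 4) (nat_lit 341) (nat_lit 225) (nat_lit 214))))))))
noncomputable def xc6 : XT := (XT.nd (nat_lit 39780) (nat_lit 0) (nat_lit 152) (XT.nd (nat_lit 1014) (nat_lit 152) (nat_lit 0) (XT.nd (nat_lit 468) (nat_lit 76) (nat_lit 0) (XT.nd (nat_lit 234) (nat_lit 0) (nat_lit 0) (XT.nd (nat_lit 78) (nat_lit 0) (nat_lit 0) (XT.lf (nat_lit 0) (nat_lit 12365081899) (nat_lit 152) (nat_lit 42957331594) (nat_lit 0) (nat_lit 9340314249) (nat_lit 4) (nat_lit 5) (nat_lit 6) (nat_lit 4) (nat_lit 4) (nat_lit 4) (nat_lit 342) (nat_lit 225) (nat_lit 213)) (XT.nd (nat_lit 78) (nat_lit 0) (nat_lit 0) (XT.lf (nat_lit 0) (nat_lit 17609572378) (nat_lit 152) (nat_lit 35732372667) (nat_lit 0) (nat_lit 14403821616) (nat_lit 4) (nat_lit 5) (nat_lit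 6) (nat_lit 4) (nat_lit 4) (nat_lit 4) (nat_lit 343) (nat_lit 225) (nat_lit 212)) (XT.lf (nat_lit 0) (nat_lit 22993074338) (nat_lit 152) (nat_lit 28378647466) (nat_lit 0) (nat_lit 19614958707) (nat_lit 4) (nat_lit 5) (nat_lit 6) (nat_lit 4) (nat_lit 4) (nat_lit 4) (nat_lit 344) (nat_lit 225) (nat_lit 211)))) (XT.nd (nat_lit 78) (nat_lit 0) (nat_lit 0) (XT.lf (nat_lit 0) (nat_lit 28528405641) (nat_lit 152) (nat_lit 20878647123) (nat_lit 0) (nat_lit 24986132992) (nat_lit 4) (nat_lit 5) (nat_lit 6) (nat_lit 4) (nat_lit 4) (nat_lit 4) (nat_lit 345) (nat_lit 225) (nat_lit 210)) (XT.nd (nat_lit 78) (nat_lit 0) (nat_lit 0) (XT.lf (nat_lit 0) (nat_lit 34228745648) (nat_lit 152) (nat_lit 13214514495) (nat_lit 0) (nat_lit 30530132982) (nat_lit 4) (nat_lit 5) (nat_lit 6) (nat_lit 4) (nat_lit 4) (nat_lit 4) (nat_lit 346) (nat_lit 225) (nat_lit 209)) (XT.lf (nat_lit 0) (nat_lit 40107666596) (nat_lit 152)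 (nat_lit 5368001645) (nat_lit 0) (nat_lit 36260158675) (nat_lit 4) (nat_lit 5) (nat_lit 6) (nat_lit 4) (nat_lit 4) (nat_lit 4) (nat_lit 347) (nat_lit 225) (nat_lit 208))))) (XT.nd (nat_lit 234) (nat_lit 0) (nat_lit 0) (XT.nd (nat_lit 78) (nat_lit 0) (nat_lit 0) (XT.lf (nat_lit 0) (nat_lit 2732902366) (nat_lit 76) (nat_lit 43472533879) (nat_lit 76) (nat_lit 39483220954) (nat_lit 3) (nat_lit 4) (nat_lit 4) (nat_lit 5) (nat_lit 4) (nat_lit 4) (nat_lit 348) (nat_lit 225) (nat_lit 207)) (XT.nd (nat_lit 78) (nat_lit 0) (nat_lit 0) (XT.lf (nat_lit 0) (nat_lit 11165246300) (nat_lit 76) (nat_lit 41399780437) (nat_lit 76) (nat_lit 37275415127) (nat_lit 3) (nat_lit 4) (nat_lit 4) (nat_lit 5) (nat_lit 4) (nat_lit 4) (nat_lit 349) (nat_lit 225) (nat_lit 206)) (XT.lf (nat_lit 0) (nat_lit 19842273405) (nat_lit 76) (nat_lit 39306679080) (nat_lit 76) (nat_lit 35053692451) (nat_lit 3) (nat_lit 4) (nat_lit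 4) (nat_lit 5) (nat_lit 4) (nat_lit 4) (nat_lit 350) (nat_lit 225) (nat_lit 205)))) (XT.nd (nat_lit 156) (nat_lit 0) (nat_lit 0) (XT.nd (nat_lit 78) (nat_lit 0) (nat_lit 0) (XT.lf (nat_lit 0) (nat_lit 28784643272) (nat_lit 76) (nat_lit 37188246233) (nat_lit 76) (nat_lit 32812763110) (nat_lit 3) (nat_lit 4) (nat_lit 4) (nat_lit 5) (nat_lit 4) (nat_lit 4) (nat_lit 351) (nat_lit 225) (nat_lit 204)) (XT.lf (nat_lit 0) (nat_lit 38013647255) (nat_lit 76) (nat_lit 35039438008) (nat_lit 76) (nat_lit 30547291557) (nat_lit 3) (nat_lit 4) (nat_lit 4) (nat_lit 5) (nat_lit 4) (nat_lit 4) (nat_lit 352) (nat_lit 225) (nat_lit 203))) (XT.nd (nat_lit 78) (nat_lit 0) (nat_lit 0) (XT.lf (nat_lit 0) (nat_lit 47551259176) (nat_lit 76) (nat_lit 32855138195) (nat_lit 76) (nat_lit 28251883814) (nat_lit 3) (nat_lit 4) (nat_lit 4) (nat_lit 5) (nat_lit 4) (nat_lit 4) (nat_lit 353) (nat_lit 225) (nat_lit 202)) (XT.lf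 (nat_lit 0) (nat_lit 57420187632) (nat_lit 76) (nat_lit 30630146081) (nat_lit 76) (nat_lit 25921074622) (nat_lit 3) (nat_lit 4) (nat_lit 4) (nat_lit 5) (nat_lit 4) (nat_lit 4) (nat_lit 354) (nat_lit 225) (nat_lit 201)))))) (XT.nd (nat_lit 546) (nat_lit 152) (nat_lit 0) (XT.nd (nat_lit 234) (nat_lit 0) (nat_lit 0) (XT.nd (nat_lit 78) (nat_lit 0) (nat_lit 0) (XT.lf (nat_lit 0) (nat_lit 67643930073) (nat_lit 76) (nat_lit 28359164066) (nat_lit 76) (nat_lit 23549314438) (nat_lit 3) (nat_lit 4) (nat_lit 4) (nat_lit 5) (nat_lit 4) (nat_lit 4) (nat_lit 355) (nat_lit 225) (nat_lit 200)) (XT.nd (nat_lit 78) (nat_lit 0) (nat_lit 0) (XT.lf (nat_lit 0) (nat_lit 78246828743) (nat_lit 76) (nat_lit 26036785048) (nat_lit 76) (nat_lit 21130956211) (nat_lit 3) (nat_lit 4) (nat_lit 4) (nat_lit 5) (nat_lit 4) (nat_lit 4) (nat_lit 356) (nat_lit 225) (nat_lit 199)) (XT.lf (nat_lit 0) (nat_lit 89254128639) (nat_lit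 76) (nat_lit 23657479555) (nat_lit 76) (nat_lit 18660241948) (nat_lit 3) (nat_lit 4) (nat_lit 4) (nat_lit 5) (nat_lit 4) (nat_lit 4) (nat_lit 357) (nat_lit 225) (nat_lit 198)))) (XT.nd (nat_lit 156) (nat_lit 0) (nat_lit 0) (XT.nd (nat_lit 78) (nat_lit 0) (nat_lit 0) (XT.lf (nat_lit 0) (nat_lit 100692037618) (nat_lit 76) (nat_lit 21215582572) (nat_lit 76) (nat_lit 16131288994) (nat_lit 3) (nat_lit 4) (nat_lit 4) (nat_lit 5) (nat_lit 4) (nat_lit 4) (nat_lit 358) (nat_lit 225) (nat_lit 197)) (XT.lf (nat_lit 0) (nat_lit 112587788795) (nat_lit 76) (nat_lit 18705280061) (nat_lit 76) (nat_lit 13538076034) (nat_lit 3) (nat_lit 4) (nat_lit 4) (nat_lit 5) (nat_lit 4) (nat_lit 4) (nat_lit 359) (nat_lit 225) (nat_lit 196))) (XT.nd (nat_lit 78) (nat_lit 0) (nat_lit 0) (XT.lf (nat_lit 0) (nat_lit 124969705389) (nat_lit 76) (nat_lit 16120595110) (nat_lit 76) (nat_lit 10874428750) (nat_lit 3) (nat_lit 4)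 (nat_lit 4) (nat_lit 5) (nat_lit 4) (nat_lit 4) (nat_lit 360) (nat_lit 225) (nat_lit 195)) (XT.lf (nat_lit 0) (nat_lit 137867268153) (nat_lit 76) (nat_lit 13455373707) (nat_lit 76) (nat_lit 8134005126) (nat_lit 3) (nat_lit 4) (nat_lit 4) (nat_lit 5) (nat_lit 4) (nat_lit 4) (nat_lit 361) (nat_lit 225) (nat_lit 194))))) (XT.nd (nat_lit 234) (nat_lit 76) (nat_lit 0) (XT.nd (nat_lit 78) (nat_lit 76) (nat_lit 0) (XT.lf (nat_lit 0) (nat_lit 151311185570) (nat_lit 76) (nat_lit 10703270087) (nat_lit 76) (nat_lit 5310280343) (nat_lit 3) (nat_lit 4) (nat_lit 4) (nat_lit 5) (nat_lit 4) (nat_lit 4) (nat_lit 362) (nat_lit 225) (nat_lit 193)) (XT.nd (nat_lit 78) (nat_lit 76) (nat_lit 0) (XT.lf (nat_lit 0) (nat_lit 165333466967) (nat_lit 76) (nat_lit 7857731622) (nat_lit 76) (nat_lit 2396531246) (nat_lit 3) (nat_lit 4) (nat_lit 4) (nat_lit 5) (nat_lit 4) (nat_lit 4) (nat_lit 363) (nat_lit 225) (nat_lit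 192)) (XT.lf (nat_lit 0) (nat_lit 602194803) (nat_lit 152) (nat_lit 4303707431) (nat_lit 76) (nat_lit 179359222938) (nat_lit 2) (nat_lit 5) (nat_lit 4) (nat_lit 5) (nat_lit 3) (nat_lit 4) (nat_lit 364) (nat_lit 225) (nat_lit 191)))) (XT.nd (nat_lit 37830) (nat_lit 0) (nat_lit 608) (XT.nd (nat_lit 37752) (nat_lit 0) (nat_lit 608) (XT.lf (nat_lit 0) (nat_lit 1870667370) (nat_lit 76) (nat_lit 1803568740) (nat_lit 152) (nat_lit 189702263306) (nat_lit 1) (nat_lit 5) (nat_lit 2) (nat_lit 5) (nat_lit 3) (nat_lit 4) (nat_lit 365) (nat_lit 225) (nat_lit 190)) (XT.lf (nat_lit 0) (nat_lit 493812487) (nat_lit 76) (nat_lit 8365078405) (nat_lit 76) (nat_lit 8365078405) (nat_lit 9) (nat_lit 4) (nat_lit 10) (nat_lit 5) (nat_lit 10) (nat_lit 4) (nat_lit 328) (nat_lit 226) (nat_lit 226))) (XT.nd (nat_lit 78) (nat_lit 0) (nat_lit 0) (XT.lf (nat_lit 0) (nat_lit 13584418948) (nat_lit 76) (nat_lit 11372144769)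 (nat_lit 76) (nat_lit 11010090736) (nat_lit 9) (nat_lit 4) (nat_lit 10) (nat_lit 5) (nat_lit 10) (nat_lit 4) (nat_lit 329) (nat_lit 226) (nat_lit 225)) (XT.lf (nat_lit 0) (nat_lit 26415934400) (nat_lit 76) (nat_lit 5929326511) (nat_lit 76) (nat_lit 5222459113) (nat_lit 9) (nat_lit 4) (nat_lit 10) (nat_lit 5) (nat_lit 10) (nat_lit 4) (nat_lit 330) (nat_lit 226) (nat_lit 224))))))) (XT.nd (nat_lit 1092) (nat_lit 76) (nat_lit 0) (XT.nd (nat_lit 546) (nat_lit 152) (nat_lit 0) (XT.nd (nat_lit 234) (nat_lit 76) (nat_lit 0) (XT.nd (nat_lit 78) (nat_lit 0) (nat_lit 0) (XT.lf (nat_lit 0) (nat_lit 256567008) (nat_lit 76) (nat_lit 379801507) (nat_lit 152) (nat_lit 38618318422) (nat_lit 7) (nat_lit 5) (nat_lit 8) (nat_lit 5) (nat_lit 9) (nat_lit 4) (nat_lit 331) (nat_lit 226) (nat_lit 223)) (XT.nd (nat_lit 78) (nat_lit 0) (nat_lit 0) (XT.lf (nat_lit 0) (nat_lit 6649963706) (nat_lit 152) (nat_lit 29034229707)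 (nat_lit 0) (nat_lit 5341209371) (nat_lit 7) (nat_lit 5) (nat_lit 9) (nat_lit 4) (nat_lit 7) (nat_lit 4) (nat_lit 332) (nat_lit 226) (nat_lit 222)) (XT.lf (nat_lit 0) (nat_lit 12778104843) (nat_lit 152) (nat_lit 18932014844) (nat_lit 0) (nat_lit 11180163374) (nat_lit 7) (nat_lit 5) (nat_lit 9) (nat_lit 4) (nat_lit 7) (nat_lit 4) (nat_lit 333) (nat_lit 226) (nat_lit 221)))) (XT.nd (nat_lit 156) (nat_lit 0) (nat_lit 0) (XT.nd (nat_lit 78) (nat_lit 76) (nat_lit 0) (XT.lf (nat_lit 0) (nat_lit 19031731854) (nat_lit 152) (nat_lit 8663771562) (nat_lit 0) (nat_lit 17158374066) (nat_lit 7) (nat_lit 5) (nat_lit 9) (nat_lit 4) (nat_lit 7) (nat_lit 4) (nat_lit 334) (nat_lit 226) (nat_lit 220)) (XT.lf (nat_lit 0) (nat_lit 1830671326) (nat_lit 76) (nat_lit 23612660535) (nat_lit 76) (nat_lit 21477001490) (nat_lit 6) (nat_lit 4) (nat_lit 7) (nat_lit 5) (nat_lit 7) (nat_lit 4) (nat_lit 335) (nat_lit 226)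 (nat_lit 219))) (XT.nd (nat_lit 78) (nat_lit 0) (nat_lit 0) (XT.lf (nat_lit 0) (nat_lit 12717205038) (nat_lit 76) (nat_lit 19380376596) (nat_lit 76) (nat_lit 16994906831) (nat_lit 6) (nat_lit 4) (nat_lit 7) (nat_lit 5) (nat_lit 7) (nat_lit 4) (nat_lit 336) (nat_lit 226) (nat_lit 218)) (XT.lf (nat_lit 0) (nat_lit 23849323850) (nat_lit 76) (nat_lit 15076061839) (nat_lit 76) (nat_lit 12452677102) (nat_lit 6) (nat_lit 4) (nat_lit 7) (nat_lit 5) (nat_lit 7) (nat_lit 4) (nat_lit 337) (nat_lit 226) (nat_lit 217))))) (XT.nd (nat_lit 234) (nat_lit 0) (nat_lit 0) (XT.nd (nat_lit 78) (nat_lit 152) (nat_lit 0) (XT.lf (nat_lit 0) (nat_lit 35253532806) (nat_lit 76) (nat_lit 10689467895) (nat_lit 76) (nat_lit 7839497472) (nat_lit 6) (nat_lit 4) (nat_lit 7) (nat_lit 5) (nat_lit 7) (nat_lit 4) (nat_lit 338) (nat_lit 226) (nat_lit 216)) (XT.nd (nat_lit 78) (nat_lit 152) (nat_lit 0) (XT.lf (nat_lit 0) (nat_lit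 46956984786) (nat_lit 76) (nat_lit 6210150494) (nat_lit 76) (nat_lit 3144384178) (nat_lit 6) (nat_lit 4) (nat_lit 7) (nat_lit 5) (nat_lit 7) (nat_lit 4) (nat_lit 339) (nat_lit 226) (nat_lit 215)) (XT.lf (nat_lit 0) (nat_lit 607263) (nat_lit 76) (nat_lit 1611162922) (nat_lit 152) (nat_lit 57358903716) (nat_lit 4) (nat_lit 5) (nat_lit 5) (nat_lit 5) (nat_lit 6) (nat_lit 4) (nat_lit 340) (nat_lit 226) (nat_lit 214)))) (XT.nd (nat_lit 156) (nat_lit 0) (nat_lit 0) (XT.nd (nat_lit 78) (nat_lit 0) (nat_lit 0) (XT.lf (nat_lit 0) (nat_lit 6533645040) (nat_lit 152) (nat_lit 52060841330) (nat_lit 0) (nat_lit 3167606739) (nat_lit 4) (nat_lit 5) (nat_lit 6) (nat_lit 4) (nat_lit 4) (nat_lit 4) (nat_lit 341) (nat_lit 226) (nat_lit 213)) (XT.lf (nat_lit 0) (nat_lit 11588501800) (nat_lit 152) (nat_lit 45066522371) (nat_lit 0) (nat_lit 8041480387) (nat_lit 4) (nat_lit 5) (nat_lit 6) (nat_lit 4) (nat_lit 4)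 (nat_lit 4) (nat_lit 342) (nat_lit 226) (nat_lit 212))) (XT.nd (nat_lit 78) (nat_lit 0) (nat_lit 0) (XT.lf (nat_lit 0) (nat_lit 16772888355) (nat_lit 152) (nat_lit 37954969138) (nat_lit 0) (nat_lit 13053502074) (nat_lit 4) (nat_lit 5) (nat_lit 6) (nat_lit 4) (nat_lit 4) (nat_lit 4) (nat_lit 343) (nat_lit 226) (nat_lit 211)) (XT.lf (nat_lit 0) (nat_lit 22099148484) (nat_lit 152) (nat_lit 30709249361) (nat_lit 0) (nat_lit 18215605184) (nat_lit 4) (nat_lit 5) (nat_lit 6) (nat_lit 4) (nat_lit 4) (nat_lit 4) (nat_lit 344) (nat_lit 226) (nat_lit 210)))))) (XT.nd (nat_lit 546) (nat_lit 0) (nat_lit 0) (XT.nd (nat_lit 234) (nat_lit 76) (nat_lit 0) (XT.nd (nat_lit 78) (nat_lit 0) (nat_lit 0) (XT.lf (nat_lit 0) (nat_lit 27579963757) (nat_lit 152) (nat_lit 23312111326) (nat_lit 0) (nat_lit 23540080440) (nat_lit 4) (nat_lit 5) (nat_lit 6) (nat_lit 4) (nat_lit 4) (nat_lit 4) (nat_lit 345) (nat_lit 226)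 (nat_lit 209)) (XT.nd (nat_lit 78) (nat_lit 0) (nat_lit 0) (XT.lf (nat_lit 0) (nat_lit 33228383735) (nat_lit 152) (nat_lit 15745942800) (nat_lit 0) (nat_lit 29039605164) (nat_lit 4) (nat_lit 5) (nat_lit 6) (nat_lit 4) (nat_lit 4) (nat_lit 4) (nat_lit 346) (nat_lit 226) (nat_lit 208)) (XT.lf (nat_lit 0) (nat_lit 39057857036) (nat_lit 152) (nat_lit 7992729096) (nat_lit 0) (nat_lit 34727273461) (nat_lit 4) (nat_lit 5) (nat_lit 6) (nat_lit 4) (nat_lit 4) (nat_lit 4) (nat_lit 347) (nat_lit 226) (nat_lit 207)))) (XT.nd (nat_lit 156) (nat_lit 0) (nat_lit 0) (XT.nd (nat_lit 78) (nat_lit 76) (nat_lit 0) (XT.lf (nat_lit 0) (nat_lit 45082263360) (nat_lit 152) (nat_lit 34010181) (nat_lit 0) (nat_lit 40616627400) (nat_lit 4) (nat_lit 5) (nat_lit 6) (nat_lit 4) (nat_lit 4) (nat_lit 4) (nat_lit 348) (nat_lit 226) (nat_lit 206)) (XT.lf (nat_lit 0) (nat_lit 8311347602) (nat_lit 76) (nat_lit 43084492686) (nat_lit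 76) (nat_lit 38490235407) (nat_lit 3) (nat_lit 4) (nat_lit 4) (nat_lit 5) (nat_lit 4) (nat_lit 4) (nat_lit 349) (nat_lit 226) (nat_lit 205))) (XT.nd (nat_lit 78) (nat_lit 0) (nat_lit 0) (XT.lf (nat_lit 0) (nat_lit 16906175393) (nat_lit 76) (nat_lit 41030085757) (nat_lit 76) (nat_lit 36313331984) (nat_lit 3) (nat_lit 4) (nat_lit 4) (nat_lit 5) (nat_lit 4) (nat_lit 4) (nat_lit 350) (nat_lit 226) (nat_lit 204)) (XT.lf (nat_lit 0) (nat_lit 25770260198) (nat_lit 76) (nat_lit 38948504746) (nat_lit 76) (nat_lit 34115087645) (nat_lit 3) (nat_lit 4) (nat_lit 4) (nat_lit 5) (nat_lit 4) (nat_lit 4) (nat_lit 351) (nat_lit 226) (nat_lit 203))))) (XT.nd (nat_lit 234) (nat_lit 0) (nat_lit 0) (XT.nd (nat_lit 78) (nat_lit 0) (nat_lit 0) (XT.lf (nat_lit 0) (nat_lit 34924706980) (nat_lit 76) (nat_lit 36834793508) (nat_lit 76) (nat_lit 31890268476) (nat_lit 3) (nat_lit 4) (nat_lit 4) (nat_lit 5) (nat_lit 4)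 (nat_lit 4) (nat_lit 352) (nat_lit 226) (nat_lit 202)) (XT.nd (nat_lit 78) (nat_lit 0) (nat_lit 0) (XT.lf (nat_lit 0) (nat_lit 44391312042) (nat_lit 76) (nat_lit 34683919398) (nat_lit 76) (nat_lit 29633577288) (nat_lit 3) (nat_lit 4) (nat_lit 4) (nat_lit 5) (nat_lit 4) (nat_lit 4) (nat_lit 353) (nat_lit 226) (nat_lit 201)) (XT.lf (nat_lit 0) (nat_lit 54192614919) (nat_lit 76) (nat_lit 32490761286) (nat_lit 76) (nat_lit 27339641007) (nat_lit 3) (nat_lit 4) (nat_lit 4) (nat_lit 5) (nat_lit 4) (nat_lit 4) (nat_lit 354) (nat_lit 226) (nat_lit 200)))) (XT.nd (nat_lit 156) (nat_lit 0) (nat_lit 0) (XT.nd (nat_lit 78) (nat_lit 0) (nat_lit 0) (XT.lf (nat_lit 0) (nat_lit 64351952046) (nat_lit 76) (nat_lit 30250097367) (nat_lit 76) (nat_lit 25002997880) (nat_lit 3) (nat_lit 4) (nat_lit 4) (nat_lit 5) (nat_lit 4) (nat_lit 4) (nat_lit 355) (nat_lit 226) (nat_lit 199)) (XT.lf (nat_lit 0) (nat_lit 74893512322)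 (nat_lit 76) (nat_lit 27956592728) (nat_lit 76) (nat_lit 22618084471) (nat_lit 3) (nat_lit 4) (nat_lit 4) (nat_lit 5) (nat_lit 4) (nat_lit 4) (nat_lit 356) (nat_lit 226) (nat_lit 198))) (XT.nd (nat_lit 78) (nat_lit 0) (nat_lit 0) (XT.lf (nat_lit 0) (nat_lit 85842394700) (nat_lit 76) (nat_lit 25604786642) (nat_lit 76) (nat_lit 20179222414) (nat_lit 3) (nat_lit 4) (nat_lit 4) (nat_lit 5) (nat_lit 4) (nat_lit 4) (nat_lit 357) (nat_lit 226) (nat_lit 197)) (XT.lf (nat_lit 0) (nat_lit 97224667947) (nat_lit 76) (nat_lit 23189079572) (nat_lit 76) (nat_lit 17680604895) (nat_lit 3) (nat_lit 4) (nat_lit 4) (nat_lit 5) (nat_lit 4) (nat_lit 4) (nat_lit 358) (nat_lit 226) (nat_lit 196))))))))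
noncomputable def xc7 : XT := (XT.nd (nat_lit 39702) (nat_lit 0) (nat_lit 0) (XT.nd (nat_lit 38610) (nat_lit 0) (nat_lit 152) (XT.nd (nat_lit 38064) (nat_lit 0) (nat_lit 380) (XT.nd (nat_lit 234) (nat_lit 76) (nat_lit 0) (XT.nd (nat_lit 78) (nat_lit 0) (nat_lit 0) (XT.lf (nat_lit 0) (nat_lit 109067432714) (nat_lit 76) (nat_lit 20703719834) (nat_lit 76) (nat_lit 15116282824) (nat_lit 3) (nat_lit 4) (nat_lit 4) (nat_lit 5) (nat_lit 4) (nat_lit 4) (nat_lit 359) (nat_lit 226) (nat_lit 195)) (XT.nd (nat_lit 78) (nat_lit 0) (nat_lit 0) (XT.lf (nat_lit 0) (nat_lit 121398886059) (nat_lit 76) (nat_lit 18142789905) (nat_lit 76) (nat_lit 12480150674) (nat_lit 3) (nat_lit 4) (nat_lit 4) (nat_lit 5) (nat_lit 4) (nat_lit 4) (nat_lit 360) (nat_lit 226) (nat_lit 194)) (XT.lf (nat_lit 0) (nat_lit 134248388586) (nat_lit 76) (nat_lit 15500192333) (nat_lit 76) (nat_lit 9765931939) (nat_lit 3) (nat_lit 4) (nat_lit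 4) (nat_lit 5) (nat_lit 4) (nat_lit 4) (nat_lit 361) (nat_lit 226) (nat_lit 193)))) (XT.nd (nat_lit 156) (nat_lit 76) (nat_lit 0) (XT.nd (nat_lit 78) (nat_lit 0) (nat_lit 0) (XT.lf (nat_lit 0) (nat_lit 147646534349) (nat_lit 76) (nat_lit 12769635218) (nat_lit 76) (nat_lit 6967164192) (nat_lit 3) (nat_lit 4) (nat_lit 4) (nat_lit 5) (nat_lit 4) (nat_lit 4) (nat_lit 362) (nat_lit 226) (nat_lit 192)) (XT.lf (nat_lit 0) (nat_lit 161625223694) (nat_lit 76) (nat_lit 9944617235) (nat_lit 76) (nat_lit 4077183703) (nat_lit 3) (nat_lit 4) (nat_lit 4) (nat_lit 5) (nat_lit 4) (nat_lit 4) (nat_lit 363) (nat_lit 226) (nat_lit 191))) (XT.nd (nat_lit 78) (nat_lit 76) (nat_lit 0) (XT.lf (nat_lit 0) (nat_lit 176217739216) (nat_lit 76) (nat_lit 7018412150) (nat_lit 76) (nat_lit 1089109564) (nat_lit 3) (nat_lit 4) (nat_lit 4) (nat_lit 5) (nat_lit 4) (nat_lit 4) (nat_lit 364) (nat_lit 226) (nat_lit 190)) (XT.lf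 (nat_lit 0) (nat_lit 1965064058) (nat_lit 152) (nat_lit 1999145455) (nat_lit 76) (nat_lit 189473917646) (nat_lit 2) (nat_lit 5) (nat_lit 4) (nat_lit 5) (nat_lit 3) (nat_lit 4) (nat_lit 365) (nat_lit 226) (nat_lit 189))))) (XT.nd (nat_lit 234) (nat_lit 152) (nat_lit 0) (XT.nd (nat_lit 78) (nat_lit 76) (nat_lit 0) (XT.lf (nat_lit 0) (nat_lit 2170271287) (nat_lit 152) (nat_lit 11475997175) (nat_lit 0) (nat_lit 2170271287) (nat_lit 10) (nat_lit 5) (nat_lit 12) (nat_lit 4) (nat_lit 10) (nat_lit 4) (nat_lit 326) (nat_lit 227) (nat_lit 227)) (XT.nd (nat_lit 78) (nat_lit 76) (nat_lit 0) (XT.lf (nat_lit 0) (nat_lit 11101463109) (nat_lit 152) (nat_lit 11181898184) (nat_lit 0) (nat_lit 10721306375) (nat_lit 10) (nat_lit 5) (nat_lit 12) (nat_lit 4) (nat_lit 10) (nat_lit 4) (nat_lit 327) (nat_lit 227) (nat_lit 226)) (XT.lf (nat_lit 0) (nat_lit 785247351) (nat_lit 76) (nat_lit 17204093596) (nat_lit 76)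 (nat_lit 16461882828) (nat_lit 9) (nat_lit 4) (nat_lit 10) (nat_lit 5) (nat_lit 10) (nat_lit 4) (nat_lit 328) (nat_lit 227) (nat_lit 225)))) (XT.nd (nat_lit 156) (nat_lit 152) (nat_lit 0) (XT.nd (nat_lit 78) (nat_lit 0) (nat_lit 0) (XT.lf (nat_lit 0) (nat_lit 13189300728) (nat_lit 76) (nat_lit 11935395888) (nat_lit 76) (nat_lit 10848371756) (nat_lit 9) (nat_lit 4) (nat_lit 10) (nat_lit 5) (nat_lit 10) (nat_lit 4) (nat_lit 329) (nat_lit 227) (nat_lit 224)) (XT.lf (nat_lit 0) (nat_lit 25837253709) (nat_lit 76) (nat_lit 6577638900) (nat_lit 76) (nat_lit 5162221088) (nat_lit 9) (nat_lit 4) (nat_lit 10) (nat_lit 5) (nat_lit 10) (nat_lit 4) (nat_lit 330) (nat_lit 227) (nat_lit 223))) (XT.nd (nat_lit 78) (nat_lit 76) (nat_lit 0) (XT.lf (nat_lit 0) (nat_lit 598202233) (nat_lit 152) (nat_lit 513823164) (nat_lit 76) (nat_lit 38154977562) (nat_lit 8) (nat_lit 5) (nat_lit 10) (nat_lit 5) (nat_lit 9)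 (nat_lit 4) (nat_lit 331) (nat_lit 227) (nat_lit 222)) (XT.lf (nat_lit 0) (nat_lit 6507004535) (nat_lit 152) (nat_lit 29993900969) (nat_lit 0) (nat_lit 4539978857) (nat_lit 7) (nat_lit 5) (nat_lit 9) (nat_lit 4) (nat_lit 7) (nat_lit 4) (nat_lit 332) (nat_lit 227) (nat_lit 221)))))) (XT.nd (nat_lit 546) (nat_lit 152) (nat_lit 0) (XT.nd (nat_lit 234) (nat_lit 0) (nat_lit 0) (XT.nd (nat_lit 78) (nat_lit 76) (nat_lit 0) (XT.lf (nat_lit 0) (nat_lit 12546891437) (nat_lit 152) (nat_lit 20057092118) (nat_lit 0) (nat_lit 10304449440) (nat_lit 7) (nat_lit 5) (nat_lit 9) (nat_lit 4) (nat_lit 7) (nat_lit 4) (nat_lit 333) (nat_lit 227) (nat_lit 220)) (XT.nd (nat_lit 78) (nat_lit 76) (nat_lit 0) (XT.lf (nat_lit 0) (nat_lit 18716466795) (nat_lit 152) (nat_lit 9946378372) (nat_lit 0) (nat_lit 16211723542) (nat_lit 7) (nat_lit 5) (nat_lit 9) (nat_lit 4) (nat_lit 7) (nat_lit 4) (nat_lit 334) (nat_lit 227)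 (nat_lit 219)) (XT.lf (nat_lit 0) (nat_lit 369524142) (nat_lit 76) (nat_lit 24664448025) (nat_lit 76) (nat_lit 21909894052) (nat_lit 6) (nat_lit 4) (nat_lit 7) (nat_lit 5) (nat_lit 7) (nat_lit 4) (nat_lit 335) (nat_lit 227) (nat_lit 218)))) (XT.nd (nat_lit 156) (nat_lit 0) (nat_lit 0) (XT.nd (nat_lit 78) (nat_lit 0) (nat_lit 0) (XT.lf (nat_lit 0) (nat_lit 11110330252) (nat_lit 76) (nat_lit 20500253539) (nat_lit 76) (nat_lit 17507784594) (nat_lit 6) (nat_lit 4) (nat_lit 7) (nat_lit 5) (nat_lit 7) (nat_lit 4) (nat_lit 336) (nat_lit 227) (nat_lit 217)) (XT.lf (nat_lit 0) (nat_lit 22103660870) (nat_lit 76) (nat_lit 16260785880) (nat_lit 76) (nat_lit 13041731248) (nat_lit 6) (nat_lit 4) (nat_lit 7) (nat_lit 5) (nat_lit 7) (nat_lit 4) (nat_lit 337) (nat_lit 227) (nat_lit 216))) (XT.nd (nat_lit 78) (nat_lit 0) (nat_lit 0) (XT.lf (nat_lit 0) (nat_lit 33375690595) (nat_lit 76) (nat_lit 11935951078)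 (nat_lit 76) (nat_lit 8501100554) (nat_lit 6) (nat_lit 4) (nat_lit 7) (nat_lit 5) (nat_lit 7) (nat_lit 4) (nat_lit 338) (nat_lit 227) (nat_lit 215)) (XT.lf (nat_lit 0) (nat_lit 44953257592) (nat_lit 76) (nat_lit 7515451907) (nat_lit 76) (nat_lit 3875081485) (nat_lit 6) (nat_lit 4) (nat_lit 7) (nat_lit 5) (nat_lit 7) (nat_lit 4) (nat_lit 339) (nat_lit 227) (nat_lit 214))))) (XT.nd (nat_lit 234) (nat_lit 0) (nat_lit 0) (XT.nd (nat_lit 78) (nat_lit 76) (nat_lit 0) (XT.lf (nat_lit 0) (nat_lit 830805628) (nat_lit 152) (nat_lit 2149568232) (nat_lit 76) (nat_lit 56024732361) (nat_lit 5) (nat_lit 5) (nat_lit 7) (nat_lit 5) (nat_lit 6) (nat_lit 4) (nat_lit 340) (nat_lit 227) (nat_lit 213)) (XT.nd (nat_lit 78) (nat_lit 0) (nat_lit 0) (XT.lf (nat_lit 0) (nat_lit 5655126816) (nat_lit 152) (nat_lit 54394567625) (nat_lit 0) (nat_lit 1749771220) (nat_lit 4) (nat_lit 5) (nat_lit 6) (nat_lit 4) (nat_lit 4)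 (nat_lit 4) (nat_lit 341) (nat_lit 227) (nat_lit 212)) (XT.lf (nat_lit 0) (nat_lit 10649879653) (nat_lit 152) (nat_lit 47513654361) (nat_lit 0) (nat_lit 6572159188) (nat_lit 4) (nat_lit 5) (nat_lit 6) (nat_lit 4) (nat_lit 4) (nat_lit 4) (nat_lit 342) (nat_lit 227) (nat_lit 211)))) (XT.nd (nat_lit 156) (nat_lit 0) (nat_lit 0) (XT.nd (nat_lit 78) (nat_lit 0) (nat_lit 0) (XT.lf (nat_lit 0) (nat_lit 15777024377) (nat_lit 152) (nat_lit 40510106551) (nat_lit 0) (nat_lit 11535146894) (nat_lit 4) (nat_lit 5) (nat_lit 6) (nat_lit 4) (nat_lit 4) (nat_lit 4) (nat_lit 343) (nat_lit 227) (nat_lit 210)) (XT.lf (nat_lit 0) (nat_lit 21048768475) (nat_lit 152) (nat_lit 33367249081) (nat_lit 0) (nat_lit 16650550976) (nat_lit 4) (nat_lit 5) (nat_lit 6) (nat_lit 4) (nat_lit 4) (nat_lit 4) (nat_lit 344) (nat_lit 227) (nat_lit 209))) (XT.nd (nat_lit 78) (nat_lit 0) (nat_lit 0) (XT.lf (nat_lit 0) (nat_lit 26477663719)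 (nat_lit 152) (nat_lit 26068075149) (nat_lit 0) (nat_lit 21930550966) (nat_lit 4) (nat_lit 5) (nat_lit 6) (nat_lit 4) (nat_lit 4) (nat_lit 4) (nat_lit 345) (nat_lit 227) (nat_lit 208)) (XT.lf (nat_lit 0) (nat_lit 32076636051) (nat_lit 152) (nat_lit 18595205769) (nat_lit 0) (nat_lit 27387718293) (nat_lit 4) (nat_lit 5) (nat_lit 6) (nat_lit 4) (nat_lit 4) (nat_lit 4) (nat_lit 346) (nat_lit 227) (nat_lit 207))))))) (XT.nd (nat_lit 1092) (nat_lit 76) (nat_lit 0) (XT.nd (nat_lit 546) (nat_lit 0) (nat_lit 0) (XT.nd (nat_lit 234) (nat_lit 0) (nat_lit 0) (XT.nd (nat_lit 78) (nat_lit 76) (nat_lit 0) (XT.lf (nat_lit 0) (nat_lit 37859016356) (nat_lit 152) (nat_lit 10930848394) (nat_lit 0) (nat_lit 33035046213) (nat_lit 4) (nat_lit 5) (nat_lit 6) (nat_lit 4) (nat_lit 4) (nat_lit 4) (nat_lit 347) (nat_lit 227) (nat_lit 206)) (XT.nd (nat_lit 78) (nat_lit 76) (nat_lit 0) (XT.lf (nat_lit 0) (nat_lit 43838572206)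 (nat_lit 152) (nat_lit 3056754554) (nat_lit 0) (nat_lit 38885980745) (nat_lit 4) (nat_lit 5) (nat_lit 6) (nat_lit 4) (nat_lit 4) (nat_lit 4) (nat_lit 348) (nat_lit 227) (nat_lit 205)) (XT.lf (nat_lit 0) (nat_lit 5146245374) (nat_lit 76) (nat_lit 44932764125) (nat_lit 76) (nat_lit 39857676169) (nat_lit 3) (nat_lit 4) (nat_lit 4) (nat_lit 5) (nat_lit 4) (nat_lit 4) (nat_lit 349) (nat_lit 227) (nat_lit 204)))) (XT.nd (nat_lit 156) (nat_lit 0) (nat_lit 0) (XT.nd (nat_lit 78) (nat_lit 0) (nat_lit 0) (XT.lf (nat_lit 0) (nat_lit 13662788104) (nat_lit 76) (nat_lit 42915209032) (nat_lit 76) (nat_lit 37723457749) (nat_lit 3) (nat_lit 4) (nat_lit 4) (nat_lit 5) (nat_lit 4) (nat_lit 4) (nat_lit 350) (nat_lit 227) (nat_lit 203)) (XT.lf (nat_lit 0) (nat_lit 22452315707) (nat_lit 76) (nat_lit 40868725009) (nat_lit 76) (nat_lit 35565865794) (nat_lit 3) (nat_lit 4) (nat_lit 4) (nat_lit 5) (nat_lit 4) (nat_lit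 4) (nat_lit 351) (nat_lit 227) (nat_lit 202))) (XT.nd (nat_lit 78) (nat_lit 0) (nat_lit 0) (XT.lf (nat_lit 0) (nat_lit 31535755631) (nat_lit 76) (nat_lit 38788439473) (nat_lit 76) (nat_lit 33379763181) (nat_lit 3) (nat_lit 4) (nat_lit 4) (nat_lit 5) (nat_lit 4) (nat_lit 4) (nat_lit 352) (nat_lit 227) (nat_lit 201)) (XT.lf (nat_lit 0) (nat_lit 40934735114) (nat_lit 76) (nat_lit 36669399364) (nat_lit 76) (nat_lit 31159944903) (nat_lit 3) (nat_lit 4) (nat_lit 4) (nat_lit 5) (nat_lit 4) (nat_lit 4) (nat_lit 353) (nat_lit 227) (nat_lit 200))))) (XT.nd (nat_lit 234) (nat_lit 0) (nat_lit 0) (XT.nd (nat_lit 78) (nat_lit 0) (nat_lit 0) (XT.lf (nat_lit 0) (nat_lit 50671632677) (nat_lit 76) (nat_lit 34506559349) (nat_lit 76) (nat_lit 28901125680) (nat_lit 3) (nat_lit 4) (nat_lit 4) (nat_lit 5) (nat_lit 4) (nat_lit 4) (nat_lit 354) (nat_lit 227) (nat_lit 199)) (XT.nd (nat_lit 78) (nat_lit 0) (nat_lit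 0) (XT.lf (nat_lit 0) (nat_lit 60769631410) (nat_lit 76) (nat_lit 32294769809) (nat_lit 76) (nat_lit 26597927369) (nat_lit 3) (nat_lit 4) (nat_lit 4) (nat_lit 5) (nat_lit 4) (nat_lit 4) (nat_lit 355) (nat_lit 227) (nat_lit 198)) (XT.lf (nat_lit 0) (nat_lit 71252774168) (nat_lit 76) (nat_lit 30028764577) (nat_lit 76) (nat_lit 24244866166) (nat_lit 3) (nat_lit 4) (nat_lit 4) (nat_lit 5) (nat_lit 4) (nat_lit 4) (nat_lit 356) (nat_lit 227) (nat_lit 197)))) (XT.nd (nat_lit 156) (nat_lit 0) (nat_lit 0) (XT.nd (nat_lit 78) (nat_lit 0) (nat_lit 0) (XT.lf (nat_lit 0) (nat_lit 82146020814) (nat_lit 76) (nat_lit 27703148404) (nat_lit 76) (nat_lit 21836339543) (nat_lit 3) (nat_lit 4) (nat_lit 4) (nat_lit 5) (nat_lit 4) (nat_lit 4) (nat_lit 357) (nat_lit 227) (nat_lit 196)) (XT.lf (nat_lit 0) (nat_lit 93475307650) (nat_lit 76) (nat_lit 25312384107) (nat_lit 76) (nat_lit 19366612914) (nat_lit 3) (nat_lit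 4) (nat_lit 4) (nat_lit 5) (nat_lit 4) (nat_lit 4) (nat_lit 358) (nat_lit 227) (nat_lit 195))) (XT.nd (nat_lit 78) (nat_lit 0) (nat_lit 0) (XT.lf (nat_lit 0) (nat_lit 105267609168) (nat_lit 76) (nat_lit 22850779391) (nat_lit 76) (nat_lit 16829805977) (nat_lit 3) (nat_lit 4) (nat_lit 4) (nat_lit 5) (nat_lit 4) (nat_lit 4) (nat_lit 359) (nat_lit 227) (nat_lit 194)) (XT.lf (nat_lit 0) (nat_lit 117551002277) (nat_lit 76) (nat_lit 20312473293) (nat_lit 76) (nat_lit 14219878716) (nat_lit 3) (nat_lit 4) (nat_lit 4) (nat_lit 5) (nat_lit 4) (nat_lit 4) (nat_lit 360) (nat_lit 227) (nat_lit 193)))))) (XT.nd (nat_lit 37908) (nat_lit 0) (nat_lit 380) (XT.nd (nat_lit 234) (nat_lit 76) (nat_lit 0) (XT.nd (nat_lit 78) (nat_lit 0) (nat_lit 0) (XT.lf (nat_lit 0) (nat_lit 130354733150) (nat_lit 76) (nat_lit 17691422227) (nat_lit 76) (nat_lit 11530617018) (nat_lit 3) (nat_lit 4) (nat_lit 4) (nat_lit 5) (nat_lit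 4) (nat_lit 4) (nat_lit 361) (nat_lit 227) (nat_lit 192)) (XT.nd (nat_lit 78) (nat_lit 0) (nat_lit 0) (XT.lf (nat_lit 0) (nat_lit 143709286861) (nat_lit 76) (nat_lit 14981385593) (nat_lit 76) (nat_lit 8755617878) (nat_lit 3) (nat_lit 4) (nat_lit 4) (nat_lit 5) (nat_lit 4) (nat_lit 4) (nat_lit 362) (nat_lit 227) (nat_lit 191)) (XT.lf (nat_lit 0) (nat_lit 157646459967) (nat_lit 76) (nat_lit 12175910926) (nat_lit 76) (nat_lit 5888274157) (nat_lit 3) (nat_lit 4) (nat_lit 4) (nat_lit 5) (nat_lit 4) (nat_lit 4) (nat_lit 363) (nat_lit 227) (nat_lit 190)))) (XT.nd (nat_lit 37518) (nat_lit 0) (nat_lit 760) (XT.nd (nat_lit 78) (nat_lit 76) (nat_lit 0) (XT.lf (nat_lit 0) (nat_lit 172199436213) (nat_lit 76) (nat_lit 9268318522) (nat_lit 76) (nat_lit 2921758845) (nat_lit 3) (nat_lit 4) (nat_lit 4) (nat_lit 5) (nat_lit 4) (nat_lit 4) (nat_lit 364) (nat_lit 227) (nat_lit 189)) (XT.lf (nat_lit 0) (nat_lit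 148044806) (nat_lit 152) (nat_lit 6102145775) (nat_lit 76) (nat_lit 187253325774) (nat_lit 2) (nat_lit 5) (nat_lit 4) (nat_lit 5) (nat_lit 3) (nat_lit 4) (nat_lit 365) (nat_lit 227) (nat_lit 188))) (XT.nd (nat_lit 78) (nat_lit 0) (nat_lit 0) (XT.lf (nat_lit 0) (nat_lit 6256263382) (nat_lit 76) (nat_lit 4144201573) (nat_lit 76) (nat_lit 4144201573) (nat_lit 12) (nat_lit 4) (nat_lit 13) (nat_lit 5) (nat_lit 13) (nat_lit 4) (nat_lit 324) (nat_lit 228) (nat_lit 228)) (XT.lf (nat_lit 0) (nat_lit 26137516280) (nat_lit 76) (nat_lit 2302294187) (nat_lit 76) (nat_lit 1891154679) (nat_lit 12) (nat_lit 4) (nat_lit 13) (nat_lit 5) (nat_lit 13) (nat_lit 4) (nat_lit 325) (nat_lit 228) (nat_lit 227))))) (XT.nd (nat_lit 234) (nat_lit 152) (nat_lit 0) (XT.nd (nat_lit 78) (nat_lit 76) (nat_lit 0) (XT.lf (nat_lit 0) (nat_lit 4627722339) (nat_lit 152) (nat_lit 23160344284) (nat_lit 0) (nat_lit 3848401033) (nat_lit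 10) (nat_lit 5) (nat_lit 12) (nat_lit 4) (nat_lit 10) (nat_lit 4) (nat_lit 326) (nat_lit 228) (nat_lit 226)) (XT.nd (nat_lit 78) (nat_lit 76) (nat_lit 0) (XT.lf (nat_lit 0) (nat_lit 11281990678) (nat_lit 152) (nat_lit 11588676626) (nat_lit 0) (nat_lit 10140615339) (nat_lit 10) (nat_lit 5) (nat_lit 12) (nat_lit 4) (nat_lit 10) (nat_lit 4) (nat_lit 327) (nat_lit 228) (nat_lit 225)) (XT.lf (nat_lit 0) (nat_lit 177632626) (nat_lit 76) (nat_lit 17884821605) (nat_lit 76) (nat_lit 16398632901) (nat_lit 9) (nat_lit 4) (nat_lit 10) (nat_lit 5) (nat_lit 10) (nat_lit 4) (nat_lit 328) (nat_lit 228) (nat_lit 224)))) (XT.nd (nat_lit 156) (nat_lit 152) (nat_lit 0) (XT.nd (nat_lit 78) (nat_lit 0) (nat_lit 0) (XT.lf (nat_lit 0) (nat_lit 12398123532) (nat_lit 76) (nat_lit 12701185168) (nat_lit 76) (nat_lit 10886602784) (nat_lit 9) (nat_lit 4) (nat_lit 10) (nat_lit 5) (nat_lit 10) (nat_lit 4) (nat_lit 329)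 (nat_lit 228) (nat_lit 223)) (XT.lf (nat_lit 0) (nat_lit 24871255111) (nat_lit 76) (nat_lit 7424438914) (nat_lit 76) (nat_lit 5297100644) (nat_lit 9) (nat_lit 4) (nat_lit 10) (nat_lit 5) (nat_lit 10) (nat_lit 4) (nat_lit 330) (nat_lit 228) (nat_lit 222))) (XT.nd (nat_lit 78) (nat_lit 76) (nat_lit 0) (XT.lf (nat_lit 0) (nat_lit 375704599) (nat_lit 152) (nat_lit 1662520682) (nat_lit 76) (nat_lit 37247226816) (nat_lit 8) (nat_lit 5) (nat_lit 10) (nat_lit 5) (nat_lit 9) (nat_lit 4) (nat_lit 331) (nat_lit 228) (nat_lit 221)) (XT.lf (nat_lit 0) (nat_lit 6175976223) (nat_lit 152) (nat_lit 31340638119) (nat_lit 0) (nat_lit 3545995807) (nat_lit 7) (nat_lit 5) (nat_lit 9) (nat_lit 4) (nat_lit 7) (nat_lit 4) (nat_lit 332) (nat_lit 228) (nat_lit 220))))))))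
noncomputable def xc8 : XT := (XT.nd (nat_lit 2106) (nat_lit 0) (nat_lit 0) (XT.nd (nat_lit 1014) (nat_lit 76) (nat_lit 0) (XT.nd (nat_lit 468) (nat_lit 152) (nat_lit 0) (XT.nd (nat_lit 234) (nat_lit 76) (nat_lit 0) (XT.nd (nat_lit 78) (nat_lit 0) (nat_lit 0) (XT.lf (nat_lit 0) (nat_lit 12131811472) (nat_lit 152) (nat_lit 21561358804) (nat_lit 0) (nat_lit 9239529800) (nat_lit 7) (nat_lit 5) (nat_lit 9) (nat_lit 4) (nat_lit 7) (nat_lit 4) (nat_lit 333) (nat_lit 228) (nat_lit 219)) (XT.nd (nat_lit 78) (nat_lit 0) (nat_lit 0) (XT.lf (nat_lit 0) (nat_lit 18221337637) (nat_lit 152) (nat_lit 11600673187) (nat_lit 0) (nat_lit 15079245245) (nat_lit 7) (nat_lit 5) (nat_lit 9) (nat_lit 4) (nat_lit 7) (nat_lit 4) (nat_lit 334) (nat_lit 228) (nat_lit 218)) (XT.lf (nat_lit 0) (nat_lit 24459053591) (nat_lit 152) (nat_lit 1434865351) (nat_lit 0) (nat_lit 21079046227) (nat_lit 7) (nat_lit 5) (nat_lit 9)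 (nat_lit 4) (nat_lit 7) (nat_lit 4) (nat_lit 335) (nat_lit 228) (nat_lit 217)))) (XT.nd (nat_lit 78) (nat_lit 0) (nat_lit 0) (XT.lf (nat_lit 0) (nat_lit 9138595930) (nat_lit 76) (nat_lit 21809060881) (nat_lit 76) (nat_lit 18202467830) (nat_lit 6) (nat_lit 4) (nat_lit 7) (nat_lit 5) (nat_lit 7) (nat_lit 4) (nat_lit 336) (nat_lit 228) (nat_lit 216)) (XT.nd (nat_lit 78) (nat_lit 0) (nat_lit 0) (XT.lf (nat_lit 0) (nat_lit 19999747318) (nat_lit 76) (nat_lit 17631352363) (nat_lit 76) (nat_lit 13808963420) (nat_lit 6) (nat_lit 4) (nat_lit 7) (nat_lit 5) (nat_lit 7) (nat_lit 4) (nat_lit 337) (nat_lit 228) (nat_lit 215)) (XT.lf (nat_lit 0) (nat_lit 31145892060) (nat_lit 76) (nat_lit 13365335791) (nat_lit 76) (nat_lit 9337426950) (nat_lit 6) (nat_lit 4) (nat_lit 7) (nat_lit 5) (nat_lit 7) (nat_lit 4) (nat_lit 338) (nat_lit 228) (nat_lit 214))))) (XT.nd (nat_lit 234) (nat_lit 0) (nat_lit 0) (XT.nd (nat_lit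 78) (nat_lit 152) (nat_lit 0) (XT.lf (nat_lit 0) (nat_lit 42603568597) (nat_lit 76) (nat_lit 9000853981) (nat_lit 76) (nat_lit 4777211904) (nat_lit 6) (nat_lit 4) (nat_lit 7) (nat_lit 5) (nat_lit 7) (nat_lit 4) (nat_lit 339) (nat_lit 228) (nat_lit 213)) (XT.nd (nat_lit 78) (nat_lit 152) (nat_lit 0) (XT.lf (nat_lit 0) (nat_lit 54400057112) (nat_lit 76) (nat_lit 4527515311) (nat_lit 76) (nat_lit 117460628) (nat_lit 6) (nat_lit 4) (nat_lit 7) (nat_lit 5) (nat_lit 7) (nat_lit 4) (nat_lit 340) (nat_lit 228) (nat_lit 212)) (XT.lf (nat_lit 0) (nat_lit 4609469638) (nat_lit 152) (nat_lit 57077461908) (nat_lit 0) (nat_lit 155498282) (nat_lit 4) (nat_lit 5) (nat_lit 6) (nat_lit 4) (nat_lit 4) (nat_lit 4) (nat_lit 341) (nat_lit 228) (nat_lit 211)))) (XT.nd (nat_lit 156) (nat_lit 0) (nat_lit 0) (XT.nd (nat_lit 78) (nat_lit 0) (nat_lit 0) (XT.lf (nat_lit 0) (nat_lit 9546980644) (nat_lit 152) (nat_lit 50304554067)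 (nat_lit 0) (nat_lit 4928852269) (nat_lit 4) (nat_lit 5) (nat_lit 6) (nat_lit 4) (nat_lit 4) (nat_lit 4) (nat_lit 342) (nat_lit 228) (nat_lit 210)) (XT.lf (nat_lit 0) (nat_lit 14619609337) (nat_lit 152) (nat_lit 43403868565) (nat_lit 0) (nat_lit 9845140946) (nat_lit 4) (nat_lit 5) (nat_lit 6) (nat_lit 4) (nat_lit 4) (nat_lit 4) (nat_lit 343) (nat_lit 228) (nat_lit 209))) (XT.nd (nat_lit 78) (nat_lit 0) (nat_lit 0) (XT.lf (nat_lit 0) (nat_lit 19839433407) (nat_lit 152) (nat_lit 36358975199) (nat_lit 0) (nat_lit 14916069761) (nat_lit 4) (nat_lit 5) (nat_lit 6) (nat_lit 4) (nat_lit 4) (nat_lit 4) (nat_lit 344) (nat_lit 228) (nat_lit 208)) (XT.lf (nat_lit 0) (nat_lit 25218881005) (nat_lit 152) (nat_lit 29153100412) (nat_lit 0) (nat_lit 20153712355) (nat_lit 4) (nat_lit 5) (nat_lit 6) (nat_lit 4) (nat_lit 4) (nat_lit 4) (nat_lit 345) (nat_lit 228) (nat_lit 207)))))) (XT.nd (nat_lit 546) (nat_lit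 0) (nat_lit 0) (XT.nd (nat_lit 234) (nat_lit 76) (nat_lit 0) (XT.nd (nat_lit 78) (nat_lit 0) (nat_lit 0) (XT.lf (nat_lit 0) (nat_lit 30770760340) (nat_lit 152) (nat_lit 21769087361) (nat_lit 0) (nat_lit 25570539305) (nat_lit 4) (nat_lit 5) (nat_lit 6) (nat_lit 4) (nat_lit 4) (nat_lit 4) (nat_lit 346) (nat_lit 228) (nat_lit 206)) (XT.nd (nat_lit 78) (nat_lit 0) (nat_lit 0) (XT.lf (nat_lit 0) (nat_lit 36508290172) (nat_lit 152) (nat_lit 14189355061) (nat_lit 0) (nat_lit 31179447818) (nat_lit 4) (nat_lit 5) (nat_lit 6) (nat_lit 4) (nat_lit 4) (nat_lit 4) (nat_lit 347) (nat_lit 228) (nat_lit 205)) (XT.lf (nat_lit 0) (nat_lit 42445131286) (nat_lit 152) (nat_lit 6395856531) (nat_lit 0) (nat_lit 36993792438) (nat_lit 4) (nat_lit 5) (nat_lit 6) (nat_lit 4) (nat_lit 4) (nat_lit 4) (nat_lit 348) (nat_lit 228) (nat_lit 204)))) (XT.nd (nat_lit 156) (nat_lit 0) (nat_lit 0) (XT.nd (nat_lit 78) (nat_lit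 0) (nat_lit 0) (XT.lf (nat_lit 0) (nat_lit 1662403659) (nat_lit 76) (nat_lit 46948995400) (nat_lit 76) (nat_lit 41380993225) (nat_lit 3) (nat_lit 4) (nat_lit 4) (nat_lit 5) (nat_lit 4) (nat_lit 4) (nat_lit 349) (nat_lit 228) (nat_lit 203)) (XT.lf (nat_lit 0) (nat_lit 10104389188) (nat_lit 76) (nat_lit 44966537295) (nat_lit 76) (nat_lit 39287427188) (nat_lit 3) (nat_lit 4) (nat_lit 4) (nat_lit 5) (nat_lit 4) (nat_lit 4) (nat_lit 350) (nat_lit 228) (nat_lit 202))) (XT.nd (nat_lit 78) (nat_lit 0) (nat_lit 0) (XT.lf (nat_lit 0) (nat_lit 18822909933) (nat_lit 76) (nat_lit 42953478974) (nat_lit 76) (nat_lit 37168551789) (nat_lit 3) (nat_lit 4) (nat_lit 4) (nat_lit 5) (nat_lit 4) (nat_lit 4) (nat_lit 351) (nat_lit 228) (nat_lit 201)) (XT.lf (nat_lit 0) (nat_lit 27838724277) (nat_lit 76) (nat_lit 40905027440) (nat_lit 76) (nat_lit 35019322086) (nat_lit 3) (nat_lit 4) (nat_lit 4) (nat_lit 5) (nat_lit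 4) (nat_lit 4) (nat_lit 352) (nat_lit 228) (nat_lit 200))))) (XT.nd (nat_lit 234) (nat_lit 0) (nat_lit 0) (XT.nd (nat_lit 78) (nat_lit 0) (nat_lit 0) (XT.lf (nat_lit 0) (nat_lit 37173298446) (nat_lit 76) (nat_lit 38816305428) (nat_lit 76) (nat_lit 32834620866) (nat_lit 3) (nat_lit 4) (nat_lit 4) (nat_lit 5) (nat_lit 4) (nat_lit 4) (nat_lit 353) (nat_lit 228) (nat_lit 199)) (XT.nd (nat_lit 78) (nat_lit 0) (nat_lit 0) (XT.lf (nat_lit 0) (nat_lit 46848857615) (nat_lit 76) (nat_lit 36682339791) (nat_lit 76) (nat_lit 30609246460) (nat_lit 3) (nat_lit 4) (nat_lit 4) (nat_lit 5) (nat_lit 4) (nat_lit 4) (nat_lit 354) (nat_lit 228) (nat_lit 198)) (XT.lf (nat_lit 0) (nat_lit 56888438830) (nat_lit 76) (nat_lit 34498049659) (nat_lit 76) (nat_lit 28337900355) (nat_lit 3) (nat_lit 4) (nat_lit 4) (nat_lit 5) (nat_lit 4) (nat_lit 4) (nat_lit 355) (nat_lit 228) (nat_lit 197)))) (XT.nd (nat_lit 156) (nat_lit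 0) (nat_lit 0) (XT.nd (nat_lit 78) (nat_lit 0) (nat_lit 0) (XT.lf (nat_lit 0) (nat_lit 67315945857) (nat_lit 76) (nat_lit 32258234339) (nat_lit 76) (nat_lit 26015174587) (nat_lit 3) (nat_lit 4) (nat_lit 4) (nat_lit 5) (nat_lit 4) (nat_lit 4) (nat_lit 356) (nat_lit 228) (nat_lit 196)) (XT.lf (nat_lit 0) (nat_lit 78156206092) (nat_lit 76) (nat_lit 29957560939) (nat_lit 76) (nat_lit 23635538854) (nat_lit 3) (nat_lit 4) (nat_lit 4) (nat_lit 5) (nat_lit 4) (nat_lit 4) (nat_lit 357) (nat_lit 228) (nat_lit 195))) (XT.nd (nat_lit 78) (nat_lit 0) (nat_lit 0) (XT.lf (nat_lit 0) (nat_lit 89435029679) (nat_lit 76) (nat_lit 27590551665) (nat_lit 76) (nat_lit 21193327359) (nat_lit 3) (nat_lit 4) (nat_lit 4) (nat_lit 5) (nat_lit 4) (nat_lit 4) (nat_lit 358) (nat_lit 228) (nat_lit 194)) (XT.lf (nat_lit 0) (nat_lit 101179270960) (nat_lit 76) (nat_lit 25151570780) (nat_lit 76) (nat_lit 18682725311) (nat_lit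 3) (nat_lit 4) (nat_lit 4) (nat_lit 5) (nat_lit 4) (nat_lit 4) (nat_lit 359) (nat_lit 228) (nat_lit 193))))))) (XT.nd (nat_lit 38298) (nat_lit 0) (nat_lit 76) (XT.nd (nat_lit 37752) (nat_lit 0) (nat_lit 456) (XT.nd (nat_lit 234) (nat_lit 0) (nat_lit 0) (XT.nd (nat_lit 78) (nat_lit 0) (nat_lit 0) (XT.lf (nat_lit 0) (nat_lit 113416892415) (nat_lit 76) (nat_lit 22634811187) (nat_lit 76) (nat_lit 16097755087) (nat_lit 3) (nat_lit 4) (nat_lit 4) (nat_lit 5) (nat_lit 4) (nat_lit 4) (nat_lit 360) (nat_lit 228) (nat_lit 192)) (XT.nd (nat_lit 78) (nat_lit 0) (nat_lit 0) (XT.lf (nat_lit 0) (nat_lit 126177031236) (nat_lit 76) (nat_lit 20034280602) (nat_lit 76) (nat_lit 13432261995) (nat_lit 3) (nat_lit 4) (nat_lit 4) (nat_lit 5) (nat_lit 4) (nat_lit 4) (nat_lit 361) (nat_lit 228) (nat_lit 191)) (XT.lf (nat_lit 0) (nat_lit 139490068708) (nat_lit 76) (nat_lit 17343787285) (nat_lit 76) (nat_lit 10679899624)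 (nat_lit 3) (nat_lit 4) (nat_lit 4) (nat_lit 5) (nat_lit 4) (nat_lit 4) (nat_lit 362) (nat_lit 228) (nat_lit 190)))) (XT.nd (nat_lit 156) (nat_lit 0) (nat_lit 0) (XT.nd (nat_lit 78) (nat_lit 0) (nat_lit 0) (XT.lf (nat_lit 0) (nat_lit 153387702538) (nat_lit 76) (nat_lit 14556925299) (nat_lit 76) (nat_lit 7834114730) (nat_lit 3) (nat_lit 4) (nat_lit 4) (nat_lit 5) (nat_lit 4) (nat_lit 4) (nat_lit 363) (nat_lit 228) (nat_lit 189)) (XT.lf (nat_lit 0) (nat_lit 167903022331) (nat_lit 76) (nat_lit 11667059258) (nat_lit 76) (nat_lit 4888131634) (nat_lit 3) (nat_lit 4) (nat_lit 4) (nat_lit 5) (nat_lit 4) (nat_lit 4) (nat_lit 364) (nat_lit 228) (nat_lit 188))) (XT.nd (nat_lit 37284) (nat_lit 0) (nat_lit 760) (XT.lf (nat_lit 0) (nat_lit 183070588372) (nat_lit 76) (nat_lit 8667308530) (nat_lit 76) (nat_lit 1834936091) (nat_lit 3) (nat_lit 4) (nat_lit 4) (nat_lit 5) (nat_lit 4) (nat_lit 4) (nat_lit 365)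 (nat_lit 228) (nat_lit 187)) (XT.lf (nat_lit 0) (nat_lit 3308063025) (nat_lit 152) (nat_lit 6780453399) (nat_lit 0) (nat_lit 3308063025) (nat_lit 13) (nat_lit 5) (nat_lit 15) (nat_lit 4) (nat_lit 13) (nat_lit 4) (nat_lit 322) (nat_lit 229) (nat_lit 229))))) (XT.nd (nat_lit 234) (nat_lit 228) (nat_lit 0) (XT.nd (nat_lit 78) (nat_lit 76) (nat_lit 0) (XT.lf (nat_lit 0) (nat_lit 13744502392) (nat_lit 152) (nat_lit 855968420) (nat_lit 0) (nat_lit 13312805908) (nat_lit 13) (nat_lit 5) (nat_lit 15) (nat_lit 4) (nat_lit 13) (nat_lit 4) (nat_lit 323) (nat_lit 229) (nat_lit 228)) (XT.nd (nat_lit 78) (nat_lit 0) (nat_lit 0) (XT.lf (nat_lit 0) (nat_lit 12302859617) (nat_lit 76) (nat_lit 8816371125) (nat_lit 76) (nat_lit 7973535133) (nat_lit 12) (nat_lit 4) (nat_lit 13) (nat_lit 5) (nat_lit 13) (nat_lit 4) (nat_lit 324) (nat_lit 229) (nat_lit 227)) (XT.lf (nat_lit 0) (nat_lit 25728166134) (nat_lit 76)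 (nat_lit 2921949302) (nat_lit 76) (nat_lit 1687551873) (nat_lit 12) (nat_lit 4) (nat_lit 13) (nat_lit 5) (nat_lit 13) (nat_lit 4) (nat_lit 325) (nat_lit 229) (nat_lit 226)))) (XT.nd (nat_lit 156) (nat_lit 76) (nat_lit 0) (XT.nd (nat_lit 78) (nat_lit 0) (nat_lit 0) (XT.lf (nat_lit 0) (nat_lit 4710624090) (nat_lit 152) (nat_lit 23785890156) (nat_lit 0) (nat_lit 3150125951) (nat_lit 10) (nat_lit 5) (nat_lit 12) (nat_lit 4) (nat_lit 10) (nat_lit 4) (nat_lit 326) (nat_lit 229) (nat_lit 225)) (XT.lf (nat_lit 0) (nat_lit 11263318909) (nat_lit 152) (nat_lit 12403202030) (nat_lit 0) (nat_lit 9358007405) (nat_lit 10) (nat_lit 5) (nat_lit 12) (nat_lit 4) (nat_lit 10) (nat_lit 4) (nat_lit 327) (nat_lit 229) (nat_lit 224))) (XT.nd (nat_lit 78) (nat_lit 76) (nat_lit 0) (XT.lf (nat_lit 0) (nat_lit 17945338263) (nat_lit 152) (nat_lit 820339536) (nat_lit 0) (nat_lit 15711633078) (nat_lit 10) (nat_lit 5) (nat_lit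 12) (nat_lit 4) (nat_lit 10) (nat_lit 4) (nat_lit 328) (nat_lit 229) (nat_lit 223)) (XT.lf (nat_lit 0) (nat_lit 11209003603) (nat_lit 76) (nat_lit 13671335917) (nat_lit 76) (nat_lit 11124874846) (nat_lit 9) (nat_lit 4) (nat_lit 10) (nat_lit 5) (nat_lit 10) (nat_lit 4) (nat_lit 329) (nat_lit 229) (nat_lit 222)))))) (XT.nd (nat_lit 546) (nat_lit 152) (nat_lit 0) (XT.nd (nat_lit 234) (nat_lit 76) (nat_lit 0) (XT.nd (nat_lit 78) (nat_lit 152) (nat_lit 0) (XT.lf (nat_lit 0) (nat_lit 23515638610) (nat_lit 76) (nat_lit 8471742743) (nat_lit 76) (nat_lit 5627418923) (nat_lit 9) (nat_lit 4) (nat_lit 10) (nat_lit 5) (nat_lit 10) (nat_lit 4) (nat_lit 330) (nat_lit 229) (nat_lit 221)) (XT.nd (nat_lit 78) (nat_lit 152) (nat_lit 0) (XT.lf (nat_lit 0) (nat_lit 36112540630) (nat_lit 76) (nat_lit 3162802113) (nat_lit 76) (nat_lit 34799485) (nat_lit 9) (nat_lit 4) (nat_lit 10) (nat_lit 5) (nat_lit 10) (nat_lit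 4) (nat_lit 331) (nat_lit 229) (nat_lit 220)) (XT.lf (nat_lit 0) (nat_lit 5656090606) (nat_lit 152) (nat_lit 33077647674) (nat_lit 0) (nat_lit 2356893595) (nat_lit 7) (nat_lit 5) (nat_lit 9) (nat_lit 4) (nat_lit 7) (nat_lit 4) (nat_lit 332) (nat_lit 229) (nat_lit 219)))) (XT.nd (nat_lit 156) (nat_lit 76) (nat_lit 0) (XT.nd (nat_lit 78) (nat_lit 0) (nat_lit 0) (XT.lf (nat_lit 0) (nat_lit 11531876662) (nat_lit 152) (nat_lit 23448396488) (nat_lit 0) (nat_lit 7982868931) (nat_lit 7) (nat_lit 5) (nat_lit 9) (nat_lit 4) (nat_lit 7) (nat_lit 4) (nat_lit 333) (nat_lit 229) (nat_lit 218)) (XT.lf (nat_lit 0) (nat_lit 17545165501) (nat_lit 152) (nat_lit 13630594804) (nat_lit 0) (nat_lit 13758242798) (nat_lit 7) (nat_lit 5) (nat_lit 9) (nat_lit 4) (nat_lit 7) (nat_lit 4) (nat_lit 334) (nat_lit 229) (nat_lit 217))) (XT.nd (nat_lit 78) (nat_lit 76) (nat_lit 0) (XT.lf (nat_lit 0) (nat_lit 23710274476) (nat_lit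 152) (nat_lit 3600866903) (nat_lit 0) (nat_lit 19696766086) (nat_lit 7) (nat_lit 5) (nat_lit 9) (nat_lit 4) (nat_lit 7) (nat_lit 4) (nat_lit 335) (nat_lit 229) (nat_lit 216)) (XT.lf (nat_lit 0) (nat_lit 6797307468) (nat_lit 76) (nat_lit 23309914829) (nat_lit 76) (nat_lit 19080610546) (nat_lit 6) (nat_lit 4) (nat_lit 7) (nat_lit 5) (nat_lit 7) (nat_lit 4) (nat_lit 336) (nat_lit 229) (nat_lit 215))))) (XT.nd (nat_lit 234) (nat_lit 152) (nat_lit 0) (XT.nd (nat_lit 78) (nat_lit 0) (nat_lit 0) (XT.lf (nat_lit 0) (nat_lit 17532573873) (nat_lit 76) (nat_lit 19191024541) (nat_lit 76) (nat_lit 14756200361) (nat_lit 6) (nat_lit 4) (nat_lit 7) (nat_lit 5) (nat_lit 7) (nat_lit 4) (nat_lit 337) (nat_lit 229) (nat_lit 214)) (XT.nd (nat_lit 78) (nat_lit 0) (nat_lit 0) (XT.lf (nat_lit 0) (nat_lit 28558828156) (nat_lit 76) (nat_lit 14981025331) (nat_lit 76) (nat_lit 10350467914) (nat_lit 6) (nat_lit 4) (nat_lit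 7) (nat_lit 5) (nat_lit 7) (nat_lit 4) (nat_lit 338) (nat_lit 229) (nat_lit 213)) (XT.lf (nat_lit 0) (nat_lit 39902323303) (nat_lit 76) (nat_lit 10669893389) (nat_lit 76) (nat_lit 5852923367) (nat_lit 6) (nat_lit 4) (nat_lit 7) (nat_lit 5) (nat_lit 7) (nat_lit 4) (nat_lit 339) (nat_lit 229) (nat_lit 212)))) (XT.nd (nat_lit 156) (nat_lit 0) (nat_lit 0) (XT.nd (nat_lit 78) (nat_lit 152) (nat_lit 0) (XT.lf (nat_lit 0) (nat_lit 51590067637) (nat_lit 76) (nat_lit 6247364117) (nat_lit 76) (nat_lit 1252858280) (nat_lit 6) (nat_lit 4) (nat_lit 7) (nat_lit 5) (nat_lit 7) (nat_lit 4) (nat_lit 340) (nat_lit 229) (nat_lit 211)) (XT.lf (nat_lit 0) (nat_lit 1758827077) (nat_lit 76) (nat_lit 1651229396) (nat_lit 152) (nat_lit 58480555254) (nat_lit 4) (nat_lit 5) (nat_lit 5) (nat_lit 5) (nat_lit 6) (nat_lit 4) (nat_lit 341) (nat_lit 229) (nat_lit 210))) (XT.nd (nat_lit 78) (nat_lit 0) (nat_lit 0) (XT.lf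 (nat_lit 0) (nat_lit 8277178822) (nat_lit 152) (nat_lit 53445866490) (nat_lit 0) (nat_lit 3107646994) (nat_lit 4) (nat_lit 5) (nat_lit 6) (nat_lit 4) (nat_lit 4) (nat_lit 4) (nat_lit 342) (nat_lit 229) (nat_lit 209)) (XT.lf (nat_lit 0) (nat_lit 13297887487) (nat_lit 152) (nat_lit 46643145091) (nat_lit 0) (nat_lit 7979460405) (nat_lit 4) (nat_lit 5) (nat_lit 6) (nat_lit 4) (nat_lit 4) (nat_lit 4) (nat_lit 343) (nat_lit 229) (nat_lit 208))))))))
noncomputable def xc9 : XT := (XT.nd (nat_lit 39234) (nat_lit 0) (nat_lit 0) (XT.nd (nat_lit 1092) (nat_lit 0) (nat_lit 0) (XT.nd (nat_lit 546) (nat_lit 0) (nat_lit 0) (XT.nd (nat_lit 234) (nat_lit 76) (nat_lit 0) (XT.nd (nat_lit 78) (nat_lit 0) (nat_lit 0) (XT.lf (nat_lit 0) (nat_lit 18468263910) (nat_lit 152) (nat_lit 39691550870) (nat_lit 0) (nat_lit 13008031824) (nat_lit 4) (nat_lit 5) (nat_lit 6) (nat_lit 4) (nat_lit 4) (nat_lit 4) (nat_lit 344)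 (nat_lit 229) (nat_lit 207)) (XT.nd (nat_lit 78) (nat_lit 0) (nat_lit 0) (XT.lf (nat_lit 0) (nat_lit 23800618511) (nat_lit 152) (nat_lit 32574532412) (nat_lit 0) (nat_lit 18205334040) (nat_lit 4) (nat_lit 5) (nat_lit 6) (nat_lit 4) (nat_lit 4) (nat_lit 4) (nat_lit 345) (nat_lit 229) (nat_lit 206)) (XT.lf (nat_lit 0) (nat_lit 29307647373) (nat_lit 152) (nat_lit 25275144436) (nat_lit 0) (nat_lit 23583741583) (nat_lit 4) (nat_lit 5) (nat_lit 6) (nat_lit 4) (nat_lit 4) (nat_lit 4) (nat_lit 346) (nat_lit 229) (nat_lit 205)))) (XT.nd (nat_lit 156) (nat_lit 76) (nat_lit 0) (XT.nd (nat_lit 78) (nat_lit 0) (nat_lit 0) (XT.lf (nat_lit 0) (nat_lit 35002462469) (nat_lit 152) (nat_lit 17776007446) (nat_lit 0) (nat_lit 29156060185) (nat_lit 4) (nat_lit 5) (nat_lit 6) (nat_lit 4) (nat_lit 4) (nat_lit 4) (nat_lit 347) (nat_lit 229) (nat_lit 204)) (XT.lf (nat_lit 0) (nat_lit 40898622883) (nat_lit 152) (nat_lit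 10059266355) (nat_lit 0) (nat_lit 34935557270) (nat_lit 4) (nat_lit 5) (nat_lit 6) (nat_lit 4) (nat_lit 4) (nat_lit 4) (nat_lit 348) (nat_lit 229) (nat_lit 203))) (XT.nd (nat_lit 78) (nat_lit 76) (nat_lit 0) (XT.lf (nat_lit 0) (nat_lit 47010167091) (nat_lit 152) (nat_lit 2106547968) (nat_lit 0) (nat_lit 40935993547) (nat_lit 4) (nat_lit 5) (nat_lit 6) (nat_lit 4) (nat_lit 4) (nat_lit 4) (nat_lit 349) (nat_lit 229) (nat_lit 202)) (XT.lf (nat_lit 0) (nat_lit 6222506266) (nat_lit 76) (nat_lit 47188954660) (nat_lit 76) (nat_lit 41008964039) (nat_lit 3) (nat_lit 4) (nat_lit 4) (nat_lit 5) (nat_lit 4) (nat_lit 4) (nat_lit 350) (nat_lit 229) (nat_lit 201))))) (XT.nd (nat_lit 234) (nat_lit 0) (nat_lit 0) (XT.nd (nat_lit 78) (nat_lit 0) (nat_lit 0) (XT.lf (nat_lit 0) (nat_lit 14873401431) (nat_lit 76) (nat_lit 45207730341) (nat_lit 76) (nat_lit 38926961551) (nat_lit 3) (nat_lit 4) (nat_lit 4) (nat_lit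 5) (nat_lit 4) (nat_lit 4) (nat_lit 351) (nat_lit 229) (nat_lit 200)) (XT.nd (nat_lit 78) (nat_lit 0) (nat_lit 0) (XT.lf (nat_lit 0) (nat_lit 23824810462) (nat_lit 76) (nat_lit 43189596904) (nat_lit 76) (nat_lit 36812848905) (nat_lit 3) (nat_lit 4) (nat_lit 4) (nat_lit 5) (nat_lit 4) (nat_lit 4) (nat_lit 352) (nat_lit 229) (nat_lit 199)) (XT.lf (nat_lit 0) (nat_lit 33098046237) (nat_lit 76) (nat_lit 41129749270) (nat_lit 76) (nat_lit 34661592502) (nat_lit 3) (nat_lit 4) (nat_lit 4) (nat_lit 5) (nat_lit 4) (nat_lit 4) (nat_lit 353) (nat_lit 229) (nat_lit 198)))) (XT.nd (nat_lit 156) (nat_lit 0) (nat_lit 0) (XT.nd (nat_lit 78) (nat_lit 0) (nat_lit 0) (XT.lf (nat_lit 0) (nat_lit 42715187888) (nat_lit 76) (nat_lit 39023283041) (nat_lit 76) (nat_lit 32468070301) (nat_lit 3) (nat_lit 4) (nat_lit 4) (nat_lit 5) (nat_lit 4) (nat_lit 4) (nat_lit 354) (nat_lit 229) (nat_lit 197)) (XT.lf (nat_lit 0)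 (nat_lit 52699133371) (nat_lit 76) (nat_lit 36865182821) (nat_lit 76) (nat_lit 30227059632) (nat_lit 3) (nat_lit 4) (nat_lit 4) (nat_lit 5) (nat_lit 4) (nat_lit 4) (nat_lit 355) (nat_lit 229) (nat_lit 196))) (XT.nd (nat_lit 78) (nat_lit 0) (nat_lit 0) (XT.lf (nat_lit 0) (nat_lit 63073653987) (nat_lit 76) (nat_lit 34650310274) (nat_lit 76) (nat_lit 27933224753) (nat_lit 3) (nat_lit 4) (nat_lit 4) (nat_lit 5) (nat_lit 4) (nat_lit 4) (nat_lit 356) (nat_lit 229) (nat_lit 195)) (XT.lf (nat_lit 0) (nat_lit 73863450973) (nat_lit 76) (nat_lit 32373391897) (nat_lit 76) (nat_lit 25581104154) (nat_lit 3) (nat_lit 4) (nat_lit 4) (nat_lit 5) (nat_lit 4) (nat_lit 4) (nat_lit 357) (nat_lit 229) (nat_lit 194)))))) (XT.nd (nat_lit 546) (nat_lit 0) (nat_lit 0) (XT.nd (nat_lit 234) (nat_lit 0) (nat_lit 0) (XT.nd (nat_lit 78) (nat_lit 0) (nat_lit 0) (XT.lf (nat_lit 0) (nat_lit 85094214324) (nat_lit 76) (nat_lit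 30029006453) (nat_lit 76) (nat_lit 23165097548) (nat_lit 3) (nat_lit 4) (nat_lit 4) (nat_lit 5) (nat_lit 4) (nat_lit 4) (nat_lit 358) (nat_lit 229) (nat_lit 193)) (XT.nd (nat_lit 78) (nat_lit 0) (nat_lit 0) (XT.lf (nat_lit 0) (nat_lit 96792683951) (nat_lit 76) (nat_lit 27611572074) (nat_lit 76) (nat_lit 20679452537) (nat_lit 3) (nat_lit 4) (nat_lit 4) (nat_lit 5) (nat_lit 4) (nat_lit 4) (nat_lit 359) (nat_lit 229) (nat_lit 192)) (XT.lf (nat_lit 0) (nat_lit 108986713354) (nat_lit 76) (nat_lit 25115332963) (nat_lit 76) (nat_lit 18118250919) (nat_lit 3) (nat_lit 4) (nat_lit 4) (nat_lit 5) (nat_lit 4) (nat_lit 4) (nat_lit 360) (nat_lit 229) (nat_lit 191)))) (XT.nd (nat_lit 156) (nat_lit 0) (nat_lit 0) (XT.nd (nat_lit 78) (nat_lit 0) (nat_lit 0) (XT.lf (nat_lit 0) (nat_lit 121705335936) (nat_lit 76) (nat_lit 22534345693) (nat_lit 76) (nat_lit 15475394596) (nat_lit 3) (nat_lit 4) (nat_lit 4) (nat_lit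 5) (nat_lit 4) (nat_lit 4) (nat_lit 361) (nat_lit 229) (nat_lit 190)) (XT.lf (nat_lit 0) (nat_lit 134978834132) (nat_lit 76) (nat_lit 19862465058) (nat_lit 76) (nat_lit 12744591052) (nat_lit 3) (nat_lit 4) (nat_lit 4) (nat_lit 5) (nat_lit 4) (nat_lit 4) (nat_lit 362) (nat_lit 229) (nat_lit 189))) (XT.nd (nat_lit 78) (nat_lit 0) (nat_lit 0) (XT.lf (nat_lit 0) (nat_lit 148838811509) (nat_lit 76) (nat_lit 17093329435) (nat_lit 76) (nat_lit 9919338374) (nat_lit 3) (nat_lit 4) (nat_lit 4) (nat_lit 5) (nat_lit 4) (nat_lit 4) (nat_lit 363) (nat_lit 229) (nat_lit 188)) (XT.lf (nat_lit 0) (nat_lit 163318268014) (nat_lit 76) (nat_lit 14220345646) (nat_lit 76) (nat_lit 6992909770) (nat_lit 3) (nat_lit 4) (nat_lit 4) (nat_lit 5) (nat_lit 4) (nat_lit 4) (nat_lit 364) (nat_lit 229) (nat_lit 187))))) (XT.nd (nat_lit 37284) (nat_lit 0) (nat_lit 684) (XT.nd (nat_lit 37128) (nat_lit 0) (nat_lit 836) (XT.lf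 (nat_lit 0) (nat_lit 178451678542) (nat_lit 76) (nat_lit 11236673252) (nat_lit 76) (nat_lit 3958337553) (nat_lit 3) (nat_lit 4) (nat_lit 4) (nat_lit 5) (nat_lit 4) (nat_lit 4) (nat_lit 365) (nat_lit 229) (nat_lit 186)) (XT.nd (nat_lit 78) (nat_lit 76) (nat_lit 0) (XT.lf (nat_lit 0) (nat_lit 5678058465) (nat_lit 76) (nat_lit 3340874629) (nat_lit 76) (nat_lit 3340874629) (nat_lit 15) (nat_lit 4) (nat_lit 16) (nat_lit 5) (nat_lit 16) (nat_lit 4) (nat_lit 320) (nat_lit 230) (nat_lit 230)) (XT.lf (nat_lit 0) (nat_lit 59474363) (nat_lit 152) (nat_lit 346146788) (nat_lit 76) (nat_lit 25327452404) (nat_lit 14) (nat_lit 5) (nat_lit 16) (nat_lit 5) (nat_lit 15) (nat_lit 4) (nat_lit 321) (nat_lit 230) (nat_lit 229)))) (XT.nd (nat_lit 156) (nat_lit 76) (nat_lit 0) (XT.nd (nat_lit 78) (nat_lit 0) (nat_lit 0) (XT.lf (nat_lit 0) (nat_lit 6952458143) (nat_lit 152) (nat_lit 13776761375) (nat_lit 0) (nat_lit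 6067480351) (nat_lit 13) (nat_lit 5) (nat_lit 15) (nat_lit 4) (nat_lit 13) (nat_lit 4) (nat_lit 322) (nat_lit 230) (nat_lit 228)) (XT.lf (nat_lit 0) (nat_lit 13969454279) (nat_lit 152) (nat_lit 1277398783) (nat_lit 0) (nat_lit 12673336979) (nat_lit 13) (nat_lit 5) (nat_lit 15) (nat_lit 4) (nat_lit 13) (nat_lit 4) (nat_lit 323) (nat_lit 230) (nat_lit 227))) (XT.nd (nat_lit 78) (nat_lit 0) (nat_lit 0) (XT.lf (nat_lit 0) (nat_lit 11673358966) (nat_lit 76) (nat_lit 9558696134) (nat_lit 76) (nat_lit 7871017396) (nat_lit 12) (nat_lit 4) (nat_lit 13) (nat_lit 5) (nat_lit 13) (nat_lit 4) (nat_lit 324) (nat_lit 230) (nat_lit 226)) (XT.lf (nat_lit 0) (nat_lit 24908491198) (nat_lit 76) (nat_lit 3751595394) (nat_lit 76) (nat_lit 1691001002) (nat_lit 12) (nat_lit 4) (nat_lit 13) (nat_lit 5) (nat_lit 13) (nat_lit 4) (nat_lit 325) (nat_lit 230) (nat_lit 225))))))) (XT.nd (nat_lit 1092) (nat_lit 228) (nat_lit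 0) (XT.nd (nat_lit 546) (nat_lit 76) (nat_lit 0) (XT.nd (nat_lit 234) (nat_lit 228) (nat_lit 0) (XT.nd (nat_lit 78) (nat_lit 0) (nat_lit 0) (XT.lf (nat_lit 0) (nat_lit 4589445212) (nat_lit 152) (nat_lit 24830121361) (nat_lit 0) (nat_lit 2244054769) (nat_lit 10) (nat_lit 5) (nat_lit 12) (nat_lit 4) (nat_lit 10) (nat_lit 4) (nat_lit 326) (nat_lit 230) (nat_lit 224)) (XT.nd (nat_lit 78) (nat_lit 0) (nat_lit 0) (XT.lf (nat_lit 0) (nat_lit 11045403345) (nat_lit 152) (nat_lit 13627413742) (nat_lit 0) (nat_lit 8371619221) (nat_lit 10) (nat_lit 5) (nat_lit 12) (nat_lit 4) (nat_lit 10) (nat_lit 4) (nat_lit 327) (nat_lit 230) (nat_lit 223)) (XT.lf (nat_lit 0) (nat_lit 17635292522) (nat_lit 152) (nat_lit 2215961254) (nat_lit 0) (nat_lit 14648752511) (nat_lit 10) (nat_lit 5) (nat_lit 12) (nat_lit 4) (nat_lit 10) (nat_lit 4) (nat_lit 328) (nat_lit 230) (nat_lit 222)))) (XT.nd (nat_lit 156) (nat_lit 152)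 (nat_lit 0) (XT.nd (nat_lit 78) (nat_lit 0) (nat_lit 0) (XT.lf (nat_lit 0) (nat_lit 9619109704) (nat_lit 76) (nat_lit 14848158016) (nat_lit 76) (nat_lit 11563755257) (nat_lit 9) (nat_lit 4) (nat_lit 10) (nat_lit 5) (nat_lit 10) (nat_lit 4) (nat_lit 329) (nat_lit 230) (nat_lit 221)) (XT.lf (nat_lit 0) (nat_lit 21767176546) (nat_lit 76) (nat_lit 9722043966) (nat_lit 76) (nat_lit 6153962398) (nat_lit 9) (nat_lit 4) (nat_lit 10) (nat_lit 5) (nat_lit 10) (nat_lit 4) (nat_lit 330) (nat_lit 230) (nat_lit 220))) (XT.nd (nat_lit 78) (nat_lit 152) (nat_lit 0) (XT.lf (nat_lit 0) (nat_lit 34213061267) (nat_lit 76) (nat_lit 4483083454) (nat_lit 76) (nat_lit 644831592) (nat_lit 9) (nat_lit 4) (nat_lit 10) (nat_lit 5) (nat_lit 10) (nat_lit 4) (nat_lit 331) (nat_lit 230) (nat_lit 219)) (XT.lf (nat_lit 0) (nat_lit 4946109863) (nat_lit 152) (nat_lit 35209065372) (nat_lit 0) (nat_lit 969841025) (nat_lit 7)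 (nat_lit 5) (nat_lit 9) (nat_lit 4) (nat_lit 7) (nat_lit 4) (nat_lit 332) (nat_lit 230) (nat_lit 218))))) (XT.nd (nat_lit 234) (nat_lit 76) (nat_lit 0) (XT.nd (nat_lit 78) (nat_lit 0) (nat_lit 0) (XT.lf (nat_lit 0) (nat_lit 10745658592) (nat_lit 152) (nat_lit 25722698118) (nat_lit 0) (nat_lit 6531474783) (nat_lit 7) (nat_lit 5) (nat_lit 9) (nat_lit 4) (nat_lit 7) (nat_lit 4) (nat_lit 333) (nat_lit 230) (nat_lit 217)) (XT.nd (nat_lit 78) (nat_lit 0) (nat_lit 0) (XT.lf (nat_lit 0) (nat_lit 16686340453) (nat_lit 152) (nat_lit 16040976370) (nat_lit 0) (nat_lit 12245570956) (nat_lit 7) (nat_lit 5) (nat_lit 9) (nat_lit 4) (nat_lit 7) (nat_lit 4) (nat_lit 334) (nat_lit 230) (nat_lit 216)) (XT.lf (nat_lit 0) (nat_lit 22782299926) (nat_lit 152) (nat_lit 6140848408) (nat_lit 0) (nat_lit 18125734536) (nat_lit 7) (nat_lit 5) (nat_lit 9) (nat_lit 4) (nat_lit 7) (nat_lit 4) (nat_lit 335) (nat_lit 230)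 (nat_lit 215)))) (XT.nd (nat_lit 156) (nat_lit 0) (nat_lit 0) (XT.nd (nat_lit 78) (nat_lit 0) (nat_lit 0) (XT.lf (nat_lit 0) (nat_lit 4080890369) (nat_lit 76) (nat_lit 25006388846) (nat_lit 76) (nat_lit 20144303559) (nat_lit 6) (nat_lit 4) (nat_lit 7) (nat_lit 5) (nat_lit 7) (nat_lit 4) (nat_lit 336) (nat_lit 230) (nat_lit 214)) (XT.lf (nat_lit 0) (nat_lit 14696266314) (nat_lit 76) (nat_lit 20943515920) (nat_lit 76) (nat_lit 15885697397) (nat_lit 6) (nat_lit 4) (nat_lit 7) (nat_lit 5) (nat_lit 7) (nat_lit 4) (nat_lit 337) (nat_lit 230) (nat_lit 213))) (XT.nd (nat_lit 78) (nat_lit 0) (nat_lit 0) (XT.lf (nat_lit 0) (nat_lit 25608339207) (nat_lit 76) (nat_lit 16786866577) (nat_lit 76) (nat_lit 11542635448) (nat_lit 6) (nat_lit 4) (nat_lit 7) (nat_lit 5) (nat_lit 7) (nat_lit 4) (nat_lit 338) (nat_lit 230) (nat_lit 212)) (XT.lf (nat_lit 0) (nat_lit 36843090173) (nat_lit 76) (nat_lit 12526544034)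 (nat_lit 76) (nat_lit 7104777090) (nat_lit 6) (nat_lit 4) (nat_lit 7) (nat_lit 5) (nat_lit 7) (nat_lit 4) (nat_lit 339) (nat_lit 230) (nat_lit 211)))))) (XT.nd (nat_lit 546) (nat_lit 76) (nat_lit 0) (XT.nd (nat_lit 234) (nat_lit 0) (nat_lit 0) (XT.nd (nat_lit 78) (nat_lit 152) (nat_lit 0) (XT.lf (nat_lit 0) (nat_lit 48427268621) (nat_lit 76) (nat_lit 8152404665) (nat_lit 76) (nat_lit 2561555993) (nat_lit 6) (nat_lit 4) (nat_lit 7) (nat_lit 5) (nat_lit 7) (nat_lit 4) (nat_lit 340) (nat_lit 230) (nat_lit 210)) (XT.nd (nat_lit 78) (nat_lit 76) (nat_lit 0) (XT.lf (nat_lit 0) (nat_lit 2056908523) (nat_lit 152) (nat_lit 1576354587) (nat_lit 76) (nat_lit 58310776659) (nat_lit 5) (nat_lit 5) (nat_lit 7) (nat_lit 5) (nat_lit 6) (nat_lit 4) (nat_lit 341) (nat_lit 230) (nat_lit 209)) (XT.lf (nat_lit 0) (nat_lit 6837450850) (nat_lit 152) (nat_lit 56945070945) (nat_lit 0) (nat_lit 1104207160) (nat_lit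 4) (nat_lit 5) (nat_lit 6) (nat_lit 4) (nat_lit 4) (nat_lit 4) (nat_lit 342) (nat_lit 230) (nat_lit 208)))) (XT.nd (nat_lit 156) (nat_lit 0) (nat_lit 0) (XT.nd (nat_lit 78) (nat_lit 0) (nat_lit 0) (XT.lf (nat_lit 0) (nat_lit 11808711869) (nat_lit 152) (nat_lit 50235648691) (nat_lit 0) (nat_lit 5933663174) (nat_lit 4) (nat_lit 5) (nat_lit 6) (nat_lit 4) (nat_lit 4) (nat_lit 4) (nat_lit 343) (nat_lit 230) (nat_lit 207)) (XT.lf (nat_lit 0) (nat_lit 16931995296) (nat_lit 152) (nat_lit 43372910799) (nat_lit 0) (nat_lit 10921894216) (nat_lit 4) (nat_lit 5) (nat_lit 6) (nat_lit 4) (nat_lit 4) (nat_lit 4) (nat_lit 344) (nat_lit 230) (nat_lit 206))) (XT.nd (nat_lit 78) (nat_lit 0) (nat_lit 0) (XT.lf (nat_lit 0) (nat_lit 22219499424) (nat_lit 152) (nat_lit 36340517417) (nat_lit 0) (nat_lit 16080777025) (nat_lit 4) (nat_lit 5) (nat_lit 6) (nat_lit 4) (nat_lit 4) (nat_lit 4) (nat_lit 345) (nat_lit 230)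 (nat_lit 205)) (XT.lf (nat_lit 0) (nat_lit 27683813550) (nat_lit 152) (nat_lit 29121724751) (nat_lit 0) (nat_lit 21422594657) (nat_lit 4) (nat_lit 5) (nat_lit 6) (nat_lit 4) (nat_lit 4) (nat_lit 4) (nat_lit 346) (nat_lit 230) (nat_lit 204))))) (XT.nd (nat_lit 234) (nat_lit 76) (nat_lit 0) (XT.nd (nat_lit 78) (nat_lit 0) (nat_lit 0) (XT.lf (nat_lit 0) (nat_lit 33337947945) (nat_lit 152) (nat_lit 21699345199) (nat_lit 0) (nat_lit 26960065724) (nat_lit 4) (nat_lit 5) (nat_lit 6) (nat_lit 4) (nat_lit 4) (nat_lit 4) (nat_lit 347) (nat_lit 230) (nat_lit 203)) (XT.nd (nat_lit 78) (nat_lit 0) (nat_lit 0) (XT.lf (nat_lit 0) (nat_lit 39195364833) (nat_lit 152) (nat_lit 14055706429) (nat_lit 0) (nat_lit 32706374681) (nat_lit 4) (nat_lit 5) (nat_lit 6) (nat_lit 4) (nat_lit 4) (nat_lit 4) (nat_lit 348) (nat_lit 230) (nat_lit 202)) (XT.lf (nat_lit 0) (nat_lit 45270010446) (nat_lit 152) (nat_lit 6172609301)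 (nat_lit 0) (nat_lit 38675203217) (nat_lit 4) (nat_lit 5) (nat_lit 6) (nat_lit 4) (nat_lit 4) (nat_lit 4) (nat_lit 349) (nat_lit 230) (nat_lit 201)))) (XT.nd (nat_lit 156) (nat_lit 0) (nat_lit 0) (XT.nd (nat_lit 78) (nat_lit 0) (nat_lit 0) (XT.lf (nat_lit 0) (nat_lit 2007896760) (nat_lit 76) (nat_lit 49587752598) (nat_lit 76) (nat_lit 42892167199) (nat_lit 3) (nat_lit 4) (nat_lit 4) (nat_lit 5) (nat_lit 4) (nat_lit 4) (nat_lit 350) (nat_lit 230) (nat_lit 200)) (XT.lf (nat_lit 0) (nat_lit 10594386612) (nat_lit 76) (nat_lit 47636846375) (nat_lit 76) (nat_lit 40845281768) (nat_lit 3) (nat_lit 4) (nat_lit 4) (nat_lit 5) (nat_lit 4) (nat_lit 4) (nat_lit 351) (nat_lit 230) (nat_lit 199))) (XT.nd (nat_lit 78) (nat_lit 0) (nat_lit 0) (XT.lf (nat_lit 0) (nat_lit 19484457249) (nat_lit 76) (nat_lit 45647587316) (nat_lit 76) (nat_lit 38764613939) (nat_lit 3) (nat_lit 4) (nat_lit 4) (nat_lit 5) (nat_lit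 4) (nat_lit 4) (nat_lit 352) (nat_lit 230) (nat_lit 198)) (XT.lf (nat_lit 0) (nat_lit 28699275505) (nat_lit 76) (nat_lit 43615239091) (nat_lit 76) (nat_lit 36645209742) (nat_lit 3) (nat_lit 4) (nat_lit 4) (nat_lit 5) (nat_lit 4) (nat_lit 4) (nat_lit 353) (nat_lit 230) (nat_lit 197))))))))
noncomputable def xc10 : XT := (XT.nd (nat_lit 39000) (nat_lit 0) (nat_lit 0) (XT.nd (nat_lit 37908) (nat_lit 0) (nat_lit 304) (XT.nd (nat_lit 468) (nat_lit 0) (nat_lit 0) (XT.nd (nat_lit 234) (nat_lit 0) (nat_lit 0) (XT.nd (nat_lit 78) (nat_lit 0) (nat_lit 0) (XT.lf (nat_lit 0) (nat_lit 38260781424) (nat_lit 76) (nat_lit 41534962774) (nat_lit 76) (nat_lit 34482022976) (nat_lit 3) (nat_lit 4) (nat_lit 4) (nat_lit 5) (nat_lit 4) (nat_lit 4) (nat_lit 354) (nat_lit 230) (nat_lit 196)) (XT.nd (nat_lit 78) (nat_lit 0) (nat_lit 0) (XT.lf (nat_lit 0) (nat_lit 48191740497) (nat_lit 76) (nat_lit 39401805326) (nat_lit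 76) (nat_lit 32269903197) (nat_lit 3) (nat_lit 4) (nat_lit 4) (nat_lit 5) (nat_lit 4) (nat_lit 4) (nat_lit 355) (nat_lit 230) (nat_lit 195)) (XT.lf (nat_lit 0) (nat_lit 58515797864) (nat_lit 76) (nat_lit 37210687803) (nat_lit 76) (nat_lit 30003583452) (nat_lit 3) (nat_lit 4) (nat_lit 4) (nat_lit 5) (nat_lit 4) (nat_lit 4) (nat_lit 356) (nat_lit 230) (nat_lit 194)))) (XT.nd (nat_lit 78) (nat_lit 0) (nat_lit 0) (XT.lf (nat_lit 0) (nat_lit 69257534614) (nat_lit 76) (nat_lit 34956393256) (nat_lit 76) (nat_lit 27677667741) (nat_lit 3) (nat_lit 4) (nat_lit 4) (nat_lit 5) (nat_lit 4) (nat_lit 4) (nat_lit 357) (nat_lit 230) (nat_lit 193)) (XT.nd (nat_lit 78) (nat_lit 0) (nat_lit 0) (XT.lf (nat_lit 0) (nat_lit 80442526310) (nat_lit 76) (nat_lit 32633554318) (nat_lit 76) (nat_lit 25286618172) (nat_lit 3) (nat_lit 4) (nat_lit 4) (nat_lit 5) (nat_lit 4) (nat_lit 4) (nat_lit 358) (nat_lit 230) (nat_lit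 192)) (XT.lf (nat_lit 0) (nat_lit 92097403886) (nat_lit 76) (nat_lit 30236640420) (nat_lit 76) (nat_lit 22824741768) (nat_lit 3) (nat_lit 4) (nat_lit 4) (nat_lit 5) (nat_lit 4) (nat_lit 4) (nat_lit 359) (nat_lit 230) (nat_lit 191))))) (XT.nd (nat_lit 234) (nat_lit 0) (nat_lit 0) (XT.nd (nat_lit 78) (nat_lit 0) (nat_lit 0) (XT.lf (nat_lit 0) (nat_lit 104249917049) (nat_lit 76) (nat_lit 27759944625) (nat_lit 76) (nat_lit 20286176919) (nat_lit 3) (nat_lit 4) (nat_lit 4) (nat_lit 5) (nat_lit 4) (nat_lit 4) (nat_lit 360) (nat_lit 230) (nat_lit 190)) (XT.nd (nat_lit 78) (nat_lit 0) (nat_lit 0) (XT.lf (nat_lit 0) (nat_lit 116929000356) (nat_lit 76) (nat_lit 25197570037) (nat_lit 76) (nat_lit 17664879423) (nat_lit 3) (nat_lit 4) (nat_lit 4) (nat_lit 5) (nat_lit 4) (nat_lit 4) (nat_lit 361) (nat_lit 230) (nat_lit 189)) (XT.lf (nat_lit 0) (nat_lit 130164842099) (nat_lit 76) (nat_lit 22543415764) (nat_lit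 76) (nat_lit 14954608095) (nat_lit 3) (nat_lit 4) (nat_lit 4) (nat_lit 5) (nat_lit 4) (nat_lit 4) (nat_lit 362) (nat_lit 230) (nat_lit 188)))) (XT.nd (nat_lit 156) (nat_lit 0) (nat_lit 0) (XT.nd (nat_lit 78) (nat_lit 0) (nat_lit 0) (XT.lf (nat_lit 0) (nat_lit 143988956187) (nat_lit 76) (nat_lit 19791162392) (nat_lit 76) (nat_lit 12148909909) (nat_lit 3) (nat_lit 4) (nat_lit 4) (nat_lit 5) (nat_lit 4) (nat_lit 4) (nat_lit 363) (nat_lit 230) (nat_lit 187)) (XT.lf (nat_lit 0) (nat_lit 158434257179) (nat_lit 76) (nat_lit 16934256937) (nat_lit 76) (nat_lit 9241104630) (nat_lit 3) (nat_lit 4) (nat_lit 4) (nat_lit 5) (nat_lit 4) (nat_lit 4) (nat_lit 364) (nat_lit 230) (nat_lit 186))) (XT.nd (nat_lit 36972) (nat_lit 0) (nat_lit 988) (XT.lf (nat_lit 0) (nat_lit 173535138646) (nat_lit 76) (nat_lit 13965897243) (nat_lit 76) (nat_lit 6224268913) (nat_lit 3) (nat_lit 4) (nat_lit 4) (nat_lit 5) (nat_lit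 4) (nat_lit 4) (nat_lit 365) (nat_lit 230) (nat_lit 185)) (XT.lf (nat_lit 0) (nat_lit 1844208098) (nat_lit 152) (nat_lit 7735517085) (nat_lit 0) (nat_lit 1844208098) (nat_lit 16) (nat_lit 5) (nat_lit 18) (nat_lit 4) (nat_lit 16) (nat_lit 4) (nat_lit 318) (nat_lit 231) (nat_lit 231)))))) (XT.nd (nat_lit 546) (nat_lit 380) (nat_lit 0) (XT.nd (nat_lit 234) (nat_lit 152) (nat_lit 0) (XT.nd (nat_lit 78) (nat_lit 152) (nat_lit 0) (XT.lf (nat_lit 0) (nat_lit 10933634632) (nat_lit 152) (nat_lit 2383660674) (nat_lit 0) (nat_lit 10443410897) (nat_lit 16) (nat_lit 5) (nat_lit 18) (nat_lit 4) (nat_lit 16) (nat_lit 4) (nat_lit 319) (nat_lit 231) (nat_lit 230)) (XT.nd (nat_lit 78) (nat_lit 76) (nat_lit 0) (XT.lf (nat_lit 0) (nat_lit 11138962017) (nat_lit 76) (nat_lit 7270672852) (nat_lit 76) (nat_lit 6313569370) (nat_lit 15) (nat_lit 4) (nat_lit 16) (nat_lit 5) (nat_lit 16) (nat_lit 4) (nat_lit 320) (nat_lit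 231) (nat_lit 229)) (XT.lf (nat_lit 0) (nat_lit 306505611) (nat_lit 152) (nat_lit 779544469) (nat_lit 76) (nat_lit 24653957510) (nat_lit 14) (nat_lit 5) (nat_lit 16) (nat_lit 5) (nat_lit 15) (nat_lit 4) (nat_lit 321) (nat_lit 231) (nat_lit 228)))) (XT.nd (nat_lit 156) (nat_lit 76) (nat_lit 0) (XT.nd (nat_lit 78) (nat_lit 0) (nat_lit 0) (XT.lf (nat_lit 0) (nat_lit 7077277420) (nat_lit 152) (nat_lit 14424839043) (nat_lit 0) (nat_lit 5305214746) (nat_lit 13) (nat_lit 5) (nat_lit 15) (nat_lit 4) (nat_lit 13) (nat_lit 4) (nat_lit 322) (nat_lit 231) (nat_lit 227)) (XT.lf (nat_lit 0) (nat_lit 13988197171) (nat_lit 152) (nat_lit 2121262915) (nat_lit 0) (nat_lit 11824573060) (nat_lit 13) (nat_lit 5) (nat_lit 15) (nat_lit 4) (nat_lit 13) (nat_lit 4) (nat_lit 323) (nat_lit 231) (nat_lit 226))) (XT.nd (nat_lit 78) (nat_lit 0) (nat_lit 0) (XT.lf (nat_lit 0) (nat_lit 10622525999) (nat_lit 76) (nat_lit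 10517145612) (nat_lit 76) (nat_lit 7980605848) (nat_lit 12) (nat_lit 4) (nat_lit 13) (nat_lit 5) (nat_lit 13) (nat_lit 4) (nat_lit 324) (nat_lit 231) (nat_lit 225)) (XT.lf (nat_lit 0) (nat_lit 23676539867) (nat_lit 76) (nat_lit 4793207809) (nat_lit 76) (nat_lit 1901510279) (nat_lit 12) (nat_lit 4) (nat_lit 13) (nat_lit 5) (nat_lit 13) (nat_lit 4) (nat_lit 325) (nat_lit 231) (nat_lit 224))))) (XT.nd (nat_lit 234) (nat_lit 228) (nat_lit 0) (XT.nd (nat_lit 78) (nat_lit 0) (nat_lit 0) (XT.lf (nat_lit 0) (nat_lit 4263897184) (nat_lit 152) (nat_lit 26295524165) (nat_lit 0) (nat_lit 1128030173) (nat_lit 10) (nat_lit 5) (nat_lit 12) (nat_lit 4) (nat_lit 10) (nat_lit 4) (nat_lit 326) (nat_lit 231) (nat_lit 223)) (XT.nd (nat_lit 78) (nat_lit 0) (nat_lit 0) (XT.lf (nat_lit 0) (nat_lit 10627725140) (nat_lit 152) (nat_lit 15264226551) (nat_lit 0) (nat_lit 7179102243) (nat_lit 10) (nat_lit 5) (nat_lit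 12) (nat_lit 4) (nat_lit 10) (nat_lit 4) (nat_lit 327) (nat_lit 231) (nat_lit 222)) (XT.lf (nat_lit 0) (nat_lit 17129871291) (nat_lit 152) (nat_lit 4016021688) (nat_lit 0) (nat_lit 13383385644) (nat_lit 10) (nat_lit 5) (nat_lit 12) (nat_lit 4) (nat_lit 10) (nat_lit 4) (nat_lit 328) (nat_lit 231) (nat_lit 221)))) (XT.nd (nat_lit 156) (nat_lit 152) (nat_lit 0) (XT.nd (nat_lit 78) (nat_lit 0) (nat_lit 0) (XT.lf (nat_lit 0) (nat_lit 7624656373) (nat_lit 76) (nat_lit 16234453424) (nat_lit 76) (nat_lit 12204288969) (nat_lit 9) (nat_lit 4) (nat_lit 10) (nat_lit 5) (nat_lit 10) (nat_lit 4) (nat_lit 329) (nat_lit 231) (nat_lit 220)) (XT.lf (nat_lit 0) (nat_lit 19621705916) (nat_lit 76) (nat_lit 11178319491) (nat_lit 76) (nat_lit 6877984743) (nat_lit 9) (nat_lit 4) (nat_lit 10) (nat_lit 5) (nat_lit 10) (nat_lit 4) (nat_lit 330) (nat_lit 231) (nat_lit 219))) (XT.nd (nat_lit 78) (nat_lit 152) (nat_lit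 0) (XT.lf (nat_lit 0) (nat_lit 31923764637) (nat_lit 76) (nat_lit 6006006711) (nat_lit 76) (nat_lit 1448366921) (nat_lit 9) (nat_lit 4) (nat_lit 10) (nat_lit 5) (nat_lit 10) (nat_lit 4) (nat_lit 331) (nat_lit 231) (nat_lit 218)) (XT.lf (nat_lit 0) (nat_lit 3419633878) (nat_lit 76) (nat_lit 630773062) (nat_lit 152) (nat_lit 37115256331) (nat_lit 7) (nat_lit 5) (nat_lit 8) (nat_lit 5) (nat_lit 9) (nat_lit 4) (nat_lit 332) (nat_lit 231) (nat_lit 217))))))) (XT.nd (nat_lit 1092) (nat_lit 76) (nat_lit 0) (XT.nd (nat_lit 546) (nat_lit 152) (nat_lit 0) (XT.nd (nat_lit 234) (nat_lit 76) (nat_lit 0) (XT.nd (nat_lit 78) (nat_lit 0) (nat_lit 0) (XT.lf (nat_lit 0) (nat_lit 9771285314) (nat_lit 152) (nat_lit 28389678698) (nat_lit 0) (nat_lit 4881891655) (nat_lit 7) (nat_lit 5) (nat_lit 9) (nat_lit 4) (nat_lit 7) (nat_lit 4) (nat_lit 333) (nat_lit 231) (nat_lit 216)) (XT.nd (nat_lit 78) (nat_lit 0) (nat_lit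 0) (XT.lf (nat_lit 0) (nat_lit 15642817672) (nat_lit 152) (nat_lit 18837556888) (nat_lit 0) (nat_lit 10537628121) (nat_lit 7) (nat_lit 5) (nat_lit 9) (nat_lit 4) (nat_lit 7) (nat_lit 4) (nat_lit 334) (nat_lit 231) (nat_lit 215)) (XT.lf (nat_lit 0) (nat_lit 21672920476) (nat_lit 152) (nat_lit 9060857440) (nat_lit 0) (nat_lit 16362211027) (nat_lit 7) (nat_lit 5) (nat_lit 9) (nat_lit 4) (nat_lit 7) (nat_lit 4) (nat_lit 335) (nat_lit 231) (nat_lit 214)))) (XT.nd (nat_lit 156) (nat_lit 0) (nat_lit 0) (XT.nd (nat_lit 78) (nat_lit 0) (nat_lit 0) (XT.lf (nat_lit 0) (nat_lit 982876972) (nat_lit 76) (nat_lit 26902522155) (nat_lit 76) (nat_lit 21396079470) (nat_lit 6) (nat_lit 4) (nat_lit 7) (nat_lit 5) (nat_lit 7) (nat_lit 4) (nat_lit 336) (nat_lit 231) (nat_lit 213)) (XT.lf (nat_lit 0) (nat_lit 11484071527) (nat_lit 76) (nat_lit 22892999097) (nat_lit 76) (nat_lit 17200143806) (nat_lit 6) (nat_lit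 4) (nat_lit 7) (nat_lit 5) (nat_lit 7) (nat_lit 4) (nat_lit 337) (nat_lit 231) (nat_lit 212))) (XT.nd (nat_lit 78) (nat_lit 0) (nat_lit 0) (XT.lf (nat_lit 0) (nat_lit 22287400239) (nat_lit 76) (nat_lit 18787159153) (nat_lit 76) (nat_lit 12916768047) (nat_lit 6) (nat_lit 4) (nat_lit 7) (nat_lit 5) (nat_lit 7) (nat_lit 4) (nat_lit 338) (nat_lit 231) (nat_lit 211)) (XT.lf (nat_lit 0) (nat_lit 33418585319) (nat_lit 76) (nat_lit 14575226513) (nat_lit 76) (nat_lit 8535753679) (nat_lit 6) (nat_lit 4) (nat_lit 7) (nat_lit 5) (nat_lit 7) (nat_lit 4) (nat_lit 339) (nat_lit 231) (nat_lit 210))))) (XT.nd (nat_lit 234) (nat_lit 0) (nat_lit 0) (XT.nd (nat_lit 78) (nat_lit 152) (nat_lit 0) (XT.lf (nat_lit 0) (nat_lit 44904129589) (nat_lit 76) (nat_lit 10247172766) (nat_lit 76) (nat_lit 4046669714) (nat_lit 6) (nat_lit 4) (nat_lit 7) (nat_lit 5) (nat_lit 7) (nat_lit 4) (nat_lit 340) (nat_lit 231) (nat_lit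 209)) (XT.nd (nat_lit 78) (nat_lit 76) (nat_lit 0) (XT.lf (nat_lit 0) (nat_lit 550221651) (nat_lit 152) (nat_lit 5236915211) (nat_lit 76) (nat_lit 56215601771) (nat_lit 5) (nat_lit 5) (nat_lit 7) (nat_lit 5) (nat_lit 6) (nat_lit 4) (nat_lit 341) (nat_lit 231) (nat_lit 208)) (XT.lf (nat_lit 0) (nat_lit 4127162610) (nat_lit 76) (nat_lit 1107855580) (nat_lit 152) (nat_lit 59713292676) (nat_lit 4) (nat_lit 5) (nat_lit 5) (nat_lit 5) (nat_lit 6) (nat_lit 4) (nat_lit 342) (nat_lit 231) (nat_lit 207)))) (XT.nd (nat_lit 156) (nat_lit 0) (nat_lit 0) (XT.nd (nat_lit 78) (nat_lit 0) (nat_lit 0) (XT.lf (nat_lit 0) (nat_lit 10148536827) (nat_lit 152) (nat_lit 54189932946) (nat_lit 0) (nat_lit 3702878309) (nat_lit 4) (nat_lit 5) (nat_lit 6) (nat_lit 4) (nat_lit 4) (nat_lit 4) (nat_lit 343) (nat_lit 231) (nat_lit 206)) (XT.lf (nat_lit 0) (nat_lit 15226969781) (nat_lit 152) (nat_lit 47411820130) (nat_lit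 0) (nat_lit 8652689943) (nat_lit 4) (nat_lit 5) (nat_lit 6) (nat_lit 4) (nat_lit 4) (nat_lit 4) (nat_lit 344) (nat_lit 231) (nat_lit 205))) (XT.nd (nat_lit 78) (nat_lit 0) (nat_lit 0) (XT.lf (nat_lit 0) (nat_lit 20471759173) (nat_lit 152) (nat_lit 40460022057) (nat_lit 0) (nat_lit 13774982841) (nat_lit 4) (nat_lit 5) (nat_lit 6) (nat_lit 4) (nat_lit 4) (nat_lit 4) (nat_lit 345) (nat_lit 231) (nat_lit 204)) (XT.lf (nat_lit 0) (nat_lit 25895392598) (nat_lit 152) (nat_lit 33317986829) (nat_lit 0) (nat_lit 19081952938) (nat_lit 4) (nat_lit 5) (nat_lit 6) (nat_lit 4) (nat_lit 4) (nat_lit 4) (nat_lit 346) (nat_lit 231) (nat_lit 203)))))) (XT.nd (nat_lit 546) (nat_lit 0) (nat_lit 0) (XT.nd (nat_lit 234) (nat_lit 76) (nat_lit 0) (XT.nd (nat_lit 78) (nat_lit 0) (nat_lit 0) (XT.lf (nat_lit 0) (nat_lit 31510783468) (nat_lit 152) (nat_lit 25968709599) (nat_lit 0) (nat_lit 24586235877) (nat_lit 4) (nat_lit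 5) (nat_lit 6) (nat_lit 4) (nat_lit 4) (nat_lit 4) (nat_lit 347) (nat_lit 231) (nat_lit 202)) (XT.nd (nat_lit 78) (nat_lit 0) (nat_lit 0) (XT.lf (nat_lit 0) (nat_lit 37331301761) (nat_lit 152) (nat_lit 18394692088) (nat_lit 0) (nat_lit 30300937093) (nat_lit 4) (nat_lit 5) (nat_lit 6) (nat_lit 4) (nat_lit 4) (nat_lit 4) (nat_lit 348) (nat_lit 231) (nat_lit 201)) (XT.lf (nat_lit 0) (nat_lit 43370805855) (nat_lit 152) (nat_lit 10577900921) (nat_lit 0) (nat_lit 36239663018) (nat_lit 4) (nat_lit 5) (nat_lit 6) (nat_lit 4) (nat_lit 4) (nat_lit 4) (nat_lit 349) (nat_lit 231) (nat_lit 200)))) (XT.nd (nat_lit 156) (nat_lit 0) (nat_lit 0) (XT.nd (nat_lit 78) (nat_lit 76) (nat_lit 0) (XT.lf (nat_lit 0) (nat_lit 49643675522) (nat_lit 152) (nat_lit 2499724690) (nat_lit 0) (nat_lit 42416553476) (nat_lit 4) (nat_lit 5) (nat_lit 6) (nat_lit 4) (nat_lit 4) (nat_lit 4) (nat_lit 350) (nat_lit 231) (nat_lit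 199)) (XT.lf (nat_lit 0) (nat_lit 5975677344) (nat_lit 76) (nat_lit 50246610686) (nat_lit 76) (nat_lit 42928079870) (nat_lit 3) (nat_lit 4) (nat_lit 4) (nat_lit 5) (nat_lit 4) (nat_lit 4) (nat_lit 351) (nat_lit 231) (nat_lit 198))) (XT.nd (nat_lit 78) (nat_lit 0) (nat_lit 0) (XT.lf (nat_lit 0) (nat_lit 14807330462) (nat_lit 76) (nat_lit 48284851035) (nat_lit 76) (nat_lit 40879264248) (nat_lit 3) (nat_lit 4) (nat_lit 4) (nat_lit 5) (nat_lit 4) (nat_lit 4) (nat_lit 352) (nat_lit 231) (nat_lit 197)) (XT.lf (nat_lit 0) (nat_lit 23966512987) (nat_lit 76) (nat_lit 46278692722) (nat_lit 76) (nat_lit 38790195486) (nat_lit 3) (nat_lit 4) (nat_lit 4) (nat_lit 5) (nat_lit 4) (nat_lit 4) (nat_lit 353) (nat_lit 231) (nat_lit 196))))) (XT.nd (nat_lit 234) (nat_lit 0) (nat_lit 0) (XT.nd (nat_lit 78) (nat_lit 0) (nat_lit 0) (XT.lf (nat_lit 0) (nat_lit 33475032495) (nat_lit 76) (nat_lit 44223359178) (nat_lit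 76) (nat_lit 36655899610) (nat_lit 3) (nat_lit 4) (nat_lit 4) (nat_lit 5) (nat_lit 4) (nat_lit 4) (nat_lit 354) (nat_lit 231) (nat_lit 195)) (XT.nd (nat_lit 78) (nat_lit 0) (nat_lit 0) (XT.lf (nat_lit 0) (nat_lit 43355528319) (nat_lit 76) (nat_lit 42113956753) (nat_lit 76) (nat_lit 34471294963) (nat_lit 3) (nat_lit 4) (nat_lit 4) (nat_lit 5) (nat_lit 4) (nat_lit 4) (nat_lit 355) (nat_lit 231) (nat_lit 194)) (XT.lf (nat_lit 0) (nat_lit 53631525449) (nat_lit 76) (nat_lit 39945463060) (nat_lit 76) (nat_lit 32231180107) (nat_lit 3) (nat_lit 4) (nat_lit 4) (nat_lit 5) (nat_lit 4) (nat_lit 4) (nat_lit 356) (nat_lit 231) (nat_lit 193)))) (XT.nd (nat_lit 156) (nat_lit 0) (nat_lit 0) (XT.nd (nat_lit 78) (nat_lit 0) (nat_lit 0) (XT.lf (nat_lit 0) (nat_lit 64327490545) (nat_lit 76) (nat_lit 37712715019) (nat_lit 76) (nat_lit 29930221434) (nat_lit 3) (nat_lit 4) (nat_lit 4) (nat_lit 5) (nat_lit 4) (nat_lit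 4) (nat_lit 357) (nat_lit 231) (nat_lit 192)) (XT.lf (nat_lit 0) (nat_lit 75468890190) (nat_lit 76) (nat_lit 35410396563) (nat_lit 76) (nat_lit 27562940472) (nat_lit 3) (nat_lit 4) (nat_lit 4) (nat_lit 5) (nat_lit 4) (nat_lit 4) (nat_lit 358) (nat_lit 231) (nat_lit 191))) (XT.nd (nat_lit 78) (nat_lit 0) (nat_lit 0) (XT.lf (nat_lit 0) (nat_lit 87082251526) (nat_lit 76) (nat_lit 33033025980) (nat_lit 76) (nat_lit 25123700836) (nat_lit 3) (nat_lit 4) (nat_lit 4) (nat_lit 5) (nat_lit 4) (nat_lit 4) (nat_lit 359) (nat_lit 231) (nat_lit 190)) (XT.lf (nat_lit 0) (nat_lit 99195225414) (nat_lit 76) (nat_lit 30574942867) (nat_lit 76) (nat_lit 22606694814) (nat_lit 3) (nat_lit 4) (nat_lit 4) (nat_lit 5) (nat_lit 4) (nat_lit 4) (nat_lit 360) (nat_lit 231) (nat_lit 189))))))))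
noncomputable def xc11 : XT := (XT.nd (nat_lit 38922) (nat_lit 0) (nat_lit 0) (XT.nd (nat_lit 37830) (nat_lit 0) (nat_lit 228) (XT.nd (nat_lit 37284) (nat_lit 0) (nat_lit 684) (XT.nd (nat_lit 234) (nat_lit 0) (nat_lit 0) (XT.nd (nat_lit 78) (nat_lit 0) (nat_lit 0) (XT.lf (nat_lit 0) (nat_lit 111836652267) (nat_lit 76) (nat_lit 28030294642) (nat_lit 76) (nat_lit 20005929534) (nat_lit 3) (nat_lit 4) (nat_lit 4) (nat_lit 5) (nat_lit 4) (nat_lit 4) (nat_lit 361) (nat_lit 231) (nat_lit 188)) (XT.nd (nat_lit 78) (nat_lit 0) (nat_lit 0) (XT.lf (nat_lit 0) (nat_lit 125036630722) (nat_lit 76) (nat_lit 25393022620) (nat_lit 76) (nat_lit 17315212698) (nat_lit 3) (nat_lit 4) (nat_lit 4) (nat_lit 5) (nat_lit 4) (nat_lit 4) (nat_lit 362) (nat_lit 231) (nat_lit 187)) (XT.lf (nat_lit 0) (nat_lit 138826589297) (nat_lit 76) (nat_lit 22656847583) (nat_lit 76) (nat_lit 14528137837) (nat_lit 3) (nat_lit 4) (nat_lit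 4) (nat_lit 5) (nat_lit 4) (nat_lit 4) (nat_lit 363) (nat_lit 231) (nat_lit 186)))) (XT.nd (nat_lit 36894) (nat_lit 0) (nat_lit 1140) (XT.nd (nat_lit 78) (nat_lit 0) (nat_lit 0) (XT.lf (nat_lit 0) (nat_lit 153239361229) (nat_lit 76) (nat_lit 19815254827) (nat_lit 76) (nat_lit 11638069058) (nat_lit 3) (nat_lit 4) (nat_lit 4) (nat_lit 5) (nat_lit 4) (nat_lit 4) (nat_lit 364) (nat_lit 231) (nat_lit 185)) (XT.lf (nat_lit 0) (nat_lit 168309262639) (nat_lit 76) (nat_lit 16861478655) (nat_lit 76) (nat_lit 8638125246) (nat_lit 3) (nat_lit 4) (nat_lit 4) (nat_lit 5) (nat_lit 4) (nat_lit 4) (nat_lit 365) (nat_lit 231) (nat_lit 184))) (XT.nd (nat_lit 78) (nat_lit 0) (nat_lit 0) (XT.lf (nat_lit 0) (nat_lit 818472014) (nat_lit 152) (nat_lit 4879991848) (nat_lit 152) (nat_lit 4879991848) (nat_lit 18) (nat_lit 4) (nat_lit 20) (nat_lit 5) (nat_lit 20) (nat_lit 4) (nat_lit 316) (nat_lit 232) (nat_lit 232))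 (XT.lf (nat_lit 0) (nat_lit 15658673773) (nat_lit 152) (nat_lit 3426762791) (nat_lit 152) (nat_lit 2896585822) (nat_lit 18) (nat_lit 4) (nat_lit 20) (nat_lit 5) (nat_lit 20) (nat_lit 4) (nat_lit 317) (nat_lit 232) (nat_lit 231))))) (XT.nd (nat_lit 234) (nat_lit 228) (nat_lit 0) (XT.nd (nat_lit 78) (nat_lit 76) (nat_lit 0) (XT.lf (nat_lit 0) (nat_lit 4080965109) (nat_lit 152) (nat_lit 15694597479) (nat_lit 0) (nat_lit 3076006453) (nat_lit 16) (nat_lit 5) (nat_lit 18) (nat_lit 4) (nat_lit 16) (nat_lit 4) (nat_lit 318) (nat_lit 232) (nat_lit 230)) (XT.nd (nat_lit 78) (nat_lit 76) (nat_lit 0) (XT.lf (nat_lit 0) (nat_lit 11209815917) (nat_lit 152) (nat_lit 2820141422) (nat_lit 0) (nat_lit 9737977513) (nat_lit 16) (nat_lit 5) (nat_lit 18) (nat_lit 4) (nat_lit 16) (nat_lit 4) (nat_lit 319) (nat_lit 232) (nat_lit 229)) (XT.lf (nat_lit 0) (nat_lit 10486980245) (nat_lit 76) (nat_lit 8081742350) (nat_lit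 76) (nat_lit 6165256568) (nat_lit 15) (nat_lit 4) (nat_lit 16) (nat_lit 5) (nat_lit 16) (nat_lit 4) (nat_lit 320) (nat_lit 232) (nat_lit 228)))) (XT.nd (nat_lit 156) (nat_lit 76) (nat_lit 0) (XT.nd (nat_lit 78) (nat_lit 76) (nat_lit 0) (XT.lf (nat_lit 0) (nat_lit 343387033) (nat_lit 152) (nat_lit 1642883796) (nat_lit 76) (nat_lit 23767755978) (nat_lit 14) (nat_lit 5) (nat_lit 16) (nat_lit 5) (nat_lit 15) (nat_lit 4) (nat_lit 321) (nat_lit 232) (nat_lit 227)) (XT.lf (nat_lit 0) (nat_lit 6990881070) (nat_lit 152) (nat_lit 15506682844) (nat_lit 0) (nat_lit 4327514317) (nat_lit 13) (nat_lit 5) (nat_lit 15) (nat_lit 4) (nat_lit 13) (nat_lit 4) (nat_lit 322) (nat_lit 232) (nat_lit 226))) (XT.nd (nat_lit 78) (nat_lit 76) (nat_lit 0) (XT.lf (nat_lit 0) (nat_lit 13800775692) (nat_lit 152) (nat_lit 3389570015) (nat_lit 0) (nat_lit 10764493285) (nat_lit 13) (nat_lit 5) (nat_lit 15) (nat_lit 4) (nat_lit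 13) (nat_lit 4) (nat_lit 323) (nat_lit 232) (nat_lit 225)) (XT.lf (nat_lit 0) (nat_lit 9147858735) (nat_lit 76) (nat_lit 11694001585) (nat_lit 76) (nat_lit 8302561412) (nat_lit 12) (nat_lit 4) (nat_lit 13) (nat_lit 5) (nat_lit 13) (nat_lit 4) (nat_lit 324) (nat_lit 232) (nat_lit 224)))))) (XT.nd (nat_lit 546) (nat_lit 228) (nat_lit 0) (XT.nd (nat_lit 234) (nat_lit 76) (nat_lit 0) (XT.nd (nat_lit 78) (nat_lit 152) (nat_lit 0) (XT.lf (nat_lit 0) (nat_lit 22029378921) (nat_lit 76) (nat_lit 6049266577) (nat_lit 76) (nat_lit 2319580914) (nat_lit 12) (nat_lit 4) (nat_lit 13) (nat_lit 5) (nat_lit 13) (nat_lit 4) (nat_lit 325) (nat_lit 232) (nat_lit 223)) (XT.nd (nat_lit 78) (nat_lit 0) (nat_lit 0) (XT.lf (nat_lit 0) (nat_lit 3530574137) (nat_lit 76) (nat_lit 204597470) (nat_lit 152) (nat_lit 27982956867) (nat_lit 10) (nat_lit 5) (nat_lit 11) (nat_lit 5) (nat_lit 12) (nat_lit 4) (nat_lit 326) (nat_lit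 232) (nat_lit 222)) (XT.lf (nat_lit 0) (nat_lit 10009289822) (nat_lit 152) (nat_lit 17317537632) (nat_lit 0) (nat_lit 5777617144) (nat_lit 10) (nat_lit 5) (nat_lit 12) (nat_lit 4) (nat_lit 10) (nat_lit 4) (nat_lit 327) (nat_lit 232) (nat_lit 221)))) (XT.nd (nat_lit 156) (nat_lit 0) (nat_lit 0) (XT.nd (nat_lit 78) (nat_lit 76) (nat_lit 0) (XT.lf (nat_lit 0) (nat_lit 16427871186) (nat_lit 152) (nat_lit 6224806697) (nat_lit 0) (nat_lit 11912519700) (nat_lit 10) (nat_lit 5) (nat_lit 12) (nat_lit 4) (nat_lit 10) (nat_lit 4) (nat_lit 328) (nat_lit 232) (nat_lit 220)) (XT.lf (nat_lit 0) (nat_lit 5220894912) (nat_lit 76) (nat_lit 17833522844) (nat_lit 76) (nat_lit 13048001064) (nat_lit 9) (nat_lit 4) (nat_lit 10) (nat_lit 5) (nat_lit 10) (nat_lit 4) (nat_lit 329) (nat_lit 232) (nat_lit 219))) (XT.nd (nat_lit 78) (nat_lit 0) (nat_lit 0) (XT.lf (nat_lit 0) (nat_lit 17074118456) (nat_lit 76) (nat_lit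 12844036642) (nat_lit 76) (nat_lit 7801209821) (nat_lit 9) (nat_lit 4) (nat_lit 10) (nat_lit 5) (nat_lit 10) (nat_lit 4) (nat_lit 330) (nat_lit 232) (nat_lit 218)) (XT.lf (nat_lit 0) (nat_lit 29239200034) (nat_lit 76) (nat_lit 7735197892) (nat_lit 76) (nat_lit 2447318649) (nat_lit 9) (nat_lit 4) (nat_lit 10) (nat_lit 5) (nat_lit 10) (nat_lit 4) (nat_lit 331) (nat_lit 232) (nat_lit 217))))) (XT.nd (nat_lit 234) (nat_lit 76) (nat_lit 0) (XT.nd (nat_lit 78) (nat_lit 0) (nat_lit 0) (XT.lf (nat_lit 0) (nat_lit 512485763) (nat_lit 76) (nat_lit 2459804021) (nat_lit 152) (nat_lit 38240216681) (nat_lit 7) (nat_lit 5) (nat_lit 8) (nat_lit 5) (nat_lit 9) (nat_lit 4) (nat_lit 332) (nat_lit 232) (nat_lit 216)) (XT.nd (nat_lit 78) (nat_lit 0) (nat_lit 0) (XT.lf (nat_lit 0) (nat_lit 8606436892) (nat_lit 152) (nat_lit 31455688181) (nat_lit 0) (nat_lit 3030191970) (nat_lit 7) (nat_lit 5) (nat_lit 9) (nat_lit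 4) (nat_lit 7) (nat_lit 4) (nat_lit 333) (nat_lit 232) (nat_lit 215)) (XT.lf (nat_lit 0) (nat_lit 14412112580) (nat_lit 152) (nat_lit 22026994885) (nat_lit 0) (nat_lit 8630347761) (nat_lit 7) (nat_lit 5) (nat_lit 9) (nat_lit 4) (nat_lit 7) (nat_lit 4) (nat_lit 334) (nat_lit 232) (nat_lit 214)))) (XT.nd (nat_lit 156) (nat_lit 76) (nat_lit 0) (XT.nd (nat_lit 78) (nat_lit 0) (nat_lit 0) (XT.lf (nat_lit 0) (nat_lit 20379494747) (nat_lit 152) (nat_lit 12367846401) (nat_lit 0) (nat_lit 14401996691) (nat_lit 7) (nat_lit 5) (nat_lit 9) (nat_lit 4) (nat_lit 7) (nat_lit 4) (nat_lit 335) (nat_lit 232) (nat_lit 213)) (XT.lf (nat_lit 0) (nat_lit 26522791443) (nat_lit 152) (nat_lit 2455244758) (nat_lit 0) (nat_lit 20358880782) (nat_lit 7) (nat_lit 5) (nat_lit 9) (nat_lit 4) (nat_lit 7) (nat_lit 4) (nat_lit 336) (nat_lit 232) (nat_lit 212))) (XT.nd (nat_lit 78) (nat_lit 0) (nat_lit 0) (XT.lf (nat_lit 0)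 (nat_lit 7888341431) (nat_lit 76) (nat_lit 25044115699) (nat_lit 76) (nat_lit 18702669224) (nat_lit 6) (nat_lit 4) (nat_lit 7) (nat_lit 5) (nat_lit 7) (nat_lit 4) (nat_lit 337) (nat_lit 232) (nat_lit 211)) (XT.lf (nat_lit 0) (nat_lit 18588104256) (nat_lit 76) (nat_lit 20986665658) (nat_lit 76) (nat_lit 14476137454) (nat_lit 6) (nat_lit 4) (nat_lit 7) (nat_lit 5) (nat_lit 7) (nat_lit 4) (nat_lit 338) (nat_lit 232) (nat_lit 210))))))) (XT.nd (nat_lit 1092) (nat_lit 0) (nat_lit 0) (XT.nd (nat_lit 546) (nat_lit 76) (nat_lit 0) (XT.nd (nat_lit 234) (nat_lit 152) (nat_lit 0) (XT.nd (nat_lit 78) (nat_lit 0) (nat_lit 0) (XT.lf (nat_lit 0) (nat_lit 29620655158) (nat_lit 76) (nat_lit 16820818640) (nat_lit 76) (nat_lit 10149260219) (nat_lit 6) (nat_lit 4) (nat_lit 7) (nat_lit 5) (nat_lit 7) (nat_lit 4) (nat_lit 339) (nat_lit 232) (nat_lit 209)) (XT.nd (nat_lit 78) (nat_lit 0) (nat_lit 0) (XT.lf (nat_lit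 0) (nat_lit 41012262116) (nat_lit 76) (nat_lit 12536655962) (nat_lit 76) (nat_lit 5711735428) (nat_lit 6) (nat_lit 4) (nat_lit 7) (nat_lit 5) (nat_lit 7) (nat_lit 4) (nat_lit 340) (nat_lit 232) (nat_lit 208)) (XT.lf (nat_lit 0) (nat_lit 52790048002) (nat_lit 76) (nat_lit 8123977236) (nat_lit 76) (nat_lit 1152997548) (nat_lit 6) (nat_lit 4) (nat_lit 7) (nat_lit 5) (nat_lit 7) (nat_lit 4) (nat_lit 341) (nat_lit 232) (nat_lit 207)))) (XT.nd (nat_lit 156) (nat_lit 0) (nat_lit 0) (XT.nd (nat_lit 78) (nat_lit 76) (nat_lit 0) (XT.lf (nat_lit 0) (nat_lit 3468772190) (nat_lit 152) (nat_lit 68476096) (nat_lit 76) (nat_lit 61478255176) (nat_lit 5) (nat_lit 5) (nat_lit 7) (nat_lit 5) (nat_lit 6) (nat_lit 4) (nat_lit 342) (nat_lit 232) (nat_lit 206)) (XT.lf (nat_lit 0) (nat_lit 8313409564) (nat_lit 152) (nat_lit 58515412819) (nat_lit 0) (nat_lit 1281794415) (nat_lit 4) (nat_lit 5) (nat_lit 6) (nat_lit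 4) (nat_lit 4) (nat_lit 4) (nat_lit 343) (nat_lit 232) (nat_lit 205))) (XT.nd (nat_lit 78) (nat_lit 0) (nat_lit 0) (XT.lf (nat_lit 0) (nat_lit 13349127781) (nat_lit 152) (nat_lit 51817895312) (nat_lit 0) (nat_lit 6195016139) (nat_lit 4) (nat_lit 5) (nat_lit 6) (nat_lit 4) (nat_lit 4) (nat_lit 4) (nat_lit 344) (nat_lit 232) (nat_lit 204)) (XT.lf (nat_lit 0) (nat_lit 18553236473) (nat_lit 152) (nat_lit 44942854677) (nat_lit 0) (nat_lit 11282461502) (nat_lit 4) (nat_lit 5) (nat_lit 6) (nat_lit 4) (nat_lit 4) (nat_lit 4) (nat_lit 345) (nat_lit 232) (nat_lit 203))))) (XT.nd (nat_lit 234) (nat_lit 76) (nat_lit 0) (XT.nd (nat_lit 78) (nat_lit 0) (nat_lit 0) (XT.lf (nat_lit 0) (nat_lit 23938126372) (nat_lit 152) (nat_lit 37873921770) (nat_lit 0) (nat_lit 16556243471) (nat_lit 4) (nat_lit 5) (nat_lit 6) (nat_lit 4) (nat_lit 4) (nat_lit 4) (nat_lit 346) (nat_lit 232) (nat_lit 202)) (XT.nd (nat_lit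 78) (nat_lit 0) (nat_lit 0) (XT.lf (nat_lit 0) (nat_lit 29516618647) (nat_lit 152) (nat_lit 30594265799) (nat_lit 0) (nat_lit 22028918668) (nat_lit 4) (nat_lit 5) (nat_lit 6) (nat_lit 4) (nat_lit 4) (nat_lit 4) (nat_lit 347) (nat_lit 232) (nat_lit 201)) (XT.lf (nat_lit 0) (nat_lit 35301995422) (nat_lit 152) (nat_lit 23086554249) (nat_lit 0) (nat_lit 27713517274) (nat_lit 4) (nat_lit 5) (nat_lit 6) (nat_lit 4) (nat_lit 4) (nat_lit 4) (nat_lit 348) (nat_lit 232) (nat_lit 200)))) (XT.nd (nat_lit 156) (nat_lit 76) (nat_lit 0) (XT.nd (nat_lit 78) (nat_lit 0) (nat_lit 0) (XT.lf (nat_lit 0) (nat_lit 41308031402) (nat_lit 152) (nat_lit 15332911616) (nat_lit 0) (nat_lit 33623574046) (nat_lit 4) (nat_lit 5) (nat_lit 6) (nat_lit 4) (nat_lit 4) (nat_lit 4) (nat_lit 349) (nat_lit 232) (nat_lit 199)) (XT.lf (nat_lit 0) (nat_lit 47549026675) (nat_lit 152) (nat_lit 7314876847) (nat_lit 0) (nat_lit 39773160548)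 (nat_lit 4) (nat_lit 5) (nat_lit 6) (nat_lit 4) (nat_lit 4) (nat_lit 4) (nat_lit 350) (nat_lit 232) (nat_lit 198))) (XT.nd (nat_lit 78) (nat_lit 0) (nat_lit 0) (XT.lf (nat_lit 0) (nat_lit 1006276700) (nat_lit 76) (nat_lit 53043236999) (nat_lit 76) (nat_lit 45180314901) (nat_lit 3) (nat_lit 4) (nat_lit 4) (nat_lit 5) (nat_lit 4) (nat_lit 4) (nat_lit 351) (nat_lit 232) (nat_lit 197)) (XT.lf (nat_lit 0) (nat_lit 9782294087) (nat_lit 76) (nat_lit 51107667260) (nat_lit 76) (nat_lit 43161834713) (nat_lit 3) (nat_lit 4) (nat_lit 4) (nat_lit 5) (nat_lit 4) (nat_lit 4) (nat_lit 352) (nat_lit 232) (nat_lit 196)))))) (XT.nd (nat_lit 546) (nat_lit 0) (nat_lit 0) (XT.nd (nat_lit 234) (nat_lit 0) (nat_lit 0) (XT.nd (nat_lit 78) (nat_lit 0) (nat_lit 0) (XT.lf (nat_lit 0) (nat_lit 18888490200) (nat_lit 76) (nat_lit 49126451720) (nat_lit 76) (nat_lit 41101656841) (nat_lit 3) (nat_lit 4) (nat_lit 4) (nat_lit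 5) (nat_lit 4) (nat_lit 4) (nat_lit 353) (nat_lit 232) (nat_lit 195)) (XT.nd (nat_lit 78) (nat_lit 0) (nat_lit 0) (XT.lf (nat_lit 0) (nat_lit 28346546460) (nat_lit 76) (nat_lit 47094873199) (nat_lit 76) (nat_lit 38994876098) (nat_lit 3) (nat_lit 4) (nat_lit 4) (nat_lit 5) (nat_lit 4) (nat_lit 4) (nat_lit 354) (nat_lit 232) (nat_lit 194)) (XT.lf (nat_lit 0) (nat_lit 38178982047) (nat_lit 76) (nat_lit 45008094605) (nat_lit 76) (nat_lit 36836476341) (nat_lit 3) (nat_lit 4) (nat_lit 4) (nat_lit 5) (nat_lit 4) (nat_lit 4) (nat_lit 355) (nat_lit 232) (nat_lit 193)))) (XT.nd (nat_lit 156) (nat_lit 0) (nat_lit 0) (XT.nd (nat_lit 78) (nat_lit 0) (nat_lit 0) (XT.lf (nat_lit 0) (nat_lit 48409207523) (nat_lit 76) (nat_lit 42861147417) (nat_lit 76) (nat_lit 34621318522) (nat_lit 3) (nat_lit 4) (nat_lit 4) (nat_lit 5) (nat_lit 4) (nat_lit 4) (nat_lit 356) (nat_lit 232) (nat_lit 192)) (XT.lf (nat_lit 0)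 (nat_lit 59061580568) (nat_lit 76) (nat_lit 40648919857) (nat_lit 76) (nat_lit 32344128456) (nat_lit 3) (nat_lit 4) (nat_lit 4) (nat_lit 5) (nat_lit 4) (nat_lit 4) (nat_lit 357) (nat_lit 232) (nat_lit 191))) (XT.nd (nat_lit 78) (nat_lit 0) (nat_lit 0) (XT.lf (nat_lit 0) (nat_lit 70161463973) (nat_lit 76) (nat_lit 38366144717) (nat_lit 76) (nat_lit 29999484261) (nat_lit 3) (nat_lit 4) (nat_lit 4) (nat_lit 5) (nat_lit 4) (nat_lit 4) (nat_lit 358) (nat_lit 232) (nat_lit 190)) (XT.lf (nat_lit 0) (nat_lit 81735286034) (nat_lit 76) (nat_lit 36007386816) (nat_lit 76) (nat_lit 27581803453) (nat_lit 3) (nat_lit 4) (nat_lit 4) (nat_lit 5) (nat_lit 4) (nat_lit 4) (nat_lit 359) (nat_lit 232) (nat_lit 189))))) (XT.nd (nat_lit 234) (nat_lit 0) (nat_lit 0) (XT.nd (nat_lit 78) (nat_lit 0) (nat_lit 0) (XT.lf (nat_lit 0) (nat_lit 93810603468) (nat_lit 76) (nat_lit 33567030066) (nat_lit 76) (nat_lit 25085329647)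 (nat_lit 3) (nat_lit 4) (nat_lit 4) (nat_lit 5) (nat_lit 4) (nat_lit 4) (nat_lit 360) (nat_lit 232) (nat_lit 188)) (XT.nd (nat_lit 78) (nat_lit 0) (nat_lit 0) (XT.lf (nat_lit 0) (nat_lit 106416167033) (nat_lit 76) (nat_lit 31039264092) (nat_lit 76) (nat_lit 22504118858) (nat_lit 3) (nat_lit 4) (nat_lit 4) (nat_lit 5) (nat_lit 4) (nat_lit 4) (nat_lit 361) (nat_lit 232) (nat_lit 187)) (XT.lf (nat_lit 0) (nat_lit 119581989974) (nat_lit 76) (nat_lit 28418070405) (nat_lit 76) (nat_lit 19832025348) (nat_lit 3) (nat_lit 4) (nat_lit 4) (nat_lit 5) (nat_lit 4) (nat_lit 4) (nat_lit 362) (nat_lit 232) (nat_lit 186)))) (XT.nd (nat_lit 156) (nat_lit 0) (nat_lit 0) (XT.nd (nat_lit 78) (nat_lit 0) (nat_lit 0) (XT.lf (nat_lit 0) (nat_lit 133339419490) (nat_lit 76) (nat_lit 25697208066) (nat_lit 76) (nat_lit 17062686987) (nat_lit 3) (nat_lit 4) (nat_lit 4) (nat_lit 5) (nat_lit 4) (nat_lit 4) (nat_lit 363)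 (nat_lit 232) (nat_lit 185)) (XT.lf (nat_lit 0) (nat_lit 147721211364) (nat_lit 76) (nat_lit 22870198833) (nat_lit 76) (nat_lit 14189510113) (nat_lit 3) (nat_lit 4) (nat_lit 4) (nat_lit 5) (nat_lit 4) (nat_lit 4) (nat_lit 364) (nat_lit 232) (nat_lit 184))) (XT.nd (nat_lit 36660) (nat_lit 0) (nat_lit 1444) (XT.lf (nat_lit 0) (nat_lit 162761607959) (nat_lit 76) (nat_lit 19930311731) (nat_lit 76) (nat_lit 11205653830) (nat_lit 3) (nat_lit 4) (nat_lit 4) (nat_lit 5) (nat_lit 4) (nat_lit 4) (nat_lit 365) (nat_lit 232) (nat_lit 183)) (XT.lf (nat_lit 0) (nat_lit 7148662929) (nat_lit 152) (nat_lit 1333236883) (nat_lit 152) (nat_lit 1333236883) (nat_lit 22) (nat_lit 4) (nat_lit 24) (nat_lit 5) (nat_lit 24) (nat_lit 4) (nat_lit 314) (nat_lit 233) (nat_lit 233))))))))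
noncomputable def xc12 : XT := (XT.nd (nat_lit 2106) (nat_lit 228) (nat_lit 0) (XT.nd (nat_lit 1014) (nat_lit 304) (nat_lit 0) (XT.nd (nat_lit 468) (nat_lit 380) (nat_lit 0) (XT.nd (nat_lit 234) (nat_lit 228) (nat_lit 0) (XT.nd (nat_lit 78) (nat_lit 152) (nat_lit 0) (XT.lf (nat_lit 0) (nat_lit 4506378740) (nat_lit 152) (nat_lit 11918843067) (nat_lit 0) (nat_lit 3949692923) (nat_lit 20) (nat_lit 5) (nat_lit 22) (nat_lit 4) (nat_lit 20) (nat_lit 4) (nat_lit 315) (nat_lit 233) (nat_lit 232)) (XT.nd (nat_lit 78) (nat_lit 0) (nat_lit 0) (XT.lf (nat_lit 0) (nat_lit 1412107213) (nat_lit 152) (nat_lit 10417710390) (nat_lit 152) (nat_lit 9330847603) (nat_lit 18) (nat_lit 4) (nat_lit 20) (nat_lit 5) (nat_lit 20) (nat_lit 4) (nat_lit 316) (nat_lit 233) (nat_lit 231)) (XT.lf (nat_lit 0) (nat_lit 15219706657) (nat_lit 152) (nat_lit 4180718889) (nat_lit 152) (nat_lit 2588925655) (nat_lit 18) (nat_lit 4)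 (nat_lit 20) (nat_lit 5) (nat_lit 20) (nat_lit 4) (nat_lit 317) (nat_lit 233) (nat_lit 230)))) (XT.nd (nat_lit 78) (nat_lit 76) (nat_lit 0) (XT.lf (nat_lit 0) (nat_lit 4254587831) (nat_lit 152) (nat_lit 16365819702) (nat_lit 0) (nat_lit 2242277760) (nat_lit 16) (nat_lit 5) (nat_lit 18) (nat_lit 4) (nat_lit 16) (nat_lit 4) (nat_lit 318) (nat_lit 233) (nat_lit 229)) (XT.nd (nat_lit 78) (nat_lit 76) (nat_lit 0) (XT.lf (nat_lit 0) (nat_lit 11272612327) (nat_lit 152) (nat_lit 3694142157) (nat_lit 0) (nat_lit 8815654878) (nat_lit 16) (nat_lit 5) (nat_lit 18) (nat_lit 4) (nat_lit 16) (nat_lit 4) (nat_lit 319) (nat_lit 233) (nat_lit 228)) (XT.lf (nat_lit 0) (nat_lit 9398619275) (nat_lit 76) (nat_lit 9116888871) (nat_lit 76) (nat_lit 6236457728) (nat_lit 15) (nat_lit 4) (nat_lit 16) (nat_lit 5) (nat_lit 16) (nat_lit 4) (nat_lit 320) (nat_lit 233) (nat_lit 227))))) (XT.nd (nat_lit 234) (nat_lit 228)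 (nat_lit 0) (XT.nd (nat_lit 78) (nat_lit 76) (nat_lit 0) (XT.lf (nat_lit 0) (nat_lit 170206444) (nat_lit 152) (nat_lit 2938220340) (nat_lit 76) (nat_lit 22666737803) (nat_lit 14) (nat_lit 5) (nat_lit 16) (nat_lit 5) (nat_lit 15) (nat_lit 4) (nat_lit 321) (nat_lit 233) (nat_lit 226)) (XT.nd (nat_lit 78) (nat_lit 0) (nat_lit 0) (XT.lf (nat_lit 0) (nat_lit 6693063388) (nat_lit 152) (nat_lit 17024868598) (nat_lit 0) (nat_lit 3132051207) (nat_lit 13) (nat_lit 5) (nat_lit 15) (nat_lit 4) (nat_lit 13) (nat_lit 4) (nat_lit 322) (nat_lit 233) (nat_lit 225)) (XT.lf (nat_lit 0) (nat_lit 13406743601) (nat_lit 152) (nat_lit 5085339863) (nat_lit 0) (nat_lit 9490573654) (nat_lit 13) (nat_lit 5) (nat_lit 15) (nat_lit 4) (nat_lit 13) (nat_lit 4) (nat_lit 323) (nat_lit 233) (nat_lit 224)))) (XT.nd (nat_lit 156) (nat_lit 152) (nat_lit 0) (XT.nd (nat_lit 78) (nat_lit 0) (nat_lit 0) (XT.lf (nat_lit 0) (nat_lit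 7245846061) (nat_lit 76) (nat_lit 13092066088) (nat_lit 76) (nat_lit 8837650650) (nat_lit 12) (nat_lit 4) (nat_lit 13) (nat_lit 5) (nat_lit 13) (nat_lit 4) (nat_lit 324) (nat_lit 233) (nat_lit 223)) (XT.lf (nat_lit 0) (nat_lit 19963086550) (nat_lit 76) (nat_lit 7522762316) (nat_lit 76) (nat_lit 2946208315) (nat_lit 12) (nat_lit 4) (nat_lit 13) (nat_lit 5) (nat_lit 13) (nat_lit 4) (nat_lit 325) (nat_lit 233) (nat_lit 222))) (XT.nd (nat_lit 78) (nat_lit 0) (nat_lit 0) (XT.lf (nat_lit 0) (nat_lit 1233469281) (nat_lit 76) (nat_lit 1779743484) (nat_lit 152) (nat_lit 28742176380) (nat_lit 10) (nat_lit 5) (nat_lit 11) (nat_lit 5) (nat_lit 12) (nat_lit 4) (nat_lit 326) (nat_lit 233) (nat_lit 221)) (XT.lf (nat_lit 0) (nat_lit 9188624925) (nat_lit 152) (nat_lit 19792235820) (nat_lit 0) (nat_lit 4163827056) (nat_lit 10) (nat_lit 5) (nat_lit 12) (nat_lit 4) (nat_lit 10) (nat_lit 4) (nat_lit 327) (nat_lit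 233) (nat_lit 220)))))) (XT.nd (nat_lit 546) (nat_lit 76) (nat_lit 0) (XT.nd (nat_lit 234) (nat_lit 152) (nat_lit 0) (XT.nd (nat_lit 78) (nat_lit 76) (nat_lit 0) (XT.lf (nat_lit 0) (nat_lit 15527620778) (nat_lit 152) (nat_lit 8847575293) (nat_lit 0) (nat_lit 10232652616) (nat_lit 10) (nat_lit 5) (nat_lit 12) (nat_lit 4) (nat_lit 10) (nat_lit 4) (nat_lit 328) (nat_lit 233) (nat_lit 219)) (XT.nd (nat_lit 78) (nat_lit 0) (nat_lit 0) (XT.lf (nat_lit 0) (nat_lit 2402102079) (nat_lit 76) (nat_lit 19649173584) (nat_lit 76) (nat_lit 14096900379) (nat_lit 9) (nat_lit 4) (nat_lit 10) (nat_lit 5) (nat_lit 10) (nat_lit 4) (nat_lit 329) (nat_lit 233) (nat_lit 218)) (XT.lf (nat_lit 0) (nat_lit 14118348480) (nat_lit 76) (nat_lit 14723161412) (nat_lit 76) (nat_lit 8925835787) (nat_lit 9) (nat_lit 4) (nat_lit 10) (nat_lit 5) (nat_lit 10) (nat_lit 4) (nat_lit 330) (nat_lit 233) (nat_lit 217)))) (XT.nd (nat_lit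 156) (nat_lit 76) (nat_lit 0) (XT.nd (nat_lit 78) (nat_lit 76) (nat_lit 0) (XT.lf (nat_lit 0) (nat_lit 26152975638) (nat_lit 76) (nat_lit 9674774118) (nat_lit 76) (nat_lit 3644065235) (nat_lit 9) (nat_lit 4) (nat_lit 10) (nat_lit 5) (nat_lit 10) (nat_lit 4) (nat_lit 331) (nat_lit 233) (nat_lit 216)) (XT.lf (nat_lit 0) (nat_lit 1726623721) (nat_lit 152) (nat_lit 2747932497) (nat_lit 76) (nat_lit 36790578190) (nat_lit 8) (nat_lit 5) (nat_lit 10) (nat_lit 5) (nat_lit 9) (nat_lit 4) (nat_lit 332) (nat_lit 233) (nat_lit 215))) (XT.nd (nat_lit 78) (nat_lit 0) (nat_lit 0) (XT.lf (nat_lit 0) (nat_lit 7248339876) (nat_lit 152) (nat_lit 34928026591) (nat_lit 0) (nat_lit 971966918) (nat_lit 7) (nat_lit 5) (nat_lit 9) (nat_lit 4) (nat_lit 7) (nat_lit 4) (nat_lit 333) (nat_lit 233) (nat_lit 214)) (XT.lf (nat_lit 0) (nat_lit 12991294927) (nat_lit 152) (nat_lit 25616884259) (nat_lit 0) (nat_lit 6519188733)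 (nat_lit 7) (nat_lit 5) (nat_lit 9) (nat_lit 4) (nat_lit 7) (nat_lit 4) (nat_lit 334) (nat_lit 233) (nat_lit 213))))) (XT.nd (nat_lit 234) (nat_lit 0) (nat_lit 0) (XT.nd (nat_lit 78) (nat_lit 76) (nat_lit 0) (XT.lf (nat_lit 0) (nat_lit 18898943153) (nat_lit 152) (nat_lit 16069689075) (nat_lit 0) (nat_lit 12240424353) (nat_lit 7) (nat_lit 5) (nat_lit 9) (nat_lit 4) (nat_lit 7) (nat_lit 4) (nat_lit 335) (nat_lit 233) (nat_lit 212)) (XT.nd (nat_lit 78) (nat_lit 76) (nat_lit 0) (XT.lf (nat_lit 0) (nat_lit 24985350382) (nat_lit 152) (nat_lit 6263709622) (nat_lit 0) (nat_lit 18149295768) (nat_lit 7) (nat_lit 5) (nat_lit 9) (nat_lit 4) (nat_lit 7) (nat_lit 4) (nat_lit 336) (nat_lit 233) (nat_lit 211)) (XT.lf (nat_lit 0) (nat_lit 3900514762) (nat_lit 76) (nat_lit 27401987434) (nat_lit 76) (nat_lit 20396851091) (nat_lit 6) (nat_lit 4) (nat_lit 7) (nat_lit 5) (nat_lit 7) (nat_lit 4) (nat_lit 337) (nat_lit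 233) (nat_lit 210)))) (XT.nd (nat_lit 156) (nat_lit 0) (nat_lit 0) (XT.nd (nat_lit 78) (nat_lit 0) (nat_lit 0) (XT.lf (nat_lit 0) (nat_lit 14501643409) (nat_lit 76) (nat_lit 23390623014) (nat_lit 76) (nat_lit 16224456454) (nat_lit 6) (nat_lit 4) (nat_lit 7) (nat_lit 5) (nat_lit 7) (nat_lit 4) (nat_lit 338) (nat_lit 233) (nat_lit 209)) (XT.lf (nat_lit 0) (nat_lit 25440256999) (nat_lit 76) (nat_lit 19268667065) (nat_lit 76) (nat_lit 11949138393) (nat_lit 6) (nat_lit 4) (nat_lit 7) (nat_lit 5) (nat_lit 7) (nat_lit 4) (nat_lit 339) (nat_lit 233) (nat_lit 208))) (XT.nd (nat_lit 78) (nat_lit 0) (nat_lit 0) (XT.lf (nat_lit 0) (nat_lit 36742399850) (nat_lit 76) (nat_lit 15026305405) (nat_lit 76) (nat_lit 7560717578) (nat_lit 6) (nat_lit 4) (nat_lit 7) (nat_lit 5) (nat_lit 7) (nat_lit 4) (nat_lit 340) (nat_lit 233) (nat_lit 207)) (XT.lf (nat_lit 0) (nat_lit 48434981825) (nat_lit 76) (nat_lit 10653437172)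 (nat_lit 76) (nat_lit 3048745389) (nat_lit 6) (nat_lit 4) (nat_lit 7) (nat_lit 5) (nat_lit 7) (nat_lit 4) (nat_lit 341) (nat_lit 233) (nat_lit 206))))))) (XT.nd (nat_lit 1092) (nat_lit 0) (nat_lit 0) (XT.nd (nat_lit 546) (nat_lit 76) (nat_lit 0) (XT.nd (nat_lit 234) (nat_lit 0) (nat_lit 0) (XT.nd (nat_lit 78) (nat_lit 76) (nat_lit 0) (XT.lf (nat_lit 0) (nat_lit 1566347577) (nat_lit 152) (nat_lit 4557486159) (nat_lit 76) (nat_lit 58963677789) (nat_lit 5) (nat_lit 5) (nat_lit 7) (nat_lit 5) (nat_lit 6) (nat_lit 4) (nat_lit 342) (nat_lit 233) (nat_lit 205)) (XT.nd (nat_lit 78) (nat_lit 0) (nat_lit 0) (XT.lf (nat_lit 0) (nat_lit 4950123291) (nat_lit 76) (nat_lit 1361929133) (nat_lit 152) (nat_lit 61873549632) (nat_lit 4) (nat_lit 5) (nat_lit 5) (nat_lit 5) (nat_lit 6) (nat_lit 4) (nat_lit 343) (nat_lit 233) (nat_lit 204)) (XT.lf (nat_lit 0) (nat_lit 11293998245) (nat_lit 152) (nat_lit 56601627000)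 (nat_lit 0) (nat_lit 3543021198) (nat_lit 4) (nat_lit 5) (nat_lit 6) (nat_lit 4) (nat_lit 4) (nat_lit 4) (nat_lit 344) (nat_lit 233) (nat_lit 203)))) (XT.nd (nat_lit 156) (nat_lit 0) (nat_lit 0) (XT.nd (nat_lit 78) (nat_lit 0) (nat_lit 0) (XT.lf (nat_lit 0) (nat_lit 16459363411) (nat_lit 152) (nat_lit 49799688687) (nat_lit 0) (nat_lit 8597278433) (nat_lit 4) (nat_lit 5) (nat_lit 6) (nat_lit 4) (nat_lit 4) (nat_lit 4) (nat_lit 345) (nat_lit 233) (nat_lit 202)) (XT.lf (nat_lit 0) (nat_lit 21807354716) (nat_lit 152) (nat_lit 42800377040) (nat_lit 0) (nat_lit 13839452660) (nat_lit 4) (nat_lit 5) (nat_lit 6) (nat_lit 4) (nat_lit 4) (nat_lit 4) (nat_lit 346) (nat_lit 233) (nat_lit 201))) (XT.nd (nat_lit 78) (nat_lit 0) (nat_lit 0) (XT.lf (nat_lit 0) (nat_lit 27350705471) (nat_lit 152) (nat_lit 35587027029) (nat_lit 0) (nat_lit 19282025247) (nat_lit 4) (nat_lit 5) (nat_lit 6) (nat_lit 4) (nat_lit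 4) (nat_lit 4) (nat_lit 347) (nat_lit 233) (nat_lit 200)) (XT.lf (nat_lit 0) (nat_lit 33102614133) (nat_lit 152) (nat_lit 28142464013) (nat_lit 0) (nat_lit 24937954700) (nat_lit 4) (nat_lit 5) (nat_lit 6) (nat_lit 4) (nat_lit 4) (nat_lit 4) (nat_lit 348) (nat_lit 233) (nat_lit 199))))) (XT.nd (nat_lit 234) (nat_lit 76) (nat_lit 0) (XT.nd (nat_lit 78) (nat_lit 0) (nat_lit 0) (XT.lf (nat_lit 0) (nat_lit 39076775719) (nat_lit 152) (nat_lit 20448962841) (nat_lit 0) (nat_lit 30820707516) (nat_lit 4) (nat_lit 5) (nat_lit 6) (nat_lit 4) (nat_lit 4) (nat_lit 4) (nat_lit 349) (nat_lit 233) (nat_lit 198)) (XT.nd (nat_lit 78) (nat_lit 0) (nat_lit 0) (XT.lf (nat_lit 0) (nat_lit 45287414426) (nat_lit 152) (nat_lit 12488205654) (nat_lit 0) (nat_lit 36944290252) (nat_lit 4) (nat_lit 5) (nat_lit 6) (nat_lit 4) (nat_lit 4) (nat_lit 4) (nat_lit 350) (nat_lit 233) (nat_lit 197)) (XT.lf (nat_lit 0) (nat_lit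 51749317488) (nat_lit 152) (nat_lit 4241238268) (nat_lit 0) (nat_lit 43323282865) (nat_lit 4) (nat_lit 5) (nat_lit 6) (nat_lit 4) (nat_lit 4) (nat_lit 4) (nat_lit 351) (nat_lit 233) (nat_lit 196)))) (XT.nd (nat_lit 156) (nat_lit 0) (nat_lit 0) (XT.nd (nat_lit 78) (nat_lit 0) (nat_lit 0) (XT.lf (nat_lit 0) (nat_lit 4397383750) (nat_lit 76) (nat_lit 54122756982) (nat_lit 76) (nat_lit 45617760026) (nat_lit 3) (nat_lit 4) (nat_lit 4) (nat_lit 5) (nat_lit 4) (nat_lit 4) (nat_lit 352) (nat_lit 233) (nat_lit 195)) (XT.lf (nat_lit 0) (nat_lit 13453116615) (nat_lit 76) (nat_lit 52165296464) (nat_lit 76) (nat_lit 43585097287) (nat_lit 3) (nat_lit 4) (nat_lit 4) (nat_lit 5) (nat_lit 4) (nat_lit 4) (nat_lit 353) (nat_lit 233) (nat_lit 194))) (XT.nd (nat_lit 78) (nat_lit 0) (nat_lit 0) (XT.lf (nat_lit 0) (nat_lit 22863112638) (nat_lit 76) (nat_lit 50156341774) (nat_lit 76) (nat_lit 41504521433) (nat_lit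 3) (nat_lit 4) (nat_lit 4) (nat_lit 5) (nat_lit 4) (nat_lit 4) (nat_lit 354) (nat_lit 233) (nat_lit 193)) (XT.lf (nat_lit 0) (nat_lit 32649776571) (nat_lit 76) (nat_lit 48091109685) (nat_lit 76) (nat_lit 39371078713) (nat_lit 3) (nat_lit 4) (nat_lit 4) (nat_lit 5) (nat_lit 4) (nat_lit 4) (nat_lit 355) (nat_lit 233) (nat_lit 192)))))) (XT.nd (nat_lit 546) (nat_lit 0) (nat_lit 0) (XT.nd (nat_lit 234) (nat_lit 0) (nat_lit 0) (XT.nd (nat_lit 78) (nat_lit 0) (nat_lit 0) (XT.lf (nat_lit 0) (nat_lit 42836409996) (nat_lit 76) (nat_lit 45964682979) (nat_lit 76) (nat_lit 37179689501) (nat_lit 3) (nat_lit 4) (nat_lit 4) (nat_lit 5) (nat_lit 4) (nat_lit 4) (nat_lit 356) (nat_lit 233) (nat_lit 191)) (XT.nd (nat_lit 78) (nat_lit 0) (nat_lit 0) (XT.lf (nat_lit 0) (nat_lit 53447266800) (nat_lit 76) (nat_lit 43771998735) (nat_lit 76) (nat_lit 34925136203) (nat_lit 3) (nat_lit 4) (nat_lit 4) (nat_lit 5) (nat_lit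 4) (nat_lit 4) (nat_lit 357) (nat_lit 233) (nat_lit 190)) (XT.lf (nat_lit 0) (nat_lit 64507610930) (nat_lit 76) (nat_lit 41507836276) (nat_lit 76) (nat_lit 32602050836) (nat_lit 3) (nat_lit 4) (nat_lit 4) (nat_lit 5) (nat_lit 4) (nat_lit 4) (nat_lit 358) (nat_lit 233) (nat_lit 189)))) (XT.nd (nat_lit 156) (nat_lit 0) (nat_lit 0) (XT.nd (nat_lit 78) (nat_lit 0) (nat_lit 0) (XT.lf (nat_lit 0) (nat_lit 76043776537) (nat_lit 76) (nat_lit 39166804739) (nat_lit 76) (nat_lit 30204902243) (nat_lit 3) (nat_lit 4) (nat_lit 4) (nat_lit 5) (nat_lit 4) (nat_lit 4) (nat_lit 359) (nat_lit 233) (nat_lit 188)) (XT.lf (nat_lit 0) (nat_lit 88083230684) (nat_lit 76) (nat_lit 36743330239) (nat_lit 76) (nat_lit 27727982929) (nat_lit 3) (nat_lit 4) (nat_lit 4) (nat_lit 5) (nat_lit 4) (nat_lit 4) (nat_lit 360) (nat_lit 233) (nat_lit 187))) (XT.nd (nat_lit 78) (nat_lit 0) (nat_lit 0) (XT.lf (nat_lit 0) (nat_lit 100654638735)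 (nat_lit 76) (nat_lit 34231642599) (nat_lit 76) (nat_lit 25165395466) (nat_lit 3) (nat_lit 4) (nat_lit 4) (nat_lit 5) (nat_lit 4) (nat_lit 4) (nat_lit 361) (nat_lit 233) (nat_lit 186)) (XT.lf (nat_lit 0) (nat_lit 113787932617) (nat_lit 76) (nat_lit 31625761611) (nat_lit 76) (nat_lit 22511038455) (nat_lit 3) (nat_lit 4) (nat_lit 4) (nat_lit 5) (nat_lit 4) (nat_lit 4) (nat_lit 362) (nat_lit 233) (nat_lit 185))))) (XT.nd (nat_lit 36660) (nat_lit 0) (nat_lit 1292) (XT.nd (nat_lit 78) (nat_lit 0) (nat_lit 0) (XT.lf (nat_lit 0) (nat_lit 127514382075) (nat_lit 76) (nat_lit 28919482796) (nat_lit 76) (nat_lit 19758592000) (nat_lit 3) (nat_lit 4) (nat_lit 4) (nat_lit 5) (nat_lit 4) (nat_lit 4) (nat_lit 363) (nat_lit 233) (nat_lit 184)) (XT.nd (nat_lit 78) (nat_lit 0) (nat_lit 0) (XT.lf (nat_lit 0) (nat_lit 141866669133) (nat_lit 76) (nat_lit 26106362633) (nat_lit 76) (nat_lit 16901502655) (nat_lit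 3) (nat_lit 4) (nat_lit 4) (nat_lit 5) (nat_lit 4) (nat_lit 4) (nat_lit 364) (nat_lit 233) (nat_lit 183)) (XT.lf (nat_lit 0) (nat_lit 156878965902) (nat_lit 76) (nat_lit 23179703216) (nat_lit 76) (nat_lit 13932967828) (nat_lit 3) (nat_lit 4) (nat_lit 4) (nat_lit 5) (nat_lit 4) (nat_lit 4) (nat_lit 365) (nat_lit 233) (nat_lit 182)))) (XT.nd (nat_lit 156) (nat_lit 152) (nat_lit 0) (XT.nd (nat_lit 78) (nat_lit 152) (nat_lit 0) (XT.lf (nat_lit 0) (nat_lit 1217215255) (nat_lit 152) (nat_lit 6690885752) (nat_lit 0) (nat_lit 1217215255) (nat_lit 24) (nat_lit 5) (nat_lit 26) (nat_lit 4) (nat_lit 24) (nat_lit 4) (nat_lit 312) (nat_lit 234) (nat_lit 234)) (XT.lf (nat_lit 0) (nat_lit 97333217) (nat_lit 152) (nat_lit 9714225056) (nat_lit 152) (nat_lit 9112169344) (nat_lit 22) (nat_lit 4) (nat_lit 24) (nat_lit 5) (nat_lit 24) (nat_lit 4) (nat_lit 313) (nat_lit 234) (nat_lit 233))) (XT.nd (nat_lit 78)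 (nat_lit 152) (nat_lit 0) (XT.lf (nat_lit 0) (nat_lit 14075700161) (nat_lit 152) (nat_lit 3366878398) (nat_lit 152) (nat_lit 2191436294) (nat_lit 22) (nat_lit 4) (nat_lit 24) (nat_lit 5) (nat_lit 24) (nat_lit 4) (nat_lit 314) (nat_lit 234) (nat_lit 232)) (XT.lf (nat_lit 0) (nat_lit 4841547773) (nat_lit 152) (nat_lit 12370764418) (nat_lit 0) (nat_lit 3170164878) (nat_lit 20) (nat_lit 5) (nat_lit 22) (nat_lit 4) (nat_lit 20) (nat_lit 4) (nat_lit 315) (nat_lit 234) (nat_lit 231))))))))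
noncomputable def xc13 : XT := (XT.nd (nat_lit 2184) (nat_lit 152) (nat_lit 0) (XT.nd (nat_lit 1092) (nat_lit 380) (nat_lit 0) (XT.nd (nat_lit 546) (nat_lit 228) (nat_lit 0) (XT.nd (nat_lit 234) (nat_lit 228) (nat_lit 0) (XT.nd (nat_lit 78) (nat_lit 152) (nat_lit 0) (XT.lf (nat_lit 0) (nat_lit 737061441) (nat_lit 152) (nat_lit 11305593698) (nat_lit 152) (nat_lit 9129280356) (nat_lit 18) (nat_lit 4) (nat_lit 20) (nat_lit 5) (nat_lit 20) (nat_lit 4) (nat_lit 316) (nat_lit 234) (nat_lit 230)) (XT.nd (nat_lit 78) (nat_lit 152) (nat_lit 0) (XT.lf (nat_lit 0) (nat_lit 14340727267) (nat_lit 152) (nat_lit 5160249249) (nat_lit 152) (nat_lit 2503049768) (nat_lit 18) (nat_lit 4) (nat_lit 20) (nat_lit 5) (nat_lit 20) (nat_lit 4) (nat_lit 317) (nat_lit 234) (nat_lit 229)) (XT.lf (nat_lit 0) (nat_lit 4209697750) (nat_lit 152) (nat_lit 17486298986) (nat_lit 0) (nat_lit 1185245049) (nat_lit 16) (nat_lit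 5) (nat_lit 18) (nat_lit 4) (nat_lit 16) (nat_lit 4) (nat_lit 318) (nat_lit 234) (nat_lit 228)))) (XT.nd (nat_lit 156) (nat_lit 152) (nat_lit 0) (XT.nd (nat_lit 78) (nat_lit 76) (nat_lit 0) (XT.lf (nat_lit 0) (nat_lit 11122173377) (nat_lit 152) (nat_lit 5007743833) (nat_lit 0) (nat_lit 7674246983) (nat_lit 16) (nat_lit 5) (nat_lit 18) (nat_lit 4) (nat_lit 16) (nat_lit 4) (nat_lit 319) (nat_lit 234) (nat_lit 227)) (XT.lf (nat_lit 0) (nat_lit 7871287771) (nat_lit 76) (nat_lit 10378577048) (nat_lit 76) (nat_lit 6527342375) (nat_lit 15) (nat_lit 4) (nat_lit 16) (nat_lit 5) (nat_lit 16) (nat_lit 4) (nat_lit 320) (nat_lit 234) (nat_lit 226))) (XT.nd (nat_lit 78) (nat_lit 152) (nat_lit 0) (XT.lf (nat_lit 0) (nat_lit 21132677612) (nat_lit 76) (nat_lit 4453034331) (nat_lit 76) (nat_lit 217696534) (nat_lit 15) (nat_lit 4) (nat_lit 16) (nat_lit 5) (nat_lit 16) (nat_lit 4) (nat_lit 321) (nat_lit 234)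 (nat_lit 225)) (XT.lf (nat_lit 0) (nat_lit 6183115284) (nat_lit 152) (nat_lit 18983011032) (nat_lit 0) (nat_lit 1715979074) (nat_lit 13) (nat_lit 5) (nat_lit 15) (nat_lit 4) (nat_lit 13) (nat_lit 4) (nat_lit 322) (nat_lit 234) (nat_lit 224))))) (XT.nd (nat_lit 234) (nat_lit 152) (nat_lit 0) (XT.nd (nat_lit 78) (nat_lit 76) (nat_lit 0) (XT.lf (nat_lit 0) (nat_lit 12805162726) (nat_lit 152) (nat_lit 7212610005) (nat_lit 0) (nat_lit 7999781025) (nat_lit 13) (nat_lit 5) (nat_lit 15) (nat_lit 4) (nat_lit 13) (nat_lit 4) (nat_lit 323) (nat_lit 234) (nat_lit 223)) (XT.nd (nat_lit 78) (nat_lit 0) (nat_lit 0) (XT.lf (nat_lit 0) (nat_lit 4911959375) (nat_lit 76) (nat_lit 14714667848) (nat_lit 76) (nat_lit 9587147584) (nat_lit 12) (nat_lit 4) (nat_lit 13) (nat_lit 5) (nat_lit 13) (nat_lit 4) (nat_lit 324) (nat_lit 234) (nat_lit 222)) (XT.lf (nat_lit 0) (nat_lit 17472743010) (nat_lit 76) (nat_lit 9217203347)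 (nat_lit 76) (nat_lit 3782884452) (nat_lit 12) (nat_lit 4) (nat_lit 13) (nat_lit 5) (nat_lit 13) (nat_lit 4) (nat_lit 325) (nat_lit 234) (nat_lit 221)))) (XT.nd (nat_lit 156) (nat_lit 0) (nat_lit 0) (XT.nd (nat_lit 78) (nat_lit 76) (nat_lit 0) (XT.lf (nat_lit 0) (nat_lit 2099598691) (nat_lit 152) (nat_lit 1464322723) (nat_lit 76) (nat_lit 28235301923) (nat_lit 11) (nat_lit 5) (nat_lit 13) (nat_lit 5) (nat_lit 12) (nat_lit 4) (nat_lit 326) (nat_lit 234) (nat_lit 220)) (XT.lf (nat_lit 0) (nat_lit 8163776486) (nat_lit 152) (nat_lit 22694213254) (nat_lit 0) (nat_lit 2333889622) (nat_lit 10) (nat_lit 5) (nat_lit 12) (nat_lit 4) (nat_lit 10) (nat_lit 4) (nat_lit 327) (nat_lit 234) (nat_lit 219))) (XT.nd (nat_lit 78) (nat_lit 0) (nat_lit 0) (XT.lf (nat_lit 0) (nat_lit 14426976615) (nat_lit 152) (nat_lit 11890572163) (nat_lit 0) (nat_lit 8339784708) (nat_lit 10) (nat_lit 5) (nat_lit 12) (nat_lit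 4) (nat_lit 10) (nat_lit 4) (nat_lit 328) (nat_lit 234) (nat_lit 218)) (XT.lf (nat_lit 0) (nat_lit 20855354620) (nat_lit 152) (nat_lit 822072678) (nat_lit 0) (nat_lit 14523110293) (nat_lit 10) (nat_lit 5) (nat_lit 12) (nat_lit 4) (nat_lit 10) (nat_lit 4) (nat_lit 329) (nat_lit 234) (nat_lit 217)))))) (XT.nd (nat_lit 546) (nat_lit 152) (nat_lit 0) (XT.nd (nat_lit 234) (nat_lit 76) (nat_lit 0) (XT.nd (nat_lit 78) (nat_lit 76) (nat_lit 0) (XT.lf (nat_lit 0) (nat_lit 10747358442) (nat_lit 76) (nat_lit 16820167906) (nat_lit 76) (nat_lit 10254540322) (nat_lit 9) (nat_lit 4) (nat_lit 10) (nat_lit 5) (nat_lit 10) (nat_lit 4) (nat_lit 330) (nat_lit 234) (nat_lit 216)) (XT.nd (nat_lit 78) (nat_lit 76) (nat_lit 0) (XT.lf (nat_lit 0) (nat_lit 22657743294) (nat_lit 76) (nat_lit 11829353429) (nat_lit 76) (nat_lit 5041456075) (nat_lit 9) (nat_lit 4) (nat_lit 10) (nat_lit 5) (nat_lit 10) (nat_lit 4) (nat_lit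 331) (nat_lit 234) (nat_lit 215)) (XT.lf (nat_lit 0) (nat_lit 292361975) (nat_lit 152) (nat_lit 6406088039) (nat_lit 76) (nat_lit 34625764819) (nat_lit 8) (nat_lit 5) (nat_lit 10) (nat_lit 5) (nat_lit 9) (nat_lit 4) (nat_lit 332) (nat_lit 234) (nat_lit 214)))) (XT.nd (nat_lit 156) (nat_lit 0) (nat_lit 0) (XT.nd (nat_lit 78) (nat_lit 0) (nat_lit 0) (XT.lf (nat_lit 0) (nat_lit 4382972602) (nat_lit 76) (nat_lit 1323510493) (nat_lit 152) (nat_lit 37504173297) (nat_lit 7) (nat_lit 5) (nat_lit 8) (nat_lit 5) (nat_lit 9) (nat_lit 4) (nat_lit 333) (nat_lit 234) (nat_lit 213)) (XT.lf (nat_lit 0) (nat_lit 11376981813) (nat_lit 152) (nat_lit 29615772366) (nat_lit 0) (nat_lit 4199124468) (nat_lit 7) (nat_lit 5) (nat_lit 9) (nat_lit 4) (nat_lit 7) (nat_lit 4) (nat_lit 334) (nat_lit 234) (nat_lit 212))) (XT.nd (nat_lit 78) (nat_lit 0) (nat_lit 0) (XT.lf (nat_lit 0) (nat_lit 17227740572) (nat_lit 152) (nat_lit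 20175199372) (nat_lit 0) (nat_lit 9872347412) (nat_lit 7) (nat_lit 5) (nat_lit 9) (nat_lit 4) (nat_lit 7) (nat_lit 4) (nat_lit 335) (nat_lit 234) (nat_lit 211)) (XT.lf (nat_lit 0) (nat_lit 23259967357) (nat_lit 152) (nat_lit 10470764862) (nat_lit 0) (nat_lit 15735492468) (nat_lit 7) (nat_lit 5) (nat_lit 9) (nat_lit 4) (nat_lit 7) (nat_lit 4) (nat_lit 336) (nat_lit 234) (nat_lit 210))))) (XT.nd (nat_lit 234) (nat_lit 76) (nat_lit 0) (XT.nd (nat_lit 78) (nat_lit 76) (nat_lit 0) (XT.lf (nat_lit 0) (nat_lit 29488024612) (nat_lit 152) (nat_lit 479363040) (nat_lit 0) (nat_lit 21802519506) (nat_lit 7) (nat_lit 5) (nat_lit 9) (nat_lit 4) (nat_lit 7) (nat_lit 4) (nat_lit 337) (nat_lit 234) (nat_lit 209)) (XT.nd (nat_lit 78) (nat_lit 0) (nat_lit 0) (XT.lf (nat_lit 0) (nat_lit 10018288030) (nat_lit 76) (nat_lit 26004754929) (nat_lit 76) (nat_lit 18165887711) (nat_lit 6) (nat_lit 4) (nat_lit 7) (nat_lit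 5) (nat_lit 7) (nat_lit 4) (nat_lit 338) (nat_lit 234) (nat_lit 208)) (XT.lf (nat_lit 0) (nat_lit 20867437513) (nat_lit 76) (nat_lit 21924599997) (nat_lit 76) (nat_lit 13939673625) (nat_lit 6) (nat_lit 4) (nat_lit 7) (nat_lit 5) (nat_lit 7) (nat_lit 4) (nat_lit 339) (nat_lit 234) (nat_lit 207)))) (XT.nd (nat_lit 156) (nat_lit 76) (nat_lit 0) (XT.nd (nat_lit 78) (nat_lit 0) (nat_lit 0) (XT.lf (nat_lit 0) (nat_lit 32084376453) (nat_lit 76) (nat_lit 17722048830) (nat_lit 76) (nat_lit 9598018501) (nat_lit 6) (nat_lit 4) (nat_lit 7) (nat_lit 5) (nat_lit 7) (nat_lit 4) (nat_lit 340) (nat_lit 234) (nat_lit 206)) (XT.lf (nat_lit 0) (nat_lit 43695811846) (nat_lit 76) (nat_lit 13387095352) (nat_lit 76) (nat_lit 5130585065) (nat_lit 6) (nat_lit 4) (nat_lit 7) (nat_lit 5) (nat_lit 7) (nat_lit 4) (nat_lit 341) (nat_lit 234) (nat_lit 205))) (XT.nd (nat_lit 78) (nat_lit 76) (nat_lit 0) (XT.lf (nat_lit 0)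 (nat_lit 55729389967) (nat_lit 76) (nat_lit 8909418247) (nat_lit 76) (nat_lit 526736571) (nat_lit 6) (nat_lit 4) (nat_lit 7) (nat_lit 5) (nat_lit 7) (nat_lit 4) (nat_lit 342) (nat_lit 234) (nat_lit 204)) (XT.lf (nat_lit 0) (nat_lit 4142053537) (nat_lit 152) (nat_lit 94476221) (nat_lit 76) (nat_lit 64029882036) (nat_lit 5) (nat_lit 5) (nat_lit 7) (nat_lit 5) (nat_lit 6) (nat_lit 4) (nat_lit 343) (nat_lit 234) (nat_lit 203))))))) (XT.nd (nat_lit 1092) (nat_lit 0) (nat_lit 0) (XT.nd (nat_lit 546) (nat_lit 76) (nat_lit 0) (XT.nd (nat_lit 234) (nat_lit 0) (nat_lit 0) (XT.nd (nat_lit 78) (nat_lit 0) (nat_lit 0) (XT.lf (nat_lit 0) (nat_lit 9056688005) (nat_lit 152) (nat_lit 61774405033) (nat_lit 0) (nat_lit 690390847) (nat_lit 4) (nat_lit 5) (nat_lit 6) (nat_lit 4) (nat_lit 4) (nat_lit 4) (nat_lit 344) (nat_lit 234) (nat_lit 202)) (XT.nd (nat_lit 78) (nat_lit 0) (nat_lit 0) (XT.lf (nat_lit 0) (nat_lit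 14185154576) (nat_lit 152) (nat_lit 55042087979) (nat_lit 0) (nat_lit 5713040341) (nat_lit 4) (nat_lit 5) (nat_lit 6) (nat_lit 4) (nat_lit 4) (nat_lit 4) (nat_lit 345) (nat_lit 234) (nat_lit 201)) (XT.lf (nat_lit 0) (nat_lit 19498004362) (nat_lit 152) (nat_lit 48109082292) (nat_lit 0) (nat_lit 10925111957) (nat_lit 4) (nat_lit 5) (nat_lit 6) (nat_lit 4) (nat_lit 4) (nat_lit 4) (nat_lit 346) (nat_lit 234) (nat_lit 200)))) (XT.nd (nat_lit 156) (nat_lit 0) (nat_lit 0) (XT.nd (nat_lit 78) (nat_lit 0) (nat_lit 0) (XT.lf (nat_lit 0) (nat_lit 25007887004) (nat_lit 152) (nat_lit 40958880816) (nat_lit 0) (nat_lit 16339015391) (nat_lit 4) (nat_lit 5) (nat_lit 6) (nat_lit 4) (nat_lit 4) (nat_lit 4) (nat_lit 347) (nat_lit 234) (nat_lit 199)) (XT.lf (nat_lit 0) (nat_lit 30727921272) (nat_lit 152) (nat_lit 33574459261) (nat_lit 0) (nat_lit 21967640889) (nat_lit 4) (nat_lit 5) (nat_lit 6) (nat_lit 4) (nat_lit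 4) (nat_lit 4) (nat_lit 348) (nat_lit 234) (nat_lit 198))) (XT.nd (nat_lit 78) (nat_lit 0) (nat_lit 0) (XT.lf (nat_lit 0) (nat_lit 36671726293) (nat_lit 152) (nat_lit 25938235671) (nat_lit 0) (nat_lit 27824389938) (nat_lit 4) (nat_lit 5) (nat_lit 6) (nat_lit 4) (nat_lit 4) (nat_lit 4) (nat_lit 349) (nat_lit 234) (nat_lit 197)) (XT.lf (nat_lit 0) (nat_lit 42853453985) (nat_lit 152) (nat_lit 18032028562) (nat_lit 0) (nat_lit 33923207182) (nat_lit 4) (nat_lit 5) (nat_lit 6) (nat_lit 4) (nat_lit 4) (nat_lit 4) (nat_lit 350) (nat_lit 234) (nat_lit 196))))) (XT.nd (nat_lit 234) (nat_lit 0) (nat_lit 0) (XT.nd (nat_lit 78) (nat_lit 76) (nat_lit 0) (XT.lf (nat_lit 0) (nat_lit 49287822748) (nat_lit 152) (nat_lit 9837013631) (nat_lit 0) (nat_lit 40278613612) (nat_lit 4) (nat_lit 5) (nat_lit 6) (nat_lit 4) (nat_lit 4) (nat_lit 4) (nat_lit 351) (nat_lit 234) (nat_lit 195)) (XT.nd (nat_lit 78) (nat_lit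 76) (nat_lit 0) (XT.lf (nat_lit 0) (nat_lit 55990152506) (nat_lit 152) (nat_lit 1333678937) (nat_lit 0) (nat_lit 46905741148) (nat_lit 4) (nat_lit 5) (nat_lit 6) (nat_lit 4) (nat_lit 4) (nat_lit 4) (nat_lit 352) (nat_lit 234) (nat_lit 194)) (XT.lf (nat_lit 0) (nat_lit 7647450865) (nat_lit 76) (nat_lit 55402462298) (nat_lit 76) (nat_lit 46246429778) (nat_lit 3) (nat_lit 4) (nat_lit 4) (nat_lit 5) (nat_lit 4) (nat_lit 4) (nat_lit 353) (nat_lit 234) (nat_lit 193)))) (XT.nd (nat_lit 156) (nat_lit 0) (nat_lit 0) (XT.nd (nat_lit 78) (nat_lit 0) (nat_lit 0) (XT.lf (nat_lit 0) (nat_lit 17011675234) (nat_lit 76) (nat_lit 53415054113) (nat_lit 76) (nat_lit 44190810961) (nat_lit 3) (nat_lit 4) (nat_lit 4) (nat_lit 5) (nat_lit 4) (nat_lit 4) (nat_lit 354) (nat_lit 234) (nat_lit 192)) (XT.lf (nat_lit 0) (nat_lit 26754747115) (nat_lit 76) (nat_lit 51370342506) (nat_lit 76) (nat_lit 42081136848) (nat_lit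 3) (nat_lit 4) (nat_lit 4) (nat_lit 5) (nat_lit 4) (nat_lit 4) (nat_lit 355) (nat_lit 234) (nat_lit 191))) (XT.nd (nat_lit 78) (nat_lit 0) (nat_lit 0) (XT.lf (nat_lit 0) (nat_lit 36899864300) (nat_lit 76) (nat_lit 49263459116) (nat_lit 76) (nat_lit 39912384404) (nat_lit 3) (nat_lit 4) (nat_lit 4) (nat_lit 5) (nat_lit 4) (nat_lit 4) (nat_lit 356) (nat_lit 234) (nat_lit 190)) (XT.lf (nat_lit 0) (nat_lit 47471181829) (nat_lit 76) (nat_lit 47089387553) (nat_lit 76) (nat_lit 37679389933) (nat_lit 3) (nat_lit 4) (nat_lit 4) (nat_lit 5) (nat_lit 4) (nat_lit 4) (nat_lit 357) (nat_lit 234) (nat_lit 189)))))) (XT.nd (nat_lit 546) (nat_lit 0) (nat_lit 0) (XT.nd (nat_lit 234) (nat_lit 0) (nat_lit 0) (XT.nd (nat_lit 78) (nat_lit 0) (nat_lit 0) (XT.lf (nat_lit 0) (nat_lit 58493869506) (nat_lit 76) (nat_lit 44842951458) (nat_lit 76) (nat_lit 35376836782) (nat_lit 3) (nat_lit 4) (nat_lit 4) (nat_lit 5) (nat_lit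 4) (nat_lit 4) (nat_lit 358) (nat_lit 234) (nat_lit 188)) (XT.nd (nat_lit 78) (nat_lit 0) (nat_lit 0) (XT.lf (nat_lit 0) (nat_lit 69994171825) (nat_lit 76) (nat_lit 42518802171) (nat_lit 76) (nat_lit 32999242681) (nat_lit 3) (nat_lit 4) (nat_lit 4) (nat_lit 5) (nat_lit 4) (nat_lit 4) (nat_lit 359) (nat_lit 234) (nat_lit 187)) (XT.lf (nat_lit 0) (nat_lit 81999470458) (nat_lit 76) (nat_lit 40111406006) (nat_lit 76) (nat_lit 30540946692) (nat_lit 3) (nat_lit 4) (nat_lit 4) (nat_lit 5) (nat_lit 4) (nat_lit 4) (nat_lit 360) (nat_lit 234) (nat_lit 186)))) (XT.nd (nat_lit 156) (nat_lit 0) (nat_lit 0) (XT.nd (nat_lit 78) (nat_lit 0) (nat_lit 0) (XT.lf (nat_lit 0) (nat_lit 94538349450) (nat_lit 76) (nat_lit 37615031066) (nat_lit 76) (nat_lit 27996095730) (nat_lit 3) (nat_lit 4) (nat_lit 4) (nat_lit 5) (nat_lit 4) (nat_lit 4) (nat_lit 361) (nat_lit 234) (nat_lit 185)) (XT.lf (nat_lit 0) (nat_lit 107640663274)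 (nat_lit 76) (nat_lit 35023733601) (nat_lit 76) (nat_lit 25358630624) (nat_lit 3) (nat_lit 4) (nat_lit 4) (nat_lit 5) (nat_lit 4) (nat_lit 4) (nat_lit 362) (nat_lit 234) (nat_lit 184))) (XT.nd (nat_lit 78) (nat_lit 0) (nat_lit 0) (XT.lf (nat_lit 0) (nat_lit 121337607916) (nat_lit 76) (nat_lit 32331343855) (nat_lit 76) (nat_lit 22622271697) (nat_lit 3) (nat_lit 4) (nat_lit 4) (nat_lit 5) (nat_lit 4) (nat_lit 4) (nat_lit 363) (nat_lit 234) (nat_lit 183)) (XT.lf (nat_lit 0) (nat_lit 135661795149) (nat_lit 76) (nat_lit 29531451377) (nat_lit 76) (nat_lit 19780503808) (nat_lit 3) (nat_lit 4) (nat_lit 4) (nat_lit 5) (nat_lit 4) (nat_lit 4) (nat_lit 364) (nat_lit 234) (nat_lit 182))))) (XT.nd (nat_lit 36504) (nat_lit 0) (nat_lit 1292) (XT.nd (nat_lit 36348) (nat_lit 0) (nat_lit 1748) (XT.lf (nat_lit 0) (nat_lit 150647330180) (nat_lit 76) (nat_lit 26617389756) (nat_lit 76) (nat_lit 16826560844) (nat_lit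 3) (nat_lit 4) (nat_lit 4) (nat_lit 5) (nat_lit 4) (nat_lit 4) (nat_lit 365) (nat_lit 234) (nat_lit 181)) (XT.nd (nat_lit 78) (nat_lit 152) (nat_lit 0) (XT.lf (nat_lit 0) (nat_lit 2952500401) (nat_lit 152) (nat_lit 2596508292) (nat_lit 0) (nat_lit 2952500401) (nat_lit 28) (nat_lit 5) (nat_lit 30) (nat_lit 4) (nat_lit 28) (nat_lit 4) (nat_lit 310) (nat_lit 235) (nat_lit 235)) (XT.lf (nat_lit 0) (nat_lit 8654970048) (nat_lit 152) (nat_lit 4804005798) (nat_lit 152) (nat_lit 4152882546) (nat_lit 26) (nat_lit 4) (nat_lit 28) (nat_lit 5) (nat_lit 28) (nat_lit 4) (nat_lit 311) (nat_lit 235) (nat_lit 234)))) (XT.nd (nat_lit 156) (nat_lit 304) (nat_lit 0) (XT.nd (nat_lit 78) (nat_lit 0) (nat_lit 0) (XT.lf (nat_lit 0) (nat_lit 2939385313) (nat_lit 152) (nat_lit 13609937537) (nat_lit 0) (nat_lit 1705171104) (nat_lit 24) (nat_lit 5) (nat_lit 26) (nat_lit 4) (nat_lit 24) (nat_lit 4) (nat_lit 312) (nat_lit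 235) (nat_lit 233)) (XT.lf (nat_lit 0) (nat_lit 10194431073) (nat_lit 152) (nat_lit 350033118) (nat_lit 0) (nat_lit 8386830472) (nat_lit 24) (nat_lit 5) (nat_lit 26) (nat_lit 4) (nat_lit 24) (nat_lit 4) (nat_lit 313) (nat_lit 235) (nat_lit 232))) (XT.nd (nat_lit 78) (nat_lit 152) (nat_lit 0) (XT.lf (nat_lit 0) (nat_lit 13410295386) (nat_lit 152) (nat_lit 4294317820) (nat_lit 152) (nat_lit 1940634941) (nat_lit 22) (nat_lit 4) (nat_lit 24) (nat_lit 5) (nat_lit 24) (nat_lit 4) (nat_lit 314) (nat_lit 235) (nat_lit 231)) (XT.lf (nat_lit 0) (nat_lit 4955998044) (nat_lit 152) (nat_lit 13275683121) (nat_lit 0) (nat_lit 2165938588) (nat_lit 20) (nat_lit 5) (nat_lit 22) (nat_lit 4) (nat_lit 20) (nat_lit 4) (nat_lit 315) (nat_lit 235) (nat_lit 230))))))))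
noncomputable def xc14 : XT := (XT.nd (nat_lit 2184) (nat_lit 152) (nat_lit 0) (XT.nd (nat_lit 1092) (nat_lit 380) (nat_lit 0) (XT.nd (nat_lit 546) (nat_lit 228) (nat_lit 0) (XT.nd (nat_lit 234) (nat_lit 228) (nat_lit 0) (XT.nd (nat_lit 78) (nat_lit 304) (nat_lit 0) (XT.lf (nat_lit 0) (nat_lit 12039694092) (nat_lit 152) (nat_lit 382194125) (nat_lit 0) (nat_lit 8768748497) (nat_lit 20) (nat_lit 5) (nat_lit 22) (nat_lit 4) (nat_lit 20) (nat_lit 4) (nat_lit 316) (nat_lit 235) (nat_lit 229)) (XT.nd (nat_lit 78) (nat_lit 152) (nat_lit 0) (XT.lf (nat_lit 0) (nat_lit 13019642793) (nat_lit 152) (nat_lit 6367686088) (nat_lit 152) (nat_lit 2638753692) (nat_lit 18) (nat_lit 4) (nat_lit 20) (nat_lit 5) (nat_lit 20) (nat_lit 4) (nat_lit 317) (nat_lit 235) (nat_lit 228)) (XT.lf (nat_lit 0) (nat_lit 3847593907) (nat_lit 76) (nat_lit 99551022) (nat_lit 152) (nat_lit 18960109063) (nat_lit 16) (nat_lit 5)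 (nat_lit 17) (nat_lit 5) (nat_lit 18) (nat_lit 4) (nat_lit 318) (nat_lit 235) (nat_lit 227)))) (XT.nd (nat_lit 156) (nat_lit 152) (nat_lit 0) (XT.nd (nat_lit 78) (nat_lit 76) (nat_lit 0) (XT.lf (nat_lit 0) (nat_lit 10758140880) (nat_lit 152) (nat_lit 6764074075) (nat_lit 0) (nat_lit 6311036193) (nat_lit 16) (nat_lit 5) (nat_lit 18) (nat_lit 4) (nat_lit 16) (nat_lit 4) (nat_lit 319) (nat_lit 235) (nat_lit 226)) (XT.lf (nat_lit 0) (nat_lit 5901349230) (nat_lit 76) (nat_lit 11869810902) (nat_lit 76) (nat_lit 7038603091) (nat_lit 15) (nat_lit 4) (nat_lit 16) (nat_lit 5) (nat_lit 16) (nat_lit 4) (nat_lit 320) (nat_lit 235) (nat_lit 225))) (XT.nd (nat_lit 78) (nat_lit 152) (nat_lit 0) (XT.lf (nat_lit 0) (nat_lit 18992592515) (nat_lit 76) (nat_lit 6021602107) (nat_lit 76) (nat_lit 824581798) (nat_lit 15) (nat_lit 4) (nat_lit 16) (nat_lit 5) (nat_lit 16) (nat_lit 4) (nat_lit 321) (nat_lit 235) (nat_lit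 224)) (XT.lf (nat_lit 0) (nat_lit 5459822595) (nat_lit 152) (nat_lit 21385772390) (nat_lit 0) (nat_lit 75926318) (nat_lit 13) (nat_lit 5) (nat_lit 15) (nat_lit 4) (nat_lit 13) (nat_lit 4) (nat_lit 322) (nat_lit 235) (nat_lit 223))))) (XT.nd (nat_lit 234) (nat_lit 152) (nat_lit 0) (XT.nd (nat_lit 78) (nat_lit 76) (nat_lit 0) (XT.lf (nat_lit 0) (nat_lit 11994600732) (nat_lit 152) (nat_lit 9776445372) (nat_lit 0) (nat_lit 6288565892) (nat_lit 13) (nat_lit 5) (nat_lit 15) (nat_lit 4) (nat_lit 13) (nat_lit 4) (nat_lit 323) (nat_lit 235) (nat_lit 222)) (XT.nd (nat_lit 78) (nat_lit 0) (nat_lit 0) (XT.lf (nat_lit 0) (nat_lit 2140641803) (nat_lit 76) (nat_lit 16565670202) (nat_lit 76) (nat_lit 10552836731) (nat_lit 12) (nat_lit 4) (nat_lit 13) (nat_lit 5) (nat_lit 13) (nat_lit 4) (nat_lit 324) (nat_lit 235) (nat_lit 221)) (XT.lf (nat_lit 0) (nat_lit 14552418911) (nat_lit 76) (nat_lit 11136624054)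 (nat_lit 76) (nat_lit 4831601410) (nat_lit 12) (nat_lit 4) (nat_lit 13) (nat_lit 5) (nat_lit 13) (nat_lit 4) (nat_lit 325) (nat_lit 235) (nat_lit 220)))) (XT.nd (nat_lit 156) (nat_lit 0) (nat_lit 0) (XT.nd (nat_lit 78) (nat_lit 76) (nat_lit 0) (XT.lf (nat_lit 0) (nat_lit 993814892) (nat_lit 152) (nat_lit 4565853814) (nat_lit 76) (nat_lit 26290016893) (nat_lit 11) (nat_lit 5) (nat_lit 13) (nat_lit 5) (nat_lit 12) (nat_lit 4) (nat_lit 326) (nat_lit 235) (nat_lit 219)) (XT.lf (nat_lit 0) (nat_lit 6932304390) (nat_lit 152) (nat_lit 26030379403) (nat_lit 0) (nat_lit 283447846) (nat_lit 10) (nat_lit 5) (nat_lit 12) (nat_lit 4) (nat_lit 10) (nat_lit 4) (nat_lit 327) (nat_lit 235) (nat_lit 218))) (XT.nd (nat_lit 78) (nat_lit 0) (nat_lit 0) (XT.lf (nat_lit 0) (nat_lit 13123318114) (nat_lit 152) (nat_lit 15361042537) (nat_lit 0) (nat_lit 6229409150) (nat_lit 10) (nat_lit 5) (nat_lit 12) (nat_lit 4)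 (nat_lit 10) (nat_lit 4) (nat_lit 328) (nat_lit 235) (nat_lit 217)) (XT.lf (nat_lit 0) (nat_lit 19482947163) (nat_lit 152) (nat_lit 4420451838) (nat_lit 0) (nat_lit 12355654941) (nat_lit 10) (nat_lit 5) (nat_lit 12) (nat_lit 4) (nat_lit 10) (nat_lit 4) (nat_lit 329) (nat_lit 235) (nat_lit 216)))))) (XT.nd (nat_lit 546) (nat_lit 152) (nat_lit 0) (XT.nd (nat_lit 234) (nat_lit 152) (nat_lit 0) (XT.nd (nat_lit 78) (nat_lit 0) (nat_lit 0) (XT.lf (nat_lit 0) (nat_lit 6953122176) (nat_lit 76) (nat_lit 19140048999) (nat_lit 76) (nat_lit 11790487008) (nat_lit 9) (nat_lit 4) (nat_lit 10) (nat_lit 5) (nat_lit 10) (nat_lit 4) (nat_lit 330) (nat_lit 235) (nat_lit 215)) (XT.nd (nat_lit 78) (nat_lit 0) (nat_lit 0) (XT.lf (nat_lit 0) (nat_lit 18745181022) (nat_lit 76) (nat_lit 14204065774) (nat_lit 76) (nat_lit 6642818289) (nat_lit 9) (nat_lit 4) (nat_lit 10) (nat_lit 5) (nat_lit 10) (nat_lit 4) (nat_lit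 331) (nat_lit 235) (nat_lit 214)) (XT.lf (nat_lit 0) (nat_lit 30895825370) (nat_lit 76) (nat_lit 9128334883) (nat_lit 76) (nat_lit 1365482165) (nat_lit 9) (nat_lit 4) (nat_lit 10) (nat_lit 5) (nat_lit 10) (nat_lit 4) (nat_lit 332) (nat_lit 235) (nat_lit 213)))) (XT.nd (nat_lit 156) (nat_lit 0) (nat_lit 0) (XT.nd (nat_lit 78) (nat_lit 0) (nat_lit 0) (XT.lf (nat_lit 0) (nat_lit 116620523) (nat_lit 76) (nat_lit 3859477124) (nat_lit 152) (nat_lit 39303369741) (nat_lit 7) (nat_lit 5) (nat_lit 8) (nat_lit 5) (nat_lit 9) (nat_lit 4) (nat_lit 333) (nat_lit 235) (nat_lit 212)) (XT.lf (nat_lit 0) (nat_lit 9565329636) (nat_lit 152) (nat_lit 34033180369) (nat_lit 0) (nat_lit 1664631004) (nat_lit 7) (nat_lit 5) (nat_lit 9) (nat_lit 4) (nat_lit 7) (nat_lit 4) (nat_lit 334) (nat_lit 235) (nat_lit 211))) (XT.nd (nat_lit 78) (nat_lit 0) (nat_lit 0) (XT.lf (nat_lit 0) (nat_lit 15361907950) (nat_lit 152) (nat_lit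 24694152318) (nat_lit 0) (nat_lit 7292127589) (nat_lit 7) (nat_lit 5) (nat_lit 9) (nat_lit 4) (nat_lit 7) (nat_lit 4) (nat_lit 335) (nat_lit 235) (nat_lit 210)) (XT.lf (nat_lit 0) (nat_lit 21342534311) (nat_lit 152) (nat_lit 15086427278) (nat_lit 0) (nat_lit 13111723733) (nat_lit 7) (nat_lit 5) (nat_lit 9) (nat_lit 4) (nat_lit 7) (nat_lit 4) (nat_lit 336) (nat_lit 235) (nat_lit 209))))) (XT.nd (nat_lit 234) (nat_lit 76) (nat_lit 0) (XT.nd (nat_lit 78) (nat_lit 76) (nat_lit 0) (XT.lf (nat_lit 0) (nat_lit 27521448306) (nat_lit 152) (nat_lit 5187129712) (nat_lit 0) (nat_lit 19137275616) (nat_lit 7) (nat_lit 5) (nat_lit 9) (nat_lit 4) (nat_lit 7) (nat_lit 4) (nat_lit 337) (nat_lit 235) (nat_lit 208)) (XT.nd (nat_lit 78) (nat_lit 0) (nat_lit 0) (XT.lf (nat_lit 0) (nat_lit 5127363463) (nat_lit 76) (nat_lit 28835285526) (nat_lit 76) (nat_lit 20305053681) (nat_lit 6) (nat_lit 4) (nat_lit 7) (nat_lit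 5) (nat_lit 7) (nat_lit 4) (nat_lit 338) (nat_lit 235) (nat_lit 207)) (XT.lf (nat_lit 0) (nat_lit 15891309035) (nat_lit 76) (nat_lit 24794941087) (nat_lit 76) (nat_lit 16125605286) (nat_lit 6) (nat_lit 4) (nat_lit 7) (nat_lit 5) (nat_lit 7) (nat_lit 4) (nat_lit 339) (nat_lit 235) (nat_lit 206)))) (XT.nd (nat_lit 156) (nat_lit 76) (nat_lit 0) (XT.nd (nat_lit 78) (nat_lit 0) (nat_lit 0) (XT.lf (nat_lit 0) (nat_lit 27027101392) (nat_lit 76) (nat_lit 20630304675) (nat_lit 76) (nat_lit 11828488915) (nat_lit 6) (nat_lit 4) (nat_lit 7) (nat_lit 5) (nat_lit 7) (nat_lit 4) (nat_lit 340) (nat_lit 235) (nat_lit 205)) (XT.lf (nat_lit 0) (nat_lit 38561254326) (nat_lit 76) (nat_lit 16331460488) (nat_lit 76) (nat_lit 7403473339) (nat_lit 6) (nat_lit 4) (nat_lit 7) (nat_lit 5) (nat_lit 7) (nat_lit 4) (nat_lit 341) (nat_lit 235) (nat_lit 204))) (XT.nd (nat_lit 78) (nat_lit 76) (nat_lit 0) (XT.lf (nat_lit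 0) (nat_lit 50521230105) (nat_lit 76) (nat_lit 11888173184) (nat_lit 76) (nat_lit 2840022807) (nat_lit 6) (nat_lit 4) (nat_lit 7) (nat_lit 5) (nat_lit 7) (nat_lit 4) (nat_lit 342) (nat_lit 235) (nat_lit 203)) (XT.lf (nat_lit 0) (nat_lit 1836184369) (nat_lit 152) (nat_lit 5435137274) (nat_lit 76) (nat_lit 61080778631) (nat_lit 5) (nat_lit 5) (nat_lit 7) (nat_lit 5) (nat_lit 6) (nat_lit 4) (nat_lit 343) (nat_lit 235) (nat_lit 202))))))) (XT.nd (nat_lit 1092) (nat_lit 0) (nat_lit 0) (XT.nd (nat_lit 546) (nat_lit 76) (nat_lit 0) (XT.nd (nat_lit 234) (nat_lit 0) (nat_lit 0) (XT.nd (nat_lit 78) (nat_lit 0) (nat_lit 0) (XT.lf (nat_lit 0) (nat_lit 4238274254) (nat_lit 76) (nat_lit 2416827908) (nat_lit 152) (nat_lit 64954949668) (nat_lit 4) (nat_lit 5) (nat_lit 5) (nat_lit 5) (nat_lit 6) (nat_lit 4) (nat_lit 344) (nat_lit 235) (nat_lit 201)) (XT.nd (nat_lit 78) (nat_lit 0) (nat_lit 0) (XT.lf (nat_lit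 0) (nat_lit 11725195186) (nat_lit 152) (nat_lit 60682534455) (nat_lit 0) (nat_lit 2622879992) (nat_lit 4) (nat_lit 5) (nat_lit 6) (nat_lit 4) (nat_lit 4) (nat_lit 4) (nat_lit 345) (nat_lit 235) (nat_lit 200)) (XT.lf (nat_lit 0) (nat_lit 17004576858) (nat_lit 152) (nat_lit 53812677302) (nat_lit 0) (nat_lit 7806282456) (nat_lit 4) (nat_lit 5) (nat_lit 6) (nat_lit 4) (nat_lit 4) (nat_lit 4) (nat_lit 346) (nat_lit 235) (nat_lit 199)))) (XT.nd (nat_lit 156) (nat_lit 0) (nat_lit 0) (XT.nd (nat_lit 78) (nat_lit 0) (nat_lit 0) (XT.lf (nat_lit 0) (nat_lit 22482585107) (nat_lit 152) (nat_lit 46722617287) (nat_lit 0) (nat_lit 13192881934) (nat_lit 4) (nat_lit 5) (nat_lit 6) (nat_lit 4) (nat_lit 4) (nat_lit 4) (nat_lit 347) (nat_lit 235) (nat_lit 198)) (XT.lf (nat_lit 0) (nat_lit 28172262808) (nat_lit 152) (nat_lit 39395473314) (nat_lit 0) (nat_lit 18795503665) (nat_lit 4) (nat_lit 5) (nat_lit 6) (nat_lit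 4) (nat_lit 4) (nat_lit 4) (nat_lit 348) (nat_lit 235) (nat_lit 197))) (XT.nd (nat_lit 78) (nat_lit 0) (nat_lit 0) (XT.lf (nat_lit 0) (nat_lit 34087156815) (nat_lit 152) (nat_lit 31813799802) (nat_lit 0) (nat_lit 24627487222) (nat_lit 4) (nat_lit 5) (nat_lit 6) (nat_lit 4) (nat_lit 4) (nat_lit 4) (nat_lit 349) (nat_lit 235) (nat_lit 196)) (XT.lf (nat_lit 0) (nat_lit 40241350208) (nat_lit 152) (nat_lit 23959545148) (nat_lit 0) (nat_lit 30702718282) (nat_lit 4) (nat_lit 5) (nat_lit 6) (nat_lit 4) (nat_lit 4) (nat_lit 4) (nat_lit 350) (nat_lit 235) (nat_lit 195))))) (XT.nd (nat_lit 234) (nat_lit 0) (nat_lit 0) (XT.nd (nat_lit 78) (nat_lit 76) (nat_lit 0) (XT.lf (nat_lit 0) (nat_lit 46649495827) (nat_lit 152) (nat_lit 15814008746) (nat_lit 0) (nat_lit 37035661681) (nat_lit 4) (nat_lit 5) (nat_lit 6) (nat_lit 4) (nat_lit 4) (nat_lit 4) (nat_lit 351) (nat_lit 235) (nat_lit 194)) (XT.nd (nat_lit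 78) (nat_lit 76) (nat_lit 0) (XT.lf (nat_lit 0) (nat_lit 53326851164) (nat_lit 152) (nat_lit 7357796461) (nat_lit 0) (nat_lit 43641395854) (nat_lit 4) (nat_lit 5) (nat_lit 6) (nat_lit 4) (nat_lit 4) (nat_lit 4) (nat_lit 352) (nat_lit 235) (nat_lit 193)) (XT.lf (nat_lit 0) (nat_lit 1457669936) (nat_lit 76) (nat_lit 58845656761) (nat_lit 76) (nat_lit 49091990819) (nat_lit 3) (nat_lit 4) (nat_lit 4) (nat_lit 5) (nat_lit 4) (nat_lit 4) (nat_lit 353) (nat_lit 235) (nat_lit 192)))) (XT.nd (nat_lit 156) (nat_lit 0) (nat_lit 0) (XT.nd (nat_lit 78) (nat_lit 0) (nat_lit 0) (XT.lf (nat_lit 0) (nat_lit 10778302254) (nat_lit 76) (nat_lit 56878769057) (nat_lit 76) (nat_lit 47060140610) (nat_lit 3) (nat_lit 4) (nat_lit 4) (nat_lit 5) (nat_lit 4) (nat_lit 4) (nat_lit 354) (nat_lit 235) (nat_lit 191)) (XT.lf (nat_lit 0) (nat_lit 20479857896) (nat_lit 76) (nat_lit 54853600766) (nat_lit 76) (nat_lit 44973103265)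 (nat_lit 3) (nat_lit 4) (nat_lit 4) (nat_lit 5) (nat_lit 4) (nat_lit 4) (nat_lit 355) (nat_lit 235) (nat_lit 190))) (XT.nd (nat_lit 78) (nat_lit 0) (nat_lit 0) (XT.lf (nat_lit 0) (nat_lit 30585435805) (nat_lit 76) (nat_lit 52765330057) (nat_lit 76) (nat_lit 42825909648) (nat_lit 3) (nat_lit 4) (nat_lit 4) (nat_lit 5) (nat_lit 4) (nat_lit 4) (nat_lit 356) (nat_lit 235) (nat_lit 189)) (XT.lf (nat_lit 0) (nat_lit 41119096881) (nat_lit 76) (nat_lit 50608984858) (nat_lit 76) (nat_lit 40613447393) (nat_lit 3) (nat_lit 4) (nat_lit 4) (nat_lit 5) (nat_lit 4) (nat_lit 4) (nat_lit 357) (nat_lit 235) (nat_lit 188)))))) (XT.nd (nat_lit 546) (nat_lit 0) (nat_lit 0) (XT.nd (nat_lit 234) (nat_lit 0) (nat_lit 0) (XT.nd (nat_lit 78) (nat_lit 0) (nat_lit 0) (XT.lf (nat_lit 0) (nat_lit 52105921269) (nat_lit 76) (nat_lit 48379431013) (nat_lit 76) (nat_lit 38330448734) (nat_lit 3) (nat_lit 4) (nat_lit 4) (nat_lit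 5) (nat_lit 4) (nat_lit 4) (nat_lit 358) (nat_lit 235) (nat_lit 187)) (XT.nd (nat_lit 78) (nat_lit 0) (nat_lit 0) (XT.lf (nat_lit 0) (nat_lit 63572068075) (nat_lit 76) (nat_lit 46071360061) (nat_lit 76) (nat_lit 35971477958) (nat_lit 3) (nat_lit 4) (nat_lit 4) (nat_lit 5) (nat_lit 4) (nat_lit 4) (nat_lit 359) (nat_lit 235) (nat_lit 186)) (XT.lf (nat_lit 0) (nat_lit 75544837648) (nat_lit 76) (nat_lit 43679276595) (nat_lit 76) (nat_lit 33530918470) (nat_lit 3) (nat_lit 4) (nat_lit 4) (nat_lit 5) (nat_lit 4) (nat_lit 4) (nat_lit 360) (nat_lit 235) (nat_lit 185)))) (XT.nd (nat_lit 156) (nat_lit 0) (nat_lit 0) (XT.nd (nat_lit 78) (nat_lit 0) (nat_lit 0) (XT.lf (nat_lit 0) (nat_lit 88052736583) (nat_lit 76) (nat_lit 41197485178) (nat_lit 76) (nat_lit 31002959412) (nat_lit 3) (nat_lit 4) (nat_lit 4) (nat_lit 5) (nat_lit 4) (nat_lit 4) (nat_lit 361) (nat_lit 235) (nat_lit 184)) (XT.lf (nat_lit 0)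 (nat_lit 101125545591) (nat_lit 76) (nat_lit 38620076782) (nat_lit 76) (nat_lit 28381581835) (nat_lit 3) (nat_lit 4) (nat_lit 4) (nat_lit 5) (nat_lit 4) (nat_lit 4) (nat_lit 362) (nat_lit 235) (nat_lit 183))) (XT.nd (nat_lit 78) (nat_lit 0) (nat_lit 0) (XT.lf (nat_lit 0) (nat_lit 114794390408) (nat_lit 76) (nat_lit 35940914722) (nat_lit 76) (nat_lit 25660544364) (nat_lit 3) (nat_lit 4) (nat_lit 4) (nat_lit 5) (nat_lit 4) (nat_lit 4) (nat_lit 363) (nat_lit 235) (nat_lit 182)) (XT.lf (nat_lit 0) (nat_lit 129091815903) (nat_lit 76) (nat_lit 33153620039) (nat_lit 76) (nat_lit 22833368338) (nat_lit 3) (nat_lit 4) (nat_lit 4) (nat_lit 5) (nat_lit 4) (nat_lit 4) (nat_lit 364) (nat_lit 235) (nat_lit 181))))) (XT.nd (nat_lit 36348) (nat_lit 0) (nat_lit 1596) (XT.nd (nat_lit 36192) (nat_lit 0) (nat_lit 2052) (XT.lf (nat_lit 0) (nat_lit 144051863564) (nat_lit 76) (nat_lit 30251556318) (nat_lit 76) (nat_lit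 19893322385) (nat_lit 3) (nat_lit 4) (nat_lit 4) (nat_lit 5) (nat_lit 4) (nat_lit 4) (nat_lit 365) (nat_lit 235) (nat_lit 180)) (XT.nd (nat_lit 78) (nat_lit 0) (nat_lit 0) (XT.lf (nat_lit 0) (nat_lit 102888771) (nat_lit 152) (nat_lit 3917469237) (nat_lit 152) (nat_lit 3917469237) (nat_lit 30) (nat_lit 4) (nat_lit 32) (nat_lit 5) (nat_lit 32) (nat_lit 4) (nat_lit 308) (nat_lit 236) (nat_lit 236)) (XT.lf (nat_lit 0) (nat_lit 14217550323) (nat_lit 152) (nat_lit 1456829820) (nat_lit 152) (nat_lit 752640023) (nat_lit 30) (nat_lit 4) (nat_lit 32) (nat_lit 5) (nat_lit 32) (nat_lit 4) (nat_lit 309) (nat_lit 236) (nat_lit 235)))) (XT.nd (nat_lit 156) (nat_lit 152) (nat_lit 0) (XT.nd (nat_lit 78) (nat_lit 152) (nat_lit 0) (XT.lf (nat_lit 0) (nat_lit 6461918805) (nat_lit 152) (nat_lit 5417835098) (nat_lit 0) (nat_lit 5127116138) (nat_lit 28) (nat_lit 5) (nat_lit 30) (nat_lit 4) (nat_lit 28) (nat_lit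 4) (nat_lit 310) (nat_lit 236) (nat_lit 234)) (XT.lf (nat_lit 0) (nat_lit 8207303070) (nat_lit 152) (nat_lit 5683562376) (nat_lit 152) (nat_lit 3728642326) (nat_lit 26) (nat_lit 4) (nat_lit 28) (nat_lit 5) (nat_lit 28) (nat_lit 4) (nat_lit 311) (nat_lit 236) (nat_lit 233))) (XT.nd (nat_lit 78) (nat_lit 0) (nat_lit 0) (XT.lf (nat_lit 0) (nat_lit 3221237783) (nat_lit 152) (nat_lit 14294978885) (nat_lit 0) (nat_lit 749870760) (nat_lit 24) (nat_lit 5) (nat_lit 26) (nat_lit 4) (nat_lit 24) (nat_lit 4) (nat_lit 312) (nat_lit 236) (nat_lit 232)) (XT.lf (nat_lit 0) (nat_lit 10360906042) (nat_lit 152) (nat_lit 1242027783) (nat_lit 0) (nat_lit 7343456740) (nat_lit 24) (nat_lit 5) (nat_lit 26) (nat_lit 4) (nat_lit 24) (nat_lit 4) (nat_lit 313) (nat_lit 236) (nat_lit 231))))))))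
noncomputable def xc15 : XT := (XT.nd (nat_lit 2184) (nat_lit 228) (nat_lit 0) (XT.nd (nat_lit 1092) (nat_lit 304) (nat_lit 0) (XT.nd (nat_lit 546) (nat_lit 380) (nat_lit 0) (XT.nd (nat_lit 234) (nat_lit 380) (nat_lit 0) (XT.nd (nat_lit 78) (nat_lit 152) (nat_lit 0) (XT.lf (nat_lit 0) (nat_lit 12299527236) (nat_lit 152) (nat_lit 5451000220) (nat_lit 152) (nat_lit 1913472559) (nat_lit 22) (nat_lit 4) (nat_lit 24) (nat_lit 5) (nat_lit 24) (nat_lit 4) (nat_lit 314) (nat_lit 236) (nat_lit 230)) (XT.nd (nat_lit 78) (nat_lit 0) (nat_lit 0) (XT.lf (nat_lit 0) (nat_lit 4850002052) (nat_lit 152) (nat_lit 14635753747) (nat_lit 0) (nat_lit 934623037) (nat_lit 20) (nat_lit 5) (nat_lit 22) (nat_lit 4) (nat_lit 20) (nat_lit 4) (nat_lit 315) (nat_lit 236) (nat_lit 229)) (XT.lf (nat_lit 0) (nat_lit 11828625499) (nat_lit 152) (nat_lit 1932697264) (nat_lit 0) (nat_lit 7455259684) (nat_lit 20) (nat_lit 5) (nat_lit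 22) (nat_lit 4) (nat_lit 20) (nat_lit 4) (nat_lit 316) (nat_lit 236) (nat_lit 228)))) (XT.nd (nat_lit 156) (nat_lit 76) (nat_lit 0) (XT.nd (nat_lit 78) (nat_lit 152) (nat_lit 0) (XT.lf (nat_lit 0) (nat_lit 11253307796) (nat_lit 152) (nat_lit 7805904253) (nat_lit 152) (nat_lit 2996360534) (nat_lit 18) (nat_lit 4) (nat_lit 20) (nat_lit 5) (nat_lit 20) (nat_lit 4) (nat_lit 317) (nat_lit 236) (nat_lit 227)) (XT.lf (nat_lit 0) (nat_lit 1837842910) (nat_lit 76) (nat_lit 1641366034) (nat_lit 152) (nat_lit 19461187761) (nat_lit 16) (nat_lit 5) (nat_lit 17) (nat_lit 5) (nat_lit 18) (nat_lit 4) (nat_lit 318) (nat_lit 236) (nat_lit 226))) (XT.nd (nat_lit 78) (nat_lit 76) (nat_lit 0) (XT.lf (nat_lit 0) (nat_lit 10179648091) (nat_lit 152) (nat_lit 8967314619) (nat_lit 0) (nat_lit 4722776766) (nat_lit 16) (nat_lit 5) (nat_lit 18) (nat_lit 4) (nat_lit 16) (nat_lit 4) (nat_lit 319) (nat_lit 236) (nat_lit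 225)) (XT.lf (nat_lit 0) (nat_lit 3484113323) (nat_lit 76) (nat_lit 13594140989) (nat_lit 76) (nat_lit 7771457166) (nat_lit 15) (nat_lit 4) (nat_lit 16) (nat_lit 5) (nat_lit 16) (nat_lit 4) (nat_lit 320) (nat_lit 236) (nat_lit 224))))) (XT.nd (nat_lit 234) (nat_lit 228) (nat_lit 0) (XT.nd (nat_lit 78) (nat_lit 152) (nat_lit 0) (XT.lf (nat_lit 0) (nat_lit 16413312269) (nat_lit 76) (nat_lit 7819583549) (nat_lit 76) (nat_lit 1648506869) (nat_lit 15) (nat_lit 4) (nat_lit 16) (nat_lit 5) (nat_lit 16) (nat_lit 4) (nat_lit 321) (nat_lit 236) (nat_lit 223)) (XT.nd (nat_lit 78) (nat_lit 0) (nat_lit 0) (XT.lf (nat_lit 0) (nat_lit 2711355441) (nat_lit 76) (nat_lit 1827676499) (nat_lit 152) (nat_lit 22428765778) (nat_lit 13) (nat_lit 5) (nat_lit 14) (nat_lit 5) (nat_lit 15) (nat_lit 4) (nat_lit 322) (nat_lit 236) (nat_lit 222)) (XT.lf (nat_lit 0) (nat_lit 10973127710) (nat_lit 152) (nat_lit 12782950332)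 (nat_lit 0) (nat_lit 4352853933) (nat_lit 13) (nat_lit 5) (nat_lit 15) (nat_lit 4) (nat_lit 13) (nat_lit 4) (nat_lit 323) (nat_lit 236) (nat_lit 221)))) (XT.nd (nat_lit 156) (nat_lit 152) (nat_lit 0) (XT.nd (nat_lit 78) (nat_lit 76) (nat_lit 0) (XT.lf (nat_lit 0) (nat_lit 17585105993) (nat_lit 152) (nat_lit 1053733661) (nat_lit 0) (nat_lit 10672643044) (nat_lit 13) (nat_lit 5) (nat_lit 15) (nat_lit 4) (nat_lit 13) (nat_lit 4) (nat_lit 324) (nat_lit 236) (nat_lit 220)) (XT.lf (nat_lit 0) (nat_lit 11195161101) (nat_lit 76) (nat_lit 13285594487) (nat_lit 76) (nat_lit 6094856135) (nat_lit 12) (nat_lit 4) (nat_lit 13) (nat_lit 5) (nat_lit 13) (nat_lit 4) (nat_lit 325) (nat_lit 236) (nat_lit 219))) (XT.nd (nat_lit 78) (nat_lit 152) (nat_lit 0) (XT.lf (nat_lit 0) (nat_lit 23801456244) (nat_lit 76) (nat_lit 7780732185) (nat_lit 76) (nat_lit 324969640) (nat_lit 12) (nat_lit 4) (nat_lit 13) (nat_lit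 5) (nat_lit 13) (nat_lit 4) (nat_lit 326) (nat_lit 236) (nat_lit 218)) (XT.lf (nat_lit 0) (nat_lit 3478777152) (nat_lit 76) (nat_lit 2032032547) (nat_lit 152) (nat_lit 27796178114) (nat_lit 10) (nat_lit 5) (nat_lit 11) (nat_lit 5) (nat_lit 12) (nat_lit 4) (nat_lit 327) (nat_lit 236) (nat_lit 217)))))) (XT.nd (nat_lit 546) (nat_lit 76) (nat_lit 0) (XT.nd (nat_lit 234) (nat_lit 152) (nat_lit 0) (XT.nd (nat_lit 78) (nat_lit 76) (nat_lit 0) (XT.lf (nat_lit 0) (nat_lit 11613541327) (nat_lit 152) (nat_lit 19267249441) (nat_lit 0) (nat_lit 3896501236) (nat_lit 10) (nat_lit 5) (nat_lit 12) (nat_lit 4) (nat_lit 10) (nat_lit 4) (nat_lit 328) (nat_lit 236) (nat_lit 216)) (XT.nd (nat_lit 78) (nat_lit 76) (nat_lit 0) (XT.lf (nat_lit 0) (nat_lit 17907695179) (nat_lit 152) (nat_lit 8448476633) (nat_lit 0) (nat_lit 9968385319) (nat_lit 10) (nat_lit 5) (nat_lit 12) (nat_lit 4) (nat_lit 10) (nat_lit 4) (nat_lit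 329) (nat_lit 236) (nat_lit 215)) (XT.lf (nat_lit 0) (nat_lit 2726605784) (nat_lit 76) (nat_lit 21688328215) (nat_lit 76) (nat_lit 13537332860) (nat_lit 9) (nat_lit 4) (nat_lit 10) (nat_lit 5) (nat_lit 10) (nat_lit 4) (nat_lit 330) (nat_lit 236) (nat_lit 214)))) (XT.nd (nat_lit 156) (nat_lit 152) (nat_lit 0) (XT.nd (nat_lit 78) (nat_lit 0) (nat_lit 0) (XT.lf (nat_lit 0) (nat_lit 14405973196) (nat_lit 76) (nat_lit 16804565232) (nat_lit 76) (nat_lit 8451964644) (nat_lit 9) (nat_lit 4) (nat_lit 10) (nat_lit 5) (nat_lit 10) (nat_lit 4) (nat_lit 331) (nat_lit 236) (nat_lit 213)) (XT.lf (nat_lit 0) (nat_lit 26449292370) (nat_lit 76) (nat_lit 11778567904) (nat_lit 76) (nat_lit 3233962333) (nat_lit 9) (nat_lit 4) (nat_lit 10) (nat_lit 5) (nat_lit 10) (nat_lit 4) (nat_lit 332) (nat_lit 236) (nat_lit 212))) (XT.nd (nat_lit 78) (nat_lit 76) (nat_lit 0) (XT.lf (nat_lit 0) (nat_lit 2087551519) (nat_lit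 152) (nat_lit 4489737875) (nat_lit 76) (nat_lit 36776606177) (nat_lit 8) (nat_lit 5) (nat_lit 10) (nat_lit 5) (nat_lit 9) (nat_lit 4) (nat_lit 333) (nat_lit 236) (nat_lit 211)) (XT.lf (nat_lit 0) (nat_lit 6450688614) (nat_lit 76) (nat_lit 1112025797) (nat_lit 152) (nat_lit 37778289580) (nat_lit 7) (nat_lit 5) (nat_lit 8) (nat_lit 5) (nat_lit 9) (nat_lit 4) (nat_lit 334) (nat_lit 236) (nat_lit 210))))) (XT.nd (nat_lit 234) (nat_lit 76) (nat_lit 0) (XT.nd (nat_lit 78) (nat_lit 0) (nat_lit 0) (XT.lf (nat_lit 0) (nat_lit 13297002829) (nat_lit 152) (nat_lit 29637307324) (nat_lit 0) (nat_lit 4493621504) (nat_lit 7) (nat_lit 5) (nat_lit 9) (nat_lit 4) (nat_lit 7) (nat_lit 4) (nat_lit 335) (nat_lit 236) (nat_lit 209)) (XT.nd (nat_lit 78) (nat_lit 0) (nat_lit 0) (XT.lf (nat_lit 0) (nat_lit 19228485929) (nat_lit 152) (nat_lit 20121686541) (nat_lit 0) (nat_lit 10271742492) (nat_lit 7) (nat_lit 5) (nat_lit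 9) (nat_lit 4) (nat_lit 7) (nat_lit 4) (nat_lit 336) (nat_lit 236) (nat_lit 208)) (XT.lf (nat_lit 0) (nat_lit 25360596819) (nat_lit 152) (nat_lit 10310107315) (nat_lit 0) (nat_lit 16257794227) (nat_lit 7) (nat_lit 5) (nat_lit 9) (nat_lit 4) (nat_lit 7) (nat_lit 4) (nat_lit 337) (nat_lit 236) (nat_lit 207)))) (XT.nd (nat_lit 156) (nat_lit 0) (nat_lit 0) (XT.nd (nat_lit 78) (nat_lit 76) (nat_lit 0) (XT.lf (nat_lit 0) (nat_lit 31707935762) (nat_lit 152) (nat_lit 179208744) (nat_lit 0) (nat_lit 22466029214) (nat_lit 7) (nat_lit 5) (nat_lit 9) (nat_lit 4) (nat_lit 7) (nat_lit 4) (nat_lit 338) (nat_lit 236) (nat_lit 206)) (XT.lf (nat_lit 0) (nat_lit 10500023639) (nat_lit 76) (nat_lit 27886524480) (nat_lit 76) (nat_lit 18512137973) (nat_lit 6) (nat_lit 4) (nat_lit 7) (nat_lit 5) (nat_lit 7) (nat_lit 4) (nat_lit 339) (nat_lit 236) (nat_lit 205))) (XT.nd (nat_lit 78) (nat_lit 0) (nat_lit 0) (XT.lf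 (nat_lit 0) (nat_lit 21558533538) (nat_lit 76) (nat_lit 23757997358) (nat_lit 76) (nat_lit 14257439463) (nat_lit 6) (nat_lit 4) (nat_lit 7) (nat_lit 5) (nat_lit 7) (nat_lit 4) (nat_lit 340) (nat_lit 236) (nat_lit 204)) (XT.lf (nat_lit 0) (nat_lit 33019084129) (nat_lit 76) (nat_lit 19493542972) (nat_lit 76) (nat_lit 9872821849) (nat_lit 6) (nat_lit 4) (nat_lit 7) (nat_lit 5) (nat_lit 7) (nat_lit 4) (nat_lit 341) (nat_lit 236) (nat_lit 203))))))) (XT.nd (nat_lit 1092) (nat_lit 0) (nat_lit 0) (XT.nd (nat_lit 546) (nat_lit 76) (nat_lit 0) (XT.nd (nat_lit 234) (nat_lit 76) (nat_lit 0) (XT.nd (nat_lit 78) (nat_lit 76) (nat_lit 0) (XT.lf (nat_lit 0) (nat_lit 44908962440) (nat_lit 76) (nat_lit 15083007859) (nat_lit 76) (nat_lit 5347845567) (nat_lit 6) (nat_lit 4) (nat_lit 7) (nat_lit 5) (nat_lit 7) (nat_lit 4) (nat_lit 342) (nat_lit 236) (nat_lit 202)) (XT.nd (nat_lit 78) (nat_lit 76) (nat_lit 0)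 (XT.lf (nat_lit 0) (nat_lit 57256477703) (nat_lit 76) (nat_lit 10515890744) (nat_lit 76) (nat_lit 671736862) (nat_lit 6) (nat_lit 4) (nat_lit 7) (nat_lit 5) (nat_lit 7) (nat_lit 4) (nat_lit 343) (nat_lit 236) (nat_lit 201)) (XT.lf (nat_lit 0) (nat_lit 4085331743) (nat_lit 152) (nat_lit 1654731956) (nat_lit 76) (nat_lit 65964443182) (nat_lit 5) (nat_lit 5) (nat_lit 7) (nat_lit 5) (nat_lit 6) (nat_lit 4) (nat_lit 344) (nat_lit 236) (nat_lit 200)))) (XT.nd (nat_lit 156) (nat_lit 0) (nat_lit 0) (XT.nd (nat_lit 78) (nat_lit 0) (nat_lit 0) (XT.lf (nat_lit 0) (nat_lit 8386195733) (nat_lit 76) (nat_lit 694104618) (nat_lit 152) (nat_lit 66047025290) (nat_lit 4) (nat_lit 5) (nat_lit 5) (nat_lit 5) (nat_lit 6) (nat_lit 4) (nat_lit 345) (nat_lit 236) (nat_lit 199)) (XT.lf (nat_lit 0) (nat_lit 14321135472) (nat_lit 152) (nat_lit 59924742058) (nat_lit 0) (nat_lit 4475538371) (nat_lit 4) (nat_lit 5) (nat_lit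 6) (nat_lit 4) (nat_lit 4) (nat_lit 4) (nat_lit 346) (nat_lit 236) (nat_lit 198))) (XT.nd (nat_lit 78) (nat_lit 0) (nat_lit 0) (XT.lf (nat_lit 0) (nat_lit 19768787155) (nat_lit 152) (nat_lit 52891959625) (nat_lit 0) (nat_lit 9836134083) (nat_lit 4) (nat_lit 5) (nat_lit 6) (nat_lit 4) (nat_lit 4) (nat_lit 4) (nat_lit 347) (nat_lit 236) (nat_lit 197)) (XT.lf (nat_lit 0) (nat_lit 25429553842) (nat_lit 152) (nat_lit 45619365730) (nat_lit 0) (nat_lit 15413990321) (nat_lit 4) (nat_lit 5) (nat_lit 6) (nat_lit 4) (nat_lit 4) (nat_lit 4) (nat_lit 348) (nat_lit 236) (nat_lit 196))))) (XT.nd (nat_lit 234) (nat_lit 76) (nat_lit 0) (XT.nd (nat_lit 78) (nat_lit 0) (nat_lit 0) (XT.lf (nat_lit 0) (nat_lit 31316913549) (nat_lit 152) (nat_lit 38089644673) (nat_lit 0) (nat_lit 21222387695) (nat_lit 4) (nat_lit 5) (nat_lit 6) (nat_lit 4) (nat_lit 4) (nat_lit 4) (nat_lit 349) (nat_lit 236) (nat_lit 195)) (XT.nd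 (nat_lit 78) (nat_lit 0) (nat_lit 0) (XT.lf (nat_lit 0) (nat_lit 37444883799) (nat_lit 152) (nat_lit 30284868548) (nat_lit 0) (nat_lit 27275155724) (nat_lit 4) (nat_lit 5) (nat_lit 6) (nat_lit 4) (nat_lit 4) (nat_lit 4) (nat_lit 350) (nat_lit 236) (nat_lit 194)) (XT.lf (nat_lit 0) (nat_lit 43828054997) (nat_lit 152) (nat_lit 22186454554) (nat_lit 0) (nat_lit 33586705759) (nat_lit 4) (nat_lit 5) (nat_lit 6) (nat_lit 4) (nat_lit 4) (nat_lit 4) (nat_lit 351) (nat_lit 236) (nat_lit 193)))) (XT.nd (nat_lit 156) (nat_lit 76) (nat_lit 0) (XT.nd (nat_lit 78) (nat_lit 0) (nat_lit 0) (XT.lf (nat_lit 0) (nat_lit 50481625170) (nat_lit 152) (nat_lit 13775120753) (nat_lit 0) (nat_lit 40172065300) (nat_lit 4) (nat_lit 5) (nat_lit 6) (nat_lit 4) (nat_lit 4) (nat_lit 4) (nat_lit 352) (nat_lit 236) (nat_lit 192)) (XT.lf (nat_lit 0) (nat_lit 57421436152) (nat_lit 152) (nat_lit 5030840160) (nat_lit 0) (nat_lit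 47046913776) (nat_lit 4) (nat_lit 5) (nat_lit 6) (nat_lit 4) (nat_lit 4) (nat_lit 4) (nat_lit 353) (nat_lit 236) (nat_lit 191))) (XT.nd (nat_lit 78) (nat_lit 0) (nat_lit 0) (XT.lf (nat_lit 0) (nat_lit 4148152334) (nat_lit 76) (nat_lit 60555733545) (nat_lit 76) (nat_lit 50119342116) (nat_lit 3) (nat_lit 4) (nat_lit 4) (nat_lit 5) (nat_lit 4) (nat_lit 4) (nat_lit 354) (nat_lit 236) (nat_lit 190)) (XT.lf (nat_lit 0) (nat_lit 13810168700) (nat_lit 76) (nat_lit 58549177936) (nat_lit 76) (nat_lit 48053863598) (nat_lit 3) (nat_lit 4) (nat_lit 4) (nat_lit 5) (nat_lit 4) (nat_lit 4) (nat_lit 355) (nat_lit 236) (nat_lit 189)))))) (XT.nd (nat_lit 546) (nat_lit 0) (nat_lit 0) (XT.nd (nat_lit 234) (nat_lit 0) (nat_lit 0) (XT.nd (nat_lit 78) (nat_lit 0) (nat_lit 0) (XT.lf (nat_lit 0) (nat_lit 23878090157) (nat_lit 76) (nat_lit 56478633590) (nat_lit 76) (nat_lit 45927202197) (nat_lit 3) (nat_lit 4) (nat_lit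 4) (nat_lit 5) (nat_lit 4) (nat_lit 4) (nat_lit 356) (nat_lit 236) (nat_lit 188)) (XT.nd (nat_lit 78) (nat_lit 0) (nat_lit 0) (XT.lf (nat_lit 0) (nat_lit 34375887944) (nat_lit 76) (nat_lit 54339170642) (nat_lit 76) (nat_lit 43734294434) (nat_lit 3) (nat_lit 4) (nat_lit 4) (nat_lit 5) (nat_lit 4) (nat_lit 4) (nat_lit 357) (nat_lit 236) (nat_lit 187)) (XT.lf (nat_lit 0) (nat_lit 45328556819) (nat_lit 76) (nat_lit 52125695131) (nat_lit 76) (nat_lit 41469919100) (nat_lit 3) (nat_lit 4) (nat_lit 4) (nat_lit 5) (nat_lit 4) (nat_lit 4) (nat_lit 358) (nat_lit 236) (nat_lit 186)))) (XT.nd (nat_lit 156) (nat_lit 0) (nat_lit 0) (XT.nd (nat_lit 78) (nat_lit 0) (nat_lit 0) (XT.lf (nat_lit 0) (nat_lit 56762174565) (nat_lit 76) (nat_lit 49832936878) (nat_lit 76) (nat_lit 39128684825) (nat_lit 3) (nat_lit 4) (nat_lit 4) (nat_lit 5) (nat_lit 4) (nat_lit 4) (nat_lit 359) (nat_lit 236) (nat_lit 185)) (XT.lf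 (nat_lit 0) (nat_lit 68703964081) (nat_lit 76) (nat_lit 47455436935) (nat_lit 76) (nat_lit 36705017241) (nat_lit 3) (nat_lit 4) (nat_lit 4) (nat_lit 5) (nat_lit 4) (nat_lit 4) (nat_lit 360) (nat_lit 236) (nat_lit 184))) (XT.nd (nat_lit 78) (nat_lit 0) (nat_lit 0) (XT.lf (nat_lit 0) (nat_lit 81182358199) (nat_lit 76) (nat_lit 44987534588) (nat_lit 76) (nat_lit 34193145712) (nat_lit 3) (nat_lit 4) (nat_lit 4) (nat_lit 5) (nat_lit 4) (nat_lit 4) (nat_lit 361) (nat_lit 236) (nat_lit 183)) (XT.lf (nat_lit 0) (nat_lit 94227067382) (nat_lit 76) (nat_lit 42423353877) (nat_lit 76) (nat_lit 31587089591) (nat_lit 3) (nat_lit 4) (nat_lit 4) (nat_lit 5) (nat_lit 4) (nat_lit 4) (nat_lit 362) (nat_lit 236) (nat_lit 182))))) (XT.nd (nat_lit 36192) (nat_lit 0) (nat_lit 2052) (XT.nd (nat_lit 78) (nat_lit 0) (nat_lit 0) (XT.lf (nat_lit 0) (nat_lit 107869150461) (nat_lit 76) (nat_lit 39756789613) (nat_lit 76)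 (nat_lit 28880643983) (nat_lit 3) (nat_lit 4) (nat_lit 4) (nat_lit 5) (nat_lit 4) (nat_lit 4) (nat_lit 363) (nat_lit 236) (nat_lit 181)) (XT.nd (nat_lit 78) (nat_lit 0) (nat_lit 0) (XT.lf (nat_lit 0) (nat_lit 122141088586) (nat_lit 76) (nat_lit 36981492831) (nat_lit 76) (nat_lit 26067364969) (nat_lit 3) (nat_lit 4) (nat_lit 4) (nat_lit 5) (nat_lit 4) (nat_lit 4) (nat_lit 364) (nat_lit 236) (nat_lit 180)) (XT.lf (nat_lit 0) (nat_lit 137076862562) (nat_lit 76) (nat_lit 34090855682) (nat_lit 76) (nat_lit 23140554266) (nat_lit 3) (nat_lit 4) (nat_lit 4) (nat_lit 5) (nat_lit 4) (nat_lit 4) (nat_lit 365) (nat_lit 236) (nat_lit 179)))) (XT.nd (nat_lit 156) (nat_lit 152) (nat_lit 0) (XT.nd (nat_lit 78) (nat_lit 152) (nat_lit 0) (XT.lf (nat_lit 0) (nat_lit 1710284980) (nat_lit 152) (nat_lit 2858555574) (nat_lit 152) (nat_lit 2858555574) (nat_lit 34) (nat_lit 4) (nat_lit 36) (nat_lit 5) (nat_lit 36)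 (nat_lit 4) (nat_lit 306) (nat_lit 237) (nat_lit 237)) (XT.lf (nat_lit 0) (nat_lit 1389487352) (nat_lit 152) (nat_lit 13314686537) (nat_lit 0) (nat_lit 650088065) (nat_lit 32) (nat_lit 5) (nat_lit 34) (nat_lit 4) (nat_lit 32) (nat_lit 4) (nat_lit 307) (nat_lit 237) (nat_lit 236))) (XT.nd (nat_lit 78) (nat_lit 152) (nat_lit 0) (XT.lf (nat_lit 0) (nat_lit 8651743102) (nat_lit 152) (nat_lit 19661539) (nat_lit 0) (nat_lit 7208154017) (nat_lit 32) (nat_lit 5) (nat_lit 34) (nat_lit 4) (nat_lit 32) (nat_lit 4) (nat_lit 308) (nat_lit 237) (nat_lit 235)) (XT.lf (nat_lit 0) (nat_lit 13776643380) (nat_lit 152) (nat_lit 2386128269) (nat_lit 152) (nat_lit 271882234) (nat_lit 30) (nat_lit 4) (nat_lit 32) (nat_lit 5) (nat_lit 32) (nat_lit 4) (nat_lit 309) (nat_lit 237) (nat_lit 234))))))))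
noncomputable def xc16 : XT := (XT.nd (nat_lit 2106) (nat_lit 304) (nat_lit 0) (XT.nd (nat_lit 1014) (nat_lit 532) (nat_lit 0) (XT.nd (nat_lit 468) (nat_lit 456) (nat_lit 0) (XT.nd (nat_lit 234) (nat_lit 304) (nat_lit 0) (XT.nd (nat_lit 78) (nat_lit 304) (nat_lit 0) (XT.lf (nat_lit 0) (nat_lit 6799196142) (nat_lit 152) (nat_lit 6092825920) (nat_lit 0) (nat_lit 4126412706) (nat_lit 28) (nat_lit 5) (nat_lit 30) (nat_lit 4) (nat_lit 28) (nat_lit 4) (nat_lit 310) (nat_lit 237) (nat_lit 233)) (XT.nd (nat_lit 78) (nat_lit 152) (nat_lit 0) (XT.lf (nat_lit 0) (nat_lit 7310903240) (nat_lit 152) (nat_lit 6793646461) (nat_lit 152) (nat_lit 3530275042) (nat_lit 26) (nat_lit 4) (nat_lit 28) (nat_lit 5) (nat_lit 28) (nat_lit 4) (nat_lit 311) (nat_lit 237) (nat_lit 232)) (XT.lf (nat_lit 0) (nat_lit 2842533979) (nat_lit 76) (nat_lit 442377421) (nat_lit 152) (nat_lit 15000401581) (nat_lit 24) (nat_lit 5)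 (nat_lit 25) (nat_lit 5) (nat_lit 26) (nat_lit 4) (nat_lit 312) (nat_lit 237) (nat_lit 231)))) (XT.nd (nat_lit 78) (nat_lit 304) (nat_lit 0) (XT.lf (nat_lit 0) (nat_lit 10310443923) (nat_lit 152) (nat_lit 2582673895) (nat_lit 0) (nat_lit 6075961518) (nat_lit 24) (nat_lit 5) (nat_lit 26) (nat_lit 4) (nat_lit 24) (nat_lit 4) (nat_lit 313) (nat_lit 237) (nat_lit 230)) (XT.nd (nat_lit 78) (nat_lit 152) (nat_lit 0) (XT.lf (nat_lit 0) (nat_lit 10740751026) (nat_lit 152) (nat_lit 6839679606) (nat_lit 152) (nat_lit 2109884477) (nat_lit 22) (nat_lit 4) (nat_lit 24) (nat_lit 5) (nat_lit 24) (nat_lit 4) (nat_lit 314) (nat_lit 237) (nat_lit 229)) (XT.lf (nat_lit 0) (nat_lit 3991275175) (nat_lit 76) (nat_lit 537196109) (nat_lit 152) (nat_lit 15922182306) (nat_lit 20) (nat_lit 5) (nat_lit 21) (nat_lit 5) (nat_lit 22) (nat_lit 4) (nat_lit 315) (nat_lit 237) (nat_lit 228))))) (XT.nd (nat_lit 234) (nat_lit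 228) (nat_lit 0) (XT.nd (nat_lit 78) (nat_lit 228) (nat_lit 0) (XT.lf (nat_lit 0) (nat_lit 11401861729) (nat_lit 152) (nat_lit 3932522374) (nat_lit 0) (nat_lit 5915662919) (nat_lit 20) (nat_lit 5) (nat_lit 22) (nat_lit 4) (nat_lit 20) (nat_lit 4) (nat_lit 316) (nat_lit 237) (nat_lit 227)) (XT.nd (nat_lit 78) (nat_lit 76) (nat_lit 0) (XT.lf (nat_lit 0) (nat_lit 9037516718) (nat_lit 152) (nat_lit 9478328075) (nat_lit 152) (nat_lit 3576721737) (nat_lit 18) (nat_lit 4) (nat_lit 20) (nat_lit 5) (nat_lit 20) (nat_lit 4) (nat_lit 317) (nat_lit 237) (nat_lit 226)) (XT.lf (nat_lit 0) (nat_lit 2799183937) (nat_lit 228) (nat_lit 614889162) (nat_lit 76) (nat_lit 19566843489) (nat_lit 17) (nat_lit 5) (nat_lit 20) (nat_lit 5) (nat_lit 18) (nat_lit 4) (nat_lit 318) (nat_lit 237) (nat_lit 225)))) (XT.nd (nat_lit 156) (nat_lit 76) (nat_lit 0) (XT.nd (nat_lit 78) (nat_lit 76) (nat_lit 0) (XT.lf (nat_lit 0)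 (nat_lit 9385317646) (nat_lit 152) (nat_lit 11622711278) (nat_lit 0) (nat_lit 2905687132) (nat_lit 16) (nat_lit 5) (nat_lit 18) (nat_lit 4) (nat_lit 16) (nat_lit 4) (nat_lit 319) (nat_lit 237) (nat_lit 224)) (XT.lf (nat_lit 0) (nat_lit 613824725) (nat_lit 76) (nat_lit 15555672857) (nat_lit 76) (nat_lit 8727649488) (nat_lit 15) (nat_lit 4) (nat_lit 16) (nat_lit 5) (nat_lit 16) (nat_lit 4) (nat_lit 320) (nat_lit 237) (nat_lit 223))) (XT.nd (nat_lit 78) (nat_lit 76) (nat_lit 0) (XT.lf (nat_lit 0) (nat_lit 13388695729) (nat_lit 76) (nat_lit 9851259564) (nat_lit 76) (nat_lit 2691433475) (nat_lit 15) (nat_lit 4) (nat_lit 16) (nat_lit 5) (nat_lit 16) (nat_lit 4) (nat_lit 321) (nat_lit 237) (nat_lit 222)) (XT.lf (nat_lit 0) (nat_lit 3409401207) (nat_lit 152) (nat_lit 554744228) (nat_lit 76) (nat_lit 23057173875) (nat_lit 14) (nat_lit 5) (nat_lit 16) (nat_lit 5) (nat_lit 15) (nat_lit 4) (nat_lit 322)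 (nat_lit 237) (nat_lit 221)))))) (XT.nd (nat_lit 546) (nat_lit 228) (nat_lit 0) (XT.nd (nat_lit 234) (nat_lit 152) (nat_lit 0) (XT.nd (nat_lit 78) (nat_lit 76) (nat_lit 0) (XT.lf (nat_lit 0) (nat_lit 9738311580) (nat_lit 152) (nat_lit 16239283231) (nat_lit 0) (nat_lit 2188036310) (nat_lit 13) (nat_lit 5) (nat_lit 15) (nat_lit 4) (nat_lit 13) (nat_lit 4) (nat_lit 323) (nat_lit 237) (nat_lit 220)) (XT.nd (nat_lit 78) (nat_lit 76) (nat_lit 0) (XT.lf (nat_lit 0) (nat_lit 16274903356) (nat_lit 152) (nat_lit 4649208344) (nat_lit 0) (nat_lit 8446352684) (nat_lit 13) (nat_lit 5) (nat_lit 15) (nat_lit 4) (nat_lit 13) (nat_lit 4) (nat_lit 324) (nat_lit 237) (nat_lit 219)) (XT.lf (nat_lit 0) (nat_lit 7392976108) (nat_lit 76) (nat_lit 15669231241) (nat_lit 76) (nat_lit 7575656376) (nat_lit 12) (nat_lit 4) (nat_lit 13) (nat_lit 5) (nat_lit 13) (nat_lit 4) (nat_lit 325) (nat_lit 237) (nat_lit 218)))) (XT.nd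 (nat_lit 156) (nat_lit 76) (nat_lit 0) (XT.nd (nat_lit 78) (nat_lit 76) (nat_lit 0) (XT.lf (nat_lit 0) (nat_lit 19870553810) (nat_lit 76) (nat_lit 10223471285) (nat_lit 76) (nat_lit 1877492427) (nat_lit 12) (nat_lit 4) (nat_lit 13) (nat_lit 5) (nat_lit 13) (nat_lit 4) (nat_lit 326) (nat_lit 237) (nat_lit 217)) (XT.lf (nat_lit 0) (nat_lit 3888167822) (nat_lit 152) (nat_lit 693382933) (nat_lit 76) (nat_lit 28793274224) (nat_lit 11) (nat_lit 5) (nat_lit 13) (nat_lit 5) (nat_lit 12) (nat_lit 4) (nat_lit 327) (nat_lit 237) (nat_lit 216))) (XT.nd (nat_lit 78) (nat_lit 0) (nat_lit 0) (XT.lf (nat_lit 0) (nat_lit 9894051547) (nat_lit 152) (nat_lit 23618493366) (nat_lit 0) (nat_lit 1335506424) (nat_lit 10) (nat_lit 5) (nat_lit 12) (nat_lit 4) (nat_lit 10) (nat_lit 4) (nat_lit 328) (nat_lit 237) (nat_lit 215)) (XT.lf (nat_lit 0) (nat_lit 16125848069) (nat_lit 152) (nat_lit 12915737597) (nat_lit 0) (nat_lit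 7355617452) (nat_lit 10) (nat_lit 5) (nat_lit 12) (nat_lit 4) (nat_lit 10) (nat_lit 4) (nat_lit 329) (nat_lit 237) (nat_lit 214))))) (XT.nd (nat_lit 234) (nat_lit 152) (nat_lit 0) (XT.nd (nat_lit 78) (nat_lit 76) (nat_lit 0) (XT.lf (nat_lit 0) (nat_lit 22547489153) (nat_lit 152) (nat_lit 1904353498) (nat_lit 0) (nat_lit 13575653303) (nat_lit 10) (nat_lit 5) (nat_lit 12) (nat_lit 4) (nat_lit 10) (nat_lit 4) (nat_lit 330) (nat_lit 237) (nat_lit 213)) (XT.nd (nat_lit 78) (nat_lit 0) (nat_lit 0) (XT.lf (nat_lit 0) (nat_lit 9629788370) (nat_lit 76) (nat_lit 19637043467) (nat_lit 76) (nat_lit 10473202633) (nat_lit 9) (nat_lit 4) (nat_lit 10) (nat_lit 5) (nat_lit 10) (nat_lit 4) (nat_lit 331) (nat_lit 237) (nat_lit 212)) (XT.lf (nat_lit 0) (nat_lit 21570893091) (nat_lit 76) (nat_lit 14658411438) (nat_lit 76) (nat_lit 5311708715) (nat_lit 9) (nat_lit 4) (nat_lit 10) (nat_lit 5) (nat_lit 10) (nat_lit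 4) (nat_lit 332) (nat_lit 237) (nat_lit 211)))) (XT.nd (nat_lit 156) (nat_lit 0) (nat_lit 0) (XT.nd (nat_lit 78) (nat_lit 152) (nat_lit 0) (XT.lf (nat_lit 0) (nat_lit 33909491498) (nat_lit 76) (nat_lit 9523322913) (nat_lit 76) (nat_lit 2466010) (nat_lit 9) (nat_lit 4) (nat_lit 10) (nat_lit 5) (nat_lit 10) (nat_lit 4) (nat_lit 333) (nat_lit 237) (nat_lit 210)) (XT.lf (nat_lit 0) (nat_lit 1218845356) (nat_lit 76) (nat_lit 4153353354) (nat_lit 152) (nat_lit 40053219350) (nat_lit 7) (nat_lit 5) (nat_lit 8) (nat_lit 5) (nat_lit 9) (nat_lit 4) (nat_lit 334) (nat_lit 237) (nat_lit 209))) (XT.nd (nat_lit 78) (nat_lit 0) (nat_lit 0) (XT.lf (nat_lit 0) (nat_lit 11028108767) (nat_lit 152) (nat_lit 35016433807) (nat_lit 0) (nat_lit 1470166046) (nat_lit 7) (nat_lit 5) (nat_lit 9) (nat_lit 4) (nat_lit 7) (nat_lit 4) (nat_lit 335) (nat_lit 237) (nat_lit 208)) (XT.lf (nat_lit 0) (nat_lit 16912788762) (nat_lit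 152) (nat_lit 25588531364) (nat_lit 0) (nat_lit 7208786887) (nat_lit 7) (nat_lit 5) (nat_lit 9) (nat_lit 4) (nat_lit 7) (nat_lit 4) (nat_lit 336) (nat_lit 237) (nat_lit 207))))))) (XT.nd (nat_lit 1092) (nat_lit 76) (nat_lit 0) (XT.nd (nat_lit 546) (nat_lit 152) (nat_lit 0) (XT.nd (nat_lit 234) (nat_lit 0) (nat_lit 0) (XT.nd (nat_lit 78) (nat_lit 76) (nat_lit 0) (XT.lf (nat_lit 0) (nat_lit 23000325266) (nat_lit 152) (nat_lit 15860493414) (nat_lit 0) (nat_lit 13157219434) (nat_lit 7) (nat_lit 5) (nat_lit 9) (nat_lit 4) (nat_lit 7) (nat_lit 4) (nat_lit 337) (nat_lit 237) (nat_lit 206)) (XT.nd (nat_lit 78) (nat_lit 76) (nat_lit 0) (XT.lf (nat_lit 0) (nat_lit 29305212412) (nat_lit 152) (nat_lit 5809157963) (nat_lit 0) (nat_lit 19329626622) (nat_lit 7) (nat_lit 5) (nat_lit 9) (nat_lit 4) (nat_lit 7) (nat_lit 4) (nat_lit 338) (nat_lit 237) (nat_lit 205)) (XT.lf (nat_lit 0) (nat_lit 4680744933) (nat_lit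 76) (nat_lit 31206711088) (nat_lit 76) (nat_lit 21104953909) (nat_lit 6) (nat_lit 4) (nat_lit 7) (nat_lit 5) (nat_lit 7) (nat_lit 4) (nat_lit 339) (nat_lit 237) (nat_lit 204)))) (XT.nd (nat_lit 156) (nat_lit 0) (nat_lit 0) (XT.nd (nat_lit 78) (nat_lit 0) (nat_lit 0) (XT.lf (nat_lit 0) (nat_lit 15665652489) (nat_lit 76) (nat_lit 27112573767) (nat_lit 76) (nat_lit 16890653360) (nat_lit 6) (nat_lit 4) (nat_lit 7) (nat_lit 5) (nat_lit 7) (nat_lit 4) (nat_lit 340) (nat_lit 237) (nat_lit 203)) (XT.lf (nat_lit 0) (nat_lit 27056105612) (nat_lit 76) (nat_lit 22880871573) (nat_lit 76) (nat_lit 12544509997) (nat_lit 6) (nat_lit 4) (nat_lit 7) (nat_lit 5) (nat_lit 7) (nat_lit 4) (nat_lit 341) (nat_lit 237) (nat_lit 202))) (XT.nd (nat_lit 78) (nat_lit 0) (nat_lit 0) (XT.lf (nat_lit 0) (nat_lit 38879224429) (nat_lit 76) (nat_lit 18501529022) (nat_lit 76) (nat_lit 8056175857) (nat_lit 6) (nat_lit 4) (nat_lit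 7) (nat_lit 5) (nat_lit 7) (nat_lit 4) (nat_lit 342) (nat_lit 237) (nat_lit 201)) (XT.lf (nat_lit 0) (nat_lit 51163159222) (nat_lit 76) (nat_lit 13964119111) (nat_lit 76) (nat_lit 3414964431) (nat_lit 6) (nat_lit 4) (nat_lit 7) (nat_lit 5) (nat_lit 7) (nat_lit 4) (nat_lit 343) (nat_lit 237) (nat_lit 200))))) (XT.nd (nat_lit 234) (nat_lit 0) (nat_lit 0) (XT.nd (nat_lit 78) (nat_lit 76) (nat_lit 0) (XT.lf (nat_lit 0) (nat_lit 1363047466) (nat_lit 152) (nat_lit 7881026906) (nat_lit 76) (nat_lit 62560345881) (nat_lit 5) (nat_lit 5) (nat_lit 7) (nat_lit 5) (nat_lit 6) (nat_lit 4) (nat_lit 344) (nat_lit 237) (nat_lit 199)) (XT.nd (nat_lit 78) (nat_lit 0) (nat_lit 0) (XT.lf (nat_lit 0) (nat_lit 1976531240) (nat_lit 76) (nat_lit 4288836019) (nat_lit 152) (nat_lit 68964658100) (nat_lit 4) (nat_lit 5) (nat_lit 5) (nat_lit 5) (nat_lit 6) (nat_lit 4) (nat_lit 345) (nat_lit 237) (nat_lit 198)) (XT.lf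 (nat_lit 0) (nat_lit 11441291057) (nat_lit 152) (nat_lit 66459829094) (nat_lit 0) (nat_lit 924949359) (nat_lit 4) (nat_lit 5) (nat_lit 6) (nat_lit 4) (nat_lit 4) (nat_lit 4) (nat_lit 346) (nat_lit 237) (nat_lit 197)))) (XT.nd (nat_lit 156) (nat_lit 0) (nat_lit 0) (XT.nd (nat_lit 78) (nat_lit 0) (nat_lit 0) (XT.lf (nat_lit 0) (nat_lit 16860031725) (nat_lit 152) (nat_lit 59481596739) (nat_lit 0) (nat_lit 6260779579) (nat_lit 4) (nat_lit 5) (nat_lit 6) (nat_lit 4) (nat_lit 4) (nat_lit 4) (nat_lit 347) (nat_lit 237) (nat_lit 196)) (XT.lf (nat_lit 0) (nat_lit 22493264113) (nat_lit 152) (nat_lit 52260955299) (nat_lit 0) (nat_lit 11815049634) (nat_lit 4) (nat_lit 5) (nat_lit 6) (nat_lit 4) (nat_lit 4) (nat_lit 4) (nat_lit 348) (nat_lit 237) (nat_lit 195))) (XT.nd (nat_lit 78) (nat_lit 0) (nat_lit 0) (XT.lf (nat_lit 0) (nat_lit 28354400677) (nat_lit 152) (nat_lit 44780712772) (nat_lit 0) (nat_lit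 17600983977) (nat_lit 4) (nat_lit 5) (nat_lit 6) (nat_lit 4) (nat_lit 4) (nat_lit 4) (nat_lit 349) (nat_lit 237) (nat_lit 194)) (XT.lf (nat_lit 0) (nat_lit 34457396505) (nat_lit 152) (nat_lit 37023059055) (nat_lit 0) (nat_lit 23632358642) (nat_lit 4) (nat_lit 5) (nat_lit 6) (nat_lit 4) (nat_lit 4) (nat_lit 4) (nat_lit 350) (nat_lit 237) (nat_lit 193)))))) (XT.nd (nat_lit 546) (nat_lit 0) (nat_lit 0) (XT.nd (nat_lit 234) (nat_lit 76) (nat_lit 0) (XT.nd (nat_lit 78) (nat_lit 0) (nat_lit 0) (XT.lf (nat_lit 0) (nat_lit 40816782540) (nat_lit 152) (nat_lit 28969523545) (nat_lit 0) (nat_lit 29923534045) (nat_lit 4) (nat_lit 5) (nat_lit 6) (nat_lit 4) (nat_lit 4) (nat_lit 4) (nat_lit 351) (nat_lit 237) (nat_lit 192)) (XT.nd (nat_lit 78) (nat_lit 0) (nat_lit 0) (XT.lf (nat_lit 0) (nat_lit 47447700176) (nat_lit 152) (nat_lit 20600931158) (nat_lit 0) (nat_lit 36489489175) (nat_lit 4) (nat_lit 5) (nat_lit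 6) (nat_lit 4) (nat_lit 4) (nat_lit 4) (nat_lit 352) (nat_lit 237) (nat_lit 191)) (XT.lf (nat_lit 0) (nat_lit 54365937314) (nat_lit 152) (nat_lit 11897356673) (nat_lit 0) (nat_lit 43345857259) (nat_lit 4) (nat_lit 5) (nat_lit 6) (nat_lit 4) (nat_lit 4) (nat_lit 4) (nat_lit 353) (nat_lit 237) (nat_lit 190)))) (XT.nd (nat_lit 156) (nat_lit 0) (nat_lit 0) (XT.nd (nat_lit 78) (nat_lit 76) (nat_lit 0) (XT.lf (nat_lit 0) (nat_lit 61587965945) (nat_lit 152) (nat_lit 2838077293) (nat_lit 0) (nat_lit 50508962983) (nat_lit 4) (nat_lit 5) (nat_lit 6) (nat_lit 4) (nat_lit 4) (nat_lit 4) (nat_lit 354) (nat_lit 237) (nat_lit 189)) (XT.lf (nat_lit 0) (nat_lit 6729799316) (nat_lit 76) (nat_lit 62465873009) (nat_lit 76) (nat_lit 51330752990) (nat_lit 3) (nat_lit 4) (nat_lit 4) (nat_lit 5) (nat_lit 4) (nat_lit 4) (nat_lit 355) (nat_lit 237) (nat_lit 188))) (XT.nd (nat_lit 78) (nat_lit 0) (nat_lit 0) (XT.lf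 (nat_lit 0) (nat_lit 16761857484) (nat_lit 76) (nat_lit 60412210914) (nat_lit 76) (nat_lit 49223646081) (nat_lit 3) (nat_lit 4) (nat_lit 4) (nat_lit 5) (nat_lit 4) (nat_lit 4) (nat_lit 356) (nat_lit 237) (nat_lit 187)) (XT.lf (nat_lit 0) (nat_lit 27225499758) (nat_lit 76) (nat_lit 58288826300) (nat_lit 76) (nat_lit 47049361644) (nat_lit 3) (nat_lit 4) (nat_lit 4) (nat_lit 5) (nat_lit 4) (nat_lit 4) (nat_lit 357) (nat_lit 237) (nat_lit 186))))) (XT.nd (nat_lit 234) (nat_lit 0) (nat_lit 0) (XT.nd (nat_lit 78) (nat_lit 0) (nat_lit 0) (XT.lf (nat_lit 0) (nat_lit 38145639573) (nat_lit 76) (nat_lit 56090663489) (nat_lit 76) (nat_lit 44802722810) (nat_lit 3) (nat_lit 4) (nat_lit 4) (nat_lit 5) (nat_lit 4) (nat_lit 4) (nat_lit 358) (nat_lit 237) (nat_lit 185)) (XT.nd (nat_lit 78) (nat_lit 0) (nat_lit 0) (XT.lf (nat_lit 0) (nat_lit 49548277262) (nat_lit 76) (nat_lit 53812488759) (nat_lit 76) (nat_lit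 42478380440) (nat_lit 3) (nat_lit 4) (nat_lit 4) (nat_lit 5) (nat_lit 4) (nat_lit 4) (nat_lit 359) (nat_lit 237) (nat_lit 184)) (XT.lf (nat_lit 0) (nat_lit 61460561962) (nat_lit 76) (nat_lit 51448877885) (nat_lit 76) (nat_lit 40070800385) (nat_lit 3) (nat_lit 4) (nat_lit 4) (nat_lit 5) (nat_lit 4) (nat_lit 4) (nat_lit 360) (nat_lit 237) (nat_lit 183)))) (XT.nd (nat_lit 156) (nat_lit 0) (nat_lit 0) (XT.nd (nat_lit 78) (nat_lit 0) (nat_lit 0) (XT.lf (nat_lit 0) (nat_lit 73910856255) (nat_lit 76) (nat_lit 48994203223) (nat_lit 76) (nat_lit 37574250312) (nat_lit 3) (nat_lit 4) (nat_lit 4) (nat_lit 5) (nat_lit 4) (nat_lit 4) (nat_lit 361) (nat_lit 237) (nat_lit 182)) (XT.lf (nat_lit 0) (nat_lit 86928803700) (nat_lit 76) (nat_lit 46442620308) (nat_lit 76) (nat_lit 34982786054) (nat_lit 3) (nat_lit 4) (nat_lit 4) (nat_lit 5) (nat_lit 4) (nat_lit 4) (nat_lit 362) (nat_lit 237) (nat_lit 181))) (XT.nd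 (nat_lit 78) (nat_lit 0) (nat_lit 0) (XT.lf (nat_lit 0) (nat_lit 100545399409) (nat_lit 76) (nat_lit 43788053944) (nat_lit 76) (nat_lit 32290237457) (nat_lit 3) (nat_lit 4) (nat_lit 4) (nat_lit 5) (nat_lit 4) (nat_lit 4) (nat_lit 363) (nat_lit 237) (nat_lit 180)) (XT.lf (nat_lit 0) (nat_lit 114793063848) (nat_lit 76) (nat_lit 41024183734) (nat_lit 76) (nat_lit 29490193693) (nat_lit 3) (nat_lit 4) (nat_lit 4) (nat_lit 5) (nat_lit 4) (nat_lit 4) (nat_lit 364) (nat_lit 237) (nat_lit 179))))))))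
noncomputable def xc17 : XT := (XT.nd (nat_lit 37986) (nat_lit 0) (nat_lit 0) (XT.nd (nat_lit 36894) (nat_lit 0) (nat_lit 532) (XT.nd (nat_lit 36348) (nat_lit 0) (nat_lit 1292) (XT.nd (nat_lit 36036) (nat_lit 0) (nat_lit 2052) (XT.nd (nat_lit 35880) (nat_lit 0) (nat_lit 2508) (XT.lf (nat_lit 0) (nat_lit 129705720029) (nat_lit 76) (nat_lit 38144429035) (nat_lit 76) (nat_lit 26575987990) (nat_lit 3) (nat_lit 4) (nat_lit 4) (nat_lit 5) (nat_lit 4) (nat_lit 4) (nat_lit 365) (nat_lit 237) (nat_lit 178)) (XT.nd (nat_lit 78) (nat_lit 228) (nat_lit 0) (XT.lf (nat_lit 0) (nat_lit 2410406929) (nat_lit 152) (nat_lit 2277427918) (nat_lit 152) (nat_lit 2277427918) (nat_lit 39) (nat_lit 4) (nat_lit 41) (nat_lit 5) (nat_lit 41) (nat_lit 4) (nat_lit 304) (nat_lit 238) (nat_lit 238)) (XT.lf (nat_lit 0) (nat_lit 2539961920) (nat_lit 228) (nat_lit 10102369404) (nat_lit 0) (nat_lit 1740301591) (nat_lit 36) (nat_lit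 5) (nat_lit 39) (nat_lit 4) (nat_lit 36) (nat_lit 4) (nat_lit 305) (nat_lit 238) (nat_lit 237)))) (XT.nd (nat_lit 156) (nat_lit 152) (nat_lit 0) (XT.nd (nat_lit 78) (nat_lit 152) (nat_lit 0) (XT.lf (nat_lit 0) (nat_lit 3198256648) (nat_lit 152) (nat_lit 6610840922) (nat_lit 152) (nat_lit 5049599327) (nat_lit 34) (nat_lit 4) (nat_lit 36) (nat_lit 5) (nat_lit 36) (nat_lit 4) (nat_lit 306) (nat_lit 238) (nat_lit 236)) (XT.lf (nat_lit 0) (nat_lit 1590376086) (nat_lit 76) (nat_lit 319443210) (nat_lit 152) (nat_lit 13452232433) (nat_lit 32) (nat_lit 5) (nat_lit 33) (nat_lit 5) (nat_lit 34) (nat_lit 4) (nat_lit 307) (nat_lit 238) (nat_lit 235))) (XT.nd (nat_lit 78) (nat_lit 152) (nat_lit 0) (XT.lf (nat_lit 0) (nat_lit 9048628990) (nat_lit 152) (nat_lit 684459602) (nat_lit 0) (nat_lit 6158013704) (nat_lit 32) (nat_lit 5) (nat_lit 34) (nat_lit 4) (nat_lit 32) (nat_lit 4) (nat_lit 308) (nat_lit 238)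 (nat_lit 234)) (XT.lf (nat_lit 0) (nat_lit 12893779715) (nat_lit 152) (nat_lit 3542747983) (nat_lit 152) (nat_lit 13411793) (nat_lit 30) (nat_lit 4) (nat_lit 32) (nat_lit 5) (nat_lit 32) (nat_lit 4) (nat_lit 309) (nat_lit 238) (nat_lit 233))))) (XT.nd (nat_lit 234) (nat_lit 304) (nat_lit 0) (XT.nd (nat_lit 78) (nat_lit 304) (nat_lit 0) (XT.lf (nat_lit 0) (nat_lit 6917635853) (nat_lit 152) (nat_lit 7219596172) (nat_lit 0) (nat_lit 2900507879) (nat_lit 28) (nat_lit 5) (nat_lit 30) (nat_lit 4) (nat_lit 28) (nat_lit 4) (nat_lit 310) (nat_lit 238) (nat_lit 232)) (XT.nd (nat_lit 78) (nat_lit 152) (nat_lit 0) (XT.lf (nat_lit 0) (nat_lit 5963636272) (nat_lit 152) (nat_lit 8136901112) (nat_lit 152) (nat_lit 3557308391) (nat_lit 26) (nat_lit 4) (nat_lit 28) (nat_lit 5) (nat_lit 28) (nat_lit 4) (nat_lit 311) (nat_lit 238) (nat_lit 231)) (XT.lf (nat_lit 0) (nat_lit 1250629825) (nat_lit 76) (nat_lit 1885283108)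 (nat_lit 152) (nat_lit 15176142801) (nat_lit 24) (nat_lit 5) (nat_lit 25) (nat_lit 5) (nat_lit 26) (nat_lit 4) (nat_lit 312) (nat_lit 238) (nat_lit 230)))) (XT.nd (nat_lit 156) (nat_lit 152) (nat_lit 0) (XT.nd (nat_lit 78) (nat_lit 152) (nat_lit 0) (XT.lf (nat_lit 0) (nat_lit 10042924569) (nat_lit 152) (nat_lit 4375163469) (nat_lit 0) (nat_lit 4581326960) (nat_lit 24) (nat_lit 5) (nat_lit 26) (nat_lit 4) (nat_lit 24) (nat_lit 4) (nat_lit 313) (nat_lit 238) (nat_lit 229)) (XT.lf (nat_lit 0) (nat_lit 8730255385) (nat_lit 152) (nat_lit 8463662356) (nat_lit 152) (nat_lit 2530338343) (nat_lit 22) (nat_lit 4) (nat_lit 24) (nat_lit 5) (nat_lit 24) (nat_lit 4) (nat_lit 314) (nat_lit 238) (nat_lit 228))) (XT.nd (nat_lit 78) (nat_lit 0) (nat_lit 0) (XT.lf (nat_lit 0) (nat_lit 1731152690) (nat_lit 76) (nat_lit 2265763538) (nat_lit 152) (nat_lit 16491411588) (nat_lit 20) (nat_lit 5) (nat_lit 21) (nat_lit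 5) (nat_lit 22) (nat_lit 4) (nat_lit 315) (nat_lit 238) (nat_lit 227)) (XT.lf (nat_lit 0) (nat_lit 10758386678) (nat_lit 152) (nat_lit 6386430942) (nat_lit 0) (nat_lit 4146292495) (nat_lit 20) (nat_lit 5) (nat_lit 22) (nat_lit 4) (nat_lit 20) (nat_lit 4) (nat_lit 316) (nat_lit 238) (nat_lit 226)))))) (XT.nd (nat_lit 546) (nat_lit 228) (nat_lit 0) (XT.nd (nat_lit 234) (nat_lit 228) (nat_lit 0) (XT.nd (nat_lit 78) (nat_lit 152) (nat_lit 0) (XT.lf (nat_lit 0) (nat_lit 6366993864) (nat_lit 152) (nat_lit 11388939514) (nat_lit 152) (nat_lit 4381219114) (nat_lit 18) (nat_lit 4) (nat_lit 20) (nat_lit 5) (nat_lit 20) (nat_lit 4) (nat_lit 317) (nat_lit 238) (nat_lit 225)) (XT.nd (nat_lit 78) (nat_lit 76) (nat_lit 0) (XT.lf (nat_lit 0) (nat_lit 1921506847) (nat_lit 228) (nat_lit 3483848373) (nat_lit 76) (nat_lit 17623073216) (nat_lit 17) (nat_lit 5) (nat_lit 20) (nat_lit 5) (nat_lit 18) (nat_lit 4)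 (nat_lit 318) (nat_lit 238) (nat_lit 224)) (XT.lf (nat_lit 0) (nat_lit 8373258282) (nat_lit 152) (nat_lit 14736586424) (nat_lit 0) (nat_lit 855440889) (nat_lit 16) (nat_lit 5) (nat_lit 18) (nat_lit 4) (nat_lit 16) (nat_lit 4) (nat_lit 319) (nat_lit 238) (nat_lit 223)))) (XT.nd (nat_lit 156) (nat_lit 152) (nat_lit 0) (XT.nd (nat_lit 78) (nat_lit 76) (nat_lit 0) (XT.lf (nat_lit 0) (nat_lit 15068837460) (nat_lit 152) (nat_lit 2663344799) (nat_lit 0) (nat_lit 7219217346) (nat_lit 16) (nat_lit 5) (nat_lit 18) (nat_lit 4) (nat_lit 16) (nat_lit 4) (nat_lit 320) (nat_lit 238) (nat_lit 222)) (XT.lf (nat_lit 0) (nat_lit 9911541428) (nat_lit 76) (nat_lit 12121467476) (nat_lit 76) (nat_lit 3955844773) (nat_lit 15) (nat_lit 4) (nat_lit 16) (nat_lit 5) (nat_lit 16) (nat_lit 4) (nat_lit 321) (nat_lit 238) (nat_lit 221))) (XT.nd (nat_lit 78) (nat_lit 76) (nat_lit 0) (XT.lf (nat_lit 0) (nat_lit 2092527722)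 (nat_lit 152) (nat_lit 4218746275) (nat_lit 76) (nat_lit 20770210906) (nat_lit 14) (nat_lit 5) (nat_lit 16) (nat_lit 5) (nat_lit 15) (nat_lit 4) (nat_lit 322) (nat_lit 238) (nat_lit 220)) (XT.lf (nat_lit 0) (nat_lit 8074039898) (nat_lit 76) (nat_lit 215241439) (nat_lit 152) (nat_lit 19940501026) (nat_lit 13) (nat_lit 5) (nat_lit 14) (nat_lit 5) (nat_lit 15) (nat_lit 4) (nat_lit 323) (nat_lit 238) (nat_lit 219))))) (XT.nd (nat_lit 234) (nat_lit 152) (nat_lit 0) (XT.nd (nat_lit 78) (nat_lit 76) (nat_lit 0) (XT.lf (nat_lit 0) (nat_lit 14752007407) (nat_lit 152) (nat_lit 8696114531) (nat_lit 0) (nat_lit 5988729606) (nat_lit 13) (nat_lit 5) (nat_lit 15) (nat_lit 4) (nat_lit 13) (nat_lit 4) (nat_lit 324) (nat_lit 238) (nat_lit 218)) (XT.nd (nat_lit 78) (nat_lit 0) (nat_lit 0) (XT.lf (nat_lit 0) (nat_lit 3136811112) (nat_lit 76) (nat_lit 18293209643) (nat_lit 76) (nat_lit 9277527848) (nat_lit 12)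 (nat_lit 4) (nat_lit 13) (nat_lit 5) (nat_lit 13) (nat_lit 4) (nat_lit 325) (nat_lit 238) (nat_lit 217)) (XT.lf (nat_lit 0) (nat_lit 15491800775) (nat_lit 76) (nat_lit 12903737636) (nat_lit 76) (nat_lit 3647671086) (nat_lit 12) (nat_lit 4) (nat_lit 13) (nat_lit 5) (nat_lit 13) (nat_lit 4) (nat_lit 326) (nat_lit 238) (nat_lit 216)))) (XT.nd (nat_lit 156) (nat_lit 0) (nat_lit 0) (XT.nd (nat_lit 78) (nat_lit 76) (nat_lit 0) (XT.lf (nat_lit 0) (nat_lit 2088746709) (nat_lit 152) (nat_lit 5244848592) (nat_lit 76) (nat_lit 26115362414) (nat_lit 11) (nat_lit 5) (nat_lit 13) (nat_lit 5) (nat_lit 12) (nat_lit 4) (nat_lit 327) (nat_lit 238) (nat_lit 215)) (XT.lf (nat_lit 0) (nat_lit 6486342025) (nat_lit 76) (nat_lit 1488723244) (nat_lit 152) (nat_lit 26950721692) (nat_lit 10) (nat_lit 5) (nat_lit 11) (nat_lit 5) (nat_lit 12) (nat_lit 4) (nat_lit 328) (nat_lit 238) (nat_lit 214))) (XT.nd (nat_lit 78)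 (nat_lit 0) (nat_lit 0) (XT.lf (nat_lit 0) (nat_lit 14133163339) (nat_lit 152) (nat_lit 17832871067) (nat_lit 0) (nat_lit 4511130463) (nat_lit 10) (nat_lit 5) (nat_lit 12) (nat_lit 4) (nat_lit 10) (nat_lit 4) (nat_lit 329) (nat_lit 238) (nat_lit 213)) (XT.lf (nat_lit 0) (nat_lit 20498244486) (nat_lit 152) (nat_lit 6926717842) (nat_lit 0) (nat_lit 10684206627) (nat_lit 10) (nat_lit 5) (nat_lit 12) (nat_lit 4) (nat_lit 10) (nat_lit 4) (nat_lit 330) (nat_lit 238) (nat_lit 212))))))) (XT.nd (nat_lit 1092) (nat_lit 228) (nat_lit 0) (XT.nd (nat_lit 546) (nat_lit 76) (nat_lit 0) (XT.nd (nat_lit 234) (nat_lit 152) (nat_lit 0) (XT.nd (nat_lit 78) (nat_lit 0) (nat_lit 0) (XT.lf (nat_lit 0) (nat_lit 4405254674) (nat_lit 76) (nat_lit 22708244476) (nat_lit 76) (nat_lit 12711344727) (nat_lit 9) (nat_lit 4) (nat_lit 10) (nat_lit 5) (nat_lit 10) (nat_lit 4) (nat_lit 331) (nat_lit 238) (nat_lit 211)) (XT.nd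 (nat_lit 78) (nat_lit 0) (nat_lit 0) (XT.lf (nat_lit 0) (nat_lit 16249012298) (nat_lit 76) (nat_lit 17774722254) (nat_lit 76) (nat_lit 7603668325) (nat_lit 9) (nat_lit 4) (nat_lit 10) (nat_lit 5) (nat_lit 10) (nat_lit 4) (nat_lit 332) (nat_lit 238) (nat_lit 210)) (XT.lf (nat_lit 0) (nat_lit 28494899183) (nat_lit 76) (nat_lit 12682595451) (nat_lit 76) (nat_lit 2345680398) (nat_lit 9) (nat_lit 4) (nat_lit 10) (nat_lit 5) (nat_lit 10) (nat_lit 4) (nat_lit 333) (nat_lit 238) (nat_lit 209)))) (XT.nd (nat_lit 156) (nat_lit 0) (nat_lit 0) (XT.nd (nat_lit 78) (nat_lit 76) (nat_lit 0) (XT.lf (nat_lit 0) (nat_lit 3015131052) (nat_lit 152) (nat_lit 4374161991) (nat_lit 76) (nat_lit 38126494239) (nat_lit 8) (nat_lit 5) (nat_lit 10) (nat_lit 5) (nat_lit 9) (nat_lit 4) (nat_lit 334) (nat_lit 238) (nat_lit 208)) (XT.lf (nat_lit 0) (nat_lit 6746356733) (nat_lit 76) (nat_lit 1820971193) (nat_lit 152) (nat_lit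 39040872307) (nat_lit 7) (nat_lit 5) (nat_lit 8) (nat_lit 5) (nat_lit 9) (nat_lit 4) (nat_lit 335) (nat_lit 238) (nat_lit 207))) (XT.nd (nat_lit 78) (nat_lit 0) (nat_lit 0) (XT.lf (nat_lit 0) (nat_lit 14389929246) (nat_lit 152) (nat_lit 31499978044) (nat_lit 0) (nat_lit 3915564166) (nat_lit 7) (nat_lit 5) (nat_lit 9) (nat_lit 4) (nat_lit 7) (nat_lit 4) (nat_lit 336) (nat_lit 238) (nat_lit 206)) (XT.lf (nat_lit 0) (nat_lit 20435013953) (nat_lit 152) (nat_lit 21851503214) (nat_lit 0) (nat_lit 9828168915) (nat_lit 7) (nat_lit 5) (nat_lit 9) (nat_lit 4) (nat_lit 7) (nat_lit 4) (nat_lit 337) (nat_lit 238) (nat_lit 205))))) (XT.nd (nat_lit 234) (nat_lit 0) (nat_lit 0) (XT.nd (nat_lit 78) (nat_lit 76) (nat_lit 0) (XT.lf (nat_lit 0) (nat_lit 26699470817) (nat_lit 152) (nat_lit 11875942163) (nat_lit 0) (nat_lit 15966454390) (nat_lit 7) (nat_lit 5) (nat_lit 9) (nat_lit 4) (nat_lit 7) (nat_lit 4) (nat_lit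 338) (nat_lit 238) (nat_lit 204)) (XT.nd (nat_lit 78) (nat_lit 76) (nat_lit 0) (XT.lf (nat_lit 0) (nat_lit 33198215212) (nat_lit 152) (nat_lit 1549543554) (nat_lit 0) (nat_lit 22345035557) (nat_lit 7) (nat_lit 5) (nat_lit 9) (nat_lit 4) (nat_lit 7) (nat_lit 4) (nat_lit 339) (nat_lit 238) (nat_lit 203)) (XT.lf (nat_lit 0) (nat_lit 9334427577) (nat_lit 76) (nat_lit 30702020989) (nat_lit 76) (nat_lit 19734400165) (nat_lit 6) (nat_lit 4) (nat_lit 7) (nat_lit 5) (nat_lit 7) (nat_lit 4) (nat_lit 340) (nat_lit 238) (nat_lit 202)))) (XT.nd (nat_lit 156) (nat_lit 0) (nat_lit 0) (XT.nd (nat_lit 78) (nat_lit 0) (nat_lit 0) (XT.lf (nat_lit 0) (nat_lit 20658121206) (nat_lit 76) (nat_lit 26501511357) (nat_lit 76) (nat_lit 15424898943) (nat_lit 6) (nat_lit 4) (nat_lit 7) (nat_lit 5) (nat_lit 7) (nat_lit 4) (nat_lit 341) (nat_lit 238) (nat_lit 201)) (XT.lf (nat_lit 0) (nat_lit 32417659552) (nat_lit 76) (nat_lit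 22151876010) (nat_lit 76) (nat_lit 10971462082) (nat_lit 6) (nat_lit 4) (nat_lit 7) (nat_lit 5) (nat_lit 7) (nat_lit 4) (nat_lit 342) (nat_lit 238) (nat_lit 200))) (XT.nd (nat_lit 78) (nat_lit 0) (nat_lit 0) (XT.lf (nat_lit 0) (nat_lit 44641041517) (nat_lit 76) (nat_lit 17642758672) (nat_lit 76) (nat_lit 6363486159) (nat_lit 6) (nat_lit 4) (nat_lit 7) (nat_lit 5) (nat_lit 7) (nat_lit 4) (nat_lit 343) (nat_lit 238) (nat_lit 199)) (XT.lf (nat_lit 0) (nat_lit 57357370389) (nat_lit 76) (nat_lit 12963423350) (nat_lit 76) (nat_lit 1589999805) (nat_lit 6) (nat_lit 4) (nat_lit 7) (nat_lit 5) (nat_lit 7) (nat_lit 4) (nat_lit 344) (nat_lit 238) (nat_lit 198)))))) (XT.nd (nat_lit 546) (nat_lit 76) (nat_lit 0) (XT.nd (nat_lit 234) (nat_lit 0) (nat_lit 0) (XT.nd (nat_lit 78) (nat_lit 76) (nat_lit 0) (XT.lf (nat_lit 0) (nat_lit 3294789651) (nat_lit 152) (nat_lit 4774668204) (nat_lit 76) (nat_lit 67268862577)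 (nat_lit 5) (nat_lit 5) (nat_lit 7) (nat_lit 5) (nat_lit 6) (nat_lit 4) (nat_lit 345) (nat_lit 238) (nat_lit 197)) (XT.nd (nat_lit 78) (nat_lit 0) (nat_lit 0) (XT.lf (nat_lit 0) (nat_lit 5475429298) (nat_lit 76) (nat_lit 2910737330) (nat_lit 152) (nat_lit 70550740600) (nat_lit 4) (nat_lit 5) (nat_lit 5) (nat_lit 5) (nat_lit 6) (nat_lit 4) (nat_lit 346) (nat_lit 238) (nat_lit 196)) (XT.lf (nat_lit 0) (nat_lit 13749393210) (nat_lit 152) (nat_lit 66507218243) (nat_lit 0) (nat_lit 2458305675) (nat_lit 4) (nat_lit 5) (nat_lit 6) (nat_lit 4) (nat_lit 4) (nat_lit 4) (nat_lit 347) (nat_lit 238) (nat_lit 195)))) (XT.nd (nat_lit 156) (nat_lit 0) (nat_lit 0) (XT.nd (nat_lit 78) (nat_lit 0) (nat_lit 0) (XT.lf (nat_lit 0) (nat_lit 19356402454) (nat_lit 152) (nat_lit 59336055332) (nat_lit 0) (nat_lit 7990112698) (nat_lit 4) (nat_lit 5) (nat_lit 6) (nat_lit 4) (nat_lit 4) (nat_lit 4) (nat_lit 348) (nat_lit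 238) (nat_lit 194)) (XT.lf (nat_lit 0) (nat_lit 25192564597) (nat_lit 152) (nat_lit 51902935213) (nat_lit 0) (nat_lit 13754653677) (nat_lit 4) (nat_lit 5) (nat_lit 6) (nat_lit 4) (nat_lit 4) (nat_lit 4) (nat_lit 349) (nat_lit 238) (nat_lit 193))) (XT.nd (nat_lit 78) (nat_lit 0) (nat_lit 0) (XT.lf (nat_lit 0) (nat_lit 31271775262) (nat_lit 152) (nat_lit 44190159980) (nat_lit 0) (nat_lit 19765653711) (nat_lit 4) (nat_lit 5) (nat_lit 6) (nat_lit 4) (nat_lit 4) (nat_lit 4) (nat_lit 350) (nat_lit 238) (nat_lit 192)) (XT.lf (nat_lit 0) (nat_lit 37608508760) (nat_lit 152) (nat_lit 36179365884) (nat_lit 0) (nat_lit 26037424703) (nat_lit 4) (nat_lit 5) (nat_lit 6) (nat_lit 4) (nat_lit 4) (nat_lit 4) (nat_lit 351) (nat_lit 238) (nat_lit 191))))) (XT.nd (nat_lit 234) (nat_lit 76) (nat_lit 0) (XT.nd (nat_lit 78) (nat_lit 0) (nat_lit 0) (XT.lf (nat_lit 0) (nat_lit 44217852552) (nat_lit 152) (nat_lit 27851479605)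 (nat_lit 0) (nat_lit 32584899441) (nat_lit 4) (nat_lit 5) (nat_lit 6) (nat_lit 4) (nat_lit 4) (nat_lit 4) (nat_lit 352) (nat_lit 238) (nat_lit 190)) (XT.nd (nat_lit 78) (nat_lit 0) (nat_lit 0) (XT.lf (nat_lit 0) (nat_lit 51115543171) (nat_lit 152) (nat_lit 19186672842) (nat_lit 0) (nat_lit 39423667152) (nat_lit 4) (nat_lit 5) (nat_lit 6) (nat_lit 4) (nat_lit 4) (nat_lit 4) (nat_lit 353) (nat_lit 238) (nat_lit 189)) (XT.lf (nat_lit 0) (nat_lit 58318003690) (nat_lit 152) (nat_lit 10164315102) (nat_lit 0) (nat_lit 46570010616) (nat_lit 4) (nat_lit 5) (nat_lit 6) (nat_lit 4) (nat_lit 4) (nat_lit 4) (nat_lit 354) (nat_lit 238) (nat_lit 188)))) (XT.nd (nat_lit 156) (nat_lit 0) (nat_lit 0) (XT.nd (nat_lit 78) (nat_lit 76) (nat_lit 0) (XT.lf (nat_lit 0) (nat_lit 65842382824) (nat_lit 152) (nat_lit 762924583) (nat_lit 0) (nat_lit 54040944935) (nat_lit 4) (nat_lit 5) (nat_lit 6) (nat_lit 4) (nat_lit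 4) (nat_lit 4) (nat_lit 355) (nat_lit 238) (nat_lit 187)) (XT.lf (nat_lit 0) (nat_lit 9219794376) (nat_lit 76) (nat_lit 64575427690) (nat_lit 76) (nat_lit 52723089977) (nat_lit 3) (nat_lit 4) (nat_lit 4) (nat_lit 5) (nat_lit 4) (nat_lit 4) (nat_lit 356) (nat_lit 238) (nat_lit 186))) (XT.nd (nat_lit 78) (nat_lit 0) (nat_lit 0) (XT.lf (nat_lit 0) (nat_lit 19650907590) (nat_lit 76) (nat_lit 62467355775) (nat_lit 76) (nat_lit 50566542040) (nat_lit 3) (nat_lit 4) (nat_lit 4) (nat_lit 5) (nat_lit 4) (nat_lit 4) (nat_lit 357) (nat_lit 238) (nat_lit 185)) (XT.lf (nat_lit 0) (nat_lit 30540067348) (nat_lit 76) (nat_lit 60283776486) (nat_lit 76) (nat_lit 48336795111) (nat_lit 3) (nat_lit 4) (nat_lit 4) (nat_lit 5) (nat_lit 4) (nat_lit 4) (nat_lit 358) (nat_lit 238) (nat_lit 184))))))))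
noncomputable def xc18 : XT := (XT.nd (nat_lit 37752) (nat_lit 0) (nat_lit 76) (XT.nd (nat_lit 36660) (nat_lit 0) (nat_lit 912) (XT.nd (nat_lit 468) (nat_lit 0) (nat_lit 0) (XT.nd (nat_lit 234) (nat_lit 0) (nat_lit 0) (XT.nd (nat_lit 78) (nat_lit 0) (nat_lit 0) (XT.lf (nat_lit 0) (nat_lit 41913200220) (nat_lit 76) (nat_lit 58019490826) (nat_lit 76) (nat_lit 46028540269) (nat_lit 3) (nat_lit 4) (nat_lit 4) (nat_lit 5) (nat_lit 4) (nat_lit 4) (nat_lit 359) (nat_lit 238) (nat_lit 183)) (XT.nd (nat_lit 78) (nat_lit 0) (nat_lit 0) (XT.lf (nat_lit 0) (nat_lit 53797385095) (nat_lit 76) (nat_lit 55669107638) (nat_lit 76) (nat_lit 43636281670) (nat_lit 3) (nat_lit 4) (nat_lit 4) (nat_lit 5) (nat_lit 4) (nat_lit 4) (nat_lit 360) (nat_lit 238) (nat_lit 182)) (XT.lf (nat_lit 0) (nat_lit 66220917650) (nat_lit 76) (nat_lit 53227030771) (nat_lit 76) (nat_lit 41154323460) (nat_lit 3) (nat_lit 4) (nat_lit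 4) (nat_lit 5) (nat_lit 4) (nat_lit 4) (nat_lit 361) (nat_lit 238) (nat_lit 181)))) (XT.nd (nat_lit 78) (nat_lit 0) (nat_lit 0) (XT.lf (nat_lit 0) (nat_lit 79213377725) (nat_lit 76) (nat_lit 50687445757) (nat_lit 76) (nat_lit 38576756214) (nat_lit 3) (nat_lit 4) (nat_lit 4) (nat_lit 5) (nat_lit 4) (nat_lit 4) (nat_lit 362) (nat_lit 238) (nat_lit 180)) (XT.nd (nat_lit 78) (nat_lit 0) (nat_lit 0) (XT.lf (nat_lit 0) (nat_lit 92805699749) (nat_lit 76) (nat_lit 48044305965) (nat_lit 76) (nat_lit 35897442867) (nat_lit 3) (nat_lit 4) (nat_lit 4) (nat_lit 5) (nat_lit 4) (nat_lit 4) (nat_lit 363) (nat_lit 238) (nat_lit 179)) (XT.lf (nat_lit 0) (nat_lit 107030246393) (nat_lit 76) (nat_lit 45291318204) (nat_lit 76) (nat_lit 33110004102) (nat_lit 3) (nat_lit 4) (nat_lit 4) (nat_lit 5) (nat_lit 4) (nat_lit 4) (nat_lit 364) (nat_lit 238) (nat_lit 178))))) (XT.nd (nat_lit 35880) (nat_lit 0) (nat_lit 2204)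 (XT.nd (nat_lit 35724) (nat_lit 0) (nat_lit 2888) (XT.lf (nat_lit 0) (nat_lit 121920885625) (nat_lit 76) (nat_lit 42421927742) (nat_lit 76) (nat_lit 30207803161) (nat_lit 3) (nat_lit 4) (nat_lit 4) (nat_lit 5) (nat_lit 4) (nat_lit 4) (nat_lit 365) (nat_lit 238) (nat_lit 177)) (XT.nd (nat_lit 78) (nat_lit 228) (nat_lit 0) (XT.lf (nat_lit 0) (nat_lit 2401774012) (nat_lit 152) (nat_lit 2072330119) (nat_lit 152) (nat_lit 2072330119) (nat_lit 44) (nat_lit 4) (nat_lit 46) (nat_lit 5) (nat_lit 46) (nat_lit 4) (nat_lit 302) (nat_lit 239) (nat_lit 239)) (XT.lf (nat_lit 0) (nat_lit 2893356400) (nat_lit 228) (nat_lit 8580798794) (nat_lit 0) (nat_lit 2028523754) (nat_lit 41) (nat_lit 5) (nat_lit 44) (nat_lit 4) (nat_lit 41) (nat_lit 4) (nat_lit 303) (nat_lit 239) (nat_lit 238)))) (XT.nd (nat_lit 156) (nat_lit 304) (nat_lit 0) (XT.nd (nat_lit 78) (nat_lit 228) (nat_lit 0) (XT.lf (nat_lit 0) (nat_lit 4602079026)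 (nat_lit 152) (nat_lit 5510415757) (nat_lit 152) (nat_lit 3821932972) (nat_lit 39) (nat_lit 4) (nat_lit 41) (nat_lit 5) (nat_lit 41) (nat_lit 4) (nat_lit 304) (nat_lit 239) (nat_lit 237)) (XT.lf (nat_lit 0) (nat_lit 3121086209) (nat_lit 228) (nat_lit 10549218520) (nat_lit 0) (nat_lit 720201269) (nat_lit 36) (nat_lit 5) (nat_lit 39) (nat_lit 4) (nat_lit 36) (nat_lit 4) (nat_lit 305) (nat_lit 239) (nat_lit 236))) (XT.nd (nat_lit 78) (nat_lit 152) (nat_lit 0) (XT.lf (nat_lit 0) (nat_lit 2530787394) (nat_lit 152) (nat_lit 7732916575) (nat_lit 152) (nat_lit 4606716143) (nat_lit 34) (nat_lit 4) (nat_lit 36) (nat_lit 5) (nat_lit 36) (nat_lit 4) (nat_lit 306) (nat_lit 239) (nat_lit 235)) (XT.lf (nat_lit 0) (nat_lit 685229525) (nat_lit 76) (nat_lit 1532606245) (nat_lit 152) (nat_lit 13159648669) (nat_lit 32) (nat_lit 5) (nat_lit 33) (nat_lit 5) (nat_lit 34) (nat_lit 4) (nat_lit 307) (nat_lit 239)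 (nat_lit 234)))))) (XT.nd (nat_lit 546) (nat_lit 532) (nat_lit 0) (XT.nd (nat_lit 234) (nat_lit 456) (nat_lit 0) (XT.nd (nat_lit 78) (nat_lit 304) (nat_lit 0) (XT.lf (nat_lit 0) (nat_lit 9230340587) (nat_lit 152) (nat_lit 1794214960) (nat_lit 0) (nat_lit 4885816683) (nat_lit 32) (nat_lit 5) (nat_lit 34) (nat_lit 4) (nat_lit 32) (nat_lit 4) (nat_lit 308) (nat_lit 239) (nat_lit 233)) (XT.nd (nat_lit 78) (nat_lit 76) (nat_lit 0) (XT.lf (nat_lit 0) (nat_lit 22930347) (nat_lit 228) (nat_lit 4906280922) (nat_lit 76) (nat_lit 11543695373) (nat_lit 29) (nat_lit 5) (nat_lit 32) (nat_lit 5) (nat_lit 30) (nat_lit 4) (nat_lit 309) (nat_lit 239) (nat_lit 232)) (XT.lf (nat_lit 0) (nat_lit 6817519938) (nat_lit 152) (nat_lit 8800828640) (nat_lit 0) (nat_lit 1446482835) (nat_lit 28) (nat_lit 5) (nat_lit 30) (nat_lit 4) (nat_lit 28) (nat_lit 4) (nat_lit 310) (nat_lit 239) (nat_lit 231)))) (XT.nd (nat_lit 156)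 (nat_lit 228) (nat_lit 0) (XT.nd (nat_lit 78) (nat_lit 76) (nat_lit 0) (XT.lf (nat_lit 0) (nat_lit 4162294389) (nat_lit 152) (nat_lit 9716524553) (nat_lit 152) (nat_lit 3809806739) (nat_lit 26) (nat_lit 4) (nat_lit 28) (nat_lit 5) (nat_lit 28) (nat_lit 4) (nat_lit 311) (nat_lit 239) (nat_lit 230)) (XT.lf (nat_lit 0) (nat_lit 2774233939) (nat_lit 228) (nat_lit 785195021) (nat_lit 76) (nat_lit 14786940010) (nat_lit 25) (nat_lit 5) (nat_lit 28) (nat_lit 5) (nat_lit 26) (nat_lit 4) (nat_lit 312) (nat_lit 239) (nat_lit 229))) (XT.nd (nat_lit 78) (nat_lit 152) (nat_lit 0) (XT.lf (nat_lit 0) (nat_lit 9557711028) (nat_lit 152) (nat_lit 6623764337) (nat_lit 0) (nat_lit 2855994411) (nat_lit 24) (nat_lit 5) (nat_lit 26) (nat_lit 4) (nat_lit 24) (nat_lit 4) (nat_lit 313) (nat_lit 239) (nat_lit 228)) (XT.lf (nat_lit 0) (nat_lit 6263253417) (nat_lit 152) (nat_lit 10326815095) (nat_lit 152) (nat_lit 3175835236)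 (nat_lit 22) (nat_lit 4) (nat_lit 24) (nat_lit 5) (nat_lit 24) (nat_lit 4) (nat_lit 314) (nat_lit 239) (nat_lit 227))))) (XT.nd (nat_lit 234) (nat_lit 228) (nat_lit 0) (XT.nd (nat_lit 78) (nat_lit 228) (nat_lit 0) (XT.lf (nat_lit 0) (nat_lit 3254440997) (nat_lit 228) (nat_lit 972334388) (nat_lit 76) (nat_lit 16306704740) (nat_lit 21) (nat_lit 5) (nat_lit 24) (nat_lit 5) (nat_lit 22) (nat_lit 4) (nat_lit 315) (nat_lit 239) (nat_lit 226)) (XT.nd (nat_lit 78) (nat_lit 152) (nat_lit 0) (XT.lf (nat_lit 0) (nat_lit 9896668263) (nat_lit 152) (nat_lit 9300265608) (nat_lit 0) (nat_lit 2142935626) (nat_lit 20) (nat_lit 5) (nat_lit 22) (nat_lit 4) (nat_lit 20) (nat_lit 4) (nat_lit 316) (nat_lit 239) (nat_lit 225)) (XT.lf (nat_lit 0) (nat_lit 3235380848) (nat_lit 152) (nat_lit 13542287646) (nat_lit 152) (nat_lit 5411768135) (nat_lit 18) (nat_lit 4) (nat_lit 20) (nat_lit 5) (nat_lit 20) (nat_lit 4) (nat_lit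 317) (nat_lit 239) (nat_lit 224)))) (XT.nd (nat_lit 156) (nat_lit 76) (nat_lit 0) (XT.nd (nat_lit 78) (nat_lit 76) (nat_lit 0) (XT.lf (nat_lit 0) (nat_lit 826421498) (nat_lit 228) (nat_lit 6811728510) (nat_lit 76) (nat_lit 15445425357) (nat_lit 17) (nat_lit 5) (nat_lit 20) (nat_lit 5) (nat_lit 18) (nat_lit 4) (nat_lit 318) (nat_lit 239) (nat_lit 223)) (XT.lf (nat_lit 0) (nat_lit 5693747922) (nat_lit 76) (nat_lit 1461359898) (nat_lit 152) (nat_lit 16869041632) (nat_lit 16) (nat_lit 5) (nat_lit 17) (nat_lit 5) (nat_lit 18) (nat_lit 4) (nat_lit 319) (nat_lit 239) (nat_lit 222))) (XT.nd (nat_lit 78) (nat_lit 76) (nat_lit 0) (XT.lf (nat_lit 0) (nat_lit 13757877322) (nat_lit 152) (nat_lit 6387223324) (nat_lit 0) (nat_lit 4867970893) (nat_lit 16) (nat_lit 5) (nat_lit 18) (nat_lit 4) (nat_lit 16) (nat_lit 4) (nat_lit 320) (nat_lit 239) (nat_lit 221)) (XT.lf (nat_lit 0) (nat_lit 5973570426) (nat_lit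 76) (nat_lit 14635612543) (nat_lit 76) (nat_lit 5444751266) (nat_lit 15) (nat_lit 4) (nat_lit 16) (nat_lit 5) (nat_lit 16) (nat_lit 4) (nat_lit 321) (nat_lit 239) (nat_lit 220))))))) (XT.nd (nat_lit 1092) (nat_lit 228) (nat_lit 0) (XT.nd (nat_lit 546) (nat_lit 228) (nat_lit 0) (XT.nd (nat_lit 234) (nat_lit 228) (nat_lit 0) (XT.nd (nat_lit 78) (nat_lit 76) (nat_lit 0) (XT.lf (nat_lit 0) (nat_lit 559212866) (nat_lit 152) (nat_lit 8342282823) (nat_lit 76) (nat_lit 18247723956) (nat_lit 14) (nat_lit 5) (nat_lit 16) (nat_lit 5) (nat_lit 15) (nat_lit 4) (nat_lit 322) (nat_lit 239) (nat_lit 219)) (XT.nd (nat_lit 78) (nat_lit 0) (nat_lit 0) (XT.lf (nat_lit 0) (nat_lit 3737503556) (nat_lit 76) (nat_lit 2906813397) (nat_lit 152) (nat_lit 21656569585) (nat_lit 13) (nat_lit 5) (nat_lit 14) (nat_lit 5) (nat_lit 15) (nat_lit 4) (nat_lit 323) (nat_lit 239) (nat_lit 218)) (XT.lf (nat_lit 0) (nat_lit 13012792204)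 (nat_lit 152) (nat_lit 13204087713) (nat_lit 0) (nat_lit 3293922326) (nat_lit 13) (nat_lit 5) (nat_lit 15) (nat_lit 4) (nat_lit 13) (nat_lit 4) (nat_lit 324) (nat_lit 239) (nat_lit 217)))) (XT.nd (nat_lit 156) (nat_lit 152) (nat_lit 0) (XT.nd (nat_lit 78) (nat_lit 76) (nat_lit 0) (XT.lf (nat_lit 0) (nat_lit 19595530905) (nat_lit 152) (nat_lit 1552568457) (nat_lit 0) (nat_lit 9636276272) (nat_lit 13) (nat_lit 5) (nat_lit 15) (nat_lit 4) (nat_lit 13) (nat_lit 4) (nat_lit 325) (nat_lit 239) (nat_lit 216)) (XT.lf (nat_lit 0) (nat_lit 10654771536) (nat_lit 76) (nat_lit 15827912823) (nat_lit 76) (nat_lit 5639720328) (nat_lit 12) (nat_lit 4) (nat_lit 13) (nat_lit 5) (nat_lit 13) (nat_lit 4) (nat_lit 326) (nat_lit 239) (nat_lit 215))) (XT.nd (nat_lit 78) (nat_lit 76) (nat_lit 0) (XT.lf (nat_lit 0) (nat_lit 74821888) (nat_lit 152) (nat_lit 10254340121) (nat_lit 76) (nat_lit 23201403722) (nat_lit 11)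 (nat_lit 5) (nat_lit 13) (nat_lit 5) (nat_lit 12) (nat_lit 4) (nat_lit 327) (nat_lit 239) (nat_lit 214)) (XT.lf (nat_lit 0) (nat_lit 1267958276) (nat_lit 76) (nat_lit 4585164984) (nat_lit 152) (nat_lit 29157527406) (nat_lit 10) (nat_lit 5) (nat_lit 11) (nat_lit 5) (nat_lit 12) (nat_lit 4) (nat_lit 328) (nat_lit 239) (nat_lit 213))))) (XT.nd (nat_lit 234) (nat_lit 228) (nat_lit 0) (XT.nd (nat_lit 78) (nat_lit 0) (nat_lit 0) (XT.lf (nat_lit 0) (nat_lit 11924896502) (nat_lit 152) (nat_lit 23211584504) (nat_lit 0) (nat_lit 1428151766) (nat_lit 10) (nat_lit 5) (nat_lit 12) (nat_lit 4) (nat_lit 10) (nat_lit 4) (nat_lit 329) (nat_lit 239) (nat_lit 212)) (XT.nd (nat_lit 78) (nat_lit 0) (nat_lit 0) (XT.lf (nat_lit 0) (nat_lit 18236111043) (nat_lit 152) (nat_lit 12405651159) (nat_lit 0) (nat_lit 7556504418) (nat_lit 10) (nat_lit 5) (nat_lit 12) (nat_lit 4) (nat_lit 10) (nat_lit 4) (nat_lit 330) (nat_lit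 239) (nat_lit 211)) (XT.lf (nat_lit 0) (nat_lit 24757718175) (nat_lit 152) (nat_lit 1255088532) (nat_lit 0) (nat_lit 13903957369) (nat_lit 10) (nat_lit 5) (nat_lit 12) (nat_lit 4) (nat_lit 10) (nat_lit 4) (nat_lit 331) (nat_lit 239) (nat_lit 210)))) (XT.nd (nat_lit 156) (nat_lit 152) (nat_lit 0) (XT.nd (nat_lit 78) (nat_lit 0) (nat_lit 0) (XT.lf (nat_lit 0) (nat_lit 10470978846) (nat_lit 76) (nat_lit 21134920141) (nat_lit 76) (nat_lit 10115298211) (nat_lit 9) (nat_lit 4) (nat_lit 10) (nat_lit 5) (nat_lit 10) (nat_lit 4) (nat_lit 332) (nat_lit 239) (nat_lit 209)) (XT.lf (nat_lit 0) (nat_lit 22628569044) (nat_lit 76) (nat_lit 16083709263) (nat_lit 76) (nat_lit 4906124358) (nat_lit 9) (nat_lit 4) (nat_lit 10) (nat_lit 5) (nat_lit 10) (nat_lit 4) (nat_lit 333) (nat_lit 239) (nat_lit 208))) (XT.nd (nat_lit 78) (nat_lit 76) (nat_lit 0) (XT.lf (nat_lit 0) (nat_lit 459068161) (nat_lit 152) (nat_lit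 10396117466) (nat_lit 76) (nat_lit 34757946132) (nat_lit 8) (nat_lit 5) (nat_lit 10) (nat_lit 5) (nat_lit 9) (nat_lit 4) (nat_lit 334) (nat_lit 239) (nat_lit 207)) (XT.lf (nat_lit 0) (nat_lit 521979082) (nat_lit 76) (nat_lit 5386041603) (nat_lit 152) (nat_lit 41800631825) (nat_lit 7) (nat_lit 5) (nat_lit 8) (nat_lit 5) (nat_lit 9) (nat_lit 4) (nat_lit 335) (nat_lit 239) (nat_lit 206)))))) (XT.nd (nat_lit 546) (nat_lit 152) (nat_lit 0) (XT.nd (nat_lit 234) (nat_lit 76) (nat_lit 0) (XT.nd (nat_lit 78) (nat_lit 0) (nat_lit 0) (XT.lf (nat_lit 0) (nat_lit 11653900571) (nat_lit 152) (nat_lit 37870101454) (nat_lit 0) (nat_lit 384233322) (nat_lit 7) (nat_lit 5) (nat_lit 9) (nat_lit 4) (nat_lit 7) (nat_lit 4) (nat_lit 336) (nat_lit 239) (nat_lit 205)) (XT.nd (nat_lit 78) (nat_lit 0) (nat_lit 0) (XT.lf (nat_lit 0) (nat_lit 17658554996) (nat_lit 152) (nat_lit 28297401024) (nat_lit 0) (nat_lit 6262716358)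 (nat_lit 7) (nat_lit 5) (nat_lit 9) (nat_lit 4) (nat_lit 7) (nat_lit 4) (nat_lit 337) (nat_lit 239) (nat_lit 204)) (XT.lf (nat_lit 0) (nat_lit 23884506830) (nat_lit 152) (nat_lit 18394006068) (nat_lit 0) (nat_lit 12368504964) (nat_lit 7) (nat_lit 5) (nat_lit 9) (nat_lit 4) (nat_lit 7) (nat_lit 4) (nat_lit 338) (nat_lit 239) (nat_lit 203)))) (XT.nd (nat_lit 156) (nat_lit 0) (nat_lit 0) (XT.nd (nat_lit 78) (nat_lit 76) (nat_lit 0) (XT.lf (nat_lit 0) (nat_lit 30346579767) (nat_lit 152) (nat_lit 8136337074) (nat_lit 0) (nat_lit 18716136732) (nat_lit 7) (nat_lit 5) (nat_lit 9) (nat_lit 4) (nat_lit 7) (nat_lit 4) (nat_lit 339) (nat_lit 239) (nat_lit 202)) (XT.lf (nat_lit 0) (nat_lit 2549784457) (nat_lit 76) (nat_lit 34534885326) (nat_lit 76) (nat_lit 22795450701) (nat_lit 6) (nat_lit 4) (nat_lit 7) (nat_lit 5) (nat_lit 7) (nat_lit 4) (nat_lit 340) (nat_lit 239) (nat_lit 201))) (XT.nd (nat_lit 78)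 (nat_lit 0) (nat_lit 0) (XT.lf (nat_lit 0) (nat_lit 13809897616) (nat_lit 76) (nat_lit 30364082897) (nat_lit 76) (nat_lit 18520846758) (nat_lit 6) (nat_lit 4) (nat_lit 7) (nat_lit 5) (nat_lit 7) (nat_lit 4) (nat_lit 341) (nat_lit 239) (nat_lit 200)) (XT.lf (nat_lit 0) (nat_lit 25508883133) (nat_lit 76) (nat_lit 26042740124) (nat_lit 76) (nat_lit 14100645400) (nat_lit 6) (nat_lit 4) (nat_lit 7) (nat_lit 5) (nat_lit 7) (nat_lit 4) (nat_lit 342) (nat_lit 239) (nat_lit 199))))) (XT.nd (nat_lit 234) (nat_lit 76) (nat_lit 0) (XT.nd (nat_lit 78) (nat_lit 76) (nat_lit 0) (XT.lf (nat_lit 0) (nat_lit 37674595736) (nat_lit 76) (nat_lit 21560568095) (nat_lit 76) (nat_lit 9524322338) (nat_lit 6) (nat_lit 4) (nat_lit 7) (nat_lit 5) (nat_lit 7) (nat_lit 4) (nat_lit 343) (nat_lit 239) (nat_lit 198)) (XT.nd (nat_lit 78) (nat_lit 76) (nat_lit 0) (XT.lf (nat_lit 0) (nat_lit 50336001408) (nat_lit 76) (nat_lit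 16906894972) (nat_lit 76) (nat_lit 4780981565) (nat_lit 6) (nat_lit 4) (nat_lit 7) (nat_lit 5) (nat_lit 7) (nat_lit 4) (nat_lit 344) (nat_lit 239) (nat_lit 197)) (XT.lf (nat_lit 0) (nat_lit 137925598) (nat_lit 152) (nat_lit 11931322204) (nat_lit 76) (nat_lit 63383927975) (nat_lit 5) (nat_lit 5) (nat_lit 7) (nat_lit 5) (nat_lit 6) (nat_lit 4) (nat_lit 345) (nat_lit 239) (nat_lit 196)))) (XT.nd (nat_lit 156) (nat_lit 0) (nat_lit 0) (XT.nd (nat_lit 78) (nat_lit 76) (nat_lit 0) (XT.lf (nat_lit 0) (nat_lit 5149860028) (nat_lit 152) (nat_lit 1838426513) (nat_lit 76) (nat_lit 72065865253) (nat_lit 5) (nat_lit 5) (nat_lit 7) (nat_lit 5) (nat_lit 6) (nat_lit 4) (nat_lit 346) (nat_lit 239) (nat_lit 195)) (XT.lf (nat_lit 0) (nat_lit 8833165840) (nat_lit 76) (nat_lit 1611793026) (nat_lit 152) (nat_lit 72389252320) (nat_lit 4) (nat_lit 5) (nat_lit 5) (nat_lit 5) (nat_lit 6) (nat_lit 4) (nat_lit 347) (nat_lit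 239) (nat_lit 194))) (XT.nd (nat_lit 78) (nat_lit 0) (nat_lit 0) (XT.lf (nat_lit 0) (nat_lit 16011500149) (nat_lit 152) (nat_lit 66861511303) (nat_lit 0) (nat_lit 3930072520) (nat_lit 4) (nat_lit 5) (nat_lit 6) (nat_lit 4) (nat_lit 4) (nat_lit 4) (nat_lit 348) (nat_lit 239) (nat_lit 193)) (XT.lf (nat_lit 0) (nat_lit 21823877128) (nat_lit 152) (nat_lit 59473269668) (nat_lit 0) (nat_lit 9674238868) (nat_lit 4) (nat_lit 5) (nat_lit 6) (nat_lit 4) (nat_lit 4) (nat_lit 4) (nat_lit 349) (nat_lit 239) (nat_lit 192))))))))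
noncomputable def xc19 : XT := (XT.nd (nat_lit 37674) (nat_lit 0) (nat_lit 304) (XT.nd (nat_lit 1092) (nat_lit 0) (nat_lit 0) (XT.nd (nat_lit 546) (nat_lit 0) (nat_lit 0) (XT.nd (nat_lit 234) (nat_lit 76) (nat_lit 0) (XT.nd (nat_lit 78) (nat_lit 0) (nat_lit 0) (XT.lf (nat_lit 0) (nat_lit 27880435257) (nat_lit 152) (nat_lit 51803235850) (nat_lit 0) (nat_lit 15665834490) (nat_lit 4) (nat_lit 5) (nat_lit 6) (nat_lit 4) (nat_lit 4) (nat_lit 4) (nat_lit 350) (nat_lit 239) (nat_lit 191)) (XT.nd (nat_lit 78) (nat_lit 0) (nat_lit 0) (XT.lf (nat_lit 0) (nat_lit 34195594911) (nat_lit 152) (nat_lit 43833147861) (nat_lit 0) (nat_lit 21919125090) (nat_lit 4) (nat_lit 5) (nat_lit 6) (nat_lit 4) (nat_lit 4) (nat_lit 4) (nat_lit 351) (nat_lit 239) (nat_lit 190)) (XT.lf (nat_lit 0) (nat_lit 40784392184) (nat_lit 152) (nat_lit 35544029304) (nat_lit 0) (nat_lit 28448999456) (nat_lit 4) (nat_lit 5) (nat_lit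 6) (nat_lit 4) (nat_lit 4) (nat_lit 4) (nat_lit 352) (nat_lit 239) (nat_lit 189)))) (XT.nd (nat_lit 156) (nat_lit 76) (nat_lit 0) (XT.nd (nat_lit 78) (nat_lit 0) (nat_lit 0) (XT.lf (nat_lit 0) (nat_lit 47662514691) (nat_lit 152) (nat_lit 26916144181) (nat_lit 0) (nat_lit 35271004907) (nat_lit 4) (nat_lit 5) (nat_lit 6) (nat_lit 4) (nat_lit 4) (nat_lit 4) (nat_lit 353) (nat_lit 239) (nat_lit 188)) (XT.lf (nat_lit 0) (nat_lit 54846338912) (nat_lit 152) (nat_lit 17928949908) (nat_lit 0) (nat_lit 42401384313) (nat_lit 4) (nat_lit 5) (nat_lit 6) (nat_lit 4) (nat_lit 4) (nat_lit 4) (nat_lit 354) (nat_lit 239) (nat_lit 187))) (XT.nd (nat_lit 78) (nat_lit 76) (nat_lit 0) (XT.lf (nat_lit 0) (nat_lit 62352969191) (nat_lit 152) (nat_lit 8561048405) (nat_lit 0) (nat_lit 49857114769) (nat_lit 4) (nat_lit 5) (nat_lit 6) (nat_lit 4) (nat_lit 4) (nat_lit 4) (nat_lit 355) (nat_lit 239) (nat_lit 186)) (XT.lf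 (nat_lit 0) (nat_lit 1233943539) (nat_lit 76) (nat_lit 68978196337) (nat_lit 76) (nat_lit 56433865893) (nat_lit 3) (nat_lit 4) (nat_lit 4) (nat_lit 5) (nat_lit 4) (nat_lit 4) (nat_lit 356) (nat_lit 239) (nat_lit 185))))) (XT.nd (nat_lit 234) (nat_lit 0) (nat_lit 0) (XT.nd (nat_lit 78) (nat_lit 0) (nat_lit 0) (XT.lf (nat_lit 0) (nat_lit 11634076696) (nat_lit 76) (nat_lit 66884707945) (nat_lit 76) (nat_lit 54294209861) (nat_lit 3) (nat_lit 4) (nat_lit 4) (nat_lit 5) (nat_lit 4) (nat_lit 4) (nat_lit 357) (nat_lit 239) (nat_lit 184)) (XT.nd (nat_lit 78) (nat_lit 0) (nat_lit 0) (XT.lf (nat_lit 0) (nat_lit 22493731638) (nat_lit 76) (nat_lit 64715017727) (nat_lit 76) (nat_lit 52080550461) (nat_lit 3) (nat_lit 4) (nat_lit 4) (nat_lit 5) (nat_lit 4) (nat_lit 4) (nat_lit 358) (nat_lit 239) (nat_lit 183)) (XT.lf (nat_lit 0) (nat_lit 33838764685) (nat_lit 76) (nat_lit 62463959752) (nat_lit 76) (nat_lit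 49787617075) (nat_lit 3) (nat_lit 4) (nat_lit 4) (nat_lit 5) (nat_lit 4) (nat_lit 4) (nat_lit 359) (nat_lit 239) (nat_lit 182)))) (XT.nd (nat_lit 156) (nat_lit 0) (nat_lit 0) (XT.nd (nat_lit 78) (nat_lit 0) (nat_lit 0) (XT.lf (nat_lit 0) (nat_lit 45696187822) (nat_lit 76) (nat_lit 60126174359) (nat_lit 76) (nat_lit 47409950339) (nat_lit 3) (nat_lit 4) (nat_lit 4) (nat_lit 5) (nat_lit 4) (nat_lit 4) (nat_lit 360) (nat_lit 239) (nat_lit 181)) (XT.lf (nat_lit 0) (nat_lit 58094233007) (nat_lit 76) (nat_lit 57696095393) (nat_lit 76) (nat_lit 44941889140) (nat_lit 3) (nat_lit 4) (nat_lit 4) (nat_lit 5) (nat_lit 4) (nat_lit 4) (nat_lit 361) (nat_lit 239) (nat_lit 180))) (XT.nd (nat_lit 78) (nat_lit 0) (nat_lit 0) (XT.lf (nat_lit 0) (nat_lit 71062419397) (nat_lit 76) (nat_lit 55167936950) (nat_lit 76) (nat_lit 42377557144) (nat_lit 3) (nat_lit 4) (nat_lit 4) (nat_lit 5) (nat_lit 4) (nat_lit 4) (nat_lit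 362) (nat_lit 239) (nat_lit 179)) (XT.lf (nat_lit 0) (nat_lit 84631623625) (nat_lit 76) (nat_lit 52535679608) (nat_lit 76) (nat_lit 39710848797) (nat_lit 3) (nat_lit 4) (nat_lit 4) (nat_lit 5) (nat_lit 4) (nat_lit 4) (nat_lit 363) (nat_lit 239) (nat_lit 178)))))) (XT.nd (nat_lit 36036) (nat_lit 0) (nat_lit 1748) (XT.nd (nat_lit 35724) (nat_lit 0) (nat_lit 2736) (XT.nd (nat_lit 78) (nat_lit 0) (nat_lit 0) (XT.lf (nat_lit 0) (nat_lit 98834153321) (nat_lit 76) (nat_lit 49793056084) (nat_lit 76) (nat_lit 36935414794) (nat_lit 3) (nat_lit 4) (nat_lit 4) (nat_lit 5) (nat_lit 4) (nat_lit 4) (nat_lit 364) (nat_lit 239) (nat_lit 177)) (XT.nd (nat_lit 35568) (nat_lit 0) (nat_lit 3496) (XT.lf (nat_lit 0) (nat_lit 113703824031) (nat_lit 76) (nat_lit 46933536325) (nat_lit 76) (nat_lit 34044646958) (nat_lit 3) (nat_lit 4) (nat_lit 4) (nat_lit 5) (nat_lit 4) (nat_lit 4) (nat_lit 365) (nat_lit 239) (nat_lit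 176)) (XT.lf (nat_lit 0) (nat_lit 1850845979) (nat_lit 228) (nat_lit 2157850031) (nat_lit 228) (nat_lit 2157850031) (nat_lit 49) (nat_lit 4) (nat_lit 52) (nat_lit 5) (nat_lit 52) (nat_lit 4) (nat_lit 300) (nat_lit 240) (nat_lit 240)))) (XT.nd (nat_lit 156) (nat_lit 380) (nat_lit 0) (XT.nd (nat_lit 78) (nat_lit 152) (nat_lit 0) (XT.lf (nat_lit 0) (nat_lit 2630772115) (nat_lit 228) (nat_lit 8378783517) (nat_lit 0) (nat_lit 1695455609) (nat_lit 46) (nat_lit 5) (nat_lit 49) (nat_lit 4) (nat_lit 46) (nat_lit 4) (nat_lit 301) (nat_lit 240) (nat_lit 239)) (XT.lf (nat_lit 0) (nat_lit 4588460396) (nat_lit 152) (nat_lit 5167202569) (nat_lit 152) (nat_lit 3341108438) (nat_lit 44) (nat_lit 4) (nat_lit 46) (nat_lit 5) (nat_lit 46) (nat_lit 4) (nat_lit 302) (nat_lit 240) (nat_lit 238))) (XT.nd (nat_lit 78) (nat_lit 152) (nat_lit 0) (XT.lf (nat_lit 0) (nat_lit 3543325539) (nat_lit 228) (nat_lit 9020455177)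 (nat_lit 0) (nat_lit 946768476) (nat_lit 41) (nat_lit 5) (nat_lit 44) (nat_lit 4) (nat_lit 41) (nat_lit 4) (nat_lit 303) (nat_lit 240) (nat_lit 237)) (XT.lf (nat_lit 0) (nat_lit 3945353730) (nat_lit 152) (nat_lit 6690887874) (nat_lit 152) (nat_lit 3309902108) (nat_lit 39) (nat_lit 4) (nat_lit 41) (nat_lit 5) (nat_lit 41) (nat_lit 4) (nat_lit 304) (nat_lit 240) (nat_lit 236))))) (XT.nd (nat_lit 234) (nat_lit 532) (nat_lit 0) (XT.nd (nat_lit 78) (nat_lit 228) (nat_lit 0) (XT.lf (nat_lit 0) (nat_lit 2957011304) (nat_lit 152) (nat_lit 533171959) (nat_lit 228) (nat_lit 10915933894) (nat_lit 36) (nat_lit 5) (nat_lit 38) (nat_lit 5) (nat_lit 39) (nat_lit 4) (nat_lit 305) (nat_lit 240) (nat_lit 235)) (XT.nd (nat_lit 78) (nat_lit 76) (nat_lit 0) (XT.lf (nat_lit 0) (nat_lit 1416572986) (nat_lit 152) (nat_lit 9086009716) (nat_lit 152) (nat_lit 4387407113) (nat_lit 34) (nat_lit 4) (nat_lit 36) (nat_lit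 5) (nat_lit 36) (nat_lit 4) (nat_lit 306) (nat_lit 240) (nat_lit 234)) (XT.lf (nat_lit 0) (nat_lit 2314351169) (nat_lit 228) (nat_lit 658352259) (nat_lit 76) (nat_lit 12427890970) (nat_lit 33) (nat_lit 5) (nat_lit 36) (nat_lit 5) (nat_lit 34) (nat_lit 4) (nat_lit 307) (nat_lit 240) (nat_lit 233)))) (XT.nd (nat_lit 156) (nat_lit 304) (nat_lit 0) (XT.nd (nat_lit 78) (nat_lit 152) (nat_lit 0) (XT.lf (nat_lit 0) (nat_lit 9197310539) (nat_lit 152) (nat_lit 3351569886) (nat_lit 0) (nat_lit 3388533912) (nat_lit 32) (nat_lit 5) (nat_lit 34) (nat_lit 4) (nat_lit 32) (nat_lit 4) (nat_lit 308) (nat_lit 240) (nat_lit 232)) (XT.lf (nat_lit 0) (nat_lit 9792716712) (nat_lit 152) (nat_lit 6549514436) (nat_lit 152) (nat_lit 161399120) (nat_lit 30) (nat_lit 4) (nat_lit 32) (nat_lit 5) (nat_lit 32) (nat_lit 4) (nat_lit 309) (nat_lit 240) (nat_lit 231))) (XT.nd (nat_lit 78) (nat_lit 152) (nat_lit 0) (XT.lf (nat_lit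 0) (nat_lit 6257070950) (nat_lit 76) (nat_lit 243883433) (nat_lit 152) (nat_lit 10598749087) (nat_lit 28) (nat_lit 5) (nat_lit 29) (nat_lit 5) (nat_lit 30) (nat_lit 4) (nat_lit 310) (nat_lit 240) (nat_lit 230)) (XT.lf (nat_lit 0) (nat_lit 1902588680) (nat_lit 152) (nat_lit 11536277793) (nat_lit 152) (nat_lit 4288371271) (nat_lit 26) (nat_lit 4) (nat_lit 28) (nat_lit 5) (nat_lit 28) (nat_lit 4) (nat_lit 311) (nat_lit 240) (nat_lit 229))))))) (XT.nd (nat_lit 1092) (nat_lit 456) (nat_lit 0) (XT.nd (nat_lit 546) (nat_lit 380) (nat_lit 0) (XT.nd (nat_lit 234) (nat_lit 304) (nat_lit 0) (XT.nd (nat_lit 78) (nat_lit 228) (nat_lit 0) (XT.lf (nat_lit 0) (nat_lit 2207783182) (nat_lit 228) (nat_lit 3251984857) (nat_lit 76) (nat_lit 12928303252) (nat_lit 25) (nat_lit 5) (nat_lit 28) (nat_lit 5) (nat_lit 26) (nat_lit 4) (nat_lit 312) (nat_lit 240) (nat_lit 228)) (XT.nd (nat_lit 78) (nat_lit 152) (nat_lit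 0) (XT.lf (nat_lit 0) (nat_lit 8853648031) (nat_lit 152) (nat_lit 9333830311) (nat_lit 0) (nat_lit 895855937) (nat_lit 24) (nat_lit 5) (nat_lit 26) (nat_lit 4) (nat_lit 24) (nat_lit 4) (nat_lit 313) (nat_lit 240) (nat_lit 227)) (XT.lf (nat_lit 0) (nat_lit 3333871308) (nat_lit 152) (nat_lit 12433573902) (nat_lit 152) (nat_lit 4047912055) (nat_lit 22) (nat_lit 4) (nat_lit 24) (nat_lit 5) (nat_lit 24) (nat_lit 4) (nat_lit 314) (nat_lit 240) (nat_lit 226)))) (XT.nd (nat_lit 156) (nat_lit 152) (nat_lit 0) (XT.nd (nat_lit 78) (nat_lit 76) (nat_lit 0) (XT.lf (nat_lit 0) (nat_lit 2310873529) (nat_lit 228) (nat_lit 4102083585) (nat_lit 76) (nat_lit 14172913034) (nat_lit 21) (nat_lit 5) (nat_lit 24) (nat_lit 5) (nat_lit 22) (nat_lit 4) (nat_lit 315) (nat_lit 240) (nat_lit 225)) (XT.lf (nat_lit 0) (nat_lit 8714475690) (nat_lit 76) (nat_lit 101151413) (nat_lit 152) (nat_lit 12580784989) (nat_lit 20)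 (nat_lit 5) (nat_lit 21) (nat_lit 5) (nat_lit 22) (nat_lit 4) (nat_lit 316) (nat_lit 240) (nat_lit 224))) (XT.nd (nat_lit 78) (nat_lit 152) (nat_lit 0) (XT.lf (nat_lit 0) (nat_lit 15582227413) (nat_lit 152) (nat_lit 357660408) (nat_lit 0) (nat_lit 6309550411) (nat_lit 20) (nat_lit 5) (nat_lit 22) (nat_lit 4) (nat_lit 20) (nat_lit 4) (nat_lit 317) (nat_lit 240) (nat_lit 223)) (XT.lf (nat_lit 0) (nat_lit 12535100875) (nat_lit 152) (nat_lit 10112838938) (nat_lit 152) (nat_lit 498405135) (nat_lit 18) (nat_lit 4) (nat_lit 20) (nat_lit 5) (nat_lit 20) (nat_lit 4) (nat_lit 318) (nat_lit 240) (nat_lit 222))))) (XT.nd (nat_lit 234) (nat_lit 152) (nat_lit 0) (XT.nd (nat_lit 78) (nat_lit 76) (nat_lit 0) (XT.lf (nat_lit 0) (nat_lit 1681140828) (nat_lit 76) (nat_lit 4043517939) (nat_lit 152) (nat_lit 18365888227) (nat_lit 16) (nat_lit 5) (nat_lit 17) (nat_lit 5) (nat_lit 18) (nat_lit 4) (nat_lit 319)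 (nat_lit 240) (nat_lit 221)) (XT.nd (nat_lit 78) (nat_lit 76) (nat_lit 0) (XT.lf (nat_lit 0) (nat_lit 12227595376) (nat_lit 152) (nat_lit 10578655156) (nat_lit 0) (nat_lit 2276236187) (nat_lit 16) (nat_lit 5) (nat_lit 18) (nat_lit 4) (nat_lit 16) (nat_lit 4) (nat_lit 320) (nat_lit 240) (nat_lit 220)) (XT.lf (nat_lit 0) (nat_lit 1565406604) (nat_lit 76) (nat_lit 17399680824) (nat_lit 76) (nat_lit 7161697971) (nat_lit 15) (nat_lit 4) (nat_lit 16) (nat_lit 5) (nat_lit 16) (nat_lit 4) (nat_lit 321) (nat_lit 240) (nat_lit 219)))) (XT.nd (nat_lit 156) (nat_lit 76) (nat_lit 0) (XT.nd (nat_lit 78) (nat_lit 76) (nat_lit 0) (XT.lf (nat_lit 0) (nat_lit 14277453972) (nat_lit 76) (nat_lit 11728918687) (nat_lit 76) (nat_lit 1217960915) (nat_lit 15) (nat_lit 4) (nat_lit 16) (nat_lit 5) (nat_lit 16) (nat_lit 4) (nat_lit 322) (nat_lit 240) (nat_lit 218)) (XT.lf (nat_lit 0) (nat_lit 4788350342) (nat_lit 152)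 (nat_lit 1050582689) (nat_lit 76) (nat_lit 22540514457) (nat_lit 14) (nat_lit 5) (nat_lit 16) (nat_lit 5) (nat_lit 15) (nat_lit 4) (nat_lit 323) (nat_lit 240) (nat_lit 217))) (XT.nd (nat_lit 78) (nat_lit 0) (nat_lit 0) (XT.lf (nat_lit 0) (nat_lit 11053116757) (nat_lit 152) (nat_lit 18183861158) (nat_lit 0) (nat_lit 355514637) (nat_lit 13) (nat_lit 5) (nat_lit 15) (nat_lit 4) (nat_lit 13) (nat_lit 4) (nat_lit 324) (nat_lit 240) (nat_lit 216)) (XT.lf (nat_lit 0) (nat_lit 17573834793) (nat_lit 152) (nat_lit 6646814193) (nat_lit 0) (nat_lit 6647294810) (nat_lit 13) (nat_lit 5) (nat_lit 15) (nat_lit 4) (nat_lit 13) (nat_lit 4) (nat_lit 325) (nat_lit 240) (nat_lit 215)))))) (XT.nd (nat_lit 546) (nat_lit 152) (nat_lit 0) (XT.nd (nat_lit 234) (nat_lit 152) (nat_lit 0) (XT.nd (nat_lit 78) (nat_lit 76) (nat_lit 0) (XT.lf (nat_lit 0) (nat_lit 5347949356) (nat_lit 76) (nat_lit 19002959168) (nat_lit 76)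 (nat_lit 7858383126) (nat_lit 12) (nat_lit 4) (nat_lit 13) (nat_lit 5) (nat_lit 13) (nat_lit 4) (nat_lit 326) (nat_lit 240) (nat_lit 214)) (XT.nd (nat_lit 78) (nat_lit 76) (nat_lit 0) (XT.lf (nat_lit 0) (nat_lit 17864262827) (nat_lit 76) (nat_lit 13553587555) (nat_lit 76) (nat_lit 2201358123) (nat_lit 12) (nat_lit 4) (nat_lit 13) (nat_lit 5) (nat_lit 13) (nat_lit 4) (nat_lit 327) (nat_lit 240) (nat_lit 213)) (XT.lf (nat_lit 0) (nat_lit 3552611389) (nat_lit 152) (nat_lit 4338193444) (nat_lit 76) (nat_lit 27211156534) (nat_lit 11) (nat_lit 5) (nat_lit 13) (nat_lit 5) (nat_lit 12) (nat_lit 4) (nat_lit 328) (nat_lit 240) (nat_lit 212)))) (XT.nd (nat_lit 156) (nat_lit 76) (nat_lit 0) (XT.nd (nat_lit 78) (nat_lit 0) (nat_lit 0) (XT.lf (nat_lit 0) (nat_lit 7575937786) (nat_lit 76) (nat_lit 1938485906) (nat_lit 152) (nat_lit 27144832372) (nat_lit 10) (nat_lit 5) (nat_lit 11) (nat_lit 5) (nat_lit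 12) (nat_lit 4) (nat_lit 329) (nat_lit 240) (nat_lit 211)) (XT.lf (nat_lit 0) (nat_lit 15755702791) (nat_lit 152) (nat_lit 18354198527) (nat_lit 0) (nat_lit 4185099765) (nat_lit 10) (nat_lit 5) (nat_lit 12) (nat_lit 4) (nat_lit 10) (nat_lit 4) (nat_lit 330) (nat_lit 240) (nat_lit 210))) (XT.nd (nat_lit 78) (nat_lit 76) (nat_lit 0) (XT.lf (nat_lit 0) (nat_lit 22228451323) (nat_lit 152) (nat_lit 7294538286) (nat_lit 0) (nat_lit 10491987173) (nat_lit 10) (nat_lit 5) (nat_lit 12) (nat_lit 4) (nat_lit 10) (nat_lit 4) (nat_lit 331) (nat_lit 240) (nat_lit 209)) (XT.lf (nat_lit 0) (nat_lit 4223035512) (nat_lit 76) (nat_lit 24747005569) (nat_lit 76) (nat_lit 12852578444) (nat_lit 9) (nat_lit 4) (nat_lit 10) (nat_lit 5) (nat_lit 10) (nat_lit 4) (nat_lit 332) (nat_lit 240) (nat_lit 208))))) (XT.nd (nat_lit 234) (nat_lit 76) (nat_lit 0) (XT.nd (nat_lit 78) (nat_lit 76) (nat_lit 0) (XT.lf (nat_lit 0)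 (nat_lit 16296533627) (nat_lit 76) (nat_lit 19734762240) (nat_lit 76) (nat_lit 7689894185) (nat_lit 9) (nat_lit 4) (nat_lit 10) (nat_lit 5) (nat_lit 10) (nat_lit 4) (nat_lit 333) (nat_lit 240) (nat_lit 207)) (XT.nd (nat_lit 78) (nat_lit 76) (nat_lit 0) (XT.lf (nat_lit 0) (nat_lit 28809526867) (nat_lit 76) (nat_lit 14547986243) (nat_lit 76) (nat_lit 2359841113) (nat_lit 9) (nat_lit 4) (nat_lit 10) (nat_lit 5) (nat_lit 10) (nat_lit 4) (nat_lit 334) (nat_lit 240) (nat_lit 206)) (XT.lf (nat_lit 0) (nat_lit 3088798233) (nat_lit 152) (nat_lit 6054339071) (nat_lit 76) (nat_lit 38671819032) (nat_lit 8) (nat_lit 5) (nat_lit 10) (nat_lit 5) (nat_lit 9) (nat_lit 4) (nat_lit 335) (nat_lit 240) (nat_lit 205)))) (XT.nd (nat_lit 156) (nat_lit 0) (nat_lit 0) (XT.nd (nat_lit 78) (nat_lit 0) (nat_lit 0) (XT.lf (nat_lit 0) (nat_lit 5270305967) (nat_lit 76) (nat_lit 3461153138) (nat_lit 152) (nat_lit 41286186137)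 (nat_lit 7) (nat_lit 5) (nat_lit 8) (nat_lit 5) (nat_lit 9) (nat_lit 4) (nat_lit 336) (nat_lit 240) (nat_lit 204)) (XT.lf (nat_lit 0) (nat_lit 14664337778) (nat_lit 152) (nat_lit 35213534219) (nat_lit 0) (nat_lit 2452372592) (nat_lit 7) (nat_lit 5) (nat_lit 9) (nat_lit 4) (nat_lit 7) (nat_lit 4) (nat_lit 337) (nat_lit 240) (nat_lit 203))) (XT.nd (nat_lit 78) (nat_lit 0) (nat_lit 0) (XT.lf (nat_lit 0) (nat_lit 20853618154) (nat_lit 152) (nat_lit 25378868878) (nat_lit 0) (nat_lit 8527211799) (nat_lit 7) (nat_lit 5) (nat_lit 9) (nat_lit 4) (nat_lit 7) (nat_lit 4) (nat_lit 338) (nat_lit 240) (nat_lit 202)) (XT.lf (nat_lit 0) (nat_lit 27280765894) (nat_lit 152) (nat_lit 15186656660) (nat_lit 0) (nat_lit 14845367948) (nat_lit 7) (nat_lit 5) (nat_lit 9) (nat_lit 4) (nat_lit 7) (nat_lit 4) (nat_lit 339) (nat_lit 240) (nat_lit 201))))))))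
noncomputable def xc20 : XT := (XT.nd (nat_lit 37440) (nat_lit 0) (nat_lit 760) (XT.nd (nat_lit 1014) (nat_lit 76) (nat_lit 0) (XT.nd (nat_lit 468) (nat_lit 152) (nat_lit 0) (XT.nd (nat_lit 234) (nat_lit 0) (nat_lit 0) (XT.nd (nat_lit 78) (nat_lit 76) (nat_lit 0) (XT.lf (nat_lit 0) (nat_lit 33961083729) (nat_lit 152) (nat_lit 4612630393) (nat_lit 0) (nat_lit 21421884270) (nat_lit 7) (nat_lit 5) (nat_lit 9) (nat_lit 4) (nat_lit 7) (nat_lit 4) (nat_lit 340) (nat_lit 240) (nat_lit 200)) (XT.nd (nat_lit 78) (nat_lit 0) (nat_lit 0) (XT.lf (nat_lit 0) (nat_lit 6495129547) (nat_lit 76) (nat_lit 34477782790) (nat_lit 76) (nat_lit 21839724746) (nat_lit 6) (nat_lit 4) (nat_lit 7) (nat_lit 5) (nat_lit 7) (nat_lit 4) (nat_lit 341) (nat_lit 240) (nat_lit 199)) (XT.lf (nat_lit 0) (nat_lit 18136445703) (nat_lit 76) (nat_lit 30183385326) (nat_lit 76) (nat_lit 17451176249) (nat_lit 6) (nat_lit 4) (nat_lit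 7) (nat_lit 5) (nat_lit 7) (nat_lit 4) (nat_lit 342) (nat_lit 240) (nat_lit 198)))) (XT.nd (nat_lit 78) (nat_lit 0) (nat_lit 0) (XT.lf (nat_lit 0) (nat_lit 30247235105) (nat_lit 76) (nat_lit 25726875496) (nat_lit 76) (nat_lit 12904998768) (nat_lit 6) (nat_lit 4) (nat_lit 7) (nat_lit 5) (nat_lit 7) (nat_lit 4) (nat_lit 343) (nat_lit 240) (nat_lit 197)) (XT.nd (nat_lit 78) (nat_lit 0) (nat_lit 0) (XT.lf (nat_lit 0) (nat_lit 42856332966) (nat_lit 76) (nat_lit 21097642562) (nat_lit 76) (nat_lit 8190368072) (nat_lit 6) (nat_lit 4) (nat_lit 7) (nat_lit 5) (nat_lit 7) (nat_lit 4) (nat_lit 344) (nat_lit 240) (nat_lit 196)) (XT.lf (nat_lit 0) (nat_lit 55993760948) (nat_lit 76) (nat_lit 16284664542) (nat_lit 76) (nat_lit 3296058849) (nat_lit 6) (nat_lit 4) (nat_lit 7) (nat_lit 5) (nat_lit 7) (nat_lit 4) (nat_lit 345) (nat_lit 240) (nat_lit 195))))) (XT.nd (nat_lit 234) (nat_lit 0) (nat_lit 0) (XT.nd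 (nat_lit 78) (nat_lit 76) (nat_lit 0) (XT.lf (nat_lit 0) (nat_lit 1754660825) (nat_lit 152) (nat_lit 9504102505) (nat_lit 76) (nat_lit 67918419182) (nat_lit 5) (nat_lit 5) (nat_lit 7) (nat_lit 5) (nat_lit 6) (nat_lit 4) (nat_lit 346) (nat_lit 240) (nat_lit 194)) (XT.nd (nat_lit 78) (nat_lit 0) (nat_lit 0) (XT.lf (nat_lit 0) (nat_lit 968344050) (nat_lit 76) (nat_lit 5981497244) (nat_lit 152) (nat_lit 76010403550) (nat_lit 4) (nat_lit 5) (nat_lit 5) (nat_lit 5) (nat_lit 6) (nat_lit 4) (nat_lit 347) (nat_lit 240) (nat_lit 193)) (XT.lf (nat_lit 0) (nat_lit 12072071367) (nat_lit 76) (nat_lit 382195675) (nat_lit 152) (nat_lit 74476719189) (nat_lit 4) (nat_lit 5) (nat_lit 5) (nat_lit 5) (nat_lit 6) (nat_lit 4) (nat_lit 348) (nat_lit 240) (nat_lit 192)))) (XT.nd (nat_lit 156) (nat_lit 0) (nat_lit 0) (XT.nd (nat_lit 78) (nat_lit 0) (nat_lit 0) (XT.lf (nat_lit 0) (nat_lit 18240317586) (nat_lit 152)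 (nat_lit 67509740745) (nat_lit 0) (nat_lit 5350024275) (nat_lit 4) (nat_lit 5) (nat_lit 6) (nat_lit 4) (nat_lit 4) (nat_lit 4) (nat_lit 349) (nat_lit 240) (nat_lit 191)) (XT.lf (nat_lit 0) (nat_lit 24275301870) (nat_lit 152) (nat_lit 59880413034) (nat_lit 0) (nat_lit 11323139505) (nat_lit 4) (nat_lit 5) (nat_lit 6) (nat_lit 4) (nat_lit 4) (nat_lit 4) (nat_lit 350) (nat_lit 240) (nat_lit 190))) (XT.nd (nat_lit 78) (nat_lit 0) (nat_lit 0) (XT.lf (nat_lit 0) (nat_lit 30569915006) (nat_lit 152) (nat_lit 51949092768) (nat_lit 0) (nat_lit 17558829733) (nat_lit 4) (nat_lit 5) (nat_lit 6) (nat_lit 4) (nat_lit 4) (nat_lit 4) (nat_lit 351) (nat_lit 240) (nat_lit 189)) (XT.lf (nat_lit 0) (nat_lit 37139144167) (nat_lit 152) (nat_lit 43696895850) (nat_lit 0) (nat_lit 24071941838) (nat_lit 4) (nat_lit 5) (nat_lit 6) (nat_lit 4) (nat_lit 4) (nat_lit 4) (nat_lit 352) (nat_lit 240) (nat_lit 188)))))) (XT.nd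 (nat_lit 546) (nat_lit 0) (nat_lit 0) (XT.nd (nat_lit 234) (nat_lit 76) (nat_lit 0) (XT.nd (nat_lit 78) (nat_lit 0) (nat_lit 0) (XT.lf (nat_lit 0) (nat_lit 43998630375) (nat_lit 152) (nat_lit 35104174194) (nat_lit 0) (nat_lit 30877983232) (nat_lit 4) (nat_lit 5) (nat_lit 6) (nat_lit 4) (nat_lit 4) (nat_lit 4) (nat_lit 353) (nat_lit 240) (nat_lit 187)) (XT.nd (nat_lit 78) (nat_lit 0) (nat_lit 0) (XT.lf (nat_lit 0) (nat_lit 51164705741) (nat_lit 152) (nat_lit 26150468937) (nat_lit 0) (nat_lit 37993158774) (nat_lit 4) (nat_lit 5) (nat_lit 6) (nat_lit 4) (nat_lit 4) (nat_lit 4) (nat_lit 354) (nat_lit 240) (nat_lit 186)) (XT.lf (nat_lit 0) (nat_lit 58654432348) (nat_lit 152) (nat_lit 16814461735) (nat_lit 0) (nat_lit 45434409359) (nat_lit 4) (nat_lit 5) (nat_lit 6) (nat_lit 4) (nat_lit 4) (nat_lit 4) (nat_lit 355) (nat_lit 240) (nat_lit 185)))) (XT.nd (nat_lit 156) (nat_lit 0) (nat_lit 0) (XT.nd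 (nat_lit 78) (nat_lit 76) (nat_lit 0) (XT.lf (nat_lit 0) (nat_lit 66485642880) (nat_lit 152) (nat_lit 7073923997) (nat_lit 0) (nat_lit 53219452251) (nat_lit 4) (nat_lit 5) (nat_lit 6) (nat_lit 4) (nat_lit 4) (nat_lit 4) (nat_lit 356) (nat_lit 240) (nat_lit 184)) (XT.lf (nat_lit 0) (nat_lit 3155919385) (nat_lit 76) (nat_lit 71551400317) (nat_lit 76) (nat_lit 58241240507) (nat_lit 3) (nat_lit 4) (nat_lit 4) (nat_lit 5) (nat_lit 4) (nat_lit 4) (nat_lit 357) (nat_lit 240) (nat_lit 183))) (XT.nd (nat_lit 78) (nat_lit 0) (nat_lit 0) (XT.lf (nat_lit 0) (nat_lit 13987474501) (nat_lit 76) (nat_lit 69394937784) (nat_lit 76) (nat_lit 56042902562) (nat_lit 3) (nat_lit 4) (nat_lit 4) (nat_lit 5) (nat_lit 4) (nat_lit 4) (nat_lit 358) (nat_lit 240) (nat_lit 182)) (XT.lf (nat_lit 0) (nat_lit 25305745810) (nat_lit 76) (nat_lit 67156477604) (nat_lit 76) (nat_lit 53764561039) (nat_lit 3) (nat_lit 4) (nat_lit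 4) (nat_lit 5) (nat_lit 4) (nat_lit 4) (nat_lit 359) (nat_lit 240) (nat_lit 181))))) (XT.nd (nat_lit 234) (nat_lit 0) (nat_lit 0) (XT.nd (nat_lit 78) (nat_lit 0) (nat_lit 0) (XT.lf (nat_lit 0) (nat_lit 37137681577) (nat_lit 76) (nat_lit 64830690112) (nat_lit 76) (nat_lit 51400791315) (nat_lit 3) (nat_lit 4) (nat_lit 4) (nat_lit 5) (nat_lit 4) (nat_lit 4) (nat_lit 360) (nat_lit 240) (nat_lit 180)) (XT.nd (nat_lit 78) (nat_lit 0) (nat_lit 0) (XT.lf (nat_lit 0) (nat_lit 49511453077) (nat_lit 76) (nat_lit 62412037718) (nat_lit 76) (nat_lit 48945965367) (nat_lit 3) (nat_lit 4) (nat_lit 4) (nat_lit 5) (nat_lit 4) (nat_lit 4) (nat_lit 361) (nat_lit 240) (nat_lit 179)) (XT.lf (nat_lit 0) (nat_lit 62456521671) (nat_lit 76) (nat_lit 59894761725) (nat_lit 76) (nat_lit 46394238370) (nat_lit 3) (nat_lit 4) (nat_lit 4) (nat_lit 5) (nat_lit 4) (nat_lit 4) (nat_lit 362) (nat_lit 240) (nat_lit 178)))) (XT.nd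 (nat_lit 156) (nat_lit 0) (nat_lit 0) (XT.nd (nat_lit 78) (nat_lit 0) (nat_lit 0) (XT.lf (nat_lit 0) (nat_lit 76003708951) (nat_lit 76) (nat_lit 57272868620) (nat_lit 76) (nat_lit 43739534784) (nat_lit 3) (nat_lit 4) (nat_lit 4) (nat_lit 5) (nat_lit 4) (nat_lit 4) (nat_lit 363) (nat_lit 240) (nat_lit 177)) (XT.lf (nat_lit 0) (nat_lit 90185270125) (nat_lit 76) (nat_lit 54540115799) (nat_lit 76) (nat_lit 40975533887) (nat_lit 3) (nat_lit 4) (nat_lit 4) (nat_lit 5) (nat_lit 4) (nat_lit 4) (nat_lit 364) (nat_lit 240) (nat_lit 176))) (XT.nd (nat_lit 35412) (nat_lit 0) (nat_lit 3952) (XT.lf (nat_lit 0) (nat_lit 105034970814) (nat_lit 76) (nat_lit 51689996709) (nat_lit 76) (nat_lit 38095654724) (nat_lit 3) (nat_lit 4) (nat_lit 4) (nat_lit 5) (nat_lit 4) (nat_lit 4) (nat_lit 365) (nat_lit 240) (nat_lit 175)) (XT.lf (nat_lit 0) (nat_lit 896987344) (nat_lit 228) (nat_lit 2462396325) (nat_lit 228) (nat_lit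 2462396325) (nat_lit 55) (nat_lit 4) (nat_lit 58) (nat_lit 5) (nat_lit 58) (nat_lit 4) (nat_lit 298) (nat_lit 241) (nat_lit 241))))))) (XT.nd (nat_lit 1092) (nat_lit 912) (nat_lit 0) (XT.nd (nat_lit 546) (nat_lit 836) (nat_lit 0) (XT.nd (nat_lit 234) (nat_lit 760) (nat_lit 0) (XT.nd (nat_lit 78) (nat_lit 456) (nat_lit 0) (XT.lf (nat_lit 0) (nat_lit 1903996793) (nat_lit 228) (nat_lit 9184972506) (nat_lit 0) (nat_lit 892451991) (nat_lit 52) (nat_lit 5) (nat_lit 55) (nat_lit 4) (nat_lit 52) (nat_lit 4) (nat_lit 299) (nat_lit 241) (nat_lit 240)) (XT.nd (nat_lit 78) (nat_lit 228) (nat_lit 0) (XT.lf (nat_lit 0) (nat_lit 3490328149) (nat_lit 228) (nat_lit 5410795817) (nat_lit 228) (nat_lit 3435875014) (nat_lit 49) (nat_lit 4) (nat_lit 52) (nat_lit 5) (nat_lit 52) (nat_lit 4) (nat_lit 300) (nat_lit 241) (nat_lit 239)) (XT.lf (nat_lit 0) (nat_lit 3354976234) (nat_lit 228) (nat_lit 8811109031) (nat_lit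 0) (nat_lit 546799770) (nat_lit 46) (nat_lit 5) (nat_lit 49) (nat_lit 4) (nat_lit 46) (nat_lit 4) (nat_lit 301) (nat_lit 241) (nat_lit 238)))) (XT.nd (nat_lit 156) (nat_lit 380) (nat_lit 0) (XT.nd (nat_lit 78) (nat_lit 228) (nat_lit 0) (XT.lf (nat_lit 0) (nat_lit 3942685395) (nat_lit 152) (nat_lit 6411170056) (nat_lit 152) (nat_lit 2754633950) (nat_lit 44) (nat_lit 4) (nat_lit 46) (nat_lit 5) (nat_lit 46) (nat_lit 4) (nat_lit 302) (nat_lit 241) (nat_lit 237)) (XT.lf (nat_lit 0) (nat_lit 3621914072) (nat_lit 152) (nat_lit 361539988) (nat_lit 228) (nat_lit 9542750100) (nat_lit 41) (nat_lit 5) (nat_lit 43) (nat_lit 5) (nat_lit 44) (nat_lit 4) (nat_lit 303) (nat_lit 241) (nat_lit 236))) (XT.nd (nat_lit 78) (nat_lit 228) (nat_lit 0) (XT.lf (nat_lit 0) (nat_lit 2849074339) (nat_lit 152) (nat_lit 8099082837) (nat_lit 152) (nat_lit 3017544123) (nat_lit 39) (nat_lit 4) (nat_lit 41) (nat_lit 5) (nat_lit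 41) (nat_lit 4) (nat_lit 304) (nat_lit 241) (nat_lit 235)) (XT.lf (nat_lit 0) (nat_lit 1621068022) (nat_lit 152) (nat_lit 2031201285) (nat_lit 228) (nat_lit 10777110132) (nat_lit 36) (nat_lit 5) (nat_lit 38) (nat_lit 5) (nat_lit 39) (nat_lit 4) (nat_lit 305) (nat_lit 241) (nat_lit 234))))) (XT.nd (nat_lit 234) (nat_lit 532) (nat_lit 0) (XT.nd (nat_lit 78) (nat_lit 304) (nat_lit 0) (XT.lf (nat_lit 0) (nat_lit 10527715961) (nat_lit 228) (nat_lit 144170197) (nat_lit 0) (nat_lit 4245524039) (nat_lit 36) (nat_lit 5) (nat_lit 39) (nat_lit 4) (nat_lit 36) (nat_lit 4) (nat_lit 306) (nat_lit 241) (nat_lit 233)) (XT.nd (nat_lit 78) (nat_lit 76) (nat_lit 0) (XT.lf (nat_lit 0) (nat_lit 2204083842) (nat_lit 228) (nat_lit 2434456514) (nat_lit 76) (nat_lit 10792761615) (nat_lit 33) (nat_lit 5) (nat_lit 36) (nat_lit 5) (nat_lit 34) (nat_lit 4) (nat_lit 307) (nat_lit 241) (nat_lit 232)) (XT.lf (nat_lit 0)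 (nat_lit 8949460204) (nat_lit 152) (nat_lit 5360232369) (nat_lit 0) (nat_lit 1662600433) (nat_lit 32) (nat_lit 5) (nat_lit 34) (nat_lit 4) (nat_lit 32) (nat_lit 4) (nat_lit 308) (nat_lit 241) (nat_lit 231)))) (XT.nd (nat_lit 156) (nat_lit 228) (nat_lit 0) (XT.nd (nat_lit 78) (nat_lit 152) (nat_lit 0) (XT.lf (nat_lit 0) (nat_lit 7567133891) (nat_lit 152) (nat_lit 8406820141) (nat_lit 152) (nat_lit 568209238) (nat_lit 30) (nat_lit 4) (nat_lit 32) (nat_lit 5) (nat_lit 32) (nat_lit 4) (nat_lit 309) (nat_lit 241) (nat_lit 230)) (XT.lf (nat_lit 0) (nat_lit 3778004595) (nat_lit 76) (nat_lit 2203321890) (nat_lit 152) (nat_lit 11160688385) (nat_lit 28) (nat_lit 5) (nat_lit 29) (nat_lit 5) (nat_lit 30) (nat_lit 4) (nat_lit 310) (nat_lit 241) (nat_lit 229))) (XT.nd (nat_lit 78) (nat_lit 228) (nat_lit 0) (XT.lf (nat_lit 0) (nat_lit 12787523092) (nat_lit 152) (nat_lit 804843147) (nat_lit 0) (nat_lit 4181170943)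 (nat_lit 28) (nat_lit 5) (nat_lit 30) (nat_lit 4) (nat_lit 28) (nat_lit 4) (nat_lit 311) (nat_lit 241) (nat_lit 228)) (XT.lf (nat_lit 0) (nat_lit 1423190149) (nat_lit 228) (nat_lit 6180017284) (nat_lit 76) (nat_lit 10834415208) (nat_lit 25) (nat_lit 5) (nat_lit 28) (nat_lit 5) (nat_lit 26) (nat_lit 4) (nat_lit 312) (nat_lit 241) (nat_lit 227)))))) (XT.nd (nat_lit 546) (nat_lit 304) (nat_lit 0) (XT.nd (nat_lit 234) (nat_lit 304) (nat_lit 0) (XT.nd (nat_lit 78) (nat_lit 228) (nat_lit 0) (XT.lf (nat_lit 0) (nat_lit 6612138405) (nat_lit 76) (nat_lit 1329702747) (nat_lit 152) (nat_lit 11194893098) (nat_lit 24) (nat_lit 5) (nat_lit 25) (nat_lit 5) (nat_lit 26) (nat_lit 4) (nat_lit 313) (nat_lit 241) (nat_lit 226)) (XT.nd (nat_lit 78) (nat_lit 228) (nat_lit 0) (XT.lf (nat_lit 0) (nat_lit 14724712738) (nat_lit 152) (nat_lit 63599897) (nat_lit 0) (nat_lit 5084403040) (nat_lit 24) (nat_lit 5) (nat_lit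 26) (nat_lit 4) (nat_lit 24) (nat_lit 4) (nat_lit 314) (nat_lit 241) (nat_lit 225)) (XT.lf (nat_lit 0) (nat_lit 1147326338) (nat_lit 228) (nat_lit 7699327709) (nat_lit 76) (nat_lit 11799467805) (nat_lit 21) (nat_lit 5) (nat_lit 24) (nat_lit 5) (nat_lit 22) (nat_lit 4) (nat_lit 315) (nat_lit 241) (nat_lit 224)))) (XT.nd (nat_lit 156) (nat_lit 228) (nat_lit 0) (XT.nd (nat_lit 78) (nat_lit 0) (nat_lit 0) (XT.lf (nat_lit 0) (nat_lit 4898277159) (nat_lit 76) (nat_lit 2636839745) (nat_lit 152) (nat_lit 13925082792) (nat_lit 20) (nat_lit 5) (nat_lit 21) (nat_lit 5) (nat_lit 22) (nat_lit 4) (nat_lit 316) (nat_lit 241) (nat_lit 223)) (XT.lf (nat_lit 0) (nat_lit 14198935833) (nat_lit 152) (nat_lit 4355375630) (nat_lit 0) (nat_lit 3762023538) (nat_lit 20) (nat_lit 5) (nat_lit 22) (nat_lit 4) (nat_lit 20) (nat_lit 4) (nat_lit 317) (nat_lit 241) (nat_lit 222))) (XT.nd (nat_lit 78) (nat_lit 76) (nat_lit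 0) (XT.lf (nat_lit 0) (nat_lit 8319792982) (nat_lit 152) (nat_lit 12829661998) (nat_lit 152) (nat_lit 2067267035) (nat_lit 18) (nat_lit 4) (nat_lit 20) (nat_lit 5) (nat_lit 20) (nat_lit 4) (nat_lit 318) (nat_lit 241) (nat_lit 221)) (XT.lf (nat_lit 0) (nat_lit 4097130419) (nat_lit 228) (nat_lit 2755203705) (nat_lit 76) (nat_lit 17311743432) (nat_lit 17) (nat_lit 5) (nat_lit 20) (nat_lit 5) (nat_lit 18) (nat_lit 4) (nat_lit 319) (nat_lit 241) (nat_lit 220))))) (XT.nd (nat_lit 234) (nat_lit 152) (nat_lit 0) (XT.nd (nat_lit 78) (nat_lit 76) (nat_lit 0) (XT.lf (nat_lit 0) (nat_lit 9906513839) (nat_lit 76) (nat_lit 573345604) (nat_lit 152) (nat_lit 14679785640) (nat_lit 16) (nat_lit 5) (nat_lit 17) (nat_lit 5) (nat_lit 18) (nat_lit 4) (nat_lit 320) (nat_lit 241) (nat_lit 219)) (XT.nd (nat_lit 78) (nat_lit 76) (nat_lit 0) (XT.lf (nat_lit 0) (nat_lit 17128754759) (nat_lit 152) (nat_lit 3258593272)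 (nat_lit 0) (nat_lit 5819274179) (nat_lit 16) (nat_lit 5) (nat_lit 18) (nat_lit 4) (nat_lit 16) (nat_lit 4) (nat_lit 321) (nat_lit 241) (nat_lit 218)) (XT.lf (nat_lit 0) (nat_lit 9267681719) (nat_lit 76) (nat_lit 14804451072) (nat_lit 76) (nat_lit 3234994379) (nat_lit 15) (nat_lit 4) (nat_lit 16) (nat_lit 5) (nat_lit 16) (nat_lit 4) (nat_lit 322) (nat_lit 241) (nat_lit 217)))) (XT.nd (nat_lit 156) (nat_lit 0) (nat_lit 0) (XT.nd (nat_lit 78) (nat_lit 76) (nat_lit 0) (XT.lf (nat_lit 0) (nat_lit 2747216977) (nat_lit 152) (nat_lit 6240202527) (nat_lit 76) (nat_lit 19477325128) (nat_lit 14) (nat_lit 5) (nat_lit 16) (nat_lit 5) (nat_lit 15) (nat_lit 4) (nat_lit 323) (nat_lit 241) (nat_lit 216)) (XT.lf (nat_lit 0) (nat_lit 6006212813) (nat_lit 76) (nat_lit 2889881670) (nat_lit 152) (nat_lit 20785189111) (nat_lit 13) (nat_lit 5) (nat_lit 14) (nat_lit 5) (nat_lit 15) (nat_lit 4) (nat_lit 324) (nat_lit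 241) (nat_lit 215))) (XT.nd (nat_lit 78) (nat_lit 0) (nat_lit 0) (XT.lf (nat_lit 0) (nat_lit 15329965908) (nat_lit 152) (nat_lit 12219265734) (nat_lit 0) (nat_lit 3410125005) (nat_lit 13) (nat_lit 5) (nat_lit 15) (nat_lit 4) (nat_lit 13) (nat_lit 4) (nat_lit 325) (nat_lit 241) (nat_lit 214)) (XT.lf (nat_lit 0) (nat_lit 21999377307) (nat_lit 152) (nat_lit 432689681) (nat_lit 0) (nat_lit 9871883013) (nat_lit 13) (nat_lit 5) (nat_lit 15) (nat_lit 4) (nat_lit 13) (nat_lit 4) (nat_lit 326) (nat_lit 241) (nat_lit 213))))))))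
noncomputable def xc21 : XT := (XT.nd (nat_lit 2184) (nat_lit 76) (nat_lit 0) (XT.nd (nat_lit 1092) (nat_lit 228) (nat_lit 0) (XT.nd (nat_lit 546) (nat_lit 152) (nat_lit 0) (XT.nd (nat_lit 234) (nat_lit 76) (nat_lit 0) (XT.nd (nat_lit 78) (nat_lit 152) (nat_lit 0) (XT.lf (nat_lit 0) (nat_lit 11974158933) (nat_lit 76) (nat_lit 17033372928) (nat_lit 76) (nat_lit 4708113501) (nat_lit 12) (nat_lit 4) (nat_lit 13) (nat_lit 5) (nat_lit 13) (nat_lit 4) (nat_lit 327) (nat_lit 241) (nat_lit 212)) (XT.nd (nat_lit 78) (nat_lit 76) (nat_lit 0) (XT.lf (nat_lit 0) (nat_lit 1042295747) (nat_lit 152) (nat_lit 10397746805) (nat_lit 76) (nat_lit 23760666611) (nat_lit 11) (nat_lit 5) (nat_lit 13) (nat_lit 5) (nat_lit 12) (nat_lit 4) (nat_lit 328) (nat_lit 241) (nat_lit 211)) (XT.lf (nat_lit 0) (nat_lit 1301461966) (nat_lit 76) (nat_lit 5592354754) (nat_lit 152) (nat_lit 29867508988) (nat_lit 10) (nat_lit 5)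 (nat_lit 11) (nat_lit 5) (nat_lit 12) (nat_lit 4) (nat_lit 329) (nat_lit 241) (nat_lit 210)))) (XT.nd (nat_lit 156) (nat_lit 76) (nat_lit 0) (XT.nd (nat_lit 78) (nat_lit 0) (nat_lit 0) (XT.lf (nat_lit 0) (nat_lit 13051113997) (nat_lit 152) (nat_lit 24786523154) (nat_lit 0) (nat_lit 561965515) (nat_lit 10) (nat_lit 5) (nat_lit 12) (nat_lit 4) (nat_lit 10) (nat_lit 4) (nat_lit 330) (nat_lit 241) (nat_lit 209)) (XT.lf (nat_lit 0) (nat_lit 19477330529) (nat_lit 152) (nat_lit 13813436615) (nat_lit 0) (nat_lit 6830219072) (nat_lit 10) (nat_lit 5) (nat_lit 12) (nat_lit 4) (nat_lit 10) (nat_lit 4) (nat_lit 331) (nat_lit 241) (nat_lit 208))) (XT.nd (nat_lit 78) (nat_lit 76) (nat_lit 0) (XT.lf (nat_lit 0) (nat_lit 26134009697) (nat_lit 152) (nat_lit 2460720592) (nat_lit 0) (nat_lit 13336457311) (nat_lit 10) (nat_lit 5) (nat_lit 12) (nat_lit 4) (nat_lit 10) (nat_lit 4) (nat_lit 332) (nat_lit 241) (nat_lit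 207)) (XT.lf (nat_lit 0) (nat_lit 9483716659) (nat_lit 76) (nat_lit 23644447364) (nat_lit 76) (nat_lit 10703617903) (nat_lit 9) (nat_lit 4) (nat_lit 10) (nat_lit 5) (nat_lit 10) (nat_lit 4) (nat_lit 333) (nat_lit 241) (nat_lit 206))))) (XT.nd (nat_lit 234) (nat_lit 76) (nat_lit 0) (XT.nd (nat_lit 78) (nat_lit 76) (nat_lit 0) (XT.lf (nat_lit 0) (nat_lit 21920435900) (nat_lit 76) (nat_lit 18493016081) (nat_lit 76) (nat_lit 5415732263) (nat_lit 9) (nat_lit 4) (nat_lit 10) (nat_lit 5) (nat_lit 10) (nat_lit 4) (nat_lit 334) (nat_lit 241) (nat_lit 205)) (XT.nd (nat_lit 78) (nat_lit 0) (nat_lit 0) (XT.lf (nat_lit 0) (nat_lit 53162723) (nat_lit 152) (nat_lit 13099320021) (nat_lit 76) (nat_lit 34776375639) (nat_lit 8) (nat_lit 5) (nat_lit 10) (nat_lit 5) (nat_lit 9) (nat_lit 4) (nat_lit 335) (nat_lit 241) (nat_lit 204)) (XT.lf (nat_lit 0) (nat_lit 5607661424) (nat_lit 152) (nat_lit 1947455782) (nat_lit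 76) (nat_lit 42579083991) (nat_lit 8) (nat_lit 5) (nat_lit 10) (nat_lit 5) (nat_lit 9) (nat_lit 4) (nat_lit 336) (nat_lit 241) (nat_lit 203)))) (XT.nd (nat_lit 156) (nat_lit 0) (nat_lit 0) (XT.nd (nat_lit 78) (nat_lit 0) (nat_lit 0) (XT.lf (nat_lit 0) (nat_lit 9817021202) (nat_lit 76) (nat_lit 1644015290) (nat_lit 152) (nat_lit 40988157775) (nat_lit 7) (nat_lit 5) (nat_lit 8) (nat_lit 5) (nat_lit 9) (nat_lit 4) (nat_lit 337) (nat_lit 241) (nat_lit 202)) (XT.lf (nat_lit 0) (nat_lit 17599588390) (nat_lit 152) (nat_lit 32847161219) (nat_lit 0) (nat_lit 4433428958) (nat_lit 7) (nat_lit 5) (nat_lit 9) (nat_lit 4) (nat_lit 7) (nat_lit 4) (nat_lit 338) (nat_lit 241) (nat_lit 201))) (XT.nd (nat_lit 78) (nat_lit 0) (nat_lit 0) (XT.lf (nat_lit 0) (nat_lit 23993474036) (nat_lit 152) (nat_lit 22717288787) (nat_lit 0) (nat_lit 10723513090) (nat_lit 7) (nat_lit 5) (nat_lit 9) (nat_lit 4) (nat_lit 7) (nat_lit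 4) (nat_lit 339) (nat_lit 241) (nat_lit 200)) (XT.lf (nat_lit 0) (nat_lit 30642113687) (nat_lit 152) (nat_lit 12202633746) (nat_lit 0) (nat_lit 17273294156) (nat_lit 7) (nat_lit 5) (nat_lit 9) (nat_lit 4) (nat_lit 7) (nat_lit 4) (nat_lit 340) (nat_lit 241) (nat_lit 199)))))) (XT.nd (nat_lit 546) (nat_lit 76) (nat_lit 0) (XT.nd (nat_lit 234) (nat_lit 76) (nat_lit 0) (XT.nd (nat_lit 78) (nat_lit 76) (nat_lit 0) (XT.lf (nat_lit 0) (nat_lit 37561337438) (nat_lit 152) (nat_lit 1278161201) (nat_lit 0) (nat_lit 24098366874) (nat_lit 7) (nat_lit 5) (nat_lit 9) (nat_lit 4) (nat_lit 7) (nat_lit 4) (nat_lit 341) (nat_lit 241) (nat_lit 198)) (XT.nd (nat_lit 78) (nat_lit 0) (nat_lit 0) (XT.lf (nat_lit 0) (nat_lit 10282793839) (nat_lit 76) (nat_lit 34583670296) (nat_lit 76) (nat_lit 21031032081) (nat_lit 6) (nat_lit 4) (nat_lit 7) (nat_lit 5) (nat_lit 7) (nat_lit 4) (nat_lit 342) (nat_lit 241) (nat_lit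 197)) (XT.lf (nat_lit 0) (nat_lit 22341275431) (nat_lit 76) (nat_lit 30151600655) (nat_lit 76) (nat_lit 16513564678) (nat_lit 6) (nat_lit 4) (nat_lit 7) (nat_lit 5) (nat_lit 7) (nat_lit 4) (nat_lit 343) (nat_lit 241) (nat_lit 196)))) (XT.nd (nat_lit 156) (nat_lit 76) (nat_lit 0) (XT.nd (nat_lit 78) (nat_lit 0) (nat_lit 0) (XT.lf (nat_lit 0) (nat_lit 34900556330) (nat_lit 76) (nat_lit 25545644092) (nat_lit 76) (nat_lit 11826276913) (nat_lit 6) (nat_lit 4) (nat_lit 7) (nat_lit 5) (nat_lit 7) (nat_lit 4) (nat_lit 344) (nat_lit 241) (nat_lit 195)) (XT.lf (nat_lit 0) (nat_lit 47990539586) (nat_lit 76) (nat_lit 20754834044) (nat_lit 76) (nat_lit 6958008577) (nat_lit 6) (nat_lit 4) (nat_lit 7) (nat_lit 5) (nat_lit 7) (nat_lit 4) (nat_lit 345) (nat_lit 241) (nat_lit 194))) (XT.nd (nat_lit 78) (nat_lit 76) (nat_lit 0) (XT.lf (nat_lit 0) (nat_lit 61642391825) (nat_lit 76) (nat_lit 15767763821) (nat_lit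 76) (nat_lit 1897168555) (nat_lit 6) (nat_lit 4) (nat_lit 7) (nat_lit 5) (nat_lit 7) (nat_lit 4) (nat_lit 346) (nat_lit 241) (nat_lit 193)) (XT.lf (nat_lit 0) (nat_lit 3302565247) (nat_lit 152) (nat_lit 7236644764) (nat_lit 76) (nat_lit 72552702778) (nat_lit 5) (nat_lit 5) (nat_lit 7) (nat_lit 5) (nat_lit 6) (nat_lit 4) (nat_lit 347) (nat_lit 241) (nat_lit 192))))) (XT.nd (nat_lit 234) (nat_lit 0) (nat_lit 0) (XT.nd (nat_lit 78) (nat_lit 0) (nat_lit 0) (XT.lf (nat_lit 0) (nat_lit 3680806238) (nat_lit 76) (nat_lit 5032774961) (nat_lit 152) (nat_lit 78351880160) (nat_lit 4) (nat_lit 5) (nat_lit 5) (nat_lit 5) (nat_lit 6) (nat_lit 4) (nat_lit 348) (nat_lit 241) (nat_lit 191)) (XT.nd (nat_lit 78) (nat_lit 0) (nat_lit 0) (XT.lf (nat_lit 0) (nat_lit 14433353686) (nat_lit 152) (nat_lit 76031482896) (nat_lit 0) (nat_lit 771714150) (nat_lit 4) (nat_lit 5) (nat_lit 6) (nat_lit 4) (nat_lit 4) (nat_lit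 4) (nat_lit 349) (nat_lit 241) (nat_lit 190)) (XT.lf (nat_lit 0) (nat_lit 20447791452) (nat_lit 152) (nat_lit 68440922908) (nat_lit 0) (nat_lit 6727229007) (nat_lit 4) (nat_lit 5) (nat_lit 6) (nat_lit 4) (nat_lit 4) (nat_lit 4) (nat_lit 350) (nat_lit 241) (nat_lit 189)))) (XT.nd (nat_lit 156) (nat_lit 0) (nat_lit 0) (XT.nd (nat_lit 78) (nat_lit 0) (nat_lit 0) (XT.lf (nat_lit 0) (nat_lit 26722836474) (nat_lit 152) (nat_lit 60546524282) (nat_lit 0) (nat_lit 12946156974) (nat_lit 4) (nat_lit 5) (nat_lit 6) (nat_lit 4) (nat_lit 4) (nat_lit 4) (nat_lit 351) (nat_lit 241) (nat_lit 188)) (XT.lf (nat_lit 0) (nat_lit 33273429338) (nat_lit 152) (nat_lit 52329490831) (nat_lit 0) (nat_lit 19443305023) (nat_lit 4) (nat_lit 5) (nat_lit 6) (nat_lit 4) (nat_lit 4) (nat_lit 4) (nat_lit 352) (nat_lit 241) (nat_lit 187))) (XT.nd (nat_lit 78) (nat_lit 0) (nat_lit 0) (XT.lf (nat_lit 0) (nat_lit 40115166691) (nat_lit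 152) (nat_lit 43770258190) (nat_lit 0) (nat_lit 26234142552) (nat_lit 4) (nat_lit 5) (nat_lit 6) (nat_lit 4) (nat_lit 4) (nat_lit 4) (nat_lit 353) (nat_lit 241) (nat_lit 186)) (XT.lf (nat_lit 0) (nat_lit 47264338385) (nat_lit 152) (nat_lit 34848447235) (nat_lit 0) (nat_lit 33334838224) (nat_lit 4) (nat_lit 5) (nat_lit 6) (nat_lit 4) (nat_lit 4) (nat_lit 4) (nat_lit 354) (nat_lit 241) (nat_lit 185))))))) (XT.nd (nat_lit 36270) (nat_lit 0) (nat_lit 1672) (XT.nd (nat_lit 546) (nat_lit 0) (nat_lit 0) (XT.nd (nat_lit 234) (nat_lit 76) (nat_lit 0) (XT.nd (nat_lit 78) (nat_lit 0) (nat_lit 0) (XT.lf (nat_lit 0) (nat_lit 54737966258) (nat_lit 152) (nat_lit 25542815556) (nat_lit 0) (nat_lit 40762298457) (nat_lit 4) (nat_lit 5) (nat_lit 6) (nat_lit 4) (nat_lit 4) (nat_lit 4) (nat_lit 355) (nat_lit 241) (nat_lit 184)) (XT.nd (nat_lit 78) (nat_lit 0) (nat_lit 0) (XT.lf (nat_lit 0) (nat_lit 62553844661)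 (nat_lit 152) (nat_lit 15831206890) (nat_lit 0) (nat_lit 48534207678) (nat_lit 4) (nat_lit 5) (nat_lit 6) (nat_lit 4) (nat_lit 4) (nat_lit 4) (nat_lit 356) (nat_lit 241) (nat_lit 183)) (XT.lf (nat_lit 0) (nat_lit 70730582829) (nat_lit 152) (nat_lit 5690498358) (nat_lit 0) (nat_lit 56669070435) (nat_lit 4) (nat_lit 5) (nat_lit 6) (nat_lit 4) (nat_lit 4) (nat_lit 4) (nat_lit 357) (nat_lit 241) (nat_lit 182)))) (XT.nd (nat_lit 156) (nat_lit 0) (nat_lit 0) (XT.nd (nat_lit 78) (nat_lit 0) (nat_lit 0) (XT.lf (nat_lit 0) (nat_lit 5001042944) (nat_lit 76) (nat_lit 74334679325) (nat_lit 76) (nat_lit 60233285588) (nat_lit 3) (nat_lit 4) (nat_lit 4) (nat_lit 5) (nat_lit 4) (nat_lit 4) (nat_lit 358) (nat_lit 241) (nat_lit 181)) (XT.lf (nat_lit 0) (nat_lit 16293826884) (nat_lit 76) (nat_lit 72108217046) (nat_lit 76) (nat_lit 57968841077) (nat_lit 3) (nat_lit 4) (nat_lit 4) (nat_lit 5) (nat_lit 4) (nat_lit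 4) (nat_lit 359) (nat_lit 241) (nat_lit 180))) (XT.nd (nat_lit 78) (nat_lit 0) (nat_lit 0) (XT.lf (nat_lit 0) (nat_lit 28101488965) (nat_lit 76) (nat_lit 69793856125) (nat_lit 76) (nat_lit 55618306602) (nat_lit 3) (nat_lit 4) (nat_lit 4) (nat_lit 5) (nat_lit 4) (nat_lit 4) (nat_lit 360) (nat_lit 241) (nat_lit 179)) (XT.lf (nat_lit 0) (nat_lit 40452142670) (nat_lit 76) (nat_lit 67386086180) (nat_lit 76) (nat_lit 53176085653) (nat_lit 3) (nat_lit 4) (nat_lit 4) (nat_lit 5) (nat_lit 4) (nat_lit 4) (nat_lit 361) (nat_lit 241) (nat_lit 178))))) (XT.nd (nat_lit 234) (nat_lit 0) (nat_lit 0) (XT.nd (nat_lit 78) (nat_lit 0) (nat_lit 0) (XT.lf (nat_lit 0) (nat_lit 53375194316) (nat_lit 76) (nat_lit 64879174425) (nat_lit 76) (nat_lit 50636363418) (nat_lit 3) (nat_lit 4) (nat_lit 4) (nat_lit 5) (nat_lit 4) (nat_lit 4) (nat_lit 362) (nat_lit 241) (nat_lit 177)) (XT.nd (nat_lit 78) (nat_lit 0) (nat_lit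 0) (XT.lf (nat_lit 0) (nat_lit 66901413074) (nat_lit 76) (nat_lit 62267152022) (nat_lit 76) (nat_lit 47993092939) (nat_lit 3) (nat_lit 4) (nat_lit 4) (nat_lit 5) (nat_lit 4) (nat_lit 4) (nat_lit 363) (nat_lit 241) (nat_lit 176)) (XT.lf (nat_lit 0) (nat_lit 81063004226) (nat_lit 76) (nat_lit 59543799871) (nat_lit 76) (nat_lit 45239980715) (nat_lit 3) (nat_lit 4) (nat_lit 4) (nat_lit 5) (nat_lit 4) (nat_lit 4) (nat_lit 364) (nat_lit 241) (nat_lit 175)))) (XT.nd (nat_lit 35334) (nat_lit 0) (nat_lit 3952) (XT.nd (nat_lit 35256) (nat_lit 0) (nat_lit 4636) (XT.lf (nat_lit 0) (nat_lit 95893685848) (nat_lit 76) (nat_lit 56702633798) (nat_lit 76) (nat_lit 42370471716) (nat_lit 3) (nat_lit 4) (nat_lit 4) (nat_lit 5) (nat_lit 4) (nat_lit 4) (nat_lit 365) (nat_lit 241) (nat_lit 174)) (XT.lf (nat_lit 0) (nat_lit 2586046546) (nat_lit 304) (nat_lit 336601821) (nat_lit 0) (nat_lit 2586046546) (nat_lit 64)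 (nat_lit 5) (nat_lit 68) (nat_lit 4) (nat_lit 64) (nat_lit 4) (nat_lit 296) (nat_lit 242) (nat_lit 242))) (XT.nd (nat_lit 78) (nat_lit 228) (nat_lit 0) (XT.lf (nat_lit 0) (nat_lit 583582989) (nat_lit 152) (nat_lit 258972805) (nat_lit 228) (nat_lit 10482097106) (nat_lit 58) (nat_lit 5) (nat_lit 60) (nat_lit 5) (nat_lit 61) (nat_lit 4) (nat_lit 297) (nat_lit 242) (nat_lit 241)) (XT.lf (nat_lit 0) (nat_lit 1586419826) (nat_lit 228) (nat_lit 6098465729) (nat_lit 228) (nat_lit 3962588880) (nat_lit 55) (nat_lit 4) (nat_lit 58) (nat_lit 5) (nat_lit 58) (nat_lit 4) (nat_lit 298) (nat_lit 242) (nat_lit 240)))))) (XT.nd (nat_lit 546) (nat_lit 988) (nat_lit 0) (XT.nd (nat_lit 234) (nat_lit 608) (nat_lit 0) (XT.nd (nat_lit 78) (nat_lit 456) (nat_lit 0) (XT.lf (nat_lit 0) (nat_lit 2376172339) (nat_lit 152) (nat_lit 335318532) (nat_lit 228) (nat_lit 9277717908) (nat_lit 52) (nat_lit 5) (nat_lit 54) (nat_lit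 5) (nat_lit 55) (nat_lit 4) (nat_lit 299) (nat_lit 242) (nat_lit 239)) (XT.nd (nat_lit 78) (nat_lit 228) (nat_lit 0) (XT.lf (nat_lit 0) (nat_lit 2855733473) (nat_lit 228) (nat_lit 6723769651) (nat_lit 228) (nat_lit 2769225852) (nat_lit 49) (nat_lit 4) (nat_lit 52) (nat_lit 5) (nat_lit 52) (nat_lit 4) (nat_lit 300) (nat_lit 242) (nat_lit 238)) (XT.lf (nat_lit 0) (nat_lit 3043602473) (nat_lit 152) (nat_lit 834208711) (nat_lit 228) (nat_lit 8850599620) (nat_lit 46) (nat_lit 5) (nat_lit 48) (nat_lit 5) (nat_lit 49) (nat_lit 4) (nat_lit 301) (nat_lit 242) (nat_lit 237)))) (XT.nd (nat_lit 156) (nat_lit 228) (nat_lit 0) (XT.nd (nat_lit 78) (nat_lit 228) (nat_lit 0) (XT.lf (nat_lit 0) (nat_lit 2864685463) (nat_lit 152) (nat_lit 7879524527) (nat_lit 152) (nat_lit 2383840407) (nat_lit 44) (nat_lit 4) (nat_lit 46) (nat_lit 5) (nat_lit 46) (nat_lit 4) (nat_lit 302) (nat_lit 242) (nat_lit 236)) (XT.lf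 (nat_lit 0) (nat_lit 2307053061) (nat_lit 152) (nat_lit 1915717571) (nat_lit 228) (nat_lit 9326671068) (nat_lit 41) (nat_lit 5) (nat_lit 43) (nat_lit 5) (nat_lit 44) (nat_lit 4) (nat_lit 303) (nat_lit 242) (nat_lit 235))) (XT.nd (nat_lit 78) (nat_lit 76) (nat_lit 0) (XT.lf (nat_lit 0) (nat_lit 1310630664) (nat_lit 152) (nat_lit 9738353490) (nat_lit 152) (nat_lit 2944162927) (nat_lit 39) (nat_lit 4) (nat_lit 41) (nat_lit 5) (nat_lit 41) (nat_lit 4) (nat_lit 304) (nat_lit 242) (nat_lit 234)) (XT.lf (nat_lit 0) (nat_lit 3602231036) (nat_lit 228) (nat_lit 159280566) (nat_lit 76) (nat_lit 10699001601) (nat_lit 38) (nat_lit 5) (nat_lit 41) (nat_lit 5) (nat_lit 39) (nat_lit 4) (nat_lit 305) (nat_lit 242) (nat_lit 233))))) (XT.nd (nat_lit 234) (nat_lit 532) (nat_lit 0) (XT.nd (nat_lit 78) (nat_lit 304) (nat_lit 0) (XT.lf (nat_lit 0) (nat_lit 10355719431) (nat_lit 228) (nat_lit 2121549851) (nat_lit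 0) (nat_lit 2474980589) (nat_lit 36) (nat_lit 5) (nat_lit 39) (nat_lit 4) (nat_lit 36) (nat_lit 4) (nat_lit 306) (nat_lit 242) (nat_lit 232)) (XT.nd (nat_lit 78) (nat_lit 76) (nat_lit 0) (XT.lf (nat_lit 0) (nat_lit 1880184401) (nat_lit 228) (nat_lit 4660683355) (nat_lit 76) (nat_lit 8929010121) (nat_lit 33) (nat_lit 5) (nat_lit 36) (nat_lit 5) (nat_lit 34) (nat_lit 4) (nat_lit 307) (nat_lit 242) (nat_lit 231)) (XT.lf (nat_lit 0) (nat_lit 8187116384) (nat_lit 76) (nat_lit 301985951) (nat_lit 152) (nat_lit 7525901861) (nat_lit 32) (nat_lit 5) (nat_lit 33) (nat_lit 5) (nat_lit 34) (nat_lit 4) (nat_lit 308) (nat_lit 242) (nat_lit 230)))) (XT.nd (nat_lit 156) (nat_lit 228) (nat_lit 0) (XT.nd (nat_lit 78) (nat_lit 152) (nat_lit 0) (XT.lf (nat_lit 0) (nat_lit 4884809801) (nat_lit 152) (nat_lit 10505782094) (nat_lit 152) (nat_lit 1198012244) (nat_lit 30) (nat_lit 4) (nat_lit 32) (nat_lit 5) (nat_lit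 32) (nat_lit 4) (nat_lit 309) (nat_lit 242) (nat_lit 229)) (XT.lf (nat_lit 0) (nat_lit 835507812) (nat_lit 76) (nat_lit 4407710021) (nat_lit 152) (nat_lit 11949073961) (nat_lit 28) (nat_lit 5) (nat_lit 29) (nat_lit 5) (nat_lit 30) (nat_lit 4) (nat_lit 310) (nat_lit 242) (nat_lit 228))) (XT.nd (nat_lit 78) (nat_lit 228) (nat_lit 0) (XT.lf (nat_lit 0) (nat_lit 11938137543) (nat_lit 152) (nat_lit 3936201248) (nat_lit 0) (nat_lit 1952848452) (nat_lit 28) (nat_lit 5) (nat_lit 30) (nat_lit 4) (nat_lit 28) (nat_lit 4) (nat_lit 311) (nat_lit 242) (nat_lit 227)) (XT.lf (nat_lit 0) (nat_lit 418586764) (nat_lit 228) (nat_lit 9576263806) (nat_lit 76) (nat_lit 8500290430) (nat_lit 25) (nat_lit 5) (nat_lit 28) (nat_lit 5) (nat_lit 26) (nat_lit 4) (nat_lit 312) (nat_lit 242) (nat_lit 226))))))))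
noncomputable def xc22 : XT := (XT.nd (nat_lit 2106) (nat_lit 304) (nat_lit 0) (XT.nd (nat_lit 1014) (nat_lit 456) (nat_lit 0) (XT.nd (nat_lit 468) (nat_lit 380) (nat_lit 0) (XT.nd (nat_lit 234) (nat_lit 304) (nat_lit 0) (XT.nd (nat_lit 78) (nat_lit 152) (nat_lit 0) (XT.lf (nat_lit 0) (nat_lit 2995818072) (nat_lit 76) (nat_lit 3822671023) (nat_lit 152) (nat_lit 12379356646) (nat_lit 24) (nat_lit 5) (nat_lit 25) (nat_lit 5) (nat_lit 26) (nat_lit 4) (nat_lit 313) (nat_lit 242) (nat_lit 225)) (XT.nd (nat_lit 78) (nat_lit 152) (nat_lit 0) (XT.lf (nat_lit 0) (nat_lit 13495400108) (nat_lit 152) (nat_lit 3864145645) (nat_lit 0) (nat_lit 2577489442) (nat_lit 24) (nat_lit 5) (nat_lit 26) (nat_lit 4) (nat_lit 24) (nat_lit 4) (nat_lit 314) (nat_lit 242) (nat_lit 224)) (XT.lf (nat_lit 0) (nat_lit 8939333929) (nat_lit 152) (nat_lit 11531247563) (nat_lit 152) (nat_lit 243726916) (nat_lit 22) (nat_lit 4)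 (nat_lit 24) (nat_lit 5) (nat_lit 24) (nat_lit 4) (nat_lit 315) (nat_lit 242) (nat_lit 223)))) (XT.nd (nat_lit 78) (nat_lit 152) (nat_lit 0) (XT.lf (nat_lit 0) (nat_lit 603561559) (nat_lit 76) (nat_lit 5427518101) (nat_lit 152) (nat_lit 15500934801) (nat_lit 20) (nat_lit 5) (nat_lit 21) (nat_lit 5) (nat_lit 22) (nat_lit 4) (nat_lit 316) (nat_lit 242) (nat_lit 222)) (XT.nd (nat_lit 78) (nat_lit 152) (nat_lit 0) (XT.lf (nat_lit 0) (nat_lit 12593399744) (nat_lit 152) (nat_lit 8830417119) (nat_lit 0) (nat_lit 967402366) (nat_lit 20) (nat_lit 5) (nat_lit 22) (nat_lit 4) (nat_lit 20) (nat_lit 4) (nat_lit 317) (nat_lit 242) (nat_lit 221)) (XT.lf (nat_lit 0) (nat_lit 3624231963) (nat_lit 152) (nat_lit 15803433050) (nat_lit 152) (nat_lit 3867452178) (nat_lit 18) (nat_lit 4) (nat_lit 20) (nat_lit 5) (nat_lit 20) (nat_lit 4) (nat_lit 318) (nat_lit 242) (nat_lit 220))))) (XT.nd (nat_lit 234) (nat_lit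 228) (nat_lit 0) (XT.nd (nat_lit 78) (nat_lit 76) (nat_lit 0) (XT.lf (nat_lit 0) (nat_lit 2262434856) (nat_lit 228) (nat_lit 7638460487) (nat_lit 76) (nat_lit 14344207252) (nat_lit 17) (nat_lit 5) (nat_lit 20) (nat_lit 5) (nat_lit 18) (nat_lit 4) (nat_lit 319) (nat_lit 242) (nat_lit 219)) (XT.nd (nat_lit 78) (nat_lit 0) (nat_lit 0) (XT.lf (nat_lit 0) (nat_lit 4803094712) (nat_lit 76) (nat_lit 3726689586) (nat_lit 152) (nat_lit 16714367759) (nat_lit 16) (nat_lit 5) (nat_lit 17) (nat_lit 5) (nat_lit 18) (nat_lit 4) (nat_lit 320) (nat_lit 242) (nat_lit 218)) (XT.lf (nat_lit 0) (nat_lit 15083569893) (nat_lit 152) (nat_lit 8534767899) (nat_lit 0) (nat_lit 2675664252) (nat_lit 16) (nat_lit 5) (nat_lit 18) (nat_lit 4) (nat_lit 16) (nat_lit 4) (nat_lit 321) (nat_lit 242) (nat_lit 217)))) (XT.nd (nat_lit 156) (nat_lit 76) (nat_lit 0) (XT.nd (nat_lit 78) (nat_lit 76) (nat_lit 0) (XT.lf (nat_lit 0)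 (nat_lit 3771338986) (nat_lit 76) (nat_lit 18141062493) (nat_lit 76) (nat_lit 5485560554) (nat_lit 15) (nat_lit 4) (nat_lit 16) (nat_lit 5) (nat_lit 16) (nat_lit 4) (nat_lit 322) (nat_lit 242) (nat_lit 216)) (XT.lf (nat_lit 0) (nat_lit 480129845) (nat_lit 152) (nat_lit 11916644350) (nat_lit 76) (nat_lit 16161284674) (nat_lit 14) (nat_lit 5) (nat_lit 16) (nat_lit 5) (nat_lit 15) (nat_lit 4) (nat_lit 323) (nat_lit 242) (nat_lit 215))) (XT.nd (nat_lit 78) (nat_lit 0) (nat_lit 0) (XT.lf (nat_lit 0) (nat_lit 109079491) (nat_lit 76) (nat_lit 6405681380) (nat_lit 152) (nat_lit 23263280767) (nat_lit 13) (nat_lit 5) (nat_lit 14) (nat_lit 5) (nat_lit 15) (nat_lit 4) (nat_lit 324) (nat_lit 242) (nat_lit 214)) (XT.lf (nat_lit 0) (nat_lit 12774803476) (nat_lit 76) (nat_lit 84591373) (nat_lit 152) (nat_lit 18199412594) (nat_lit 13) (nat_lit 5) (nat_lit 14) (nat_lit 5) (nat_lit 15) (nat_lit 4) (nat_lit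 325) (nat_lit 242) (nat_lit 213)))))) (XT.nd (nat_lit 546) (nat_lit 228) (nat_lit 0) (XT.nd (nat_lit 234) (nat_lit 152) (nat_lit 0) (XT.nd (nat_lit 78) (nat_lit 76) (nat_lit 0) (XT.lf (nat_lit 0) (nat_lit 19474417322) (nat_lit 152) (nat_lit 6595500239) (nat_lit 0) (nat_lit 6335129791) (nat_lit 13) (nat_lit 5) (nat_lit 15) (nat_lit 4) (nat_lit 13) (nat_lit 4) (nat_lit 326) (nat_lit 242) (nat_lit 212)) (XT.nd (nat_lit 78) (nat_lit 0) (nat_lit 0) (XT.lf (nat_lit 0) (nat_lit 5592645425) (nat_lit 76) (nat_lit 20777558884) (nat_lit 76) (nat_lit 7449923607) (nat_lit 12) (nat_lit 4) (nat_lit 13) (nat_lit 5) (nat_lit 13) (nat_lit 4) (nat_lit 327) (nat_lit 242) (nat_lit 211)) (XT.lf (nat_lit 0) (nat_lit 18340496911) (nat_lit 76) (nat_lit 15236756586) (nat_lit 76) (nat_lit 1729742503) (nat_lit 12) (nat_lit 4) (nat_lit 13) (nat_lit 5) (nat_lit 13) (nat_lit 4) (nat_lit 328) (nat_lit 242) (nat_lit 210))))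 (XT.nd (nat_lit 156) (nat_lit 0) (nat_lit 0) (XT.nd (nat_lit 78) (nat_lit 76) (nat_lit 0) (XT.lf (nat_lit 0) (nat_lit 4095424167) (nat_lit 152) (nat_lit 5364139981) (nat_lit 76) (nat_lit 27410362938) (nat_lit 11) (nat_lit 5) (nat_lit 13) (nat_lit 5) (nat_lit 12) (nat_lit 4) (nat_lit 329) (nat_lit 242) (nat_lit 209)) (XT.lf (nat_lit 0) (nat_lit 6760839434) (nat_lit 76) (nat_lit 3387629698) (nat_lit 152) (nat_lit 28362874371) (nat_lit 10) (nat_lit 5) (nat_lit 11) (nat_lit 5) (nat_lit 12) (nat_lit 4) (nat_lit 330) (nat_lit 242) (nat_lit 208))) (XT.nd (nat_lit 78) (nat_lit 0) (nat_lit 0) (XT.lf (nat_lit 0) (nat_lit 16497805505) (nat_lit 152) (nat_lit 20827304704) (nat_lit 0) (nat_lit 2909934570) (nat_lit 10) (nat_lit 5) (nat_lit 12) (nat_lit 4) (nat_lit 10) (nat_lit 4) (nat_lit 331) (nat_lit 242) (nat_lit 207)) (XT.lf (nat_lit 0) (nat_lit 23112278777) (nat_lit 152) (nat_lit 9553113580) (nat_lit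 0) (nat_lit 9381130767) (nat_lit 10) (nat_lit 5) (nat_lit 12) (nat_lit 4) (nat_lit 10) (nat_lit 4) (nat_lit 332) (nat_lit 242) (nat_lit 206))))) (XT.nd (nat_lit 234) (nat_lit 152) (nat_lit 0) (XT.nd (nat_lit 78) (nat_lit 0) (nat_lit 0) (XT.lf (nat_lit 0) (nat_lit 2173897145) (nat_lit 76) (nat_lit 27822073409) (nat_lit 76) (nat_lit 13954471043) (nat_lit 9) (nat_lit 4) (nat_lit 10) (nat_lit 5) (nat_lit 10) (nat_lit 4) (nat_lit 333) (nat_lit 242) (nat_lit 205)) (XT.nd (nat_lit 78) (nat_lit 0) (nat_lit 0) (XT.lf (nat_lit 0) (nat_lit 14537974483) (nat_lit 76) (nat_lit 22704303760) (nat_lit 76) (nat_lit 8706744863) (nat_lit 9) (nat_lit 4) (nat_lit 10) (nat_lit 5) (nat_lit 10) (nat_lit 4) (nat_lit 334) (nat_lit 242) (nat_lit 204)) (XT.lf (nat_lit 0) (nat_lit 27378431020) (nat_lit 76) (nat_lit 17396365960) (nat_lit 76) (nat_lit 3275038938) (nat_lit 9) (nat_lit 4) (nat_lit 10) (nat_lit 5) (nat_lit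 10) (nat_lit 4) (nat_lit 335) (nat_lit 242) (nat_lit 203)))) (XT.nd (nat_lit 156) (nat_lit 0) (nat_lit 0) (XT.nd (nat_lit 78) (nat_lit 76) (nat_lit 0) (XT.lf (nat_lit 0) (nat_lit 2307652553) (nat_lit 152) (nat_lit 9554666742) (nat_lit 76) (nat_lit 38394883952) (nat_lit 8) (nat_lit 5) (nat_lit 10) (nat_lit 5) (nat_lit 9) (nat_lit 4) (nat_lit 336) (nat_lit 242) (nat_lit 202)) (XT.lf (nat_lit 0) (nat_lit 1993713365) (nat_lit 76) (nat_lit 6058097535) (nat_lit 152) (nat_lit 44523670123) (nat_lit 7) (nat_lit 5) (nat_lit 8) (nat_lit 5) (nat_lit 9) (nat_lit 4) (nat_lit 337) (nat_lit 242) (nat_lit 201))) (XT.nd (nat_lit 78) (nat_lit 0) (nat_lit 0) (XT.lf (nat_lit 0) (nat_lit 14114669846) (nat_lit 152) (nat_lit 40816664739) (nat_lit 0) (nat_lit 77409339) (nat_lit 7) (nat_lit 5) (nat_lit 9) (nat_lit 4) (nat_lit 7) (nat_lit 4) (nat_lit 338) (nat_lit 242) (nat_lit 200)) (XT.lf (nat_lit 0) (nat_lit 20476877308)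 (nat_lit 152) (nat_lit 30746163533) (nat_lit 0) (nat_lit 6340758216) (nat_lit 7) (nat_lit 5) (nat_lit 9) (nat_lit 4) (nat_lit 7) (nat_lit 4) (nat_lit 339) (nat_lit 242) (nat_lit 199))))))) (XT.nd (nat_lit 1092) (nat_lit 76) (nat_lit 0) (XT.nd (nat_lit 546) (nat_lit 152) (nat_lit 0) (XT.nd (nat_lit 234) (nat_lit 0) (nat_lit 0) (XT.nd (nat_lit 78) (nat_lit 76) (nat_lit 0) (XT.lf (nat_lit 0) (nat_lit 27095347261) (nat_lit 152) (nat_lit 20288052515) (nat_lit 0) (nat_lit 12865077135) (nat_lit 7) (nat_lit 5) (nat_lit 9) (nat_lit 4) (nat_lit 7) (nat_lit 4) (nat_lit 340) (nat_lit 242) (nat_lit 198)) (XT.nd (nat_lit 78) (nat_lit 76) (nat_lit 0) (XT.lf (nat_lit 0) (nat_lit 33985837965) (nat_lit 152) (nat_lit 9417431422) (nat_lit 0) (nat_lit 19665900189) (nat_lit 7) (nat_lit 5) (nat_lit 9) (nat_lit 4) (nat_lit 7) (nat_lit 4) (nat_lit 341) (nat_lit 242) (nat_lit 197)) (XT.lf (nat_lit 0) (nat_lit 1929228371)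 (nat_lit 76) (nat_lit 39254071902) (nat_lit 76) (nat_lit 24848736364) (nat_lit 6) (nat_lit 4) (nat_lit 7) (nat_lit 5) (nat_lit 7) (nat_lit 4) (nat_lit 342) (nat_lit 242) (nat_lit 196)))) (XT.nd (nat_lit 156) (nat_lit 0) (nat_lit 0) (XT.nd (nat_lit 78) (nat_lit 0) (nat_lit 0) (XT.lf (nat_lit 0) (nat_lit 13937893001) (nat_lit 76) (nat_lit 34845278632) (nat_lit 76) (nat_lit 20358611892) (nat_lit 6) (nat_lit 4) (nat_lit 7) (nat_lit 5) (nat_lit 7) (nat_lit 4) (nat_lit 343) (nat_lit 242) (nat_lit 195)) (XT.lf (nat_lit 0) (nat_lit 26449729174) (nat_lit 76) (nat_lit 30261490042) (nat_lit 76) (nat_lit 15697365013) (nat_lit 6) (nat_lit 4) (nat_lit 7) (nat_lit 5) (nat_lit 7) (nat_lit 4) (nat_lit 344) (nat_lit 242) (nat_lit 194))) (XT.nd (nat_lit 78) (nat_lit 0) (nat_lit 0) (XT.lf (nat_lit 0) (nat_lit 39494526977) (nat_lit 76) (nat_lit 25491792348) (nat_lit 76) (nat_lit 10853897521) (nat_lit 6) (nat_lit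 4) (nat_lit 7) (nat_lit 5) (nat_lit 7) (nat_lit 4) (nat_lit 345) (nat_lit 242) (nat_lit 193)) (XT.lf (nat_lit 0) (nat_lit 53103345451) (nat_lit 76) (nat_lit 20524829129) (nat_lit 76) (nat_lit 5816677351) (nat_lit 6) (nat_lit 4) (nat_lit 7) (nat_lit 5) (nat_lit 7) (nat_lit 4) (nat_lit 346) (nat_lit 242) (nat_lit 192))))) (XT.nd (nat_lit 234) (nat_lit 0) (nat_lit 0) (XT.nd (nat_lit 78) (nat_lit 152) (nat_lit 0) (XT.lf (nat_lit 0) (nat_lit 67308586546) (nat_lit 76) (nat_lit 15348774280) (nat_lit 76) (nat_lit 573711122) (nat_lit 6) (nat_lit 4) (nat_lit 7) (nat_lit 5) (nat_lit 7) (nat_lit 4) (nat_lit 347) (nat_lit 242) (nat_lit 191)) (XT.nd (nat_lit 78) (nat_lit 76) (nat_lit 0) (XT.lf (nat_lit 0) (nat_lit 4792111995) (nat_lit 152) (nat_lit 5110800933) (nat_lit 76) (nat_lit 77303569333) (nat_lit 5) (nat_lit 5) (nat_lit 7) (nat_lit 5) (nat_lit 6) (nat_lit 4) (nat_lit 348) (nat_lit 242) (nat_lit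 190)) (XT.lf (nat_lit 0) (nat_lit 6281213884) (nat_lit 76) (nat_lit 4152624915) (nat_lit 152) (nat_lit 80946078641) (nat_lit 4) (nat_lit 5) (nat_lit 5) (nat_lit 5) (nat_lit 6) (nat_lit 4) (nat_lit 349) (nat_lit 242) (nat_lit 189)))) (XT.nd (nat_lit 156) (nat_lit 0) (nat_lit 0) (XT.nd (nat_lit 78) (nat_lit 0) (nat_lit 0) (XT.lf (nat_lit 0) (nat_lit 16388790881) (nat_lit 152) (nat_lit 77505147637) (nat_lit 0) (nat_lit 1867160351) (nat_lit 4) (nat_lit 5) (nat_lit 6) (nat_lit 4) (nat_lit 4) (nat_lit 4) (nat_lit 350) (nat_lit 242) (nat_lit 188)) (XT.lf (nat_lit 0) (nat_lit 22645199606) (nat_lit 152) (nat_lit 69645912478) (nat_lit 0) (nat_lit 8070124261) (nat_lit 4) (nat_lit 5) (nat_lit 6) (nat_lit 4) (nat_lit 4) (nat_lit 4) (nat_lit 351) (nat_lit 242) (nat_lit 187))) (XT.nd (nat_lit 78) (nat_lit 0) (nat_lit 0) (XT.lf (nat_lit 0) (nat_lit 29178043614) (nat_lit 152) (nat_lit 61462368043) (nat_lit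 0) (nat_lit 14552068445) (nat_lit 4) (nat_lit 5) (nat_lit 6) (nat_lit 4) (nat_lit 4) (nat_lit 4) (nat_lit 352) (nat_lit 242) (nat_lit 186)) (XT.lf (nat_lit 0) (nat_lit 36002877296) (nat_lit 152) (nat_lit 52935029703) (nat_lit 0) (nat_lit 21328426104) (nat_lit 4) (nat_lit 5) (nat_lit 6) (nat_lit 4) (nat_lit 4) (nat_lit 4) (nat_lit 353) (nat_lit 242) (nat_lit 185)))))) (XT.nd (nat_lit 546) (nat_lit 0) (nat_lit 0) (XT.nd (nat_lit 234) (nat_lit 76) (nat_lit 0) (XT.nd (nat_lit 78) (nat_lit 0) (nat_lit 0) (XT.lf (nat_lit 0) (nat_lit 43135950255) (nat_lit 152) (nat_lit 44043594272) (nat_lit 0) (nat_lit 28415331424) (nat_lit 4) (nat_lit 5) (nat_lit 6) (nat_lit 4) (nat_lit 4) (nat_lit 4) (nat_lit 354) (nat_lit 242) (nat_lit 184)) (XT.nd (nat_lit 78) (nat_lit 0) (nat_lit 0) (XT.lf (nat_lit 0) (nat_lit 50594245999) (nat_lit 152) (nat_lit 34766891665) (nat_lit 0) (nat_lit 35829657987) (nat_lit 4) (nat_lit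 5) (nat_lit 6) (nat_lit 4) (nat_lit 4) (nat_lit 4) (nat_lit 355) (nat_lit 242) (nat_lit 183)) (XT.lf (nat_lit 0) (nat_lit 58395522375) (nat_lit 152) (nat_lit 25082834495) (nat_lit 0) (nat_lit 43589058952) (nat_lit 4) (nat_lit 5) (nat_lit 6) (nat_lit 4) (nat_lit 4) (nat_lit 4) (nat_lit 356) (nat_lit 242) (nat_lit 182)))) (XT.nd (nat_lit 156) (nat_lit 76) (nat_lit 0) (XT.nd (nat_lit 78) (nat_lit 0) (nat_lit 0) (XT.lf (nat_lit 0) (nat_lit 66558353851) (nat_lit 152) (nat_lit 14968365483) (nat_lit 0) (nat_lit 51712009084) (nat_lit 4) (nat_lit 5) (nat_lit 6) (nat_lit 4) (nat_lit 4) (nat_lit 4) (nat_lit 357) (nat_lit 242) (nat_lit 181)) (XT.lf (nat_lit 0) (nat_lit 75102175738) (nat_lit 152) (nat_lit 4399402560) (nat_lit 0) (nat_lit 60217848739) (nat_lit 4) (nat_lit 5) (nat_lit 6) (nat_lit 4) (nat_lit 4) (nat_lit 4) (nat_lit 358) (nat_lit 242) (nat_lit 180))) (XT.nd (nat_lit 78) (nat_lit 0) (nat_lit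 0) (XT.lf (nat_lit 0) (nat_lit 6781550956) (nat_lit 76) (nat_lit 77330967931) (nat_lit 76) (nat_lit 62410467378) (nat_lit 3) (nat_lit 4) (nat_lit 4) (nat_lit 5) (nat_lit 4) (nat_lit 4) (nat_lit 359) (nat_lit 242) (nat_lit 179)) (XT.lf (nat_lit 0) (nat_lit 18566095242) (nat_lit 76) (nat_lit 75027489461) (nat_lit 76) (nat_lit 60072537903) (nat_lit 3) (nat_lit 4) (nat_lit 4) (nat_lit 5) (nat_lit 4) (nat_lit 4) (nat_lit 360) (nat_lit 242) (nat_lit 178))))) (XT.nd (nat_lit 234) (nat_lit 0) (nat_lit 0) (XT.nd (nat_lit 78) (nat_lit 0) (nat_lit 0) (XT.lf (nat_lit 0) (nat_lit 30894731998) (nat_lit 76) (nat_lit 72630083753) (nat_lit 76) (nat_lit 57642321716) (nat_lit 3) (nat_lit 4) (nat_lit 4) (nat_lit 5) (nat_lit 4) (nat_lit 4) (nat_lit 361) (nat_lit 242) (nat_lit 177)) (XT.nd (nat_lit 78) (nat_lit 0) (nat_lit 0) (XT.lf (nat_lit 0) (nat_lit 43796815122) (nat_lit 76) (nat_lit 70133042700) (nat_lit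 76) (nat_lit 55114032587) (nat_lit 3) (nat_lit 4) (nat_lit 4) (nat_lit 5) (nat_lit 4) (nat_lit 4) (nat_lit 362) (nat_lit 242) (nat_lit 176)) (XT.lf (nat_lit 0) (nat_lit 57303063859) (nat_lit 76) (nat_lit 67530420966) (nat_lit 76) (nat_lit 52481650780) (nat_lit 3) (nat_lit 4) (nat_lit 4) (nat_lit 5) (nat_lit 4) (nat_lit 4) (nat_lit 363) (nat_lit 242) (nat_lit 175)))) (XT.nd (nat_lit 35178) (nat_lit 0) (nat_lit 4940) (XT.nd (nat_lit 78) (nat_lit 0) (nat_lit 0) (XT.lf (nat_lit 0) (nat_lit 71445635944) (nat_lit 76) (nat_lit 64816021833) (nat_lit 76) (nat_lit 49738908720) (nat_lit 3) (nat_lit 4) (nat_lit 4) (nat_lit 5) (nat_lit 4) (nat_lit 4) (nat_lit 364) (nat_lit 242) (nat_lit 174)) (XT.lf (nat_lit 0) (nat_lit 86258204167) (nat_lit 76) (nat_lit 61983382445) (nat_lit 76) (nat_lit 46879276069) (nat_lit 3) (nat_lit 4) (nat_lit 4) (nat_lit 5) (nat_lit 4) (nat_lit 4) (nat_lit 365) (nat_lit 242) (nat_lit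 173))) (XT.nd (nat_lit 78) (nat_lit 228) (nat_lit 0) (XT.lf (nat_lit 0) (nat_lit 1742984376) (nat_lit 304) (nat_lit 1738181019) (nat_lit 0) (nat_lit 1742984376) (nat_lit 71) (nat_lit 5) (nat_lit 75) (nat_lit 4) (nat_lit 71) (nat_lit 4) (nat_lit 294) (nat_lit 243) (nat_lit 243)) (XT.lf (nat_lit 0) (nat_lit 8655110674) (nat_lit 228) (nat_lit 1645479953) (nat_lit 228) (nat_lit 426840049) (nat_lit 68) (nat_lit 4) (nat_lit 71) (nat_lit 5) (nat_lit 71) (nat_lit 4) (nat_lit 295) (nat_lit 243) (nat_lit 242))))))))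
noncomputable def xc23 : XT := (XT.nd (nat_lit 2184) (nat_lit 836) (nat_lit 0) (XT.nd (nat_lit 1092) (nat_lit 1140) (nat_lit 0) (XT.nd (nat_lit 546) (nat_lit 1064) (nat_lit 0) (XT.nd (nat_lit 234) (nat_lit 836) (nat_lit 0) (XT.nd (nat_lit 78) (nat_lit 684) (nat_lit 0) (XT.lf (nat_lit 0) (nat_lit 6229163220) (nat_lit 304) (nat_lit 872881275) (nat_lit 0) (nat_lit 3919212409) (nat_lit 64) (nat_lit 5) (nat_lit 68) (nat_lit 4) (nat_lit 64) (nat_lit 4) (nat_lit 296) (nat_lit 243) (nat_lit 241)) (XT.nd (nat_lit 78) (nat_lit 228) (nat_lit 0) (XT.lf (nat_lit 0) (nat_lit 161173488) (nat_lit 152) (nat_lit 1584773398) (nat_lit 228) (nat_lit 9586225596) (nat_lit 58) (nat_lit 5) (nat_lit 60) (nat_lit 5) (nat_lit 61) (nat_lit 4) (nat_lit 297) (nat_lit 243) (nat_lit 240)) (XT.lf (nat_lit 0) (nat_lit 963261059) (nat_lit 228) (nat_lit 7486402577) (nat_lit 228) (nat_lit 3209563459) (nat_lit 55) (nat_lit 4)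 (nat_lit 58) (nat_lit 5) (nat_lit 58) (nat_lit 4) (nat_lit 298) (nat_lit 243) (nat_lit 239)))) (XT.nd (nat_lit 156) (nat_lit 380) (nat_lit 0) (XT.nd (nat_lit 78) (nat_lit 228) (nat_lit 0) (XT.lf (nat_lit 0) (nat_lit 1526787920) (nat_lit 152) (nat_lit 1797671695) (nat_lit 228) (nat_lit 8680114598) (nat_lit 52) (nat_lit 5) (nat_lit 54) (nat_lit 5) (nat_lit 55) (nat_lit 4) (nat_lit 299) (nat_lit 243) (nat_lit 238)) (XT.lf (nat_lit 0) (nat_lit 1796396992) (nat_lit 228) (nat_lit 8257747691) (nat_lit 228) (nat_lit 2314165316) (nat_lit 49) (nat_lit 4) (nat_lit 52) (nat_lit 5) (nat_lit 52) (nat_lit 4) (nat_lit 300) (nat_lit 243) (nat_lit 237))) (XT.nd (nat_lit 78) (nat_lit 152) (nat_lit 0) (XT.lf (nat_lit 0) (nat_lit 1750206673) (nat_lit 152) (nat_lit 2449788134) (nat_lit 228) (nat_lit 8551646514) (nat_lit 46) (nat_lit 5) (nat_lit 48) (nat_lit 5) (nat_lit 49) (nat_lit 4) (nat_lit 301) (nat_lit 243)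 (nat_lit 236)) (XT.lf (nat_lit 0) (nat_lit 1351893933) (nat_lit 152) (nat_lit 9575762062) (nat_lit 152) (nat_lit 2227844967) (nat_lit 44) (nat_lit 4) (nat_lit 46) (nat_lit 5) (nat_lit 46) (nat_lit 4) (nat_lit 302) (nat_lit 243) (nat_lit 235))))) (XT.nd (nat_lit 234) (nat_lit 608) (nat_lit 0) (XT.nd (nat_lit 78) (nat_lit 228) (nat_lit 0) (XT.lf (nat_lit 0) (nat_lit 551940867) (nat_lit 152) (nat_lit 3700622146) (nat_lit 228) (nat_lit 9328032591) (nat_lit 41) (nat_lit 5) (nat_lit 43) (nat_lit 5) (nat_lit 44) (nat_lit 4) (nat_lit 303) (nat_lit 243) (nat_lit 234)) (XT.nd (nat_lit 78) (nat_lit 228) (nat_lit 0) (XT.lf (nat_lit 0) (nat_lit 10945438047) (nat_lit 228) (nat_lit 660495107) (nat_lit 0) (nat_lit 2422418989) (nat_lit 41) (nat_lit 5) (nat_lit 44) (nat_lit 4) (nat_lit 41) (nat_lit 4) (nat_lit 304) (nat_lit 243) (nat_lit 233)) (XT.lf (nat_lit 0) (nat_lit 3358309905) (nat_lit 228) (nat_lit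 2351001385) (nat_lit 76) (nat_lit 8789730473) (nat_lit 38) (nat_lit 5) (nat_lit 41) (nat_lit 5) (nat_lit 39) (nat_lit 4) (nat_lit 305) (nat_lit 243) (nat_lit 232)))) (XT.nd (nat_lit 156) (nat_lit 228) (nat_lit 0) (XT.nd (nat_lit 78) (nat_lit 228) (nat_lit 0) (XT.lf (nat_lit 0) (nat_lit 9972566629) (nat_lit 228) (nat_lit 4547916462) (nat_lit 0) (nat_lit 474517203) (nat_lit 36) (nat_lit 5) (nat_lit 39) (nat_lit 4) (nat_lit 36) (nat_lit 4) (nat_lit 306) (nat_lit 243) (nat_lit 231)) (XT.lf (nat_lit 0) (nat_lit 1341881659) (nat_lit 228) (nat_lit 7342333322) (nat_lit 76) (nat_lit 6832198984) (nat_lit 33) (nat_lit 5) (nat_lit 36) (nat_lit 5) (nat_lit 34) (nat_lit 4) (nat_lit 307) (nat_lit 243) (nat_lit 230))) (XT.nd (nat_lit 78) (nat_lit 152) (nat_lit 0) (XT.lf (nat_lit 0) (nat_lit 5289048574) (nat_lit 76) (nat_lit 2541810171) (nat_lit 152) (nat_lit 8234319317) (nat_lit 32) (nat_lit 5) (nat_lit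 33) (nat_lit 5) (nat_lit 34) (nat_lit 4) (nat_lit 308) (nat_lit 243) (nat_lit 229)) (XT.lf (nat_lit 0) (nat_lit 1739357958) (nat_lit 152) (nat_lit 12851397822) (nat_lit 152) (nat_lit 2052307669) (nat_lit 30) (nat_lit 4) (nat_lit 32) (nat_lit 5) (nat_lit 32) (nat_lit 4) (nat_lit 309) (nat_lit 243) (nat_lit 228)))))) (XT.nd (nat_lit 546) (nat_lit 456) (nat_lit 0) (XT.nd (nat_lit 234) (nat_lit 380) (nat_lit 0) (XT.nd (nat_lit 78) (nat_lit 228) (nat_lit 0) (XT.lf (nat_lit 0) (nat_lit 4309646813) (nat_lit 228) (nat_lit 2527130493) (nat_lit 76) (nat_lit 10413133367) (nat_lit 29) (nat_lit 5) (nat_lit 32) (nat_lit 5) (nat_lit 30) (nat_lit 4) (nat_lit 310) (nat_lit 243) (nat_lit 227)) (XT.nd (nat_lit 78) (nat_lit 152) (nat_lit 0) (XT.lf (nat_lit 0) (nat_lit 10347569974) (nat_lit 76) (nat_lit 527903189) (nat_lit 152) (nat_lit 7013238931) (nat_lit 28) (nat_lit 5) (nat_lit 29) (nat_lit 5) (nat_lit 30)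 (nat_lit 4) (nat_lit 311) (nat_lit 243) (nat_lit 226)) (XT.lf (nat_lit 0) (nat_lit 5103789146) (nat_lit 152) (nat_lit 12632228393) (nat_lit 152) (nat_lit 824508008) (nat_lit 26) (nat_lit 4) (nat_lit 28) (nat_lit 5) (nat_lit 28) (nat_lit 4) (nat_lit 312) (nat_lit 243) (nat_lit 225)))) (XT.nd (nat_lit 156) (nat_lit 228) (nat_lit 0) (XT.nd (nat_lit 78) (nat_lit 76) (nat_lit 0) (XT.lf (nat_lit 0) (nat_lit 5482698771) (nat_lit 228) (nat_lit 1077575073) (nat_lit 76) (nat_lit 12706486965) (nat_lit 25) (nat_lit 5) (nat_lit 28) (nat_lit 5) (nat_lit 26) (nat_lit 4) (nat_lit 313) (nat_lit 243) (nat_lit 224)) (XT.lf (nat_lit 0) (nat_lit 11865772608) (nat_lit 76) (nat_lit 180495602) (nat_lit 152) (nat_lit 7963110120) (nat_lit 24) (nat_lit 5) (nat_lit 25) (nat_lit 5) (nat_lit 26) (nat_lit 4) (nat_lit 314) (nat_lit 243) (nat_lit 223))) (XT.nd (nat_lit 78) (nat_lit 76) (nat_lit 0) (XT.lf (nat_lit 0) (nat_lit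 4440414815) (nat_lit 152) (nat_lit 14461680016) (nat_lit 152) (nat_lit 1888163851) (nat_lit 22) (nat_lit 4) (nat_lit 24) (nat_lit 5) (nat_lit 24) (nat_lit 4) (nat_lit 315) (nat_lit 243) (nat_lit 222)) (XT.lf (nat_lit 0) (nat_lit 4340114053) (nat_lit 228) (nat_lit 4098331785) (nat_lit 76) (nat_lit 13172376142) (nat_lit 21) (nat_lit 5) (nat_lit 24) (nat_lit 5) (nat_lit 22) (nat_lit 4) (nat_lit 316) (nat_lit 243) (nat_lit 221))))) (XT.nd (nat_lit 234) (nat_lit 152) (nat_lit 0) (XT.nd (nat_lit 78) (nat_lit 228) (nat_lit 0) (XT.lf (nat_lit 0) (nat_lit 8659815790) (nat_lit 76) (nat_lit 2122382289) (nat_lit 152) (nat_lit 11691459083) (nat_lit 20) (nat_lit 5) (nat_lit 21) (nat_lit 5) (nat_lit 22) (nat_lit 4) (nat_lit 317) (nat_lit 243) (nat_lit 220)) (XT.nd (nat_lit 78) (nat_lit 228) (nat_lit 0) (XT.lf (nat_lit 0) (nat_lit 17493492641) (nat_lit 152) (nat_lit 1532266969) (nat_lit 0) (nat_lit 4355506857)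 (nat_lit 20) (nat_lit 5) (nat_lit 22) (nat_lit 4) (nat_lit 20) (nat_lit 4) (nat_lit 318) (nat_lit 243) (nat_lit 219)) (XT.lf (nat_lit 0) (nat_lit 200043604) (nat_lit 228) (nat_lit 13013061433) (nat_lit 76) (nat_lit 11121194799) (nat_lit 17) (nat_lit 5) (nat_lit 20) (nat_lit 5) (nat_lit 18) (nat_lit 4) (nat_lit 319) (nat_lit 243) (nat_lit 218)))) (XT.nd (nat_lit 156) (nat_lit 76) (nat_lit 0) (XT.nd (nat_lit 78) (nat_lit 76) (nat_lit 0) (XT.lf (nat_lit 0) (nat_lit 6358058574) (nat_lit 228) (nat_lit 780066440) (nat_lit 76) (nat_lit 18198523884) (nat_lit 17) (nat_lit 5) (nat_lit 20) (nat_lit 5) (nat_lit 18) (nat_lit 4) (nat_lit 320) (nat_lit 243) (nat_lit 217)) (XT.lf (nat_lit 0) (nat_lit 12076024283) (nat_lit 76) (nat_lit 740711587) (nat_lit 152) (nat_lit 13572634901) (nat_lit 16) (nat_lit 5) (nat_lit 17) (nat_lit 5) (nat_lit 18) (nat_lit 4) (nat_lit 321) (nat_lit 243) (nat_lit 216))) (XT.nd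 (nat_lit 78) (nat_lit 76) (nat_lit 0) (XT.lf (nat_lit 0) (nat_lit 19543421307) (nat_lit 152) (nat_lit 2181249612) (nat_lit 0) (nat_lit 5771741975) (nat_lit 16) (nat_lit 5) (nat_lit 18) (nat_lit 4) (nat_lit 16) (nat_lit 4) (nat_lit 322) (nat_lit 243) (nat_lit 215)) (XT.lf (nat_lit 0) (nat_lit 10545807921) (nat_lit 76) (nat_lit 16054733656) (nat_lit 76) (nat_lit 2058477183) (nat_lit 15) (nat_lit 4) (nat_lit 16) (nat_lit 5) (nat_lit 16) (nat_lit 4) (nat_lit 323) (nat_lit 243) (nat_lit 214))))))) (XT.nd (nat_lit 1092) (nat_lit 304) (nat_lit 0) (XT.nd (nat_lit 546) (nat_lit 228) (nat_lit 0) (XT.nd (nat_lit 234) (nat_lit 152) (nat_lit 0) (XT.nd (nat_lit 78) (nat_lit 76) (nat_lit 0) (XT.lf (nat_lit 0) (nat_lit 3960454915) (nat_lit 152) (nat_lit 6170415986) (nat_lit 76) (nat_lit 19750415894) (nat_lit 14) (nat_lit 5) (nat_lit 16) (nat_lit 5) (nat_lit 15) (nat_lit 4) (nat_lit 324) (nat_lit 243) (nat_lit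 213)) (XT.nd (nat_lit 78) (nat_lit 0) (nat_lit 0) (XT.lf (nat_lit 0) (nat_lit 6274800154) (nat_lit 76) (nat_lit 3916646991) (nat_lit 152) (nat_lit 20974029594) (nat_lit 13) (nat_lit 5) (nat_lit 14) (nat_lit 5) (nat_lit 15) (nat_lit 4) (nat_lit 325) (nat_lit 243) (nat_lit 212)) (XT.lf (nat_lit 0) (nat_lit 16718609000) (nat_lit 152) (nat_lit 13259513430) (nat_lit 0) (nat_lit 2536244212) (nat_lit 13) (nat_lit 5) (nat_lit 15) (nat_lit 4) (nat_lit 13) (nat_lit 4) (nat_lit 326) (nat_lit 243) (nat_lit 211)))) (XT.nd (nat_lit 156) (nat_lit 76) (nat_lit 0) (XT.nd (nat_lit 78) (nat_lit 76) (nat_lit 0) (XT.lf (nat_lit 0) (nat_lit 23512041243) (nat_lit 152) (nat_lit 1270192456) (nat_lit 0) (nat_lit 9150297651) (nat_lit 13) (nat_lit 5) (nat_lit 15) (nat_lit 4) (nat_lit 13) (nat_lit 4) (nat_lit 327) (nat_lit 243) (nat_lit 210)) (XT.lf (nat_lit 0) (nat_lit 11365258678) (nat_lit 76) (nat_lit 19294260650)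 (nat_lit 76) (nat_lit 4761680099) (nat_lit 12) (nat_lit 4) (nat_lit 13) (nat_lit 5) (nat_lit 13) (nat_lit 4) (nat_lit 328) (nat_lit 243) (nat_lit 209))) (XT.nd (nat_lit 78) (nat_lit 0) (nat_lit 0) (XT.lf (nat_lit 0) (nat_lit 1077319774) (nat_lit 152) (nat_lit 12508323273) (nat_lit 76) (nat_lit 23400733624) (nat_lit 11) (nat_lit 5) (nat_lit 13) (nat_lit 5) (nat_lit 12) (nat_lit 4) (nat_lit 329) (nat_lit 243) (nat_lit 208)) (XT.lf (nat_lit 0) (nat_lit 7022203205) (nat_lit 152) (nat_lit 595164064) (nat_lit 76) (nat_lit 31013681988) (nat_lit 11) (nat_lit 5) (nat_lit 13) (nat_lit 5) (nat_lit 12) (nat_lit 4) (nat_lit 330) (nat_lit 243) (nat_lit 207))))) (XT.nd (nat_lit 234) (nat_lit 152) (nat_lit 0) (XT.nd (nat_lit 78) (nat_lit 0) (nat_lit 0) (XT.lf (nat_lit 0) (nat_lit 11991674484) (nat_lit 76) (nat_lit 1303639034) (nat_lit 152) (nat_lit 27061734582) (nat_lit 10) (nat_lit 5) (nat_lit 11) (nat_lit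 5) (nat_lit 12) (nat_lit 4) (nat_lit 331) (nat_lit 243) (nat_lit 206)) (XT.nd (nat_lit 78) (nat_lit 0) (nat_lit 0) (XT.lf (nat_lit 0) (nat_lit 19857059324) (nat_lit 152) (nat_lit 17153436734) (nat_lit 0) (nat_lit 5159622482) (nat_lit 10) (nat_lit 5) (nat_lit 12) (nat_lit 4) (nat_lit 10) (nat_lit 4) (nat_lit 332) (nat_lit 243) (nat_lit 205)) (XT.lf (nat_lit 0) (nat_lit 26681572281) (nat_lit 152) (nat_lit 5540070969) (nat_lit 0) (nat_lit 11854178909) (nat_lit 10) (nat_lit 5) (nat_lit 12) (nat_lit 4) (nat_lit 10) (nat_lit 4) (nat_lit 333) (nat_lit 243) (nat_lit 204)))) (XT.nd (nat_lit 156) (nat_lit 76) (nat_lit 0) (XT.nd (nat_lit 78) (nat_lit 0) (nat_lit 0) (XT.lf (nat_lit 0) (nat_lit 6644565328) (nat_lit 76) (nat_lit 27191876154) (nat_lit 76) (nat_lit 12240714657) (nat_lit 9) (nat_lit 4) (nat_lit 10) (nat_lit 5) (nat_lit 10) (nat_lit 4) (nat_lit 334) (nat_lit 243) (nat_lit 203)) (XT.lf (nat_lit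 0) (nat_lit 19419133517) (nat_lit 76) (nat_lit 21914470448) (nat_lit 76) (nat_lit 6845434546) (nat_lit 9) (nat_lit 4) (nat_lit 10) (nat_lit 5) (nat_lit 10) (nat_lit 4) (nat_lit 335) (nat_lit 243) (nat_lit 202))) (XT.nd (nat_lit 78) (nat_lit 76) (nat_lit 0) (XT.lf (nat_lit 0) (nat_lit 32703790961) (nat_lit 76) (nat_lit 16432804734) (nat_lit 76) (nat_lit 1251507495) (nat_lit 9) (nat_lit 4) (nat_lit 10) (nat_lit 5) (nat_lit 10) (nat_lit 4) (nat_lit 336) (nat_lit 243) (nat_lit 201)) (XT.lf (nat_lit 0) (nat_lit 4465512907) (nat_lit 152) (nat_lit 6223221595) (nat_lit 76) (nat_lit 42019561965) (nat_lit 8) (nat_lit 5) (nat_lit 10) (nat_lit 5) (nat_lit 9) (nat_lit 4) (nat_lit 337) (nat_lit 243) (nat_lit 200)))))) (XT.nd (nat_lit 546) (nat_lit 152) (nat_lit 0) (XT.nd (nat_lit 234) (nat_lit 76) (nat_lit 0) (XT.nd (nat_lit 78) (nat_lit 0) (nat_lit 0) (XT.lf (nat_lit 0) (nat_lit 5793388182) (nat_lit 76)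 (nat_lit 4641796705) (nat_lit 152) (nat_lit 44709177531) (nat_lit 7) (nat_lit 5) (nat_lit 8) (nat_lit 5) (nat_lit 9) (nat_lit 4) (nat_lit 338) (nat_lit 243) (nat_lit 199)) (XT.nd (nat_lit 78) (nat_lit 0) (nat_lit 0) (XT.lf (nat_lit 0) (nat_lit 16722602861) (nat_lit 152) (nat_lit 39292397265) (nat_lit 0) (nat_lit 1686668196) (nat_lit 7) (nat_lit 5) (nat_lit 9) (nat_lit 4) (nat_lit 7) (nat_lit 4) (nat_lit 339) (nat_lit 243) (nat_lit 198)) (XT.lf (nat_lit 0) (nat_lit 23312339767) (nat_lit 152) (nat_lit 28888137698) (nat_lit 0) (nat_lit 8186737451) (nat_lit 7) (nat_lit 5) (nat_lit 9) (nat_lit 4) (nat_lit 7) (nat_lit 4) (nat_lit 340) (nat_lit 243) (nat_lit 197)))) (XT.nd (nat_lit 156) (nat_lit 76) (nat_lit 0) (XT.nd (nat_lit 78) (nat_lit 0) (nat_lit 0) (XT.lf (nat_lit 0) (nat_lit 30175465665) (nat_lit 152) (nat_lit 18068803702) (nat_lit 0) (nat_lit 14964465587) (nat_lit 7) (nat_lit 5) (nat_lit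 9) (nat_lit 4) (nat_lit 7) (nat_lit 4) (nat_lit 341) (nat_lit 243) (nat_lit 196)) (XT.lf (nat_lit 0) (nat_lit 37328321331) (nat_lit 152) (nat_lit 6808634956) (nat_lit 0) (nat_lit 22035990050) (nat_lit 7) (nat_lit 5) (nat_lit 9) (nat_lit 4) (nat_lit 7) (nat_lit 4) (nat_lit 342) (nat_lit 243) (nat_lit 195))) (XT.nd (nat_lit 78) (nat_lit 0) (nat_lit 0) (XT.lf (nat_lit 0) (nat_lit 5017079761) (nat_lit 76) (nat_lit 39819084852) (nat_lit 76) (nat_lit 24449295283) (nat_lit 6) (nat_lit 4) (nat_lit 7) (nat_lit 5) (nat_lit 7) (nat_lit 4) (nat_lit 343) (nat_lit 243) (nat_lit 194)) (XT.lf (nat_lit 0) (nat_lit 17483730481) (nat_lit 76) (nat_lit 35256408616) (nat_lit 76) (nat_lit 19812849249) (nat_lit 6) (nat_lit 4) (nat_lit 7) (nat_lit 5) (nat_lit 7) (nat_lit 4) (nat_lit 344) (nat_lit 243) (nat_lit 193))))) (XT.nd (nat_lit 234) (nat_lit 152) (nat_lit 0) (XT.nd (nat_lit 78) (nat_lit 0) (nat_lit 0) (XT.lf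 (nat_lit 0) (nat_lit 30485494518) (nat_lit 76) (nat_lit 30506817926) (nat_lit 76) (nat_lit 14993001609) (nat_lit 6) (nat_lit 4) (nat_lit 7) (nat_lit 5) (nat_lit 7) (nat_lit 4) (nat_lit 345) (nat_lit 243) (nat_lit 192)) (XT.nd (nat_lit 78) (nat_lit 0) (nat_lit 0) (XT.lf (nat_lit 0) (nat_lit 44053328454) (nat_lit 76) (nat_lit 25559004235) (nat_lit 76) (nat_lit 9978276536) (nat_lit 6) (nat_lit 4) (nat_lit 7) (nat_lit 5) (nat_lit 7) (nat_lit 4) (nat_lit 346) (nat_lit 243) (nat_lit 191)) (XT.lf (nat_lit 0) (nat_lit 58219536656) (nat_lit 76) (nat_lit 20401187032) (nat_lit 76) (nat_lit 4756734208) (nat_lit 6) (nat_lit 4) (nat_lit 7) (nat_lit 5) (nat_lit 7) (nat_lit 4) (nat_lit 347) (nat_lit 243) (nat_lit 190)))) (XT.nd (nat_lit 156) (nat_lit 76) (nat_lit 0) (XT.nd (nat_lit 78) (nat_lit 0) (nat_lit 0) (XT.lf (nat_lit 0) (nat_lit 670709189) (nat_lit 152) (nat_lit 14343603763) (nat_lit 76) (nat_lit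 72340366152) (nat_lit 5) (nat_lit 5) (nat_lit 7) (nat_lit 5) (nat_lit 6) (nat_lit 4) (nat_lit 348) (nat_lit 243) (nat_lit 189)) (XT.lf (nat_lit 0) (nat_lit 6233004203) (nat_lit 152) (nat_lit 3109945452) (nat_lit 76) (nat_lit 82187551806) (nat_lit 5) (nat_lit 5) (nat_lit 7) (nat_lit 5) (nat_lit 6) (nat_lit 4) (nat_lit 349) (nat_lit 243) (nat_lit 188))) (XT.nd (nat_lit 78) (nat_lit 0) (nat_lit 0) (XT.lf (nat_lit 0) (nat_lit 8786990981) (nat_lit 76) (nat_lit 3333690361) (nat_lit 152) (nat_lit 83793023819) (nat_lit 4) (nat_lit 5) (nat_lit 5) (nat_lit 5) (nat_lit 6) (nat_lit 4) (nat_lit 350) (nat_lit 243) (nat_lit 187)) (XT.lf (nat_lit 0) (nat_lit 18327295741) (nat_lit 152) (nat_lit 79268922566) (nat_lit 0) (nat_lit 2919121990) (nat_lit 4) (nat_lit 5) (nat_lit 6) (nat_lit 4) (nat_lit 4) (nat_lit 4) (nat_lit 351) (nat_lit 243) (nat_lit 186))))))))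
noncomputable def xc24 : XT := (XT.nd (nat_lit 36972) (nat_lit 0) (nat_lit 532) (XT.nd (nat_lit 1014) (nat_lit 0) (nat_lit 0) (XT.nd (nat_lit 468) (nat_lit 76) (nat_lit 0) (XT.nd (nat_lit 234) (nat_lit 0) (nat_lit 0) (XT.nd (nat_lit 78) (nat_lit 0) (nat_lit 0) (XT.lf (nat_lit 0) (nat_lit 24843236077) (nat_lit 152) (nat_lit 71117272432) (nat_lit 0) (nat_lit 9386586304) (nat_lit 4) (nat_lit 5) (nat_lit 6) (nat_lit 4) (nat_lit 4) (nat_lit 4) (nat_lit 352) (nat_lit 243) (nat_lit 185)) (XT.nd (nat_lit 78) (nat_lit 0) (nat_lit 0) (XT.lf (nat_lit 0) (nat_lit 31651971024) (nat_lit 152) (nat_lit 62620309617) (nat_lit 0) (nat_lit 16149153611) (nat_lit 4) (nat_lit 5) (nat_lit 6) (nat_lit 4) (nat_lit 4) (nat_lit 4) (nat_lit 353) (nat_lit 243) (nat_lit 184)) (XT.lf (nat_lit 0) (nat_lit 38769711855) (nat_lit 152) (nat_lit 53757803257) (nat_lit 0) (nat_lit 23222925261) (nat_lit 4) (nat_lit 5) (nat_lit 6)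 (nat_lit 4) (nat_lit 4) (nat_lit 4) (nat_lit 354) (nat_lit 243) (nat_lit 183)))) (XT.nd (nat_lit 78) (nat_lit 0) (nat_lit 0) (XT.lf (nat_lit 0) (nat_lit 46213405573) (nat_lit 152) (nat_lit 44508652146) (nat_lit 0) (nat_lit 30624743567) (nat_lit 4) (nat_lit 5) (nat_lit 6) (nat_lit 4) (nat_lit 4) (nat_lit 4) (nat_lit 355) (nat_lit 243) (nat_lit 182)) (XT.nd (nat_lit 78) (nat_lit 0) (nat_lit 0) (XT.lf (nat_lit 0) (nat_lit 54000775256) (nat_lit 152) (nat_lit 34850834497) (nat_lit 0) (nat_lit 38372231907) (nat_lit 4) (nat_lit 5) (nat_lit 6) (nat_lit 4) (nat_lit 4) (nat_lit 4) (nat_lit 356) (nat_lit 243) (nat_lit 181)) (XT.lf (nat_lit 0) (nat_lit 62150362263) (nat_lit 152) (nat_lit 24761355504) (nat_lit 0) (nat_lit 46483836682) (nat_lit 4) (nat_lit 5) (nat_lit 6) (nat_lit 4) (nat_lit 4) (nat_lit 4) (nat_lit 357) (nat_lit 243) (nat_lit 180))))) (XT.nd (nat_lit 234) (nat_lit 0) (nat_lit 0) (XT.nd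 (nat_lit 78) (nat_lit 76) (nat_lit 0) (XT.lf (nat_lit 0) (nat_lit 70681570370) (nat_lit 152) (nat_lit 14216192599) (nat_lit 0) (nat_lit 54978871235) (nat_lit 4) (nat_lit 5) (nat_lit 6) (nat_lit 4) (nat_lit 4) (nat_lit 4) (nat_lit 358) (nat_lit 243) (nat_lit 179)) (XT.nd (nat_lit 78) (nat_lit 76) (nat_lit 0) (XT.lf (nat_lit 0) (nat_lit 79614711980) (nat_lit 152) (nat_lit 3190238252) (nat_lit 0) (nat_lit 63877561840) (nat_lit 4) (nat_lit 5) (nat_lit 6) (nat_lit 4) (nat_lit 4) (nat_lit 4) (nat_lit 359) (nat_lit 243) (nat_lit 178)) (XT.lf (nat_lit 0) (nat_lit 8508797088) (nat_lit 76) (nat_lit 80544051150) (nat_lit 76) (nat_lit 64774090530) (nat_lit 3) (nat_lit 4) (nat_lit 4) (nat_lit 5) (nat_lit 4) (nat_lit 4) (nat_lit 360) (nat_lit 243) (nat_lit 177)))) (XT.nd (nat_lit 156) (nat_lit 0) (nat_lit 0) (XT.nd (nat_lit 78) (nat_lit 0) (nat_lit 0) (XT.lf (nat_lit 0) (nat_lit 20816465323) (nat_lit 76)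 (nat_lit 78156516145) (nat_lit 76) (nat_lit 62355307449) (nat_lit 3) (nat_lit 4) (nat_lit 4) (nat_lit 5) (nat_lit 4) (nat_lit 4) (nat_lit 361) (nat_lit 243) (nat_lit 176)) (XT.lf (nat_lit 0) (nat_lit 33698578425) (nat_lit 76) (nat_lit 75668875761) (nat_lit 76) (nat_lit 59837906993) (nat_lit 3) (nat_lit 4) (nat_lit 4) (nat_lit 5) (nat_lit 4) (nat_lit 4) (nat_lit 362) (nat_lit 243) (nat_lit 175))) (XT.nd (nat_lit 78) (nat_lit 0) (nat_lit 0) (XT.lf (nat_lit 0) (nat_lit 47185808094) (nat_lit 76) (nat_lit 73075207045) (nat_lit 76) (nat_lit 57215895350) (nat_lit 3) (nat_lit 4) (nat_lit 4) (nat_lit 5) (nat_lit 4) (nat_lit 4) (nat_lit 363) (nat_lit 243) (nat_lit 174)) (XT.lf (nat_lit 0) (nat_lit 61310266782) (nat_lit 76) (nat_lit 70369334595) (nat_lit 76) (nat_lit 54483029638) (nat_lit 3) (nat_lit 4) (nat_lit 4) (nat_lit 5) (nat_lit 4) (nat_lit 4) (nat_lit 364) (nat_lit 243) (nat_lit 173)))))) (XT.nd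 (nat_lit 35412) (nat_lit 0) (nat_lit 2888) (XT.nd (nat_lit 35100) (nat_lit 0) (nat_lit 4332) (XT.nd (nat_lit 34944) (nat_lit 0) (nat_lit 5472) (XT.lf (nat_lit 0) (nat_lit 76105584150) (nat_lit 76) (nat_lit 67544815858) (nat_lit 76) (nat_lit 51632803031) (nat_lit 3) (nat_lit 4) (nat_lit 4) (nat_lit 5) (nat_lit 4) (nat_lit 4) (nat_lit 365) (nat_lit 243) (nat_lit 172)) (XT.nd (nat_lit 78) (nat_lit 304) (nat_lit 0) (XT.lf (nat_lit 0) (nat_lit 860044712) (nat_lit 304) (nat_lit 3245773730) (nat_lit 0) (nat_lit 860044712) (nat_lit 79) (nat_lit 5) (nat_lit 83) (nat_lit 4) (nat_lit 79) (nat_lit 4) (nat_lit 292) (nat_lit 244) (nat_lit 244)) (XT.lf (nat_lit 0) (nat_lit 5170570154) (nat_lit 304) (nat_lit 3166059633) (nat_lit 304) (nat_lit 1848100577) (nat_lit 75) (nat_lit 4) (nat_lit 79) (nat_lit 5) (nat_lit 79) (nat_lit 4) (nat_lit 293) (nat_lit 244) (nat_lit 243)))) (XT.nd (nat_lit 156) (nat_lit 532)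 (nat_lit 0) (XT.nd (nat_lit 78) (nat_lit 304) (nat_lit 0) (XT.lf (nat_lit 0) (nat_lit 4639142312) (nat_lit 304) (nat_lit 3672110400) (nat_lit 0) (nat_lit 2140930509) (nat_lit 71) (nat_lit 5) (nat_lit 75) (nat_lit 4) (nat_lit 71) (nat_lit 4) (nat_lit 294) (nat_lit 244) (nat_lit 242)) (XT.lf (nat_lit 0) (nat_lit 582911420) (nat_lit 304) (nat_lit 2475511052) (nat_lit 76) (nat_lit 7676531579) (nat_lit 67) (nat_lit 5) (nat_lit 71) (nat_lit 5) (nat_lit 68) (nat_lit 4) (nat_lit 295) (nat_lit 244) (nat_lit 241))) (XT.nd (nat_lit 78) (nat_lit 304) (nat_lit 0) (XT.lf (nat_lit 0) (nat_lit 7092939626) (nat_lit 304) (nat_lit 1472389592) (nat_lit 0) (nat_lit 2467538119) (nat_lit 64) (nat_lit 5) (nat_lit 68) (nat_lit 4) (nat_lit 64) (nat_lit 4) (nat_lit 296) (nat_lit 244) (nat_lit 240)) (XT.lf (nat_lit 0) (nat_lit 2456644044) (nat_lit 304) (nat_lit 660459695) (nat_lit 76) (nat_lit 8230253317) (nat_lit 60)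 (nat_lit 5) (nat_lit 64) (nat_lit 5) (nat_lit 61) (nat_lit 4) (nat_lit 297) (nat_lit 244) (nat_lit 239))))) (XT.nd (nat_lit 234) (nat_lit 608) (nat_lit 0) (XT.nd (nat_lit 78) (nat_lit 684) (nat_lit 0) (XT.lf (nat_lit 0) (nat_lit 9015662513) (nat_lit 228) (nat_lit 75483062) (nat_lit 0) (nat_lit 2587678174) (nat_lit 58) (nat_lit 5) (nat_lit 61) (nat_lit 4) (nat_lit 58) (nat_lit 4) (nat_lit 298) (nat_lit 244) (nat_lit 238)) (XT.nd (nat_lit 78) (nat_lit 228) (nat_lit 0) (XT.lf (nat_lit 0) (nat_lit 255285201) (nat_lit 152) (nat_lit 3480327746) (nat_lit 228) (nat_lit 8292203719) (nat_lit 52) (nat_lit 5) (nat_lit 54) (nat_lit 5) (nat_lit 55) (nat_lit 4) (nat_lit 299) (nat_lit 244) (nat_lit 237)) (XT.lf (nat_lit 0) (nat_lit 309796474) (nat_lit 228) (nat_lit 10016382266) (nat_lit 228) (nat_lit 2069609928) (nat_lit 49) (nat_lit 4) (nat_lit 52) (nat_lit 5) (nat_lit 52) (nat_lit 4) (nat_lit 300) (nat_lit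 244) (nat_lit 236)))) (XT.nd (nat_lit 156) (nat_lit 380) (nat_lit 0) (XT.nd (nat_lit 78) (nat_lit 0) (nat_lit 0) (XT.lf (nat_lit 0) (nat_lit 24030697) (nat_lit 152) (nat_lit 4292902729) (nat_lit 228) (nat_lit 8465859298) (nat_lit 46) (nat_lit 5) (nat_lit 48) (nat_lit 5) (nat_lit 49) (nat_lit 4) (nat_lit 301) (nat_lit 244) (nat_lit 235)) (XT.lf (nat_lit 0) (nat_lit 10910390996) (nat_lit 228) (nat_lit 587596752) (nat_lit 0) (nat_lit 1692745885) (nat_lit 46) (nat_lit 5) (nat_lit 49) (nat_lit 4) (nat_lit 46) (nat_lit 4) (nat_lit 302) (nat_lit 244) (nat_lit 234))) (XT.nd (nat_lit 78) (nat_lit 152) (nat_lit 0) (XT.lf (nat_lit 0) (nat_lit 4088739890) (nat_lit 228) (nat_lit 1615450711) (nat_lit 76) (nat_lit 7915074314) (nat_lit 43) (nat_lit 5) (nat_lit 46) (nat_lit 5) (nat_lit 44) (nat_lit 4) (nat_lit 303) (nat_lit 244) (nat_lit 233)) (XT.lf (nat_lit 0) (nat_lit 10647711016) (nat_lit 228) (nat_lit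 3047805567) (nat_lit 0) (nat_lit 375570562) (nat_lit 41) (nat_lit 5) (nat_lit 44) (nat_lit 4) (nat_lit 41) (nat_lit 4) (nat_lit 304) (nat_lit 244) (nat_lit 232))))))) (XT.nd (nat_lit 1092) (nat_lit 760) (nat_lit 0) (XT.nd (nat_lit 546) (nat_lit 608) (nat_lit 0) (XT.nd (nat_lit 234) (nat_lit 380) (nat_lit 0) (XT.nd (nat_lit 78) (nat_lit 380) (nat_lit 0) (XT.lf (nat_lit 0) (nat_lit 2904342450) (nat_lit 228) (nat_lit 4990945694) (nat_lit 76) (nat_lit 6650236190) (nat_lit 38) (nat_lit 5) (nat_lit 41) (nat_lit 5) (nat_lit 39) (nat_lit 4) (nat_lit 305) (nat_lit 244) (nat_lit 231)) (XT.nd (nat_lit 78) (nat_lit 228) (nat_lit 0) (XT.lf (nat_lit 0) (nat_lit 7598937260) (nat_lit 152) (nat_lit 1795669096) (nat_lit 228) (nat_lit 5650639068) (nat_lit 36) (nat_lit 5) (nat_lit 38) (nat_lit 5) (nat_lit 39) (nat_lit 4) (nat_lit 306) (nat_lit 244) (nat_lit 230)) (XT.lf (nat_lit 0) (nat_lit 587893942) (nat_lit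 228) (nat_lit 10485791296) (nat_lit 76) (nat_lit 4497335797) (nat_lit 33) (nat_lit 5) (nat_lit 36) (nat_lit 5) (nat_lit 34) (nat_lit 4) (nat_lit 307) (nat_lit 244) (nat_lit 229)))) (XT.nd (nat_lit 156) (nat_lit 304) (nat_lit 0) (XT.nd (nat_lit 78) (nat_lit 0) (nat_lit 0) (XT.lf (nat_lit 0) (nat_lit 1927746051) (nat_lit 76) (nat_lit 5029116130) (nat_lit 152) (nat_lit 9166560883) (nat_lit 32) (nat_lit 5) (nat_lit 33) (nat_lit 5) (nat_lit 34) (nat_lit 4) (nat_lit 308) (nat_lit 244) (nat_lit 228)) (XT.lf (nat_lit 0) (nat_lit 13590581407) (nat_lit 152) (nat_lit 1840089422) (nat_lit 0) (nat_lit 1274458832) (nat_lit 32) (nat_lit 5) (nat_lit 34) (nat_lit 4) (nat_lit 32) (nat_lit 4) (nat_lit 309) (nat_lit 244) (nat_lit 227))) (XT.nd (nat_lit 78) (nat_lit 76) (nat_lit 0) (XT.lf (nat_lit 0) (nat_lit 3166187504) (nat_lit 228) (nat_lit 6342688962) (nat_lit 76) (nat_lit 7806498324) (nat_lit 29) (nat_lit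 5) (nat_lit 32) (nat_lit 5) (nat_lit 30) (nat_lit 4) (nat_lit 310) (nat_lit 244) (nat_lit 226)) (XT.lf (nat_lit 0) (nat_lit 6313024121) (nat_lit 76) (nat_lit 3300466108) (nat_lit 152) (nat_lit 8344273281) (nat_lit 28) (nat_lit 5) (nat_lit 29) (nat_lit 5) (nat_lit 30) (nat_lit 4) (nat_lit 311) (nat_lit 244) (nat_lit 225))))) (XT.nd (nat_lit 234) (nat_lit 304) (nat_lit 0) (XT.nd (nat_lit 78) (nat_lit 152) (nat_lit 0) (XT.lf (nat_lit 0) (nat_lit 804938318) (nat_lit 152) (nat_lit 15523301022) (nat_lit 152) (nat_lit 2305741569) (nat_lit 26) (nat_lit 4) (nat_lit 28) (nat_lit 5) (nat_lit 28) (nat_lit 4) (nat_lit 312) (nat_lit 244) (nat_lit 224)) (XT.nd (nat_lit 78) (nat_lit 76) (nat_lit 0) (XT.lf (nat_lit 0) (nat_lit 3954191281) (nat_lit 228) (nat_lit 5571249431) (nat_lit 76) (nat_lit 9817515780) (nat_lit 25) (nat_lit 5) (nat_lit 28) (nat_lit 5) (nat_lit 26) (nat_lit 4) (nat_lit 313) (nat_lit 244)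 (nat_lit 223)) (XT.lf (nat_lit 0) (nat_lit 7150945768) (nat_lit 76) (nat_lit 3248942552) (nat_lit 152) (nat_lit 9689248360) (nat_lit 24) (nat_lit 5) (nat_lit 25) (nat_lit 5) (nat_lit 26) (nat_lit 4) (nat_lit 314) (nat_lit 244) (nat_lit 222)))) (XT.nd (nat_lit 156) (nat_lit 76) (nat_lit 0) (XT.nd (nat_lit 78) (nat_lit 228) (nat_lit 0) (XT.lf (nat_lit 0) (nat_lit 17112703392) (nat_lit 152) (nat_lit 538374455) (nat_lit 0) (nat_lit 3223254765) (nat_lit 24) (nat_lit 5) (nat_lit 26) (nat_lit 4) (nat_lit 24) (nat_lit 4) (nat_lit 315) (nat_lit 244) (nat_lit 221)) (XT.lf (nat_lit 0) (nat_lit 2428527959) (nat_lit 228) (nat_lit 9278819867) (nat_lit 76) (nat_lit 9990352046) (nat_lit 21) (nat_lit 5) (nat_lit 24) (nat_lit 5) (nat_lit 22) (nat_lit 4) (nat_lit 316) (nat_lit 244) (nat_lit 220))) (XT.nd (nat_lit 78) (nat_lit 0) (nat_lit 0) (XT.lf (nat_lit 0) (nat_lit 3254990595) (nat_lit 76) (nat_lit 5497620866)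 (nat_lit 152) (nat_lit 13811485831) (nat_lit 20) (nat_lit 5) (nat_lit 21) (nat_lit 5) (nat_lit 22) (nat_lit 4) (nat_lit 317) (nat_lit 244) (nat_lit 219)) (XT.lf (nat_lit 0) (nat_lit 15366955701) (nat_lit 152) (nat_lit 7111996479) (nat_lit 0) (nat_lit 995684087) (nat_lit 20) (nat_lit 5) (nat_lit 22) (nat_lit 4) (nat_lit 20) (nat_lit 4) (nat_lit 318) (nat_lit 244) (nat_lit 218)))))) (XT.nd (nat_lit 546) (nat_lit 304) (nat_lit 0) (XT.nd (nat_lit 234) (nat_lit 152) (nat_lit 0) (XT.nd (nat_lit 78) (nat_lit 152) (nat_lit 0) (XT.lf (nat_lit 0) (nat_lit 5518923513) (nat_lit 152) (nat_lit 16775694492) (nat_lit 152) (nat_lit 2136647481) (nat_lit 18) (nat_lit 4) (nat_lit 20) (nat_lit 5) (nat_lit 20) (nat_lit 4) (nat_lit 319) (nat_lit 244) (nat_lit 217)) (XT.nd (nat_lit 78) (nat_lit 76) (nat_lit 0) (XT.lf (nat_lit 0) (nat_lit 4002904808) (nat_lit 228) (nat_lit 6768174437) (nat_lit 76) (nat_lit 14664974795)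 (nat_lit 17) (nat_lit 5) (nat_lit 20) (nat_lit 5) (nat_lit 18) (nat_lit 4) (nat_lit 320) (nat_lit 244) (nat_lit 216)) (XT.lf (nat_lit 0) (nat_lit 5862509938) (nat_lit 76) (nat_lit 4482052285) (nat_lit 152) (nat_lit 16147742034) (nat_lit 16) (nat_lit 5) (nat_lit 17) (nat_lit 5) (nat_lit 18) (nat_lit 4) (nat_lit 321) (nat_lit 244) (nat_lit 215)))) (XT.nd (nat_lit 156) (nat_lit 76) (nat_lit 0) (XT.nd (nat_lit 78) (nat_lit 76) (nat_lit 0) (XT.lf (nat_lit 0) (nat_lit 16979308787) (nat_lit 152) (nat_lit 8564150315) (nat_lit 0) (nat_lit 2058662348) (nat_lit 16) (nat_lit 5) (nat_lit 18) (nat_lit 4) (nat_lit 16) (nat_lit 4) (nat_lit 322) (nat_lit 244) (nat_lit 214)) (XT.lf (nat_lit 0) (nat_lit 3936393810) (nat_lit 76) (nat_lit 19983192163) (nat_lit 76) (nat_lit 4848662733) (nat_lit 15) (nat_lit 4) (nat_lit 16) (nat_lit 5) (nat_lit 16) (nat_lit 4) (nat_lit 323) (nat_lit 244) (nat_lit 213))) (XT.nd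 (nat_lit 78) (nat_lit 0) (nat_lit 0) (XT.lf (nat_lit 0) (nat_lit 1172507656) (nat_lit 152) (nat_lit 12958036975) (nat_lit 76) (nat_lit 15862357875) (nat_lit 14) (nat_lit 5) (nat_lit 16) (nat_lit 5) (nat_lit 15) (nat_lit 4) (nat_lit 324) (nat_lit 244) (nat_lit 212)) (XT.lf (nat_lit 0) (nat_lit 7293460498) (nat_lit 152) (nat_lit 726500883) (nat_lit 76) (nat_lit 23260446427) (nat_lit 14) (nat_lit 5) (nat_lit 16) (nat_lit 5) (nat_lit 15) (nat_lit 4) (nat_lit 325) (nat_lit 244) (nat_lit 211))))) (XT.nd (nat_lit 234) (nat_lit 152) (nat_lit 0) (XT.nd (nat_lit 78) (nat_lit 76) (nat_lit 0) (XT.lf (nat_lit 0) (nat_lit 12176083644) (nat_lit 76) (nat_lit 1564344685) (nat_lit 152) (nat_lit 18891288705) (nat_lit 13) (nat_lit 5) (nat_lit 14) (nat_lit 5) (nat_lit 15) (nat_lit 4) (nat_lit 326) (nat_lit 244) (nat_lit 210)) (XT.nd (nat_lit 78) (nat_lit 76) (nat_lit 0) (XT.lf (nat_lit 0) (nat_lit 20472542359)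 (nat_lit 152) (nat_lit 8536695964) (nat_lit 0) (nat_lit 5042495823) (nat_lit 13) (nat_lit 5) (nat_lit 15) (nat_lit 4) (nat_lit 13) (nat_lit 4) (nat_lit 327) (nat_lit 244) (nat_lit 209)) (XT.lf (nat_lit 0) (nat_lit 3871165093) (nat_lit 76) (nat_lit 23632740610) (nat_lit 76) (nat_lit 8039992209) (nat_lit 12) (nat_lit 4) (nat_lit 13) (nat_lit 5) (nat_lit 13) (nat_lit 4) (nat_lit 328) (nat_lit 244) (nat_lit 208)))) (XT.nd (nat_lit 156) (nat_lit 76) (nat_lit 0) (XT.nd (nat_lit 78) (nat_lit 76) (nat_lit 0) (XT.lf (nat_lit 0) (nat_lit 16915817287) (nat_lit 76) (nat_lit 17971285538) (nat_lit 76) (nat_lit 2223582981) (nat_lit 12) (nat_lit 4) (nat_lit 13) (nat_lit 5) (nat_lit 13) (nat_lit 4) (nat_lit 329) (nat_lit 244) (nat_lit 207)) (XT.lf (nat_lit 0) (nat_lit 3723574172) (nat_lit 152) (nat_lit 8336422374) (nat_lit 76) (nat_lit 26697247357) (nat_lit 11) (nat_lit 5) (nat_lit 13) (nat_lit 5) (nat_lit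 12) (nat_lit 4) (nat_lit 330) (nat_lit 244) (nat_lit 206))) (XT.nd (nat_lit 78) (nat_lit 0) (nat_lit 0) (XT.lf (nat_lit 0) (nat_lit 4022443485) (nat_lit 76) (nat_lit 5858477409) (nat_lit 152) (nat_lit 30605805029) (nat_lit 10) (nat_lit 5) (nat_lit 11) (nat_lit 5) (nat_lit 12) (nat_lit 4) (nat_lit 331) (nat_lit 244) (nat_lit 205)) (XT.lf (nat_lit 0) (nat_lit 16360600816) (nat_lit 152) (nat_lit 25279786062) (nat_lit 0) (nat_lit 661881244) (nat_lit 10) (nat_lit 5) (nat_lit 12) (nat_lit 4) (nat_lit 10) (nat_lit 4) (nat_lit 332) (nat_lit 244) (nat_lit 204))))))))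
noncomputable def xc25 : XT := (XT.nd (nat_lit 2184) (nat_lit 76) (nat_lit 0) (XT.nd (nat_lit 1092) (nat_lit 152) (nat_lit 0) (XT.nd (nat_lit 546) (nat_lit 76) (nat_lit 0) (XT.nd (nat_lit 234) (nat_lit 152) (nat_lit 0) (XT.nd (nat_lit 78) (nat_lit 76) (nat_lit 0) (XT.lf (nat_lit 0) (nat_lit 23148654734) (nat_lit 152) (nat_lit 13734253057) (nat_lit 0) (nat_lit 7326167037) (nat_lit 10) (nat_lit 5) (nat_lit 12) (nat_lit 4) (nat_lit 10) (nat_lit 4) (nat_lit 333) (nat_lit 244) (nat_lit 203)) (XT.nd (nat_lit 78) (nat_lit 76) (nat_lit 0) (XT.lf (nat_lit 0) (nat_lit 30204929413) (nat_lit 152) (nat_lit 1743878790) (nat_lit 0) (nat_lit 14264567312) (nat_lit 10) (nat_lit 5) (nat_lit 12) (nat_lit 4) (nat_lit 10) (nat_lit 4) (nat_lit 334) (nat_lit 244) (nat_lit 202)) (XT.lf (nat_lit 0) (nat_lit 10933231984) (nat_lit 76) (nat_lit 26718090438) (nat_lit 76) (nat_lit 10665466999) (nat_lit 9) (nat_lit 4) (nat_lit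 10) (nat_lit 5) (nat_lit 10) (nat_lit 4) (nat_lit 335) (nat_lit 244) (nat_lit 201)))) (XT.nd (nat_lit 156) (nat_lit 76) (nat_lit 0) (XT.nd (nat_lit 78) (nat_lit 76) (nat_lit 0) (XT.lf (nat_lit 0) (nat_lit 24158126755) (nat_lit 76) (nat_lit 21264118233) (nat_lit 76) (nat_lit 5104579235) (nat_lit 9) (nat_lit 4) (nat_lit 10) (nat_lit 5) (nat_lit 10) (nat_lit 4) (nat_lit 336) (nat_lit 244) (nat_lit 200)) (XT.lf (nat_lit 0) (nat_lit 656776502) (nat_lit 152) (nat_lit 14928107039) (nat_lit 76) (nat_lit 37264178101) (nat_lit 8) (nat_lit 5) (nat_lit 10) (nat_lit 5) (nat_lit 9) (nat_lit 4) (nat_lit 337) (nat_lit 244) (nat_lit 199))) (XT.nd (nat_lit 78) (nat_lit 76) (nat_lit 0) (XT.lf (nat_lit 0) (nat_lit 6541376060) (nat_lit 152) (nat_lit 3079345501) (nat_lit 76) (nat_lit 45666965292) (nat_lit 8) (nat_lit 5) (nat_lit 10) (nat_lit 5) (nat_lit 9) (nat_lit 4) (nat_lit 338) (nat_lit 244) (nat_lit 198))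 (XT.lf (nat_lit 0) (nat_lit 9439056818) (nat_lit 76) (nat_lit 3314516286) (nat_lit 152) (nat_lit 45093683030) (nat_lit 7) (nat_lit 5) (nat_lit 8) (nat_lit 5) (nat_lit 9) (nat_lit 4) (nat_lit 339) (nat_lit 244) (nat_lit 197))))) (XT.nd (nat_lit 234) (nat_lit 76) (nat_lit 0) (XT.nd (nat_lit 78) (nat_lit 0) (nat_lit 0) (XT.lf (nat_lit 0) (nat_lit 19284084045) (nat_lit 152) (nat_lit 38023365689) (nat_lit 0) (nat_lit 3227136201) (nat_lit 7) (nat_lit 5) (nat_lit 9) (nat_lit 4) (nat_lit 7) (nat_lit 4) (nat_lit 340) (nat_lit 244) (nat_lit 196)) (XT.nd (nat_lit 78) (nat_lit 0) (nat_lit 0) (XT.lf (nat_lit 0) (nat_lit 26121148223) (nat_lit 152) (nat_lit 27252876546) (nat_lit 0) (nat_lit 9982869176) (nat_lit 7) (nat_lit 5) (nat_lit 9) (nat_lit 4) (nat_lit 7) (nat_lit 4) (nat_lit 341) (nat_lit 244) (nat_lit 195)) (XT.lf (nat_lit 0) (nat_lit 33249183203) (nat_lit 152) (nat_lit 16039226708) (nat_lit 0)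 (nat_lit 17033445868) (nat_lit 7) (nat_lit 5) (nat_lit 9) (nat_lit 4) (nat_lit 7) (nat_lit 4) (nat_lit 342) (nat_lit 244) (nat_lit 194)))) (XT.nd (nat_lit 156) (nat_lit 0) (nat_lit 0) (XT.nd (nat_lit 78) (nat_lit 76) (nat_lit 0) (XT.lf (nat_lit 0) (nat_lit 40685160497) (nat_lit 152) (nat_lit 4355717010) (nat_lit 0) (nat_lit 24395653364) (nat_lit 7) (nat_lit 5) (nat_lit 9) (nat_lit 4) (nat_lit 7) (nat_lit 4) (nat_lit 343) (nat_lit 244) (nat_lit 193)) (XT.lf (nat_lit 0) (nat_lit 7981212635) (nat_lit 76) (nat_lit 40542292477) (nat_lit 76) (nat_lit 24182528393) (nat_lit 6) (nat_lit 4) (nat_lit 7) (nat_lit 5) (nat_lit 7) (nat_lit 4) (nat_lit 344) (nat_lit 244) (nat_lit 192))) (XT.nd (nat_lit 78) (nat_lit 0) (nat_lit 0) (XT.lf (nat_lit 0) (nat_lit 20941992134) (nat_lit 76) (nat_lit 35811851315) (nat_lit 76) (nat_lit 19385175851) (nat_lit 6) (nat_lit 4) (nat_lit 7) (nat_lit 5) (nat_lit 7) (nat_lit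 4) (nat_lit 345) (nat_lit 244) (nat_lit 191)) (XT.lf (nat_lit 0) (nat_lit 34470793177) (nat_lit 76) (nat_lit 30882275269) (nat_lit 76) (nat_lit 14391874679) (nat_lit 6) (nat_lit 4) (nat_lit 7) (nat_lit 5) (nat_lit 7) (nat_lit 4) (nat_lit 346) (nat_lit 244) (nat_lit 190)))))) (XT.nd (nat_lit 546) (nat_lit 0) (nat_lit 0) (XT.nd (nat_lit 234) (nat_lit 76) (nat_lit 0) (XT.nd (nat_lit 78) (nat_lit 76) (nat_lit 0) (XT.lf (nat_lit 0) (nat_lit 48599827194) (nat_lit 76) (nat_lit 25741827253) (nat_lit 76) (nat_lit 9190736067) (nat_lit 6) (nat_lit 4) (nat_lit 7) (nat_lit 5) (nat_lit 7) (nat_lit 4) (nat_lit 347) (nat_lit 244) (nat_lit 189)) (XT.nd (nat_lit 78) (nat_lit 76) (nat_lit 0) (XT.lf (nat_lit 0) (nat_lit 63362734742) (nat_lit 76) (nat_lit 20378268104) (nat_lit 76) (nat_lit 3769376351) (nat_lit 6) (nat_lit 4) (nat_lit 7) (nat_lit 5) (nat_lit 7) (nat_lit 4) (nat_lit 348) (nat_lit 244) (nat_lit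 188)) (XT.lf (nat_lit 0) (nat_lit 1848327133) (nat_lit 152) (nat_lit 12911835830) (nat_lit 76) (nat_lit 76927673989) (nat_lit 5) (nat_lit 5) (nat_lit 7) (nat_lit 5) (nat_lit 6) (nat_lit 4) (nat_lit 349) (nat_lit 244) (nat_lit 187)))) (XT.nd (nat_lit 156) (nat_lit 0) (nat_lit 0) (XT.nd (nat_lit 78) (nat_lit 76) (nat_lit 0) (XT.lf (nat_lit 0) (nat_lit 7634256779) (nat_lit 152) (nat_lit 1218825466) (nat_lit 76) (nat_lit 87221014663) (nat_lit 5) (nat_lit 5) (nat_lit 7) (nat_lit 5) (nat_lit 6) (nat_lit 4) (nat_lit 350) (nat_lit 244) (nat_lit 186)) (XT.lf (nat_lit 0) (nat_lit 11214291915) (nat_lit 76) (nat_lit 2569249438) (nat_lit 152) (nat_lit 86893914235) (nat_lit 4) (nat_lit 5) (nat_lit 5) (nat_lit 5) (nat_lit 6) (nat_lit 4) (nat_lit 351) (nat_lit 244) (nat_lit 185))) (XT.nd (nat_lit 78) (nat_lit 0) (nat_lit 0) (XT.lf (nat_lit 0) (nat_lit 20258685758) (nat_lit 152) (nat_lit 81317191867) (nat_lit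 0) (nat_lit 3934559833) (nat_lit 4) (nat_lit 5) (nat_lit 6) (nat_lit 4) (nat_lit 4) (nat_lit 4) (nat_lit 352) (nat_lit 244) (nat_lit 184)) (XT.lf (nat_lit 0) (nat_lit 27052088576) (nat_lit 152) (nat_lit 72849158123) (nat_lit 0) (nat_lit 10683993471) (nat_lit 4) (nat_lit 5) (nat_lit 6) (nat_lit 4) (nat_lit 4) (nat_lit 4) (nat_lit 353) (nat_lit 244) (nat_lit 183))))) (XT.nd (nat_lit 234) (nat_lit 0) (nat_lit 0) (XT.nd (nat_lit 78) (nat_lit 0) (nat_lit 0) (XT.lf (nat_lit 0) (nat_lit 34155227380) (nat_lit 152) (nat_lit 64014203259) (nat_lit 0) (nat_lit 17745256864) (nat_lit 4) (nat_lit 5) (nat_lit 6) (nat_lit 4) (nat_lit 4) (nat_lit 4) (nat_lit 354) (nat_lit 244) (nat_lit 182)) (XT.nd (nat_lit 78) (nat_lit 0) (nat_lit 0) (XT.lf (nat_lit 0) (nat_lit 41585014405) (nat_lit 152) (nat_lit 54791291668) (nat_lit 0) (nat_lit 25135162545) (nat_lit 4) (nat_lit 5) (nat_lit 6) (nat_lit 4) (nat_lit 4) (nat_lit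 4) (nat_lit 355) (nat_lit 244) (nat_lit 181)) (XT.lf (nat_lit 0) (nat_lit 49359139620) (nat_lit 152) (nat_lit 45158464038) (nat_lit 0) (nat_lit 32871305528) (nat_lit 4) (nat_lit 5) (nat_lit 6) (nat_lit 4) (nat_lit 4) (nat_lit 4) (nat_lit 356) (nat_lit 244) (nat_lit 180)))) (XT.nd (nat_lit 156) (nat_lit 0) (nat_lit 0) (XT.nd (nat_lit 78) (nat_lit 0) (nat_lit 0) (XT.lf (nat_lit 0) (nat_lit 57496112846) (nat_lit 152) (nat_lit 35092785063) (nat_lit 0) (nat_lit 40972105200) (nat_lit 4) (nat_lit 5) (nat_lit 6) (nat_lit 4) (nat_lit 4) (nat_lit 4) (nat_lit 357) (nat_lit 244) (nat_lit 179)) (XT.lf (nat_lit 0) (nat_lit 66015307830) (nat_lit 152) (nat_lit 24570288843) (nat_lit 0) (nat_lit 49456849180) (nat_lit 4) (nat_lit 5) (nat_lit 6) (nat_lit 4) (nat_lit 4) (nat_lit 4) (nat_lit 358) (nat_lit 244) (nat_lit 178))) (XT.nd (nat_lit 78) (nat_lit 0) (nat_lit 0) (XT.lf (nat_lit 0) (nat_lit 74937008369)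 (nat_lit 152) (nat_lit 13565921814) (nat_lit 0) (nat_lit 58345739239) (nat_lit 4) (nat_lit 5) (nat_lit 6) (nat_lit 4) (nat_lit 4) (nat_lit 4) (nat_lit 359) (nat_lit 244) (nat_lit 177)) (XT.lf (nat_lit 0) (nat_lit 84282456608) (nat_lit 152) (nat_lit 2053483102) (nat_lit 0) (nat_lit 67659939401) (nat_lit 4) (nat_lit 5) (nat_lit 6) (nat_lit 4) (nat_lit 4) (nat_lit 4) (nat_lit 360) (nat_lit 244) (nat_lit 176))))))) (XT.nd (nat_lit 35880) (nat_lit 0) (nat_lit 1672) (XT.nd (nat_lit 35334) (nat_lit 0) (nat_lit 3876) (XT.nd (nat_lit 234) (nat_lit 0) (nat_lit 0) (XT.nd (nat_lit 78) (nat_lit 0) (nat_lit 0) (XT.lf (nat_lit 0) (nat_lit 10193346770) (nat_lit 76) (nat_lit 83978541527) (nat_lit 76) (nat_lit 67326264248) (nat_lit 3) (nat_lit 4) (nat_lit 4) (nat_lit 5) (nat_lit 4) (nat_lit 4) (nat_lit 361) (nat_lit 244) (nat_lit 175)) (XT.nd (nat_lit 78) (nat_lit 0) (nat_lit 0) (XT.lf (nat_lit 0) (nat_lit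 23056440805) (nat_lit 76) (nat_lit 81499854161) (nat_lit 76) (nat_lit 64819233956) (nat_lit 3) (nat_lit 4) (nat_lit 4) (nat_lit 5) (nat_lit 4) (nat_lit 4) (nat_lit 362) (nat_lit 244) (nat_lit 174)) (XT.lf (nat_lit 0) (nat_lit 36525557076) (nat_lit 76) (nat_lit 78914712129) (nat_lit 76) (nat_lit 62207098661) (nat_lit 3) (nat_lit 4) (nat_lit 4) (nat_lit 5) (nat_lit 4) (nat_lit 4) (nat_lit 363) (nat_lit 244) (nat_lit 173)))) (XT.nd (nat_lit 34944) (nat_lit 0) (nat_lit 5776) (XT.nd (nat_lit 34866) (nat_lit 0) (nat_lit 6764) (XT.lf (nat_lit 0) (nat_lit 50632764909) (nat_lit 76) (nat_lit 76216960331) (nat_lit 76) (nat_lit 59483638993) (nat_lit 3) (nat_lit 4) (nat_lit 4) (nat_lit 5) (nat_lit 4) (nat_lit 4) (nat_lit 364) (nat_lit 244) (nat_lit 172)) (XT.lf (nat_lit 0) (nat_lit 4670589359) (nat_lit 304) (nat_lit 30492301) (nat_lit 304) (nat_lit 30492301) (nat_lit 92) (nat_lit 4) (nat_lit 96) (nat_lit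 5) (nat_lit 96) (nat_lit 4) (nat_lit 290) (nat_lit 245) (nat_lit 245))) (XT.nd (nat_lit 78) (nat_lit 304) (nat_lit 0) (XT.lf (nat_lit 0) (nat_lit 1592878823) (nat_lit 304) (nat_lit 4762362960) (nat_lit 304) (nat_lit 3336990241) (nat_lit 83) (nat_lit 4) (nat_lit 87) (nat_lit 5) (nat_lit 87) (nat_lit 4) (nat_lit 291) (nat_lit 245) (nat_lit 244)) (XT.lf (nat_lit 0) (nat_lit 2977096592) (nat_lit 304) (nat_lit 6683253889) (nat_lit 0) (nat_lit 275280527) (nat_lit 79) (nat_lit 5) (nat_lit 83) (nat_lit 4) (nat_lit 79) (nat_lit 4) (nat_lit 292) (nat_lit 245) (nat_lit 243))))) (XT.nd (nat_lit 234) (nat_lit 988) (nat_lit 0) (XT.nd (nat_lit 78) (nat_lit 608) (nat_lit 0) (XT.lf (nat_lit 0) (nat_lit 4788837191) (nat_lit 304) (nat_lit 4680320940) (nat_lit 304) (nat_lit 723305773) (nat_lit 75) (nat_lit 4) (nat_lit 79) (nat_lit 5) (nat_lit 79) (nat_lit 4) (nat_lit 293) (nat_lit 245) (nat_lit 242)) (XT.nd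 (nat_lit 78) (nat_lit 304) (nat_lit 0) (XT.lf (nat_lit 0) (nat_lit 5603196836) (nat_lit 304) (nat_lit 4259821553) (nat_lit 0) (nat_lit 600825106) (nat_lit 71) (nat_lit 5) (nat_lit 75) (nat_lit 4) (nat_lit 71) (nat_lit 4) (nat_lit 294) (nat_lit 245) (nat_lit 241)) (XT.lf (nat_lit 0) (nat_lit 1393280475) (nat_lit 304) (nat_lit 3279354681) (nat_lit 76) (nat_lit 6077488510) (nat_lit 67) (nat_lit 5) (nat_lit 71) (nat_lit 5) (nat_lit 68) (nat_lit 4) (nat_lit 295) (nat_lit 245) (nat_lit 240)))) (XT.nd (nat_lit 156) (nat_lit 456) (nat_lit 0) (XT.nd (nat_lit 78) (nat_lit 304) (nat_lit 0) (XT.lf (nat_lit 0) (nat_lit 7765478920) (nat_lit 304) (nat_lit 2473155997) (nat_lit 0) (nat_lit 813613858) (nat_lit 64) (nat_lit 5) (nat_lit 68) (nat_lit 4) (nat_lit 64) (nat_lit 4) (nat_lit 296) (nat_lit 245) (nat_lit 239)) (XT.lf (nat_lit 0) (nat_lit 2975381231) (nat_lit 304) (nat_lit 1885217925) (nat_lit 76) (nat_lit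 6509672369) (nat_lit 60) (nat_lit 5) (nat_lit 64) (nat_lit 5) (nat_lit 61) (nat_lit 4) (nat_lit 297) (nat_lit 245) (nat_lit 238))) (XT.nd (nat_lit 78) (nat_lit 304) (nat_lit 0) (XT.lf (nat_lit 0) (nat_lit 9396780573) (nat_lit 228) (nat_lit 1506807671) (nat_lit 0) (nat_lit 802346290) (nat_lit 58) (nat_lit 5) (nat_lit 61) (nat_lit 4) (nat_lit 58) (nat_lit 4) (nat_lit 298) (nat_lit 245) (nat_lit 237)) (XT.lf (nat_lit 0) (nat_lit 3959785068) (nat_lit 304) (nat_lit 1413237018) (nat_lit 76) (nat_lit 6685553733) (nat_lit 54) (nat_lit 5) (nat_lit 58) (nat_lit 5) (nat_lit 55) (nat_lit 4) (nat_lit 299) (nat_lit 245) (nat_lit 236)))))) (XT.nd (nat_lit 546) (nat_lit 836) (nat_lit 0) (XT.nd (nat_lit 234) (nat_lit 760) (nat_lit 0) (XT.nd (nat_lit 78) (nat_lit 456) (nat_lit 0) (XT.lf (nat_lit 0) (nat_lit 10411706305) (nat_lit 228) (nat_lit 1576237388) (nat_lit 0) (nat_lit 442823118) (nat_lit 52) (nat_lit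 5) (nat_lit 55) (nat_lit 4) (nat_lit 52) (nat_lit 4) (nat_lit 300) (nat_lit 245) (nat_lit 235)) (XT.nd (nat_lit 78) (nat_lit 152) (nat_lit 0) (XT.lf (nat_lit 0) (nat_lit 4249467182) (nat_lit 304) (nat_lit 2097295112) (nat_lit 76) (nat_lit 6474560035) (nat_lit 48) (nat_lit 5) (nat_lit 52) (nat_lit 5) (nat_lit 49) (nat_lit 4) (nat_lit 301) (nat_lit 245) (nat_lit 234)) (XT.lf (nat_lit 0) (nat_lit 10294292507) (nat_lit 152) (nat_lit 413536066) (nat_lit 228) (nat_lit 2525540083) (nat_lit 46) (nat_lit 5) (nat_lit 48) (nat_lit 5) (nat_lit 49) (nat_lit 4) (nat_lit 302) (nat_lit 245) (nat_lit 233)))) (XT.nd (nat_lit 156) (nat_lit 380) (nat_lit 0) (XT.nd (nat_lit 78) (nat_lit 152) (nat_lit 0) (XT.lf (nat_lit 0) (nat_lit 3724663813) (nat_lit 228) (nat_lit 4212964339) (nat_lit 76) (nat_lit 5728100971) (nat_lit 43) (nat_lit 5) (nat_lit 46) (nat_lit 5) (nat_lit 44) (nat_lit 4) (nat_lit 303) (nat_lit 245)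 (nat_lit 232)) (XT.lf (nat_lit 0) (nat_lit 8220053056) (nat_lit 152) (nat_lit 1941101605) (nat_lit 228) (nat_lit 3960117362) (nat_lit 41) (nat_lit 5) (nat_lit 43) (nat_lit 5) (nat_lit 44) (nat_lit 4) (nat_lit 304) (nat_lit 245) (nat_lit 231))) (XT.nd (nat_lit 78) (nat_lit 152) (nat_lit 0) (XT.lf (nat_lit 0) (nat_lit 2239247798) (nat_lit 228) (nat_lit 8085399072) (nat_lit 76) (nat_lit 4275424717) (nat_lit 38) (nat_lit 5) (nat_lit 41) (nat_lit 5) (nat_lit 39) (nat_lit 4) (nat_lit 305) (nat_lit 245) (nat_lit 230)) (XT.lf (nat_lit 0) (nat_lit 4290084964) (nat_lit 152) (nat_lit 4320080504) (nat_lit 228) (nat_lit 6493248336) (nat_lit 36) (nat_lit 5) (nat_lit 38) (nat_lit 5) (nat_lit 39) (nat_lit 4) (nat_lit 306) (nat_lit 245) (nat_lit 229))))) (XT.nd (nat_lit 234) (nat_lit 532) (nat_lit 0) (XT.nd (nat_lit 78) (nat_lit 152) (nat_lit 0) (XT.lf (nat_lit 0) (nat_lit 1531414058) (nat_lit 152) (nat_lit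 13711094396) (nat_lit 152) (nat_lit 391207832) (nat_lit 34) (nat_lit 4) (nat_lit 36) (nat_lit 5) (nat_lit 36) (nat_lit 4) (nat_lit 307) (nat_lit 245) (nat_lit 228)) (XT.nd (nat_lit 78) (nat_lit 76) (nat_lit 0) (XT.lf (nat_lit 0) (nat_lit 5883341748) (nat_lit 228) (nat_lit 1867624888) (nat_lit 76) (nat_lit 8438361946) (nat_lit 33) (nat_lit 5) (nat_lit 36) (nat_lit 5) (nat_lit 34) (nat_lit 4) (nat_lit 308) (nat_lit 245) (nat_lit 227)) (XT.lf (nat_lit 0) (nat_lit 10904522661) (nat_lit 76) (nat_lit 1500835039) (nat_lit 152) (nat_lit 4369062744) (nat_lit 32) (nat_lit 5) (nat_lit 33) (nat_lit 5) (nat_lit 34) (nat_lit 4) (nat_lit 309) (nat_lit 245) (nat_lit 226)))) (XT.nd (nat_lit 156) (nat_lit 228) (nat_lit 0) (XT.nd (nat_lit 78) (nat_lit 76) (nat_lit 0) (XT.lf (nat_lit 0) (nat_lit 1802085973) (nat_lit 228) (nat_lit 10636556022) (nat_lit 76) (nat_lit 4950438959) (nat_lit 29) (nat_lit 5) (nat_lit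 32) (nat_lit 5) (nat_lit 30) (nat_lit 4) (nat_lit 310) (nat_lit 245) (nat_lit 225)) (XT.lf (nat_lit 0) (nat_lit 1797462316) (nat_lit 76) (nat_lit 6332576133) (nat_lit 152) (nat_lit 9905041820) (nat_lit 28) (nat_lit 5) (nat_lit 29) (nat_lit 5) (nat_lit 30) (nat_lit 4) (nat_lit 311) (nat_lit 245) (nat_lit 224))) (XT.nd (nat_lit 78) (nat_lit 228) (nat_lit 0) (XT.lf (nat_lit 0) (nat_lit 14733788733) (nat_lit 152) (nat_lit 3905947722) (nat_lit 0) (nat_lit 74919833) (nat_lit 28) (nat_lit 5) (nat_lit 30) (nat_lit 4) (nat_lit 28) (nat_lit 4) (nat_lit 312) (nat_lit 245) (nat_lit 223)) (XT.lf (nat_lit 0) (nat_lit 2200529687) (nat_lit 228) (nat_lit 10554363425) (nat_lit 76) (nat_lit 6672585024) (nat_lit 25) (nat_lit 5) (nat_lit 28) (nat_lit 5) (nat_lit 26) (nat_lit 4) (nat_lit 313) (nat_lit 245) (nat_lit 222))))))))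
noncomputable def xc26 : XT := (XT.nd (nat_lit 2106) (nat_lit 304) (nat_lit 0) (XT.nd (nat_lit 1014) (nat_lit 456) (nat_lit 0) (XT.nd (nat_lit 468) (nat_lit 532) (nat_lit 0) (XT.nd (nat_lit 234) (nat_lit 76) (nat_lit 0) (XT.nd (nat_lit 78) (nat_lit 228) (nat_lit 0) (XT.lf (nat_lit 0) (nat_lit 1943210842) (nat_lit 76) (nat_lit 6583860140) (nat_lit 152) (nat_lit 11650187248) (nat_lit 24) (nat_lit 5) (nat_lit 25) (nat_lit 5) (nat_lit 26) (nat_lit 4) (nat_lit 314) (nat_lit 245) (nat_lit 221)) (XT.nd (nat_lit 78) (nat_lit 228) (nat_lit 0) (XT.lf (nat_lit 0) (nat_lit 15041298268) (nat_lit 76) (nat_lit 100033263) (nat_lit 152) (nat_lit 5824103299) (nat_lit 24) (nat_lit 5) (nat_lit 25) (nat_lit 5) (nat_lit 26) (nat_lit 4) (nat_lit 315) (nat_lit 245) (nat_lit 220)) (XT.lf (nat_lit 0) (nat_lit 285968182) (nat_lit 228) (nat_lit 14962014840) (nat_lit 76) (nat_lit 6545046022) (nat_lit 21) (nat_lit 5)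 (nat_lit 24) (nat_lit 5) (nat_lit 22) (nat_lit 4) (nat_lit 316) (nat_lit 245) (nat_lit 219)))) (XT.nd (nat_lit 78) (nat_lit 76) (nat_lit 0) (XT.lf (nat_lit 0) (nat_lit 6515861733) (nat_lit 228) (nat_lit 2604930022) (nat_lit 76) (nat_lit 13541481569) (nat_lit 21) (nat_lit 5) (nat_lit 24) (nat_lit 5) (nat_lit 22) (nat_lit 4) (nat_lit 317) (nat_lit 245) (nat_lit 218)) (XT.nd (nat_lit 78) (nat_lit 0) (nat_lit 0) (XT.lf (nat_lit 0) (nat_lit 10350966474) (nat_lit 76) (nat_lit 2682976616) (nat_lit 152) (nat_lit 10541777252) (nat_lit 20) (nat_lit 5) (nat_lit 21) (nat_lit 5) (nat_lit 22) (nat_lit 4) (nat_lit 318) (nat_lit 245) (nat_lit 217)) (XT.lf (nat_lit 0) (nat_lit 19824255357) (nat_lit 152) (nat_lit 781777489) (nat_lit 0) (nat_lit 3930456412) (nat_lit 20) (nat_lit 5) (nat_lit 22) (nat_lit 4) (nat_lit 20) (nat_lit 4) (nat_lit 319) (nat_lit 245) (nat_lit 216))))) (XT.nd (nat_lit 234) (nat_lit 228)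 (nat_lit 0) (XT.nd (nat_lit 78) (nat_lit 76) (nat_lit 0) (XT.lf (nat_lit 0) (nat_lit 1412545205) (nat_lit 228) (nat_lit 13269212355) (nat_lit 76) (nat_lit 10862231707) (nat_lit 17) (nat_lit 5) (nat_lit 20) (nat_lit 5) (nat_lit 18) (nat_lit 4) (nat_lit 320) (nat_lit 245) (nat_lit 215)) (XT.nd (nat_lit 78) (nat_lit 76) (nat_lit 0) (XT.lf (nat_lit 0) (nat_lit 7643284990) (nat_lit 228) (nat_lit 852125048) (nat_lit 76) (nat_lit 18108173880) (nat_lit 17) (nat_lit 5) (nat_lit 20) (nat_lit 5) (nat_lit 18) (nat_lit 4) (nat_lit 321) (nat_lit 245) (nat_lit 214)) (XT.lf (nat_lit 0) (nat_lit 12230810760) (nat_lit 76) (nat_lit 1965792106) (nat_lit 152) (nat_lit 13519257204) (nat_lit 16) (nat_lit 5) (nat_lit 17) (nat_lit 5) (nat_lit 18) (nat_lit 4) (nat_lit 322) (nat_lit 245) (nat_lit 213)))) (XT.nd (nat_lit 156) (nat_lit 152) (nat_lit 0) (XT.nd (nat_lit 78) (nat_lit 76) (nat_lit 0) (XT.lf (nat_lit 0) (nat_lit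 21029373822) (nat_lit 152) (nat_lit 3135317182) (nat_lit 0) (nat_lit 4720536842) (nat_lit 16) (nat_lit 5) (nat_lit 18) (nat_lit 4) (nat_lit 16) (nat_lit 4) (nat_lit 323) (nat_lit 245) (nat_lit 212)) (XT.lf (nat_lit 0) (nat_lit 9822363255) (nat_lit 76) (nat_lit 18396555886) (nat_lit 76) (nat_lit 1893720727) (nat_lit 15) (nat_lit 4) (nat_lit 16) (nat_lit 5) (nat_lit 16) (nat_lit 4) (nat_lit 324) (nat_lit 245) (nat_lit 211))) (XT.nd (nat_lit 78) (nat_lit 76) (nat_lit 0) (XT.lf (nat_lit 0) (nat_lit 4216830979) (nat_lit 152) (nat_lit 8127428441) (nat_lit 76) (nat_lit 19057865995) (nat_lit 14) (nat_lit 5) (nat_lit 16) (nat_lit 5) (nat_lit 15) (nat_lit 4) (nat_lit 325) (nat_lit 245) (nat_lit 210)) (XT.lf (nat_lit 0) (nat_lit 4543462323) (nat_lit 76) (nat_lit 6001867587) (nat_lit 152) (nat_lit 22211671656) (nat_lit 13) (nat_lit 5) (nat_lit 14) (nat_lit 5) (nat_lit 15) (nat_lit 4) (nat_lit 326) (nat_lit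 245) (nat_lit 209)))))) (XT.nd (nat_lit 546) (nat_lit 228) (nat_lit 0) (XT.nd (nat_lit 234) (nat_lit 152) (nat_lit 0) (XT.nd (nat_lit 78) (nat_lit 76) (nat_lit 0) (XT.lf (nat_lit 0) (nat_lit 17190710826) (nat_lit 152) (nat_lit 16333298951) (nat_lit 0) (nat_lit 655623141) (nat_lit 13) (nat_lit 5) (nat_lit 15) (nat_lit 4) (nat_lit 13) (nat_lit 4) (nat_lit 327) (nat_lit 245) (nat_lit 208)) (XT.nd (nat_lit 78) (nat_lit 76) (nat_lit 0) (XT.lf (nat_lit 0) (nat_lit 24142884135) (nat_lit 152) (nat_lit 4078457620) (nat_lit 0) (nat_lit 7452842293) (nat_lit 13) (nat_lit 5) (nat_lit 15) (nat_lit 4) (nat_lit 13) (nat_lit 4) (nat_lit 328) (nat_lit 245) (nat_lit 207)) (XT.lf (nat_lit 0) (nat_lit 8809766848) (nat_lit 76) (nat_lit 22635627027) (nat_lit 76) (nat_lit 5798009798) (nat_lit 12) (nat_lit 4) (nat_lit 13) (nat_lit 5) (nat_lit 13) (nat_lit 4) (nat_lit 329) (nat_lit 245) (nat_lit 206)))) (XT.nd (nat_lit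 156) (nat_lit 76) (nat_lit 0) (XT.nd (nat_lit 78) (nat_lit 0) (nat_lit 0) (XT.lf (nat_lit 0) (nat_lit 179738830) (nat_lit 152) (nat_lit 16613295391) (nat_lit 76) (nat_lit 22099143360) (nat_lit 11) (nat_lit 5) (nat_lit 13) (nat_lit 5) (nat_lit 12) (nat_lit 4) (nat_lit 330) (nat_lit 245) (nat_lit 205)) (XT.lf (nat_lit 0) (nat_lit 6261125588) (nat_lit 152) (nat_lit 4401935499) (nat_lit 76) (nat_lit 29960887095) (nat_lit 11) (nat_lit 5) (nat_lit 13) (nat_lit 5) (nat_lit 12) (nat_lit 4) (nat_lit 331) (nat_lit 245) (nat_lit 204))) (XT.nd (nat_lit 78) (nat_lit 0) (nat_lit 0) (XT.lf (nat_lit 0) (nat_lit 8450144283) (nat_lit 76) (nat_lit 4204853694) (nat_lit 152) (nat_lit 29787075945) (nat_lit 10) (nat_lit 5) (nat_lit 11) (nat_lit 5) (nat_lit 12) (nat_lit 4) (nat_lit 332) (nat_lit 245) (nat_lit 203)) (XT.lf (nat_lit 0) (nat_lit 19367909375) (nat_lit 152) (nat_lit 22470579637) (nat_lit 0) (nat_lit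 2512654764) (nat_lit 10) (nat_lit 5) (nat_lit 12) (nat_lit 4) (nat_lit 10) (nat_lit 4) (nat_lit 333) (nat_lit 245) (nat_lit 202))))) (XT.nd (nat_lit 234) (nat_lit 152) (nat_lit 0) (XT.nd (nat_lit 78) (nat_lit 76) (nat_lit 0) (XT.lf (nat_lit 0) (nat_lit 26391114630) (nat_lit 152) (nat_lit 10541731683) (nat_lit 0) (nat_lit 9423598683) (nat_lit 10) (nat_lit 5) (nat_lit 12) (nat_lit 4) (nat_lit 10) (nat_lit 4) (nat_lit 334) (nat_lit 245) (nat_lit 201)) (XT.nd (nat_lit 78) (nat_lit 0) (nat_lit 0) (XT.lf (nat_lit 0) (nat_lit 1900521894) (nat_lit 76) (nat_lit 31818663120) (nat_lit 76) (nat_lit 14744231613) (nat_lit 9) (nat_lit 4) (nat_lit 10) (nat_lit 5) (nat_lit 10) (nat_lit 4) (nat_lit 335) (nat_lit 245) (nat_lit 200)) (XT.lf (nat_lit 0) (nat_lit 15068499833) (nat_lit 76) (nat_lit 26391065686) (nat_lit 76) (nat_lit 9214809836) (nat_lit 9) (nat_lit 4) (nat_lit 10) (nat_lit 5) (nat_lit 10) (nat_lit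 4) (nat_lit 336) (nat_lit 245) (nat_lit 199)))) (XT.nd (nat_lit 156) (nat_lit 76) (nat_lit 0) (XT.nd (nat_lit 78) (nat_lit 76) (nat_lit 0) (XT.lf (nat_lit 0) (nat_lit 28783753330) (nat_lit 76) (nat_lit 20743581979) (nat_lit 76) (nat_lit 3470350565) (nat_lit 9) (nat_lit 4) (nat_lit 10) (nat_lit 5) (nat_lit 10) (nat_lit 4) (nat_lit 337) (nat_lit 245) (nat_lit 198)) (XT.lf (nat_lit 0) (nat_lit 2453984382) (nat_lit 152) (nat_lit 12384000797) (nat_lit 76) (nat_lit 40600172939) (nat_lit 8) (nat_lit 5) (nat_lit 10) (nat_lit 5) (nat_lit 9) (nat_lit 4) (nat_lit 338) (nat_lit 245) (nat_lit 197))) (XT.nd (nat_lit 78) (nat_lit 76) (nat_lit 0) (XT.lf (nat_lit 0) (nat_lit 8548796344) (nat_lit 152) (nat_lit 99492210) (nat_lit 76) (nat_lit 49352966826) (nat_lit 8) (nat_lit 5) (nat_lit 10) (nat_lit 5) (nat_lit 9) (nat_lit 4) (nat_lit 339) (nat_lit 245) (nat_lit 196)) (XT.lf (nat_lit 0) (nat_lit 12954999887)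 (nat_lit 76) (nat_lit 2065847311) (nat_lit 152) (nat_lit 45669497906) (nat_lit 7) (nat_lit 5) (nat_lit 8) (nat_lit 5) (nat_lit 9) (nat_lit 4) (nat_lit 340) (nat_lit 245) (nat_lit 195))))))) (XT.nd (nat_lit 1092) (nat_lit 76) (nat_lit 0) (XT.nd (nat_lit 546) (nat_lit 152) (nat_lit 0) (XT.nd (nat_lit 234) (nat_lit 76) (nat_lit 0) (XT.nd (nat_lit 78) (nat_lit 0) (nat_lit 0) (XT.lf (nat_lit 0) (nat_lit 21813232502) (nat_lit 152) (nat_lit 36991516795) (nat_lit 0) (nat_lit 4709250013) (nat_lit 7) (nat_lit 5) (nat_lit 9) (nat_lit 4) (nat_lit 7) (nat_lit 4) (nat_lit 341) (nat_lit 245) (nat_lit 194)) (XT.nd (nat_lit 78) (nat_lit 0) (nat_lit 0) (XT.lf (nat_lit 0) (nat_lit 28917628734) (nat_lit 152) (nat_lit 25822170680) (nat_lit 0) (nat_lit 11739876447) (nat_lit 7) (nat_lit 5) (nat_lit 9) (nat_lit 4) (nat_lit 7) (nat_lit 4) (nat_lit 342) (nat_lit 245) (nat_lit 193)) (XT.lf (nat_lit 0) (nat_lit 36331092934)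 (nat_lit 152) (nat_lit 14180855002) (nat_lit 0) (nat_lit 19083083696) (nat_lit 7) (nat_lit 5) (nat_lit 9) (nat_lit 4) (nat_lit 7) (nat_lit 4) (nat_lit 343) (nat_lit 245) (nat_lit 192)))) (XT.nd (nat_lit 156) (nat_lit 0) (nat_lit 0) (XT.nd (nat_lit 78) (nat_lit 76) (nat_lit 0) (XT.lf (nat_lit 0) (nat_lit 44071276209) (nat_lit 152) (nat_lit 2039852344) (nat_lit 0) (nat_lit 26756355590) (nat_lit 7) (nat_lit 5) (nat_lit 9) (nat_lit 4) (nat_lit 7) (nat_lit 4) (nat_lit 344) (nat_lit 245) (nat_lit 191)) (XT.lf (nat_lit 0) (nat_lit 10841297199) (nat_lit 76) (nat_lit 41419523547) (nat_lit 76) (nat_lit 24040877803) (nat_lit 6) (nat_lit 4) (nat_lit 7) (nat_lit 5) (nat_lit 7) (nat_lit 4) (nat_lit 345) (nat_lit 245) (nat_lit 190))) (XT.nd (nat_lit 78) (nat_lit 0) (nat_lit 0) (XT.lf (nat_lit 0) (nat_lit 24332924057) (nat_lit 76) (nat_lit 36507316687) (nat_lit 76) (nat_lit 19067980347) (nat_lit 6) (nat_lit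 4) (nat_lit 7) (nat_lit 5) (nat_lit 7) (nat_lit 4) (nat_lit 346) (nat_lit 245) (nat_lit 189)) (XT.lf (nat_lit 0) (nat_lit 38426554089) (nat_lit 76) (nat_lit 31383410753) (nat_lit 76) (nat_lit 13886273846) (nat_lit 6) (nat_lit 4) (nat_lit 7) (nat_lit 5) (nat_lit 7) (nat_lit 4) (nat_lit 347) (nat_lit 245) (nat_lit 188))))) (XT.nd (nat_lit 234) (nat_lit 76) (nat_lit 0) (XT.nd (nat_lit 78) (nat_lit 76) (nat_lit 0) (XT.lf (nat_lit 0) (nat_lit 53155743557) (nat_lit 76) (nat_lit 26035605968) (nat_lit 76) (nat_lit 8483420902) (nat_lit 6) (nat_lit 4) (nat_lit 7) (nat_lit 5) (nat_lit 7) (nat_lit 4) (nat_lit 348) (nat_lit 245) (nat_lit 187)) (XT.nd (nat_lit 78) (nat_lit 76) (nat_lit 0) (XT.lf (nat_lit 0) (nat_lit 68555561959) (nat_lit 76) (nat_lit 20451169464) (nat_lit 76) (nat_lit 2846557580) (nat_lit 6) (nat_lit 4) (nat_lit 7) (nat_lit 5) (nat_lit 7) (nat_lit 4) (nat_lit 349) (nat_lit 245) (nat_lit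 186)) (XT.lf (nat_lit 0) (nat_lit 2978460028) (nat_lit 152) (nat_lit 11608268328) (nat_lit 76) (nat_lit 81654138895) (nat_lit 5) (nat_lit 5) (nat_lit 7) (nat_lit 5) (nat_lit 6) (nat_lit 4) (nat_lit 350) (nat_lit 245) (nat_lit 185)))) (XT.nd (nat_lit 156) (nat_lit 0) (nat_lit 0) (XT.nd (nat_lit 78) (nat_lit 0) (nat_lit 0) (XT.lf (nat_lit 0) (nat_lit 588050426) (nat_lit 76) (nat_lit 8421873358) (nat_lit 152) (nat_lit 91837840247) (nat_lit 4) (nat_lit 5) (nat_lit 5) (nat_lit 5) (nat_lit 6) (nat_lit 4) (nat_lit 351) (nat_lit 245) (nat_lit 184)) (XT.lf (nat_lit 0) (nat_lit 13578137020) (nat_lit 76) (nat_lit 1853153686) (nat_lit 152) (nat_lit 90251071829) (nat_lit 4) (nat_lit 5) (nat_lit 5) (nat_lit 5) (nat_lit 6) (nat_lit 4) (nat_lit 352) (nat_lit 245) (nat_lit 183))) (XT.nd (nat_lit 78) (nat_lit 0) (nat_lit 0) (XT.lf (nat_lit 0) (nat_lit 22192277850) (nat_lit 152) (nat_lit 83645929621) (nat_lit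 0) (nat_lit 4919933397) (nat_lit 4) (nat_lit 5) (nat_lit 6) (nat_lit 4) (nat_lit 4) (nat_lit 4) (nat_lit 353) (nat_lit 245) (nat_lit 182)) (XT.lf (nat_lit 0) (nat_lit 29281509962) (nat_lit 152) (nat_lit 74837214277) (nat_lit 0) (nat_lit 11969284165) (nat_lit 4) (nat_lit 5) (nat_lit 6) (nat_lit 4) (nat_lit 4) (nat_lit 4) (nat_lit 354) (nat_lit 245) (nat_lit 181)))))) (XT.nd (nat_lit 546) (nat_lit 76) (nat_lit 0) (XT.nd (nat_lit 234) (nat_lit 0) (nat_lit 0) (XT.nd (nat_lit 78) (nat_lit 0) (nat_lit 0) (XT.lf (nat_lit 0) (nat_lit 36698052518) (nat_lit 152) (nat_lit 65639292706) (nat_lit 0) (nat_lit 19347844489) (nat_lit 4) (nat_lit 5) (nat_lit 6) (nat_lit 4) (nat_lit 4) (nat_lit 4) (nat_lit 355) (nat_lit 245) (nat_lit 180)) (XT.nd (nat_lit 78) (nat_lit 0) (nat_lit 0) (XT.lf (nat_lit 0) (nat_lit 44459563952) (nat_lit 152) (nat_lit 56030265094) (nat_lit 0) (nat_lit 27073182370) (nat_lit 4) (nat_lit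 5) (nat_lit 6) (nat_lit 4) (nat_lit 4) (nat_lit 4) (nat_lit 356) (nat_lit 245) (nat_lit 179)) (XT.lf (nat_lit 0) (nat_lit 52584524055) (nat_lit 152) (nat_lit 45987252804) (nat_lit 0) (nat_lit 35163691468) (nat_lit 4) (nat_lit 5) (nat_lit 6) (nat_lit 4) (nat_lit 4) (nat_lit 4) (nat_lit 357) (nat_lit 245) (nat_lit 178)))) (XT.nd (nat_lit 156) (nat_lit 0) (nat_lit 0) (XT.nd (nat_lit 78) (nat_lit 0) (nat_lit 0) (XT.lf (nat_lit 0) (nat_lit 61092277969) (nat_lit 152) (nat_lit 35486343901) (nat_lit 0) (nat_lit 43638634902) (nat_lit 4) (nat_lit 5) (nat_lit 6) (nat_lit 4) (nat_lit 4) (nat_lit 4) (nat_lit 358) (nat_lit 245) (nat_lit 177)) (XT.lf (nat_lit 0) (nat_lit 70003082251) (nat_lit 152) (nat_lit 24502536223) (nat_lit 0) (nat_lit 52518191107) (nat_lit 4) (nat_lit 5) (nat_lit 6) (nat_lit 4) (nat_lit 4) (nat_lit 4) (nat_lit 359) (nat_lit 245) (nat_lit 176))) (XT.nd (nat_lit 78) (nat_lit 0) (nat_lit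 0) (XT.lf (nat_lit 0) (nat_lit 79338153101) (nat_lit 152) (nat_lit 13009677845) (nat_lit 0) (nat_lit 61823501885) (nat_lit 4) (nat_lit 5) (nat_lit 6) (nat_lit 4) (nat_lit 4) (nat_lit 4) (nat_lit 360) (nat_lit 245) (nat_lit 175)) (XT.lf (nat_lit 0) (nat_lit 89119716879) (nat_lit 152) (nat_lit 980404820) (nat_lit 0) (nat_lit 71576722737) (nat_lit 4) (nat_lit 5) (nat_lit 6) (nat_lit 4) (nat_lit 4) (nat_lit 4) (nat_lit 361) (nat_lit 245) (nat_lit 174))))) (XT.nd (nat_lit 34866) (nat_lit 0) (nat_lit 6080) (XT.nd (nat_lit 78) (nat_lit 0) (nat_lit 0) (XT.lf (nat_lit 0) (nat_lit 11845063838) (nat_lit 76) (nat_lit 87639861184) (nat_lit 76) (nat_lit 70069873779) (nat_lit 3) (nat_lit 4) (nat_lit 4) (nat_lit 5) (nat_lit 4) (nat_lit 4) (nat_lit 362) (nat_lit 245) (nat_lit 173)) (XT.nd (nat_lit 78) (nat_lit 0) (nat_lit 0) (XT.lf (nat_lit 0) (nat_lit 25296929255) (nat_lit 76) (nat_lit 85062839803) (nat_lit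 76) (nat_lit 67467144528) (nat_lit 3) (nat_lit 4) (nat_lit 4) (nat_lit 5) (nat_lit 4) (nat_lit 4) (nat_lit 363) (nat_lit 245) (nat_lit 172)) (XT.lf (nat_lit 0) (nat_lit 39387707701) (nat_lit 76) (nat_lit 82372821959) (nat_lit 76) (nat_lit 64752642998) (nat_lit 3) (nat_lit 4) (nat_lit 4) (nat_lit 5) (nat_lit 4) (nat_lit 4) (nat_lit 364) (nat_lit 245) (nat_lit 171)))) (XT.nd (nat_lit 156) (nat_lit 988) (nat_lit 0) (XT.nd (nat_lit 78) (nat_lit 380) (nat_lit 0) (XT.lf (nat_lit 0) (nat_lit 2730159111) (nat_lit 380) (nat_lit 894117399) (nat_lit 380) (nat_lit 894117399) (nat_lit 101) (nat_lit 4) (nat_lit 106) (nat_lit 5) (nat_lit 106) (nat_lit 4) (nat_lit 288) (nat_lit 246) (nat_lit 246)) (XT.lf (nat_lit 0) (nat_lit 4432122314) (nat_lit 380) (nat_lit 1922518390) (nat_lit 0) (nat_lit 2890581718) (nat_lit 96) (nat_lit 5) (nat_lit 101) (nat_lit 4) (nat_lit 96) (nat_lit 4) (nat_lit 289) (nat_lit 246)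 (nat_lit 245))) (XT.nd (nat_lit 78) (nat_lit 608) (nat_lit 0) (XT.lf (nat_lit 0) (nat_lit 1326546788) (nat_lit 380) (nat_lit 316784516) (nat_lit 76) (nat_lit 7823250492) (nat_lit 91) (nat_lit 5) (nat_lit 96) (nat_lit 5) (nat_lit 92) (nat_lit 4) (nat_lit 290) (nat_lit 246) (nat_lit 244)) (XT.lf (nat_lit 0) (nat_lit 1219441178) (nat_lit 304) (nat_lit 6380042103) (nat_lit 304) (nat_lit 2100530201) (nat_lit 83) (nat_lit 4) (nat_lit 87) (nat_lit 5) (nat_lit 87) (nat_lit 4) (nat_lit 291) (nat_lit 246) (nat_lit 243))))))))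
noncomputable def xc27 : XT := (XT.nd (nat_lit 2184) (nat_lit 1064) (nat_lit 0) (XT.nd (nat_lit 1092) (nat_lit 1368) (nat_lit 0) (XT.nd (nat_lit 546) (nat_lit 1520) (nat_lit 0) (XT.nd (nat_lit 234) (nat_lit 988) (nat_lit 0) (XT.nd (nat_lit 78) (nat_lit 608) (nat_lit 0) (XT.lf (nat_lit 0) (nat_lit 2674783668) (nat_lit 228) (nat_lit 1387852117) (nat_lit 304) (nat_lit 5884318384) (nat_lit 79) (nat_lit 5) (nat_lit 82) (nat_lit 5) (nat_lit 83) (nat_lit 4) (nat_lit 292) (nat_lit 246) (nat_lit 242)) (XT.nd (nat_lit 78) (nat_lit 228) (nat_lit 0) (XT.lf (nat_lit 0) (nat_lit 206885434) (nat_lit 380) (nat_lit 6185515308) (nat_lit 76) (nat_lit 3815487803) (nat_lit 74) (nat_lit 5) (nat_lit 79) (nat_lit 5) (nat_lit 75) (nat_lit 4) (nat_lit 293) (nat_lit 246) (nat_lit 241)) (XT.lf (nat_lit 0) (nat_lit 5230921607) (nat_lit 228) (nat_lit 1160663089) (nat_lit 304) (nat_lit 4091388724) (nat_lit 71) (nat_lit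 5) (nat_lit 74) (nat_lit 5) (nat_lit 75) (nat_lit 4) (nat_lit 294) (nat_lit 246) (nat_lit 240)))) (XT.nd (nat_lit 156) (nat_lit 456) (nat_lit 0) (XT.nd (nat_lit 78) (nat_lit 228) (nat_lit 0) (XT.lf (nat_lit 0) (nat_lit 2014525751) (nat_lit 304) (nat_lit 4481661757) (nat_lit 76) (nat_lit 4276911224) (nat_lit 67) (nat_lit 5) (nat_lit 71) (nat_lit 5) (nat_lit 68) (nat_lit 4) (nat_lit 295) (nat_lit 246) (nat_lit 239)) (XT.lf (nat_lit 0) (nat_lit 7191316514) (nat_lit 228) (nat_lit 1067325659) (nat_lit 304) (nat_lit 2820497393) (nat_lit 64) (nat_lit 5) (nat_lit 67) (nat_lit 5) (nat_lit 68) (nat_lit 4) (nat_lit 296) (nat_lit 246) (nat_lit 238))) (XT.nd (nat_lit 78) (nat_lit 152) (nat_lit 0) (XT.lf (nat_lit 0) (nat_lit 3301844235) (nat_lit 304) (nat_lit 3519162366) (nat_lit 76) (nat_lit 4580010319) (nat_lit 60) (nat_lit 5) (nat_lit 64) (nat_lit 5) (nat_lit 61) (nat_lit 4) (nat_lit 297) (nat_lit 246)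 (nat_lit 237)) (XT.lf (nat_lit 0) (nat_lit 8375900272) (nat_lit 152) (nat_lit 1220497685) (nat_lit 228) (nat_lit 2144151860) (nat_lit 58) (nat_lit 5) (nat_lit 60) (nat_lit 5) (nat_lit 61) (nat_lit 4) (nat_lit 298) (nat_lit 246) (nat_lit 236))))) (XT.nd (nat_lit 234) (nat_lit 760) (nat_lit 0) (XT.nd (nat_lit 78) (nat_lit 456) (nat_lit 0) (XT.lf (nat_lit 0) (nat_lit 3990201015) (nat_lit 304) (nat_lit 3497588080) (nat_lit 76) (nat_lit 4609355071) (nat_lit 54) (nat_lit 5) (nat_lit 58) (nat_lit 5) (nat_lit 55) (nat_lit 4) (nat_lit 299) (nat_lit 246) (nat_lit 235)) (XT.nd (nat_lit 78) (nat_lit 304) (nat_lit 0) (XT.lf (nat_lit 0) (nat_lit 8573189212) (nat_lit 152) (nat_lit 1746200230) (nat_lit 228) (nat_lit 2153684516) (nat_lit 52) (nat_lit 5) (nat_lit 54) (nat_lit 5) (nat_lit 55) (nat_lit 4) (nat_lit 300) (nat_lit 246) (nat_lit 234)) (XT.lf (nat_lit 0) (nat_lit 3981304927) (nat_lit 304) (nat_lit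 4651566475) (nat_lit 76) (nat_lit 4234934387) (nat_lit 48) (nat_lit 5) (nat_lit 52) (nat_lit 5) (nat_lit 49) (nat_lit 4) (nat_lit 301) (nat_lit 246) (nat_lit 233)))) (XT.nd (nat_lit 156) (nat_lit 380) (nat_lit 0) (XT.nd (nat_lit 78) (nat_lit 228) (nat_lit 0) (XT.lf (nat_lit 0) (nat_lit 7534070237) (nat_lit 152) (nat_lit 2787279049) (nat_lit 228) (nat_lit 2962102373) (nat_lit 46) (nat_lit 5) (nat_lit 48) (nat_lit 5) (nat_lit 49) (nat_lit 4) (nat_lit 302) (nat_lit 246) (nat_lit 232)) (XT.lf (nat_lit 0) (nat_lit 3154162341) (nat_lit 228) (nat_lit 7257554926) (nat_lit 76) (nat_lit 3308540758) (nat_lit 43) (nat_lit 5) (nat_lit 46) (nat_lit 5) (nat_lit 44) (nat_lit 4) (nat_lit 303) (nat_lit 246) (nat_lit 231))) (XT.nd (nat_lit 78) (nat_lit 228) (nat_lit 0) (XT.lf (nat_lit 0) (nat_lit 4964572186) (nat_lit 152) (nat_lit 4507344082) (nat_lit 228) (nat_lit 4707490824) (nat_lit 41) (nat_lit 5) (nat_lit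 43) (nat_lit 5) (nat_lit 44) (nat_lit 4) (nat_lit 304) (nat_lit 246) (nat_lit 230)) (XT.lf (nat_lit 0) (nat_lit 1361442389) (nat_lit 228) (nat_lit 11641729268) (nat_lit 76) (nat_lit 1659641741) (nat_lit 38) (nat_lit 5) (nat_lit 41) (nat_lit 5) (nat_lit 39) (nat_lit 4) (nat_lit 305) (nat_lit 246) (nat_lit 229)))))) (XT.nd (nat_lit 546) (nat_lit 608) (nat_lit 0) (XT.nd (nat_lit 234) (nat_lit 380) (nat_lit 0) (XT.nd (nat_lit 78) (nat_lit 228) (nat_lit 0) (XT.lf (nat_lit 0) (nat_lit 517440417) (nat_lit 152) (nat_lit 7095283701) (nat_lit 228) (nat_lit 7557059374) (nat_lit 36) (nat_lit 5) (nat_lit 38) (nat_lit 5) (nat_lit 39) (nat_lit 4) (nat_lit 306) (nat_lit 246) (nat_lit 228)) (XT.nd (nat_lit 78) (nat_lit 228) (nat_lit 0) (XT.lf (nat_lit 0) (nat_lit 13243703977) (nat_lit 152) (nat_lit 887204030) (nat_lit 228) (nat_lit 1572639690) (nat_lit 36) (nat_lit 5) (nat_lit 38) (nat_lit 5) (nat_lit 39)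 (nat_lit 4) (nat_lit 307) (nat_lit 246) (nat_lit 227)) (XT.lf (nat_lit 0) (nat_lit 4612536019) (nat_lit 228) (nat_lit 6096367859) (nat_lit 76) (nat_lit 5554003819) (nat_lit 33) (nat_lit 5) (nat_lit 36) (nat_lit 5) (nat_lit 34) (nat_lit 4) (nat_lit 308) (nat_lit 246) (nat_lit 226)))) (XT.nd (nat_lit 156) (nat_lit 76) (nat_lit 0) (XT.nd (nat_lit 78) (nat_lit 228) (nat_lit 0) (XT.lf (nat_lit 0) (nat_lit 6457479626) (nat_lit 76) (nat_lit 4558567859) (nat_lit 152) (nat_lit 5835539747) (nat_lit 32) (nat_lit 5) (nat_lit 33) (nat_lit 5) (nat_lit 34) (nat_lit 4) (nat_lit 309) (nat_lit 246) (nat_lit 225)) (XT.lf (nat_lit 0) (nat_lit 214094358) (nat_lit 228) (nat_lit 15418955168) (nat_lit 76) (nat_lit 1838155130) (nat_lit 29) (nat_lit 5) (nat_lit 32) (nat_lit 5) (nat_lit 30) (nat_lit 4) (nat_lit 310) (nat_lit 246) (nat_lit 224))) (XT.nd (nat_lit 78) (nat_lit 76) (nat_lit 0) (XT.lf (nat_lit 0) (nat_lit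 6452440998) (nat_lit 228) (nat_lit 3147230716) (nat_lit 76) (nat_lit 8520249086) (nat_lit 29) (nat_lit 5) (nat_lit 32) (nat_lit 5) (nat_lit 30) (nat_lit 4) (nat_lit 311) (nat_lit 246) (nat_lit 223)) (XT.lf (nat_lit 0) (nat_lit 9678563796) (nat_lit 76) (nat_lit 3275966560) (nat_lit 152) (nat_lit 5848043580) (nat_lit 28) (nat_lit 5) (nat_lit 29) (nat_lit 5) (nat_lit 30) (nat_lit 4) (nat_lit 312) (nat_lit 246) (nat_lit 222))))) (XT.nd (nat_lit 234) (nat_lit 304) (nat_lit 0) (XT.nd (nat_lit 78) (nat_lit 76) (nat_lit 0) (XT.lf (nat_lit 0) (nat_lit 217538602) (nat_lit 228) (nat_lit 16038781614) (nat_lit 76) (nat_lit 3264206767) (nat_lit 25) (nat_lit 5) (nat_lit 28) (nat_lit 5) (nat_lit 26) (nat_lit 4) (nat_lit 313) (nat_lit 246) (nat_lit 221)) (XT.nd (nat_lit 78) (nat_lit 76) (nat_lit 0) (XT.lf (nat_lit 0) (nat_lit 6459595033) (nat_lit 228) (nat_lit 3696268547) (nat_lit 76) (nat_lit 10117002075)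 (nat_lit 25) (nat_lit 5) (nat_lit 28) (nat_lit 5) (nat_lit 26) (nat_lit 4) (nat_lit 314) (nat_lit 246) (nat_lit 220)) (XT.lf (nat_lit 0) (nat_lit 9214471585) (nat_lit 76) (nat_lit 3759380369) (nat_lit 152) (nat_lit 8090213297) (nat_lit 24) (nat_lit 5) (nat_lit 25) (nat_lit 5) (nat_lit 26) (nat_lit 4) (nat_lit 315) (nat_lit 246) (nat_lit 219)))) (XT.nd (nat_lit 156) (nat_lit 76) (nat_lit 0) (XT.nd (nat_lit 78) (nat_lit 76) (nat_lit 0) (XT.lf (nat_lit 0) (nat_lit 714456517) (nat_lit 152) (nat_lit 19047649681) (nat_lit 152) (nat_lit 2134314781) (nat_lit 22) (nat_lit 4) (nat_lit 24) (nat_lit 5) (nat_lit 24) (nat_lit 4) (nat_lit 316) (nat_lit 246) (nat_lit 218)) (XT.lf (nat_lit 0) (nat_lit 4077321235) (nat_lit 228) (nat_lit 8912181451) (nat_lit 76) (nat_lit 9778595389) (nat_lit 21) (nat_lit 5) (nat_lit 24) (nat_lit 5) (nat_lit 22) (nat_lit 4) (nat_lit 317) (nat_lit 246) (nat_lit 217))) (XT.nd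 (nat_lit 78) (nat_lit 0) (nat_lit 0) (XT.lf (nat_lit 0) (nat_lit 3813460814) (nat_lit 76) (nat_lit 6662046223) (nat_lit 152) (nat_lit 13209654119) (nat_lit 20) (nat_lit 5) (nat_lit 21) (nat_lit 5) (nat_lit 22) (nat_lit 4) (nat_lit 318) (nat_lit 246) (nat_lit 216)) (XT.lf (nat_lit 0) (nat_lit 17157155478) (nat_lit 76) (nat_lit 14834932) (nat_lit 152) (nat_lit 7476772809) (nat_lit 20) (nat_lit 5) (nat_lit 21) (nat_lit 5) (nat_lit 22) (nat_lit 4) (nat_lit 319) (nat_lit 246) (nat_lit 215))))))) (XT.nd (nat_lit 1092) (nat_lit 304) (nat_lit 0) (XT.nd (nat_lit 546) (nat_lit 304) (nat_lit 0) (XT.nd (nat_lit 234) (nat_lit 152) (nat_lit 0) (XT.nd (nat_lit 78) (nat_lit 152) (nat_lit 0) (XT.lf (nat_lit 0) (nat_lit 5347721701) (nat_lit 152) (nat_lit 18865140087) (nat_lit 152) (nat_lit 1447432374) (nat_lit 18) (nat_lit 4) (nat_lit 20) (nat_lit 5) (nat_lit 20) (nat_lit 4) (nat_lit 320) (nat_lit 246) (nat_lit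 214)) (XT.nd (nat_lit 78) (nat_lit 76) (nat_lit 0) (XT.lf (nat_lit 0) (nat_lit 4759586696) (nat_lit 228) (nat_lit 7976046200) (nat_lit 76) (nat_lit 13986248383) (nat_lit 17) (nat_lit 5) (nat_lit 20) (nat_lit 5) (nat_lit 18) (nat_lit 4) (nat_lit 321) (nat_lit 246) (nat_lit 213)) (XT.lf (nat_lit 0) (nat_lit 4873343054) (nat_lit 76) (nat_lit 6319346245) (nat_lit 152) (nat_lit 16645089923) (nat_lit 16) (nat_lit 5) (nat_lit 17) (nat_lit 5) (nat_lit 18) (nat_lit 4) (nat_lit 322) (nat_lit 246) (nat_lit 212)))) (XT.nd (nat_lit 156) (nat_lit 76) (nat_lit 0) (XT.nd (nat_lit 78) (nat_lit 76) (nat_lit 0) (XT.lf (nat_lit 0) (nat_lit 17935258076) (nat_lit 152) (nat_lit 10661326608) (nat_lit 0) (nat_lit 413282981) (nat_lit 16) (nat_lit 5) (nat_lit 18) (nat_lit 4) (nat_lit 16) (nat_lit 4) (nat_lit 323) (nat_lit 246) (nat_lit 211)) (XT.lf (nat_lit 0) (nat_lit 2060635912) (nat_lit 76) (nat_lit 22943506390)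 (nat_lit 76) (nat_lit 5236771125) (nat_lit 15) (nat_lit 4) (nat_lit 16) (nat_lit 5) (nat_lit 16) (nat_lit 4) (nat_lit 324) (nat_lit 246) (nat_lit 210))) (XT.nd (nat_lit 78) (nat_lit 0) (nat_lit 0) (XT.lf (nat_lit 0) (nat_lit 893916061) (nat_lit 152) (nat_lit 16068047726) (nat_lit 76) (nat_lit 14570765093) (nat_lit 14) (nat_lit 5) (nat_lit 16) (nat_lit 5) (nat_lit 15) (nat_lit 4) (nat_lit 325) (nat_lit 246) (nat_lit 209)) (XT.lf (nat_lit 0) (nat_lit 7135788573) (nat_lit 152) (nat_lit 3564629447) (nat_lit 76) (nat_lit 22189798050) (nat_lit 14) (nat_lit 5) (nat_lit 16) (nat_lit 5) (nat_lit 15) (nat_lit 4) (nat_lit 326) (nat_lit 246) (nat_lit 208))))) (XT.nd (nat_lit 234) (nat_lit 152) (nat_lit 0) (XT.nd (nat_lit 78) (nat_lit 76) (nat_lit 0) (XT.lf (nat_lit 0) (nat_lit 9597365582) (nat_lit 76) (nat_lit 4100786444) (nat_lit 152) (nat_lit 20617197583) (nat_lit 13) (nat_lit 5) (nat_lit 14) (nat_lit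 5) (nat_lit 15) (nat_lit 4) (nat_lit 327) (nat_lit 246) (nat_lit 207)) (XT.nd (nat_lit 78) (nat_lit 76) (nat_lit 0) (XT.lf (nat_lit 0) (nat_lit 20570926994) (nat_lit 152) (nat_lit 12497513288) (nat_lit 0) (nat_lit 2743853516) (nat_lit 13) (nat_lit 5) (nat_lit 15) (nat_lit 4) (nat_lit 13) (nat_lit 4) (nat_lit 328) (nat_lit 246) (nat_lit 206)) (XT.lf (nat_lit 0) (nat_lit 151480777) (nat_lit 76) (nat_lit 27600651906) (nat_lit 76) (nat_lit 9633030440) (nat_lit 12) (nat_lit 4) (nat_lit 13) (nat_lit 5) (nat_lit 13) (nat_lit 4) (nat_lit 329) (nat_lit 246) (nat_lit 205)))) (XT.nd (nat_lit 156) (nat_lit 76) (nat_lit 0) (XT.nd (nat_lit 78) (nat_lit 76) (nat_lit 0) (XT.lf (nat_lit 0) (nat_lit 13554149522) (nat_lit 76) (nat_lit 21791217346) (nat_lit 76) (nat_lit 3689740653) (nat_lit 12) (nat_lit 4) (nat_lit 13) (nat_lit 5) (nat_lit 13) (nat_lit 4) (nat_lit 330) (nat_lit 246) (nat_lit 204)) (XT.lf (nat_lit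 0) (nat_lit 2428128350) (nat_lit 152) (nat_lit 13299857310) (nat_lit 76) (nat_lit 25041031357) (nat_lit 11) (nat_lit 5) (nat_lit 13) (nat_lit 5) (nat_lit 12) (nat_lit 4) (nat_lit 331) (nat_lit 246) (nat_lit 203))) (XT.nd (nat_lit 78) (nat_lit 76) (nat_lit 0) (XT.lf (nat_lit 0) (nat_lit 8706946227) (nat_lit 152) (nat_lit 675267654) (nat_lit 76) (nat_lit 33208389382) (nat_lit 11) (nat_lit 5) (nat_lit 13) (nat_lit 5) (nat_lit 12) (nat_lit 4) (nat_lit 332) (nat_lit 246) (nat_lit 202)) (XT.lf (nat_lit 0) (nat_lit 12706282901) (nat_lit 76) (nat_lit 2649520337) (nat_lit 152) (nat_lit 29145799960) (nat_lit 10) (nat_lit 5) (nat_lit 11) (nat_lit 5) (nat_lit 12) (nat_lit 4) (nat_lit 333) (nat_lit 246) (nat_lit 201)))))) (XT.nd (nat_lit 546) (nat_lit 76) (nat_lit 0) (XT.nd (nat_lit 234) (nat_lit 152) (nat_lit 0) (XT.nd (nat_lit 78) (nat_lit 76) (nat_lit 0) (XT.lf (nat_lit 0) (nat_lit 22322044996) (nat_lit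 152) (nat_lit 19899600022) (nat_lit 0) (nat_lit 4286976354) (nat_lit 10) (nat_lit 5) (nat_lit 12) (nat_lit 4) (nat_lit 10) (nat_lit 4) (nat_lit 334) (nat_lit 246) (nat_lit 200)) (XT.nd (nat_lit 78) (nat_lit 76) (nat_lit 0) (XT.lf (nat_lit 0) (nat_lit 29601851459) (nat_lit 152) (nat_lit 7550238651) (nat_lit 0) (nat_lit 11464958475) (nat_lit 10) (nat_lit 5) (nat_lit 12) (nat_lit 4) (nat_lit 10) (nat_lit 4) (nat_lit 335) (nat_lit 246) (nat_lit 199)) (XT.lf (nat_lit 0) (nat_lit 5413268227) (nat_lit 76) (nat_lit 31825854111) (nat_lit 76) (nat_lit 13591985563) (nat_lit 9) (nat_lit 4) (nat_lit 10) (nat_lit 5) (nat_lit 10) (nat_lit 4) (nat_lit 336) (nat_lit 246) (nat_lit 198)))) (XT.nd (nat_lit 156) (nat_lit 152) (nat_lit 0) (XT.nd (nat_lit 78) (nat_lit 0) (nat_lit 0) (XT.lf (nat_lit 0) (nat_lit 19076896480) (nat_lit 76) (nat_lit 26202293098) (nat_lit 76) (nat_lit 7876066870) (nat_lit 9) (nat_lit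 4) (nat_lit 10) (nat_lit 5) (nat_lit 10) (nat_lit 4) (nat_lit 337) (nat_lit 246) (nat_lit 197)) (XT.lf (nat_lit 0) (nat_lit 33322914002) (nat_lit 76) (nat_lit 20344260247) (nat_lit 76) (nat_lit 1930074324) (nat_lit 9) (nat_lit 4) (nat_lit 10) (nat_lit 5) (nat_lit 10) (nat_lit 4) (nat_lit 338) (nat_lit 246) (nat_lit 196))) (XT.nd (nat_lit 78) (nat_lit 76) (nat_lit 0) (XT.lf (nat_lit 0) (nat_lit 4177018345) (nat_lit 152) (nat_lit 10018609821) (nat_lit 76) (nat_lit 43966041842) (nat_lit 8) (nat_lit 5) (nat_lit 10) (nat_lit 5) (nat_lit 9) (nat_lit 4) (nat_lit 339) (nat_lit 246) (nat_lit 195)) (XT.lf (nat_lit 0) (nat_lit 2792492397) (nat_lit 76) (nat_lit 7734715236) (nat_lit 152) (nat_lit 50327213777) (nat_lit 7) (nat_lit 5) (nat_lit 8) (nat_lit 5) (nat_lit 9) (nat_lit 4) (nat_lit 340) (nat_lit 246) (nat_lit 194))))) (XT.nd (nat_lit 234) (nat_lit 76) (nat_lit 0) (XT.nd (nat_lit 78) (nat_lit 0)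 (nat_lit 0) (XT.lf (nat_lit 0) (nat_lit 16363738751) (nat_lit 76) (nat_lit 886241909) (nat_lit 152) (nat_lit 46430188877) (nat_lit 7) (nat_lit 5) (nat_lit 8) (nat_lit 5) (nat_lit 9) (nat_lit 4) (nat_lit 341) (nat_lit 246) (nat_lit 193)) (XT.nd (nat_lit 78) (nat_lit 0) (nat_lit 0) (XT.lf (nat_lit 0) (nat_lit 24323344699) (nat_lit 152) (nat_lit 36180759593) (nat_lit 0) (nat_lit 6142678049) (nat_lit 7) (nat_lit 5) (nat_lit 9) (nat_lit 4) (nat_lit 7) (nat_lit 4) (nat_lit 342) (nat_lit 246) (nat_lit 192)) (XT.lf (nat_lit 0) (nat_lit 31715367858) (nat_lit 152) (nat_lit 24579628698) (nat_lit 0) (nat_lit 13467789826) (nat_lit 7) (nat_lit 5) (nat_lit 9) (nat_lit 4) (nat_lit 7) (nat_lit 4) (nat_lit 343) (nat_lit 246) (nat_lit 191)))) (XT.nd (nat_lit 156) (nat_lit 0) (nat_lit 0) (XT.nd (nat_lit 78) (nat_lit 76) (nat_lit 0) (XT.lf (nat_lit 0) (nat_lit 39435131092) (nat_lit 152) (nat_lit 12476897261)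 (nat_lit 0) (nat_lit 21123827935) (nat_lit 7) (nat_lit 5) (nat_lit 9) (nat_lit 4) (nat_lit 7) (nat_lit 4) (nat_lit 344) (nat_lit 246) (nat_lit 190)) (XT.lf (nat_lit 0) (nat_lit 159360439) (nat_lit 76) (nat_lit 47343186222) (nat_lit 76) (nat_lit 28971192470) (nat_lit 6) (nat_lit 4) (nat_lit 7) (nat_lit 5) (nat_lit 7) (nat_lit 4) (nat_lit 345) (nat_lit 246) (nat_lit 189))) (XT.nd (nat_lit 78) (nat_lit 0) (nat_lit 0) (XT.lf (nat_lit 0) (nat_lit 13615583313) (nat_lit 76) (nat_lit 42447521445) (nat_lit 76) (nat_lit 24017727125) (nat_lit 6) (nat_lit 4) (nat_lit 7) (nat_lit 5) (nat_lit 7) (nat_lit 4) (nat_lit 346) (nat_lit 246) (nat_lit 188)) (XT.lf (nat_lit 0) (nat_lit 27675495264) (nat_lit 76) (nat_lit 37339369874) (nat_lit 76) (nat_lit 18854527396) (nat_lit 6) (nat_lit 4) (nat_lit 7) (nat_lit 5) (nat_lit 7) (nat_lit 4) (nat_lit 347) (nat_lit 246) (nat_lit 187))))))))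
noncomputable def xc28 : XT := (XT.nd (nat_lit 36582) (nat_lit 0) (nat_lit 988) (XT.nd (nat_lit 1014) (nat_lit 76) (nat_lit 0) (XT.nd (nat_lit 468) (nat_lit 0) (nat_lit 0) (XT.nd (nat_lit 234) (nat_lit 152) (nat_lit 0) (XT.nd (nat_lit 78) (nat_lit 0) (nat_lit 0) (XT.lf (nat_lit 0) (nat_lit 42372572274) (nat_lit 76) (nat_lit 32006569245) (nat_lit 76) (nat_lit 13469299949) (nat_lit 6) (nat_lit 4) (nat_lit 7) (nat_lit 5) (nat_lit 7) (nat_lit 4) (nat_lit 348) (nat_lit 246) (nat_lit 186)) (XT.nd (nat_lit 78) (nat_lit 0) (nat_lit 0) (XT.lf (nat_lit 0) (nat_lit 57741807382) (nat_lit 76) (nat_lit 26436422414) (nat_lit 76) (nat_lit 7849222814) (nat_lit 6) (nat_lit 4) (nat_lit 7) (nat_lit 5) (nat_lit 7) (nat_lit 4) (nat_lit 349) (nat_lit 246) (nat_lit 185)) (XT.lf (nat_lit 0) (nat_lit 73819794007) (nat_lit 76) (nat_lit 20615667125) (nat_lit 76) (nat_lit 1980914856) (nat_lit 6) (nat_lit 4) (nat_lit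 7) (nat_lit 5) (nat_lit 7) (nat_lit 4) (nat_lit 350) (nat_lit 246) (nat_lit 184)))) (XT.nd (nat_lit 78) (nat_lit 76) (nat_lit 0) (XT.lf (nat_lit 0) (nat_lit 4068622521) (nat_lit 152) (nat_lit 10420736807) (nat_lit 76) (nat_lit 86535105437) (nat_lit 5) (nat_lit 5) (nat_lit 7) (nat_lit 5) (nat_lit 6) (nat_lit 4) (nat_lit 351) (nat_lit 246) (nat_lit 183)) (XT.nd (nat_lit 78) (nat_lit 0) (nat_lit 0) (XT.lf (nat_lit 0) (nat_lit 2334720098) (nat_lit 76) (nat_lit 8038625860) (nat_lit 152) (nat_lit 95489219766) (nat_lit 4) (nat_lit 5) (nat_lit 5) (nat_lit 5) (nat_lit 6) (nat_lit 4) (nat_lit 352) (nat_lit 246) (nat_lit 182)) (XT.lf (nat_lit 0) (nat_lit 15892536395) (nat_lit 76) (nat_lit 1179772165) (nat_lit 152) (nat_lit 93867899237) (nat_lit 4) (nat_lit 5) (nat_lit 5) (nat_lit 5) (nat_lit 6) (nat_lit 4) (nat_lit 353) (nat_lit 246) (nat_lit 181))))) (XT.nd (nat_lit 234) (nat_lit 0) (nat_lit 0) (XT.nd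 (nat_lit 78) (nat_lit 0) (nat_lit 0) (XT.lf (nat_lit 0) (nat_lit 24136955511) (nat_lit 152) (nat_lit 86252605386) (nat_lit 0) (nat_lit 5881254849) (nat_lit 4) (nat_lit 5) (nat_lit 6) (nat_lit 4) (nat_lit 4) (nat_lit 4) (nat_lit 354) (nat_lit 246) (nat_lit 180)) (XT.nd (nat_lit 78) (nat_lit 0) (nat_lit 0) (XT.lf (nat_lit 0) (nat_lit 31540884287) (nat_lit 152) (nat_lit 77078483833) (nat_lit 0) (nat_lit 13249010071) (nat_lit 4) (nat_lit 5) (nat_lit 6) (nat_lit 4) (nat_lit 4) (nat_lit 4) (nat_lit 355) (nat_lit 246) (nat_lit 179)) (XT.lf (nat_lit 0) (nat_lit 39290382598) (nat_lit 152) (nat_lit 67492122905) (nat_lit 0) (nat_lit 20964057378) (nat_lit 4) (nat_lit 5) (nat_lit 6) (nat_lit 4) (nat_lit 4) (nat_lit 4) (nat_lit 356) (nat_lit 246) (nat_lit 178)))) (XT.nd (nat_lit 156) (nat_lit 0) (nat_lit 0) (XT.nd (nat_lit 78) (nat_lit 0) (nat_lit 0) (XT.lf (nat_lit 0) (nat_lit 47403901631) (nat_lit 152)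 (nat_lit 57470697933) (nat_lit 0) (nat_lit 29044765930) (nat_lit 4) (nat_lit 5) (nat_lit 6) (nat_lit 4) (nat_lit 4) (nat_lit 4) (nat_lit 357) (nat_lit 246) (nat_lit 177)) (XT.lf (nat_lit 0) (nat_lit 55900759287) (nat_lit 152) (nat_lit 46990348381) (nat_lit 0) (nat_lit 37510375510) (nat_lit 4) (nat_lit 5) (nat_lit 6) (nat_lit 4) (nat_lit 4) (nat_lit 4) (nat_lit 358) (nat_lit 246) (nat_lit 176))) (XT.nd (nat_lit 78) (nat_lit 0) (nat_lit 0) (XT.lf (nat_lit 0) (nat_lit 64801186181) (nat_lit 152) (nat_lit 36026121037) (nat_lit 0) (nat_lit 46381042331) (nat_lit 4) (nat_lit 5) (nat_lit 6) (nat_lit 4) (nat_lit 4) (nat_lit 4) (nat_lit 359) (nat_lit 246) (nat_lit 175)) (XT.lf (nat_lit 0) (nat_lit 74126373804) (nat_lit 152) (nat_lit 24551910596) (nat_lit 0) (nat_lit 55677887029) (nat_lit 4) (nat_lit 5) (nat_lit 6) (nat_lit 4) (nat_lit 4) (nat_lit 4) (nat_lit 360) (nat_lit 246) (nat_lit 174)))))) (XT.nd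 (nat_lit 35022) (nat_lit 0) (nat_lit 4864) (XT.nd (nat_lit 234) (nat_lit 0) (nat_lit 0) (XT.nd (nat_lit 78) (nat_lit 76) (nat_lit 0) (XT.lf (nat_lit 0) (nat_lit 83898524986) (nat_lit 152) (nat_lit 12540397511) (nat_lit 0) (nat_lit 65423044947) (nat_lit 4) (nat_lit 5) (nat_lit 6) (nat_lit 4) (nat_lit 4) (nat_lit 4) (nat_lit 361) (nat_lit 246) (nat_lit 173)) (XT.nd (nat_lit 78) (nat_lit 0) (nat_lit 0) (XT.lf (nat_lit 0) (nat_lit 37753771) (nat_lit 76) (nat_lit 94103515893) (nat_lit 76) (nat_lit 75602327984) (nat_lit 3) (nat_lit 4) (nat_lit 4) (nat_lit 5) (nat_lit 4) (nat_lit 4) (nat_lit 362) (nat_lit 246) (nat_lit 172)) (XT.lf (nat_lit 0) (nat_lit 13473189801) (nat_lit 76) (nat_lit 91534228466) (nat_lit 76) (nat_lit 73008556872) (nat_lit 3) (nat_lit 4) (nat_lit 4) (nat_lit 5) (nat_lit 4) (nat_lit 4) (nat_lit 363) (nat_lit 246) (nat_lit 171)))) (XT.nd (nat_lit 34632) (nat_lit 0) (nat_lit 7448)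 (XT.nd (nat_lit 34554) (nat_lit 0) (nat_lit 8208) (XT.lf (nat_lit 0) (nat_lit 27548321214) (nat_lit 76) (nat_lit 88851576291) (nat_lit 76) (nat_lit 70302586902) (nat_lit 3) (nat_lit 4) (nat_lit 4) (nat_lit 5) (nat_lit 4) (nat_lit 4) (nat_lit 364) (nat_lit 246) (nat_lit 170)) (XT.lf (nat_lit 0) (nat_lit 890810850) (nat_lit 380) (nat_lit 1717415325) (nat_lit 380) (nat_lit 1717415325) (nat_lit 111) (nat_lit 4) (nat_lit 116) (nat_lit 5) (nat_lit 116) (nat_lit 4) (nat_lit 286) (nat_lit 247) (nat_lit 247))) (XT.nd (nat_lit 78) (nat_lit 380) (nat_lit 0) (XT.lf (nat_lit 0) (nat_lit 2609772902) (nat_lit 380) (nat_lit 5287842319) (nat_lit 0) (nat_lit 942596747) (nat_lit 106) (nat_lit 5) (nat_lit 111) (nat_lit 4) (nat_lit 106) (nat_lit 4) (nat_lit 287) (nat_lit 247) (nat_lit 246)) (XT.lf (nat_lit 0) (nat_lit 5286656192) (nat_lit 380) (nat_lit 3504476007) (nat_lit 380) (nat_lit 249513039) (nat_lit 101)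 (nat_lit 4) (nat_lit 106) (nat_lit 5) (nat_lit 106) (nat_lit 4) (nat_lit 288) (nat_lit 247) (nat_lit 245))))) (XT.nd (nat_lit 234) (nat_lit 1216) (nat_lit 0) (XT.nd (nat_lit 78) (nat_lit 988) (nat_lit 0) (XT.lf (nat_lit 0) (nat_lit 5800489510) (nat_lit 380) (nat_lit 2280269571) (nat_lit 0) (nat_lit 1172197388) (nat_lit 96) (nat_lit 5) (nat_lit 101) (nat_lit 4) (nat_lit 96) (nat_lit 4) (nat_lit 289) (nat_lit 247) (nat_lit 244)) (XT.nd (nat_lit 78) (nat_lit 608) (nat_lit 0) (XT.lf (nat_lit 0) (nat_lit 2537926778) (nat_lit 380) (nat_lit 874523523) (nat_lit 76) (nat_lit 6065256411) (nat_lit 91) (nat_lit 5) (nat_lit 96) (nat_lit 5) (nat_lit 92) (nat_lit 4) (nat_lit 290) (nat_lit 247) (nat_lit 243)) (XT.lf (nat_lit 0) (nat_lit 471676753) (nat_lit 304) (nat_lit 8193879287) (nat_lit 304) (nat_lit 1050038888) (nat_lit 83) (nat_lit 4) (nat_lit 87) (nat_lit 5) (nat_lit 87) (nat_lit 4) (nat_lit 291)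 (nat_lit 247) (nat_lit 242)))) (XT.nd (nat_lit 156) (nat_lit 532) (nat_lit 0) (XT.nd (nat_lit 78) (nat_lit 380) (nat_lit 0) (XT.lf (nat_lit 0) (nat_lit 1715046804) (nat_lit 228) (nat_lit 3255484106) (nat_lit 304) (nat_lit 4995454662) (nat_lit 79) (nat_lit 5) (nat_lit 82) (nat_lit 5) (nat_lit 83) (nat_lit 4) (nat_lit 292) (nat_lit 247) (nat_lit 241)) (XT.lf (nat_lit 0) (nat_lit 938374379) (nat_lit 380) (nat_lit 7364797688) (nat_lit 76) (nat_lit 1927775647) (nat_lit 74) (nat_lit 5) (nat_lit 79) (nat_lit 5) (nat_lit 75) (nat_lit 4) (nat_lit 293) (nat_lit 247) (nat_lit 240))) (XT.nd (nat_lit 78) (nat_lit 304) (nat_lit 0) (XT.lf (nat_lit 0) (nat_lit 3861858199) (nat_lit 228) (nat_lit 3141020645) (nat_lit 304) (nat_lit 3506838824) (nat_lit 71) (nat_lit 5) (nat_lit 74) (nat_lit 5) (nat_lit 75) (nat_lit 4) (nat_lit 294) (nat_lit 247) (nat_lit 239)) (XT.lf (nat_lit 0) (nat_lit 2448126405) (nat_lit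 304) (nat_lit 6085294914) (nat_lit 76) (nat_lit 2270512631) (nat_lit 67) (nat_lit 5) (nat_lit 71) (nat_lit 5) (nat_lit 68) (nat_lit 4) (nat_lit 295) (nat_lit 247) (nat_lit 238))))))) (XT.nd (nat_lit 1092) (nat_lit 1216) (nat_lit 0) (XT.nd (nat_lit 546) (nat_lit 1064) (nat_lit 0) (XT.nd (nat_lit 234) (nat_lit 912) (nat_lit 0) (XT.nd (nat_lit 78) (nat_lit 456) (nat_lit 0) (XT.lf (nat_lit 0) (nat_lit 5394094746) (nat_lit 228) (nat_lit 3179266099) (nat_lit 304) (nat_lit 2540250176) (nat_lit 64) (nat_lit 5) (nat_lit 67) (nat_lit 5) (nat_lit 68) (nat_lit 4) (nat_lit 296) (nat_lit 247) (nat_lit 237)) (XT.nd (nat_lit 78) (nat_lit 152) (nat_lit 0) (XT.lf (nat_lit 0) (nat_lit 3436810351) (nat_lit 304) (nat_lit 5566183363) (nat_lit 76) (nat_lit 2436672735) (nat_lit 60) (nat_lit 5) (nat_lit 64) (nat_lit 5) (nat_lit 61) (nat_lit 4) (nat_lit 297) (nat_lit 247) (nat_lit 236)) (XT.lf (nat_lit 0) (nat_lit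 6131124708) (nat_lit 152) (nat_lit 3482112991) (nat_lit 228) (nat_lit 2169566884) (nat_lit 58) (nat_lit 5) (nat_lit 60) (nat_lit 5) (nat_lit 61) (nat_lit 4) (nat_lit 298) (nat_lit 247) (nat_lit 235)))) (XT.nd (nat_lit 156) (nat_lit 456) (nat_lit 0) (XT.nd (nat_lit 78) (nat_lit 152) (nat_lit 0) (XT.lf (nat_lit 0) (nat_lit 3824479251) (nat_lit 304) (nat_lit 6007712258) (nat_lit 76) (nat_lit 2311495647) (nat_lit 54) (nat_lit 5) (nat_lit 58) (nat_lit 5) (nat_lit 55) (nat_lit 4) (nat_lit 299) (nat_lit 247) (nat_lit 234)) (XT.lf (nat_lit 0) (nat_lit 5860748525) (nat_lit 152) (nat_lit 4175018100) (nat_lit 228) (nat_lit 2487441466) (nat_lit 52) (nat_lit 5) (nat_lit 54) (nat_lit 5) (nat_lit 55) (nat_lit 4) (nat_lit 300) (nat_lit 247) (nat_lit 233))) (XT.nd (nat_lit 78) (nat_lit 152) (nat_lit 0) (XT.lf (nat_lit 0) (nat_lit 3511577182) (nat_lit 304) (nat_lit 7645333915) (nat_lit 76) (nat_lit 1765449613)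 (nat_lit 48) (nat_lit 5) (nat_lit 52) (nat_lit 5) (nat_lit 49) (nat_lit 4) (nat_lit 301) (nat_lit 247) (nat_lit 232)) (XT.lf (nat_lit 0) (nat_lit 4332991528) (nat_lit 152) (nat_lit 5400445871) (nat_lit 228) (nat_lit 3608162355) (nat_lit 46) (nat_lit 5) (nat_lit 48) (nat_lit 5) (nat_lit 49) (nat_lit 4) (nat_lit 302) (nat_lit 247) (nat_lit 231))))) (XT.nd (nat_lit 234) (nat_lit 608) (nat_lit 0) (XT.nd (nat_lit 78) (nat_lit 228) (nat_lit 0) (XT.lf (nat_lit 0) (nat_lit 2375877139) (nat_lit 228) (nat_lit 10756471498) (nat_lit 76) (nat_lit 650632816) (nat_lit 43) (nat_lit 5) (nat_lit 46) (nat_lit 5) (nat_lit 44) (nat_lit 4) (nat_lit 303) (nat_lit 247) (nat_lit 230)) (XT.nd (nat_lit 78) (nat_lit 76) (nat_lit 0) (XT.lf (nat_lit 0) (nat_lit 1252880352) (nat_lit 152) (nat_lit 7321792378) (nat_lit 228) (nat_lit 5671068502) (nat_lit 41) (nat_lit 5) (nat_lit 43) (nat_lit 5) (nat_lit 44) (nat_lit 4) (nat_lit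 304) (nat_lit 247) (nat_lit 229)) (XT.lf (nat_lit 0) (nat_lit 289733507) (nat_lit 228) (nat_lit 928183294) (nat_lit 76) (nat_lit 13515355432) (nat_lit 40) (nat_lit 5) (nat_lit 43) (nat_lit 5) (nat_lit 41) (nat_lit 5) (nat_lit 305) (nat_lit 247) (nat_lit 228)))) (XT.nd (nat_lit 156) (nat_lit 304) (nat_lit 0) (XT.nd (nat_lit 78) (nat_lit 152) (nat_lit 0) (XT.lf (nat_lit 0) (nat_lit 6435743058) (nat_lit 228) (nat_lit 3655232572) (nat_lit 76) (nat_lit 5152461814) (nat_lit 38) (nat_lit 5) (nat_lit 41) (nat_lit 5) (nat_lit 39) (nat_lit 4) (nat_lit 306) (nat_lit 247) (nat_lit 227)) (XT.lf (nat_lit 0) (nat_lit 8866278881) (nat_lit 152) (nat_lit 3974923600) (nat_lit 228) (nat_lit 2939416094) (nat_lit 36) (nat_lit 5) (nat_lit 38) (nat_lit 5) (nat_lit 39) (nat_lit 4) (nat_lit 307) (nat_lit 247) (nat_lit 226))) (XT.nd (nat_lit 78) (nat_lit 76) (nat_lit 0) (XT.lf (nat_lit 0) (nat_lit 3122888589) (nat_lit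 228) (nat_lit 10806168565) (nat_lit 76) (nat_lit 2415834360) (nat_lit 33) (nat_lit 5) (nat_lit 36) (nat_lit 5) (nat_lit 34) (nat_lit 4) (nat_lit 308) (nat_lit 247) (nat_lit 225)) (XT.lf (nat_lit 0) (nat_lit 1526192472) (nat_lit 76) (nat_lit 7880655715) (nat_lit 152) (nat_lit 7530340410) (nat_lit 32) (nat_lit 5) (nat_lit 33) (nat_lit 5) (nat_lit 34) (nat_lit 4) (nat_lit 309) (nat_lit 247) (nat_lit 224)))))) (XT.nd (nat_lit 546) (nat_lit 608) (nat_lit 0) (XT.nd (nat_lit 234) (nat_lit 304) (nat_lit 0) (XT.nd (nat_lit 78) (nat_lit 304) (nat_lit 0) (XT.lf (nat_lit 0) (nat_lit 14451567780) (nat_lit 76) (nat_lit 1521417408) (nat_lit 152) (nat_lit 1587136466) (nat_lit 32) (nat_lit 5) (nat_lit 33) (nat_lit 5) (nat_lit 34) (nat_lit 4) (nat_lit 310) (nat_lit 247) (nat_lit 223)) (XT.nd (nat_lit 78) (nat_lit 76) (nat_lit 0) (XT.lf (nat_lit 0) (nat_lit 4567895006) (nat_lit 228) (nat_lit 8550709490) (nat_lit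 76) (nat_lit 5094146867) (nat_lit 29) (nat_lit 5) (nat_lit 32) (nat_lit 5) (nat_lit 30) (nat_lit 4) (nat_lit 311) (nat_lit 247) (nat_lit 222)) (XT.lf (nat_lit 0) (nat_lit 4049857371) (nat_lit 76) (nat_lit 6900417221) (nat_lit 152) (nat_lit 7948747190) (nat_lit 28) (nat_lit 5) (nat_lit 29) (nat_lit 5) (nat_lit 30) (nat_lit 4) (nat_lit 312) (nat_lit 247) (nat_lit 221)))) (XT.nd (nat_lit 156) (nat_lit 76) (nat_lit 0) (XT.nd (nat_lit 78) (nat_lit 228) (nat_lit 0) (XT.lf (nat_lit 0) (nat_lit 17229365785) (nat_lit 76) (nat_lit 380138239) (nat_lit 152) (nat_lit 2011420517) (nat_lit 28) (nat_lit 5) (nat_lit 29) (nat_lit 5) (nat_lit 30) (nat_lit 4) (nat_lit 313) (nat_lit 247) (nat_lit 220)) (XT.lf (nat_lit 0) (nat_lit 4179881116) (nat_lit 228) (nat_lit 9806613029) (nat_lit 76) (nat_lit 6390072153) (nat_lit 25) (nat_lit 5) (nat_lit 28) (nat_lit 5) (nat_lit 26) (nat_lit 4) (nat_lit 314) (nat_lit 247)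 (nat_lit 219))) (XT.nd (nat_lit 78) (nat_lit 0) (nat_lit 0) (XT.lf (nat_lit 0) (nat_lit 2874153266) (nat_lit 76) (nat_lit 7699350194) (nat_lit 152) (nat_lit 10597903268) (nat_lit 24) (nat_lit 5) (nat_lit 25) (nat_lit 5) (nat_lit 26) (nat_lit 4) (nat_lit 315) (nat_lit 247) (nat_lit 218)) (XT.lf (nat_lit 0) (nat_lit 16182315528) (nat_lit 76) (nat_lit 1086875213) (nat_lit 152) (nat_lit 4737369483) (nat_lit 24) (nat_lit 5) (nat_lit 25) (nat_lit 5) (nat_lit 26) (nat_lit 4) (nat_lit 316) (nat_lit 247) (nat_lit 217))))) (XT.nd (nat_lit 234) (nat_lit 304) (nat_lit 0) (XT.nd (nat_lit 78) (nat_lit 76) (nat_lit 0) (XT.lf (nat_lit 0) (nat_lit 1399894955) (nat_lit 228) (nat_lit 15745297547) (nat_lit 76) (nat_lit 5737569675) (nat_lit 21) (nat_lit 5) (nat_lit 24) (nat_lit 5) (nat_lit 22) (nat_lit 4) (nat_lit 317) (nat_lit 247) (nat_lit 216)) (XT.nd (nat_lit 78) (nat_lit 76) (nat_lit 0) (XT.lf (nat_lit 0)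 (nat_lit 7707087200) (nat_lit 228) (nat_lit 3191863874) (nat_lit 76) (nat_lit 12903622271) (nat_lit 21) (nat_lit 5) (nat_lit 24) (nat_lit 5) (nat_lit 22) (nat_lit 4) (nat_lit 318) (nat_lit 247) (nat_lit 215)) (XT.lf (nat_lit 0) (nat_lit 9993315454) (nat_lit 76) (nat_lit 4326300424) (nat_lit 152) (nat_lit 10449095582) (nat_lit 20) (nat_lit 5) (nat_lit 21) (nat_lit 5) (nat_lit 22) (nat_lit 4) (nat_lit 319) (nat_lit 247) (nat_lit 214)))) (XT.nd (nat_lit 156) (nat_lit 76) (nat_lit 0) (XT.nd (nat_lit 78) (nat_lit 228) (nat_lit 0) (XT.lf (nat_lit 0) (nat_lit 21217095523) (nat_lit 152) (nat_lit 2090576727) (nat_lit 0) (nat_lit 2476888487) (nat_lit 20) (nat_lit 5) (nat_lit 22) (nat_lit 4) (nat_lit 20) (nat_lit 4) (nat_lit 320) (nat_lit 247) (nat_lit 213)) (XT.lf (nat_lit 0) (nat_lit 1630247361) (nat_lit 228) (nat_lit 15640613920) (nat_lit 76) (nat_lit 9578307342) (nat_lit 17) (nat_lit 5) (nat_lit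 20) (nat_lit 5) (nat_lit 18) (nat_lit 4) (nat_lit 321) (nat_lit 247) (nat_lit 212))) (XT.nd (nat_lit 78) (nat_lit 76) (nat_lit 0) (XT.lf (nat_lit 0) (nat_lit 7969370321) (nat_lit 228) (nat_lit 2972012435) (nat_lit 76) (nat_lit 17026517801) (nat_lit 17) (nat_lit 5) (nat_lit 20) (nat_lit 5) (nat_lit 18) (nat_lit 4) (nat_lit 322) (nat_lit 247) (nat_lit 211)) (XT.lf (nat_lit 0) (nat_lit 10364975070) (nat_lit 76) (nat_lit 4268085143) (nat_lit 152) (nat_lit 14509309060) (nat_lit 16) (nat_lit 5) (nat_lit 17) (nat_lit 5) (nat_lit 18) (nat_lit 4) (nat_lit 323) (nat_lit 247) (nat_lit 210))))))))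
noncomputable def xc29 : XT := (XT.nd (nat_lit 2184) (nat_lit 228) (nat_lit 0) (XT.nd (nat_lit 1092) (nat_lit 228) (nat_lit 0) (XT.nd (nat_lit 546) (nat_lit 228) (nat_lit 0) (XT.nd (nat_lit 234) (nat_lit 152) (nat_lit 0) (XT.nd (nat_lit 78) (nat_lit 152) (nat_lit 0) (XT.lf (nat_lit 0) (nat_lit 21597251167) (nat_lit 152) (nat_lit 6134861009) (nat_lit 0) (nat_lit 2644456903) (nat_lit 16) (nat_lit 5) (nat_lit 18) (nat_lit 4) (nat_lit 16) (nat_lit 4) (nat_lit 324) (nat_lit 247) (nat_lit 209)) (XT.nd (nat_lit 78) (nat_lit 76) (nat_lit 0) (XT.lf (nat_lit 0) (nat_lit 7078169170) (nat_lit 76) (nat_lit 21856974002) (nat_lit 76) (nat_lit 2736596817) (nat_lit 15) (nat_lit 4) (nat_lit 16) (nat_lit 5) (nat_lit 16) (nat_lit 4) (nat_lit 325) (nat_lit 247) (nat_lit 208)) (XT.lf (nat_lit 0) (nat_lit 3517770003) (nat_lit 152) (nat_lit 12138906860) (nat_lit 76) (nat_lit 17374578351) (nat_lit 14) (nat_lit 5)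 (nat_lit 16) (nat_lit 5) (nat_lit 15) (nat_lit 4) (nat_lit 326) (nat_lit 247) (nat_lit 207)))) (XT.nd (nat_lit 156) (nat_lit 76) (nat_lit 0) (XT.nd (nat_lit 78) (nat_lit 0) (nat_lit 0) (XT.lf (nat_lit 0) (nat_lit 779534659) (nat_lit 76) (nat_lit 9176877791) (nat_lit 152) (nat_lit 24503699042) (nat_lit 13) (nat_lit 5) (nat_lit 14) (nat_lit 5) (nat_lit 15) (nat_lit 4) (nat_lit 327) (nat_lit 247) (nat_lit 206)) (XT.lf (nat_lit 0) (nat_lit 14455220386) (nat_lit 76) (nat_lit 2309295588) (nat_lit 152) (nat_lit 19194490428) (nat_lit 13) (nat_lit 5) (nat_lit 14) (nat_lit 5) (nat_lit 15) (nat_lit 4) (nat_lit 328) (nat_lit 247) (nat_lit 205))) (XT.nd (nat_lit 78) (nat_lit 76) (nat_lit 0) (XT.lf (nat_lit 0) (nat_lit 23885804977) (nat_lit 152) (nat_lit 8902479102) (nat_lit 0) (nat_lit 4745399223) (nat_lit 13) (nat_lit 5) (nat_lit 15) (nat_lit 4) (nat_lit 13) (nat_lit 4) (nat_lit 329) (nat_lit 247) (nat_lit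 204)) (XT.lf (nat_lit 0) (nat_lit 4258001798) (nat_lit 76) (nat_lit 27098597803) (nat_lit 76) (nat_lit 7830710881) (nat_lit 12) (nat_lit 4) (nat_lit 13) (nat_lit 5) (nat_lit 13) (nat_lit 4) (nat_lit 330) (nat_lit 247) (nat_lit 203))))) (XT.nd (nat_lit 234) (nat_lit 76) (nat_lit 0) (XT.nd (nat_lit 78) (nat_lit 152) (nat_lit 0) (XT.lf (nat_lit 0) (nat_lit 18135616029) (nat_lit 76) (nat_lit 21088314692) (nat_lit 76) (nat_lit 1699017133) (nat_lit 12) (nat_lit 4) (nat_lit 13) (nat_lit 5) (nat_lit 13) (nat_lit 4) (nat_lit 331) (nat_lit 247) (nat_lit 202)) (XT.nd (nat_lit 78) (nat_lit 76) (nat_lit 0) (XT.lf (nat_lit 0) (nat_lit 4580738920) (nat_lit 152) (nat_lit 10206026728) (nat_lit 76) (nat_lit 27959233336) (nat_lit 11) (nat_lit 5) (nat_lit 13) (nat_lit 5) (nat_lit 12) (nat_lit 4) (nat_lit 332) (nat_lit 247) (nat_lit 201)) (XT.lf (nat_lit 0) (nat_lit 2927935382) (nat_lit 76) (nat_lit 8176983408)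 (nat_lit 152) (nat_lit 33555828491) (nat_lit 10) (nat_lit 5) (nat_lit 11) (nat_lit 5) (nat_lit 12) (nat_lit 4) (nat_lit 333) (nat_lit 247) (nat_lit 200)))) (XT.nd (nat_lit 156) (nat_lit 76) (nat_lit 0) (XT.nd (nat_lit 78) (nat_lit 0) (nat_lit 0) (XT.lf (nat_lit 0) (nat_lit 16818813740) (nat_lit 76) (nat_lit 1180566838) (nat_lit 152) (nat_lit 28670545938) (nat_lit 10) (nat_lit 5) (nat_lit 11) (nat_lit 5) (nat_lit 12) (nat_lit 4) (nat_lit 334) (nat_lit 247) (nat_lit 199)) (XT.lf (nat_lit 0) (nat_lit 25239272100) (nat_lit 152) (nat_lit 17543551817) (nat_lit 0) (nat_lit 5996734560) (nat_lit 10) (nat_lit 5) (nat_lit 12) (nat_lit 4) (nat_lit 10) (nat_lit 4) (nat_lit 335) (nat_lit 247) (nat_lit 198))) (XT.nd (nat_lit 78) (nat_lit 76) (nat_lit 0) (XT.lf (nat_lit 0) (nat_lit 32797301037) (nat_lit 152) (nat_lit 4736295149) (nat_lit 0) (nat_lit 13462405817) (nat_lit 10) (nat_lit 5) (nat_lit 12) (nat_lit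 4) (nat_lit 10) (nat_lit 4) (nat_lit 336) (nat_lit 247) (nat_lit 197)) (XT.lf (nat_lit 0) (nat_lit 8783904643) (nat_lit 76) (nat_lit 31980645986) (nat_lit 76) (nat_lit 12557791071) (nat_lit 9) (nat_lit 4) (nat_lit 10) (nat_lit 5) (nat_lit 10) (nat_lit 4) (nat_lit 337) (nat_lit 247) (nat_lit 196)))))) (XT.nd (nat_lit 546) (nat_lit 76) (nat_lit 0) (XT.nd (nat_lit 234) (nat_lit 76) (nat_lit 0) (XT.nd (nat_lit 78) (nat_lit 76) (nat_lit 0) (XT.lf (nat_lit 0) (nat_lit 22983096546) (nat_lit 76) (nat_lit 26144311724) (nat_lit 76) (nat_lit 6637685671) (nat_lit 9) (nat_lit 4) (nat_lit 10) (nat_lit 5) (nat_lit 10) (nat_lit 4) (nat_lit 338) (nat_lit 247) (nat_lit 195)) (XT.nd (nat_lit 78) (nat_lit 76) (nat_lit 0) (XT.lf (nat_lit 0) (nat_lit 37800826600) (nat_lit 76) (nat_lit 20058524661) (nat_lit 76) (nat_lit 472116571) (nat_lit 9) (nat_lit 4) (nat_lit 10) (nat_lit 5) (nat_lit 10) (nat_lit 4) (nat_lit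 339) (nat_lit 247) (nat_lit 194)) (XT.lf (nat_lit 0) (nat_lit 5837420049) (nat_lit 152) (nat_lit 7812428280) (nat_lit 76) (nat_lit 47376008566) (nat_lit 8) (nat_lit 5) (nat_lit 10) (nat_lit 5) (nat_lit 9) (nat_lit 4) (nat_lit 340) (nat_lit 247) (nat_lit 193)))) (XT.nd (nat_lit 156) (nat_lit 0) (nat_lit 0) (XT.nd (nat_lit 78) (nat_lit 0) (nat_lit 0) (XT.lf (nat_lit 0) (nat_lit 5561630226) (nat_lit 76) (nat_lit 6899643599) (nat_lit 152) (nat_lit 51393304063) (nat_lit 7) (nat_lit 5) (nat_lit 8) (nat_lit 5) (nat_lit 9) (nat_lit 4) (nat_lit 341) (nat_lit 247) (nat_lit 192)) (XT.lf (nat_lit 0) (nat_lit 19455392327) (nat_lit 152) (nat_lit 47139656756) (nat_lit 0) (nat_lit 228524012) (nat_lit 7) (nat_lit 5) (nat_lit 9) (nat_lit 4) (nat_lit 7) (nat_lit 4) (nat_lit 342) (nat_lit 247) (nat_lit 191))) (XT.nd (nat_lit 78) (nat_lit 0) (nat_lit 0) (XT.lf (nat_lit 0) (nat_lit 26826995445) (nat_lit 152) (nat_lit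 35576797081) (nat_lit 0) (nat_lit 7536402005) (nat_lit 7) (nat_lit 5) (nat_lit 9) (nat_lit 4) (nat_lit 7) (nat_lit 4) (nat_lit 343) (nat_lit 247) (nat_lit 190)) (XT.lf (nat_lit 0) (nat_lit 34527311023) (nat_lit 152) (nat_lit 23510514427) (nat_lit 0) (nat_lit 15176026988) (nat_lit 7) (nat_lit 5) (nat_lit 9) (nat_lit 4) (nat_lit 7) (nat_lit 4) (nat_lit 344) (nat_lit 247) (nat_lit 189))))) (XT.nd (nat_lit 234) (nat_lit 0) (nat_lit 0) (XT.nd (nat_lit 78) (nat_lit 76) (nat_lit 0) (XT.lf (nat_lit 0) (nat_lit 42574673145) (nat_lit 152) (nat_lit 10912079547) (nat_lit 0) (nat_lit 23165588542) (nat_lit 7) (nat_lit 5) (nat_lit 9) (nat_lit 4) (nat_lit 7) (nat_lit 4) (nat_lit 345) (nat_lit 247) (nat_lit 188)) (XT.nd (nat_lit 78) (nat_lit 0) (nat_lit 0) (XT.lf (nat_lit 0) (nat_lit 2293253465) (nat_lit 76) (nat_lit 48717032886) (nat_lit 76) (nat_lit 29252900125) (nat_lit 6) (nat_lit 4) (nat_lit 7) (nat_lit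 5) (nat_lit 7) (nat_lit 4) (nat_lit 346) (nat_lit 247) (nat_lit 187)) (XT.lf (nat_lit 0) (nat_lit 16321052958) (nat_lit 76) (nat_lit 43623885472) (nat_lit 76) (nat_lit 24107325892) (nat_lit 6) (nat_lit 4) (nat_lit 7) (nat_lit 5) (nat_lit 7) (nat_lit 4) (nat_lit 347) (nat_lit 247) (nat_lit 186)))) (XT.nd (nat_lit 156) (nat_lit 0) (nat_lit 0) (XT.nd (nat_lit 78) (nat_lit 0) (nat_lit 0) (XT.lf (nat_lit 0) (nat_lit 30987546675) (nat_lit 76) (nat_lit 38305374515) (nat_lit 76) (nat_lit 18738884633) (nat_lit 6) (nat_lit 4) (nat_lit 7) (nat_lit 5) (nat_lit 7) (nat_lit 4) (nat_lit 348) (nat_lit 247) (nat_lit 185)) (XT.lf (nat_lit 0) (nat_lit 46327654837) (nat_lit 76) (nat_lit 32748836896) (nat_lit 76) (nat_lit 13134794343) (nat_lit 6) (nat_lit 4) (nat_lit 7) (nat_lit 5) (nat_lit 7) (nat_lit 4) (nat_lit 349) (nat_lit 247) (nat_lit 184))) (XT.nd (nat_lit 78) (nat_lit 0) (nat_lit 0) (XT.lf (nat_lit 0)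 (nat_lit 62377901513) (nat_lit 76) (nat_lit 26941042761) (nat_lit 76) (nat_lit 7281711952) (nat_lit 6) (nat_lit 4) (nat_lit 7) (nat_lit 5) (nat_lit 7) (nat_lit 4) (nat_lit 350) (nat_lit 247) (nat_lit 183)) (XT.lf (nat_lit 0) (nat_lit 79176501576) (nat_lit 76) (nat_lit 20868164031) (nat_lit 76) (nat_lit 1165701549) (nat_lit 6) (nat_lit 4) (nat_lit 7) (nat_lit 5) (nat_lit 7) (nat_lit 4) (nat_lit 351) (nat_lit 247) (nat_lit 182))))))) (XT.nd (nat_lit 35412) (nat_lit 0) (nat_lit 4180) (XT.nd (nat_lit 546) (nat_lit 76) (nat_lit 0) (XT.nd (nat_lit 234) (nat_lit 0) (nat_lit 0) (XT.nd (nat_lit 78) (nat_lit 76) (nat_lit 0) (XT.lf (nat_lit 0) (nat_lit 5125785612) (nat_lit 152) (nat_lit 9338195472) (nat_lit 76) (nat_lit 91585905695) (nat_lit 5) (nat_lit 5) (nat_lit 7) (nat_lit 5) (nat_lit 6) (nat_lit 4) (nat_lit 352) (nat_lit 247) (nat_lit 181)) (XT.nd (nat_lit 78) (nat_lit 0) (nat_lit 0) (XT.lf (nat_lit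 0) (nat_lit 4009068032) (nat_lit 76) (nat_lit 7710996005) (nat_lit 152) (nat_lit 99410608199) (nat_lit 4) (nat_lit 5) (nat_lit 5) (nat_lit 5) (nat_lit 6) (nat_lit 4) (nat_lit 353) (nat_lit 247) (nat_lit 180)) (XT.lf (nat_lit 0) (nat_lit 18170603147) (nat_lit 76) (nat_lit 543940632) (nat_lit 152) (nat_lit 97748844145) (nat_lit 4) (nat_lit 5) (nat_lit 5) (nat_lit 5) (nat_lit 6) (nat_lit 4) (nat_lit 354) (nat_lit 247) (nat_lit 179)))) (XT.nd (nat_lit 156) (nat_lit 0) (nat_lit 0) (XT.nd (nat_lit 78) (nat_lit 0) (nat_lit 0) (XT.lf (nat_lit 0) (nat_lit 26101230741) (nat_lit 152) (nat_lit 89136101219) (nat_lit 0) (nat_lit 6824138256) (nat_lit 4) (nat_lit 5) (nat_lit 6) (nat_lit 4) (nat_lit 4) (nat_lit 4) (nat_lit 355) (nat_lit 247) (nat_lit 178)) (XT.lf (nat_lit 0) (nat_lit 33839287982) (nat_lit 152) (nat_lit 79571327609) (nat_lit 0) (nat_lit 14529385016) (nat_lit 4) (nat_lit 5) (nat_lit 6) (nat_lit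 4) (nat_lit 4) (nat_lit 4) (nat_lit 356) (nat_lit 247) (nat_lit 177))) (XT.nd (nat_lit 78) (nat_lit 0) (nat_lit 0) (XT.lf (nat_lit 0) (nat_lit 41941910757) (nat_lit 152) (nat_lit 69570461988) (nat_lit 0) (nat_lit 22600759715) (nat_lit 4) (nat_lit 5) (nat_lit 6) (nat_lit 4) (nat_lit 4) (nat_lit 4) (nat_lit 357) (nat_lit 247) (nat_lit 176)) (XT.lf (nat_lit 0) (nat_lit 50428391025) (nat_lit 152) (nat_lit 59109692770) (nat_lit 0) (nat_lit 31057479911) (nat_lit 4) (nat_lit 5) (nat_lit 6) (nat_lit 4) (nat_lit 4) (nat_lit 4) (nat_lit 358) (nat_lit 247) (nat_lit 175))))) (XT.nd (nat_lit 234) (nat_lit 76) (nat_lit 0) (XT.nd (nat_lit 78) (nat_lit 0) (nat_lit 0) (XT.lf (nat_lit 0) (nat_lit 59318934692) (nat_lit 152) (nat_lit 48164113363) (nat_lit 0) (nat_lit 39919680652) (nat_lit 4) (nat_lit 5) (nat_lit 6) (nat_lit 4) (nat_lit 4) (nat_lit 4) (nat_lit 359) (nat_lit 247) (nat_lit 174)) (XT.nd (nat_lit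 78) (nat_lit 0) (nat_lit 0) (XT.lf (nat_lit 0) (nat_lit 68634709719) (nat_lit 152) (nat_lit 36707662863) (nat_lit 0) (nat_lit 49208462415) (nat_lit 4) (nat_lit 5) (nat_lit 6) (nat_lit 4) (nat_lit 4) (nat_lit 4) (nat_lit 360) (nat_lit 247) (nat_lit 173)) (XT.lf (nat_lit 0) (nat_lit 78397896523) (nat_lit 152) (nat_lit 24713064006) (nat_lit 0) (nat_lit 58945941349) (nat_lit 4) (nat_lit 5) (nat_lit 6) (nat_lit 4) (nat_lit 4) (nat_lit 4) (nat_lit 361) (nat_lit 247) (nat_lit 172)))) (XT.nd (nat_lit 156) (nat_lit 0) (nat_lit 0) (XT.nd (nat_lit 78) (nat_lit 76) (nat_lit 0) (XT.lf (nat_lit 0) (nat_lit 88631740786) (nat_lit 152) (nat_lit 12151758225) (nat_lit 0) (nat_lit 69155301927) (nat_lit 4) (nat_lit 5) (nat_lit 6) (nat_lit 4) (nat_lit 4) (nat_lit 4) (nat_lit 362) (nat_lit 247) (nat_lit 171)) (XT.lf (nat_lit 0) (nat_lit 1026186955) (nat_lit 76) (nat_lit 98344286185) (nat_lit 76) (nat_lit 78844529531)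 (nat_lit 3) (nat_lit 4) (nat_lit 4) (nat_lit 5) (nat_lit 4) (nat_lit 4) (nat_lit 363) (nat_lit 247) (nat_lit 170))) (XT.nd (nat_lit 34398) (nat_lit 0) (nat_lit 9500) (XT.lf (nat_lit 0) (nat_lit 15086416430) (nat_lit 76) (nat_lit 95668648935) (nat_lit 76) (nat_lit 76146684856) (nat_lit 3) (nat_lit 4) (nat_lit 4) (nat_lit 5) (nat_lit 4) (nat_lit 4) (nat_lit 364) (nat_lit 247) (nat_lit 169)) (XT.lf (nat_lit 0) (nat_lit 1677441718) (nat_lit 456) (nat_lit 796732543) (nat_lit 0) (nat_lit 1677441718) (nat_lit 128) (nat_lit 5) (nat_lit 134) (nat_lit 4) (nat_lit 128) (nat_lit 4) (nat_lit 284) (nat_lit 248) (nat_lit 248)))))) (XT.nd (nat_lit 546) (nat_lit 2204) (nat_lit 0) (XT.nd (nat_lit 234) (nat_lit 1444) (nat_lit 0) (XT.nd (nat_lit 78) (nat_lit 760) (nat_lit 0) (XT.lf (nat_lit 0) (nat_lit 10625083) (nat_lit 380) (nat_lit 909457490) (nat_lit 456) (nat_lit 7554165171) (nat_lit 116) (nat_lit 5) (nat_lit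 121) (nat_lit 5) (nat_lit 122) (nat_lit 4) (nat_lit 285) (nat_lit 248) (nat_lit 247)) (XT.nd (nat_lit 78) (nat_lit 380) (nat_lit 0) (XT.lf (nat_lit 0) (nat_lit 1612442492) (nat_lit 380) (nat_lit 5281489673) (nat_lit 380) (nat_lit 1761247223) (nat_lit 111) (nat_lit 4) (nat_lit 116) (nat_lit 5) (nat_lit 116) (nat_lit 4) (nat_lit 286) (nat_lit 248) (nat_lit 246)) (XT.lf (nat_lit 0) (nat_lit 3202054639) (nat_lit 304) (nat_lit 915047580) (nat_lit 380) (nat_lit 4730650914) (nat_lit 106) (nat_lit 5) (nat_lit 110) (nat_lit 5) (nat_lit 111) (nat_lit 4) (nat_lit 287) (nat_lit 248) (nat_lit 245)))) (XT.nd (nat_lit 156) (nat_lit 684) (nat_lit 0) (XT.nd (nat_lit 78) (nat_lit 304) (nat_lit 0) (XT.lf (nat_lit 0) (nat_lit 1093588340) (nat_lit 456) (nat_lit 4297691517) (nat_lit 76) (nat_lit 3660625184) (nat_lit 100) (nat_lit 5) (nat_lit 106) (nat_lit 5) (nat_lit 101) (nat_lit 4) (nat_lit 288) (nat_lit 248)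 (nat_lit 244)) (XT.lf (nat_lit 0) (nat_lit 6264476751) (nat_lit 304) (nat_lit 741593221) (nat_lit 380) (nat_lit 2262159147) (nat_lit 96) (nat_lit 5) (nat_lit 100) (nat_lit 5) (nat_lit 101) (nat_lit 4) (nat_lit 289) (nat_lit 248) (nat_lit 243))) (XT.nd (nat_lit 78) (nat_lit 304) (nat_lit 0) (XT.lf (nat_lit 0) (nat_lit 3577229636) (nat_lit 380) (nat_lit 1795927956) (nat_lit 76) (nat_lit 4123409156) (nat_lit 91) (nat_lit 5) (nat_lit 96) (nat_lit 5) (nat_lit 92) (nat_lit 4) (nat_lit 290) (nat_lit 248) (nat_lit 242)) (XT.lf (nat_lit 0) (nat_lit 9094682718) (nat_lit 304) (nat_lit 472123242) (nat_lit 380) (nat_lit 171883269) (nat_lit 87) (nat_lit 5) (nat_lit 91) (nat_lit 5) (nat_lit 92) (nat_lit 4) (nat_lit 291) (nat_lit 248) (nat_lit 241))))) (XT.nd (nat_lit 234) (nat_lit 988) (nat_lit 0) (XT.nd (nat_lit 78) (nat_lit 608) (nat_lit 0) (XT.lf (nat_lit 0) (nat_lit 373661235) (nat_lit 228) (nat_lit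 5326583562) (nat_lit 304) (nat_lit 4292606703) (nat_lit 79) (nat_lit 5) (nat_lit 82) (nat_lit 5) (nat_lit 83) (nat_lit 4) (nat_lit 292) (nat_lit 248) (nat_lit 240)) (XT.nd (nat_lit 78) (nat_lit 228) (nat_lit 0) (XT.lf (nat_lit 0) (nat_lit 1322935753) (nat_lit 304) (nat_lit 165673807) (nat_lit 380) (nat_lit 8773247561) (nat_lit 74) (nat_lit 5) (nat_lit 78) (nat_lit 5) (nat_lit 79) (nat_lit 5) (nat_lit 293) (nat_lit 248) (nat_lit 239)) (XT.lf (nat_lit 0) (nat_lit 2099639198) (nat_lit 228) (nat_lit 5333005102) (nat_lit 304) (nat_lit 3111672330) (nat_lit 71) (nat_lit 5) (nat_lit 74) (nat_lit 5) (nat_lit 75) (nat_lit 4) (nat_lit 294) (nat_lit 248) (nat_lit 238)))) (XT.nd (nat_lit 156) (nat_lit 456) (nat_lit 0) (XT.nd (nat_lit 78) (nat_lit 228) (nat_lit 0) (XT.lf (nat_lit 0) (nat_lit 2695114818) (nat_lit 304) (nat_lit 8094072328) (nat_lit 76) (nat_lit 53515593) (nat_lit 67) (nat_lit 5) (nat_lit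 71) (nat_lit 5) (nat_lit 68) (nat_lit 4) (nat_lit 295) (nat_lit 248) (nat_lit 237)) (XT.lf (nat_lit 0) (nat_lit 3191364279) (nat_lit 228) (nat_lit 5511043380) (nat_lit 304) (nat_lit 2453576852) (nat_lit 64) (nat_lit 5) (nat_lit 67) (nat_lit 5) (nat_lit 68) (nat_lit 4) (nat_lit 296) (nat_lit 248) (nat_lit 236))) (XT.nd (nat_lit 78) (nat_lit 152) (nat_lit 0) (XT.lf (nat_lit 0) (nat_lit 3380600927) (nat_lit 304) (nat_lit 8031154775) (nat_lit 76) (nat_lit 74556432) (nat_lit 60) (nat_lit 5) (nat_lit 64) (nat_lit 5) (nat_lit 61) (nat_lit 4) (nat_lit 297) (nat_lit 248) (nat_lit 235)) (XT.lf (nat_lit 0) (nat_lit 3467557594) (nat_lit 152) (nat_lit 5971916161) (nat_lit 228) (nat_lit 2393561668) (nat_lit 58) (nat_lit 5) (nat_lit 60) (nat_lit 5) (nat_lit 61) (nat_lit 4) (nat_lit 298) (nat_lit 248) (nat_lit 234))))))))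
noncomputable def xc30 : XT := (XT.nd (nat_lit 2184) (nat_lit 836) (nat_lit 0) (XT.nd (nat_lit 1092) (nat_lit 1064) (nat_lit 0) (XT.nd (nat_lit 546) (nat_lit 912) (nat_lit 0) (XT.nd (nat_lit 234) (nat_lit 532) (nat_lit 0) (XT.nd (nat_lit 78) (nat_lit 456) (nat_lit 0) (XT.lf (nat_lit 0) (nat_lit 3246573681) (nat_lit 228) (nat_lit 217744612) (nat_lit 304) (nat_lit 8733934521) (nat_lit 54) (nat_lit 5) (nat_lit 57) (nat_lit 5) (nat_lit 58) (nat_lit 5) (nat_lit 299) (nat_lit 248) (nat_lit 233)) (XT.nd (nat_lit 78) (nat_lit 304) (nat_lit 0) (XT.lf (nat_lit 0) (nat_lit 2715220815) (nat_lit 152) (nat_lit 6840600342) (nat_lit 228) (nat_lit 3025597661) (nat_lit 52) (nat_lit 5) (nat_lit 54) (nat_lit 5) (nat_lit 55) (nat_lit 4) (nat_lit 300) (nat_lit 248) (nat_lit 232)) (XT.lf (nat_lit 0) (nat_lit 1889901659) (nat_lit 228) (nat_lit 958477359) (nat_lit 304) (nat_lit 10136461561) (nat_lit 48) (nat_lit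 5) (nat_lit 51) (nat_lit 5) (nat_lit 52) (nat_lit 5) (nat_lit 301) (nat_lit 248) (nat_lit 231)))) (XT.nd (nat_lit 156) (nat_lit 304) (nat_lit 0) (XT.nd (nat_lit 78) (nat_lit 76) (nat_lit 0) (XT.lf (nat_lit 0) (nat_lit 683434763) (nat_lit 152) (nat_lit 8259258357) (nat_lit 228) (nat_lit 4465258267) (nat_lit 46) (nat_lit 5) (nat_lit 48) (nat_lit 5) (nat_lit 49) (nat_lit 4) (nat_lit 302) (nat_lit 248) (nat_lit 230)) (XT.lf (nat_lit 0) (nat_lit 1418556950) (nat_lit 228) (nat_lit 869432931) (nat_lit 76) (nat_lit 11565140812) (nat_lit 45) (nat_lit 5) (nat_lit 48) (nat_lit 5) (nat_lit 46) (nat_lit 5) (nat_lit 303) (nat_lit 248) (nat_lit 229))) (XT.nd (nat_lit 78) (nat_lit 152) (nat_lit 0) (XT.lf (nat_lit 0) (nat_lit 7495393681) (nat_lit 228) (nat_lit 2866804771) (nat_lit 76) (nat_lit 3957390749) (nat_lit 43) (nat_lit 5) (nat_lit 46) (nat_lit 5) (nat_lit 44) (nat_lit 4) (nat_lit 304) (nat_lit 248)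 (nat_lit 228)) (XT.lf (nat_lit 0) (nat_lit 9501442354) (nat_lit 152) (nat_lit 4343245097) (nat_lit 228) (nat_lit 965702748) (nat_lit 41) (nat_lit 5) (nat_lit 43) (nat_lit 5) (nat_lit 44) (nat_lit 4) (nat_lit 305) (nat_lit 248) (nat_lit 227))))) (XT.nd (nat_lit 234) (nat_lit 304) (nat_lit 0) (XT.nd (nat_lit 78) (nat_lit 380) (nat_lit 0) (XT.lf (nat_lit 0) (nat_lit 5050114735) (nat_lit 228) (nat_lit 8291268529) (nat_lit 76) (nat_lit 1983956916) (nat_lit 38) (nat_lit 5) (nat_lit 41) (nat_lit 5) (nat_lit 39) (nat_lit 4) (nat_lit 306) (nat_lit 248) (nat_lit 226)) (XT.nd (nat_lit 78) (nat_lit 228) (nat_lit 0) (XT.lf (nat_lit 0) (nat_lit 4012256896) (nat_lit 152) (nat_lit 7324638451) (nat_lit 228) (nat_lit 4529219845) (nat_lit 36) (nat_lit 5) (nat_lit 38) (nat_lit 5) (nat_lit 39) (nat_lit 4) (nat_lit 307) (nat_lit 248) (nat_lit 225)) (XT.lf (nat_lit 0) (nat_lit 417301803) (nat_lit 152) (nat_lit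 1003194194) (nat_lit 228) (nat_lit 15014689939) (nat_lit 33) (nat_lit 5) (nat_lit 35) (nat_lit 5) (nat_lit 36) (nat_lit 5) (nat_lit 308) (nat_lit 248) (nat_lit 224)))) (XT.nd (nat_lit 156) (nat_lit 228) (nat_lit 0) (XT.nd (nat_lit 78) (nat_lit 76) (nat_lit 0) (XT.lf (nat_lit 0) (nat_lit 7611427944) (nat_lit 228) (nat_lit 3824955838) (nat_lit 76) (nat_lit 5593919579) (nat_lit 33) (nat_lit 5) (nat_lit 36) (nat_lit 5) (nat_lit 34) (nat_lit 4) (nat_lit 309) (nat_lit 248) (nat_lit 223)) (XT.lf (nat_lit 0) (nat_lit 8908420356) (nat_lit 76) (nat_lit 5165089601) (nat_lit 152) (nat_lit 3582876222) (nat_lit 32) (nat_lit 5) (nat_lit 33) (nat_lit 5) (nat_lit 34) (nat_lit 4) (nat_lit 310) (nat_lit 248) (nat_lit 222))) (XT.nd (nat_lit 78) (nat_lit 0) (nat_lit 0) (XT.lf (nat_lit 0) (nat_lit 2454635151) (nat_lit 228) (nat_lit 14460914397) (nat_lit 76) (nat_lit 1398761783) (nat_lit 29) (nat_lit 5) (nat_lit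 32) (nat_lit 5) (nat_lit 30) (nat_lit 4) (nat_lit 311) (nat_lit 248) (nat_lit 221)) (XT.lf (nat_lit 0) (nat_lit 8735605793) (nat_lit 228) (nat_lit 2049271327) (nat_lit 76) (nat_lit 8218771652) (nat_lit 29) (nat_lit 5) (nat_lit 32) (nat_lit 5) (nat_lit 30) (nat_lit 4) (nat_lit 312) (nat_lit 248) (nat_lit 220)))))) (XT.nd (nat_lit 546) (nat_lit 380) (nat_lit 0) (XT.nd (nat_lit 234) (nat_lit 380) (nat_lit 0) (XT.nd (nat_lit 78) (nat_lit 228) (nat_lit 0) (XT.lf (nat_lit 0) (nat_lit 10982706239) (nat_lit 76) (nat_lit 4331507941) (nat_lit 152) (nat_lit 4413779556) (nat_lit 28) (nat_lit 5) (nat_lit 29) (nat_lit 5) (nat_lit 30) (nat_lit 4) (nat_lit 313) (nat_lit 248) (nat_lit 219)) (XT.nd (nat_lit 78) (nat_lit 0) (nat_lit 0) (XT.lf (nat_lit 0) (nat_lit 1663822007) (nat_lit 228) (nat_lit 16440290085) (nat_lit 76) (nat_lit 2385055349) (nat_lit 25) (nat_lit 5) (nat_lit 28) (nat_lit 5) (nat_lit 26) (nat_lit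 4) (nat_lit 314) (nat_lit 248) (nat_lit 218)) (XT.lf (nat_lit 0) (nat_lit 7972970939) (nat_lit 228) (nat_lit 3916800672) (nat_lit 76) (nat_lit 9396791223) (nat_lit 25) (nat_lit 5) (nat_lit 28) (nat_lit 5) (nat_lit 26) (nat_lit 4) (nat_lit 315) (nat_lit 248) (nat_lit 217)))) (XT.nd (nat_lit 156) (nat_lit 304) (nat_lit 0) (XT.nd (nat_lit 78) (nat_lit 0) (nat_lit 0) (XT.lf (nat_lit 0) (nat_lit 9215118418) (nat_lit 76) (nat_lit 5360056585) (nat_lit 152) (nat_lit 7549365594) (nat_lit 24) (nat_lit 5) (nat_lit 25) (nat_lit 5) (nat_lit 26) (nat_lit 4) (nat_lit 316) (nat_lit 248) (nat_lit 216)) (XT.lf (nat_lit 0) (nat_lit 21454236026) (nat_lit 152) (nat_lit 126861415) (nat_lit 0) (nat_lit 1424956006) (nat_lit 24) (nat_lit 5) (nat_lit 26) (nat_lit 4) (nat_lit 24) (nat_lit 4) (nat_lit 317) (nat_lit 248) (nat_lit 215))) (XT.nd (nat_lit 78) (nat_lit 76) (nat_lit 0) (XT.lf (nat_lit 0) (nat_lit 4732651516)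 (nat_lit 228) (nat_lit 10660251329) (nat_lit 76) (nat_lit 8535016837) (nat_lit 21) (nat_lit 5) (nat_lit 24) (nat_lit 5) (nat_lit 22) (nat_lit 4) (nat_lit 318) (nat_lit 248) (nat_lit 214)) (XT.lf (nat_lit 0) (nat_lit 2285824840) (nat_lit 76) (nat_lit 8935981669) (nat_lit 152) (nat_lit 13675969080) (nat_lit 20) (nat_lit 5) (nat_lit 21) (nat_lit 5) (nat_lit 22) (nat_lit 4) (nat_lit 319) (nat_lit 248) (nat_lit 213))))) (XT.nd (nat_lit 234) (nat_lit 152) (nat_lit 0) (XT.nd (nat_lit 78) (nat_lit 228) (nat_lit 0) (XT.lf (nat_lit 0) (nat_lit 15925345490) (nat_lit 76) (nat_lit 2121891536) (nat_lit 152) (nat_lit 7868565106) (nat_lit 20) (nat_lit 5) (nat_lit 21) (nat_lit 5) (nat_lit 22) (nat_lit 4) (nat_lit 320) (nat_lit 248) (nat_lit 212)) (XT.nd (nat_lit 78) (nat_lit 76) (nat_lit 0) (XT.lf (nat_lit 0) (nat_lit 3103978217) (nat_lit 152) (nat_lit 22094199736) (nat_lit 152) (nat_lit 1787055714) (nat_lit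 18) (nat_lit 4) (nat_lit 20) (nat_lit 5) (nat_lit 20) (nat_lit 4) (nat_lit 321) (nat_lit 248) (nat_lit 211)) (XT.lf (nat_lit 0) (nat_lit 4542049530) (nat_lit 228) (nat_lit 11277086449) (nat_lit 76) (nat_lit 12286705565) (nat_lit 17) (nat_lit 5) (nat_lit 20) (nat_lit 5) (nat_lit 18) (nat_lit 4) (nat_lit 322) (nat_lit 248) (nat_lit 210)))) (XT.nd (nat_lit 156) (nat_lit 76) (nat_lit 0) (XT.nd (nat_lit 78) (nat_lit 0) (nat_lit 0) (XT.lf (nat_lit 0) (nat_lit 1815342398) (nat_lit 76) (nat_lit 9265460716) (nat_lit 152) (nat_lit 18203268480) (nat_lit 16) (nat_lit 5) (nat_lit 17) (nat_lit 5) (nat_lit 18) (nat_lit 4) (nat_lit 323) (nat_lit 248) (nat_lit 209)) (XT.lf (nat_lit 0) (nat_lit 15643282657) (nat_lit 76) (nat_lit 2334343446) (nat_lit 152) (nat_lit 12542678950) (nat_lit 16) (nat_lit 5) (nat_lit 17) (nat_lit 5) (nat_lit 18) (nat_lit 4) (nat_lit 324) (nat_lit 248) (nat_lit 208))) (XT.nd (nat_lit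 78) (nat_lit 76) (nat_lit 0) (XT.lf (nat_lit 0) (nat_lit 25185259021) (nat_lit 152) (nat_lit 1852459453) (nat_lit 0) (nat_lit 4781677274) (nat_lit 16) (nat_lit 5) (nat_lit 18) (nat_lit 4) (nat_lit 16) (nat_lit 4) (nat_lit 325) (nat_lit 248) (nat_lit 207)) (XT.lf (nat_lit 0) (nat_lit 11889675326) (nat_lit 76) (nat_lit 20923783965) (nat_lit 76) (nat_lit 368199569) (nat_lit 15) (nat_lit 4) (nat_lit 16) (nat_lit 5) (nat_lit 16) (nat_lit 4) (nat_lit 326) (nat_lit 248) (nat_lit 206))))))) (XT.nd (nat_lit 1092) (nat_lit 304) (nat_lit 0) (XT.nd (nat_lit 546) (nat_lit 228) (nat_lit 0) (XT.nd (nat_lit 234) (nat_lit 152) (nat_lit 0) (XT.nd (nat_lit 78) (nat_lit 76) (nat_lit 0) (XT.lf (nat_lit 0) (nat_lit 6033030964) (nat_lit 152) (nat_lit 8453295965) (nat_lit 76) (nat_lit 20125642874) (nat_lit 14) (nat_lit 5) (nat_lit 16) (nat_lit 5) (nat_lit 15) (nat_lit 4) (nat_lit 327) (nat_lit 248) (nat_lit 205))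 (XT.nd (nat_lit 78) (nat_lit 0) (nat_lit 0) (XT.lf (nat_lit 0) (nat_lit 4988022367) (nat_lit 76) (nat_lit 7734264368) (nat_lit 152) (nat_lit 23392153485) (nat_lit 13) (nat_lit 5) (nat_lit 14) (nat_lit 5) (nat_lit 15) (nat_lit 4) (nat_lit 328) (nat_lit 248) (nat_lit 204)) (XT.lf (nat_lit 0) (nat_lit 19148944239) (nat_lit 76) (nat_lit 613848642) (nat_lit 152) (nat_lit 17928757321) (nat_lit 13) (nat_lit 5) (nat_lit 14) (nat_lit 5) (nat_lit 15) (nat_lit 4) (nat_lit 329) (nat_lit 248) (nat_lit 203)))) (XT.nd (nat_lit 156) (nat_lit 76) (nat_lit 0) (XT.nd (nat_lit 78) (nat_lit 76) (nat_lit 0) (XT.lf (nat_lit 0) (nat_lit 27153865415) (nat_lit 152) (nat_lit 5520020425) (nat_lit 0) (nat_lit 6673692342) (nat_lit 13) (nat_lit 5) (nat_lit 15) (nat_lit 4) (nat_lit 13) (nat_lit 4) (nat_lit 330) (nat_lit 248) (nat_lit 202)) (XT.lf (nat_lit 0) (nat_lit 8188767631) (nat_lit 76) (nat_lit 26746419578) (nat_lit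 76) (nat_lit 6150617327) (nat_lit 12) (nat_lit 4) (nat_lit 13) (nat_lit 5) (nat_lit 13) (nat_lit 4) (nat_lit 331) (nat_lit 248) (nat_lit 201))) (XT.nd (nat_lit 78) (nat_lit 0) (nat_lit 0) (XT.lf (nat_lit 0) (nat_lit 185323796) (nat_lit 152) (nat_lit 20329717970) (nat_lit 76) (nat_lit 22396026145) (nat_lit 11) (nat_lit 5) (nat_lit 13) (nat_lit 5) (nat_lit 12) (nat_lit 4) (nat_lit 332) (nat_lit 248) (nat_lit 200)) (XT.lf (nat_lit 0) (nat_lit 6652137909) (nat_lit 152) (nat_lit 7306964393) (nat_lit 76) (nat_lit 30868442542) (nat_lit 11) (nat_lit 5) (nat_lit 13) (nat_lit 5) (nat_lit 12) (nat_lit 4) (nat_lit 333) (nat_lit 248) (nat_lit 199))))) (XT.nd (nat_lit 234) (nat_lit 152) (nat_lit 0) (XT.nd (nat_lit 78) (nat_lit 0) (nat_lit 0) (XT.lf (nat_lit 0) (nat_lit 6385967097) (nat_lit 76) (nat_lit 7060661610) (nat_lit 152) (nat_lit 33393101801) (nat_lit 10) (nat_lit 5) (nat_lit 11) (nat_lit 5) (nat_lit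 12) (nat_lit 4) (nat_lit 334) (nat_lit 248) (nat_lit 198)) (XT.nd (nat_lit 78) (nat_lit 0) (nat_lit 0) (XT.lf (nat_lit 0) (nat_lit 20602790865) (nat_lit 152) (nat_lit 28140297234) (nat_lit 0) (nat_lit 208793204) (nat_lit 10) (nat_lit 5) (nat_lit 12) (nat_lit 4) (nat_lit 10) (nat_lit 4) (nat_lit 335) (nat_lit 248) (nat_lit 197)) (XT.lf (nat_lit 0) (nat_lit 28134909042) (nat_lit 152) (nat_lit 15381248042) (nat_lit 0) (nat_lit 7652951686) (nat_lit 10) (nat_lit 5) (nat_lit 12) (nat_lit 4) (nat_lit 10) (nat_lit 4) (nat_lit 336) (nat_lit 248) (nat_lit 196)))) (XT.nd (nat_lit 156) (nat_lit 76) (nat_lit 0) (XT.nd (nat_lit 78) (nat_lit 76) (nat_lit 0) (XT.lf (nat_lit 0) (nat_lit 35993045458) (nat_lit 152) (nat_lit 2078365749) (nat_lit 0) (nat_lit 15427316963) (nat_lit 10) (nat_lit 5) (nat_lit 12) (nat_lit 4) (nat_lit 10) (nat_lit 4) (nat_lit 337) (nat_lit 248) (nat_lit 195)) (XT.lf (nat_lit 0) (nat_lit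 12034866773) (nat_lit 76) (nat_lit 32276729687) (nat_lit 76) (nat_lit 11631219155) (nat_lit 9) (nat_lit 4) (nat_lit 10) (nat_lit 5) (nat_lit 10) (nat_lit 4) (nat_lit 338) (nat_lit 248) (nat_lit 194))) (XT.nd (nat_lit 78) (nat_lit 76) (nat_lit 0) (XT.lf (nat_lit 0) (nat_lit 26810124610) (nat_lit 76) (nat_lit 26210623883) (nat_lit 76) (nat_lit 5489130460) (nat_lit 9) (nat_lit 4) (nat_lit 10) (nat_lit 5) (nat_lit 10) (nat_lit 4) (nat_lit 339) (nat_lit 248) (nat_lit 193)) (XT.lf (nat_lit 0) (nat_lit 896380251) (nat_lit 152) (nat_lit 18974206171) (nat_lit 76) (nat_lit 41335791458) (nat_lit 8) (nat_lit 5) (nat_lit 10) (nat_lit 5) (nat_lit 9) (nat_lit 4) (nat_lit 340) (nat_lit 248) (nat_lit 192)))))) (XT.nd (nat_lit 546) (nat_lit 152) (nat_lit 0) (XT.nd (nat_lit 234) (nat_lit 76) (nat_lit 0) (XT.nd (nat_lit 78) (nat_lit 76) (nat_lit 0) (XT.lf (nat_lit 0) (nat_lit 7445890406) (nat_lit 152) (nat_lit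 5747619280) (nat_lit 76) (nat_lit 50843824533) (nat_lit 8) (nat_lit 5) (nat_lit 10) (nat_lit 5) (nat_lit 9) (nat_lit 4) (nat_lit 341) (nat_lit 248) (nat_lit 191)) (XT.nd (nat_lit 78) (nat_lit 0) (nat_lit 0) (XT.lf (nat_lit 0) (nat_lit 8224757732) (nat_lit 76) (nat_lit 6136410453) (nat_lit 152) (nat_lit 52647531258) (nat_lit 7) (nat_lit 5) (nat_lit 8) (nat_lit 5) (nat_lit 9) (nat_lit 4) (nat_lit 342) (nat_lit 248) (nat_lit 190)) (XT.lf (nat_lit 0) (nat_lit 21654336716) (nat_lit 152) (nat_lit 47198543887) (nat_lit 0) (nat_lit 1274797883) (nat_lit 7) (nat_lit 5) (nat_lit 9) (nat_lit 4) (nat_lit 7) (nat_lit 4) (nat_lit 343) (nat_lit 248) (nat_lit 189)))) (XT.nd (nat_lit 156) (nat_lit 76) (nat_lit 0) (XT.nd (nat_lit 78) (nat_lit 0) (nat_lit 0) (XT.lf (nat_lit 0) (nat_lit 29336130716) (nat_lit 152) (nat_lit 35166974358) (nat_lit 0) (nat_lit 8898791316) (nat_lit 7) (nat_lit 5) (nat_lit 9) (nat_lit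 4) (nat_lit 7) (nat_lit 4) (nat_lit 344) (nat_lit 248) (nat_lit 188)) (XT.lf (nat_lit 0) (nat_lit 37365853239) (nat_lit 152) (nat_lit 22601599599) (nat_lit 0) (nat_lit 16873465680) (nat_lit 7) (nat_lit 5) (nat_lit 9) (nat_lit 4) (nat_lit 7) (nat_lit 4) (nat_lit 345) (nat_lit 248) (nat_lit 187))) (XT.nd (nat_lit 78) (nat_lit 76) (nat_lit 0) (XT.lf (nat_lit 0) (nat_lit 45762622673) (nat_lit 152) (nat_lit 9472502049) (nat_lit 0) (nat_lit 25217808296) (nat_lit 7) (nat_lit 5) (nat_lit 9) (nat_lit 4) (nat_lit 7) (nat_lit 4) (nat_lit 346) (nat_lit 248) (nat_lit 186)) (XT.lf (nat_lit 0) (nat_lit 4336192786) (nat_lit 76) (nat_lit 50251920678) (nat_lit 76) (nat_lit 29657175998) (nat_lit 6) (nat_lit 4) (nat_lit 7) (nat_lit 5) (nat_lit 7) (nat_lit 4) (nat_lit 347) (nat_lit 248) (nat_lit 185))))) (XT.nd (nat_lit 234) (nat_lit 152) (nat_lit 0) (XT.nd (nat_lit 78) (nat_lit 0) (nat_lit 0) (XT.lf (nat_lit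 0) (nat_lit 18973559556) (nat_lit 76) (nat_lit 44947018933) (nat_lit 76) (nat_lit 24304721584) (nat_lit 6) (nat_lit 4) (nat_lit 7) (nat_lit 5) (nat_lit 7) (nat_lit 4) (nat_lit 348) (nat_lit 248) (nat_lit 184)) (XT.nd (nat_lit 78) (nat_lit 0) (nat_lit 0) (XT.lf (nat_lit 0) (nat_lit 34285927770) (nat_lit 76) (nat_lit 39403442468) (nat_lit 76) (nat_lit 18715856862) (nat_lit 6) (nat_lit 4) (nat_lit 7) (nat_lit 5) (nat_lit 7) (nat_lit 4) (nat_lit 349) (nat_lit 248) (nat_lit 183)) (XT.lf (nat_lit 0) (nat_lit 50309755447) (nat_lit 76) (nat_lit 33607992290) (nat_lit 76) (nat_lit 12877275011) (nat_lit 6) (nat_lit 4) (nat_lit 7) (nat_lit 5) (nat_lit 7) (nat_lit 4) (nat_lit 350) (nat_lit 248) (nat_lit 182)))) (XT.nd (nat_lit 156) (nat_lit 152) (nat_lit 0) (XT.nd (nat_lit 78) (nat_lit 0) (nat_lit 0) (XT.lf (nat_lit 0) (nat_lit 67083194559) (nat_lit 76) (nat_lit 27546869708) (nat_lit 76) (nat_lit 6775074645)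 (nat_lit 6) (nat_lit 4) (nat_lit 7) (nat_lit 5) (nat_lit 7) (nat_lit 4) (nat_lit 351) (nat_lit 248) (nat_lit 181)) (XT.lf (nat_lit 0) (nat_lit 84646181864) (nat_lit 76) (nat_lit 21205643479) (nat_lit 76) (nat_lit 394726717) (nat_lit 6) (nat_lit 4) (nat_lit 7) (nat_lit 5) (nat_lit 7) (nat_lit 4) (nat_lit 352) (nat_lit 248) (nat_lit 180))) (XT.nd (nat_lit 78) (nat_lit 76) (nat_lit 0) (XT.lf (nat_lit 0) (nat_lit 6156434951) (nat_lit 152) (nat_lit 8350612570) (nat_lit 76) (nat_lit 96821931126) (nat_lit 5) (nat_lit 5) (nat_lit 7) (nat_lit 5) (nat_lit 6) (nat_lit 4) (nat_lit 353) (nat_lit 248) (nat_lit 179)) (XT.lf (nat_lit 0) (nat_lit 5622321368) (nat_lit 76) (nat_lit 7434812338) (nat_lit 152) (nat_lit 103607376653) (nat_lit 4) (nat_lit 5) (nat_lit 5) (nat_lit 5) (nat_lit 6) (nat_lit 4) (nat_lit 354) (nat_lit 248) (nat_lit 178))))))))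
noncomputable def xc31 : XT := (XT.nd (nat_lit 36348) (nat_lit 0) (nat_lit 836) (XT.nd (nat_lit 35256) (nat_lit 0) (nat_lit 4104) (XT.nd (nat_lit 546) (nat_lit 76) (nat_lit 0) (XT.nd (nat_lit 234) (nat_lit 0) (nat_lit 0) (XT.nd (nat_lit 78) (nat_lit 0) (nat_lit 0) (XT.lf (nat_lit 0) (nat_lit 20366140324) (nat_lit 152) (nat_lit 101840853477) (nat_lit 0) (nat_lit 57931730) (nat_lit 4) (nat_lit 5) (nat_lit 6) (nat_lit 4) (nat_lit 4) (nat_lit 4) (nat_lit 355) (nat_lit 248) (nat_lit 177)) (XT.nd (nat_lit 78) (nat_lit 0) (nat_lit 0) (XT.lf (nat_lit 0) (nat_lit 28093301307) (nat_lit 152) (nat_lit 92296639218) (nat_lit 0) (nat_lit 7753844637) (nat_lit 4) (nat_lit 5) (nat_lit 6) (nat_lit 4) (nat_lit 4) (nat_lit 4) (nat_lit 356) (nat_lit 248) (nat_lit 176)) (XT.lf (nat_lit 0) (nat_lit 36185546694) (nat_lit 152) (nat_lit 82315353931) (nat_lit 0) (nat_lit 15816329952) (nat_lit 4) (nat_lit 5) (nat_lit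 6) (nat_lit 4) (nat_lit 4) (nat_lit 4) (nat_lit 357) (nat_lit 248) (nat_lit 175)))) (XT.nd (nat_lit 156) (nat_lit 0) (nat_lit 0) (XT.nd (nat_lit 78) (nat_lit 0) (nat_lit 0) (XT.lf (nat_lit 0) (nat_lit 44662143736) (nat_lit 152) (nat_lit 71873232650) (nat_lit 0) (nat_lit 24264584067) (nat_lit 4) (nat_lit 5) (nat_lit 6) (nat_lit 4) (nat_lit 4) (nat_lit 4) (nat_lit 358) (nat_lit 248) (nat_lit 174)) (XT.lf (nat_lit 0) (nat_lit 53543274806) (nat_lit 152) (nat_lit 60945413183) (nat_lit 0) (nat_lit 33118721874) (nat_lit 4) (nat_lit 5) (nat_lit 6) (nat_lit 4) (nat_lit 4) (nat_lit 4) (nat_lit 359) (nat_lit 248) (nat_lit 173))) (XT.nd (nat_lit 78) (nat_lit 0) (nat_lit 0) (XT.lf (nat_lit 0) (nat_lit 62850085455) (nat_lit 152) (nat_lit 49505876911) (nat_lit 0) (nat_lit 42399824653) (nat_lit 4) (nat_lit 5) (nat_lit 6) (nat_lit 4) (nat_lit 4) (nat_lit 4) (nat_lit 360) (nat_lit 248) (nat_lit 172)) (XT.lf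 (nat_lit 0) (nat_lit 72604734756) (nat_lit 152) (nat_lit 37527386844) (nat_lit 0) (nat_lit 52129990269) (nat_lit 4) (nat_lit 5) (nat_lit 6) (nat_lit 4) (nat_lit 4) (nat_lit 4) (nat_lit 361) (nat_lit 248) (nat_lit 171))))) (XT.nd (nat_lit 34398) (nat_lit 0) (nat_lit 8968) (XT.nd (nat_lit 78) (nat_lit 76) (nat_lit 0) (XT.lf (nat_lit 0) (nat_lit 82830448064) (nat_lit 152) (nat_lit 24981422766) (nat_lit 0) (nat_lit 62332385781) (nat_lit 4) (nat_lit 5) (nat_lit 6) (nat_lit 4) (nat_lit 4) (nat_lit 4) (nat_lit 362) (nat_lit 248) (nat_lit 170)) (XT.nd (nat_lit 78) (nat_lit 76) (nat_lit 0) (XT.lf (nat_lit 0) (nat_lit 93551572316) (nat_lit 152) (nat_lit 11838113336) (nat_lit 0) (nat_lit 73031302608) (nat_lit 4) (nat_lit 5) (nat_lit 6) (nat_lit 4) (nat_lit 4) (nat_lit 4) (nat_lit 363) (nat_lit 248) (nat_lit 169)) (XT.lf (nat_lit 0) (nat_lit 1972322150) (nat_lit 76) (nat_lit 102840271014) (nat_lit 76)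 (nat_lit 82298851379) (nat_lit 3) (nat_lit 4) (nat_lit 4) (nat_lit 5) (nat_lit 4) (nat_lit 4) (nat_lit 364) (nat_lit 248) (nat_lit 168)))) (XT.nd (nat_lit 156) (nat_lit 988) (nat_lit 0) (XT.nd (nat_lit 78) (nat_lit 456) (nat_lit 0) (XT.lf (nat_lit 0) (nat_lit 844958022) (nat_lit 532) (nat_lit 2305148883) (nat_lit 0) (nat_lit 844958022) (nat_lit 140) (nat_lit 5) (nat_lit 147) (nat_lit 4) (nat_lit 140) (nat_lit 4) (nat_lit 282) (nat_lit 249) (nat_lit 249)) (XT.lf (nat_lit 0) (nat_lit 4962745231) (nat_lit 456) (nat_lit 2594630560) (nat_lit 456) (nat_lit 586130901) (nat_lit 134) (nat_lit 4) (nat_lit 140) (nat_lit 5) (nat_lit 140) (nat_lit 4) (nat_lit 283) (nat_lit 249) (nat_lit 248))) (XT.nd (nat_lit 78) (nat_lit 532) (nat_lit 0) (XT.lf (nat_lit 0) (nat_lit 5179745456) (nat_lit 456) (nat_lit 1754777169) (nat_lit 0) (nat_lit 1372603246) (nat_lit 128) (nat_lit 5) (nat_lit 134) (nat_lit 4) (nat_lit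 128) (nat_lit 4) (nat_lit 284) (nat_lit 249) (nat_lit 247)) (XT.lf (nat_lit 0) (nat_lit 2581807424) (nat_lit 532) (nat_lit 334780320) (nat_lit 76) (nat_lit 5564869326) (nat_lit 121) (nat_lit 5) (nat_lit 128) (nat_lit 5) (nat_lit 122) (nat_lit 4) (nat_lit 285) (nat_lit 249) (nat_lit 246)))))) (XT.nd (nat_lit 546) (nat_lit 1900) (nat_lit 0) (XT.nd (nat_lit 234) (nat_lit 1368) (nat_lit 0) (XT.nd (nat_lit 78) (nat_lit 836) (nat_lit 0) (XT.lf (nat_lit 0) (nat_lit 1104502061) (nat_lit 380) (nat_lit 7305621097) (nat_lit 380) (nat_lit 256754667) (nat_lit 111) (nat_lit 4) (nat_lit 116) (nat_lit 5) (nat_lit 116) (nat_lit 4) (nat_lit 286) (nat_lit 249) (nat_lit 245)) (XT.nd (nat_lit 78) (nat_lit 456) (nat_lit 0) (XT.lf (nat_lit 0) (nat_lit 2498366326) (nat_lit 304) (nat_lit 2971966684) (nat_lit 380) (nat_lit 3392455630) (nat_lit 106) (nat_lit 5) (nat_lit 110) (nat_lit 5) (nat_lit 111) (nat_lit 4) (nat_lit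 287) (nat_lit 249) (nat_lit 244)) (XT.lf (nat_lit 0) (nat_lit 2264543816) (nat_lit 456) (nat_lit 5198883055) (nat_lit 76) (nat_lit 1607466814) (nat_lit 100) (nat_lit 5) (nat_lit 106) (nat_lit 5) (nat_lit 101) (nat_lit 4) (nat_lit 288) (nat_lit 249) (nat_lit 243)))) (XT.nd (nat_lit 156) (nat_lit 684) (nat_lit 0) (XT.nd (nat_lit 78) (nat_lit 380) (nat_lit 0) (XT.lf (nat_lit 0) (nat_lit 5190037713) (nat_lit 304) (nat_lit 2867861136) (nat_lit 380) (nat_lit 1232992944) (nat_lit 96) (nat_lit 5) (nat_lit 100) (nat_lit 5) (nat_lit 101) (nat_lit 4) (nat_lit 289) (nat_lit 249) (nat_lit 242)) (XT.lf (nat_lit 0) (nat_lit 4446929891) (nat_lit 380) (nat_lit 3083191633) (nat_lit 76) (nat_lit 1993085283) (nat_lit 91) (nat_lit 5) (nat_lit 96) (nat_lit 5) (nat_lit 92) (nat_lit 4) (nat_lit 290) (nat_lit 249) (nat_lit 241))) (XT.nd (nat_lit 78) (nat_lit 304) (nat_lit 0) (XT.lf (nat_lit 0) (nat_lit 539822933)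 (nat_lit 380) (nat_lit 2143943411) (nat_lit 76) (nat_lit 7085002792) (nat_lit 86) (nat_lit 5) (nat_lit 91) (nat_lit 5) (nat_lit 87) (nat_lit 5) (nat_lit 291) (nat_lit 249) (nat_lit 240)) (XT.lf (nat_lit 0) (nat_lit 6266516557) (nat_lit 380) (nat_lit 1326173364) (nat_lit 76) (nat_lit 2434535944) (nat_lit 82) (nat_lit 5) (nat_lit 87) (nat_lit 5) (nat_lit 83) (nat_lit 4) (nat_lit 292) (nat_lit 249) (nat_lit 239))))) (XT.nd (nat_lit 234) (nat_lit 760) (nat_lit 0) (XT.nd (nat_lit 78) (nat_lit 836) (nat_lit 0) (XT.lf (nat_lit 0) (nat_lit 1884302828) (nat_lit 304) (nat_lit 618551187) (nat_lit 76) (nat_lit 7797074293) (nat_lit 78) (nat_lit 5) (nat_lit 82) (nat_lit 5) (nat_lit 79) (nat_lit 5) (nat_lit 293) (nat_lit 249) (nat_lit 238)) (XT.nd (nat_lit 78) (nat_lit 532) (nat_lit 0) (XT.lf (nat_lit 0) (nat_lit 7682480410) (nat_lit 380) (nat_lit 58761682) (nat_lit 76) (nat_lit 2845593308) (nat_lit 74)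 (nat_lit 5) (nat_lit 79) (nat_lit 5) (nat_lit 75) (nat_lit 4) (nat_lit 294) (nat_lit 249) (nat_lit 237)) (XT.lf (nat_lit 0) (nat_lit 352693750) (nat_lit 228) (nat_lit 2426712352) (nat_lit 304) (nat_lit 8109391492) (nat_lit 67) (nat_lit 5) (nat_lit 70) (nat_lit 5) (nat_lit 71) (nat_lit 5) (nat_lit 295) (nat_lit 249) (nat_lit 236)))) (XT.nd (nat_lit 156) (nat_lit 228) (nat_lit 0) (XT.nd (nat_lit 78) (nat_lit 304) (nat_lit 0) (XT.lf (nat_lit 0) (nat_lit 577880516) (nat_lit 228) (nat_lit 8068209353) (nat_lit 304) (nat_lit 2560271057) (nat_lit 64) (nat_lit 5) (nat_lit 67) (nat_lit 5) (nat_lit 68) (nat_lit 4) (nat_lit 296) (nat_lit 249) (nat_lit 235)) (XT.lf (nat_lit 0) (nat_lit 595753556) (nat_lit 228) (nat_lit 2561955658) (nat_lit 304) (nat_lit 8382617009) (nat_lit 60) (nat_lit 5) (nat_lit 63) (nat_lit 5) (nat_lit 64) (nat_lit 5) (nat_lit 297) (nat_lit 249) (nat_lit 234))) (XT.nd (nat_lit 78)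 (nat_lit 76) (nat_lit 0) (XT.lf (nat_lit 0) (nat_lit 378857102) (nat_lit 152) (nat_lit 8695835297) (nat_lit 228) (nat_lit 2816669534) (nat_lit 58) (nat_lit 5) (nat_lit 60) (nat_lit 5) (nat_lit 61) (nat_lit 4) (nat_lit 298) (nat_lit 249) (nat_lit 233)) (XT.lf (nat_lit 0) (nat_lit 2932662229) (nat_lit 228) (nat_lit 97128884) (nat_lit 76) (nat_lit 9230465897) (nat_lit 57) (nat_lit 5) (nat_lit 60) (nat_lit 5) (nat_lit 58) (nat_lit 5) (nat_lit 299) (nat_lit 249) (nat_lit 232))))))) (XT.nd (nat_lit 1092) (nat_lit 1064) (nat_lit 0) (XT.nd (nat_lit 546) (nat_lit 760) (nat_lit 0) (XT.nd (nat_lit 234) (nat_lit 760) (nat_lit 0) (XT.nd (nat_lit 78) (nat_lit 456) (nat_lit 0) (XT.lf (nat_lit 0) (nat_lit 8886781774) (nat_lit 304) (nat_lit 853889200) (nat_lit 76) (nat_lit 2906922618) (nat_lit 54) (nat_lit 5) (nat_lit 58) (nat_lit 5) (nat_lit 55) (nat_lit 4) (nat_lit 300) (nat_lit 249) (nat_lit 231)) (XT.nd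 (nat_lit 78) (nat_lit 228) (nat_lit 0) (XT.lf (nat_lit 0) (nat_lit 2019457424) (nat_lit 228) (nat_lit 1925637369) (nat_lit 76) (nat_lit 9109419583) (nat_lit 51) (nat_lit 5) (nat_lit 54) (nat_lit 5) (nat_lit 52) (nat_lit 5) (nat_lit 301) (nat_lit 249) (nat_lit 230)) (XT.lf (nat_lit 0) (nat_lit 7980140478) (nat_lit 304) (nat_lit 3356488768) (nat_lit 76) (nat_lit 2145048089) (nat_lit 48) (nat_lit 5) (nat_lit 52) (nat_lit 5) (nat_lit 49) (nat_lit 4) (nat_lit 302) (nat_lit 249) (nat_lit 229)))) (XT.nd (nat_lit 156) (nat_lit 380) (nat_lit 0) (XT.nd (nat_lit 78) (nat_lit 152) (nat_lit 0) (XT.lf (nat_lit 0) (nat_lit 291729486) (nat_lit 228) (nat_lit 5169780522) (nat_lit 76) (nat_lit 8469008550) (nat_lit 45) (nat_lit 5) (nat_lit 48) (nat_lit 5) (nat_lit 46) (nat_lit 5) (nat_lit 303) (nat_lit 249) (nat_lit 228)) (XT.lf (nat_lit 0) (nat_lit 6219945936) (nat_lit 228) (nat_lit 7427765810) (nat_lit 76)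 (nat_lit 753761988) (nat_lit 43) (nat_lit 5) (nat_lit 46) (nat_lit 5) (nat_lit 44) (nat_lit 4) (nat_lit 304) (nat_lit 249) (nat_lit 227))) (XT.nd (nat_lit 78) (nat_lit 228) (nat_lit 0) (XT.lf (nat_lit 0) (nat_lit 4726059567) (nat_lit 152) (nat_lit 7725336462) (nat_lit 228) (nat_lit 2444450260) (nat_lit 41) (nat_lit 5) (nat_lit 43) (nat_lit 5) (nat_lit 44) (nat_lit 4) (nat_lit 305) (nat_lit 249) (nat_lit 226)) (XT.lf (nat_lit 0) (nat_lit 1989456317) (nat_lit 152) (nat_lit 1472262048) (nat_lit 228) (nat_lit 11953692997) (nat_lit 38) (nat_lit 5) (nat_lit 40) (nat_lit 5) (nat_lit 41) (nat_lit 5) (nat_lit 306) (nat_lit 249) (nat_lit 225))))) (XT.nd (nat_lit 234) (nat_lit 380) (nat_lit 0) (XT.nd (nat_lit 78) (nat_lit 380) (nat_lit 0) (XT.lf (nat_lit 0) (nat_lit 9627188919) (nat_lit 228) (nat_lit 1303967656) (nat_lit 76) (nat_lit 5028701019) (nat_lit 38) (nat_lit 5) (nat_lit 41) (nat_lit 5) (nat_lit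 39) (nat_lit 4) (nat_lit 307) (nat_lit 249) (nat_lit 224)) (XT.nd (nat_lit 78) (nat_lit 228) (nat_lit 0) (XT.lf (nat_lit 0) (nat_lit 11402561086) (nat_lit 152) (nat_lit 4688927356) (nat_lit 228) (nat_lit 440383354) (nat_lit 36) (nat_lit 5) (nat_lit 38) (nat_lit 5) (nat_lit 39) (nat_lit 4) (nat_lit 308) (nat_lit 249) (nat_lit 223)) (XT.lf (nat_lit 0) (nat_lit 5607485720) (nat_lit 228) (nat_lit 9645299378) (nat_lit 76) (nat_lit 1878908921) (nat_lit 33) (nat_lit 5) (nat_lit 36) (nat_lit 5) (nat_lit 34) (nat_lit 4) (nat_lit 309) (nat_lit 249) (nat_lit 222)))) (XT.nd (nat_lit 156) (nat_lit 228) (nat_lit 0) (XT.nd (nat_lit 78) (nat_lit 76) (nat_lit 0) (XT.lf (nat_lit 0) (nat_lit 2861883432) (nat_lit 76) (nat_lit 9087235993) (nat_lit 152) (nat_lit 5812297630) (nat_lit 32) (nat_lit 5) (nat_lit 33) (nat_lit 5) (nat_lit 34) (nat_lit 4) (nat_lit 310) (nat_lit 249) (nat_lit 221)) (XT.lf (nat_lit 0) (nat_lit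 156837022) (nat_lit 152) (nat_lit 2444425444) (nat_lit 76) (nat_lit 15822103834) (nat_lit 31) (nat_lit 5) (nat_lit 33) (nat_lit 5) (nat_lit 32) (nat_lit 5) (nat_lit 311) (nat_lit 249) (nat_lit 220))) (XT.nd (nat_lit 78) (nat_lit 76) (nat_lit 0) (XT.lf (nat_lit 0) (nat_lit 6329096467) (nat_lit 228) (nat_lit 8584937604) (nat_lit 76) (nat_lit 4201954580) (nat_lit 29) (nat_lit 5) (nat_lit 32) (nat_lit 5) (nat_lit 30) (nat_lit 4) (nat_lit 312) (nat_lit 249) (nat_lit 219)) (XT.lf (nat_lit 0) (nat_lit 4215304219) (nat_lit 76) (nat_lit 8570677716) (nat_lit 152) (nat_lit 7058025820) (nat_lit 28) (nat_lit 5) (nat_lit 29) (nat_lit 5) (nat_lit 30) (nat_lit 4) (nat_lit 313) (nat_lit 249) (nat_lit 218)))))) (XT.nd (nat_lit 546) (nat_lit 456) (nat_lit 0) (XT.nd (nat_lit 234) (nat_lit 304) (nat_lit 0) (XT.nd (nat_lit 78) (nat_lit 304) (nat_lit 0) (XT.lf (nat_lit 0) (nat_lit 17636472843) (nat_lit 76) (nat_lit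 1905062801) (nat_lit 152) (nat_lit 1067661284) (nat_lit 28) (nat_lit 5) (nat_lit 29) (nat_lit 5) (nat_lit 30) (nat_lit 4) (nat_lit 314) (nat_lit 249) (nat_lit 217)) (XT.nd (nat_lit 78) (nat_lit 76) (nat_lit 0) (XT.lf (nat_lit 0) (nat_lit 5160437648) (nat_lit 228) (nat_lit 11185977915) (nat_lit 76) (nat_lit 5063560938) (nat_lit 25) (nat_lit 5) (nat_lit 28) (nat_lit 5) (nat_lit 26) (nat_lit 4) (nat_lit 315) (nat_lit 249) (nat_lit 216)) (XT.lf (nat_lit 0) (nat_lit 1707659669) (nat_lit 76) (nat_lit 9931255400) (nat_lit 152) (nat_lit 10612769824) (nat_lit 24) (nat_lit 5) (nat_lit 25) (nat_lit 5) (nat_lit 26) (nat_lit 4) (nat_lit 316) (nat_lit 249) (nat_lit 215)))) (XT.nd (nat_lit 156) (nat_lit 76) (nat_lit 0) (XT.nd (nat_lit 78) (nat_lit 228) (nat_lit 0) (XT.lf (nat_lit 0) (nat_lit 15296969568) (nat_lit 76) (nat_lit 3157074272) (nat_lit 152) (nat_lit 4681089804) (nat_lit 24) (nat_lit 5) (nat_lit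 25) (nat_lit 5) (nat_lit 26) (nat_lit 4) (nat_lit 317) (nat_lit 249) (nat_lit 214)) (XT.lf (nat_lit 0) (nat_lit 1508460678) (nat_lit 228) (nat_lit 18683897782) (nat_lit 76) (nat_lit 3870239870) (nat_lit 21) (nat_lit 5) (nat_lit 24) (nat_lit 5) (nat_lit 22) (nat_lit 4) (nat_lit 318) (nat_lit 249) (nat_lit 213))) (XT.nd (nat_lit 78) (nat_lit 76) (nat_lit 0) (XT.lf (nat_lit 0) (nat_lit 7928705238) (nat_lit 228) (nat_lit 5866904626) (nat_lit 76) (nat_lit 11238927478) (nat_lit 21) (nat_lit 5) (nat_lit 24) (nat_lit 5) (nat_lit 22) (nat_lit 4) (nat_lit 319) (nat_lit 249) (nat_lit 212)) (XT.lf (nat_lit 0) (nat_lit 7573796333) (nat_lit 76) (nat_lit 7077329410) (nat_lit 152) (nat_lit 11404543482) (nat_lit 20) (nat_lit 5) (nat_lit 21) (nat_lit 5) (nat_lit 22) (nat_lit 4) (nat_lit 320) (nat_lit 249) (nat_lit 211))))) (XT.nd (nat_lit 234) (nat_lit 228) (nat_lit 0) (XT.nd (nat_lit 78) (nat_lit 228) (nat_lit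 0) (XT.lf (nat_lit 0) (nat_lit 21648927289) (nat_lit 76) (nat_lit 32318169) (nat_lit 152) (nat_lit 5447494263) (nat_lit 20) (nat_lit 5) (nat_lit 21) (nat_lit 5) (nat_lit 22) (nat_lit 4) (nat_lit 321) (nat_lit 249) (nat_lit 210)) (XT.nd (nat_lit 78) (nat_lit 0) (nat_lit 0) (XT.lf (nat_lit 0) (nat_lit 855721083) (nat_lit 228) (nat_lit 20156749450) (nat_lit 76) (nat_lit 7240865447) (nat_lit 17) (nat_lit 5) (nat_lit 20) (nat_lit 5) (nat_lit 18) (nat_lit 4) (nat_lit 322) (nat_lit 249) (nat_lit 209)) (XT.lf (nat_lit 0) (nat_lit 7336308288) (nat_lit 228) (nat_lit 7173767832) (nat_lit 76) (nat_lit 14923247515) (nat_lit 17) (nat_lit 5) (nat_lit 20) (nat_lit 5) (nat_lit 18) (nat_lit 4) (nat_lit 323) (nat_lit 249) (nat_lit 208)))) (XT.nd (nat_lit 156) (nat_lit 152) (nat_lit 0) (XT.nd (nat_lit 78) (nat_lit 0) (nat_lit 0) (XT.lf (nat_lit 0) (nat_lit 6439498883) (nat_lit 76) (nat_lit 7683832844) (nat_lit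 152) (nat_lit 16549531367) (nat_lit 16) (nat_lit 5) (nat_lit 17) (nat_lit 5) (nat_lit 18) (nat_lit 4) (nat_lit 324) (nat_lit 249) (nat_lit 207)) (XT.lf (nat_lit 0) (nat_lit 20742960471) (nat_lit 76) (nat_lit 503535944) (nat_lit 152) (nat_lit 10728002862) (nat_lit 16) (nat_lit 5) (nat_lit 17) (nat_lit 5) (nat_lit 18) (nat_lit 4) (nat_lit 325) (nat_lit 249) (nat_lit 206))) (XT.nd (nat_lit 78) (nat_lit 76) (nat_lit 0) (XT.lf (nat_lit 0) (nat_lit 2261537760) (nat_lit 76) (nat_lit 26479685214) (nat_lit 76) (nat_lit 4599554522) (nat_lit 15) (nat_lit 4) (nat_lit 16) (nat_lit 5) (nat_lit 16) (nat_lit 4) (nat_lit 326) (nat_lit 249) (nat_lit 205)) (XT.lf (nat_lit 0) (nat_lit 1848908369) (nat_lit 152) (nat_lit 18264717585) (nat_lit 76) (nat_lit 14659752890) (nat_lit 14) (nat_lit 5) (nat_lit 16) (nat_lit 5) (nat_lit 15) (nat_lit 4) (nat_lit 327) (nat_lit 249) (nat_lit 204))))))))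
noncomputable def xc32 : XT := (XT.nd (nat_lit 2106) (nat_lit 76) (nat_lit 0) (XT.nd (nat_lit 1014) (nat_lit 304) (nat_lit 0) (XT.nd (nat_lit 468) (nat_lit 152) (nat_lit 0) (XT.nd (nat_lit 234) (nat_lit 152) (nat_lit 0) (XT.nd (nat_lit 78) (nat_lit 76) (nat_lit 0) (XT.lf (nat_lit 0) (nat_lit 8456562296) (nat_lit 152) (nat_lit 4982485717) (nat_lit 76) (nat_lit 22839258899) (nat_lit 14) (nat_lit 5) (nat_lit 16) (nat_lit 5) (nat_lit 15) (nat_lit 4) (nat_lit 328) (nat_lit 249) (nat_lit 203)) (XT.nd (nat_lit 78) (nat_lit 0) (nat_lit 0) (XT.lf (nat_lit 0) (nat_lit 9019292851) (nat_lit 76) (nat_lit 6396299752) (nat_lit 152) (nat_lit 22442277704) (nat_lit 13) (nat_lit 5) (nat_lit 14) (nat_lit 5) (nat_lit 15) (nat_lit 4) (nat_lit 329) (nat_lit 249) (nat_lit 202)) (XT.lf (nat_lit 0) (nat_lit 22719756030) (nat_lit 152) (nat_lit 15818223746) (nat_lit 0) (nat_lit 978534489) (nat_lit 13) (nat_lit 5) (nat_lit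 15) (nat_lit 4) (nat_lit 13) (nat_lit 4) (nat_lit 330) (nat_lit 249) (nat_lit 201)))) (XT.nd (nat_lit 78) (nat_lit 152) (nat_lit 0) (XT.lf (nat_lit 0) (nat_lit 30392529379) (nat_lit 152) (nat_lit 2324291169) (nat_lit 0) (nat_lit 8541184813) (nat_lit 13) (nat_lit 5) (nat_lit 15) (nat_lit 4) (nat_lit 13) (nat_lit 4) (nat_lit 331) (nat_lit 249) (nat_lit 200)) (XT.nd (nat_lit 78) (nat_lit 76) (nat_lit 0) (XT.lf (nat_lit 0) (nat_lit 11970419839) (nat_lit 76) (nat_lit 26535343173) (nat_lit 76) (nat_lit 4579119534) (nat_lit 12) (nat_lit 4) (nat_lit 13) (nat_lit 5) (nat_lit 13) (nat_lit 4) (nat_lit 332) (nat_lit 249) (nat_lit 199)) (XT.lf (nat_lit 0) (nat_lit 1949220503) (nat_lit 152) (nat_lit 18099190848) (nat_lit 76) (nat_lit 24955110822) (nat_lit 11) (nat_lit 5) (nat_lit 13) (nat_lit 5) (nat_lit 12) (nat_lit 4) (nat_lit 333) (nat_lit 249) (nat_lit 198))))) (XT.nd (nat_lit 234) (nat_lit 76) (nat_lit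 0) (XT.nd (nat_lit 78) (nat_lit 76) (nat_lit 0) (XT.lf (nat_lit 0) (nat_lit 8655821487) (nat_lit 152) (nat_lit 4579919260) (nat_lit 76) (nat_lit 33782610737) (nat_lit 11) (nat_lit 5) (nat_lit 13) (nat_lit 5) (nat_lit 12) (nat_lit 4) (nat_lit 334) (nat_lit 249) (nat_lit 197)) (XT.nd (nat_lit 78) (nat_lit 0) (nat_lit 0) (XT.lf (nat_lit 0) (nat_lit 9709015970) (nat_lit 76) (nat_lit 6030319663) (nat_lit 152) (nat_lit 33393352706) (nat_lit 10) (nat_lit 5) (nat_lit 11) (nat_lit 5) (nat_lit 12) (nat_lit 4) (nat_lit 335) (nat_lit 249) (nat_lit 196)) (XT.lf (nat_lit 0) (nat_lit 23188809777) (nat_lit 152) (nat_lit 26652567938) (nat_lit 0) (nat_lit 1511023719) (nat_lit 10) (nat_lit 5) (nat_lit 12) (nat_lit 4) (nat_lit 10) (nat_lit 4) (nat_lit 336) (nat_lit 249) (nat_lit 195)))) (XT.nd (nat_lit 156) (nat_lit 0) (nat_lit 0) (XT.nd (nat_lit 78) (nat_lit 76) (nat_lit 0) (XT.lf (nat_lit 0) (nat_lit 31023444370)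 (nat_lit 152) (nat_lit 13393411247) (nat_lit 0) (nat_lit 9265876275) (nat_lit 10) (nat_lit 5) (nat_lit 12) (nat_lit 4) (nat_lit 10) (nat_lit 4) (nat_lit 337) (nat_lit 249) (nat_lit 194)) (XT.lf (nat_lit 0) (nat_lit 452157467) (nat_lit 76) (nat_lit 38756115130) (nat_lit 76) (nat_lit 16922564143) (nat_lit 9) (nat_lit 4) (nat_lit 10) (nat_lit 5) (nat_lit 10) (nat_lit 4) (nat_lit 338) (nat_lit 249) (nat_lit 193))) (XT.nd (nat_lit 78) (nat_lit 0) (nat_lit 0) (XT.lf (nat_lit 0) (nat_lit 15186965574) (nat_lit 76) (nat_lit 32708753383) (nat_lit 76) (nat_lit 10802837737) (nat_lit 9) (nat_lit 4) (nat_lit 10) (nat_lit 5) (nat_lit 10) (nat_lit 4) (nat_lit 339) (nat_lit 249) (nat_lit 192)) (XT.lf (nat_lit 0) (nat_lit 30579540805) (nat_lit 76) (nat_lit 26395619088) (nat_lit 76) (nat_lit 4420784720) (nat_lit 9) (nat_lit 4) (nat_lit 10) (nat_lit 5) (nat_lit 10) (nat_lit 4) (nat_lit 340) (nat_lit 249) (nat_lit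 191)))))) (XT.nd (nat_lit 546) (nat_lit 152) (nat_lit 0) (XT.nd (nat_lit 234) (nat_lit 0) (nat_lit 0) (XT.nd (nat_lit 78) (nat_lit 76) (nat_lit 0) (XT.lf (nat_lit 0) (nat_lit 2195103410) (nat_lit 152) (nat_lit 17584411323) (nat_lit 76) (nat_lit 44449262496) (nat_lit 8) (nat_lit 5) (nat_lit 10) (nat_lit 5) (nat_lit 9) (nat_lit 4) (nat_lit 341) (nat_lit 249) (nat_lit 190)) (XT.nd (nat_lit 78) (nat_lit 76) (nat_lit 0) (XT.lf (nat_lit 0) (nat_lit 9012379352) (nat_lit 152) (nat_lit 3807852475) (nat_lit 76) (nat_lit 54382855250) (nat_lit 8) (nat_lit 5) (nat_lit 10) (nat_lit 5) (nat_lit 9) (nat_lit 4) (nat_lit 342) (nat_lit 249) (nat_lit 189)) (XT.lf (nat_lit 0) (nat_lit 10799302643) (nat_lit 76) (nat_lit 5438047005) (nat_lit 152) (nat_lit 54086766770) (nat_lit 7) (nat_lit 5) (nat_lit 8) (nat_lit 5) (nat_lit 9) (nat_lit 4) (nat_lit 343) (nat_lit 249) (nat_lit 188)))) (XT.nd (nat_lit 156) (nat_lit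 0) (nat_lit 0) (XT.nd (nat_lit 78) (nat_lit 0) (nat_lit 0) (XT.lf (nat_lit 0) (nat_lit 23849230216) (nat_lit 152) (nat_lit 47474030532) (nat_lit 0) (nat_lit 2277175120) (nat_lit 7) (nat_lit 5) (nat_lit 9) (nat_lit 4) (nat_lit 7) (nat_lit 4) (nat_lit 344) (nat_lit 249) (nat_lit 187)) (XT.lf (nat_lit 0) (nat_lit 31862153122) (nat_lit 152) (nat_lit 34940141601) (nat_lit 0) (nat_lit 10237671208) (nat_lit 7) (nat_lit 5) (nat_lit 9) (nat_lit 4) (nat_lit 7) (nat_lit 4) (nat_lit 345) (nat_lit 249) (nat_lit 186))) (XT.nd (nat_lit 78) (nat_lit 0) (nat_lit 0) (XT.lf (nat_lit 0) (nat_lit 40242922921) (nat_lit 152) (nat_lit 21841030554) (nat_lit 0) (nat_lit 18568510704) (nat_lit 7) (nat_lit 5) (nat_lit 9) (nat_lit 4) (nat_lit 7) (nat_lit 4) (nat_lit 346) (nat_lit 249) (nat_lit 185)) (XT.lf (nat_lit 0) (nat_lit 49011493826) (nat_lit 152) (nat_lit 8145509032) (nat_lit 0) (nat_lit 27289528940) (nat_lit 7)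 (nat_lit 5) (nat_lit 9) (nat_lit 4) (nat_lit 7) (nat_lit 4) (nat_lit 347) (nat_lit 249) (nat_lit 184))))) (XT.nd (nat_lit 234) (nat_lit 76) (nat_lit 0) (XT.nd (nat_lit 78) (nat_lit 0) (nat_lit 0) (XT.lf (nat_lit 0) (nat_lit 6302006187) (nat_lit 76) (nat_lit 51947315939) (nat_lit 76) (nat_lit 30180062795) (nat_lit 6) (nat_lit 4) (nat_lit 7) (nat_lit 5) (nat_lit 7) (nat_lit 4) (nat_lit 348) (nat_lit 249) (nat_lit 183)) (XT.nd (nat_lit 78) (nat_lit 0) (nat_lit 0) (XT.lf (nat_lit 0) (nat_lit 21587955402) (nat_lit 76) (nat_lit 46416083429) (nat_lit 76) (nat_lit 24605698613) (nat_lit 6) (nat_lit 4) (nat_lit 7) (nat_lit 5) (nat_lit 7) (nat_lit 4) (nat_lit 349) (nat_lit 249) (nat_lit 182)) (XT.lf (nat_lit 0) (nat_lit 37586622128) (nat_lit 76) (nat_lit 40632389400) (nat_lit 76) (nat_lit 18780926800) (nat_lit 6) (nat_lit 4) (nat_lit 7) (nat_lit 5) (nat_lit 7) (nat_lit 4) (nat_lit 350) (nat_lit 249)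 (nat_lit 181)))) (XT.nd (nat_lit 156) (nat_lit 76) (nat_lit 0) (XT.nd (nat_lit 78) (nat_lit 0) (nat_lit 0) (XT.lf (nat_lit 0) (nat_lit 54336098429) (nat_lit 76) (nat_lit 34582463151) (nat_lit 76) (nat_lit 12691878852) (nat_lit 6) (nat_lit 4) (nat_lit 7) (nat_lit 5) (nat_lit 7) (nat_lit 4) (nat_lit 351) (nat_lit 249) (nat_lit 180)) (XT.lf (nat_lit 0) (nat_lit 71876264010) (nat_lit 76) (nat_lit 28251900095) (nat_lit 76) (nat_lit 6324057035) (nat_lit 6) (nat_lit 4) (nat_lit 7) (nat_lit 5) (nat_lit 7) (nat_lit 4) (nat_lit 352) (nat_lit 249) (nat_lit 179))) (XT.nd (nat_lit 78) (nat_lit 0) (nat_lit 0) (XT.lf (nat_lit 0) (nat_lit 331110384) (nat_lit 152) (nat_lit 21291173514) (nat_lit 76) (nat_lit 89914427220) (nat_lit 5) (nat_lit 5) (nat_lit 7) (nat_lit 5) (nat_lit 6) (nat_lit 4) (nat_lit 353) (nat_lit 249) (nat_lit 178)) (XT.lf (nat_lit 0) (nat_lit 7166624099) (nat_lit 152) (nat_lit 7448875466)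 (nat_lit 76) (nat_lit 102258701285) (nat_lit 5) (nat_lit 5) (nat_lit 7) (nat_lit 5) (nat_lit 6) (nat_lit 4) (nat_lit 354) (nat_lit 249) (nat_lit 177))))))) (XT.nd (nat_lit 35100) (nat_lit 0) (nat_lit 4484) (XT.nd (nat_lit 546) (nat_lit 0) (nat_lit 0) (XT.nd (nat_lit 234) (nat_lit 0) (nat_lit 0) (XT.nd (nat_lit 78) (nat_lit 0) (nat_lit 0) (XT.lf (nat_lit 0) (nat_lit 7184888625) (nat_lit 76) (nat_lit 7206341193) (nat_lit 152) (nat_lit 108085920583) (nat_lit 4) (nat_lit 5) (nat_lit 5) (nat_lit 5) (nat_lit 6) (nat_lit 4) (nat_lit 355) (nat_lit 249) (nat_lit 176)) (XT.nd (nat_lit 78) (nat_lit 0) (nat_lit 0) (XT.lf (nat_lit 0) (nat_lit 22038741654) (nat_lit 152) (nat_lit 105698356091) (nat_lit 0) (nat_lit 621304001) (nat_lit 4) (nat_lit 5) (nat_lit 6) (nat_lit 4) (nat_lit 4) (nat_lit 4) (nat_lit 356) (nat_lit 249) (nat_lit 175)) (XT.lf (nat_lit 0) (nat_lit 30121103814) (nat_lit 152) (nat_lit 95735718741)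 (nat_lit 0) (nat_lit 8675323235) (nat_lit 4) (nat_lit 5) (nat_lit 6) (nat_lit 4) (nat_lit 4) (nat_lit 4) (nat_lit 357) (nat_lit 249) (nat_lit 174)))) (XT.nd (nat_lit 156) (nat_lit 0) (nat_lit 0) (XT.nd (nat_lit 78) (nat_lit 0) (nat_lit 0) (XT.lf (nat_lit 0) (nat_lit 38588288259) (nat_lit 152) (nat_lit 85311357401) (nat_lit 0) (nat_lit 17115514417) (nat_lit 4) (nat_lit 5) (nat_lit 6) (nat_lit 4) (nat_lit 4) (nat_lit 4) (nat_lit 358) (nat_lit 249) (nat_lit 173)) (XT.lf (nat_lit 0) (nat_lit 47460454951) (nat_lit 152) (nat_lit 74400452162) (nat_lit 0) (nat_lit 25961973240) (nat_lit 4) (nat_lit 5) (nat_lit 6) (nat_lit 4) (nat_lit 4) (nat_lit 4) (nat_lit 359) (nat_lit 249) (nat_lit 172))) (XT.nd (nat_lit 78) (nat_lit 0) (nat_lit 0) (XT.lf (nat_lit 0) (nat_lit 56758728097) (nat_lit 152) (nat_lit 62977024680) (nat_lit 0) (nat_lit 35235762700) (nat_lit 4) (nat_lit 5) (nat_lit 6) (nat_lit 4) (nat_lit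 4) (nat_lit 4) (nat_lit 360) (nat_lit 249) (nat_lit 171)) (XT.lf (nat_lit 0) (nat_lit 66505246443) (nat_lit 152) (nat_lit 51013876317) (nat_lit 0) (nat_lit 44958963251) (nat_lit 4) (nat_lit 5) (nat_lit 6) (nat_lit 4) (nat_lit 4) (nat_lit 4) (nat_lit 361) (nat_lit 249) (nat_lit 170))))) (XT.nd (nat_lit 34242) (nat_lit 0) (nat_lit 9804) (XT.nd (nat_lit 78) (nat_lit 0) (nat_lit 0) (XT.lf (nat_lit 0) (nat_lit 76723215984) (nat_lit 152) (nat_lit 38482523386) (nat_lit 0) (nat_lit 55154725367) (nat_lit 4) (nat_lit 5) (nat_lit 6) (nat_lit 4) (nat_lit 4) (nat_lit 4) (nat_lit 362) (nat_lit 249) (nat_lit 169)) (XT.nd (nat_lit 78) (nat_lit 0) (nat_lit 0) (XT.lf (nat_lit 0) (nat_lit 87436965220) (nat_lit 152) (nat_lit 25353129333) (nat_lit 0) (nat_lit 65847324675) (nat_lit 4) (nat_lit 5) (nat_lit 6) (nat_lit 4) (nat_lit 4) (nat_lit 4) (nat_lit 363) (nat_lit 249) (nat_lit 168)) (XT.lf (nat_lit 0) (nat_lit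 98672003077) (nat_lit 152) (nat_lit 11594433697) (nat_lit 0) (nat_lit 77062219744) (nat_lit 4) (nat_lit 5) (nat_lit 6) (nat_lit 4) (nat_lit 4) (nat_lit 4) (nat_lit 364) (nat_lit 249) (nat_lit 167)))) (XT.nd (nat_lit 156) (nat_lit 1064) (nat_lit 0) (XT.nd (nat_lit 78) (nat_lit 532) (nat_lit 0) (XT.lf (nat_lit 0) (nat_lit 113560192) (nat_lit 532) (nat_lit 3628023554) (nat_lit 0) (nat_lit 113560192) (nat_lit 154) (nat_lit 5) (nat_lit 161) (nat_lit 4) (nat_lit 154) (nat_lit 4) (nat_lit 280) (nat_lit 250) (nat_lit 250)) (XT.lf (nat_lit 0) (nat_lit 1816062270) (nat_lit 532) (nat_lit 4101499433) (nat_lit 532) (nat_lit 1929307053) (nat_lit 147) (nat_lit 4) (nat_lit 154) (nat_lit 5) (nat_lit 154) (nat_lit 4) (nat_lit 281) (nat_lit 250) (nat_lit 249))) (XT.nd (nat_lit 78) (nat_lit 532) (nat_lit 0) (XT.lf (nat_lit 0) (nat_lit 3222724225) (nat_lit 456) (nat_lit 453961121) (nat_lit 532) (nat_lit 4317260347)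 (nat_lit 140) (nat_lit 5) (nat_lit 146) (nat_lit 5) (nat_lit 147) (nat_lit 4) (nat_lit 282) (nat_lit 250) (nat_lit 248)) (XT.lf (nat_lit 0) (nat_lit 1240303628) (nat_lit 532) (nat_lit 3512464751) (nat_lit 76) (nat_lit 3398168979) (nat_lit 133) (nat_lit 5) (nat_lit 140) (nat_lit 5) (nat_lit 134) (nat_lit 4) (nat_lit 283) (nat_lit 250) (nat_lit 247)))))) (XT.nd (nat_lit 546) (nat_lit 2128) (nat_lit 0) (XT.nd (nat_lit 234) (nat_lit 1444) (nat_lit 0) (XT.nd (nat_lit 78) (nat_lit 1368) (nat_lit 0) (XT.lf (nat_lit 0) (nat_lit 6071925574) (nat_lit 380) (nat_lit 787175454) (nat_lit 456) (nat_lit 1459488853) (nat_lit 128) (nat_lit 5) (nat_lit 133) (nat_lit 5) (nat_lit 134) (nat_lit 4) (nat_lit 284) (nat_lit 250) (nat_lit 246)) (XT.nd (nat_lit 78) (nat_lit 836) (nat_lit 0) (XT.lf (nat_lit 0) (nat_lit 4088515123) (nat_lit 532) (nat_lit 1008146372) (nat_lit 76) (nat_lit 3399760815) (nat_lit 121) (nat_lit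 5) (nat_lit 128) (nat_lit 5) (nat_lit 122) (nat_lit 4) (nat_lit 285) (nat_lit 250) (nat_lit 245)) (XT.lf (nat_lit 0) (nat_lit 237643610) (nat_lit 380) (nat_lit 831459842) (nat_lit 456) (nat_lit 7616750848) (nat_lit 110) (nat_lit 5) (nat_lit 115) (nat_lit 5) (nat_lit 116) (nat_lit 5) (nat_lit 286) (nat_lit 250) (nat_lit 244)))) (XT.nd (nat_lit 156) (nat_lit 684) (nat_lit 0) (XT.nd (nat_lit 78) (nat_lit 456) (nat_lit 0) (XT.lf (nat_lit 0) (nat_lit 1449147640) (nat_lit 304) (nat_lit 5214298465) (nat_lit 380) (nat_lit 2222185412) (nat_lit 106) (nat_lit 5) (nat_lit 110) (nat_lit 5) (nat_lit 111) (nat_lit 4) (nat_lit 287) (nat_lit 250) (nat_lit 243)) (XT.lf (nat_lit 0) (nat_lit 2634049705) (nat_lit 380) (nat_lit 643142853) (nat_lit 456) (nat_lit 5820350313) (nat_lit 100) (nat_lit 5) (nat_lit 105) (nat_lit 5) (nat_lit 106) (nat_lit 5) (nat_lit 288) (nat_lit 250) (nat_lit 242))) (XT.nd (nat_lit 78)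 (nat_lit 380) (nat_lit 0) (XT.lf (nat_lit 0) (nat_lit 3758648492) (nat_lit 304) (nat_lit 5188339872) (nat_lit 380) (nat_lit 374354851) (nat_lit 96) (nat_lit 5) (nat_lit 100) (nat_lit 5) (nat_lit 101) (nat_lit 4) (nat_lit 289) (nat_lit 250) (nat_lit 241)) (XT.lf (nat_lit 0) (nat_lit 4814970546) (nat_lit 304) (nat_lit 337370726) (nat_lit 380) (nat_lit 4405251756) (nat_lit 91) (nat_lit 5) (nat_lit 95) (nat_lit 5) (nat_lit 96) (nat_lit 5) (nat_lit 290) (nat_lit 250) (nat_lit 240))))) (XT.nd (nat_lit 234) (nat_lit 1140) (nat_lit 0) (XT.nd (nat_lit 78) (nat_lit 608) (nat_lit 0) (XT.lf (nat_lit 0) (nat_lit 1077593593) (nat_lit 380) (nat_lit 4020709903) (nat_lit 76) (nat_lit 4708344776) (nat_lit 86) (nat_lit 5) (nat_lit 91) (nat_lit 5) (nat_lit 87) (nat_lit 5) (nat_lit 291) (nat_lit 250) (nat_lit 239)) (XT.nd (nat_lit 78) (nat_lit 304) (nat_lit 0) (XT.lf (nat_lit 0) (nat_lit 6664992510) (nat_lit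 380) (nat_lit 3400079169) (nat_lit 76) (nat_lit 4289889) (nat_lit 82) (nat_lit 5) (nat_lit 87) (nat_lit 5) (nat_lit 83) (nat_lit 4) (nat_lit 292) (nat_lit 250) (nat_lit 238)) (XT.lf (nat_lit 0) (nat_lit 2117939115) (nat_lit 304) (nat_lit 2922268216) (nat_lit 76) (nat_lit 5305298304) (nat_lit 78) (nat_lit 5) (nat_lit 82) (nat_lit 5) (nat_lit 79) (nat_lit 5) (nat_lit 293) (nat_lit 250) (nat_lit 237)))) (XT.nd (nat_lit 156) (nat_lit 532) (nat_lit 0) (XT.nd (nat_lit 78) (nat_lit 304) (nat_lit 0) (XT.lf (nat_lit 0) (nat_lit 7776456582) (nat_lit 380) (nat_lit 2570830134) (nat_lit 76) (nat_lit 289384262) (nat_lit 74) (nat_lit 5) (nat_lit 79) (nat_lit 5) (nat_lit 75) (nat_lit 4) (nat_lit 294) (nat_lit 250) (nat_lit 236)) (XT.lf (nat_lit 0) (nat_lit 2704101480) (nat_lit 304) (nat_lit 2405692334) (nat_lit 76) (nat_lit 5832447434) (nat_lit 70) (nat_lit 5) (nat_lit 74) (nat_lit 5) (nat_lit 71) (nat_lit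 5) (nat_lit 295) (nat_lit 250) (nat_lit 235))) (XT.nd (nat_lit 78) (nat_lit 304) (nat_lit 0) (XT.lf (nat_lit 0) (nat_lit 8427849079) (nat_lit 304) (nat_lit 2404720468) (nat_lit 76) (nat_lit 431583394) (nat_lit 67) (nat_lit 5) (nat_lit 71) (nat_lit 5) (nat_lit 68) (nat_lit 4) (nat_lit 296) (nat_lit 250) (nat_lit 234)) (XT.lf (nat_lit 0) (nat_lit 2771760300) (nat_lit 304) (nat_lit 2636715416) (nat_lit 76) (nat_lit 6193236932) (nat_lit 63) (nat_lit 5) (nat_lit 67) (nat_lit 5) (nat_lit 64) (nat_lit 5) (nat_lit 297) (nat_lit 250) (nat_lit 233))))))))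
noncomputable def xc33 : XT := (XT.nd (nat_lit 2184) (nat_lit 760) (nat_lit 0) (XT.nd (nat_lit 1092) (nat_lit 1216) (nat_lit 0) (XT.nd (nat_lit 546) (nat_lit 836) (nat_lit 0) (XT.nd (nat_lit 234) (nat_lit 836) (nat_lit 0) (XT.nd (nat_lit 78) (nat_lit 456) (nat_lit 0) (XT.lf (nat_lit 0) (nat_lit 8548231112) (nat_lit 304) (nat_lit 3081012623) (nat_lit 76) (nat_lit 327773073) (nat_lit 60) (nat_lit 5) (nat_lit 64) (nat_lit 5) (nat_lit 61) (nat_lit 4) (nat_lit 298) (nat_lit 250) (nat_lit 232)) (XT.nd (nat_lit 78) (nat_lit 228) (nat_lit 0) (XT.lf (nat_lit 0) (nat_lit 2240074831) (nat_lit 228) (nat_lit 3809734994) (nat_lit 76) (nat_lit 6279682659) (nat_lit 57) (nat_lit 5) (nat_lit 60) (nat_lit 5) (nat_lit 58) (nat_lit 5) (nat_lit 299) (nat_lit 250) (nat_lit 231)) (XT.lf (nat_lit 0) (nat_lit 7909467101) (nat_lit 228) (nat_lit 140969643) (nat_lit 304) (nat_lit 4670751792) (nat_lit 54) (nat_lit 5)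 (nat_lit 57) (nat_lit 5) (nat_lit 58) (nat_lit 5) (nat_lit 300) (nat_lit 250) (nat_lit 230)))) (XT.nd (nat_lit 156) (nat_lit 380) (nat_lit 0) (XT.nd (nat_lit 78) (nat_lit 228) (nat_lit 0) (XT.lf (nat_lit 0) (nat_lit 1009176996) (nat_lit 228) (nat_lit 6153444835) (nat_lit 76) (nat_lit 5969336016) (nat_lit 51) (nat_lit 5) (nat_lit 54) (nat_lit 5) (nat_lit 52) (nat_lit 5) (nat_lit 301) (nat_lit 250) (nat_lit 229)) (XT.lf (nat_lit 0) (nat_lit 5711604991) (nat_lit 228) (nat_lit 1120728877) (nat_lit 304) (nat_lit 6730953886) (nat_lit 48) (nat_lit 5) (nat_lit 51) (nat_lit 5) (nat_lit 52) (nat_lit 5) (nat_lit 302) (nat_lit 250) (nat_lit 228))) (XT.nd (nat_lit 78) (nat_lit 228) (nat_lit 0) (XT.lf (nat_lit 0) (nat_lit 4068476935) (nat_lit 152) (nat_lit 8884034724) (nat_lit 228) (nat_lit 1063576968) (nat_lit 46) (nat_lit 5) (nat_lit 48) (nat_lit 5) (nat_lit 49) (nat_lit 4) (nat_lit 303) (nat_lit 250)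 (nat_lit 227)) (XT.lf (nat_lit 0) (nat_lit 1999309255) (nat_lit 152) (nat_lit 2760475385) (nat_lit 228) (nat_lit 9731370394) (nat_lit 43) (nat_lit 5) (nat_lit 45) (nat_lit 5) (nat_lit 46) (nat_lit 5) (nat_lit 304) (nat_lit 250) (nat_lit 226))))) (XT.nd (nat_lit 234) (nat_lit 456) (nat_lit 0) (XT.nd (nat_lit 78) (nat_lit 380) (nat_lit 0) (XT.lf (nat_lit 0) (nat_lit 10850755508) (nat_lit 228) (nat_lit 519171116) (nat_lit 76) (nat_lit 3619849864) (nat_lit 43) (nat_lit 5) (nat_lit 46) (nat_lit 5) (nat_lit 44) (nat_lit 4) (nat_lit 305) (nat_lit 250) (nat_lit 225)) (XT.nd (nat_lit 78) (nat_lit 152) (nat_lit 0) (XT.lf (nat_lit 0) (nat_lit 1708932090) (nat_lit 228) (nat_lit 3496191225) (nat_lit 76) (nat_lit 10307477326) (nat_lit 40) (nat_lit 5) (nat_lit 43) (nat_lit 5) (nat_lit 41) (nat_lit 5) (nat_lit 306) (nat_lit 250) (nat_lit 224)) (XT.lf (nat_lit 0) (nat_lit 7738581002) (nat_lit 228) (nat_lit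 7032998330) (nat_lit 76) (nat_lit 1289572590) (nat_lit 38) (nat_lit 5) (nat_lit 41) (nat_lit 5) (nat_lit 39) (nat_lit 4) (nat_lit 307) (nat_lit 250) (nat_lit 223)))) (XT.nd (nat_lit 156) (nat_lit 76) (nat_lit 0) (XT.nd (nat_lit 78) (nat_lit 228) (nat_lit 0) (XT.lf (nat_lit 0) (nat_lit 5450909961) (nat_lit 152) (nat_lit 8632546948) (nat_lit 228) (nat_lit 2553320875) (nat_lit 36) (nat_lit 5) (nat_lit 38) (nat_lit 5) (nat_lit 39) (nat_lit 4) (nat_lit 308) (nat_lit 250) (nat_lit 222)) (XT.lf (nat_lit 0) (nat_lit 1242237265) (nat_lit 152) (nat_lit 2154048293) (nat_lit 228) (nat_lit 13845135354) (nat_lit 33) (nat_lit 5) (nat_lit 35) (nat_lit 5) (nat_lit 36) (nat_lit 5) (nat_lit 309) (nat_lit 250) (nat_lit 221))) (XT.nd (nat_lit 78) (nat_lit 76) (nat_lit 0) (XT.lf (nat_lit 0) (nat_lit 9630345634) (nat_lit 228) (nat_lit 3630191575) (nat_lit 76) (nat_lit 4613859443) (nat_lit 33) (nat_lit 5) (nat_lit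 36) (nat_lit 5) (nat_lit 34) (nat_lit 4) (nat_lit 310) (nat_lit 250) (nat_lit 220)) (XT.lf (nat_lit 0) (nat_lit 9316104489) (nat_lit 76) (nat_lit 6855409346) (nat_lit 152) (nat_lit 2367694969) (nat_lit 32) (nat_lit 5) (nat_lit 33) (nat_lit 5) (nat_lit 34) (nat_lit 4) (nat_lit 311) (nat_lit 250) (nat_lit 219)))))) (XT.nd (nat_lit 546) (nat_lit 608) (nat_lit 0) (XT.nd (nat_lit 234) (nat_lit 304) (nat_lit 0) (XT.nd (nat_lit 78) (nat_lit 76) (nat_lit 0) (XT.lf (nat_lit 0) (nat_lit 3584733675) (nat_lit 152) (nat_lit 102337179) (nat_lit 228) (nat_lit 15550376421) (nat_lit 29) (nat_lit 5) (nat_lit 31) (nat_lit 5) (nat_lit 32) (nat_lit 5) (nat_lit 312) (nat_lit 250) (nat_lit 218)) (XT.nd (nat_lit 78) (nat_lit 76) (nat_lit 0) (XT.lf (nat_lit 0) (nat_lit 10048480596) (nat_lit 228) (nat_lit 3028676537) (nat_lit 76) (nat_lit 6891194900) (nat_lit 29) (nat_lit 5) (nat_lit 32) (nat_lit 5) (nat_lit 30) (nat_lit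 4) (nat_lit 313) (nat_lit 250) (nat_lit 217)) (XT.lf (nat_lit 0) (nat_lit 10240003993) (nat_lit 76) (nat_lit 6482049186) (nat_lit 152) (nat_lit 4013967825) (nat_lit 28) (nat_lit 5) (nat_lit 29) (nat_lit 5) (nat_lit 30) (nat_lit 4) (nat_lit 314) (nat_lit 250) (nat_lit 216)))) (XT.nd (nat_lit 156) (nat_lit 76) (nat_lit 0) (XT.nd (nat_lit 78) (nat_lit 0) (nat_lit 0) (XT.lf (nat_lit 0) (nat_lit 2101578960) (nat_lit 228) (nat_lit 19006771108) (nat_lit 76) (nat_lit 434420345) (nat_lit 25) (nat_lit 5) (nat_lit 28) (nat_lit 5) (nat_lit 26) (nat_lit 4) (nat_lit 315) (nat_lit 250) (nat_lit 215)) (XT.lf (nat_lit 0) (nat_lit 8514536211) (nat_lit 228) (nat_lit 6233869396) (nat_lit 76) (nat_lit 7638056737) (nat_lit 25) (nat_lit 5) (nat_lit 28) (nat_lit 5) (nat_lit 26) (nat_lit 4) (nat_lit 316) (nat_lit 250) (nat_lit 214))) (XT.nd (nat_lit 78) (nat_lit 0) (nat_lit 0) (XT.lf (nat_lit 0) (nat_lit 7146466680)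 (nat_lit 76) (nat_lit 8074498987) (nat_lit 152) (nat_lit 8052223487) (nat_lit 24) (nat_lit 5) (nat_lit 25) (nat_lit 5) (nat_lit 26) (nat_lit 4) (nat_lit 317) (nat_lit 250) (nat_lit 213)) (XT.lf (nat_lit 0) (nat_lit 21160317120) (nat_lit 76) (nat_lit 1073671621) (nat_lit 152) (nat_lit 1971158743) (nat_lit 24) (nat_lit 5) (nat_lit 25) (nat_lit 5) (nat_lit 26) (nat_lit 4) (nat_lit 318) (nat_lit 250) (nat_lit 212))))) (XT.nd (nat_lit 234) (nat_lit 304) (nat_lit 0) (XT.nd (nat_lit 78) (nat_lit 76) (nat_lit 0) (XT.lf (nat_lit 0) (nat_lit 4402380041) (nat_lit 228) (nat_lit 14545369557) (nat_lit 76) (nat_lit 6232475482) (nat_lit 21) (nat_lit 5) (nat_lit 24) (nat_lit 5) (nat_lit 22) (nat_lit 4) (nat_lit 319) (nat_lit 250) (nat_lit 211)) (XT.nd (nat_lit 78) (nat_lit 76) (nat_lit 0) (XT.lf (nat_lit 0) (nat_lit 11009422718) (nat_lit 228) (nat_lit 1329084987) (nat_lit 76) (nat_lit 13866324917) (nat_lit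 21) (nat_lit 5) (nat_lit 24) (nat_lit 5) (nat_lit 22) (nat_lit 4) (nat_lit 320) (nat_lit 250) (nat_lit 210)) (XT.lf (nat_lit 0) (nat_lit 12645166649) (nat_lit 76) (nat_lit 5340083553) (nat_lit 152) (nat_lit 9294295325) (nat_lit 20) (nat_lit 5) (nat_lit 21) (nat_lit 5) (nat_lit 22) (nat_lit 4) (nat_lit 321) (nat_lit 250) (nat_lit 209)))) (XT.nd (nat_lit 156) (nat_lit 76) (nat_lit 0) (XT.nd (nat_lit 78) (nat_lit 228) (nat_lit 0) (XT.lf (nat_lit 0) (nat_lit 25261809366) (nat_lit 152) (nat_lit 1228251518) (nat_lit 0) (nat_lit 1919401617) (nat_lit 20) (nat_lit 5) (nat_lit 22) (nat_lit 4) (nat_lit 20) (nat_lit 4) (nat_lit 322) (nat_lit 250) (nat_lit 208)) (XT.lf (nat_lit 0) (nat_lit 3343417882) (nat_lit 228) (nat_lit 16719660313) (nat_lit 76) (nat_lit 9528819836) (nat_lit 17) (nat_lit 5) (nat_lit 20) (nat_lit 5) (nat_lit 18) (nat_lit 4) (nat_lit 323) (nat_lit 250) (nat_lit 207))) (XT.nd (nat_lit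 78) (nat_lit 76) (nat_lit 0) (XT.lf (nat_lit 0) (nat_lit 10031610126) (nat_lit 228) (nat_lit 3299192785) (nat_lit 76) (nat_lit 17503610954) (nat_lit 17) (nat_lit 5) (nat_lit 20) (nat_lit 5) (nat_lit 18) (nat_lit 4) (nat_lit 324) (nat_lit 250) (nat_lit 206)) (XT.lf (nat_lit 0) (nat_lit 10873391619) (nat_lit 76) (nat_lit 6213239081) (nat_lit 152) (nat_lit 15051474569) (nat_lit 16) (nat_lit 5) (nat_lit 17) (nat_lit 5) (nat_lit 18) (nat_lit 4) (nat_lit 325) (nat_lit 250) (nat_lit 205))))))) (XT.nd (nat_lit 1092) (nat_lit 228) (nat_lit 0) (XT.nd (nat_lit 546) (nat_lit 228) (nat_lit 0) (XT.nd (nat_lit 234) (nat_lit 152) (nat_lit 0) (XT.nd (nat_lit 78) (nat_lit 152) (nat_lit 0) (XT.lf (nat_lit 0) (nat_lit 24470369134) (nat_lit 152) (nat_lit 7823757780) (nat_lit 0) (nat_lit 1213596596) (nat_lit 16) (nat_lit 5) (nat_lit 18) (nat_lit 4) (nat_lit 16) (nat_lit 4) (nat_lit 326) (nat_lit 250) (nat_lit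 204)) (XT.nd (nat_lit 78) (nat_lit 76) (nat_lit 0) (XT.lf (nat_lit 0) (nat_lit 6225255139) (nat_lit 76) (nat_lit 26053501037) (nat_lit 76) (nat_lit 2665422897) (nat_lit 15) (nat_lit 4) (nat_lit 16) (nat_lit 5) (nat_lit 16) (nat_lit 4) (nat_lit 327) (nat_lit 250) (nat_lit 203)) (XT.lf (nat_lit 0) (nat_lit 3962191676) (nat_lit 152) (nat_lit 15469881992) (nat_lit 76) (nat_lit 17018772803) (nat_lit 14) (nat_lit 5) (nat_lit 16) (nat_lit 5) (nat_lit 15) (nat_lit 4) (nat_lit 328) (nat_lit 250) (nat_lit 202)))) (XT.nd (nat_lit 156) (nat_lit 76) (nat_lit 0) (XT.nd (nat_lit 78) (nat_lit 76) (nat_lit 0) (XT.lf (nat_lit 0) (nat_lit 10803997924) (nat_lit 152) (nat_lit 1700113362) (nat_lit 76) (nat_lit 25529824005) (nat_lit 14) (nat_lit 5) (nat_lit 16) (nat_lit 5) (nat_lit 15) (nat_lit 4) (nat_lit 329) (nat_lit 250) (nat_lit 201)) (XT.lf (nat_lit 0) (nat_lit 12900524492) (nat_lit 76) (nat_lit 5151781102)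 (nat_lit 152) (nat_lit 21641957616) (nat_lit 13) (nat_lit 5) (nat_lit 14) (nat_lit 5) (nat_lit 15) (nat_lit 4) (nat_lit 330) (nat_lit 250) (nat_lit 200))) (XT.nd (nat_lit 78) (nat_lit 76) (nat_lit 0) (XT.lf (nat_lit 0) (nat_lit 25647144491) (nat_lit 152) (nat_lit 13302725145) (nat_lit 0) (nat_lit 2488230597) (nat_lit 13) (nat_lit 5) (nat_lit 15) (nat_lit 4) (nat_lit 13) (nat_lit 4) (nat_lit 331) (nat_lit 250) (nat_lit 199)) (XT.lf (nat_lit 0) (nat_lit 722555638) (nat_lit 76) (nat_lit 32902641724) (nat_lit 76) (nat_lit 9643842999) (nat_lit 12) (nat_lit 4) (nat_lit 13) (nat_lit 5) (nat_lit 13) (nat_lit 4) (nat_lit 332) (nat_lit 250) (nat_lit 198))))) (XT.nd (nat_lit 234) (nat_lit 152) (nat_lit 0) (XT.nd (nat_lit 78) (nat_lit 76) (nat_lit 0) (XT.lf (nat_lit 0) (nat_lit 15627638180) (nat_lit 76) (nat_lit 26457668260) (nat_lit 76) (nat_lit 3103741125) (nat_lit 12) (nat_lit 4) (nat_lit 13) (nat_lit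 5) (nat_lit 13) (nat_lit 4) (nat_lit 333) (nat_lit 250) (nat_lit 197)) (XT.nd (nat_lit 78) (nat_lit 0) (nat_lit 0) (XT.lf (nat_lit 0) (nat_lit 3638183131) (nat_lit 152) (nat_lit 16059013865) (nat_lit 76) (nat_lit 27508338809) (nat_lit 11) (nat_lit 5) (nat_lit 13) (nat_lit 5) (nat_lit 12) (nat_lit 4) (nat_lit 334) (nat_lit 250) (nat_lit 196)) (XT.lf (nat_lit 0) (nat_lit 10604328374) (nat_lit 152) (nat_lit 2004023293) (nat_lit 76) (nat_lit 36715048364) (nat_lit 11) (nat_lit 5) (nat_lit 13) (nat_lit 5) (nat_lit 12) (nat_lit 4) (nat_lit 335) (nat_lit 250) (nat_lit 195)))) (XT.nd (nat_lit 156) (nat_lit 76) (nat_lit 0) (XT.nd (nat_lit 78) (nat_lit 0) (nat_lit 0) (XT.lf (nat_lit 0) (nat_lit 12918957034) (nat_lit 76) (nat_lit 5077073717) (nat_lit 152) (nat_lit 33548821534) (nat_lit 10) (nat_lit 5) (nat_lit 11) (nat_lit 5) (nat_lit 12) (nat_lit 4) (nat_lit 336) (nat_lit 250) (nat_lit 194)) (XT.lf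 (nat_lit 0) (nat_lit 25759478718) (nat_lit 152) (nat_lit 25359578051) (nat_lit 0) (nat_lit 2758267291) (nat_lit 10) (nat_lit 5) (nat_lit 12) (nat_lit 4) (nat_lit 10) (nat_lit 4) (nat_lit 337) (nat_lit 250) (nat_lit 193))) (XT.nd (nat_lit 78) (nat_lit 76) (nat_lit 0) (XT.lf (nat_lit 0) (nat_lit 33918643686) (nat_lit 152) (nat_lit 11562492967) (nat_lit 0) (nat_lit 10845067599) (nat_lit 10) (nat_lit 5) (nat_lit 12) (nat_lit 4) (nat_lit 10) (nat_lit 4) (nat_lit 338) (nat_lit 250) (nat_lit 192)) (XT.lf (nat_lit 0) (nat_lit 2903675305) (nat_lit 76) (nat_lit 39568384897) (nat_lit 76) (nat_lit 16425890088) (nat_lit 9) (nat_lit 4) (nat_lit 10) (nat_lit 5) (nat_lit 10) (nat_lit 4) (nat_lit 339) (nat_lit 250) (nat_lit 191)))))) (XT.nd (nat_lit 546) (nat_lit 76) (nat_lit 0) (XT.nd (nat_lit 234) (nat_lit 76) (nat_lit 0) (XT.nd (nat_lit 78) (nat_lit 76) (nat_lit 0) (XT.lf (nat_lit 0) (nat_lit 18259561438)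 (nat_lit 76) (nat_lit 33272252015) (nat_lit 76) (nat_lit 10064120326) (nat_lit 9) (nat_lit 4) (nat_lit 10) (nat_lit 5) (nat_lit 10) (nat_lit 4) (nat_lit 340) (nat_lit 250) (nat_lit 190)) (XT.nd (nat_lit 78) (nat_lit 76) (nat_lit 0) (XT.lf (nat_lit 0) (nat_lit 34311610783) (nat_lit 76) (nat_lit 26694505722) (nat_lit 76) (nat_lit 3423862720) (nat_lit 9) (nat_lit 4) (nat_lit 10) (nat_lit 5) (nat_lit 10) (nat_lit 4) (nat_lit 341) (nat_lit 250) (nat_lit 189)) (XT.lf (nat_lit 0) (nat_lit 3442186605) (nat_lit 152) (nat_lit 16342538777) (nat_lit 76) (nat_lit 47621096565) (nat_lit 8) (nat_lit 5) (nat_lit 10) (nat_lit 5) (nat_lit 9) (nat_lit 4) (nat_lit 342) (nat_lit 250) (nat_lit 188)))) (XT.nd (nat_lit 156) (nat_lit 0) (nat_lit 0) (XT.nd (nat_lit 78) (nat_lit 76) (nat_lit 0) (XT.lf (nat_lit 0) (nat_lit 10546167866) (nat_lit 152) (nat_lit 1978156421) (nat_lit 76) (nat_lit 58006160816) (nat_lit 8)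 (nat_lit 5) (nat_lit 10) (nat_lit 5) (nat_lit 9) (nat_lit 4) (nat_lit 343) (nat_lit 250) (nat_lit 187)) (XT.lf (nat_lit 0) (nat_lit 13301451018) (nat_lit 76) (nat_lit 4798217863) (nat_lit 152) (nat_lit 55708891004) (nat_lit 7) (nat_lit 5) (nat_lit 8) (nat_lit 5) (nat_lit 9) (nat_lit 4) (nat_lit 344) (nat_lit 250) (nat_lit 186))) (XT.nd (nat_lit 78) (nat_lit 0) (nat_lit 0) (XT.lf (nat_lit 0) (nat_lit 26050468747) (nat_lit 152) (nat_lit 47957083034) (nat_lit 0) (nat_lit 3242405616) (nat_lit 7) (nat_lit 5) (nat_lit 9) (nat_lit 4) (nat_lit 7) (nat_lit 4) (nat_lit 345) (nat_lit 250) (nat_lit 185)) (XT.lf (nat_lit 0) (nat_lit 34416000798) (nat_lit 152) (nat_lit 34886530562) (nat_lit 0) (nat_lit 11560384997) (nat_lit 7) (nat_lit 5) (nat_lit 9) (nat_lit 4) (nat_lit 7) (nat_lit 4) (nat_lit 346) (nat_lit 250) (nat_lit 184))))) (XT.nd (nat_lit 234) (nat_lit 0) (nat_lit 0) (XT.nd (nat_lit 78) (nat_lit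 76) (nat_lit 0) (XT.lf (nat_lit 0) (nat_lit 43170059562) (nat_lit 152) (nat_lit 21218207683) (nat_lit 0) (nat_lit 20269155504) (nat_lit 7) (nat_lit 5) (nat_lit 9) (nat_lit 4) (nat_lit 7) (nat_lit 4) (nat_lit 347) (nat_lit 250) (nat_lit 183)) (XT.nd (nat_lit 78) (nat_lit 76) (nat_lit 0) (XT.lf (nat_lit 0) (nat_lit 52333488036) (nat_lit 152) (nat_lit 6919570771) (nat_lit 0) (nat_lit 29389452306) (nat_lit 7) (nat_lit 5) (nat_lit 9) (nat_lit 4) (nat_lit 7) (nat_lit 4) (nat_lit 348) (nat_lit 250) (nat_lit 182)) (XT.lf (nat_lit 0) (nat_lit 8203504466) (nat_lit 76) (nat_lit 53803456544) (nat_lit 76) (nat_lit 30818343030) (nat_lit 6) (nat_lit 4) (nat_lit 7) (nat_lit 5) (nat_lit 7) (nat_lit 4) (nat_lit 349) (nat_lit 250) (nat_lit 181)))) (XT.nd (nat_lit 156) (nat_lit 0) (nat_lit 0) (XT.nd (nat_lit 78) (nat_lit 0) (nat_lit 0) (XT.lf (nat_lit 0) (nat_lit 24178208382) (nat_lit 76) (nat_lit 48030958848)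 (nat_lit 76) (nat_lit 25006723634) (nat_lit 6) (nat_lit 4) (nat_lit 7) (nat_lit 5) (nat_lit 7) (nat_lit 4) (nat_lit 350) (nat_lit 250) (nat_lit 180)) (XT.lf (nat_lit 0) (nat_lit 40904862958) (nat_lit 76) (nat_lit 41991695772) (nat_lit 76) (nat_lit 18930201798) (nat_lit 6) (nat_lit 4) (nat_lit 7) (nat_lit 5) (nat_lit 7) (nat_lit 4) (nat_lit 351) (nat_lit 250) (nat_lit 179))) (XT.nd (nat_lit 78) (nat_lit 0) (nat_lit 0) (XT.lf (nat_lit 0) (nat_lit 58423293563) (nat_lit 76) (nat_lit 35671288119) (nat_lit 76) (nat_lit 12574309611) (nat_lit 6) (nat_lit 4) (nat_lit 7) (nat_lit 5) (nat_lit 7) (nat_lit 4) (nat_lit 352) (nat_lit 250) (nat_lit 178)) (XT.lf (nat_lit 0) (nat_lit 76775210746) (nat_lit 76) (nat_lit 29054687301) (nat_lit 76) (nat_lit 5923913998) (nat_lit 6) (nat_lit 4) (nat_lit 7) (nat_lit 5) (nat_lit 7) (nat_lit 4) (nat_lit 353) (nat_lit 250) (nat_lit 177))))))))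
noncomputable def xc34 : XT := (XT.nd (nat_lit 35958) (nat_lit 0) (nat_lit 1216) (XT.nd (nat_lit 34866) (nat_lit 0) (nat_lit 5624) (XT.nd (nat_lit 468) (nat_lit 0) (nat_lit 0) (XT.nd (nat_lit 234) (nat_lit 0) (nat_lit 0) (XT.nd (nat_lit 78) (nat_lit 76) (nat_lit 0) (XT.lf (nat_lit 0) (nat_lit 1016587237) (nat_lit 152) (nat_lit 21099286729) (nat_lit 76) (nat_lit 94977456773) (nat_lit 5) (nat_lit 5) (nat_lit 7) (nat_lit 5) (nat_lit 6) (nat_lit 4) (nat_lit 354) (nat_lit 250) (nat_lit 176)) (XT.nd (nat_lit 78) (nat_lit 76) (nat_lit 0) (XT.lf (nat_lit 0) (nat_lit 8162023241) (nat_lit 152) (nat_lit 6624704516) (nat_lit 76) (nat_lit 107911929865) (nat_lit 5) (nat_lit 5) (nat_lit 7) (nat_lit 5) (nat_lit 6) (nat_lit 4) (nat_lit 355) (nat_lit 250) (nat_lit 175)) (XT.lf (nat_lit 0) (nat_lit 8706447059) (nat_lit 76) (nat_lit 7022248492) (nat_lit 152) (nat_lit 112853640736) (nat_lit 4) (nat_lit 5) (nat_lit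 5) (nat_lit 5) (nat_lit 6) (nat_lit 4) (nat_lit 356) (nat_lit 250) (nat_lit 174)))) (XT.nd (nat_lit 78) (nat_lit 0) (nat_lit 0) (XT.lf (nat_lit 0) (nat_lit 23734142966) (nat_lit 152) (nat_lit 109863509670) (nat_lit 0) (nat_lit 1160737169) (nat_lit 4) (nat_lit 5) (nat_lit 6) (nat_lit 4) (nat_lit 4) (nat_lit 4) (nat_lit 357) (nat_lit 250) (nat_lit 173)) (XT.nd (nat_lit 78) (nat_lit 0) (nat_lit 0) (XT.lf (nat_lit 0) (nat_lit 32192363033) (nat_lit 152) (nat_lit 99456062558) (nat_lit 0) (nat_lit 9593249366) (nat_lit 4) (nat_lit 5) (nat_lit 6) (nat_lit 4) (nat_lit 4) (nat_lit 4) (nat_lit 358) (nat_lit 250) (nat_lit 172)) (XT.lf (nat_lit 0) (nat_lit 41055992223) (nat_lit 152) (nat_lit 88561266109) (nat_lit 0) (nat_lit 18432394870) (nat_lit 4) (nat_lit 5) (nat_lit 6) (nat_lit 4) (nat_lit 4) (nat_lit 4) (nat_lit 359) (nat_lit 250) (nat_lit 171))))) (XT.nd (nat_lit 234) (nat_lit 0) (nat_lit 0) (XT.nd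 (nat_lit 78) (nat_lit 0) (nat_lit 0) (XT.lf (nat_lit 0) (nat_lit 50346134414) (nat_lit 152) (nat_lit 77153180331) (nat_lit 0) (nat_lit 27699219266) (nat_lit 4) (nat_lit 5) (nat_lit 6) (nat_lit 4) (nat_lit 4) (nat_lit 4) (nat_lit 360) (nat_lit 250) (nat_lit 170)) (XT.nd (nat_lit 78) (nat_lit 0) (nat_lit 0) (XT.lf (nat_lit 0) (nat_lit 60084908993) (nat_lit 152) (nat_lit 65204643114) (nat_lit 0) (nat_lit 37415786421) (nat_lit 4) (nat_lit 5) (nat_lit 6) (nat_lit 4) (nat_lit 4) (nat_lit 4) (nat_lit 361) (nat_lit 250) (nat_lit 169)) (XT.lf (nat_lit 0) (nat_lit 70295503518) (nat_lit 152) (nat_lit 52687205561) (nat_lit 0) (nat_lit 47605231018) (nat_lit 4) (nat_lit 5) (nat_lit 6) (nat_lit 4) (nat_lit 4) (nat_lit 4) (nat_lit 362) (nat_lit 250) (nat_lit 168)))) (XT.nd (nat_lit 34008) (nat_lit 0) (nat_lit 12464) (XT.nd (nat_lit 78) (nat_lit 0) (nat_lit 0) (XT.lf (nat_lit 0) (nat_lit 81002228929) (nat_lit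 152) (nat_lit 39571064249) (nat_lit 0) (nat_lit 58291813640) (nat_lit 4) (nat_lit 5) (nat_lit 6) (nat_lit 4) (nat_lit 4) (nat_lit 4) (nat_lit 363) (nat_lit 250) (nat_lit 167)) (XT.lf (nat_lit 0) (nat_lit 92230577429) (nat_lit 152) (nat_lit 25824990270) (nat_lit 0) (nat_lit 69500978532) (nat_lit 4) (nat_lit 5) (nat_lit 6) (nat_lit 4) (nat_lit 4) (nat_lit 4) (nat_lit 364) (nat_lit 250) (nat_lit 166))) (XT.nd (nat_lit 78) (nat_lit 608) (nat_lit 0) (XT.lf (nat_lit 0) (nat_lit 2725880788) (nat_lit 608) (nat_lit 502216989) (nat_lit 608) (nat_lit 502216989) (nat_lit 176) (nat_lit 4) (nat_lit 184) (nat_lit 5) (nat_lit 184) (nat_lit 4) (nat_lit 278) (nat_lit 251) (nat_lit 251)) (XT.lf (nat_lit 0) (nat_lit 4522457622) (nat_lit 608) (nat_lit 886616296) (nat_lit 0) (nat_lit 2173231562) (nat_lit 168) (nat_lit 5) (nat_lit 176) (nat_lit 4) (nat_lit 168) (nat_lit 4) (nat_lit 279) (nat_lit 251) (nat_lit 250))))))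 (XT.nd (nat_lit 546) (nat_lit 2812) (nat_lit 0) (XT.nd (nat_lit 234) (nat_lit 1900) (nat_lit 0) (XT.nd (nat_lit 78) (nat_lit 1064) (nat_lit 0) (XT.lf (nat_lit 0) (nat_lit 285707954) (nat_lit 456) (nat_lit 2114435969) (nat_lit 532) (nat_lit 5313540807) (nat_lit 154) (nat_lit 5) (nat_lit 160) (nat_lit 5) (nat_lit 161) (nat_lit 4) (nat_lit 280) (nat_lit 251) (nat_lit 249)) (XT.nd (nat_lit 78) (nat_lit 456) (nat_lit 0) (XT.lf (nat_lit 0) (nat_lit 88808883) (nat_lit 608) (nat_lit 6341466994) (nat_lit 76) (nat_lit 1424476243) (nat_lit 146) (nat_lit 5) (nat_lit 154) (nat_lit 5) (nat_lit 147) (nat_lit 4) (nat_lit 281) (nat_lit 251) (nat_lit 248)) (XT.lf (nat_lit 0) (nat_lit 2741369333) (nat_lit 456) (nat_lit 2792305978) (nat_lit 532) (nat_lit 2471445701) (nat_lit 140) (nat_lit 5) (nat_lit 146) (nat_lit 5) (nat_lit 147) (nat_lit 4) (nat_lit 282) (nat_lit 251) (nat_lit 247)))) (XT.nd (nat_lit 156)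 (nat_lit 912) (nat_lit 0) (XT.nd (nat_lit 78) (nat_lit 456) (nat_lit 0) (XT.lf (nat_lit 0) (nat_lit 2905312464) (nat_lit 532) (nat_lit 4168636085) (nat_lit 76) (nat_lit 1092108583) (nat_lit 133) (nat_lit 5) (nat_lit 140) (nat_lit 5) (nat_lit 134) (nat_lit 4) (nat_lit 283) (nat_lit 251) (nat_lit 246)) (XT.lf (nat_lit 0) (nat_lit 65726315) (nat_lit 456) (nat_lit 3078453747) (nat_lit 76) (nat_lit 5193226538) (nat_lit 127) (nat_lit 5) (nat_lit 133) (nat_lit 5) (nat_lit 128) (nat_lit 5) (nat_lit 284) (nat_lit 251) (nat_lit 245))) (XT.nd (nat_lit 78) (nat_lit 456) (nat_lit 0) (XT.lf (nat_lit 0) (nat_lit 5443690937) (nat_lit 532) (nat_lit 2011283658) (nat_lit 76) (nat_lit 1064207568) (nat_lit 121) (nat_lit 5) (nat_lit 128) (nat_lit 5) (nat_lit 122) (nat_lit 4) (nat_lit 285) (nat_lit 251) (nat_lit 244)) (XT.lf (nat_lit 0) (nat_lit 2255390634) (nat_lit 456) (nat_lit 968417033) (nat_lit 76) (nat_lit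 5488134502) (nat_lit 115) (nat_lit 5) (nat_lit 121) (nat_lit 5) (nat_lit 116) (nat_lit 5) (nat_lit 286) (nat_lit 251) (nat_lit 243))))) (XT.nd (nat_lit 234) (nat_lit 1292) (nat_lit 0) (XT.nd (nat_lit 78) (nat_lit 836) (nat_lit 0) (XT.lf (nat_lit 0) (nat_lit 51900441) (nat_lit 304) (nat_lit 7647381808) (nat_lit 380) (nat_lit 1217053905) (nat_lit 106) (nat_lit 5) (nat_lit 110) (nat_lit 5) (nat_lit 111) (nat_lit 4) (nat_lit 287) (nat_lit 251) (nat_lit 242)) (XT.nd (nat_lit 78) (nat_lit 380) (nat_lit 0) (XT.lf (nat_lit 0) (nat_lit 1025612921) (nat_lit 380) (nat_lit 3119760192) (nat_lit 456) (nat_lit 4986200113) (nat_lit 100) (nat_lit 5) (nat_lit 105) (nat_lit 5) (nat_lit 106) (nat_lit 5) (nat_lit 288) (nat_lit 251) (nat_lit 241)) (XT.lf (nat_lit 0) (nat_lit 309637124) (nat_lit 380) (nat_lit 7395790527) (nat_lit 76) (nat_lit 1654137166) (nat_lit 95) (nat_lit 5) (nat_lit 100) (nat_lit 5) (nat_lit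 96) (nat_lit 5) (nat_lit 289) (nat_lit 251) (nat_lit 240)))) (XT.nd (nat_lit 156) (nat_lit 608) (nat_lit 0) (XT.nd (nat_lit 78) (nat_lit 380) (nat_lit 0) (XT.lf (nat_lit 0) (nat_lit 2802847420) (nat_lit 304) (nat_lit 2910537010) (nat_lit 380) (nat_lit 3885875620) (nat_lit 91) (nat_lit 5) (nat_lit 95) (nat_lit 5) (nat_lit 96) (nat_lit 5) (nat_lit 290) (nat_lit 251) (nat_lit 239)) (XT.lf (nat_lit 0) (nat_lit 1446063178) (nat_lit 380) (nat_lit 6277122232) (nat_lit 76) (nat_lit 2129280984) (nat_lit 86) (nat_lit 5) (nat_lit 91) (nat_lit 5) (nat_lit 87) (nat_lit 5) (nat_lit 291) (nat_lit 251) (nat_lit 238))) (XT.nd (nat_lit 78) (nat_lit 304) (nat_lit 0) (XT.lf (nat_lit 0) (nat_lit 4232584459) (nat_lit 304) (nat_lit 2686267131) (nat_lit 380) (nat_lit 3199840440) (nat_lit 82) (nat_lit 5) (nat_lit 86) (nat_lit 5) (nat_lit 87) (nat_lit 5) (nat_lit 292) (nat_lit 251) (nat_lit 237)) (XT.lf (nat_lit 0)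 (nat_lit 2177357832) (nat_lit 304) (nat_lit 5619515615) (nat_lit 76) (nat_lit 2602205680) (nat_lit 78) (nat_lit 5) (nat_lit 82) (nat_lit 5) (nat_lit 79) (nat_lit 5) (nat_lit 293) (nat_lit 251) (nat_lit 236))))))) (XT.nd (nat_lit 1092) (nat_lit 1368) (nat_lit 0) (XT.nd (nat_lit 546) (nat_lit 1216) (nat_lit 0) (XT.nd (nat_lit 234) (nat_lit 988) (nat_lit 0) (XT.nd (nat_lit 78) (nat_lit 532) (nat_lit 0) (XT.lf (nat_lit 0) (nat_lit 5185949377) (nat_lit 304) (nat_lit 2533013045) (nat_lit 380) (nat_lit 2974854621) (nat_lit 74) (nat_lit 5) (nat_lit 78) (nat_lit 5) (nat_lit 79) (nat_lit 5) (nat_lit 294) (nat_lit 251) (nat_lit 235)) (XT.nd (nat_lit 78) (nat_lit 228) (nat_lit 0) (XT.lf (nat_lit 0) (nat_lit 2452249276) (nat_lit 304) (nat_lit 5565537888) (nat_lit 76) (nat_lit 2985876955) (nat_lit 70) (nat_lit 5) (nat_lit 74) (nat_lit 5) (nat_lit 71) (nat_lit 5) (nat_lit 295) (nat_lit 251) (nat_lit 234))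 (XT.lf (nat_lit 0) (nat_lit 5512762755) (nat_lit 228) (nat_lit 2544866425) (nat_lit 304) (nat_lit 3271555068) (nat_lit 67) (nat_lit 5) (nat_lit 70) (nat_lit 5) (nat_lit 71) (nat_lit 5) (nat_lit 296) (nat_lit 251) (nat_lit 233)))) (XT.nd (nat_lit 156) (nat_lit 456) (nat_lit 0) (XT.nd (nat_lit 78) (nat_lit 228) (nat_lit 0) (XT.lf (nat_lit 0) (nat_lit 2205077866) (nat_lit 304) (nat_lit 6281726724) (nat_lit 76) (nat_lit 3184315697) (nat_lit 63) (nat_lit 5) (nat_lit 67) (nat_lit 5) (nat_lit 64) (nat_lit 5) (nat_lit 297) (nat_lit 251) (nat_lit 232)) (XT.lf (nat_lit 0) (nat_lit 5037085231) (nat_lit 228) (nat_lit 2826523258) (nat_lit 304) (nat_lit 4166404715) (nat_lit 60) (nat_lit 5) (nat_lit 63) (nat_lit 5) (nat_lit 64) (nat_lit 5) (nat_lit 298) (nat_lit 251) (nat_lit 231))) (XT.nd (nat_lit 78) (nat_lit 228) (nat_lit 0) (XT.lf (nat_lit 0) (nat_lit 1353699028) (nat_lit 228) (nat_lit 7963436533) (nat_lit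 76) (nat_lit 3089924762) (nat_lit 57) (nat_lit 5) (nat_lit 60) (nat_lit 5) (nat_lit 58) (nat_lit 5) (nat_lit 299) (nat_lit 251) (nat_lit 230)) (XT.lf (nat_lit 0) (nat_lit 3552053750) (nat_lit 228) (nat_lit 3496179591) (nat_lit 304) (nat_lit 5754042379) (nat_lit 54) (nat_lit 5) (nat_lit 57) (nat_lit 5) (nat_lit 58) (nat_lit 5) (nat_lit 300) (nat_lit 251) (nat_lit 229))))) (XT.nd (nat_lit 234) (nat_lit 760) (nat_lit 0) (XT.nd (nat_lit 78) (nat_lit 304) (nat_lit 0) (XT.lf (nat_lit 0) (nat_lit 2375384400) (nat_lit 152) (nat_lit 10635380898) (nat_lit 228) (nat_lit 207075373) (nat_lit 52) (nat_lit 5) (nat_lit 54) (nat_lit 5) (nat_lit 55) (nat_lit 4) (nat_lit 301) (nat_lit 251) (nat_lit 228)) (XT.nd (nat_lit 78) (nat_lit 0) (nat_lit 0) (XT.lf (nat_lit 0) (nat_lit 813879154) (nat_lit 228) (nat_lit 4688818417) (nat_lit 304) (nat_lit 8150094666) (nat_lit 48) (nat_lit 5) (nat_lit 51) (nat_lit 5) (nat_lit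 52) (nat_lit 5) (nat_lit 302) (nat_lit 251) (nat_lit 227)) (XT.lf (nat_lit 0) (nat_lit 11480977315) (nat_lit 304) (nat_lit 1077336538) (nat_lit 76) (nat_lit 1551573532) (nat_lit 48) (nat_lit 5) (nat_lit 52) (nat_lit 5) (nat_lit 49) (nat_lit 4) (nat_lit 303) (nat_lit 251) (nat_lit 226)))) (XT.nd (nat_lit 156) (nat_lit 380) (nat_lit 0) (XT.nd (nat_lit 78) (nat_lit 152) (nat_lit 0) (XT.lf (nat_lit 0) (nat_lit 3128131441) (nat_lit 228) (nat_lit 3397528690) (nat_lit 76) (nat_lit 8062685551) (nat_lit 45) (nat_lit 5) (nat_lit 48) (nat_lit 5) (nat_lit 46) (nat_lit 5) (nat_lit 304) (nat_lit 251) (nat_lit 225)) (XT.lf (nat_lit 0) (nat_lit 8934296950) (nat_lit 152) (nat_lit 151174889) (nat_lit 228) (nat_lit 6005537089) (nat_lit 43) (nat_lit 5) (nat_lit 45) (nat_lit 5) (nat_lit 46) (nat_lit 5) (nat_lit 305) (nat_lit 251) (nat_lit 224))) (XT.nd (nat_lit 78) (nat_lit 228) (nat_lit 0) (XT.lf (nat_lit 0)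 (nat_lit 6178596162) (nat_lit 152) (nat_lit 9192286642) (nat_lit 228) (nat_lit 247080615) (nat_lit 41) (nat_lit 5) (nat_lit 43) (nat_lit 5) (nat_lit 44) (nat_lit 4) (nat_lit 306) (nat_lit 251) (nat_lit 223)) (XT.lf (nat_lit 0) (nat_lit 2877126352) (nat_lit 152) (nat_lit 2777580090) (nat_lit 228) (nat_lit 10515888963) (nat_lit 38) (nat_lit 5) (nat_lit 40) (nat_lit 5) (nat_lit 41) (nat_lit 5) (nat_lit 307) (nat_lit 251) (nat_lit 222)))))) (XT.nd (nat_lit 546) (nat_lit 608) (nat_lit 0) (XT.nd (nat_lit 234) (nat_lit 380) (nat_lit 0) (XT.nd (nat_lit 78) (nat_lit 380) (nat_lit 0) (XT.lf (nat_lit 0) (nat_lit 11861234874) (nat_lit 228) (nat_lit 990639565) (nat_lit 76) (nat_lit 3898524825) (nat_lit 38) (nat_lit 5) (nat_lit 41) (nat_lit 5) (nat_lit 39) (nat_lit 4) (nat_lit 308) (nat_lit 251) (nat_lit 221)) (XT.nd (nat_lit 78) (nat_lit 152) (nat_lit 0) (XT.lf (nat_lit 0) (nat_lit 1026303837) (nat_lit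 228) (nat_lit 5434315555) (nat_lit 76) (nat_lit 10897513671) (nat_lit 35) (nat_lit 5) (nat_lit 38) (nat_lit 5) (nat_lit 36) (nat_lit 5) (nat_lit 309) (nat_lit 251) (nat_lit 220)) (XT.lf (nat_lit 0) (nat_lit 7108630532) (nat_lit 228) (nat_lit 10589427431) (nat_lit 76) (nat_lit 297627124) (nat_lit 33) (nat_lit 5) (nat_lit 36) (nat_lit 5) (nat_lit 34) (nat_lit 4) (nat_lit 310) (nat_lit 251) (nat_lit 219)))) (XT.nd (nat_lit 156) (nat_lit 228) (nat_lit 0) (XT.nd (nat_lit 78) (nat_lit 76) (nat_lit 0) (XT.lf (nat_lit 0) (nat_lit 2123035551) (nat_lit 76) (nat_lit 11403780068) (nat_lit 152) (nat_lit 5137394236) (nat_lit 32) (nat_lit 5) (nat_lit 33) (nat_lit 5) (nat_lit 34) (nat_lit 4) (nat_lit 311) (nat_lit 251) (nat_lit 218)) (XT.lf (nat_lit 0) (nat_lit 884273917) (nat_lit 152) (nat_lit 3868524359) (nat_lit 76) (nat_lit 14613084490) (nat_lit 31) (nat_lit 5) (nat_lit 33) (nat_lit 5) (nat_lit 32) (nat_lit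 5) (nat_lit 312) (nat_lit 251) (nat_lit 217))) (XT.nd (nat_lit 78) (nat_lit 76) (nat_lit 0) (XT.lf (nat_lit 0) (nat_lit 7111276535) (nat_lit 228) (nat_lit 10733832608) (nat_lit 76) (nat_lit 2255730958) (nat_lit 29) (nat_lit 5) (nat_lit 32) (nat_lit 5) (nat_lit 30) (nat_lit 4) (nat_lit 313) (nat_lit 251) (nat_lit 216)) (XT.lf (nat_lit 0) (nat_lit 2293679740) (nat_lit 76) (nat_lit 11365830330) (nat_lit 152) (nat_lit 7212778569) (nat_lit 28) (nat_lit 5) (nat_lit 29) (nat_lit 5) (nat_lit 30) (nat_lit 4) (nat_lit 314) (nat_lit 251) (nat_lit 215))))) (XT.nd (nat_lit 234) (nat_lit 380) (nat_lit 0) (XT.nd (nat_lit 78) (nat_lit 228) (nat_lit 0) (XT.lf (nat_lit 0) (nat_lit 16025414228) (nat_lit 76) (nat_lit 4523011133) (nat_lit 152) (nat_lit 1133524007) (nat_lit 28) (nat_lit 5) (nat_lit 29) (nat_lit 5) (nat_lit 30) (nat_lit 4) (nat_lit 315) (nat_lit 251) (nat_lit 214)) (XT.nd (nat_lit 78) (nat_lit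 0) (nat_lit 0) (XT.lf (nat_lit 0) (nat_lit 5155302366) (nat_lit 228) (nat_lit 14708150222) (nat_lit 76) (nat_lit 2666920174) (nat_lit 25) (nat_lit 5) (nat_lit 28) (nat_lit 5) (nat_lit 26) (nat_lit 4) (nat_lit 316) (nat_lit 251) (nat_lit 213)) (XT.lf (nat_lit 0) (nat_lit 11748495838) (nat_lit 228) (nat_lit 1546553873) (nat_lit 76) (nat_lit 10125463204) (nat_lit 25) (nat_lit 5) (nat_lit 28) (nat_lit 5) (nat_lit 26) (nat_lit 4) (nat_lit 317) (nat_lit 251) (nat_lit 212)))) (XT.nd (nat_lit 156) (nat_lit 76) (nat_lit 0) (XT.nd (nat_lit 78) (nat_lit 228) (nat_lit 0) (XT.lf (nat_lit 0) (nat_lit 12359503417) (nat_lit 76) (nat_lit 6343694065) (nat_lit 152) (nat_lit 5651038898) (nat_lit 24) (nat_lit 5) (nat_lit 25) (nat_lit 5) (nat_lit 26) (nat_lit 4) (nat_lit 318) (nat_lit 251) (nat_lit 211)) (XT.lf (nat_lit 0) (nat_lit 612462160) (nat_lit 228) (nat_lit 23814837639) (nat_lit 76) (nat_lit 908545063)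 (nat_lit 21) (nat_lit 5) (nat_lit 24) (nat_lit 5) (nat_lit 22) (nat_lit 4) (nat_lit 319) (nat_lit 251) (nat_lit 210))) (XT.nd (nat_lit 78) (nat_lit 76) (nat_lit 0) (XT.lf (nat_lit 0) (nat_lit 7178958298) (nat_lit 228) (nat_lit 10671528635) (nat_lit 76) (nat_lit 8511195509) (nat_lit 21) (nat_lit 5) (nat_lit 24) (nat_lit 5) (nat_lit 22) (nat_lit 4) (nat_lit 320) (nat_lit 251) (nat_lit 209)) (XT.lf (nat_lit 0) (nat_lit 3045906318) (nat_lit 76) (nat_lit 10977989750) (nat_lit 152) (nat_lit 13416438961) (nat_lit 20) (nat_lit 5) (nat_lit 21) (nat_lit 5) (nat_lit 22) (nat_lit 4) (nat_lit 321) (nat_lit 251) (nat_lit 208))))))))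
noncomputable def xc35 : XT := (XT.nd (nat_lit 2184) (nat_lit 228) (nat_lit 0) (XT.nd (nat_lit 1092) (nat_lit 304) (nat_lit 0) (XT.nd (nat_lit 546) (nat_lit 304) (nat_lit 0) (XT.nd (nat_lit 234) (nat_lit 152) (nat_lit 0) (XT.nd (nat_lit 78) (nat_lit 228) (nat_lit 0) (XT.lf (nat_lit 0) (nat_lit 17533824527) (nat_lit 76) (nat_lit 3710387206) (nat_lit 152) (nat_lit 7327739950) (nat_lit 20) (nat_lit 5) (nat_lit 21) (nat_lit 5) (nat_lit 22) (nat_lit 4) (nat_lit 322) (nat_lit 251) (nat_lit 207)) (XT.nd (nat_lit 78) (nat_lit 76) (nat_lit 0) (XT.lf (nat_lit 0) (nat_lit 2870869695) (nat_lit 152) (nat_lit 25946323140) (nat_lit 152) (nat_lit 943231001) (nat_lit 18) (nat_lit 4) (nat_lit 20) (nat_lit 5) (nat_lit 20) (nat_lit 4) (nat_lit 323) (nat_lit 251) (nat_lit 206)) (XT.lf (nat_lit 0) (nat_lit 5728194893) (nat_lit 228) (nat_lit 13523963864) (nat_lit 76) (nat_lit 11752118983) (nat_lit 17) (nat_lit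 5) (nat_lit 20) (nat_lit 5) (nat_lit 18) (nat_lit 4) (nat_lit 324) (nat_lit 251) (nat_lit 205)))) (XT.nd (nat_lit 156) (nat_lit 76) (nat_lit 0) (XT.nd (nat_lit 78) (nat_lit 0) (nat_lit 0) (XT.lf (nat_lit 0) (nat_lit 383016331) (nat_lit 76) (nat_lit 12265861915) (nat_lit 152) (nat_lit 19663131392) (nat_lit 16) (nat_lit 5) (nat_lit 17) (nat_lit 5) (nat_lit 18) (nat_lit 4) (nat_lit 325) (nat_lit 251) (nat_lit 204)) (XT.lf (nat_lit 0) (nat_lit 15146691849) (nat_lit 76) (nat_lit 4841555997) (nat_lit 152) (nat_lit 13694720980) (nat_lit 16) (nat_lit 5) (nat_lit 17) (nat_lit 5) (nat_lit 18) (nat_lit 4) (nat_lit 326) (nat_lit 251) (nat_lit 203))) (XT.nd (nat_lit 78) (nat_lit 76) (nat_lit 0) (XT.lf (nat_lit 0) (nat_lit 27659085058) (nat_lit 152) (nat_lit 4619230788) (nat_lit 0) (nat_lit 2845244452) (nat_lit 16) (nat_lit 5) (nat_lit 18) (nat_lit 4) (nat_lit 16) (nat_lit 4) (nat_lit 327) (nat_lit 251)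 (nat_lit 202)) (XT.lf (nat_lit 0) (nat_lit 10029162332) (nat_lit 76) (nat_lit 25768721724) (nat_lit 76) (nat_lit 835783065) (nat_lit 15) (nat_lit 4) (nat_lit 16) (nat_lit 5) (nat_lit 16) (nat_lit 4) (nat_lit 328) (nat_lit 251) (nat_lit 201))))) (XT.nd (nat_lit 234) (nat_lit 152) (nat_lit 0) (XT.nd (nat_lit 78) (nat_lit 76) (nat_lit 0) (XT.lf (nat_lit 0) (nat_lit 5993260796) (nat_lit 152) (nat_lit 12880045958) (nat_lit 76) (nat_lit 19344570643) (nat_lit 14) (nat_lit 5) (nat_lit 16) (nat_lit 5) (nat_lit 15) (nat_lit 4) (nat_lit 329) (nat_lit 251) (nat_lit 200)) (XT.nd (nat_lit 78) (nat_lit 0) (nat_lit 0) (XT.lf (nat_lit 0) (nat_lit 1446274550) (nat_lit 76) (nat_lit 11657501494) (nat_lit 152) (nat_lit 26778570940) (nat_lit 13) (nat_lit 5) (nat_lit 14) (nat_lit 5) (nat_lit 15) (nat_lit 4) (nat_lit 330) (nat_lit 251) (nat_lit 199)) (XT.lf (nat_lit 0) (nat_lit 16656904003) (nat_lit 76) (nat_lit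 3990473435) (nat_lit 152) (nat_lit 20980351213) (nat_lit 13) (nat_lit 5) (nat_lit 14) (nat_lit 5) (nat_lit 15) (nat_lit 4) (nat_lit 331) (nat_lit 251) (nat_lit 198)))) (XT.nd (nat_lit 156) (nat_lit 76) (nat_lit 0) (XT.nd (nat_lit 78) (nat_lit 76) (nat_lit 0) (XT.lf (nat_lit 0) (nat_lit 28554354922) (nat_lit 152) (nat_lit 10968850257) (nat_lit 0) (nat_lit 3937603020) (nat_lit 13) (nat_lit 5) (nat_lit 15) (nat_lit 4) (nat_lit 13) (nat_lit 4) (nat_lit 332) (nat_lit 251) (nat_lit 197)) (XT.lf (nat_lit 0) (nat_lit 3671728514) (nat_lit 76) (nat_lit 33210209932) (nat_lit 76) (nat_lit 8502859543) (nat_lit 12) (nat_lit 4) (nat_lit 13) (nat_lit 5) (nat_lit 13) (nat_lit 4) (nat_lit 333) (nat_lit 251) (nat_lit 196))) (XT.nd (nat_lit 78) (nat_lit 76) (nat_lit 0) (XT.lf (nat_lit 0) (nat_lit 19183348749) (nat_lit 76) (nat_lit 26506681313) (nat_lit 76) (nat_lit 1713046652) (nat_lit 12) (nat_lit 4) (nat_lit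 13) (nat_lit 5) (nat_lit 13) (nat_lit 4) (nat_lit 334) (nat_lit 251) (nat_lit 195)) (XT.lf (nat_lit 0) (nat_lit 5263631156) (nat_lit 152) (nat_lit 14190638910) (nat_lit 76) (nat_lit 30067857740) (nat_lit 11) (nat_lit 5) (nat_lit 13) (nat_lit 5) (nat_lit 12) (nat_lit 4) (nat_lit 335) (nat_lit 251) (nat_lit 194)))))) (XT.nd (nat_lit 546) (nat_lit 152) (nat_lit 0) (XT.nd (nat_lit 234) (nat_lit 76) (nat_lit 0) (XT.nd (nat_lit 78) (nat_lit 0) (nat_lit 0) (XT.lf (nat_lit 0) (nat_lit 448649983) (nat_lit 76) (nat_lit 12065006431) (nat_lit 152) (nat_lit 39234179679) (nat_lit 10) (nat_lit 5) (nat_lit 11) (nat_lit 5) (nat_lit 12) (nat_lit 4) (nat_lit 336) (nat_lit 251) (nat_lit 193)) (XT.nd (nat_lit 78) (nat_lit 0) (nat_lit 0) (XT.lf (nat_lit 0) (nat_lit 16036097870) (nat_lit 76) (nat_lit 4192821344) (nat_lit 152) (nat_lit 33852839655) (nat_lit 10) (nat_lit 5) (nat_lit 11) (nat_lit 5) (nat_lit 12) (nat_lit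 4) (nat_lit 337) (nat_lit 251) (nat_lit 192)) (XT.lf (nat_lit 0) (nat_lit 28327478462) (nat_lit 152) (nat_lit 24246043771) (nat_lit 0) (nat_lit 3958940189) (nat_lit 10) (nat_lit 5) (nat_lit 12) (nat_lit 4) (nat_lit 10) (nat_lit 4) (nat_lit 338) (nat_lit 251) (nat_lit 191)))) (XT.nd (nat_lit 156) (nat_lit 0) (nat_lit 0) (XT.nd (nat_lit 78) (nat_lit 76) (nat_lit 0) (XT.lf (nat_lit 0) (nat_lit 36833648068) (nat_lit 152) (nat_lit 9872509823) (nat_lit 0) (nat_lit 12399472916) (nat_lit 10) (nat_lit 5) (nat_lit 12) (nat_lit 4) (nat_lit 10) (nat_lit 4) (nat_lit 339) (nat_lit 251) (nat_lit 190)) (XT.lf (nat_lit 0) (nat_lit 5251952009) (nat_lit 76) (nat_lit 40525909821) (nat_lit 76) (nat_lit 16029223356) (nat_lit 9) (nat_lit 4) (nat_lit 10) (nat_lit 5) (nat_lit 10) (nat_lit 4) (nat_lit 340) (nat_lit 251) (nat_lit 189))) (XT.nd (nat_lit 78) (nat_lit 0) (nat_lit 0) (XT.lf (nat_lit 0) (nat_lit 21270723261)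 (nat_lit 76) (nat_lit 33963584310) (nat_lit 76) (nat_lit 9407363261) (nat_lit 9) (nat_lit 4) (nat_lit 10) (nat_lit 5) (nat_lit 10) (nat_lit 4) (nat_lit 341) (nat_lit 251) (nat_lit 188)) (XT.lf (nat_lit 0) (nat_lit 38025461562) (nat_lit 76) (nat_lit 27103249765) (nat_lit 76) (nat_lit 2490329111) (nat_lit 9) (nat_lit 4) (nat_lit 10) (nat_lit 5) (nat_lit 10) (nat_lit 4) (nat_lit 342) (nat_lit 251) (nat_lit 187))))) (XT.nd (nat_lit 234) (nat_lit 0) (nat_lit 0) (XT.nd (nat_lit 78) (nat_lit 76) (nat_lit 0) (XT.lf (nat_lit 0) (nat_lit 4645885980) (nat_lit 152) (nat_lit 15235771736) (nat_lit 76) (nat_lit 50863258825) (nat_lit 8) (nat_lit 5) (nat_lit 10) (nat_lit 5) (nat_lit 9) (nat_lit 4) (nat_lit 343) (nat_lit 251) (nat_lit 186)) (XT.nd (nat_lit 78) (nat_lit 76) (nat_lit 0) (XT.lf (nat_lit 0) (nat_lit 12055942968) (nat_lit 152) (nat_lit 244784261) (nat_lit 76) (nat_lit 61726571173) (nat_lit 8) (nat_lit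 5) (nat_lit 10) (nat_lit 5) (nat_lit 9) (nat_lit 4) (nat_lit 344) (nat_lit 251) (nat_lit 185)) (XT.lf (nat_lit 0) (nat_lit 15746281612) (nat_lit 76) (nat_lit 4211161417) (nat_lit 152) (nat_lit 57512735459) (nat_lit 7) (nat_lit 5) (nat_lit 8) (nat_lit 5) (nat_lit 9) (nat_lit 4) (nat_lit 345) (nat_lit 251) (nat_lit 184)))) (XT.nd (nat_lit 156) (nat_lit 0) (nat_lit 0) (XT.nd (nat_lit 78) (nat_lit 0) (nat_lit 0) (XT.lf (nat_lit 0) (nat_lit 28267982679) (nat_lit 152) (nat_lit 48640062787) (nat_lit 0) (nat_lit 4176745162) (nat_lit 7) (nat_lit 5) (nat_lit 9) (nat_lit 4) (nat_lit 7) (nat_lit 4) (nat_lit 346) (nat_lit 251) (nat_lit 183)) (XT.lf (nat_lit 0) (nat_lit 37008220356) (nat_lit 152) (nat_lit 34997643377) (nat_lit 0) (nat_lit 12873851166) (nat_lit 7) (nat_lit 5) (nat_lit 9) (nat_lit 4) (nat_lit 7) (nat_lit 4) (nat_lit 347) (nat_lit 251) (nat_lit 182))) (XT.nd (nat_lit 78) (nat_lit 0) (nat_lit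 0) (XT.lf (nat_lit 0) (nat_lit 46158485891) (nat_lit 152) (nat_lit 20723676436) (nat_lit 0) (nat_lit 21983038917) (nat_lit 7) (nat_lit 5) (nat_lit 9) (nat_lit 4) (nat_lit 7) (nat_lit 4) (nat_lit 348) (nat_lit 251) (nat_lit 181)) (XT.lf (nat_lit 0) (nat_lit 55740565629) (nat_lit 152) (nat_lit 5784176327) (nat_lit 0) (nat_lit 31525996956) (nat_lit 7) (nat_lit 5) (nat_lit 9) (nat_lit 4) (nat_lit 7) (nat_lit 4) (nat_lit 349) (nat_lit 251) (nat_lit 180))))))) (XT.nd (nat_lit 1092) (nat_lit 0) (nat_lit 0) (XT.nd (nat_lit 546) (nat_lit 76) (nat_lit 0) (XT.nd (nat_lit 234) (nat_lit 76) (nat_lit 0) (XT.nd (nat_lit 78) (nat_lit 0) (nat_lit 0) (XT.lf (nat_lit 0) (nat_lit 10052589413) (nat_lit 76) (nat_lit 55821316273) (nat_lit 76) (nat_lit 31569488839) (nat_lit 6) (nat_lit 4) (nat_lit 7) (nat_lit 5) (nat_lit 7) (nat_lit 4) (nat_lit 350) (nat_lit 251) (nat_lit 179)) (XT.nd (nat_lit 78) (nat_lit 0) (nat_lit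 0) (XT.lf (nat_lit 0) (nat_lit 26757509013) (nat_lit 76) (nat_lit 49792208601) (nat_lit 76) (nat_lit 25504896633) (nat_lit 6) (nat_lit 4) (nat_lit 7) (nat_lit 5) (nat_lit 7) (nat_lit 4) (nat_lit 351) (nat_lit 251) (nat_lit 178)) (XT.lf (nat_lit 0) (nat_lit 44255239642) (nat_lit 76) (nat_lit 43481472761) (nat_lit 76) (nat_lit 19160365999) (nat_lit 6) (nat_lit 4) (nat_lit 7) (nat_lit 5) (nat_lit 7) (nat_lit 4) (nat_lit 352) (nat_lit 251) (nat_lit 177)))) (XT.nd (nat_lit 156) (nat_lit 76) (nat_lit 0) (XT.nd (nat_lit 78) (nat_lit 0) (nat_lit 0) (XT.lf (nat_lit 0) (nat_lit 62587442561) (nat_lit 76) (nat_lit 36874083193) (nat_lit 76) (nat_lit 12520790912) (nat_lit 6) (nat_lit 4) (nat_lit 7) (nat_lit 5) (nat_lit 7) (nat_lit 4) (nat_lit 353) (nat_lit 251) (nat_lit 176)) (XT.lf (nat_lit 0) (nat_lit 81797765874) (nat_lit 76) (nat_lit 29954308016) (nat_lit 76) (nat_lit 5570362860) (nat_lit 6) (nat_lit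 4) (nat_lit 7) (nat_lit 5) (nat_lit 7) (nat_lit 4) (nat_lit 354) (nat_lit 251) (nat_lit 175))) (XT.nd (nat_lit 78) (nat_lit 0) (nat_lit 0) (XT.lf (nat_lit 0) (nat_lit 1674147967) (nat_lit 152) (nat_lit 21014617996) (nat_lit 76) (nat_lit 100240894866) (nat_lit 5) (nat_lit 5) (nat_lit 7) (nat_lit 5) (nat_lit 6) (nat_lit 4) (nat_lit 355) (nat_lit 251) (nat_lit 174)) (XT.lf (nat_lit 0) (nat_lit 9147963801) (nat_lit 152) (nat_lit 5870574913) (nat_lit 76) (nat_lit 113797588505) (nat_lit 5) (nat_lit 5) (nat_lit 7) (nat_lit 5) (nat_lit 6) (nat_lit 4) (nat_lit 356) (nat_lit 251) (nat_lit 173))))) (XT.nd (nat_lit 234) (nat_lit 0) (nat_lit 0) (XT.nd (nat_lit 78) (nat_lit 0) (nat_lit 0) (XT.lf (nat_lit 0) (nat_lit 10196022476) (nat_lit 76) (nat_lit 6879565214) (nat_lit 152) (nat_lit 117918929688) (nat_lit 4) (nat_lit 5) (nat_lit 5) (nat_lit 5) (nat_lit 6) (nat_lit 4) (nat_lit 357) (nat_lit 251) (nat_lit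 172)) (XT.nd (nat_lit 78) (nat_lit 0) (nat_lit 0) (XT.lf (nat_lit 0) (nat_lit 25459139665) (nat_lit 152) (nat_lit 114341025991) (nat_lit 0) (nat_lit 1679878760) (nat_lit 4) (nat_lit 5) (nat_lit 6) (nat_lit 4) (nat_lit 4) (nat_lit 4) (nat_lit 358) (nat_lit 251) (nat_lit 171)) (XT.lf (nat_lit 0) (nat_lit 34314637900) (nat_lit 152) (nat_lit 103461571246) (nat_lit 0) (nat_lit 10512059199) (nat_lit 4) (nat_lit 5) (nat_lit 6) (nat_lit 4) (nat_lit 4) (nat_lit 4) (nat_lit 359) (nat_lit 251) (nat_lit 170)))) (XT.nd (nat_lit 156) (nat_lit 0) (nat_lit 0) (XT.nd (nat_lit 78) (nat_lit 0) (nat_lit 0) (XT.lf (nat_lit 0) (nat_lit 43597036324) (nat_lit 152) (nat_lit 92068096614) (nat_lit 0) (nat_lit 19772250199) (nat_lit 4) (nat_lit 5) (nat_lit 6) (nat_lit 4) (nat_lit 4) (nat_lit 4) (nat_lit 360) (nat_lit 251) (nat_lit 169)) (XT.lf (nat_lit 0) (nat_lit 53328435887) (nat_lit 152) (nat_lit 80133474776) (nat_lit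 0) (nat_lit 29482499834) (nat_lit 4) (nat_lit 5) (nat_lit 6) (nat_lit 4) (nat_lit 4) (nat_lit 4) (nat_lit 361) (nat_lit 251) (nat_lit 168))) (XT.nd (nat_lit 78) (nat_lit 0) (nat_lit 0) (XT.lf (nat_lit 0) (nat_lit 63532006588) (nat_lit 152) (nat_lit 67629289964) (nat_lit 0) (nat_lit 39665927746) (nat_lit 4) (nat_lit 5) (nat_lit 6) (nat_lit 4) (nat_lit 4) (nat_lit 4) (nat_lit 362) (nat_lit 251) (nat_lit 167)) (XT.lf (nat_lit 0) (nat_lit 74232042642) (nat_lit 152) (nat_lit 54525770309) (nat_lit 0) (nat_lit 50346780192) (nat_lit 4) (nat_lit 5) (nat_lit 6) (nat_lit 4) (nat_lit 4) (nat_lit 4) (nat_lit 363) (nat_lit 251) (nat_lit 166)))))) (XT.nd (nat_lit 34242) (nat_lit 0) (nat_lit 7676) (XT.nd (nat_lit 33930) (nat_lit 0) (nat_lit 10792) (XT.nd (nat_lit 33774) (nat_lit 0) (nat_lit 13680) (XT.lf (nat_lit 0) (nat_lit 85454020326) (nat_lit 152) (nat_lit 40791716957) (nat_lit 0) (nat_lit 61550487773)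 (nat_lit 4) (nat_lit 5) (nat_lit 6) (nat_lit 4) (nat_lit 4) (nat_lit 4) (nat_lit 364) (nat_lit 251) (nat_lit 165)) (XT.nd (nat_lit 78) (nat_lit 760) (nat_lit 0) (XT.lf (nat_lit 0) (nat_lit 1621896846) (nat_lit 1140) (nat_lit 999230610) (nat_lit 1140) (nat_lit 999230610) (nat_lit 194) (nat_lit 4) (nat_lit 209) (nat_lit 5) (nat_lit 209) (nat_lit 4) (nat_lit 276) (nat_lit 252) (nat_lit 252)) (XT.lf (nat_lit 0) (nat_lit 3393787219) (nat_lit 760) (nat_lit 3101045664) (nat_lit 0) (nat_lit 853099235) (nat_lit 184) (nat_lit 5) (nat_lit 194) (nat_lit 4) (nat_lit 184) (nat_lit 4) (nat_lit 277) (nat_lit 252) (nat_lit 251)))) (XT.nd (nat_lit 156) (nat_lit 1672) (nat_lit 0) (XT.nd (nat_lit 78) (nat_lit 532) (nat_lit 0) (XT.lf (nat_lit 0) (nat_lit 1377860623) (nat_lit 684) (nat_lit 2163333759) (nat_lit 76) (nat_lit 3923021419) (nat_lit 175) (nat_lit 5) (nat_lit 184) (nat_lit 5) (nat_lit 176) (nat_lit 4)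 (nat_lit 278) (nat_lit 252) (nat_lit 250)) (XT.lf (nat_lit 0) (nat_lit 6414553235) (nat_lit 532) (nat_lit 324078762) (nat_lit 608) (nat_lit 851534099) (nat_lit 168) (nat_lit 5) (nat_lit 175) (nat_lit 5) (nat_lit 176) (nat_lit 4) (nat_lit 279) (nat_lit 252) (nat_lit 249))) (XT.nd (nat_lit 78) (nat_lit 1064) (nat_lit 0) (XT.lf (nat_lit 0) (nat_lit 4436174056) (nat_lit 608) (nat_lit 178655527) (nat_lit 76) (nat_lit 3110110391) (nat_lit 160) (nat_lit 5) (nat_lit 168) (nat_lit 5) (nat_lit 161) (nat_lit 4) (nat_lit 280) (nat_lit 252) (nat_lit 248)) (XT.lf (nat_lit 0) (nat_lit 879821921) (nat_lit 532) (nat_lit 1054974756) (nat_lit 608) (nat_lit 5934949057) (nat_lit 146) (nat_lit 5) (nat_lit 153) (nat_lit 5) (nat_lit 154) (nat_lit 5) (nat_lit 281) (nat_lit 252) (nat_lit 247))))) (XT.nd (nat_lit 234) (nat_lit 1672) (nat_lit 0) (XT.nd (nat_lit 78) (nat_lit 988) (nat_lit 0) (XT.lf (nat_lit 0) (nat_lit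 1951686170) (nat_lit 456) (nat_lit 5297053371) (nat_lit 532) (nat_lit 775439914) (nat_lit 140) (nat_lit 5) (nat_lit 146) (nat_lit 5) (nat_lit 147) (nat_lit 4) (nat_lit 282) (nat_lit 252) (nat_lit 246)) (XT.nd (nat_lit 78) (nat_lit 456) (nat_lit 0) (XT.lf (nat_lit 0) (nat_lit 3029927880) (nat_lit 456) (nat_lit 1407903184) (nat_lit 532) (nat_lit 3750833969) (nat_lit 133) (nat_lit 5) (nat_lit 139) (nat_lit 5) (nat_lit 140) (nat_lit 5) (nat_lit 283) (nat_lit 252) (nat_lit 245)) (XT.lf (nat_lit 0) (nat_lit 1413825417) (nat_lit 456) (nat_lit 4250595416) (nat_lit 76) (nat_lit 2699245911) (nat_lit 127) (nat_lit 5) (nat_lit 133) (nat_lit 5) (nat_lit 128) (nat_lit 5) (nat_lit 284) (nat_lit 252) (nat_lit 244)))) (XT.nd (nat_lit 156) (nat_lit 760) (nat_lit 0) (XT.nd (nat_lit 78) (nat_lit 456) (nat_lit 0) (XT.lf (nat_lit 0) (nat_lit 5188594808) (nat_lit 456) (nat_lit 1476156384) (nat_lit 532) (nat_lit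 1884613932) (nat_lit 121) (nat_lit 5) (nat_lit 127) (nat_lit 5) (nat_lit 128) (nat_lit 5) (nat_lit 285) (nat_lit 252) (nat_lit 243)) (XT.lf (nat_lit 0) (nat_lit 3292705204) (nat_lit 456) (nat_lit 2508235493) (nat_lit 76) (nat_lit 2944853980) (nat_lit 115) (nat_lit 5) (nat_lit 121) (nat_lit 5) (nat_lit 116) (nat_lit 5) (nat_lit 286) (nat_lit 252) (nat_lit 242))) (XT.nd (nat_lit 78) (nat_lit 380) (nat_lit 0) (XT.lf (nat_lit 0) (nat_lit 7277707829) (nat_lit 380) (nat_lit 1331710850) (nat_lit 456) (nat_lit 344683650) (nat_lit 110) (nat_lit 5) (nat_lit 115) (nat_lit 5) (nat_lit 116) (nat_lit 5) (nat_lit 287) (nat_lit 252) (nat_lit 241)) (XT.lf (nat_lit 0) (nat_lit 4864437574) (nat_lit 380) (nat_lit 922536779) (nat_lit 76) (nat_lit 3386292868) (nat_lit 105) (nat_lit 5) (nat_lit 110) (nat_lit 5) (nat_lit 106) (nat_lit 5) (nat_lit 288) (nat_lit 252) (nat_lit 240))))))))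
noncomputable def xc36 : XT := (XT.nd (nat_lit 2106) (nat_lit 1444) (nat_lit 0) (XT.nd (nat_lit 1014) (nat_lit 1976) (nat_lit 0) (XT.nd (nat_lit 468) (nat_lit 1520) (nat_lit 0) (XT.nd (nat_lit 234) (nat_lit 912) (nat_lit 0) (XT.nd (nat_lit 78) (nat_lit 988) (nat_lit 0) (XT.lf (nat_lit 0) (nat_lit 834744549) (nat_lit 456) (nat_lit 204023588) (nat_lit 76) (nat_lit 8366550751) (nat_lit 99) (nat_lit 5) (nat_lit 105) (nat_lit 5) (nat_lit 100) (nat_lit 5) (nat_lit 289) (nat_lit 252) (nat_lit 239)) (XT.nd (nat_lit 78) (nat_lit 380) (nat_lit 0) (XT.lf (nat_lit 0) (nat_lit 418981282) (nat_lit 304) (nat_lit 5692873848) (nat_lit 380) (nat_lit 3537038151) (nat_lit 91) (nat_lit 5) (nat_lit 95) (nat_lit 5) (nat_lit 96) (nat_lit 5) (nat_lit 290) (nat_lit 252) (nat_lit 238)) (XT.lf (nat_lit 0) (nat_lit 981131949) (nat_lit 304) (nat_lit 671431255) (nat_lit 380) (nat_lit 8253575761) (nat_lit 86) (nat_lit 5)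 (nat_lit 90) (nat_lit 5) (nat_lit 91) (nat_lit 5) (nat_lit 291) (nat_lit 252) (nat_lit 237)))) (XT.nd (nat_lit 78) (nat_lit 608) (nat_lit 0) (XT.lf (nat_lit 0) (nat_lit 1409610996) (nat_lit 304) (nat_lit 5595345505) (nat_lit 380) (nat_lit 3171090454) (nat_lit 82) (nat_lit 5) (nat_lit 86) (nat_lit 5) (nat_lit 87) (nat_lit 5) (nat_lit 292) (nat_lit 252) (nat_lit 236)) (XT.nd (nat_lit 78) (nat_lit 304) (nat_lit 0) (XT.lf (nat_lit 0) (nat_lit 1740843303) (nat_lit 228) (nat_lit 324981065) (nat_lit 304) (nat_lit 8394858253) (nat_lit 78) (nat_lit 5) (nat_lit 81) (nat_lit 5) (nat_lit 82) (nat_lit 5) (nat_lit 293) (nat_lit 252) (nat_lit 235)) (XT.lf (nat_lit 0) (nat_lit 1901503746) (nat_lit 304) (nat_lit 5588977379) (nat_lit 380) (nat_lit 3268509931) (nat_lit 74) (nat_lit 5) (nat_lit 78) (nat_lit 5) (nat_lit 79) (nat_lit 5) (nat_lit 294) (nat_lit 252) (nat_lit 234))))) (XT.nd (nat_lit 234) (nat_lit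 684) (nat_lit 0) (XT.nd (nat_lit 78) (nat_lit 532) (nat_lit 0) (XT.lf (nat_lit 0) (nat_lit 1931178939) (nat_lit 228) (nat_lit 89541322) (nat_lit 304) (nat_lit 9052568081) (nat_lit 70) (nat_lit 5) (nat_lit 73) (nat_lit 5) (nat_lit 74) (nat_lit 5) (nat_lit 295) (nat_lit 252) (nat_lit 233)) (XT.nd (nat_lit 78) (nat_lit 304) (nat_lit 0) (XT.lf (nat_lit 0) (nat_lit 1743702417) (nat_lit 228) (nat_lit 5767283312) (nat_lit 304) (nat_lit 3891330844) (nat_lit 67) (nat_lit 5) (nat_lit 70) (nat_lit 5) (nat_lit 71) (nat_lit 5) (nat_lit 296) (nat_lit 252) (nat_lit 232)) (XT.lf (nat_lit 0) (nat_lit 1388683089) (nat_lit 228) (nat_lit 62503654) (nat_lit 304) (nat_lit 10297681433) (nat_lit 63) (nat_lit 5) (nat_lit 66) (nat_lit 5) (nat_lit 67) (nat_lit 5) (nat_lit 297) (nat_lit 252) (nat_lit 231)))) (XT.nd (nat_lit 156) (nat_lit 380) (nat_lit 0) (XT.nd (nat_lit 78) (nat_lit 76) (nat_lit 0) (XT.lf (nat_lit 0)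 (nat_lit 759332579) (nat_lit 228) (nat_lit 6234575140) (nat_lit 304) (nat_lit 5117375809) (nat_lit 60) (nat_lit 5) (nat_lit 63) (nat_lit 5) (nat_lit 64) (nat_lit 5) (nat_lit 298) (nat_lit 252) (nat_lit 230)) (XT.lf (nat_lit 0) (nat_lit 275574866) (nat_lit 304) (nat_lit 76944685) (nat_lit 76) (nat_lit 12140501149) (nat_lit 59) (nat_lit 5) (nat_lit 63) (nat_lit 5) (nat_lit 60) (nat_lit 5) (nat_lit 299) (nat_lit 252) (nat_lit 229))) (XT.nd (nat_lit 78) (nat_lit 228) (nat_lit 0) (XT.lf (nat_lit 0) (nat_lit 5861393747) (nat_lit 228) (nat_lit 1234977757) (nat_lit 76) (nat_lit 5795168452) (nat_lit 57) (nat_lit 5) (nat_lit 60) (nat_lit 5) (nat_lit 58) (nat_lit 5) (nat_lit 300) (nat_lit 252) (nat_lit 228)) (XT.lf (nat_lit 0) (nat_lit 10652003604) (nat_lit 228) (nat_lit 1043763970) (nat_lit 304) (nat_lit 1615222454) (nat_lit 54) (nat_lit 5) (nat_lit 57) (nat_lit 5) (nat_lit 58) (nat_lit 5) (nat_lit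 301) (nat_lit 252) (nat_lit 227)))))) (XT.nd (nat_lit 546) (nat_lit 760) (nat_lit 0) (XT.nd (nat_lit 234) (nat_lit 532) (nat_lit 0) (XT.nd (nat_lit 78) (nat_lit 456) (nat_lit 0) (XT.lf (nat_lit 0) (nat_lit 4010850084) (nat_lit 228) (nat_lit 4469046625) (nat_lit 76) (nat_lit 5269823652) (nat_lit 51) (nat_lit 5) (nat_lit 54) (nat_lit 5) (nat_lit 52) (nat_lit 5) (nat_lit 302) (nat_lit 252) (nat_lit 226)) (XT.nd (nat_lit 78) (nat_lit 228) (nat_lit 0) (XT.lf (nat_lit 0) (nat_lit 7569843071) (nat_lit 228) (nat_lit 2295432471) (nat_lit 304) (nat_lit 4345291153) (nat_lit 48) (nat_lit 5) (nat_lit 51) (nat_lit 5) (nat_lit 52) (nat_lit 5) (nat_lit 303) (nat_lit 252) (nat_lit 225)) (XT.lf (nat_lit 0) (nat_lit 1304304423) (nat_lit 228) (nat_lit 9241140633) (nat_lit 76) (nat_lit 4148335942) (nat_lit 45) (nat_lit 5) (nat_lit 48) (nat_lit 5) (nat_lit 46) (nat_lit 5) (nat_lit 304) (nat_lit 252) (nat_lit 224))))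 (XT.nd (nat_lit 156) (nat_lit 380) (nat_lit 0) (XT.nd (nat_lit 78) (nat_lit 0) (nat_lit 0) (XT.lf (nat_lit 0) (nat_lit 2871141500) (nat_lit 152) (nat_lit 4271467636) (nat_lit 228) (nat_lit 8057437490) (nat_lit 43) (nat_lit 5) (nat_lit 45) (nat_lit 5) (nat_lit 46) (nat_lit 5) (nat_lit 305) (nat_lit 252) (nat_lit 223)) (XT.lf (nat_lit 0) (nat_lit 13269835849) (nat_lit 228) (nat_lit 174298715) (nat_lit 76) (nat_lit 2287641901) (nat_lit 43) (nat_lit 5) (nat_lit 46) (nat_lit 5) (nat_lit 44) (nat_lit 4) (nat_lit 306) (nat_lit 252) (nat_lit 222))) (XT.nd (nat_lit 78) (nat_lit 152) (nat_lit 0) (XT.lf (nat_lit 0) (nat_lit 3395790762) (nat_lit 228) (nat_lit 3725999833) (nat_lit 76) (nat_lit 9165902414) (nat_lit 40) (nat_lit 5) (nat_lit 43) (nat_lit 5) (nat_lit 41) (nat_lit 5) (nat_lit 307) (nat_lit 252) (nat_lit 221)) (XT.lf (nat_lit 0) (nat_lit 9026594690) (nat_lit 152) (nat_lit 444922315) (nat_lit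 228) (nat_lit 7399930190) (nat_lit 38) (nat_lit 5) (nat_lit 40) (nat_lit 5) (nat_lit 41) (nat_lit 5) (nat_lit 308) (nat_lit 252) (nat_lit 220))))) (XT.nd (nat_lit 234) (nat_lit 380) (nat_lit 0) (XT.nd (nat_lit 78) (nat_lit 228) (nat_lit 0) (XT.lf (nat_lit 0) (nat_lit 4854103865) (nat_lit 152) (nat_lit 11035265906) (nat_lit 228) (nat_lit 1593920384) (nat_lit 36) (nat_lit 5) (nat_lit 38) (nat_lit 5) (nat_lit 39) (nat_lit 4) (nat_lit 309) (nat_lit 252) (nat_lit 219)) (XT.nd (nat_lit 78) (nat_lit 152) (nat_lit 0) (XT.lf (nat_lit 0) (nat_lit 4392789138) (nat_lit 228) (nat_lit 5283601) (nat_lit 76) (nat_lit 13727053826) (nat_lit 35) (nat_lit 5) (nat_lit 38) (nat_lit 5) (nat_lit 36) (nat_lit 5) (nat_lit 310) (nat_lit 252) (nat_lit 218)) (XT.lf (nat_lit 0) (nat_lit 10696961856) (nat_lit 228) (nat_lit 5506223911) (nat_lit 76) (nat_lit 2593907963) (nat_lit 33) (nat_lit 5) (nat_lit 36) (nat_lit 5) (nat_lit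 34) (nat_lit 4) (nat_lit 311) (nat_lit 252) (nat_lit 217)))) (XT.nd (nat_lit 156) (nat_lit 76) (nat_lit 0) (XT.nd (nat_lit 78) (nat_lit 228) (nat_lit 0) (XT.lf (nat_lit 0) (nat_lit 7680976021) (nat_lit 76) (nat_lit 9653538496) (nat_lit 152) (nat_lit 2167642596) (nat_lit 32) (nat_lit 5) (nat_lit 33) (nat_lit 5) (nat_lit 34) (nat_lit 4) (nat_lit 312) (nat_lit 252) (nat_lit 216)) (XT.lf (nat_lit 0) (nat_lit 1215128256) (nat_lit 152) (nat_lit 2738047863) (nat_lit 228) (nat_lit 16289037298) (nat_lit 29) (nat_lit 5) (nat_lit 31) (nat_lit 5) (nat_lit 32) (nat_lit 5) (nat_lit 313) (nat_lit 252) (nat_lit 215))) (XT.nd (nat_lit 78) (nat_lit 76) (nat_lit 0) (XT.lf (nat_lit 0) (nat_lit 10406418641) (nat_lit 228) (nat_lit 6100017427) (nat_lit 76) (nat_lit 4510094089) (nat_lit 29) (nat_lit 5) (nat_lit 32) (nat_lit 5) (nat_lit 30) (nat_lit 4) (nat_lit 314) (nat_lit 252) (nat_lit 214)) (XT.lf (nat_lit 0)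 (nat_lit 7430658999) (nat_lit 76) (nat_lit 9759702311) (nat_lit 152) (nat_lit 4638996346) (nat_lit 28) (nat_lit 5) (nat_lit 29) (nat_lit 5) (nat_lit 30) (nat_lit 4) (nat_lit 315) (nat_lit 252) (nat_lit 213))))))) (XT.nd (nat_lit 1092) (nat_lit 380) (nat_lit 0) (XT.nd (nat_lit 546) (nat_lit 456) (nat_lit 0) (XT.nd (nat_lit 234) (nat_lit 304) (nat_lit 0) (XT.nd (nat_lit 78) (nat_lit 228) (nat_lit 0) (XT.lf (nat_lit 0) (nat_lit 1573177290) (nat_lit 152) (nat_lit 1089222644) (nat_lit 76) (nat_lit 20020759997) (nat_lit 27) (nat_lit 5) (nat_lit 29) (nat_lit 5) (nat_lit 28) (nat_lit 5) (nat_lit 316) (nat_lit 252) (nat_lit 212)) (XT.nd (nat_lit 78) (nat_lit 76) (nat_lit 0) (XT.lf (nat_lit 0) (nat_lit 8087574929) (nat_lit 228) (nat_lit 10682596787) (nat_lit 76) (nat_lit 4805507735) (nat_lit 25) (nat_lit 5) (nat_lit 28) (nat_lit 5) (nat_lit 26) (nat_lit 4) (nat_lit 317) (nat_lit 252) (nat_lit 211))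 (XT.lf (nat_lit 0) (nat_lit 2968288960) (nat_lit 76) (nat_lit 11943314626) (nat_lit 152) (nat_lit 9601734273) (nat_lit 24) (nat_lit 5) (nat_lit 25) (nat_lit 5) (nat_lit 26) (nat_lit 4) (nat_lit 318) (nat_lit 252) (nat_lit 210)))) (XT.nd (nat_lit 156) (nat_lit 76) (nat_lit 0) (XT.nd (nat_lit 78) (nat_lit 228) (nat_lit 0) (XT.lf (nat_lit 0) (nat_lit 17381753784) (nat_lit 76) (nat_lit 4724797253) (nat_lit 152) (nat_lit 3390465434) (nat_lit 24) (nat_lit 5) (nat_lit 25) (nat_lit 5) (nat_lit 26) (nat_lit 4) (nat_lit 319) (nat_lit 252) (nat_lit 209)) (XT.lf (nat_lit 0) (nat_lit 3077808368) (nat_lit 228) (nat_lit 20623570569) (nat_lit 76) (nat_lit 2827397318) (nat_lit 21) (nat_lit 5) (nat_lit 24) (nat_lit 5) (nat_lit 22) (nat_lit 4) (nat_lit 320) (nat_lit 252) (nat_lit 208))) (XT.nd (nat_lit 78) (nat_lit 76) (nat_lit 0) (XT.lf (nat_lit 0) (nat_lit 9856690118) (nat_lit 228) (nat_lit 7031763207) (nat_lit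 76) (nat_lit 10720969572) (nat_lit 21) (nat_lit 5) (nat_lit 24) (nat_lit 5) (nat_lit 22) (nat_lit 4) (nat_lit 321) (nat_lit 252) (nat_lit 207)) (XT.lf (nat_lit 0) (nat_lit 7251915488) (nat_lit 76) (nat_lit 9720507786) (nat_lit 152) (nat_lit 11771765537) (nat_lit 20) (nat_lit 5) (nat_lit 21) (nat_lit 5) (nat_lit 22) (nat_lit 4) (nat_lit 322) (nat_lit 252) (nat_lit 206))))) (XT.nd (nat_lit 234) (nat_lit 228) (nat_lit 0) (XT.nd (nat_lit 78) (nat_lit 228) (nat_lit 0) (XT.lf (nat_lit 0) (nat_lit 22271195613) (nat_lit 76) (nat_lit 2175543279) (nat_lit 152) (nat_lit 5488893259) (nat_lit 20) (nat_lit 5) (nat_lit 21) (nat_lit 5) (nat_lit 22) (nat_lit 4) (nat_lit 323) (nat_lit 252) (nat_lit 205)) (XT.nd (nat_lit 78) (nat_lit 0) (nat_lit 0) (XT.lf (nat_lit 0) (nat_lit 1140939400) (nat_lit 228) (nat_lit 24384816862) (nat_lit 76) (nat_lit 5658959906) (nat_lit 17) (nat_lit 5) (nat_lit 20) (nat_lit 5) (nat_lit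 18) (nat_lit 4) (nat_lit 324) (nat_lit 252) (nat_lit 204)) (XT.lf (nat_lit 0) (nat_lit 8026038758) (nat_lit 228) (nat_lit 10543309935) (nat_lit 76) (nat_lit 13924176774) (nat_lit 17) (nat_lit 5) (nat_lit 20) (nat_lit 5) (nat_lit 18) (nat_lit 4) (nat_lit 325) (nat_lit 252) (nat_lit 203)))) (XT.nd (nat_lit 156) (nat_lit 152) (nat_lit 0) (XT.nd (nat_lit 78) (nat_lit 0) (nat_lit 0) (XT.lf (nat_lit 0) (nat_lit 3954196338) (nat_lit 76) (nat_lit 11276921641) (nat_lit 152) (nat_lit 18637404802) (nat_lit 16) (nat_lit 5) (nat_lit 17) (nat_lit 5) (nat_lit 18) (nat_lit 4) (nat_lit 326) (nat_lit 252) (nat_lit 202)) (XT.lf (nat_lit 0) (nat_lit 19286911385) (nat_lit 76) (nat_lit 3557697254) (nat_lit 152) (nat_lit 12466234973) (nat_lit 16) (nat_lit 5) (nat_lit 17) (nat_lit 5) (nat_lit 18) (nat_lit 4) (nat_lit 327) (nat_lit 252) (nat_lit 201))) (XT.nd (nat_lit 78) (nat_lit 152) (nat_lit 0) (XT.lf (nat_lit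 0) (nat_lit 30824531345) (nat_lit 152) (nat_lit 1588772934) (nat_lit 0) (nat_lit 4412420983) (nat_lit 16) (nat_lit 5) (nat_lit 18) (nat_lit 4) (nat_lit 16) (nat_lit 4) (nat_lit 328) (nat_lit 252) (nat_lit 200)) (XT.lf (nat_lit 0) (nat_lit 885228125) (nat_lit 152) (nat_lit 24723122712) (nat_lit 76) (nat_lit 12804384716) (nat_lit 14) (nat_lit 5) (nat_lit 16) (nat_lit 5) (nat_lit 15) (nat_lit 4) (nat_lit 329) (nat_lit 252) (nat_lit 199)))))) (XT.nd (nat_lit 546) (nat_lit 152) (nat_lit 0) (XT.nd (nat_lit 234) (nat_lit 152) (nat_lit 0) (XT.nd (nat_lit 78) (nat_lit 76) (nat_lit 0) (XT.lf (nat_lit 0) (nat_lit 7955472169) (nat_lit 152) (nat_lit 10473408679) (nat_lit 76) (nat_lit 21649539947) (nat_lit 14) (nat_lit 5) (nat_lit 16) (nat_lit 5) (nat_lit 15) (nat_lit 4) (nat_lit 330) (nat_lit 252) (nat_lit 198)) (XT.nd (nat_lit 78) (nat_lit 0) (nat_lit 0) (XT.lf (nat_lit 0) (nat_lit 4481781884) (nat_lit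 76) (nat_lit 10889046356) (nat_lit 152) (nat_lit 26456828740) (nat_lit 13) (nat_lit 5) (nat_lit 14) (nat_lit 5) (nat_lit 15) (nat_lit 4) (nat_lit 331) (nat_lit 252) (nat_lit 197)) (XT.lf (nat_lit 0) (nat_lit 20311838351) (nat_lit 76) (nat_lit 2903015952) (nat_lit 152) (nat_lit 20447777587) (nat_lit 13) (nat_lit 5) (nat_lit 14) (nat_lit 5) (nat_lit 15) (nat_lit 4) (nat_lit 332) (nat_lit 252) (nat_lit 196)))) (XT.nd (nat_lit 156) (nat_lit 76) (nat_lit 0) (XT.nd (nat_lit 78) (nat_lit 76) (nat_lit 0) (XT.lf (nat_lit 0) (nat_lit 31455862425) (nat_lit 152) (nat_lit 8797101254) (nat_lit 0) (nat_lit 5336261758) (nat_lit 13) (nat_lit 5) (nat_lit 15) (nat_lit 4) (nat_lit 13) (nat_lit 4) (nat_lit 333) (nat_lit 252) (nat_lit 195)) (XT.lf (nat_lit 0) (nat_lit 6497532711) (nat_lit 76) (nat_lit 33657510562) (nat_lit 76) (nat_lit 7455734397) (nat_lit 12) (nat_lit 4) (nat_lit 13) (nat_lit 5) (nat_lit 13)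 (nat_lit 4) (nat_lit 334) (nat_lit 252) (nat_lit 194))) (XT.nd (nat_lit 78) (nat_lit 76) (nat_lit 0) (XT.lf (nat_lit 0) (nat_lit 22658914065) (nat_lit 76) (nat_lit 26676577411) (nat_lit 76) (nat_lit 396538867) (nat_lit 12) (nat_lit 4) (nat_lit 13) (nat_lit 5) (nat_lit 13) (nat_lit 4) (nat_lit 335) (nat_lit 252) (nat_lit 193)) (XT.lf (nat_lit 0) (nat_lit 6836145022) (nat_lit 152) (nat_lit 12477199747) (nat_lit 76) (nat_lit 32645266038) (nat_lit 11) (nat_lit 5) (nat_lit 13) (nat_lit 5) (nat_lit 12) (nat_lit 4) (nat_lit 336) (nat_lit 252) (nat_lit 192))))) (XT.nd (nat_lit 234) (nat_lit 76) (nat_lit 0) (XT.nd (nat_lit 78) (nat_lit 0) (nat_lit 0) (XT.lf (nat_lit 0) (nat_lit 2824599610) (nat_lit 76) (nat_lit 11584346220) (nat_lit 152) (nat_lit 39887866801) (nat_lit 10) (nat_lit 5) (nat_lit 11) (nat_lit 5) (nat_lit 12) (nat_lit 4) (nat_lit 337) (nat_lit 252) (nat_lit 191)) (XT.nd (nat_lit 78) (nat_lit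 0) (nat_lit 0) (XT.lf (nat_lit 0) (nat_lit 19079347648) (nat_lit 76) (nat_lit 3370166667) (nat_lit 152) (nat_lit 34299746532) (nat_lit 10) (nat_lit 5) (nat_lit 11) (nat_lit 5) (nat_lit 12) (nat_lit 4) (nat_lit 338) (nat_lit 252) (nat_lit 190)) (XT.lf (nat_lit 0) (nat_lit 30904873525) (nat_lit 152) (nat_lit 23298243300) (nat_lit 0) (nat_lit 5120841423) (nat_lit 10) (nat_lit 5) (nat_lit 12) (nat_lit 4) (nat_lit 10) (nat_lit 4) (nat_lit 339) (nat_lit 252) (nat_lit 189)))) (XT.nd (nat_lit 156) (nat_lit 0) (nat_lit 0) (XT.nd (nat_lit 78) (nat_lit 76) (nat_lit 0) (XT.lf (nat_lit 0) (nat_lit 39781064891) (nat_lit 152) (nat_lit 8308894685) (nat_lit 0) (nat_lit 13937498205) (nat_lit 10) (nat_lit 5) (nat_lit 12) (nat_lit 4) (nat_lit 10) (nat_lit 4) (nat_lit 340) (nat_lit 252) (nat_lit 188)) (XT.lf (nat_lit 0) (nat_lit 7512819848) (nat_lit 76) (nat_lit 41626224069) (nat_lit 76) (nat_lit 15725957779)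 (nat_lit 9) (nat_lit 4) (nat_lit 10) (nat_lit 5) (nat_lit 10) (nat_lit 4) (nat_lit 341) (nat_lit 252) (nat_lit 187))) (XT.nd (nat_lit 78) (nat_lit 0) (nat_lit 0) (XT.lf (nat_lit 0) (nat_lit 24237373937) (nat_lit 76) (nat_lit 34779876627) (nat_lit 76) (nat_lit 8825610715) (nat_lit 9) (nat_lit 4) (nat_lit 10) (nat_lit 5) (nat_lit 10) (nat_lit 4) (nat_lit 342) (nat_lit 252) (nat_lit 186)) (XT.lf (nat_lit 0) (nat_lit 41739224652) (nat_lit 76) (nat_lit 27618519969) (nat_lit 76) (nat_lit 1612825844) (nat_lit 9) (nat_lit 4) (nat_lit 10) (nat_lit 5) (nat_lit 10) (nat_lit 4) (nat_lit 343) (nat_lit 252) (nat_lit 185))))))))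
noncomputable def xc37 : XT := (XT.nd (nat_lit 35724) (nat_lit 0) (nat_lit 2584) (XT.nd (nat_lit 1092) (nat_lit 76) (nat_lit 0) (XT.nd (nat_lit 546) (nat_lit 152) (nat_lit 0) (XT.nd (nat_lit 234) (nat_lit 0) (nat_lit 0) (XT.nd (nat_lit 78) (nat_lit 76) (nat_lit 0) (XT.lf (nat_lit 0) (nat_lit 5813862859) (nat_lit 152) (nat_lit 14252531770) (nat_lit 76) (nat_lit 54187471591) (nat_lit 8) (nat_lit 5) (nat_lit 10) (nat_lit 5) (nat_lit 9) (nat_lit 4) (nat_lit 344) (nat_lit 252) (nat_lit 184)) (XT.nd (nat_lit 78) (nat_lit 0) (nat_lit 0) (XT.lf (nat_lit 0) (nat_lit 1432868914) (nat_lit 76) (nat_lit 12130771082) (nat_lit 152) (nat_lit 64137661406) (nat_lit 7) (nat_lit 5) (nat_lit 8) (nat_lit 5) (nat_lit 9) (nat_lit 4) (nat_lit 345) (nat_lit 252) (nat_lit 183)) (XT.lf (nat_lit 0) (nat_lit 18147888702) (nat_lit 76) (nat_lit 3671635733) (nat_lit 152) (nat_lit 59498032010) (nat_lit 7) (nat_lit 5) (nat_lit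 8) (nat_lit 5) (nat_lit 9) (nat_lit 4) (nat_lit 346) (nat_lit 252) (nat_lit 182)))) (XT.nd (nat_lit 156) (nat_lit 0) (nat_lit 0) (XT.nd (nat_lit 78) (nat_lit 0) (nat_lit 0) (XT.lf (nat_lit 0) (nat_lit 30511305164) (nat_lit 152) (nat_lit 49516624295) (nat_lit 0) (nat_lit 5086008057) (nat_lit 7) (nat_lit 5) (nat_lit 9) (nat_lit 4) (nat_lit 7) (nat_lit 4) (nat_lit 347) (nat_lit 252) (nat_lit 181)) (XT.lf (nat_lit 0) (nat_lit 39649034565) (nat_lit 152) (nat_lit 35266152563) (nat_lit 0) (nat_lit 14184615760) (nat_lit 7) (nat_lit 5) (nat_lit 9) (nat_lit 4) (nat_lit 7) (nat_lit 4) (nat_lit 348) (nat_lit 252) (nat_lit 180))) (XT.nd (nat_lit 78) (nat_lit 0) (nat_lit 0) (XT.lf (nat_lit 0) (nat_lit 49219175129) (nat_lit 152) (nat_lit 20349028846) (nat_lit 0) (nat_lit 23717497563) (nat_lit 7) (nat_lit 5) (nat_lit 9) (nat_lit 4) (nat_lit 7) (nat_lit 4) (nat_lit 349) (nat_lit 252) (nat_lit 179)) (XT.lf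 (nat_lit 0) (nat_lit 59244512905) (nat_lit 152) (nat_lit 4729736180) (nat_lit 0) (nat_lit 33707350805) (nat_lit 7) (nat_lit 5) (nat_lit 9) (nat_lit 4) (nat_lit 7) (nat_lit 4) (nat_lit 350) (nat_lit 252) (nat_lit 178))))) (XT.nd (nat_lit 234) (nat_lit 76) (nat_lit 0) (XT.nd (nat_lit 78) (nat_lit 0) (nat_lit 0) (XT.lf (nat_lit 0) (nat_lit 11860352419) (nat_lit 76) (nat_lit 58002574288) (nat_lit 76) (nat_lit 32431617393) (nat_lit 6) (nat_lit 4) (nat_lit 7) (nat_lit 5) (nat_lit 7) (nat_lit 4) (nat_lit 351) (nat_lit 252) (nat_lit 177)) (XT.nd (nat_lit 78) (nat_lit 0) (nat_lit 0) (XT.lf (nat_lit 0) (nat_lit 29338368784) (nat_lit 76) (nat_lit 51701049698) (nat_lit 76) (nat_lit 26097907285) (nat_lit 6) (nat_lit 4) (nat_lit 7) (nat_lit 5) (nat_lit 7) (nat_lit 4) (nat_lit 352) (nat_lit 252) (nat_lit 176)) (XT.lf (nat_lit 0) (nat_lit 47651796214) (nat_lit 76) (nat_lit 45102432749) (nat_lit 76) (nat_lit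 19468637461) (nat_lit 6) (nat_lit 4) (nat_lit 7) (nat_lit 5) (nat_lit 7) (nat_lit 4) (nat_lit 353) (nat_lit 252) (nat_lit 175)))) (XT.nd (nat_lit 156) (nat_lit 76) (nat_lit 0) (XT.nd (nat_lit 78) (nat_lit 0) (nat_lit 0) (XT.lf (nat_lit 0) (nat_lit 66844238109) (nat_lit 76) (nat_lit 38191012448) (nat_lit 76) (nat_lit 12528023946) (nat_lit 6) (nat_lit 4) (nat_lit 7) (nat_lit 5) (nat_lit 7) (nat_lit 4) (nat_lit 354) (nat_lit 252) (nat_lit 174)) (XT.lf (nat_lit 0) (nat_lit 86961390758) (nat_lit 76) (nat_lit 30950333031) (nat_lit 76) (nat_lit 5259541468) (nat_lit 6) (nat_lit 4) (nat_lit 7) (nat_lit 5) (nat_lit 7) (nat_lit 4) (nat_lit 355) (nat_lit 252) (nat_lit 173))) (XT.nd (nat_lit 78) (nat_lit 0) (nat_lit 0) (XT.lf (nat_lit 0) (nat_lit 2308178602) (nat_lit 152) (nat_lit 21031668106) (nat_lit 76) (nat_lit 105719665463) (nat_lit 5) (nat_lit 5) (nat_lit 7) (nat_lit 5) (nat_lit 6) (nat_lit 4) (nat_lit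 356) (nat_lit 252) (nat_lit 172)) (XT.lf (nat_lit 0) (nat_lit 10129479360) (nat_lit 152) (nat_lit 5179645764) (nat_lit 76) (nat_lit 119931968744) (nat_lit 5) (nat_lit 5) (nat_lit 7) (nat_lit 5) (nat_lit 6) (nat_lit 4) (nat_lit 357) (nat_lit 252) (nat_lit 171)))))) (XT.nd (nat_lit 34086) (nat_lit 0) (nat_lit 11856) (XT.nd (nat_lit 234) (nat_lit 0) (nat_lit 0) (XT.nd (nat_lit 78) (nat_lit 0) (nat_lit 0) (XT.lf (nat_lit 0) (nat_lit 11662062206) (nat_lit 76) (nat_lit 6775656217) (nat_lit 152) (nat_lit 123291163624) (nat_lit 4) (nat_lit 5) (nat_lit 5) (nat_lit 5) (nat_lit 6) (nat_lit 4) (nat_lit 358) (nat_lit 252) (nat_lit 170)) (XT.nd (nat_lit 78) (nat_lit 0) (nat_lit 0) (XT.lf (nat_lit 0) (nat_lit 27220341139) (nat_lit 152) (nat_lit 119136844491) (nat_lit 0) (nat_lit 2182108283) (nat_lit 4) (nat_lit 5) (nat_lit 6) (nat_lit 4) (nat_lit 4) (nat_lit 4) (nat_lit 359) (nat_lit 252) (nat_lit 169))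 (XT.lf (nat_lit 0) (nat_lit 36495364548) (nat_lit 152) (nat_lit 107757285237) (nat_lit 0) (nat_lit 11435981764) (nat_lit 4) (nat_lit 5) (nat_lit 6) (nat_lit 4) (nat_lit 4) (nat_lit 4) (nat_lit 360) (nat_lit 252) (nat_lit 168)))) (XT.nd (nat_lit 156) (nat_lit 0) (nat_lit 0) (XT.nd (nat_lit 78) (nat_lit 0) (nat_lit 0) (XT.lf (nat_lit 0) (nat_lit 46219740286) (nat_lit 152) (nat_lit 95835916139) (nat_lit 0) (nat_lit 21140214714) (nat_lit 4) (nat_lit 5) (nat_lit 6) (nat_lit 4) (nat_lit 4) (nat_lit 4) (nat_lit 361) (nat_lit 252) (nat_lit 167)) (XT.lf (nat_lit 0) (nat_lit 56416621630) (nat_lit 152) (nat_lit 83344352985) (nat_lit 0) (nat_lit 31317912449) (nat_lit 4) (nat_lit 5) (nat_lit 6) (nat_lit 4) (nat_lit 4) (nat_lit 4) (nat_lit 362) (nat_lit 252) (nat_lit 166))) (XT.nd (nat_lit 78) (nat_lit 0) (nat_lit 0) (XT.lf (nat_lit 0) (nat_lit 67110286868) (nat_lit 152) (nat_lit 70252853957) (nat_lit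 0) (nat_lit 41993307584) (nat_lit 4) (nat_lit 5) (nat_lit 6) (nat_lit 4) (nat_lit 4) (nat_lit 4) (nat_lit 363) (nat_lit 252) (nat_lit 165)) (XT.lf (nat_lit 0) (nat_lit 78326197108) (nat_lit 152) (nat_lit 56530248821) (nat_lit 0) (nat_lit 53191817727) (nat_lit 4) (nat_lit 5) (nat_lit 6) (nat_lit 4) (nat_lit 4) (nat_lit 4) (nat_lit 364) (nat_lit 252) (nat_lit 164))))) (XT.nd (nat_lit 234) (nat_lit 2508) (nat_lit 0) (XT.nd (nat_lit 78) (nat_lit 2356) (nat_lit 0) (XT.lf (nat_lit 0) (nat_lit 781610487) (nat_lit 988) (nat_lit 1371557246) (nat_lit 988) (nat_lit 1371557246) (nat_lit 224) (nat_lit 4) (nat_lit 237) (nat_lit 5) (nat_lit 237) (nat_lit 4) (nat_lit 274) (nat_lit 253) (nat_lit 253)) (XT.nd (nat_lit 78) (nat_lit 1216) (nat_lit 0) (XT.lf (nat_lit 0) (nat_lit 2307869630) (nat_lit 1064) (nat_lit 223192589) (nat_lit 1140) (nat_lit 4611659901) (nat_lit 209) (nat_lit 5) (nat_lit 223) (nat_lit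 5) (nat_lit 224) (nat_lit 4) (nat_lit 275) (nat_lit 253) (nat_lit 252)) (XT.lf (nat_lit 0) (nat_lit 604089339) (nat_lit 1216) (nat_lit 4138361318) (nat_lit 76) (nat_lit 2502158093) (nat_lit 193) (nat_lit 5) (nat_lit 209) (nat_lit 5) (nat_lit 194) (nat_lit 4) (nat_lit 276) (nat_lit 253) (nat_lit 251)))) (XT.nd (nat_lit 156) (nat_lit 1140) (nat_lit 0) (XT.nd (nat_lit 78) (nat_lit 684) (nat_lit 0) (XT.lf (nat_lit 0) (nat_lit 3961266175) (nat_lit 684) (nat_lit 1860518444) (nat_lit 760) (nat_lit 1533712611) (nat_lit 184) (nat_lit 5) (nat_lit 193) (nat_lit 5) (nat_lit 194) (nat_lit 4) (nat_lit 277) (nat_lit 253) (nat_lit 250)) (XT.lf (nat_lit 0) (nat_lit 3607973786) (nat_lit 684) (nat_lit 2608405316) (nat_lit 76) (nat_lit 1259164847) (nat_lit 175) (nat_lit 5) (nat_lit 184) (nat_lit 5) (nat_lit 176) (nat_lit 4) (nat_lit 278) (nat_lit 253) (nat_lit 249))) (XT.nd (nat_lit 78) (nat_lit 532) (nat_lit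 0) (XT.lf (nat_lit 0) (nat_lit 1217122555) (nat_lit 608) (nat_lit 1785858138) (nat_lit 76) (nat_lit 4601978431) (nat_lit 167) (nat_lit 5) (nat_lit 175) (nat_lit 5) (nat_lit 168) (nat_lit 5) (nat_lit 279) (nat_lit 253) (nat_lit 248)) (XT.lf (nat_lit 0) (nat_lit 6341689052) (nat_lit 608) (nat_lit 929831612) (nat_lit 76) (nat_lit 472510825) (nat_lit 160) (nat_lit 5) (nat_lit 168) (nat_lit 5) (nat_lit 161) (nat_lit 4) (nat_lit 280) (nat_lit 253) (nat_lit 247))))))) (XT.nd (nat_lit 1092) (nat_lit 3040) (nat_lit 0) (XT.nd (nat_lit 546) (nat_lit 2356) (nat_lit 0) (XT.nd (nat_lit 234) (nat_lit 1824) (nat_lit 0) (XT.nd (nat_lit 78) (nat_lit 1520) (nat_lit 0) (XT.lf (nat_lit 0) (nat_lit 3656786263) (nat_lit 532) (nat_lit 70876841) (nat_lit 76) (nat_lit 4164595953) (nat_lit 153) (nat_lit 5) (nat_lit 160) (nat_lit 5) (nat_lit 154) (nat_lit 5) (nat_lit 281) (nat_lit 253) (nat_lit 246)) (XT.nd (nat_lit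 78) (nat_lit 456) (nat_lit 0) (XT.lf (nat_lit 0) (nat_lit 759676076) (nat_lit 532) (nat_lit 7206819669) (nat_lit 76) (nat_lit 84447220) (nat_lit 139) (nat_lit 5) (nat_lit 146) (nat_lit 5) (nat_lit 140) (nat_lit 5) (nat_lit 282) (nat_lit 253) (nat_lit 245)) (XT.lf (nat_lit 0) (nat_lit 1734893669) (nat_lit 456) (nat_lit 4105445565) (nat_lit 532) (nat_lit 2378510727) (nat_lit 133) (nat_lit 5) (nat_lit 139) (nat_lit 5) (nat_lit 140) (nat_lit 5) (nat_lit 283) (nat_lit 253) (nat_lit 244)))) (XT.nd (nat_lit 156) (nat_lit 912) (nat_lit 0) (XT.nd (nat_lit 78) (nat_lit 456) (nat_lit 0) (XT.lf (nat_lit 0) (nat_lit 2616498096) (nat_lit 456) (nat_lit 5751850628) (nat_lit 76) (nat_lit 29504998) (nat_lit 127) (nat_lit 5) (nat_lit 133) (nat_lit 5) (nat_lit 128) (nat_lit 5) (nat_lit 284) (nat_lit 253) (nat_lit 243)) (XT.lf (nat_lit 0) (nat_lit 3529289748) (nat_lit 456) (nat_lit 4223307502) (nat_lit 532) (nat_lit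 834505986) (nat_lit 121) (nat_lit 5) (nat_lit 127) (nat_lit 5) (nat_lit 128) (nat_lit 5) (nat_lit 285) (nat_lit 253) (nat_lit 242))) (XT.nd (nat_lit 78) (nat_lit 456) (nat_lit 0) (XT.lf (nat_lit 0) (nat_lit 4181232584) (nat_lit 456) (nat_lit 4390115288) (nat_lit 76) (nat_lit 216213086) (nat_lit 115) (nat_lit 5) (nat_lit 121) (nat_lit 5) (nat_lit 116) (nat_lit 5) (nat_lit 286) (nat_lit 253) (nat_lit 241)) (XT.lf (nat_lit 0) (nat_lit 378195061) (nat_lit 456) (nat_lit 3770277583) (nat_lit 76) (nat_lit 4850764641) (nat_lit 109) (nat_lit 5) (nat_lit 115) (nat_lit 5) (nat_lit 110) (nat_lit 5) (nat_lit 287) (nat_lit 253) (nat_lit 240))))) (XT.nd (nat_lit 234) (nat_lit 1292) (nat_lit 0) (XT.nd (nat_lit 78) (nat_lit 760) (nat_lit 0) (XT.lf (nat_lit 0) (nat_lit 5440377832) (nat_lit 380) (nat_lit 3206349788) (nat_lit 76) (nat_lit 575868114) (nat_lit 105) (nat_lit 5) (nat_lit 110) (nat_lit 5) (nat_lit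 106) (nat_lit 5) (nat_lit 288) (nat_lit 253) (nat_lit 239)) (XT.nd (nat_lit 78) (nat_lit 304) (nat_lit 0) (XT.lf (nat_lit 0) (nat_lit 1238319164) (nat_lit 456) (nat_lit 2712851599) (nat_lit 76) (nat_lit 5506787664) (nat_lit 99) (nat_lit 5) (nat_lit 105) (nat_lit 5) (nat_lit 100) (nat_lit 5) (nat_lit 289) (nat_lit 253) (nat_lit 238)) (XT.lf (nat_lit 0) (nat_lit 6371217769) (nat_lit 380) (nat_lit 2296596957) (nat_lit 76) (nat_lit 1038120702) (nat_lit 95) (nat_lit 5) (nat_lit 100) (nat_lit 5) (nat_lit 96) (nat_lit 5) (nat_lit 290) (nat_lit 253) (nat_lit 237)))) (XT.nd (nat_lit 156) (nat_lit 608) (nat_lit 0) (XT.nd (nat_lit 78) (nat_lit 304) (nat_lit 0) (XT.lf (nat_lit 0) (nat_lit 1733517088) (nat_lit 380) (nat_lit 1980470551) (nat_lit 76) (nat_lit 6252728186) (nat_lit 90) (nat_lit 5) (nat_lit 95) (nat_lit 5) (nat_lit 91) (nat_lit 5) (nat_lit 291) (nat_lit 253) (nat_lit 236)) (XT.lf (nat_lit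 0) (nat_lit 6940833609) (nat_lit 380) (nat_lit 1771068303) (nat_lit 76) (nat_lit 1529141349) (nat_lit 86) (nat_lit 5) (nat_lit 91) (nat_lit 5) (nat_lit 87) (nat_lit 5) (nat_lit 292) (nat_lit 253) (nat_lit 235))) (XT.nd (nat_lit 78) (nat_lit 228) (nat_lit 0) (XT.lf (nat_lit 0) (nat_lit 1824243005) (nat_lit 380) (nat_lit 1691808920) (nat_lit 76) (nat_lit 7013175773) (nat_lit 81) (nat_lit 5) (nat_lit 86) (nat_lit 5) (nat_lit 82) (nat_lit 5) (nat_lit 293) (nat_lit 253) (nat_lit 234)) (XT.lf (nat_lit 0) (nat_lit 7104861174) (nat_lit 304) (nat_lit 1757417881) (nat_lit 76) (nat_lit 1969637364) (nat_lit 78) (nat_lit 5) (nat_lit 82) (nat_lit 5) (nat_lit 79) (nat_lit 5) (nat_lit 294) (nat_lit 253) (nat_lit 233)))))) (XT.nd (nat_lit 546) (nat_lit 1216) (nat_lit 0) (XT.nd (nat_lit 234) (nat_lit 912) (nat_lit 0) (XT.nd (nat_lit 78) (nat_lit 532) (nat_lit 0) (XT.lf (nat_lit 0) (nat_lit 1458654284) (nat_lit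 380) (nat_lit 1984772000) (nat_lit 76) (nat_lit 7706348381) (nat_lit 73) (nat_lit 5) (nat_lit 78) (nat_lit 5) (nat_lit 74) (nat_lit 5) (nat_lit 295) (nat_lit 253) (nat_lit 232)) (XT.nd (nat_lit 78) (nat_lit 304) (nat_lit 0) (XT.lf (nat_lit 0) (nat_lit 6805959611) (nat_lit 304) (nat_lit 2404509886) (nat_lit 76) (nat_lit 2272674272) (nat_lit 70) (nat_lit 5) (nat_lit 74) (nat_lit 5) (nat_lit 71) (nat_lit 5) (nat_lit 296) (nat_lit 253) (nat_lit 231)) (XT.lf (nat_lit 0) (nat_lit 570917835) (nat_lit 304) (nat_lit 3020547909) (nat_lit 76) (nat_lit 8241796908) (nat_lit 66) (nat_lit 5) (nat_lit 70) (nat_lit 5) (nat_lit 67) (nat_lit 5) (nat_lit 297) (nat_lit 253) (nat_lit 230)))) (XT.nd (nat_lit 156) (nat_lit 456) (nat_lit 0) (XT.nd (nat_lit 78) (nat_lit 228) (nat_lit 0) (XT.lf (nat_lit 0) (nat_lit 5971950255) (nat_lit 304) (nat_lit 3886774595) (nat_lit 76) (nat_lit 2341249662) (nat_lit 63) (nat_lit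 5) (nat_lit 67) (nat_lit 5) (nat_lit 64) (nat_lit 5) (nat_lit 298) (nat_lit 253) (nat_lit 229)) (XT.lf (nat_lit 0) (nat_lit 7587698530) (nat_lit 228) (nat_lit 4058163798) (nat_lit 304) (nat_lit 939164315) (nat_lit 60) (nat_lit 5) (nat_lit 63) (nat_lit 5) (nat_lit 64) (nat_lit 5) (nat_lit 299) (nat_lit 253) (nat_lit 228))) (XT.nd (nat_lit 78) (nat_lit 228) (nat_lit 0) (XT.lf (nat_lit 0) (nat_lit 4513576355) (nat_lit 228) (nat_lit 6409262188) (nat_lit 76) (nat_lit 2065560709) (nat_lit 57) (nat_lit 5) (nat_lit 60) (nat_lit 5) (nat_lit 58) (nat_lit 5) (nat_lit 300) (nat_lit 253) (nat_lit 227)) (XT.lf (nat_lit 0) (nat_lit 5270177538) (nat_lit 228) (nat_lit 4962165809) (nat_lit 304) (nat_lit 3179012637) (nat_lit 54) (nat_lit 5) (nat_lit 57) (nat_lit 5) (nat_lit 58) (nat_lit 5) (nat_lit 301) (nat_lit 253) (nat_lit 226))))) (XT.nd (nat_lit 234) (nat_lit 760) (nat_lit 0) (XT.nd (nat_lit 78) (nat_lit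 228) (nat_lit 0) (XT.lf (nat_lit 0) (nat_lit 2321825090) (nat_lit 228) (nat_lit 10213521772) (nat_lit 76) (nat_lit 1319898475) (nat_lit 51) (nat_lit 5) (nat_lit 54) (nat_lit 5) (nat_lit 52) (nat_lit 5) (nat_lit 302) (nat_lit 253) (nat_lit 225)) (XT.nd (nat_lit 78) (nat_lit 0) (nat_lit 0) (XT.lf (nat_lit 0) (nat_lit 1609606312) (nat_lit 228) (nat_lit 6448584330) (nat_lit 304) (nat_lit 6261476690) (nat_lit 48) (nat_lit 5) (nat_lit 51) (nat_lit 5) (nat_lit 52) (nat_lit 5) (nat_lit 303) (nat_lit 253) (nat_lit 224)) (XT.lf (nat_lit 0) (nat_lit 14039283034) (nat_lit 228) (nat_lit 26687663) (nat_lit 304) (nat_lit 741867959) (nat_lit 48) (nat_lit 5) (nat_lit 51) (nat_lit 5) (nat_lit 52) (nat_lit 5) (nat_lit 304) (nat_lit 253) (nat_lit 223)))) (XT.nd (nat_lit 156) (nat_lit 380) (nat_lit 0) (XT.nd (nat_lit 78) (nat_lit 152) (nat_lit 0) (XT.lf (nat_lit 0) (nat_lit 5017588173) (nat_lit 228) (nat_lit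 3624606889) (nat_lit 76) (nat_lit 6674952734) (nat_lit 45) (nat_lit 5) (nat_lit 48) (nat_lit 5) (nat_lit 46) (nat_lit 5) (nat_lit 305) (nat_lit 253) (nat_lit 222)) (XT.lf (nat_lit 0) (nat_lit 8919047767) (nat_lit 152) (nat_lit 2111799022) (nat_lit 228) (nat_lit 4821478289) (nat_lit 43) (nat_lit 5) (nat_lit 45) (nat_lit 5) (nat_lit 46) (nat_lit 5) (nat_lit 306) (nat_lit 253) (nat_lit 221))) (XT.nd (nat_lit 78) (nat_lit 152) (nat_lit 0) (XT.lf (nat_lit 0) (nat_lit 939939354) (nat_lit 228) (nat_lit 10791787472) (nat_lit 76) (nat_lit 4681492200) (nat_lit 40) (nat_lit 5) (nat_lit 43) (nat_lit 5) (nat_lit 41) (nat_lit 5) (nat_lit 307) (nat_lit 253) (nat_lit 220)) (XT.lf (nat_lit 0) (nat_lit 1729468233) (nat_lit 152) (nat_lit 5163542130) (nat_lit 228) (nat_lit 10107667516) (nat_lit 38) (nat_lit 5) (nat_lit 40) (nat_lit 5) (nat_lit 41) (nat_lit 5) (nat_lit 308) (nat_lit 253) (nat_lit 219))))))))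
noncomputable def xc38 : XT := (XT.nd (nat_lit 2106) (nat_lit 608) (nat_lit 0) (XT.nd (nat_lit 1014) (nat_lit 684) (nat_lit 0) (XT.nd (nat_lit 468) (nat_lit 608) (nat_lit 0) (XT.nd (nat_lit 234) (nat_lit 304) (nat_lit 0) (XT.nd (nat_lit 78) (nat_lit 380) (nat_lit 0) (XT.lf (nat_lit 0) (nat_lit 13167661706) (nat_lit 228) (nat_lit 2709219318) (nat_lit 76) (nat_lit 1739959676) (nat_lit 38) (nat_lit 5) (nat_lit 41) (nat_lit 5) (nat_lit 39) (nat_lit 4) (nat_lit 309) (nat_lit 253) (nat_lit 218)) (XT.nd (nat_lit 78) (nat_lit 152) (nat_lit 0) (XT.lf (nat_lit 0) (nat_lit 1516346746) (nat_lit 228) (nat_lit 7815274227) (nat_lit 76) (nat_lit 8930208561) (nat_lit 35) (nat_lit 5) (nat_lit 38) (nat_lit 5) (nat_lit 36) (nat_lit 5) (nat_lit 310) (nat_lit 253) (nat_lit 217)) (XT.lf (nat_lit 0) (nat_lit 5267996036) (nat_lit 152) (nat_lit 2402028774) (nat_lit 228) (nat_lit 11268307704) (nat_lit 33) (nat_lit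 5) (nat_lit 35) (nat_lit 5) (nat_lit 36) (nat_lit 5) (nat_lit 311) (nat_lit 253) (nat_lit 216)))) (XT.nd (nat_lit 78) (nat_lit 304) (nat_lit 0) (XT.lf (nat_lit 0) (nat_lit 14164145366) (nat_lit 228) (nat_lit 690673527) (nat_lit 76) (nat_lit 4792899944) (nat_lit 33) (nat_lit 5) (nat_lit 36) (nat_lit 5) (nat_lit 34) (nat_lit 4) (nat_lit 312) (nat_lit 253) (nat_lit 215)) (XT.nd (nat_lit 78) (nat_lit 152) (nat_lit 0) (XT.lf (nat_lit 0) (nat_lit 637920095) (nat_lit 152) (nat_lit 7387154648) (nat_lit 76) (nat_lit 12365596040) (nat_lit 31) (nat_lit 5) (nat_lit 33) (nat_lit 5) (nat_lit 32) (nat_lit 5) (nat_lit 313) (nat_lit 253) (nat_lit 214)) (XT.lf (nat_lit 0) (nat_lit 6135675703) (nat_lit 152) (nat_lit 794761536) (nat_lit 228) (nat_lit 14239389635) (nat_lit 29) (nat_lit 5) (nat_lit 31) (nat_lit 5) (nat_lit 32) (nat_lit 5) (nat_lit 314) (nat_lit 253) (nat_lit 213))))) (XT.nd (nat_lit 234) (nat_lit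 304) (nat_lit 0) (XT.nd (nat_lit 78) (nat_lit 304) (nat_lit 0) (XT.lf (nat_lit 0) (nat_lit 13593023726) (nat_lit 228) (nat_lit 1715216202) (nat_lit 76) (nat_lit 6678071884) (nat_lit 29) (nat_lit 5) (nat_lit 32) (nat_lit 5) (nat_lit 30) (nat_lit 4) (nat_lit 315) (nat_lit 253) (nat_lit 212)) (XT.nd (nat_lit 78) (nat_lit 228) (nat_lit 0) (XT.lf (nat_lit 0) (nat_lit 12357561810) (nat_lit 76) (nat_lit 8275424808) (nat_lit 152) (nat_lit 2209339676) (nat_lit 28) (nat_lit 5) (nat_lit 29) (nat_lit 5) (nat_lit 30) (nat_lit 4) (nat_lit 316) (nat_lit 253) (nat_lit 211)) (XT.lf (nat_lit 0) (nat_lit 3309743249) (nat_lit 152) (nat_lit 859307189) (nat_lit 228) (nat_lit 19571820847) (nat_lit 25) (nat_lit 5) (nat_lit 27) (nat_lit 5) (nat_lit 28) (nat_lit 5) (nat_lit 317) (nat_lit 253) (nat_lit 210)))) (XT.nd (nat_lit 156) (nat_lit 228) (nat_lit 0) (XT.nd (nat_lit 78) (nat_lit 76) (nat_lit 0) (XT.lf (nat_lit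 0) (nat_lit 10917810768) (nat_lit 228) (nat_lit 6898394704) (nat_lit 76) (nat_lit 6864596321) (nat_lit 25) (nat_lit 5) (nat_lit 28) (nat_lit 5) (nat_lit 26) (nat_lit 4) (nat_lit 318) (nat_lit 253) (nat_lit 209)) (XT.lf (nat_lit 0) (nat_lit 7311251214) (nat_lit 76) (nat_lit 10696593199) (nat_lit 152) (nat_lit 7659796788) (nat_lit 24) (nat_lit 5) (nat_lit 25) (nat_lit 5) (nat_lit 26) (nat_lit 4) (nat_lit 319) (nat_lit 253) (nat_lit 208))) (XT.nd (nat_lit 78) (nat_lit 228) (nat_lit 0) (XT.lf (nat_lit 0) (nat_lit 22245648907) (nat_lit 76) (nat_lit 3204954108) (nat_lit 152) (nat_lit 1253298992) (nat_lit 24) (nat_lit 5) (nat_lit 25) (nat_lit 5) (nat_lit 26) (nat_lit 4) (nat_lit 320) (nat_lit 253) (nat_lit 207)) (XT.lf (nat_lit 0) (nat_lit 5440064410) (nat_lit 228) (nat_lit 17680137802) (nat_lit 76) (nat_lit 4668018887) (nat_lit 21) (nat_lit 5) (nat_lit 24) (nat_lit 5) (nat_lit 22) (nat_lit 4) (nat_lit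 321) (nat_lit 253) (nat_lit 206)))))) (XT.nd (nat_lit 546) (nat_lit 304) (nat_lit 0) (XT.nd (nat_lit 234) (nat_lit 304) (nat_lit 0) (XT.nd (nat_lit 78) (nat_lit 76) (nat_lit 0) (XT.lf (nat_lit 0) (nat_lit 12452729980) (nat_lit 228) (nat_lit 3598007277) (nat_lit 76) (nat_lit 12875353006) (nat_lit 21) (nat_lit 5) (nat_lit 24) (nat_lit 5) (nat_lit 22) (nat_lit 4) (nat_lit 322) (nat_lit 253) (nat_lit 205)) (XT.nd (nat_lit 78) (nat_lit 0) (nat_lit 0) (XT.lf (nat_lit 0) (nat_lit 11291349224) (nat_lit 76) (nat_lit 8568091949) (nat_lit 152) (nat_lit 10260131253) (nat_lit 20) (nat_lit 5) (nat_lit 21) (nat_lit 5) (nat_lit 22) (nat_lit 4) (nat_lit 323) (nat_lit 253) (nat_lit 204)) (XT.lf (nat_lit 0) (nat_lit 26886505834) (nat_lit 76) (nat_lit 723900228) (nat_lit 152) (nat_lit 3763125959) (nat_lit 20) (nat_lit 5) (nat_lit 21) (nat_lit 5) (nat_lit 22) (nat_lit 4) (nat_lit 324) (nat_lit 253) (nat_lit 203))))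 (XT.nd (nat_lit 156) (nat_lit 76) (nat_lit 0) (XT.nd (nat_lit 78) (nat_lit 0) (nat_lit 0) (XT.lf (nat_lit 0) (nat_lit 3113637913) (nat_lit 228) (nat_lit 22121341398) (nat_lit 76) (nat_lit 7450909655) (nat_lit 17) (nat_lit 5) (nat_lit 20) (nat_lit 5) (nat_lit 18) (nat_lit 4) (nat_lit 325) (nat_lit 253) (nat_lit 202)) (XT.lf (nat_lit 0) (nat_lit 10251770737) (nat_lit 228) (nat_lit 7753602758) (nat_lit 76) (nat_lit 16057530140) (nat_lit 17) (nat_lit 5) (nat_lit 20) (nat_lit 5) (nat_lit 18) (nat_lit 4) (nat_lit 326) (nat_lit 253) (nat_lit 201))) (XT.nd (nat_lit 78) (nat_lit 0) (nat_lit 0) (XT.lf (nat_lit 0) (nat_lit 7373701338) (nat_lit 76) (nat_lit 10387494825) (nat_lit 152) (nat_lit 17747158799) (nat_lit 16) (nat_lit 5) (nat_lit 17) (nat_lit 5) (nat_lit 18) (nat_lit 4) (nat_lit 327) (nat_lit 253) (nat_lit 200)) (XT.lf (nat_lit 0) (nat_lit 23319633320) (nat_lit 76) (nat_lit 2351512691) (nat_lit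 152) (nat_lit 11354197918) (nat_lit 16) (nat_lit 5) (nat_lit 17) (nat_lit 5) (nat_lit 18) (nat_lit 4) (nat_lit 328) (nat_lit 253) (nat_lit 199))))) (XT.nd (nat_lit 234) (nat_lit 152) (nat_lit 0) (XT.nd (nat_lit 78) (nat_lit 76) (nat_lit 0) (XT.lf (nat_lit 0) (nat_lit 1315665319) (nat_lit 76) (nat_lit 32679512393) (nat_lit 76) (nat_lit 4622462975) (nat_lit 15) (nat_lit 4) (nat_lit 16) (nat_lit 5) (nat_lit 16) (nat_lit 4) (nat_lit 329) (nat_lit 253) (nat_lit 198)) (XT.nd (nat_lit 78) (nat_lit 0) (nat_lit 0) (XT.lf (nat_lit 0) (nat_lit 2512868895) (nat_lit 152) (nat_lit 23053907822) (nat_lit 76) (nat_lit 14718642782) (nat_lit 14) (nat_lit 5) (nat_lit 16) (nat_lit 5) (nat_lit 15) (nat_lit 4) (nat_lit 330) (nat_lit 253) (nat_lit 197)) (XT.lf (nat_lit 0) (nat_lit 9861226124) (nat_lit 152) (nat_lit 8230059088) (nat_lit 76) (nat_lit 23945387258) (nat_lit 14) (nat_lit 5) (nat_lit 16) (nat_lit 5) (nat_lit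 15) (nat_lit 4) (nat_lit 331) (nat_lit 253) (nat_lit 196)))) (XT.nd (nat_lit 156) (nat_lit 76) (nat_lit 0) (XT.nd (nat_lit 78) (nat_lit 0) (nat_lit 0) (XT.lf (nat_lit 0) (nat_lit 7393574929) (nat_lit 76) (nat_lit 10207802337) (nat_lit 152) (nat_lit 26273392856) (nat_lit 13) (nat_lit 5) (nat_lit 14) (nat_lit 5) (nat_lit 15) (nat_lit 4) (nat_lit 332) (nat_lit 253) (nat_lit 195)) (XT.lf (nat_lit 0) (nat_lit 23887148318) (nat_lit 76) (nat_lit 1880836905) (nat_lit 152) (nat_lit 20035616637) (nat_lit 13) (nat_lit 5) (nat_lit 14) (nat_lit 5) (nat_lit 15) (nat_lit 4) (nat_lit 333) (nat_lit 253) (nat_lit 194))) (XT.nd (nat_lit 78) (nat_lit 76) (nat_lit 0) (XT.lf (nat_lit 0) (nat_lit 34365426301) (nat_lit 152) (nat_lit 6769662425) (nat_lit 0) (nat_lit 6693123451) (nat_lit 13) (nat_lit 5) (nat_lit 15) (nat_lit 4) (nat_lit 13) (nat_lit 4) (nat_lit 334) (nat_lit 253) (nat_lit 193)) (XT.lf (nat_lit 0)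 (nat_lit 9218978754) (nat_lit 76) (nat_lit 34239968978) (nat_lit 76) (nat_lit 6493130530) (nat_lit 12) (nat_lit 4) (nat_lit 13) (nat_lit 5) (nat_lit 13) (nat_lit 4) (nat_lit 335) (nat_lit 253) (nat_lit 192))))))) (XT.nd (nat_lit 1092) (nat_lit 228) (nat_lit 0) (XT.nd (nat_lit 546) (nat_lit 152) (nat_lit 0) (XT.nd (nat_lit 234) (nat_lit 76) (nat_lit 0) (XT.nd (nat_lit 78) (nat_lit 76) (nat_lit 0) (XT.lf (nat_lit 0) (nat_lit 838742135) (nat_lit 152) (nat_lit 26115178198) (nat_lit 76) (nat_lit 25227095036) (nat_lit 11) (nat_lit 5) (nat_lit 13) (nat_lit 5) (nat_lit 12) (nat_lit 4) (nat_lit 336) (nat_lit 253) (nat_lit 191)) (XT.nd (nat_lit 78) (nat_lit 76) (nat_lit 0) (XT.lf (nat_lit 0) (nat_lit 8365555273) (nat_lit 152) (nat_lit 10903353514) (nat_lit 76) (nat_lit 35251692978) (nat_lit 11) (nat_lit 5) (nat_lit 13) (nat_lit 5) (nat_lit 12) (nat_lit 4) (nat_lit 337) (nat_lit 253) (nat_lit 190))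 (XT.lf (nat_lit 0) (nat_lit 5100539004) (nat_lit 76) (nat_lit 11180424727) (nat_lit 152) (nat_lit 40695845754) (nat_lit 10) (nat_lit 5) (nat_lit 11) (nat_lit 5) (nat_lit 12) (nat_lit 4) (nat_lit 338) (nat_lit 253) (nat_lit 189)))) (XT.nd (nat_lit 156) (nat_lit 76) (nat_lit 0) (XT.nd (nat_lit 78) (nat_lit 0) (nat_lit 0) (XT.lf (nat_lit 0) (nat_lit 22066371615) (nat_lit 76) (nat_lit 2602352329) (nat_lit 152) (nat_lit 34884815395) (nat_lit 10) (nat_lit 5) (nat_lit 11) (nat_lit 5) (nat_lit 12) (nat_lit 4) (nat_lit 339) (nat_lit 253) (nat_lit 188)) (XT.lf (nat_lit 0) (nat_lit 33503197601) (nat_lit 152) (nat_lit 22503878676) (nat_lit 0) (nat_lit 6251218393) (nat_lit 10) (nat_lit 5) (nat_lit 12) (nat_lit 4) (nat_lit 10) (nat_lit 4) (nat_lit 340) (nat_lit 253) (nat_lit 187))) (XT.nd (nat_lit 78) (nat_lit 76) (nat_lit 0) (XT.lf (nat_lit 0) (nat_lit 42773051849) (nat_lit 152) (nat_lit 6858361525) (nat_lit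 0) (nat_lit 15467073018) (nat_lit 10) (nat_lit 5) (nat_lit 12) (nat_lit 4) (nat_lit 10) (nat_lit 4) (nat_lit 341) (nat_lit 253) (nat_lit 186)) (XT.lf (nat_lit 0) (nat_lit 9700950853) (nat_lit 76) (nat_lit 42867642988) (nat_lit 76) (nat_lit 15510235945) (nat_lit 9) (nat_lit 4) (nat_lit 10) (nat_lit 5) (nat_lit 10) (nat_lit 4) (nat_lit 342) (nat_lit 253) (nat_lit 185))))) (XT.nd (nat_lit 234) (nat_lit 76) (nat_lit 0) (XT.nd (nat_lit 78) (nat_lit 76) (nat_lit 0) (XT.lf (nat_lit 0) (nat_lit 27175423599) (nat_lit 76) (nat_lit 35718973045) (nat_lit 76) (nat_lit 8312586752) (nat_lit 9) (nat_lit 4) (nat_lit 10) (nat_lit 5) (nat_lit 10) (nat_lit 4) (nat_lit 343) (nat_lit 253) (nat_lit 184)) (XT.nd (nat_lit 78) (nat_lit 76) (nat_lit 0) (XT.lf (nat_lit 0) (nat_lit 45470167756) (nat_lit 76) (nat_lit 28237638907) (nat_lit 76) (nat_lit 784605710) (nat_lit 9) (nat_lit 4) (nat_lit 10) (nat_lit 5) (nat_lit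 10) (nat_lit 4) (nat_lit 344) (nat_lit 253) (nat_lit 183)) (XT.lf (nat_lit 0) (nat_lit 6953247684) (nat_lit 152) (nat_lit 13382366020) (nat_lit 76) (nat_lit 57605280386) (nat_lit 8) (nat_lit 5) (nat_lit 10) (nat_lit 5) (nat_lit 9) (nat_lit 4) (nat_lit 345) (nat_lit 253) (nat_lit 182)))) (XT.nd (nat_lit 156) (nat_lit 0) (nat_lit 0) (XT.nd (nat_lit 78) (nat_lit 0) (nat_lit 0) (XT.lf (nat_lit 0) (nat_lit 3041934273) (nat_lit 76) (nat_lit 12022944155) (nat_lit 152) (nat_lit 66496601408) (nat_lit 7) (nat_lit 5) (nat_lit 8) (nat_lit 5) (nat_lit 9) (nat_lit 4) (nat_lit 346) (nat_lit 253) (nat_lit 181)) (XT.lf (nat_lit 0) (nat_lit 20519494483) (nat_lit 76) (nat_lit 3174869443) (nat_lit 152) (nat_lit 61665368783) (nat_lit 7) (nat_lit 5) (nat_lit 8) (nat_lit 5) (nat_lit 9) (nat_lit 4) (nat_lit 347) (nat_lit 253) (nat_lit 180))) (XT.nd (nat_lit 78) (nat_lit 0) (nat_lit 0) (XT.lf (nat_lit 0) (nat_lit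 32789635366) (nat_lit 152) (nat_lit 50581624098) (nat_lit 0) (nat_lit 5975615161) (nat_lit 7) (nat_lit 5) (nat_lit 9) (nat_lit 4) (nat_lit 7) (nat_lit 4) (nat_lit 348) (nat_lit 253) (nat_lit 179)) (XT.lf (nat_lit 0) (nat_lit 42348405288) (nat_lit 152) (nat_lit 35685811228) (nat_lit 0) (nat_lit 15498900548) (nat_lit 7) (nat_lit 5) (nat_lit 9) (nat_lit 4) (nat_lit 7) (nat_lit 4) (nat_lit 349) (nat_lit 253) (nat_lit 178)))))) (XT.nd (nat_lit 546) (nat_lit 152) (nat_lit 0) (XT.nd (nat_lit 234) (nat_lit 0) (nat_lit 0) (XT.nd (nat_lit 78) (nat_lit 76) (nat_lit 0) (XT.lf (nat_lit 0) (nat_lit 52362913881) (nat_lit 152) (nat_lit 20086814608) (nat_lit 0) (nat_lit 25479614347) (nat_lit 7) (nat_lit 5) (nat_lit 9) (nat_lit 4) (nat_lit 7) (nat_lit 4) (nat_lit 350) (nat_lit 253) (nat_lit 177)) (XT.nd (nat_lit 78) (nat_lit 76) (nat_lit 0) (XT.lf (nat_lit 0) (nat_lit 62857005212) (nat_lit 152) (nat_lit 3747493770)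 (nat_lit 0) (nat_lit 35941520159) (nat_lit 7) (nat_lit 5) (nat_lit 9) (nat_lit 4) (nat_lit 7) (nat_lit 4) (nat_lit 351) (nat_lit 253) (nat_lit 176)) (XT.lf (nat_lit 0) (nat_lit 13637164630) (nat_lit 76) (nat_lit 60349589352) (nat_lit 76) (nat_lit 33403451425) (nat_lit 6) (nat_lit 4) (nat_lit 7) (nat_lit 5) (nat_lit 7) (nat_lit 4) (nat_lit 352) (nat_lit 253) (nat_lit 175)))) (XT.nd (nat_lit 156) (nat_lit 0) (nat_lit 0) (XT.nd (nat_lit 78) (nat_lit 0) (nat_lit 0) (XT.lf (nat_lit 0) (nat_lit 31932710642) (nat_lit 76) (nat_lit 53759327279) (nat_lit 76) (nat_lit 26783996137) (nat_lit 6) (nat_lit 4) (nat_lit 7) (nat_lit 5) (nat_lit 7) (nat_lit 4) (nat_lit 353) (nat_lit 253) (nat_lit 174)) (XT.lf (nat_lit 0) (nat_lit 51108122615) (nat_lit 76) (nat_lit 46855864001) (nat_lit 76) (nat_lit 19852729799) (nat_lit 6) (nat_lit 4) (nat_lit 7) (nat_lit 5) (nat_lit 7) (nat_lit 4) (nat_lit 354) (nat_lit 253)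 (nat_lit 173))) (XT.nd (nat_lit 78) (nat_lit 0) (nat_lit 0) (XT.lf (nat_lit 0) (nat_lit 71209056290) (nat_lit 76) (nat_lit 39622762703) (nat_lit 76) (nat_lit 12593149395) (nat_lit 6) (nat_lit 4) (nat_lit 7) (nat_lit 5) (nat_lit 7) (nat_lit 4) (nat_lit 355) (nat_lit 253) (nat_lit 172)) (XT.lf (nat_lit 0) (nat_lit 92283371035) (nat_lit 76) (nat_lit 32042801714) (nat_lit 76) (nat_lit 4987970210) (nat_lit 6) (nat_lit 4) (nat_lit 7) (nat_lit 5) (nat_lit 7) (nat_lit 4) (nat_lit 356) (nat_lit 253) (nat_lit 171))))) (XT.nd (nat_lit 234) (nat_lit 0) (nat_lit 0) (XT.nd (nat_lit 78) (nat_lit 76) (nat_lit 0) (XT.lf (nat_lit 0) (nat_lit 2922746930) (nat_lit 152) (nat_lit 21145672564) (nat_lit 76) (nat_lit 111428982844) (nat_lit 5) (nat_lit 5) (nat_lit 7) (nat_lit 5) (nat_lit 6) (nat_lit 4) (nat_lit 357) (nat_lit 253) (nat_lit 170)) (XT.nd (nat_lit 78) (nat_lit 76) (nat_lit 0) (XT.lf (nat_lit 0) (nat_lit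 11111343231) (nat_lit 152) (nat_lit 4545695721) (nat_lit 76) (nat_lit 126331742522) (nat_lit 5) (nat_lit 5) (nat_lit 7) (nat_lit 5) (nat_lit 6) (nat_lit 4) (nat_lit 358) (nat_lit 253) (nat_lit 169)) (XT.lf (nat_lit 0) (nat_lit 13112501921) (nat_lit 76) (nat_lit 6708192082) (nat_lit 152) (nat_lit 128980699086) (nat_lit 4) (nat_lit 5) (nat_lit 5) (nat_lit 5) (nat_lit 6) (nat_lit 4) (nat_lit 359) (nat_lit 253) (nat_lit 168)))) (XT.nd (nat_lit 156) (nat_lit 0) (nat_lit 0) (XT.nd (nat_lit 78) (nat_lit 0) (nat_lit 0) (XT.lf (nat_lit 0) (nat_lit 29024210342) (nat_lit 152) (nat_lit 124258101409) (nat_lit 0) (nat_lit 2670565702) (nat_lit 4) (nat_lit 5) (nat_lit 6) (nat_lit 4) (nat_lit 4) (nat_lit 4) (nat_lit 360) (nat_lit 253) (nat_lit 167)) (XT.lf (nat_lit 0) (nat_lit 38741896723) (nat_lit 152) (nat_lit 112349353969) (nat_lit 0) (nat_lit 12369068475) (nat_lit 4) (nat_lit 5) (nat_lit 6) (nat_lit 4)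 (nat_lit 4) (nat_lit 4) (nat_lit 361) (nat_lit 253) (nat_lit 166))) (XT.nd (nat_lit 78) (nat_lit 0) (nat_lit 0) (XT.lf (nat_lit 0) (nat_lit 48932407251) (nat_lit 152) (nat_lit 99869811441) (nat_lit 0) (nat_lit 22541308900) (nat_lit 4) (nat_lit 5) (nat_lit 6) (nat_lit 4) (nat_lit 4) (nat_lit 4) (nat_lit 362) (nat_lit 253) (nat_lit 165)) (XT.lf (nat_lit 0) (nat_lit 59620005045) (nat_lit 152) (nat_lit 86789760630) (nat_lit 0) (nat_lit 33211506596) (nat_lit 4) (nat_lit 5) (nat_lit 6) (nat_lit 4) (nat_lit 4) (nat_lit 4) (nat_lit 363) (nat_lit 253) (nat_lit 164))))))))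
noncomputable def xc39 : XT := (XT.nd (nat_lit 35568) (nat_lit 0) (nat_lit 988) (XT.nd (nat_lit 34476) (nat_lit 0) (nat_lit 4484) (XT.nd (nat_lit 33930) (nat_lit 0) (nat_lit 9348) (XT.nd (nat_lit 33618) (nat_lit 0) (nat_lit 13604) (XT.nd (nat_lit 33462) (nat_lit 0) (nat_lit 17708) (XT.lf (nat_lit 0) (nat_lit 70830136768) (nat_lit 152) (nat_lit 73078058556) (nat_lit 0) (nat_lit 44405066797) (nat_lit 4) (nat_lit 5) (nat_lit 6) (nat_lit 4) (nat_lit 4) (nat_lit 4) (nat_lit 364) (nat_lit 253) (nat_lit 163)) (XT.nd (nat_lit 78) (nat_lit 988) (nat_lit 0) (XT.lf (nat_lit 0) (nat_lit 216999372) (nat_lit 836) (nat_lit 1612924591) (nat_lit 836) (nat_lit 1612924591) (nat_lit 250) (nat_lit 4) (nat_lit 261) (nat_lit 5) (nat_lit 261) (nat_lit 4) (nat_lit 272) (nat_lit 254) (nat_lit 254)) (XT.lf (nat_lit 0) (nat_lit 899977937) (nat_lit 912) (nat_lit 1051167297) (nat_lit 988) (nat_lit 5014171424) (nat_lit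 237) (nat_lit 5) (nat_lit 249) (nat_lit 5) (nat_lit 250) (nat_lit 4) (nat_lit 273) (nat_lit 254) (nat_lit 253)))) (XT.nd (nat_lit 156) (nat_lit 1976) (nat_lit 0) (XT.nd (nat_lit 78) (nat_lit 1064) (nat_lit 0) (XT.lf (nat_lit 0) (nat_lit 91110570) (nat_lit 1064) (nat_lit 5616928226) (nat_lit 76) (nat_lit 1345542380) (nat_lit 223) (nat_lit 5) (nat_lit 237) (nat_lit 5) (nat_lit 224) (nat_lit 4) (nat_lit 274) (nat_lit 254) (nat_lit 252)) (XT.lf (nat_lit 0) (nat_lit 2022857444) (nat_lit 1064) (nat_lit 3159485418) (nat_lit 1140) (nat_lit 1967798883) (nat_lit 209) (nat_lit 5) (nat_lit 223) (nat_lit 5) (nat_lit 224) (nat_lit 4) (nat_lit 275) (nat_lit 254) (nat_lit 251))) (XT.nd (nat_lit 78) (nat_lit 760) (nat_lit 0) (XT.lf (nat_lit 0) (nat_lit 2683415740) (nat_lit 1140) (nat_lit 360928122) (nat_lit 1216) (nat_lit 4211664666) (nat_lit 193) (nat_lit 5) (nat_lit 208) (nat_lit 5) (nat_lit 209) (nat_lit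 5) (nat_lit 276) (nat_lit 254) (nat_lit 250)) (XT.lf (nat_lit 0) (nat_lit 748915827) (nat_lit 760) (nat_lit 3980480855) (nat_lit 76) (nat_lit 2641273356) (nat_lit 183) (nat_lit 5) (nat_lit 193) (nat_lit 5) (nat_lit 184) (nat_lit 5) (nat_lit 277) (nat_lit 254) (nat_lit 249))))) (XT.nd (nat_lit 234) (nat_lit 2432) (nat_lit 0) (XT.nd (nat_lit 78) (nat_lit 1216) (nat_lit 0) (XT.lf (nat_lit 0) (nat_lit 4143777704) (nat_lit 608) (nat_lit 1582247253) (nat_lit 684) (nat_lit 1768449366) (nat_lit 175) (nat_lit 5) (nat_lit 183) (nat_lit 5) (nat_lit 184) (nat_lit 5) (nat_lit 278) (nat_lit 254) (nat_lit 248)) (XT.nd (nat_lit 78) (nat_lit 608) (nat_lit 0) (XT.lf (nat_lit 0) (nat_lit 3139349930) (nat_lit 608) (nat_lit 2692450705) (nat_lit 76) (nat_lit 1795709778) (nat_lit 167) (nat_lit 5) (nat_lit 175) (nat_lit 5) (nat_lit 168) (nat_lit 5) (nat_lit 279) (nat_lit 254) (nat_lit 247)) (XT.lf (nat_lit 0) (nat_lit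 363609258) (nat_lit 608) (nat_lit 2001519158) (nat_lit 76) (nat_lit 5405168653) (nat_lit 159) (nat_lit 5) (nat_lit 167) (nat_lit 5) (nat_lit 160) (nat_lit 5) (nat_lit 280) (nat_lit 254) (nat_lit 246)))) (XT.nd (nat_lit 156) (nat_lit 1368) (nat_lit 0) (XT.nd (nat_lit 78) (nat_lit 608) (nat_lit 0) (XT.lf (nat_lit 0) (nat_lit 5255619565) (nat_lit 532) (nat_lit 1304954287) (nat_lit 76) (nat_lit 1361869583) (nat_lit 153) (nat_lit 5) (nat_lit 160) (nat_lit 5) (nat_lit 154) (nat_lit 5) (nat_lit 281) (nat_lit 254) (nat_lit 245)) (XT.lf (nat_lit 0) (nat_lit 2172912239) (nat_lit 608) (nat_lit 598129635) (nat_lit 76) (nat_lit 5313497940) (nat_lit 145) (nat_lit 5) (nat_lit 153) (nat_lit 5) (nat_lit 146) (nat_lit 5) (nat_lit 282) (nat_lit 254) (nat_lit 244))) (XT.nd (nat_lit 78) (nat_lit 456) (nat_lit 0) (XT.lf (nat_lit 0) (nat_lit 120263155) (nat_lit 456) (nat_lit 6985206176) (nat_lit 532) (nat_lit 1151535661)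 (nat_lit 133) (nat_lit 5) (nat_lit 139) (nat_lit 5) (nat_lit 140) (nat_lit 5) (nat_lit 283) (nat_lit 254) (nat_lit 243)) (XT.lf (nat_lit 0) (nat_lit 825754904) (nat_lit 380) (nat_lit 2878523080) (nat_lit 456) (nat_lit 4734940846) (nat_lit 127) (nat_lit 5) (nat_lit 132) (nat_lit 5) (nat_lit 133) (nat_lit 5) (nat_lit 284) (nat_lit 254) (nat_lit 242)))))) (XT.nd (nat_lit 546) (nat_lit 2052) (nat_lit 0) (XT.nd (nat_lit 234) (nat_lit 1444) (nat_lit 0) (XT.nd (nat_lit 78) (nat_lit 836) (nat_lit 0) (XT.lf (nat_lit 0) (nat_lit 65287116) (nat_lit 532) (nat_lit 7096660415) (nat_lit 76) (nat_lit 1470832621) (nat_lit 120) (nat_lit 5) (nat_lit 127) (nat_lit 5) (nat_lit 121) (nat_lit 5) (nat_lit 285) (nat_lit 254) (nat_lit 241)) (XT.nd (nat_lit 78) (nat_lit 456) (nat_lit 0) (XT.lf (nat_lit 0) (nat_lit 2191495398) (nat_lit 380) (nat_lit 2758105515) (nat_lit 456) (nat_lit 3886944164) (nat_lit 115) (nat_lit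 5) (nat_lit 120) (nat_lit 5) (nat_lit 121) (nat_lit 5) (nat_lit 286) (nat_lit 254) (nat_lit 240)) (XT.lf (nat_lit 0) (nat_lit 943795599) (nat_lit 456) (nat_lit 6221431856) (nat_lit 76) (nat_lit 1887065455) (nat_lit 109) (nat_lit 5) (nat_lit 115) (nat_lit 5) (nat_lit 110) (nat_lit 5) (nat_lit 287) (nat_lit 254) (nat_lit 239)))) (XT.nd (nat_lit 156) (nat_lit 684) (nat_lit 0) (XT.nd (nat_lit 78) (nat_lit 456) (nat_lit 0) (XT.lf (nat_lit 0) (nat_lit 3404095884) (nat_lit 304) (nat_lit 2484492938) (nat_lit 380) (nat_lit 3390666685) (nat_lit 105) (nat_lit 5) (nat_lit 109) (nat_lit 5) (nat_lit 110) (nat_lit 5) (nat_lit 288) (nat_lit 254) (nat_lit 238)) (XT.lf (nat_lit 0) (nat_lit 1486067266) (nat_lit 456) (nat_lit 5590625857) (nat_lit 76) (nat_lit 2441973285) (nat_lit 99) (nat_lit 5) (nat_lit 105) (nat_lit 5) (nat_lit 100) (nat_lit 5) (nat_lit 289) (nat_lit 254) (nat_lit 237))) (XT.nd (nat_lit 78)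 (nat_lit 380) (nat_lit 0) (XT.lf (nat_lit 0) (nat_lit 4369395882) (nat_lit 304) (nat_lit 2128301951) (nat_lit 380) (nat_lit 3272656230) (nat_lit 95) (nat_lit 5) (nat_lit 99) (nat_lit 5) (nat_lit 100) (nat_lit 5) (nat_lit 290) (nat_lit 254) (nat_lit 236)) (XT.lf (nat_lit 0) (nat_lit 1661983367) (nat_lit 380) (nat_lit 5307718787) (nat_lit 76) (nat_lit 3065453075) (nat_lit 90) (nat_lit 5) (nat_lit 95) (nat_lit 5) (nat_lit 91) (nat_lit 5) (nat_lit 291) (nat_lit 254) (nat_lit 235))))) (XT.nd (nat_lit 234) (nat_lit 1140) (nat_lit 0) (XT.nd (nat_lit 78) (nat_lit 608) (nat_lit 0) (XT.lf (nat_lit 0) (nat_lit 4979336808) (nat_lit 304) (nat_lit 1763945759) (nat_lit 380) (nat_lit 3570044566) (nat_lit 86) (nat_lit 5) (nat_lit 90) (nat_lit 5) (nat_lit 91) (nat_lit 5) (nat_lit 292) (nat_lit 254) (nat_lit 234)) (XT.nd (nat_lit 78) (nat_lit 228) (nat_lit 0) (XT.lf (nat_lit 0) (nat_lit 1430572043) (nat_lit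 380) (nat_lit 5492076976) (nat_lit 76) (nat_lit 3682872537) (nat_lit 81) (nat_lit 5) (nat_lit 86) (nat_lit 5) (nat_lit 82) (nat_lit 5) (nat_lit 293) (nat_lit 254) (nat_lit 233)) (XT.lf (nat_lit 0) (nat_lit 5108725418) (nat_lit 228) (nat_lit 1471633502) (nat_lit 304) (nat_lit 4331832607) (nat_lit 78) (nat_lit 5) (nat_lit 81) (nat_lit 5) (nat_lit 82) (nat_lit 5) (nat_lit 294) (nat_lit 254) (nat_lit 232)))) (XT.nd (nat_lit 156) (nat_lit 532) (nat_lit 0) (XT.nd (nat_lit 78) (nat_lit 228) (nat_lit 0) (XT.lf (nat_lit 0) (nat_lit 738610578) (nat_lit 380) (nat_lit 6282462075) (nat_lit 76) (nat_lit 4213015624) (nat_lit 73) (nat_lit 5) (nat_lit 78) (nat_lit 5) (nat_lit 74) (nat_lit 5) (nat_lit 295) (nat_lit 254) (nat_lit 231)) (XT.lf (nat_lit 0) (nat_lit 4611509266) (nat_lit 228) (nat_lit 1339572176) (nat_lit 304) (nat_lit 5620470562) (nat_lit 70) (nat_lit 5) (nat_lit 73) (nat_lit 5) (nat_lit 74) (nat_lit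 5) (nat_lit 296) (nat_lit 254) (nat_lit 230))) (XT.nd (nat_lit 78) (nat_lit 304) (nat_lit 0) (XT.lf (nat_lit 0) (nat_lit 4079867297) (nat_lit 228) (nat_lit 7355138724) (nat_lit 304) (nat_lit 490654808) (nat_lit 67) (nat_lit 5) (nat_lit 70) (nat_lit 5) (nat_lit 71) (nat_lit 5) (nat_lit 297) (nat_lit 254) (nat_lit 229)) (XT.lf (nat_lit 0) (nat_lit 3316470513) (nat_lit 228) (nat_lit 1466423859) (nat_lit 304) (nat_lit 7513775210) (nat_lit 63) (nat_lit 5) (nat_lit 66) (nat_lit 5) (nat_lit 67) (nat_lit 5) (nat_lit 298) (nat_lit 254) (nat_lit 228))))))) (XT.nd (nat_lit 1092) (nat_lit 1216) (nat_lit 0) (XT.nd (nat_lit 546) (nat_lit 912) (nat_lit 0) (XT.nd (nat_lit 234) (nat_lit 912) (nat_lit 0) (XT.nd (nat_lit 78) (nat_lit 228) (nat_lit 0) (XT.lf (nat_lit 0) (nat_lit 2304711491) (nat_lit 228) (nat_lit 8023215098) (nat_lit 304) (nat_lit 2357703109) (nat_lit 60) (nat_lit 5) (nat_lit 63) (nat_lit 5)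 (nat_lit 64) (nat_lit 5) (nat_lit 299) (nat_lit 254) (nat_lit 227)) (XT.nd (nat_lit 78) (nat_lit 0) (nat_lit 0) (XT.lf (nat_lit 0) (nat_lit 1022229617) (nat_lit 152) (nat_lit 1964077862) (nat_lit 228) (nat_lit 10107234684) (nat_lit 57) (nat_lit 5) (nat_lit 59) (nat_lit 5) (nat_lit 60) (nat_lit 5) (nat_lit 300) (nat_lit 254) (nat_lit 226)) (XT.lf (nat_lit 0) (nat_lit 8574702547) (nat_lit 228) (nat_lit 573473832) (nat_lit 76) (nat_lit 4372270298) (nat_lit 57) (nat_lit 5) (nat_lit 60) (nat_lit 5) (nat_lit 58) (nat_lit 5) (nat_lit 301) (nat_lit 254) (nat_lit 225)))) (XT.nd (nat_lit 156) (nat_lit 456) (nat_lit 0) (XT.nd (nat_lit 78) (nat_lit 152) (nat_lit 0) (XT.lf (nat_lit 0) (nat_lit 476352553) (nat_lit 304) (nat_lit 2459615930) (nat_lit 76) (nat_lit 11032307388) (nat_lit 53) (nat_lit 5) (nat_lit 57) (nat_lit 5) (nat_lit 54) (nat_lit 5) (nat_lit 302) (nat_lit 254) (nat_lit 224)) (XT.lf (nat_lit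 0) (nat_lit 6086797805) (nat_lit 228) (nat_lit 4752106381) (nat_lit 76) (nat_lit 3597603540) (nat_lit 51) (nat_lit 5) (nat_lit 54) (nat_lit 5) (nat_lit 52) (nat_lit 5) (nat_lit 303) (nat_lit 254) (nat_lit 223))) (XT.nd (nat_lit 78) (nat_lit 228) (nat_lit 0) (XT.lf (nat_lit 0) (nat_lit 7490989304) (nat_lit 228) (nat_lit 4500997897) (nat_lit 304) (nat_lit 2935800284) (nat_lit 48) (nat_lit 5) (nat_lit 51) (nat_lit 5) (nat_lit 52) (nat_lit 5) (nat_lit 304) (nat_lit 254) (nat_lit 222)) (XT.lf (nat_lit 0) (nat_lit 2702330664) (nat_lit 228) (nat_lit 10574542270) (nat_lit 76) (nat_lit 2165808875) (nat_lit 45) (nat_lit 5) (nat_lit 48) (nat_lit 5) (nat_lit 46) (nat_lit 5) (nat_lit 305) (nat_lit 254) (nat_lit 221))))) (XT.nd (nat_lit 234) (nat_lit 532) (nat_lit 0) (XT.nd (nat_lit 78) (nat_lit 228) (nat_lit 0) (XT.lf (nat_lit 0) (nat_lit 1741608848) (nat_lit 152) (nat_lit 6852505837) (nat_lit 228) (nat_lit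 7387415692) (nat_lit 43) (nat_lit 5) (nat_lit 45) (nat_lit 5) (nat_lit 46) (nat_lit 5) (nat_lit 306) (nat_lit 254) (nat_lit 220)) (XT.nd (nat_lit 78) (nat_lit 228) (nat_lit 0) (XT.lf (nat_lit 0) (nat_lit 14720418923) (nat_lit 152) (nat_lit 64788524) (nat_lit 228) (nat_lit 1762025150) (nat_lit 43) (nat_lit 5) (nat_lit 45) (nat_lit 5) (nat_lit 46) (nat_lit 5) (nat_lit 307) (nat_lit 254) (nat_lit 219)) (XT.lf (nat_lit 0) (nat_lit 4140084280) (nat_lit 228) (nat_lit 5990405509) (nat_lit 76) (nat_lit 7007293960) (nat_lit 40) (nat_lit 5) (nat_lit 43) (nat_lit 5) (nat_lit 41) (nat_lit 5) (nat_lit 308) (nat_lit 254) (nat_lit 218)))) (XT.nd (nat_lit 156) (nat_lit 228) (nat_lit 0) (XT.nd (nat_lit 78) (nat_lit 152) (nat_lit 0) (XT.lf (nat_lit 0) (nat_lit 7003815110) (nat_lit 152) (nat_lit 3286712840) (nat_lit 228) (nat_lit 7467167536) (nat_lit 38) (nat_lit 5) (nat_lit 40) (nat_lit 5) (nat_lit 41) (nat_lit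 5) (nat_lit 309) (nat_lit 254) (nat_lit 217)) (XT.lf (nat_lit 0) (nat_lit 2208284407) (nat_lit 152) (nat_lit 14566025913) (nat_lit 228) (nat_lit 1633562282) (nat_lit 36) (nat_lit 5) (nat_lit 38) (nat_lit 5) (nat_lit 39) (nat_lit 4) (nat_lit 310) (nat_lit 254) (nat_lit 216))) (XT.nd (nat_lit 78) (nat_lit 152) (nat_lit 0) (XT.lf (nat_lit 0) (nat_lit 4455932669) (nat_lit 228) (nat_lit 3281517708) (nat_lit 76) (nat_lit 11350298059) (nat_lit 35) (nat_lit 5) (nat_lit 38) (nat_lit 5) (nat_lit 36) (nat_lit 5) (nat_lit 311) (nat_lit 254) (nat_lit 215)) (XT.lf (nat_lit 0) (nat_lit 10314755684) (nat_lit 152) (nat_lit 512149600) (nat_lit 228) (nat_lit 8973942938) (nat_lit 33) (nat_lit 5) (nat_lit 35) (nat_lit 5) (nat_lit 36) (nat_lit 5) (nat_lit 312) (nat_lit 254) (nat_lit 214)))))) (XT.nd (nat_lit 546) (nat_lit 608) (nat_lit 0) (XT.nd (nat_lit 234) (nat_lit 304) (nat_lit 0) (XT.nd (nat_lit 78) (nat_lit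 228) (nat_lit 0) (XT.lf (nat_lit 0) (nat_lit 3969819802) (nat_lit 76) (nat_lit 13600407833) (nat_lit 152) (nat_lit 2977798475) (nat_lit 32) (nat_lit 5) (nat_lit 33) (nat_lit 5) (nat_lit 34) (nat_lit 4) (nat_lit 313) (nat_lit 254) (nat_lit 213)) (XT.nd (nat_lit 78) (nat_lit 152) (nat_lit 0) (XT.lf (nat_lit 0) (nat_lit 3272565652) (nat_lit 152) (nat_lit 3218456183) (nat_lit 76) (nat_lit 14840043672) (nat_lit 31) (nat_lit 5) (nat_lit 33) (nat_lit 5) (nat_lit 32) (nat_lit 5) (nat_lit 314) (nat_lit 254) (nat_lit 212)) (XT.lf (nat_lit 0) (nat_lit 9808255622) (nat_lit 228) (nat_lit 11311358822) (nat_lit 76) (nat_lit 1031758852) (nat_lit 29) (nat_lit 5) (nat_lit 32) (nat_lit 5) (nat_lit 30) (nat_lit 4) (nat_lit 315) (nat_lit 254) (nat_lit 211)))) (XT.nd (nat_lit 156) (nat_lit 152) (nat_lit 0) (XT.nd (nat_lit 78) (nat_lit 76) (nat_lit 0) (XT.lf (nat_lit 0) (nat_lit 2501627500) (nat_lit 76) (nat_lit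 14213492911) (nat_lit 152) (nat_lit 6296275506) (nat_lit 28) (nat_lit 5) (nat_lit 29) (nat_lit 5) (nat_lit 30) (nat_lit 4) (nat_lit 316) (nat_lit 254) (nat_lit 210)) (XT.lf (nat_lit 0) (nat_lit 92507796) (nat_lit 152) (nat_lit 6806853771) (nat_lit 76) (nat_lit 17013852705) (nat_lit 27) (nat_lit 5) (nat_lit 29) (nat_lit 5) (nat_lit 28) (nat_lit 5) (nat_lit 317) (nat_lit 254) (nat_lit 209))) (XT.nd (nat_lit 78) (nat_lit 0) (nat_lit 0) (XT.lf (nat_lit 0) (nat_lit 6679169853) (nat_lit 228) (nat_lit 17331314172) (nat_lit 76) (nat_lit 847537085) (nat_lit 25) (nat_lit 5) (nat_lit 28) (nat_lit 5) (nat_lit 26) (nat_lit 4) (nat_lit 318) (nat_lit 254) (nat_lit 208)) (XT.lf (nat_lit 0) (nat_lit 13664025200) (nat_lit 228) (nat_lit 3326460087) (nat_lit 76) (nat_lit 8857543325) (nat_lit 25) (nat_lit 5) (nat_lit 28) (nat_lit 5) (nat_lit 26) (nat_lit 4) (nat_lit 319) (nat_lit 254) (nat_lit 207))))) (XT.nd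 (nat_lit 234) (nat_lit 304) (nat_lit 0) (XT.nd (nat_lit 78) (nat_lit 228) (nat_lit 0) (XT.lf (nat_lit 0) (nat_lit 11481392283) (nat_lit 76) (nat_lit 9558962852) (nat_lit 152) (nat_lit 5845939281) (nat_lit 24) (nat_lit 5) (nat_lit 25) (nat_lit 5) (nat_lit 26) (nat_lit 4) (nat_lit 320) (nat_lit 254) (nat_lit 206)) (XT.nd (nat_lit 78) (nat_lit 152) (nat_lit 0) (XT.lf (nat_lit 0) (nat_lit 761123769) (nat_lit 152) (nat_lit 1003573132) (nat_lit 76) (nat_lit 26212529828) (nat_lit 23) (nat_lit 5) (nat_lit 25) (nat_lit 5) (nat_lit 24) (nat_lit 5) (nat_lit 321) (nat_lit 254) (nat_lit 205)) (XT.lf (nat_lit 0) (nat_lit 7715120351) (nat_lit 228) (nat_lit 14959055082) (nat_lit 76) (nat_lit 6442691217) (nat_lit 21) (nat_lit 5) (nat_lit 24) (nat_lit 5) (nat_lit 22) (nat_lit 4) (nat_lit 322) (nat_lit 254) (nat_lit 204)))) (XT.nd (nat_lit 156) (nat_lit 228) (nat_lit 0) (XT.nd (nat_lit 78) (nat_lit 76) (nat_lit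 0) (XT.lf (nat_lit 0) (nat_lit 14983035736) (nat_lit 228) (nat_lit 344488964) (nat_lit 76) (nat_lit 14986998167) (nat_lit 21) (nat_lit 5) (nat_lit 24) (nat_lit 5) (nat_lit 22) (nat_lit 4) (nat_lit 323) (nat_lit 254) (nat_lit 203)) (XT.lf (nat_lit 0) (nat_lit 15190917104) (nat_lit 76) (nat_lit 7510382055) (nat_lit 152) (nat_lit 8868174042) (nat_lit 20) (nat_lit 5) (nat_lit 21) (nat_lit 5) (nat_lit 22) (nat_lit 4) (nat_lit 324) (nat_lit 254) (nat_lit 202))) (XT.nd (nat_lit 78) (nat_lit 228) (nat_lit 0) (XT.lf (nat_lit 0) (nat_lit 30758068789) (nat_lit 152) (nat_lit 1488077832) (nat_lit 0) (nat_lit 642465570) (nat_lit 20) (nat_lit 5) (nat_lit 22) (nat_lit 4) (nat_lit 20) (nat_lit 4) (nat_lit 325) (nat_lit 254) (nat_lit 201)) (XT.lf (nat_lit 0) (nat_lit 5006872228) (nat_lit 228) (nat_lit 20068482113) (nat_lit 76) (nat_lit 9192164212) (nat_lit 17) (nat_lit 5) (nat_lit 20) (nat_lit 5) (nat_lit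 18) (nat_lit 4) (nat_lit 326) (nat_lit 254) (nat_lit 200))))))))
noncomputable def xc40 : XT := (XT.nd (nat_lit 2106) (nat_lit 152) (nat_lit 0) (XT.nd (nat_lit 1014) (nat_lit 304) (nat_lit 0) (XT.nd (nat_lit 468) (nat_lit 304) (nat_lit 0) (XT.nd (nat_lit 234) (nat_lit 152) (nat_lit 0) (XT.nd (nat_lit 78) (nat_lit 76) (nat_lit 0) (XT.lf (nat_lit 0) (nat_lit 12419171103) (nat_lit 228) (nat_lit 5132781606) (nat_lit 76) (nat_lit 18163939098) (nat_lit 17) (nat_lit 5) (nat_lit 20) (nat_lit 5) (nat_lit 18) (nat_lit 4) (nat_lit 327) (nat_lit 254) (nat_lit 199)) (XT.nd (nat_lit 78) (nat_lit 0) (nat_lit 0) (XT.lf (nat_lit 0) (nat_lit 10664649611) (nat_lit 76) (nat_lit 9588708208) (nat_lit 152) (nat_lit 16981803592) (nat_lit 16) (nat_lit 5) (nat_lit 17) (nat_lit 5) (nat_lit 18) (nat_lit 4) (nat_lit 328) (nat_lit 254) (nat_lit 198)) (XT.lf (nat_lit 0) (nat_lit 27268722800) (nat_lit 76) (nat_lit 1213696556)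 (nat_lit 152) (nat_lit 10347895294) (nat_lit 16) (nat_lit 5) (nat_lit 17) (nat_lit 5) (nat_lit 18) (nat_lit 4) (nat_lit 329) (nat_lit 254) (nat_lit 197)))) (XT.nd (nat_lit 78) (nat_lit 76) (nat_lit 0) (XT.lf (nat_lit 0) (nat_lit 4118026891) (nat_lit 76) (nat_lit 33069675980) (nat_lit 76) (nat_lit 3315594012) (nat_lit 15) (nat_lit 4) (nat_lit 16) (nat_lit 5) (nat_lit 16) (nat_lit 4) (nat_lit 330) (nat_lit 254) (nat_lit 196)) (XT.nd (nat_lit 78) (nat_lit 0) (nat_lit 0) (XT.lf (nat_lit 0) (nat_lit 4074684099) (nat_lit 152) (nat_lit 21571346047) (nat_lit 76) (nat_lit 16610165696) (nat_lit 14) (nat_lit 5) (nat_lit 16) (nat_lit 5) (nat_lit 15) (nat_lit 4) (nat_lit 331) (nat_lit 254) (nat_lit 195)) (XT.lf (nat_lit 0) (nat_lit 11722070058) (nat_lit 152) (nat_lit 6131793313) (nat_lit 76) (nat_lit 26243219264) (nat_lit 14) (nat_lit 5) (nat_lit 16) (nat_lit 5) (nat_lit 15) (nat_lit 4) (nat_lit 332)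 (nat_lit 254) (nat_lit 194))))) (XT.nd (nat_lit 234) (nat_lit 228) (nat_lit 0) (XT.nd (nat_lit 78) (nat_lit 0) (nat_lit 0) (XT.lf (nat_lit 0) (nat_lit 10201080389) (nat_lit 76) (nat_lit 9606449744) (nat_lit 152) (nat_lit 26220824566) (nat_lit 13) (nat_lit 5) (nat_lit 14) (nat_lit 5) (nat_lit 15) (nat_lit 4) (nat_lit 333) (nat_lit 254) (nat_lit 193)) (XT.nd (nat_lit 78) (nat_lit 0) (nat_lit 0) (XT.lf (nat_lit 0) (nat_lit 27403245460) (nat_lit 76) (nat_lit 916076169) (nat_lit 152) (nat_lit 19736218485) (nat_lit 13) (nat_lit 5) (nat_lit 14) (nat_lit 5) (nat_lit 15) (nat_lit 4) (nat_lit 334) (nat_lit 254) (nat_lit 192)) (XT.lf (nat_lit 0) (nat_lit 37296188096) (nat_lit 152) (nat_lit 4870237254) (nat_lit 0) (nat_lit 8016485842) (nat_lit 13) (nat_lit 5) (nat_lit 15) (nat_lit 4) (nat_lit 13) (nat_lit 4) (nat_lit 335) (nat_lit 254) (nat_lit 191)))) (XT.nd (nat_lit 156) (nat_lit 76) (nat_lit 0) (XT.nd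 (nat_lit 78) (nat_lit 76) (nat_lit 0) (XT.lf (nat_lit 0) (nat_lit 11853686792) (nat_lit 76) (nat_lit 34953856667) (nat_lit 76) (nat_lit 5606548428) (nat_lit 12) (nat_lit 4) (nat_lit 13) (nat_lit 5) (nat_lit 13) (nat_lit 4) (nat_lit 336) (nat_lit 254) (nat_lit 190)) (XT.lf (nat_lit 0) (nat_lit 2011729718) (nat_lit 152) (nat_lit 25327883564) (nat_lit 76) (nat_lit 27416224682) (nat_lit 11) (nat_lit 5) (nat_lit 13) (nat_lit 5) (nat_lit 12) (nat_lit 4) (nat_lit 337) (nat_lit 254) (nat_lit 189))) (XT.nd (nat_lit 78) (nat_lit 76) (nat_lit 0) (XT.lf (nat_lit 0) (nat_lit 9861023966) (nat_lit 152) (nat_lit 9455136862) (nat_lit 76) (nat_lit 37897872764) (nat_lit 11) (nat_lit 5) (nat_lit 13) (nat_lit 5) (nat_lit 12) (nat_lit 4) (nat_lit 338) (nat_lit 254) (nat_lit 188)) (XT.lf (nat_lit 0) (nat_lit 7291810320) (nat_lit 76) (nat_lit 10847710086) (nat_lit 152) (nat_lit 41654525220) (nat_lit 10) (nat_lit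 5) (nat_lit 11) (nat_lit 5) (nat_lit 12) (nat_lit 4) (nat_lit 339) (nat_lit 254) (nat_lit 187)))))) (XT.nd (nat_lit 546) (nat_lit 152) (nat_lit 0) (XT.nd (nat_lit 234) (nat_lit 152) (nat_lit 0) (XT.nd (nat_lit 78) (nat_lit 0) (nat_lit 0) (XT.lf (nat_lit 0) (nat_lit 25013732449) (nat_lit 76) (nat_lit 1883197682) (nat_lit 152) (nat_lit 35604186809) (nat_lit 10) (nat_lit 5) (nat_lit 11) (nat_lit 5) (nat_lit 12) (nat_lit 4) (nat_lit 340) (nat_lit 254) (nat_lit 186)) (XT.nd (nat_lit 78) (nat_lit 0) (nat_lit 0) (XT.lf (nat_lit 0) (nat_lit 36133532447) (nat_lit 152) (nat_lit 21851950805) (nat_lit 0) (nat_lit 7356826839) (nat_lit 10) (nat_lit 5) (nat_lit 12) (nat_lit 4) (nat_lit 10) (nat_lit 4) (nat_lit 341) (nat_lit 254) (nat_lit 185)) (XT.lf (nat_lit 0) (nat_lit 45821394885) (nat_lit 152) (nat_lit 5508782645) (nat_lit 0) (nat_lit 16995710028) (nat_lit 10) (nat_lit 5) (nat_lit 12) (nat_lit 4) (nat_lit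 10) (nat_lit 4) (nat_lit 342) (nat_lit 254) (nat_lit 184)))) (XT.nd (nat_lit 156) (nat_lit 76) (nat_lit 0) (XT.nd (nat_lit 78) (nat_lit 0) (nat_lit 0) (XT.lf (nat_lit 0) (nat_lit 11829980267) (nat_lit 76) (nat_lit 44249218077) (nat_lit 76) (nat_lit 15376886316) (nat_lit 9) (nat_lit 4) (nat_lit 10) (nat_lit 5) (nat_lit 10) (nat_lit 4) (nat_lit 343) (nat_lit 254) (nat_lit 183)) (XT.lf (nat_lit 0) (nat_lit 30099891799) (nat_lit 76) (nat_lit 36779391164) (nat_lit 76) (nat_lit 7862633779) (nat_lit 9) (nat_lit 4) (nat_lit 10) (nat_lit 5) (nat_lit 10) (nat_lit 4) (nat_lit 344) (nat_lit 254) (nat_lit 182))) (XT.nd (nat_lit 78) (nat_lit 0) (nat_lit 0) (XT.lf (nat_lit 0) (nat_lit 517805) (nat_lit 152) (nat_lit 28958016357) (nat_lit 76) (nat_lit 49234293129) (nat_lit 8) (nat_lit 5) (nat_lit 10) (nat_lit 5) (nat_lit 9) (nat_lit 4) (nat_lit 345) (nat_lit 254) (nat_lit 181)) (XT.lf (nat_lit 0) (nat_lit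 8070698443) (nat_lit 152) (nat_lit 12615845012) (nat_lit 76) (nat_lit 61128116030) (nat_lit 8) (nat_lit 5) (nat_lit 10) (nat_lit 5) (nat_lit 9) (nat_lit 4) (nat_lit 346) (nat_lit 254) (nat_lit 180))))) (XT.nd (nat_lit 234) (nat_lit 76) (nat_lit 0) (XT.nd (nat_lit 78) (nat_lit 0) (nat_lit 0) (XT.lf (nat_lit 0) (nat_lit 4588517984) (nat_lit 76) (nat_lit 11976140813) (nat_lit 152) (nat_lit 69052322119) (nat_lit 7) (nat_lit 5) (nat_lit 8) (nat_lit 5) (nat_lit 9) (nat_lit 4) (nat_lit 347) (nat_lit 254) (nat_lit 179)) (XT.nd (nat_lit 78) (nat_lit 0) (nat_lit 0) (XT.lf (nat_lit 0) (nat_lit 22873552061) (nat_lit 76) (nat_lit 2716517153) (nat_lit 152) (nat_lit 64016152118) (nat_lit 7) (nat_lit 5) (nat_lit 8) (nat_lit 5) (nat_lit 9) (nat_lit 4) (nat_lit 348) (nat_lit 254) (nat_lit 178)) (XT.lf (nat_lit 0) (nat_lit 35111897129) (nat_lit 152) (nat_lit 51831039623) (nat_lit 0) (nat_lit 6850637824) (nat_lit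 7) (nat_lit 5) (nat_lit 9) (nat_lit 4) (nat_lit 7) (nat_lit 4) (nat_lit 349) (nat_lit 254) (nat_lit 177)))) (XT.nd (nat_lit 156) (nat_lit 76) (nat_lit 0) (XT.nd (nat_lit 78) (nat_lit 0) (nat_lit 0) (XT.lf (nat_lit 0) (nat_lit 45116092214) (nat_lit 152) (nat_lit 36251372571) (nat_lit 0) (nat_lit 16822647390) (nat_lit 7) (nat_lit 5) (nat_lit 9) (nat_lit 4) (nat_lit 7) (nat_lit 4) (nat_lit 350) (nat_lit 254) (nat_lit 176)) (XT.lf (nat_lit 0) (nat_lit 55600361157) (nat_lit 152) (nat_lit 19930460845) (nat_lit 0) (nat_lit 27276263459) (nat_lit 7) (nat_lit 5) (nat_lit 9) (nat_lit 4) (nat_lit 7) (nat_lit 4) (nat_lit 351) (nat_lit 254) (nat_lit 175))) (XT.nd (nat_lit 78) (nat_lit 76) (nat_lit 0) (XT.lf (nat_lit 0) (nat_lit 66589666504) (nat_lit 152) (nat_lit 2829445131) (nat_lit 0) (nat_lit 38236375591) (nat_lit 7) (nat_lit 5) (nat_lit 9) (nat_lit 4) (nat_lit 7) (nat_lit 4) (nat_lit 352) (nat_lit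 254) (nat_lit 174)) (XT.lf (nat_lit 0) (nat_lit 15392759452) (nat_lit 76) (nat_lit 62865378434) (nat_lit 76) (nat_lit 34484284460) (nat_lit 6) (nat_lit 4) (nat_lit 7) (nat_lit 5) (nat_lit 7) (nat_lit 4) (nat_lit 353) (nat_lit 254) (nat_lit 173))))))) (XT.nd (nat_lit 34320) (nat_lit 0) (nat_lit 8816) (XT.nd (nat_lit 546) (nat_lit 0) (nat_lit 0) (XT.nd (nat_lit 234) (nat_lit 152) (nat_lit 0) (XT.nd (nat_lit 78) (nat_lit 0) (nat_lit 0) (XT.lf (nat_lit 0) (nat_lit 34551952451) (nat_lit 76) (nat_lit 55969493275) (nat_lit 76) (nat_lit 27561920196) (nat_lit 6) (nat_lit 4) (nat_lit 7) (nat_lit 5) (nat_lit 7) (nat_lit 4) (nat_lit 354) (nat_lit 254) (nat_lit 172)) (XT.nd (nat_lit 78) (nat_lit 0) (nat_lit 0) (XT.lf (nat_lit 0) (nat_lit 54637439485) (nat_lit 76) (nat_lit 48743609233) (nat_lit 76) (nat_lit 20310817957) (nat_lit 6) (nat_lit 4) (nat_lit 7) (nat_lit 5) (nat_lit 7) (nat_lit 4) (nat_lit 355)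 (nat_lit 254) (nat_lit 171)) (XT.lf (nat_lit 0) (nat_lit 75697043142) (nat_lit 76) (nat_lit 41170521820) (nat_lit 76) (nat_lit 12713713216) (nat_lit 6) (nat_lit 4) (nat_lit 7) (nat_lit 5) (nat_lit 7) (nat_lit 4) (nat_lit 356) (nat_lit 254) (nat_lit 170)))) (XT.nd (nat_lit 156) (nat_lit 76) (nat_lit 0) (XT.nd (nat_lit 78) (nat_lit 76) (nat_lit 0) (XT.lf (nat_lit 0) (nat_lit 97780905336) (nat_lit 76) (nat_lit 33232199878) (nat_lit 76) (nat_lit 4752517626) (nat_lit 6) (nat_lit 4) (nat_lit 7) (nat_lit 5) (nat_lit 7) (nat_lit 4) (nat_lit 357) (nat_lit 254) (nat_lit 169)) (XT.lf (nat_lit 0) (nat_lit 3521636565) (nat_lit 152) (nat_lit 21352544449) (nat_lit 76) (nat_lit 117384408501) (nat_lit 5) (nat_lit 5) (nat_lit 7) (nat_lit 5) (nat_lit 6) (nat_lit 4) (nat_lit 358) (nat_lit 254) (nat_lit 168))) (XT.nd (nat_lit 78) (nat_lit 76) (nat_lit 0) (XT.lf (nat_lit 0) (nat_lit 12098103048) (nat_lit 152)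 (nat_lit 3963064561) (nat_lit 76) (nat_lit 133014021567) (nat_lit 5) (nat_lit 5) (nat_lit 7) (nat_lit 5) (nat_lit 6) (nat_lit 4) (nat_lit 359) (nat_lit 254) (nat_lit 167)) (XT.lf (nat_lit 0) (nat_lit 14554826886) (nat_lit 76) (nat_lit 6675123730) (nat_lit 152) (nat_lit 134998874431) (nat_lit 4) (nat_lit 5) (nat_lit 5) (nat_lit 5) (nat_lit 6) (nat_lit 4) (nat_lit 360) (nat_lit 254) (nat_lit 166))))) (XT.nd (nat_lit 234) (nat_lit 0) (nat_lit 0) (XT.nd (nat_lit 78) (nat_lit 0) (nat_lit 0) (XT.lf (nat_lit 0) (nat_lit 30877100809) (nat_lit 152) (nat_lit 129713105975) (nat_lit 0) (nat_lit 3148177438) (nat_lit 4) (nat_lit 5) (nat_lit 6) (nat_lit 4) (nat_lit 4) (nat_lit 4) (nat_lit 361) (nat_lit 254) (nat_lit 165)) (XT.nd (nat_lit 78) (nat_lit 0) (nat_lit 0) (XT.lf (nat_lit 0) (nat_lit 41061543893) (nat_lit 152) (nat_lit 117245011663) (nat_lit 0) (nat_lit 13315220424) (nat_lit 4) (nat_lit 5) (nat_lit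 6) (nat_lit 4) (nat_lit 4) (nat_lit 4) (nat_lit 362) (nat_lit 254) (nat_lit 164)) (XT.lf (nat_lit 0) (nat_lit 51743363170) (nat_lit 152) (nat_lit 104175863914) (nat_lit 0) (nat_lit 23980468178) (nat_lit 4) (nat_lit 5) (nat_lit 6) (nat_lit 4) (nat_lit 4) (nat_lit 4) (nat_lit 363) (nat_lit 254) (nat_lit 163)))) (XT.nd (nat_lit 33384) (nat_lit 0) (nat_lit 18696) (XT.nd (nat_lit 33306) (nat_lit 0) (nat_lit 21052) (XT.lf (nat_lit 0) (nat_lit 62947991542) (nat_lit 152) (nat_lit 90474545710) (nat_lit 0) (nat_lit 35169314148) (nat_lit 4) (nat_lit 5) (nat_lit 6) (nat_lit 4) (nat_lit 4) (nat_lit 4) (nat_lit 364) (nat_lit 254) (nat_lit 162)) (XT.lf (nat_lit 0) (nat_lit 1657274508) (nat_lit 684) (nat_lit 59700520) (nat_lit 0) (nat_lit 1657274508) (nat_lit 281) (nat_lit 5) (nat_lit 290) (nat_lit 4) (nat_lit 281) (nat_lit 4) (nat_lit 270) (nat_lit 255) (nat_lit 255))) (XT.nd (nat_lit 78) (nat_lit 836)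 (nat_lit 0) (XT.lf (nat_lit 0) (nat_lit 54736259) (nat_lit 760) (nat_lit 1602919982) (nat_lit 836) (nat_lit 5157283576) (nat_lit 261) (nat_lit 5) (nat_lit 271) (nat_lit 5) (nat_lit 272) (nat_lit 4) (nat_lit 271) (nat_lit 255) (nat_lit 254)) (XT.lf (nat_lit 0) (nat_lit 314451824) (nat_lit 836) (nat_lit 6425118402) (nat_lit 836) (nat_lit 150382278) (nat_lit 250) (nat_lit 4) (nat_lit 261) (nat_lit 5) (nat_lit 261) (nat_lit 4) (nat_lit 272) (nat_lit 255) (nat_lit 253)))))) (XT.nd (nat_lit 546) (nat_lit 3572) (nat_lit 0) (XT.nd (nat_lit 234) (nat_lit 3116) (nat_lit 0) (XT.nd (nat_lit 78) (nat_lit 2204) (nat_lit 0) (XT.lf (nat_lit 0) (nat_lit 624598991) (nat_lit 912) (nat_lit 4210094304) (nat_lit 988) (nat_lit 2138162046) (nat_lit 237) (nat_lit 5) (nat_lit 249) (nat_lit 5) (nat_lit 250) (nat_lit 4) (nat_lit 273) (nat_lit 255) (nat_lit 252)) (XT.nd (nat_lit 78) (nat_lit 1140) (nat_lit 0) (XT.lf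 (nat_lit 0) (nat_lit 1015194035) (nat_lit 988) (nat_lit 1752810328) (nat_lit 1064) (nat_lit 4296772918) (nat_lit 223) (nat_lit 5) (nat_lit 236) (nat_lit 5) (nat_lit 237) (nat_lit 5) (nat_lit 274) (nat_lit 255) (nat_lit 251)) (XT.lf (nat_lit 0) (nat_lit 539970603) (nat_lit 1140) (nat_lit 5691199253) (nat_lit 76) (nat_lit 934478153) (nat_lit 208) (nat_lit 5) (nat_lit 223) (nat_lit 5) (nat_lit 209) (nat_lit 5) (nat_lit 275) (nat_lit 255) (nat_lit 250)))) (XT.nd (nat_lit 156) (nat_lit 1216) (nat_lit 0) (XT.nd (nat_lit 78) (nat_lit 760) (nat_lit 0) (XT.lf (nat_lit 0) (nat_lit 1970960297) (nat_lit 1140) (nat_lit 3418594333) (nat_lit 1216) (nat_lit 1885290944) (nat_lit 193) (nat_lit 5) (nat_lit 208) (nat_lit 5) (nat_lit 209) (nat_lit 5) (nat_lit 276) (nat_lit 255) (nat_lit 249)) (XT.lf (nat_lit 0) (nat_lit 2531085209) (nat_lit 684) (nat_lit 350314524) (nat_lit 760) (nat_lit 4512051674) (nat_lit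 183) (nat_lit 5) (nat_lit 192) (nat_lit 5) (nat_lit 193) (nat_lit 5) (nat_lit 277) (nat_lit 255) (nat_lit 248))) (XT.nd (nat_lit 78) (nat_lit 532) (nat_lit 0) (XT.lf (nat_lit 0) (nat_lit 210378906) (nat_lit 684) (nat_lit 4392640224) (nat_lit 76) (nat_lit 2918012906) (nat_lit 174) (nat_lit 5) (nat_lit 183) (nat_lit 5) (nat_lit 175) (nat_lit 5) (nat_lit 278) (nat_lit 255) (nat_lit 247)) (XT.lf (nat_lit 0) (nat_lit 3756965247) (nat_lit 532) (nat_lit 1190822925) (nat_lit 608) (nat_lit 2709987644) (nat_lit 167) (nat_lit 5) (nat_lit 174) (nat_lit 5) (nat_lit 175) (nat_lit 5) (nat_lit 279) (nat_lit 255) (nat_lit 246))))) (XT.nd (nat_lit 234) (nat_lit 1900) (nat_lit 0) (XT.nd (nat_lit 78) (nat_lit 1064) (nat_lit 0) (XT.lf (nat_lit 0) (nat_lit 1978563018) (nat_lit 608) (nat_lit 3388381730) (nat_lit 76) (nat_lit 2437091147) (nat_lit 159) (nat_lit 5) (nat_lit 167) (nat_lit 5) (nat_lit 160) (nat_lit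 5) (nat_lit 280) (nat_lit 255) (nat_lit 245)) (XT.nd (nat_lit 78) (nat_lit 608) (nat_lit 0) (XT.lf (nat_lit 0) (nat_lit 5101864179) (nat_lit 456) (nat_lit 1640551749) (nat_lit 532) (nat_lit 1217735428) (nat_lit 153) (nat_lit 5) (nat_lit 159) (nat_lit 5) (nat_lit 160) (nat_lit 5) (nat_lit 281) (nat_lit 255) (nat_lit 244)) (XT.lf (nat_lit 0) (nat_lit 3463875329) (nat_lit 608) (nat_lit 2335191186) (nat_lit 76) (nat_lit 2326773788) (nat_lit 145) (nat_lit 5) (nat_lit 153) (nat_lit 5) (nat_lit 146) (nat_lit 5) (nat_lit 282) (nat_lit 255) (nat_lit 243)))) (XT.nd (nat_lit 156) (nat_lit 912) (nat_lit 0) (XT.nd (nat_lit 78) (nat_lit 532) (nat_lit 0) (XT.lf (nat_lit 0) (nat_lit 6502857315) (nat_lit 456) (nat_lit 1767843734) (nat_lit 532) (nat_lit 31485899) (nat_lit 139) (nat_lit 5) (nat_lit 145) (nat_lit 5) (nat_lit 146) (nat_lit 5) (nat_lit 283) (nat_lit 255) (nat_lit 242)) (XT.lf (nat_lit 0) (nat_lit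 4666903228) (nat_lit 532) (nat_lit 1299776511) (nat_lit 76) (nat_lit 2521566369) (nat_lit 132) (nat_lit 5) (nat_lit 139) (nat_lit 5) (nat_lit 133) (nat_lit 5) (nat_lit 284) (nat_lit 255) (nat_lit 241))) (XT.nd (nat_lit 78) (nat_lit 456) (nat_lit 0) (XT.lf (nat_lit 0) (nat_lit 828406328) (nat_lit 456) (nat_lit 802069064) (nat_lit 76) (nat_lit 7055141753) (nat_lit 126) (nat_lit 5) (nat_lit 132) (nat_lit 5) (nat_lit 127) (nat_lit 5) (nat_lit 285) (nat_lit 255) (nat_lit 240)) (XT.lf (nat_lit 0) (nat_lit 5580616022) (nat_lit 532) (nat_lit 355290843) (nat_lit 76) (nat_lit 2957527508) (nat_lit 120) (nat_lit 5) (nat_lit 127) (nat_lit 5) (nat_lit 121) (nat_lit 5) (nat_lit 286) (nat_lit 255) (nat_lit 239))))))))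
noncomputable def xc41 : XT := (XT.nd (nat_lit 2184) (nat_lit 1672) (nat_lit 0) (XT.nd (nat_lit 1092) (nat_lit 2052) (nat_lit 0) (XT.nd (nat_lit 546) (nat_lit 1672) (nat_lit 0) (XT.nd (nat_lit 234) (nat_lit 1368) (nat_lit 0) (XT.nd (nat_lit 78) (nat_lit 760) (nat_lit 0) (XT.lf (nat_lit 0) (nat_lit 68198678) (nat_lit 380) (nat_lit 1304531932) (nat_lit 456) (nat_lit 7740388117) (nat_lit 109) (nat_lit 5) (nat_lit 114) (nat_lit 5) (nat_lit 115) (nat_lit 5) (nat_lit 287) (nat_lit 255) (nat_lit 238)) (XT.nd (nat_lit 78) (nat_lit 456) (nat_lit 0) (XT.lf (nat_lit 0) (nat_lit 424796503) (nat_lit 304) (nat_lit 5769093000) (nat_lit 380) (nat_lit 3149979384) (nat_lit 105) (nat_lit 5) (nat_lit 109) (nat_lit 5) (nat_lit 110) (nat_lit 5) (nat_lit 288) (nat_lit 255) (nat_lit 237)) (XT.lf (nat_lit 0) (nat_lit 734955389) (nat_lit 380) (nat_lit 851811473) (nat_lit 456) (nat_lit 8000574863) (nat_lit 99) (nat_lit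 5) (nat_lit 104) (nat_lit 5) (nat_lit 105) (nat_lit 5) (nat_lit 289) (nat_lit 255) (nat_lit 236)))) (XT.nd (nat_lit 156) (nat_lit 684) (nat_lit 0) (XT.nd (nat_lit 78) (nat_lit 380) (nat_lit 0) (XT.lf (nat_lit 0) (nat_lit 941187290) (nat_lit 304) (nat_lit 5538193849) (nat_lit 380) (nat_lit 3363287887) (nat_lit 95) (nat_lit 5) (nat_lit 99) (nat_lit 5) (nat_lit 100) (nat_lit 5) (nat_lit 290) (nat_lit 255) (nat_lit 235)) (XT.lf (nat_lit 0) (nat_lit 1080747759) (nat_lit 304) (nat_lit 350986623) (nat_lit 380) (nat_lit 8680067469) (nat_lit 90) (nat_lit 5) (nat_lit 94) (nat_lit 5) (nat_lit 95) (nat_lit 5) (nat_lit 291) (nat_lit 255) (nat_lit 234))) (XT.nd (nat_lit 78) (nat_lit 380) (nat_lit 0) (XT.lf (nat_lit 0) (nat_lit 1078090892) (nat_lit 304) (nat_lit 5320426525) (nat_lit 380) (nat_lit 3994952723) (nat_lit 86) (nat_lit 5) (nat_lit 90) (nat_lit 5) (nat_lit 91) (nat_lit 5) (nat_lit 292) (nat_lit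 255) (nat_lit 233)) (XT.lf (nat_lit 0) (nat_lit 867140119) (nat_lit 380) (nat_lit 9702979244) (nat_lit 76) (nat_lit 120128504) (nat_lit 81) (nat_lit 5) (nat_lit 86) (nat_lit 5) (nat_lit 82) (nat_lit 5) (nat_lit 293) (nat_lit 255) (nat_lit 232))))) (XT.nd (nat_lit 234) (nat_lit 1064) (nat_lit 0) (XT.nd (nat_lit 78) (nat_lit 380) (nat_lit 0) (XT.lf (nat_lit 0) (nat_lit 709482933) (nat_lit 228) (nat_lit 5195433477) (nat_lit 304) (nat_lit 5095415376) (nat_lit 78) (nat_lit 5) (nat_lit 81) (nat_lit 5) (nat_lit 82) (nat_lit 5) (nat_lit 294) (nat_lit 255) (nat_lit 231)) (XT.nd (nat_lit 78) (nat_lit 76) (nat_lit 0) (XT.lf (nat_lit 0) (nat_lit 315566153) (nat_lit 304) (nat_lit 10848506674) (nat_lit 380) (nat_lit 162867041) (nat_lit 74) (nat_lit 5) (nat_lit 78) (nat_lit 5) (nat_lit 79) (nat_lit 5) (nat_lit 295) (nat_lit 255) (nat_lit 230)) (XT.lf (nat_lit 0) (nat_lit 4942365675) (nat_lit 380) (nat_lit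 305601644) (nat_lit 76) (nat_lit 6419842958) (nat_lit 73) (nat_lit 5) (nat_lit 78) (nat_lit 5) (nat_lit 74) (nat_lit 5) (nat_lit 296) (nat_lit 255) (nat_lit 229)))) (XT.nd (nat_lit 156) (nat_lit 532) (nat_lit 0) (XT.nd (nat_lit 78) (nat_lit 304) (nat_lit 0) (XT.lf (nat_lit 0) (nat_lit 10282286554) (nat_lit 304) (nat_lit 1080248276) (nat_lit 76) (nat_lit 663749361) (nat_lit 70) (nat_lit 5) (nat_lit 74) (nat_lit 5) (nat_lit 71) (nat_lit 5) (nat_lit 297) (nat_lit 255) (nat_lit 228)) (XT.lf (nat_lit 0) (nat_lit 3448723426) (nat_lit 304) (nat_lit 2115674213) (nat_lit 76) (nat_lit 6836456891) (nat_lit 66) (nat_lit 5) (nat_lit 70) (nat_lit 5) (nat_lit 67) (nat_lit 5) (nat_lit 298) (nat_lit 255) (nat_lit 227))) (XT.nd (nat_lit 78) (nat_lit 304) (nat_lit 0) (XT.lf (nat_lit 0) (nat_lit 8850309096) (nat_lit 304) (nat_lit 3375501772) (nat_lit 76) (nat_lit 568346784) (nat_lit 63) (nat_lit 5) (nat_lit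 67) (nat_lit 5) (nat_lit 64) (nat_lit 5) (nat_lit 299) (nat_lit 255) (nat_lit 226)) (XT.lf (nat_lit 0) (nat_lit 1328301201) (nat_lit 304) (nat_lit 4933312446) (nat_lit 76) (nat_lit 6944034871) (nat_lit 59) (nat_lit 5) (nat_lit 63) (nat_lit 5) (nat_lit 60) (nat_lit 5) (nat_lit 300) (nat_lit 255) (nat_lit 225)))))) (XT.nd (nat_lit 546) (nat_lit 836) (nat_lit 0) (XT.nd (nat_lit 234) (nat_lit 608) (nat_lit 0) (XT.nd (nat_lit 78) (nat_lit 456) (nat_lit 0) (XT.lf (nat_lit 0) (nat_lit 6768605963) (nat_lit 228) (nat_lit 6791957627) (nat_lit 76) (nat_lit 76467029) (nat_lit 57) (nat_lit 5) (nat_lit 60) (nat_lit 5) (nat_lit 58) (nat_lit 5) (nat_lit 301) (nat_lit 255) (nat_lit 224)) (XT.nd (nat_lit 78) (nat_lit 228) (nat_lit 0) (XT.lf (nat_lit 0) (nat_lit 5080900704) (nat_lit 228) (nat_lit 7450241528) (nat_lit 304) (nat_lit 1557401206) (nat_lit 54) (nat_lit 5) (nat_lit 57) (nat_lit 5) (nat_lit 58) (nat_lit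 5) (nat_lit 302) (nat_lit 255) (nat_lit 223)) (XT.lf (nat_lit 0) (nat_lit 2968790760) (nat_lit 152) (nat_lit 960534157) (nat_lit 228) (nat_lit 10632553502) (nat_lit 51) (nat_lit 5) (nat_lit 53) (nat_lit 5) (nat_lit 54) (nat_lit 5) (nat_lit 303) (nat_lit 255) (nat_lit 222)))) (XT.nd (nat_lit 156) (nat_lit 304) (nat_lit 0) (XT.nd (nat_lit 78) (nat_lit 76) (nat_lit 0) (XT.lf (nat_lit 0) (nat_lit 435652467) (nat_lit 228) (nat_lit 9269316034) (nat_lit 304) (nat_lit 5352105303) (nat_lit 48) (nat_lit 5) (nat_lit 51) (nat_lit 5) (nat_lit 52) (nat_lit 5) (nat_lit 304) (nat_lit 255) (nat_lit 221)) (XT.lf (nat_lit 0) (nat_lit 213612133) (nat_lit 304) (nat_lit 2451307484) (nat_lit 76) (nat_lit 12911359300) (nat_lit 47) (nat_lit 5) (nat_lit 51) (nat_lit 5) (nat_lit 48) (nat_lit 5) (nat_lit 305) (nat_lit 255) (nat_lit 220))) (XT.nd (nat_lit 78) (nat_lit 152) (nat_lit 0) (XT.lf (nat_lit 0) (nat_lit 5988785954)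 (nat_lit 228) (nat_lit 5852354125) (nat_lit 76) (nat_lit 4277511472) (nat_lit 45) (nat_lit 5) (nat_lit 48) (nat_lit 5) (nat_lit 46) (nat_lit 5) (nat_lit 306) (nat_lit 255) (nat_lit 219)) (XT.lf (nat_lit 0) (nat_lit 6929088117) (nat_lit 152) (nat_lit 5145035463) (nat_lit 228) (nat_lit 4613427379) (nat_lit 43) (nat_lit 5) (nat_lit 45) (nat_lit 5) (nat_lit 46) (nat_lit 5) (nat_lit 307) (nat_lit 255) (nat_lit 218))))) (XT.nd (nat_lit 234) (nat_lit 456) (nat_lit 0) (XT.nd (nat_lit 78) (nat_lit 152) (nat_lit 0) (XT.lf (nat_lit 0) (nat_lit 1169328723) (nat_lit 228) (nat_lit 14226223749) (nat_lit 76) (nat_lit 1888644441) (nat_lit 40) (nat_lit 5) (nat_lit 43) (nat_lit 5) (nat_lit 41) (nat_lit 5) (nat_lit 308) (nat_lit 255) (nat_lit 217)) (XT.nd (nat_lit 78) (nat_lit 152) (nat_lit 0) (XT.lf (nat_lit 0) (nat_lit 7207086642) (nat_lit 228) (nat_lit 1445507339) (nat_lit 76) (nat_lit 9254916844) (nat_lit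 40) (nat_lit 5) (nat_lit 43) (nat_lit 5) (nat_lit 41) (nat_lit 5) (nat_lit 309) (nat_lit 255) (nat_lit 216)) (XT.lf (nat_lit 0) (nat_lit 12059560029) (nat_lit 152) (nat_lit 1514534743) (nat_lit 228) (nat_lit 4987116973) (nat_lit 38) (nat_lit 5) (nat_lit 40) (nat_lit 5) (nat_lit 41) (nat_lit 5) (nat_lit 310) (nat_lit 255) (nat_lit 215)))) (XT.nd (nat_lit 156) (nat_lit 76) (nat_lit 0) (XT.nd (nat_lit 78) (nat_lit 152) (nat_lit 0) (XT.lf (nat_lit 0) (nat_lit 1045628775) (nat_lit 228) (nat_lit 12303060398) (nat_lit 76) (nat_lit 5897050198) (nat_lit 35) (nat_lit 5) (nat_lit 38) (nat_lit 5) (nat_lit 36) (nat_lit 5) (nat_lit 311) (nat_lit 255) (nat_lit 214)) (XT.lf (nat_lit 0) (nat_lit 1041413143) (nat_lit 152) (nat_lit 6244849386) (nat_lit 228) (nat_lit 12676504913) (nat_lit 33) (nat_lit 5) (nat_lit 35) (nat_lit 5) (nat_lit 36) (nat_lit 5) (nat_lit 312) (nat_lit 255) (nat_lit 213))) (XT.nd (nat_lit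 78) (nat_lit 76) (nat_lit 0) (XT.lf (nat_lit 0) (nat_lit 13896142884) (nat_lit 228) (nat_lit 5557550275) (nat_lit 76) (nat_lit 1260272687) (nat_lit 33) (nat_lit 5) (nat_lit 36) (nat_lit 5) (nat_lit 34) (nat_lit 4) (nat_lit 313) (nat_lit 255) (nat_lit 212)) (XT.lf (nat_lit 0) (nat_lit 8439929887) (nat_lit 76) (nat_lit 12462310150) (nat_lit 152) (nat_lit 598546140) (nat_lit 32) (nat_lit 5) (nat_lit 33) (nat_lit 5) (nat_lit 34) (nat_lit 4) (nat_lit 314) (nat_lit 255) (nat_lit 211))))))) (XT.nd (nat_lit 1092) (nat_lit 532) (nat_lit 0) (XT.nd (nat_lit 546) (nat_lit 532) (nat_lit 0) (XT.nd (nat_lit 234) (nat_lit 304) (nat_lit 0) (XT.nd (nat_lit 78) (nat_lit 76) (nat_lit 0) (XT.lf (nat_lit 0) (nat_lit 751434955) (nat_lit 152) (nat_lit 5052752801) (nat_lit 228) (nat_lit 16521433092) (nat_lit 29) (nat_lit 5) (nat_lit 31) (nat_lit 5) (nat_lit 32) (nat_lit 5) (nat_lit 315) (nat_lit 255) (nat_lit 210))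 (XT.nd (nat_lit 78) (nat_lit 76) (nat_lit 0) (XT.lf (nat_lit 0) (nat_lit 12601904903) (nat_lit 228) (nat_lit 7825699383) (nat_lit 76) (nat_lit 2761328084) (nat_lit 29) (nat_lit 5) (nat_lit 32) (nat_lit 5) (nat_lit 30) (nat_lit 4) (nat_lit 316) (nat_lit 255) (nat_lit 209)) (XT.lf (nat_lit 0) (nat_lit 6561808636) (nat_lit 76) (nat_lit 13220452952) (nat_lit 152) (nat_lit 4311893526) (nat_lit 28) (nat_lit 5) (nat_lit 29) (nat_lit 5) (nat_lit 30) (nat_lit 4) (nat_lit 317) (nat_lit 255) (nat_lit 208)))) (XT.nd (nat_lit 156) (nat_lit 76) (nat_lit 0) (XT.nd (nat_lit 78) (nat_lit 152) (nat_lit 0) (XT.lf (nat_lit 0) (nat_lit 2244114296) (nat_lit 152) (nat_lit 3355949713) (nat_lit 76) (nat_lit 19443597990) (nat_lit 27) (nat_lit 5) (nat_lit 29) (nat_lit 5) (nat_lit 28) (nat_lit 5) (nat_lit 318) (nat_lit 255) (nat_lit 207)) (XT.lf (nat_lit 0) (nat_lit 9108674911) (nat_lit 228) (nat_lit 14467542403) (nat_lit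 76) (nat_lit 2461073166) (nat_lit 25) (nat_lit 5) (nat_lit 28) (nat_lit 5) (nat_lit 26) (nat_lit 4) (nat_lit 319) (nat_lit 255) (nat_lit 206))) (XT.nd (nat_lit 78) (nat_lit 0) (nat_lit 0) (XT.lf (nat_lit 0) (nat_lit 61111779) (nat_lit 76) (nat_lit 16282460758) (nat_lit 152) (nat_lit 10736238276) (nat_lit 24) (nat_lit 5) (nat_lit 25) (nat_lit 5) (nat_lit 26) (nat_lit 4) (nat_lit 320) (nat_lit 255) (nat_lit 205)) (XT.lf (nat_lit 0) (nat_lit 15506326757) (nat_lit 76) (nat_lit 8519940467) (nat_lit 152) (nat_lit 4145630943) (nat_lit 24) (nat_lit 5) (nat_lit 25) (nat_lit 5) (nat_lit 26) (nat_lit 4) (nat_lit 321) (nat_lit 255) (nat_lit 204))))) (XT.nd (nat_lit 234) (nat_lit 228) (nat_lit 0) (XT.nd (nat_lit 78) (nat_lit 76) (nat_lit 0) (XT.lf (nat_lit 0) (nat_lit 2315645936) (nat_lit 152) (nat_lit 366481422) (nat_lit 228) (nat_lit 26636830454) (nat_lit 21) (nat_lit 5) (nat_lit 23) (nat_lit 5) (nat_lit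 24) (nat_lit 5) (nat_lit 322) (nat_lit 255) (nat_lit 203)) (XT.nd (nat_lit 78) (nat_lit 76) (nat_lit 0) (XT.lf (nat_lit 0) (nat_lit 9917704233) (nat_lit 228) (nat_lit 12437085287) (nat_lit 76) (nat_lit 8162804360) (nat_lit 21) (nat_lit 5) (nat_lit 24) (nat_lit 5) (nat_lit 22) (nat_lit 4) (nat_lit 323) (nat_lit 255) (nat_lit 202)) (XT.lf (nat_lit 0) (nat_lit 2807278656) (nat_lit 76) (nat_lit 14682206398) (nat_lit 152) (nat_lit 14287462871) (nat_lit 20) (nat_lit 5) (nat_lit 21) (nat_lit 5) (nat_lit 22) (nat_lit 4) (nat_lit 324) (nat_lit 255) (nat_lit 201)))) (XT.nd (nat_lit 156) (nat_lit 76) (nat_lit 0) (XT.nd (nat_lit 78) (nat_lit 152) (nat_lit 0) (XT.lf (nat_lit 0) (nat_lit 18975406650) (nat_lit 76) (nat_lit 6537951506) (nat_lit 152) (nat_lit 7583724446) (nat_lit 20) (nat_lit 5) (nat_lit 21) (nat_lit 5) (nat_lit 22) (nat_lit 4) (nat_lit 325) (nat_lit 255) (nat_lit 200)) (XT.lf (nat_lit 0)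 (nat_lit 1381476460) (nat_lit 152) (nat_lit 32537252846) (nat_lit 152) (nat_lit 565102745) (nat_lit 18) (nat_lit 4) (nat_lit 20) (nat_lit 5) (nat_lit 20) (nat_lit 4) (nat_lit 326) (nat_lit 255) (nat_lit 199))) (XT.nd (nat_lit 78) (nat_lit 0) (nat_lit 0) (XT.lf (nat_lit 0) (nat_lit 6833227105) (nat_lit 228) (nat_lit 18206666894) (nat_lit 76) (nat_lit 10893231900) (nat_lit 17) (nat_lit 5) (nat_lit 20) (nat_lit 5) (nat_lit 18) (nat_lit 4) (nat_lit 327) (nat_lit 255) (nat_lit 198)) (XT.lf (nat_lit 0) (nat_lit 14541092768) (nat_lit 228) (nat_lit 2660621329) (nat_lit 76) (nat_lit 20254478413) (nat_lit 17) (nat_lit 5) (nat_lit 20) (nat_lit 5) (nat_lit 18) (nat_lit 4) (nat_lit 328) (nat_lit 255) (nat_lit 197)))))) (XT.nd (nat_lit 546) (nat_lit 228) (nat_lit 0) (XT.nd (nat_lit 234) (nat_lit 152) (nat_lit 0) (XT.nd (nat_lit 78) (nat_lit 76) (nat_lit 0) (XT.lf (nat_lit 0) (nat_lit 13848460962) (nat_lit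 76) (nat_lit 8872532409) (nat_lit 152) (nat_lit 16331834229) (nat_lit 16) (nat_lit 5) (nat_lit 17) (nat_lit 5) (nat_lit 18) (nat_lit 4) (nat_lit 329) (nat_lit 255) (nat_lit 196)) (XT.nd (nat_lit 78) (nat_lit 76) (nat_lit 0) (XT.lf (nat_lit 0) (nat_lit 31156519770) (nat_lit 76) (nat_lit 135704041) (nat_lit 152) (nat_lit 9437614303) (nat_lit 16) (nat_lit 5) (nat_lit 17) (nat_lit 5) (nat_lit 18) (nat_lit 4) (nat_lit 330) (nat_lit 255) (nat_lit 195)) (XT.lf (nat_lit 0) (nat_lit 6806085429) (nat_lit 76) (nat_lit 33594985599) (nat_lit 76) (nat_lit 2086369528) (nat_lit 15) (nat_lit 4) (nat_lit 16) (nat_lit 5) (nat_lit 16) (nat_lit 4) (nat_lit 331) (nat_lit 255) (nat_lit 194)))) (XT.nd (nat_lit 156) (nat_lit 76) (nat_lit 0) (XT.nd (nat_lit 78) (nat_lit 0) (nat_lit 0) (XT.lf (nat_lit 0) (nat_lit 5581068425) (nat_lit 152) (nat_lit 20259657416) (nat_lit 76) (nat_lit 18488828880) (nat_lit 14) (nat_lit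 5) (nat_lit 16) (nat_lit 5) (nat_lit 15) (nat_lit 4) (nat_lit 332) (nat_lit 255) (nat_lit 193)) (XT.lf (nat_lit 0) (nat_lit 13548792724) (nat_lit 152) (nat_lit 4161948757) (nat_lit 76) (nat_lit 28553622988) (nat_lit 14) (nat_lit 5) (nat_lit 16) (nat_lit 5) (nat_lit 15) (nat_lit 4) (nat_lit 333) (nat_lit 255) (nat_lit 192))) (XT.nd (nat_lit 78) (nat_lit 0) (nat_lit 0) (XT.lf (nat_lit 0) (nat_lit 12922315100) (nat_lit 76) (nat_lit 9078388821) (nat_lit 152) (nat_lit 26292647715) (nat_lit 13) (nat_lit 5) (nat_lit 14) (nat_lit 5) (nat_lit 15) (nat_lit 4) (nat_lit 334) (nat_lit 255) (nat_lit 191)) (XT.lf (nat_lit 0) (nat_lit 30879294107) (nat_lit 76) (nat_lit 1514825) (nat_lit 152) (nat_lit 19542821714) (nat_lit 13) (nat_lit 5) (nat_lit 14) (nat_lit 5) (nat_lit 15) (nat_lit 4) (nat_lit 335) (nat_lit 255) (nat_lit 190))))) (XT.nd (nat_lit 234) (nat_lit 76) (nat_lit 0) (XT.nd (nat_lit 78) (nat_lit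 152) (nat_lit 0) (XT.lf (nat_lit 0) (nat_lit 40260762108) (nat_lit 152) (nat_lit 3083900326) (nat_lit 0) (nat_lit 9314095819) (nat_lit 13) (nat_lit 5) (nat_lit 15) (nat_lit 4) (nat_lit 13) (nat_lit 4) (nat_lit 336) (nat_lit 255) (nat_lit 189)) (XT.nd (nat_lit 78) (nat_lit 76) (nat_lit 0) (XT.lf (nat_lit 0) (nat_lit 14418034714) (nat_lit 76) (nat_lit 35796233619) (nat_lit 76) (nat_lit 4788246708) (nat_lit 12) (nat_lit 4) (nat_lit 13) (nat_lit 5) (nat_lit 13) (nat_lit 4) (nat_lit 337) (nat_lit 255) (nat_lit 188)) (XT.lf (nat_lit 0) (nat_lit 3138212327) (nat_lit 152) (nat_lit 24695816478) (nat_lit 76) (nat_lit 29628555094) (nat_lit 11) (nat_lit 5) (nat_lit 13) (nat_lit 5) (nat_lit 12) (nat_lit 4) (nat_lit 338) (nat_lit 255) (nat_lit 187)))) (XT.nd (nat_lit 156) (nat_lit 0) (nat_lit 0) (XT.nd (nat_lit 78) (nat_lit 76) (nat_lit 0) (XT.lf (nat_lit 0) (nat_lit 11331119091) (nat_lit 152) (nat_lit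 8119835358) (nat_lit 76) (nat_lit 40594213238) (nat_lit 11) (nat_lit 5) (nat_lit 13) (nat_lit 5) (nat_lit 12) (nat_lit 4) (nat_lit 339) (nat_lit 255) (nat_lit 186)) (XT.lf (nat_lit 0) (nat_lit 9412631554) (nat_lit 76) (nat_lit 10581264863) (nat_lit 152) (nat_lit 42761185428) (nat_lit 10) (nat_lit 5) (nat_lit 11) (nat_lit 5) (nat_lit 12) (nat_lit 4) (nat_lit 340) (nat_lit 255) (nat_lit 185))) (XT.nd (nat_lit 78) (nat_lit 0) (nat_lit 0) (XT.lf (nat_lit 0) (nat_lit 27937019754) (nat_lit 76) (nat_lit 1207042587) (nat_lit 152) (nat_lit 36454809433) (nat_lit 10) (nat_lit 5) (nat_lit 11) (nat_lit 5) (nat_lit 12) (nat_lit 4) (nat_lit 341) (nat_lit 255) (nat_lit 184)) (XT.lf (nat_lit 0) (nat_lit 38806580920) (nat_lit 152) (nat_lit 21332646483) (nat_lit 0) (nat_lit 8443985666) (nat_lit 10) (nat_lit 5) (nat_lit 12) (nat_lit 4) (nat_lit 10) (nat_lit 4) (nat_lit 342) (nat_lit 255) (nat_lit 183))))))))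
noncomputable def xc42 : XT := (XT.nd (nat_lit 35178) (nat_lit 0) (nat_lit 4256) (XT.nd (nat_lit 1014) (nat_lit 152) (nat_lit 0) (XT.nd (nat_lit 468) (nat_lit 76) (nat_lit 0) (XT.nd (nat_lit 234) (nat_lit 152) (nat_lit 0) (XT.nd (nat_lit 78) (nat_lit 76) (nat_lit 0) (XT.lf (nat_lit 0) (nat_lit 48937580678) (nat_lit 152) (nat_lit 4249077146) (nat_lit 0) (nat_lit 18530559801) (nat_lit 10) (nat_lit 5) (nat_lit 12) (nat_lit 4) (nat_lit 10) (nat_lit 4) (nat_lit 343) (nat_lit 255) (nat_lit 182)) (XT.nd (nat_lit 78) (nat_lit 0) (nat_lit 0) (XT.lf (nat_lit 0) (nat_lit 13912619299) (nat_lit 76) (nat_lit 45770697520) (nat_lit 76) (nat_lit 15321366526) (nat_lit 9) (nat_lit 4) (nat_lit 10) (nat_lit 5) (nat_lit 10) (nat_lit 4) (nat_lit 344) (nat_lit 255) (nat_lit 181)) (XT.lf (nat_lit 0) (nat_lit 33025019740) (nat_lit 76) (nat_lit 37960283140) (nat_lit 76) (nat_lit 7470656796) (nat_lit 9) (nat_lit 4)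 (nat_lit 10) (nat_lit 5) (nat_lit 10) (nat_lit 4) (nat_lit 345) (nat_lit 255) (nat_lit 180)))) (XT.nd (nat_lit 78) (nat_lit 76) (nat_lit 0) (XT.lf (nat_lit 0) (nat_lit 733675480) (nat_lit 152) (nat_lit 29038641643) (nat_lit 76) (nat_lit 52307980760) (nat_lit 8) (nat_lit 5) (nat_lit 10) (nat_lit 5) (nat_lit 9) (nat_lit 4) (nat_lit 346) (nat_lit 255) (nat_lit 179)) (XT.nd (nat_lit 78) (nat_lit 76) (nat_lit 0) (XT.lf (nat_lit 0) (nat_lit 9172454113) (nat_lit 152) (nat_lit 11944470089) (nat_lit 76) (nat_lit 64767353236) (nat_lit 8) (nat_lit 5) (nat_lit 10) (nat_lit 5) (nat_lit 9) (nat_lit 4) (nat_lit 347) (nat_lit 255) (nat_lit 178)) (XT.lf (nat_lit 0) (nat_lit 6082784696) (nat_lit 76) (nat_lit 11987237605) (nat_lit 152) (nat_lit 71807333364) (nat_lit 7) (nat_lit 5) (nat_lit 8) (nat_lit 5) (nat_lit 9) (nat_lit 4) (nat_lit 348) (nat_lit 255) (nat_lit 177))))) (XT.nd (nat_lit 234) (nat_lit 76)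 (nat_lit 0) (XT.nd (nat_lit 78) (nat_lit 0) (nat_lit 0) (XT.lf (nat_lit 0) (nat_lit 25221839963) (nat_lit 76) (nat_lit 2292618965) (nat_lit 152) (nat_lit 66552574142) (nat_lit 7) (nat_lit 5) (nat_lit 8) (nat_lit 5) (nat_lit 9) (nat_lit 4) (nat_lit 349) (nat_lit 255) (nat_lit 176)) (XT.nd (nat_lit 78) (nat_lit 0) (nat_lit 0) (XT.lf (nat_lit 0) (nat_lit 37486793568) (nat_lit 152) (nat_lit 53261897111) (nat_lit 0) (nat_lit 7715838110) (nat_lit 7) (nat_lit 5) (nat_lit 9) (nat_lit 4) (nat_lit 7) (nat_lit 4) (nat_lit 350) (nat_lit 255) (nat_lit 175)) (XT.lf (nat_lit 0) (nat_lit 47961707856) (nat_lit 152) (nat_lit 36958517872) (nat_lit 0) (nat_lit 18161559183) (nat_lit 7) (nat_lit 5) (nat_lit 9) (nat_lit 4) (nat_lit 7) (nat_lit 4) (nat_lit 351) (nat_lit 255) (nat_lit 174)))) (XT.nd (nat_lit 156) (nat_lit 76) (nat_lit 0) (XT.nd (nat_lit 78) (nat_lit 0) (nat_lit 0) (XT.lf (nat_lit 0) (nat_lit 58942104006)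 (nat_lit 152) (nat_lit 19874199765) (nat_lit 0) (nat_lit 29114152273) (nat_lit 7) (nat_lit 5) (nat_lit 9) (nat_lit 4) (nat_lit 7) (nat_lit 4) (nat_lit 352) (nat_lit 255) (nat_lit 173)) (XT.lf (nat_lit 0) (nat_lit 70454125821) (nat_lit 152) (nat_lit 1968265844) (nat_lit 0) (nat_lit 40599694981) (nat_lit 7) (nat_lit 5) (nat_lit 9) (nat_lit 4) (nat_lit 7) (nat_lit 4) (nat_lit 353) (nat_lit 255) (nat_lit 172))) (XT.nd (nat_lit 78) (nat_lit 0) (nat_lit 0) (XT.lf (nat_lit 0) (nat_lit 17136308163) (nat_lit 76) (nat_lit 65553599387) (nat_lit 76) (nat_lit 35673950352) (nat_lit 6) (nat_lit 4) (nat_lit 7) (nat_lit 5) (nat_lit 7) (nat_lit 4) (nat_lit 354) (nat_lit 255) (nat_lit 171)) (XT.lf (nat_lit 0) (nat_lit 37207084110) (nat_lit 76) (nat_lit 58334588921) (nat_lit 76) (nat_lit 28430922557) (nat_lit 6) (nat_lit 4) (nat_lit 7) (nat_lit 5) (nat_lit 7) (nat_lit 4) (nat_lit 355) (nat_lit 255) (nat_lit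 170)))))) (XT.nd (nat_lit 546) (nat_lit 0) (nat_lit 0) (XT.nd (nat_lit 234) (nat_lit 152) (nat_lit 0) (XT.nd (nat_lit 78) (nat_lit 0) (nat_lit 0) (XT.lf (nat_lit 0) (nat_lit 58252677209) (nat_lit 76) (nat_lit 50768047773) (nat_lit 76) (nat_lit 20841507761) (nat_lit 6) (nat_lit 4) (nat_lit 7) (nat_lit 5) (nat_lit 7) (nat_lit 4) (nat_lit 356) (nat_lit 255) (nat_lit 169)) (XT.nd (nat_lit 78) (nat_lit 0) (nat_lit 0) (XT.lf (nat_lit 0) (nat_lit 80323196013) (nat_lit 76) (nat_lit 42835960367) (nat_lit 76) (nat_lit 12887635929) (nat_lit 6) (nat_lit 4) (nat_lit 7) (nat_lit 5) (nat_lit 7) (nat_lit 4) (nat_lit 357) (nat_lit 255) (nat_lit 168)) (XT.lf (nat_lit 0) (nat_lit 103471189378) (nat_lit 76) (nat_lit 34519440782) (nat_lit 76) (nat_lit 4550369272) (nat_lit 6) (nat_lit 4) (nat_lit 7) (nat_lit 5) (nat_lit 7) (nat_lit 4) (nat_lit 358) (nat_lit 255) (nat_lit 167)))) (XT.nd (nat_lit 156) (nat_lit 76)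 (nat_lit 0) (XT.nd (nat_lit 78) (nat_lit 0) (nat_lit 0) (XT.lf (nat_lit 0) (nat_lit 4108378066) (nat_lit 152) (nat_lit 21648823151) (nat_lit 76) (nat_lit 123601906945) (nat_lit 5) (nat_lit 5) (nat_lit 7) (nat_lit 5) (nat_lit 6) (nat_lit 4) (nat_lit 359) (nat_lit 255) (nat_lit 166)) (XT.lf (nat_lit 0) (nat_lit 13094112650) (nat_lit 152) (nat_lit 3426600151) (nat_lit 76) (nat_lit 139996415996) (nat_lit 5) (nat_lit 5) (nat_lit 7) (nat_lit 5) (nat_lit 6) (nat_lit 4) (nat_lit 360) (nat_lit 255) (nat_lit 165))) (XT.nd (nat_lit 78) (nat_lit 0) (nat_lit 0) (XT.lf (nat_lit 0) (nat_lit 15996128201) (nat_lit 76) (nat_lit 6674659549) (nat_lit 152) (nat_lit 141358015785) (nat_lit 4) (nat_lit 5) (nat_lit 5) (nat_lit 5) (nat_lit 6) (nat_lit 4) (nat_lit 361) (nat_lit 255) (nat_lit 164)) (XT.lf (nat_lit 0) (nat_lit 32785291406) (nat_lit 152) (nat_lit 135511323175) (nat_lit 0) (nat_lit 3617680143) (nat_lit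 4) (nat_lit 5) (nat_lit 6) (nat_lit 4) (nat_lit 4) (nat_lit 4) (nat_lit 362) (nat_lit 255) (nat_lit 163))))) (XT.nd (nat_lit 33306) (nat_lit 0) (nat_lit 19456) (XT.nd (nat_lit 78) (nat_lit 0) (nat_lit 0) (XT.lf (nat_lit 0) (nat_lit 43461607332) (nat_lit 152) (nat_lit 122452559295) (nat_lit 0) (nat_lit 14278213667) (nat_lit 4) (nat_lit 5) (nat_lit 6) (nat_lit 4) (nat_lit 4) (nat_lit 4) (nat_lit 363) (nat_lit 255) (nat_lit 162)) (XT.nd (nat_lit 33150) (nat_lit 0) (nat_lit 22268) (XT.lf (nat_lit 0) (nat_lit 54660994418) (nat_lit 152) (nat_lit 108761130489) (nat_lit 0) (nat_lit 25462569894) (nat_lit 4) (nat_lit 5) (nat_lit 6) (nat_lit 4) (nat_lit 4) (nat_lit 4) (nat_lit 364) (nat_lit 255) (nat_lit 161)) (XT.lf (nat_lit 0) (nat_lit 1638950983) (nat_lit 532) (nat_lit 40703330) (nat_lit 0) (nat_lit 1638950983) (nat_lit 297) (nat_lit 5) (nat_lit 304) (nat_lit 4) (nat_lit 297) (nat_lit 4) (nat_lit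 268) (nat_lit 256) (nat_lit 256)))) (XT.nd (nat_lit 156) (nat_lit 1596) (nat_lit 0) (XT.nd (nat_lit 78) (nat_lit 608) (nat_lit 0) (XT.lf (nat_lit 0) (nat_lit 1663918745) (nat_lit 608) (nat_lit 202340789) (nat_lit 76) (nat_lit 4824449022) (nat_lit 289) (nat_lit 5) (nat_lit 297) (nat_lit 5) (nat_lit 290) (nat_lit 4) (nat_lit 269) (nat_lit 256) (nat_lit 255)) (XT.lf (nat_lit 0) (nat_lit 6521188442) (nat_lit 608) (nat_lit 134427012) (nat_lit 684) (nat_lit 97175424) (nat_lit 281) (nat_lit 5) (nat_lit 289) (nat_lit 5) (nat_lit 290) (nat_lit 4) (nat_lit 270) (nat_lit 256) (nat_lit 254))) (XT.nd (nat_lit 78) (nat_lit 836) (nat_lit 0) (XT.lf (nat_lit 0) (nat_lit 4794259245) (nat_lit 760) (nat_lit 206453147) (nat_lit 76) (nat_lit 1821839138) (nat_lit 271) (nat_lit 5) (nat_lit 281) (nat_lit 5) (nat_lit 272) (nat_lit 4) (nat_lit 271) (nat_lit 256) (nat_lit 253)) (XT.lf (nat_lit 0) (nat_lit 2782474664)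 (nat_lit 836) (nat_lit 98852059) (nat_lit 76) (nat_lit 4019731881) (nat_lit 260) (nat_lit 5) (nat_lit 271) (nat_lit 5) (nat_lit 261) (nat_lit 5) (nat_lit 272) (nat_lit 256) (nat_lit 252))))))) (XT.nd (nat_lit 1092) (nat_lit 4560) (nat_lit 0) (XT.nd (nat_lit 546) (nat_lit 3572) (nat_lit 0) (XT.nd (nat_lit 234) (nat_lit 3116) (nat_lit 0) (XT.nd (nat_lit 78) (nat_lit 2128) (nat_lit 0) (XT.lf (nat_lit 0) (nat_lit 91916477) (nat_lit 912) (nat_lit 520003229) (nat_lit 988) (nat_lit 6376576516) (nat_lit 236) (nat_lit 5) (nat_lit 248) (nat_lit 5) (nat_lit 249) (nat_lit 5) (nat_lit 273) (nat_lit 256) (nat_lit 251)) (XT.nd (nat_lit 78) (nat_lit 1140) (nat_lit 0) (XT.lf (nat_lit 0) (nat_lit 327425211) (nat_lit 988) (nat_lit 5017689000) (nat_lit 1064) (nat_lit 1738812402) (nat_lit 223) (nat_lit 5) (nat_lit 236) (nat_lit 5) (nat_lit 237) (nat_lit 5) (nat_lit 274) (nat_lit 256) (nat_lit 250)) (XT.lf (nat_lit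 0) (nat_lit 625843793) (nat_lit 1064) (nat_lit 2288476014) (nat_lit 1140) (nat_lit 4273924217) (nat_lit 208) (nat_lit 5) (nat_lit 222) (nat_lit 5) (nat_lit 223) (nat_lit 5) (nat_lit 275) (nat_lit 256) (nat_lit 249)))) (XT.nd (nat_lit 156) (nat_lit 1216) (nat_lit 0) (XT.nd (nat_lit 78) (nat_lit 684) (nat_lit 0) (XT.lf (nat_lit 0) (nat_lit 312651472) (nat_lit 1216) (nat_lit 6312514206) (nat_lit 76) (nat_lit 676643030) (nat_lit 192) (nat_lit 5) (nat_lit 208) (nat_lit 5) (nat_lit 193) (nat_lit 5) (nat_lit 276) (nat_lit 256) (nat_lit 248)) (XT.lf (nat_lit 0) (nat_lit 1372355126) (nat_lit 684) (nat_lit 3550407947) (nat_lit 760) (nat_lit 2500854247) (nat_lit 183) (nat_lit 5) (nat_lit 192) (nat_lit 5) (nat_lit 193) (nat_lit 5) (nat_lit 277) (nat_lit 256) (nat_lit 247))) (XT.nd (nat_lit 78) (nat_lit 532) (nat_lit 0) (XT.lf (nat_lit 0) (nat_lit 1814947146) (nat_lit 608) (nat_lit 220190237) (nat_lit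 684) (nat_lit 5520037612) (nat_lit 174) (nat_lit 5) (nat_lit 182) (nat_lit 5) (nat_lit 183) (nat_lit 5) (nat_lit 278) (nat_lit 256) (nat_lit 246)) (XT.lf (nat_lit 0) (nat_lit 2274040956) (nat_lit 532) (nat_lit 4380441607) (nat_lit 608) (nat_lit 1041112646) (nat_lit 167) (nat_lit 5) (nat_lit 174) (nat_lit 5) (nat_lit 175) (nat_lit 5) (nat_lit 279) (nat_lit 256) (nat_lit 245))))) (XT.nd (nat_lit 234) (nat_lit 1900) (nat_lit 0) (XT.nd (nat_lit 78) (nat_lit 1064) (nat_lit 0) (XT.lf (nat_lit 0) (nat_lit 2763254262) (nat_lit 532) (nat_lit 712646527) (nat_lit 608) (nat_lit 4369766750) (nat_lit 159) (nat_lit 5) (nat_lit 166) (nat_lit 5) (nat_lit 167) (nat_lit 5) (nat_lit 280) (nat_lit 256) (nat_lit 244)) (XT.nd (nat_lit 78) (nat_lit 532) (nat_lit 0) (XT.lf (nat_lit 0) (nat_lit 112243994) (nat_lit 532) (nat_lit 4734931760) (nat_lit 76) (nat_lit 3158286112) (nat_lit 152) (nat_lit 5) (nat_lit 159) (nat_lit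 5) (nat_lit 153) (nat_lit 5) (nat_lit 281) (nat_lit 256) (nat_lit 243)) (XT.lf (nat_lit 0) (nat_lit 3779912995) (nat_lit 532) (nat_lit 854994461) (nat_lit 608) (nat_lit 3540057260) (nat_lit 145) (nat_lit 5) (nat_lit 152) (nat_lit 5) (nat_lit 153) (nat_lit 5) (nat_lit 282) (nat_lit 256) (nat_lit 242)))) (XT.nd (nat_lit 156) (nat_lit 912) (nat_lit 0) (XT.nd (nat_lit 78) (nat_lit 456) (nat_lit 0) (XT.lf (nat_lit 0) (nat_lit 948971430) (nat_lit 532) (nat_lit 4061804443) (nat_lit 76) (nat_lit 3343927476) (nat_lit 138) (nat_lit 5) (nat_lit 145) (nat_lit 5) (nat_lit 139) (nat_lit 5) (nat_lit 283) (nat_lit 256) (nat_lit 241)) (XT.lf (nat_lit 0) (nat_lit 4799443792) (nat_lit 456) (nat_lit 712172591) (nat_lit 532) (nat_lit 3033287388) (nat_lit 132) (nat_lit 5) (nat_lit 138) (nat_lit 5) (nat_lit 139) (nat_lit 5) (nat_lit 284) (nat_lit 256) (nat_lit 240))) (XT.nd (nat_lit 78) (nat_lit 456) (nat_lit 0)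 (XT.lf (nat_lit 0) (nat_lit 1483877522) (nat_lit 456) (nat_lit 3462210965) (nat_lit 76) (nat_lit 3799564439) (nat_lit 126) (nat_lit 5) (nat_lit 132) (nat_lit 5) (nat_lit 127) (nat_lit 5) (nat_lit 285) (nat_lit 256) (nat_lit 239)) (XT.lf (nat_lit 0) (nat_lit 5750102677) (nat_lit 456) (nat_lit 347857952) (nat_lit 532) (nat_lit 2859738258) (nat_lit 120) (nat_lit 5) (nat_lit 126) (nat_lit 5) (nat_lit 127) (nat_lit 5) (nat_lit 286) (nat_lit 256) (nat_lit 238)))))) (XT.nd (nat_lit 546) (nat_lit 1900) (nat_lit 0) (XT.nd (nat_lit 234) (nat_lit 1444) (nat_lit 0) (XT.nd (nat_lit 78) (nat_lit 760) (nat_lit 0) (XT.lf (nat_lit 0) (nat_lit 1703558402) (nat_lit 456) (nat_lit 3013852757) (nat_lit 76) (nat_lit 4463322289) (nat_lit 114) (nat_lit 5) (nat_lit 120) (nat_lit 5) (nat_lit 115) (nat_lit 5) (nat_lit 287) (nat_lit 256) (nat_lit 237)) (XT.nd (nat_lit 78) (nat_lit 380) (nat_lit 0) (XT.lf (nat_lit 0)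 (nat_lit 6379458013) (nat_lit 456) (nat_lit 2865893720) (nat_lit 76) (nat_lit 170564447) (nat_lit 109) (nat_lit 5) (nat_lit 115) (nat_lit 5) (nat_lit 110) (nat_lit 5) (nat_lit 288) (nat_lit 256) (nat_lit 236)) (XT.lf (nat_lit 0) (nat_lit 1586043143) (nat_lit 380) (nat_lit 2804367215) (nat_lit 76) (nat_lit 5272375971) (nat_lit 104) (nat_lit 5) (nat_lit 109) (nat_lit 5) (nat_lit 105) (nat_lit 5) (nat_lit 289) (nat_lit 256) (nat_lit 235)))) (XT.nd (nat_lit 156) (nat_lit 684) (nat_lit 0) (XT.nd (nat_lit 78) (nat_lit 380) (nat_lit 0) (XT.lf (nat_lit 0) (nat_lit 6333663135) (nat_lit 456) (nat_lit 2816904793) (nat_lit 76) (nat_lit 771961396) (nat_lit 99) (nat_lit 5) (nat_lit 105) (nat_lit 5) (nat_lit 100) (nat_lit 5) (nat_lit 290) (nat_lit 256) (nat_lit 234)) (XT.lf (nat_lit 0) (nat_lit 1099916443) (nat_lit 380) (nat_lit 2933911386) (nat_lit 76) (nat_lit 6161279518) (nat_lit 94) (nat_lit 5) (nat_lit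 99) (nat_lit 5) (nat_lit 95) (nat_lit 5) (nat_lit 291) (nat_lit 256) (nat_lit 233))) (XT.nd (nat_lit 78) (nat_lit 380) (nat_lit 0) (XT.lf (nat_lit 0) (nat_lit 5921751473) (nat_lit 380) (nat_lit 3164627841) (nat_lit 76) (nat_lit 1394802762) (nat_lit 90) (nat_lit 5) (nat_lit 95) (nat_lit 5) (nat_lit 91) (nat_lit 5) (nat_lit 292) (nat_lit 256) (nat_lit 232)) (XT.lf (nat_lit 0) (nat_lit 203210155) (nat_lit 380) (nat_lit 3518112504) (nat_lit 76) (nat_lit 7060167569) (nat_lit 85) (nat_lit 5) (nat_lit 90) (nat_lit 5) (nat_lit 86) (nat_lit 5) (nat_lit 293) (nat_lit 256) (nat_lit 231))))) (XT.nd (nat_lit 234) (nat_lit 988) (nat_lit 0) (XT.nd (nat_lit 78) (nat_lit 608) (nat_lit 0) (XT.lf (nat_lit 0) (nat_lit 5097159774) (nat_lit 380) (nat_lit 4033538500) (nat_lit 76) (nat_lit 1965241750) (nat_lit 81) (nat_lit 5) (nat_lit 86) (nat_lit 5) (nat_lit 82) (nat_lit 5) (nat_lit 294) (nat_lit 256) (nat_lit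 230)) (XT.nd (nat_lit 78) (nat_lit 380) (nat_lit 0) (XT.lf (nat_lit 0) (nat_lit 6723126708) (nat_lit 228) (nat_lit 3521799108) (nat_lit 304) (nat_lit 1181012646) (nat_lit 78) (nat_lit 5) (nat_lit 81) (nat_lit 5) (nat_lit 82) (nat_lit 5) (nat_lit 295) (nat_lit 256) (nat_lit 229)) (XT.lf (nat_lit 0) (nat_lit 3800730986) (nat_lit 380) (nat_lit 5568885654) (nat_lit 76) (nat_lit 2401831524) (nat_lit 73) (nat_lit 5) (nat_lit 78) (nat_lit 5) (nat_lit 74) (nat_lit 5) (nat_lit 296) (nat_lit 256) (nat_lit 228)))) (XT.nd (nat_lit 156) (nat_lit 456) (nat_lit 0) (XT.nd (nat_lit 78) (nat_lit 304) (nat_lit 0) (XT.lf (nat_lit 0) (nat_lit 5492402339) (nat_lit 228) (nat_lit 3529310666) (nat_lit 304) (nat_lit 3111820075) (nat_lit 70) (nat_lit 5) (nat_lit 73) (nat_lit 5) (nat_lit 74) (nat_lit 5) (nat_lit 297) (nat_lit 256) (nat_lit 227)) (XT.lf (nat_lit 0) (nat_lit 1958884302) (nat_lit 304) (nat_lit 7940904782)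 (nat_lit 76) (nat_lit 2613209629) (nat_lit 66) (nat_lit 5) (nat_lit 70) (nat_lit 5) (nat_lit 67) (nat_lit 5) (nat_lit 298) (nat_lit 256) (nat_lit 226))) (XT.nd (nat_lit 78) (nat_lit 228) (nat_lit 0) (XT.lf (nat_lit 0) (nat_lit 3393474545) (nat_lit 228) (nat_lit 3846570794) (nat_lit 304) (nat_lit 5669906957) (nat_lit 63) (nat_lit 5) (nat_lit 66) (nat_lit 5) (nat_lit 67) (nat_lit 5) (nat_lit 299) (nat_lit 256) (nat_lit 225)) (XT.lf (nat_lit 0) (nat_lit 1971663407) (nat_lit 228) (nat_lit 10825892641) (nat_lit 304) (nat_lit 528902408) (nat_lit 60) (nat_lit 5) (nat_lit 63) (nat_lit 5) (nat_lit 64) (nat_lit 5) (nat_lit 300) (nat_lit 256) (nat_lit 224))))))))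
noncomputable def xc43 : XT := (XT.nd (nat_lit 2184) (nat_lit 836) (nat_lit 0) (XT.nd (nat_lit 1092) (nat_lit 1216) (nat_lit 0) (XT.nd (nat_lit 546) (nat_lit 912) (nat_lit 0) (XT.nd (nat_lit 234) (nat_lit 608) (nat_lit 0) (XT.nd (nat_lit 78) (nat_lit 304) (nat_lit 0) (XT.lf (nat_lit 0) (nat_lit 214553127) (nat_lit 152) (nat_lit 4588648971) (nat_lit 228) (nat_lit 8958379835) (nat_lit 57) (nat_lit 5) (nat_lit 59) (nat_lit 5) (nat_lit 60) (nat_lit 5) (nat_lit 301) (nat_lit 256) (nat_lit 223)) (XT.nd (nat_lit 78) (nat_lit 304) (nat_lit 0) (XT.lf (nat_lit 0) (nat_lit 10420239911) (nat_lit 228) (nat_lit 1813554027) (nat_lit 76) (nat_lit 1983697402) (nat_lit 57) (nat_lit 5) (nat_lit 60) (nat_lit 5) (nat_lit 58) (nat_lit 5) (nat_lit 302) (nat_lit 256) (nat_lit 222)) (XT.lf (nat_lit 0) (nat_lit 1635321530) (nat_lit 304) (nat_lit 4210443085) (nat_lit 76) (nat_lit 8848672704) (nat_lit 53) (nat_lit 5)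 (nat_lit 57) (nat_lit 5) (nat_lit 54) (nat_lit 5) (nat_lit 303) (nat_lit 256) (nat_lit 221)))) (XT.nd (nat_lit 156) (nat_lit 228) (nat_lit 0) (XT.nd (nat_lit 78) (nat_lit 228) (nat_lit 0) (XT.lf (nat_lit 0) (nat_lit 7268137257) (nat_lit 228) (nat_lit 7004129977) (nat_lit 76) (nat_lit 921678166) (nat_lit 51) (nat_lit 5) (nat_lit 54) (nat_lit 5) (nat_lit 52) (nat_lit 5) (nat_lit 304) (nat_lit 256) (nat_lit 220)) (XT.lf (nat_lit 0) (nat_lit 5468472926) (nat_lit 228) (nat_lit 7771856968) (nat_lit 304) (nat_lit 2476421299) (nat_lit 48) (nat_lit 5) (nat_lit 51) (nat_lit 5) (nat_lit 52) (nat_lit 5) (nat_lit 305) (nat_lit 256) (nat_lit 219))) (XT.nd (nat_lit 78) (nat_lit 0) (nat_lit 0) (XT.lf (nat_lit 0) (nat_lit 2303455781) (nat_lit 152) (nat_lit 878171921) (nat_lit 228) (nat_lit 13083198269) (nat_lit 45) (nat_lit 5) (nat_lit 47) (nat_lit 5) (nat_lit 48) (nat_lit 5) (nat_lit 306) (nat_lit 256) (nat_lit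 218)) (XT.lf (nat_lit 0) (nat_lit 9146582400) (nat_lit 228) (nat_lit 1382236904) (nat_lit 76) (nat_lit 6308540927) (nat_lit 45) (nat_lit 5) (nat_lit 48) (nat_lit 5) (nat_lit 46) (nat_lit 5) (nat_lit 307) (nat_lit 256) (nat_lit 217))))) (XT.nd (nat_lit 234) (nat_lit 380) (nat_lit 0) (XT.nd (nat_lit 78) (nat_lit 380) (nat_lit 0) (XT.lf (nat_lit 0) (nat_lit 11901754610) (nat_lit 152) (nat_lit 3542790033) (nat_lit 228) (nat_lit 1992979385) (nat_lit 43) (nat_lit 5) (nat_lit 45) (nat_lit 5) (nat_lit 46) (nat_lit 5) (nat_lit 308) (nat_lit 256) (nat_lit 216)) (XT.nd (nat_lit 78) (nat_lit 152) (nat_lit 0) (XT.lf (nat_lit 0) (nat_lit 3951602919) (nat_lit 228) (nat_lit 10323803083) (nat_lit 76) (nat_lit 3789989221) (nat_lit 40) (nat_lit 5) (nat_lit 43) (nat_lit 5) (nat_lit 41) (nat_lit 5) (nat_lit 309) (nat_lit 256) (nat_lit 215)) (XT.lf (nat_lit 0) (nat_lit 2933490597) (nat_lit 152) (nat_lit 7256251511)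 (nat_lit 228) (nat_lit 8533239698) (nat_lit 38) (nat_lit 5) (nat_lit 40) (nat_lit 5) (nat_lit 41) (nat_lit 5) (nat_lit 310) (nat_lit 256) (nat_lit 214)))) (XT.nd (nat_lit 156) (nat_lit 152) (nat_lit 0) (XT.nd (nat_lit 78) (nat_lit 228) (nat_lit 0) (XT.lf (nat_lit 0) (nat_lit 16765998550) (nat_lit 228) (nat_lit 2483730980) (nat_lit 76) (nat_lit 162970140) (nat_lit 38) (nat_lit 5) (nat_lit 41) (nat_lit 5) (nat_lit 39) (nat_lit 4) (nat_lit 311) (nat_lit 256) (nat_lit 213)) (XT.lf (nat_lit 0) (nat_lit 3571741191) (nat_lit 228) (nat_lit 8664227689) (nat_lit 76) (nat_lit 7896754512) (nat_lit 35) (nat_lit 5) (nat_lit 38) (nat_lit 5) (nat_lit 36) (nat_lit 5) (nat_lit 312) (nat_lit 256) (nat_lit 212))) (XT.nd (nat_lit 78) (nat_lit 0) (nat_lit 0) (XT.lf (nat_lit 0) (nat_lit 5225529882) (nat_lit 152) (nat_lit 4820795031) (nat_lit 228) (nat_lit 10841672216) (nat_lit 33) (nat_lit 5) (nat_lit 35) (nat_lit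 5) (nat_lit 36) (nat_lit 5) (nat_lit 313) (nat_lit 256) (nat_lit 211)) (XT.lf (nat_lit 0) (nat_lit 16888511557) (nat_lit 228) (nat_lit 1846604531) (nat_lit 76) (nat_lit 2944634340) (nat_lit 33) (nat_lit 5) (nat_lit 36) (nat_lit 5) (nat_lit 34) (nat_lit 4) (nat_lit 314) (nat_lit 256) (nat_lit 210)))))) (XT.nd (nat_lit 546) (nat_lit 532) (nat_lit 0) (XT.nd (nat_lit 234) (nat_lit 380) (nat_lit 0) (XT.nd (nat_lit 78) (nat_lit 152) (nat_lit 0) (XT.lf (nat_lit 0) (nat_lit 1632143255) (nat_lit 152) (nat_lit 9787714268) (nat_lit 76) (nat_lit 11087786119) (nat_lit 31) (nat_lit 5) (nat_lit 33) (nat_lit 5) (nat_lit 32) (nat_lit 5) (nat_lit 315) (nat_lit 256) (nat_lit 209)) (XT.nd (nat_lit 78) (nat_lit 0) (nat_lit 0) (XT.lf (nat_lit 0) (nat_lit 4596780141) (nat_lit 152) (nat_lit 3675508147) (nat_lit 228) (nat_lit 15103407823) (nat_lit 29) (nat_lit 5) (nat_lit 31) (nat_lit 5) (nat_lit 32) (nat_lit 5)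 (nat_lit 316) (nat_lit 256) (nat_lit 208)) (XT.lf (nat_lit 0) (nat_lit 15321103549) (nat_lit 228) (nat_lit 4542401694) (nat_lit 76) (nat_lit 4421372983) (nat_lit 29) (nat_lit 5) (nat_lit 32) (nat_lit 5) (nat_lit 30) (nat_lit 4) (nat_lit 317) (nat_lit 256) (nat_lit 207)))) (XT.nd (nat_lit 156) (nat_lit 228) (nat_lit 0) (XT.nd (nat_lit 78) (nat_lit 76) (nat_lit 0) (XT.lf (nat_lit 0) (nat_lit 10459150552) (nat_lit 76) (nat_lit 12336156232) (nat_lit 152) (nat_lit 2442049875) (nat_lit 28) (nat_lit 5) (nat_lit 29) (nat_lit 5) (nat_lit 30) (nat_lit 4) (nat_lit 318) (nat_lit 256) (nat_lit 206)) (XT.lf (nat_lit 0) (nat_lit 4303695167) (nat_lit 152) (nat_lit 84974640) (nat_lit 76) (nat_lit 21848025190) (nat_lit 27) (nat_lit 5) (nat_lit 29) (nat_lit 5) (nat_lit 28) (nat_lit 5) (nat_lit 319) (nat_lit 256) (nat_lit 205))) (XT.nd (nat_lit 78) (nat_lit 76) (nat_lit 0) (XT.lf (nat_lit 0) (nat_lit 11464831164)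 (nat_lit 228) (nat_lit 11807393466) (nat_lit 76) (nat_lit 4009214558) (nat_lit 25) (nat_lit 5) (nat_lit 28) (nat_lit 5) (nat_lit 26) (nat_lit 4) (nat_lit 320) (nat_lit 256) (nat_lit 204)) (XT.lf (nat_lit 0) (nat_lit 3350705330) (nat_lit 76) (nat_lit 15651849959) (nat_lit 152) (nat_lit 9375330855) (nat_lit 24) (nat_lit 5) (nat_lit 25) (nat_lit 5) (nat_lit 26) (nat_lit 4) (nat_lit 321) (nat_lit 256) (nat_lit 203))))) (XT.nd (nat_lit 234) (nat_lit 304) (nat_lit 0) (XT.nd (nat_lit 78) (nat_lit 228) (nat_lit 0) (XT.lf (nat_lit 0) (nat_lit 19411679249) (nat_lit 76) (nat_lit 7570000503) (nat_lit 152) (nat_lit 2545560742) (nat_lit 24) (nat_lit 5) (nat_lit 25) (nat_lit 5) (nat_lit 26) (nat_lit 4) (nat_lit 322) (nat_lit 256) (nat_lit 202)) (XT.nd (nat_lit 78) (nat_lit 0) (nat_lit 0) (XT.lf (nat_lit 0) (nat_lit 4542846992) (nat_lit 228) (nat_lit 25235566534) (nat_lit 76) (nat_lit 954111619) (nat_lit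 21) (nat_lit 5) (nat_lit 24) (nat_lit 5) (nat_lit 22) (nat_lit 4) (nat_lit 323) (nat_lit 256) (nat_lit 201)) (XT.lf (nat_lit 0) (nat_lit 12061505874) (nat_lit 228) (nat_lit 10093023408) (nat_lit 76) (nat_lit 9838952361) (nat_lit 21) (nat_lit 5) (nat_lit 24) (nat_lit 5) (nat_lit 22) (nat_lit 4) (nat_lit 324) (nat_lit 256) (nat_lit 200)))) (XT.nd (nat_lit 156) (nat_lit 228) (nat_lit 0) (XT.nd (nat_lit 78) (nat_lit 0) (nat_lit 0) (XT.lf (nat_lit 0) (nat_lit 5828541342) (nat_lit 76) (nat_lit 14132555145) (nat_lit 152) (nat_lit 13356256683) (nat_lit 20) (nat_lit 5) (nat_lit 21) (nat_lit 5) (nat_lit 22) (nat_lit 4) (nat_lit 325) (nat_lit 256) (nat_lit 199)) (XT.lf (nat_lit 0) (nat_lit 22667890081) (nat_lit 76) (nat_lit 5642219012) (nat_lit 152) (nat_lit 6395692257) (nat_lit 20) (nat_lit 5) (nat_lit 21) (nat_lit 5) (nat_lit 22) (nat_lit 4) (nat_lit 326) (nat_lit 256) (nat_lit 198))) (XT.nd (nat_lit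 78) (nat_lit 0) (nat_lit 0) (XT.lf (nat_lit 0) (nat_lit 919183776) (nat_lit 228) (nat_lit 32022970295) (nat_lit 76) (nat_lit 3220546806) (nat_lit 17) (nat_lit 5) (nat_lit 20) (nat_lit 5) (nat_lit 18) (nat_lit 4) (nat_lit 327) (nat_lit 256) (nat_lit 197)) (XT.lf (nat_lit 0) (nat_lit 8604377136) (nat_lit 228) (nat_lit 16518143708) (nat_lit 76) (nat_lit 12563933837) (nat_lit 17) (nat_lit 5) (nat_lit 20) (nat_lit 5) (nat_lit 18) (nat_lit 4) (nat_lit 328) (nat_lit 256) (nat_lit 196))))))) (XT.nd (nat_lit 1092) (nat_lit 304) (nat_lit 0) (XT.nd (nat_lit 546) (nat_lit 228) (nat_lit 0) (XT.nd (nat_lit 234) (nat_lit 228) (nat_lit 0) (XT.nd (nat_lit 78) (nat_lit 76) (nat_lit 0) (XT.lf (nat_lit 0) (nat_lit 16629565193) (nat_lit 228) (nat_lit 318550938) (nat_lit 76) (nat_lit 22339621707) (nat_lit 17) (nat_lit 5) (nat_lit 20) (nat_lit 5) (nat_lit 18) (nat_lit 4) (nat_lit 329) (nat_lit 256) (nat_lit 195))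 (XT.nd (nat_lit 78) (nat_lit 0) (nat_lit 0) (XT.lf (nat_lit 0) (nat_lit 16945037181) (nat_lit 76) (nat_lit 8231704418) (nat_lit 152) (nat_lit 15788734745) (nat_lit 16) (nat_lit 5) (nat_lit 17) (nat_lit 5) (nat_lit 18) (nat_lit 4) (nat_lit 330) (nat_lit 256) (nat_lit 194)) (XT.lf (nat_lit 0) (nat_lit 34122249118) (nat_lit 152) (nat_lit 7732784696) (nat_lit 0) (nat_lit 872951231) (nat_lit 16) (nat_lit 5) (nat_lit 18) (nat_lit 4) (nat_lit 16) (nat_lit 4) (nat_lit 331) (nat_lit 256) (nat_lit 193)))) (XT.nd (nat_lit 156) (nat_lit 76) (nat_lit 0) (XT.nd (nat_lit 78) (nat_lit 76) (nat_lit 0) (XT.lf (nat_lit 0) (nat_lit 9397779445) (nat_lit 76) (nat_lit 34251447642) (nat_lit 76) (nat_lit 925378088) (nat_lit 15) (nat_lit 4) (nat_lit 16) (nat_lit 5) (nat_lit 16) (nat_lit 4) (nat_lit 332) (nat_lit 256) (nat_lit 192)) (XT.lf (nat_lit 0) (nat_lit 7041663907) (nat_lit 152) (nat_lit 19104607695) (nat_lit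 76) (nat_lit 20363977714) (nat_lit 14) (nat_lit 5) (nat_lit 16) (nat_lit 5) (nat_lit 15) (nat_lit 4) (nat_lit 333) (nat_lit 256) (nat_lit 191))) (XT.nd (nat_lit 78) (nat_lit 76) (nat_lit 0) (XT.lf (nat_lit 0) (nat_lit 15351510513) (nat_lit 152) (nat_lit 2305253249) (nat_lit 76) (nat_lit 30886739748) (nat_lit 14) (nat_lit 5) (nat_lit 16) (nat_lit 5) (nat_lit 15) (nat_lit 4) (nat_lit 334) (nat_lit 256) (nat_lit 190)) (XT.lf (nat_lit 0) (nat_lit 15574036925) (nat_lit 76) (nat_lit 8617674783) (nat_lit 152) (nat_lit 26483272772) (nat_lit 13) (nat_lit 5) (nat_lit 14) (nat_lit 5) (nat_lit 15) (nat_lit 4) (nat_lit 335) (nat_lit 256) (nat_lit 189))))) (XT.nd (nat_lit 234) (nat_lit 152) (nat_lit 0) (XT.nd (nat_lit 78) (nat_lit 76) (nat_lit 0) (XT.lf (nat_lit 0) (nat_lit 33472228954) (nat_lit 152) (nat_lit 18588348753) (nat_lit 0) (nat_lit 852522075) (nat_lit 13) (nat_lit 5) (nat_lit 15) (nat_lit 4)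 (nat_lit 13) (nat_lit 4) (nat_lit 336) (nat_lit 256) (nat_lit 188)) (XT.nd (nat_lit 78) (nat_lit 76) (nat_lit 0) (XT.lf (nat_lit 0) (nat_lit 43271319132) (nat_lit 152) (nat_lit 1396962653) (nat_lit 0) (nat_lit 10593211662) (nat_lit 13) (nat_lit 5) (nat_lit 15) (nat_lit 4) (nat_lit 13) (nat_lit 4) (nat_lit 337) (nat_lit 256) (nat_lit 187)) (XT.lf (nat_lit 0) (nat_lit 16927293441) (nat_lit 76) (nat_lit 36764897108) (nat_lit 76) (nat_lit 4031170027) (nat_lit 12) (nat_lit 4) (nat_lit 13) (nat_lit 5) (nat_lit 13) (nat_lit 4) (nat_lit 338) (nat_lit 256) (nat_lit 186)))) (XT.nd (nat_lit 156) (nat_lit 76) (nat_lit 0) (XT.nd (nat_lit 78) (nat_lit 0) (nat_lit 0) (XT.lf (nat_lit 0) (nat_lit 4225640969) (nat_lit 152) (nat_lit 24208646971) (nat_lit 76) (nat_lit 31873265550) (nat_lit 11) (nat_lit 5) (nat_lit 13) (nat_lit 5) (nat_lit 12) (nat_lit 4) (nat_lit 339) (nat_lit 256) (nat_lit 185)) (XT.lf (nat_lit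 0) (nat_lit 12783882689) (nat_lit 152) (nat_lit 6885864906) (nat_lit 76) (nat_lit 43350859806) (nat_lit 11) (nat_lit 5) (nat_lit 13) (nat_lit 5) (nat_lit 12) (nat_lit 4) (nat_lit 340) (nat_lit 256) (nat_lit 184))) (XT.nd (nat_lit 78) (nat_lit 0) (nat_lit 0) (XT.lf (nat_lit 0) (nat_lit 11476216163) (nat_lit 76) (nat_lit 10376694793) (nat_lit 152) (nat_lit 44013924017) (nat_lit 10) (nat_lit 5) (nat_lit 11) (nat_lit 5) (nat_lit 12) (nat_lit 4) (nat_lit 341) (nat_lit 256) (nat_lit 183)) (XT.lf (nat_lit 0) (nat_lit 30850968868) (nat_lit 76) (nat_lit 568696323) (nat_lit 152) (nat_lit 37434387351) (nat_lit 10) (nat_lit 5) (nat_lit 11) (nat_lit 5) (nat_lit 12) (nat_lit 4) (nat_lit 342) (nat_lit 256) (nat_lit 182)))))) (XT.nd (nat_lit 546) (nat_lit 76) (nat_lit 0) (XT.nd (nat_lit 234) (nat_lit 152) (nat_lit 0) (XT.nd (nat_lit 78) (nat_lit 76) (nat_lit 0) (XT.lf (nat_lit 0) (nat_lit 41532734774) (nat_lit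 152) (nat_lit 20937236301) (nat_lit 0) (nat_lit 9518627112) (nat_lit 10) (nat_lit 5) (nat_lit 12) (nat_lit 4) (nat_lit 10) (nat_lit 4) (nat_lit 343) (nat_lit 256) (nat_lit 181)) (XT.nd (nat_lit 78) (nat_lit 76) (nat_lit 0) (XT.lf (nat_lit 0) (nat_lit 52132864291) (nat_lit 152) (nat_lit 3069109569) (nat_lit 0) (nat_lit 20078461279) (nat_lit 10) (nat_lit 5) (nat_lit 12) (nat_lit 4) (nat_lit 10) (nat_lit 4) (nat_lit 344) (nat_lit 256) (nat_lit 180)) (XT.lf (nat_lit 0) (nat_lit 15960758218) (nat_lit 76) (nat_lit 47432491842) (nat_lit 76) (nat_lit 15339712307) (nat_lit 9) (nat_lit 4) (nat_lit 10) (nat_lit 5) (nat_lit 10) (nat_lit 4) (nat_lit 345) (nat_lit 256) (nat_lit 179)))) (XT.nd (nat_lit 156) (nat_lit 76) (nat_lit 0) (XT.nd (nat_lit 78) (nat_lit 76) (nat_lit 0) (XT.lf (nat_lit 0) (nat_lit 35964373540) (nat_lit 76) (nat_lit 39261401532) (nat_lit 76) (nat_lit 7132072926) (nat_lit 9) (nat_lit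 4) (nat_lit 10) (nat_lit 5) (nat_lit 10) (nat_lit 4) (nat_lit 346) (nat_lit 256) (nat_lit 178)) (XT.lf (nat_lit 0) (nat_lit 1435331394) (nat_lit 152) (nat_lit 29250414512) (nat_lit 76) (nat_lit 55478457327) (nat_lit 8) (nat_lit 5) (nat_lit 10) (nat_lit 5) (nat_lit 9) (nat_lit 4) (nat_lit 347) (nat_lit 256) (nat_lit 177))) (XT.nd (nat_lit 78) (nat_lit 76) (nat_lit 0) (XT.lf (nat_lit 0) (nat_lit 10264383619) (nat_lit 152) (nat_lit 11360589580) (nat_lit 76) (nat_lit 68534366163) (nat_lit 8) (nat_lit 5) (nat_lit 10) (nat_lit 5) (nat_lit 9) (nat_lit 4) (nat_lit 348) (nat_lit 256) (nat_lit 176)) (XT.lf (nat_lit 0) (nat_lit 7534171834) (nat_lit 76) (nat_lit 12053528965) (nat_lit 152) (nat_lit 74764951859) (nat_lit 7) (nat_lit 5) (nat_lit 8) (nat_lit 5) (nat_lit 9) (nat_lit 4) (nat_lit 349) (nat_lit 256) (nat_lit 175))))) (XT.nd (nat_lit 234) (nat_lit 76) (nat_lit 0) (XT.nd (nat_lit 78) (nat_lit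 0) (nat_lit 0) (XT.lf (nat_lit 0) (nat_lit 27575549011) (nat_lit 76) (nat_lit 1899563703) (nat_lit 152) (nat_lit 69277585542) (nat_lit 7) (nat_lit 5) (nat_lit 8) (nat_lit 5) (nat_lit 9) (nat_lit 4) (nat_lit 350) (nat_lit 256) (nat_lit 174)) (XT.nd (nat_lit 78) (nat_lit 0) (nat_lit 0) (XT.lf (nat_lit 0) (nat_lit 39922858038) (nat_lit 152) (nat_lit 54872207845) (nat_lit 0) (nat_lit 8575705657) (nat_lit 7) (nat_lit 5) (nat_lit 9) (nat_lit 4) (nat_lit 7) (nat_lit 4) (nat_lit 351) (nat_lit 256) (nat_lit 173)) (XT.lf (nat_lit 0) (nat_lit 50894769240) (nat_lit 152) (nat_lit 37803792221) (nat_lit 0) (nat_lit 19521137753) (nat_lit 7) (nat_lit 5) (nat_lit 9) (nat_lit 4) (nat_lit 7) (nat_lit 4) (nat_lit 352) (nat_lit 256) (nat_lit 172)))) (XT.nd (nat_lit 156) (nat_lit 76) (nat_lit 0) (XT.nd (nat_lit 78) (nat_lit 0) (nat_lit 0) (XT.lf (nat_lit 0) (nat_lit 62398710151) (nat_lit 152) (nat_lit 19913003521)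 (nat_lit 0) (nat_lit 30999860468) (nat_lit 7) (nat_lit 5) (nat_lit 9) (nat_lit 4) (nat_lit 7) (nat_lit 4) (nat_lit 353) (nat_lit 256) (nat_lit 171)) (XT.lf (nat_lit 0) (nat_lit 74462071106) (nat_lit 152) (nat_lit 1157244628) (nat_lit 0) (nat_lit 43039204094) (nat_lit 7) (nat_lit 5) (nat_lit 9) (nat_lit 4) (nat_lit 7) (nat_lit 4) (nat_lit 354) (nat_lit 256) (nat_lit 170))) (XT.nd (nat_lit 78) (nat_lit 0) (nat_lit 0) (XT.lf (nat_lit 0) (nat_lit 18876489321) (nat_lit 76) (nat_lit 68418537435) (nat_lit 76) (nat_lit 36972796775) (nat_lit 6) (nat_lit 4) (nat_lit 7) (nat_lit 5) (nat_lit 7) (nat_lit 4) (nat_lit 355) (nat_lit 256) (nat_lit 169)) (XT.lf (nat_lit 0) (nat_lit 39908739030) (nat_lit 76) (nat_lit 60858230823) (nat_lit 76) (nat_lit 29390705738) (nat_lit 6) (nat_lit 4) (nat_lit 7) (nat_lit 5) (nat_lit 7) (nat_lit 4) (nat_lit 356) (nat_lit 256) (nat_lit 168))))))))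
noncomputable def xc44 : XT := (XT.nd (nat_lit 35022) (nat_lit 0) (nat_lit 2432) (XT.nd (nat_lit 33930) (nat_lit 0) (nat_lit 9728) (XT.nd (nat_lit 468) (nat_lit 0) (nat_lit 0) (XT.nd (nat_lit 234) (nat_lit 152) (nat_lit 0) (XT.nd (nat_lit 78) (nat_lit 0) (nat_lit 0) (XT.lf (nat_lit 0) (nat_lit 61966549844) (nat_lit 76) (nat_lit 52932081071) (nat_lit 76) (nat_lit 21443808914) (nat_lit 6) (nat_lit 4) (nat_lit 7) (nat_lit 5) (nat_lit 7) (nat_lit 4) (nat_lit 357) (nat_lit 256) (nat_lit 167)) (XT.nd (nat_lit 78) (nat_lit 0) (nat_lit 0) (XT.lf (nat_lit 0) (nat_lit 85102440362) (nat_lit 76) (nat_lit 44621216395) (nat_lit 76) (nat_lit 13113185121) (nat_lit 6) (nat_lit 4) (nat_lit 7) (nat_lit 5) (nat_lit 7) (nat_lit 4) (nat_lit 358) (nat_lit 256) (nat_lit 166)) (XT.lf (nat_lit 0) (nat_lit 109371496036) (nat_lit 76) (nat_lit 35905849021) (nat_lit 76) (nat_lit 4378999541) (nat_lit 6) (nat_lit 4) (nat_lit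 7) (nat_lit 5) (nat_lit 7) (nat_lit 4) (nat_lit 359) (nat_lit 256) (nat_lit 165)))) (XT.nd (nat_lit 78) (nat_lit 76) (nat_lit 0) (XT.lf (nat_lit 0) (nat_lit 4686277397) (nat_lit 152) (nat_lit 22031628463) (nat_lit 76) (nat_lit 130097900721) (nat_lit 5) (nat_lit 5) (nat_lit 7) (nat_lit 5) (nat_lit 6) (nat_lit 4) (nat_lit 360) (nat_lit 256) (nat_lit 164)) (XT.nd (nat_lit 78) (nat_lit 76) (nat_lit 0) (XT.lf (nat_lit 0) (nat_lit 14103561548) (nat_lit 152) (nat_lit 2931610305) (nat_lit 76) (nat_lit 147297092443) (nat_lit 5) (nat_lit 5) (nat_lit 7) (nat_lit 5) (nat_lit 6) (nat_lit 4) (nat_lit 361) (nat_lit 256) (nat_lit 163)) (XT.lf (nat_lit 0) (nat_lit 17443154540) (nat_lit 76) (nat_lit 6705244801) (nat_lit 152) (nat_lit 148071447307) (nat_lit 4) (nat_lit 5) (nat_lit 5) (nat_lit 5) (nat_lit 6) (nat_lit 4) (nat_lit 362) (nat_lit 256) (nat_lit 162))))) (XT.nd (nat_lit 33150) (nat_lit 0) (nat_lit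 20976) (XT.nd (nat_lit 78) (nat_lit 0) (nat_lit 0) (XT.lf (nat_lit 0) (nat_lit 34755019066) (nat_lit 152) (nat_lit 141663362713) (nat_lit 0) (nat_lit 4081642457) (nat_lit 4) (nat_lit 5) (nat_lit 6) (nat_lit 4) (nat_lit 4) (nat_lit 4) (nat_lit 363) (nat_lit 256) (nat_lit 161)) (XT.nd (nat_lit 32994) (nat_lit 0) (nat_lit 22800) (XT.lf (nat_lit 0) (nat_lit 45949414450) (nat_lit 152) (nat_lit 127981352383) (nat_lit 0) (nat_lit 15261722738) (nat_lit 4) (nat_lit 5) (nat_lit 6) (nat_lit 4) (nat_lit 4) (nat_lit 4) (nat_lit 364) (nat_lit 256) (nat_lit 160)) (XT.lf (nat_lit 0) (nat_lit 285527694) (nat_lit 380) (nat_lit 1495050390) (nat_lit 380) (nat_lit 1495050390) (nat_lit 304) (nat_lit 4) (nat_lit 309) (nat_lit 5) (nat_lit 309) (nat_lit 4) (nat_lit 266) (nat_lit 257) (nat_lit 257)))) (XT.nd (nat_lit 156) (nat_lit 1216) (nat_lit 0) (XT.nd (nat_lit 78) (nat_lit 76) (nat_lit 0) (XT.lf (nat_lit 0) (nat_lit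 137520457) (nat_lit 456) (nat_lit 1837550533) (nat_lit 532) (nat_lit 4617097707) (nat_lit 297) (nat_lit 5) (nat_lit 303) (nat_lit 5) (nat_lit 304) (nat_lit 4) (nat_lit 267) (nat_lit 257) (nat_lit 256)) (XT.lf (nat_lit 0) (nat_lit 255315145) (nat_lit 532) (nat_lit 192492485) (nat_lit 76) (nat_lit 6193649558) (nat_lit 296) (nat_lit 5) (nat_lit 303) (nat_lit 5) (nat_lit 297) (nat_lit 5) (nat_lit 268) (nat_lit 257) (nat_lit 255))) (XT.nd (nat_lit 78) (nat_lit 684) (nat_lit 0) (XT.lf (nat_lit 0) (nat_lit 5072271617) (nat_lit 608) (nat_lit 452100183) (nat_lit 76) (nat_lit 1174085322) (nat_lit 289) (nat_lit 5) (nat_lit 297) (nat_lit 5) (nat_lit 290) (nat_lit 4) (nat_lit 269) (nat_lit 257) (nat_lit 254)) (XT.lf (nat_lit 0) (nat_lit 3105132288) (nat_lit 684) (nat_lit 629949693) (nat_lit 76) (nat_lit 3028750255) (nat_lit 280) (nat_lit 5) (nat_lit 289) (nat_lit 5) (nat_lit 281) (nat_lit 5) (nat_lit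 270) (nat_lit 257) (nat_lit 253)))))) (XT.nd (nat_lit 546) (nat_lit 4560) (nat_lit 0) (XT.nd (nat_lit 234) (nat_lit 4256) (nat_lit 0) (XT.nd (nat_lit 78) (nat_lit 1672) (nat_lit 0) (XT.lf (nat_lit 0) (nat_lit 988915504) (nat_lit 760) (nat_lit 721729415) (nat_lit 76) (nat_lit 5127284123) (nat_lit 270) (nat_lit 5) (nat_lit 280) (nat_lit 5) (nat_lit 271) (nat_lit 5) (nat_lit 271) (nat_lit 257) (nat_lit 252)) (XT.nd (nat_lit 78) (nat_lit 912) (nat_lit 0) (XT.lf (nat_lit 0) (nat_lit 5616327326) (nat_lit 836) (nat_lit 747856070) (nat_lit 76) (nat_lit 556183961) (nat_lit 260) (nat_lit 5) (nat_lit 271) (nat_lit 5) (nat_lit 261) (nat_lit 5) (nat_lit 272) (nat_lit 257) (nat_lit 251)) (XT.lf (nat_lit 0) (nat_lit 3245490992) (nat_lit 912) (nat_lit 722772315) (nat_lit 76) (nat_lit 3042699128) (nat_lit 248) (nat_lit 5) (nat_lit 260) (nat_lit 5) (nat_lit 249) (nat_lit 5) (nat_lit 273) (nat_lit 257) (nat_lit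 250)))) (XT.nd (nat_lit 156) (nat_lit 2280) (nat_lit 0) (XT.nd (nat_lit 78) (nat_lit 988) (nat_lit 0) (XT.lf (nat_lit 0) (nat_lit 709142613) (nat_lit 988) (nat_lit 622530717) (nat_lit 76) (nat_lit 5779025255) (nat_lit 235) (nat_lit 5) (nat_lit 248) (nat_lit 5) (nat_lit 236) (nat_lit 5) (nat_lit 274) (nat_lit 257) (nat_lit 249)) (XT.lf (nat_lit 0) (nat_lit 5192614554) (nat_lit 1064) (nat_lit 484085394) (nat_lit 76) (nat_lit 1542051703) (nat_lit 222) (nat_lit 5) (nat_lit 236) (nat_lit 5) (nat_lit 223) (nat_lit 5) (nat_lit 275) (nat_lit 257) (nat_lit 248))) (XT.nd (nat_lit 78) (nat_lit 1140) (nat_lit 0) (XT.lf (nat_lit 0) (nat_lit 2387914075) (nat_lit 1140) (nat_lit 298945332) (nat_lit 76) (nat_lit 4648821322) (nat_lit 207) (nat_lit 5) (nat_lit 222) (nat_lit 5) (nat_lit 208) (nat_lit 5) (nat_lit 276) (nat_lit 257) (nat_lit 247)) (XT.lf (nat_lit 0) (nat_lit 6852568228) (nat_lit 1216) (nat_lit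 60876699) (nat_lit 76) (nat_lit 548553613) (nat_lit 192) (nat_lit 5) (nat_lit 208) (nat_lit 5) (nat_lit 193) (nat_lit 5) (nat_lit 277) (nat_lit 257) (nat_lit 246))))) (XT.nd (nat_lit 234) (nat_lit 2052) (nat_lit 0) (XT.nd (nat_lit 78) (nat_lit 1140) (nat_lit 0) (XT.lf (nat_lit 0) (nat_lit 188887313) (nat_lit 608) (nat_lit 3583887907) (nat_lit 684) (nat_lit 3823876387) (nat_lit 174) (nat_lit 5) (nat_lit 182) (nat_lit 5) (nat_lit 183) (nat_lit 5) (nat_lit 278) (nat_lit 257) (nat_lit 245)) (XT.nd (nat_lit 78) (nat_lit 532) (nat_lit 0) (XT.lf (nat_lit 0) (nat_lit 494464069) (nat_lit 608) (nat_lit 7245545264) (nat_lit 76) (nat_lit 1432025) (nat_lit 166) (nat_lit 5) (nat_lit 174) (nat_lit 5) (nat_lit 167) (nat_lit 5) (nat_lit 279) (nat_lit 257) (nat_lit 244)) (XT.lf (nat_lit 0) (nat_lit 788337400) (nat_lit 532) (nat_lit 4089594453) (nat_lit 608) (nat_lit 3016796945) (nat_lit 159) (nat_lit 5) (nat_lit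 166) (nat_lit 5) (nat_lit 167) (nat_lit 5) (nat_lit 280) (nat_lit 257) (nat_lit 243)))) (XT.nd (nat_lit 156) (nat_lit 988) (nat_lit 0) (XT.nd (nat_lit 78) (nat_lit 532) (nat_lit 0) (XT.lf (nat_lit 0) (nat_lit 1121500696) (nat_lit 456) (nat_lit 173661350) (nat_lit 532) (nat_lit 6763389951) (nat_lit 152) (nat_lit 5) (nat_lit 158) (nat_lit 5) (nat_lit 159) (nat_lit 5) (nat_lit 281) (nat_lit 257) (nat_lit 242)) (XT.lf (nat_lit 0) (nat_lit 1432526756) (nat_lit 532) (nat_lit 4272665757) (nat_lit 608) (nat_lit 2526345633) (nat_lit 145) (nat_lit 5) (nat_lit 152) (nat_lit 5) (nat_lit 153) (nat_lit 5) (nat_lit 282) (nat_lit 257) (nat_lit 241))) (XT.nd (nat_lit 78) (nat_lit 456) (nat_lit 0) (XT.lf (nat_lit 0) (nat_lit 1762892784) (nat_lit 456) (nat_lit 36506716) (nat_lit 532) (nat_lit 6615986467) (nat_lit 138) (nat_lit 5) (nat_lit 144) (nat_lit 5) (nat_lit 145) (nat_lit 5) (nat_lit 283) (nat_lit 257)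 (nat_lit 240)) (XT.lf (nat_lit 0) (nat_lit 2055955554) (nat_lit 456) (nat_lit 4196319231) (nat_lit 532) (nat_lit 2356696551) (nat_lit 132) (nat_lit 5) (nat_lit 138) (nat_lit 5) (nat_lit 139) (nat_lit 5) (nat_lit 284) (nat_lit 257) (nat_lit 239))))))) (XT.nd (nat_lit 1092) (nat_lit 2508) (nat_lit 0) (XT.nd (nat_lit 546) (nat_lit 1900) (nat_lit 0) (XT.nd (nat_lit 234) (nat_lit 1520) (nat_lit 0) (XT.nd (nat_lit 78) (nat_lit 912) (nat_lit 0) (XT.lf (nat_lit 0) (nat_lit 2003932521) (nat_lit 456) (nat_lit 6466052164) (nat_lit 76) (nat_lit 343925618) (nat_lit 126) (nat_lit 5) (nat_lit 132) (nat_lit 5) (nat_lit 127) (nat_lit 5) (nat_lit 285) (nat_lit 257) (nat_lit 238)) (XT.nd (nat_lit 78) (nat_lit 456) (nat_lit 0) (XT.lf (nat_lit 0) (nat_lit 2586648535) (nat_lit 456) (nat_lit 3922821101) (nat_lit 532) (nat_lit 2519823898) (nat_lit 120) (nat_lit 5) (nat_lit 126) (nat_lit 5) (nat_lit 127) (nat_lit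 5) (nat_lit 286) (nat_lit 257) (nat_lit 237)) (XT.lf (nat_lit 0) (nat_lit 1893139138) (nat_lit 456) (nat_lit 6455192373) (nat_lit 76) (nat_lit 908284372) (nat_lit 114) (nat_lit 5) (nat_lit 120) (nat_lit 5) (nat_lit 115) (nat_lit 5) (nat_lit 287) (nat_lit 257) (nat_lit 236)))) (XT.nd (nat_lit 156) (nat_lit 760) (nat_lit 0) (XT.nd (nat_lit 78) (nat_lit 380) (nat_lit 0) (XT.lf (nat_lit 0) (nat_lit 2944032246) (nat_lit 380) (nat_lit 3515030237) (nat_lit 456) (nat_lit 3036106654) (nat_lit 109) (nat_lit 5) (nat_lit 114) (nat_lit 5) (nat_lit 115) (nat_lit 5) (nat_lit 288) (nat_lit 257) (nat_lit 235)) (XT.lf (nat_lit 0) (nat_lit 1443169047) (nat_lit 380) (nat_lit 6707767460) (nat_lit 76) (nat_lit 1595465106) (nat_lit 104) (nat_lit 5) (nat_lit 109) (nat_lit 5) (nat_lit 105) (nat_lit 5) (nat_lit 289) (nat_lit 257) (nat_lit 234))) (XT.nd (nat_lit 78) (nat_lit 380) (nat_lit 0) (XT.lf (nat_lit 0) (nat_lit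 3036541558) (nat_lit 380) (nat_lit 3038020666) (nat_lit 456) (nat_lit 3935131916) (nat_lit 99) (nat_lit 5) (nat_lit 104) (nat_lit 5) (nat_lit 105) (nat_lit 5) (nat_lit 290) (nat_lit 257) (nat_lit 233)) (XT.lf (nat_lit 0) (nat_lit 621136634) (nat_lit 380) (nat_lit 7324679940) (nat_lit 76) (nat_lit 2340791574) (nat_lit 94) (nat_lit 5) (nat_lit 99) (nat_lit 5) (nat_lit 95) (nat_lit 5) (nat_lit 291) (nat_lit 257) (nat_lit 232))))) (XT.nd (nat_lit 234) (nat_lit 912) (nat_lit 0) (XT.nd (nat_lit 78) (nat_lit 684) (nat_lit 0) (XT.lf (nat_lit 0) (nat_lit 2758896127) (nat_lit 304) (nat_lit 2560819665) (nat_lit 380) (nat_lit 5256720001) (nat_lit 90) (nat_lit 5) (nat_lit 94) (nat_lit 5) (nat_lit 95) (nat_lit 5) (nat_lit 292) (nat_lit 257) (nat_lit 231)) (XT.nd (nat_lit 78) (nat_lit 380) (nat_lit 0) (XT.lf (nat_lit 0) (nat_lit 2452375364) (nat_lit 304) (nat_lit 7799897246) (nat_lit 380) (nat_lit 628618596)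 (nat_lit 86) (nat_lit 5) (nat_lit 90) (nat_lit 5) (nat_lit 91) (nat_lit 5) (nat_lit 293) (nat_lit 257) (nat_lit 230)) (XT.lf (nat_lit 0) (nat_lit 1988978753) (nat_lit 304) (nat_lit 2158301941) (nat_lit 380) (nat_lit 7052199739) (nat_lit 81) (nat_lit 5) (nat_lit 85) (nat_lit 5) (nat_lit 86) (nat_lit 5) (nat_lit 294) (nat_lit 257) (nat_lit 229)))) (XT.nd (nat_lit 156) (nat_lit 304) (nat_lit 0) (XT.nd (nat_lit 78) (nat_lit 380) (nat_lit 0) (XT.lf (nat_lit 0) (nat_lit 1373990366) (nat_lit 228) (nat_lit 7788661472) (nat_lit 304) (nat_lit 2370845208) (nat_lit 78) (nat_lit 5) (nat_lit 81) (nat_lit 5) (nat_lit 82) (nat_lit 5) (nat_lit 295) (nat_lit 257) (nat_lit 228)) (XT.lf (nat_lit 0) (nat_lit 584237318) (nat_lit 304) (nat_lit 1913284894) (nat_lit 380) (nat_lit 9385968318) (nat_lit 73) (nat_lit 5) (nat_lit 77) (nat_lit 5) (nat_lit 78) (nat_lit 5) (nat_lit 296) (nat_lit 257) (nat_lit 227))) (XT.nd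 (nat_lit 78) (nat_lit 304) (nat_lit 0) (XT.lf (nat_lit 0) (nat_lit 7590227263) (nat_lit 380) (nat_lit 412941829) (nat_lit 76) (nat_lit 4246295460) (nat_lit 73) (nat_lit 5) (nat_lit 78) (nat_lit 5) (nat_lit 74) (nat_lit 5) (nat_lit 297) (nat_lit 257) (nat_lit 226)) (XT.lf (nat_lit 0) (nat_lit 311991499) (nat_lit 304) (nat_lit 1590819869) (nat_lit 76) (nat_lit 10730492918) (nat_lit 69) (nat_lit 5) (nat_lit 73) (nat_lit 5) (nat_lit 70) (nat_lit 5) (nat_lit 298) (nat_lit 257) (nat_lit 225)))))) (XT.nd (nat_lit 546) (nat_lit 1140) (nat_lit 0) (XT.nd (nat_lit 234) (nat_lit 608) (nat_lit 0) (XT.nd (nat_lit 78) (nat_lit 532) (nat_lit 0) (XT.lf (nat_lit 0) (nat_lit 5472319554) (nat_lit 304) (nat_lit 3053460918) (nat_lit 76) (nat_lit 4508138313) (nat_lit 66) (nat_lit 5) (nat_lit 70) (nat_lit 5) (nat_lit 67) (nat_lit 5) (nat_lit 299) (nat_lit 257) (nat_lit 224)) (XT.nd (nat_lit 78) (nat_lit 304) (nat_lit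 0) (XT.lf (nat_lit 0) (nat_lit 8696158556) (nat_lit 228) (nat_lit 2208079290) (nat_lit 304) (nat_lit 2549989087) (nat_lit 63) (nat_lit 5) (nat_lit 66) (nat_lit 5) (nat_lit 67) (nat_lit 5) (nat_lit 300) (nat_lit 257) (nat_lit 223)) (XT.lf (nat_lit 0) (nat_lit 2699702083) (nat_lit 304) (nat_lit 6783535041) (nat_lit 76) (nat_lit 4410383320) (nat_lit 59) (nat_lit 5) (nat_lit 63) (nat_lit 5) (nat_lit 60) (nat_lit 5) (nat_lit 301) (nat_lit 257) (nat_lit 222)))) (XT.nd (nat_lit 156) (nat_lit 228) (nat_lit 0) (XT.nd (nat_lit 78) (nat_lit 228) (nat_lit 0) (XT.lf (nat_lit 0) (nat_lit 5211786830) (nat_lit 152) (nat_lit 2969235178) (nat_lit 228) (nat_lit 6172609511) (nat_lit 57) (nat_lit 5) (nat_lit 59) (nat_lit 5) (nat_lit 60) (nat_lit 5) (nat_lit 302) (nat_lit 257) (nat_lit 221)) (XT.lf (nat_lit 0) (nat_lit 2977453217) (nat_lit 228) (nat_lit 10997593169) (nat_lit 304) (nat_lit 860496434) (nat_lit 54)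 (nat_lit 5) (nat_lit 57) (nat_lit 5) (nat_lit 58) (nat_lit 5) (nat_lit 303) (nat_lit 257) (nat_lit 220))) (XT.nd (nat_lit 78) (nat_lit 0) (nat_lit 0) (XT.lf (nat_lit 0) (nat_lit 330946281) (nat_lit 152) (nat_lit 4326903323) (nat_lit 228) (nat_lit 10681413811) (nat_lit 51) (nat_lit 5) (nat_lit 53) (nat_lit 5) (nat_lit 54) (nat_lit 5) (nat_lit 304) (nat_lit 257) (nat_lit 219)) (XT.lf (nat_lit 0) (nat_lit 10490538223) (nat_lit 228) (nat_lit 2675046534) (nat_lit 76) (nat_lit 2700694842) (nat_lit 51) (nat_lit 5) (nat_lit 54) (nat_lit 5) (nat_lit 52) (nat_lit 5) (nat_lit 305) (nat_lit 257) (nat_lit 218))))) (XT.nd (nat_lit 234) (nat_lit 532) (nat_lit 0) (XT.nd (nat_lit 78) (nat_lit 304) (nat_lit 0) (XT.lf (nat_lit 0) (nat_lit 245919383) (nat_lit 304) (nat_lit 6133430470) (nat_lit 76) (nat_lit 10038652921) (nat_lit 47) (nat_lit 5) (nat_lit 51) (nat_lit 5) (nat_lit 48) (nat_lit 5) (nat_lit 306) (nat_lit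 257) (nat_lit 217)) (XT.nd (nat_lit 78) (nat_lit 152) (nat_lit 0) (XT.lf (nat_lit 0) (nat_lit 6054090389) (nat_lit 228) (nat_lit 10114637071) (nat_lit 76) (nat_lit 826535338) (nat_lit 45) (nat_lit 5) (nat_lit 48) (nat_lit 5) (nat_lit 46) (nat_lit 5) (nat_lit 307) (nat_lit 257) (nat_lit 216)) (XT.lf (nat_lit 0) (nat_lit 2925682838) (nat_lit 152) (nat_lit 9298966329) (nat_lit 228) (nat_lit 5374620724) (nat_lit 43) (nat_lit 5) (nat_lit 45) (nat_lit 5) (nat_lit 46) (nat_lit 5) (nat_lit 308) (nat_lit 257) (nat_lit 215)))) (XT.nd (nat_lit 156) (nat_lit 304) (nat_lit 0) (XT.nd (nat_lit 78) (nat_lit 152) (nat_lit 0) (XT.lf (nat_lit 0) (nat_lit 483792534) (nat_lit 228) (nat_lit 1544632866) (nat_lit 76) (nat_lit 16204275186) (nat_lit 42) (nat_lit 5) (nat_lit 45) (nat_lit 5) (nat_lit 43) (nat_lit 5) (nat_lit 309) (nat_lit 257) (nat_lit 214)) (XT.lf (nat_lit 0) (nat_lit 6619756997) (nat_lit 228) (nat_lit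 6655202440) (nat_lit 76) (nat_lit 5618411638) (nat_lit 40) (nat_lit 5) (nat_lit 43) (nat_lit 5) (nat_lit 41) (nat_lit 5) (nat_lit 310) (nat_lit 257) (nat_lit 213))) (XT.nd (nat_lit 78) (nat_lit 152) (nat_lit 0) (XT.lf (nat_lit 0) (nat_lit 7144999735) (nat_lit 152) (nat_lit 5946230709) (nat_lit 228) (nat_lit 6495019757) (nat_lit 38) (nat_lit 5) (nat_lit 40) (nat_lit 5) (nat_lit 41) (nat_lit 5) (nat_lit 311) (nat_lit 257) (nat_lit 212)) (XT.lf (nat_lit 0) (nat_lit 1343668964) (nat_lit 152) (nat_lit 18566956661) (nat_lit 228) (nat_lit 402451920) (nat_lit 36) (nat_lit 5) (nat_lit 38) (nat_lit 5) (nat_lit 39) (nat_lit 4) (nat_lit 312) (nat_lit 257) (nat_lit 211))))))))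
noncomputable def xc45 : XT := (XT.nd (nat_lit 2184) (nat_lit 532) (nat_lit 0) (XT.nd (nat_lit 1092) (nat_lit 684) (nat_lit 0) (XT.nd (nat_lit 546) (nat_lit 608) (nat_lit 0) (XT.nd (nat_lit 234) (nat_lit 304) (nat_lit 0) (XT.nd (nat_lit 78) (nat_lit 228) (nat_lit 0) (XT.lf (nat_lit 0) (nat_lit 5994165873) (nat_lit 228) (nat_lit 5238948616) (nat_lit 76) (nat_lit 9837943081) (nat_lit 35) (nat_lit 5) (nat_lit 38) (nat_lit 5) (nat_lit 36) (nat_lit 5) (nat_lit 313) (nat_lit 257) (nat_lit 210)) (XT.nd (nat_lit 78) (nat_lit 76) (nat_lit 0) (XT.lf (nat_lit 0) (nat_lit 9234693980) (nat_lit 152) (nat_lit 3486962379) (nat_lit 228) (nat_lit 9144610301) (nat_lit 33) (nat_lit 5) (nat_lit 35) (nat_lit 5) (nat_lit 36) (nat_lit 5) (nat_lit 314) (nat_lit 257) (nat_lit 209)) (XT.lf (nat_lit 0) (nat_lit 1712461818) (nat_lit 76) (nat_lit 18120892581) (nat_lit 152) (nat_lit 2866475917) (nat_lit 32) (nat_lit 5)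 (nat_lit 33) (nat_lit 5) (nat_lit 34) (nat_lit 4) (nat_lit 315) (nat_lit 257) (nat_lit 208)))) (XT.nd (nat_lit 156) (nat_lit 76) (nat_lit 0) (XT.nd (nat_lit 78) (nat_lit 152) (nat_lit 0) (XT.lf (nat_lit 0) (nat_lit 3753072797) (nat_lit 152) (nat_lit 6721414206) (nat_lit 76) (nat_lit 13096531489) (nat_lit 31) (nat_lit 5) (nat_lit 33) (nat_lit 5) (nat_lit 32) (nat_lit 5) (nat_lit 316) (nat_lit 257) (nat_lit 207)) (XT.lf (nat_lit 0) (nat_lit 8280381904) (nat_lit 152) (nat_lit 2380932269) (nat_lit 228) (nat_lit 13823116151) (nat_lit 29) (nat_lit 5) (nat_lit 31) (nat_lit 5) (nat_lit 32) (nat_lit 5) (nat_lit 317) (nat_lit 257) (nat_lit 206))) (XT.nd (nat_lit 78) (nat_lit 76) (nat_lit 0) (XT.lf (nat_lit 0) (nat_lit 17982037095) (nat_lit 228) (nat_lit 1436566986) (nat_lit 76) (nat_lit 6022920992) (nat_lit 29) (nat_lit 5) (nat_lit 32) (nat_lit 5) (nat_lit 30) (nat_lit 4) (nat_lit 318) (nat_lit 257)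 (nat_lit 205)) (XT.lf (nat_lit 0) (nat_lit 14219524392) (nat_lit 76) (nat_lit 11551313823) (nat_lit 152) (nat_lit 672598330) (nat_lit 28) (nat_lit 5) (nat_lit 29) (nat_lit 5) (nat_lit 30) (nat_lit 4) (nat_lit 319) (nat_lit 257) (nat_lit 204))))) (XT.nd (nat_lit 234) (nat_lit 304) (nat_lit 0) (XT.nd (nat_lit 78) (nat_lit 76) (nat_lit 0) (XT.lf (nat_lit 0) (nat_lit 3090144558) (nat_lit 152) (nat_lit 3224766399) (nat_lit 228) (nat_lit 21179076773) (nat_lit 25) (nat_lit 5) (nat_lit 27) (nat_lit 5) (nat_lit 28) (nat_lit 5) (nat_lit 320) (nat_lit 257) (nat_lit 203)) (XT.nd (nat_lit 78) (nat_lit 76) (nat_lit 0) (XT.lf (nat_lit 0) (nat_lit 13762084068) (nat_lit 228) (nat_lit 9328805264) (nat_lit 76) (nat_lit 5502271870) (nat_lit 25) (nat_lit 5) (nat_lit 28) (nat_lit 5) (nat_lit 26) (nat_lit 4) (nat_lit 321) (nat_lit 257) (nat_lit 202)) (XT.lf (nat_lit 0) (nat_lit 6499227410) (nat_lit 76) (nat_lit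 15124026279) (nat_lit 152) (nat_lit 8122810018) (nat_lit 24) (nat_lit 5) (nat_lit 25) (nat_lit 5) (nat_lit 26) (nat_lit 4) (nat_lit 322) (nat_lit 257) (nat_lit 201)))) (XT.nd (nat_lit 156) (nat_lit 76) (nat_lit 0) (XT.nd (nat_lit 78) (nat_lit 228) (nat_lit 0) (XT.lf (nat_lit 0) (nat_lit 23221298273) (nat_lit 76) (nat_lit 6700485121) (nat_lit 152) (nat_lit 1033517466) (nat_lit 24) (nat_lit 5) (nat_lit 25) (nat_lit 5) (nat_lit 26) (nat_lit 4) (nat_lit 323) (nat_lit 257) (nat_lit 200)) (XT.lf (nat_lit 0) (nat_lit 6339433561) (nat_lit 228) (nat_lit 23672662819) (nat_lit 76) (nat_lit 2209443661) (nat_lit 21) (nat_lit 5) (nat_lit 24) (nat_lit 5) (nat_lit 22) (nat_lit 4) (nat_lit 324) (nat_lit 257) (nat_lit 199))) (XT.nd (nat_lit 78) (nat_lit 76) (nat_lit 0) (XT.lf (nat_lit 0) (nat_lit 14159289948) (nat_lit 228) (nat_lit 7907501205) (nat_lit 76) (nat_lit 11481020417) (nat_lit 21) (nat_lit 5) (nat_lit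 24) (nat_lit 5) (nat_lit 22) (nat_lit 4) (nat_lit 325) (nat_lit 257) (nat_lit 198)) (XT.lf (nat_lit 0) (nat_lit 8733028502) (nat_lit 76) (nat_lit 13674773313) (nat_lit 152) (nat_lit 12531480554) (nat_lit 20) (nat_lit 5) (nat_lit 21) (nat_lit 5) (nat_lit 22) (nat_lit 4) (nat_lit 326) (nat_lit 257) (nat_lit 197)))))) (XT.nd (nat_lit 546) (nat_lit 228) (nat_lit 0) (XT.nd (nat_lit 234) (nat_lit 228) (nat_lit 0) (XT.nd (nat_lit 78) (nat_lit 228) (nat_lit 0) (XT.lf (nat_lit 0) (nat_lit 26289913246) (nat_lit 76) (nat_lit 4815368449) (nat_lit 152) (nat_lit 5293963572) (nat_lit 20) (nat_lit 5) (nat_lit 21) (nat_lit 5) (nat_lit 22) (nat_lit 4) (nat_lit 327) (nat_lit 257) (nat_lit 196)) (XT.nd (nat_lit 78) (nat_lit 0) (nat_lit 0) (XT.lf (nat_lit 0) (nat_lit 2326560752) (nat_lit 228) (nat_lit 31149017352) (nat_lit 76) (nat_lit 4453993520) (nat_lit 17) (nat_lit 5) (nat_lit 20) (nat_lit 5) (nat_lit 18)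 (nat_lit 4) (nat_lit 328) (nat_lit 257) (nat_lit 195)) (XT.lf (nat_lit 0) (nat_lit 10331184361) (nat_lit 228) (nat_lit 14986811410) (nat_lit 76) (nat_lit 14213482314) (nat_lit 17) (nat_lit 5) (nat_lit 20) (nat_lit 5) (nat_lit 18) (nat_lit 4) (nat_lit 329) (nat_lit 257) (nat_lit 194)))) (XT.nd (nat_lit 156) (nat_lit 152) (nat_lit 0) (XT.nd (nat_lit 78) (nat_lit 0) (nat_lit 0) (XT.lf (nat_lit 0) (nat_lit 1948534423) (nat_lit 76) (nat_lit 16766085599) (nat_lit 152) (nat_lit 22499514859) (nat_lit 16) (nat_lit 5) (nat_lit 17) (nat_lit 5) (nat_lit 18) (nat_lit 4) (nat_lit 330) (nat_lit 257) (nat_lit 193)) (XT.lf (nat_lit 0) (nat_lit 19972926837) (nat_lit 76) (nat_lit 7659657338) (nat_lit 152) (nat_lit 15344891486) (nat_lit 16) (nat_lit 5) (nat_lit 17) (nat_lit 5) (nat_lit 18) (nat_lit 4) (nat_lit 331) (nat_lit 257) (nat_lit 192))) (XT.nd (nat_lit 78) (nat_lit 152) (nat_lit 0) (XT.lf (nat_lit 0)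 (nat_lit 36977371832) (nat_lit 152) (nat_lit 6017083910) (nat_lit 0) (nat_lit 1835111261) (nat_lit 16) (nat_lit 5) (nat_lit 18) (nat_lit 4) (nat_lit 16) (nat_lit 4) (nat_lit 332) (nat_lit 257) (nat_lit 191)) (XT.lf (nat_lit 0) (nat_lit 172591492) (nat_lit 152) (nat_lit 34861534006) (nat_lit 76) (nat_lit 11735410954) (nat_lit 14) (nat_lit 5) (nat_lit 16) (nat_lit 5) (nat_lit 15) (nat_lit 4) (nat_lit 333) (nat_lit 257) (nat_lit 190))))) (XT.nd (nat_lit 234) (nat_lit 152) (nat_lit 0) (XT.nd (nat_lit 78) (nat_lit 76) (nat_lit 0) (XT.lf (nat_lit 0) (nat_lit 8465440581) (nat_lit 152) (nat_lit 18093368608) (nat_lit 76) (nat_lit 22244496229) (nat_lit 14) (nat_lit 5) (nat_lit 16) (nat_lit 5) (nat_lit 15) (nat_lit 4) (nat_lit 334) (nat_lit 257) (nat_lit 189)) (XT.nd (nat_lit 78) (nat_lit 76) (nat_lit 0) (XT.lf (nat_lit 0) (nat_lit 17139746495) (nat_lit 152) (nat_lit 547687844) (nat_lit 76) (nat_lit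 33252333524) (nat_lit 14) (nat_lit 5) (nat_lit 16) (nat_lit 5) (nat_lit 15) (nat_lit 4) (nat_lit 335) (nat_lit 257) (nat_lit 188)) (XT.lf (nat_lit 0) (nat_lit 18171882599) (nat_lit 76) (nat_lit 8218958995) (nat_lit 152) (nat_lit 26787928630) (nat_lit 13) (nat_lit 5) (nat_lit 14) (nat_lit 5) (nat_lit 15) (nat_lit 4) (nat_lit 336) (nat_lit 257) (nat_lit 187)))) (XT.nd (nat_lit 156) (nat_lit 76) (nat_lit 0) (XT.nd (nat_lit 78) (nat_lit 76) (nat_lit 0) (XT.lf (nat_lit 0) (nat_lit 36095858419) (nat_lit 152) (nat_lit 17764306485) (nat_lit 0) (nat_lit 1669825372) (nat_lit 13) (nat_lit 5) (nat_lit 15) (nat_lit 4) (nat_lit 13) (nat_lit 4) (nat_lit 337) (nat_lit 257) (nat_lit 186)) (XT.lf (nat_lit 0) (nat_lit 207193937) (nat_lit 76) (nat_lit 46134461890) (nat_lit 76) (nat_lit 11655457785) (nat_lit 12) (nat_lit 4) (nat_lit 13) (nat_lit 5) (nat_lit 13) (nat_lit 4) (nat_lit 338) (nat_lit 257) (nat_lit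 185))) (XT.nd (nat_lit 78) (nat_lit 76) (nat_lit 0) (XT.lf (nat_lit 0) (nat_lit 19395750622) (nat_lit 76) (nat_lit 37858336347) (nat_lit 76) (nat_lit 3328883615) (nat_lit 12) (nat_lit 4) (nat_lit 13) (nat_lit 5) (nat_lit 13) (nat_lit 4) (nat_lit 339) (nat_lit 257) (nat_lit 184)) (XT.lf (nat_lit 0) (nat_lit 5280930297) (nat_lit 152) (nat_lit 23857210539) (nat_lit 76) (nat_lit 34159248738) (nat_lit 11) (nat_lit 5) (nat_lit 13) (nat_lit 5) (nat_lit 12) (nat_lit 4) (nat_lit 340) (nat_lit 257) (nat_lit 183))))))) (XT.nd (nat_lit 1092) (nat_lit 228) (nat_lit 0) (XT.nd (nat_lit 546) (nat_lit 152) (nat_lit 0) (XT.nd (nat_lit 234) (nat_lit 76) (nat_lit 0) (XT.nd (nat_lit 78) (nat_lit 76) (nat_lit 0) (XT.lf (nat_lit 0) (nat_lit 14226893281) (nat_lit 152) (nat_lit 5742664075) (nat_lit 76) (nat_lit 46177755092) (nat_lit 11) (nat_lit 5) (nat_lit 13) (nat_lit 5) (nat_lit 12) (nat_lit 4) (nat_lit 341) (nat_lit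 257) (nat_lit 182)) (XT.nd (nat_lit 78) (nat_lit 0) (nat_lit 0) (XT.lf (nat_lit 0) (nat_lit 13494882329) (nat_lit 76) (nat_lit 10230102491) (nat_lit 152) (nat_lit 45411608261) (nat_lit 10) (nat_lit 5) (nat_lit 11) (nat_lit 5) (nat_lit 12) (nat_lit 4) (nat_lit 342) (nat_lit 257) (nat_lit 181)) (XT.lf (nat_lit 0) (nat_lit 33733313040) (nat_lit 152) (nat_lit 38505076433) (nat_lit 0) (nat_lit 35894528) (nat_lit 10) (nat_lit 5) (nat_lit 12) (nat_lit 4) (nat_lit 10) (nat_lit 4) (nat_lit 343) (nat_lit 257) (nat_lit 180)))) (XT.nd (nat_lit 156) (nat_lit 76) (nat_lit 0) (XT.nd (nat_lit 78) (nat_lit 0) (nat_lit 0) (XT.lf (nat_lit 0) (nat_lit 44322137779) (nat_lit 152) (nat_lit 20657982464) (nat_lit 0) (nat_lit 10586342743) (nat_lit 10) (nat_lit 5) (nat_lit 12) (nat_lit 4) (nat_lit 10) (nat_lit 4) (nat_lit 344) (nat_lit 257) (nat_lit 179)) (XT.lf (nat_lit 0) (nat_lit 55418332521) (nat_lit 152) (nat_lit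 1959597759) (nat_lit 0) (nat_lit 21645988414) (nat_lit 10) (nat_lit 5) (nat_lit 12) (nat_lit 4) (nat_lit 10) (nat_lit 4) (nat_lit 345) (nat_lit 257) (nat_lit 178))) (XT.nd (nat_lit 78) (nat_lit 0) (nat_lit 0) (XT.lf (nat_lit 0) (nat_lit 17985560712) (nat_lit 76) (nat_lit 49235644277) (nat_lit 76) (nat_lit 15428491532) (nat_lit 9) (nat_lit 4) (nat_lit 10) (nat_lit 5) (nat_lit 10) (nat_lit 4) (nat_lit 346) (nat_lit 257) (nat_lit 177)) (XT.lf (nat_lit 0) (nat_lit 38930939440) (nat_lit 76) (nat_lit 40683069553) (nat_lit 76) (nat_lit 6842765724) (nat_lit 9) (nat_lit 4) (nat_lit 10) (nat_lit 5) (nat_lit 10) (nat_lit 4) (nat_lit 347) (nat_lit 257) (nat_lit 176))))) (XT.nd (nat_lit 234) (nat_lit 0) (nat_lit 0) (XT.nd (nat_lit 78) (nat_lit 76) (nat_lit 0) (XT.lf (nat_lit 0) (nat_lit 2110247298) (nat_lit 152) (nat_lit 29588074273) (nat_lit 76) (nat_lit 58755851874) (nat_lit 8) (nat_lit 5) (nat_lit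 10) (nat_lit 5) (nat_lit 9) (nat_lit 4) (nat_lit 348) (nat_lit 257) (nat_lit 175)) (XT.nd (nat_lit 78) (nat_lit 76) (nat_lit 0) (XT.lf (nat_lit 0) (nat_lit 11352030737) (nat_lit 152) (nat_lit 10857322903) (nat_lit 76) (nat_lit 72440581310) (nat_lit 8) (nat_lit 5) (nat_lit 10) (nat_lit 5) (nat_lit 9) (nat_lit 4) (nat_lit 349) (nat_lit 257) (nat_lit 174)) (XT.lf (nat_lit 0) (nat_lit 8951468093) (nat_lit 76) (nat_lit 12172694737) (nat_lit 152) (nat_lit 77929278206) (nat_lit 7) (nat_lit 5) (nat_lit 8) (nat_lit 5) (nat_lit 9) (nat_lit 4) (nat_lit 350) (nat_lit 257) (nat_lit 173)))) (XT.nd (nat_lit 156) (nat_lit 0) (nat_lit 0) (XT.nd (nat_lit 78) (nat_lit 0) (nat_lit 0) (XT.lf (nat_lit 0) (nat_lit 29945362336) (nat_lit 76) (nat_lit 1534055529) (nat_lit 152) (nat_lit 72194873156) (nat_lit 7) (nat_lit 5) (nat_lit 8) (nat_lit 5) (nat_lit 9) (nat_lit 4) (nat_lit 351) (nat_lit 257) (nat_lit 172)) (XT.lf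 (nat_lit 0) (nat_lit 42428501884) (nat_lit 152) (nat_lit 56660912004) (nat_lit 0) (nat_lit 9434491522) (nat_lit 7) (nat_lit 5) (nat_lit 9) (nat_lit 4) (nat_lit 7) (nat_lit 4) (nat_lit 352) (nat_lit 257) (nat_lit 171))) (XT.nd (nat_lit 78) (nat_lit 0) (nat_lit 0) (XT.lf (nat_lit 0) (nat_lit 53924746697) (nat_lit 152) (nat_lit 38784547325) (nat_lit 0) (nat_lit 20906719005) (nat_lit 7) (nat_lit 5) (nat_lit 9) (nat_lit 4) (nat_lit 7) (nat_lit 4) (nat_lit 353) (nat_lit 257) (nat_lit 170)) (XT.lf (nat_lit 0) (nat_lit 65980778035) (nat_lit 152) (nat_lit 20042525595) (nat_lit 0) (nat_lit 32939876695) (nat_lit 7) (nat_lit 5) (nat_lit 9) (nat_lit 4) (nat_lit 7) (nat_lit 4) (nat_lit 354) (nat_lit 257) (nat_lit 169)))))) (XT.nd (nat_lit 546) (nat_lit 76) (nat_lit 0) (XT.nd (nat_lit 234) (nat_lit 76) (nat_lit 0) (XT.nd (nat_lit 78) (nat_lit 76) (nat_lit 0) (XT.lf (nat_lit 0) (nat_lit 78625300734) (nat_lit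 152) (nat_lit 390222953) (nat_lit 0) (nat_lit 45562614969) (nat_lit 7) (nat_lit 5) (nat_lit 9) (nat_lit 4) (nat_lit 7) (nat_lit 4) (nat_lit 355) (nat_lit 257) (nat_lit 168)) (XT.nd (nat_lit 78) (nat_lit 0) (nat_lit 0) (XT.lf (nat_lit 0) (nat_lit 20621552563) (nat_lit 76) (nat_lit 71465095217) (nat_lit 76) (nat_lit 38381662379) (nat_lit 6) (nat_lit 4) (nat_lit 7) (nat_lit 5) (nat_lit 7) (nat_lit 4) (nat_lit 356) (nat_lit 257) (nat_lit 167)) (XT.lf (nat_lit 0) (nat_lit 42667260529) (nat_lit 76) (nat_lit 63544600374) (nat_lit 76) (nat_lit 30441408420) (nat_lit 6) (nat_lit 4) (nat_lit 7) (nat_lit 5) (nat_lit 7) (nat_lit 4) (nat_lit 357) (nat_lit 257) (nat_lit 166)))) (XT.nd (nat_lit 156) (nat_lit 76) (nat_lit 0) (XT.nd (nat_lit 78) (nat_lit 0) (nat_lit 0) (XT.lf (nat_lit 0) (nat_lit 65791624525) (nat_lit 76) (nat_lit 55239121324) (nat_lit 76) (nat_lit 22117111164) (nat_lit 6) (nat_lit 4) (nat_lit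 7) (nat_lit 5) (nat_lit 7) (nat_lit 4) (nat_lit 358) (nat_lit 257) (nat_lit 165)) (XT.lf (nat_lit 0) (nat_lit 90049702559) (nat_lit 76) (nat_lit 46528883119) (nat_lit 76) (nat_lit 13388950858) (nat_lit 6) (nat_lit 4) (nat_lit 7) (nat_lit 5) (nat_lit 7) (nat_lit 4) (nat_lit 359) (nat_lit 257) (nat_lit 164))) (XT.nd (nat_lit 78) (nat_lit 76) (nat_lit 0) (XT.lf (nat_lit 0) (nat_lit 115499251961) (nat_lit 76) (nat_lit 37393147095) (nat_lit 76) (nat_lit 4236146166) (nat_lit 6) (nat_lit 4) (nat_lit 7) (nat_lit 5) (nat_lit 7) (nat_lit 4) (nat_lit 360) (nat_lit 257) (nat_lit 163)) (XT.lf (nat_lit 0) (nat_lit 5258441996) (nat_lit 152) (nat_lit 22498619550) (nat_lit 76) (nat_lit 136889324945) (nat_lit 5) (nat_lit 5) (nat_lit 7) (nat_lit 5) (nat_lit 6) (nat_lit 4) (nat_lit 361) (nat_lit 257) (nat_lit 162))))) (XT.nd (nat_lit 32994) (nat_lit 0) (nat_lit 22724) (XT.nd (nat_lit 78) (nat_lit 76) (nat_lit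 0) (XT.lf (nat_lit 0) (nat_lit 15130502224) (nat_lit 152) (nat_lit 2473819071) (nat_lit 76) (nat_lit 154934832005) (nat_lit 5) (nat_lit 5) (nat_lit 7) (nat_lit 5) (nat_lit 6) (nat_lit 4) (nat_lit 362) (nat_lit 257) (nat_lit 161)) (XT.nd (nat_lit 78) (nat_lit 0) (nat_lit 0) (XT.lf (nat_lit 0) (nat_lit 18902359821) (nat_lit 76) (nat_lit 6765543117) (nat_lit 152) (nat_lit 155153505598) (nat_lit 4) (nat_lit 5) (nat_lit 5) (nat_lit 5) (nat_lit 6) (nat_lit 4) (nat_lit 363) (nat_lit 257) (nat_lit 160)) (XT.lf (nat_lit 0) (nat_lit 36792509783) (nat_lit 152) (nat_lit 148180973823) (nat_lit 0) (nat_lit 4542484948) (nat_lit 4) (nat_lit 5) (nat_lit 6) (nat_lit 4) (nat_lit 4) (nat_lit 4) (nat_lit 364) (nat_lit 257) (nat_lit 159)))) (XT.nd (nat_lit 156) (nat_lit 456) (nat_lit 0) (XT.nd (nat_lit 78) (nat_lit 380) (nat_lit 0) (XT.lf (nat_lit 0) (nat_lit 930826041) (nat_lit 228) (nat_lit 1157146145) (nat_lit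 228) (nat_lit 1157146145) (nat_lit 314) (nat_lit 4) (nat_lit 317) (nat_lit 5) (nat_lit 317) (nat_lit 4) (nat_lit 264) (nat_lit 258) (nat_lit 258)) (XT.lf (nat_lit 0) (nat_lit 1107316824) (nat_lit 304) (nat_lit 1500933511) (nat_lit 380) (nat_lit 3910439348) (nat_lit 309) (nat_lit 5) (nat_lit 313) (nat_lit 5) (nat_lit 314) (nat_lit 4) (nat_lit 265) (nat_lit 258) (nat_lit 257))) (XT.nd (nat_lit 78) (nat_lit 0) (nat_lit 0) (XT.lf (nat_lit 0) (nat_lit 458226701) (nat_lit 380) (nat_lit 454749079) (nat_lit 456) (nat_lit 5642496194) (nat_lit 303) (nat_lit 5) (nat_lit 308) (nat_lit 5) (nat_lit 309) (nat_lit 5) (nat_lit 266) (nat_lit 258) (nat_lit 256)) (XT.lf (nat_lit 0) (nat_lit 5675270633) (nat_lit 456) (nat_lit 104040323) (nat_lit 76) (nat_lit 820815834) (nat_lit 303) (nat_lit 5) (nat_lit 309) (nat_lit 5) (nat_lit 304) (nat_lit 4) (nat_lit 267) (nat_lit 258) (nat_lit 255))))))))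
noncomputable def xc46 : XT := (XT.nd (nat_lit 2184) (nat_lit 4332) (nat_lit 0) (XT.nd (nat_lit 1092) (nat_lit 5852) (nat_lit 0) (XT.nd (nat_lit 546) (nat_lit 5852) (nat_lit 0) (XT.nd (nat_lit 234) (nat_lit 3420) (nat_lit 0) (XT.nd (nat_lit 78) (nat_lit 1216) (nat_lit 0) (XT.lf (nat_lit 0) (nat_lit 3739773066) (nat_lit 532) (nat_lit 577193063) (nat_lit 76) (nat_lit 2335705594) (nat_lit 296) (nat_lit 5) (nat_lit 303) (nat_lit 5) (nat_lit 297) (nat_lit 5) (nat_lit 268) (nat_lit 258) (nat_lit 254)) (XT.nd (nat_lit 78) (nat_lit 608) (nat_lit 0) (XT.lf (nat_lit 0) (nat_lit 1664868342) (nat_lit 608) (nat_lit 959510545) (nat_lit 76) (nat_lit 4089374908) (nat_lit 288) (nat_lit 5) (nat_lit 296) (nat_lit 5) (nat_lit 289) (nat_lit 5) (nat_lit 269) (nat_lit 258) (nat_lit 253)) (XT.lf (nat_lit 0) (nat_lit 5524325121) (nat_lit 608) (nat_lit 691416999) (nat_lit 684) (nat_lit 567598586) (nat_lit 280) (nat_lit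 5) (nat_lit 288) (nat_lit 5) (nat_lit 289) (nat_lit 5) (nat_lit 270) (nat_lit 258) (nat_lit 252)))) (XT.nd (nat_lit 156) (nat_lit 1824) (nat_lit 0) (XT.nd (nat_lit 78) (nat_lit 836) (nat_lit 0) (XT.lf (nat_lit 0) (nat_lit 3885355365) (nat_lit 760) (nat_lit 1504903337) (nat_lit 76) (nat_lit 1470520573) (nat_lit 270) (nat_lit 5) (nat_lit 280) (nat_lit 5) (nat_lit 271) (nat_lit 5) (nat_lit 271) (nat_lit 258) (nat_lit 251)) (XT.lf (nat_lit 0) (nat_lit 1407709674) (nat_lit 836) (nat_lit 1677791098) (nat_lit 76) (nat_lit 3861388156) (nat_lit 259) (nat_lit 5) (nat_lit 270) (nat_lit 5) (nat_lit 260) (nat_lit 5) (nat_lit 272) (nat_lit 258) (nat_lit 250))) (XT.nd (nat_lit 78) (nat_lit 988) (nat_lit 0) (XT.lf (nat_lit 0) (nat_lit 5256308668) (nat_lit 836) (nat_lit 528612820) (nat_lit 912) (nat_lit 1256771302) (nat_lit 248) (nat_lit 5) (nat_lit 259) (nat_lit 5) (nat_lit 260) (nat_lit 5) (nat_lit 273)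 (nat_lit 258) (nat_lit 249)) (XT.lf (nat_lit 0) (nat_lit 3043413279) (nat_lit 988) (nat_lit 1855271237) (nat_lit 76) (nat_lit 2245950435) (nat_lit 235) (nat_lit 5) (nat_lit 248) (nat_lit 5) (nat_lit 236) (nat_lit 5) (nat_lit 274) (nat_lit 258) (nat_lit 248))))) (XT.nd (nat_lit 234) (nat_lit 2508) (nat_lit 0) (XT.nd (nat_lit 78) (nat_lit 2280) (nat_lit 0) (XT.lf (nat_lit 0) (nat_lit 134608162) (nat_lit 1064) (nat_lit 1861353726) (nat_lit 76) (nat_lit 5260826958) (nat_lit 221) (nat_lit 5) (nat_lit 235) (nat_lit 5) (nat_lit 222) (nat_lit 5) (nat_lit 275) (nat_lit 258) (nat_lit 247)) (XT.nd (nat_lit 78) (nat_lit 1216) (nat_lit 0) (XT.lf (nat_lit 0) (nat_lit 4373766014) (nat_lit 1140) (nat_lit 1841137907) (nat_lit 76) (nat_lit 1162435866) (nat_lit 207) (nat_lit 5) (nat_lit 222) (nat_lit 5) (nat_lit 208) (nat_lit 5) (nat_lit 276) (nat_lit 258) (nat_lit 246)) (XT.lf (nat_lit 0) (nat_lit 1188329861)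 (nat_lit 1216) (nat_lit 1781322535) (nat_lit 76) (nat_lit 4537366394) (nat_lit 191) (nat_lit 5) (nat_lit 207) (nat_lit 5) (nat_lit 192) (nat_lit 5) (nat_lit 277) (nat_lit 258) (nat_lit 245)))) (XT.nd (nat_lit 156) (nat_lit 1140) (nat_lit 0) (XT.nd (nat_lit 78) (nat_lit 684) (nat_lit 0) (XT.lf (nat_lit 0) (nat_lit 5415395678) (nat_lit 760) (nat_lit 1690547833) (nat_lit 76) (nat_lit 539978132) (nat_lit 182) (nat_lit 5) (nat_lit 192) (nat_lit 5) (nat_lit 183) (nat_lit 5) (nat_lit 278) (nat_lit 258) (nat_lit 244)) (XT.lf (nat_lit 0) (nat_lit 1941964866) (nat_lit 684) (nat_lit 1589311751) (nat_lit 76) (nat_lit 4262536469) (nat_lit 173) (nat_lit 5) (nat_lit 182) (nat_lit 5) (nat_lit 174) (nat_lit 5) (nat_lit 279) (nat_lit 258) (nat_lit 243))) (XT.nd (nat_lit 78) (nat_lit 608) (nat_lit 0) (XT.lf (nat_lit 0) (nat_lit 6178416321) (nat_lit 608) (nat_lit 1460129324) (nat_lit 76) (nat_lit 313078182)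 (nat_lit 166) (nat_lit 5) (nat_lit 174) (nat_lit 5) (nat_lit 167) (nat_lit 5) (nat_lit 280) (nat_lit 258) (nat_lit 242)) (XT.lf (nat_lit 0) (nat_lit 2401892544) (nat_lit 608) (nat_lit 1343599796) (nat_lit 76) (nat_lit 4373078132) (nat_lit 158) (nat_lit 5) (nat_lit 166) (nat_lit 5) (nat_lit 159) (nat_lit 5) (nat_lit 281) (nat_lit 258) (nat_lit 241)))))) (XT.nd (nat_lit 546) (nat_lit 2508) (nat_lit 0) (XT.nd (nat_lit 234) (nat_lit 1824) (nat_lit 0) (XT.nd (nat_lit 78) (nat_lit 1064) (nat_lit 0) (XT.lf (nat_lit 0) (nat_lit 6666325435) (nat_lit 532) (nat_lit 1209530728) (nat_lit 76) (nat_lit 420167729) (nat_lit 152) (nat_lit 5) (nat_lit 159) (nat_lit 5) (nat_lit 153) (nat_lit 5) (nat_lit 282) (nat_lit 258) (nat_lit 240)) (XT.nd (nat_lit 78) (nat_lit 456) (nat_lit 0) (XT.lf (nat_lit 0) (nat_lit 2567652844) (nat_lit 608) (nat_lit 1106257180) (nat_lit 76) (nat_lit 4809121880) (nat_lit 144) (nat_lit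 5) (nat_lit 152) (nat_lit 5) (nat_lit 145) (nat_lit 5) (nat_lit 283) (nat_lit 258) (nat_lit 239)) (XT.lf (nat_lit 0) (nat_lit 6875754987) (nat_lit 532) (nat_lit 1003100684) (nat_lit 76) (nat_lit 802192280) (nat_lit 138) (nat_lit 5) (nat_lit 145) (nat_lit 5) (nat_lit 139) (nat_lit 5) (nat_lit 284) (nat_lit 258) (nat_lit 238)))) (XT.nd (nat_lit 156) (nat_lit 912) (nat_lit 0) (XT.nd (nat_lit 78) (nat_lit 380) (nat_lit 0) (XT.lf (nat_lit 0) (nat_lit 2431622447) (nat_lit 532) (nat_lit 944912767) (nat_lit 76) (nat_lit 5512762195) (nat_lit 131) (nat_lit 5) (nat_lit 138) (nat_lit 5) (nat_lit 132) (nat_lit 5) (nat_lit 285) (nat_lit 258) (nat_lit 237)) (XT.lf (nat_lit 0) (nat_lit 6796066090) (nat_lit 456) (nat_lit 911740278) (nat_lit 76) (nat_lit 1401184112) (nat_lit 126) (nat_lit 5) (nat_lit 132) (nat_lit 5) (nat_lit 127) (nat_lit 5) (nat_lit 286) (nat_lit 258) (nat_lit 236))) (XT.nd (nat_lit 78)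 (nat_lit 380) (nat_lit 0) (XT.lf (nat_lit 0) (nat_lit 1978527065) (nat_lit 532) (nat_lit 934713052) (nat_lit 76) (nat_lit 6426608507) (nat_lit 119) (nat_lit 5) (nat_lit 126) (nat_lit 5) (nat_lit 120) (nat_lit 5) (nat_lit 287) (nat_lit 258) (nat_lit 235)) (XT.lf (nat_lit 0) (nat_lit 6408773545) (nat_lit 456) (nat_lit 1014972023) (nat_lit 76) (nat_lit 2158794457) (nat_lit 114) (nat_lit 5) (nat_lit 120) (nat_lit 5) (nat_lit 115) (nat_lit 5) (nat_lit 288) (nat_lit 258) (nat_lit 234))))) (XT.nd (nat_lit 234) (nat_lit 1292) (nat_lit 0) (XT.nd (nat_lit 78) (nat_lit 760) (nat_lit 0) (XT.lf (nat_lit 0) (nat_lit 1184774301) (nat_lit 456) (nat_lit 1160522295) (nat_lit 76) (nat_lit 7492280965) (nat_lit 108) (nat_lit 5) (nat_lit 114) (nat_lit 5) (nat_lit 109) (nat_lit 5) (nat_lit 289) (nat_lit 258) (nat_lit 233)) (XT.nd (nat_lit 78) (nat_lit 456) (nat_lit 0) (XT.lf (nat_lit 0) (nat_lit 5686782575) (nat_lit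 380) (nat_lit 1403276526) (nat_lit 76) (nat_lit 3014752276) (nat_lit 104) (nat_lit 5) (nat_lit 109) (nat_lit 5) (nat_lit 105) (nat_lit 5) (nat_lit 290) (nat_lit 258) (nat_lit 232)) (XT.lf (nat_lit 0) (nat_lit 17587290) (nat_lit 456) (nat_lit 1719417808) (nat_lit 76) (nat_lit 8648817047) (nat_lit 98) (nat_lit 5) (nat_lit 104) (nat_lit 5) (nat_lit 99) (nat_lit 5) (nat_lit 291) (nat_lit 258) (nat_lit 231)))) (XT.nd (nat_lit 156) (nat_lit 684) (nat_lit 0) (XT.nd (nat_lit 78) (nat_lit 304) (nat_lit 0) (XT.lf (nat_lit 0) (nat_lit 4593415685) (nat_lit 380) (nat_lit 2180754810) (nat_lit 76) (nat_lit 3905214426) (nat_lit 94) (nat_lit 5) (nat_lit 99) (nat_lit 5) (nat_lit 95) (nat_lit 5) (nat_lit 292) (nat_lit 258) (nat_lit 230)) (XT.lf (nat_lit 0) (nat_lit 8249052455) (nat_lit 304) (nat_lit 1141642829) (nat_lit 380) (nat_lit 1597253471) (nat_lit 90) (nat_lit 5) (nat_lit 94) (nat_lit 5) (nat_lit 95)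 (nat_lit 5) (nat_lit 293) (nat_lit 258) (nat_lit 229))) (XT.nd (nat_lit 78) (nat_lit 304) (nat_lit 0) (XT.lf (nat_lit 0) (nat_lit 3081202561) (nat_lit 380) (nat_lit 3468182792) (nat_lit 76) (nat_lit 4760968635) (nat_lit 85) (nat_lit 5) (nat_lit 90) (nat_lit 5) (nat_lit 86) (nat_lit 5) (nat_lit 294) (nat_lit 258) (nat_lit 228)) (XT.lf (nat_lit 0) (nat_lit 7309756569) (nat_lit 304) (nat_lit 645909380) (nat_lit 380) (nat_lit 3692976004) (nat_lit 81) (nat_lit 5) (nat_lit 85) (nat_lit 5) (nat_lit 86) (nat_lit 5) (nat_lit 295) (nat_lit 258) (nat_lit 227))))))) (XT.nd (nat_lit 1092) (nat_lit 1444) (nat_lit 0) (XT.nd (nat_lit 546) (nat_lit 1216) (nat_lit 0) (XT.nd (nat_lit 234) (nat_lit 836) (nat_lit 0) (XT.nd (nat_lit 78) (nat_lit 532) (nat_lit 0) (XT.lf (nat_lit 0) (nat_lit 1090400251) (nat_lit 304) (nat_lit 5406534556) (nat_lit 76) (nat_lit 5505446423) (nat_lit 77) (nat_lit 5) (nat_lit 81) (nat_lit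 5) (nat_lit 78) (nat_lit 5) (nat_lit 296) (nat_lit 258) (nat_lit 226)) (XT.nd (nat_lit 78) (nat_lit 228) (nat_lit 0) (XT.lf (nat_lit 0) (nat_lit 5700349058) (nat_lit 304) (nat_lit 334005567) (nat_lit 380) (nat_lit 6338502001) (nat_lit 73) (nat_lit 5) (nat_lit 77) (nat_lit 5) (nat_lit 78) (nat_lit 5) (nat_lit 297) (nat_lit 258) (nat_lit 225)) (XT.lf (nat_lit 0) (nat_lit 4585031776) (nat_lit 228) (nat_lit 6693597061) (nat_lit 304) (nat_lit 1481709149) (nat_lit 70) (nat_lit 5) (nat_lit 73) (nat_lit 5) (nat_lit 74) (nat_lit 5) (nat_lit 298) (nat_lit 258) (nat_lit 224)))) (XT.nd (nat_lit 156) (nat_lit 304) (nat_lit 0) (XT.nd (nat_lit 78) (nat_lit 228) (nat_lit 0) (XT.lf (nat_lit 0) (nat_lit 3246467003) (nat_lit 228) (nat_lit 301123498) (nat_lit 304) (nat_lit 9618621748) (nat_lit 66) (nat_lit 5) (nat_lit 69) (nat_lit 5) (nat_lit 70) (nat_lit 5) (nat_lit 299) (nat_lit 258) (nat_lit 223)) (XT.lf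 (nat_lit 0) (nat_lit 1618638906) (nat_lit 228) (nat_lit 7240807026) (nat_lit 304) (nat_lit 4730708937) (nat_lit 63) (nat_lit 5) (nat_lit 66) (nat_lit 5) (nat_lit 67) (nat_lit 5) (nat_lit 300) (nat_lit 258) (nat_lit 222))) (XT.nd (nat_lit 78) (nat_lit 228) (nat_lit 0) (XT.lf (nat_lit 0) (nat_lit 401516606) (nat_lit 304) (nat_lit 252304369) (nat_lit 76) (nat_lit 13381186988) (nat_lit 62) (nat_lit 5) (nat_lit 66) (nat_lit 5) (nat_lit 63) (nat_lit 5) (nat_lit 301) (nat_lit 258) (nat_lit 221)) (XT.lf (nat_lit 0) (nat_lit 5777283815) (nat_lit 304) (nat_lit 2466329551) (nat_lit 76) (nat_lit 6254600948) (nat_lit 59) (nat_lit 5) (nat_lit 63) (nat_lit 5) (nat_lit 60) (nat_lit 5) (nat_lit 302) (nat_lit 258) (nat_lit 220))))) (XT.nd (nat_lit 234) (nat_lit 608) (nat_lit 0) (XT.nd (nat_lit 78) (nat_lit 456) (nat_lit 0) (XT.lf (nat_lit 0) (nat_lit 9995284151) (nat_lit 152) (nat_lit 1440738896) (nat_lit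 228) (nat_lit 3548188453) (nat_lit 57) (nat_lit 5) (nat_lit 59) (nat_lit 5) (nat_lit 60) (nat_lit 5) (nat_lit 303) (nat_lit 258) (nat_lit 219)) (XT.nd (nat_lit 78) (nat_lit 152) (nat_lit 0) (XT.lf (nat_lit 0) (nat_lit 1911805640) (nat_lit 304) (nat_lit 7922829296) (nat_lit 76) (nat_lit 5657421454) (nat_lit 53) (nat_lit 5) (nat_lit 57) (nat_lit 5) (nat_lit 54) (nat_lit 5) (nat_lit 304) (nat_lit 258) (nat_lit 218)) (XT.lf (nat_lit 0) (nat_lit 4737423208) (nat_lit 152) (nat_lit 2859989891) (nat_lit 228) (nat_lit 8426095977) (nat_lit 51) (nat_lit 5) (nat_lit 53) (nat_lit 5) (nat_lit 54) (nat_lit 5) (nat_lit 305) (nat_lit 258) (nat_lit 217)))) (XT.nd (nat_lit 156) (nat_lit 304) (nat_lit 0) (XT.nd (nat_lit 78) (nat_lit 76) (nat_lit 0) (XT.lf (nat_lit 0) (nat_lit 1464023425) (nat_lit 228) (nat_lit 12158306728) (nat_lit 304) (nat_lit 2957600353) (nat_lit 48) (nat_lit 5) (nat_lit 51) (nat_lit 5) (nat_lit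 52) (nat_lit 5) (nat_lit 306) (nat_lit 258) (nat_lit 216)) (XT.lf (nat_lit 0) (nat_lit 2793745197) (nat_lit 304) (nat_lit 2265710528) (nat_lit 76) (nat_lit 12102045072) (nat_lit 47) (nat_lit 5) (nat_lit 51) (nat_lit 5) (nat_lit 48) (nat_lit 5) (nat_lit 307) (nat_lit 258) (nat_lit 215))) (XT.nd (nat_lit 78) (nat_lit 152) (nat_lit 0) (XT.lf (nat_lit 0) (nat_lit 8825951284) (nat_lit 228) (nat_lit 6506139422) (nat_lit 76) (nat_lit 2437587949) (nat_lit 45) (nat_lit 5) (nat_lit 48) (nat_lit 5) (nat_lit 46) (nat_lit 5) (nat_lit 308) (nat_lit 258) (nat_lit 214)) (XT.lf (nat_lit 0) (nat_lit 7068262920) (nat_lit 152) (nat_lit 8157611048) (nat_lit 228) (nat_lit 3180447657) (nat_lit 43) (nat_lit 5) (nat_lit 45) (nat_lit 5) (nat_lit 46) (nat_lit 5) (nat_lit 309) (nat_lit 258) (nat_lit 213)))))) (XT.nd (nat_lit 546) (nat_lit 608) (nat_lit 0) (XT.nd (nat_lit 234) (nat_lit 456) (nat_lit 0) (XT.nd (nat_lit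 78) (nat_lit 152) (nat_lit 0) (XT.lf (nat_lit 0) (nat_lit 2275425582) (nat_lit 152) (nat_lit 554280764) (nat_lit 228) (nat_lit 16243856885) (nat_lit 40) (nat_lit 5) (nat_lit 42) (nat_lit 5) (nat_lit 43) (nat_lit 5) (nat_lit 310) (nat_lit 258) (nat_lit 212)) (XT.nd (nat_lit 78) (nat_lit 152) (nat_lit 0) (XT.lf (nat_lit 0) (nat_lit 9191628232) (nat_lit 228) (nat_lit 3192233949) (nat_lit 76) (nat_lit 7385883653) (nat_lit 40) (nat_lit 5) (nat_lit 43) (nat_lit 5) (nat_lit 41) (nat_lit 5) (nat_lit 311) (nat_lit 258) (nat_lit 211)) (XT.lf (nat_lit 0) (nat_lit 11189174537) (nat_lit 152) (nat_lit 4726233059) (nat_lit 228) (nat_lit 4584050177) (nat_lit 38) (nat_lit 5) (nat_lit 40) (nat_lit 5) (nat_lit 41) (nat_lit 5) (nat_lit 312) (nat_lit 258) (nat_lit 210)))) (XT.nd (nat_lit 156) (nat_lit 228) (nat_lit 0) (XT.nd (nat_lit 78) (nat_lit 0) (nat_lit 0) (XT.lf (nat_lit 0) (nat_lit 1722659645) (nat_lit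 228) (nat_lit 16239064149) (nat_lit 76) (nat_lit 3302079972) (nat_lit 35) (nat_lit 5) (nat_lit 38) (nat_lit 5) (nat_lit 36) (nat_lit 5) (nat_lit 313) (nat_lit 258) (nat_lit 209)) (XT.lf (nat_lit 0) (nat_lit 8329101034) (nat_lit 228) (nat_lit 2001131459) (nat_lit 76) (nat_lit 11732426033) (nat_lit 35) (nat_lit 5) (nat_lit 38) (nat_lit 5) (nat_lit 36) (nat_lit 5) (nat_lit 314) (nat_lit 258) (nat_lit 208))) (XT.nd (nat_lit 78) (nat_lit 76) (nat_lit 0) (XT.lf (nat_lit 0) (nat_lit 13095873216) (nat_lit 152) (nat_lit 2232854803) (nat_lit 228) (nat_lit 7570869817) (nat_lit 33) (nat_lit 5) (nat_lit 35) (nat_lit 5) (nat_lit 36) (nat_lit 5) (nat_lit 315) (nat_lit 258) (nat_lit 207)) (XT.lf (nat_lit 0) (nat_lit 5145010243) (nat_lit 76) (nat_lit 17602394126) (nat_lit 152) (nat_lit 1028934101) (nat_lit 32) (nat_lit 5) (nat_lit 33) (nat_lit 5) (nat_lit 34) (nat_lit 4) (nat_lit 316) (nat_lit 258) (nat_lit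 206))))) (XT.nd (nat_lit 234) (nat_lit 304) (nat_lit 0) (XT.nd (nat_lit 78) (nat_lit 228) (nat_lit 0) (XT.lf (nat_lit 0) (nat_lit 5790451950) (nat_lit 152) (nat_lit 3832373102) (nat_lit 76) (nat_lit 15070501886) (nat_lit 31) (nat_lit 5) (nat_lit 33) (nat_lit 5) (nat_lit 32) (nat_lit 5) (nat_lit 317) (nat_lit 258) (nat_lit 205)) (XT.nd (nat_lit 78) (nat_lit 76) (nat_lit 0) (XT.lf (nat_lit 0) (nat_lit 11827065631) (nat_lit 152) (nat_lit 1159070686) (nat_lit 228) (nat_lit 12668047866) (nat_lit 29) (nat_lit 5) (nat_lit 31) (nat_lit 5) (nat_lit 32) (nat_lit 5) (nat_lit 318) (nat_lit 258) (nat_lit 204)) (XT.lf (nat_lit 0) (nat_lit 1544838269) (nat_lit 76) (nat_lit 19069861149) (nat_lit 152) (nat_lit 6046214177) (nat_lit 28) (nat_lit 5) (nat_lit 29) (nat_lit 5) (nat_lit 30) (nat_lit 4) (nat_lit 319) (nat_lit 258) (nat_lit 203)))) (XT.nd (nat_lit 156) (nat_lit 76) (nat_lit 0) (XT.nd (nat_lit 78)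 (nat_lit 152) (nat_lit 0) (XT.lf (nat_lit 0) (nat_lit 989768687) (nat_lit 152) (nat_lit 9857778034) (nat_lit 76) (nat_lit 16867169229) (nat_lit 27) (nat_lit 5) (nat_lit 29) (nat_lit 5) (nat_lit 28) (nat_lit 5) (nat_lit 320) (nat_lit 258) (nat_lit 202)) (XT.lf (nat_lit 0) (nat_lit 6130042853) (nat_lit 152) (nat_lit 2130460157) (nat_lit 228) (nat_lit 20558689088) (nat_lit 25) (nat_lit 5) (nat_lit 27) (nat_lit 5) (nat_lit 28) (nat_lit 5) (nat_lit 321) (nat_lit 258) (nat_lit 201))) (XT.nd (nat_lit 78) (nat_lit 76) (nat_lit 0) (XT.lf (nat_lit 0) (nat_lit 16013917383) (nat_lit 228) (nat_lit 7011610266) (nat_lit 76) (nat_lit 6949808669) (nat_lit 25) (nat_lit 5) (nat_lit 28) (nat_lit 5) (nat_lit 26) (nat_lit 4) (nat_lit 322) (nat_lit 258) (nat_lit 200)) (XT.lf (nat_lit 0) (nat_lit 9528031696) (nat_lit 76) (nat_lit 14691641491) (nat_lit 152) (nat_lit 6967692125) (nat_lit 24) (nat_lit 5) (nat_lit 25)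 (nat_lit 5) (nat_lit 26) (nat_lit 4) (nat_lit 323) (nat_lit 258) (nat_lit 199))))))))
noncomputable def xc47 : XT := (XT.nd (nat_lit 2184) (nat_lit 152) (nat_lit 0) (XT.nd (nat_lit 1092) (nat_lit 456) (nat_lit 0) (XT.nd (nat_lit 546) (nat_lit 304) (nat_lit 0) (XT.nd (nat_lit 234) (nat_lit 304) (nat_lit 0) (XT.nd (nat_lit 78) (nat_lit 152) (nat_lit 0) (XT.lf (nat_lit 0) (nat_lit 393880423) (nat_lit 152) (nat_lit 5505664769) (nat_lit 76) (nat_lit 26559593833) (nat_lit 23) (nat_lit 5) (nat_lit 25) (nat_lit 5) (nat_lit 24) (nat_lit 5) (nat_lit 324) (nat_lit 258) (nat_lit 198)) (XT.nd (nat_lit 78) (nat_lit 0) (nat_lit 0) (XT.lf (nat_lit 0) (nat_lit 8079937411) (nat_lit 228) (nat_lit 22294226080) (nat_lit 76) (nat_lit 3415268642) (nat_lit 21) (nat_lit 5) (nat_lit 24) (nat_lit 5) (nat_lit 22) (nat_lit 4) (nat_lit 325) (nat_lit 258) (nat_lit 197)) (XT.lf (nat_lit 0) (nat_lit 16222999371) (nat_lit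 228) (nat_lit 5862809714) (nat_lit 76) (nat_lit 13098264580) (nat_lit 21) (nat_lit 5) (nat_lit 24) (nat_lit 5) (nat_lit 22) (nat_lit 4) (nat_lit 326) (nat_lit 258) (nat_lit 196)))) (XT.nd (nat_lit 156) (nat_lit 228) (nat_lit 0) (XT.nd (nat_lit 78) (nat_lit 0) (nat_lit 0) (XT.lf (nat_lit 0) (nat_lit 11539802461) (nat_lit 76) (nat_lit 13302358155) (nat_lit 152) (nat_lit 11804232394) (nat_lit 20) (nat_lit 5) (nat_lit 21) (nat_lit 5) (nat_lit 22) (nat_lit 4) (nat_lit 327) (nat_lit 258) (nat_lit 195)) (XT.lf (nat_lit 0) (nat_lit 29861668464) (nat_lit 76) (nat_lit 4050276087) (nat_lit 152) (nat_lit 4269307286) (nat_lit 20) (nat_lit 5) (nat_lit 21) (nat_lit 5) (nat_lit 22) (nat_lit 4) (nat_lit 328) (nat_lit 258) (nat_lit 194))) (XT.nd (nat_lit 78) (nat_lit 0) (nat_lit 0) (XT.lf (nat_lit 0) (nat_lit 3677734854) (nat_lit 228) (nat_lit 30461478236) (nat_lit 76) (nat_lit 5649409182) (nat_lit 17) (nat_lit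 5) (nat_lit 20) (nat_lit 5) (nat_lit 18) (nat_lit 4) (nat_lit 329) (nat_lit 258) (nat_lit 193)) (XT.lf (nat_lit 0) (nat_lit 12023787451) (nat_lit 228) (nat_lit 13598066282) (nat_lit 76) (nat_lit 15850552606) (nat_lit 17) (nat_lit 5) (nat_lit 20) (nat_lit 5) (nat_lit 18) (nat_lit 4) (nat_lit 330) (nat_lit 258) (nat_lit 192))))) (XT.nd (nat_lit 234) (nat_lit 228) (nat_lit 0) (XT.nd (nat_lit 78) (nat_lit 0) (nat_lit 0) (XT.lf (nat_lit 0) (nat_lit 4122759046) (nat_lit 76) (nat_lit 16667597211) (nat_lit 152) (nat_lit 22449938225) (nat_lit 16) (nat_lit 5) (nat_lit 17) (nat_lit 5) (nat_lit 18) (nat_lit 4) (nat_lit 331) (nat_lit 258) (nat_lit 191)) (XT.nd (nat_lit 78) (nat_lit 0) (nat_lit 0) (XT.lf (nat_lit 0) (nat_lit 22949475943) (nat_lit 76) (nat_lit 7150456712) (nat_lit 152) (nat_lit 14993514749) (nat_lit 16) (nat_lit 5) (nat_lit 17) (nat_lit 5) (nat_lit 18) (nat_lit 4) (nat_lit 332) (nat_lit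 258) (nat_lit 190)) (XT.lf (nat_lit 0) (nat_lit 39868426599) (nat_lit 152) (nat_lit 4411053733) (nat_lit 0) (nat_lit 2759984709) (nat_lit 16) (nat_lit 5) (nat_lit 18) (nat_lit 4) (nat_lit 16) (nat_lit 4) (nat_lit 333) (nat_lit 258) (nat_lit 189)))) (XT.nd (nat_lit 156) (nat_lit 76) (nat_lit 0) (XT.nd (nat_lit 78) (nat_lit 0) (nat_lit 0) (XT.lf (nat_lit 0) (nat_lit 1201881523) (nat_lit 152) (nat_lit 34731782638) (nat_lit 76) (nat_lit 13143438291) (nat_lit 14) (nat_lit 5) (nat_lit 16) (nat_lit 5) (nat_lit 15) (nat_lit 4) (nat_lit 334) (nat_lit 258) (nat_lit 188)) (XT.lf (nat_lit 0) (nat_lit 9860770187) (nat_lit 152) (nat_lit 17214391259) (nat_lit 76) (nat_lit 24138870364) (nat_lit 14) (nat_lit 5) (nat_lit 16) (nat_lit 5) (nat_lit 15) (nat_lit 4) (nat_lit 335) (nat_lit 258) (nat_lit 187))) (XT.nd (nat_lit 78) (nat_lit 0) (nat_lit 0) (XT.lf (nat_lit 0) (nat_lit 1146000629) (nat_lit 76) (nat_lit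 17787518370) (nat_lit 152) (nat_lit 34524869747) (nat_lit 13) (nat_lit 5) (nat_lit 14) (nat_lit 5) (nat_lit 15) (nat_lit 4) (nat_lit 336) (nat_lit 258) (nat_lit 186)) (XT.lf (nat_lit 0) (nat_lit 20730493806) (nat_lit 76) (nat_lit 7877435719) (nat_lit 152) (nat_lit 27202601450) (nat_lit 13) (nat_lit 5) (nat_lit 14) (nat_lit 5) (nat_lit 15) (nat_lit 4) (nat_lit 337) (nat_lit 258) (nat_lit 185)))))) (XT.nd (nat_lit 546) (nat_lit 228) (nat_lit 0) (XT.nd (nat_lit 234) (nat_lit 152) (nat_lit 0) (XT.nd (nat_lit 78) (nat_lit 76) (nat_lit 0) (XT.lf (nat_lit 0) (nat_lit 38762345687) (nat_lit 152) (nat_lit 17062082168) (nat_lit 0) (nat_lit 2455971690) (nat_lit 13) (nat_lit 5) (nat_lit 15) (nat_lit 4) (nat_lit 13) (nat_lit 4) (nat_lit 338) (nat_lit 258) (nat_lit 184)) (XT.nd (nat_lit 78) (nat_lit 0) (nat_lit 0) (XT.lf (nat_lit 0) (nat_lit 1762403643) (nat_lit 76) (nat_lit 47731846303) (nat_lit 76) (nat_lit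 11377425995) (nat_lit 12) (nat_lit 4) (nat_lit 13) (nat_lit 5) (nat_lit 13) (nat_lit 4) (nat_lit 339) (nat_lit 258) (nat_lit 183)) (XT.lf (nat_lit 0) (nat_lit 21836823876) (nat_lit 76) (nat_lit 39075692515) (nat_lit 76) (nat_lit 2675513815) (nat_lit 12) (nat_lit 4) (nat_lit 13) (nat_lit 5) (nat_lit 13) (nat_lit 4) (nat_lit 340) (nat_lit 258) (nat_lit 182)))) (XT.nd (nat_lit 156) (nat_lit 76) (nat_lit 0) (XT.nd (nat_lit 78) (nat_lit 0) (nat_lit 0) (XT.lf (nat_lit 0) (nat_lit 6310516295) (nat_lit 152) (nat_lit 23633410041) (nat_lit 76) (nat_lit 36495165742) (nat_lit 11) (nat_lit 5) (nat_lit 13) (nat_lit 5) (nat_lit 12) (nat_lit 4) (nat_lit 341) (nat_lit 258) (nat_lit 181)) (XT.lf (nat_lit 0) (nat_lit 15667323166) (nat_lit 152) (nat_lit 4680596302) (nat_lit 76) (nat_lit 49084694815) (nat_lit 11) (nat_lit 5) (nat_lit 13) (nat_lit 5) (nat_lit 12) (nat_lit 4) (nat_lit 342) (nat_lit 258) (nat_lit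 180))) (XT.nd (nat_lit 78) (nat_lit 0) (nat_lit 0) (XT.lf (nat_lit 0) (nat_lit 15480152846) (nat_lit 76) (nat_lit 10138045674) (nat_lit 152) (nat_lit 46953833158) (nat_lit 10) (nat_lit 5) (nat_lit 11) (nat_lit 5) (nat_lit 12) (nat_lit 4) (nat_lit 343) (nat_lit 258) (nat_lit 179)) (XT.lf (nat_lit 0) (nat_lit 36098803707) (nat_lit 152) (nat_lit 39167362968) (nat_lit 0) (nat_lit 601293325) (nat_lit 10) (nat_lit 5) (nat_lit 12) (nat_lit 4) (nat_lit 10) (nat_lit 4) (nat_lit 344) (nat_lit 258) (nat_lit 178))))) (XT.nd (nat_lit 234) (nat_lit 152) (nat_lit 0) (XT.nd (nat_lit 78) (nat_lit 76) (nat_lit 0) (XT.lf (nat_lit 0) (nat_lit 47184744682) (nat_lit 152) (nat_lit 20488055599) (nat_lit 0) (nat_lit 11652425662) (nat_lit 10) (nat_lit 5) (nat_lit 12) (nat_lit 4) (nat_lit 10) (nat_lit 4) (nat_lit 345) (nat_lit 258) (nat_lit 177)) (XT.nd (nat_lit 78) (nat_lit 76) (nat_lit 0) (XT.lf (nat_lit 0) (nat_lit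 58804963446) (nat_lit 152) (nat_lit 912029087) (nat_lit 0) (nat_lit 23239493342) (nat_lit 10) (nat_lit 5) (nat_lit 12) (nat_lit 4) (nat_lit 10) (nat_lit 4) (nat_lit 346) (nat_lit 258) (nat_lit 176)) (XT.lf (nat_lit 0) (nat_lit 19997550389) (nat_lit 76) (nat_lit 51181805486) (nat_lit 76) (nat_lit 15584762921) (nat_lit 9) (nat_lit 4) (nat_lit 10) (nat_lit 5) (nat_lit 10) (nat_lit 4) (nat_lit 347) (nat_lit 258) (nat_lit 175)))) (XT.nd (nat_lit 156) (nat_lit 76) (nat_lit 0) (XT.nd (nat_lit 78) (nat_lit 76) (nat_lit 0) (XT.lf (nat_lit 0) (nat_lit 41937211784) (nat_lit 76) (nat_lit 42226155407) (nat_lit 76) (nat_lit 6599043831) (nat_lit 9) (nat_lit 4) (nat_lit 10) (nat_lit 5) (nat_lit 10) (nat_lit 4) (nat_lit 348) (nat_lit 258) (nat_lit 174)) (XT.lf (nat_lit 0) (nat_lit 2762833889) (nat_lit 152) (nat_lit 30047195933) (nat_lit 76) (nat_lit 62150308124) (nat_lit 8) (nat_lit 5) (nat_lit 10) (nat_lit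 5) (nat_lit 9) (nat_lit 4) (nat_lit 349) (nat_lit 258) (nat_lit 173))) (XT.nd (nat_lit 78) (nat_lit 76) (nat_lit 0) (XT.lf (nat_lit 0) (nat_lit 12440655346) (nat_lit 152) (nat_lit 10428491854) (nat_lit 76) (nat_lit 76497528144) (nat_lit 8) (nat_lit 5) (nat_lit 10) (nat_lit 5) (nat_lit 9) (nat_lit 4) (nat_lit 350) (nat_lit 258) (nat_lit 172)) (XT.lf (nat_lit 0) (nat_lit 10342885187) (nat_lit 76) (nat_lit 12342771037) (nat_lit 152) (nat_lit 81305178628) (nat_lit 7) (nat_lit 5) (nat_lit 8) (nat_lit 5) (nat_lit 9) (nat_lit 4) (nat_lit 351) (nat_lit 258) (nat_lit 171))))))) (XT.nd (nat_lit 33774) (nat_lit 0) (nat_lit 14136) (XT.nd (nat_lit 546) (nat_lit 76) (nat_lit 0) (XT.nd (nat_lit 234) (nat_lit 76) (nat_lit 0) (XT.nd (nat_lit 78) (nat_lit 0) (nat_lit 0) (XT.lf (nat_lit 0) (nat_lit 32341529204) (nat_lit 76) (nat_lit 1193083604) (nat_lit 152) (nat_lit 75308842063) (nat_lit 7) (nat_lit 5) (nat_lit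 8) (nat_lit 5) (nat_lit 9) (nat_lit 4) (nat_lit 352) (nat_lit 258) (nat_lit 170)) (XT.nd (nat_lit 78) (nat_lit 0) (nat_lit 0) (XT.lf (nat_lit 0) (nat_lit 45012059355) (nat_lit 152) (nat_lit 58627829502) (nat_lit 0) (nat_lit 10296239301) (nat_lit 7) (nat_lit 5) (nat_lit 9) (nat_lit 4) (nat_lit 7) (nat_lit 4) (nat_lit 353) (nat_lit 258) (nat_lit 169)) (XT.lf (nat_lit 0) (nat_lit 57061110104) (nat_lit 152) (nat_lit 39898890784) (nat_lit 0) (nat_lit 22323505625) (nat_lit 7) (nat_lit 5) (nat_lit 9) (nat_lit 4) (nat_lit 7) (nat_lit 4) (nat_lit 354) (nat_lit 258) (nat_lit 168)))) (XT.nd (nat_lit 156) (nat_lit 0) (nat_lit 0) (XT.nd (nat_lit 78) (nat_lit 76) (nat_lit 0) (XT.lf (nat_lit 0) (nat_lit 69698984625) (nat_lit 152) (nat_lit 20259048154) (nat_lit 0) (nat_lit 34940633073) (nat_lit 7) (nat_lit 5) (nat_lit 9) (nat_lit 4) (nat_lit 7) (nat_lit 4) (nat_lit 355) (nat_lit 258) (nat_lit 167)) (XT.lf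 (nat_lit 0) (nat_lit 345195934) (nat_lit 76) (nat_lit 82613895393) (nat_lit 76) (nat_lit 47835784724) (nat_lit 6) (nat_lit 4) (nat_lit 7) (nat_lit 5) (nat_lit 7) (nat_lit 4) (nat_lit 356) (nat_lit 258) (nat_lit 166))) (XT.nd (nat_lit 78) (nat_lit 0) (nat_lit 0) (XT.lf (nat_lit 0) (nat_lit 22379377379) (nat_lit 76) (nat_lit 74698786177) (nat_lit 76) (nat_lit 39901857303) (nat_lit 6) (nat_lit 4) (nat_lit 7) (nat_lit 5) (nat_lit 7) (nat_lit 4) (nat_lit 357) (nat_lit 258) (nat_lit 165)) (XT.lf (nat_lit 0) (nat_lit 45492763735) (nat_lit 76) (nat_lit 66398436297) (nat_lit 76) (nat_lit 31583585321) (nat_lit 6) (nat_lit 4) (nat_lit 7) (nat_lit 5) (nat_lit 7) (nat_lit 4) (nat_lit 358) (nat_lit 258) (nat_lit 164))))) (XT.nd (nat_lit 234) (nat_lit 76) (nat_lit 0) (XT.nd (nat_lit 78) (nat_lit 0) (nat_lit 0) (XT.lf (nat_lit 0) (nat_lit 69740386875) (nat_lit 76) (nat_lit 57693083014) (nat_lit 76) (nat_lit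 22861163371) (nat_lit 6) (nat_lit 4) (nat_lit 7) (nat_lit 5) (nat_lit 7) (nat_lit 4) (nat_lit 359) (nat_lit 258) (nat_lit 163)) (XT.nd (nat_lit 78) (nat_lit 0) (nat_lit 0) (XT.lf (nat_lit 0) (nat_lit 95179979233) (nat_lit 76) (nat_lit 48561999297) (nat_lit 76) (nat_lit 13713823780) (nat_lit 6) (nat_lit 4) (nat_lit 7) (nat_lit 5) (nat_lit 7) (nat_lit 4) (nat_lit 360) (nat_lit 258) (nat_lit 162)) (XT.lf (nat_lit 0) (nat_lit 121872111269) (nat_lit 76) (nat_lit 38983444471) (nat_lit 76) (nat_lit 4119787169) (nat_lit 6) (nat_lit 4) (nat_lit 7) (nat_lit 5) (nat_lit 7) (nat_lit 4) (nat_lit 361) (nat_lit 258) (nat_lit 161)))) (XT.nd (nat_lit 32838) (nat_lit 0) (nat_lit 23712) (XT.nd (nat_lit 78) (nat_lit 0) (nat_lit 0) (XT.lf (nat_lit 0) (nat_lit 5827804666) (nat_lit 152) (nat_lit 23047958385) (nat_lit 76) (nat_lit 143993681611) (nat_lit 5) (nat_lit 5) (nat_lit 7) (nat_lit 5) (nat_lit 6) (nat_lit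 4) (nat_lit 362) (nat_lit 258) (nat_lit 160)) (XT.lf (nat_lit 0) (nat_lit 16178875497) (nat_lit 152) (nat_lit 2049327033) (nat_lit 76) (nat_lit 162929088291) (nat_lit 5) (nat_lit 5) (nat_lit 7) (nat_lit 5) (nat_lit 6) (nat_lit 4) (nat_lit 363) (nat_lit 258) (nat_lit 159))) (XT.nd (nat_lit 78) (nat_lit 228) (nat_lit 0) (XT.lf (nat_lit 0) (nat_lit 1905453458) (nat_lit 76) (nat_lit 660767858) (nat_lit 76) (nat_lit 660767858) (nat_lit 320) (nat_lit 4) (nat_lit 321) (nat_lit 5) (nat_lit 321) (nat_lit 4) (nat_lit 262) (nat_lit 259) (nat_lit 259)) (XT.lf (nat_lit 0) (nat_lit 2724614800) (nat_lit 152) (nat_lit 848450131) (nat_lit 228) (nat_lit 2896986782) (nat_lit 317) (nat_lit 5) (nat_lit 319) (nat_lit 5) (nat_lit 320) (nat_lit 4) (nat_lit 263) (nat_lit 259) (nat_lit 258)))))) (XT.nd (nat_lit 546) (nat_lit 6688) (nat_lit 0) (XT.nd (nat_lit 234) (nat_lit 1824) (nat_lit 0) (XT.nd (nat_lit 78) (nat_lit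 760) (nat_lit 0) (XT.lf (nat_lit 0) (nat_lit 1749570564) (nat_lit 228) (nat_lit 143827272) (nat_lit 304) (nat_lit 4600998544) (nat_lit 313) (nat_lit 5) (nat_lit 316) (nat_lit 5) (nat_lit 317) (nat_lit 5) (nat_lit 264) (nat_lit 259) (nat_lit 257)) (XT.nd (nat_lit 78) (nat_lit 380) (nat_lit 0) (XT.lf (nat_lit 0) (nat_lit 95678404) (nat_lit 380) (nat_lit 5652440134) (nat_lit 76) (nat_lit 778716788) (nat_lit 308) (nat_lit 5) (nat_lit 313) (nat_lit 5) (nat_lit 309) (nat_lit 5) (nat_lit 265) (nat_lit 259) (nat_lit 256)) (XT.lf (nat_lit 0) (nat_lit 81459003) (nat_lit 380) (nat_lit 4619310717) (nat_lit 456) (nat_lit 1866250193) (nat_lit 303) (nat_lit 5) (nat_lit 308) (nat_lit 5) (nat_lit 309) (nat_lit 5) (nat_lit 266) (nat_lit 259) (nat_lit 255)))) (XT.nd (nat_lit 156) (nat_lit 1216) (nat_lit 0) (XT.nd (nat_lit 78) (nat_lit 532) (nat_lit 0) (XT.lf (nat_lit 0) (nat_lit 2653404543) (nat_lit 456) (nat_lit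 602715939) (nat_lit 76) (nat_lit 3359251462) (nat_lit 302) (nat_lit 5) (nat_lit 308) (nat_lit 5) (nat_lit 303) (nat_lit 5) (nat_lit 267) (nat_lit 259) (nat_lit 254)) (XT.lf (nat_lit 0) (nat_lit 469789548) (nat_lit 532) (nat_lit 1192306610) (nat_lit 76) (nat_lit 5010108273) (nat_lit 295) (nat_lit 5) (nat_lit 302) (nat_lit 5) (nat_lit 296) (nat_lit 5) (nat_lit 268) (nat_lit 259) (nat_lit 253))) (XT.nd (nat_lit 78) (nat_lit 684) (nat_lit 0) (XT.lf (nat_lit 0) (nat_lit 4844159264) (nat_lit 608) (nat_lit 1711526982) (nat_lit 76) (nat_lit 181376341) (nat_lit 288) (nat_lit 5) (nat_lit 296) (nat_lit 5) (nat_lit 289) (nat_lit 5) (nat_lit 269) (nat_lit 259) (nat_lit 252)) (XT.lf (nat_lit 0) (nat_lit 2409612820) (nat_lit 684) (nat_lit 2167262263) (nat_lit 76) (nat_lit 2233078723) (nat_lit 279) (nat_lit 5) (nat_lit 288) (nat_lit 5) (nat_lit 280) (nat_lit 5) (nat_lit 270) (nat_lit 259) (nat_lit 251)))))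 (XT.nd (nat_lit 234) (nat_lit 4256) (nat_lit 0) (XT.nd (nat_lit 78) (nat_lit 1748) (nat_lit 0) (XT.lf (nat_lit 0) (nat_lit 4348576208) (nat_lit 684) (nat_lit 2363609108) (nat_lit 760) (nat_lit 179415762) (nat_lit 270) (nat_lit 5) (nat_lit 279) (nat_lit 5) (nat_lit 280) (nat_lit 5) (nat_lit 271) (nat_lit 259) (nat_lit 250)) (XT.nd (nat_lit 78) (nat_lit 912) (nat_lit 0) (XT.lf (nat_lit 0) (nat_lit 4003824092) (nat_lit 836) (nat_lit 2865650565) (nat_lit 76) (nat_lit 111968432) (nat_lit 259) (nat_lit 5) (nat_lit 270) (nat_lit 5) (nat_lit 260) (nat_lit 5) (nat_lit 272) (nat_lit 259) (nat_lit 249)) (XT.lf (nat_lit 0) (nat_lit 1158469982) (nat_lit 912) (nat_lit 3137754382) (nat_lit 76) (nat_lit 2783437244) (nat_lit 247) (nat_lit 5) (nat_lit 259) (nat_lit 5) (nat_lit 248) (nat_lit 5) (nat_lit 273) (nat_lit 259) (nat_lit 248)))) (XT.nd (nat_lit 156) (nat_lit 2280) (nat_lit 0) (XT.nd (nat_lit 78) (nat_lit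 1064) (nat_lit 0) (XT.lf (nat_lit 0) (nat_lit 3829578928) (nat_lit 912) (nat_lit 1464380255) (nat_lit 988) (nat_lit 1892644628) (nat_lit 235) (nat_lit 5) (nat_lit 247) (nat_lit 5) (nat_lit 248) (nat_lit 5) (nat_lit 274) (nat_lit 259) (nat_lit 247)) (XT.lf (nat_lit 0) (nat_lit 2169461334) (nat_lit 1064) (nat_lit 3536172399) (nat_lit 76) (nat_lit 1596551336) (nat_lit 221) (nat_lit 5) (nat_lit 235) (nat_lit 5) (nat_lit 222) (nat_lit 5) (nat_lit 275) (nat_lit 259) (nat_lit 246))) (XT.nd (nat_lit 78) (nat_lit 1216) (nat_lit 0) (XT.lf (nat_lit 0) (nat_lit 3748718198) (nat_lit 1064) (nat_lit 2534370085) (nat_lit 1140) (nat_lit 1143552200) (nat_lit 207) (nat_lit 5) (nat_lit 221) (nat_lit 5) (nat_lit 222) (nat_lit 5) (nat_lit 276) (nat_lit 259) (nat_lit 245)) (XT.lf (nat_lit 0) (nat_lit 2874568552) (nat_lit 1216) (nat_lit 3791365126) (nat_lit 76) (nat_lit 894102138) (nat_lit 191) (nat_lit 5) (nat_lit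 207) (nat_lit 5) (nat_lit 192) (nat_lit 5) (nat_lit 277) (nat_lit 259) (nat_lit 244))))))))
noncomputable def xc48 : XT := (XT.nd (nat_lit 2106) (nat_lit 3116) (nat_lit 0) (XT.nd (nat_lit 1014) (nat_lit 3572) (nat_lit 0) (XT.nd (nat_lit 468) (nat_lit 3040) (nat_lit 0) (XT.nd (nat_lit 234) (nat_lit 1672) (nat_lit 0) (XT.nd (nat_lit 78) (nat_lit 1216) (nat_lit 0) (XT.lf (nat_lit 0) (nat_lit 3819938727) (nat_lit 684) (nat_lit 3165403870) (nat_lit 760) (nat_lit 717206831) (nat_lit 182) (nat_lit 5) (nat_lit 191) (nat_lit 5) (nat_lit 192) (nat_lit 5) (nat_lit 278) (nat_lit 259) (nat_lit 243)) (XT.nd (nat_lit 78) (nat_lit 532) (nat_lit 0) (XT.lf (nat_lit 0) (nat_lit 3284823743) (nat_lit 684) (nat_lit 3959080350) (nat_lit 76) (nat_lit 610441078) (nat_lit 173) (nat_lit 5) (nat_lit 182) (nat_lit 5) (nat_lit 174) (nat_lit 5) (nat_lit 279) (nat_lit 259) (nat_lit 242)) (XT.lf (nat_lit 0) (nat_lit 3987486811)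 (nat_lit 532) (nat_lit 3422048493) (nat_lit 608) (nat_lit 606080244) (nat_lit 166) (nat_lit 5) (nat_lit 173) (nat_lit 5) (nat_lit 174) (nat_lit 5) (nat_lit 280) (nat_lit 259) (nat_lit 241)))) (XT.nd (nat_lit 78) (nat_lit 1064) (nat_lit 0) (XT.lf (nat_lit 0) (nat_lit 3404729384) (nat_lit 608) (nat_lit 4097484661) (nat_lit 76) (nat_lit 684356384) (nat_lit 158) (nat_lit 5) (nat_lit 166) (nat_lit 5) (nat_lit 159) (nat_lit 5) (nat_lit 281) (nat_lit 259) (nat_lit 240)) (XT.nd (nat_lit 78) (nat_lit 608) (nat_lit 0) (XT.lf (nat_lit 0) (nat_lit 4192724171) (nat_lit 456) (nat_lit 3365228011) (nat_lit 532) (nat_lit 809502581) (nat_lit 152) (nat_lit 5) (nat_lit 158) (nat_lit 5) (nat_lit 159) (nat_lit 5) (nat_lit 282) (nat_lit 259) (nat_lit 239)) (XT.lf (nat_lit 0) (nat_lit 3232064833) (nat_lit 608) (nat_lit 4268760955) (nat_lit 76) (nat_lit 1057681311) (nat_lit 144) (nat_lit 5) (nat_lit 152) (nat_lit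 5) (nat_lit 145) (nat_lit 5) (nat_lit 283) (nat_lit 259) (nat_lit 238))))) (XT.nd (nat_lit 234) (nat_lit 1672) (nat_lit 0) (XT.nd (nat_lit 78) (nat_lit 912) (nat_lit 0) (XT.lf (nat_lit 0) (nat_lit 4372465213) (nat_lit 456) (nat_lit 3053630790) (nat_lit 532) (nat_lit 1333932587) (nat_lit 138) (nat_lit 5) (nat_lit 144) (nat_lit 5) (nat_lit 145) (nat_lit 5) (nat_lit 284) (nat_lit 259) (nat_lit 237)) (XT.nd (nat_lit 78) (nat_lit 380) (nat_lit 0) (XT.lf (nat_lit 0) (nat_lit 2757543083) (nat_lit 532) (nat_lit 4540859354) (nat_lit 76) (nat_lit 1673903973) (nat_lit 131) (nat_lit 5) (nat_lit 138) (nat_lit 5) (nat_lit 132) (nat_lit 5) (nat_lit 285) (nat_lit 259) (nat_lit 236)) (XT.lf (nat_lit 0) (nat_lit 4457144977) (nat_lit 380) (nat_lit 2545131791) (nat_lit 456) (nat_lit 2193387382) (nat_lit 126) (nat_lit 5) (nat_lit 131) (nat_lit 5) (nat_lit 132) (nat_lit 5) (nat_lit 286) (nat_lit 259) (nat_lit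 235)))) (XT.nd (nat_lit 156) (nat_lit 760) (nat_lit 0) (XT.nd (nat_lit 78) (nat_lit 380) (nat_lit 0) (XT.lf (nat_lit 0) (nat_lit 1964305610) (nat_lit 532) (nat_lit 4989443719) (nat_lit 76) (nat_lit 2476749109) (nat_lit 119) (nat_lit 5) (nat_lit 126) (nat_lit 5) (nat_lit 120) (nat_lit 5) (nat_lit 287) (nat_lit 259) (nat_lit 234)) (XT.lf (nat_lit 0) (nat_lit 4368773226) (nat_lit 380) (nat_lit 1898260797) (nat_lit 456) (nat_lit 3410045966) (nat_lit 114) (nat_lit 5) (nat_lit 119) (nat_lit 5) (nat_lit 120) (nat_lit 5) (nat_lit 288) (nat_lit 259) (nat_lit 233))) (XT.nd (nat_lit 78) (nat_lit 304) (nat_lit 0) (XT.lf (nat_lit 0) (nat_lit 827239458) (nat_lit 456) (nat_lit 5700081337) (nat_lit 76) (nat_lit 3408700590) (nat_lit 108) (nat_lit 5) (nat_lit 114) (nat_lit 5) (nat_lit 109) (nat_lit 5) (nat_lit 289) (nat_lit 259) (nat_lit 232)) (XT.lf (nat_lit 0) (nat_lit 4018624328) (nat_lit 304) (nat_lit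 1173749359) (nat_lit 380) (nat_lit 5015044631) (nat_lit 104) (nat_lit 5) (nat_lit 108) (nat_lit 5) (nat_lit 109) (nat_lit 5) (nat_lit 290) (nat_lit 259) (nat_lit 231)))))) (XT.nd (nat_lit 546) (nat_lit 1520) (nat_lit 0) (XT.nd (nat_lit 234) (nat_lit 988) (nat_lit 0) (XT.nd (nat_lit 78) (nat_lit 684) (nat_lit 0) (XT.lf (nat_lit 0) (nat_lit 3714581294) (nat_lit 380) (nat_lit 6075879958) (nat_lit 456) (nat_lit 701594030) (nat_lit 99) (nat_lit 5) (nat_lit 104) (nat_lit 5) (nat_lit 105) (nat_lit 5) (nat_lit 291) (nat_lit 259) (nat_lit 230)) (XT.nd (nat_lit 78) (nat_lit 304) (nat_lit 0) (XT.lf (nat_lit 0) (nat_lit 3304605502) (nat_lit 304) (nat_lit 436191917) (nat_lit 380) (nat_lit 7049486894) (nat_lit 94) (nat_lit 5) (nat_lit 98) (nat_lit 5) (nat_lit 99) (nat_lit 5) (nat_lit 292) (nat_lit 259) (nat_lit 229)) (XT.lf (nat_lit 0) (nat_lit 2761980392) (nat_lit 304) (nat_lit 5662460655) (nat_lit 380)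 (nat_lit 2677863895) (nat_lit 90) (nat_lit 5) (nat_lit 94) (nat_lit 5) (nat_lit 95) (nat_lit 5) (nat_lit 293) (nat_lit 259) (nat_lit 228)))) (XT.nd (nat_lit 156) (nat_lit 304) (nat_lit 0) (XT.nd (nat_lit 78) (nat_lit 304) (nat_lit 0) (XT.lf (nat_lit 0) (nat_lit 1866444492) (nat_lit 380) (nat_lit 9323902579) (nat_lit 76) (nat_lit 239375878) (nat_lit 85) (nat_lit 5) (nat_lit 90) (nat_lit 5) (nat_lit 86) (nat_lit 5) (nat_lit 294) (nat_lit 259) (nat_lit 227)) (XT.lf (nat_lit 0) (nat_lit 1258627417) (nat_lit 304) (nat_lit 5370477409) (nat_lit 380) (nat_lit 5142302201) (nat_lit 81) (nat_lit 5) (nat_lit 85) (nat_lit 5) (nat_lit 86) (nat_lit 5) (nat_lit 295) (nat_lit 259) (nat_lit 226))) (XT.nd (nat_lit 78) (nat_lit 76) (nat_lit 0) (XT.lf (nat_lit 0) (nat_lit 278404417) (nat_lit 228) (nat_lit 11351561440) (nat_lit 304) (nat_lit 500289463) (nat_lit 78) (nat_lit 5) (nat_lit 81) (nat_lit 5) (nat_lit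 82) (nat_lit 5) (nat_lit 296) (nat_lit 259) (nat_lit 225)) (XT.lf (nat_lit 0) (nat_lit 4347832557) (nat_lit 304) (nat_lit 926731631) (nat_lit 76) (nat_lit 7229515647) (nat_lit 77) (nat_lit 5) (nat_lit 81) (nat_lit 5) (nat_lit 78) (nat_lit 5) (nat_lit 297) (nat_lit 259) (nat_lit 224))))) (XT.nd (nat_lit 234) (nat_lit 684) (nat_lit 0) (XT.nd (nat_lit 78) (nat_lit 532) (nat_lit 0) (XT.lf (nat_lit 0) (nat_lit 9442049805) (nat_lit 380) (nat_lit 2308332975) (nat_lit 76) (nat_lit 1145715366) (nat_lit 73) (nat_lit 5) (nat_lit 78) (nat_lit 5) (nat_lit 74) (nat_lit 5) (nat_lit 298) (nat_lit 259) (nat_lit 223)) (XT.nd (nat_lit 78) (nat_lit 228) (nat_lit 0) (XT.lf (nat_lit 0) (nat_lit 1511509691) (nat_lit 304) (nat_lit 3946756651) (nat_lit 76) (nat_lit 7847374303) (nat_lit 69) (nat_lit 5) (nat_lit 73) (nat_lit 5) (nat_lit 70) (nat_lit 5) (nat_lit 299) (nat_lit 259) (nat_lit 222)) (XT.lf (nat_lit 0) (nat_lit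 6672360288) (nat_lit 304) (nat_lit 5847752819) (nat_lit 76) (nat_lit 1214031338) (nat_lit 66) (nat_lit 5) (nat_lit 70) (nat_lit 5) (nat_lit 67) (nat_lit 5) (nat_lit 300) (nat_lit 259) (nat_lit 221)))) (XT.nd (nat_lit 156) (nat_lit 152) (nat_lit 0) (XT.nd (nat_lit 78) (nat_lit 304) (nat_lit 0) (XT.lf (nat_lit 0) (nat_lit 6133658128) (nat_lit 228) (nat_lit 6021316187) (nat_lit 304) (nat_lit 2027248083) (nat_lit 63) (nat_lit 5) (nat_lit 66) (nat_lit 5) (nat_lit 67) (nat_lit 5) (nat_lit 301) (nat_lit 259) (nat_lit 220)) (XT.lf (nat_lit 0) (nat_lit 3214843276) (nat_lit 304) (nat_lit 10565753644) (nat_lit 76) (nat_lit 870640818) (nat_lit 59) (nat_lit 5) (nat_lit 63) (nat_lit 5) (nat_lit 60) (nat_lit 5) (nat_lit 302) (nat_lit 259) (nat_lit 219))) (XT.nd (nat_lit 78) (nat_lit 0) (nat_lit 0) (XT.lf (nat_lit 0) (nat_lit 1666346345) (nat_lit 152) (nat_lit 7084841486) (nat_lit 228) (nat_lit 6389744959)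 (nat_lit 57) (nat_lit 5) (nat_lit 59) (nat_lit 5) (nat_lit 60) (nat_lit 5) (nat_lit 303) (nat_lit 259) (nat_lit 218)) (XT.lf (nat_lit 0) (nat_lit 14589264226) (nat_lit 228) (nat_lit 1057038675) (nat_lit 76) (nat_lit 8113071) (nat_lit 57) (nat_lit 5) (nat_lit 60) (nat_lit 5) (nat_lit 58) (nat_lit 5) (nat_lit 304) (nat_lit 259) (nat_lit 217))))))) (XT.nd (nat_lit 1092) (nat_lit 1140) (nat_lit 0) (XT.nd (nat_lit 546) (nat_lit 684) (nat_lit 0) (XT.nd (nat_lit 234) (nat_lit 608) (nat_lit 0) (XT.nd (nat_lit 78) (nat_lit 380) (nat_lit 0) (XT.lf (nat_lit 0) (nat_lit 4544988613) (nat_lit 304) (nat_lit 4219669547) (nat_lit 76) (nat_lit 7424428145) (nat_lit 53) (nat_lit 5) (nat_lit 57) (nat_lit 5) (nat_lit 54) (nat_lit 5) (nat_lit 305) (nat_lit 259) (nat_lit 216)) (XT.nd (nat_lit 78) (nat_lit 228) (nat_lit 0) (XT.lf (nat_lit 0) (nat_lit 8956089936) (nat_lit 152) (nat_lit 1476224217) (nat_lit 228) (nat_lit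 6317343156) (nat_lit 51) (nat_lit 5) (nat_lit 53) (nat_lit 5) (nat_lit 54) (nat_lit 5) (nat_lit 306) (nat_lit 259) (nat_lit 215)) (XT.lf (nat_lit 0) (nat_lit 5463503862) (nat_lit 228) (nat_lit 11229786120) (nat_lit 304) (nat_lit 642630979) (nat_lit 48) (nat_lit 5) (nat_lit 51) (nat_lit 5) (nat_lit 52) (nat_lit 5) (nat_lit 307) (nat_lit 259) (nat_lit 214)))) (XT.nd (nat_lit 156) (nat_lit 380) (nat_lit 0) (XT.nd (nat_lit 78) (nat_lit 0) (nat_lit 0) (XT.lf (nat_lit 0) (nat_lit 1435308090) (nat_lit 152) (nat_lit 3811721739) (nat_lit 228) (nat_lit 12701926094) (nat_lit 45) (nat_lit 5) (nat_lit 47) (nat_lit 5) (nat_lit 48) (nat_lit 5) (nat_lit 308) (nat_lit 259) (nat_lit 213)) (XT.lf (nat_lit 0) (nat_lit 11506846468) (nat_lit 228) (nat_lit 3099718953) (nat_lit 76) (nat_lit 3983254960) (nat_lit 45) (nat_lit 5) (nat_lit 48) (nat_lit 5) (nat_lit 46) (nat_lit 5) (nat_lit 309) (nat_lit 259) (nat_lit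 212))) (XT.nd (nat_lit 78) (nat_lit 228) (nat_lit 0) (XT.lf (nat_lit 0) (nat_lit 11046434288) (nat_lit 152) (nat_lit 7108526885) (nat_lit 228) (nat_lit 1105543415) (nat_lit 43) (nat_lit 5) (nat_lit 45) (nat_lit 5) (nat_lit 46) (nat_lit 5) (nat_lit 310) (nat_lit 259) (nat_lit 211)) (XT.lf (nat_lit 0) (nat_lit 5099771827) (nat_lit 228) (nat_lit 14017470410) (nat_lit 76) (nat_lit 845125281) (nat_lit 40) (nat_lit 5) (nat_lit 43) (nat_lit 5) (nat_lit 41) (nat_lit 5) (nat_lit 311) (nat_lit 259) (nat_lit 210))))) (XT.nd (nat_lit 234) (nat_lit 304) (nat_lit 0) (XT.nd (nat_lit 78) (nat_lit 228) (nat_lit 0) (XT.lf (nat_lit 0) (nat_lit 92803019) (nat_lit 152) (nat_lit 11591845991) (nat_lit 228) (nat_lit 9011612867) (nat_lit 38) (nat_lit 5) (nat_lit 40) (nat_lit 5) (nat_lit 41) (nat_lit 5) (nat_lit 312) (nat_lit 259) (nat_lit 209)) (XT.nd (nat_lit 78) (nat_lit 228) (nat_lit 0) (XT.lf (nat_lit 0) (nat_lit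 15092782756) (nat_lit 152) (nat_lit 3586300553) (nat_lit 228) (nat_lit 2785388225) (nat_lit 38) (nat_lit 5) (nat_lit 40) (nat_lit 5) (nat_lit 41) (nat_lit 5) (nat_lit 313) (nat_lit 259) (nat_lit 208)) (XT.lf (nat_lit 0) (nat_lit 3747103930) (nat_lit 228) (nat_lit 13717908226) (nat_lit 76) (nat_lit 4802979969) (nat_lit 35) (nat_lit 5) (nat_lit 38) (nat_lit 5) (nat_lit 36) (nat_lit 5) (nat_lit 314) (nat_lit 259) (nat_lit 207)))) (XT.nd (nat_lit 156) (nat_lit 152) (nat_lit 0) (XT.nd (nat_lit 78) (nat_lit 0) (nat_lit 0) (XT.lf (nat_lit 0) (nat_lit 1094560431) (nat_lit 152) (nat_lit 9507528003) (nat_lit 228) (nat_lit 12507195153) (nat_lit 33) (nat_lit 5) (nat_lit 35) (nat_lit 5) (nat_lit 36) (nat_lit 5) (nat_lit 315) (nat_lit 259) (nat_lit 206)) (XT.lf (nat_lit 0) (nat_lit 16834063284) (nat_lit 152) (nat_lit 1048846119) (nat_lit 228) (nat_lit 6107262742) (nat_lit 33) (nat_lit 5) (nat_lit 35) (nat_lit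 5) (nat_lit 36) (nat_lit 5) (nat_lit 316) (nat_lit 259) (nat_lit 205))) (XT.nd (nat_lit 78) (nat_lit 0) (nat_lit 0) (XT.lf (nat_lit 0) (nat_lit 702344661) (nat_lit 152) (nat_lit 16480974296) (nat_lit 76) (nat_lit 7728583730) (nat_lit 31) (nat_lit 5) (nat_lit 33) (nat_lit 5) (nat_lit 32) (nat_lit 5) (nat_lit 317) (nat_lit 259) (nat_lit 204)) (XT.lf (nat_lit 0) (nat_lit 7757730116) (nat_lit 152) (nat_lit 1098720270) (nat_lit 76) (nat_lit 17020529313) (nat_lit 31) (nat_lit 5) (nat_lit 33) (nat_lit 5) (nat_lit 32) (nat_lit 5) (nat_lit 318) (nat_lit 259) (nat_lit 203)))))) (XT.nd (nat_lit 546) (nat_lit 532) (nat_lit 0) (XT.nd (nat_lit 234) (nat_lit 304) (nat_lit 0) (XT.nd (nat_lit 78) (nat_lit 152) (nat_lit 0) (XT.lf (nat_lit 0) (nat_lit 15259838079) (nat_lit 152) (nat_lit 780958) (nat_lit 228) (nat_lit 11626870584) (nat_lit 29) (nat_lit 5) (nat_lit 31) (nat_lit 5) (nat_lit 32) (nat_lit 5) (nat_lit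 319) (nat_lit 259) (nat_lit 202)) (XT.nd (nat_lit 78) (nat_lit 76) (nat_lit 0) (XT.lf (nat_lit 0) (nat_lit 4418682115) (nat_lit 76) (nat_lit 18812556046) (nat_lit 152) (nat_lit 4714529387) (nat_lit 28) (nat_lit 5) (nat_lit 29) (nat_lit 5) (nat_lit 30) (nat_lit 4) (nat_lit 320) (nat_lit 259) (nat_lit 201)) (XT.lf (nat_lit 0) (nat_lit 2565076513) (nat_lit 152) (nat_lit 7656298656) (nat_lit 76) (nat_lit 18832730928) (nat_lit 27) (nat_lit 5) (nat_lit 29) (nat_lit 5) (nat_lit 28) (nat_lit 5) (nat_lit 321) (nat_lit 259) (nat_lit 200)))) (XT.nd (nat_lit 156) (nat_lit 152) (nat_lit 0) (XT.nd (nat_lit 78) (nat_lit 0) (nat_lit 0) (XT.lf (nat_lit 0) (nat_lit 9053679750) (nat_lit 152) (nat_lit 1098167235) (nat_lit 228) (nat_lit 20063411275) (nat_lit 25) (nat_lit 5) (nat_lit 27) (nat_lit 5) (nat_lit 28) (nat_lit 5) (nat_lit 322) (nat_lit 259) (nat_lit 199)) (XT.lf (nat_lit 0) (nat_lit 18232961652) (nat_lit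 228) (nat_lit 4837351541) (nat_lit 76) (nat_lit 8360721511) (nat_lit 25) (nat_lit 5) (nat_lit 28) (nat_lit 5) (nat_lit 26) (nat_lit 4) (nat_lit 323) (nat_lit 259) (nat_lit 198))) (XT.nd (nat_lit 78) (nat_lit 76) (nat_lit 0) (XT.lf (nat_lit 0) (nat_lit 12456898510) (nat_lit 76) (nat_lit 14348140933) (nat_lit 152) (nat_lit 5899969345) (nat_lit 24) (nat_lit 5) (nat_lit 25) (nat_lit 5) (nat_lit 26) (nat_lit 4) (nat_lit 324) (nat_lit 259) (nat_lit 197)) (XT.lf (nat_lit 0) (nat_lit 1735930664) (nat_lit 152) (nat_lit 3418493218) (nat_lit 76) (nat_lit 28887545270) (nat_lit 23) (nat_lit 5) (nat_lit 25) (nat_lit 5) (nat_lit 24) (nat_lit 5) (nat_lit 325) (nat_lit 259) (nat_lit 196))))) (XT.nd (nat_lit 234) (nat_lit 304) (nat_lit 0) (XT.nd (nat_lit 78) (nat_lit 76) (nat_lit 0) (XT.lf (nat_lit 0) (nat_lit 9775119924) (nat_lit 228) (nat_lit 21085064478) (nat_lit 76) (nat_lit 4579549352) (nat_lit 21) (nat_lit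 5) (nat_lit 24) (nat_lit 5) (nat_lit 22) (nat_lit 4) (nat_lit 326) (nat_lit 259) (nat_lit 195)) (XT.nd (nat_lit 78) (nat_lit 76) (nat_lit 0) (XT.lf (nat_lit 0) (nat_lit 18263849952) (nat_lit 228) (nat_lit 3942737907) (nat_lit 76) (nat_lit 14699384740) (nat_lit 21) (nat_lit 5) (nat_lit 24) (nat_lit 5) (nat_lit 22) (nat_lit 4) (nat_lit 327) (nat_lit 259) (nat_lit 194)) (XT.lf (nat_lit 0) (nat_lit 14266563590) (nat_lit 76) (nat_lit 13009513412) (nat_lit 152) (nat_lit 11166487380) (nat_lit 20) (nat_lit 5) (nat_lit 21) (nat_lit 5) (nat_lit 22) (nat_lit 4) (nat_lit 328) (nat_lit 259) (nat_lit 193)))) (XT.nd (nat_lit 156) (nat_lit 76) (nat_lit 0) (XT.nd (nat_lit 78) (nat_lit 228) (nat_lit 0) (XT.lf (nat_lit 0) (nat_lit 33402152845) (nat_lit 76) (nat_lit 3340444510) (nat_lit 152) (nat_lit 3313290142) (nat_lit 20) (nat_lit 5) (nat_lit 21) (nat_lit 5) (nat_lit 22) (nat_lit 4) (nat_lit 329) (nat_lit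 259) (nat_lit 192)) (XT.lf (nat_lit 0) (nat_lit 4981663379) (nat_lit 228) (nat_lit 29948280053) (nat_lit 76) (nat_lit 6814161713) (nat_lit 17) (nat_lit 5) (nat_lit 20) (nat_lit 5) (nat_lit 18) (nat_lit 4) (nat_lit 330) (nat_lit 259) (nat_lit 191))) (XT.nd (nat_lit 78) (nat_lit 76) (nat_lit 0) (XT.lf (nat_lit 0) (nat_lit 13691683283) (nat_lit 228) (nat_lit 12338662839) (nat_lit 76) (nat_lit 17483348876) (nat_lit 17) (nat_lit 5) (nat_lit 20) (nat_lit 5) (nat_lit 18) (nat_lit 4) (nat_lit 331) (nat_lit 259) (nat_lit 190)) (XT.lf (nat_lit 0) (nat_lit 6212613916) (nat_lit 76) (nat_lit 16651278507) (nat_lit 152) (nat_lit 22507081506) (nat_lit 16) (nat_lit 5) (nat_lit 17) (nat_lit 5) (nat_lit 18) (nat_lit 4) (nat_lit 332) (nat_lit 259) (nat_lit 189))))))))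
noncomputable def xc49 : XT := (XT.nd (nat_lit 2184) (nat_lit 76) (nat_lit 0) (XT.nd (nat_lit 1092) (nat_lit 304) (nat_lit 0) (XT.nd (nat_lit 546) (nat_lit 228) (nat_lit 0) (XT.nd (nat_lit 234) (nat_lit 76) (nat_lit 0) (XT.nd (nat_lit 78) (nat_lit 152) (nat_lit 0) (XT.lf (nat_lit 0) (nat_lit 25890965852) (nat_lit 76) (nat_lit 6698742819) (nat_lit 152) (nat_lit 14728567981) (nat_lit 16) (nat_lit 5) (nat_lit 17) (nat_lit 5) (nat_lit 18) (nat_lit 4) (nat_lit 333) (nat_lit 259) (nat_lit 188)) (XT.nd (nat_lit 78) (nat_lit 152) (nat_lit 0) (XT.lf (nat_lit 0) (nat_lit 42807141513) (nat_lit 152) (nat_lit 2902006082) (nat_lit 0) (nat_lit 3653646425) (nat_lit 16) (nat_lit 5) (nat_lit 18) (nat_lit 4) (nat_lit 16) (nat_lit 4) (nat_lit 334) (nat_lit 259) (nat_lit 187)) (XT.lf (nat_lit 0) (nat_lit 2187744720) (nat_lit 152) (nat_lit 34769661504) (nat_lit 76) (nat_lit 14545514323) (nat_lit 14) (nat_lit 5)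 (nat_lit 16) (nat_lit 5) (nat_lit 15) (nat_lit 4) (nat_lit 335) (nat_lit 259) (nat_lit 186)))) (XT.nd (nat_lit 156) (nat_lit 0) (nat_lit 0) (XT.nd (nat_lit 78) (nat_lit 76) (nat_lit 0) (XT.lf (nat_lit 0) (nat_lit 11235493574) (nat_lit 152) (nat_lit 16457291521) (nat_lit 76) (nat_lit 26055246374) (nat_lit 14) (nat_lit 5) (nat_lit 16) (nat_lit 5) (nat_lit 15) (nat_lit 4) (nat_lit 336) (nat_lit 259) (nat_lit 185)) (XT.lf (nat_lit 0) (nat_lit 2774745496) (nat_lit 76) (nat_lit 17960255025) (nat_lit 152) (nat_lit 35370424081) (nat_lit 13) (nat_lit 5) (nat_lit 14) (nat_lit 5) (nat_lit 15) (nat_lit 4) (nat_lit 337) (nat_lit 259) (nat_lit 184))) (XT.nd (nat_lit 78) (nat_lit 0) (nat_lit 0) (XT.lf (nat_lit 0) (nat_lit 23263632625) (nat_lit 76) (nat_lit 7588793920) (nat_lit 152) (nat_lit 27723979948) (nat_lit 13) (nat_lit 5) (nat_lit 14) (nat_lit 5) (nat_lit 15) (nat_lit 4) (nat_lit 338) (nat_lit 259)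 (nat_lit 183)) (XT.lf (nat_lit 0) (nat_lit 41482045146) (nat_lit 152) (nat_lit 16472610638) (nat_lit 0) (nat_lit 3216099119) (nat_lit 13) (nat_lit 5) (nat_lit 15) (nat_lit 4) (nat_lit 13) (nat_lit 4) (nat_lit 339) (nat_lit 259) (nat_lit 182))))) (XT.nd (nat_lit 234) (nat_lit 76) (nat_lit 0) (XT.nd (nat_lit 78) (nat_lit 76) (nat_lit 0) (XT.lf (nat_lit 0) (nat_lit 3251748322) (nat_lit 76) (nat_lit 49475047523) (nat_lit 76) (nat_lit 11165522075) (nat_lit 12) (nat_lit 4) (nat_lit 13) (nat_lit 5) (nat_lit 13) (nat_lit 4) (nat_lit 340) (nat_lit 259) (nat_lit 181)) (XT.nd (nat_lit 78) (nat_lit 76) (nat_lit 0) (XT.lf (nat_lit 0) (nat_lit 24263164591) (nat_lit 76) (nat_lit 40416723717) (nat_lit 76) (nat_lit 2065694059) (nat_lit 12) (nat_lit 4) (nat_lit 13) (nat_lit 5) (nat_lit 13) (nat_lit 4) (nat_lit 341) (nat_lit 259) (nat_lit 180)) (XT.lf (nat_lit 0) (nat_lit 7320408987) (nat_lit 152) (nat_lit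 23530127232) (nat_lit 76) (nat_lit 38889497332) (nat_lit 11) (nat_lit 5) (nat_lit 13) (nat_lit 5) (nat_lit 12) (nat_lit 4) (nat_lit 342) (nat_lit 259) (nat_lit 179)))) (XT.nd (nat_lit 156) (nat_lit 0) (nat_lit 0) (XT.nd (nat_lit 78) (nat_lit 76) (nat_lit 0) (XT.lf (nat_lit 0) (nat_lit 17111991113) (nat_lit 152) (nat_lit 3690861059) (nat_lit 76) (nat_lit 52081380321) (nat_lit 11) (nat_lit 5) (nat_lit 13) (nat_lit 5) (nat_lit 12) (nat_lit 4) (nat_lit 343) (nat_lit 259) (nat_lit 178)) (XT.lf (nat_lit 0) (nat_lit 17442846567) (nat_lit 76) (nat_lit 10097499484) (nat_lit 152) (nat_lit 48640884892) (nat_lit 10) (nat_lit 5) (nat_lit 11) (nat_lit 5) (nat_lit 12) (nat_lit 4) (nat_lit 344) (nat_lit 259) (nat_lit 177))) (XT.nd (nat_lit 78) (nat_lit 0) (nat_lit 0) (XT.lf (nat_lit 0) (nat_lit 38519458192) (nat_lit 152) (nat_lit 39980182556) (nat_lit 0) (nat_lit 1142563498) (nat_lit 10) (nat_lit 5) (nat_lit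 12) (nat_lit 4) (nat_lit 10) (nat_lit 4) (nat_lit 345) (nat_lit 259) (nat_lit 176)) (XT.lf (nat_lit 0) (nat_lit 50130376487) (nat_lit 152) (nat_lit 20421459750) (nat_lit 0) (nat_lit 12721909332) (nat_lit 10) (nat_lit 5) (nat_lit 12) (nat_lit 4) (nat_lit 10) (nat_lit 4) (nat_lit 346) (nat_lit 259) (nat_lit 175)))))) (XT.nd (nat_lit 546) (nat_lit 76) (nat_lit 0) (XT.nd (nat_lit 234) (nat_lit 152) (nat_lit 0) (XT.nd (nat_lit 78) (nat_lit 0) (nat_lit 0) (XT.lf (nat_lit 0) (nat_lit 83036104) (nat_lit 76) (nat_lit 62221444728) (nat_lit 76) (nat_lit 24782908563) (nat_lit 9) (nat_lit 4) (nat_lit 10) (nat_lit 5) (nat_lit 10) (nat_lit 4) (nat_lit 347) (nat_lit 259) (nat_lit 174)) (XT.nd (nat_lit 78) (nat_lit 0) (nat_lit 0) (XT.lf (nat_lit 0) (nat_lit 22006690167) (nat_lit 76) (nat_lit 53273212309) (nat_lit 76) (nat_lit 15806038991) (nat_lit 9) (nat_lit 4) (nat_lit 10) (nat_lit 5) (nat_lit 10) (nat_lit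 4) (nat_lit 348) (nat_lit 259) (nat_lit 173)) (XT.lf (nat_lit 0) (nat_lit 44995274524) (nat_lit 76) (nat_lit 43892050367) (nat_lit 76) (nat_lit 6397603570) (nat_lit 9) (nat_lit 4) (nat_lit 10) (nat_lit 5) (nat_lit 10) (nat_lit 4) (nat_lit 349) (nat_lit 259) (nat_lit 172)))) (XT.nd (nat_lit 156) (nat_lit 76) (nat_lit 0) (XT.nd (nat_lit 78) (nat_lit 0) (nat_lit 0) (XT.lf (nat_lit 0) (nat_lit 3397188033) (nat_lit 152) (nat_lit 30624129830) (nat_lit 76) (nat_lit 65672030929) (nat_lit 8) (nat_lit 5) (nat_lit 10) (nat_lit 5) (nat_lit 9) (nat_lit 4) (nat_lit 350) (nat_lit 259) (nat_lit 171)) (XT.lf (nat_lit 0) (nat_lit 13535271399) (nat_lit 152) (nat_lit 10068558447) (nat_lit 76) (nat_lit 80716887787) (nat_lit 8) (nat_lit 5) (nat_lit 10) (nat_lit 5) (nat_lit 9) (nat_lit 4) (nat_lit 351) (nat_lit 259) (nat_lit 170))) (XT.nd (nat_lit 78) (nat_lit 0) (nat_lit 0) (XT.lf (nat_lit 0) (nat_lit 11716123495)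 (nat_lit 76) (nat_lit 12562124159) (nat_lit 152) (nat_lit 84898271130) (nat_lit 7) (nat_lit 5) (nat_lit 8) (nat_lit 5) (nat_lit 9) (nat_lit 4) (nat_lit 352) (nat_lit 259) (nat_lit 169)) (XT.lf (nat_lit 0) (nat_lit 34773933330) (nat_lit 76) (nat_lit 873894518) (nat_lit 152) (nat_lit 78624601853) (nat_lit 7) (nat_lit 5) (nat_lit 8) (nat_lit 5) (nat_lit 9) (nat_lit 4) (nat_lit 353) (nat_lit 259) (nat_lit 168))))) (XT.nd (nat_lit 234) (nat_lit 76) (nat_lit 0) (XT.nd (nat_lit 78) (nat_lit 0) (nat_lit 0) (XT.lf (nat_lit 0) (nat_lit 47681830011) (nat_lit 152) (nat_lit 60773617256) (nat_lit 0) (nat_lit 11164813809) (nat_lit 7) (nat_lit 5) (nat_lit 9) (nat_lit 4) (nat_lit 7) (nat_lit 4) (nat_lit 354) (nat_lit 259) (nat_lit 167)) (XT.nd (nat_lit 78) (nat_lit 0) (nat_lit 0) (XT.lf (nat_lit 0) (nat_lit 60313372932) (nat_lit 152) (nat_lit 41145641304) (nat_lit 0) (nat_lit 23776597614) (nat_lit 7) (nat_lit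 5) (nat_lit 9) (nat_lit 4) (nat_lit 7) (nat_lit 4) (nat_lit 355) (nat_lit 259) (nat_lit 166)) (XT.lf (nat_lit 0) (nat_lit 73564131305) (nat_lit 152) (nat_lit 20559434828) (nat_lit 0) (nat_lit 37008537781) (nat_lit 7) (nat_lit 5) (nat_lit 9) (nat_lit 4) (nat_lit 7) (nat_lit 4) (nat_lit 356) (nat_lit 259) (nat_lit 165)))) (XT.nd (nat_lit 156) (nat_lit 0) (nat_lit 0) (XT.nd (nat_lit 78) (nat_lit 0) (nat_lit 0) (XT.lf (nat_lit 0) (nat_lit 1054595910) (nat_lit 76) (nat_lit 86421196067) (nat_lit 76) (nat_lit 49847680442) (nat_lit 6) (nat_lit 4) (nat_lit 7) (nat_lit 5) (nat_lit 7) (nat_lit 4) (nat_lit 357) (nat_lit 259) (nat_lit 164)) (XT.lf (nat_lit 0) (nat_lit 24157527372) (nat_lit 76) (nat_lit 78125731109) (nat_lit 76) (nat_lit 41535146816) (nat_lit 6) (nat_lit 4) (nat_lit 7) (nat_lit 5) (nat_lit 7) (nat_lit 4) (nat_lit 358) (nat_lit 259) (nat_lit 163))) (XT.nd (nat_lit 78) (nat_lit 0) (nat_lit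 0) (XT.lf (nat_lit 0) (nat_lit 48395193468) (nat_lit 76) (nat_lit 69425030134) (nat_lit 76) (nat_lit 32818189967) (nat_lit 6) (nat_lit 4) (nat_lit 7) (nat_lit 5) (nat_lit 7) (nat_lit 4) (nat_lit 359) (nat_lit 259) (nat_lit 162)) (XT.lf (nat_lit 0) (nat_lit 73825302929) (nat_lit 76) (nat_lit 60298377186) (nat_lit 76) (nat_lit 23676055234) (nat_lit 6) (nat_lit 4) (nat_lit 7) (nat_lit 5) (nat_lit 7) (nat_lit 4) (nat_lit 360) (nat_lit 259) (nat_lit 161))))))) (XT.nd (nat_lit 33618) (nat_lit 0) (nat_lit 10108) (XT.nd (nat_lit 33072) (nat_lit 0) (nat_lit 20824) (XT.nd (nat_lit 32760) (nat_lit 0) (nat_lit 23636) (XT.nd (nat_lit 78) (nat_lit 76) (nat_lit 0) (XT.lf (nat_lit 0) (nat_lit 100508403634) (nat_lit 76) (nat_lit 50724042139) (nat_lit 76) (nat_lit 14086975631) (nat_lit 6) (nat_lit 4) (nat_lit 7) (nat_lit 5) (nat_lit 7) (nat_lit 4) (nat_lit 361) (nat_lit 259) (nat_lit 160)) (XT.nd (nat_lit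 78) (nat_lit 76) (nat_lit 0) (XT.lf (nat_lit 0) (nat_lit 128508026774) (nat_lit 76) (nat_lit 40679228958) (nat_lit 76) (nat_lit 4028120015) (nat_lit 6) (nat_lit 4) (nat_lit 7) (nat_lit 5) (nat_lit 7) (nat_lit 4) (nat_lit 362) (nat_lit 259) (nat_lit 159)) (XT.lf (nat_lit 0) (nat_lit 6397145530) (nat_lit 152) (nat_lit 23678277264) (nat_lit 76) (nat_lit 151429093964) (nat_lit 5) (nat_lit 5) (nat_lit 7) (nat_lit 5) (nat_lit 6) (nat_lit 4) (nat_lit 363) (nat_lit 259) (nat_lit 158)))) (XT.nd (nat_lit 156) (nat_lit 380) (nat_lit 0) (XT.nd (nat_lit 78) (nat_lit 76) (nat_lit 0) (XT.lf (nat_lit 0) (nat_lit 1073741823) (nat_lit 0) (nat_lit 0) (nat_lit 0) (nat_lit 0) (nat_lit 322) (nat_lit 0) (nat_lit 1) (nat_lit 0) (nat_lit 1) (nat_lit 0) (nat_lit 260) (nat_lit 260) (nat_lit 260)) (XT.lf (nat_lit 0) (nat_lit 4883044707) (nat_lit 76) (nat_lit 1435157449) (nat_lit 0) (nat_lit 127902344) (nat_lit 321)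 (nat_lit 5) (nat_lit 322) (nat_lit 0) (nat_lit 321) (nat_lit 4) (nat_lit 261) (nat_lit 260) (nat_lit 259))) (XT.nd (nat_lit 78) (nat_lit 228) (nat_lit 0) (XT.lf (nat_lit 0) (nat_lit 3212253616) (nat_lit 152) (nat_lit 2762974535) (nat_lit 76) (nat_lit 482721492) (nat_lit 319) (nat_lit 5) (nat_lit 321) (nat_lit 5) (nat_lit 320) (nat_lit 4) (nat_lit 262) (nat_lit 260) (nat_lit 258)) (XT.lf (nat_lit 0) (nat_lit 1425160024) (nat_lit 228) (nat_lit 3987439744) (nat_lit 76) (nat_lit 1065411528) (nat_lit 316) (nat_lit 5) (nat_lit 319) (nat_lit 5) (nat_lit 317) (nat_lit 5) (nat_lit 263) (nat_lit 260) (nat_lit 257))))) (XT.nd (nat_lit 234) (nat_lit 2128) (nat_lit 0) (XT.nd (nat_lit 78) (nat_lit 456) (nat_lit 0) (XT.lf (nat_lit 0) (nat_lit 1389173849) (nat_lit 228) (nat_lit 4623914044) (nat_lit 304) (nat_lit 493101854) (nat_lit 313) (nat_lit 5) (nat_lit 316) (nat_lit 5) (nat_lit 317) (nat_lit 5) (nat_lit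 264) (nat_lit 260) (nat_lit 256)) (XT.nd (nat_lit 78) (nat_lit 76) (nat_lit 0) (XT.lf (nat_lit 0) (nat_lit 376576032) (nat_lit 304) (nat_lit 3596262960) (nat_lit 380) (nat_lit 2569391830) (nat_lit 308) (nat_lit 5) (nat_lit 312) (nat_lit 5) (nat_lit 313) (nat_lit 5) (nat_lit 265) (nat_lit 260) (nat_lit 255)) (XT.lf (nat_lit 0) (nat_lit 1810365407) (nat_lit 380) (nat_lit 525591737) (nat_lit 76) (nat_lit 4250518259) (nat_lit 307) (nat_lit 5) (nat_lit 312) (nat_lit 5) (nat_lit 308) (nat_lit 5) (nat_lit 266) (nat_lit 260) (nat_lit 254)))) (XT.nd (nat_lit 156) (nat_lit 1216) (nat_lit 0) (XT.nd (nat_lit 78) (nat_lit 532) (nat_lit 0) (XT.lf (nat_lit 0) (nat_lit 5308889748) (nat_lit 380) (nat_lit 837276809) (nat_lit 456) (nat_lit 492783080) (nat_lit 302) (nat_lit 5) (nat_lit 307) (nat_lit 5) (nat_lit 308) (nat_lit 5) (nat_lit 267) (nat_lit 260) (nat_lit 253)) (XT.lf (nat_lit 0) (nat_lit 3732043648)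 (nat_lit 532) (nat_lit 2070087730) (nat_lit 76) (nat_lit 897046741) (nat_lit 295) (nat_lit 5) (nat_lit 302) (nat_lit 5) (nat_lit 296) (nat_lit 5) (nat_lit 268) (nat_lit 260) (nat_lit 252))) (XT.nd (nat_lit 78) (nat_lit 608) (nat_lit 0) (XT.lf (nat_lit 0) (nat_lit 1185421864) (nat_lit 608) (nat_lit 2732077764) (nat_lit 76) (nat_lit 2850275232) (nat_lit 287) (nat_lit 5) (nat_lit 295) (nat_lit 5) (nat_lit 288) (nat_lit 5) (nat_lit 269) (nat_lit 260) (nat_lit 251)) (XT.lf (nat_lit 0) (nat_lit 3519439737) (nat_lit 608) (nat_lit 1785903064) (nat_lit 684) (nat_lit 1539340362) (nat_lit 279) (nat_lit 5) (nat_lit 287) (nat_lit 5) (nat_lit 288) (nat_lit 5) (nat_lit 270) (nat_lit 260) (nat_lit 250)))))) (XT.nd (nat_lit 546) (nat_lit 4028) (nat_lit 0) (XT.nd (nat_lit 234) (nat_lit 4256) (nat_lit 0) (XT.nd (nat_lit 78) (nat_lit 1672) (nat_lit 0) (XT.lf (nat_lit 0) (nat_lit 2488941222) (nat_lit 760) (nat_lit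 3855984557) (nat_lit 76) (nat_lit 585019492) (nat_lit 269) (nat_lit 5) (nat_lit 279) (nat_lit 5) (nat_lit 270) (nat_lit 5) (nat_lit 271) (nat_lit 260) (nat_lit 249)) (XT.nd (nat_lit 78) (nat_lit 912) (nat_lit 0) (XT.lf (nat_lit 0) (nat_lit 2690241964) (nat_lit 760) (nat_lit 3857260575) (nat_lit 836) (nat_lit 476038479) (nat_lit 259) (nat_lit 5) (nat_lit 269) (nat_lit 5) (nat_lit 270) (nat_lit 5) (nat_lit 272) (nat_lit 260) (nat_lit 248)) (XT.lf (nat_lit 0) (nat_lit 2361872872) (nat_lit 836) (nat_lit 1104468318) (nat_lit 912) (nat_lit 3659201109) (nat_lit 247) (nat_lit 5) (nat_lit 258) (nat_lit 5) (nat_lit 259) (nat_lit 5) (nat_lit 273) (nat_lit 260) (nat_lit 247)))) (XT.nd (nat_lit 156) (nat_lit 2280) (nat_lit 0) (XT.nd (nat_lit 78) (nat_lit 988) (nat_lit 0) (XT.lf (nat_lit 0) (nat_lit 234502875) (nat_lit 988) (nat_lit 5143118988) (nat_lit 76) (nat_lit 1858730673) (nat_lit 234) (nat_lit 5)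 (nat_lit 247) (nat_lit 5) (nat_lit 235) (nat_lit 5) (nat_lit 274) (nat_lit 260) (nat_lit 246)) (XT.lf (nat_lit 0) (nat_lit 1855795111) (nat_lit 988) (nat_lit 2273596794) (nat_lit 1064) (nat_lit 3226043176) (nat_lit 221) (nat_lit 5) (nat_lit 234) (nat_lit 5) (nat_lit 235) (nat_lit 5) (nat_lit 275) (nat_lit 260) (nat_lit 245))) (XT.nd (nat_lit 78) (nat_lit 1140) (nat_lit 0) (XT.lf (nat_lit 0) (nat_lit 612829122) (nat_lit 1140) (nat_lit 5808319637) (nat_lit 76) (nat_lit 1062712007) (nat_lit 206) (nat_lit 5) (nat_lit 221) (nat_lit 5) (nat_lit 207) (nat_lit 5) (nat_lit 276) (nat_lit 260) (nat_lit 244)) (XT.lf (nat_lit 0) (nat_lit 1507499663) (nat_lit 1140) (nat_lit 2980916298) (nat_lit 1216) (nat_lit 3132238940) (nat_lit 191) (nat_lit 5) (nat_lit 206) (nat_lit 5) (nat_lit 207) (nat_lit 5) (nat_lit 277) (nat_lit 260) (nat_lit 243))))) (XT.nd (nat_lit 234) (nat_lit 2052) (nat_lit 0) (XT.nd (nat_lit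 78) (nat_lit 1216) (nat_lit 0) (XT.lf (nat_lit 0) (nat_lit 680146176) (nat_lit 760) (nat_lit 6379445756) (nat_lit 76) (nat_lit 707635147) (nat_lit 181) (nat_lit 5) (nat_lit 191) (nat_lit 5) (nat_lit 182) (nat_lit 5) (nat_lit 278) (nat_lit 260) (nat_lit 242)) (XT.nd (nat_lit 78) (nat_lit 608) (nat_lit 0) (XT.lf (nat_lit 0) (nat_lit 1262025801) (nat_lit 608) (nat_lit 3291066897) (nat_lit 684) (nat_lit 3369283400) (nat_lit 173) (nat_lit 5) (nat_lit 181) (nat_lit 5) (nat_lit 182) (nat_lit 5) (nat_lit 279) (nat_lit 260) (nat_lit 241)) (XT.lf (nat_lit 0) (nat_lit 441907647) (nat_lit 608) (nat_lit 6913475400) (nat_lit 76) (nat_lit 732411107) (nat_lit 165) (nat_lit 5) (nat_lit 173) (nat_lit 5) (nat_lit 166) (nat_lit 5) (nat_lit 280) (nat_lit 260) (nat_lit 240)))) (XT.nd (nat_lit 156) (nat_lit 1064) (nat_lit 0) (XT.nd (nat_lit 78) (nat_lit 456) (nat_lit 0) (XT.lf (nat_lit 0) (nat_lit 1062119718) (nat_lit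 532) (nat_lit 3264540767) (nat_lit 608) (nat_lit 3935435280) (nat_lit 158) (nat_lit 5) (nat_lit 165) (nat_lit 5) (nat_lit 166) (nat_lit 5) (nat_lit 281) (nat_lit 260) (nat_lit 239)) (XT.lf (nat_lit 0) (nat_lit 975426433) (nat_lit 456) (nat_lit 7366689131) (nat_lit 532) (nat_lit 105087673) (nat_lit 152) (nat_lit 5) (nat_lit 158) (nat_lit 5) (nat_lit 159) (nat_lit 5) (nat_lit 282) (nat_lit 260) (nat_lit 238))) (XT.nd (nat_lit 78) (nat_lit 456) (nat_lit 0) (XT.lf (nat_lit 0) (nat_lit 846653287) (nat_lit 532) (nat_lit 2959062427) (nat_lit 608) (nat_lit 4835930589) (nat_lit 144) (nat_lit 5) (nat_lit 151) (nat_lit 5) (nat_lit 152) (nat_lit 5) (nat_lit 283) (nat_lit 260) (nat_lit 237)) (XT.lf (nat_lit 0) (nat_lit 721122899) (nat_lit 456) (nat_lit 7144267246) (nat_lit 532) (nat_lit 981887700) (nat_lit 138) (nat_lit 5) (nat_lit 144) (nat_lit 5) (nat_lit 145) (nat_lit 5) (nat_lit 284) (nat_lit 260)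 (nat_lit 236))))))))
noncomputable def xc50 : XT := (XT.nd (nat_lit 2106) (nat_lit 2204) (nat_lit 0) (XT.nd (nat_lit 1014) (nat_lit 2660) (nat_lit 0) (XT.nd (nat_lit 468) (nat_lit 2356) (nat_lit 0) (XT.nd (nat_lit 234) (nat_lit 836) (nat_lit 0) (XT.nd (nat_lit 78) (nat_lit 912) (nat_lit 0) (XT.lf (nat_lit 0) (nat_lit 548891781) (nat_lit 456) (nat_lit 2430972392) (nat_lit 532) (nat_lit 6083348962) (nat_lit 131) (nat_lit 5) (nat_lit 137) (nat_lit 5) (nat_lit 138) (nat_lit 5) (nat_lit 285) (nat_lit 260) (nat_lit 235)) (XT.nd (nat_lit 78) (nat_lit 532) (nat_lit 0) (XT.lf (nat_lit 0) (nat_lit 345825436) (nat_lit 380) (nat_lit 6749327083) (nat_lit 456) (nat_lit 2195371593) (nat_lit 126) (nat_lit 5) (nat_lit 131) (nat_lit 5) (nat_lit 132) (nat_lit 5) (nat_lit 286) (nat_lit 260) (nat_lit 234)) (XT.lf (nat_lit 0) (nat_lit 94568764) (nat_lit 456) (nat_lit 1736643920) (nat_lit 532) (nat_lit 7698145321)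 (nat_lit 119) (nat_lit 5) (nat_lit 125) (nat_lit 5) (nat_lit 126) (nat_lit 5) (nat_lit 287) (nat_lit 260) (nat_lit 233)))) (XT.nd (nat_lit 78) (nat_lit 836) (nat_lit 0) (XT.lf (nat_lit 0) (nat_lit 6012602114) (nat_lit 532) (nat_lit 224657400) (nat_lit 76) (nat_lit 3542381745) (nat_lit 119) (nat_lit 5) (nat_lit 126) (nat_lit 5) (nat_lit 120) (nat_lit 5) (nat_lit 288) (nat_lit 260) (nat_lit 232)) (XT.nd (nat_lit 78) (nat_lit 380) (nat_lit 0) (XT.lf (nat_lit 0) (nat_lit 339455435) (nat_lit 456) (nat_lit 588565367) (nat_lit 76) (nat_lit 9114854411) (nat_lit 113) (nat_lit 5) (nat_lit 119) (nat_lit 5) (nat_lit 114) (nat_lit 5) (nat_lit 289) (nat_lit 260) (nat_lit 231)) (XT.lf (nat_lit 0) (nat_lit 4592154952) (nat_lit 456) (nat_lit 1071985496) (nat_lit 76) (nat_lit 4653558926) (nat_lit 108) (nat_lit 5) (nat_lit 114) (nat_lit 5) (nat_lit 109) (nat_lit 5) (nat_lit 290) (nat_lit 260) (nat_lit 230)))))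 (XT.nd (nat_lit 234) (nat_lit 1292) (nat_lit 0) (XT.nd (nat_lit 78) (nat_lit 760) (nat_lit 0) (XT.lf (nat_lit 0) (nat_lit 8991822430) (nat_lit 304) (nat_lit 52285338) (nat_lit 380) (nat_lit 1562664217) (nat_lit 104) (nat_lit 5) (nat_lit 108) (nat_lit 5) (nat_lit 109) (nat_lit 5) (nat_lit 291) (nat_lit 260) (nat_lit 229)) (XT.nd (nat_lit 78) (nat_lit 304) (nat_lit 0) (XT.lf (nat_lit 0) (nat_lit 2792525117) (nat_lit 456) (nat_lit 2304019238) (nat_lit 76) (nat_lit 5811872834) (nat_lit 98) (nat_lit 5) (nat_lit 104) (nat_lit 5) (nat_lit 99) (nat_lit 5) (nat_lit 292) (nat_lit 260) (nat_lit 228)) (XT.lf (nat_lit 0) (nat_lit 7328010637) (nat_lit 380) (nat_lit 3095677534) (nat_lit 76) (nat_lit 801239836) (nat_lit 94) (nat_lit 5) (nat_lit 99) (nat_lit 5) (nat_lit 95) (nat_lit 5) (nat_lit 293) (nat_lit 260) (nat_lit 227)))) (XT.nd (nat_lit 156) (nat_lit 608) (nat_lit 0) (XT.nd (nat_lit 78) (nat_lit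 304) (nat_lit 0) (XT.lf (nat_lit 0) (nat_lit 565226198) (nat_lit 380) (nat_lit 4038104889) (nat_lit 76) (nat_lit 6952587085) (nat_lit 89) (nat_lit 5) (nat_lit 94) (nat_lit 5) (nat_lit 90) (nat_lit 5) (nat_lit 294) (nat_lit 260) (nat_lit 226)) (XT.lf (nat_lit 0) (nat_lit 5180474756) (nat_lit 380) (nat_lit 5146612950) (nat_lit 76) (nat_lit 1574976916) (nat_lit 85) (nat_lit 5) (nat_lit 90) (nat_lit 5) (nat_lit 86) (nat_lit 5) (nat_lit 295) (nat_lit 260) (nat_lit 225))) (XT.nd (nat_lit 78) (nat_lit 304) (nat_lit 0) (XT.lf (nat_lit 0) (nat_lit 5831938987) (nat_lit 304) (nat_lit 4239318603) (nat_lit 380) (nat_lit 2192995782) (nat_lit 81) (nat_lit 5) (nat_lit 85) (nat_lit 5) (nat_lit 86) (nat_lit 5) (nat_lit 296) (nat_lit 260) (nat_lit 224)) (XT.lf (nat_lit 0) (nat_lit 2535339296) (nat_lit 304) (nat_lit 7915460902) (nat_lit 76) (nat_lit 2192385605) (nat_lit 77) (nat_lit 5) (nat_lit 81) (nat_lit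 5) (nat_lit 78) (nat_lit 5) (nat_lit 297) (nat_lit 260) (nat_lit 223)))))) (XT.nd (nat_lit 546) (nat_lit 1140) (nat_lit 0) (XT.nd (nat_lit 234) (nat_lit 684) (nat_lit 0) (XT.nd (nat_lit 78) (nat_lit 532) (nat_lit 0) (XT.lf (nat_lit 0) (nat_lit 3401821192) (nat_lit 304) (nat_lit 4101239247) (nat_lit 380) (nat_lit 5535972122) (nat_lit 73) (nat_lit 5) (nat_lit 77) (nat_lit 5) (nat_lit 78) (nat_lit 5) (nat_lit 298) (nat_lit 260) (nat_lit 222)) (XT.nd (nat_lit 78) (nat_lit 304) (nat_lit 0) (XT.lf (nat_lit 0) (nat_lit 1870740544) (nat_lit 228) (nat_lit 10881665337) (nat_lit 304) (nat_lit 701334157) (nat_lit 70) (nat_lit 5) (nat_lit 73) (nat_lit 5) (nat_lit 74) (nat_lit 5) (nat_lit 299) (nat_lit 260) (nat_lit 221)) (XT.lf (nat_lit 0) (nat_lit 49487633) (nat_lit 228) (nat_lit 4292672017) (nat_lit 304) (nat_lit 9544247264) (nat_lit 66) (nat_lit 5) (nat_lit 69) (nat_lit 5) (nat_lit 70) (nat_lit 5)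 (nat_lit 300) (nat_lit 260) (nat_lit 220)))) (XT.nd (nat_lit 156) (nat_lit 380) (nat_lit 0) (XT.nd (nat_lit 78) (nat_lit 304) (nat_lit 0) (XT.lf (nat_lit 0) (nat_lit 9682104901) (nat_lit 304) (nat_lit 1999604971) (nat_lit 76) (nat_lit 2657083207) (nat_lit 66) (nat_lit 5) (nat_lit 70) (nat_lit 5) (nat_lit 67) (nat_lit 5) (nat_lit 301) (nat_lit 260) (nat_lit 219)) (XT.lf (nat_lit 0) (nat_lit 527553474) (nat_lit 304) (nat_lit 4355005856) (nat_lit 76) (nat_lit 9929308175) (nat_lit 62) (nat_lit 5) (nat_lit 66) (nat_lit 5) (nat_lit 63) (nat_lit 5) (nat_lit 302) (nat_lit 260) (nat_lit 218))) (XT.nd (nat_lit 78) (nat_lit 152) (nat_lit 0) (XT.lf (nat_lit 0) (nat_lit 5917511044) (nat_lit 304) (nat_lit 7071683273) (nat_lit 76) (nat_lit 2316784639) (nat_lit 59) (nat_lit 5) (nat_lit 63) (nat_lit 5) (nat_lit 60) (nat_lit 5) (nat_lit 303) (nat_lit 260) (nat_lit 217)) (XT.lf (nat_lit 0) (nat_lit 5656721629)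 (nat_lit 152) (nat_lit 5990464153) (nat_lit 228) (nat_lit 4175552014) (nat_lit 57) (nat_lit 5) (nat_lit 59) (nat_lit 5) (nat_lit 60) (nat_lit 5) (nat_lit 304) (nat_lit 260) (nat_lit 216))))) (XT.nd (nat_lit 234) (nat_lit 684) (nat_lit 0) (XT.nd (nat_lit 78) (nat_lit 152) (nat_lit 0) (XT.lf (nat_lit 0) (nat_lit 1309180788) (nat_lit 304) (nat_lit 13654487855) (nat_lit 76) (nat_lit 1400241367) (nat_lit 53) (nat_lit 5) (nat_lit 57) (nat_lit 5) (nat_lit 54) (nat_lit 5) (nat_lit 305) (nat_lit 260) (nat_lit 215)) (XT.nd (nat_lit 78) (nat_lit 152) (nat_lit 0) (XT.lf (nat_lit 0) (nat_lit 7073909420) (nat_lit 304) (nat_lit 712465983) (nat_lit 76) (nat_lit 9141804308) (nat_lit 53) (nat_lit 5) (nat_lit 57) (nat_lit 5) (nat_lit 54) (nat_lit 5) (nat_lit 306) (nat_lit 260) (nat_lit 214)) (XT.lf (nat_lit 0) (nat_lit 13015500390) (nat_lit 152) (nat_lit 165214414) (nat_lit 228) (nat_lit 4338373472) (nat_lit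 51) (nat_lit 5) (nat_lit 53) (nat_lit 5) (nat_lit 54) (nat_lit 5) (nat_lit 307) (nat_lit 260) (nat_lit 213)))) (XT.nd (nat_lit 156) (nat_lit 228) (nat_lit 0) (XT.nd (nat_lit 78) (nat_lit 152) (nat_lit 0) (XT.lf (nat_lit 0) (nat_lit 1528690530) (nat_lit 304) (nat_lit 8853555425) (nat_lit 76) (nat_lit 7753802782) (nat_lit 47) (nat_lit 5) (nat_lit 51) (nat_lit 5) (nat_lit 48) (nat_lit 5) (nat_lit 308) (nat_lit 260) (nat_lit 212)) (XT.lf (nat_lit 0) (nat_lit 5009704634) (nat_lit 152) (nat_lit 2619332798) (nat_lit 228) (nat_lit 11152677291) (nat_lit 45) (nat_lit 5) (nat_lit 47) (nat_lit 5) (nat_lit 48) (nat_lit 5) (nat_lit 309) (nat_lit 260) (nat_lit 211))) (XT.nd (nat_lit 78) (nat_lit 76) (nat_lit 0) (XT.lf (nat_lit 0) (nat_lit 132670776) (nat_lit 152) (nat_lit 13982174387) (nat_lit 228) (nat_lit 5342439581) (nat_lit 43) (nat_lit 5) (nat_lit 45) (nat_lit 5) (nat_lit 46) (nat_lit 5) (nat_lit 310)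 (nat_lit 260) (nat_lit 210)) (XT.lf (nat_lit 0) (nat_lit 848529318) (nat_lit 228) (nat_lit 5285345483) (nat_lit 76) (nat_lit 14029420761) (nat_lit 42) (nat_lit 5) (nat_lit 45) (nat_lit 5) (nat_lit 43) (nat_lit 5) (nat_lit 311) (nat_lit 260) (nat_lit 209))))))) (XT.nd (nat_lit 1092) (nat_lit 836) (nat_lit 0) (XT.nd (nat_lit 546) (nat_lit 532) (nat_lit 0) (XT.nd (nat_lit 234) (nat_lit 532) (nat_lit 0) (XT.nd (nat_lit 78) (nat_lit 152) (nat_lit 0) (XT.lf (nat_lit 0) (nat_lit 7290519740) (nat_lit 228) (nat_lit 11439450841) (nat_lit 76) (nat_lit 2171520566) (nat_lit 40) (nat_lit 5) (nat_lit 43) (nat_lit 5) (nat_lit 41) (nat_lit 5) (nat_lit 312) (nat_lit 260) (nat_lit 208)) (XT.nd (nat_lit 78) (nat_lit 0) (nat_lit 0) (XT.lf (nat_lit 0) (nat_lit 3282347448) (nat_lit 152) (nat_lit 10860729567) (nat_lit 228) (nat_lit 7530894024) (nat_lit 38) (nat_lit 5) (nat_lit 40) (nat_lit 5) (nat_lit 41) (nat_lit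 5) (nat_lit 313) (nat_lit 260) (nat_lit 207)) (XT.lf (nat_lit 0) (nat_lit 18880664063) (nat_lit 152) (nat_lit 2517321558) (nat_lit 228) (nat_lit 1085324791) (nat_lit 38) (nat_lit 5) (nat_lit 40) (nat_lit 5) (nat_lit 41) (nat_lit 5) (nat_lit 314) (nat_lit 260) (nat_lit 206)))) (XT.nd (nat_lit 156) (nat_lit 152) (nat_lit 0) (XT.nd (nat_lit 78) (nat_lit 152) (nat_lit 0) (XT.lf (nat_lit 0) (nat_lit 5692564617) (nat_lit 228) (nat_lit 11380575401) (nat_lit 76) (nat_lit 6254735315) (nat_lit 35) (nat_lit 5) (nat_lit 38) (nat_lit 5) (nat_lit 36) (nat_lit 5) (nat_lit 315) (nat_lit 260) (nat_lit 205)) (XT.lf (nat_lit 0) (nat_lit 4085856459) (nat_lit 152) (nat_lit 8748950666) (nat_lit 228) (nat_lit 11378125800) (nat_lit 33) (nat_lit 5) (nat_lit 35) (nat_lit 5) (nat_lit 36) (nat_lit 5) (nat_lit 316) (nat_lit 260) (nat_lit 204))) (XT.nd (nat_lit 78) (nat_lit 152) (nat_lit 0) (XT.lf (nat_lit 0) (nat_lit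 20399302699) (nat_lit 228) (nat_lit 4668545829) (nat_lit 76) (nat_lit 72463444) (nat_lit 33) (nat_lit 5) (nat_lit 36) (nat_lit 5) (nat_lit 34) (nat_lit 4) (nat_lit 317) (nat_lit 260) (nat_lit 203)) (XT.lf (nat_lit 0) (nat_lit 2335324339) (nat_lit 152) (nat_lit 14519050166) (nat_lit 76) (nat_lit 9254538949) (nat_lit 31) (nat_lit 5) (nat_lit 33) (nat_lit 5) (nat_lit 32) (nat_lit 5) (nat_lit 318) (nat_lit 260) (nat_lit 202))))) (XT.nd (nat_lit 234) (nat_lit 304) (nat_lit 0) (XT.nd (nat_lit 78) (nat_lit 76) (nat_lit 0) (XT.lf (nat_lit 0) (nat_lit 1529497185) (nat_lit 152) (nat_lit 8152595656) (nat_lit 228) (nat_lit 17442023943) (nat_lit 29) (nat_lit 5) (nat_lit 31) (nat_lit 5) (nat_lit 32) (nat_lit 5) (nat_lit 319) (nat_lit 260) (nat_lit 201)) (XT.nd (nat_lit 78) (nat_lit 76) (nat_lit 0) (XT.lf (nat_lit 0) (nat_lit 17508328892) (nat_lit 228) (nat_lit 9597568946) (nat_lit 76) (nat_lit 1080837695)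 (nat_lit 29) (nat_lit 5) (nat_lit 32) (nat_lit 5) (nat_lit 30) (nat_lit 4) (nat_lit 320) (nat_lit 260) (nat_lit 200)) (XT.lf (nat_lit 0) (nat_lit 7176216613) (nat_lit 76) (nat_lit 18654954224) (nat_lit 152) (nat_lit 3468173772) (nat_lit 28) (nat_lit 5) (nat_lit 29) (nat_lit 5) (nat_lit 30) (nat_lit 4) (nat_lit 321) (nat_lit 260) (nat_lit 199)))) (XT.nd (nat_lit 156) (nat_lit 76) (nat_lit 0) (XT.nd (nat_lit 78) (nat_lit 152) (nat_lit 0) (XT.lf (nat_lit 0) (nat_lit 4077293505) (nat_lit 152) (nat_lit 5595242132) (nat_lit 76) (nat_lit 20792238891) (nat_lit 27) (nat_lit 5) (nat_lit 29) (nat_lit 5) (nat_lit 28) (nat_lit 5) (nat_lit 322) (nat_lit 260) (nat_lit 198)) (XT.lf (nat_lit 0) (nat_lit 11880182109) (nat_lit 152) (nat_lit 120135978) (nat_lit 228) (nat_lit 19684983411) (nat_lit 25) (nat_lit 5) (nat_lit 27) (nat_lit 5) (nat_lit 28) (nat_lit 5) (nat_lit 323) (nat_lit 260) (nat_lit 197))) (XT.nd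 (nat_lit 78) (nat_lit 76) (nat_lit 0) (XT.lf (nat_lit 0) (nat_lit 20431093544) (nat_lit 228) (nat_lit 2789115500) (nat_lit 76) (nat_lit 9743313059) (nat_lit 25) (nat_lit 5) (nat_lit 28) (nat_lit 5) (nat_lit 26) (nat_lit 4) (nat_lit 324) (nat_lit 260) (nat_lit 196)) (XT.lf (nat_lit 0) (nat_lit 15304201693) (nat_lit 76) (nat_lit 14087695252) (nat_lit 152) (nat_lit 4910516668) (nat_lit 24) (nat_lit 5) (nat_lit 25) (nat_lit 5) (nat_lit 26) (nat_lit 4) (nat_lit 325) (nat_lit 260) (nat_lit 195)))))) (XT.nd (nat_lit 546) (nat_lit 304) (nat_lit 0) (XT.nd (nat_lit 234) (nat_lit 304) (nat_lit 0) (XT.nd (nat_lit 78) (nat_lit 152) (nat_lit 0) (XT.lf (nat_lit 0) (nat_lit 3022143270) (nat_lit 152) (nat_lit 1446601744) (nat_lit 76) (nat_lit 31238926384) (nat_lit 23) (nat_lit 5) (nat_lit 25) (nat_lit 5) (nat_lit 24) (nat_lit 5) (nat_lit 326) (nat_lit 260) (nat_lit 194)) (XT.nd (nat_lit 78) (nat_lit 0) (nat_lit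 0) (XT.lf (nat_lit 0) (nat_lit 11435019361) (nat_lit 228) (nat_lit 20031496472) (nat_lit 76) (nat_lit 5709676278) (nat_lit 21) (nat_lit 5) (nat_lit 24) (nat_lit 5) (nat_lit 22) (nat_lit 4) (nat_lit 327) (nat_lit 260) (nat_lit 193)) (XT.lf (nat_lit 0) (nat_lit 20292417154) (nat_lit 228) (nat_lit 2132426012) (nat_lit 76) (nat_lit 16292591556) (nat_lit 21) (nat_lit 5) (nat_lit 24) (nat_lit 5) (nat_lit 22) (nat_lit 4) (nat_lit 328) (nat_lit 260) (nat_lit 192)))) (XT.nd (nat_lit 156) (nat_lit 228) (nat_lit 0) (XT.nd (nat_lit 78) (nat_lit 0) (nat_lit 0) (XT.lf (nat_lit 0) (nat_lit 16929797444) (nat_lit 76) (nat_lit 12791088718) (nat_lit 152) (nat_lit 10611018884) (nat_lit 20) (nat_lit 5) (nat_lit 21) (nat_lit 5) (nat_lit 22) (nat_lit 4) (nat_lit 329) (nat_lit 260) (nat_lit 191)) (XT.lf (nat_lit 0) (nat_lit 36929313510) (nat_lit 76) (nat_lit 2679942579) (nat_lit 152) (nat_lit 2418199539) (nat_lit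 20) (nat_lit 5) (nat_lit 21) (nat_lit 5) (nat_lit 22) (nat_lit 4) (nat_lit 330) (nat_lit 260) (nat_lit 190))) (XT.nd (nat_lit 78) (nat_lit 0) (nat_lit 0) (XT.lf (nat_lit 0) (nat_lit 6246657462) (nat_lit 228) (nat_lit 29598735240) (nat_lit 76) (nat_lit 7955125647) (nat_lit 17) (nat_lit 5) (nat_lit 20) (nat_lit 5) (nat_lit 18) (nat_lit 4) (nat_lit 331) (nat_lit 260) (nat_lit 189)) (XT.lf (nat_lit 0) (nat_lit 15343801650) (nat_lit 228) (nat_lit 11196587585) (nat_lit 76) (nat_lit 19119664747) (nat_lit 17) (nat_lit 5) (nat_lit 20) (nat_lit 5) (nat_lit 18) (nat_lit 4) (nat_lit 332) (nat_lit 260) (nat_lit 188))))) (XT.nd (nat_lit 234) (nat_lit 228) (nat_lit 0) (XT.nd (nat_lit 78) (nat_lit 0) (nat_lit 0) (XT.lf (nat_lit 0) (nat_lit 8231831385) (nat_lit 76) (nat_lit 16713140787) (nat_lit 152) (nat_lit 22666128434) (nat_lit 16) (nat_lit 5) (nat_lit 17) (nat_lit 5) (nat_lit 18) (nat_lit 4) (nat_lit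 333) (nat_lit 260) (nat_lit 187)) (XT.nd (nat_lit 78) (nat_lit 0) (nat_lit 0) (XT.lf (nat_lit 0) (nat_lit 28812739643) (nat_lit 76) (nat_lit 6299678393) (nat_lit 152) (nat_lit 14544703859) (nat_lit 16) (nat_lit 5) (nat_lit 17) (nat_lit 5) (nat_lit 18) (nat_lit 4) (nat_lit 334) (nat_lit 260) (nat_lit 186)) (XT.lf (nat_lit 0) (nat_lit 45804907734) (nat_lit 152) (nat_lit 1478307894) (nat_lit 0) (nat_lit 4521736892) (nat_lit 16) (nat_lit 5) (nat_lit 18) (nat_lit 4) (nat_lit 16) (nat_lit 4) (nat_lit 335) (nat_lit 260) (nat_lit 185)))) (XT.nd (nat_lit 156) (nat_lit 76) (nat_lit 0) (XT.nd (nat_lit 78) (nat_lit 0) (nat_lit 0) (XT.lf (nat_lit 0) (nat_lit 3136831839) (nat_lit 152) (nat_lit 34967364293) (nat_lit 76) (nat_lit 15948440033) (nat_lit 14) (nat_lit 5) (nat_lit 16) (nat_lit 5) (nat_lit 15) (nat_lit 4) (nat_lit 336) (nat_lit 260) (nat_lit 184)) (XT.lf (nat_lit 0) (nat_lit 12596982427) (nat_lit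 152) (nat_lit 15812746301) (nat_lit 76) (nat_lit 28001484877) (nat_lit 14) (nat_lit 5) (nat_lit 16) (nat_lit 5) (nat_lit 15) (nat_lit 4) (nat_lit 337) (nat_lit 260) (nat_lit 183))) (XT.nd (nat_lit 78) (nat_lit 0) (nat_lit 0) (XT.lf (nat_lit 0) (nat_lit 4338829560) (nat_lit 76) (nat_lit 18208254839) (nat_lit 152) (nat_lit 36340134262) (nat_lit 13) (nat_lit 5) (nat_lit 14) (nat_lit 5) (nat_lit 15) (nat_lit 4) (nat_lit 338) (nat_lit 260) (nat_lit 182)) (XT.lf (nat_lit 0) (nat_lit 25784287390) (nat_lit 76) (nat_lit 7349173676) (nat_lit 152) (nat_lit 28349406542) (nat_lit 13) (nat_lit 5) (nat_lit 14) (nat_lit 5) (nat_lit 15) (nat_lit 4) (nat_lit 339) (nat_lit 260) (nat_lit 181))))))))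
noncomputable def xc51 : XT := (XT.nd (nat_lit 34788) (nat_lit 0) (nat_lit 6992) (XT.nd (nat_lit 1092) (nat_lit 76) (nat_lit 0) (XT.nd (nat_lit 546) (nat_lit 228) (nat_lit 0) (XT.nd (nat_lit 234) (nat_lit 152) (nat_lit 0) (XT.nd (nat_lit 78) (nat_lit 76) (nat_lit 0) (XT.lf (nat_lit 0) (nat_lit 44265065475) (nat_lit 152) (nat_lit 15987782541) (nat_lit 0) (nat_lit 3954980123) (nat_lit 13) (nat_lit 5) (nat_lit 15) (nat_lit 4) (nat_lit 13) (nat_lit 4) (nat_lit 340) (nat_lit 260) (nat_lit 180)) (XT.nd (nat_lit 78) (nat_lit 0) (nat_lit 0) (XT.lf (nat_lit 0) (nat_lit 4685287664) (nat_lit 76) (nat_lit 51365225210) (nat_lit 76) (nat_lit 11015612039) (nat_lit 12) (nat_lit 4) (nat_lit 13) (nat_lit 5) (nat_lit 13) (nat_lit 4) (nat_lit 341) (nat_lit 260) (nat_lit 179)) (XT.lf (nat_lit 0) (nat_lit 26686753225) (nat_lit 76) (nat_lit 41881774485) (nat_lit 76) (nat_lit 1494515771) (nat_lit 12) (nat_lit 4)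 (nat_lit 13) (nat_lit 5) (nat_lit 13) (nat_lit 4) (nat_lit 342) (nat_lit 260) (nat_lit 178)))) (XT.nd (nat_lit 156) (nat_lit 76) (nat_lit 0) (XT.nd (nat_lit 78) (nat_lit 0) (nat_lit 0) (XT.lf (nat_lit 0) (nat_lit 8316240664) (nat_lit 152) (nat_lit 23541143062) (nat_lit 76) (nat_lit 41350591975) (nat_lit 11) (nat_lit 5) (nat_lit 13) (nat_lit 5) (nat_lit 12) (nat_lit 4) (nat_lit 343) (nat_lit 260) (nat_lit 177)) (XT.lf (nat_lit 0) (nat_lit 18567410885) (nat_lit 152) (nat_lit 2765413130) (nat_lit 76) (nat_lit 55177468172) (nat_lit 11) (nat_lit 5) (nat_lit 13) (nat_lit 5) (nat_lit 12) (nat_lit 4) (nat_lit 344) (nat_lit 260) (nat_lit 176))) (XT.nd (nat_lit 78) (nat_lit 0) (nat_lit 0) (XT.lf (nat_lit 0) (nat_lit 19393162209) (nat_lit 76) (nat_lit 10105822554) (nat_lit 152) (nat_lit 50473709251) (nat_lit 10) (nat_lit 5) (nat_lit 11) (nat_lit 5) (nat_lit 12) (nat_lit 4) (nat_lit 345) (nat_lit 260)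 (nat_lit 175)) (XT.lf (nat_lit 0) (nat_lit 41003902121) (nat_lit 152) (nat_lit 40940145371) (nat_lit 0) (nat_lit 1663370137) (nat_lit 10) (nat_lit 5) (nat_lit 12) (nat_lit 4) (nat_lit 10) (nat_lit 4) (nat_lit 346) (nat_lit 260) (nat_lit 174))))) (XT.nd (nat_lit 234) (nat_lit 152) (nat_lit 0) (XT.nd (nat_lit 78) (nat_lit 76) (nat_lit 0) (XT.lf (nat_lit 0) (nat_lit 53168772473) (nat_lit 152) (nat_lit 20452964820) (nat_lit 0) (nat_lit 13799603336) (nat_lit 10) (nat_lit 5) (nat_lit 12) (nat_lit 4) (nat_lit 10) (nat_lit 4) (nat_lit 347) (nat_lit 260) (nat_lit 173)) (XT.nd (nat_lit 78) (nat_lit 0) (nat_lit 0) (XT.lf (nat_lit 0) (nat_lit 1048390061) (nat_lit 76) (nat_lit 64887104154) (nat_lit 76) (nat_lit 25490661538) (nat_lit 9) (nat_lit 4) (nat_lit 10) (nat_lit 5) (nat_lit 10) (nat_lit 4) (nat_lit 348) (nat_lit 260) (nat_lit 172)) (XT.lf (nat_lit 0) (nat_lit 24022455296) (nat_lit 76) (nat_lit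 55512670248) (nat_lit 76) (nat_lit 16090252890) (nat_lit 9) (nat_lit 4) (nat_lit 10) (nat_lit 5) (nat_lit 10) (nat_lit 4) (nat_lit 349) (nat_lit 260) (nat_lit 171)))) (XT.nd (nat_lit 156) (nat_lit 76) (nat_lit 0) (XT.nd (nat_lit 78) (nat_lit 76) (nat_lit 0) (XT.lf (nat_lit 0) (nat_lit 48116876937) (nat_lit 76) (nat_lit 45682650336) (nat_lit 76) (nat_lit 6235495129) (nat_lit 9) (nat_lit 4) (nat_lit 10) (nat_lit 5) (nat_lit 10) (nat_lit 4) (nat_lit 350) (nat_lit 260) (nat_lit 170)) (XT.lf (nat_lit 0) (nat_lit 4017126754) (nat_lit 152) (nat_lit 31315947751) (nat_lit 76) (nat_lit 69331330795) (nat_lit 8) (nat_lit 5) (nat_lit 10) (nat_lit 5) (nat_lit 9) (nat_lit 4) (nat_lit 351) (nat_lit 260) (nat_lit 169))) (XT.nd (nat_lit 78) (nat_lit 76) (nat_lit 0) (XT.lf (nat_lit 0) (nat_lit 14640681939) (nat_lit 152) (nat_lit 9772568683) (nat_lit 76) (nat_lit 85110540101) (nat_lit 8) (nat_lit 5) (nat_lit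 10) (nat_lit 5) (nat_lit 9) (nat_lit 4) (nat_lit 352) (nat_lit 260) (nat_lit 168)) (XT.lf (nat_lit 0) (nat_lit 13078432209) (nat_lit 76) (nat_lit 12829427256) (nat_lit 152) (nat_lit 88714915817) (nat_lit 7) (nat_lit 5) (nat_lit 8) (nat_lit 5) (nat_lit 9) (nat_lit 4) (nat_lit 353) (nat_lit 260) (nat_lit 167)))))) (XT.nd (nat_lit 546) (nat_lit 0) (nat_lit 0) (XT.nd (nat_lit 234) (nat_lit 76) (nat_lit 0) (XT.nd (nat_lit 78) (nat_lit 0) (nat_lit 0) (XT.lf (nat_lit 0) (nat_lit 37252156224) (nat_lit 76) (nat_lit 573967233) (nat_lit 152) (nat_lit 82147956831) (nat_lit 7) (nat_lit 5) (nat_lit 8) (nat_lit 5) (nat_lit 9) (nat_lit 4) (nat_lit 354) (nat_lit 260) (nat_lit 166)) (XT.nd (nat_lit 78) (nat_lit 0) (nat_lit 0) (XT.lf (nat_lit 0) (nat_lit 50446118961) (nat_lit 152) (nat_lit 63099732386) (nat_lit 0) (nat_lit 12043927554) (nat_lit 7) (nat_lit 5) (nat_lit 9) (nat_lit 4) (nat_lit 7) (nat_lit 4)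 (nat_lit 355) (nat_lit 260) (nat_lit 165)) (XT.lf (nat_lit 0) (nat_lit 63691134387) (nat_lit 152) (nat_lit 42524289337) (nat_lit 0) (nat_lit 25271020880) (nat_lit 7) (nat_lit 5) (nat_lit 9) (nat_lit 4) (nat_lit 7) (nat_lit 4) (nat_lit 356) (nat_lit 260) (nat_lit 164)))) (XT.nd (nat_lit 156) (nat_lit 0) (nat_lit 0) (XT.nd (nat_lit 78) (nat_lit 76) (nat_lit 0) (XT.lf (nat_lit 0) (nat_lit 77587188165) (nat_lit 152) (nat_lit 20941088444) (nat_lit 0) (nat_lit 39150005990) (nat_lit 7) (nat_lit 5) (nat_lit 9) (nat_lit 4) (nat_lit 7) (nat_lit 4) (nat_lit 357) (nat_lit 260) (nat_lit 163)) (XT.lf (nat_lit 0) (nat_lit 1735117252) (nat_lit 76) (nat_lit 90448927892) (nat_lit 76) (nat_lit 51995489843) (nat_lit 6) (nat_lit 4) (nat_lit 7) (nat_lit 5) (nat_lit 7) (nat_lit 4) (nat_lit 358) (nat_lit 260) (nat_lit 162))) (XT.nd (nat_lit 78) (nat_lit 0) (nat_lit 0) (XT.lf (nat_lit 0) (nat_lit 25963300451) (nat_lit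 76) (nat_lit 81752657685) (nat_lit 76) (nat_lit 43283737852) (nat_lit 6) (nat_lit 4) (nat_lit 7) (nat_lit 5) (nat_lit 7) (nat_lit 4) (nat_lit 359) (nat_lit 260) (nat_lit 161)) (XT.lf (nat_lit 0) (nat_lit 51384378580) (nat_lit 76) (nat_lit 72630224517) (nat_lit 76) (nat_lit 34146560127) (nat_lit 6) (nat_lit 4) (nat_lit 7) (nat_lit 5) (nat_lit 7) (nat_lit 4) (nat_lit 360) (nat_lit 260) (nat_lit 160))))) (XT.nd (nat_lit 32838) (nat_lit 0) (nat_lit 23180) (XT.nd (nat_lit 78) (nat_lit 0) (nat_lit 0) (XT.lf (nat_lit 0) (nat_lit 78058878017) (nat_lit 76) (nat_lit 63059908309) (nat_lit 76) (nat_lit 24562201483) (nat_lit 6) (nat_lit 4) (nat_lit 7) (nat_lit 5) (nat_lit 7) (nat_lit 4) (nat_lit 361) (nat_lit 260) (nat_lit 159)) (XT.nd (nat_lit 78) (nat_lit 0) (nat_lit 0) (XT.lf (nat_lit 0) (nat_lit 106050309474) (nat_lit 76) (nat_lit 53018922593) (nat_lit 76) (nat_lit 14507842019) (nat_lit 6) (nat_lit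 4) (nat_lit 7) (nat_lit 5) (nat_lit 7) (nat_lit 4) (nat_lit 362) (nat_lit 260) (nat_lit 158)) (XT.lf (nat_lit 0) (nat_lit 135425319216) (nat_lit 76) (nat_lit 42483360260) (nat_lit 76) (nat_lit 3959542784) (nat_lit 6) (nat_lit 4) (nat_lit 7) (nat_lit 5) (nat_lit 7) (nat_lit 4) (nat_lit 363) (nat_lit 260) (nat_lit 157)))) (XT.nd (nat_lit 156) (nat_lit 304) (nat_lit 0) (XT.nd (nat_lit 78) (nat_lit 228) (nat_lit 0) (XT.lf (nat_lit 0) (nat_lit 1547402351) (nat_lit 228) (nat_lit 839758083) (nat_lit 228) (nat_lit 839758083) (nat_lit 318) (nat_lit 3) (nat_lit 321) (nat_lit 3) (nat_lit 321) (nat_lit 5) (nat_lit 261) (nat_lit 261) (nat_lit 258)) (XT.lf (nat_lit 0) (nat_lit 1192037047) (nat_lit 228) (nat_lit 3125169741) (nat_lit 304) (nat_lit 2152600179) (nat_lit 315) (nat_lit 5) (nat_lit 318) (nat_lit 3) (nat_lit 319) (nat_lit 5) (nat_lit 262) (nat_lit 261) (nat_lit 257))) (XT.nd (nat_lit 78) (nat_lit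 304) (nat_lit 0) (XT.lf (nat_lit 76) (nat_lit 2016924435) (nat_lit 0) (nat_lit 3629979555) (nat_lit 304) (nat_lit 846899690) (nat_lit 316) (nat_lit 5) (nat_lit 315) (nat_lit 5) (nat_lit 319) (nat_lit 5) (nat_lit 263) (nat_lit 261) (nat_lit 256)) (XT.lf (nat_lit 76) (nat_lit 782705666) (nat_lit 0) (nat_lit 2705883243) (nat_lit 380) (nat_lit 3037146280) (nat_lit 312) (nat_lit 5) (nat_lit 311) (nat_lit 5) (nat_lit 316) (nat_lit 5) (nat_lit 264) (nat_lit 261) (nat_lit 255))))))) (XT.nd (nat_lit 1092) (nat_lit 6992) (nat_lit 0) (XT.nd (nat_lit 546) (nat_lit 6004) (nat_lit 0) (XT.nd (nat_lit 234) (nat_lit 2432) (nat_lit 0) (XT.nd (nat_lit 78) (nat_lit 380) (nat_lit 0) (XT.lf (nat_lit 0) (nat_lit 1208472952) (nat_lit 380) (nat_lit 342520260) (nat_lit 456) (nat_lit 5014925346) (nat_lit 306) (nat_lit 5) (nat_lit 311) (nat_lit 5) (nat_lit 312) (nat_lit 5) (nat_lit 265) (nat_lit 261) (nat_lit 254))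 (XT.nd (nat_lit 78) (nat_lit 380) (nat_lit 0) (XT.lf (nat_lit 76) (nat_lit 5246921617) (nat_lit 0) (nat_lit 146802595) (nat_lit 456) (nat_lit 1220266303) (nat_lit 307) (nat_lit 5) (nat_lit 306) (nat_lit 5) (nat_lit 312) (nat_lit 5) (nat_lit 266) (nat_lit 261) (nat_lit 253)) (XT.lf (nat_lit 0) (nat_lit 2869954660) (nat_lit 456) (nat_lit 2324974587) (nat_lit 76) (nat_lit 1474871635) (nat_lit 301) (nat_lit 5) (nat_lit 307) (nat_lit 5) (nat_lit 302) (nat_lit 5) (nat_lit 267) (nat_lit 261) (nat_lit 252)))) (XT.nd (nat_lit 156) (nat_lit 1368) (nat_lit 0) (XT.nd (nat_lit 78) (nat_lit 532) (nat_lit 0) (XT.lf (nat_lit 0) (nat_lit 209725677) (nat_lit 532) (nat_lit 3196317478) (nat_lit 76) (nat_lit 3328103120) (nat_lit 294) (nat_lit 5) (nat_lit 301) (nat_lit 5) (nat_lit 295) (nat_lit 5) (nat_lit 268) (nat_lit 261) (nat_lit 251)) (XT.lf (nat_lit 0) (nat_lit 2798772749) (nat_lit 532) (nat_lit 1360246971)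 (nat_lit 608) (nat_lit 2647421743) (nat_lit 287) (nat_lit 5) (nat_lit 294) (nat_lit 5) (nat_lit 295) (nat_lit 5) (nat_lit 269) (nat_lit 261) (nat_lit 250))) (XT.nd (nat_lit 78) (nat_lit 684) (nat_lit 0) (XT.lf (nat_lit 0) (nat_lit 1231518511) (nat_lit 684) (nat_lit 4748393442) (nat_lit 76) (nat_lit 907319196) (nat_lit 278) (nat_lit 5) (nat_lit 287) (nat_lit 5) (nat_lit 279) (nat_lit 5) (nat_lit 270) (nat_lit 261) (nat_lit 249)) (XT.lf (nat_lit 0) (nat_lit 1532765333) (nat_lit 684) (nat_lit 3570547374) (nat_lit 760) (nat_lit 1872700268) (nat_lit 269) (nat_lit 5) (nat_lit 278) (nat_lit 5) (nat_lit 279) (nat_lit 5) (nat_lit 271) (nat_lit 261) (nat_lit 248))))) (XT.nd (nat_lit 234) (nat_lit 3344) (nat_lit 0) (XT.nd (nat_lit 78) (nat_lit 1824) (nat_lit 0) (XT.lf (nat_lit 0) (nat_lit 996468092) (nat_lit 760) (nat_lit 910427379) (nat_lit 836) (nat_lit 5166603481) (nat_lit 258) (nat_lit 5) (nat_lit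 268) (nat_lit 5) (nat_lit 269) (nat_lit 5) (nat_lit 272) (nat_lit 261) (nat_lit 247)) (XT.nd (nat_lit 78) (nat_lit 988) (nat_lit 0) (XT.lf (nat_lit 0) (nat_lit 506145545) (nat_lit 836) (nat_lit 5208911332) (nat_lit 912) (nat_lit 1464203786) (nat_lit 247) (nat_lit 5) (nat_lit 258) (nat_lit 5) (nat_lit 259) (nat_lit 5) (nat_lit 273) (nat_lit 261) (nat_lit 246)) (XT.lf (nat_lit 0) (nat_lit 61743866) (nat_lit 912) (nat_lit 2191515394) (nat_lit 988) (nat_lit 5040319455) (nat_lit 234) (nat_lit 5) (nat_lit 246) (nat_lit 5) (nat_lit 247) (nat_lit 5) (nat_lit 274) (nat_lit 261) (nat_lit 245)))) (XT.nd (nat_lit 156) (nat_lit 2280) (nat_lit 0) (XT.nd (nat_lit 78) (nat_lit 1064) (nat_lit 0) (XT.lf (nat_lit 0) (nat_lit 6017704970) (nat_lit 988) (nat_lit 328508203) (nat_lit 76) (nat_lit 1070493335) (nat_lit 234) (nat_lit 5) (nat_lit 247) (nat_lit 5) (nat_lit 235) (nat_lit 5) (nat_lit 275) (nat_lit 261)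 (nat_lit 244)) (XT.lf (nat_lit 0) (nat_lit 2285413787) (nat_lit 1064) (nat_lit 696399236) (nat_lit 76) (nat_lit 4566478440) (nat_lit 220) (nat_lit 5) (nat_lit 234) (nat_lit 5) (nat_lit 221) (nat_lit 5) (nat_lit 276) (nat_lit 261) (nat_lit 243))) (XT.nd (nat_lit 78) (nat_lit 1216) (nat_lit 0) (XT.lf (nat_lit 0) (nat_lit 6025588864) (nat_lit 1140) (nat_lit 1024107842) (nat_lit 76) (nat_lit 639567441) (nat_lit 206) (nat_lit 5) (nat_lit 221) (nat_lit 5) (nat_lit 207) (nat_lit 5) (nat_lit 277) (nat_lit 261) (nat_lit 242)) (XT.lf (nat_lit 0) (nat_lit 2006596510) (nat_lit 1216) (nat_lit 1347147406) (nat_lit 76) (nat_lit 4485180036) (nat_lit 190) (nat_lit 5) (nat_lit 206) (nat_lit 5) (nat_lit 191) (nat_lit 5) (nat_lit 278) (nat_lit 261) (nat_lit 241)))))) (XT.nd (nat_lit 546) (nat_lit 2964) (nat_lit 0) (XT.nd (nat_lit 234) (nat_lit 2128) (nat_lit 0) (XT.nd (nat_lit 78) (nat_lit 1216) (nat_lit 0)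 (XT.lf (nat_lit 0) (nat_lit 5742090108) (nat_lit 760) (nat_lit 1644226209) (nat_lit 76) (nat_lit 611982564) (nat_lit 181) (nat_lit 5) (nat_lit 191) (nat_lit 5) (nat_lit 182) (nat_lit 5) (nat_lit 279) (nat_lit 261) (nat_lit 240)) (XT.nd (nat_lit 78) (nat_lit 532) (nat_lit 0) (XT.lf (nat_lit 0) (nat_lit 1420891617) (nat_lit 684) (nat_lit 1946768368) (nat_lit 76) (nat_lit 4799201695) (nat_lit 172) (nat_lit 5) (nat_lit 181) (nat_lit 5) (nat_lit 173) (nat_lit 5) (nat_lit 280) (nat_lit 261) (nat_lit 239)) (XT.lf (nat_lit 0) (nat_lit 5169161933) (nat_lit 608) (nat_lit 2245042696) (nat_lit 76) (nat_lit 931143243) (nat_lit 165) (nat_lit 5) (nat_lit 173) (nat_lit 5) (nat_lit 166) (nat_lit 5) (nat_lit 281) (nat_lit 261) (nat_lit 238)))) (XT.nd (nat_lit 156) (nat_lit 1064) (nat_lit 0) (XT.nd (nat_lit 78) (nat_lit 456) (nat_lit 0) (XT.lf (nat_lit 0) (nat_lit 526483974) (nat_lit 608) (nat_lit 2553510029)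 (nat_lit 76) (nat_lit 5453803392) (nat_lit 157) (nat_lit 5) (nat_lit 165) (nat_lit 5) (nat_lit 158) (nat_lit 5) (nat_lit 282) (nat_lit 261) (nat_lit 237)) (XT.lf (nat_lit 0) (nat_lit 4302257541) (nat_lit 532) (nat_lit 2886753875) (nat_lit 76) (nat_lit 1543267464) (nat_lit 151) (nat_lit 5) (nat_lit 158) (nat_lit 5) (nat_lit 152) (nat_lit 5) (nat_lit 283) (nat_lit 261) (nat_lit 236))) (XT.nd (nat_lit 78) (nat_lit 532) (nat_lit 0) (XT.lf (nat_lit 0) (nat_lit 5704429839) (nat_lit 532) (nat_lit 2538285822) (nat_lit 608) (nat_lit 698846821) (nat_lit 144) (nat_lit 5) (nat_lit 151) (nat_lit 5) (nat_lit 152) (nat_lit 5) (nat_lit 284) (nat_lit 261) (nat_lit 235)) (XT.lf (nat_lit 0) (nat_lit 3129979695) (nat_lit 532) (nat_lit 3635258197) (nat_lit 76) (nat_lit 2396070199) (nat_lit 137) (nat_lit 5) (nat_lit 144) (nat_lit 5) (nat_lit 138) (nat_lit 5) (nat_lit 285) (nat_lit 261) (nat_lit 234))))) (XT.nd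 (nat_lit 234) (nat_lit 1596) (nat_lit 0) (XT.nd (nat_lit 78) (nat_lit 912) (nat_lit 0) (XT.lf (nat_lit 0) (nat_lit 5323537133) (nat_lit 456) (nat_lit 1794613825) (nat_lit 532) (nat_lit 2274348169) (nat_lit 131) (nat_lit 5) (nat_lit 137) (nat_lit 5) (nat_lit 138) (nat_lit 5) (nat_lit 286) (nat_lit 261) (nat_lit 233)) (XT.nd (nat_lit 78) (nat_lit 456) (nat_lit 0) (XT.lf (nat_lit 0) (nat_lit 1633574224) (nat_lit 456) (nat_lit 4564032212) (nat_lit 76) (nat_lit 3437416983) (nat_lit 125) (nat_lit 5) (nat_lit 131) (nat_lit 5) (nat_lit 126) (nat_lit 5) (nat_lit 287) (nat_lit 261) (nat_lit 232)) (XT.lf (nat_lit 0) (nat_lit 4767284524) (nat_lit 456) (nat_lit 908677306) (nat_lit 532) (nat_lit 4213573501) (nat_lit 119) (nat_lit 5) (nat_lit 125) (nat_lit 5) (nat_lit 126) (nat_lit 5) (nat_lit 288) (nat_lit 261) (nat_lit 231)))) (XT.nd (nat_lit 156) (nat_lit 760) (nat_lit 0) (XT.nd (nat_lit 78) (nat_lit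 456) (nat_lit 0) (XT.lf (nat_lit 0) (nat_lit 4398011043) (nat_lit 380) (nat_lit 5540337661) (nat_lit 456) (nat_lit 218002152) (nat_lit 114) (nat_lit 5) (nat_lit 119) (nat_lit 5) (nat_lit 120) (nat_lit 5) (nat_lit 289) (nat_lit 261) (nat_lit 230)) (XT.lf (nat_lit 0) (nat_lit 3887184167) (nat_lit 456) (nat_lit 6486924161) (nat_lit 76) (nat_lit 61734179) (nat_lit 108) (nat_lit 5) (nat_lit 114) (nat_lit 5) (nat_lit 109) (nat_lit 5) (nat_lit 290) (nat_lit 261) (nat_lit 229))) (XT.nd (nat_lit 78) (nat_lit 456) (nat_lit 0) (XT.lf (nat_lit 0) (nat_lit 3397029966) (nat_lit 304) (nat_lit 4834759870) (nat_lit 380) (nat_lit 2496394846) (nat_lit 104) (nat_lit 5) (nat_lit 108) (nat_lit 5) (nat_lit 109) (nat_lit 5) (nat_lit 291) (nat_lit 261) (nat_lit 228)) (XT.lf (nat_lit 0) (nat_lit 1721354765) (nat_lit 456) (nat_lit 8274163573) (nat_lit 76) (nat_lit 1039296066) (nat_lit 98) (nat_lit 5) (nat_lit 104)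 (nat_lit 5) (nat_lit 99) (nat_lit 5) (nat_lit 292) (nat_lit 261) (nat_lit 227))))))))
noncomputable def xc52 : XT := (XT.nd (nat_lit 2106) (nat_lit 1596) (nat_lit 0) (XT.nd (nat_lit 1014) (nat_lit 1976) (nat_lit 0) (XT.nd (nat_lit 468) (nat_lit 1520) (nat_lit 0) (XT.nd (nat_lit 234) (nat_lit 608) (nat_lit 0) (XT.nd (nat_lit 78) (nat_lit 684) (nat_lit 0) (XT.lf (nat_lit 0) (nat_lit 1977876047) (nat_lit 304) (nat_lit 4161336579) (nat_lit 380) (nat_lit 5215684707) (nat_lit 94) (nat_lit 5) (nat_lit 98) (nat_lit 5) (nat_lit 99) (nat_lit 5) (nat_lit 293) (nat_lit 261) (nat_lit 226)) (XT.nd (nat_lit 78) (nat_lit 380) (nat_lit 0) (XT.lf (nat_lit 0) (nat_lit 1088125697) (nat_lit 304) (nat_lit 9704795938) (nat_lit 380) (nat_lit 897698527) (nat_lit 90) (nat_lit 5) (nat_lit 94) (nat_lit 5) (nat_lit 95) (nat_lit 5) (nat_lit 294) (nat_lit 261) (nat_lit 225)) (XT.lf (nat_lit 0) (nat_lit 16278087) (nat_lit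 304) (nat_lit 3590622839) (nat_lit 380) (nat_lit 8434007672) (nat_lit 85) (nat_lit 5) (nat_lit 89) (nat_lit 5) (nat_lit 90) (nat_lit 5) (nat_lit 295) (nat_lit 261) (nat_lit 224)))) (XT.nd (nat_lit 78) (nat_lit 608) (nat_lit 0) (XT.lf (nat_lit 0) (nat_lit 8360775626) (nat_lit 380) (nat_lit 1192166040) (nat_lit 76) (nat_lit 2854299225) (nat_lit 85) (nat_lit 5) (nat_lit 90) (nat_lit 5) (nat_lit 86) (nat_lit 5) (nat_lit 296) (nat_lit 261) (nat_lit 223)) (XT.nd (nat_lit 78) (nat_lit 228) (nat_lit 0) (XT.lf (nat_lit 0) (nat_lit 593854407) (nat_lit 380) (nat_lit 2581879913) (nat_lit 76) (nat_lit 9614732564) (nat_lit 80) (nat_lit 5) (nat_lit 85) (nat_lit 5) (nat_lit 81) (nat_lit 5) (nat_lit 297) (nat_lit 261) (nat_lit 222)) (XT.lf (nat_lit 0) (nat_lit 5428902325) (nat_lit 304) (nat_lit 4207893355) (nat_lit 76) (nat_lit 3553530123) (nat_lit 77) (nat_lit 5) (nat_lit 81) (nat_lit 5) (nat_lit 78) (nat_lit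 5) (nat_lit 298) (nat_lit 261) (nat_lit 221))))) (XT.nd (nat_lit 234) (nat_lit 684) (nat_lit 0) (XT.nd (nat_lit 78) (nat_lit 532) (nat_lit 0) (XT.lf (nat_lit 0) (nat_lit 7557631409) (nat_lit 304) (nat_lit 2993939093) (nat_lit 380) (nat_lit 3057293539) (nat_lit 73) (nat_lit 5) (nat_lit 77) (nat_lit 5) (nat_lit 78) (nat_lit 5) (nat_lit 299) (nat_lit 261) (nat_lit 220)) (XT.nd (nat_lit 78) (nat_lit 228) (nat_lit 0) (XT.lf (nat_lit 0) (nat_lit 1901396366) (nat_lit 304) (nat_lit 8162102699) (nat_lit 76) (nat_lit 3982662723) (nat_lit 69) (nat_lit 5) (nat_lit 73) (nat_lit 5) (nat_lit 70) (nat_lit 5) (nat_lit 300) (nat_lit 261) (nat_lit 219)) (XT.lf (nat_lit 0) (nat_lit 3930472422) (nat_lit 228) (nat_lit 3164580110) (nat_lit 304) (nat_lit 7407910903) (nat_lit 66) (nat_lit 5) (nat_lit 69) (nat_lit 5) (nat_lit 70) (nat_lit 5) (nat_lit 301) (nat_lit 261) (nat_lit 218)))) (XT.nd (nat_lit 156) (nat_lit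 380) (nat_lit 0) (XT.nd (nat_lit 78) (nat_lit 76) (nat_lit 0) (XT.lf (nat_lit 0) (nat_lit 1688960221) (nat_lit 228) (nat_lit 10920810956) (nat_lit 304) (nat_lit 2371044937) (nat_lit 63) (nat_lit 5) (nat_lit 66) (nat_lit 5) (nat_lit 67) (nat_lit 5) (nat_lit 302) (nat_lit 261) (nat_lit 217)) (XT.lf (nat_lit 0) (nat_lit 2925475008) (nat_lit 304) (nat_lit 876134723) (nat_lit 76) (nat_lit 11678216357) (nat_lit 62) (nat_lit 5) (nat_lit 66) (nat_lit 5) (nat_lit 63) (nat_lit 5) (nat_lit 303) (nat_lit 261) (nat_lit 216))) (XT.nd (nat_lit 78) (nat_lit 152) (nat_lit 0) (XT.lf (nat_lit 0) (nat_lit 8518988052) (nat_lit 304) (nat_lit 3776870109) (nat_lit 76) (nat_lit 3704834102) (nat_lit 59) (nat_lit 5) (nat_lit 63) (nat_lit 5) (nat_lit 60) (nat_lit 5) (nat_lit 304) (nat_lit 261) (nat_lit 215)) (XT.lf (nat_lit 0) (nat_lit 9483374461) (nat_lit 152) (nat_lit 4976046855) (nat_lit 228) (nat_lit 2086206990)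 (nat_lit 57) (nat_lit 5) (nat_lit 59) (nat_lit 5) (nat_lit 60) (nat_lit 5) (nat_lit 305) (nat_lit 261) (nat_lit 214)))))) (XT.nd (nat_lit 546) (nat_lit 836) (nat_lit 0) (XT.nd (nat_lit 234) (nat_lit 684) (nat_lit 0) (XT.nd (nat_lit 78) (nat_lit 152) (nat_lit 0) (XT.lf (nat_lit 0) (nat_lit 3566707804) (nat_lit 304) (nat_lit 10796081732) (nat_lit 76) (nat_lit 2752305584) (nat_lit 53) (nat_lit 5) (nat_lit 57) (nat_lit 5) (nat_lit 54) (nat_lit 5) (nat_lit 306) (nat_lit 261) (nat_lit 213)) (XT.nd (nat_lit 78) (nat_lit 0) (nat_lit 0) (XT.lf (nat_lit 0) (nat_lit 2676646994) (nat_lit 152) (nat_lit 6864371251) (nat_lit 228) (nat_lit 8168979143) (nat_lit 51) (nat_lit 5) (nat_lit 53) (nat_lit 5) (nat_lit 54) (nat_lit 5) (nat_lit 307) (nat_lit 261) (nat_lit 212)) (XT.lf (nat_lit 0) (nat_lit 15869916727) (nat_lit 228) (nat_lit 1401615731) (nat_lit 76) (nat_lit 1061472954) (nat_lit 51) (nat_lit 5) (nat_lit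 54) (nat_lit 5) (nat_lit 52) (nat_lit 5) (nat_lit 308) (nat_lit 261) (nat_lit 211)))) (XT.nd (nat_lit 156) (nat_lit 228) (nat_lit 0) (XT.nd (nat_lit 78) (nat_lit 152) (nat_lit 0) (XT.lf (nat_lit 0) (nat_lit 3591779036) (nat_lit 304) (nat_lit 6025488254) (nat_lit 76) (nat_lit 9364937301) (nat_lit 47) (nat_lit 5) (nat_lit 51) (nat_lit 5) (nat_lit 48) (nat_lit 5) (nat_lit 309) (nat_lit 261) (nat_lit 210)) (XT.lf (nat_lit 0) (nat_lit 8437179561) (nat_lit 152) (nat_lit 1495900320) (nat_lit 228) (nat_lit 9729045752) (nat_lit 45) (nat_lit 5) (nat_lit 47) (nat_lit 5) (nat_lit 48) (nat_lit 5) (nat_lit 310) (nat_lit 261) (nat_lit 209))) (XT.nd (nat_lit 78) (nat_lit 76) (nat_lit 0) (XT.lf (nat_lit 0) (nat_lit 3270506753) (nat_lit 152) (nat_lit 13422702206) (nat_lit 228) (nat_lit 3679811749) (nat_lit 43) (nat_lit 5) (nat_lit 45) (nat_lit 5) (nat_lit 46) (nat_lit 5) (nat_lit 311) (nat_lit 261) (nat_lit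 208)) (XT.lf (nat_lit 0) (nat_lit 2692949538) (nat_lit 228) (nat_lit 2530773923) (nat_lit 76) (nat_lit 15892799001) (nat_lit 42) (nat_lit 5) (nat_lit 45) (nat_lit 5) (nat_lit 43) (nat_lit 5) (nat_lit 312) (nat_lit 261) (nat_lit 207))))) (XT.nd (nat_lit 234) (nat_lit 456) (nat_lit 0) (XT.nd (nat_lit 78) (nat_lit 228) (nat_lit 0) (XT.lf (nat_lit 0) (nat_lit 9410836495) (nat_lit 228) (nat_lit 9037370693) (nat_lit 76) (nat_lit 3444848540) (nat_lit 40) (nat_lit 5) (nat_lit 43) (nat_lit 5) (nat_lit 41) (nat_lit 5) (nat_lit 313) (nat_lit 261) (nat_lit 206)) (XT.nd (nat_lit 78) (nat_lit 76) (nat_lit 0) (XT.lf (nat_lit 0) (nat_lit 6335266887) (nat_lit 152) (nat_lit 10214914596) (nat_lit 228) (nat_lit 6155693159) (nat_lit 38) (nat_lit 5) (nat_lit 40) (nat_lit 5) (nat_lit 41) (nat_lit 5) (nat_lit 314) (nat_lit 261) (nat_lit 205)) (XT.lf (nat_lit 0) (nat_lit 518420494) (nat_lit 228) (nat_lit 987292635)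 (nat_lit 76) (nat_lit 22052281805) (nat_lit 37) (nat_lit 5) (nat_lit 40) (nat_lit 5) (nat_lit 38) (nat_lit 5) (nat_lit 315) (nat_lit 261) (nat_lit 204)))) (XT.nd (nat_lit 156) (nat_lit 152) (nat_lit 0) (XT.nd (nat_lit 78) (nat_lit 152) (nat_lit 0) (XT.lf (nat_lit 0) (nat_lit 7571846353) (nat_lit 228) (nat_lit 9207447040) (nat_lit 76) (nat_lit 7666434755) (nat_lit 35) (nat_lit 5) (nat_lit 38) (nat_lit 5) (nat_lit 36) (nat_lit 5) (nat_lit 316) (nat_lit 261) (nat_lit 203)) (XT.lf (nat_lit 0) (nat_lit 6953703029) (nat_lit 152) (nat_lit 8067165785) (nat_lit 228) (nat_lit 10355713169) (nat_lit 33) (nat_lit 5) (nat_lit 35) (nat_lit 5) (nat_lit 36) (nat_lit 5) (nat_lit 317) (nat_lit 261) (nat_lit 202))) (XT.nd (nat_lit 78) (nat_lit 152) (nat_lit 0) (XT.lf (nat_lit 0) (nat_lit 22900296480) (nat_lit 228) (nat_lit 2330742083) (nat_lit 76) (nat_lit 1121222006) (nat_lit 33) (nat_lit 5) (nat_lit 36) (nat_lit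 5) (nat_lit 34) (nat_lit 4) (nat_lit 318) (nat_lit 261) (nat_lit 201)) (XT.lf (nat_lit 0) (nat_lit 3901398897) (nat_lit 152) (nat_lit 12718043178) (nat_lit 76) (nat_lit 10750849598) (nat_lit 31) (nat_lit 5) (nat_lit 33) (nat_lit 5) (nat_lit 32) (nat_lit 5) (nat_lit 319) (nat_lit 261) (nat_lit 200))))))) (XT.nd (nat_lit 1092) (nat_lit 532) (nat_lit 0) (XT.nd (nat_lit 546) (nat_lit 532) (nat_lit 0) (XT.nd (nat_lit 234) (nat_lit 304) (nat_lit 0) (XT.nd (nat_lit 78) (nat_lit 76) (nat_lit 0) (XT.lf (nat_lit 0) (nat_lit 4060496754) (nat_lit 152) (nat_lit 7509588781) (nat_lit 228) (nat_lit 16867560254) (nat_lit 29) (nat_lit 5) (nat_lit 31) (nat_lit 5) (nat_lit 32) (nat_lit 5) (nat_lit 320) (nat_lit 261) (nat_lit 199)) (XT.nd (nat_lit 78) (nat_lit 76) (nat_lit 0) (XT.lf (nat_lit 0) (nat_lit 19730400015) (nat_lit 228) (nat_lit 7708778649) (nat_lit 76) (nat_lit 2115960487) (nat_lit 29) (nat_lit 5)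 (nat_lit 32) (nat_lit 5) (nat_lit 30) (nat_lit 4) (nat_lit 321) (nat_lit 261) (nat_lit 198)) (XT.lf (nat_lit 0) (nat_lit 9835798774) (nat_lit 76) (nat_lit 18591575292) (nat_lit 152) (nat_lit 2297290321) (nat_lit 28) (nat_lit 5) (nat_lit 29) (nat_lit 5) (nat_lit 30) (nat_lit 4) (nat_lit 322) (nat_lit 261) (nat_lit 197)))) (XT.nd (nat_lit 156) (nat_lit 76) (nat_lit 0) (XT.nd (nat_lit 78) (nat_lit 152) (nat_lit 0) (XT.lf (nat_lit 0) (nat_lit 5536453569) (nat_lit 152) (nat_lit 3658340787) (nat_lit 76) (nat_lit 22755090215) (nat_lit 27) (nat_lit 5) (nat_lit 29) (nat_lit 5) (nat_lit 28) (nat_lit 5) (nat_lit 323) (nat_lit 261) (nat_lit 196)) (XT.lf (nat_lit 0) (nat_lit 13824344106) (nat_lit 228) (nat_lit 18613111733) (nat_lit 76) (nat_lit 794942981) (nat_lit 25) (nat_lit 5) (nat_lit 28) (nat_lit 5) (nat_lit 26) (nat_lit 4) (nat_lit 324) (nat_lit 261) (nat_lit 195))) (XT.nd (nat_lit 78) (nat_lit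 76) (nat_lit 0) (XT.lf (nat_lit 0) (nat_lit 22619526961) (nat_lit 228) (nat_lit 851379785) (nat_lit 76) (nat_lit 11105358959) (nat_lit 25) (nat_lit 5) (nat_lit 28) (nat_lit 5) (nat_lit 26) (nat_lit 4) (nat_lit 325) (nat_lit 261) (nat_lit 194)) (XT.lf (nat_lit 0) (nat_lit 18087060990) (nat_lit 76) (nat_lit 13905138764) (nat_lit 152) (nat_lit 3991007450) (nat_lit 24) (nat_lit 5) (nat_lit 25) (nat_lit 5) (nat_lit 26) (nat_lit 4) (nat_lit 326) (nat_lit 261) (nat_lit 193))))) (XT.nd (nat_lit 234) (nat_lit 304) (nat_lit 0) (XT.nd (nat_lit 78) (nat_lit 0) (nat_lit 0) (XT.lf (nat_lit 0) (nat_lit 433117248) (nat_lit 152) (nat_lit 3832202308) (nat_lit 228) (nat_lit 33194598073) (nat_lit 21) (nat_lit 5) (nat_lit 23) (nat_lit 5) (nat_lit 24) (nat_lit 5) (nat_lit 327) (nat_lit 261) (nat_lit 192)) (XT.nd (nat_lit 78) (nat_lit 0) (nat_lit 0) (XT.lf (nat_lit 0) (nat_lit 13069031953) (nat_lit 228) (nat_lit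 19121215304) (nat_lit 76) (nat_lit 6812529215) (nat_lit 21) (nat_lit 5) (nat_lit 24) (nat_lit 5) (nat_lit 22) (nat_lit 4) (nat_lit 328) (nat_lit 261) (nat_lit 191)) (XT.lf (nat_lit 0) (nat_lit 22318715749) (nat_lit 228) (nat_lit 418232083) (nat_lit 76) (nat_lit 17885667918) (nat_lit 21) (nat_lit 5) (nat_lit 24) (nat_lit 5) (nat_lit 22) (nat_lit 4) (nat_lit 329) (nat_lit 261) (nat_lit 190)))) (XT.nd (nat_lit 156) (nat_lit 228) (nat_lit 0) (XT.nd (nat_lit 78) (nat_lit 0) (nat_lit 0) (XT.lf (nat_lit 0) (nat_lit 19544909243) (nat_lit 76) (nat_lit 12642524910) (nat_lit 152) (nat_lit 10131326867) (nat_lit 20) (nat_lit 5) (nat_lit 21) (nat_lit 5) (nat_lit 22) (nat_lit 4) (nat_lit 330) (nat_lit 261) (nat_lit 189)) (XT.lf (nat_lit 0) (nat_lit 40460181021) (nat_lit 76) (nat_lit 2063350904) (nat_lit 152) (nat_lit 1576973363) (nat_lit 20) (nat_lit 5) (nat_lit 21) (nat_lit 5) (nat_lit 22) (nat_lit 4)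 (nat_lit 331) (nat_lit 261) (nat_lit 188))) (XT.nd (nat_lit 78) (nat_lit 0) (nat_lit 0) (XT.lf (nat_lit 0) (nat_lit 7480451481) (nat_lit 228) (nat_lit 29403425911) (nat_lit 76) (nat_lit 9078737574) (nat_lit 17) (nat_lit 5) (nat_lit 20) (nat_lit 5) (nat_lit 18) (nat_lit 4) (nat_lit 332) (nat_lit 261) (nat_lit 187)) (XT.lf (nat_lit 0) (nat_lit 16988573777) (nat_lit 228) (nat_lit 10160944496) (nat_lit 76) (nat_lit 20766939075) (nat_lit 17) (nat_lit 5) (nat_lit 20) (nat_lit 5) (nat_lit 18) (nat_lit 4) (nat_lit 333) (nat_lit 261) (nat_lit 186)))))) (XT.nd (nat_lit 546) (nat_lit 228) (nat_lit 0) (XT.nd (nat_lit 234) (nat_lit 228) (nat_lit 0) (XT.nd (nat_lit 78) (nat_lit 0) (nat_lit 0) (XT.lf (nat_lit 0) (nat_lit 10193161524) (nat_lit 76) (nat_lit 16849748714) (nat_lit 152) (nat_lit 22922965788) (nat_lit 16) (nat_lit 5) (nat_lit 17) (nat_lit 5) (nat_lit 18) (nat_lit 4) (nat_lit 334) (nat_lit 261)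 (nat_lit 185)) (XT.nd (nat_lit 78) (nat_lit 0) (nat_lit 0) (XT.lf (nat_lit 0) (nat_lit 31729318120) (nat_lit 76) (nat_lit 5948901253) (nat_lit 152) (nat_lit 14437206606) (nat_lit 16) (nat_lit 5) (nat_lit 17) (nat_lit 5) (nat_lit 18) (nat_lit 4) (nat_lit 335) (nat_lit 261) (nat_lit 184)) (XT.lf (nat_lit 0) (nat_lit 48872848491) (nat_lit 152) (nat_lit 129276811) (nat_lit 0) (nat_lit 5369509130) (nat_lit 16) (nat_lit 5) (nat_lit 18) (nat_lit 4) (nat_lit 16) (nat_lit 4) (nat_lit 336) (nat_lit 261) (nat_lit 183)))) (XT.nd (nat_lit 156) (nat_lit 76) (nat_lit 0) (XT.nd (nat_lit 78) (nat_lit 0) (nat_lit 0) (XT.lf (nat_lit 0) (nat_lit 4055305978) (nat_lit 152) (nat_lit 35318199368) (nat_lit 76) (nat_lit 17358696495) (nat_lit 14) (nat_lit 5) (nat_lit 16) (nat_lit 5) (nat_lit 15) (nat_lit 4) (nat_lit 337) (nat_lit 261) (nat_lit 182)) (XT.lf (nat_lit 0) (nat_lit 13952195878) (nat_lit 152) (nat_lit 15272399673)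 (nat_lit 76) (nat_lit 29985210988) (nat_lit 14) (nat_lit 5) (nat_lit 16) (nat_lit 5) (nat_lit 15) (nat_lit 4) (nat_lit 338) (nat_lit 261) (nat_lit 181))) (XT.nd (nat_lit 78) (nat_lit 0) (nat_lit 0) (XT.lf (nat_lit 0) (nat_lit 5848602593) (nat_lit 76) (nat_lit 18529086686) (nat_lit 152) (nat_lit 37432595829) (nat_lit 13) (nat_lit 5) (nat_lit 14) (nat_lit 5) (nat_lit 15) (nat_lit 4) (nat_lit 339) (nat_lit 261) (nat_lit 180)) (XT.lf (nat_lit 0) (nat_lit 28304769907) (nat_lit 76) (nat_lit 7155126745) (nat_lit 152) (nat_lit 29076833873) (nat_lit 13) (nat_lit 5) (nat_lit 14) (nat_lit 5) (nat_lit 15) (nat_lit 4) (nat_lit 340) (nat_lit 261) (nat_lit 179))))) (XT.nd (nat_lit 234) (nat_lit 152) (nat_lit 0) (XT.nd (nat_lit 78) (nat_lit 76) (nat_lit 0) (XT.lf (nat_lit 0) (nat_lit 47121328338) (nat_lit 152) (nat_lit 15600361120) (nat_lit 0) (nat_lit 4677061146) (nat_lit 13) (nat_lit 5) (nat_lit 15) (nat_lit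 4) (nat_lit 13) (nat_lit 4) (nat_lit 341) (nat_lit 261) (nat_lit 178)) (XT.nd (nat_lit 78) (nat_lit 0) (nat_lit 0) (XT.lf (nat_lit 0) (nat_lit 6072342909) (nat_lit 76) (nat_lit 53404167024) (nat_lit 76) (nat_lit 10924046935) (nat_lit 12) (nat_lit 4) (nat_lit 13) (nat_lit 5) (nat_lit 13) (nat_lit 4) (nat_lit 342) (nat_lit 261) (nat_lit 177)) (XT.lf (nat_lit 0) (nat_lit 29118986945) (nat_lit 76) (nat_lit 43471749451) (nat_lit 76) (nat_lit 957483745) (nat_lit 12) (nat_lit 4) (nat_lit 13) (nat_lit 5) (nat_lit 13) (nat_lit 4) (nat_lit 343) (nat_lit 261) (nat_lit 176)))) (XT.nd (nat_lit 156) (nat_lit 76) (nat_lit 0) (XT.nd (nat_lit 78) (nat_lit 0) (nat_lit 0) (XT.lf (nat_lit 0) (nat_lit 9303310045) (nat_lit 152) (nat_lit 23661065947) (nat_lit 76) (nat_lit 43886710940) (nat_lit 11) (nat_lit 5) (nat_lit 13) (nat_lit 5) (nat_lit 12) (nat_lit 4) (nat_lit 344) (nat_lit 261) (nat_lit 175)) (XT.lf (nat_lit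 0) (nat_lit 20039836047) (nat_lit 152) (nat_lit 1896889245) (nat_lit 76) (nat_lit 58382617168) (nat_lit 11) (nat_lit 5) (nat_lit 13) (nat_lit 5) (nat_lit 12) (nat_lit 4) (nat_lit 345) (nat_lit 261) (nat_lit 174))) (XT.nd (nat_lit 78) (nat_lit 0) (nat_lit 0) (XT.lf (nat_lit 0) (nat_lit 21340755298) (nat_lit 76) (nat_lit 10160726468) (nat_lit 152) (nat_lit 52453884613) (nat_lit 10) (nat_lit 5) (nat_lit 11) (nat_lit 5) (nat_lit 12) (nat_lit 4) (nat_lit 346) (nat_lit 261) (nat_lit 173)) (XT.lf (nat_lit 0) (nat_lit 43560646905) (nat_lit 152) (nat_lit 42044707004) (nat_lit 0) (nat_lit 2167108680) (nat_lit 10) (nat_lit 5) (nat_lit 12) (nat_lit 4) (nat_lit 10) (nat_lit 4) (nat_lit 347) (nat_lit 261) (nat_lit 172))))))))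
noncomputable def xc53 : XT := (XT.nd (nat_lit 34866) (nat_lit 0) (nat_lit 4788) (XT.nd (nat_lit 1092) (nat_lit 0) (nat_lit 0) (XT.nd (nat_lit 546) (nat_lit 76) (nat_lit 0) (XT.nd (nat_lit 234) (nat_lit 152) (nat_lit 0) (XT.nd (nat_lit 78) (nat_lit 76) (nat_lit 0) (XT.lf (nat_lit 0) (nat_lit 56309639361) (nat_lit 152) (nat_lit 20578045789) (nat_lit 0) (nat_lit 14890126394) (nat_lit 10) (nat_lit 5) (nat_lit 12) (nat_lit 4) (nat_lit 10) (nat_lit 4) (nat_lit 348) (nat_lit 261) (nat_lit 171)) (XT.nd (nat_lit 78) (nat_lit 0) (nat_lit 0) (XT.lf (nat_lit 0) (nat_lit 1972648250) (nat_lit 76) (nat_lit 67727456812) (nat_lit 76) (nat_lit 26283205996) (nat_lit 9) (nat_lit 4) (nat_lit 10) (nat_lit 5) (nat_lit 10) (nat_lit 4) (nat_lit 349) (nat_lit 261) (nat_lit 170)) (XT.lf (nat_lit 0) (nat_lit 26053900619) (nat_lit 76) (nat_lit 57903539427) (nat_lit 76) (nat_lit 16435728754) (nat_lit 9) (nat_lit 4) (nat_lit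 10) (nat_lit 5) (nat_lit 10) (nat_lit 4) (nat_lit 350) (nat_lit 261) (nat_lit 169)))) (XT.nd (nat_lit 156) (nat_lit 76) (nat_lit 0) (XT.nd (nat_lit 78) (nat_lit 76) (nat_lit 0) (XT.lf (nat_lit 0) (nat_lit 51313504172) (nat_lit 76) (nat_lit 47600340631) (nat_lit 76) (nat_lit 6110092000) (nat_lit 9) (nat_lit 4) (nat_lit 10) (nat_lit 5) (nat_lit 10) (nat_lit 4) (nat_lit 351) (nat_lit 261) (nat_lit 168)) (XT.lf (nat_lit 0) (nat_lit 4626218302) (nat_lit 152) (nat_lit 32120394961) (nat_lit 76) (nat_lit 73138666786) (nat_lit 8) (nat_lit 5) (nat_lit 10) (nat_lit 5) (nat_lit 9) (nat_lit 4) (nat_lit 352) (nat_lit 261) (nat_lit 167))) (XT.nd (nat_lit 78) (nat_lit 76) (nat_lit 0) (XT.lf (nat_lit 0) (nat_lit 15761511475) (nat_lit 152) (nat_lit 9536101711) (nat_lit 76) (nat_lit 89690609440) (nat_lit 8) (nat_lit 5) (nat_lit 10) (nat_lit 5) (nat_lit 9) (nat_lit 4) (nat_lit 353) (nat_lit 261) (nat_lit 166))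 (XT.lf (nat_lit 0) (nat_lit 14436664512) (nat_lit 76) (nat_lit 13143639561) (nat_lit 152) (nat_lit 92762209118) (nat_lit 7) (nat_lit 5) (nat_lit 8) (nat_lit 5) (nat_lit 9) (nat_lit 4) (nat_lit 354) (nat_lit 261) (nat_lit 165))))) (XT.nd (nat_lit 234) (nat_lit 76) (nat_lit 0) (XT.nd (nat_lit 78) (nat_lit 0) (nat_lit 0) (XT.lf (nat_lit 0) (nat_lit 39785536124) (nat_lit 76) (nat_lit 290990302) (nat_lit 152) (nat_lit 85885399921) (nat_lit 7) (nat_lit 5) (nat_lit 8) (nat_lit 5) (nat_lit 9) (nat_lit 4) (nat_lit 355) (nat_lit 261) (nat_lit 164)) (XT.nd (nat_lit 78) (nat_lit 0) (nat_lit 0) (XT.lf (nat_lit 0) (nat_lit 53313275203) (nat_lit 152) (nat_lit 65608400880) (nat_lit 0) (nat_lit 12937165251) (nat_lit 7) (nat_lit 5) (nat_lit 9) (nat_lit 4) (nat_lit 7) (nat_lit 4) (nat_lit 356) (nat_lit 261) (nat_lit 163)) (XT.lf (nat_lit 0) (nat_lit 67204119958) (nat_lit 152) (nat_lit 44034962732) (nat_lit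 0) (nat_lit 26811754133) (nat_lit 7) (nat_lit 5) (nat_lit 9) (nat_lit 4) (nat_lit 7) (nat_lit 4) (nat_lit 357) (nat_lit 261) (nat_lit 162)))) (XT.nd (nat_lit 156) (nat_lit 0) (nat_lit 0) (XT.nd (nat_lit 78) (nat_lit 76) (nat_lit 0) (XT.lf (nat_lit 0) (nat_lit 81779336956) (nat_lit 152) (nat_lit 21401913275) (nat_lit 0) (nat_lit 41371489346) (nat_lit 7) (nat_lit 5) (nat_lit 9) (nat_lit 4) (nat_lit 7) (nat_lit 4) (nat_lit 358) (nat_lit 261) (nat_lit 161)) (XT.lf (nat_lit 0) (nat_lit 2391298553) (nat_lit 76) (nat_lit 94705317164) (nat_lit 76) (nat_lit 54282724997) (nat_lit 6) (nat_lit 4) (nat_lit 7) (nat_lit 5) (nat_lit 7) (nat_lit 4) (nat_lit 359) (nat_lit 261) (nat_lit 160))) (XT.nd (nat_lit 78) (nat_lit 0) (nat_lit 0) (XT.lf (nat_lit 0) (nat_lit 27803775415) (nat_lit 76) (nat_lit 85586902834) (nat_lit 76) (nat_lit 45150268232) (nat_lit 6) (nat_lit 4) (nat_lit 7) (nat_lit 5) (nat_lit 7) (nat_lit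 4) (nat_lit 360) (nat_lit 261) (nat_lit 159)) (XT.lf (nat_lit 0) (nat_lit 54470083168) (nat_lit 76) (nat_lit 76020414090) (nat_lit 76) (nat_lit 35570405740) (nat_lit 6) (nat_lit 4) (nat_lit 7) (nat_lit 5) (nat_lit 7) (nat_lit 4) (nat_lit 361) (nat_lit 261) (nat_lit 158)))))) (XT.nd (nat_lit 33228) (nat_lit 0) (nat_lit 19076) (XT.nd (nat_lit 32916) (nat_lit 0) (nat_lit 22344) (XT.nd (nat_lit 78) (nat_lit 0) (nat_lit 0) (XT.lf (nat_lit 0) (nat_lit 82453713021) (nat_lit 76) (nat_lit 65983073578) (nat_lit 76) (nat_lit 25520328326) (nat_lit 6) (nat_lit 4) (nat_lit 7) (nat_lit 5) (nat_lit 7) (nat_lit 4) (nat_lit 362) (nat_lit 261) (nat_lit 157)) (XT.nd (nat_lit 32760) (nat_lit 0) (nat_lit 23484) (XT.lf (nat_lit 0) (nat_lit 111821292665) (nat_lit 76) (nat_lit 55450982869) (nat_lit 76) (nat_lit 14976107233) (nat_lit 6) (nat_lit 4) (nat_lit 7) (nat_lit 5) (nat_lit 7) (nat_lit 4) (nat_lit 363) (nat_lit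 261) (nat_lit 156)) (XT.lf (nat_lit 0) (nat_lit 1381236951) (nat_lit 0) (nat_lit 1381236951) (nat_lit 228) (nat_lit 482365106) (nat_lit 315) (nat_lit 5) (nat_lit 315) (nat_lit 3) (nat_lit 318) (nat_lit 3) (nat_lit 262) (nat_lit 262) (nat_lit 256)))) (XT.nd (nat_lit 156) (nat_lit 380) (nat_lit 0) (XT.nd (nat_lit 78) (nat_lit 380) (nat_lit 0) (XT.lf (nat_lit 76) (nat_lit 1303576362) (nat_lit 0) (nat_lit 1943198426) (nat_lit 380) (nat_lit 3270721701) (nat_lit 311) (nat_lit 5) (nat_lit 310) (nat_lit 3) (nat_lit 315) (nat_lit 5) (nat_lit 263) (nat_lit 262) (nat_lit 255)) (XT.lf (nat_lit 0) (nat_lit 846158882) (nat_lit 380) (nat_lit 49959206) (nat_lit 456) (nat_lit 5657538435) (nat_lit 305) (nat_lit 5) (nat_lit 310) (nat_lit 3) (nat_lit 311) (nat_lit 5) (nat_lit 264) (nat_lit 262) (nat_lit 254))) (XT.nd (nat_lit 78) (nat_lit 456) (nat_lit 0) (XT.lf (nat_lit 0) (nat_lit 4896156645) (nat_lit 380)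 (nat_lit 1299240023) (nat_lit 456) (nat_lit 401895348) (nat_lit 306) (nat_lit 5) (nat_lit 311) (nat_lit 5) (nat_lit 312) (nat_lit 5) (nat_lit 265) (nat_lit 262) (nat_lit 253)) (XT.lf (nat_lit 0) (nat_lit 2255723303) (nat_lit 456) (nat_lit 2472893189) (nat_lit 532) (nat_lit 1920247934) (nat_lit 300) (nat_lit 5) (nat_lit 306) (nat_lit 5) (nat_lit 307) (nat_lit 5) (nat_lit 266) (nat_lit 262) (nat_lit 252))))) (XT.nd (nat_lit 234) (nat_lit 2204) (nat_lit 0) (XT.nd (nat_lit 78) (nat_lit 1064) (nat_lit 0) (XT.lf (nat_lit 76) (nat_lit 3146990949) (nat_lit 0) (nat_lit 3031584358) (nat_lit 532) (nat_lit 530263270) (nat_lit 301) (nat_lit 5) (nat_lit 300) (nat_lit 5) (nat_lit 307) (nat_lit 5) (nat_lit 267) (nat_lit 262) (nat_lit 251)) (XT.nd (nat_lit 78) (nat_lit 532) (nat_lit 0) (XT.lf (nat_lit 76) (nat_lit 2189649049) (nat_lit 0) (nat_lit 1080725280) (nat_lit 608) (nat_lit 3506413972) (nat_lit 294)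 (nat_lit 5) (nat_lit 293) (nat_lit 5) (nat_lit 301) (nat_lit 5) (nat_lit 268) (nat_lit 262) (nat_lit 250)) (XT.lf (nat_lit 0) (nat_lit 228509174) (nat_lit 608) (nat_lit 5539798665) (nat_lit 76) (nat_lit 1084892768) (nat_lit 286) (nat_lit 5) (nat_lit 294) (nat_lit 5) (nat_lit 287) (nat_lit 5) (nat_lit 269) (nat_lit 262) (nat_lit 249)))) (XT.nd (nat_lit 156) (nat_lit 1520) (nat_lit 0) (XT.nd (nat_lit 78) (nat_lit 76) (nat_lit 0) (XT.lf (nat_lit 0) (nat_lit 484106703) (nat_lit 608) (nat_lit 3441377912) (nat_lit 684) (nat_lit 3011821493) (nat_lit 278) (nat_lit 5) (nat_lit 286) (nat_lit 5) (nat_lit 287) (nat_lit 5) (nat_lit 270) (nat_lit 262) (nat_lit 248)) (XT.lf (nat_lit 0) (nat_lit 614430237) (nat_lit 684) (nat_lit 258550854) (nat_lit 76) (nat_lit 6157293135) (nat_lit 277) (nat_lit 5) (nat_lit 286) (nat_lit 5) (nat_lit 278) (nat_lit 5) (nat_lit 271) (nat_lit 262) (nat_lit 247))) (XT.nd (nat_lit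 78) (nat_lit 836) (nat_lit 0) (XT.lf (nat_lit 0) (nat_lit 4239139730) (nat_lit 760) (nat_lit 958507282) (nat_lit 76) (nat_lit 1933273276) (nat_lit 268) (nat_lit 5) (nat_lit 278) (nat_lit 5) (nat_lit 269) (nat_lit 5) (nat_lit 272) (nat_lit 262) (nat_lit 246)) (XT.lf (nat_lit 0) (nat_lit 666011069) (nat_lit 836) (nat_lit 1598697114) (nat_lit 76) (nat_lit 4975742295) (nat_lit 257) (nat_lit 5) (nat_lit 268) (nat_lit 5) (nat_lit 258) (nat_lit 5) (nat_lit 273) (nat_lit 262) (nat_lit 245))))))) (XT.nd (nat_lit 1092) (nat_lit 4256) (nat_lit 0) (XT.nd (nat_lit 546) (nat_lit 3572) (nat_lit 0) (XT.nd (nat_lit 234) (nat_lit 3648) (nat_lit 0) (XT.nd (nat_lit 78) (nat_lit 1976) (nat_lit 0) (XT.lf (nat_lit 0) (nat_lit 4225779368) (nat_lit 912) (nat_lit 2205841152) (nat_lit 76) (nat_lit 926731401) (nat_lit 246) (nat_lit 5) (nat_lit 258) (nat_lit 5) (nat_lit 247) (nat_lit 5) (nat_lit 274) (nat_lit 262) (nat_lit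 244)) (XT.nd (nat_lit 78) (nat_lit 988) (nat_lit 0) (XT.lf (nat_lit 0) (nat_lit 378081656) (nat_lit 988) (nat_lit 2775106823) (nat_lit 76) (nat_lit 4331888616) (nat_lit 233) (nat_lit 5) (nat_lit 246) (nat_lit 5) (nat_lit 234) (nat_lit 5) (nat_lit 275) (nat_lit 262) (nat_lit 243)) (XT.lf (nat_lit 0) (nat_lit 3895973750) (nat_lit 1064) (nat_lit 3319895908) (nat_lit 76) (nat_lit 404681855) (nat_lit 220) (nat_lit 5) (nat_lit 234) (nat_lit 5) (nat_lit 221) (nat_lit 5) (nat_lit 276) (nat_lit 262) (nat_lit 242)))) (XT.nd (nat_lit 156) (nat_lit 1368) (nat_lit 0) (XT.nd (nat_lit 78) (nat_lit 1216) (nat_lit 0) (XT.lf (nat_lit 0) (nat_lit 3921874413) (nat_lit 1064) (nat_lit 3600915246) (nat_lit 1140) (nat_lit 242245975) (nat_lit 206) (nat_lit 5) (nat_lit 220) (nat_lit 5) (nat_lit 221) (nat_lit 5) (nat_lit 277) (nat_lit 262) (nat_lit 241)) (XT.lf (nat_lit 0) (nat_lit 3258743770) (nat_lit 1216) (nat_lit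 4353812731) (nat_lit 76) (nat_lit 306077697) (nat_lit 190) (nat_lit 5) (nat_lit 206) (nat_lit 5) (nat_lit 191) (nat_lit 5) (nat_lit 278) (nat_lit 262) (nat_lit 240))) (XT.nd (nat_lit 78) (nat_lit 684) (nat_lit 0) (XT.lf (nat_lit 0) (nat_lit 3219800083) (nat_lit 684) (nat_lit 3662993104) (nat_lit 760) (nat_lit 1198656715) (nat_lit 181) (nat_lit 5) (nat_lit 190) (nat_lit 5) (nat_lit 191) (nat_lit 5) (nat_lit 279) (nat_lit 262) (nat_lit 239)) (XT.lf (nat_lit 0) (nat_lit 2316882102) (nat_lit 684) (nat_lit 5362680997) (nat_lit 76) (nat_lit 574462483) (nat_lit 172) (nat_lit 5) (nat_lit 181) (nat_lit 5) (nat_lit 173) (nat_lit 5) (nat_lit 280) (nat_lit 262) (nat_lit 238))))) (XT.nd (nat_lit 234) (nat_lit 1976) (nat_lit 0) (XT.nd (nat_lit 78) (nat_lit 1064) (nat_lit 0) (XT.lf (nat_lit 0) (nat_lit 2552266236) (nat_lit 532) (nat_lit 3399219770) (nat_lit 608) (nat_lit 2484521576) (nat_lit 165) (nat_lit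 5) (nat_lit 172) (nat_lit 5) (nat_lit 173) (nat_lit 5) (nat_lit 281) (nat_lit 262) (nat_lit 237)) (XT.nd (nat_lit 78) (nat_lit 456) (nat_lit 0) (XT.lf (nat_lit 0) (nat_lit 1066797051) (nat_lit 608) (nat_lit 6404999454) (nat_lit 76) (nat_lit 1156676120) (nat_lit 157) (nat_lit 5) (nat_lit 165) (nat_lit 5) (nat_lit 158) (nat_lit 5) (nat_lit 282) (nat_lit 262) (nat_lit 236)) (XT.lf (nat_lit 0) (nat_lit 1860094394) (nat_lit 456) (nat_lit 2863026593) (nat_lit 532) (nat_lit 4107492181) (nat_lit 151) (nat_lit 5) (nat_lit 157) (nat_lit 5) (nat_lit 158) (nat_lit 5) (nat_lit 283) (nat_lit 262) (nat_lit 235)))) (XT.nd (nat_lit 156) (nat_lit 912) (nat_lit 0) (XT.nd (nat_lit 78) (nat_lit 532) (nat_lit 0) (XT.lf (nat_lit 0) (nat_lit 1494720800) (nat_lit 532) (nat_lit 7037422711) (nat_lit 608) (nat_lit 511768299) (nat_lit 144) (nat_lit 5) (nat_lit 151) (nat_lit 5) (nat_lit 152) (nat_lit 5) (nat_lit 284)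 (nat_lit 262) (nat_lit 234)) (XT.lf (nat_lit 0) (nat_lit 1078559967) (nat_lit 456) (nat_lit 2106607424) (nat_lit 532) (nat_lit 6082349835) (nat_lit 137) (nat_lit 5) (nat_lit 143) (nat_lit 5) (nat_lit 144) (nat_lit 5) (nat_lit 285) (nat_lit 262) (nat_lit 233))) (XT.nd (nat_lit 78) (nat_lit 456) (nat_lit 0) (XT.lf (nat_lit 0) (nat_lit 628156270) (nat_lit 456) (nat_lit 6420227848) (nat_lit 532) (nat_lit 2454136158) (nat_lit 131) (nat_lit 5) (nat_lit 137) (nat_lit 5) (nat_lit 138) (nat_lit 5) (nat_lit 286) (nat_lit 262) (nat_lit 232)) (XT.lf (nat_lit 0) (nat_lit 135536875) (nat_lit 380) (nat_lit 1182264355) (nat_lit 456) (nat_lit 8431538589) (nat_lit 125) (nat_lit 5) (nat_lit 130) (nat_lit 5) (nat_lit 131) (nat_lit 5) (nat_lit 287) (nat_lit 262) (nat_lit 231)))))) (XT.nd (nat_lit 546) (nat_lit 1900) (nat_lit 0) (XT.nd (nat_lit 234) (nat_lit 1444) (nat_lit 0) (XT.nd (nat_lit 78) (nat_lit 912)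 (nat_lit 0) (XT.lf (nat_lit 0) (nat_lit 5246983376) (nat_lit 456) (nat_lit 433283274) (nat_lit 76) (nat_lit 4327037057) (nat_lit 125) (nat_lit 5) (nat_lit 131) (nat_lit 5) (nat_lit 126) (nat_lit 5) (nat_lit 288) (nat_lit 262) (nat_lit 230)) (XT.nd (nat_lit 78) (nat_lit 456) (nat_lit 0) (XT.lf (nat_lit 0) (nat_lit 9239650857) (nat_lit 456) (nat_lit 124361683) (nat_lit 532) (nat_lit 914520578) (nat_lit 119) (nat_lit 5) (nat_lit 125) (nat_lit 5) (nat_lit 126) (nat_lit 5) (nat_lit 289) (nat_lit 262) (nat_lit 229)) (XT.lf (nat_lit 0) (nat_lit 3101455220) (nat_lit 456) (nat_lit 1767422559) (nat_lit 76) (nat_lit 5692481062) (nat_lit 113) (nat_lit 5) (nat_lit 119) (nat_lit 5) (nat_lit 114) (nat_lit 5) (nat_lit 290) (nat_lit 262) (nat_lit 228)))) (XT.nd (nat_lit 156) (nat_lit 684) (nat_lit 0) (XT.nd (nat_lit 78) (nat_lit 380) (nat_lit 0) (XT.lf (nat_lit 0) (nat_lit 7298088906) (nat_lit 456) (nat_lit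 2567149943) (nat_lit 76) (nat_lit 992948136) (nat_lit 108) (nat_lit 5) (nat_lit 114) (nat_lit 5) (nat_lit 109) (nat_lit 5) (nat_lit 291) (nat_lit 262) (nat_lit 227)) (XT.lf (nat_lit 0) (nat_lit 566417797) (nat_lit 380) (nat_lit 3484901129) (nat_lit 76) (nat_lit 7117207523) (nat_lit 103) (nat_lit 5) (nat_lit 108) (nat_lit 5) (nat_lit 104) (nat_lit 5) (nat_lit 292) (nat_lit 262) (nat_lit 226))) (XT.nd (nat_lit 78) (nat_lit 304) (nat_lit 0) (XT.lf (nat_lit 0) (nat_lit 4843659360) (nat_lit 456) (nat_lit 4536918644) (nat_lit 76) (nat_lit 2112291083) (nat_lit 98) (nat_lit 5) (nat_lit 104) (nat_lit 5) (nat_lit 99) (nat_lit 5) (nat_lit 293) (nat_lit 262) (nat_lit 225)) (XT.lf (nat_lit 0) (nat_lit 6108736719) (nat_lit 304) (nat_lit 3267848419) (nat_lit 380) (nat_lit 2455669533) (nat_lit 94) (nat_lit 5) (nat_lit 98) (nat_lit 5) (nat_lit 99) (nat_lit 5) (nat_lit 294) (nat_lit 262) (nat_lit 224)))))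 (XT.nd (nat_lit 234) (nat_lit 912) (nat_lit 0) (XT.nd (nat_lit 78) (nat_lit 608) (nat_lit 0) (XT.lf (nat_lit 0) (nat_lit 1945578261) (nat_lit 380) (nat_lit 7070253190) (nat_lit 76) (nat_lit 3171209838) (nat_lit 89) (nat_lit 5) (nat_lit 94) (nat_lit 5) (nat_lit 90) (nat_lit 5) (nat_lit 295) (nat_lit 262) (nat_lit 223)) (XT.nd (nat_lit 78) (nat_lit 304) (nat_lit 0) (XT.lf (nat_lit 0) (nat_lit 3954210119) (nat_lit 304) (nat_lit 2603994714) (nat_lit 380) (nat_lit 5999440764) (nat_lit 85) (nat_lit 5) (nat_lit 89) (nat_lit 5) (nat_lit 90) (nat_lit 5) (nat_lit 296) (nat_lit 262) (nat_lit 222)) (XT.lf (nat_lit 0) (nat_lit 2619548893) (nat_lit 304) (nat_lit 8834130695) (nat_lit 380) (nat_lit 1491601522) (nat_lit 81) (nat_lit 5) (nat_lit 85) (nat_lit 5) (nat_lit 86) (nat_lit 5) (nat_lit 297) (nat_lit 262) (nat_lit 221)))) (XT.nd (nat_lit 156) (nat_lit 608) (nat_lit 0) (XT.nd (nat_lit 78) (nat_lit 0)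 (nat_lit 0) (XT.lf (nat_lit 0) (nat_lit 1074081206) (nat_lit 228) (nat_lit 2146246040) (nat_lit 304) (nat_lit 10129840142) (nat_lit 77) (nat_lit 5) (nat_lit 80) (nat_lit 5) (nat_lit 81) (nat_lit 5) (nat_lit 298) (nat_lit 262) (nat_lit 220)) (XT.lf (nat_lit 0) (nat_lit 8209913033) (nat_lit 304) (nat_lit 696437146) (nat_lit 76) (nat_lit 4866376912) (nat_lit 77) (nat_lit 5) (nat_lit 81) (nat_lit 5) (nat_lit 78) (nat_lit 5) (nat_lit 299) (nat_lit 262) (nat_lit 219))) (XT.nd (nat_lit 78) (nat_lit 304) (nat_lit 0) (XT.lf (nat_lit 0) (nat_lit 11550677749) (nat_lit 304) (nat_lit 1953284922) (nat_lit 380) (nat_lit 710859178) (nat_lit 73) (nat_lit 5) (nat_lit 77) (nat_lit 5) (nat_lit 78) (nat_lit 5) (nat_lit 300) (nat_lit 262) (nat_lit 218)) (XT.lf (nat_lit 0) (nat_lit 4375992170) (nat_lit 304) (nat_lit 4948468121) (nat_lit 76) (nat_lit 5351014020) (nat_lit 69) (nat_lit 5) (nat_lit 73) (nat_lit 5)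 (nat_lit 70) (nat_lit 5) (nat_lit 301) (nat_lit 262) (nat_lit 217))))))))
noncomputable def xc54 : XT := (XT.nd (nat_lit 2106) (nat_lit 1064) (nat_lit 0) (XT.nd (nat_lit 1014) (nat_lit 1444) (nat_lit 0) (XT.nd (nat_lit 468) (nat_lit 988) (nat_lit 0) (XT.nd (nat_lit 234) (nat_lit 456) (nat_lit 0) (XT.nd (nat_lit 78) (nat_lit 532) (nat_lit 0) (XT.lf (nat_lit 0) (nat_lit 7644919315) (nat_lit 228) (nat_lit 2104917499) (nat_lit 304) (nat_lit 5407740713) (nat_lit 66) (nat_lit 5) (nat_lit 69) (nat_lit 5) (nat_lit 70) (nat_lit 5) (nat_lit 302) (nat_lit 262) (nat_lit 216)) (XT.nd (nat_lit 78) (nat_lit 304) (nat_lit 0) (XT.lf (nat_lit 0) (nat_lit 5247631639) (nat_lit 228) (nat_lit 10227680433) (nat_lit 304) (nat_lit 186033153) (nat_lit 63) (nat_lit 5) (nat_lit 66) (nat_lit 5) (nat_lit 67) (nat_lit 5) (nat_lit 303) (nat_lit 262) (nat_lit 215)) (XT.lf (nat_lit 0) (nat_lit 2481424677) (nat_lit 228) (nat_lit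 2765237243) (nat_lit 304) (nat_lit 10940557985) (nat_lit 59) (nat_lit 5) (nat_lit 62) (nat_lit 5) (nat_lit 63) (nat_lit 5) (nat_lit 304) (nat_lit 262) (nat_lit 214)))) (XT.nd (nat_lit 78) (nat_lit 456) (nat_lit 0) (XT.lf (nat_lit 0) (nat_lit 11036185940) (nat_lit 304) (nat_lit 656509690) (nat_lit 76) (nat_lit 5044007989) (nat_lit 59) (nat_lit 5) (nat_lit 63) (nat_lit 5) (nat_lit 60) (nat_lit 5) (nat_lit 305) (nat_lit 262) (nat_lit 213)) (XT.nd (nat_lit 78) (nat_lit 304) (nat_lit 0) (XT.lf (nat_lit 0) (nat_lit 13171889443) (nat_lit 152) (nat_lit 4033066426) (nat_lit 228) (nat_lit 106052374) (nat_lit 57) (nat_lit 5) (nat_lit 59) (nat_lit 5) (nat_lit 60) (nat_lit 5) (nat_lit 306) (nat_lit 262) (nat_lit 212)) (XT.lf (nat_lit 0) (nat_lit 5733313468) (nat_lit 304) (nat_lit 8123976053) (nat_lit 76) (nat_lit 4052779954) (nat_lit 53) (nat_lit 5) (nat_lit 57) (nat_lit 5) (nat_lit 54) (nat_lit 5) (nat_lit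 307) (nat_lit 262) (nat_lit 211))))) (XT.nd (nat_lit 234) (nat_lit 532) (nat_lit 0) (XT.nd (nat_lit 78) (nat_lit 304) (nat_lit 0) (XT.lf (nat_lit 0) (nat_lit 5930320361) (nat_lit 152) (nat_lit 6011329354) (nat_lit 228) (nat_lit 6595061753) (nat_lit 51) (nat_lit 5) (nat_lit 53) (nat_lit 5) (nat_lit 54) (nat_lit 5) (nat_lit 308) (nat_lit 262) (nat_lit 210)) (XT.nd (nat_lit 78) (nat_lit 76) (nat_lit 0) (XT.lf (nat_lit 0) (nat_lit 1575356377) (nat_lit 228) (nat_lit 16946132565) (nat_lit 304) (nat_lit 671397427) (nat_lit 48) (nat_lit 5) (nat_lit 51) (nat_lit 5) (nat_lit 52) (nat_lit 5) (nat_lit 309) (nat_lit 262) (nat_lit 209)) (XT.lf (nat_lit 0) (nat_lit 5573321711) (nat_lit 304) (nat_lit 3360100587) (nat_lit 76) (nat_lit 10942884284) (nat_lit 47) (nat_lit 5) (nat_lit 51) (nat_lit 5) (nat_lit 48) (nat_lit 5) (nat_lit 310) (nat_lit 262) (nat_lit 208)))) (XT.nd (nat_lit 156) (nat_lit 228) (nat_lit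 0) (XT.nd (nat_lit 78) (nat_lit 152) (nat_lit 0) (XT.lf (nat_lit 0) (nat_lit 11740661846) (nat_lit 152) (nat_lit 432918358) (nat_lit 228) (nat_lit 8418431914) (nat_lit 45) (nat_lit 5) (nat_lit 47) (nat_lit 5) (nat_lit 48) (nat_lit 5) (nat_lit 311) (nat_lit 262) (nat_lit 207)) (XT.lf (nat_lit 0) (nat_lit 6274125005) (nat_lit 152) (nat_lit 12952267339) (nat_lit 228) (nat_lit 2113462372) (nat_lit 43) (nat_lit 5) (nat_lit 45) (nat_lit 5) (nat_lit 46) (nat_lit 5) (nat_lit 312) (nat_lit 262) (nat_lit 206))) (XT.nd (nat_lit 78) (nat_lit 0) (nat_lit 0) (XT.lf (nat_lit 0) (nat_lit 82472529) (nat_lit 152) (nat_lit 4380378717) (nat_lit 228) (nat_lit 17659643283) (nat_lit 40) (nat_lit 5) (nat_lit 42) (nat_lit 5) (nat_lit 43) (nat_lit 5) (nat_lit 313) (nat_lit 262) (nat_lit 205)) (XT.lf (nat_lit 0) (nat_lit 11473932305) (nat_lit 228) (nat_lit 6791685768) (nat_lit 76) (nat_lit 4673555317) (nat_lit 40)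 (nat_lit 5) (nat_lit 43) (nat_lit 5) (nat_lit 41) (nat_lit 5) (nat_lit 314) (nat_lit 262) (nat_lit 204)))))) (XT.nd (nat_lit 546) (nat_lit 608) (nat_lit 0) (XT.nd (nat_lit 234) (nat_lit 456) (nat_lit 0) (XT.nd (nat_lit 78) (nat_lit 228) (nat_lit 0) (XT.lf (nat_lit 0) (nat_lit 9272258863) (nat_lit 152) (nat_lit 9647337015) (nat_lit 228) (nat_lit 4874592950) (nat_lit 38) (nat_lit 5) (nat_lit 40) (nat_lit 5) (nat_lit 41) (nat_lit 5) (nat_lit 315) (nat_lit 262) (nat_lit 203)) (XT.nd (nat_lit 78) (nat_lit 0) (nat_lit 0) (XT.lf (nat_lit 0) (nat_lit 1518628884) (nat_lit 152) (nat_lit 524005862) (nat_lit 228) (nat_lit 22647643188) (nat_lit 35) (nat_lit 5) (nat_lit 37) (nat_lit 5) (nat_lit 38) (nat_lit 5) (nat_lit 316) (nat_lit 262) (nat_lit 202)) (XT.lf (nat_lit 0) (nat_lit 9396836408) (nat_lit 228) (nat_lit 7180602040) (nat_lit 76) (nat_lit 9046548034) (nat_lit 35) (nat_lit 5) (nat_lit 38) (nat_lit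 5) (nat_lit 36) (nat_lit 5) (nat_lit 317) (nat_lit 262) (nat_lit 201)))) (XT.nd (nat_lit 156) (nat_lit 304) (nat_lit 0) (XT.nd (nat_lit 78) (nat_lit 0) (nat_lit 0) (XT.lf (nat_lit 0) (nat_lit 9717309946) (nat_lit 152) (nat_lit 7455347281) (nat_lit 228) (nat_lit 9430125656) (nat_lit 33) (nat_lit 5) (nat_lit 35) (nat_lit 5) (nat_lit 36) (nat_lit 5) (nat_lit 318) (nat_lit 262) (nat_lit 200)) (XT.lf (nat_lit 0) (nat_lit 25388647945) (nat_lit 228) (nat_lit 115096841) (nat_lit 76) (nat_lit 2125251713) (nat_lit 33) (nat_lit 5) (nat_lit 36) (nat_lit 5) (nat_lit 34) (nat_lit 4) (nat_lit 319) (nat_lit 262) (nat_lit 199))) (XT.nd (nat_lit 78) (nat_lit 152) (nat_lit 0) (XT.lf (nat_lit 0) (nat_lit 5411034231) (nat_lit 152) (nat_lit 11061918583) (nat_lit 76) (nat_lit 12225882965) (nat_lit 31) (nat_lit 5) (nat_lit 33) (nat_lit 5) (nat_lit 32) (nat_lit 5) (nat_lit 320) (nat_lit 262) (nat_lit 198)) (XT.lf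 (nat_lit 0) (nat_lit 6489847859) (nat_lit 152) (nat_lit 6932109799) (nat_lit 228) (nat_lit 16398861273) (nat_lit 29) (nat_lit 5) (nat_lit 31) (nat_lit 5) (nat_lit 32) (nat_lit 5) (nat_lit 321) (nat_lit 262) (nat_lit 197))))) (XT.nd (nat_lit 234) (nat_lit 456) (nat_lit 0) (XT.nd (nat_lit 78) (nat_lit 152) (nat_lit 0) (XT.lf (nat_lit 0) (nat_lit 21938375508) (nat_lit 228) (nat_lit 5945765205) (nat_lit 76) (nat_lit 3111627816) (nat_lit 29) (nat_lit 5) (nat_lit 32) (nat_lit 5) (nat_lit 30) (nat_lit 4) (nat_lit 322) (nat_lit 262) (nat_lit 196)) (XT.nd (nat_lit 78) (nat_lit 76) (nat_lit 0) (XT.lf (nat_lit 0) (nat_lit 12414456133) (nat_lit 76) (nat_lit 18617637827) (nat_lit 152) (nat_lit 1192842239) (nat_lit 28) (nat_lit 5) (nat_lit 29) (nat_lit 5) (nat_lit 30) (nat_lit 4) (nat_lit 323) (nat_lit 262) (nat_lit 195)) (XT.lf (nat_lit 0) (nat_lit 6951866169) (nat_lit 152) (nat_lit 1830678731) (nat_lit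 76) (nat_lit 24730250060) (nat_lit 27) (nat_lit 5) (nat_lit 29) (nat_lit 5) (nat_lit 28) (nat_lit 5) (nat_lit 324) (nat_lit 262) (nat_lit 194)))) (XT.nd (nat_lit 156) (nat_lit 228) (nat_lit 0) (XT.nd (nat_lit 78) (nat_lit 76) (nat_lit 0) (XT.lf (nat_lit 0) (nat_lit 15626874396) (nat_lit 228) (nat_lit 17565489710) (nat_lit 76) (nat_lit 1667909414) (nat_lit 25) (nat_lit 5) (nat_lit 28) (nat_lit 5) (nat_lit 26) (nat_lit 4) (nat_lit 325) (nat_lit 262) (nat_lit 193)) (XT.lf (nat_lit 0) (nat_lit 1009830571) (nat_lit 76) (nat_lit 23808773261) (nat_lit 152) (nat_lit 11454045619) (nat_lit 24) (nat_lit 5) (nat_lit 25) (nat_lit 5) (nat_lit 26) (nat_lit 4) (nat_lit 326) (nat_lit 262) (nat_lit 192))) (XT.nd (nat_lit 78) (nat_lit 228) (nat_lit 0) (XT.lf (nat_lit 0) (nat_lit 20821481354) (nat_lit 76) (nat_lit 13795913843) (nat_lit 152) (nat_lit 3133836687) (nat_lit 24) (nat_lit 5) (nat_lit 25) (nat_lit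 5) (nat_lit 26) (nat_lit 4) (nat_lit 327) (nat_lit 262) (nat_lit 191)) (XT.lf (nat_lit 0) (nat_lit 2252758417) (nat_lit 152) (nat_lit 3229873023) (nat_lit 228) (nat_lit 33819820317) (nat_lit 21) (nat_lit 5) (nat_lit 23) (nat_lit 5) (nat_lit 24) (nat_lit 5) (nat_lit 328) (nat_lit 262) (nat_lit 190))))))) (XT.nd (nat_lit 1092) (nat_lit 456) (nat_lit 0) (XT.nd (nat_lit 546) (nat_lit 228) (nat_lit 0) (XT.nd (nat_lit 234) (nat_lit 304) (nat_lit 0) (XT.nd (nat_lit 78) (nat_lit 76) (nat_lit 0) (XT.lf (nat_lit 0) (nat_lit 14685986157) (nat_lit 228) (nat_lit 18343166327) (nat_lit 76) (nat_lit 7894533565) (nat_lit 21) (nat_lit 5) (nat_lit 24) (nat_lit 5) (nat_lit 22) (nat_lit 4) (nat_lit 329) (nat_lit 262) (nat_lit 189)) (XT.nd (nat_lit 78) (nat_lit 0) (nat_lit 0) (XT.lf (nat_lit 0) (nat_lit 1236518326) (nat_lit 76) (nat_lit 23127640911) (nat_lit 152) (nat_lit 18261393338) (nat_lit 20) (nat_lit 5)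 (nat_lit 21) (nat_lit 5) (nat_lit 22) (nat_lit 4) (nat_lit 330) (nat_lit 262) (nat_lit 188)) (XT.lf (nat_lit 0) (nat_lit 22126346929) (nat_lit 76) (nat_lit 12559804676) (nat_lit 152) (nat_lit 9721573064) (nat_lit 20) (nat_lit 5) (nat_lit 21) (nat_lit 5) (nat_lit 22) (nat_lit 4) (nat_lit 331) (nat_lit 262) (nat_lit 187)))) (XT.nd (nat_lit 156) (nat_lit 76) (nat_lit 0) (XT.nd (nat_lit 78) (nat_lit 228) (nat_lit 0) (XT.lf (nat_lit 0) (nat_lit 44010992190) (nat_lit 76) (nat_lit 1485712278) (nat_lit 152) (nat_lit 783136177) (nat_lit 20) (nat_lit 5) (nat_lit 21) (nat_lit 5) (nat_lit 22) (nat_lit 4) (nat_lit 332) (nat_lit 262) (nat_lit 186)) (XT.lf (nat_lit 0) (nat_lit 8690266478) (nat_lit 228) (nat_lit 29354099618) (nat_lit 76) (nat_lit 10191046920) (nat_lit 17) (nat_lit 5) (nat_lit 20) (nat_lit 5) (nat_lit 18) (nat_lit 4) (nat_lit 333) (nat_lit 262) (nat_lit 185))) (XT.nd (nat_lit 78) (nat_lit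 76) (nat_lit 0) (XT.lf (nat_lit 0) (nat_lit 18633995249) (nat_lit 228) (nat_lit 9221851161) (nat_lit 76) (nat_lit 22432307425) (nat_lit 17) (nat_lit 5) (nat_lit 20) (nat_lit 5) (nat_lit 18) (nat_lit 4) (nat_lit 334) (nat_lit 262) (nat_lit 184)) (XT.lf (nat_lit 0) (nat_lit 12108478167) (nat_lit 76) (nat_lit 17058177998) (nat_lit 152) (nat_lit 23274130795) (nat_lit 16) (nat_lit 5) (nat_lit 17) (nat_lit 5) (nat_lit 18) (nat_lit 4) (nat_lit 335) (nat_lit 262) (nat_lit 183))))) (XT.nd (nat_lit 234) (nat_lit 76) (nat_lit 0) (XT.nd (nat_lit 78) (nat_lit 152) (nat_lit 0) (XT.lf (nat_lit 0) (nat_lit 34654506471) (nat_lit 76) (nat_lit 5642481410) (nat_lit 152) (nat_lit 14401940002) (nat_lit 16) (nat_lit 5) (nat_lit 17) (nat_lit 5) (nat_lit 18) (nat_lit 4) (nat_lit 336) (nat_lit 262) (nat_lit 182)) (XT.nd (nat_lit 78) (nat_lit 76) (nat_lit 0) (XT.lf (nat_lit 0) (nat_lit 1177898798) (nat_lit 76) (nat_lit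 50855307427) (nat_lit 76) (nat_lit 5035295450) (nat_lit 15) (nat_lit 4) (nat_lit 16) (nat_lit 5) (nat_lit 16) (nat_lit 4) (nat_lit 337) (nat_lit 262) (nat_lit 181)) (XT.lf (nat_lit 0) (nat_lit 4948894449) (nat_lit 152) (nat_lit 35816505581) (nat_lit 76) (nat_lit 18782490241) (nat_lit 14) (nat_lit 5) (nat_lit 16) (nat_lit 5) (nat_lit 15) (nat_lit 4) (nat_lit 338) (nat_lit 262) (nat_lit 180)))) (XT.nd (nat_lit 156) (nat_lit 0) (nat_lit 0) (XT.nd (nat_lit 78) (nat_lit 76) (nat_lit 0) (XT.lf (nat_lit 0) (nat_lit 15307732503) (nat_lit 152) (nat_lit 14828777986) (nat_lit 76) (nat_lit 32013860987) (nat_lit 14) (nat_lit 5) (nat_lit 16) (nat_lit 5) (nat_lit 15) (nat_lit 4) (nat_lit 339) (nat_lit 262) (nat_lit 179)) (XT.lf (nat_lit 0) (nat_lit 7313669054) (nat_lit 76) (nat_lit 18920773768) (nat_lit 152) (nat_lit 38647041815) (nat_lit 13) (nat_lit 5) (nat_lit 14) (nat_lit 5) (nat_lit 15) (nat_lit 4)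 (nat_lit 340) (nat_lit 262) (nat_lit 178))) (XT.nd (nat_lit 78) (nat_lit 0) (nat_lit 0) (XT.lf (nat_lit 0) (nat_lit 30836804908) (nat_lit 76) (nat_lit 7003580938) (nat_lit 152) (nat_lit 29904786228) (nat_lit 13) (nat_lit 5) (nat_lit 14) (nat_lit 5) (nat_lit 15) (nat_lit 4) (nat_lit 341) (nat_lit 262) (nat_lit 177)) (XT.lf (nat_lit 0) (nat_lit 50060623407) (nat_lit 152) (nat_lit 15303907024) (nat_lit 0) (nat_lit 5386498799) (nat_lit 13) (nat_lit 5) (nat_lit 15) (nat_lit 4) (nat_lit 13) (nat_lit 4) (nat_lit 342) (nat_lit 262) (nat_lit 176)))))) (XT.nd (nat_lit 546) (nat_lit 228) (nat_lit 0) (XT.nd (nat_lit 234) (nat_lit 76) (nat_lit 0) (XT.nd (nat_lit 78) (nat_lit 76) (nat_lit 0) (XT.lf (nat_lit 0) (nat_lit 7421575348) (nat_lit 76) (nat_lit 55594267034) (nat_lit 76) (nat_lit 10887622792) (nat_lit 12) (nat_lit 4) (nat_lit 13) (nat_lit 5) (nat_lit 13) (nat_lit 4) (nat_lit 343) (nat_lit 262) (nat_lit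 175)) (XT.nd (nat_lit 78) (nat_lit 76) (nat_lit 0) (XT.lf (nat_lit 0) (nat_lit 31570760382) (nat_lit 76) (nat_lit 45188090884) (nat_lit 76) (nat_lit 450475561) (nat_lit 12) (nat_lit 4) (nat_lit 13) (nat_lit 5) (nat_lit 13) (nat_lit 4) (nat_lit 344) (nat_lit 262) (nat_lit 174)) (XT.lf (nat_lit 0) (nat_lit 10286622803) (nat_lit 152) (nat_lit 23885267299) (nat_lit 76) (nat_lit 46506070856) (nat_lit 11) (nat_lit 5) (nat_lit 13) (nat_lit 5) (nat_lit 12) (nat_lit 4) (nat_lit 345) (nat_lit 262) (nat_lit 173)))) (XT.nd (nat_lit 156) (nat_lit 0) (nat_lit 0) (XT.nd (nat_lit 78) (nat_lit 76) (nat_lit 0) (XT.lf (nat_lit 0) (nat_lit 21535301425) (nat_lit 152) (nat_lit 1078541379) (nat_lit 76) (nat_lit 61706533139) (nat_lit 11) (nat_lit 5) (nat_lit 13) (nat_lit 5) (nat_lit 12) (nat_lit 4) (nat_lit 346) (nat_lit 262) (nat_lit 172)) (XT.lf (nat_lit 0) (nat_lit 23294808916) (nat_lit 76) (nat_lit 10260248312)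 (nat_lit 152) (nat_lit 54583599160) (nat_lit 10) (nat_lit 5) (nat_lit 11) (nat_lit 5) (nat_lit 12) (nat_lit 4) (nat_lit 347) (nat_lit 262) (nat_lit 171))) (XT.nd (nat_lit 78) (nat_lit 0) (nat_lit 0) (XT.lf (nat_lit 0) (nat_lit 46198134740) (nat_lit 152) (nat_lit 43292116381) (nat_lit 0) (nat_lit 2656933534) (nat_lit 10) (nat_lit 5) (nat_lit 12) (nat_lit 4) (nat_lit 10) (nat_lit 4) (nat_lit 348) (nat_lit 262) (nat_lit 170)) (XT.lf (nat_lit 0) (nat_lit 59562697987) (nat_lit 152) (nat_lit 20792828104) (nat_lit 0) (nat_lit 15997936923) (nat_lit 10) (nat_lit 5) (nat_lit 12) (nat_lit 4) (nat_lit 10) (nat_lit 4) (nat_lit 349) (nat_lit 262) (nat_lit 169))))) (XT.nd (nat_lit 234) (nat_lit 152) (nat_lit 0) (XT.nd (nat_lit 78) (nat_lit 0) (nat_lit 0) (XT.lf (nat_lit 0) (nat_lit 2862064051) (nat_lit 76) (nat_lit 70747387431) (nat_lit 76) (nat_lit 27160188409) (nat_lit 9) (nat_lit 4) (nat_lit 10) (nat_lit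 5) (nat_lit 10) (nat_lit 4) (nat_lit 350) (nat_lit 262) (nat_lit 168)) (XT.nd (nat_lit 78) (nat_lit 0) (nat_lit 0) (XT.lf (nat_lit 0) (nat_lit 28109722687) (nat_lit 76) (nat_lit 60449723807) (nat_lit 76) (nat_lit 16841155301) (nat_lit 9) (nat_lit 4) (nat_lit 10) (nat_lit 5) (nat_lit 10) (nat_lit 4) (nat_lit 351) (nat_lit 262) (nat_lit 167)) (XT.lf (nat_lit 0) (nat_lit 54596443226) (nat_lit 76) (nat_lit 49647983766) (nat_lit 76) (nat_lit 6019063370) (nat_lit 9) (nat_lit 4) (nat_lit 10) (nat_lit 5) (nat_lit 10) (nat_lit 4) (nat_lit 352) (nat_lit 262) (nat_lit 166)))) (XT.nd (nat_lit 156) (nat_lit 76) (nat_lit 0) (XT.nd (nat_lit 78) (nat_lit 0) (nat_lit 0) (XT.lf (nat_lit 0) (nat_lit 5227810587) (nat_lit 152) (nat_lit 33035847655) (nat_lit 76) (nat_lit 77104688064) (nat_lit 8) (nat_lit 5) (nat_lit 10) (nat_lit 5) (nat_lit 9) (nat_lit 4) (nat_lit 353) (nat_lit 262) (nat_lit 165)) (XT.lf (nat_lit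 0) (nat_lit 16902235972) (nat_lit 152) (nat_lit 9355223887) (nat_lit 76) (nat_lit 94469509377) (nat_lit 8) (nat_lit 5) (nat_lit 10) (nat_lit 5) (nat_lit 9) (nat_lit 4) (nat_lit 354) (nat_lit 262) (nat_lit 164))) (XT.nd (nat_lit 78) (nat_lit 0) (nat_lit 0) (XT.lf (nat_lit 0) (nat_lit 15797328298) (nat_lit 76) (nat_lit 13503987927) (nat_lit 152) (nat_lit 97047981715) (nat_lit 7) (nat_lit 5) (nat_lit 8) (nat_lit 5) (nat_lit 9) (nat_lit 4) (nat_lit 355) (nat_lit 262) (nat_lit 163)) (XT.lf (nat_lit 0) (nat_lit 42383222987) (nat_lit 76) (nat_lit 22841139) (nat_lit 152) (nat_lit 89844110051) (nat_lit 7) (nat_lit 5) (nat_lit 8) (nat_lit 5) (nat_lit 9) (nat_lit 4) (nat_lit 356) (nat_lit 262) (nat_lit 162))))))))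
noncomputable def xc55 : XT := (XT.nd (nat_lit 34944) (nat_lit 0) (nat_lit 3116) (XT.nd (nat_lit 33852) (nat_lit 0) (nat_lit 11476) (XT.nd (nat_lit 33306) (nat_lit 0) (nat_lit 21204) (XT.nd (nat_lit 234) (nat_lit 76) (nat_lit 0) (XT.nd (nat_lit 78) (nat_lit 0) (nat_lit 0) (XT.lf (nat_lit 0) (nat_lit 56291728346) (nat_lit 152) (nat_lit 68302591332) (nat_lit 0) (nat_lit 13848006570) (nat_lit 7) (nat_lit 5) (nat_lit 9) (nat_lit 4) (nat_lit 7) (nat_lit 4) (nat_lit 357) (nat_lit 262) (nat_lit 161)) (XT.nd (nat_lit 78) (nat_lit 0) (nat_lit 0) (XT.lf (nat_lit 0) (nat_lit 70862220606) (nat_lit 152) (nat_lit 45678396972) (nat_lit 0) (nat_lit 28403754274) (nat_lit 7) (nat_lit 5) (nat_lit 9) (nat_lit 4) (nat_lit 7) (nat_lit 4) (nat_lit 358) (nat_lit 262) (nat_lit 160)) (XT.lf (nat_lit 0) (nat_lit 86152012994) (nat_lit 152) (nat_lit 21940281417) (nat_lit 0) (nat_lit 43679504227) (nat_lit 7) (nat_lit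 5) (nat_lit 9) (nat_lit 4) (nat_lit 7) (nat_lit 4) (nat_lit 359) (nat_lit 262) (nat_lit 159)))) (XT.nd (nat_lit 156) (nat_lit 0) (nat_lit 0) (XT.nd (nat_lit 78) (nat_lit 0) (nat_lit 0) (XT.lf (nat_lit 0) (nat_lit 3027349139) (nat_lit 76) (nat_lit 99199261369) (nat_lit 76) (nat_lit 56713378854) (nat_lit 6) (nat_lit 4) (nat_lit 7) (nat_lit 5) (nat_lit 7) (nat_lit 4) (nat_lit 360) (nat_lit 262) (nat_lit 158)) (XT.lf (nat_lit 0) (nat_lit 29685855289) (nat_lit 76) (nat_lit 89636417829) (nat_lit 76) (nat_lit 47137798412) (nat_lit 6) (nat_lit 4) (nat_lit 7) (nat_lit 5) (nat_lit 7) (nat_lit 4) (nat_lit 361) (nat_lit 262) (nat_lit 157))) (XT.nd (nat_lit 78) (nat_lit 0) (nat_lit 0) (XT.lf (nat_lit 0) (nat_lit 57662055044) (nat_lit 76) (nat_lit 79602548941) (nat_lit 76) (nat_lit 37091799140) (nat_lit 6) (nat_lit 4) (nat_lit 7) (nat_lit 5) (nat_lit 7) (nat_lit 4) (nat_lit 362) (nat_lit 262) (nat_lit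 156)) (XT.lf (nat_lit 0) (nat_lit 87022558403) (nat_lit 76) (nat_lit 69073764540) (nat_lit 76) (nat_lit 26551461992) (nat_lit 6) (nat_lit 4) (nat_lit 7) (nat_lit 5) (nat_lit 7) (nat_lit 4) (nat_lit 363) (nat_lit 262) (nat_lit 155))))) (XT.nd (nat_lit 234) (nat_lit 1064) (nat_lit 0) (XT.nd (nat_lit 78) (nat_lit 456) (nat_lit 0) (XT.lf (nat_lit 0) (nat_lit 181488972) (nat_lit 0) (nat_lit 181488972) (nat_lit 380) (nat_lit 2911801176) (nat_lit 305) (nat_lit 5) (nat_lit 305) (nat_lit 3) (nat_lit 310) (nat_lit 3) (nat_lit 263) (nat_lit 263) (nat_lit 254)) (XT.nd (nat_lit 78) (nat_lit 456) (nat_lit 0) (XT.lf (nat_lit 0) (nat_lit 4648392336) (nat_lit 380) (nat_lit 1119126727) (nat_lit 456) (nat_lit 821411921) (nat_lit 305) (nat_lit 5) (nat_lit 310) (nat_lit 3) (nat_lit 311) (nat_lit 5) (nat_lit 264) (nat_lit 263) (nat_lit 253)) (XT.lf (nat_lit 0) (nat_lit 1887802620) (nat_lit 456) (nat_lit 2510311429)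 (nat_lit 532) (nat_lit 2238207386) (nat_lit 299) (nat_lit 5) (nat_lit 305) (nat_lit 5) (nat_lit 306) (nat_lit 5) (nat_lit 265) (nat_lit 263) (nat_lit 252)))) (XT.nd (nat_lit 156) (nat_lit 532) (nat_lit 0) (XT.nd (nat_lit 78) (nat_lit 532) (nat_lit 0) (XT.lf (nat_lit 76) (nat_lit 2872175671) (nat_lit 0) (nat_lit 2794443928) (nat_lit 532) (nat_lit 1025338035) (nat_lit 300) (nat_lit 5) (nat_lit 299) (nat_lit 5) (nat_lit 306) (nat_lit 5) (nat_lit 266) (nat_lit 263) (nat_lit 251)) (XT.lf (nat_lit 76) (nat_lit 1695368849) (nat_lit 0) (nat_lit 941831766) (nat_lit 608) (nat_lit 4118455162) (nat_lit 293) (nat_lit 5) (nat_lit 292) (nat_lit 5) (nat_lit 300) (nat_lit 5) (nat_lit 267) (nat_lit 263) (nat_lit 250))) (XT.nd (nat_lit 78) (nat_lit 608) (nat_lit 0) (XT.lf (nat_lit 76) (nat_lit 595565924) (nat_lit 0) (nat_lit 5699143795) (nat_lit 608) (nat_lit 532910319) (nat_lit 294) (nat_lit 5) (nat_lit 293)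 (nat_lit 5) (nat_lit 301) (nat_lit 5) (nat_lit 268) (nat_lit 263) (nat_lit 249)) (XT.lf (nat_lit 0) (nat_lit 3015540154) (nat_lit 608) (nat_lit 443775647) (nat_lit 684) (nat_lit 3447882669) (nat_lit 285) (nat_lit 5) (nat_lit 293) (nat_lit 5) (nat_lit 294) (nat_lit 5) (nat_lit 269) (nat_lit 263) (nat_lit 248)))))) (XT.nd (nat_lit 546) (nat_lit 4788) (nat_lit 0) (XT.nd (nat_lit 234) (nat_lit 3648) (nat_lit 0) (XT.nd (nat_lit 78) (nat_lit 1292) (nat_lit 0) (XT.lf (nat_lit 76) (nat_lit 5603575897) (nat_lit 0) (nat_lit 975622873) (nat_lit 684) (nat_lit 416266752) (nat_lit 286) (nat_lit 5) (nat_lit 285) (nat_lit 5) (nat_lit 294) (nat_lit 5) (nat_lit 270) (nat_lit 263) (nat_lit 247)) (XT.nd (nat_lit 78) (nat_lit 684) (nat_lit 0) (XT.lf (nat_lit 0) (nat_lit 3038801819) (nat_lit 684) (nat_lit 2306655326) (nat_lit 76) (nat_lit 1745993868) (nat_lit 277) (nat_lit 5) (nat_lit 286) (nat_lit 5) (nat_lit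 278) (nat_lit 5) (nat_lit 271) (nat_lit 263) (nat_lit 246)) (XT.lf (nat_lit 0) (nat_lit 4034686201) (nat_lit 684) (nat_lit 2496396398) (nat_lit 760) (nat_lit 665130040) (nat_lit 268) (nat_lit 5) (nat_lit 277) (nat_lit 5) (nat_lit 278) (nat_lit 5) (nat_lit 272) (nat_lit 263) (nat_lit 245)))) (XT.nd (nat_lit 156) (nat_lit 1976) (nat_lit 0) (XT.nd (nat_lit 78) (nat_lit 836) (nat_lit 0) (XT.lf (nat_lit 0) (nat_lit 2712996935) (nat_lit 836) (nat_lit 3980142181) (nat_lit 76) (nat_lit 616179983) (nat_lit 257) (nat_lit 5) (nat_lit 268) (nat_lit 5) (nat_lit 258) (nat_lit 5) (nat_lit 273) (nat_lit 263) (nat_lit 244)) (XT.lf (nat_lit 0) (nat_lit 2663628469) (nat_lit 836) (nat_lit 3489935860) (nat_lit 912) (nat_lit 1277357905) (nat_lit 246) (nat_lit 5) (nat_lit 257) (nat_lit 5) (nat_lit 258) (nat_lit 5) (nat_lit 274) (nat_lit 263) (nat_lit 243))) (XT.nd (nat_lit 78) (nat_lit 988) (nat_lit 0) (XT.lf (nat_lit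 0) (nat_lit 2044511275) (nat_lit 912) (nat_lit 9675133) (nat_lit 988) (nat_lit 5507329431) (nat_lit 233) (nat_lit 5) (nat_lit 245) (nat_lit 5) (nat_lit 246) (nat_lit 5) (nat_lit 275) (nat_lit 263) (nat_lit 242)) (XT.lf (nat_lit 0) (nat_lit 1438421221) (nat_lit 988) (nat_lit 4021955728) (nat_lit 1064) (nat_lit 2240075018) (nat_lit 220) (nat_lit 5) (nat_lit 233) (nat_lit 5) (nat_lit 234) (nat_lit 5) (nat_lit 276) (nat_lit 263) (nat_lit 241))))) (XT.nd (nat_lit 234) (nat_lit 2508) (nat_lit 0) (XT.nd (nat_lit 78) (nat_lit 1140) (nat_lit 0) (XT.lf (nat_lit 0) (nat_lit 877342376) (nat_lit 1064) (nat_lit 196405655) (nat_lit 1140) (nat_lit 6775260174) (nat_lit 205) (nat_lit 5) (nat_lit 219) (nat_lit 5) (nat_lit 220) (nat_lit 5) (nat_lit 277) (nat_lit 263) (nat_lit 240)) (XT.nd (nat_lit 78) (nat_lit 0) (nat_lit 0) (XT.lf (nat_lit 0) (nat_lit 306596005) (nat_lit 1140) (nat_lit 4152543552) (nat_lit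 1216) (nat_lit 3546820937) (nat_lit 190) (nat_lit 5) (nat_lit 205) (nat_lit 5) (nat_lit 206) (nat_lit 5) (nat_lit 278) (nat_lit 263) (nat_lit 239)) (XT.lf (nat_lit 0) (nat_lit 7940648735) (nat_lit 1216) (nat_lit 217717688) (nat_lit 76) (nat_lit 14778794) (nat_lit 190) (nat_lit 5) (nat_lit 206) (nat_lit 5) (nat_lit 191) (nat_lit 5) (nat_lit 279) (nat_lit 263) (nat_lit 238)))) (XT.nd (nat_lit 156) (nat_lit 1140) (nat_lit 0) (XT.nd (nat_lit 78) (nat_lit 608) (nat_lit 0) (XT.lf (nat_lit 0) (nat_lit 3158878912) (nat_lit 760) (nat_lit 770810504) (nat_lit 76) (nat_lit 4418997979) (nat_lit 180) (nat_lit 5) (nat_lit 190) (nat_lit 5) (nat_lit 181) (nat_lit 5) (nat_lit 280) (nat_lit 263) (nat_lit 237)) (XT.lf (nat_lit 0) (nat_lit 6656550839) (nat_lit 684) (nat_lit 1300749222) (nat_lit 76) (nat_lit 577559025) (nat_lit 172) (nat_lit 5) (nat_lit 181) (nat_lit 5) (nat_lit 173) (nat_lit 5) (nat_lit 281)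 (nat_lit 263) (nat_lit 236))) (XT.nd (nat_lit 78) (nat_lit 532) (nat_lit 0) (XT.lf (nat_lit 0) (nat_lit 1550319453) (nat_lit 608) (nat_lit 1860381007) (nat_lit 76) (nat_lit 5319850265) (nat_lit 164) (nat_lit 5) (nat_lit 172) (nat_lit 5) (nat_lit 165) (nat_lit 5) (nat_lit 282) (nat_lit 263) (nat_lit 235)) (XT.lf (nat_lit 0) (nat_lit 5074834474) (nat_lit 608) (nat_lit 2434789633) (nat_lit 76) (nat_lit 1427093401) (nat_lit 157) (nat_lit 5) (nat_lit 165) (nat_lit 5) (nat_lit 158) (nat_lit 5) (nat_lit 283) (nat_lit 263) (nat_lit 234))))))) (XT.nd (nat_lit 1092) (nat_lit 2888) (nat_lit 0) (XT.nd (nat_lit 546) (nat_lit 2128) (nat_lit 0) (XT.nd (nat_lit 234) (nat_lit 1824) (nat_lit 0) (XT.nd (nat_lit 78) (nat_lit 1064) (nat_lit 0) (XT.lf (nat_lit 0) (nat_lit 6120573739) (nat_lit 456) (nat_lit 2645142253) (nat_lit 532) (nat_lit 387912933) (nat_lit 151) (nat_lit 5) (nat_lit 157) (nat_lit 5) (nat_lit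 158) (nat_lit 5) (nat_lit 284) (nat_lit 263) (nat_lit 233)) (XT.nd (nat_lit 78) (nat_lit 456) (nat_lit 0) (XT.lf (nat_lit 0) (nat_lit 3181957532) (nat_lit 608) (nat_lit 3683914661) (nat_lit 76) (nat_lit 2515129260) (nat_lit 143) (nat_lit 5) (nat_lit 151) (nat_lit 5) (nat_lit 144) (nat_lit 5) (nat_lit 285) (nat_lit 263) (nat_lit 232)) (XT.lf (nat_lit 0) (nat_lit 5248589355) (nat_lit 456) (nat_lit 1667620491) (nat_lit 532) (nat_lit 2703723951) (nat_lit 137) (nat_lit 5) (nat_lit 143) (nat_lit 5) (nat_lit 144) (nat_lit 5) (nat_lit 286) (nat_lit 263) (nat_lit 231)))) (XT.nd (nat_lit 156) (nat_lit 912) (nat_lit 0) (XT.nd (nat_lit 78) (nat_lit 380) (nat_lit 0) (XT.lf (nat_lit 0) (nat_lit 957215934) (nat_lit 532) (nat_lit 5119648578) (nat_lit 76) (nat_lit 3793492651) (nat_lit 130) (nat_lit 5) (nat_lit 137) (nat_lit 5) (nat_lit 131) (nat_lit 5) (nat_lit 287) (nat_lit 263) (nat_lit 230)) (XT.lf (nat_lit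 0) (nat_lit 4196339932) (nat_lit 380) (nat_lit 544202486) (nat_lit 456) (nat_lit 5392207457) (nat_lit 125) (nat_lit 5) (nat_lit 130) (nat_lit 5) (nat_lit 131) (nat_lit 5) (nat_lit 288) (nat_lit 263) (nat_lit 229))) (XT.nd (nat_lit 78) (nat_lit 456) (nat_lit 0) (XT.lf (nat_lit 0) (nat_lit 3568381174) (nat_lit 456) (nat_lit 5178636452) (nat_lit 532) (nat_lit 1660328903) (nat_lit 119) (nat_lit 5) (nat_lit 125) (nat_lit 5) (nat_lit 126) (nat_lit 5) (nat_lit 289) (nat_lit 263) (nat_lit 228)) (XT.lf (nat_lit 0) (nat_lit 2213950811) (nat_lit 456) (nat_lit 7821740326) (nat_lit 76) (nat_lit 659430484) (nat_lit 113) (nat_lit 5) (nat_lit 119) (nat_lit 5) (nat_lit 114) (nat_lit 5) (nat_lit 290) (nat_lit 263) (nat_lit 227))))) (XT.nd (nat_lit 234) (nat_lit 988) (nat_lit 0) (XT.nd (nat_lit 78) (nat_lit 760) (nat_lit 0) (XT.lf (nat_lit 0) (nat_lit 2063505755) (nat_lit 380) (nat_lit 4229538879) (nat_lit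 456) (nat_lit 4702475907) (nat_lit 108) (nat_lit 5) (nat_lit 113) (nat_lit 5) (nat_lit 114) (nat_lit 5) (nat_lit 291) (nat_lit 263) (nat_lit 226)) (XT.nd (nat_lit 78) (nat_lit 456) (nat_lit 0) (XT.lf (nat_lit 0) (nat_lit 1177002452) (nat_lit 304) (nat_lit 9414806581) (nat_lit 380) (nat_lit 718745932) (nat_lit 104) (nat_lit 5) (nat_lit 108) (nat_lit 5) (nat_lit 109) (nat_lit 5) (nat_lit 292) (nat_lit 263) (nat_lit 225)) (XT.lf (nat_lit 0) (nat_lit 141912939) (nat_lit 380) (nat_lit 3299072486) (nat_lit 456) (nat_lit 8198104773) (nat_lit 98) (nat_lit 5) (nat_lit 103) (nat_lit 5) (nat_lit 104) (nat_lit 5) (nat_lit 293) (nat_lit 263) (nat_lit 224)))) (XT.nd (nat_lit 156) (nat_lit 608) (nat_lit 0) (XT.nd (nat_lit 78) (nat_lit 380) (nat_lit 0) (XT.lf (nat_lit 0) (nat_lit 7839798660) (nat_lit 456) (nat_lit 998727745) (nat_lit 76) (nat_lit 3144010140) (nat_lit 98) (nat_lit 5) (nat_lit 104) (nat_lit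 5) (nat_lit 99) (nat_lit 5) (nat_lit 294) (nat_lit 263) (nat_lit 223)) (XT.lf (nat_lit 0) (nat_lit 158349634) (nat_lit 380) (nat_lit 2272149338) (nat_lit 76) (nat_lit 9911337706) (nat_lit 93) (nat_lit 5) (nat_lit 98) (nat_lit 5) (nat_lit 94) (nat_lit 5) (nat_lit 295) (nat_lit 263) (nat_lit 222))) (XT.nd (nat_lit 78) (nat_lit 304) (nat_lit 0) (XT.lf (nat_lit 0) (nat_lit 4645821816) (nat_lit 380) (nat_lit 3747298447) (nat_lit 76) (nat_lit 4323108281) (nat_lit 89) (nat_lit 5) (nat_lit 94) (nat_lit 5) (nat_lit 90) (nat_lit 5) (nat_lit 296) (nat_lit 263) (nat_lit 221)) (XT.lf (nat_lit 0) (nat_lit 7723002827) (nat_lit 304) (nat_lit 1676453619) (nat_lit 380) (nat_lit 3708694170) (nat_lit 85) (nat_lit 5) (nat_lit 89) (nat_lit 5) (nat_lit 90) (nat_lit 5) (nat_lit 297) (nat_lit 263) (nat_lit 220)))))) (XT.nd (nat_lit 546) (nat_lit 1140) (nat_lit 0) (XT.nd (nat_lit 234) (nat_lit 836) (nat_lit 0) (XT.nd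 (nat_lit 78) (nat_lit 532) (nat_lit 0) (XT.lf (nat_lit 0) (nat_lit 927671096) (nat_lit 380) (nat_lit 7242110473) (nat_lit 76) (nat_lit 5347488489) (nat_lit 80) (nat_lit 5) (nat_lit 85) (nat_lit 5) (nat_lit 81) (nat_lit 5) (nat_lit 298) (nat_lit 263) (nat_lit 219)) (XT.nd (nat_lit 78) (nat_lit 304) (nat_lit 0) (XT.lf (nat_lit 0) (nat_lit 4609879427) (nat_lit 228) (nat_lit 1150927487) (nat_lit 304) (nat_lit 8183743959) (nat_lit 77) (nat_lit 5) (nat_lit 80) (nat_lit 5) (nat_lit 81) (nat_lit 5) (nat_lit 299) (nat_lit 263) (nat_lit 218)) (XT.lf (nat_lit 0) (nat_lit 2697201573) (nat_lit 304) (nat_lit 8225384232) (nat_lit 380) (nat_lit 3468054246) (nat_lit 73) (nat_lit 5) (nat_lit 77) (nat_lit 5) (nat_lit 78) (nat_lit 5) (nat_lit 300) (nat_lit 263) (nat_lit 217)))) (XT.nd (nat_lit 156) (nat_lit 532) (nat_lit 0) (XT.nd (nat_lit 78) (nat_lit 0) (nat_lit 0) (XT.lf (nat_lit 0) (nat_lit 545294497) (nat_lit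 228) (nat_lit 950811842) (nat_lit 304) (nat_lit 13361300412) (nat_lit 69) (nat_lit 5) (nat_lit 72) (nat_lit 5) (nat_lit 73) (nat_lit 5) (nat_lit 301) (nat_lit 263) (nat_lit 216)) (XT.lf (nat_lit 0) (nat_lit 6753091992) (nat_lit 304) (nat_lit 1910866843) (nat_lit 76) (nat_lit 6679080060) (nat_lit 69) (nat_lit 5) (nat_lit 73) (nat_lit 5) (nat_lit 70) (nat_lit 5) (nat_lit 302) (nat_lit 263) (nat_lit 215))) (XT.nd (nat_lit 78) (nat_lit 304) (nat_lit 0) (XT.lf (nat_lit 0) (nat_lit 11218025391) (nat_lit 228) (nat_lit 1105499775) (nat_lit 304) (nat_lit 3527954746) (nat_lit 66) (nat_lit 5) (nat_lit 69) (nat_lit 5) (nat_lit 70) (nat_lit 5) (nat_lit 303) (nat_lit 263) (nat_lit 214)) (XT.lf (nat_lit 0) (nat_lit 1857105627) (nat_lit 304) (nat_lit 7739241013) (nat_lit 76) (nat_lit 6785377512) (nat_lit 62) (nat_lit 5) (nat_lit 66) (nat_lit 5) (nat_lit 63) (nat_lit 5) (nat_lit 304) (nat_lit 263) (nat_lit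 213))))) (XT.nd (nat_lit 234) (nat_lit 684) (nat_lit 0) (XT.nd (nat_lit 78) (nat_lit 228) (nat_lit 0) (XT.lf (nat_lit 0) (nat_lit 5707241740) (nat_lit 228) (nat_lit 1782644157) (nat_lit 304) (nat_lit 9446043703) (nat_lit 59) (nat_lit 5) (nat_lit 62) (nat_lit 5) (nat_lit 63) (nat_lit 5) (nat_lit 305) (nat_lit 263) (nat_lit 212)) (XT.nd (nat_lit 78) (nat_lit 76) (nat_lit 0) (XT.lf (nat_lit 0) (nat_lit 2358227854) (nat_lit 152) (nat_lit 11149260134) (nat_lit 228) (nat_lit 4007299768) (nat_lit 57) (nat_lit 5) (nat_lit 59) (nat_lit 5) (nat_lit 60) (nat_lit 5) (nat_lit 306) (nat_lit 263) (nat_lit 211)) (XT.lf (nat_lit 0) (nat_lit 1744595309) (nat_lit 228) (nat_lit 1391525340) (nat_lit 76) (nat_lit 14983778424) (nat_lit 56) (nat_lit 5) (nat_lit 59) (nat_lit 5) (nat_lit 57) (nat_lit 5) (nat_lit 307) (nat_lit 263) (nat_lit 210)))) (XT.nd (nat_lit 156) (nat_lit 304) (nat_lit 0) (XT.nd (nat_lit 78)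 (nat_lit 152) (nat_lit 0) (XT.lf (nat_lit 0) (nat_lit 7823398891) (nat_lit 304) (nat_lit 5616878017) (nat_lit 76) (nat_lit 5310166427) (nat_lit 53) (nat_lit 5) (nat_lit 57) (nat_lit 5) (nat_lit 54) (nat_lit 5) (nat_lit 308) (nat_lit 263) (nat_lit 209)) (XT.lf (nat_lit 0) (nat_lit 9056624149) (nat_lit 152) (nat_lit 5226852322) (nat_lit 228) (nat_lit 5126750127) (nat_lit 51) (nat_lit 5) (nat_lit 53) (nat_lit 5) (nat_lit 54) (nat_lit 5) (nat_lit 309) (nat_lit 263) (nat_lit 208))) (XT.nd (nat_lit 78) (nat_lit 0) (nat_lit 0) (XT.lf (nat_lit 0) (nat_lit 1024935555) (nat_lit 304) (nat_lit 15666237458) (nat_lit 76) (nat_lit 3409172172) (nat_lit 47) (nat_lit 5) (nat_lit 51) (nat_lit 5) (nat_lit 48) (nat_lit 5) (nat_lit 310) (nat_lit 263) (nat_lit 207)) (XT.lf (nat_lit 0) (nat_lit 7486412942) (nat_lit 304) (nat_lit 837255657) (nat_lit 76) (nat_lit 12496559217) (nat_lit 47) (nat_lit 5) (nat_lit 51)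 (nat_lit 5) (nat_lit 48) (nat_lit 5) (nat_lit 311) (nat_lit 263) (nat_lit 206))))))))
noncomputable def xc56 : XT := (XT.nd (nat_lit 2106) (nat_lit 684) (nat_lit 0) (XT.nd (nat_lit 1014) (nat_lit 988) (nat_lit 0) (XT.nd (nat_lit 468) (nat_lit 532) (nat_lit 0) (XT.nd (nat_lit 234) (nat_lit 380) (nat_lit 0) (XT.nd (nat_lit 78) (nat_lit 380) (nat_lit 0) (XT.lf (nat_lit 0) (nat_lit 14369529880) (nat_lit 228) (nat_lit 6637479215) (nat_lit 76) (nat_lit 566165185) (nat_lit 45) (nat_lit 5) (nat_lit 48) (nat_lit 5) (nat_lit 46) (nat_lit 5) (nat_lit 312) (nat_lit 263) (nat_lit 205)) (XT.nd (nat_lit 78) (nat_lit 228) (nat_lit 0) (XT.lf (nat_lit 0) (nat_lit 9163879250) (nat_lit 152) (nat_lit 12564443084) (nat_lit 228) (nat_lit 631525545) (nat_lit 43) (nat_lit 5) (nat_lit 45) (nat_lit 5) (nat_lit 46) (nat_lit 5) (nat_lit 313) (nat_lit 263) (nat_lit 204)) (XT.lf (nat_lit 0) (nat_lit 2619630968) (nat_lit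 152) (nat_lit 3573216641) (nat_lit 228) (nat_lit 16989843645) (nat_lit 40) (nat_lit 5) (nat_lit 42) (nat_lit 5) (nat_lit 43) (nat_lit 5) (nat_lit 314) (nat_lit 263) (nat_lit 203)))) (XT.nd (nat_lit 78) (nat_lit 380) (nat_lit 0) (XT.lf (nat_lit 0) (nat_lit 13492122330) (nat_lit 228) (nat_lit 4684509548) (nat_lit 76) (nat_lit 5865477392) (nat_lit 40) (nat_lit 5) (nat_lit 43) (nat_lit 5) (nat_lit 41) (nat_lit 5) (nat_lit 315) (nat_lit 263) (nat_lit 202)) (XT.nd (nat_lit 78) (nat_lit 228) (nat_lit 0) (XT.lf (nat_lit 0) (nat_lit 12112496415) (nat_lit 152) (nat_lit 9151632836) (nat_lit 228) (nat_lit 3677157185) (nat_lit 38) (nat_lit 5) (nat_lit 40) (nat_lit 5) (nat_lit 41) (nat_lit 5) (nat_lit 316) (nat_lit 263) (nat_lit 201)) (XT.lf (nat_lit 0) (nat_lit 3516999221) (nat_lit 228) (nat_lit 21956164155) (nat_lit 76) (nat_lit 409855624) (nat_lit 35) (nat_lit 5) (nat_lit 38) (nat_lit 5) (nat_lit 36)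 (nat_lit 5) (nat_lit 317) (nat_lit 263) (nat_lit 200))))) (XT.nd (nat_lit 234) (nat_lit 304) (nat_lit 0) (XT.nd (nat_lit 78) (nat_lit 228) (nat_lit 0) (XT.lf (nat_lit 0) (nat_lit 11178603614) (nat_lit 228) (nat_lit 5283652685) (nat_lit 76) (nat_lit 10402994747) (nat_lit 35) (nat_lit 5) (nat_lit 38) (nat_lit 5) (nat_lit 36) (nat_lit 5) (nat_lit 318) (nat_lit 263) (nat_lit 199)) (XT.nd (nat_lit 78) (nat_lit 76) (nat_lit 0) (XT.lf (nat_lit 0) (nat_lit 12394487703) (nat_lit 152) (nat_lit 6907319368) (nat_lit 228) (nat_lit 8592449925) (nat_lit 33) (nat_lit 5) (nat_lit 35) (nat_lit 5) (nat_lit 36) (nat_lit 5) (nat_lit 319) (nat_lit 263) (nat_lit 198)) (XT.lf (nat_lit 0) (nat_lit 2034201042) (nat_lit 76) (nat_lit 25861879218) (nat_lit 152) (nat_lit 1076702712) (nat_lit 32) (nat_lit 5) (nat_lit 33) (nat_lit 5) (nat_lit 34) (nat_lit 4) (nat_lit 320) (nat_lit 263) (nat_lit 197)))) (XT.nd (nat_lit 156)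 (nat_lit 76) (nat_lit 0) (XT.nd (nat_lit 78) (nat_lit 152) (nat_lit 0) (XT.lf (nat_lit 0) (nat_lit 6873935501) (nat_lit 152) (nat_lit 9536078681) (nat_lit 76) (nat_lit 13687508982) (nat_lit 31) (nat_lit 5) (nat_lit 33) (nat_lit 5) (nat_lit 32) (nat_lit 5) (nat_lit 321) (nat_lit 263) (nat_lit 196)) (XT.lf (nat_lit 0) (nat_lit 8833683805) (nat_lit 152) (nat_lit 6414353910) (nat_lit 228) (nat_lit 16028711825) (nat_lit 29) (nat_lit 5) (nat_lit 31) (nat_lit 5) (nat_lit 32) (nat_lit 5) (nat_lit 322) (nat_lit 263) (nat_lit 195))) (XT.nd (nat_lit 78) (nat_lit 76) (nat_lit 0) (XT.lf (nat_lit 0) (nat_lit 24143190420) (nat_lit 228) (nat_lit 4294343827) (nat_lit 76) (nat_lit 4074346897) (nat_lit 29) (nat_lit 5) (nat_lit 32) (nat_lit 5) (nat_lit 30) (nat_lit 4) (nat_lit 323) (nat_lit 263) (nat_lit 194)) (XT.lf (nat_lit 0) (nat_lit 14928029208) (nat_lit 76) (nat_lit 18729003864) (nat_lit 152) (nat_lit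 146531880) (nat_lit 28) (nat_lit 5) (nat_lit 29) (nat_lit 5) (nat_lit 30) (nat_lit 4) (nat_lit 324) (nat_lit 263) (nat_lit 193)))))) (XT.nd (nat_lit 546) (nat_lit 380) (nat_lit 0) (XT.nd (nat_lit 234) (nat_lit 304) (nat_lit 0) (XT.nd (nat_lit 78) (nat_lit 228) (nat_lit 0) (XT.lf (nat_lit 0) (nat_lit 8332194101) (nat_lit 152) (nat_lit 98558160) (nat_lit 76) (nat_lit 26726313886) (nat_lit 27) (nat_lit 5) (nat_lit 29) (nat_lit 5) (nat_lit 28) (nat_lit 5) (nat_lit 325) (nat_lit 263) (nat_lit 192)) (XT.nd (nat_lit 78) (nat_lit 76) (nat_lit 0) (XT.lf (nat_lit 0) (nat_lit 17416211844) (nat_lit 228) (nat_lit 16649408087) (nat_lit 76) (nat_lit 2507059336) (nat_lit 25) (nat_lit 5) (nat_lit 28) (nat_lit 5) (nat_lit 26) (nat_lit 4) (nat_lit 326) (nat_lit 263) (nat_lit 191)) (XT.lf (nat_lit 0) (nat_lit 2803243351) (nat_lit 76) (nat_lit 24233038724) (nat_lit 152) (nat_lit 11020346819) (nat_lit 24) (nat_lit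 5) (nat_lit 25) (nat_lit 5) (nat_lit 26) (nat_lit 4) (nat_lit 327) (nat_lit 263) (nat_lit 190)))) (XT.nd (nat_lit 156) (nat_lit 76) (nat_lit 0) (XT.nd (nat_lit 78) (nat_lit 228) (nat_lit 0) (XT.lf (nat_lit 0) (nat_lit 23522480422) (nat_lit 76) (nat_lit 13756020774) (nat_lit 152) (nat_lit 2332051301) (nat_lit 24) (nat_lit 5) (nat_lit 25) (nat_lit 5) (nat_lit 26) (nat_lit 4) (nat_lit 328) (nat_lit 263) (nat_lit 189)) (XT.lf (nat_lit 0) (nat_lit 3996222013) (nat_lit 152) (nat_lit 2671240233) (nat_lit 228) (nat_lit 34572482390) (nat_lit 21) (nat_lit 5) (nat_lit 23) (nat_lit 5) (nat_lit 24) (nat_lit 5) (nat_lit 329) (nat_lit 263) (nat_lit 188))) (XT.nd (nat_lit 78) (nat_lit 76) (nat_lit 0) (XT.lf (nat_lit 0) (nat_lit 16294210732) (nat_lit 228) (nat_lit 17687435988) (nat_lit 76) (nat_lit 8961711843) (nat_lit 21) (nat_lit 5) (nat_lit 24) (nat_lit 5) (nat_lit 22) (nat_lit 4) (nat_lit 330) (nat_lit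 263) (nat_lit 187)) (XT.lf (nat_lit 0) (nat_lit 2826146360) (nat_lit 76) (nat_lit 23603216785) (nat_lit 152) (nat_lit 18301777151) (nat_lit 20) (nat_lit 5) (nat_lit 21) (nat_lit 5) (nat_lit 22) (nat_lit 4) (nat_lit 331) (nat_lit 263) (nat_lit 186))))) (XT.nd (nat_lit 234) (nat_lit 152) (nat_lit 0) (XT.nd (nat_lit 78) (nat_lit 228) (nat_lit 0) (XT.lf (nat_lit 0) (nat_lit 24687713911) (nat_lit 76) (nat_lit 12539408080) (nat_lit 152) (nat_lit 9376522332) (nat_lit 20) (nat_lit 5) (nat_lit 21) (nat_lit 5) (nat_lit 22) (nat_lit 4) (nat_lit 332) (nat_lit 263) (nat_lit 185)) (XT.nd (nat_lit 78) (nat_lit 228) (nat_lit 0) (XT.lf (nat_lit 0) (nat_lit 47597303357) (nat_lit 76) (nat_lit 942486625) (nat_lit 152) (nat_lit 30741191) (nat_lit 20) (nat_lit 5) (nat_lit 21) (nat_lit 5) (nat_lit 22) (nat_lit 4) (nat_lit 333) (nat_lit 263) (nat_lit 184)) (XT.lf (nat_lit 0) (nat_lit 9882868167) (nat_lit 228) (nat_lit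 29443575494) (nat_lit 76) (nat_lit 11297762501) (nat_lit 17) (nat_lit 5) (nat_lit 20) (nat_lit 5) (nat_lit 18) (nat_lit 4) (nat_lit 334) (nat_lit 263) (nat_lit 183)))) (XT.nd (nat_lit 156) (nat_lit 76) (nat_lit 0) (XT.nd (nat_lit 78) (nat_lit 76) (nat_lit 0) (XT.lf (nat_lit 0) (nat_lit 20287683931) (nat_lit 228) (nat_lit 8370344571) (nat_lit 76) (nat_lit 24122649687) (nat_lit 17) (nat_lit 5) (nat_lit 20) (nat_lit 5) (nat_lit 18) (nat_lit 4) (nat_lit 335) (nat_lit 263) (nat_lit 182)) (XT.lf (nat_lit 0) (nat_lit 13988875833) (nat_lit 76) (nat_lit 17335977464) (nat_lit 152) (nat_lit 23716764064) (nat_lit 16) (nat_lit 5) (nat_lit 17) (nat_lit 5) (nat_lit 18) (nat_lit 4) (nat_lit 336) (nat_lit 263) (nat_lit 181))) (XT.nd (nat_lit 78) (nat_lit 76) (nat_lit 0) (XT.lf (nat_lit 0) (nat_lit 37601492515) (nat_lit 76) (nat_lit 5376882209) (nat_lit 152) (nat_lit 14435300553) (nat_lit 16) (nat_lit 5) (nat_lit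 17) (nat_lit 5) (nat_lit 18) (nat_lit 4) (nat_lit 337) (nat_lit 263) (nat_lit 180)) (XT.lf (nat_lit 0) (nat_lit 2430753788) (nat_lit 76) (nat_lit 52855401728) (nat_lit 76) (nat_lit 4616039358) (nat_lit 15) (nat_lit 4) (nat_lit 16) (nat_lit 5) (nat_lit 16) (nat_lit 4) (nat_lit 338) (nat_lit 263) (nat_lit 179))))))) (XT.nd (nat_lit 1092) (nat_lit 228) (nat_lit 0) (XT.nd (nat_lit 546) (nat_lit 152) (nat_lit 0) (XT.nd (nat_lit 234) (nat_lit 152) (nat_lit 0) (XT.nd (nat_lit 78) (nat_lit 76) (nat_lit 0) (XT.lf (nat_lit 0) (nat_lit 5822936152) (nat_lit 152) (nat_lit 36457576888) (nat_lit 76) (nat_lit 20225795181) (nat_lit 14) (nat_lit 5) (nat_lit 16) (nat_lit 5) (nat_lit 15) (nat_lit 4) (nat_lit 339) (nat_lit 263) (nat_lit 178)) (XT.nd (nat_lit 78) (nat_lit 76) (nat_lit 0) (XT.lf (nat_lit 0) (nat_lit 16669878158) (nat_lit 152) (nat_lit 14475213102) (nat_lit 76) (nat_lit 34094725872) (nat_lit 14)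 (nat_lit 5) (nat_lit 16) (nat_lit 5) (nat_lit 15) (nat_lit 4) (nat_lit 340) (nat_lit 263) (nat_lit 177)) (XT.lf (nat_lit 0) (nat_lit 8742968227) (nat_lit 76) (nat_lit 19381762795) (nat_lit 152) (nat_lit 39983308821) (nat_lit 13) (nat_lit 5) (nat_lit 14) (nat_lit 5) (nat_lit 15) (nat_lit 4) (nat_lit 341) (nat_lit 263) (nat_lit 176)))) (XT.nd (nat_lit 156) (nat_lit 152) (nat_lit 0) (XT.nd (nat_lit 78) (nat_lit 0) (nat_lit 0) (XT.lf (nat_lit 0) (nat_lit 33391612506) (nat_lit 76) (nat_lit 6891807926) (nat_lit 152) (nat_lit 30832325459) (nat_lit 13) (nat_lit 5) (nat_lit 14) (nat_lit 5) (nat_lit 15) (nat_lit 4) (nat_lit 342) (nat_lit 263) (nat_lit 175)) (XT.lf (nat_lit 0) (nat_lit 53092660157) (nat_lit 152) (nat_lit 15092710400) (nat_lit 0) (nat_lit 6087192987) (nat_lit 13) (nat_lit 5) (nat_lit 15) (nat_lit 4) (nat_lit 13) (nat_lit 4) (nat_lit 343) (nat_lit 263) (nat_lit 174))) (XT.nd (nat_lit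 78) (nat_lit 76) (nat_lit 0) (XT.lf (nat_lit 0) (nat_lit 8741058011) (nat_lit 76) (nat_lit 57938507968) (nat_lit 76) (nat_lit 10903544530) (nat_lit 12) (nat_lit 4) (nat_lit 13) (nat_lit 5) (nat_lit 13) (nat_lit 4) (nat_lit 344) (nat_lit 263) (nat_lit 173)) (XT.lf (nat_lit 0) (nat_lit 29704157) (nat_lit 152) (nat_lit 47002755680) (nat_lit 76) (nat_lit 34022536095) (nat_lit 11) (nat_lit 5) (nat_lit 13) (nat_lit 5) (nat_lit 12) (nat_lit 4) (nat_lit 345) (nat_lit 263) (nat_lit 172))))) (XT.nd (nat_lit 234) (nat_lit 76) (nat_lit 0) (XT.nd (nat_lit 78) (nat_lit 76) (nat_lit 0) (XT.lf (nat_lit 0) (nat_lit 11270928778) (nat_lit 152) (nat_lit 24209823685) (nat_lit 76) (nat_lit 49216884030) (nat_lit 11) (nat_lit 5) (nat_lit 13) (nat_lit 5) (nat_lit 12) (nat_lit 4) (nat_lit 346) (nat_lit 263) (nat_lit 171)) (XT.nd (nat_lit 78) (nat_lit 76) (nat_lit 0) (XT.lf (nat_lit 0) (nat_lit 23059661577) (nat_lit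 152) (nat_lit 304176087) (nat_lit 76) (nat_lit 65159011826) (nat_lit 11) (nat_lit 5) (nat_lit 13) (nat_lit 5) (nat_lit 12) (nat_lit 4) (nat_lit 347) (nat_lit 263) (nat_lit 170)) (XT.lf (nat_lit 0) (nat_lit 25264098889) (nat_lit 76) (nat_lit 10402726052) (nat_lit 152) (nat_lit 56865632013) (nat_lit 10) (nat_lit 5) (nat_lit 11) (nat_lit 5) (nat_lit 12) (nat_lit 4) (nat_lit 348) (nat_lit 263) (nat_lit 169)))) (XT.nd (nat_lit 156) (nat_lit 76) (nat_lit 0) (XT.nd (nat_lit 78) (nat_lit 0) (nat_lit 0) (XT.lf (nat_lit 0) (nat_lit 48924781151) (nat_lit 152) (nat_lit 44681369843) (nat_lit 0) (nat_lit 3135784220) (nat_lit 10) (nat_lit 5) (nat_lit 12) (nat_lit 4) (nat_lit 10) (nat_lit 4) (nat_lit 349) (nat_lit 263) (nat_lit 168)) (XT.lf (nat_lit 0) (nat_lit 62937727813) (nat_lit 152) (nat_lit 21094038694) (nat_lit 0) (nat_lit 17127361397) (nat_lit 10) (nat_lit 5) (nat_lit 12) (nat_lit 4) (nat_lit 10)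 (nat_lit 4) (nat_lit 350) (nat_lit 263) (nat_lit 167))) (XT.nd (nat_lit 78) (nat_lit 0) (nat_lit 0) (XT.lf (nat_lit 0) (nat_lit 3722431099) (nat_lit 76) (nat_lit 73952382906) (nat_lit 76) (nat_lit 28121664600) (nat_lit 9) (nat_lit 4) (nat_lit 10) (nat_lit 5) (nat_lit 10) (nat_lit 4) (nat_lit 351) (nat_lit 263) (nat_lit 166)) (XT.lf (nat_lit 0) (nat_lit 30198317245) (nat_lit 76) (nat_lit 63155663429) (nat_lit 76) (nat_lit 17305562370) (nat_lit 9) (nat_lit 4) (nat_lit 10) (nat_lit 5) (nat_lit 10) (nat_lit 4) (nat_lit 352) (nat_lit 263) (nat_lit 165)))))) (XT.nd (nat_lit 546) (nat_lit 76) (nat_lit 0) (XT.nd (nat_lit 234) (nat_lit 76) (nat_lit 0) (XT.nd (nat_lit 78) (nat_lit 76) (nat_lit 0) (XT.lf (nat_lit 0) (nat_lit 57976844838) (nat_lit 76) (nat_lit 51828910031) (nat_lit 76) (nat_lit 5960349209) (nat_lit 9) (nat_lit 4) (nat_lit 10) (nat_lit 5) (nat_lit 10) (nat_lit 4) (nat_lit 353) (nat_lit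 263) (nat_lit 164)) (XT.nd (nat_lit 78) (nat_lit 0) (nat_lit 0) (XT.lf (nat_lit 0) (nat_lit 5825057234) (nat_lit 152) (nat_lit 34061275363) (nat_lit 76) (nat_lit 81240274338) (nat_lit 8) (nat_lit 5) (nat_lit 10) (nat_lit 5) (nat_lit 9) (nat_lit 4) (nat_lit 354) (nat_lit 263) (nat_lit 163)) (XT.lf (nat_lit 0) (nat_lit 18067210740) (nat_lit 152) (nat_lit 9226447296) (nat_lit 76) (nat_lit 99459986628) (nat_lit 8) (nat_lit 5) (nat_lit 10) (nat_lit 5) (nat_lit 9) (nat_lit 4) (nat_lit 355) (nat_lit 263) (nat_lit 162)))) (XT.nd (nat_lit 156) (nat_lit 0) (nat_lit 0) (XT.nd (nat_lit 78) (nat_lit 0) (nat_lit 0) (XT.lf (nat_lit 0) (nat_lit 17166632863) (nat_lit 76) (nat_lit 13909950487) (nat_lit 152) (nat_lit 101580799976) (nat_lit 7) (nat_lit 5) (nat_lit 8) (nat_lit 5) (nat_lit 9) (nat_lit 4) (nat_lit 356) (nat_lit 263) (nat_lit 161)) (XT.lf (nat_lit 0) (nat_lit 44824031442) (nat_lit 152) (nat_lit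 93801754312) (nat_lit 0) (nat_lit 227897236) (nat_lit 7) (nat_lit 5) (nat_lit 9) (nat_lit 4) (nat_lit 7) (nat_lit 4) (nat_lit 357) (nat_lit 263) (nat_lit 160))) (XT.nd (nat_lit 78) (nat_lit 0) (nat_lit 0) (XT.lf (nat_lit 0) (nat_lit 59390023953) (nat_lit 152) (nat_lit 71185993377) (nat_lit 0) (nat_lit 14779847313) (nat_lit 7) (nat_lit 5) (nat_lit 9) (nat_lit 4) (nat_lit 7) (nat_lit 4) (nat_lit 358) (nat_lit 263) (nat_lit 159)) (XT.lf (nat_lit 0) (nat_lit 74675530866) (nat_lit 152) (nat_lit 47455909657) (nat_lit 0) (nat_lit 30051980477) (nat_lit 7) (nat_lit 5) (nat_lit 9) (nat_lit 4) (nat_lit 7) (nat_lit 4) (nat_lit 359) (nat_lit 263) (nat_lit 158))))) (XT.nd (nat_lit 234) (nat_lit 0) (nat_lit 0) (XT.nd (nat_lit 78) (nat_lit 76) (nat_lit 0) (XT.lf (nat_lit 0) (nat_lit 90716946243) (nat_lit 152) (nat_lit 22555002952) (nat_lit 0) (nat_lit 46080658952) (nat_lit 7) (nat_lit 5) (nat_lit 9) (nat_lit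 4) (nat_lit 7) (nat_lit 4) (nat_lit 360) (nat_lit 263) (nat_lit 157)) (XT.nd (nat_lit 78) (nat_lit 0) (nat_lit 0) (XT.lf (nat_lit 0) (nat_lit 3647184314) (nat_lit 76) (nat_lit 103940338584) (nat_lit 76) (nat_lit 59291920909) (nat_lit 6) (nat_lit 4) (nat_lit 7) (nat_lit 5) (nat_lit 7) (nat_lit 4) (nat_lit 361) (nat_lit 263) (nat_lit 156)) (XT.lf (nat_lit 0) (nat_lit 31616307784) (nat_lit 76) (nat_lit 93909776003) (nat_lit 76) (nat_lit 49249805583) (nat_lit 6) (nat_lit 4) (nat_lit 7) (nat_lit 5) (nat_lit 7) (nat_lit 4) (nat_lit 362) (nat_lit 263) (nat_lit 155)))) (XT.nd (nat_lit 32994) (nat_lit 0) (nat_lit 21660) (XT.nd (nat_lit 32916) (nat_lit 0) (nat_lit 22192) (XT.lf (nat_lit 0) (nat_lit 60970071825) (nat_lit 76) (nat_lit 83384140467) (nat_lit 76) (nat_lit 38713167431) (nat_lit 6) (nat_lit 4) (nat_lit 7) (nat_lit 5) (nat_lit 7) (nat_lit 4) (nat_lit 363) (nat_lit 263) (nat_lit 154)) (XT.lf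 (nat_lit 0) (nat_lit 882632683) (nat_lit 532) (nat_lit 1216719553) (nat_lit 532) (nat_lit 1216719553) (nat_lit 298) (nat_lit 3) (nat_lit 305) (nat_lit 3) (nat_lit 305) (nat_lit 5) (nat_lit 264) (nat_lit 264) (nat_lit 252))) (XT.nd (nat_lit 78) (nat_lit 532) (nat_lit 0) (XT.lf (nat_lit 76) (nat_lit 2719142166) (nat_lit 0) (nat_lit 2691819130) (nat_lit 532) (nat_lit 1272565447) (nat_lit 299) (nat_lit 5) (nat_lit 298) (nat_lit 3) (nat_lit 305) (nat_lit 5) (nat_lit 265) (nat_lit 264) (nat_lit 251)) (XT.lf (nat_lit 76) (nat_lit 1319480515) (nat_lit 0) (nat_lit 938444615) (nat_lit 608) (nat_lit 4485070424) (nat_lit 292) (nat_lit 5) (nat_lit 291) (nat_lit 5) (nat_lit 299) (nat_lit 5) (nat_lit 266) (nat_lit 264) (nat_lit 250))))))))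
noncomputable def xc57 : XT := (XT.nd (nat_lit 2184) (nat_lit 5092) (nat_lit 0) (XT.nd (nat_lit 1092) (nat_lit 6232) (nat_lit 0) (XT.nd (nat_lit 546) (nat_lit 5852) (nat_lit 0) (XT.nd (nat_lit 234) (nat_lit 2052) (nat_lit 0) (XT.nd (nat_lit 78) (nat_lit 608) (nat_lit 0) (XT.lf (nat_lit 0) (nat_lit 5766929730) (nat_lit 532) (nat_lit 5641186) (nat_lit 608) (nat_lit 1038016894) (nat_lit 292) (nat_lit 5) (nat_lit 299) (nat_lit 5) (nat_lit 300) (nat_lit 5) (nat_lit 267) (nat_lit 264) (nat_lit 249)) (XT.nd (nat_lit 78) (nat_lit 0) (nat_lit 0) (XT.lf (nat_lit 0) (nat_lit 2370486518) (nat_lit 608) (nat_lit 1249171841) (nat_lit 684) (nat_lit 3265984806) (nat_lit 284) (nat_lit 5) (nat_lit 292) (nat_lit 5) (nat_lit 293) (nat_lit 5) (nat_lit 268) (nat_lit 264) (nat_lit 248)) (XT.lf (nat_lit 76) (nat_lit 4550050197) (nat_lit 0) (nat_lit 1223003383) (nat_lit 684) (nat_lit 1196240917) (nat_lit 285) (nat_lit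 5) (nat_lit 284) (nat_lit 5) (nat_lit 293) (nat_lit 5) (nat_lit 269) (nat_lit 264) (nat_lit 247)))) (XT.nd (nat_lit 156) (nat_lit 1444) (nat_lit 0) (XT.nd (nat_lit 78) (nat_lit 0) (nat_lit 0) (XT.lf (nat_lit 0) (nat_lit 2106335433) (nat_lit 684) (nat_lit 3545030531) (nat_lit 760) (nat_lit 1409538390) (nat_lit 276) (nat_lit 5) (nat_lit 285) (nat_lit 5) (nat_lit 286) (nat_lit 5) (nat_lit 270) (nat_lit 264) (nat_lit 246)) (XT.lf (nat_lit 76) (nat_lit 2538518018) (nat_lit 0) (nat_lit 2883478295) (nat_lit 760) (nat_lit 1738854735) (nat_lit 277) (nat_lit 5) (nat_lit 276) (nat_lit 5) (nat_lit 286) (nat_lit 5) (nat_lit 271) (nat_lit 264) (nat_lit 245))) (XT.nd (nat_lit 78) (nat_lit 760) (nat_lit 0) (XT.lf (nat_lit 0) (nat_lit 1475885660) (nat_lit 760) (nat_lit 5648326552) (nat_lit 76) (nat_lit 145275193) (nat_lit 267) (nat_lit 5) (nat_lit 277) (nat_lit 5) (nat_lit 268) (nat_lit 5) (nat_lit 272) (nat_lit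 264) (nat_lit 244)) (XT.lf (nat_lit 0) (nat_lit 727458559) (nat_lit 760) (nat_lit 3996786687) (nat_lit 836) (nat_lit 2661786126) (nat_lit 257) (nat_lit 5) (nat_lit 267) (nat_lit 5) (nat_lit 268) (nat_lit 5) (nat_lit 273) (nat_lit 264) (nat_lit 243))))) (XT.nd (nat_lit 234) (nat_lit 4028) (nat_lit 0) (XT.nd (nat_lit 78) (nat_lit 1748) (nat_lit 0) (XT.lf (nat_lit 0) (nat_lit 502705242) (nat_lit 836) (nat_lit 103974100) (nat_lit 76) (nat_lit 6905131312) (nat_lit 256) (nat_lit 5) (nat_lit 267) (nat_lit 5) (nat_lit 257) (nat_lit 5) (nat_lit 274) (nat_lit 264) (nat_lit 242)) (XT.nd (nat_lit 78) (nat_lit 912) (nat_lit 0) (XT.lf (nat_lit 0) (nat_lit 3703217461) (nat_lit 912) (nat_lit 917054764) (nat_lit 76) (nat_lit 3025057521) (nat_lit 245) (nat_lit 5) (nat_lit 257) (nat_lit 5) (nat_lit 246) (nat_lit 5) (nat_lit 275) (nat_lit 264) (nat_lit 241)) (XT.lf (nat_lit 0) (nat_lit 6105618407) (nat_lit 912)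 (nat_lit 868638337) (nat_lit 988) (nat_lit 814169059) (nat_lit 233) (nat_lit 5) (nat_lit 245) (nat_lit 5) (nat_lit 246) (nat_lit 5) (nat_lit 276) (nat_lit 264) (nat_lit 240)))) (XT.nd (nat_lit 156) (nat_lit 1900) (nat_lit 0) (XT.nd (nat_lit 78) (nat_lit 1064) (nat_lit 0) (XT.lf (nat_lit 0) (nat_lit 2364308566) (nat_lit 1064) (nat_lit 2453177124) (nat_lit 76) (nat_lit 3122408228) (nat_lit 219) (nat_lit 5) (nat_lit 233) (nat_lit 5) (nat_lit 220) (nat_lit 5) (nat_lit 277) (nat_lit 264) (nat_lit 239)) (XT.lf (nat_lit 0) (nat_lit 4903048117) (nat_lit 1064) (nat_lit 710748714) (nat_lit 1140) (nat_lit 2487219284) (nat_lit 205) (nat_lit 5) (nat_lit 219) (nat_lit 5) (nat_lit 220) (nat_lit 5) (nat_lit 278) (nat_lit 264) (nat_lit 238))) (XT.nd (nat_lit 78) (nat_lit 684) (nat_lit 0) (XT.lf (nat_lit 0) (nat_lit 703255709) (nat_lit 1216) (nat_lit 3947627597) (nat_lit 76) (nat_lit 3620396118) (nat_lit 189)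 (nat_lit 5) (nat_lit 205) (nat_lit 5) (nat_lit 190) (nat_lit 5) (nat_lit 279) (nat_lit 264) (nat_lit 237)) (XT.lf (nat_lit 0) (nat_lit 3752751354) (nat_lit 684) (nat_lit 191188153) (nat_lit 760) (nat_lit 4507281420) (nat_lit 180) (nat_lit 5) (nat_lit 189) (nat_lit 5) (nat_lit 190) (nat_lit 5) (nat_lit 280) (nat_lit 264) (nat_lit 236)))))) (XT.nd (nat_lit 546) (nat_lit 2888) (nat_lit 0) (XT.nd (nat_lit 234) (nat_lit 1596) (nat_lit 0) (XT.nd (nat_lit 78) (nat_lit 1140) (nat_lit 0) (XT.lf (nat_lit 0) (nat_lit 3172578699) (nat_lit 608) (nat_lit 4159238747) (nat_lit 684) (nat_lit 1308946828) (nat_lit 172) (nat_lit 5) (nat_lit 180) (nat_lit 5) (nat_lit 181) (nat_lit 5) (nat_lit 281) (nat_lit 264) (nat_lit 235)) (XT.nd (nat_lit 78) (nat_lit 532) (nat_lit 0) (XT.lf (nat_lit 0) (nat_lit 1965273216) (nat_lit 608) (nat_lit 6247814293) (nat_lit 76) (nat_lit 627575105) (nat_lit 164) (nat_lit 5) (nat_lit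 172) (nat_lit 5) (nat_lit 165) (nat_lit 5) (nat_lit 282) (nat_lit 264) (nat_lit 234)) (XT.lf (nat_lit 0) (nat_lit 1978606996) (nat_lit 532) (nat_lit 3394471181) (nat_lit 608) (nat_lit 3677321068) (nat_lit 157) (nat_lit 5) (nat_lit 164) (nat_lit 5) (nat_lit 165) (nat_lit 5) (nat_lit 283) (nat_lit 264) (nat_lit 233)))) (XT.nd (nat_lit 156) (nat_lit 532) (nat_lit 0) (XT.nd (nat_lit 78) (nat_lit 608) (nat_lit 0) (XT.lf (nat_lit 0) (nat_lit 1361614395) (nat_lit 456) (nat_lit 7567077749) (nat_lit 532) (nat_lit 342741825) (nat_lit 151) (nat_lit 5) (nat_lit 157) (nat_lit 5) (nat_lit 158) (nat_lit 5) (nat_lit 284) (nat_lit 264) (nat_lit 232)) (XT.lf (nat_lit 0) (nat_lit 685888996) (nat_lit 532) (nat_lit 2411923139) (nat_lit 608) (nat_lit 6404894748) (nat_lit 143) (nat_lit 5) (nat_lit 150) (nat_lit 5) (nat_lit 151) (nat_lit 5) (nat_lit 285) (nat_lit 264) (nat_lit 231))) (XT.nd (nat_lit 78) (nat_lit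 532) (nat_lit 0) (XT.lf (nat_lit 0) (nat_lit 6705072172) (nat_lit 608) (nat_lit 24509036) (nat_lit 76) (nat_lit 3015925275) (nat_lit 143) (nat_lit 5) (nat_lit 151) (nat_lit 5) (nat_lit 144) (nat_lit 5) (nat_lit 286) (nat_lit 264) (nat_lit 230)) (XT.lf (nat_lit 0) (nat_lit 491661623) (nat_lit 532) (nat_lit 760663234) (nat_lit 76) (nat_lit 8747817678) (nat_lit 136) (nat_lit 5) (nat_lit 143) (nat_lit 5) (nat_lit 137) (nat_lit 5) (nat_lit 287) (nat_lit 264) (nat_lit 229))))) (XT.nd (nat_lit 234) (nat_lit 1520) (nat_lit 0) (XT.nd (nat_lit 78) (nat_lit 912) (nat_lit 0) (XT.lf (nat_lit 0) (nat_lit 4164963728) (nat_lit 532) (nat_lit 1589995235) (nat_lit 76) (nat_lit 4510927639) (nat_lit 130) (nat_lit 5) (nat_lit 137) (nat_lit 5) (nat_lit 131) (nat_lit 5) (nat_lit 288) (nat_lit 264) (nat_lit 228)) (XT.nd (nat_lit 78) (nat_lit 532) (nat_lit 0) (XT.lf (nat_lit 0) (nat_lit 8022918314) (nat_lit 456) (nat_lit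 2462312299) (nat_lit 76) (nat_lit 59756474) (nat_lit 125) (nat_lit 5) (nat_lit 131) (nat_lit 5) (nat_lit 126) (nat_lit 5) (nat_lit 289) (nat_lit 264) (nat_lit 227)) (XT.lf (nat_lit 0) (nat_lit 1263349631) (nat_lit 532) (nat_lit 3444692484) (nat_lit 76) (nat_lit 6128183459) (nat_lit 118) (nat_lit 5) (nat_lit 125) (nat_lit 5) (nat_lit 119) (nat_lit 5) (nat_lit 290) (nat_lit 264) (nat_lit 226)))) (XT.nd (nat_lit 156) (nat_lit 760) (nat_lit 0) (XT.nd (nat_lit 78) (nat_lit 380) (nat_lit 0) (XT.lf (nat_lit 0) (nat_lit 5197677850) (nat_lit 456) (nat_lit 4518510187) (nat_lit 76) (nat_lit 1424821882) (nat_lit 113) (nat_lit 5) (nat_lit 119) (nat_lit 5) (nat_lit 114) (nat_lit 5) (nat_lit 291) (nat_lit 264) (nat_lit 225)) (XT.lf (nat_lit 0) (nat_lit 5755101338) (nat_lit 380) (nat_lit 3623308189) (nat_lit 456) (nat_lit 2081216234) (nat_lit 108) (nat_lit 5) (nat_lit 113) (nat_lit 5) (nat_lit 114) (nat_lit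 5) (nat_lit 292) (nat_lit 264) (nat_lit 224))) (XT.nd (nat_lit 78) (nat_lit 380) (nat_lit 0) (XT.lf (nat_lit 0) (nat_lit 1969455344) (nat_lit 380) (nat_lit 7015556718) (nat_lit 76) (nat_lit 2807648621) (nat_lit 103) (nat_lit 5) (nat_lit 108) (nat_lit 5) (nat_lit 104) (nat_lit 5) (nat_lit 293) (nat_lit 264) (nat_lit 223)) (XT.lf (nat_lit 0) (nat_lit 3662734942) (nat_lit 380) (nat_lit 2564468208) (nat_lit 456) (nat_lit 5913171450) (nat_lit 98) (nat_lit 5) (nat_lit 103) (nat_lit 5) (nat_lit 104) (nat_lit 5) (nat_lit 294) (nat_lit 264) (nat_lit 222))))))) (XT.nd (nat_lit 1092) (nat_lit 1672) (nat_lit 0) (XT.nd (nat_lit 546) (nat_lit 1520) (nat_lit 0) (XT.nd (nat_lit 234) (nat_lit 1216) (nat_lit 0) (XT.nd (nat_lit 78) (nat_lit 380) (nat_lit 0) (XT.lf (nat_lit 0) (nat_lit 2413429973) (nat_lit 304) (nat_lit 8339477561) (nat_lit 380) (nat_lit 1750984124) (nat_lit 94) (nat_lit 5) (nat_lit 98) (nat_lit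 5) (nat_lit 99) (nat_lit 5) (nat_lit 295) (nat_lit 264) (nat_lit 221)) (XT.nd (nat_lit 78) (nat_lit 0) (nat_lit 0) (XT.lf (nat_lit 0) (nat_lit 1001365154) (nat_lit 304) (nat_lit 1611251269) (nat_lit 380) (nat_lit 10270944590) (nat_lit 89) (nat_lit 5) (nat_lit 93) (nat_lit 5) (nat_lit 94) (nat_lit 5) (nat_lit 296) (nat_lit 264) (nat_lit 220)) (XT.lf (nat_lit 0) (nat_lit 7239078568) (nat_lit 380) (nat_lit 599999059) (nat_lit 76) (nat_lit 5440250498) (nat_lit 89) (nat_lit 5) (nat_lit 94) (nat_lit 5) (nat_lit 90) (nat_lit 5) (nat_lit 297) (nat_lit 264) (nat_lit 219)))) (XT.nd (nat_lit 156) (nat_lit 532) (nat_lit 0) (XT.nd (nat_lit 78) (nat_lit 380) (nat_lit 0) (XT.lf (nat_lit 0) (nat_lit 11348229796) (nat_lit 304) (nat_lit 800874186) (nat_lit 380) (nat_lit 1544270709) (nat_lit 85) (nat_lit 5) (nat_lit 89) (nat_lit 5) (nat_lit 90) (nat_lit 5) (nat_lit 298) (nat_lit 264) (nat_lit 218)) (XT.lf (nat_lit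 0) (nat_lit 3208332066) (nat_lit 380) (nat_lit 4352648415) (nat_lit 76) (nat_lit 6563466676) (nat_lit 80) (nat_lit 5) (nat_lit 85) (nat_lit 5) (nat_lit 81) (nat_lit 5) (nat_lit 299) (nat_lit 264) (nat_lit 217))) (XT.nd (nat_lit 78) (nat_lit 304) (nat_lit 0) (XT.lf (nat_lit 0) (nat_lit 7998735448) (nat_lit 228) (nat_lit 208355172) (nat_lit 304) (nat_lit 6368361370) (nat_lit 77) (nat_lit 5) (nat_lit 80) (nat_lit 5) (nat_lit 81) (nat_lit 5) (nat_lit 300) (nat_lit 264) (nat_lit 216)) (XT.lf (nat_lit 0) (nat_lit 5954976904) (nat_lit 304) (nat_lit 7608383385) (nat_lit 380) (nat_lit 1482468479) (nat_lit 73) (nat_lit 5) (nat_lit 77) (nat_lit 5) (nat_lit 78) (nat_lit 5) (nat_lit 301) (nat_lit 264) (nat_lit 215))))) (XT.nd (nat_lit 234) (nat_lit 988) (nat_lit 0) (XT.nd (nat_lit 78) (nat_lit 228) (nat_lit 0) (XT.lf (nat_lit 0) (nat_lit 3616838896) (nat_lit 304) (nat_lit 11889526156) (nat_lit 76) (nat_lit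 31143625) (nat_lit 69) (nat_lit 5) (nat_lit 73) (nat_lit 5) (nat_lit 70) (nat_lit 5) (nat_lit 302) (nat_lit 264) (nat_lit 214)) (XT.nd (nat_lit 78) (nat_lit 0) (nat_lit 0) (XT.lf (nat_lit 0) (nat_lit 992572708) (nat_lit 228) (nat_lit 8065357016) (nat_lit 304) (nat_lit 6991921245) (nat_lit 66) (nat_lit 5) (nat_lit 69) (nat_lit 5) (nat_lit 70) (nat_lit 5) (nat_lit 303) (nat_lit 264) (nat_lit 213)) (XT.lf (nat_lit 0) (nat_lit 14673130842) (nat_lit 228) (nat_lit 158812317) (nat_lit 304) (nat_lit 1754082185) (nat_lit 66) (nat_lit 5) (nat_lit 69) (nat_lit 5) (nat_lit 70) (nat_lit 5) (nat_lit 304) (nat_lit 264) (nat_lit 212)))) (XT.nd (nat_lit 156) (nat_lit 456) (nat_lit 0) (XT.nd (nat_lit 78) (nat_lit 228) (nat_lit 0) (XT.lf (nat_lit 0) (nat_lit 3808127577) (nat_lit 304) (nat_lit 5229803449) (nat_lit 76) (nat_lit 8105968073) (nat_lit 62) (nat_lit 5) (nat_lit 66) (nat_lit 5) (nat_lit 63) (nat_lit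 5) (nat_lit 305) (nat_lit 264) (nat_lit 211)) (XT.lf (nat_lit 0) (nat_lit 8805978729) (nat_lit 228) (nat_lit 855127886) (nat_lit 304) (nat_lit 8066606949) (nat_lit 59) (nat_lit 5) (nat_lit 62) (nat_lit 5) (nat_lit 63) (nat_lit 5) (nat_lit 306) (nat_lit 264) (nat_lit 210))) (XT.nd (nat_lit 78) (nat_lit 304) (nat_lit 0) (XT.lf (nat_lit 0) (nat_lit 5252812400) (nat_lit 152) (nat_lit 10677216373) (nat_lit 228) (nat_lit 2407025547) (nat_lit 57) (nat_lit 5) (nat_lit 59) (nat_lit 5) (nat_lit 60) (nat_lit 5) (nat_lit 307) (nat_lit 264) (nat_lit 209)) (XT.lf (nat_lit 0) (nat_lit 1242027325) (nat_lit 228) (nat_lit 2283167592) (nat_lit 304) (nat_lit 15448919897) (nat_lit 53) (nat_lit 5) (nat_lit 56) (nat_lit 5) (nat_lit 57) (nat_lit 5) (nat_lit 308) (nat_lit 264) (nat_lit 208)))))) (XT.nd (nat_lit 546) (nat_lit 684) (nat_lit 0) (XT.nd (nat_lit 234) (nat_lit 532) (nat_lit 0) (XT.nd (nat_lit 78) (nat_lit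 456) (nat_lit 0) (XT.lf (nat_lit 0) (nat_lit 9850323710) (nat_lit 304) (nat_lit 3255275805) (nat_lit 76) (nat_lit 6532361801) (nat_lit 53) (nat_lit 5) (nat_lit 57) (nat_lit 5) (nat_lit 54) (nat_lit 5) (nat_lit 309) (nat_lit 264) (nat_lit 207)) (XT.nd (nat_lit 78) (nat_lit 304) (nat_lit 0) (XT.lf (nat_lit 0) (nat_lit 12076156282) (nat_lit 152) (nat_lit 4504028497) (nat_lit 228) (nat_lit 3752189934) (nat_lit 51) (nat_lit 5) (nat_lit 53) (nat_lit 5) (nat_lit 54) (nat_lit 5) (nat_lit 310) (nat_lit 264) (nat_lit 206)) (XT.lf (nat_lit 0) (nat_lit 2632777709) (nat_lit 304) (nat_lit 13886835084) (nat_lit 76) (nat_lit 4538231466) (nat_lit 47) (nat_lit 5) (nat_lit 51) (nat_lit 5) (nat_lit 48) (nat_lit 5) (nat_lit 311) (nat_lit 264) (nat_lit 205)))) (XT.nd (nat_lit 156) (nat_lit 380) (nat_lit 0) (XT.nd (nat_lit 78) (nat_lit 0) (nat_lit 0) (XT.lf (nat_lit 0) (nat_lit 1592639935) (nat_lit 152) (nat_lit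 7765874870) (nat_lit 228) (nat_lit 12457009704) (nat_lit 45) (nat_lit 5) (nat_lit 47) (nat_lit 5) (nat_lit 48) (nat_lit 5) (nat_lit 312) (nat_lit 264) (nat_lit 204)) (XT.lf (nat_lit 0) (nat_lit 16531670968) (nat_lit 228) (nat_lit 4563848396) (nat_lit 76) (nat_lit 1512259635) (nat_lit 45) (nat_lit 5) (nat_lit 48) (nat_lit 5) (nat_lit 46) (nat_lit 5) (nat_lit 313) (nat_lit 264) (nat_lit 203))) (XT.nd (nat_lit 78) (nat_lit 152) (nat_lit 0) (XT.lf (nat_lit 0) (nat_lit 761746940) (nat_lit 228) (nat_lit 11484053702) (nat_lit 76) (nat_lit 11189185591) (nat_lit 42) (nat_lit 5) (nat_lit 45) (nat_lit 5) (nat_lit 43) (nat_lit 5) (nat_lit 314) (nat_lit 264) (nat_lit 202)) (XT.lf (nat_lit 0) (nat_lit 5048149761) (nat_lit 152) (nat_lit 2821101045) (nat_lit 228) (nat_lit 16430916960) (nat_lit 40) (nat_lit 5) (nat_lit 42) (nat_lit 5) (nat_lit 43) (nat_lit 5) (nat_lit 315) (nat_lit 264) (nat_lit 201)))))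 (XT.nd (nat_lit 234) (nat_lit 304) (nat_lit 0) (XT.nd (nat_lit 78) (nat_lit 380) (nat_lit 0) (XT.lf (nat_lit 0) (nat_lit 15476926551) (nat_lit 228) (nat_lit 2699451118) (nat_lit 76) (nat_lit 7027907096) (nat_lit 40) (nat_lit 5) (nat_lit 43) (nat_lit 5) (nat_lit 41) (nat_lit 5) (nat_lit 316) (nat_lit 264) (nat_lit 200)) (XT.nd (nat_lit 78) (nat_lit 228) (nat_lit 0) (XT.lf (nat_lit 0) (nat_lit 14873789815) (nat_lit 152) (nat_lit 8722075222) (nat_lit 228) (nat_lit 2553835532) (nat_lit 38) (nat_lit 5) (nat_lit 40) (nat_lit 5) (nat_lit 41) (nat_lit 5) (nat_lit 317) (nat_lit 264) (nat_lit 199)) (XT.lf (nat_lit 0) (nat_lit 4942301931) (nat_lit 228) (nat_lit 20905420498) (nat_lit 76) (nat_lit 1291414416) (nat_lit 35) (nat_lit 5) (nat_lit 38) (nat_lit 5) (nat_lit 36) (nat_lit 5) (nat_lit 318) (nat_lit 264) (nat_lit 198)))) (XT.nd (nat_lit 156) (nat_lit 152) (nat_lit 0) (XT.nd (nat_lit 78) (nat_lit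 152) (nat_lit 0) (XT.lf (nat_lit 0) (nat_lit 12927488793) (nat_lit 228) (nat_lit 3501595448) (nat_lit 76) (nat_lit 11743207352) (nat_lit 35) (nat_lit 5) (nat_lit 38) (nat_lit 5) (nat_lit 36) (nat_lit 5) (nat_lit 319) (nat_lit 264) (nat_lit 197)) (XT.lf (nat_lit 0) (nat_lit 15001796904) (nat_lit 152) (nat_lit 6417496876) (nat_lit 228) (nat_lit 7834605741) (nat_lit 33) (nat_lit 5) (nat_lit 35) (nat_lit 5) (nat_lit 36) (nat_lit 5) (nat_lit 320) (nat_lit 264) (nat_lit 196))) (XT.nd (nat_lit 78) (nat_lit 0) (nat_lit 0) (XT.lf (nat_lit 0) (nat_lit 27094025) (nat_lit 152) (nat_lit 26294704718) (nat_lit 76) (nat_lit 4065421397) (nat_lit 31) (nat_lit 5) (nat_lit 33) (nat_lit 5) (nat_lit 32) (nat_lit 5) (nat_lit 321) (nat_lit 264) (nat_lit 195)) (XT.lf (nat_lit 0) (nat_lit 8299128474) (nat_lit 152) (nat_lit 8127226533) (nat_lit 76) (nat_lit 15143160504) (nat_lit 31) (nat_lit 5) (nat_lit 33) (nat_lit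 5) (nat_lit 32) (nat_lit 5) (nat_lit 322) (nat_lit 264) (nat_lit 194))))))))
noncomputable def xc58 : XT := (XT.nd (nat_lit 2106) (nat_lit 304) (nat_lit 0) (XT.nd (nat_lit 1014) (nat_lit 532) (nat_lit 0) (XT.nd (nat_lit 468) (nat_lit 532) (nat_lit 0) (XT.nd (nat_lit 234) (nat_lit 228) (nat_lit 0) (XT.nd (nat_lit 78) (nat_lit 152) (nat_lit 0) (XT.lf (nat_lit 0) (nat_lit 11106972125) (nat_lit 152) (nat_lit 5951070355) (nat_lit 228) (nat_lit 15750698427) (nat_lit 29) (nat_lit 5) (nat_lit 31) (nat_lit 5) (nat_lit 32) (nat_lit 5) (nat_lit 323) (nat_lit 264) (nat_lit 193)) (XT.nd (nat_lit 78) (nat_lit 152) (nat_lit 0) (XT.lf (nat_lit 0) (nat_lit 26355244397) (nat_lit 228) (nat_lit 2741523931) (nat_lit 76) (nat_lit 5010161921) (nat_lit 29) (nat_lit 5) (nat_lit 32) (nat_lit 5) (nat_lit 30) (nat_lit 4) (nat_lit 324) (nat_lit 264) (nat_lit 192)) (XT.lf (nat_lit 0) (nat_lit 832700642) (nat_lit 152)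 (nat_lit 18081019733) (nat_lit 76) (nat_lit 16550192373) (nat_lit 27) (nat_lit 5) (nat_lit 29) (nat_lit 5) (nat_lit 28) (nat_lit 5) (nat_lit 325) (nat_lit 264) (nat_lit 191)))) (XT.nd (nat_lit 78) (nat_lit 76) (nat_lit 0) (XT.lf (nat_lit 0) (nat_lit 1581482753) (nat_lit 152) (nat_lit 8119243978) (nat_lit 228) (nat_lit 27185284446) (nat_lit 25) (nat_lit 5) (nat_lit 27) (nat_lit 5) (nat_lit 28) (nat_lit 5) (nat_lit 326) (nat_lit 264) (nat_lit 190)) (XT.nd (nat_lit 78) (nat_lit 76) (nat_lit 0) (XT.lf (nat_lit 0) (nat_lit 19201302461) (nat_lit 228) (nat_lit 15854344606) (nat_lit 76) (nat_lit 3317903869) (nat_lit 25) (nat_lit 5) (nat_lit 28) (nat_lit 5) (nat_lit 26) (nat_lit 4) (nat_lit 327) (nat_lit 264) (nat_lit 189)) (XT.lf (nat_lit 0) (nat_lit 4524286471) (nat_lit 76) (nat_lit 24749748983) (nat_lit 152) (nat_lit 10658528712) (nat_lit 24) (nat_lit 5) (nat_lit 25) (nat_lit 5) (nat_lit 26) (nat_lit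 4) (nat_lit 328) (nat_lit 264) (nat_lit 188))))) (XT.nd (nat_lit 234) (nat_lit 304) (nat_lit 0) (XT.nd (nat_lit 78) (nat_lit 228) (nat_lit 0) (XT.lf (nat_lit 0) (nat_lit 26204205351) (nat_lit 76) (nat_lit 13781972596) (nat_lit 152) (nat_lit 1579286773) (nat_lit 24) (nat_lit 5) (nat_lit 25) (nat_lit 5) (nat_lit 26) (nat_lit 4) (nat_lit 329) (nat_lit 264) (nat_lit 187)) (XT.nd (nat_lit 78) (nat_lit 0) (nat_lit 0) (XT.lf (nat_lit 0) (nat_lit 5675240076) (nat_lit 152) (nat_lit 2151626334) (nat_lit 228) (nat_lit 35450014498) (nat_lit 21) (nat_lit 5) (nat_lit 23) (nat_lit 5) (nat_lit 24) (nat_lit 5) (nat_lit 330) (nat_lit 264) (nat_lit 186)) (XT.lf (nat_lit 0) (nat_lit 17901597248) (nat_lit 228) (nat_lit 17145151410) (nat_lit 76) (nat_lit 10019730860) (nat_lit 21) (nat_lit 5) (nat_lit 24) (nat_lit 5) (nat_lit 22) (nat_lit 4) (nat_lit 331) (nat_lit 264) (nat_lit 185)))) (XT.nd (nat_lit 156) (nat_lit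 228) (nat_lit 0) (XT.nd (nat_lit 78) (nat_lit 0) (nat_lit 0) (XT.lf (nat_lit 0) (nat_lit 4353215237) (nat_lit 76) (nat_lit 24165866358) (nat_lit 152) (nat_lit 18425314214) (nat_lit 20) (nat_lit 5) (nat_lit 21) (nat_lit 5) (nat_lit 22) (nat_lit 4) (nat_lit 332) (nat_lit 264) (nat_lit 184)) (XT.lf (nat_lit 0) (nat_lit 27241872519) (nat_lit 76) (nat_lit 12578272516) (nat_lit 152) (nat_lit 9091489597) (nat_lit 20) (nat_lit 5) (nat_lit 21) (nat_lit 5) (nat_lit 22) (nat_lit 4) (nat_lit 333) (nat_lit 264) (nat_lit 183))) (XT.nd (nat_lit 78) (nat_lit 0) (nat_lit 0) (XT.lf (nat_lit 0) (nat_lit 254548482) (nat_lit 152) (nat_lit 420200817) (nat_lit 228) (nat_lit 50302902142) (nat_lit 17) (nat_lit 5) (nat_lit 19) (nat_lit 5) (nat_lit 20) (nat_lit 5) (nat_lit 334) (nat_lit 264) (nat_lit 182)) (XT.lf (nat_lit 0) (nat_lit 11064620070) (nat_lit 228) (nat_lit 29665659842) (nat_lit 76) (nat_lit 12404295284)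 (nat_lit 17) (nat_lit 5) (nat_lit 20) (nat_lit 5) (nat_lit 18) (nat_lit 4) (nat_lit 335) (nat_lit 264) (nat_lit 181)))))) (XT.nd (nat_lit 546) (nat_lit 228) (nat_lit 0) (XT.nd (nat_lit 234) (nat_lit 228) (nat_lit 0) (XT.nd (nat_lit 78) (nat_lit 76) (nat_lit 0) (XT.lf (nat_lit 0) (nat_lit 21956933361) (nat_lit 228) (nat_lit 7598295679) (nat_lit 76) (nat_lit 25844634227) (nat_lit 17) (nat_lit 5) (nat_lit 20) (nat_lit 5) (nat_lit 18) (nat_lit 4) (nat_lit 336) (nat_lit 264) (nat_lit 180)) (XT.nd (nat_lit 78) (nat_lit 0) (nat_lit 0) (XT.lf (nat_lit 0) (nat_lit 15844758406) (nat_lit 76) (nat_lit 17681135127) (nat_lit 152) (nat_lit 24248567554) (nat_lit 16) (nat_lit 5) (nat_lit 17) (nat_lit 5) (nat_lit 18) (nat_lit 4) (nat_lit 337) (nat_lit 264) (nat_lit 179)) (XT.lf (nat_lit 0) (nat_lit 40582937410) (nat_lit 76) (nat_lit 5148925167) (nat_lit 152) (nat_lit 14534175377) (nat_lit 16) (nat_lit 5) (nat_lit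 17) (nat_lit 5) (nat_lit 18) (nat_lit 4) (nat_lit 338) (nat_lit 264) (nat_lit 178)))) (XT.nd (nat_lit 156) (nat_lit 76) (nat_lit 0) (XT.nd (nat_lit 78) (nat_lit 76) (nat_lit 0) (XT.lf (nat_lit 0) (nat_lit 3635248439) (nat_lit 76) (nat_lit 55005953157) (nat_lit 76) (nat_lit 4238205622) (nat_lit 15) (nat_lit 4) (nat_lit 16) (nat_lit 5) (nat_lit 16) (nat_lit 4) (nat_lit 339) (nat_lit 264) (nat_lit 177)) (XT.lf (nat_lit 0) (nat_lit 6682424893) (nat_lit 152) (nat_lit 37237594986) (nat_lit 76) (nat_lit 21694391450) (nat_lit 14) (nat_lit 5) (nat_lit 16) (nat_lit 5) (nat_lit 15) (nat_lit 4) (nat_lit 340) (nat_lit 264) (nat_lit 176))) (XT.nd (nat_lit 78) (nat_lit 76) (nat_lit 0) (XT.lf (nat_lit 0) (nat_lit 18044650097) (nat_lit 152) (nat_lit 14205773046) (nat_lit 76) (nat_lit 36234992175) (nat_lit 14) (nat_lit 5) (nat_lit 16) (nat_lit 5) (nat_lit 15) (nat_lit 4) (nat_lit 341) (nat_lit 264) (nat_lit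 175)) (XT.lf (nat_lit 0) (nat_lit 10144847450) (nat_lit 76) (nat_lit 19910896593) (nat_lit 152) (nat_lit 41441807519) (nat_lit 13) (nat_lit 5) (nat_lit 14) (nat_lit 5) (nat_lit 15) (nat_lit 4) (nat_lit 342) (nat_lit 264) (nat_lit 174))))) (XT.nd (nat_lit 234) (nat_lit 152) (nat_lit 0) (XT.nd (nat_lit 78) (nat_lit 76) (nat_lit 0) (XT.lf (nat_lit 0) (nat_lit 35979984380) (nat_lit 76) (nat_lit 6817394187) (nat_lit 152) (nat_lit 31859021024) (nat_lit 13) (nat_lit 5) (nat_lit 14) (nat_lit 5) (nat_lit 15) (nat_lit 4) (nat_lit 343) (nat_lit 264) (nat_lit 173)) (XT.nd (nat_lit 78) (nat_lit 76) (nat_lit 0) (XT.lf (nat_lit 0) (nat_lit 56227116821) (nat_lit 152) (nat_lit 14961729616) (nat_lit 0) (nat_lit 6782817260) (nat_lit 13) (nat_lit 5) (nat_lit 15) (nat_lit 4) (nat_lit 13) (nat_lit 4) (nat_lit 344) (nat_lit 264) (nat_lit 172)) (XT.lf (nat_lit 0) (nat_lit 10038341201) (nat_lit 76) (nat_lit 60440447046)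 (nat_lit 76) (nat_lit 10969393502) (nat_lit 12) (nat_lit 4) (nat_lit 13) (nat_lit 5) (nat_lit 13) (nat_lit 4) (nat_lit 345) (nat_lit 264) (nat_lit 171)))) (XT.nd (nat_lit 156) (nat_lit 76) (nat_lit 0) (XT.nd (nat_lit 78) (nat_lit 0) (nat_lit 0) (XT.lf (nat_lit 0) (nat_lit 478784445) (nat_lit 152) (nat_lit 48524601103) (nat_lit 76) (nat_lit 36090814930) (nat_lit 11) (nat_lit 5) (nat_lit 13) (nat_lit 5) (nat_lit 12) (nat_lit 4) (nat_lit 346) (nat_lit 264) (nat_lit 170)) (XT.lf (nat_lit 0) (nat_lit 12260756245) (nat_lit 152) (nat_lit 24631465002) (nat_lit 76) (nat_lit 52027396832) (nat_lit 11) (nat_lit 5) (nat_lit 13) (nat_lit 5) (nat_lit 12) (nat_lit 4) (nat_lit 347) (nat_lit 264) (nat_lit 169))) (XT.nd (nat_lit 78) (nat_lit 0) (nat_lit 0) (XT.lf (nat_lit 0) (nat_lit 440496367) (nat_lit 76) (nat_lit 24182364541) (nat_lit 152) (nat_lit 68313718084) (nat_lit 10) (nat_lit 5) (nat_lit 11) (nat_lit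 5) (nat_lit 12) (nat_lit 4) (nat_lit 348) (nat_lit 264) (nat_lit 168)) (XT.lf (nat_lit 0) (nat_lit 27257053971) (nat_lit 76) (nat_lit 10586776481) (nat_lit 152) (nat_lit 59303338009) (nat_lit 10) (nat_lit 5) (nat_lit 11) (nat_lit 5) (nat_lit 12) (nat_lit 4) (nat_lit 349) (nat_lit 264) (nat_lit 167))))))) (XT.nd (nat_lit 34008) (nat_lit 0) (nat_lit 15124) (XT.nd (nat_lit 546) (nat_lit 152) (nat_lit 0) (XT.nd (nat_lit 234) (nat_lit 76) (nat_lit 0) (XT.nd (nat_lit 78) (nat_lit 76) (nat_lit 0) (XT.lf (nat_lit 0) (nat_lit 51749015377) (nat_lit 152) (nat_lit 46212170892) (nat_lit 0) (nat_lit 3606409266) (nat_lit 10) (nat_lit 5) (nat_lit 12) (nat_lit 4) (nat_lit 10) (nat_lit 4) (nat_lit 350) (nat_lit 264) (nat_lit 166)) (XT.nd (nat_lit 78) (nat_lit 76) (nat_lit 0) (XT.lf (nat_lit 0) (nat_lit 66444609603) (nat_lit 152) (nat_lit 21478962111) (nat_lit 0) (nat_lit 18282620739) (nat_lit 10) (nat_lit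 5) (nat_lit 12) (nat_lit 4) (nat_lit 10) (nat_lit 4) (nat_lit 351) (nat_lit 264) (nat_lit 165)) (XT.lf (nat_lit 0) (nat_lit 4559132104) (nat_lit 76) (nat_lit 77348529128) (nat_lit 76) (nat_lit 29168080501) (nat_lit 9) (nat_lit 4) (nat_lit 10) (nat_lit 5) (nat_lit 10) (nat_lit 4) (nat_lit 352) (nat_lit 264) (nat_lit 164)))) (XT.nd (nat_lit 156) (nat_lit 76) (nat_lit 0) (XT.nd (nat_lit 78) (nat_lit 0) (nat_lit 0) (XT.lf (nat_lit 0) (nat_lit 32327832585) (nat_lit 76) (nat_lit 66026329531) (nat_lit 76) (nat_lit 17828300176) (nat_lit 9) (nat_lit 4) (nat_lit 10) (nat_lit 5) (nat_lit 10) (nat_lit 4) (nat_lit 353) (nat_lit 264) (nat_lit 163)) (XT.lf (nat_lit 0) (nat_lit 61465781820) (nat_lit 76) (nat_lit 54146910705) (nat_lit 76) (nat_lit 5932137800) (nat_lit 9) (nat_lit 4) (nat_lit 10) (nat_lit 5) (nat_lit 10) (nat_lit 4) (nat_lit 354) (nat_lit 264) (nat_lit 162))) (XT.nd (nat_lit 78) (nat_lit 0)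 (nat_lit 0) (XT.lf (nat_lit 0) (nat_lit 6420941496) (nat_lit 152) (nat_lit 35196207906) (nat_lit 76) (nat_lit 85556575466) (nat_lit 8) (nat_lit 5) (nat_lit 10) (nat_lit 5) (nat_lit 9) (nat_lit 4) (nat_lit 355) (nat_lit 264) (nat_lit 161)) (XT.lf (nat_lit 0) (nat_lit 19260696420) (nat_lit 152) (nat_lit 9146692304) (nat_lit 76) (nat_lit 104675164446) (nat_lit 8) (nat_lit 5) (nat_lit 10) (nat_lit 5) (nat_lit 9) (nat_lit 4) (nat_lit 356) (nat_lit 264) (nat_lit 160))))) (XT.nd (nat_lit 234) (nat_lit 76) (nat_lit 0) (XT.nd (nat_lit 78) (nat_lit 0) (nat_lit 0) (XT.lf (nat_lit 0) (nat_lit 18550531989) (nat_lit 76) (nat_lit 14361242263) (nat_lit 152) (nat_lit 106369970746) (nat_lit 7) (nat_lit 5) (nat_lit 8) (nat_lit 5) (nat_lit 9) (nat_lit 4) (nat_lit 357) (nat_lit 264) (nat_lit 159)) (XT.nd (nat_lit 78) (nat_lit 0) (nat_lit 0) (XT.lf (nat_lit 0) (nat_lit 47335432243) (nat_lit 152) (nat_lit 97985434864)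 (nat_lit 0) (nat_lit 467330587) (nat_lit 7) (nat_lit 5) (nat_lit 9) (nat_lit 4) (nat_lit 7) (nat_lit 4) (nat_lit 358) (nat_lit 264) (nat_lit 158)) (XT.lf (nat_lit 0) (nat_lit 62616857750) (nat_lit 152) (nat_lit 74263000510) (nat_lit 0) (nat_lit 15736019192) (nat_lit 7) (nat_lit 5) (nat_lit 9) (nat_lit 4) (nat_lit 7) (nat_lit 4) (nat_lit 359) (nat_lit 264) (nat_lit 157)))) (XT.nd (nat_lit 156) (nat_lit 76) (nat_lit 0) (XT.nd (nat_lit 78) (nat_lit 0) (nat_lit 0) (XT.lf (nat_lit 0) (nat_lit 78654386075) (nat_lit 152) (nat_lit 49369378915) (nat_lit 0) (nat_lit 31761417133) (nat_lit 7) (nat_lit 5) (nat_lit 9) (nat_lit 4) (nat_lit 7) (nat_lit 4) (nat_lit 360) (nat_lit 264) (nat_lit 156)) (XT.lf (nat_lit 0) (nat_lit 95486201808) (nat_lit 152) (nat_lit 23245299552) (nat_lit 0) (nat_lit 48581680120) (nat_lit 7) (nat_lit 5) (nat_lit 9) (nat_lit 4) (nat_lit 7) (nat_lit 4) (nat_lit 361) (nat_lit 264)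 (nat_lit 155))) (XT.nd (nat_lit 78) (nat_lit 0) (nat_lit 0) (XT.lf (nat_lit 0) (nat_lit 4254457559) (nat_lit 76) (nat_lit 108938819591) (nat_lit 76) (nat_lit 62023295288) (nat_lit 6) (nat_lit 4) (nat_lit 7) (nat_lit 5) (nat_lit 7) (nat_lit 4) (nat_lit 362) (nat_lit 264) (nat_lit 154)) (XT.lf (nat_lit 0) (nat_lit 33601803202) (nat_lit 76) (nat_lit 98416182974) (nat_lit 76) (nat_lit 51490179989) (nat_lit 6) (nat_lit 4) (nat_lit 7) (nat_lit 5) (nat_lit 7) (nat_lit 4) (nat_lit 363) (nat_lit 264) (nat_lit 153)))))) (XT.nd (nat_lit 546) (nat_lit 4560) (nat_lit 0) (XT.nd (nat_lit 234) (nat_lit 1368) (nat_lit 0) (XT.nd (nat_lit 78) (nat_lit 608) (nat_lit 0) (XT.lf (nat_lit 0) (nat_lit 532901178) (nat_lit 0) (nat_lit 532901178) (nat_lit 532) (nat_lit 2303586989) (nat_lit 291) (nat_lit 5) (nat_lit 291) (nat_lit 3) (nat_lit 298) (nat_lit 3) (nat_lit 265) (nat_lit 265) (nat_lit 250)) (XT.nd (nat_lit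 78) (nat_lit 608) (nat_lit 0) (XT.lf (nat_lit 0) (nat_lit 5506224027) (nat_lit 532) (nat_lit 475127824) (nat_lit 608) (nat_lit 820643857) (nat_lit 291) (nat_lit 5) (nat_lit 298) (nat_lit 3) (nat_lit 299) (nat_lit 5) (nat_lit 266) (nat_lit 265) (nat_lit 249)) (XT.lf (nat_lit 0) (nat_lit 1984086996) (nat_lit 608) (nat_lit 1938011651) (nat_lit 684) (nat_lit 2950631248) (nat_lit 283) (nat_lit 5) (nat_lit 291) (nat_lit 5) (nat_lit 292) (nat_lit 5) (nat_lit 267) (nat_lit 265) (nat_lit 248)))) (XT.nd (nat_lit 156) (nat_lit 760) (nat_lit 0) (XT.nd (nat_lit 78) (nat_lit 608) (nat_lit 0) (XT.lf (nat_lit 76) (nat_lit 3620731848) (nat_lit 0) (nat_lit 1615981603) (nat_lit 684) (nat_lit 1715167456) (nat_lit 284) (nat_lit 5) (nat_lit 283) (nat_lit 5) (nat_lit 292) (nat_lit 5) (nat_lit 268) (nat_lit 265) (nat_lit 247)) (XT.lf (nat_lit 0) (nat_lit 1439542548) (nat_lit 684) (nat_lit 4670282717) (nat_lit 760)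 (nat_lit 929381651) (nat_lit 275) (nat_lit 5) (nat_lit 284) (nat_lit 5) (nat_lit 285) (nat_lit 5) (nat_lit 269) (nat_lit 265) (nat_lit 246))) (XT.nd (nat_lit 78) (nat_lit 760) (nat_lit 0) (XT.lf (nat_lit 76) (nat_lit 1163196968) (nat_lit 0) (nat_lit 3426852165) (nat_lit 760) (nat_lit 2544427175) (nat_lit 276) (nat_lit 5) (nat_lit 275) (nat_lit 5) (nat_lit 285) (nat_lit 5) (nat_lit 270) (nat_lit 265) (nat_lit 245)) (XT.lf (nat_lit 76) (nat_lit 26769805) (nat_lit 0) (nat_lit 489560975) (nat_lit 836) (nat_lit 6722286298) (nat_lit 266) (nat_lit 5) (nat_lit 265) (nat_lit 5) (nat_lit 276) (nat_lit 5) (nat_lit 271) (nat_lit 265) (nat_lit 244))))) (XT.nd (nat_lit 234) (nat_lit 3876) (nat_lit 0) (XT.nd (nat_lit 78) (nat_lit 760) (nat_lit 0) (XT.lf (nat_lit 0) (nat_lit 3590078895) (nat_lit 760) (nat_lit 1070282965) (nat_lit 836) (nat_lit 2689727620) (nat_lit 266) (nat_lit 5) (nat_lit 276) (nat_lit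 5) (nat_lit 277) (nat_lit 5) (nat_lit 272) (nat_lit 265) (nat_lit 243)) (XT.nd (nat_lit 78) (nat_lit 760) (nat_lit 0) (XT.lf (nat_lit 76) (nat_lit 5361434648) (nat_lit 0) (nat_lit 1345955803) (nat_lit 836) (nat_lit 763294117) (nat_lit 267) (nat_lit 5) (nat_lit 266) (nat_lit 5) (nat_lit 277) (nat_lit 5) (nat_lit 273) (nat_lit 265) (nat_lit 242)) (XT.lf (nat_lit 0) (nat_lit 2251161707) (nat_lit 836) (nat_lit 3133799625) (nat_lit 76) (nat_lit 2214455371) (nat_lit 256) (nat_lit 5) (nat_lit 267) (nat_lit 5) (nat_lit 257) (nat_lit 5) (nat_lit 274) (nat_lit 265) (nat_lit 241)))) (XT.nd (nat_lit 156) (nat_lit 2052) (nat_lit 0) (XT.nd (nat_lit 78) (nat_lit 988) (nat_lit 0) (XT.lf (nat_lit 0) (nat_lit 3609680078) (nat_lit 836) (nat_lit 1706667501) (nat_lit 912) (nat_lit 2420753399) (nat_lit 245) (nat_lit 5) (nat_lit 256) (nat_lit 5) (nat_lit 257) (nat_lit 5) (nat_lit 275) (nat_lit 265) (nat_lit 240))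 (XT.lf (nat_lit 0) (nat_lit 571612734) (nat_lit 988) (nat_lit 5101223887) (nat_lit 76) (nat_lit 2210907245) (nat_lit 232) (nat_lit 5) (nat_lit 245) (nat_lit 5) (nat_lit 233) (nat_lit 5) (nat_lit 276) (nat_lit 265) (nat_lit 239))) (XT.nd (nat_lit 78) (nat_lit 1064) (nat_lit 0) (XT.lf (nat_lit 0) (nat_lit 1964212648) (nat_lit 988) (nat_lit 1635133098) (nat_lit 1064) (nat_lit 4439769972) (nat_lit 219) (nat_lit 5) (nat_lit 232) (nat_lit 5) (nat_lit 233) (nat_lit 5) (nat_lit 277) (nat_lit 265) (nat_lit 238)) (XT.lf (nat_lit 0) (nat_lit 1165127091) (nat_lit 1064) (nat_lit 5564868751) (nat_lit 1140) (nat_lit 1473895609) (nat_lit 205) (nat_lit 5) (nat_lit 219) (nat_lit 5) (nat_lit 220) (nat_lit 5) (nat_lit 278) (nat_lit 265) (nat_lit 237))))))))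
noncomputable def xc59 : XT := (XT.nd (nat_lit 2184) (nat_lit 3192) (nat_lit 0) (XT.nd (nat_lit 1092) (nat_lit 3876) (nat_lit 0) (XT.nd (nat_lit 546) (nat_lit 2812) (nat_lit 0) (XT.nd (nat_lit 234) (nat_lit 2280) (nat_lit 0) (XT.nd (nat_lit 78) (nat_lit 684) (nat_lit 0) (XT.lf (nat_lit 0) (nat_lit 373210135) (nat_lit 1140) (nat_lit 1184514296) (nat_lit 1216) (nat_lit 6820392278) (nat_lit 189) (nat_lit 5) (nat_lit 204) (nat_lit 5) (nat_lit 205) (nat_lit 5) (nat_lit 279) (nat_lit 265) (nat_lit 236)) (XT.nd (nat_lit 78) (nat_lit 684) (nat_lit 0) (XT.lf (nat_lit 0) (nat_lit 4688301378) (nat_lit 1216) (nat_lit 425366170) (nat_lit 76) (nat_lit 3447771707) (nat_lit 189) (nat_lit 5) (nat_lit 205) (nat_lit 5) (nat_lit 190) (nat_lit 5) (nat_lit 280) (nat_lit 265) (nat_lit 235)) (XT.lf (nat_lit 0) (nat_lit 7553408914) (nat_lit 684) (nat_lit 384251350) (nat_lit 760) (nat_lit 817552042) (nat_lit 180)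 (nat_lit 5) (nat_lit 189) (nat_lit 5) (nat_lit 190) (nat_lit 5) (nat_lit 281) (nat_lit 265) (nat_lit 234)))) (XT.nd (nat_lit 156) (nat_lit 1064) (nat_lit 0) (XT.nd (nat_lit 78) (nat_lit 532) (nat_lit 0) (XT.lf (nat_lit 0) (nat_lit 2341833169) (nat_lit 684) (nat_lit 2024297371) (nat_lit 76) (nat_lit 4592064322) (nat_lit 171) (nat_lit 5) (nat_lit 180) (nat_lit 5) (nat_lit 172) (nat_lit 5) (nat_lit 282) (nat_lit 265) (nat_lit 233)) (XT.lf (nat_lit 0) (nat_lit 5612320850) (nat_lit 608) (nat_lit 2852207575) (nat_lit 76) (nat_lit 707587865) (nat_lit 164) (nat_lit 5) (nat_lit 172) (nat_lit 5) (nat_lit 165) (nat_lit 5) (nat_lit 283) (nat_lit 265) (nat_lit 232))) (XT.nd (nat_lit 78) (nat_lit 532) (nat_lit 0) (XT.lf (nat_lit 0) (nat_lit 5679245777) (nat_lit 532) (nat_lit 3376902393) (nat_lit 608) (nat_lit 340418615) (nat_lit 157) (nat_lit 5) (nat_lit 164) (nat_lit 5) (nat_lit 165) (nat_lit 5) (nat_lit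 284) (nat_lit 265) (nat_lit 231)) (XT.lf (nat_lit 0) (nat_lit 2971505021) (nat_lit 532) (nat_lit 4632044054) (nat_lit 76) (nat_lit 2028204991) (nat_lit 150) (nat_lit 5) (nat_lit 157) (nat_lit 5) (nat_lit 151) (nat_lit 5) (nat_lit 285) (nat_lit 265) (nat_lit 230))))) (XT.nd (nat_lit 234) (nat_lit 1292) (nat_lit 0) (XT.nd (nat_lit 78) (nat_lit 988) (nat_lit 0) (XT.lf (nat_lit 0) (nat_lit 4284796284) (nat_lit 532) (nat_lit 2168230177) (nat_lit 608) (nat_lit 3425354112) (nat_lit 143) (nat_lit 5) (nat_lit 150) (nat_lit 5) (nat_lit 151) (nat_lit 5) (nat_lit 286) (nat_lit 265) (nat_lit 229)) (XT.nd (nat_lit 78) (nat_lit 532) (nat_lit 0) (XT.lf (nat_lit 0) (nat_lit 3529396485) (nat_lit 456) (nat_lit 6596118384) (nat_lit 532) (nat_lit 11423701) (nat_lit 137) (nat_lit 5) (nat_lit 143) (nat_lit 5) (nat_lit 144) (nat_lit 5) (nat_lit 287) (nat_lit 265) (nat_lit 228)) (XT.lf (nat_lit 0) (nat_lit 2702528643)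 (nat_lit 456) (nat_lit 810374157) (nat_lit 532) (nat_lit 6894307299) (nat_lit 130) (nat_lit 5) (nat_lit 136) (nat_lit 5) (nat_lit 137) (nat_lit 5) (nat_lit 288) (nat_lit 265) (nat_lit 227)))) (XT.nd (nat_lit 156) (nat_lit 380) (nat_lit 0) (XT.nd (nat_lit 78) (nat_lit 532) (nat_lit 0) (XT.lf (nat_lit 0) (nat_lit 1799299048) (nat_lit 380) (nat_lit 5457319484) (nat_lit 456) (nat_lit 3433165135) (nat_lit 125) (nat_lit 5) (nat_lit 130) (nat_lit 5) (nat_lit 131) (nat_lit 5) (nat_lit 289) (nat_lit 265) (nat_lit 226)) (XT.lf (nat_lit 0) (nat_lit 209024901) (nat_lit 532) (nat_lit 10141827297) (nat_lit 76) (nat_lit 635305369) (nat_lit 118) (nat_lit 5) (nat_lit 125) (nat_lit 5) (nat_lit 119) (nat_lit 5) (nat_lit 290) (nat_lit 265) (nat_lit 225))) (XT.nd (nat_lit 78) (nat_lit 380) (nat_lit 0) (XT.lf (nat_lit 0) (nat_lit 4022821905) (nat_lit 532) (nat_lit 243264489) (nat_lit 76) (nat_lit 7028511888) (nat_lit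 118) (nat_lit 5) (nat_lit 125) (nat_lit 5) (nat_lit 119) (nat_lit 5) (nat_lit 291) (nat_lit 265) (nat_lit 224)) (XT.lf (nat_lit 0) (nat_lit 8063484190) (nat_lit 456) (nat_lit 1393581134) (nat_lit 76) (nat_lit 2160389391) (nat_lit 113) (nat_lit 5) (nat_lit 119) (nat_lit 5) (nat_lit 114) (nat_lit 5) (nat_lit 292) (nat_lit 265) (nat_lit 223)))))) (XT.nd (nat_lit 546) (nat_lit 1368) (nat_lit 0) (XT.nd (nat_lit 234) (nat_lit 1368) (nat_lit 0) (XT.nd (nat_lit 78) (nat_lit 684) (nat_lit 0) (XT.lf (nat_lit 0) (nat_lit 397633279) (nat_lit 456) (nat_lit 2661140073) (nat_lit 76) (nat_lit 8896010798) (nat_lit 107) (nat_lit 5) (nat_lit 113) (nat_lit 5) (nat_lit 108) (nat_lit 5) (nat_lit 293) (nat_lit 265) (nat_lit 222)) (XT.nd (nat_lit 78) (nat_lit 380) (nat_lit 0) (XT.lf (nat_lit 0) (nat_lit 4525444650) (nat_lit 380) (nat_lit 4085228935) (nat_lit 76) (nat_lit 3695756488) (nat_lit 103) (nat_lit 5) (nat_lit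 108) (nat_lit 5) (nat_lit 104) (nat_lit 5) (nat_lit 294) (nat_lit 265) (nat_lit 221)) (XT.lf (nat_lit 0) (nat_lit 7032925075) (nat_lit 380) (nat_lit 1876766082) (nat_lit 456) (nat_lit 3764532007) (nat_lit 98) (nat_lit 5) (nat_lit 103) (nat_lit 5) (nat_lit 104) (nat_lit 5) (nat_lit 295) (nat_lit 265) (nat_lit 220)))) (XT.nd (nat_lit 156) (nat_lit 684) (nat_lit 0) (XT.nd (nat_lit 78) (nat_lit 304) (nat_lit 0) (XT.lf (nat_lit 0) (nat_lit 518032194) (nat_lit 380) (nat_lit 7370090978) (nat_lit 76) (nat_lit 5169989712) (nat_lit 93) (nat_lit 5) (nat_lit 98) (nat_lit 5) (nat_lit 94) (nat_lit 5) (nat_lit 296) (nat_lit 265) (nat_lit 219)) (XT.lf (nat_lit 0) (nat_lit 4166719759) (nat_lit 304) (nat_lit 816653635) (nat_lit 380) (nat_lit 8475368670) (nat_lit 89) (nat_lit 5) (nat_lit 93) (nat_lit 5) (nat_lit 94) (nat_lit 5) (nat_lit 297) (nat_lit 265) (nat_lit 218))) (XT.nd (nat_lit 78) (nat_lit 380) (nat_lit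 0) (XT.lf (nat_lit 0) (nat_lit 2442297846) (nat_lit 304) (nat_lit 7323676964) (nat_lit 380) (nat_lit 4110663628) (nat_lit 85) (nat_lit 5) (nat_lit 89) (nat_lit 5) (nat_lit 90) (nat_lit 5) (nat_lit 298) (nat_lit 265) (nat_lit 217)) (XT.lf (nat_lit 0) (nat_lit 505576369) (nat_lit 380) (nat_lit 13769536265) (nat_lit 76) (nat_lit 38956678) (nat_lit 80) (nat_lit 5) (nat_lit 85) (nat_lit 5) (nat_lit 81) (nat_lit 5) (nat_lit 299) (nat_lit 265) (nat_lit 216))))) (XT.nd (nat_lit 234) (nat_lit 760) (nat_lit 0) (XT.nd (nat_lit 78) (nat_lit 608) (nat_lit 0) (XT.lf (nat_lit 0) (nat_lit 5395304148) (nat_lit 380) (nat_lit 1621013187) (nat_lit 76) (nat_lit 7752051587) (nat_lit 80) (nat_lit 5) (nat_lit 85) (nat_lit 5) (nat_lit 81) (nat_lit 5) (nat_lit 300) (nat_lit 265) (nat_lit 215)) (XT.nd (nat_lit 78) (nat_lit 380) (nat_lit 0) (XT.lf (nat_lit 0) (nat_lit 10581652480) (nat_lit 304) (nat_lit 3987281841)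 (nat_lit 76) (nat_lit 674931737) (nat_lit 77) (nat_lit 5) (nat_lit 81) (nat_lit 5) (nat_lit 78) (nat_lit 5) (nat_lit 301) (nat_lit 265) (nat_lit 214)) (XT.lf (nat_lit 0) (nat_lit 393836178) (nat_lit 380) (nat_lit 6658318149) (nat_lit 76) (nat_lit 8687488790) (nat_lit 72) (nat_lit 5) (nat_lit 77) (nat_lit 5) (nat_lit 73) (nat_lit 5) (nat_lit 302) (nat_lit 265) (nat_lit 213)))) (XT.nd (nat_lit 156) (nat_lit 304) (nat_lit 0) (XT.nd (nat_lit 78) (nat_lit 228) (nat_lit 0) (XT.lf (nat_lit 0) (nat_lit 5662101714) (nat_lit 304) (nat_lit 9646274630) (nat_lit 76) (nat_lit 948813829) (nat_lit 69) (nat_lit 5) (nat_lit 73) (nat_lit 5) (nat_lit 70) (nat_lit 5) (nat_lit 303) (nat_lit 265) (nat_lit 212)) (XT.lf (nat_lit 0) (nat_lit 3798586278) (nat_lit 228) (nat_lit 7514374917) (nat_lit 304) (nat_lit 5484117024) (nat_lit 66) (nat_lit 5) (nat_lit 69) (nat_lit 5) (nat_lit 70) (nat_lit 5) (nat_lit 304) (nat_lit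 265) (nat_lit 211))) (XT.nd (nat_lit 78) (nat_lit 76) (nat_lit 0) (XT.lf (nat_lit 0) (nat_lit 675266682) (nat_lit 228) (nat_lit 16628216847) (nat_lit 304) (nat_lit 58800741) (nat_lit 63) (nat_lit 5) (nat_lit 66) (nat_lit 5) (nat_lit 67) (nat_lit 5) (nat_lit 305) (nat_lit 265) (nat_lit 210)) (XT.lf (nat_lit 0) (nat_lit 5683945901) (nat_lit 304) (nat_lit 2864173789) (nat_lit 76) (nat_lit 9401354173) (nat_lit 62) (nat_lit 5) (nat_lit 66) (nat_lit 5) (nat_lit 63) (nat_lit 5) (nat_lit 306) (nat_lit 265) (nat_lit 209))))))) (XT.nd (nat_lit 1092) (nat_lit 1140) (nat_lit 0) (XT.nd (nat_lit 546) (nat_lit 760) (nat_lit 0) (XT.nd (nat_lit 234) (nat_lit 608) (nat_lit 0) (XT.nd (nat_lit 78) (nat_lit 456) (nat_lit 0) (XT.lf (nat_lit 0) (nat_lit 11774078842) (nat_lit 304) (nat_lit 6766342699) (nat_lit 76) (nat_lit 23772734) (nat_lit 59) (nat_lit 5) (nat_lit 63) (nat_lit 5) (nat_lit 60) (nat_lit 5) (nat_lit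 307) (nat_lit 265) (nat_lit 208)) (XT.nd (nat_lit 78) (nat_lit 304) (nat_lit 0) (XT.lf (nat_lit 0) (nat_lit 8033977422) (nat_lit 152) (nat_lit 10277284206) (nat_lit 228) (nat_lit 894143981) (nat_lit 57) (nat_lit 5) (nat_lit 59) (nat_lit 5) (nat_lit 60) (nat_lit 5) (nat_lit 308) (nat_lit 265) (nat_lit 207)) (XT.lf (nat_lit 0) (nat_lit 3782321635) (nat_lit 228) (nat_lit 1468062162) (nat_lit 304) (nat_lit 14625081705) (nat_lit 53) (nat_lit 5) (nat_lit 56) (nat_lit 5) (nat_lit 57) (nat_lit 5) (nat_lit 309) (nat_lit 265) (nat_lit 206)))) (XT.nd (nat_lit 156) (nat_lit 456) (nat_lit 0) (XT.nd (nat_lit 78) (nat_lit 152) (nat_lit 0) (XT.lf (nat_lit 0) (nat_lit 11826517787) (nat_lit 304) (nat_lit 1021263076) (nat_lit 76) (nat_lit 7726723249) (nat_lit 53) (nat_lit 5) (nat_lit 57) (nat_lit 5) (nat_lit 54) (nat_lit 5) (nat_lit 310) (nat_lit 265) (nat_lit 205)) (XT.lf (nat_lit 0) (nat_lit 15008037498)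 (nat_lit 152) (nat_lit 3836561949) (nat_lit 228) (nat_lit 2460527140) (nat_lit 51) (nat_lit 5) (nat_lit 53) (nat_lit 5) (nat_lit 54) (nat_lit 5) (nat_lit 311) (nat_lit 265) (nat_lit 204))) (XT.nd (nat_lit 78) (nat_lit 152) (nat_lit 0) (XT.lf (nat_lit 0) (nat_lit 4176294488) (nat_lit 304) (nat_lit 12256719472) (nat_lit 76) (nat_lit 5634622118) (nat_lit 47) (nat_lit 5) (nat_lit 51) (nat_lit 5) (nat_lit 48) (nat_lit 5) (nat_lit 312) (nat_lit 265) (nat_lit 203)) (XT.lf (nat_lit 0) (nat_lit 3930099195) (nat_lit 152) (nat_lit 7262690580) (nat_lit 228) (nat_lit 11671811857) (nat_lit 45) (nat_lit 5) (nat_lit 47) (nat_lit 5) (nat_lit 48) (nat_lit 5) (nat_lit 313) (nat_lit 265) (nat_lit 202))))) (XT.nd (nat_lit 234) (nat_lit 380) (nat_lit 0) (XT.nd (nat_lit 78) (nat_lit 380) (nat_lit 0) (XT.lf (nat_lit 0) (nat_lit 18667700861) (nat_lit 228) (nat_lit 2610177069) (nat_lit 76) (nat_lit 2420331746) (nat_lit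 45) (nat_lit 5) (nat_lit 48) (nat_lit 5) (nat_lit 46) (nat_lit 5) (nat_lit 314) (nat_lit 265) (nat_lit 201)) (XT.nd (nat_lit 78) (nat_lit 152) (nat_lit 0) (XT.lf (nat_lit 0) (nat_lit 2080477604) (nat_lit 228) (nat_lit 9912823989) (nat_lit 76) (nat_lit 12574390627) (nat_lit 42) (nat_lit 5) (nat_lit 45) (nat_lit 5) (nat_lit 43) (nat_lit 5) (nat_lit 315) (nat_lit 265) (nat_lit 200)) (XT.lf (nat_lit 0) (nat_lit 7384491258) (nat_lit 152) (nat_lit 2117914440) (nat_lit 228) (nat_lit 15974985377) (nat_lit 40) (nat_lit 5) (nat_lit 42) (nat_lit 5) (nat_lit 43) (nat_lit 5) (nat_lit 316) (nat_lit 265) (nat_lit 199)))) (XT.nd (nat_lit 156) (nat_lit 228) (nat_lit 0) (XT.nd (nat_lit 78) (nat_lit 152) (nat_lit 0) (XT.lf (nat_lit 0) (nat_lit 17439161182) (nat_lit 228) (nat_lit 821467749) (nat_lit 76) (nat_lit 8167652415) (nat_lit 40) (nat_lit 5) (nat_lit 43) (nat_lit 5) (nat_lit 41) (nat_lit 5) (nat_lit 317)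 (nat_lit 265) (nat_lit 198)) (XT.lf (nat_lit 0) (nat_lit 17572734254) (nat_lit 152) (nat_lit 8353517526) (nat_lit 228) (nat_lit 1495876957) (nat_lit 38) (nat_lit 5) (nat_lit 40) (nat_lit 5) (nat_lit 41) (nat_lit 5) (nat_lit 318) (nat_lit 265) (nat_lit 197))) (XT.nd (nat_lit 78) (nat_lit 0) (nat_lit 0) (XT.lf (nat_lit 0) (nat_lit 6322707502) (nat_lit 228) (nat_lit 20001891646) (nat_lit 76) (nat_lit 2136997392) (nat_lit 35) (nat_lit 5) (nat_lit 38) (nat_lit 5) (nat_lit 36) (nat_lit 5) (nat_lit 319) (nat_lit 265) (nat_lit 196)) (XT.lf (nat_lit 0) (nat_lit 14653187494) (nat_lit 228) (nat_lit 1820675338) (nat_lit 76) (nat_lit 13074188914) (nat_lit 35) (nat_lit 5) (nat_lit 38) (nat_lit 5) (nat_lit 36) (nat_lit 5) (nat_lit 320) (nat_lit 265) (nat_lit 195)))))) (XT.nd (nat_lit 546) (nat_lit 380) (nat_lit 0) (XT.nd (nat_lit 234) (nat_lit 456) (nat_lit 0) (XT.nd (nat_lit 78) (nat_lit 152) (nat_lit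 0) (XT.lf (nat_lit 0) (nat_lit 17554684768) (nat_lit 152) (nat_lit 5980831167) (nat_lit 228) (nat_lit 7149268745) (nat_lit 33) (nat_lit 5) (nat_lit 35) (nat_lit 5) (nat_lit 36) (nat_lit 5) (nat_lit 321) (nat_lit 265) (nat_lit 194)) (XT.nd (nat_lit 78) (nat_lit 0) (nat_lit 0) (XT.lf (nat_lit 0) (nat_lit 1058445106) (nat_lit 152) (nat_lit 25813577018) (nat_lit 76) (nat_lit 5003241107) (nat_lit 31) (nat_lit 5) (nat_lit 33) (nat_lit 5) (nat_lit 32) (nat_lit 5) (nat_lit 322) (nat_lit 265) (nat_lit 193)) (XT.lf (nat_lit 0) (nat_lit 9695033831) (nat_lit 152) (nat_lit 6823242206) (nat_lit 76) (nat_lit 16599888663) (nat_lit 31) (nat_lit 5) (nat_lit 33) (nat_lit 5) (nat_lit 32) (nat_lit 5) (nat_lit 323) (nat_lit 265) (nat_lit 192)))) (XT.nd (nat_lit 156) (nat_lit 304) (nat_lit 0) (XT.nd (nat_lit 78) (nat_lit 0) (nat_lit 0) (XT.lf (nat_lit 0) (nat_lit 13323639670) (nat_lit 152) (nat_lit 5537511627)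 (nat_lit 228) (nat_lit 15559141293) (nat_lit 29) (nat_lit 5) (nat_lit 31) (nat_lit 5) (nat_lit 32) (nat_lit 5) (nat_lit 324) (nat_lit 265) (nat_lit 191)) (XT.lf (nat_lit 0) (nat_lit 28584475511) (nat_lit 228) (nat_lit 1275391886) (nat_lit 76) (nat_lit 5924704193) (nat_lit 29) (nat_lit 5) (nat_lit 32) (nat_lit 5) (nat_lit 30) (nat_lit 4) (nat_lit 325) (nat_lit 265) (nat_lit 190))) (XT.nd (nat_lit 78) (nat_lit 152) (nat_lit 0) (XT.lf (nat_lit 0) (nat_lit 1766450671) (nat_lit 152) (nat_lit 17409729388) (nat_lit 76) (nat_lit 18033830983) (nat_lit 27) (nat_lit 5) (nat_lit 29) (nat_lit 5) (nat_lit 28) (nat_lit 5) (nat_lit 326) (nat_lit 265) (nat_lit 189)) (XT.lf (nat_lit 0) (nat_lit 3190741379) (nat_lit 152) (nat_lit 7859364089) (nat_lit 228) (nat_lit 27653958003) (nat_lit 25) (nat_lit 5) (nat_lit 27) (nat_lit 5) (nat_lit 28) (nat_lit 5) (nat_lit 327) (nat_lit 265) (nat_lit 188))))) (XT.nd (nat_lit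 234) (nat_lit 304) (nat_lit 0) (XT.nd (nat_lit 78) (nat_lit 76) (nat_lit 0) (XT.lf (nat_lit 0) (nat_lit 20990646518) (nat_lit 228) (nat_lit 15170840625) (nat_lit 76) (nat_lit 4105560120) (nat_lit 25) (nat_lit 5) (nat_lit 28) (nat_lit 5) (nat_lit 26) (nat_lit 4) (nat_lit 328) (nat_lit 265) (nat_lit 187)) (XT.nd (nat_lit 78) (nat_lit 0) (nat_lit 0) (XT.lf (nat_lit 0) (nat_lit 6184406422) (nat_lit 76) (nat_lit 25356903845) (nat_lit 152) (nat_lit 10363486488) (nat_lit 24) (nat_lit 5) (nat_lit 25) (nat_lit 5) (nat_lit 26) (nat_lit 4) (nat_lit 329) (nat_lit 265) (nat_lit 186)) (XT.lf (nat_lit 0) (nat_lit 28880040025) (nat_lit 76) (nat_lit 13870754476) (nat_lit 152) (nat_lit 869709531) (nat_lit 24) (nat_lit 5) (nat_lit 25) (nat_lit 5) (nat_lit 26) (nat_lit 4) (nat_lit 330) (nat_lit 265) (nat_lit 185)))) (XT.nd (nat_lit 156) (nat_lit 76) (nat_lit 0) (XT.nd (nat_lit 78) (nat_lit 0) (nat_lit 0) (XT.lf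 (nat_lit 0) (nat_lit 7300686399) (nat_lit 152) (nat_lit 1666757846) (nat_lit 228) (nat_lit 36450549679) (nat_lit 21) (nat_lit 5) (nat_lit 23) (nat_lit 5) (nat_lit 24) (nat_lit 5) (nat_lit 331) (nat_lit 265) (nat_lit 184)) (XT.lf (nat_lit 0) (nat_lit 19515657590) (nat_lit 228) (nat_lit 16708389592) (nat_lit 76) (nat_lit 11073944999) (nat_lit 21) (nat_lit 5) (nat_lit 24) (nat_lit 5) (nat_lit 22) (nat_lit 4) (nat_lit 332) (nat_lit 265) (nat_lit 183))) (XT.nd (nat_lit 78) (nat_lit 0) (nat_lit 0) (XT.lf (nat_lit 0) (nat_lit 5827802582) (nat_lit 76) (nat_lit 24814058754) (nat_lit 152) (nat_lit 18628619113) (nat_lit 20) (nat_lit 5) (nat_lit 21) (nat_lit 5) (nat_lit 22) (nat_lit 4) (nat_lit 333) (nat_lit 265) (nat_lit 182)) (XT.lf (nat_lit 0) (nat_lit 29801039082) (nat_lit 76) (nat_lit 12673756692) (nat_lit 152) (nat_lit 8862291875) (nat_lit 20) (nat_lit 5) (nat_lit 21) (nat_lit 5) (nat_lit 22) (nat_lit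 4) (nat_lit 334) (nat_lit 265) (nat_lit 181))))))))
noncomputable def xc60 : XT := (XT.nd (nat_lit 2106) (nat_lit 76) (nat_lit 0) (XT.nd (nat_lit 1014) (nat_lit 304) (nat_lit 0) (XT.nd (nat_lit 468) (nat_lit 304) (nat_lit 0) (XT.nd (nat_lit 234) (nat_lit 152) (nat_lit 0) (XT.nd (nat_lit 78) (nat_lit 0) (nat_lit 0) (XT.lf (nat_lit 0) (nat_lit 1359110808) (nat_lit 228) (nat_lit 52064450798) (nat_lit 76) (nat_lit 83250810) (nat_lit 17) (nat_lit 5) (nat_lit 20) (nat_lit 5) (nat_lit 18) (nat_lit 4) (nat_lit 335) (nat_lit 265) (nat_lit 180)) (XT.nd (nat_lit 78) (nat_lit 0) (nat_lit 0) (XT.lf (nat_lit 0) (nat_lit 12241532248) (nat_lit 228) (nat_lit 30015070338) (nat_lit 76) (nat_lit 13515797720) (nat_lit 17) (nat_lit 5) (nat_lit 20) (nat_lit 5) (nat_lit 18) (nat_lit 4) (nat_lit 336) (nat_lit 265) (nat_lit 179)) (XT.lf (nat_lit 0) (nat_lit 23648762100) (nat_lit 228) (nat_lit 6898331896) (nat_lit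 76) (nat_lit 27604758959) (nat_lit 17) (nat_lit 5) (nat_lit 20) (nat_lit 5) (nat_lit 18) (nat_lit 4) (nat_lit 337) (nat_lit 265) (nat_lit 178)))) (XT.nd (nat_lit 78) (nat_lit 76) (nat_lit 0) (XT.lf (nat_lit 0) (nat_lit 17685920391) (nat_lit 76) (nat_lit 18092047928) (nat_lit 152) (nat_lit 24867767167) (nat_lit 16) (nat_lit 5) (nat_lit 17) (nat_lit 5) (nat_lit 18) (nat_lit 4) (nat_lit 338) (nat_lit 265) (nat_lit 177)) (XT.nd (nat_lit 78) (nat_lit 76) (nat_lit 0) (XT.lf (nat_lit 0) (nat_lit 43611059580) (nat_lit 76) (nat_lit 4955758135) (nat_lit 152) (nat_lit 14695904370) (nat_lit 16) (nat_lit 5) (nat_lit 17) (nat_lit 5) (nat_lit 18) (nat_lit 4) (nat_lit 339) (nat_lit 265) (nat_lit 176)) (XT.lf (nat_lit 0) (nat_lit 4799284749) (nat_lit 76) (nat_lit 57309793983) (nat_lit 76) (nat_lit 3898065377) (nat_lit 15) (nat_lit 4) (nat_lit 16) (nat_lit 5) (nat_lit 16) (nat_lit 4) (nat_lit 340) (nat_lit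 265) (nat_lit 175))))) (XT.nd (nat_lit 234) (nat_lit 152) (nat_lit 0) (XT.nd (nat_lit 78) (nat_lit 76) (nat_lit 0) (XT.lf (nat_lit 0) (nat_lit 7532049025) (nat_lit 152) (nat_lit 38153569296) (nat_lit 76) (nat_lit 23193901508) (nat_lit 14) (nat_lit 5) (nat_lit 16) (nat_lit 5) (nat_lit 15) (nat_lit 4) (nat_lit 341) (nat_lit 265) (nat_lit 174)) (XT.nd (nat_lit 78) (nat_lit 76) (nat_lit 0) (XT.lf (nat_lit 0) (nat_lit 19437837733) (nat_lit 152) (nat_lit 14015199376) (nat_lit 76) (nat_lit 38441780342) (nat_lit 14) (nat_lit 5) (nat_lit 16) (nat_lit 5) (nat_lit 15) (nat_lit 4) (nat_lit 342) (nat_lit 265) (nat_lit 173)) (XT.lf (nat_lit 0) (nat_lit 11527129107) (nat_lit 76) (nat_lit 20507389865) (nat_lit 152) (nat_lit 43023497221) (nat_lit 13) (nat_lit 5) (nat_lit 14) (nat_lit 5) (nat_lit 15) (nat_lit 4) (nat_lit 343) (nat_lit 265) (nat_lit 172)))) (XT.nd (nat_lit 156) (nat_lit 152) (nat_lit 0) (XT.nd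 (nat_lit 78) (nat_lit 0) (nat_lit 0) (XT.lf (nat_lit 0) (nat_lit 38612354347) (nat_lit 76) (nat_lit 6778214795) (nat_lit 152) (nat_lit 32984923814) (nat_lit 13) (nat_lit 5) (nat_lit 14) (nat_lit 5) (nat_lit 15) (nat_lit 4) (nat_lit 344) (nat_lit 265) (nat_lit 171)) (XT.lf (nat_lit 0) (nat_lit 59473686862) (nat_lit 152) (nat_lit 14906536003) (nat_lit 0) (nat_lit 7476846671) (nat_lit 13) (nat_lit 5) (nat_lit 15) (nat_lit 4) (nat_lit 13) (nat_lit 4) (nat_lit 345) (nat_lit 265) (nat_lit 170))) (XT.nd (nat_lit 78) (nat_lit 76) (nat_lit 0) (XT.lf (nat_lit 0) (nat_lit 11320512493) (nat_lit 76) (nat_lit 63104205162) (nat_lit 76) (nat_lit 11083098319) (nat_lit 12) (nat_lit 4) (nat_lit 13) (nat_lit 5) (nat_lit 13) (nat_lit 4) (nat_lit 346) (nat_lit 265) (nat_lit 169)) (XT.lf (nat_lit 0) (nat_lit 908705600) (nat_lit 152) (nat_lit 50199545570) (nat_lit 76) (nat_lit 38228373390) (nat_lit 11) (nat_lit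 5) (nat_lit 13) (nat_lit 5) (nat_lit 12) (nat_lit 4) (nat_lit 347) (nat_lit 265) (nat_lit 168)))))) (XT.nd (nat_lit 546) (nat_lit 152) (nat_lit 0) (XT.nd (nat_lit 234) (nat_lit 76) (nat_lit 0) (XT.nd (nat_lit 78) (nat_lit 76) (nat_lit 0) (XT.lf (nat_lit 0) (nat_lit 13260443517) (nat_lit 152) (nat_lit 25147528168) (nat_lit 76) (nat_lit 54945926401) (nat_lit 11) (nat_lit 5) (nat_lit 13) (nat_lit 5) (nat_lit 12) (nat_lit 4) (nat_lit 348) (nat_lit 265) (nat_lit 167)) (XT.nd (nat_lit 78) (nat_lit 0) (nat_lit 0) (XT.lf (nat_lit 0) (nat_lit 1157521317) (nat_lit 76) (nat_lit 25071400984) (nat_lit 152) (nat_lit 71343141508) (nat_lit 10) (nat_lit 5) (nat_lit 11) (nat_lit 5) (nat_lit 12) (nat_lit 4) (nat_lit 349) (nat_lit 265) (nat_lit 166)) (XT.lf (nat_lit 0) (nat_lit 29281811557) (nat_lit 76) (nat_lit 10811275510) (nat_lit 152) (nat_lit 61900635880) (nat_lit 10) (nat_lit 5) (nat_lit 11) (nat_lit 5)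 (nat_lit 12) (nat_lit 4) (nat_lit 350) (nat_lit 265) (nat_lit 165)))) (XT.nd (nat_lit 156) (nat_lit 76) (nat_lit 0) (XT.nd (nat_lit 78) (nat_lit 0) (nat_lit 0) (XT.lf (nat_lit 0) (nat_lit 54679318907) (nat_lit 152) (nat_lit 47884895134) (nat_lit 0) (nat_lit 4071388084) (nat_lit 10) (nat_lit 5) (nat_lit 12) (nat_lit 4) (nat_lit 10) (nat_lit 4) (nat_lit 351) (nat_lit 265) (nat_lit 164)) (XT.lf (nat_lit 0) (nat_lit 70093366522) (nat_lit 152) (nat_lit 21945401357) (nat_lit 0) (nat_lit 19467854971) (nat_lit 10) (nat_lit 5) (nat_lit 12) (nat_lit 4) (nat_lit 10) (nat_lit 4) (nat_lit 352) (nat_lit 265) (nat_lit 163))) (XT.nd (nat_lit 78) (nat_lit 0) (nat_lit 0) (XT.lf (nat_lit 0) (nat_lit 5377183450) (nat_lit 76) (nat_lit 80942510757) (nat_lit 76) (nat_lit 30300255656) (nat_lit 9) (nat_lit 4) (nat_lit 10) (nat_lit 5) (nat_lit 10) (nat_lit 4) (nat_lit 353) (nat_lit 265) (nat_lit 162)) (XT.lf (nat_lit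 0) (nat_lit 34506219204) (nat_lit 76) (nat_lit 69067222362) (nat_lit 76) (nat_lit 18409021023) (nat_lit 9) (nat_lit 4) (nat_lit 10) (nat_lit 5) (nat_lit 10) (nat_lit 4) (nat_lit 354) (nat_lit 265) (nat_lit 161))))) (XT.nd (nat_lit 234) (nat_lit 76) (nat_lit 0) (XT.nd (nat_lit 78) (nat_lit 76) (nat_lit 0) (XT.lf (nat_lit 0) (nat_lit 65074304236) (nat_lit 76) (nat_lit 56606233721) (nat_lit 76) (nat_lit 5932845489) (nat_lit 9) (nat_lit 4) (nat_lit 10) (nat_lit 5) (nat_lit 10) (nat_lit 4) (nat_lit 355) (nat_lit 265) (nat_lit 160)) (XT.nd (nat_lit 78) (nat_lit 0) (nat_lit 0) (XT.lf (nat_lit 0) (nat_lit 7018298230) (nat_lit 152) (nat_lit 36440706533) (nat_lit 76) (nat_lit 90065050418) (nat_lit 8) (nat_lit 5) (nat_lit 10) (nat_lit 5) (nat_lit 9) (nat_lit 4) (nat_lit 356) (nat_lit 265) (nat_lit 159)) (XT.lf (nat_lit 0) (nat_lit 20486883297) (nat_lit 152) (nat_lit 9113253806) (nat_lit 76) (nat_lit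 110128585696) (nat_lit 8) (nat_lit 5) (nat_lit 10) (nat_lit 5) (nat_lit 9) (nat_lit 4) (nat_lit 357) (nat_lit 265) (nat_lit 158)))) (XT.nd (nat_lit 156) (nat_lit 0) (nat_lit 0) (XT.nd (nat_lit 78) (nat_lit 0) (nat_lit 0) (XT.lf (nat_lit 0) (nat_lit 19954763789) (nat_lit 76) (nat_lit 14857802565) (nat_lit 152) (nat_lit 111425549348) (nat_lit 7) (nat_lit 5) (nat_lit 8) (nat_lit 5) (nat_lit 9) (nat_lit 4) (nat_lit 358) (nat_lit 265) (nat_lit 157)) (XT.lf (nat_lit 0) (nat_lit 49947282521) (nat_lit 152) (nat_lit 102425380382) (nat_lit 0) (nat_lit 697534749) (nat_lit 7) (nat_lit 5) (nat_lit 9) (nat_lit 4) (nat_lit 7) (nat_lit 4) (nat_lit 359) (nat_lit 265) (nat_lit 156))) (XT.nd (nat_lit 78) (nat_lit 0) (nat_lit 0) (XT.lf (nat_lit 0) (nat_lit 65981108891) (nat_lit 152) (nat_lit 77538696988) (nat_lit 0) (nat_lit 16719808373) (nat_lit 7) (nat_lit 5) (nat_lit 9) (nat_lit 4) (nat_lit 7) (nat_lit 4)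 (nat_lit 360) (nat_lit 265) (nat_lit 155)) (XT.lf (nat_lit 0) (nat_lit 82809398953) (nat_lit 152) (nat_lit 51421225435) (nat_lit 0) (nat_lit 33537095819) (nat_lit 7) (nat_lit 5) (nat_lit 9) (nat_lit 4) (nat_lit 7) (nat_lit 4) (nat_lit 361) (nat_lit 265) (nat_lit 154))))))) (XT.nd (nat_lit 34086) (nat_lit 0) (nat_lit 8512) (XT.nd (nat_lit 33540) (nat_lit 0) (nat_lit 17176) (XT.nd (nat_lit 33228) (nat_lit 0) (nat_lit 20368) (XT.nd (nat_lit 78) (nat_lit 76) (nat_lit 0) (XT.lf (nat_lit 0) (nat_lit 100472220065) (nat_lit 152) (nat_lit 24010781266) (nat_lit 0) (nat_lit 51189438250) (nat_lit 7) (nat_lit 5) (nat_lit 9) (nat_lit 4) (nat_lit 7) (nat_lit 4) (nat_lit 362) (nat_lit 265) (nat_lit 153)) (XT.nd (nat_lit 33072) (nat_lit 0) (nat_lit 20976) (XT.lf (nat_lit 0) (nat_lit 4852589988) (nat_lit 76) (nat_lit 114205682638) (nat_lit 76) (nat_lit 64912921126) (nat_lit 6) (nat_lit 4) (nat_lit 7) (nat_lit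 5) (nat_lit 7) (nat_lit 4) (nat_lit 363) (nat_lit 265) (nat_lit 152)) (XT.lf (nat_lit 0) (nat_lit 927696277) (nat_lit 684) (nat_lit 1253259058) (nat_lit 684) (nat_lit 1253259058) (nat_lit 282) (nat_lit 3) (nat_lit 291) (nat_lit 3) (nat_lit 291) (nat_lit 5) (nat_lit 266) (nat_lit 266) (nat_lit 248)))) (XT.nd (nat_lit 156) (nat_lit 0) (nat_lit 0) (XT.nd (nat_lit 78) (nat_lit 608) (nat_lit 0) (XT.lf (nat_lit 76) (nat_lit 2819269112) (nat_lit 0) (nat_lit 2149601094) (nat_lit 684) (nat_lit 1974314021) (nat_lit 283) (nat_lit 5) (nat_lit 282) (nat_lit 3) (nat_lit 291) (nat_lit 5) (nat_lit 267) (nat_lit 266) (nat_lit 247)) (XT.lf (nat_lit 0) (nat_lit 1036866761) (nat_lit 684) (nat_lit 5678831778) (nat_lit 760) (nat_lit 310607566) (nat_lit 274) (nat_lit 5) (nat_lit 283) (nat_lit 5) (nat_lit 284) (nat_lit 5) (nat_lit 268) (nat_lit 266) (nat_lit 246))) (XT.nd (nat_lit 78) (nat_lit 0) (nat_lit 0) (XT.lf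 (nat_lit 0) (nat_lit 4034144978) (nat_lit 684) (nat_lit 86105092) (nat_lit 760) (nat_lit 2996749010) (nat_lit 274) (nat_lit 5) (nat_lit 283) (nat_lit 5) (nat_lit 284) (nat_lit 5) (nat_lit 269) (nat_lit 266) (nat_lit 245)) (XT.lf (nat_lit 76) (nat_lit 5794217772) (nat_lit 0) (nat_lit 1263168652) (nat_lit 760) (nat_lit 158835910) (nat_lit 275) (nat_lit 5) (nat_lit 274) (nat_lit 5) (nat_lit 284) (nat_lit 5) (nat_lit 270) (nat_lit 266) (nat_lit 244))))) (XT.nd (nat_lit 234) (nat_lit 1748) (nat_lit 0) (XT.nd (nat_lit 78) (nat_lit 760) (nat_lit 0) (XT.lf (nat_lit 0) (nat_lit 2743826739) (nat_lit 760) (nat_lit 2735715877) (nat_lit 836) (nat_lit 1843604513) (nat_lit 265) (nat_lit 5) (nat_lit 275) (nat_lit 5) (nat_lit 276) (nat_lit 5) (nat_lit 271) (nat_lit 266) (nat_lit 243)) (XT.nd (nat_lit 78) (nat_lit 760) (nat_lit 0) (XT.lf (nat_lit 76) (nat_lit 3435985308) (nat_lit 0) (nat_lit 2246865169) (nat_lit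 836) (nat_lit 1755930466) (nat_lit 266) (nat_lit 5) (nat_lit 265) (nat_lit 5) (nat_lit 276) (nat_lit 5) (nat_lit 272) (nat_lit 266) (nat_lit 242)) (XT.lf (nat_lit 0) (nat_lit 1087126745) (nat_lit 836) (nat_lit 5236652632) (nat_lit 912) (nat_lit 1239232913) (nat_lit 255) (nat_lit 5) (nat_lit 266) (nat_lit 5) (nat_lit 267) (nat_lit 5) (nat_lit 273) (nat_lit 266) (nat_lit 241)))) (XT.nd (nat_lit 156) (nat_lit 988) (nat_lit 0) (XT.nd (nat_lit 78) (nat_lit 760) (nat_lit 0) (XT.lf (nat_lit 76) (nat_lit 1235554138) (nat_lit 0) (nat_lit 2723098191) (nat_lit 912) (nat_lit 3736818440) (nat_lit 256) (nat_lit 5) (nat_lit 255) (nat_lit 5) (nat_lit 267) (nat_lit 5) (nat_lit 274) (nat_lit 266) (nat_lit 240)) (XT.lf (nat_lit 0) (nat_lit 187857139) (nat_lit 836) (nat_lit 6705105235) (nat_lit 912) (nat_lit 944219319) (nat_lit 245) (nat_lit 5) (nat_lit 256) (nat_lit 5) (nat_lit 257) (nat_lit 5) (nat_lit 275)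 (nat_lit 266) (nat_lit 239))) (XT.nd (nat_lit 78) (nat_lit 912) (nat_lit 0) (XT.lf (nat_lit 0) (nat_lit 1901018665) (nat_lit 912) (nat_lit 840993595) (nat_lit 76) (nat_lit 5245028799) (nat_lit 244) (nat_lit 5) (nat_lit 256) (nat_lit 5) (nat_lit 245) (nat_lit 5) (nat_lit 276) (nat_lit 266) (nat_lit 238)) (XT.lf (nat_lit 0) (nat_lit 4808441282) (nat_lit 988) (nat_lit 1847128942) (nat_lit 76) (nat_lit 1490540390) (nat_lit 232) (nat_lit 5) (nat_lit 245) (nat_lit 5) (nat_lit 233) (nat_lit 5) (nat_lit 277) (nat_lit 266) (nat_lit 237)))))) (XT.nd (nat_lit 546) (nat_lit 2964) (nat_lit 0) (XT.nd (nat_lit 234) (nat_lit 2432) (nat_lit 0) (XT.nd (nat_lit 78) (nat_lit 2280) (nat_lit 0) (XT.lf (nat_lit 0) (nat_lit 5470990164) (nat_lit 988) (nat_lit 2348943254) (nat_lit 1064) (nat_lit 494611849) (nat_lit 219) (nat_lit 5) (nat_lit 232) (nat_lit 5) (nat_lit 233) (nat_lit 5) (nat_lit 278) (nat_lit 266) (nat_lit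 236)) (XT.nd (nat_lit 78) (nat_lit 1140) (nat_lit 0) (XT.lf (nat_lit 0) (nat_lit 2401423738) (nat_lit 1140) (nat_lit 3853264523) (nat_lit 76) (nat_lit 2237371949) (nat_lit 204) (nat_lit 5) (nat_lit 219) (nat_lit 5) (nat_lit 205) (nat_lit 5) (nat_lit 279) (nat_lit 266) (nat_lit 235)) (XT.lf (nat_lit 0) (nat_lit 3813458788) (nat_lit 1140) (nat_lit 1587247087) (nat_lit 1216) (nat_lit 3278689857) (nat_lit 189) (nat_lit 5) (nat_lit 204) (nat_lit 5) (nat_lit 205) (nat_lit 5) (nat_lit 280) (nat_lit 266) (nat_lit 234)))) (XT.nd (nat_lit 156) (nat_lit 1064) (nat_lit 0) (XT.nd (nat_lit 78) (nat_lit 684) (nat_lit 0) (XT.lf (nat_lit 0) (nat_lit 2985448040) (nat_lit 684) (nat_lit 5548626572) (nat_lit 760) (nat_lit 342644476) (nat_lit 180) (nat_lit 5) (nat_lit 189) (nat_lit 5) (nat_lit 190) (nat_lit 5) (nat_lit 281) (nat_lit 266) (nat_lit 233)) (XT.lf (nat_lit 0) (nat_lit 2138616732) (nat_lit 608) (nat_lit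 522072686) (nat_lit 684) (nat_lit 6423344077) (nat_lit 171) (nat_lit 5) (nat_lit 179) (nat_lit 5) (nat_lit 180) (nat_lit 5) (nat_lit 282) (nat_lit 266) (nat_lit 232))) (XT.nd (nat_lit 78) (nat_lit 532) (nat_lit 0) (XT.lf (nat_lit 0) (nat_lit 1258765980) (nat_lit 532) (nat_lit 4558660652) (nat_lit 608) (nat_lit 3484002979) (nat_lit 164) (nat_lit 5) (nat_lit 171) (nat_lit 5) (nat_lit 172) (nat_lit 5) (nat_lit 283) (nat_lit 266) (nat_lit 231)) (XT.lf (nat_lit 0) (nat_lit 375777802) (nat_lit 532) (nat_lit 8739622972) (nat_lit 608) (nat_lit 414914139) (nat_lit 157) (nat_lit 5) (nat_lit 164) (nat_lit 5) (nat_lit 165) (nat_lit 5) (nat_lit 284) (nat_lit 266) (nat_lit 230))))) (XT.nd (nat_lit 234) (nat_lit 1900) (nat_lit 0) (XT.nd (nat_lit 78) (nat_lit 988) (nat_lit 0) (XT.lf (nat_lit 0) (nat_lit 2780660676) (nat_lit 608) (nat_lit 567127936) (nat_lit 76) (nat_lit 6421323888) (nat_lit 156) (nat_lit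 5) (nat_lit 164) (nat_lit 5) (nat_lit 157) (nat_lit 5) (nat_lit 285) (nat_lit 266) (nat_lit 229)) (XT.nd (nat_lit 78) (nat_lit 532) (nat_lit 0) (XT.lf (nat_lit 0) (nat_lit 6135374063) (nat_lit 532) (nat_lit 1535023016) (nat_lit 76) (nat_lit 2349198313) (nat_lit 150) (nat_lit 5) (nat_lit 157) (nat_lit 5) (nat_lit 151) (nat_lit 5) (nat_lit 286) (nat_lit 266) (nat_lit 228)) (XT.lf (nat_lit 0) (nat_lit 7732245021) (nat_lit 532) (nat_lit 1946220717) (nat_lit 608) (nat_lit 603619211) (nat_lit 143) (nat_lit 5) (nat_lit 150) (nat_lit 5) (nat_lit 151) (nat_lit 5) (nat_lit 287) (nat_lit 266) (nat_lit 227)))) (XT.nd (nat_lit 156) (nat_lit 912) (nat_lit 0) (XT.nd (nat_lit 78) (nat_lit 456) (nat_lit 0) (XT.lf (nat_lit 0) (nat_lit 2817457974) (nat_lit 532) (nat_lit 3653528677) (nat_lit 76) (nat_lit 4085030677) (nat_lit 136) (nat_lit 5) (nat_lit 143) (nat_lit 5) (nat_lit 137) (nat_lit 5) (nat_lit 288) (nat_lit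 266) (nat_lit 226)) (XT.lf (nat_lit 0) (nat_lit 6027787196) (nat_lit 456) (nat_lit 385920339) (nat_lit 532) (nat_lit 4429351076) (nat_lit 130) (nat_lit 5) (nat_lit 136) (nat_lit 5) (nat_lit 137) (nat_lit 5) (nat_lit 289) (nat_lit 266) (nat_lit 225))) (XT.nd (nat_lit 78) (nat_lit 532) (nat_lit 0) (XT.lf (nat_lit 0) (nat_lit 5065699618) (nat_lit 380) (nat_lit 5183930535) (nat_lit 456) (nat_lit 893111366) (nat_lit 125) (nat_lit 5) (nat_lit 130) (nat_lit 5) (nat_lit 131) (nat_lit 5) (nat_lit 290) (nat_lit 266) (nat_lit 224)) (XT.lf (nat_lit 0) (nat_lit 2787385471) (nat_lit 532) (nat_lit 7435906644) (nat_lit 76) (nat_lit 1232708024) (nat_lit 118) (nat_lit 5) (nat_lit 125) (nat_lit 5) (nat_lit 119) (nat_lit 5) (nat_lit 291) (nat_lit 266) (nat_lit 223))))))))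
noncomputable def xc61 : XT := (XT.nd (nat_lit 2184) (nat_lit 1976) (nat_lit 0) (XT.nd (nat_lit 1092) (nat_lit 2128) (nat_lit 0) (XT.nd (nat_lit 546) (nat_lit 1748) (nat_lit 0) (XT.nd (nat_lit 234) (nat_lit 1064) (nat_lit 0) (XT.nd (nat_lit 78) (nat_lit 760) (nat_lit 0) (XT.lf (nat_lit 0) (nat_lit 2860400446) (nat_lit 380) (nat_lit 3836686401) (nat_lit 456) (nat_lit 5085735227) (nat_lit 113) (nat_lit 5) (nat_lit 118) (nat_lit 5) (nat_lit 119) (nat_lit 5) (nat_lit 292) (nat_lit 266) (nat_lit 222)) (XT.nd (nat_lit 78) (nat_lit 380) (nat_lit 0) (XT.lf (nat_lit 0) (nat_lit 1607430432) (nat_lit 380) (nat_lit 9238328050) (nat_lit 456) (nat_lit 1278993675) (nat_lit 108) (nat_lit 5) (nat_lit 113) (nat_lit 5) (nat_lit 114) (nat_lit 5) (nat_lit 293) (nat_lit 266) (nat_lit 221)) (XT.lf (nat_lit 0) (nat_lit 209995338) (nat_lit 304) (nat_lit 2513635895) (nat_lit 380) (nat_lit 9757672306) (nat_lit 103)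 (nat_lit 5) (nat_lit 107) (nat_lit 5) (nat_lit 108) (nat_lit 5) (nat_lit 294) (nat_lit 266) (nat_lit 220)))) (XT.nd (nat_lit 156) (nat_lit 684) (nat_lit 0) (XT.nd (nat_lit 78) (nat_lit 380) (nat_lit 0) (XT.lf (nat_lit 0) (nat_lit 6980756828) (nat_lit 380) (nat_lit 1313430863) (nat_lit 76) (nat_lit 4558753325) (nat_lit 103) (nat_lit 5) (nat_lit 108) (nat_lit 5) (nat_lit 104) (nat_lit 5) (nat_lit 295) (nat_lit 266) (nat_lit 219)) (XT.lf (nat_lit 0) (nat_lit 10275322698) (nat_lit 380) (nat_lit 1230535874) (nat_lit 456) (nat_lit 1735708254) (nat_lit 98) (nat_lit 5) (nat_lit 103) (nat_lit 5) (nat_lit 104) (nat_lit 5) (nat_lit 296) (nat_lit 266) (nat_lit 218))) (XT.nd (nat_lit 78) (nat_lit 304) (nat_lit 0) (XT.lf (nat_lit 0) (nat_lit 2648867244) (nat_lit 380) (nat_lit 4829551822) (nat_lit 76) (nat_lit 6167743636) (nat_lit 93) (nat_lit 5) (nat_lit 98) (nat_lit 5) (nat_lit 94) (nat_lit 5) (nat_lit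 297) (nat_lit 266) (nat_lit 217)) (XT.lf (nat_lit 0) (nat_lit 7200712298) (nat_lit 304) (nat_lit 63690220) (nat_lit 380) (nat_lit 6804694338) (nat_lit 89) (nat_lit 5) (nat_lit 93) (nat_lit 5) (nat_lit 94) (nat_lit 5) (nat_lit 298) (nat_lit 266) (nat_lit 216))))) (XT.nd (nat_lit 234) (nat_lit 836) (nat_lit 0) (XT.nd (nat_lit 78) (nat_lit 608) (nat_lit 0) (XT.lf (nat_lit 0) (nat_lit 5362449086) (nat_lit 304) (nat_lit 6861093194) (nat_lit 380) (nat_lit 2286300971) (nat_lit 85) (nat_lit 5) (nat_lit 89) (nat_lit 5) (nat_lit 90) (nat_lit 5) (nat_lit 299) (nat_lit 266) (nat_lit 215)) (XT.nd (nat_lit 78) (nat_lit 228) (nat_lit 0) (XT.lf (nat_lit 0) (nat_lit 2460908025) (nat_lit 380) (nat_lit 11649186746) (nat_lit 76) (nat_lit 860344109) (nat_lit 80) (nat_lit 5) (nat_lit 85) (nat_lit 5) (nat_lit 81) (nat_lit 5) (nat_lit 300) (nat_lit 266) (nat_lit 214)) (XT.lf (nat_lit 0) (nat_lit 992373633) (nat_lit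 228) (nat_lit 6520380583) (nat_lit 304) (nat_lit 7937238498) (nat_lit 77) (nat_lit 5) (nat_lit 80) (nat_lit 5) (nat_lit 81) (nat_lit 5) (nat_lit 301) (nat_lit 266) (nat_lit 213)))) (XT.nd (nat_lit 156) (nat_lit 456) (nat_lit 0) (XT.nd (nat_lit 78) (nat_lit 380) (nat_lit 0) (XT.lf (nat_lit 0) (nat_lit 12894236516) (nat_lit 304) (nat_lit 1541596001) (nat_lit 76) (nat_lit 1515422650) (nat_lit 77) (nat_lit 5) (nat_lit 81) (nat_lit 5) (nat_lit 78) (nat_lit 5) (nat_lit 302) (nat_lit 266) (nat_lit 212)) (XT.lf (nat_lit 0) (nat_lit 2155072991) (nat_lit 380) (nat_lit 4386142541) (nat_lit 76) (nat_lit 9931962142) (nat_lit 72) (nat_lit 5) (nat_lit 77) (nat_lit 5) (nat_lit 73) (nat_lit 5) (nat_lit 303) (nat_lit 266) (nat_lit 211))) (XT.nd (nat_lit 78) (nat_lit 228) (nat_lit 0) (XT.lf (nat_lit 0) (nat_lit 7636291492) (nat_lit 304) (nat_lit 7554685565) (nat_lit 76) (nat_lit 1827196038) (nat_lit 69) (nat_lit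 5) (nat_lit 73) (nat_lit 5) (nat_lit 70) (nat_lit 5) (nat_lit 304) (nat_lit 266) (nat_lit 210)) (XT.lf (nat_lit 0) (nat_lit 6488637982) (nat_lit 228) (nat_lit 7024560829) (nat_lit 304) (nat_lit 4073606065) (nat_lit 66) (nat_lit 5) (nat_lit 69) (nat_lit 5) (nat_lit 70) (nat_lit 5) (nat_lit 305) (nat_lit 266) (nat_lit 209)))))) (XT.nd (nat_lit 546) (nat_lit 988) (nat_lit 0) (XT.nd (nat_lit 234) (nat_lit 608) (nat_lit 0) (XT.nd (nat_lit 78) (nat_lit 228) (nat_lit 0) (XT.lf (nat_lit 0) (nat_lit 1544618239) (nat_lit 304) (nat_lit 15018756089) (nat_lit 76) (nat_lit 1617879872) (nat_lit 62) (nat_lit 5) (nat_lit 66) (nat_lit 5) (nat_lit 63) (nat_lit 5) (nat_lit 306) (nat_lit 266) (nat_lit 208)) (XT.nd (nat_lit 78) (nat_lit 228) (nat_lit 0) (XT.lf (nat_lit 0) (nat_lit 7496861513) (nat_lit 304) (nat_lit 624507347) (nat_lit 76) (nat_lit 10678757660) (nat_lit 62) (nat_lit 5) (nat_lit 66) (nat_lit 5)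 (nat_lit 63) (nat_lit 5) (nat_lit 307) (nat_lit 266) (nat_lit 207)) (XT.lf (nat_lit 0) (nat_lit 13848994039) (nat_lit 304) (nat_lit 4752870386) (nat_lit 76) (nat_lit 845039429) (nat_lit 59) (nat_lit 5) (nat_lit 63) (nat_lit 5) (nat_lit 60) (nat_lit 5) (nat_lit 308) (nat_lit 266) (nat_lit 206)))) (XT.nd (nat_lit 156) (nat_lit 152) (nat_lit 0) (XT.nd (nat_lit 78) (nat_lit 228) (nat_lit 0) (XT.lf (nat_lit 0) (nat_lit 531952260) (nat_lit 228) (nat_lit 9406846715) (nat_lit 76) (nat_lit 10182728232) (nat_lit 56) (nat_lit 5) (nat_lit 59) (nat_lit 5) (nat_lit 57) (nat_lit 5) (nat_lit 309) (nat_lit 266) (nat_lit 205)) (XT.lf (nat_lit 0) (nat_lit 6219231769) (nat_lit 228) (nat_lit 698595601) (nat_lit 304) (nat_lit 13908458976) (nat_lit 53) (nat_lit 5) (nat_lit 56) (nat_lit 5) (nat_lit 57) (nat_lit 5) (nat_lit 310) (nat_lit 266) (nat_lit 204))) (XT.nd (nat_lit 78) (nat_lit 0) (nat_lit 0) (XT.lf (nat_lit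 0) (nat_lit 1123545138) (nat_lit 152) (nat_lit 12650838324) (nat_lit 228) (nat_lit 7787383282) (nat_lit 51) (nat_lit 5) (nat_lit 53) (nat_lit 5) (nat_lit 54) (nat_lit 5) (nat_lit 311) (nat_lit 266) (nat_lit 203)) (XT.lf (nat_lit 0) (nat_lit 17870070576) (nat_lit 152) (nat_lit 3218713880) (nat_lit 228) (nat_lit 1241809923) (nat_lit 51) (nat_lit 5) (nat_lit 53) (nat_lit 5) (nat_lit 54) (nat_lit 5) (nat_lit 312) (nat_lit 266) (nat_lit 202))))) (XT.nd (nat_lit 234) (nat_lit 532) (nat_lit 0) (XT.nd (nat_lit 78) (nat_lit 152) (nat_lit 0) (XT.lf (nat_lit 0) (nat_lit 5665724081) (nat_lit 304) (nat_lit 10761204093) (nat_lit 76) (nat_lit 6704996380) (nat_lit 47) (nat_lit 5) (nat_lit 51) (nat_lit 5) (nat_lit 48) (nat_lit 5) (nat_lit 313) (nat_lit 266) (nat_lit 201)) (XT.nd (nat_lit 78) (nat_lit 0) (nat_lit 0) (XT.lf (nat_lit 0) (nat_lit 6174520039) (nat_lit 152) (nat_lit 6817228253) (nat_lit 228) (nat_lit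 10978261105) (nat_lit 45) (nat_lit 5) (nat_lit 47) (nat_lit 5) (nat_lit 48) (nat_lit 5) (nat_lit 314) (nat_lit 266) (nat_lit 200)) (XT.lf (nat_lit 0) (nat_lit 20788792338) (nat_lit 228) (nat_lit 761671186) (nat_lit 76) (nat_lit 3296413304) (nat_lit 45) (nat_lit 5) (nat_lit 48) (nat_lit 5) (nat_lit 46) (nat_lit 5) (nat_lit 315) (nat_lit 266) (nat_lit 199)))) (XT.nd (nat_lit 156) (nat_lit 152) (nat_lit 0) (XT.nd (nat_lit 78) (nat_lit 152) (nat_lit 0) (XT.lf (nat_lit 0) (nat_lit 3346082725) (nat_lit 228) (nat_lit 8462494760) (nat_lit 76) (nat_lit 13952085900) (nat_lit 42) (nat_lit 5) (nat_lit 45) (nat_lit 5) (nat_lit 43) (nat_lit 5) (nat_lit 316) (nat_lit 266) (nat_lit 198)) (XT.lf (nat_lit 0) (nat_lit 9643905398) (nat_lit 152) (nat_lit 1458058091) (nat_lit 228) (nat_lit 15615024958) (nat_lit 40) (nat_lit 5) (nat_lit 42) (nat_lit 5) (nat_lit 43) (nat_lit 5) (nat_lit 317) (nat_lit 266) (nat_lit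 197))) (XT.nd (nat_lit 78) (nat_lit 0) (nat_lit 0) (XT.lf (nat_lit 0) (nat_lit 982440172) (nat_lit 152) (nat_lit 18416026108) (nat_lit 228) (nat_lit 8318095337) (nat_lit 38) (nat_lit 5) (nat_lit 40) (nat_lit 5) (nat_lit 41) (nat_lit 5) (nat_lit 318) (nat_lit 266) (nat_lit 196)) (XT.lf (nat_lit 0) (nat_lit 20224844842) (nat_lit 152) (nat_lit 8041341741) (nat_lit 228) (nat_lit 495250985) (nat_lit 38) (nat_lit 5) (nat_lit 40) (nat_lit 5) (nat_lit 41) (nat_lit 5) (nat_lit 319) (nat_lit 266) (nat_lit 195))))))) (XT.nd (nat_lit 1092) (nat_lit 684) (nat_lit 0) (XT.nd (nat_lit 546) (nat_lit 532) (nat_lit 0) (XT.nd (nat_lit 234) (nat_lit 380) (nat_lit 0) (XT.nd (nat_lit 78) (nat_lit 152) (nat_lit 0) (XT.lf (nat_lit 0) (nat_lit 7666770745) (nat_lit 228) (nat_lit 19234367293) (nat_lit 76) (nat_lit 2952248400) (nat_lit 35) (nat_lit 5) (nat_lit 38) (nat_lit 5) (nat_lit 36) (nat_lit 5) (nat_lit 320) (nat_lit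 266) (nat_lit 194)) (XT.nd (nat_lit 78) (nat_lit 152) (nat_lit 0) (XT.lf (nat_lit 0) (nat_lit 16364825791) (nat_lit 228) (nat_lit 228262499) (nat_lit 76) (nat_lit 14402566111) (nat_lit 35) (nat_lit 5) (nat_lit 38) (nat_lit 5) (nat_lit 36) (nat_lit 5) (nat_lit 321) (nat_lit 266) (nat_lit 193)) (XT.lf (nat_lit 0) (nat_lit 20067609953) (nat_lit 152) (nat_lit 5592761112) (nat_lit 228) (nat_lit 6529800406) (nat_lit 33) (nat_lit 5) (nat_lit 35) (nat_lit 5) (nat_lit 36) (nat_lit 5) (nat_lit 322) (nat_lit 266) (nat_lit 192)))) (XT.nd (nat_lit 156) (nat_lit 228) (nat_lit 0) (XT.nd (nat_lit 78) (nat_lit 0) (nat_lit 0) (XT.lf (nat_lit 0) (nat_lit 2045604440) (nat_lit 152) (nat_lit 25475355247) (nat_lit 76) (nat_lit 5919660433) (nat_lit 31) (nat_lit 5) (nat_lit 33) (nat_lit 5) (nat_lit 32) (nat_lit 5) (nat_lit 323) (nat_lit 266) (nat_lit 191)) (XT.lf (nat_lit 0) (nat_lit 11069535121) (nat_lit 152) (nat_lit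 5613070390) (nat_lit 76) (nat_lit 18064413829) (nat_lit 31) (nat_lit 5) (nat_lit 33) (nat_lit 5) (nat_lit 32) (nat_lit 5) (nat_lit 324) (nat_lit 266) (nat_lit 190))) (XT.nd (nat_lit 78) (nat_lit 76) (nat_lit 0) (XT.lf (nat_lit 0) (nat_lit 15496686904) (nat_lit 152) (nat_lit 5169387439) (nat_lit 228) (nat_lit 15449033003) (nat_lit 29) (nat_lit 5) (nat_lit 31) (nat_lit 5) (nat_lit 32) (nat_lit 5) (nat_lit 325) (nat_lit 266) (nat_lit 189)) (XT.lf (nat_lit 0) (nat_lit 117284294) (nat_lit 76) (nat_lit 30724271556) (nat_lit 152) (nat_lit 6707081088) (nat_lit 28) (nat_lit 5) (nat_lit 29) (nat_lit 5) (nat_lit 30) (nat_lit 4) (nat_lit 326) (nat_lit 266) (nat_lit 188))))) (XT.nd (nat_lit 234) (nat_lit 304) (nat_lit 0) (XT.nd (nat_lit 78) (nat_lit 152) (nat_lit 0) (XT.lf (nat_lit 0) (nat_lit 2663947804) (nat_lit 152) (nat_lit 16851334832) (nat_lit 76) (nat_lit 19530650868) (nat_lit 27) (nat_lit 5) (nat_lit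 29) (nat_lit 5) (nat_lit 28) (nat_lit 5) (nat_lit 327) (nat_lit 266) (nat_lit 187)) (XT.nd (nat_lit 78) (nat_lit 0) (nat_lit 0) (XT.lf (nat_lit 0) (nat_lit 4738200885) (nat_lit 152) (nat_lit 7648393892) (nat_lit 228) (nat_lit 28228863917) (nat_lit 25) (nat_lit 5) (nat_lit 27) (nat_lit 5) (nat_lit 28) (nat_lit 5) (nat_lit 328) (nat_lit 266) (nat_lit 186)) (XT.lf (nat_lit 0) (nat_lit 22792359284) (nat_lit 228) (nat_lit 14590406501) (nat_lit 76) (nat_lit 4874793734) (nat_lit 25) (nat_lit 5) (nat_lit 28) (nat_lit 5) (nat_lit 26) (nat_lit 4) (nat_lit 329) (nat_lit 266) (nat_lit 185)))) (XT.nd (nat_lit 156) (nat_lit 228) (nat_lit 0) (XT.nd (nat_lit 78) (nat_lit 0) (nat_lit 0) (XT.lf (nat_lit 0) (nat_lit 7794221415) (nat_lit 76) (nat_lit 26053018800) (nat_lit 152) (nat_lit 10130668830) (nat_lit 24) (nat_lit 5) (nat_lit 25) (nat_lit 5) (nat_lit 26) (nat_lit 4) (nat_lit 330) (nat_lit 266) (nat_lit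 184)) (XT.lf (nat_lit 0) (nat_lit 31562703619) (nat_lit 76) (nat_lit 14019787212) (nat_lit 152) (nat_lit 197964548) (nat_lit 24) (nat_lit 5) (nat_lit 25) (nat_lit 5) (nat_lit 26) (nat_lit 4) (nat_lit 331) (nat_lit 266) (nat_lit 183))) (XT.nd (nat_lit 78) (nat_lit 0) (nat_lit 0) (XT.lf (nat_lit 0) (nat_lit 8882667947) (nat_lit 152) (nat_lit 1212726300) (nat_lit 228) (nat_lit 37572881658) (nat_lit 21) (nat_lit 5) (nat_lit 23) (nat_lit 5) (nat_lit 24) (nat_lit 5) (nat_lit 332) (nat_lit 266) (nat_lit 182)) (XT.lf (nat_lit 0) (nat_lit 21143576959) (nat_lit 228) (nat_lit 16370095339) (nat_lit 76) (nat_lit 12129435986) (nat_lit 21) (nat_lit 5) (nat_lit 24) (nat_lit 5) (nat_lit 22) (nat_lit 4) (nat_lit 333) (nat_lit 266) (nat_lit 181)))))) (XT.nd (nat_lit 546) (nat_lit 304) (nat_lit 0) (XT.nd (nat_lit 234) (nat_lit 76) (nat_lit 0) (XT.nd (nat_lit 78) (nat_lit 228) (nat_lit 0) (XT.lf (nat_lit 0) (nat_lit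 7259262174) (nat_lit 76) (nat_lit 25546733644) (nat_lit 152) (nat_lit 18908838448) (nat_lit 20) (nat_lit 5) (nat_lit 21) (nat_lit 5) (nat_lit 22) (nat_lit 4) (nat_lit 334) (nat_lit 266) (nat_lit 180)) (XT.nd (nat_lit 78) (nat_lit 228) (nat_lit 0) (XT.lf (nat_lit 0) (nat_lit 32376871477) (nat_lit 76) (nat_lit 12823608292) (nat_lit 152) (nat_lit 8685204926) (nat_lit 20) (nat_lit 5) (nat_lit 21) (nat_lit 5) (nat_lit 22) (nat_lit 4) (nat_lit 335) (nat_lit 266) (nat_lit 179)) (XT.lf (nat_lit 0) (nat_lit 2021048420) (nat_lit 228) (nat_lit 53587794770) (nat_lit 76) (nat_lit 555306371) (nat_lit 17) (nat_lit 5) (nat_lit 20) (nat_lit 5) (nat_lit 18) (nat_lit 4) (nat_lit 336) (nat_lit 266) (nat_lit 178)))) (XT.nd (nat_lit 156) (nat_lit 76) (nat_lit 0) (XT.nd (nat_lit 78) (nat_lit 0) (nat_lit 0) (XT.lf (nat_lit 0) (nat_lit 13419306071) (nat_lit 228) (nat_lit 30487368077) (nat_lit 76) (nat_lit 14637200006)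 (nat_lit 17) (nat_lit 5) (nat_lit 20) (nat_lit 5) (nat_lit 18) (nat_lit 4) (nat_lit 337) (nat_lit 266) (nat_lit 177)) (XT.lf (nat_lit 0) (nat_lit 25369959453) (nat_lit 228) (nat_lit 6263766797) (nat_lit 76) (nat_lit 29409389669) (nat_lit 17) (nat_lit 5) (nat_lit 20) (nat_lit 5) (nat_lit 18) (nat_lit 4) (nat_lit 338) (nat_lit 266) (nat_lit 176))) (XT.nd (nat_lit 78) (nat_lit 0) (nat_lit 0) (XT.lf (nat_lit 0) (nat_lit 19521621458) (nat_lit 76) (nat_lit 18567494810) (nat_lit 152) (nat_lit 25573079548) (nat_lit 16) (nat_lit 5) (nat_lit 17) (nat_lit 5) (nat_lit 18) (nat_lit 4) (nat_lit 339) (nat_lit 266) (nat_lit 175)) (XT.lf (nat_lit 0) (nat_lit 46697712604) (nat_lit 76) (nat_lit 4794826504) (nat_lit 152) (nat_lit 14918246277) (nat_lit 16) (nat_lit 5) (nat_lit 17) (nat_lit 5) (nat_lit 18) (nat_lit 4) (nat_lit 340) (nat_lit 266) (nat_lit 174))))) (XT.nd (nat_lit 234) (nat_lit 152) (nat_lit 0)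 (XT.nd (nat_lit 78) (nat_lit 76) (nat_lit 0) (XT.lf (nat_lit 0) (nat_lit 5930200359) (nat_lit 76) (nat_lit 59770334174) (nat_lit 76) (nat_lit 3592242545) (nat_lit 15) (nat_lit 4) (nat_lit 16) (nat_lit 5) (nat_lit 16) (nat_lit 4) (nat_lit 341) (nat_lit 266) (nat_lit 173)) (XT.nd (nat_lit 78) (nat_lit 0) (nat_lit 0) (XT.lf (nat_lit 0) (nat_lit 8376227791) (nat_lit 152) (nat_lit 39203283645) (nat_lit 76) (nat_lit 24729823781) (nat_lit 14) (nat_lit 5) (nat_lit 16) (nat_lit 5) (nat_lit 15) (nat_lit 4) (nat_lit 342) (nat_lit 266) (nat_lit 172)) (XT.lf (nat_lit 0) (nat_lit 20855040395) (nat_lit 152) (nat_lit 13898850662) (nat_lit 76) (nat_lit 40722180976) (nat_lit 14) (nat_lit 5) (nat_lit 16) (nat_lit 5) (nat_lit 15) (nat_lit 4) (nat_lit 343) (nat_lit 266) (nat_lit 171)))) (XT.nd (nat_lit 156) (nat_lit 76) (nat_lit 0) (XT.nd (nat_lit 78) (nat_lit 0) (nat_lit 0) (XT.lf (nat_lit 0) (nat_lit 12897171989)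 (nat_lit 76) (nat_lit 21170807833) (nat_lit 152) (nat_lit 44729864214) (nat_lit 13) (nat_lit 5) (nat_lit 14) (nat_lit 5) (nat_lit 15) (nat_lit 4) (nat_lit 344) (nat_lit 266) (nat_lit 170)) (XT.lf (nat_lit 0) (nat_lit 41298863898) (nat_lit 76) (nat_lit 6772409796) (nat_lit 152) (nat_lit 34210543464) (nat_lit 13) (nat_lit 5) (nat_lit 14) (nat_lit 5) (nat_lit 15) (nat_lit 4) (nat_lit 345) (nat_lit 266) (nat_lit 169))) (XT.nd (nat_lit 78) (nat_lit 76) (nat_lit 0) (XT.lf (nat_lit 0) (nat_lit 62842123314) (nat_lit 152) (nat_lit 14923264078) (nat_lit 0) (nat_lit 8172583379) (nat_lit 13) (nat_lit 5) (nat_lit 15) (nat_lit 4) (nat_lit 13) (nat_lit 4) (nat_lit 346) (nat_lit 266) (nat_lit 168)) (XT.lf (nat_lit 0) (nat_lit 12594251706) (nat_lit 76) (nat_lit 65934459197) (nat_lit 76) (nat_lit 11242908693) (nat_lit 12) (nat_lit 4) (nat_lit 13) (nat_lit 5) (nat_lit 13) (nat_lit 4) (nat_lit 347) (nat_lit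 266) (nat_lit 167))))))))
noncomputable def xc62 : XT := (XT.nd (nat_lit 35256) (nat_lit 0) (nat_lit 4484) (XT.nd (nat_lit 1092) (nat_lit 0) (nat_lit 0) (XT.nd (nat_lit 546) (nat_lit 152) (nat_lit 0) (XT.nd (nat_lit 234) (nat_lit 76) (nat_lit 0) (XT.nd (nat_lit 78) (nat_lit 76) (nat_lit 0) (XT.lf (nat_lit 0) (nat_lit 1322378461) (nat_lit 152) (nat_lit 52028084673) (nat_lit 76) (nat_lit 40441848943) (nat_lit 11) (nat_lit 5) (nat_lit 13) (nat_lit 5) (nat_lit 12) (nat_lit 4) (nat_lit 348) (nat_lit 266) (nat_lit 166)) (XT.nd (nat_lit 78) (nat_lit 76) (nat_lit 0) (XT.lf (nat_lit 0) (nat_lit 14274168151) (nat_lit 152) (nat_lit 25755915837) (nat_lit 76) (nat_lit 57980895944) (nat_lit 11) (nat_lit 5) (nat_lit 13) (nat_lit 5) (nat_lit 12) (nat_lit 4) (nat_lit 349) (nat_lit 266) (nat_lit 165)) (XT.lf (nat_lit 0) (nat_lit 1845782989) (nat_lit 76) (nat_lit 26034647419) (nat_lit 152) (nat_lit 74559947126)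 (nat_lit 10) (nat_lit 5) (nat_lit 11) (nat_lit 5) (nat_lit 12) (nat_lit 4) (nat_lit 350) (nat_lit 266) (nat_lit 164)))) (XT.nd (nat_lit 156) (nat_lit 76) (nat_lit 0) (XT.nd (nat_lit 78) (nat_lit 0) (nat_lit 0) (XT.lf (nat_lit 0) (nat_lit 31346269379) (nat_lit 76) (nat_lit 11075340606) (nat_lit 152) (nat_lit 64661999620) (nat_lit 10) (nat_lit 5) (nat_lit 11) (nat_lit 5) (nat_lit 12) (nat_lit 4) (nat_lit 351) (nat_lit 266) (nat_lit 163)) (XT.lf (nat_lit 0) (nat_lit 57724262413) (nat_lit 152) (nat_lit 49700560024) (nat_lit 0) (nat_lit 4533151007) (nat_lit 10) (nat_lit 5) (nat_lit 12) (nat_lit 4) (nat_lit 10) (nat_lit 4) (nat_lit 352) (nat_lit 266) (nat_lit 162))) (XT.nd (nat_lit 78) (nat_lit 76) (nat_lit 0) (XT.lf (nat_lit 0) (nat_lit 73894203953) (nat_lit 152) (nat_lit 22491642980) (nat_lit 0) (nat_lit 20687146309) (nat_lit 10) (nat_lit 5) (nat_lit 12) (nat_lit 4) (nat_lit 10) (nat_lit 4) (nat_lit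 353) (nat_lit 266) (nat_lit 161)) (XT.lf (nat_lit 0) (nat_lit 6181275947) (nat_lit 76) (nat_lit 84741613775) (nat_lit 76) (nat_lit 31519369238) (nat_lit 9) (nat_lit 4) (nat_lit 10) (nat_lit 5) (nat_lit 10) (nat_lit 4) (nat_lit 354) (nat_lit 266) (nat_lit 160))))) (XT.nd (nat_lit 234) (nat_lit 76) (nat_lit 0) (XT.nd (nat_lit 78) (nat_lit 76) (nat_lit 0) (XT.lf (nat_lit 0) (nat_lit 36741276188) (nat_lit 76) (nat_lit 72284371557) (nat_lit 76) (nat_lit 19047663311) (nat_lit 9) (nat_lit 4) (nat_lit 10) (nat_lit 5) (nat_lit 10) (nat_lit 4) (nat_lit 355) (nat_lit 266) (nat_lit 159)) (XT.nd (nat_lit 78) (nat_lit 76) (nat_lit 0) (XT.lf (nat_lit 0) (nat_lit 68813491851) (nat_lit 76) (nat_lit 59211581671) (nat_lit 76) (nat_lit 5961098465) (nat_lit 9) (nat_lit 4) (nat_lit 10) (nat_lit 5) (nat_lit 10) (nat_lit 4) (nat_lit 356) (nat_lit 266) (nat_lit 158)) (XT.lf (nat_lit 0) (nat_lit 7619834147) (nat_lit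 152) (nat_lit 37795338895) (nat_lit 76) (nat_lit 94777505821) (nat_lit 8) (nat_lit 5) (nat_lit 10) (nat_lit 5) (nat_lit 9) (nat_lit 4) (nat_lit 357) (nat_lit 266) (nat_lit 157)))) (XT.nd (nat_lit 156) (nat_lit 0) (nat_lit 0) (XT.nd (nat_lit 78) (nat_lit 76) (nat_lit 0) (XT.lf (nat_lit 0) (nat_lit 21749914135) (nat_lit 152) (nat_lit 9123770816) (nat_lit 76) (nat_lit 115834255821) (nat_lit 8) (nat_lit 5) (nat_lit 10) (nat_lit 5) (nat_lit 9) (nat_lit 4) (nat_lit 358) (nat_lit 266) (nat_lit 156)) (XT.lf (nat_lit 0) (nat_lit 21384887647) (nat_lit 76) (nat_lit 15399784020) (nat_lit 152) (nat_lit 116758350683) (nat_lit 7) (nat_lit 5) (nat_lit 8) (nat_lit 5) (nat_lit 9) (nat_lit 4) (nat_lit 359) (nat_lit 266) (nat_lit 155))) (XT.nd (nat_lit 78) (nat_lit 0) (nat_lit 0) (XT.lf (nat_lit 0) (nat_lit 52666940222) (nat_lit 152) (nat_lit 107130026975) (nat_lit 0) (nat_lit 920019316) (nat_lit 7) (nat_lit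 5) (nat_lit 9) (nat_lit 4) (nat_lit 7) (nat_lit 4) (nat_lit 360) (nat_lit 266) (nat_lit 154)) (XT.lf (nat_lit 0) (nat_lit 69491872502) (nat_lit 152) (nat_lit 81018848574) (nat_lit 0) (nat_lit 17734472915) (nat_lit 7) (nat_lit 5) (nat_lit 9) (nat_lit 4) (nat_lit 7) (nat_lit 4) (nat_lit 361) (nat_lit 266) (nat_lit 153)))))) (XT.nd (nat_lit 33618) (nat_lit 0) (nat_lit 16036) (XT.nd (nat_lit 33306) (nat_lit 0) (nat_lit 19532) (XT.nd (nat_lit 78) (nat_lit 0) (nat_lit 0) (XT.lf (nat_lit 0) (nat_lit 87151495726) (nat_lit 152) (nat_lit 53614397884) (nat_lit 0) (nat_lit 35384116442) (nat_lit 7) (nat_lit 5) (nat_lit 9) (nat_lit 4) (nat_lit 7) (nat_lit 4) (nat_lit 362) (nat_lit 266) (nat_lit 152)) (XT.nd (nat_lit 33150) (nat_lit 0) (nat_lit 20216) (XT.lf (nat_lit 0) (nat_lit 105687856616) (nat_lit 152) (nat_lit 24851426213) (nat_lit 0) (nat_lit 53910972859) (nat_lit 7) (nat_lit 5) (nat_lit 9) (nat_lit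 4) (nat_lit 7) (nat_lit 4) (nat_lit 363) (nat_lit 266) (nat_lit 151)) (XT.lf (nat_lit 0) (nat_lit 225431351) (nat_lit 0) (nat_lit 225431351) (nat_lit 684) (nat_lit 3060157257) (nat_lit 273) (nat_lit 5) (nat_lit 273) (nat_lit 3) (nat_lit 282) (nat_lit 3) (nat_lit 267) (nat_lit 267) (nat_lit 246)))) (XT.nd (nat_lit 156) (nat_lit 684) (nat_lit 0) (XT.nd (nat_lit 78) (nat_lit 0) (nat_lit 0) (XT.lf (nat_lit 0) (nat_lit 3762111919) (nat_lit 684) (nat_lit 1187183003) (nat_lit 760) (nat_lit 2158808279) (nat_lit 273) (nat_lit 5) (nat_lit 282) (nat_lit 3) (nat_lit 283) (nat_lit 5) (nat_lit 268) (nat_lit 267) (nat_lit 245)) (XT.lf (nat_lit 76) (nat_lit 4451621850) (nat_lit 0) (nat_lit 2181802265) (nat_lit 760) (nat_lit 569286949) (nat_lit 274) (nat_lit 5) (nat_lit 273) (nat_lit 5) (nat_lit 283) (nat_lit 5) (nat_lit 269) (nat_lit 267) (nat_lit 244))) (XT.nd (nat_lit 78) (nat_lit 0) (nat_lit 0) (XT.lf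 (nat_lit 0) (nat_lit 2176549625) (nat_lit 760) (nat_lit 4279542965) (nat_lit 836) (nat_lit 849255308) (nat_lit 264) (nat_lit 5) (nat_lit 274) (nat_lit 5) (nat_lit 275) (nat_lit 5) (nat_lit 270) (nat_lit 267) (nat_lit 243)) (XT.lf (nat_lit 76) (nat_lit 1639944927) (nat_lit 0) (nat_lit 3308749401) (nat_lit 836) (nat_lit 2467474797) (nat_lit 265) (nat_lit 5) (nat_lit 264) (nat_lit 5) (nat_lit 275) (nat_lit 5) (nat_lit 271) (nat_lit 267) (nat_lit 242))))) (XT.nd (nat_lit 234) (nat_lit 2736) (nat_lit 0) (XT.nd (nat_lit 78) (nat_lit 0) (nat_lit 0) (XT.lf (nat_lit 0) (nat_lit 208528398) (nat_lit 836) (nat_lit 7222202870) (nat_lit 912) (nat_lit 105292941) (nat_lit 254) (nat_lit 5) (nat_lit 265) (nat_lit 5) (nat_lit 266) (nat_lit 5) (nat_lit 272) (nat_lit 267) (nat_lit 241)) (XT.nd (nat_lit 78) (nat_lit 0) (nat_lit 0) (XT.lf (nat_lit 0) (nat_lit 2907896891) (nat_lit 836) (nat_lit 993671875) (nat_lit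 912) (nat_lit 3761568536) (nat_lit 254) (nat_lit 5) (nat_lit 265) (nat_lit 5) (nat_lit 266) (nat_lit 5) (nat_lit 273) (nat_lit 267) (nat_lit 240)) (XT.lf (nat_lit 76) (nat_lit 5555872798) (nat_lit 0) (nat_lit 93744655) (nat_lit 912) (nat_lit 2149972852) (nat_lit 255) (nat_lit 5) (nat_lit 254) (nat_lit 5) (nat_lit 266) (nat_lit 5) (nat_lit 274) (nat_lit 267) (nat_lit 239)))) (XT.nd (nat_lit 156) (nat_lit 1900) (nat_lit 0) (XT.nd (nat_lit 78) (nat_lit 0) (nat_lit 76) (XT.lf (nat_lit 0) (nat_lit 524618442) (nat_lit 912) (nat_lit 3489992737) (nat_lit 988) (nat_lit 3929761576) (nat_lit 243) (nat_lit 5) (nat_lit 255) (nat_lit 5) (nat_lit 256) (nat_lit 5) (nat_lit 275) (nat_lit 267) (nat_lit 238)) (XT.lf (nat_lit 0) (nat_lit 3211925839) (nat_lit 912) (nat_lit 4719055691) (nat_lit 76) (nat_lit 167251854) (nat_lit 244) (nat_lit 5) (nat_lit 256) (nat_lit 5) (nat_lit 245) (nat_lit 5) (nat_lit 276) (nat_lit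 267) (nat_lit 237))) (XT.nd (nat_lit 78) (nat_lit 1064) (nat_lit 0) (XT.lf (nat_lit 0) (nat_lit 2307901584) (nat_lit 912) (nat_lit 3695124164) (nat_lit 988) (nat_lit 2257851052) (nat_lit 232) (nat_lit 5) (nat_lit 244) (nat_lit 5) (nat_lit 245) (nat_lit 5) (nat_lit 277) (nat_lit 267) (nat_lit 236)) (XT.lf (nat_lit 0) (nat_lit 435898043) (nat_lit 1064) (nat_lit 7169589690) (nat_lit 76) (nat_lit 827869464) (nat_lit 218) (nat_lit 5) (nat_lit 232) (nat_lit 5) (nat_lit 219) (nat_lit 5) (nat_lit 278) (nat_lit 267) (nat_lit 235))))))) (XT.nd (nat_lit 1092) (nat_lit 3952) (nat_lit 0) (XT.nd (nat_lit 546) (nat_lit 2888) (nat_lit 0) (XT.nd (nat_lit 234) (nat_lit 2432) (nat_lit 0) (XT.nd (nat_lit 78) (nat_lit 1216) (nat_lit 0) (XT.lf (nat_lit 0) (nat_lit 193128656) (nat_lit 1064) (nat_lit 3005488395) (nat_lit 1140) (nat_lit 5415896533) (nat_lit 204) (nat_lit 5) (nat_lit 218) (nat_lit 5) (nat_lit 219)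 (nat_lit 5) (nat_lit 279) (nat_lit 267) (nat_lit 234)) (XT.nd (nat_lit 78) (nat_lit 1216) (nat_lit 0) (XT.lf (nat_lit 0) (nat_lit 6075975710) (nat_lit 1140) (nat_lit 850860475) (nat_lit 76) (nat_lit 1878741226) (nat_lit 204) (nat_lit 5) (nat_lit 219) (nat_lit 5) (nat_lit 205) (nat_lit 5) (nat_lit 280) (nat_lit 267) (nat_lit 233)) (XT.lf (nat_lit 0) (nat_lit 77575095) (nat_lit 1216) (nat_lit 1899822034) (nat_lit 76) (nat_lit 7029254588) (nat_lit 188) (nat_lit 5) (nat_lit 204) (nat_lit 5) (nat_lit 189) (nat_lit 5) (nat_lit 281) (nat_lit 267) (nat_lit 232)))) (XT.nd (nat_lit 156) (nat_lit 1140) (nat_lit 0) (XT.nd (nat_lit 78) (nat_lit 608) (nat_lit 0) (XT.lf (nat_lit 0) (nat_lit 2963253665) (nat_lit 760) (nat_lit 2991398656) (nat_lit 76) (nat_lit 3262606238) (nat_lit 179) (nat_lit 5) (nat_lit 189) (nat_lit 5) (nat_lit 180) (nat_lit 5) (nat_lit 282) (nat_lit 267) (nat_lit 231)) (XT.lf (nat_lit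 0) (nat_lit 5345056389) (nat_lit 608) (nat_lit 636566472) (nat_lit 684) (nat_lit 3457242065) (nat_lit 171) (nat_lit 5) (nat_lit 179) (nat_lit 5) (nat_lit 180) (nat_lit 5) (nat_lit 283) (nat_lit 267) (nat_lit 230))) (XT.nd (nat_lit 78) (nat_lit 608) (nat_lit 0) (XT.lf (nat_lit 0) (nat_lit 4429713422) (nat_lit 532) (nat_lit 4743745684) (nat_lit 608) (nat_lit 497531649) (nat_lit 164) (nat_lit 5) (nat_lit 171) (nat_lit 5) (nat_lit 172) (nat_lit 5) (nat_lit 284) (nat_lit 267) (nat_lit 229)) (XT.lf (nat_lit 0) (nat_lit 2554865532) (nat_lit 608) (nat_lit 6434149284) (nat_lit 76) (nat_lit 925193189) (nat_lit 156) (nat_lit 5) (nat_lit 164) (nat_lit 5) (nat_lit 157) (nat_lit 5) (nat_lit 285) (nat_lit 267) (nat_lit 228))))) (XT.nd (nat_lit 234) (nat_lit 1368) (nat_lit 0) (XT.nd (nat_lit 78) (nat_lit 1064) (nat_lit 0) (XT.lf (nat_lit 0) (nat_lit 2475611237) (nat_lit 456) (nat_lit 3307902501) (nat_lit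 532) (nat_lit 4385008773) (nat_lit 150) (nat_lit 5) (nat_lit 156) (nat_lit 5) (nat_lit 157) (nat_lit 5) (nat_lit 286) (nat_lit 267) (nat_lit 227)) (XT.nd (nat_lit 78) (nat_lit 532) (nat_lit 0) (XT.lf (nat_lit 0) (nat_lit 1435394960) (nat_lit 532) (nat_lit 7755506054) (nat_lit 608) (nat_lit 1244229481) (nat_lit 143) (nat_lit 5) (nat_lit 150) (nat_lit 5) (nat_lit 151) (nat_lit 5) (nat_lit 287) (nat_lit 267) (nat_lit 226)) (XT.lf (nat_lit 0) (nat_lit 323419015) (nat_lit 456) (nat_lit 1720024644) (nat_lit 532) (nat_lit 8670224823) (nat_lit 136) (nat_lit 5) (nat_lit 142) (nat_lit 5) (nat_lit 143) (nat_lit 5) (nat_lit 288) (nat_lit 267) (nat_lit 225)))) (XT.nd (nat_lit 156) (nat_lit 912) (nat_lit 0) (XT.nd (nat_lit 78) (nat_lit 456) (nat_lit 0) (XT.lf (nat_lit 0) (nat_lit 5524515723) (nat_lit 532) (nat_lit 857270680) (nat_lit 76) (nat_lit 4622420336) (nat_lit 136) (nat_lit 5) (nat_lit 143) (nat_lit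 5) (nat_lit 137) (nat_lit 5) (nat_lit 289) (nat_lit 267) (nat_lit 224)) (XT.lf (nat_lit 0) (nat_lit 9206351870) (nat_lit 532) (nat_lit 2085995115) (nat_lit 76) (nat_lit 16204922) (nat_lit 130) (nat_lit 5) (nat_lit 137) (nat_lit 5) (nat_lit 131) (nat_lit 5) (nat_lit 290) (nat_lit 267) (nat_lit 223))) (XT.nd (nat_lit 78) (nat_lit 456) (nat_lit 0) (XT.lf (nat_lit 0) (nat_lit 1492139311) (nat_lit 456) (nat_lit 3440450751) (nat_lit 76) (nat_lit 6692898349) (nat_lit 124) (nat_lit 5) (nat_lit 130) (nat_lit 5) (nat_lit 125) (nat_lit 5) (nat_lit 291) (nat_lit 267) (nat_lit 222)) (XT.lf (nat_lit 0) (nat_lit 5255924201) (nat_lit 532) (nat_lit 4893405361) (nat_lit 76) (nat_lit 1807393209) (nat_lit 118) (nat_lit 5) (nat_lit 125) (nat_lit 5) (nat_lit 119) (nat_lit 5) (nat_lit 292) (nat_lit 267) (nat_lit 221)))))) (XT.nd (nat_lit 546) (nat_lit 1748) (nat_lit 0) (XT.nd (nat_lit 234) (nat_lit 1064) (nat_lit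 0) (XT.nd (nat_lit 78) (nat_lit 760) (nat_lit 0) (XT.lf (nat_lit 0) (nat_lit 5834179356) (nat_lit 380) (nat_lit 3443229445) (nat_lit 456) (nat_lit 3025092929) (nat_lit 113) (nat_lit 5) (nat_lit 118) (nat_lit 5) (nat_lit 119) (nat_lit 5) (nat_lit 293) (nat_lit 267) (nat_lit 220)) (XT.nd (nat_lit 78) (nat_lit 304) (nat_lit 0) (XT.lf (nat_lit 0) (nat_lit 877641051) (nat_lit 456) (nat_lit 8173045619) (nat_lit 76) (nat_lit 3612919646) (nat_lit 107) (nat_lit 5) (nat_lit 113) (nat_lit 5) (nat_lit 108) (nat_lit 5) (nat_lit 294) (nat_lit 267) (nat_lit 219)) (XT.lf (nat_lit 0) (nat_lit 2995826094) (nat_lit 304) (nat_lit 1980549402) (nat_lit 380) (nat_lit 8063649326) (nat_lit 103) (nat_lit 5) (nat_lit 107) (nat_lit 5) (nat_lit 108) (nat_lit 5) (nat_lit 295) (nat_lit 267) (nat_lit 218)))) (XT.nd (nat_lit 156) (nat_lit 608) (nat_lit 0) (XT.nd (nat_lit 78) (nat_lit 76) (nat_lit 0) (XT.lf (nat_lit 0) (nat_lit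 1346547293) (nat_lit 380) (nat_lit 8017996151) (nat_lit 456) (nat_lit 4068243101) (nat_lit 98) (nat_lit 5) (nat_lit 103) (nat_lit 5) (nat_lit 104) (nat_lit 5) (nat_lit 296) (nat_lit 267) (nat_lit 217)) (XT.lf (nat_lit 0) (nat_lit 184759287) (nat_lit 456) (nat_lit 434173716) (nat_lit 76) (nat_lit 13224460546) (nat_lit 97) (nat_lit 5) (nat_lit 103) (nat_lit 5) (nat_lit 98) (nat_lit 5) (nat_lit 297) (nat_lit 267) (nat_lit 216))) (XT.nd (nat_lit 78) (nat_lit 304) (nat_lit 0) (XT.lf (nat_lit 0) (nat_lit 4690547286) (nat_lit 380) (nat_lit 2432441019) (nat_lit 76) (nat_lit 7146656385) (nat_lit 93) (nat_lit 5) (nat_lit 98) (nat_lit 5) (nat_lit 94) (nat_lit 5) (nat_lit 298) (nat_lit 267) (nat_lit 215)) (XT.lf (nat_lit 0) (nat_lit 9476858177) (nat_lit 380) (nat_lit 4598364201) (nat_lit 76) (nat_lit 640376971) (nat_lit 89) (nat_lit 5) (nat_lit 94) (nat_lit 5) (nat_lit 90) (nat_lit 5) (nat_lit 299) (nat_lit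 267) (nat_lit 214))))) (XT.nd (nat_lit 234) (nat_lit 836) (nat_lit 0) (XT.nd (nat_lit 78) (nat_lit 608) (nat_lit 0) (XT.lf (nat_lit 0) (nat_lit 8168472990) (nat_lit 304) (nat_lit 6452431193) (nat_lit 380) (nat_lit 559440657) (nat_lit 85) (nat_lit 5) (nat_lit 89) (nat_lit 5) (nat_lit 90) (nat_lit 5) (nat_lit 300) (nat_lit 267) (nat_lit 213)) (XT.nd (nat_lit 78) (nat_lit 228) (nat_lit 0) (XT.lf (nat_lit 0) (nat_lit 4334568244) (nat_lit 380) (nat_lit 9683957801) (nat_lit 76) (nat_lit 1646617184) (nat_lit 80) (nat_lit 5) (nat_lit 85) (nat_lit 5) (nat_lit 81) (nat_lit 5) (nat_lit 301) (nat_lit 267) (nat_lit 212)) (XT.lf (nat_lit 0) (nat_lit 3516651625) (nat_lit 228) (nat_lit 6062780450) (nat_lit 304) (nat_lit 6591091785) (nat_lit 77) (nat_lit 5) (nat_lit 80) (nat_lit 5) (nat_lit 81) (nat_lit 5) (nat_lit 302) (nat_lit 267) (nat_lit 211)))) (XT.nd (nat_lit 156) (nat_lit 456) (nat_lit 0) (XT.nd (nat_lit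 78) (nat_lit 76) (nat_lit 0) (XT.lf (nat_lit 0) (nat_lit 795995192) (nat_lit 304) (nat_lit 14368293099) (nat_lit 380) (nat_lit 1534591069) (nat_lit 73) (nat_lit 5) (nat_lit 77) (nat_lit 5) (nat_lit 78) (nat_lit 5) (nat_lit 303) (nat_lit 267) (nat_lit 210)) (XT.lf (nat_lit 0) (nat_lit 3842459298) (nat_lit 380) (nat_lit 2242554869) (nat_lit 76) (nat_lit 11163343843) (nat_lit 72) (nat_lit 5) (nat_lit 77) (nat_lit 5) (nat_lit 73) (nat_lit 5) (nat_lit 304) (nat_lit 267) (nat_lit 209))) (XT.nd (nat_lit 78) (nat_lit 228) (nat_lit 0) (XT.lf (nat_lit 0) (nat_lit 9551969733) (nat_lit 304) (nat_lit 5597814131) (nat_lit 76) (nat_lit 2672244292) (nat_lit 69) (nat_lit 5) (nat_lit 73) (nat_lit 5) (nat_lit 70) (nat_lit 5) (nat_lit 305) (nat_lit 267) (nat_lit 208)) (XT.lf (nat_lit 0) (nat_lit 9080754589) (nat_lit 228) (nat_lit 6590725075) (nat_lit 304) (nat_lit 2749198558) (nat_lit 66) (nat_lit 5) (nat_lit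 69) (nat_lit 5) (nat_lit 70) (nat_lit 5) (nat_lit 306) (nat_lit 267) (nat_lit 207))))))))
noncomputable def xc63 : XT := (XT.nd (nat_lit 2184) (nat_lit 1064) (nat_lit 0) (XT.nd (nat_lit 1092) (nat_lit 1216) (nat_lit 0) (XT.nd (nat_lit 546) (nat_lit 1064) (nat_lit 0) (XT.nd (nat_lit 234) (nat_lit 608) (nat_lit 0) (XT.nd (nat_lit 78) (nat_lit 228) (nat_lit 0) (XT.lf (nat_lit 0) (nat_lit 3077771358) (nat_lit 304) (nat_lit 13500289007) (nat_lit 76) (nat_lit 2467665084) (nat_lit 62) (nat_lit 5) (nat_lit 66) (nat_lit 5) (nat_lit 63) (nat_lit 5) (nat_lit 307) (nat_lit 267) (nat_lit 206)) (XT.nd (nat_lit 78) (nat_lit 0) (nat_lit 0) (XT.lf (nat_lit 0) (nat_lit 1535569769) (nat_lit 228) (nat_lit 7737488233) (nat_lit 304) (nat_lit 10424163961) (nat_lit 59) (nat_lit 5) (nat_lit 62) (nat_lit 5) (nat_lit 63) (nat_lit 5) (nat_lit 308) (nat_lit 267) (nat_lit 205)) (XT.lf (nat_lit 0) (nat_lit 15889481161)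 (nat_lit 304) (nat_lit 2857371550) (nat_lit 76) (nat_lit 1631126374) (nat_lit 59) (nat_lit 5) (nat_lit 63) (nat_lit 5) (nat_lit 60) (nat_lit 5) (nat_lit 309) (nat_lit 267) (nat_lit 204)))) (XT.nd (nat_lit 156) (nat_lit 152) (nat_lit 0) (XT.nd (nat_lit 78) (nat_lit 228) (nat_lit 0) (XT.lf (nat_lit 0) (nat_lit 1875994837) (nat_lit 228) (nat_lit 7778206675) (nat_lit 76) (nat_lit 11433112327) (nat_lit 56) (nat_lit 5) (nat_lit 59) (nat_lit 5) (nat_lit 57) (nat_lit 5) (nat_lit 310) (nat_lit 267) (nat_lit 203)) (XT.lf (nat_lit 0) (nat_lit 8538324391) (nat_lit 304) (nat_lit 13259930539) (nat_lit 76) (nat_lit 30377679) (nat_lit 53) (nat_lit 5) (nat_lit 57) (nat_lit 5) (nat_lit 54) (nat_lit 5) (nat_lit 311) (nat_lit 267) (nat_lit 202))) (XT.nd (nat_lit 78) (nat_lit 0) (nat_lit 0) (XT.lf (nat_lit 0) (nat_lit 3190799732) (nat_lit 152) (nat_lit 12512260082) (nat_lit 228) (nat_lit 6898901423) (nat_lit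 51) (nat_lit 5) (nat_lit 53) (nat_lit 5) (nat_lit 54) (nat_lit 5) (nat_lit 312) (nat_lit 267) (nat_lit 201)) (XT.lf (nat_lit 0) (nat_lit 20678885854) (nat_lit 152) (nat_lit 2645249424) (nat_lit 228) (nat_lit 86899446) (nat_lit 51) (nat_lit 5) (nat_lit 53) (nat_lit 5) (nat_lit 54) (nat_lit 5) (nat_lit 313) (nat_lit 267) (nat_lit 200))))) (XT.nd (nat_lit 234) (nat_lit 456) (nat_lit 0) (XT.nd (nat_lit 78) (nat_lit 304) (nat_lit 0) (XT.lf (nat_lit 0) (nat_lit 7110565721) (nat_lit 304) (nat_lit 9386927469) (nat_lit 76) (nat_lit 7755568789) (nat_lit 47) (nat_lit 5) (nat_lit 51) (nat_lit 5) (nat_lit 48) (nat_lit 5) (nat_lit 314) (nat_lit 267) (nat_lit 199)) (XT.nd (nat_lit 78) (nat_lit 152) (nat_lit 0) (XT.lf (nat_lit 0) (nat_lit 8340766118) (nat_lit 152) (nat_lit 6424668481) (nat_lit 228) (nat_lit 10368769313) (nat_lit 45) (nat_lit 5) (nat_lit 47) (nat_lit 5) (nat_lit 48) (nat_lit 5) (nat_lit 315)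 (nat_lit 267) (nat_lit 198)) (XT.lf (nat_lit 0) (nat_lit 1015077782) (nat_lit 152) (nat_lit 21900196469) (nat_lit 228) (nat_lit 3140779922) (nat_lit 43) (nat_lit 5) (nat_lit 45) (nat_lit 5) (nat_lit 46) (nat_lit 5) (nat_lit 316) (nat_lit 267) (nat_lit 197)))) (XT.nd (nat_lit 156) (nat_lit 228) (nat_lit 0) (XT.nd (nat_lit 78) (nat_lit 152) (nat_lit 0) (XT.lf (nat_lit 0) (nat_lit 4566975288) (nat_lit 228) (nat_lit 7120566954) (nat_lit 76) (nat_lit 15329033273) (nat_lit 42) (nat_lit 5) (nat_lit 45) (nat_lit 5) (nat_lit 43) (nat_lit 5) (nat_lit 317) (nat_lit 267) (nat_lit 196)) (XT.lf (nat_lit 0) (nat_lit 11840558335) (nat_lit 152) (nat_lit 836401295) (nat_lit 228) (nat_lit 15344792363) (nat_lit 40) (nat_lit 5) (nat_lit 42) (nat_lit 5) (nat_lit 43) (nat_lit 5) (nat_lit 318) (nat_lit 267) (nat_lit 195))) (XT.nd (nat_lit 78) (nat_lit 76) (nat_lit 0) (XT.lf (nat_lit 0) (nat_lit 2720584919) (nat_lit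 152) (nat_lit 18641730593) (nat_lit 228) (nat_lit 7709790751) (nat_lit 38) (nat_lit 5) (nat_lit 40) (nat_lit 5) (nat_lit 41) (nat_lit 5) (nat_lit 319) (nat_lit 267) (nat_lit 194)) (XT.lf (nat_lit 0) (nat_lit 446536981) (nat_lit 228) (nat_lit 7330365727) (nat_lit 76) (nat_lit 22393634039) (nat_lit 37) (nat_lit 5) (nat_lit 40) (nat_lit 5) (nat_lit 38) (nat_lit 5) (nat_lit 320) (nat_lit 267) (nat_lit 193)))))) (XT.nd (nat_lit 546) (nat_lit 532) (nat_lit 0) (XT.nd (nat_lit 234) (nat_lit 380) (nat_lit 0) (XT.nd (nat_lit 78) (nat_lit 152) (nat_lit 0) (XT.lf (nat_lit 0) (nat_lit 8982470160) (nat_lit 228) (nat_lit 18592803176) (nat_lit 76) (nat_lit 3742401535) (nat_lit 35) (nat_lit 5) (nat_lit 38) (nat_lit 5) (nat_lit 36) (nat_lit 5) (nat_lit 321) (nat_lit 267) (nat_lit 192)) (XT.nd (nat_lit 78) (nat_lit 0) (nat_lit 0) (XT.lf (nat_lit 0) (nat_lit 1312879071) (nat_lit 152) (nat_lit 16770770947) (nat_lit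 228) (nat_lit 14434379079) (nat_lit 33) (nat_lit 5) (nat_lit 35) (nat_lit 5) (nat_lit 36) (nat_lit 5) (nat_lit 322) (nat_lit 267) (nat_lit 191)) (XT.lf (nat_lit 0) (nat_lit 22554156842) (nat_lit 152) (nat_lit 5249168680) (nat_lit 228) (nat_lit 5970184507) (nat_lit 33) (nat_lit 5) (nat_lit 35) (nat_lit 5) (nat_lit 36) (nat_lit 5) (nat_lit 323) (nat_lit 267) (nat_lit 190)))) (XT.nd (nat_lit 156) (nat_lit 228) (nat_lit 0) (XT.nd (nat_lit 78) (nat_lit 0) (nat_lit 0) (XT.lf (nat_lit 0) (nat_lit 2995265232) (nat_lit 152) (nat_lit 25271662128) (nat_lit 76) (nat_lit 6819958439) (nat_lit 31) (nat_lit 5) (nat_lit 33) (nat_lit 5) (nat_lit 32) (nat_lit 5) (nat_lit 324) (nat_lit 267) (nat_lit 189)) (XT.lf (nat_lit 0) (nat_lit 12430040992) (nat_lit 152) (nat_lit 4486618308) (nat_lit 76) (nat_lit 19543172601) (nat_lit 31) (nat_lit 5) (nat_lit 33) (nat_lit 5) (nat_lit 32) (nat_lit 5) (nat_lit 325) (nat_lit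 267) (nat_lit 188))) (XT.nd (nat_lit 78) (nat_lit 76) (nat_lit 0) (XT.lf (nat_lit 0) (nat_lit 17638292451) (nat_lit 152) (nat_lit 4842823006) (nat_lit 228) (nat_lit 15415983197) (nat_lit 29) (nat_lit 5) (nat_lit 31) (nat_lit 5) (nat_lit 32) (nat_lit 5) (nat_lit 326) (nat_lit 267) (nat_lit 187)) (XT.lf (nat_lit 0) (nat_lit 1468361855) (nat_lit 76) (nat_lit 31678070516) (nat_lit 152) (nat_lit 6256455370) (nat_lit 28) (nat_lit 5) (nat_lit 29) (nat_lit 5) (nat_lit 30) (nat_lit 4) (nat_lit 327) (nat_lit 267) (nat_lit 186))))) (XT.nd (nat_lit 234) (nat_lit 304) (nat_lit 0) (XT.nd (nat_lit 78) (nat_lit 152) (nat_lit 0) (XT.lf (nat_lit 0) (nat_lit 3531090410) (nat_lit 152) (nat_lit 16397864363) (nat_lit 76) (nat_lit 21046982356) (nat_lit 27) (nat_lit 5) (nat_lit 29) (nat_lit 5) (nat_lit 28) (nat_lit 5) (nat_lit 328) (nat_lit 267) (nat_lit 185)) (XT.nd (nat_lit 78) (nat_lit 0) (nat_lit 0) (XT.lf (nat_lit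 0) (nat_lit 6233997494) (nat_lit 152) (nat_lit 7483023653) (nat_lit 228) (nat_lit 28907615969) (nat_lit 25) (nat_lit 5) (nat_lit 27) (nat_lit 5) (nat_lit 28) (nat_lit 5) (nat_lit 329) (nat_lit 267) (nat_lit 184)) (XT.lf (nat_lit 0) (nat_lit 24614227080) (nat_lit 228) (nat_lit 14105435982) (nat_lit 76) (nat_lit 5630057782) (nat_lit 25) (nat_lit 5) (nat_lit 28) (nat_lit 5) (nat_lit 26) (nat_lit 4) (nat_lit 330) (nat_lit 267) (nat_lit 183)))) (XT.nd (nat_lit 156) (nat_lit 152) (nat_lit 0) (XT.nd (nat_lit 78) (nat_lit 76) (nat_lit 0) (XT.lf (nat_lit 0) (nat_lit 9363610194) (nat_lit 76) (nat_lit 26837093560) (nat_lit 152) (nat_lit 9956030406) (nat_lit 24) (nat_lit 5) (nat_lit 25) (nat_lit 5) (nat_lit 26) (nat_lit 4) (nat_lit 331) (nat_lit 267) (nat_lit 182)) (XT.lf (nat_lit 0) (nat_lit 432269327) (nat_lit 152) (nat_lit 13790260097) (nat_lit 76) (nat_lit 33827706979) (nat_lit 23) (nat_lit 5) (nat_lit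 25) (nat_lit 5) (nat_lit 24) (nat_lit 5) (nat_lit 332) (nat_lit 267) (nat_lit 181))) (XT.nd (nat_lit 78) (nat_lit 0) (nat_lit 0) (XT.lf (nat_lit 0) (nat_lit 10430608354) (nat_lit 152) (nat_lit 785952694) (nat_lit 228) (nat_lit 38816427778) (nat_lit 21) (nat_lit 5) (nat_lit 23) (nat_lit 5) (nat_lit 24) (nat_lit 5) (nat_lit 333) (nat_lit 267) (nat_lit 180)) (XT.lf (nat_lit 0) (nat_lit 22792262827) (nat_lit 228) (nat_lit 16124007152) (nat_lit 76) (nat_lit 13191049498) (nat_lit 21) (nat_lit 5) (nat_lit 24) (nat_lit 5) (nat_lit 22) (nat_lit 4) (nat_lit 334) (nat_lit 267) (nat_lit 179))))))) (XT.nd (nat_lit 1092) (nat_lit 380) (nat_lit 0) (XT.nd (nat_lit 546) (nat_lit 304) (nat_lit 0) (XT.nd (nat_lit 234) (nat_lit 76) (nat_lit 0) (XT.nd (nat_lit 78) (nat_lit 228) (nat_lit 0) (XT.lf (nat_lit 0) (nat_lit 8656301894) (nat_lit 76) (nat_lit 26363273912) (nat_lit 152) (nat_lit 19263612234) (nat_lit 20)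 (nat_lit 5) (nat_lit 21) (nat_lit 5) (nat_lit 22) (nat_lit 4) (nat_lit 335) (nat_lit 267) (nat_lit 178)) (XT.nd (nat_lit 78) (nat_lit 228) (nat_lit 0) (XT.lf (nat_lit 0) (nat_lit 34980549918) (nat_lit 76) (nat_lit 13025934978) (nat_lit 152) (nat_lit 8556924090) (nat_lit 20) (nat_lit 5) (nat_lit 21) (nat_lit 5) (nat_lit 22) (nat_lit 4) (nat_lit 336) (nat_lit 267) (nat_lit 177)) (XT.lf (nat_lit 0) (nat_lit 2660860088) (nat_lit 228) (nat_lit 55287702815) (nat_lit 76) (nat_lit 1007464451) (nat_lit 17) (nat_lit 5) (nat_lit 20) (nat_lit 5) (nat_lit 18) (nat_lit 4) (nat_lit 337) (nat_lit 267) (nat_lit 176)))) (XT.nd (nat_lit 156) (nat_lit 76) (nat_lit 0) (XT.nd (nat_lit 78) (nat_lit 0) (nat_lit 0) (XT.lf (nat_lit 0) (nat_lit 14603375420) (nat_lit 228) (nat_lit 31078896772) (nat_lit 76) (nat_lit 15773243590) (nat_lit 17) (nat_lit 5) (nat_lit 20) (nat_lit 5) (nat_lit 18) (nat_lit 4) (nat_lit 338)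 (nat_lit 267) (nat_lit 175)) (XT.lf (nat_lit 0) (nat_lit 27127127945) (nat_lit 228) (nat_lit 5688536367) (nat_lit 76) (nat_lit 31264795898) (nat_lit 17) (nat_lit 5) (nat_lit 20) (nat_lit 5) (nat_lit 18) (nat_lit 4) (nat_lit 339) (nat_lit 267) (nat_lit 174))) (XT.nd (nat_lit 78) (nat_lit 0) (nat_lit 0) (XT.lf (nat_lit 0) (nat_lit 21360654956) (nat_lit 76) (nat_lit 19106612848) (nat_lit 152) (nat_lit 26363682752) (nat_lit 16) (nat_lit 5) (nat_lit 17) (nat_lit 5) (nat_lit 18) (nat_lit 4) (nat_lit 340) (nat_lit 267) (nat_lit 173)) (XT.lf (nat_lit 0) (nat_lit 49854457686) (nat_lit 76) (nat_lit 4663847160) (nat_lit 152) (nat_lit 15199348331) (nat_lit 16) (nat_lit 5) (nat_lit 17) (nat_lit 5) (nat_lit 18) (nat_lit 4) (nat_lit 341) (nat_lit 267) (nat_lit 172))))) (XT.nd (nat_lit 234) (nat_lit 152) (nat_lit 0) (XT.nd (nat_lit 78) (nat_lit 76) (nat_lit 0) (XT.lf (nat_lit 0) (nat_lit 7034829536) (nat_lit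 76) (nat_lit 62391549742) (nat_lit 76) (nat_lit 3317681339) (nat_lit 15) (nat_lit 4) (nat_lit 16) (nat_lit 5) (nat_lit 16) (nat_lit 4) (nat_lit 342) (nat_lit 267) (nat_lit 171)) (XT.nd (nat_lit 78) (nat_lit 0) (nat_lit 0) (XT.lf (nat_lit 0) (nat_lit 9219144682) (nat_lit 152) (nat_lit 40385249081) (nat_lit 76) (nat_lit 26307564129) (nat_lit 14) (nat_lit 5) (nat_lit 16) (nat_lit 5) (nat_lit 15) (nat_lit 4) (nat_lit 343) (nat_lit 267) (nat_lit 170)) (XT.lf (nat_lit 0) (nat_lit 22301702416) (nat_lit 152) (nat_lit 13852651533) (nat_lit 76) (nat_lit 43083289223) (nat_lit 14) (nat_lit 5) (nat_lit 16) (nat_lit 5) (nat_lit 15) (nat_lit 4) (nat_lit 344) (nat_lit 267) (nat_lit 169)))) (XT.nd (nat_lit 156) (nat_lit 76) (nat_lit 0) (XT.nd (nat_lit 78) (nat_lit 0) (nat_lit 0) (XT.lf (nat_lit 0) (nat_lit 14261927574) (nat_lit 76) (nat_lit 21901047521) (nat_lit 152) (nat_lit 46562903576) (nat_lit 13) (nat_lit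 5) (nat_lit 14) (nat_lit 5) (nat_lit 15) (nat_lit 4) (nat_lit 345) (nat_lit 267) (nat_lit 168)) (XT.lf (nat_lit 0) (nat_lit 44049423270) (nat_lit 76) (nat_lit 6798362949) (nat_lit 152) (nat_lit 35536828877) (nat_lit 13) (nat_lit 5) (nat_lit 14) (nat_lit 5) (nat_lit 15) (nat_lit 4) (nat_lit 346) (nat_lit 267) (nat_lit 167))) (XT.nd (nat_lit 78) (nat_lit 76) (nat_lit 0) (XT.lf (nat_lit 0) (nat_lit 66342281279) (nat_lit 152) (nat_lit 15008566761) (nat_lit 0) (nat_lit 8873180235) (nat_lit 13) (nat_lit 5) (nat_lit 15) (nat_lit 4) (nat_lit 13) (nat_lit 4) (nat_lit 347) (nat_lit 267) (nat_lit 166)) (XT.lf (nat_lit 0) (nat_lit 13865881379) (nat_lit 76) (nat_lit 68936437283) (nat_lit 76) (nat_lit 11447372004) (nat_lit 12) (nat_lit 4) (nat_lit 13) (nat_lit 5) (nat_lit 13) (nat_lit 4) (nat_lit 348) (nat_lit 267) (nat_lit 165)))))) (XT.nd (nat_lit 546) (nat_lit 152) (nat_lit 0) (XT.nd (nat_lit 234) (nat_lit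 76) (nat_lit 0) (XT.nd (nat_lit 78) (nat_lit 76) (nat_lit 0) (XT.lf (nat_lit 0) (nat_lit 1722499724) (nat_lit 152) (nat_lit 54011404394) (nat_lit 76) (nat_lit 42737915888) (nat_lit 11) (nat_lit 5) (nat_lit 13) (nat_lit 5) (nat_lit 12) (nat_lit 4) (nat_lit 349) (nat_lit 267) (nat_lit 164)) (XT.nd (nat_lit 78) (nat_lit 76) (nat_lit 0) (XT.lf (nat_lit 0) (nat_lit 15305974025) (nat_lit 152) (nat_lit 26455059712) (nat_lit 76) (nat_lit 61140868834) (nat_lit 11) (nat_lit 5) (nat_lit 13) (nat_lit 5) (nat_lit 12) (nat_lit 4) (nat_lit 350) (nat_lit 267) (nat_lit 163)) (XT.lf (nat_lit 0) (nat_lit 2509850467) (nat_lit 76) (nat_lit 27073047714) (nat_lit 152) (nat_lit 77970165383) (nat_lit 10) (nat_lit 5) (nat_lit 11) (nat_lit 5) (nat_lit 12) (nat_lit 4) (nat_lit 351) (nat_lit 267) (nat_lit 162)))) (XT.nd (nat_lit 156) (nat_lit 76) (nat_lit 0) (XT.nd (nat_lit 78) (nat_lit 0) (nat_lit 0) (XT.lf (nat_lit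 0) (nat_lit 33458133637) (nat_lit 76) (nat_lit 11378315182) (nat_lit 152) (nat_lit 67592452839) (nat_lit 10) (nat_lit 5) (nat_lit 11) (nat_lit 5) (nat_lit 12) (nat_lit 4) (nat_lit 352) (nat_lit 267) (nat_lit 161)) (XT.lf (nat_lit 0) (nat_lit 60892541349) (nat_lit 152) (nat_lit 51660799031) (nat_lit 0) (nat_lit 4993997691) (nat_lit 10) (nat_lit 5) (nat_lit 12) (nat_lit 4) (nat_lit 10) (nat_lit 4) (nat_lit 353) (nat_lit 267) (nat_lit 160))) (XT.nd (nat_lit 78) (nat_lit 76) (nat_lit 0) (XT.lf (nat_lit 0) (nat_lit 77857548260) (nat_lit 152) (nat_lit 23116426087) (nat_lit 0) (nat_lit 21944540894) (nat_lit 10) (nat_lit 5) (nat_lit 12) (nat_lit 4) (nat_lit 10) (nat_lit 4) (nat_lit 354) (nat_lit 267) (nat_lit 159)) (XT.lf (nat_lit 0) (nat_lit 6975812147) (nat_lit 76) (nat_lit 88753730728) (nat_lit 76) (nat_lit 32826948401) (nat_lit 9) (nat_lit 4) (nat_lit 10) (nat_lit 5) (nat_lit 10) (nat_lit 4)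 (nat_lit 355) (nat_lit 267) (nat_lit 158))))) (XT.nd (nat_lit 234) (nat_lit 76) (nat_lit 0) (XT.nd (nat_lit 78) (nat_lit 76) (nat_lit 0) (XT.lf (nat_lit 0) (nat_lit 39040694667) (nat_lit 76) (nat_lit 75684338957) (nat_lit 76) (nat_lit 19744437621) (nat_lit 9) (nat_lit 4) (nat_lit 10) (nat_lit 5) (nat_lit 10) (nat_lit 4) (nat_lit 356) (nat_lit 267) (nat_lit 157)) (XT.nd (nat_lit 78) (nat_lit 76) (nat_lit 0) (XT.lf (nat_lit 0) (nat_lit 72694504224) (nat_lit 76) (nat_lit 61968112014) (nat_lit 76) (nat_lit 6015716383) (nat_lit 9) (nat_lit 4) (nat_lit 10) (nat_lit 5) (nat_lit 10) (nat_lit 4) (nat_lit 357) (nat_lit 267) (nat_lit 156)) (XT.lf (nat_lit 0) (nat_lit 8228146495) (nat_lit 152) (nat_lit 39261157573) (nat_lit 76) (nat_lit 99706134294) (nat_lit 8) (nat_lit 5) (nat_lit 10) (nat_lit 5) (nat_lit 9) (nat_lit 4) (nat_lit 358) (nat_lit 267) (nat_lit 155)))) (XT.nd (nat_lit 156) (nat_lit 0) (nat_lit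 0) (XT.nd (nat_lit 78) (nat_lit 76) (nat_lit 0) (XT.lf (nat_lit 0) (nat_lit 23053905690) (nat_lit 152) (nat_lit 9176199102) (nat_lit 76) (nat_lit 121806685928) (nat_lit 8) (nat_lit 5) (nat_lit 10) (nat_lit 5) (nat_lit 9) (nat_lit 4) (nat_lit 359) (nat_lit 267) (nat_lit 154)) (XT.lf (nat_lit 0) (nat_lit 22846318577) (nat_lit 76) (nat_lit 15987543132) (nat_lit 152) (nat_lit 122379963336) (nat_lit 7) (nat_lit 5) (nat_lit 8) (nat_lit 5) (nat_lit 9) (nat_lit 4) (nat_lit 360) (nat_lit 267) (nat_lit 153))) (XT.nd (nat_lit 78) (nat_lit 0) (nat_lit 0) (XT.lf (nat_lit 0) (nat_lit 55501914058) (nat_lit 152) (nat_lit 112108639502) (nat_lit 0) (nat_lit 1136186113) (nat_lit 7) (nat_lit 5) (nat_lit 9) (nat_lit 4) (nat_lit 7) (nat_lit 4) (nat_lit 361) (nat_lit 267) (nat_lit 152)) (XT.lf (nat_lit 0) (nat_lit 73158491674) (nat_lit 152) (nat_lit 84709896887) (nat_lit 0) (nat_lit 18783259257) (nat_lit 7) (nat_lit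 5) (nat_lit 9) (nat_lit 4) (nat_lit 7) (nat_lit 4) (nat_lit 362) (nat_lit 267) (nat_lit 151))))))))
noncomputable def xc64 : XT := (XT.nd (nat_lit 2106) (nat_lit 5928) (nat_lit 0) (XT.nd (nat_lit 1014) (nat_lit 6916) (nat_lit 0) (XT.nd (nat_lit 468) (nat_lit 3724) (nat_lit 0) (XT.nd (nat_lit 234) (nat_lit 684) (nat_lit 0) (XT.nd (nat_lit 78) (nat_lit 836) (nat_lit 0) (XT.lf (nat_lit 0) (nat_lit 1623054091) (nat_lit 0) (nat_lit 1623054091) (nat_lit 684) (nat_lit 352997243) (nat_lit 273) (nat_lit 5) (nat_lit 273) (nat_lit 3) (nat_lit 282) (nat_lit 3) (nat_lit 268) (nat_lit 268) (nat_lit 244)) (XT.nd (nat_lit 78) (nat_lit 0) (nat_lit 76) (XT.lf (nat_lit 76) (nat_lit 1595711884) (nat_lit 0) (nat_lit 294080034) (nat_lit 836) (nat_lit 5406770639) (nat_lit 263) (nat_lit 5) (nat_lit 262) (nat_lit 3) (nat_lit 273) (nat_lit 5) (nat_lit 269) (nat_lit 268) (nat_lit 243)) (XT.lf (nat_lit 0) (nat_lit 4503475776)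 (nat_lit 760) (nat_lit 22603360) (nat_lit 836) (nat_lit 2876707083) (nat_lit 263) (nat_lit 5) (nat_lit 273) (nat_lit 5) (nat_lit 274) (nat_lit 5) (nat_lit 270) (nat_lit 268) (nat_lit 242)))) (XT.nd (nat_lit 78) (nat_lit 760) (nat_lit 0) (XT.lf (nat_lit 76) (nat_lit 5964404384) (nat_lit 0) (nat_lit 1186139811) (nat_lit 836) (nat_lit 366929522) (nat_lit 264) (nat_lit 5) (nat_lit 263) (nat_lit 5) (nat_lit 274) (nat_lit 5) (nat_lit 271) (nat_lit 268) (nat_lit 241)) (XT.nd (nat_lit 78) (nat_lit 0) (nat_lit 0) (XT.lf (nat_lit 0) (nat_lit 2162655736) (nat_lit 836) (nat_lit 3072649296) (nat_lit 912) (nat_lit 2404686272) (nat_lit 253) (nat_lit 5) (nat_lit 264) (nat_lit 5) (nat_lit 265) (nat_lit 5) (nat_lit 272) (nat_lit 268) (nat_lit 240)) (XT.lf (nat_lit 76) (nat_lit 3213047858) (nat_lit 0) (nat_lit 1511528244) (nat_lit 912) (nat_lit 3046752112) (nat_lit 254) (nat_lit 5) (nat_lit 253) (nat_lit 5)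 (nat_lit 265) (nat_lit 5) (nat_lit 273) (nat_lit 268) (nat_lit 239))))) (XT.nd (nat_lit 234) (nat_lit 2888) (nat_lit 0) (XT.nd (nat_lit 78) (nat_lit 912) (nat_lit 0) (XT.lf (nat_lit 76) (nat_lit 1888313656) (nat_lit 0) (nat_lit 5460359752) (nat_lit 912) (nat_lit 562732101) (nat_lit 255) (nat_lit 5) (nat_lit 254) (nat_lit 5) (nat_lit 266) (nat_lit 5) (nat_lit 274) (nat_lit 268) (nat_lit 238)) (XT.nd (nat_lit 78) (nat_lit 0) (nat_lit 76) (XT.lf (nat_lit 76) (nat_lit 577000676) (nat_lit 0) (nat_lit 1361935284) (nat_lit 988) (nat_lit 6121141176) (nat_lit 243) (nat_lit 5) (nat_lit 242) (nat_lit 5) (nat_lit 255) (nat_lit 5) (nat_lit 275) (nat_lit 268) (nat_lit 237)) (XT.lf (nat_lit 0) (nat_lit 4516121998) (nat_lit 912) (nat_lit 711927192) (nat_lit 988) (nat_lit 2989276397) (nat_lit 243) (nat_lit 5) (nat_lit 255) (nat_lit 5) (nat_lit 256) (nat_lit 5) (nat_lit 276) (nat_lit 268) (nat_lit 236))))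 (XT.nd (nat_lit 156) (nat_lit 2052) (nat_lit 0) (XT.nd (nat_lit 78) (nat_lit 912) (nat_lit 0) (XT.lf (nat_lit 76) (nat_lit 6417840433) (nat_lit 0) (nat_lit 756978417) (nat_lit 988) (nat_lit 1209202419) (nat_lit 244) (nat_lit 5) (nat_lit 243) (nat_lit 5) (nat_lit 256) (nat_lit 5) (nat_lit 277) (nat_lit 268) (nat_lit 235)) (XT.lf (nat_lit 0) (nat_lit 1358580311) (nat_lit 988) (nat_lit 3239639373) (nat_lit 76) (nat_lit 3961218809) (nat_lit 231) (nat_lit 5) (nat_lit 244) (nat_lit 5) (nat_lit 232) (nat_lit 5) (nat_lit 278) (nat_lit 268) (nat_lit 234))) (XT.nd (nat_lit 78) (nat_lit 1064) (nat_lit 0) (XT.lf (nat_lit 0) (nat_lit 3987187023) (nat_lit 1064) (nat_lit 4508925706) (nat_lit 76) (nat_lit 248576120) (nat_lit 218) (nat_lit 5) (nat_lit 232) (nat_lit 5) (nat_lit 219) (nat_lit 5) (nat_lit 279) (nat_lit 268) (nat_lit 233)) (XT.lf (nat_lit 0) (nat_lit 3135385417) (nat_lit 1064) (nat_lit 3612775366)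 (nat_lit 1140) (nat_lit 2191150678) (nat_lit 204) (nat_lit 5) (nat_lit 218) (nat_lit 5) (nat_lit 219) (nat_lit 5) (nat_lit 280) (nat_lit 268) (nat_lit 232)))))) (XT.nd (nat_lit 546) (nat_lit 2812) (nat_lit 0) (XT.nd (nat_lit 234) (nat_lit 2204) (nat_lit 0) (XT.nd (nat_lit 78) (nat_lit 684) (nat_lit 0) (XT.lf (nat_lit 0) (nat_lit 469592064) (nat_lit 1216) (nat_lit 7104599923) (nat_lit 76) (nat_lit 1570178483) (nat_lit 188) (nat_lit 5) (nat_lit 204) (nat_lit 5) (nat_lit 189) (nat_lit 5) (nat_lit 281) (nat_lit 268) (nat_lit 231)) (XT.nd (nat_lit 78) (nat_lit 0) (nat_lit 0) (XT.lf (nat_lit 0) (nat_lit 903839119) (nat_lit 684) (nat_lit 2318295225) (nat_lit 760) (nat_lit 6136896268) (nat_lit 179) (nat_lit 5) (nat_lit 188) (nat_lit 5) (nat_lit 189) (nat_lit 5) (nat_lit 282) (nat_lit 268) (nat_lit 230)) (XT.lf (nat_lit 0) (nat_lit 6119135011) (nat_lit 760) (nat_lit 246657885) (nat_lit 76) (nat_lit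 3218541530) (nat_lit 179) (nat_lit 5) (nat_lit 189) (nat_lit 5) (nat_lit 180) (nat_lit 5) (nat_lit 283) (nat_lit 268) (nat_lit 229)))) (XT.nd (nat_lit 156) (nat_lit 988) (nat_lit 0) (XT.nd (nat_lit 78) (nat_lit 608) (nat_lit 0) (XT.lf (nat_lit 0) (nat_lit 8423655077) (nat_lit 608) (nat_lit 748567268) (nat_lit 684) (nat_lit 648454085) (nat_lit 171) (nat_lit 5) (nat_lit 179) (nat_lit 5) (nat_lit 180) (nat_lit 5) (nat_lit 284) (nat_lit 268) (nat_lit 228)) (XT.lf (nat_lit 0) (nat_lit 2298666010) (nat_lit 608) (nat_lit 2620190539) (nat_lit 76) (nat_lit 5148376977) (nat_lit 163) (nat_lit 5) (nat_lit 171) (nat_lit 5) (nat_lit 164) (nat_lit 5) (nat_lit 285) (nat_lit 268) (nat_lit 227))) (XT.nd (nat_lit 78) (nat_lit 456) (nat_lit 0) (XT.lf (nat_lit 0) (nat_lit 5387392559) (nat_lit 608) (nat_lit 3877011531) (nat_lit 76) (nat_lit 1061388885) (nat_lit 156) (nat_lit 5) (nat_lit 164) (nat_lit 5) (nat_lit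 157) (nat_lit 5) (nat_lit 286) (nat_lit 268) (nat_lit 226)) (XT.lf (nat_lit 0) (nat_lit 5395715497) (nat_lit 456) (nat_lit 3279838427) (nat_lit 532) (nat_lit 1920468856) (nat_lit 150) (nat_lit 5) (nat_lit 156) (nat_lit 5) (nat_lit 157) (nat_lit 5) (nat_lit 287) (nat_lit 268) (nat_lit 225))))) (XT.nd (nat_lit 234) (nat_lit 1292) (nat_lit 0) (XT.nd (nat_lit 78) (nat_lit 912) (nat_lit 0) (XT.lf (nat_lit 0) (nat_lit 1254068799) (nat_lit 608) (nat_lit 6591118865) (nat_lit 76) (nat_lit 3033399704) (nat_lit 142) (nat_lit 5) (nat_lit 150) (nat_lit 5) (nat_lit 143) (nat_lit 5) (nat_lit 288) (nat_lit 268) (nat_lit 224)) (XT.nd (nat_lit 78) (nat_lit 456) (nat_lit 0) (XT.lf (nat_lit 0) (nat_lit 3104053792) (nat_lit 456) (nat_lit 1482437089) (nat_lit 532) (nat_lit 6587133908) (nat_lit 136) (nat_lit 5) (nat_lit 142) (nat_lit 5) (nat_lit 143) (nat_lit 5) (nat_lit 289) (nat_lit 268) (nat_lit 223)) (XT.lf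 (nat_lit 0) (nat_lit 1837707420) (nat_lit 456) (nat_lit 6308304564) (nat_lit 532) (nat_lit 3335665200) (nat_lit 130) (nat_lit 5) (nat_lit 136) (nat_lit 5) (nat_lit 137) (nat_lit 5) (nat_lit 290) (nat_lit 268) (nat_lit 222)))) (XT.nd (nat_lit 156) (nat_lit 836) (nat_lit 0) (XT.nd (nat_lit 78) (nat_lit 0) (nat_lit 0) (XT.lf (nat_lit 0) (nat_lit 110845047) (nat_lit 456) (nat_lit 11295242111) (nat_lit 76) (nat_lit 398074117) (nat_lit 124) (nat_lit 5) (nat_lit 130) (nat_lit 5) (nat_lit 125) (nat_lit 5) (nat_lit 291) (nat_lit 268) (nat_lit 221)) (XT.lf (nat_lit 0) (nat_lit 3754144948) (nat_lit 456) (nat_lit 953580902) (nat_lit 76) (nat_lit 7431317601) (nat_lit 124) (nat_lit 5) (nat_lit 130) (nat_lit 5) (nat_lit 125) (nat_lit 5) (nat_lit 292) (nat_lit 268) (nat_lit 220))) (XT.nd (nat_lit 78) (nat_lit 380) (nat_lit 0) (XT.lf (nat_lit 0) (nat_lit 7631345769) (nat_lit 532) (nat_lit 2494722690) (nat_lit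 76) (nat_lit 2363114147) (nat_lit 118) (nat_lit 5) (nat_lit 125) (nat_lit 5) (nat_lit 119) (nat_lit 5) (nat_lit 293) (nat_lit 268) (nat_lit 219)) (XT.lf (nat_lit 0) (nat_lit 8693470081) (nat_lit 380) (nat_lit 3084514476) (nat_lit 456) (nat_lit 1076638677) (nat_lit 113) (nat_lit 5) (nat_lit 118) (nat_lit 5) (nat_lit 119) (nat_lit 5) (nat_lit 294) (nat_lit 268) (nat_lit 218))))))) (XT.nd (nat_lit 1092) (nat_lit 2052) (nat_lit 0) (XT.nd (nat_lit 546) (nat_lit 1672) (nat_lit 0) (XT.nd (nat_lit 234) (nat_lit 1064) (nat_lit 0) (XT.nd (nat_lit 78) (nat_lit 684) (nat_lit 0) (XT.lf (nat_lit 0) (nat_lit 2911889316) (nat_lit 456) (nat_lit 5990103342) (nat_lit 76) (nat_lit 4333323928) (nat_lit 107) (nat_lit 5) (nat_lit 113) (nat_lit 5) (nat_lit 108) (nat_lit 5) (nat_lit 295) (nat_lit 268) (nat_lit 217)) (XT.nd (nat_lit 78) (nat_lit 380) (nat_lit 0) (XT.lf (nat_lit 0) (nat_lit 5662924419) (nat_lit 304)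 (nat_lit 1482054617) (nat_lit 380) (nat_lit 6487778192) (nat_lit 103) (nat_lit 5) (nat_lit 107) (nat_lit 5) (nat_lit 108) (nat_lit 5) (nat_lit 296) (nat_lit 268) (nat_lit 216)) (XT.lf (nat_lit 0) (nat_lit 3911014379) (nat_lit 380) (nat_lit 7779596952) (nat_lit 456) (nat_lit 2356483802) (nat_lit 98) (nat_lit 5) (nat_lit 103) (nat_lit 5) (nat_lit 104) (nat_lit 5) (nat_lit 297) (nat_lit 268) (nat_lit 215)))) (XT.nd (nat_lit 156) (nat_lit 684) (nat_lit 0) (XT.nd (nat_lit 78) (nat_lit 0) (nat_lit 0) (XT.lf (nat_lit 0) (nat_lit 1998409635) (nat_lit 304) (nat_lit 3178085) (nat_lit 380) (nat_lit 12478272510) (nat_lit 93) (nat_lit 5) (nat_lit 97) (nat_lit 5) (nat_lit 98) (nat_lit 5) (nat_lit 298) (nat_lit 268) (nat_lit 214)) (XT.lf (nat_lit 0) (nat_lit 6656808600) (nat_lit 380) (nat_lit 160785615) (nat_lit 76) (nat_lit 8112175659) (nat_lit 93) (nat_lit 5) (nat_lit 98) (nat_lit 5) (nat_lit 94) (nat_lit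 5) (nat_lit 299) (nat_lit 268) (nat_lit 213))) (XT.nd (nat_lit 78) (nat_lit 380) (nat_lit 0) (XT.lf (nat_lit 0) (nat_lit 11628595303) (nat_lit 380) (nat_lit 2458398744) (nat_lit 76) (nat_lit 1312710320) (nat_lit 89) (nat_lit 5) (nat_lit 94) (nat_lit 5) (nat_lit 90) (nat_lit 5) (nat_lit 300) (nat_lit 268) (nat_lit 212)) (XT.lf (nat_lit 0) (nat_lit 1061462455) (nat_lit 380) (nat_lit 5021042436) (nat_lit 76) (nat_lit 9806666922) (nat_lit 84) (nat_lit 5) (nat_lit 89) (nat_lit 5) (nat_lit 85) (nat_lit 5) (nat_lit 301) (nat_lit 268) (nat_lit 211))))) (XT.nd (nat_lit 234) (nat_lit 836) (nat_lit 0) (XT.nd (nat_lit 78) (nat_lit 532) (nat_lit 0) (XT.lf (nat_lit 0) (nat_lit 6139155902) (nat_lit 380) (nat_lit 7857327316) (nat_lit 76) (nat_lit 2403103027) (nat_lit 80) (nat_lit 5) (nat_lit 85) (nat_lit 5) (nat_lit 81) (nat_lit 5) (nat_lit 302) (nat_lit 268) (nat_lit 210)) (XT.nd (nat_lit 78) (nat_lit 304)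 (nat_lit 0) (XT.lf (nat_lit 0) (nat_lit 5937073149) (nat_lit 228) (nat_lit 5655153792) (nat_lit 304) (nat_lit 5339686159) (nat_lit 77) (nat_lit 5) (nat_lit 80) (nat_lit 5) (nat_lit 81) (nat_lit 5) (nat_lit 303) (nat_lit 268) (nat_lit 209)) (XT.lf (nat_lit 0) (nat_lit 3055192517) (nat_lit 304) (nat_lit 14355935421) (nat_lit 380) (nat_lit 76967819) (nat_lit 73) (nat_lit 5) (nat_lit 77) (nat_lit 5) (nat_lit 78) (nat_lit 5) (nat_lit 304) (nat_lit 268) (nat_lit 208)))) (XT.nd (nat_lit 156) (nat_lit 532) (nat_lit 0) (XT.nd (nat_lit 78) (nat_lit 228) (nat_lit 0) (XT.lf (nat_lit 0) (nat_lit 5467355648) (nat_lit 380) (nat_lit 211467376) (nat_lit 76) (nat_lit 12387981416) (nat_lit 72) (nat_lit 5) (nat_lit 77) (nat_lit 5) (nat_lit 73) (nat_lit 5) (nat_lit 305) (nat_lit 268) (nat_lit 207)) (XT.lf (nat_lit 0) (nat_lit 11420827781) (nat_lit 304) (nat_lit 3760148637) (nat_lit 76) (nat_lit 3489474149) (nat_lit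 69) (nat_lit 5) (nat_lit 73) (nat_lit 5) (nat_lit 70) (nat_lit 5) (nat_lit 306) (nat_lit 268) (nat_lit 206))) (XT.nd (nat_lit 78) (nat_lit 304) (nat_lit 0) (XT.lf (nat_lit 0) (nat_lit 11591649196) (nat_lit 228) (nat_lit 6208185324) (nat_lit 304) (nat_lit 1500637797) (nat_lit 66) (nat_lit 5) (nat_lit 69) (nat_lit 5) (nat_lit 70) (nat_lit 5) (nat_lit 307) (nat_lit 268) (nat_lit 205)) (XT.lf (nat_lit 0) (nat_lit 4552224286) (nat_lit 304) (nat_lit 12116886327) (nat_lit 76) (nat_lit 3288455338) (nat_lit 62) (nat_lit 5) (nat_lit 66) (nat_lit 5) (nat_lit 63) (nat_lit 5) (nat_lit 308) (nat_lit 268) (nat_lit 204)))))) (XT.nd (nat_lit 546) (nat_lit 912) (nat_lit 0) (XT.nd (nat_lit 234) (nat_lit 684) (nat_lit 0) (XT.nd (nat_lit 78) (nat_lit 228) (nat_lit 0) (XT.lf (nat_lit 0) (nat_lit 3611761274) (nat_lit 228) (nat_lit 7401849552) (nat_lit 304) (nat_lit 9629375866) (nat_lit 59) (nat_lit 5) (nat_lit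 62) (nat_lit 5) (nat_lit 63) (nat_lit 5) (nat_lit 309) (nat_lit 268) (nat_lit 203)) (XT.nd (nat_lit 78) (nat_lit 228) (nat_lit 0) (XT.lf (nat_lit 0) (nat_lit 17906664897) (nat_lit 304) (nat_lit 1065417130) (nat_lit 76) (nat_lit 2387362941) (nat_lit 59) (nat_lit 5) (nat_lit 63) (nat_lit 5) (nat_lit 60) (nat_lit 5) (nat_lit 310) (nat_lit 268) (nat_lit 202)) (XT.lf (nat_lit 0) (nat_lit 3164755998) (nat_lit 228) (nat_lit 6263278119) (nat_lit 76) (nat_lit 12677101442) (nat_lit 56) (nat_lit 5) (nat_lit 59) (nat_lit 5) (nat_lit 57) (nat_lit 5) (nat_lit 311) (nat_lit 268) (nat_lit 201)))) (XT.nd (nat_lit 156) (nat_lit 304) (nat_lit 0) (XT.nd (nat_lit 78) (nat_lit 152) (nat_lit 0) (XT.lf (nat_lit 0) (nat_lit 10127741061) (nat_lit 304) (nat_lit 12044989948) (nat_lit 76) (nat_lit 711796190) (nat_lit 53) (nat_lit 5) (nat_lit 57) (nat_lit 5) (nat_lit 54) (nat_lit 5) (nat_lit 312) (nat_lit 268) (nat_lit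 200)) (XT.lf (nat_lit 0) (nat_lit 5174446146) (nat_lit 152) (nat_lit 12438444371) (nat_lit 228) (nat_lit 6084797948) (nat_lit 51) (nat_lit 5) (nat_lit 53) (nat_lit 5) (nat_lit 54) (nat_lit 5) (nat_lit 313) (nat_lit 268) (nat_lit 199))) (XT.nd (nat_lit 78) (nat_lit 228) (nat_lit 0) (XT.lf (nat_lit 0) (nat_lit 992851645) (nat_lit 228) (nat_lit 1108511809) (nat_lit 76) (nat_lit 22447196863) (nat_lit 50) (nat_lit 5) (nat_lit 53) (nat_lit 5) (nat_lit 51) (nat_lit 5) (nat_lit 314) (nat_lit 268) (nat_lit 198)) (XT.lf (nat_lit 0) (nat_lit 8519659029) (nat_lit 304) (nat_lit 8121727967) (nat_lit 76) (nat_lit 8792165904) (nat_lit 47) (nat_lit 5) (nat_lit 51) (nat_lit 5) (nat_lit 48) (nat_lit 5) (nat_lit 315) (nat_lit 268) (nat_lit 197))))) (XT.nd (nat_lit 234) (nat_lit 532) (nat_lit 0) (XT.nd (nat_lit 78) (nat_lit 228) (nat_lit 0) (XT.lf (nat_lit 0) (nat_lit 10442629890) (nat_lit 152) (nat_lit 6080667270)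 (nat_lit 228) (nat_lit 9836500434) (nat_lit 45) (nat_lit 5) (nat_lit 47) (nat_lit 5) (nat_lit 48) (nat_lit 5) (nat_lit 316) (nat_lit 268) (nat_lit 196)) (XT.nd (nat_lit 78) (nat_lit 76) (nat_lit 0) (XT.lf (nat_lit 0) (nat_lit 2726375177) (nat_lit 152) (nat_lit 22327753970) (nat_lit 228) (nat_lit 2274431392) (nat_lit 43) (nat_lit 5) (nat_lit 45) (nat_lit 5) (nat_lit 46) (nat_lit 5) (nat_lit 317) (nat_lit 268) (nat_lit 195)) (XT.lf (nat_lit 0) (nat_lit 5750959814) (nat_lit 228) (nat_lit 5875640614) (nat_lit 76) (nat_lit 16711669133) (nat_lit 42) (nat_lit 5) (nat_lit 45) (nat_lit 5) (nat_lit 43) (nat_lit 5) (nat_lit 318) (nat_lit 268) (nat_lit 194)))) (XT.nd (nat_lit 156) (nat_lit 228) (nat_lit 0) (XT.nd (nat_lit 78) (nat_lit 152) (nat_lit 0) (XT.lf (nat_lit 0) (nat_lit 13987649895) (nat_lit 152) (nat_lit 248235236) (nat_lit 228) (nat_lit 15158758653) (nat_lit 40) (nat_lit 5) (nat_lit 42) (nat_lit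 5) (nat_lit 43) (nat_lit 5) (nat_lit 319) (nat_lit 268) (nat_lit 193)) (XT.lf (nat_lit 0) (nat_lit 4388607578) (nat_lit 152) (nat_lit 18943343816) (nat_lit 228) (nat_lit 7166292214) (nat_lit 38) (nat_lit 5) (nat_lit 40) (nat_lit 5) (nat_lit 41) (nat_lit 5) (nat_lit 320) (nat_lit 268) (nat_lit 192))) (XT.nd (nat_lit 78) (nat_lit 152) (nat_lit 0) (XT.lf (nat_lit 0) (nat_lit 1336349707) (nat_lit 228) (nat_lit 6220187462) (nat_lit 76) (nat_lit 24096111303) (nat_lit 37) (nat_lit 5) (nat_lit 40) (nat_lit 5) (nat_lit 38) (nat_lit 5) (nat_lit 321) (nat_lit 268) (nat_lit 191)) (XT.lf (nat_lit 0) (nat_lit 10277272469) (nat_lit 228) (nat_lit 18068218861) (nat_lit 76) (nat_lit 4512324981) (nat_lit 35) (nat_lit 5) (nat_lit 38) (nat_lit 5) (nat_lit 36) (nat_lit 5) (nat_lit 322) (nat_lit 268) (nat_lit 190))))))))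
noncomputable def xc65 : XT := (XT.nd (nat_lit 2184) (nat_lit 304) (nat_lit 0) (XT.nd (nat_lit 1092) (nat_lit 684) (nat_lit 0) (XT.nd (nat_lit 546) (nat_lit 532) (nat_lit 0) (XT.nd (nat_lit 234) (nat_lit 304) (nat_lit 0) (XT.nd (nat_lit 78) (nat_lit 152) (nat_lit 0) (XT.lf (nat_lit 0) (nat_lit 2791062445) (nat_lit 152) (nat_lit 17015756648) (nat_lit 228) (nat_lit 14312187634) (nat_lit 33) (nat_lit 5) (nat_lit 35) (nat_lit 5) (nat_lit 36) (nat_lit 5) (nat_lit 323) (nat_lit 268) (nat_lit 189)) (XT.nd (nat_lit 78) (nat_lit 152) (nat_lit 0) (XT.lf (nat_lit 0) (nat_lit 25027140323) (nat_lit 152) (nat_lit 4946338689) (nat_lit 228) (nat_lit 5464969543) (nat_lit 33) (nat_lit 5) (nat_lit 35) (nat_lit 5) (nat_lit 36) (nat_lit 5) (nat_lit 324) (nat_lit 268) (nat_lit 188)) (XT.lf (nat_lit 0) (nat_lit 3913627651) (nat_lit 152) (nat_lit 25195144661) (nat_lit 76) (nat_lit 7709087866) (nat_lit 31) (nat_lit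 5) (nat_lit 33) (nat_lit 5) (nat_lit 32) (nat_lit 5) (nat_lit 325) (nat_lit 268) (nat_lit 187)))) (XT.nd (nat_lit 156) (nat_lit 152) (nat_lit 0) (XT.nd (nat_lit 78) (nat_lit 152) (nat_lit 0) (XT.lf (nat_lit 0) (nat_lit 13783542239) (nat_lit 152) (nat_lit 3434662964) (nat_lit 76) (nat_lit 21042361236) (nat_lit 31) (nat_lit 5) (nat_lit 33) (nat_lit 5) (nat_lit 32) (nat_lit 5) (nat_lit 326) (nat_lit 268) (nat_lit 186)) (XT.lf (nat_lit 0) (nat_lit 19759908844) (nat_lit 152) (nat_lit 4554321250) (nat_lit 228) (nat_lit 15456168791) (nat_lit 29) (nat_lit 5) (nat_lit 31) (nat_lit 5) (nat_lit 32) (nat_lit 5) (nat_lit 327) (nat_lit 268) (nat_lit 185))) (XT.nd (nat_lit 78) (nat_lit 76) (nat_lit 0) (XT.lf (nat_lit 0) (nat_lit 2761928107) (nat_lit 76) (nat_lit 32733706815) (nat_lit 152) (nat_lit 5856371315) (nat_lit 28) (nat_lit 5) (nat_lit 29) (nat_lit 5) (nat_lit 30) (nat_lit 4) (nat_lit 328) (nat_lit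 268) (nat_lit 184)) (XT.lf (nat_lit 0) (nat_lit 4373354877) (nat_lit 152) (nat_lit 16042213625) (nat_lit 76) (nat_lit 22588945029) (nat_lit 27) (nat_lit 5) (nat_lit 29) (nat_lit 5) (nat_lit 28) (nat_lit 5) (nat_lit 329) (nat_lit 268) (nat_lit 183))))) (XT.nd (nat_lit 234) (nat_lit 304) (nat_lit 0) (XT.nd (nat_lit 78) (nat_lit 76) (nat_lit 0) (XT.lf (nat_lit 0) (nat_lit 7687544594) (nat_lit 152) (nat_lit 7360313218) (nat_lit 228) (nat_lit 29688424301) (nat_lit 25) (nat_lit 5) (nat_lit 27) (nat_lit 5) (nat_lit 28) (nat_lit 5) (nat_lit 330) (nat_lit 268) (nat_lit 182)) (XT.nd (nat_lit 78) (nat_lit 76) (nat_lit 0) (XT.lf (nat_lit 0) (nat_lit 26463759142) (nat_lit 228) (nat_lit 13709128784) (nat_lit 76) (nat_lit 6375528346) (nat_lit 25) (nat_lit 5) (nat_lit 28) (nat_lit 5) (nat_lit 26) (nat_lit 4) (nat_lit 331) (nat_lit 268) (nat_lit 181)) (XT.lf (nat_lit 0) (nat_lit 10901793159) (nat_lit 76)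 (nat_lit 27708584357) (nat_lit 152) (nat_lit 9835988964) (nat_lit 24) (nat_lit 5) (nat_lit 25) (nat_lit 5) (nat_lit 26) (nat_lit 4) (nat_lit 332) (nat_lit 268) (nat_lit 180)))) (XT.nd (nat_lit 156) (nat_lit 76) (nat_lit 0) (XT.nd (nat_lit 78) (nat_lit 152) (nat_lit 0) (XT.lf (nat_lit 0) (nat_lit 1030822431) (nat_lit 152) (nat_lit 13449041903) (nat_lit 76) (nat_lit 35955376689) (nat_lit 23) (nat_lit 5) (nat_lit 25) (nat_lit 5) (nat_lit 24) (nat_lit 5) (nat_lit 333) (nat_lit 268) (nat_lit 179)) (XT.lf (nat_lit 0) (nat_lit 11953324268) (nat_lit 152) (nat_lit 383155163) (nat_lit 228) (nat_lit 40181196593) (nat_lit 21) (nat_lit 5) (nat_lit 23) (nat_lit 5) (nat_lit 24) (nat_lit 5) (nat_lit 334) (nat_lit 268) (nat_lit 178))) (XT.nd (nat_lit 78) (nat_lit 76) (nat_lit 0) (XT.lf (nat_lit 0) (nat_lit 24468390273) (nat_lit 228) (nat_lit 15964590318) (nat_lit 76) (nat_lit 14263428923) (nat_lit 21) (nat_lit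 5) (nat_lit 24) (nat_lit 5) (nat_lit 22) (nat_lit 4) (nat_lit 335) (nat_lit 268) (nat_lit 177)) (XT.lf (nat_lit 0) (nat_lit 10027054957) (nat_lit 76) (nat_lit 27263481676) (nat_lit 152) (nat_lit 19691039434) (nat_lit 20) (nat_lit 5) (nat_lit 21) (nat_lit 5) (nat_lit 22) (nat_lit 4) (nat_lit 336) (nat_lit 268) (nat_lit 176)))))) (XT.nd (nat_lit 546) (nat_lit 304) (nat_lit 0) (XT.nd (nat_lit 234) (nat_lit 152) (nat_lit 0) (XT.nd (nat_lit 78) (nat_lit 228) (nat_lit 0) (XT.lf (nat_lit 0) (nat_lit 37622851671) (nat_lit 76) (nat_lit 13279178459) (nat_lit 152) (nat_lit 8474528950) (nat_lit 20) (nat_lit 5) (nat_lit 21) (nat_lit 5) (nat_lit 22) (nat_lit 4) (nat_lit 337) (nat_lit 268) (nat_lit 175)) (XT.nd (nat_lit 78) (nat_lit 0) (nat_lit 0) (XT.lf (nat_lit 0) (nat_lit 3282573613) (nat_lit 228) (nat_lit 57163669186) (nat_lit 76) (nat_lit 1442774420) (nat_lit 17) (nat_lit 5) (nat_lit 20) (nat_lit 5)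 (nat_lit 18) (nat_lit 4) (nat_lit 338) (nat_lit 268) (nat_lit 174)) (XT.lf (nat_lit 0) (nat_lit 15798944686) (nat_lit 228) (nat_lit 31786728497) (nat_lit 76) (nat_lit 16928512194) (nat_lit 17) (nat_lit 5) (nat_lit 20) (nat_lit 5) (nat_lit 18) (nat_lit 4) (nat_lit 339) (nat_lit 268) (nat_lit 173)))) (XT.nd (nat_lit 156) (nat_lit 76) (nat_lit 0) (XT.nd (nat_lit 78) (nat_lit 76) (nat_lit 0) (XT.lf (nat_lit 0) (nat_lit 28926722909) (nat_lit 228) (nat_lit 5167141172) (nat_lit 76) (nat_lit 33177184669) (nat_lit 17) (nat_lit 5) (nat_lit 20) (nat_lit 5) (nat_lit 18) (nat_lit 4) (nat_lit 340) (nat_lit 268) (nat_lit 172)) (XT.lf (nat_lit 0) (nat_lit 23211410991) (nat_lit 76) (nat_lit 19708876186) (nat_lit 152) (nat_lit 27239190452) (nat_lit 16) (nat_lit 5) (nat_lit 17) (nat_lit 5) (nat_lit 18) (nat_lit 4) (nat_lit 341) (nat_lit 268) (nat_lit 171))) (XT.nd (nat_lit 78) (nat_lit 76) (nat_lit 0) (XT.lf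 (nat_lit 0) (nat_lit 53092631320) (nat_lit 76) (nat_lit 4560784943) (nat_lit 152) (nat_lit 15537719140) (nat_lit 16) (nat_lit 5) (nat_lit 17) (nat_lit 5) (nat_lit 18) (nat_lit 4) (nat_lit 342) (nat_lit 268) (nat_lit 170)) (XT.lf (nat_lit 0) (nat_lit 8119558912) (nat_lit 76) (nat_lit 65177974267) (nat_lit 76) (nat_lit 3071616804) (nat_lit 15) (nat_lit 4) (nat_lit 16) (nat_lit 5) (nat_lit 16) (nat_lit 4) (nat_lit 343) (nat_lit 268) (nat_lit 169))))) (XT.nd (nat_lit 234) (nat_lit 152) (nat_lit 0) (XT.nd (nat_lit 78) (nat_lit 76) (nat_lit 0) (XT.lf (nat_lit 0) (nat_lit 10064778107) (nat_lit 152) (nat_lit 41698662333) (nat_lit 76) (nat_lit 27932465382) (nat_lit 14) (nat_lit 5) (nat_lit 16) (nat_lit 5) (nat_lit 15) (nat_lit 4) (nat_lit 344) (nat_lit 268) (nat_lit 168)) (XT.nd (nat_lit 78) (nat_lit 76) (nat_lit 0) (XT.lf (nat_lit 0) (nat_lit 23783145814) (nat_lit 152) (nat_lit 13873046774) (nat_lit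 76) (nat_lit 45532237538) (nat_lit 14) (nat_lit 5) (nat_lit 16) (nat_lit 5) (nat_lit 15) (nat_lit 4) (nat_lit 345) (nat_lit 268) (nat_lit 167)) (XT.lf (nat_lit 0) (nat_lit 15627991739) (nat_lit 76) (nat_lit 22698321481) (nat_lit 152) (nat_lit 48525104221) (nat_lit 13) (nat_lit 5) (nat_lit 14) (nat_lit 5) (nat_lit 15) (nat_lit 4) (nat_lit 346) (nat_lit 268) (nat_lit 166)))) (XT.nd (nat_lit 156) (nat_lit 152) (nat_lit 0) (XT.nd (nat_lit 78) (nat_lit 0) (nat_lit 0) (XT.lf (nat_lit 0) (nat_lit 46873768516) (nat_lit 76) (nat_lit 6854682605) (nat_lit 152) (nat_lit 36965151717) (nat_lit 13) (nat_lit 5) (nat_lit 14) (nat_lit 5) (nat_lit 15) (nat_lit 4) (nat_lit 347) (nat_lit 268) (nat_lit 165)) (XT.lf (nat_lit 0) (nat_lit 69984158880) (nat_lit 152) (nat_lit 15159575125) (nat_lit 0) (nat_lit 9581662545) (nat_lit 13) (nat_lit 5) (nat_lit 15) (nat_lit 4) (nat_lit 13) (nat_lit 4) (nat_lit 348) (nat_lit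 268) (nat_lit 164))) (XT.nd (nat_lit 78) (nat_lit 76) (nat_lit 0) (XT.lf (nat_lit 0) (nat_lit 15141413169) (nat_lit 76) (nat_lit 72115916858) (nat_lit 76) (nat_lit 11695312374) (nat_lit 12) (nat_lit 4) (nat_lit 13) (nat_lit 5) (nat_lit 13) (nat_lit 4) (nat_lit 349) (nat_lit 268) (nat_lit 163)) (XT.lf (nat_lit 0) (nat_lit 2111574679) (nat_lit 152) (nat_lit 56151353741) (nat_lit 76) (nat_lit 45123314628) (nat_lit 11) (nat_lit 5) (nat_lit 13) (nat_lit 5) (nat_lit 12) (nat_lit 4) (nat_lit 350) (nat_lit 268) (nat_lit 162))))))) (XT.nd (nat_lit 34398) (nat_lit 0) (nat_lit 12464) (XT.nd (nat_lit 546) (nat_lit 152) (nat_lit 0) (XT.nd (nat_lit 234) (nat_lit 76) (nat_lit 0) (XT.nd (nat_lit 78) (nat_lit 76) (nat_lit 0) (XT.lf (nat_lit 0) (nat_lit 16359796506) (nat_lit 152) (nat_lit 27243888057) (nat_lit 76) (nat_lit 64434581748) (nat_lit 11) (nat_lit 5) (nat_lit 13) (nat_lit 5) (nat_lit 12) (nat_lit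 4) (nat_lit 351) (nat_lit 268) (nat_lit 161)) (XT.nd (nat_lit 78) (nat_lit 0) (nat_lit 0) (XT.lf (nat_lit 0) (nat_lit 3153962788) (nat_lit 76) (nat_lit 28187850144) (nat_lit 152) (nat_lit 81580438642) (nat_lit 10) (nat_lit 5) (nat_lit 11) (nat_lit 5) (nat_lit 12) (nat_lit 4) (nat_lit 352) (nat_lit 268) (nat_lit 160)) (XT.lf (nat_lit 0) (nat_lit 35624963936) (nat_lit 76) (nat_lit 11719754793) (nat_lit 152) (nat_lit 70697565947) (nat_lit 10) (nat_lit 5) (nat_lit 11) (nat_lit 5) (nat_lit 12) (nat_lit 4) (nat_lit 353) (nat_lit 268) (nat_lit 159)))) (XT.nd (nat_lit 156) (nat_lit 76) (nat_lit 0) (XT.nd (nat_lit 78) (nat_lit 0) (nat_lit 0) (XT.lf (nat_lit 0) (nat_lit 64193010425) (nat_lit 152) (nat_lit 53767839894) (nat_lit 0) (nat_lit 5456114022) (nat_lit 10) (nat_lit 5) (nat_lit 12) (nat_lit 4) (nat_lit 10) (nat_lit 4) (nat_lit 354) (nat_lit 268) (nat_lit 158)) (XT.lf (nat_lit 0) (nat_lit 81994084729)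 (nat_lit 152) (nat_lit 23818914927) (nat_lit 0) (nat_lit 23244069317) (nat_lit 10) (nat_lit 5) (nat_lit 12) (nat_lit 4) (nat_lit 10) (nat_lit 4) (nat_lit 355) (nat_lit 268) (nat_lit 157))) (XT.nd (nat_lit 78) (nat_lit 0) (nat_lit 0) (XT.lf (nat_lit 0) (nat_lit 7764940535) (nat_lit 76) (nat_lit 92987368524) (nat_lit 76) (nat_lit 34224858816) (nat_lit 9) (nat_lit 4) (nat_lit 10) (nat_lit 5) (nat_lit 10) (nat_lit 4) (nat_lit 356) (nat_lit 268) (nat_lit 156)) (XT.lf (nat_lit 0) (nat_lit 41412098715) (nat_lit 76) (nat_lit 79274223771) (nat_lit 76) (nat_lit 20499814735) (nat_lit 9) (nat_lit 4) (nat_lit 10) (nat_lit 5) (nat_lit 10) (nat_lit 4) (nat_lit 357) (nat_lit 268) (nat_lit 155))))) (XT.nd (nat_lit 234) (nat_lit 76) (nat_lit 0) (XT.nd (nat_lit 78) (nat_lit 76) (nat_lit 0) (XT.lf (nat_lit 0) (nat_lit 76728628782) (nat_lit 76) (nat_lit 64881439392) (nat_lit 76) (nat_lit 6095697662) (nat_lit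 9) (nat_lit 4) (nat_lit 10) (nat_lit 5) (nat_lit 10) (nat_lit 4) (nat_lit 358) (nat_lit 268) (nat_lit 154)) (XT.nd (nat_lit 78) (nat_lit 0) (nat_lit 0) (XT.lf (nat_lit 0) (nat_lit 8845740342) (nat_lit 152) (nat_lit 40839681876) (nat_lit 76) (nat_lit 104863552738) (nat_lit 8) (nat_lit 5) (nat_lit 10) (nat_lit 5) (nat_lit 9) (nat_lit 4) (nat_lit 359) (nat_lit 268) (nat_lit 153)) (XT.lf (nat_lit 0) (nat_lit 24402969090) (nat_lit 152) (nat_lit 9268786604) (nat_lit 76) (nat_lit 128060936157) (nat_lit 8) (nat_lit 5) (nat_lit 10) (nat_lit 5) (nat_lit 9) (nat_lit 4) (nat_lit 360) (nat_lit 268) (nat_lit 152)))) (XT.nd (nat_lit 33462) (nat_lit 0) (nat_lit 19380) (XT.nd (nat_lit 78) (nat_lit 0) (nat_lit 0) (XT.lf (nat_lit 0) (nat_lit 24344359266) (nat_lit 76) (nat_lit 16621632227) (nat_lit 152) (nat_lit 128302766599) (nat_lit 7) (nat_lit 5) (nat_lit 8) (nat_lit 5) (nat_lit 9) (nat_lit 4) (nat_lit 361)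 (nat_lit 268) (nat_lit 151)) (XT.lf (nat_lit 0) (nat_lit 58459891234) (nat_lit 152) (nat_lit 117371315176) (nat_lit 0) (nat_lit 1347340845) (nat_lit 7) (nat_lit 5) (nat_lit 9) (nat_lit 4) (nat_lit 7) (nat_lit 4) (nat_lit 362) (nat_lit 268) (nat_lit 150))) (XT.nd (nat_lit 78) (nat_lit 0) (nat_lit 0) (XT.lf (nat_lit 0) (nat_lit 2180218842) (nat_lit 836) (nat_lit 759433398) (nat_lit 836) (nat_lit 759433398) (nat_lit 262) (nat_lit 3) (nat_lit 273) (nat_lit 3) (nat_lit 273) (nat_lit 5) (nat_lit 269) (nat_lit 269) (nat_lit 242)) (XT.lf (nat_lit 76) (nat_lit 4224004441) (nat_lit 0) (nat_lit 2629790669) (nat_lit 836) (nat_lit 654323604) (nat_lit 263) (nat_lit 5) (nat_lit 262) (nat_lit 3) (nat_lit 273) (nat_lit 5) (nat_lit 270) (nat_lit 269) (nat_lit 241)))))) (XT.nd (nat_lit 546) (nat_lit 5320) (nat_lit 0) (XT.nd (nat_lit 234) (nat_lit 836) (nat_lit 0) (XT.nd (nat_lit 78) (nat_lit 0) (nat_lit 0)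 (XT.lf (nat_lit 0) (nat_lit 1709381723) (nat_lit 836) (nat_lit 5021793746) (nat_lit 912) (nat_lit 895155381) (nat_lit 252) (nat_lit 5) (nat_lit 263) (nat_lit 5) (nat_lit 264) (nat_lit 5) (nat_lit 271) (nat_lit 269) (nat_lit 240)) (XT.nd (nat_lit 78) (nat_lit 0) (nat_lit 76) (XT.lf (nat_lit 76) (nat_lit 1007962925) (nat_lit 0) (nat_lit 3094909198) (nat_lit 912) (nat_lit 3649838916) (nat_lit 253) (nat_lit 5) (nat_lit 252) (nat_lit 5) (nat_lit 264) (nat_lit 5) (nat_lit 272) (nat_lit 269) (nat_lit 239)) (XT.lf (nat_lit 0) (nat_lit 6536500529) (nat_lit 836) (nat_lit 534688754) (nat_lit 912) (nat_lit 816803019) (nat_lit 253) (nat_lit 5) (nat_lit 264) (nat_lit 5) (nat_lit 265) (nat_lit 5) (nat_lit 273) (nat_lit 269) (nat_lit 238)))) (XT.nd (nat_lit 156) (nat_lit 0) (nat_lit 76) (XT.nd (nat_lit 78) (nat_lit 0) (nat_lit 76) (XT.lf (nat_lit 0) (nat_lit 997151101) (nat_lit 912) (nat_lit 2053159700)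 (nat_lit 988) (nat_lit 4980918913) (nat_lit 241) (nat_lit 5) (nat_lit 253) (nat_lit 5) (nat_lit 254) (nat_lit 5) (nat_lit 274) (nat_lit 269) (nat_lit 237)) (XT.lf (nat_lit 0) (nat_lit 3370003721) (nat_lit 912) (nat_lit 3556714748) (nat_lit 988) (nat_lit 1256639810) (nat_lit 242) (nat_lit 5) (nat_lit 254) (nat_lit 5) (nat_lit 255) (nat_lit 5) (nat_lit 275) (nat_lit 269) (nat_lit 236))) (XT.nd (nat_lit 78) (nat_lit 0) (nat_lit 76) (XT.lf (nat_lit 76) (nat_lit 3288534687) (nat_lit 0) (nat_lit 2534414196) (nat_lit 988) (nat_lit 2521465245) (nat_lit 243) (nat_lit 5) (nat_lit 242) (nat_lit 5) (nat_lit 255) (nat_lit 5) (nat_lit 276) (nat_lit 269) (nat_lit 235)) (XT.lf (nat_lit 76) (nat_lit 1968961637) (nat_lit 0) (nat_lit 6388512493) (nat_lit 988) (nat_lit 157437182) (nat_lit 244) (nat_lit 5) (nat_lit 243) (nat_lit 5) (nat_lit 256) (nat_lit 5) (nat_lit 277) (nat_lit 269) (nat_lit 234))))) (XT.nd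 (nat_lit 234) (nat_lit 3572) (nat_lit 0) (XT.nd (nat_lit 78) (nat_lit 912) (nat_lit 0) (XT.lf (nat_lit 76) (nat_lit 635298975) (nat_lit 0) (nat_lit 1614935315) (nat_lit 1064) (nat_lit 6444049166) (nat_lit 231) (nat_lit 5) (nat_lit 230) (nat_lit 5) (nat_lit 244) (nat_lit 5) (nat_lit 278) (nat_lit 269) (nat_lit 233)) (XT.nd (nat_lit 78) (nat_lit 988) (nat_lit 0) (XT.lf (nat_lit 0) (nat_lit 4767155285) (nat_lit 988) (nat_lit 691239874) (nat_lit 76) (nat_lit 3424556464) (nat_lit 231) (nat_lit 5) (nat_lit 244) (nat_lit 5) (nat_lit 232) (nat_lit 5) (nat_lit 279) (nat_lit 269) (nat_lit 232)) (XT.lf (nat_lit 0) (nat_lit 7082875866) (nat_lit 988) (nat_lit 307986233) (nat_lit 1064) (nat_lit 1690894183) (nat_lit 218) (nat_lit 5) (nat_lit 231) (nat_lit 5) (nat_lit 232) (nat_lit 5) (nat_lit 280) (nat_lit 269) (nat_lit 231)))) (XT.nd (nat_lit 156) (nat_lit 1292) (nat_lit 0) (XT.nd (nat_lit 78) (nat_lit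 1140) (nat_lit 0) (XT.lf (nat_lit 0) (nat_lit 852876316) (nat_lit 1140) (nat_lit 3346449296) (nat_lit 76) (nat_lit 5090620939) (nat_lit 203) (nat_lit 5) (nat_lit 218) (nat_lit 5) (nat_lit 204) (nat_lit 5) (nat_lit 281) (nat_lit 269) (nat_lit 230)) (XT.lf (nat_lit 0) (nat_lit 3475921420) (nat_lit 1216) (nat_lit 4716006015) (nat_lit 76) (nat_lit 1316620565) (nat_lit 188) (nat_lit 5) (nat_lit 204) (nat_lit 5) (nat_lit 189) (nat_lit 5) (nat_lit 282) (nat_lit 269) (nat_lit 229))) (XT.nd (nat_lit 78) (nat_lit 608) (nat_lit 0) (XT.lf (nat_lit 0) (nat_lit 3614203817) (nat_lit 684) (nat_lit 2635465802) (nat_lit 760) (nat_lit 3487933475) (nat_lit 179) (nat_lit 5) (nat_lit 188) (nat_lit 5) (nat_lit 189) (nat_lit 5) (nat_lit 283) (nat_lit 269) (nat_lit 228)) (XT.lf (nat_lit 0) (nat_lit 2413327051) (nat_lit 608) (nat_lit 6763052576) (nat_lit 684) (nat_lit 801407940) (nat_lit 171) (nat_lit 5) (nat_lit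 179) (nat_lit 5) (nat_lit 180) (nat_lit 5) (nat_lit 284) (nat_lit 269) (nat_lit 227))))))))
noncomputable def xc66 : XT := (XT.nd (nat_lit 2106) (nat_lit 3040) (nat_lit 0) (XT.nd (nat_lit 1014) (nat_lit 3496) (nat_lit 0) (XT.nd (nat_lit 468) (nat_lit 2508) (nat_lit 0) (XT.nd (nat_lit 234) (nat_lit 1520) (nat_lit 0) (XT.nd (nat_lit 78) (nat_lit 532) (nat_lit 0) (XT.lf (nat_lit 0) (nat_lit 1168197267) (nat_lit 532) (nat_lit 827112794) (nat_lit 608) (nat_lit 8233727608) (nat_lit 163) (nat_lit 5) (nat_lit 170) (nat_lit 5) (nat_lit 171) (nat_lit 5) (nat_lit 285) (nat_lit 269) (nat_lit 226)) (XT.nd (nat_lit 78) (nat_lit 532) (nat_lit 0) (XT.lf (nat_lit 0) (nat_lit 4963150490) (nat_lit 608) (nat_lit 140652262) (nat_lit 76) (nat_lit 5387465993) (nat_lit 163) (nat_lit 5) (nat_lit 171) (nat_lit 5) (nat_lit 164) (nat_lit 5) (nat_lit 286) (nat_lit 269) (nat_lit 225)) (XT.lf (nat_lit 0) (nat_lit 8110080782)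 (nat_lit 608) (nat_lit 1459664631) (nat_lit 76) (nat_lit 1196032966) (nat_lit 156) (nat_lit 5) (nat_lit 164) (nat_lit 5) (nat_lit 157) (nat_lit 5) (nat_lit 287) (nat_lit 269) (nat_lit 224)))) (XT.nd (nat_lit 78) (nat_lit 988) (nat_lit 0) (XT.lf (nat_lit 0) (nat_lit 409632183) (nat_lit 532) (nat_lit 2854588486) (nat_lit 76) (nat_lit 7788080632) (nat_lit 149) (nat_lit 5) (nat_lit 156) (nat_lit 5) (nat_lit 150) (nat_lit 5) (nat_lit 288) (nat_lit 269) (nat_lit 223)) (XT.nd (nat_lit 78) (nat_lit 456) (nat_lit 0) (XT.lf (nat_lit 0) (nat_lit 3616106831) (nat_lit 608) (nat_lit 4339227970) (nat_lit 76) (nat_lit 3395820120) (nat_lit 142) (nat_lit 5) (nat_lit 150) (nat_lit 5) (nat_lit 143) (nat_lit 5) (nat_lit 289) (nat_lit 269) (nat_lit 222)) (XT.lf (nat_lit 0) (nat_lit 5766706664) (nat_lit 456) (nat_lit 1263054374) (nat_lit 532) (nat_lit 4633858262) (nat_lit 136) (nat_lit 5) (nat_lit 142) (nat_lit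 5) (nat_lit 143) (nat_lit 5) (nat_lit 290) (nat_lit 269) (nat_lit 221))))) (XT.nd (nat_lit 234) (nat_lit 1140) (nat_lit 0) (XT.nd (nat_lit 78) (nat_lit 912) (nat_lit 0) (XT.lf (nat_lit 0) (nat_lit 4429144782) (nat_lit 456) (nat_lit 6259401651) (nat_lit 532) (nat_lit 1300997251) (nat_lit 130) (nat_lit 5) (nat_lit 136) (nat_lit 5) (nat_lit 137) (nat_lit 5) (nat_lit 291) (nat_lit 269) (nat_lit 220)) (XT.nd (nat_lit 78) (nat_lit 456) (nat_lit 0) (XT.lf (nat_lit 0) (nat_lit 2199624130) (nat_lit 456) (nat_lit 9327725753) (nat_lit 76) (nat_lit 802524808) (nat_lit 124) (nat_lit 5) (nat_lit 130) (nat_lit 5) (nat_lit 125) (nat_lit 5) (nat_lit 292) (nat_lit 269) (nat_lit 219)) (XT.lf (nat_lit 0) (nat_lit 1438504226) (nat_lit 456) (nat_lit 4501210829) (nat_lit 532) (nat_lit 6744442261) (nat_lit 118) (nat_lit 5) (nat_lit 124) (nat_lit 5) (nat_lit 125) (nat_lit 5) (nat_lit 293) (nat_lit 269) (nat_lit 218))))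 (XT.nd (nat_lit 156) (nat_lit 684) (nat_lit 0) (XT.nd (nat_lit 78) (nat_lit 456) (nat_lit 0) (XT.lf (nat_lit 0) (nat_lit 9929126533) (nat_lit 532) (nat_lit 221859787) (nat_lit 76) (nat_lit 2903357181) (nat_lit 118) (nat_lit 5) (nat_lit 125) (nat_lit 5) (nat_lit 119) (nat_lit 5) (nat_lit 294) (nat_lit 269) (nat_lit 217)) (XT.lf (nat_lit 0) (nat_lit 758923194) (nat_lit 456) (nat_lit 1990632788) (nat_lit 76) (nat_lit 10690429097) (nat_lit 112) (nat_lit 5) (nat_lit 118) (nat_lit 5) (nat_lit 113) (nat_lit 5) (nat_lit 295) (nat_lit 269) (nat_lit 216))) (XT.nd (nat_lit 78) (nat_lit 304) (nat_lit 0) (XT.lf (nat_lit 0) (nat_lit 4862804609) (nat_lit 456) (nat_lit 3938955850) (nat_lit 76) (nat_lit 5039566815) (nat_lit 107) (nat_lit 5) (nat_lit 113) (nat_lit 5) (nat_lit 108) (nat_lit 5) (nat_lit 296) (nat_lit 269) (nat_lit 215)) (XT.lf (nat_lit 0) (nat_lit 8229342313) (nat_lit 304) (nat_lit 1014187047)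 (nat_lit 380) (nat_lit 5017107146) (nat_lit 103) (nat_lit 5) (nat_lit 107) (nat_lit 5) (nat_lit 108) (nat_lit 5) (nat_lit 297) (nat_lit 269) (nat_lit 214)))))) (XT.nd (nat_lit 546) (nat_lit 1520) (nat_lit 0) (XT.nd (nat_lit 234) (nat_lit 912) (nat_lit 0) (XT.nd (nat_lit 78) (nat_lit 684) (nat_lit 0) (XT.lf (nat_lit 0) (nat_lit 6371544437) (nat_lit 380) (nat_lit 7588713754) (nat_lit 456) (nat_lit 737191028) (nat_lit 98) (nat_lit 5) (nat_lit 103) (nat_lit 5) (nat_lit 104) (nat_lit 5) (nat_lit 298) (nat_lit 269) (nat_lit 213)) (XT.nd (nat_lit 78) (nat_lit 304) (nat_lit 0) (XT.lf (nat_lit 0) (nat_lit 3750905458) (nat_lit 380) (nat_lit 10826179187) (nat_lit 76) (nat_lit 575953322) (nat_lit 93) (nat_lit 5) (nat_lit 98) (nat_lit 5) (nat_lit 94) (nat_lit 5) (nat_lit 299) (nat_lit 269) (nat_lit 212)) (XT.lf (nat_lit 0) (nat_lit 2041791002) (nat_lit 304) (nat_lit 6538218714) (nat_lit 380) (nat_lit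 7047263428) (nat_lit 89) (nat_lit 5) (nat_lit 93) (nat_lit 5) (nat_lit 94) (nat_lit 5) (nat_lit 300) (nat_lit 269) (nat_lit 211)))) (XT.nd (nat_lit 156) (nat_lit 532) (nat_lit 0) (XT.nd (nat_lit 78) (nat_lit 380) (nat_lit 0) (XT.lf (nat_lit 0) (nat_lit 13731924584) (nat_lit 380) (nat_lit 431764334) (nat_lit 76) (nat_lit 1959129962) (nat_lit 89) (nat_lit 5) (nat_lit 94) (nat_lit 5) (nat_lit 90) (nat_lit 5) (nat_lit 301) (nat_lit 269) (nat_lit 210)) (XT.lf (nat_lit 0) (nat_lit 2599717082) (nat_lit 380) (nat_lit 3153476476) (nat_lit 76) (nat_lit 10884759147) (nat_lit 84) (nat_lit 5) (nat_lit 89) (nat_lit 5) (nat_lit 85) (nat_lit 5) (nat_lit 302) (nat_lit 269) (nat_lit 209))) (XT.nd (nat_lit 78) (nat_lit 228) (nat_lit 0) (XT.lf (nat_lit 0) (nat_lit 7886348840) (nat_lit 380) (nat_lit 6154204227) (nat_lit 76) (nat_lit 3134736622) (nat_lit 80) (nat_lit 5) (nat_lit 85) (nat_lit 5) (nat_lit 81) (nat_lit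 5) (nat_lit 303) (nat_lit 269) (nat_lit 208)) (XT.lf (nat_lit 0) (nat_lit 8269835145) (nat_lit 228) (nat_lit 5293226057) (nat_lit 304) (nat_lit 4172692948) (nat_lit 77) (nat_lit 5) (nat_lit 80) (nat_lit 5) (nat_lit 81) (nat_lit 5) (nat_lit 304) (nat_lit 269) (nat_lit 207))))) (XT.nd (nat_lit 234) (nat_lit 912) (nat_lit 0) (XT.nd (nat_lit 78) (nat_lit 228) (nat_lit 0) (XT.lf (nat_lit 0) (nat_lit 1285306886) (nat_lit 380) (nat_lit 13112614179) (nat_lit 76) (nat_lit 3922725193) (nat_lit 72) (nat_lit 5) (nat_lit 77) (nat_lit 5) (nat_lit 73) (nat_lit 5) (nat_lit 305) (nat_lit 269) (nat_lit 206)) (XT.nd (nat_lit 78) (nat_lit 0) (nat_lit 0) (XT.lf (nat_lit 0) (nat_lit 1756188210) (nat_lit 228) (nat_lit 5300984471) (nat_lit 304) (nat_lit 11872582112) (nat_lit 69) (nat_lit 5) (nat_lit 72) (nat_lit 5) (nat_lit 73) (nat_lit 5) (nat_lit 306) (nat_lit 269) (nat_lit 205)) (XT.lf (nat_lit 0) (nat_lit 13253782605)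 (nat_lit 304) (nat_lit 2027470172) (nat_lit 76) (nat_lit 4284009211) (nat_lit 69) (nat_lit 5) (nat_lit 73) (nat_lit 5) (nat_lit 70) (nat_lit 5) (nat_lit 307) (nat_lit 269) (nat_lit 204)))) (XT.nd (nat_lit 156) (nat_lit 380) (nat_lit 0) (XT.nd (nat_lit 78) (nat_lit 304) (nat_lit 0) (XT.lf (nat_lit 0) (nat_lit 14036861477) (nat_lit 228) (nat_lit 5872720663) (nat_lit 304) (nat_lit 318508064) (nat_lit 66) (nat_lit 5) (nat_lit 69) (nat_lit 5) (nat_lit 70) (nat_lit 5) (nat_lit 308) (nat_lit 269) (nat_lit 203)) (XT.lf (nat_lit 0) (nat_lit 5977626303) (nat_lit 304) (nat_lit 10855685626) (nat_lit 76) (nat_lit 4085446813) (nat_lit 62) (nat_lit 5) (nat_lit 66) (nat_lit 5) (nat_lit 63) (nat_lit 5) (nat_lit 309) (nat_lit 269) (nat_lit 202))) (XT.nd (nat_lit 78) (nat_lit 152) (nat_lit 0) (XT.lf (nat_lit 0) (nat_lit 5605875884) (nat_lit 228) (nat_lit 7116601355) (nat_lit 304) (nat_lit 8917197228) (nat_lit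 59) (nat_lit 5) (nat_lit 62) (nat_lit 5) (nat_lit 63) (nat_lit 5) (nat_lit 310) (nat_lit 269) (nat_lit 201)) (XT.lf (nat_lit 0) (nat_lit 648916200) (nat_lit 152) (nat_lit 19268353442) (nat_lit 228) (nat_lit 2476007540) (nat_lit 57) (nat_lit 5) (nat_lit 59) (nat_lit 5) (nat_lit 60) (nat_lit 5) (nat_lit 311) (nat_lit 269) (nat_lit 200))))))) (XT.nd (nat_lit 1092) (nat_lit 1216) (nat_lit 0) (XT.nd (nat_lit 546) (nat_lit 760) (nat_lit 0) (XT.nd (nat_lit 234) (nat_lit 608) (nat_lit 0) (XT.nd (nat_lit 78) (nat_lit 380) (nat_lit 0) (XT.lf (nat_lit 0) (nat_lit 4406859030) (nat_lit 228) (nat_lit 4849604030) (nat_lit 76) (nat_lit 13920782818) (nat_lit 56) (nat_lit 5) (nat_lit 59) (nat_lit 5) (nat_lit 57) (nat_lit 5) (nat_lit 312) (nat_lit 269) (nat_lit 199)) (XT.nd (nat_lit 78) (nat_lit 152) (nat_lit 0) (XT.lf (nat_lit 0) (nat_lit 11688550291) (nat_lit 304) (nat_lit 10943895120) (nat_lit 76) (nat_lit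 1364075003) (nat_lit 53) (nat_lit 5) (nat_lit 57) (nat_lit 5) (nat_lit 54) (nat_lit 5) (nat_lit 313) (nat_lit 269) (nat_lit 198)) (XT.lf (nat_lit 0) (nat_lit 7087686755) (nat_lit 152) (nat_lit 12425964127) (nat_lit 228) (nat_lit 5337746646) (nat_lit 51) (nat_lit 5) (nat_lit 53) (nat_lit 5) (nat_lit 54) (nat_lit 5) (nat_lit 314) (nat_lit 269) (nat_lit 197)))) (XT.nd (nat_lit 156) (nat_lit 304) (nat_lit 0) (XT.nd (nat_lit 78) (nat_lit 0) (nat_lit 0) (XT.lf (nat_lit 0) (nat_lit 440455577) (nat_lit 228) (nat_lit 1587964694) (nat_lit 304) (nat_lit 23717461493) (nat_lit 47) (nat_lit 5) (nat_lit 50) (nat_lit 5) (nat_lit 51) (nat_lit 5) (nat_lit 315) (nat_lit 269) (nat_lit 196)) (XT.lf (nat_lit 0) (nat_lit 9901256512) (nat_lit 304) (nat_lit 6954530124) (nat_lit 76) (nat_lit 9820271864) (nat_lit 47) (nat_lit 5) (nat_lit 51) (nat_lit 5) (nat_lit 48) (nat_lit 5) (nat_lit 316) (nat_lit 269) (nat_lit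 195))) (XT.nd (nat_lit 78) (nat_lit 152) (nat_lit 0) (XT.lf (nat_lit 0) (nat_lit 12492947749) (nat_lit 152) (nat_lit 5781313210) (nat_lit 228) (nat_lit 9375302921) (nat_lit 45) (nat_lit 5) (nat_lit 47) (nat_lit 5) (nat_lit 48) (nat_lit 5) (nat_lit 317) (nat_lit 269) (nat_lit 194)) (XT.lf (nat_lit 0) (nat_lit 4368855846) (nat_lit 152) (nat_lit 22838742736) (nat_lit 228) (nat_lit 1459910308) (nat_lit 43) (nat_lit 5) (nat_lit 45) (nat_lit 5) (nat_lit 46) (nat_lit 5) (nat_lit 318) (nat_lit 269) (nat_lit 193))))) (XT.nd (nat_lit 234) (nat_lit 380) (nat_lit 0) (XT.nd (nat_lit 78) (nat_lit 304) (nat_lit 0) (XT.lf (nat_lit 0) (nat_lit 6905297611) (nat_lit 228) (nat_lit 4717309550) (nat_lit 76) (nat_lit 18106149821) (nat_lit 42) (nat_lit 5) (nat_lit 45) (nat_lit 5) (nat_lit 43) (nat_lit 5) (nat_lit 319) (nat_lit 269) (nat_lit 192)) (XT.nd (nat_lit 78) (nat_lit 152) (nat_lit 0) (XT.lf (nat_lit 0) (nat_lit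 15789739269) (nat_lit 228) (nat_lit 14744267891) (nat_lit 76) (nat_lit 304704764) (nat_lit 40) (nat_lit 5) (nat_lit 43) (nat_lit 5) (nat_lit 41) (nat_lit 5) (nat_lit 320) (nat_lit 269) (nat_lit 191)) (XT.lf (nat_lit 0) (nat_lit 5997601144) (nat_lit 152) (nat_lit 19318653132) (nat_lit 228) (nat_lit 6681987256) (nat_lit 38) (nat_lit 5) (nat_lit 40) (nat_lit 5) (nat_lit 41) (nat_lit 5) (nat_lit 321) (nat_lit 269) (nat_lit 190)))) (XT.nd (nat_lit 156) (nat_lit 152) (nat_lit 0) (XT.nd (nat_lit 78) (nat_lit 152) (nat_lit 0) (XT.lf (nat_lit 0) (nat_lit 2190002456) (nat_lit 228) (nat_lit 5191789531) (nat_lit 76) (nat_lit 25829529623) (nat_lit 37) (nat_lit 5) (nat_lit 40) (nat_lit 5) (nat_lit 38) (nat_lit 5) (nat_lit 322) (nat_lit 269) (nat_lit 189)) (XT.lf (nat_lit 0) (nat_lit 11558191694) (nat_lit 228) (nat_lit 17652605339) (nat_lit 76) (nat_lit 5266561066) (nat_lit 35) (nat_lit 5) (nat_lit 38)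 (nat_lit 5) (nat_lit 36) (nat_lit 5) (nat_lit 323) (nat_lit 269) (nat_lit 188))) (XT.nd (nat_lit 78) (nat_lit 0) (nat_lit 0) (XT.lf (nat_lit 0) (nat_lit 4211830462) (nat_lit 152) (nat_lit 17328174553) (nat_lit 228) (nat_lit 14262345406) (nat_lit 33) (nat_lit 5) (nat_lit 35) (nat_lit 5) (nat_lit 36) (nat_lit 5) (nat_lit 324) (nat_lit 269) (nat_lit 187)) (XT.lf (nat_lit 0) (nat_lit 27498702000) (nat_lit 152) (nat_lit 4680922359) (nat_lit 228) (nat_lit 5009216487) (nat_lit 33) (nat_lit 5) (nat_lit 35) (nat_lit 5) (nat_lit 36) (nat_lit 5) (nat_lit 325) (nat_lit 269) (nat_lit 186)))))) (XT.nd (nat_lit 546) (nat_lit 608) (nat_lit 0) (XT.nd (nat_lit 234) (nat_lit 304) (nat_lit 0) (XT.nd (nat_lit 78) (nat_lit 152) (nat_lit 0) (XT.lf (nat_lit 0) (nat_lit 4806451126) (nat_lit 152) (nat_lit 25239391170) (nat_lit 76) (nat_lit 8591713692) (nat_lit 31) (nat_lit 5) (nat_lit 33) (nat_lit 5) (nat_lit 32)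 (nat_lit 5) (nat_lit 326) (nat_lit 269) (nat_lit 185)) (XT.nd (nat_lit 78) (nat_lit 152) (nat_lit 0) (XT.lf (nat_lit 0) (nat_lit 15136664200) (nat_lit 152) (nat_lit 2448766851) (nat_lit 76) (nat_lit 22567975901) (nat_lit 31) (nat_lit 5) (nat_lit 33) (nat_lit 5) (nat_lit 32) (nat_lit 5) (nat_lit 327) (nat_lit 269) (nat_lit 184)) (XT.lf (nat_lit 0) (nat_lit 21872350337) (nat_lit 152) (nat_lit 4300728554) (nat_lit 228) (nat_lit 15566289189) (nat_lit 29) (nat_lit 5) (nat_lit 31) (nat_lit 5) (nat_lit 32) (nat_lit 5) (nat_lit 328) (nat_lit 269) (nat_lit 183)))) (XT.nd (nat_lit 156) (nat_lit 152) (nat_lit 0) (XT.nd (nat_lit 78) (nat_lit 76) (nat_lit 0) (XT.lf (nat_lit 0) (nat_lit 4006734861) (nat_lit 76) (nat_lit 33891238209) (nat_lit 152) (nat_lit 5502562377) (nat_lit 28) (nat_lit 5) (nat_lit 29) (nat_lit 5) (nat_lit 30) (nat_lit 4) (nat_lit 329) (nat_lit 269) (nat_lit 182)) (XT.lf (nat_lit 0)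 (nat_lit 5195841166) (nat_lit 152) (nat_lit 15778071285) (nat_lit 76) (nat_lit 24162486208) (nat_lit 27) (nat_lit 5) (nat_lit 29) (nat_lit 5) (nat_lit 28) (nat_lit 5) (nat_lit 330) (nat_lit 269) (nat_lit 181))) (XT.nd (nat_lit 78) (nat_lit 0) (nat_lit 0) (XT.lf (nat_lit 0) (nat_lit 9107610916) (nat_lit 152) (nat_lit 7277660744) (nat_lit 228) (nat_lit 30570058698) (nat_lit 25) (nat_lit 5) (nat_lit 27) (nat_lit 5) (nat_lit 28) (nat_lit 5) (nat_lit 331) (nat_lit 269) (nat_lit 180)) (XT.lf (nat_lit 0) (nat_lit 28348235724) (nat_lit 228) (nat_lit 13395420601) (nat_lit 76) (nat_lit 7115137121) (nat_lit 25) (nat_lit 5) (nat_lit 28) (nat_lit 5) (nat_lit 26) (nat_lit 4) (nat_lit 332) (nat_lit 269) (nat_lit 179))))) (XT.nd (nat_lit 234) (nat_lit 304) (nat_lit 0) (XT.nd (nat_lit 78) (nat_lit 228) (nat_lit 0) (XT.lf (nat_lit 0) (nat_lit 12417406587) (nat_lit 76) (nat_lit 28667379668) (nat_lit 152) (nat_lit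 9767386633) (nat_lit 24) (nat_lit 5) (nat_lit 25) (nat_lit 5) (nat_lit 26) (nat_lit 4) (nat_lit 333) (nat_lit 269) (nat_lit 178)) (XT.nd (nat_lit 78) (nat_lit 152) (nat_lit 0) (XT.lf (nat_lit 0) (nat_lit 1605664813) (nat_lit 152) (nat_lit 13186590416) (nat_lit 76) (nat_lit 38148868299) (nat_lit 23) (nat_lit 5) (nat_lit 25) (nat_lit 5) (nat_lit 24) (nat_lit 5) (nat_lit 334) (nat_lit 269) (nat_lit 177)) (XT.lf (nat_lit 0) (nat_lit 13459095240) (nat_lit 152) (nat_lit 1319573) (nat_lit 228) (nat_lit 41667759756) (nat_lit 21) (nat_lit 5) (nat_lit 23) (nat_lit 5) (nat_lit 24) (nat_lit 5) (nat_lit 335) (nat_lit 269) (nat_lit 176)))) (XT.nd (nat_lit 156) (nat_lit 228) (nat_lit 0) (XT.nd (nat_lit 78) (nat_lit 76) (nat_lit 0) (XT.lf (nat_lit 0) (nat_lit 26178444076) (nat_lit 228) (nat_lit 15886976576) (nat_lit 76) (nat_lit 15351046582) (nat_lit 21) (nat_lit 5) (nat_lit 24) (nat_lit 5) (nat_lit 22)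 (nat_lit 4) (nat_lit 336) (nat_lit 269) (nat_lit 175)) (XT.lf (nat_lit 0) (nat_lit 11379145092) (nat_lit 76) (nat_lit 28247557409) (nat_lit 152) (nat_lit 20189647268) (nat_lit 20) (nat_lit 5) (nat_lit 21) (nat_lit 5) (nat_lit 22) (nat_lit 4) (nat_lit 337) (nat_lit 269) (nat_lit 174))) (XT.nd (nat_lit 78) (nat_lit 228) (nat_lit 0) (XT.lf (nat_lit 0) (nat_lit 40314220337) (nat_lit 76) (nat_lit 13582091333) (nat_lit 152) (nat_lit 8435451457) (nat_lit 20) (nat_lit 5) (nat_lit 21) (nat_lit 5) (nat_lit 22) (nat_lit 4) (nat_lit 338) (nat_lit 269) (nat_lit 173)) (XT.lf (nat_lit 0) (nat_lit 3889940860) (nat_lit 228) (nat_lit 59216030632) (nat_lit 76) (nat_lit 1864062117) (nat_lit 17) (nat_lit 5) (nat_lit 20) (nat_lit 5) (nat_lit 18) (nat_lit 4) (nat_lit 339) (nat_lit 269) (nat_lit 172))))))))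
noncomputable def xc67 : XT := (XT.nd (nat_lit 35568) (nat_lit 0) (nat_lit 5928) (XT.nd (nat_lit 1092) (nat_lit 228) (nat_lit 0) (XT.nd (nat_lit 546) (nat_lit 304) (nat_lit 0) (XT.nd (nat_lit 234) (nat_lit 152) (nat_lit 0) (XT.nd (nat_lit 78) (nat_lit 76) (nat_lit 0) (XT.lf (nat_lit 0) (nat_lit 17011023889) (nat_lit 228) (nat_lit 32608615385) (nat_lit 76) (nat_lit 18107460637) (nat_lit 17) (nat_lit 5) (nat_lit 20) (nat_lit 5) (nat_lit 18) (nat_lit 4) (nat_lit 340) (nat_lit 269) (nat_lit 171)) (XT.nd (nat_lit 78) (nat_lit 76) (nat_lit 0) (XT.lf (nat_lit 0) (nat_lit 30775089500) (nat_lit 228) (nat_lit 4694593910) (nat_lit 76) (nat_lit 35152732316) (nat_lit 17) (nat_lit 5) (nat_lit 20) (nat_lit 5) (nat_lit 18) (nat_lit 4) (nat_lit 341) (nat_lit 269) (nat_lit 170)) (XT.lf (nat_lit 0) (nat_lit 25081934635) (nat_lit 76) (nat_lit 20374077543) (nat_lit 152) (nat_lit 28199629396) (nat_lit 16) (nat_lit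 5) (nat_lit 17) (nat_lit 5) (nat_lit 18) (nat_lit 4) (nat_lit 342) (nat_lit 269) (nat_lit 169)))) (XT.nd (nat_lit 156) (nat_lit 76) (nat_lit 0) (XT.nd (nat_lit 78) (nat_lit 76) (nat_lit 0) (XT.lf (nat_lit 0) (nat_lit 56423408691) (nat_lit 76) (nat_lit 4483831378) (nat_lit 152) (nat_lit 15932204546) (nat_lit 16) (nat_lit 5) (nat_lit 17) (nat_lit 5) (nat_lit 18) (nat_lit 4) (nat_lit 343) (nat_lit 269) (nat_lit 168)) (XT.lf (nat_lit 0) (nat_lit 9190378489) (nat_lit 76) (nat_lit 68134693423) (nat_lit 76) (nat_lit 2851548119) (nat_lit 15) (nat_lit 4) (nat_lit 16) (nat_lit 5) (nat_lit 16) (nat_lit 4) (nat_lit 344) (nat_lit 269) (nat_lit 167))) (XT.nd (nat_lit 78) (nat_lit 0) (nat_lit 0) (XT.lf (nat_lit 0) (nat_lit 10916929658) (nat_lit 152) (nat_lit 43143369416) (nat_lit 76) (nat_lit 29609835179) (nat_lit 14) (nat_lit 5) (nat_lit 16) (nat_lit 5) (nat_lit 15) (nat_lit 4) (nat_lit 345) (nat_lit 269)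 (nat_lit 166)) (XT.lf (nat_lit 0) (nat_lit 25304600863) (nat_lit 152) (nat_lit 13956960033) (nat_lit 76) (nat_lit 48076227061) (nat_lit 14) (nat_lit 5) (nat_lit 16) (nat_lit 5) (nat_lit 15) (nat_lit 4) (nat_lit 346) (nat_lit 269) (nat_lit 165))))) (XT.nd (nat_lit 234) (nat_lit 228) (nat_lit 0) (XT.nd (nat_lit 78) (nat_lit 0) (nat_lit 0) (XT.lf (nat_lit 0) (nat_lit 17001652358) (nat_lit 76) (nat_lit 23563143753) (nat_lit 152) (nat_lit 50619436953) (nat_lit 13) (nat_lit 5) (nat_lit 14) (nat_lit 5) (nat_lit 15) (nat_lit 4) (nat_lit 347) (nat_lit 269) (nat_lit 164)) (XT.nd (nat_lit 78) (nat_lit 0) (nat_lit 0) (XT.lf (nat_lit 0) (nat_lit 49781515067) (nat_lit 76) (nat_lit 6940184543) (nat_lit 152) (nat_lit 38497292656) (nat_lit 13) (nat_lit 5) (nat_lit 14) (nat_lit 5) (nat_lit 15) (nat_lit 4) (nat_lit 348) (nat_lit 269) (nat_lit 163)) (XT.lf (nat_lit 0) (nat_lit 73777936925) (nat_lit 152) (nat_lit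 15373862295) (nat_lit 0) (nat_lit 10300948211) (nat_lit 13) (nat_lit 5) (nat_lit 15) (nat_lit 4) (nat_lit 13) (nat_lit 4) (nat_lit 349) (nat_lit 269) (nat_lit 162)))) (XT.nd (nat_lit 156) (nat_lit 76) (nat_lit 0) (XT.nd (nat_lit 78) (nat_lit 76) (nat_lit 0) (XT.lf (nat_lit 0) (nat_lit 16426590603) (nat_lit 76) (nat_lit 75479225364) (nat_lit 76) (nat_lit 11985812024) (nat_lit 12) (nat_lit 4) (nat_lit 13) (nat_lit 5) (nat_lit 13) (nat_lit 4) (nat_lit 350) (nat_lit 269) (nat_lit 161)) (XT.lf (nat_lit 0) (nat_lit 2491937965) (nat_lit 152) (nat_lit 58450421769) (nat_lit 76) (nat_lit 47604879857) (nat_lit 11) (nat_lit 5) (nat_lit 13) (nat_lit 5) (nat_lit 12) (nat_lit 4) (nat_lit 351) (nat_lit 269) (nat_lit 160))) (XT.nd (nat_lit 78) (nat_lit 76) (nat_lit 0) (XT.lf (nat_lit 0) (nat_lit 17439485905) (nat_lit 152) (nat_lit 28121797071) (nat_lit 76) (nat_lit 67870977023) (nat_lit 11) (nat_lit 5) (nat_lit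 13) (nat_lit 5) (nat_lit 12) (nat_lit 4) (nat_lit 352) (nat_lit 269) (nat_lit 159)) (XT.lf (nat_lit 0) (nat_lit 3782064373) (nat_lit 76) (nat_lit 29380598701) (nat_lit 152) (nat_lit 85398022923) (nat_lit 10) (nat_lit 5) (nat_lit 11) (nat_lit 5) (nat_lit 12) (nat_lit 4) (nat_lit 353) (nat_lit 269) (nat_lit 158)))))) (XT.nd (nat_lit 546) (nat_lit 76) (nat_lit 0) (XT.nd (nat_lit 234) (nat_lit 152) (nat_lit 0) (XT.nd (nat_lit 78) (nat_lit 0) (nat_lit 0) (XT.lf (nat_lit 0) (nat_lit 37854215414) (nat_lit 76) (nat_lit 12099414961) (nat_lit 152) (nat_lit 73983456006) (nat_lit 10) (nat_lit 5) (nat_lit 11) (nat_lit 5) (nat_lit 12) (nat_lit 4) (nat_lit 354) (nat_lit 269) (nat_lit 157)) (XT.nd (nat_lit 78) (nat_lit 0) (nat_lit 0) (XT.lf (nat_lit 0) (nat_lit 67634717190) (nat_lit 152) (nat_lit 56024486685) (nat_lit 0) (nat_lit 5921587702) (nat_lit 10) (nat_lit 5) (nat_lit 12) (nat_lit 4) (nat_lit 10)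 (nat_lit 4) (nat_lit 355) (nat_lit 269) (nat_lit 156)) (XT.lf (nat_lit 0) (nat_lit 86314794913) (nat_lit 152) (nat_lit 24598674764) (nat_lit 0) (nat_lit 24589766096) (nat_lit 10) (nat_lit 5) (nat_lit 12) (nat_lit 4) (nat_lit 10) (nat_lit 4) (nat_lit 356) (nat_lit 269) (nat_lit 155)))) (XT.nd (nat_lit 156) (nat_lit 76) (nat_lit 0) (XT.nd (nat_lit 78) (nat_lit 0) (nat_lit 0) (XT.lf (nat_lit 0) (nat_lit 8552586909) (nat_lit 76) (nat_lit 97451658727) (nat_lit 76) (nat_lit 35715297217) (nat_lit 9) (nat_lit 4) (nat_lit 10) (nat_lit 5) (nat_lit 10) (nat_lit 4) (nat_lit 357) (nat_lit 269) (nat_lit 154)) (XT.lf (nat_lit 0) (nat_lit 43863083982) (nat_lit 76) (nat_lit 83061669986) (nat_lit 76) (nat_lit 21314515434) (nat_lit 9) (nat_lit 4) (nat_lit 10) (nat_lit 5) (nat_lit 10) (nat_lit 4) (nat_lit 358) (nat_lit 269) (nat_lit 153))) (XT.nd (nat_lit 78) (nat_lit 76) (nat_lit 0) (XT.lf (nat_lit 0) (nat_lit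 80927327203) (nat_lit 76) (nat_lit 67957639957) (nat_lit 76) (nat_lit 6200206318) (nat_lit 9) (nat_lit 4) (nat_lit 10) (nat_lit 5) (nat_lit 10) (nat_lit 4) (nat_lit 359) (nat_lit 269) (nat_lit 152)) (XT.lf (nat_lit 0) (nat_lit 9475044613) (nat_lit 152) (nat_lit 42532882681) (nat_lit 76) (nat_lit 110262840787) (nat_lit 8) (nat_lit 5) (nat_lit 10) (nat_lit 5) (nat_lit 9) (nat_lit 4) (nat_lit 360) (nat_lit 269) (nat_lit 151))))) (XT.nd (nat_lit 33618) (nat_lit 0) (nat_lit 17708) (XT.nd (nat_lit 78) (nat_lit 76) (nat_lit 0) (XT.lf (nat_lit 0) (nat_lit 25801229215) (nat_lit 152) (nat_lit 9400051374) (nat_lit 76) (nat_lit 134612659548) (nat_lit 8) (nat_lit 5) (nat_lit 10) (nat_lit 5) (nat_lit 9) (nat_lit 4) (nat_lit 361) (nat_lit 269) (nat_lit 150)) (XT.nd (nat_lit 33462) (nat_lit 0) (nat_lit 18544) (XT.lf (nat_lit 0) (nat_lit 25884230073) (nat_lit 76) (nat_lit 17302792693) (nat_lit 152) (nat_lit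 134539950368) (nat_lit 7) (nat_lit 5) (nat_lit 8) (nat_lit 5) (nat_lit 9) (nat_lit 4) (nat_lit 362) (nat_lit 269) (nat_lit 149)) (XT.lf (nat_lit 0) (nat_lit 388640535) (nat_lit 0) (nat_lit 388640535) (nat_lit 836) (nat_lit 3033667138) (nat_lit 251) (nat_lit 5) (nat_lit 251) (nat_lit 3) (nat_lit 262) (nat_lit 3) (nat_lit 270) (nat_lit 270) (nat_lit 240)))) (XT.nd (nat_lit 156) (nat_lit 836) (nat_lit 0) (XT.nd (nat_lit 78) (nat_lit 0) (nat_lit 0) (XT.lf (nat_lit 0) (nat_lit 3793281058) (nat_lit 836) (nat_lit 1034915879) (nat_lit 912) (nat_lit 2915189845) (nat_lit 251) (nat_lit 5) (nat_lit 262) (nat_lit 3) (nat_lit 263) (nat_lit 5) (nat_lit 271) (nat_lit 270) (nat_lit 239)) (XT.lf (nat_lit 76) (nat_lit 5082064666) (nat_lit 0) (nat_lit 980247783) (nat_lit 912) (nat_lit 1811283887) (nat_lit 252) (nat_lit 5) (nat_lit 251) (nat_lit 5) (nat_lit 263) (nat_lit 5) (nat_lit 272) (nat_lit 270) (nat_lit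 238))) (XT.nd (nat_lit 78) (nat_lit 0) (nat_lit 0) (XT.lf (nat_lit 0) (nat_lit 366993077) (nat_lit 912) (nat_lit 4538110390) (nat_lit 988) (nat_lit 3107039037) (nat_lit 240) (nat_lit 5) (nat_lit 252) (nat_lit 5) (nat_lit 253) (nat_lit 5) (nat_lit 273) (nat_lit 270) (nat_lit 237)) (XT.lf (nat_lit 76) (nat_lit 1885149041) (nat_lit 0) (nat_lit 661240010) (nat_lit 988) (nat_lit 5612971537) (nat_lit 241) (nat_lit 5) (nat_lit 240) (nat_lit 5) (nat_lit 253) (nat_lit 5) (nat_lit 274) (nat_lit 270) (nat_lit 236))))))) (XT.nd (nat_lit 1092) (nat_lit 4940) (nat_lit 0) (XT.nd (nat_lit 546) (nat_lit 4028) (nat_lit 0) (XT.nd (nat_lit 234) (nat_lit 1976) (nat_lit 0) (XT.nd (nat_lit 78) (nat_lit 912) (nat_lit 0) (XT.lf (nat_lit 76) (nat_lit 301108426) (nat_lit 0) (nat_lit 4498286784) (nat_lit 988) (nat_lit 3515769511) (nat_lit 242) (nat_lit 5) (nat_lit 241) (nat_lit 5) (nat_lit 254) (nat_lit 5) (nat_lit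 275) (nat_lit 270) (nat_lit 235)) (XT.nd (nat_lit 78) (nat_lit 988) (nat_lit 0) (XT.lf (nat_lit 0) (nat_lit 7120673930) (nat_lit 912) (nat_lit 1229469390) (nat_lit 988) (nat_lit 130103597) (nat_lit 242) (nat_lit 5) (nat_lit 254) (nat_lit 5) (nat_lit 255) (nat_lit 5) (nat_lit 276) (nat_lit 270) (nat_lit 234)) (XT.lf (nat_lit 0) (nat_lit 877610284) (nat_lit 988) (nat_lit 2776369642) (nat_lit 1064) (nat_lit 4999762442) (nat_lit 229) (nat_lit 5) (nat_lit 242) (nat_lit 5) (nat_lit 243) (nat_lit 5) (nat_lit 277) (nat_lit 270) (nat_lit 233)))) (XT.nd (nat_lit 156) (nat_lit 2052) (nat_lit 0) (XT.nd (nat_lit 78) (nat_lit 0) (nat_lit 0) (XT.lf (nat_lit 0) (nat_lit 3160787457) (nat_lit 988) (nat_lit 4323860859) (nat_lit 1064) (nat_lit 1352130696) (nat_lit 230) (nat_lit 5) (nat_lit 243) (nat_lit 5) (nat_lit 244) (nat_lit 5) (nat_lit 278) (nat_lit 270) (nat_lit 232)) (XT.lf (nat_lit 76) (nat_lit 3141829075)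 (nat_lit 0) (nat_lit 2409344671) (nat_lit 1064) (nat_lit 3478133512) (nat_lit 231) (nat_lit 5) (nat_lit 230) (nat_lit 5) (nat_lit 244) (nat_lit 5) (nat_lit 279) (nat_lit 270) (nat_lit 231))) (XT.nd (nat_lit 78) (nat_lit 1140) (nat_lit 0) (XT.lf (nat_lit 0) (nat_lit 1767076038) (nat_lit 988) (nat_lit 6285487589) (nat_lit 1064) (nat_lit 1179278786) (nat_lit 218) (nat_lit 5) (nat_lit 231) (nat_lit 5) (nat_lit 232) (nat_lit 5) (nat_lit 280) (nat_lit 270) (nat_lit 230)) (XT.lf (nat_lit 0) (nat_lit 375587242) (nat_lit 1064) (nat_lit 828349248) (nat_lit 1140) (nat_lit 8240522198) (nat_lit 203) (nat_lit 5) (nat_lit 217) (nat_lit 5) (nat_lit 218) (nat_lit 5) (nat_lit 281) (nat_lit 270) (nat_lit 229))))) (XT.nd (nat_lit 234) (nat_lit 2204) (nat_lit 0) (XT.nd (nat_lit 78) (nat_lit 1824) (nat_lit 0) (XT.lf (nat_lit 0) (nat_lit 3715193081) (nat_lit 1140) (nat_lit 1041611001) (nat_lit 76) (nat_lit 4909663416)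 (nat_lit 203) (nat_lit 5) (nat_lit 218) (nat_lit 5) (nat_lit 204) (nat_lit 5) (nat_lit 282) (nat_lit 270) (nat_lit 228)) (XT.nd (nat_lit 78) (nat_lit 684) (nat_lit 0) (XT.lf (nat_lit 0) (nat_lit 6355250146) (nat_lit 1216) (nat_lit 2463077151) (nat_lit 76) (nat_lit 1081257179) (nat_lit 188) (nat_lit 5) (nat_lit 204) (nat_lit 5) (nat_lit 189) (nat_lit 5) (nat_lit 283) (nat_lit 270) (nat_lit 227)) (XT.lf (nat_lit 0) (nat_lit 6212304251) (nat_lit 684) (nat_lit 2949784051) (nat_lit 760) (nat_lit 981325516) (nat_lit 179) (nat_lit 5) (nat_lit 188) (nat_lit 5) (nat_lit 189) (nat_lit 5) (nat_lit 284) (nat_lit 270) (nat_lit 226)))) (XT.nd (nat_lit 156) (nat_lit 988) (nat_lit 0) (XT.nd (nat_lit 78) (nat_lit 532) (nat_lit 0) (XT.lf (nat_lit 0) (nat_lit 1700342951) (nat_lit 684) (nat_lit 5452948120) (nat_lit 76) (nat_lit 3245026587) (nat_lit 170) (nat_lit 5) (nat_lit 179) (nat_lit 5) (nat_lit 171) (nat_lit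 5) (nat_lit 285) (nat_lit 270) (nat_lit 225)) (XT.lf (nat_lit 0) (nat_lit 3637117846) (nat_lit 532) (nat_lit 886272846) (nat_lit 608) (nat_lit 6141544720) (nat_lit 163) (nat_lit 5) (nat_lit 170) (nat_lit 5) (nat_lit 171) (nat_lit 5) (nat_lit 286) (nat_lit 270) (nat_lit 224))) (XT.nd (nat_lit 78) (nat_lit 456) (nat_lit 0) (XT.lf (nat_lit 0) (nat_lit 2264344453) (nat_lit 532) (nat_lit 5281247902) (nat_lit 608) (nat_lit 3397635404) (nat_lit 156) (nat_lit 5) (nat_lit 163) (nat_lit 5) (nat_lit 164) (nat_lit 5) (nat_lit 287) (nat_lit 270) (nat_lit 223)) (XT.lf (nat_lit 0) (nat_lit 852418987) (nat_lit 456) (nat_lit 9896592092) (nat_lit 532) (nat_lit 485600200) (nat_lit 150) (nat_lit 5) (nat_lit 156) (nat_lit 5) (nat_lit 157) (nat_lit 5) (nat_lit 288) (nat_lit 270) (nat_lit 222)))))) (XT.nd (nat_lit 546) (nat_lit 2128) (nat_lit 0) (XT.nd (nat_lit 234) (nat_lit 1748) (nat_lit 0) (XT.nd (nat_lit 78)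 (nat_lit 988) (nat_lit 0) (XT.lf (nat_lit 0) (nat_lit 2594989488) (nat_lit 532) (nat_lit 651421853) (nat_lit 76) (nat_lit 8291290394) (nat_lit 149) (nat_lit 5) (nat_lit 156) (nat_lit 5) (nat_lit 150) (nat_lit 5) (nat_lit 289) (nat_lit 270) (nat_lit 221)) (XT.nd (nat_lit 78) (nat_lit 456) (nat_lit 0) (XT.lf (nat_lit 0) (nat_lit 5882476428) (nat_lit 608) (nat_lit 2214740989) (nat_lit 76) (nat_lit 3756767979) (nat_lit 142) (nat_lit 5) (nat_lit 150) (nat_lit 5) (nat_lit 143) (nat_lit 5) (nat_lit 290) (nat_lit 270) (nat_lit 220)) (XT.lf (nat_lit 0) (nat_lit 8329373228) (nat_lit 456) (nat_lit 1059989796) (nat_lit 532) (nat_lit 2795136352) (nat_lit 136) (nat_lit 5) (nat_lit 142) (nat_lit 5) (nat_lit 143) (nat_lit 5) (nat_lit 291) (nat_lit 270) (nat_lit 219)))) (XT.nd (nat_lit 156) (nat_lit 836) (nat_lit 0) (XT.nd (nat_lit 78) (nat_lit 380) (nat_lit 0) (XT.lf (nat_lit 0) (nat_lit 618426134) (nat_lit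 532) (nat_lit 5617253414) (nat_lit 76) (nat_lit 6293098335) (nat_lit 129) (nat_lit 5) (nat_lit 136) (nat_lit 5) (nat_lit 130) (nat_lit 5) (nat_lit 292) (nat_lit 270) (nat_lit 218)) (XT.lf (nat_lit 0) (nat_lit 4199162552) (nat_lit 456) (nat_lit 7497260826) (nat_lit 76) (nat_lit 1191446500) (nat_lit 124) (nat_lit 5) (nat_lit 130) (nat_lit 5) (nat_lit 125) (nat_lit 5) (nat_lit 293) (nat_lit 270) (nat_lit 217))) (XT.nd (nat_lit 78) (nat_lit 380) (nat_lit 0) (XT.lf (nat_lit 0) (nat_lit 3741441872) (nat_lit 456) (nat_lit 4316283092) (nat_lit 532) (nat_lit 5204283940) (nat_lit 118) (nat_lit 5) (nat_lit 124) (nat_lit 5) (nat_lit 125) (nat_lit 5) (nat_lit 294) (nat_lit 270) (nat_lit 216)) (XT.lf (nat_lit 0) (nat_lit 1980384665) (nat_lit 380) (nat_lit 10202296973) (nat_lit 456) (nat_lit 1470022691) (nat_lit 113) (nat_lit 5) (nat_lit 118) (nat_lit 5) (nat_lit 119) (nat_lit 5) (nat_lit 295) (nat_lit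 270) (nat_lit 215))))) (XT.nd (nat_lit 234) (nat_lit 1368) (nat_lit 0) (XT.nd (nat_lit 78) (nat_lit 304) (nat_lit 0) (XT.lf (nat_lit 0) (nat_lit 58562232) (nat_lit 380) (nat_lit 2432597272) (nat_lit 456) (nat_lit 11568476583) (nat_lit 107) (nat_lit 5) (nat_lit 112) (nat_lit 5) (nat_lit 113) (nat_lit 5) (nat_lit 296) (nat_lit 270) (nat_lit 214)) (XT.nd (nat_lit 78) (nat_lit 304) (nat_lit 0) (XT.lf (nat_lit 0) (nat_lit 6743424048) (nat_lit 456) (nat_lit 2003792386) (nat_lit 76) (nat_lit 5735605645) (nat_lit 107) (nat_lit 5) (nat_lit 113) (nat_lit 5) (nat_lit 108) (nat_lit 5) (nat_lit 297) (nat_lit 270) (nat_lit 213)) (XT.lf (nat_lit 0) (nat_lit 10711804144) (nat_lit 304) (nat_lit 573313361) (nat_lit 380) (nat_lit 3639790208) (nat_lit 103) (nat_lit 5) (nat_lit 107) (nat_lit 5) (nat_lit 108) (nat_lit 5) (nat_lit 298) (nat_lit 270) (nat_lit 212)))) (XT.nd (nat_lit 156) (nat_lit 608) (nat_lit 0)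 (XT.nd (nat_lit 78) (nat_lit 304) (nat_lit 0) (XT.lf (nat_lit 0) (nat_lit 785924280) (nat_lit 456) (nat_lit 6648335992) (nat_lit 76) (nat_lit 7950664112) (nat_lit 97) (nat_lit 5) (nat_lit 103) (nat_lit 5) (nat_lit 98) (nat_lit 5) (nat_lit 299) (nat_lit 270) (nat_lit 211)) (XT.lf (nat_lit 0) (nat_lit 5434387628) (nat_lit 380) (nat_lit 9300085096) (nat_lit 76) (nat_lit 1130125315) (nat_lit 93) (nat_lit 5) (nat_lit 98) (nat_lit 5) (nat_lit 94) (nat_lit 5) (nat_lit 300) (nat_lit 270) (nat_lit 210))) (XT.nd (nat_lit 78) (nat_lit 304) (nat_lit 0) (XT.lf (nat_lit 0) (nat_lit 4152021908) (nat_lit 304) (nat_lit 6300993583) (nat_lit 380) (nat_lit 5911145228) (nat_lit 89) (nat_lit 5) (nat_lit 93) (nat_lit 5) (nat_lit 94) (nat_lit 5) (nat_lit 301) (nat_lit 270) (nat_lit 209)) (XT.lf (nat_lit 0) (nat_lit 1526137037) (nat_lit 304) (nat_lit 14287461663) (nat_lit 380) (nat_lit 1072407909) (nat_lit 85) (nat_lit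 5) (nat_lit 89) (nat_lit 5) (nat_lit 90) (nat_lit 5) (nat_lit 302) (nat_lit 270) (nat_lit 208))))))))
noncomputable def xc68 : XT := (XT.nd (nat_lit 2106) (nat_lit 1444) (nat_lit 0) (XT.nd (nat_lit 1014) (nat_lit 1672) (nat_lit 0) (XT.nd (nat_lit 468) (nat_lit 1368) (nat_lit 0) (XT.nd (nat_lit 234) (nat_lit 608) (nat_lit 0) (XT.nd (nat_lit 78) (nat_lit 532) (nat_lit 0) (XT.lf (nat_lit 0) (nat_lit 4076806341) (nat_lit 380) (nat_lit 1389501246) (nat_lit 76) (nat_lit 11962111733) (nat_lit 84) (nat_lit 5) (nat_lit 89) (nat_lit 5) (nat_lit 85) (nat_lit 5) (nat_lit 303) (nat_lit 270) (nat_lit 207)) (XT.nd (nat_lit 78) (nat_lit 228) (nat_lit 0) (XT.lf (nat_lit 0) (nat_lit 9587002013) (nat_lit 380) (nat_lit 4560790216) (nat_lit 76) (nat_lit 3846102427) (nat_lit 80) (nat_lit 5) (nat_lit 85) (nat_lit 5) (nat_lit 81) (nat_lit 5) (nat_lit 304) (nat_lit 270) (nat_lit 206)) (XT.lf (nat_lit 0) (nat_lit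 10529955780) (nat_lit 228) (nat_lit 4973138676) (nat_lit 304) (nat_lit 3080667714) (nat_lit 77) (nat_lit 5) (nat_lit 80) (nat_lit 5) (nat_lit 81) (nat_lit 5) (nat_lit 305) (nat_lit 270) (nat_lit 205)))) (XT.nd (nat_lit 78) (nat_lit 228) (nat_lit 0) (XT.lf (nat_lit 0) (nat_lit 2587255750) (nat_lit 380) (nat_lit 11916854985) (nat_lit 76) (nat_lit 4694583626) (nat_lit 72) (nat_lit 5) (nat_lit 77) (nat_lit 5) (nat_lit 73) (nat_lit 5) (nat_lit 306) (nat_lit 270) (nat_lit 204)) (XT.nd (nat_lit 78) (nat_lit 0) (nat_lit 0) (XT.lf (nat_lit 0) (nat_lit 3642317804) (nat_lit 228) (nat_lit 4963746275) (nat_lit 304) (nat_lit 11233484419) (nat_lit 69) (nat_lit 5) (nat_lit 72) (nat_lit 5) (nat_lit 73) (nat_lit 5) (nat_lit 307) (nat_lit 270) (nat_lit 203)) (XT.lf (nat_lit 0) (nat_lit 15061064419) (nat_lit 304) (nat_lit 386724954) (nat_lit 76) (nat_lit 5060623598) (nat_lit 69) (nat_lit 5) (nat_lit 73) (nat_lit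 5) (nat_lit 70) (nat_lit 5) (nat_lit 308) (nat_lit 270) (nat_lit 202))))) (XT.nd (nat_lit 234) (nat_lit 608) (nat_lit 0) (XT.nd (nat_lit 78) (nat_lit 456) (nat_lit 0) (XT.lf (nat_lit 0) (nat_lit 790124162) (nat_lit 304) (nat_lit 4782427137) (nat_lit 76) (nat_lit 15632782927) (nat_lit 65) (nat_lit 5) (nat_lit 69) (nat_lit 5) (nat_lit 66) (nat_lit 5) (nat_lit 309) (nat_lit 270) (nat_lit 201)) (XT.nd (nat_lit 78) (nat_lit 228) (nat_lit 0) (XT.lf (nat_lit 0) (nat_lit 7362939185) (nat_lit 304) (nat_lit 9705005040) (nat_lit 76) (nat_lit 4863477619) (nat_lit 62) (nat_lit 5) (nat_lit 66) (nat_lit 5) (nat_lit 63) (nat_lit 5) (nat_lit 310) (nat_lit 270) (nat_lit 200)) (XT.lf (nat_lit 0) (nat_lit 7531091716) (nat_lit 228) (nat_lit 6878018113) (nat_lit 304) (nat_lit 8280383683) (nat_lit 59) (nat_lit 5) (nat_lit 62) (nat_lit 5) (nat_lit 63) (nat_lit 5) (nat_lit 311) (nat_lit 270) (nat_lit 199)))) (XT.nd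 (nat_lit 156) (nat_lit 380) (nat_lit 0) (XT.nd (nat_lit 78) (nat_lit 76) (nat_lit 0) (XT.lf (nat_lit 0) (nat_lit 2304825295) (nat_lit 152) (nat_lit 19629839829) (nat_lit 228) (nat_lit 1547011464) (nat_lit 57) (nat_lit 5) (nat_lit 59) (nat_lit 5) (nat_lit 60) (nat_lit 5) (nat_lit 312) (nat_lit 270) (nat_lit 198)) (XT.lf (nat_lit 0) (nat_lit 5610299698) (nat_lit 228) (nat_lit 3525791265) (nat_lit 76) (nat_lit 15169952393) (nat_lit 56) (nat_lit 5) (nat_lit 59) (nat_lit 5) (nat_lit 57) (nat_lit 5) (nat_lit 313) (nat_lit 270) (nat_lit 197))) (XT.nd (nat_lit 78) (nat_lit 152) (nat_lit 0) (XT.lf (nat_lit 0) (nat_lit 13229369803) (nat_lit 304) (nat_lit 9946106362) (nat_lit 76) (nat_lit 1991633859) (nat_lit 53) (nat_lit 5) (nat_lit 57) (nat_lit 5) (nat_lit 54) (nat_lit 5) (nat_lit 314) (nat_lit 270) (nat_lit 196)) (XT.lf (nat_lit 0) (nat_lit 8942767965) (nat_lit 152) (nat_lit 12471840599) (nat_lit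 228) (nat_lit 4651081871) (nat_lit 51) (nat_lit 5) (nat_lit 53) (nat_lit 5) (nat_lit 54) (nat_lit 5) (nat_lit 315) (nat_lit 270) (nat_lit 195)))))) (XT.nd (nat_lit 546) (nat_lit 684) (nat_lit 0) (XT.nd (nat_lit 234) (nat_lit 532) (nat_lit 0) (XT.nd (nat_lit 78) (nat_lit 152) (nat_lit 0) (XT.lf (nat_lit 0) (nat_lit 1938721089) (nat_lit 228) (nat_lit 1095734431) (nat_lit 304) (nat_lit 23971102278) (nat_lit 47) (nat_lit 5) (nat_lit 50) (nat_lit 5) (nat_lit 51) (nat_lit 5) (nat_lit 316) (nat_lit 270) (nat_lit 194)) (XT.nd (nat_lit 78) (nat_lit 152) (nat_lit 0) (XT.lf (nat_lit 0) (nat_lit 11263089889) (nat_lit 304) (nat_lit 5875241446) (nat_lit 76) (nat_lit 10845070188) (nat_lit 47) (nat_lit 5) (nat_lit 51) (nat_lit 5) (nat_lit 48) (nat_lit 5) (nat_lit 317) (nat_lit 270) (nat_lit 193)) (XT.lf (nat_lit 0) (nat_lit 14503705217) (nat_lit 152) (nat_lit 5523088690) (nat_lit 228) (nat_lit 8979648534)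 (nat_lit 45) (nat_lit 5) (nat_lit 47) (nat_lit 5) (nat_lit 48) (nat_lit 5) (nat_lit 318) (nat_lit 270) (nat_lit 192)))) (XT.nd (nat_lit 156) (nat_lit 304) (nat_lit 0) (XT.nd (nat_lit 78) (nat_lit 76) (nat_lit 0) (XT.lf (nat_lit 0) (nat_lit 5953431890) (nat_lit 152) (nat_lit 23431565195) (nat_lit 228) (nat_lit 690962373) (nat_lit 43) (nat_lit 5) (nat_lit 45) (nat_lit 5) (nat_lit 46) (nat_lit 5) (nat_lit 319) (nat_lit 270) (nat_lit 191)) (XT.lf (nat_lit 0) (nat_lit 8036766398) (nat_lit 228) (nat_lit 3636065643) (nat_lit 76) (nat_lit 19518393575) (nat_lit 42) (nat_lit 5) (nat_lit 45) (nat_lit 5) (nat_lit 43) (nat_lit 5) (nat_lit 320) (nat_lit 270) (nat_lit 190))) (XT.nd (nat_lit 78) (nat_lit 152) (nat_lit 0) (XT.lf (nat_lit 0) (nat_lit 17345271929) (nat_lit 228) (nat_lit 14183911948) (nat_lit 76) (nat_lit 828117418) (nat_lit 40) (nat_lit 5) (nat_lit 43) (nat_lit 5) (nat_lit 41) (nat_lit 5) (nat_lit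 321) (nat_lit 270) (nat_lit 189)) (XT.lf (nat_lit 0) (nat_lit 7557855974) (nat_lit 152) (nat_lit 19765893839) (nat_lit 228) (nat_lit 6251805831) (nat_lit 38) (nat_lit 5) (nat_lit 40) (nat_lit 5) (nat_lit 41) (nat_lit 5) (nat_lit 322) (nat_lit 270) (nat_lit 188))))) (XT.nd (nat_lit 234) (nat_lit 304) (nat_lit 0) (XT.nd (nat_lit 78) (nat_lit 304) (nat_lit 0) (XT.lf (nat_lit 0) (nat_lit 3013185357) (nat_lit 228) (nat_lit 4236497100) (nat_lit 76) (nat_lit 27600473456) (nat_lit 37) (nat_lit 5) (nat_lit 40) (nat_lit 5) (nat_lit 38) (nat_lit 5) (nat_lit 323) (nat_lit 270) (nat_lit 187)) (XT.nd (nat_lit 78) (nat_lit 152) (nat_lit 0) (XT.lf (nat_lit 0) (nat_lit 12831843321) (nat_lit 228) (nat_lit 17338841533) (nat_lit 76) (nat_lit 6009362894) (nat_lit 35) (nat_lit 5) (nat_lit 38) (nat_lit 5) (nat_lit 36) (nat_lit 5) (nat_lit 324) (nat_lit 270) (nat_lit 186)) (XT.lf (nat_lit 0) (nat_lit 5584521662)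 (nat_lit 152) (nat_lit 17706265885) (nat_lit 228) (nat_lit 14281175502) (nat_lit 33) (nat_lit 5) (nat_lit 35) (nat_lit 5) (nat_lit 36) (nat_lit 5) (nat_lit 325) (nat_lit 270) (nat_lit 185)))) (XT.nd (nat_lit 156) (nat_lit 152) (nat_lit 0) (XT.nd (nat_lit 78) (nat_lit 152) (nat_lit 0) (XT.lf (nat_lit 0) (nat_lit 29980398697) (nat_lit 152) (nat_lit 4449904291) (nat_lit 228) (nat_lit 4598451431) (nat_lit 33) (nat_lit 5) (nat_lit 35) (nat_lit 5) (nat_lit 36) (nat_lit 5) (nat_lit 326) (nat_lit 270) (nat_lit 184)) (XT.lf (nat_lit 0) (nat_lit 5679102111) (nat_lit 152) (nat_lit 25398856671) (nat_lit 76) (nat_lit 9472248522) (nat_lit 31) (nat_lit 5) (nat_lit 33) (nat_lit 5) (nat_lit 32) (nat_lit 5) (nat_lit 327) (nat_lit 270) (nat_lit 183))) (XT.nd (nat_lit 78) (nat_lit 152) (nat_lit 0) (XT.lf (nat_lit 0) (nat_lit 16495714961) (nat_lit 152) (nat_lit 1521201329) (nat_lit 76) (nat_lit 24125850072) (nat_lit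 31) (nat_lit 5) (nat_lit 33) (nat_lit 5) (nat_lit 32) (nat_lit 5) (nat_lit 328) (nat_lit 270) (nat_lit 182)) (XT.lf (nat_lit 0) (nat_lit 23985873568) (nat_lit 152) (nat_lit 4079203749) (nat_lit 228) (nat_lit 15743526060) (nat_lit 29) (nat_lit 5) (nat_lit 31) (nat_lit 5) (nat_lit 32) (nat_lit 5) (nat_lit 329) (nat_lit 270) (nat_lit 181))))))) (XT.nd (nat_lit 1092) (nat_lit 456) (nat_lit 0) (XT.nd (nat_lit 546) (nat_lit 380) (nat_lit 0) (XT.nd (nat_lit 234) (nat_lit 304) (nat_lit 0) (XT.nd (nat_lit 78) (nat_lit 228) (nat_lit 0) (XT.lf (nat_lit 0) (nat_lit 5210890515) (nat_lit 76) (nat_lit 35151193364) (nat_lit 152) (nat_lit 5191180288) (nat_lit 28) (nat_lit 5) (nat_lit 29) (nat_lit 5) (nat_lit 30) (nat_lit 4) (nat_lit 330) (nat_lit 270) (nat_lit 180)) (XT.nd (nat_lit 78) (nat_lit 152) (nat_lit 0) (XT.lf (nat_lit 0) (nat_lit 6003314444) (nat_lit 152) (nat_lit 15599851927) (nat_lit 76) (nat_lit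 25773416802) (nat_lit 27) (nat_lit 5) (nat_lit 29) (nat_lit 5) (nat_lit 28) (nat_lit 5) (nat_lit 331) (nat_lit 270) (nat_lit 179)) (XT.lf (nat_lit 0) (nat_lit 10502391999) (nat_lit 152) (nat_lit 7232774499) (nat_lit 228) (nat_lit 31551816220) (nat_lit 25) (nat_lit 5) (nat_lit 27) (nat_lit 5) (nat_lit 28) (nat_lit 5) (nat_lit 332) (nat_lit 270) (nat_lit 178)))) (XT.nd (nat_lit 156) (nat_lit 228) (nat_lit 0) (XT.nd (nat_lit 78) (nat_lit 76) (nat_lit 0) (XT.lf (nat_lit 0) (nat_lit 30274752839) (nat_lit 228) (nat_lit 13158919864) (nat_lit 76) (nat_lit 7852601331) (nat_lit 25) (nat_lit 5) (nat_lit 28) (nat_lit 5) (nat_lit 26) (nat_lit 4) (nat_lit 333) (nat_lit 270) (nat_lit 177)) (XT.lf (nat_lit 0) (nat_lit 13918570585) (nat_lit 76) (nat_lit 29713779122) (nat_lit 152) (nat_lit 9747455030) (nat_lit 24) (nat_lit 5) (nat_lit 25) (nat_lit 5) (nat_lit 26) (nat_lit 4) (nat_lit 334) (nat_lit 270) (nat_lit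 176))) (XT.nd (nat_lit 78) (nat_lit 152) (nat_lit 0) (XT.lf (nat_lit 0) (nat_lit 2160597722) (nat_lit 152) (nat_lit 12997934828) (nat_lit 76) (nat_lit 40415243937) (nat_lit 23) (nat_lit 5) (nat_lit 25) (nat_lit 5) (nat_lit 24) (nat_lit 5) (nat_lit 335) (nat_lit 270) (nat_lit 175)) (XT.lf (nat_lit 0) (nat_lit 14596883463) (nat_lit 228) (nat_lit 42918383541) (nat_lit 76) (nat_lit 355256926) (nat_lit 21) (nat_lit 5) (nat_lit 24) (nat_lit 5) (nat_lit 22) (nat_lit 4) (nat_lit 336) (nat_lit 270) (nat_lit 174))))) (XT.nd (nat_lit 234) (nat_lit 304) (nat_lit 0) (XT.nd (nat_lit 78) (nat_lit 76) (nat_lit 0) (XT.lf (nat_lit 0) (nat_lit 27928757925) (nat_lit 228) (nat_lit 15886909751) (nat_lit 76) (nat_lit 16458232664) (nat_lit 21) (nat_lit 5) (nat_lit 24) (nat_lit 5) (nat_lit 22) (nat_lit 4) (nat_lit 337) (nat_lit 270) (nat_lit 173)) (XT.nd (nat_lit 78) (nat_lit 0) (nat_lit 0) (XT.lf (nat_lit 0) (nat_lit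 12719746235) (nat_lit 76) (nat_lit 29316081900) (nat_lit 152) (nat_lit 20758363974) (nat_lit 20) (nat_lit 5) (nat_lit 21) (nat_lit 5) (nat_lit 22) (nat_lit 4) (nat_lit 338) (nat_lit 270) (nat_lit 172)) (XT.lf (nat_lit 0) (nat_lit 43064830295) (nat_lit 76) (nat_lit 13933716491) (nat_lit 152) (nat_lit 8437447213) (nat_lit 20) (nat_lit 5) (nat_lit 21) (nat_lit 5) (nat_lit 22) (nat_lit 4) (nat_lit 339) (nat_lit 270) (nat_lit 171)))) (XT.nd (nat_lit 156) (nat_lit 76) (nat_lit 0) (XT.nd (nat_lit 78) (nat_lit 0) (nat_lit 0) (XT.lf (nat_lit 0) (nat_lit 4486468349) (nat_lit 228) (nat_lit 61445927843) (nat_lit 76) (nat_lit 2273953636) (nat_lit 17) (nat_lit 5) (nat_lit 20) (nat_lit 5) (nat_lit 18) (nat_lit 4) (nat_lit 340) (nat_lit 270) (nat_lit 170)) (XT.lf (nat_lit 0) (nat_lit 18244461222) (nat_lit 228) (nat_lit 33542946801) (nat_lit 76) (nat_lit 19314441682) (nat_lit 17) (nat_lit 5) (nat_lit 20)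 (nat_lit 5) (nat_lit 18) (nat_lit 4) (nat_lit 341) (nat_lit 270) (nat_lit 169))) (XT.nd (nat_lit 78) (nat_lit 76) (nat_lit 0) (XT.lf (nat_lit 0) (nat_lit 32678497441) (nat_lit 228) (nat_lit 4266371840) (nat_lit 76) (nat_lit 37197614658) (nat_lit 17) (nat_lit 5) (nat_lit 20) (nat_lit 5) (nat_lit 18) (nat_lit 4) (nat_lit 342) (nat_lit 270) (nat_lit 168)) (XT.lf (nat_lit 0) (nat_lit 26979979752) (nat_lit 76) (nat_lit 21102312075) (nat_lit 152) (nat_lit 29245419865) (nat_lit 16) (nat_lit 5) (nat_lit 17) (nat_lit 5) (nat_lit 18) (nat_lit 4) (nat_lit 343) (nat_lit 270) (nat_lit 167)))))) (XT.nd (nat_lit 546) (nat_lit 228) (nat_lit 0) (XT.nd (nat_lit 234) (nat_lit 76) (nat_lit 0) (XT.nd (nat_lit 78) (nat_lit 152) (nat_lit 0) (XT.lf (nat_lit 0) (nat_lit 59857863302) (nat_lit 76) (nat_lit 4431385476) (nat_lit 152) (nat_lit 16381966201) (nat_lit 16) (nat_lit 5) (nat_lit 17) (nat_lit 5) (nat_lit 18)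 (nat_lit 4) (nat_lit 344) (nat_lit 270) (nat_lit 166)) (XT.nd (nat_lit 78) (nat_lit 76) (nat_lit 0) (XT.lf (nat_lit 0) (nat_lit 10252928372) (nat_lit 76) (nat_lit 71267342327) (nat_lit 76) (nat_lit 2655214390) (nat_lit 15) (nat_lit 4) (nat_lit 16) (nat_lit 5) (nat_lit 16) (nat_lit 4) (nat_lit 345) (nat_lit 270) (nat_lit 165)) (XT.lf (nat_lit 0) (nat_lit 11779250196) (nat_lit 152) (nat_lit 44719834002) (nat_lit 76) (nat_lit 31344972315) (nat_lit 14) (nat_lit 5) (nat_lit 16) (nat_lit 5) (nat_lit 15) (nat_lit 4) (nat_lit 346) (nat_lit 270) (nat_lit 164)))) (XT.nd (nat_lit 156) (nat_lit 0) (nat_lit 0) (XT.nd (nat_lit 78) (nat_lit 76) (nat_lit 0) (XT.lf (nat_lit 0) (nat_lit 26871234767) (nat_lit 152) (nat_lit 14101756715) (nat_lit 76) (nat_lit 50722557820) (nat_lit 14) (nat_lit 5) (nat_lit 16) (nat_lit 5) (nat_lit 15) (nat_lit 4) (nat_lit 347) (nat_lit 270) (nat_lit 163)) (XT.lf (nat_lit 0) (nat_lit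 18388933190) (nat_lit 76) (nat_lit 24496317901) (nat_lit 152) (nat_lit 52849345327) (nat_lit 13) (nat_lit 5) (nat_lit 14) (nat_lit 5) (nat_lit 15) (nat_lit 4) (nat_lit 348) (nat_lit 270) (nat_lit 162))) (XT.nd (nat_lit 78) (nat_lit 0) (nat_lit 0) (XT.lf (nat_lit 0) (nat_lit 52782208168) (nat_lit 76) (nat_lit 7053876590) (nat_lit 152) (nat_lit 40135430171) (nat_lit 13) (nat_lit 5) (nat_lit 14) (nat_lit 5) (nat_lit 15) (nat_lit 4) (nat_lit 349) (nat_lit 270) (nat_lit 161)) (XT.lf (nat_lit 0) (nat_lit 77734017537) (nat_lit 152) (nat_lit 15649411113) (nat_lit 0) (nat_lit 11033866404) (nat_lit 13) (nat_lit 5) (nat_lit 15) (nat_lit 4) (nat_lit 13) (nat_lit 4) (nat_lit 350) (nat_lit 270) (nat_lit 160))))) (XT.nd (nat_lit 234) (nat_lit 76) (nat_lit 0) (XT.nd (nat_lit 78) (nat_lit 76) (nat_lit 0) (XT.lf (nat_lit 0) (nat_lit 17726928547) (nat_lit 76) (nat_lit 79033243469) (nat_lit 76) (nat_lit 12318194717)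 (nat_lit 12) (nat_lit 4) (nat_lit 13) (nat_lit 5) (nat_lit 13) (nat_lit 4) (nat_lit 351) (nat_lit 270) (nat_lit 159)) (XT.nd (nat_lit 78) (nat_lit 0) (nat_lit 0) (XT.lf (nat_lit 0) (nat_lit 2865772553) (nat_lit 152) (nat_lit 60911718678) (nat_lit 76) (nat_lit 50189567838) (nat_lit 11) (nat_lit 5) (nat_lit 13) (nat_lit 5) (nat_lit 12) (nat_lit 4) (nat_lit 352) (nat_lit 270) (nat_lit 158)) (XT.lf (nat_lit 0) (nat_lit 18548829428) (nat_lit 152) (nat_lit 29088625801) (nat_lit 76) (nat_lit 71459234434) (nat_lit 11) (nat_lit 5) (nat_lit 13) (nat_lit 5) (nat_lit 12) (nat_lit 4) (nat_lit 353) (nat_lit 270) (nat_lit 157)))) (XT.nd (nat_lit 156) (nat_lit 0) (nat_lit 0) (XT.nd (nat_lit 78) (nat_lit 0) (nat_lit 0) (XT.lf (nat_lit 0) (nat_lit 4397837384) (nat_lit 76) (nat_lit 30653126186) (nat_lit 152) (nat_lit 89430792412) (nat_lit 10) (nat_lit 5) (nat_lit 11) (nat_lit 5) (nat_lit 12) (nat_lit 4) (nat_lit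 354) (nat_lit 270) (nat_lit 156)) (XT.lf (nat_lit 0) (nat_lit 40153278368) (nat_lit 76) (nat_lit 12517240519) (nat_lit 152) (nat_lit 77456789133) (nat_lit 10) (nat_lit 5) (nat_lit 11) (nat_lit 5) (nat_lit 12) (nat_lit 4) (nat_lit 355) (nat_lit 270) (nat_lit 155))) (XT.nd (nat_lit 78) (nat_lit 0) (nat_lit 0) (XT.lf (nat_lit 0) (nat_lit 71226934904) (nat_lit 152) (nat_lit 58434105391) (nat_lit 0) (nat_lit 6392422624) (nat_lit 10) (nat_lit 5) (nat_lit 12) (nat_lit 4) (nat_lit 10) (nat_lit 4) (nat_lit 356) (nat_lit 270) (nat_lit 154)) (XT.lf (nat_lit 0) (nat_lit 90830993567) (nat_lit 152) (nat_lit 25455650762) (nat_lit 0) (nat_lit 25985688245) (nat_lit 10) (nat_lit 5) (nat_lit 12) (nat_lit 4) (nat_lit 10) (nat_lit 4) (nat_lit 357) (nat_lit 270) (nat_lit 153))))))))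
noncomputable def xc69 : XT := (XT.nd (nat_lit 35646) (nat_lit 0) (nat_lit 2584) (XT.nd (nat_lit 34554) (nat_lit 0) (nat_lit 9196) (XT.nd (nat_lit 34008) (nat_lit 0) (nat_lit 16720) (XT.nd (nat_lit 234) (nat_lit 76) (nat_lit 0) (XT.nd (nat_lit 78) (nat_lit 0) (nat_lit 0) (XT.lf (nat_lit 0) (nat_lit 9342483237) (nat_lit 76) (nat_lit 102156370260) (nat_lit 76) (nat_lit 37300785851) (nat_lit 9) (nat_lit 4) (nat_lit 10) (nat_lit 5) (nat_lit 10) (nat_lit 4) (nat_lit 358) (nat_lit 270) (nat_lit 152)) (XT.nd (nat_lit 78) (nat_lit 0) (nat_lit 0) (XT.lf (nat_lit 0) (nat_lit 46401254354) (nat_lit 76) (nat_lit 87054875957) (nat_lit 76) (nat_lit 22189501942) (nat_lit 9) (nat_lit 4) (nat_lit 10) (nat_lit 5) (nat_lit 10) (nat_lit 4) (nat_lit 359) (nat_lit 270) (nat_lit 151)) (XT.lf (nat_lit 0) (nat_lit 85302280395) (nat_lit 76) (nat_lit 71203257643) (nat_lit 76) (nat_lit 6328560193) (nat_lit 9) (nat_lit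 4) (nat_lit 10) (nat_lit 5) (nat_lit 10) (nat_lit 4) (nat_lit 360) (nat_lit 270) (nat_lit 150)))) (XT.nd (nat_lit 33618) (nat_lit 0) (nat_lit 17556) (XT.nd (nat_lit 78) (nat_lit 0) (nat_lit 0) (XT.lf (nat_lit 0) (nat_lit 10118427005) (nat_lit 152) (nat_lit 44343170091) (nat_lit 76) (nat_lit 115917579572) (nat_lit 8) (nat_lit 5) (nat_lit 10) (nat_lit 5) (nat_lit 9) (nat_lit 4) (nat_lit 361) (nat_lit 270) (nat_lit 149)) (XT.lf (nat_lit 0) (nat_lit 27252843211) (nat_lit 152) (nat_lit 9568761824) (nat_lit 76) (nat_lit 141478146569) (nat_lit 8) (nat_lit 5) (nat_lit 10) (nat_lit 5) (nat_lit 9) (nat_lit 4) (nat_lit 362) (nat_lit 270) (nat_lit 148))) (XT.nd (nat_lit 78) (nat_lit 912) (nat_lit 0) (XT.lf (nat_lit 0) (nat_lit 1476760006) (nat_lit 0) (nat_lit 1476760006) (nat_lit 836) (nat_lit 980840756) (nat_lit 251) (nat_lit 5) (nat_lit 251) (nat_lit 3) (nat_lit 262) (nat_lit 3) (nat_lit 271) (nat_lit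 271) (nat_lit 238)) (XT.lf (nat_lit 0) (nat_lit 41545174) (nat_lit 912) (nat_lit 6885155283) (nat_lit 988) (nat_lit 1076232096) (nat_lit 239) (nat_lit 5) (nat_lit 251) (nat_lit 5) (nat_lit 252) (nat_lit 5) (nat_lit 272) (nat_lit 271) (nat_lit 237))))) (XT.nd (nat_lit 234) (nat_lit 836) (nat_lit 0) (XT.nd (nat_lit 78) (nat_lit 0) (nat_lit 76) (XT.lf (nat_lit 0) (nat_lit 2058102284) (nat_lit 912) (nat_lit 708984658) (nat_lit 988) (nat_lit 5377744882) (nat_lit 239) (nat_lit 5) (nat_lit 251) (nat_lit 5) (nat_lit 252) (nat_lit 5) (nat_lit 273) (nat_lit 271) (nat_lit 236)) (XT.nd (nat_lit 78) (nat_lit 0) (nat_lit 0) (XT.lf (nat_lit 0) (nat_lit 4126423330) (nat_lit 912) (nat_lit 2491059971) (nat_lit 988) (nat_lit 1677979027) (nat_lit 240) (nat_lit 5) (nat_lit 252) (nat_lit 5) (nat_lit 253) (nat_lit 5) (nat_lit 274) (nat_lit 271) (nat_lit 235)) (XT.lf (nat_lit 76) (nat_lit 4188179941) (nat_lit 0)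 (nat_lit 2069694549) (nat_lit 988) (nat_lit 2197114975) (nat_lit 241) (nat_lit 5) (nat_lit 240) (nat_lit 5) (nat_lit 253) (nat_lit 5) (nat_lit 275) (nat_lit 271) (nat_lit 234)))) (XT.nd (nat_lit 156) (nat_lit 0) (nat_lit 76) (XT.nd (nat_lit 78) (nat_lit 988) (nat_lit 0) (XT.lf (nat_lit 76) (nat_lit 2583584355) (nat_lit 0) (nat_lit 5878476325) (nat_lit 988) (nat_lit 161596477) (nat_lit 242) (nat_lit 5) (nat_lit 241) (nat_lit 5) (nat_lit 254) (nat_lit 5) (nat_lit 276) (nat_lit 271) (nat_lit 233)) (XT.lf (nat_lit 76) (nat_lit 972396839) (nat_lit 0) (nat_lit 932168856) (nat_lit 1064) (nat_lit 6896738009) (nat_lit 229) (nat_lit 5) (nat_lit 228) (nat_lit 5) (nat_lit 242) (nat_lit 5) (nat_lit 277) (nat_lit 271) (nat_lit 232))) (XT.nd (nat_lit 78) (nat_lit 0) (nat_lit 76) (XT.lf (nat_lit 0) (nat_lit 4072044793) (nat_lit 988) (nat_lit 641397637) (nat_lit 1064) (nat_lit 4274432898) (nat_lit 229) (nat_lit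 5) (nat_lit 242) (nat_lit 5) (nat_lit 243) (nat_lit 5) (nat_lit 278) (nat_lit 271) (nat_lit 231)) (XT.lf (nat_lit 0) (nat_lit 6332768530) (nat_lit 988) (nat_lit 2229126693) (nat_lit 1064) (nat_lit 622459215) (nat_lit 230) (nat_lit 5) (nat_lit 243) (nat_lit 5) (nat_lit 244) (nat_lit 5) (nat_lit 279) (nat_lit 271) (nat_lit 230)))))) (XT.nd (nat_lit 546) (nat_lit 3116) (nat_lit 0) (XT.nd (nat_lit 234) (nat_lit 2508) (nat_lit 0) (XT.nd (nat_lit 78) (nat_lit 2052) (nat_lit 0) (XT.lf (nat_lit 76) (nat_lit 5543605473) (nat_lit 0) (nat_lit 3177124912) (nat_lit 1064) (nat_lit 669620132) (nat_lit 231) (nat_lit 5) (nat_lit 230) (nat_lit 5) (nat_lit 244) (nat_lit 5) (nat_lit 280) (nat_lit 271) (nat_lit 229)) (XT.nd (nat_lit 78) (nat_lit 1064) (nat_lit 0) (XT.lf (nat_lit 0) (nat_lit 1586986327) (nat_lit 1064) (nat_lit 5492753361) (nat_lit 76) (nat_lit 2526633742) (nat_lit 217) (nat_lit 5) (nat_lit 231)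 (nat_lit 5) (nat_lit 218) (nat_lit 5) (nat_lit 281) (nat_lit 271) (nat_lit 228)) (XT.lf (nat_lit 0) (nat_lit 2660830222) (nat_lit 1064) (nat_lit 1292772087) (nat_lit 1140) (nat_lit 5879170299) (nat_lit 203) (nat_lit 5) (nat_lit 217) (nat_lit 5) (nat_lit 218) (nat_lit 5) (nat_lit 282) (nat_lit 271) (nat_lit 227)))) (XT.nd (nat_lit 156) (nat_lit 1368) (nat_lit 0) (XT.nd (nat_lit 78) (nat_lit 0) (nat_lit 0) (XT.lf (nat_lit 0) (nat_lit 1171491144) (nat_lit 1140) (nat_lit 5298249164) (nat_lit 1216) (nat_lit 3599915563) (nat_lit 188) (nat_lit 5) (nat_lit 203) (nat_lit 5) (nat_lit 204) (nat_lit 5) (nat_lit 283) (nat_lit 271) (nat_lit 226)) (XT.lf (nat_lit 0) (nat_lit 9127010527) (nat_lit 1216) (nat_lit 328880293) (nat_lit 76) (nat_lit 862127825) (nat_lit 188) (nat_lit 5) (nat_lit 204) (nat_lit 5) (nat_lit 189) (nat_lit 5) (nat_lit 284) (nat_lit 271) (nat_lit 225))) (XT.nd (nat_lit 78) (nat_lit 608)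 (nat_lit 0) (XT.lf (nat_lit 0) (nat_lit 1374012890) (nat_lit 760) (nat_lit 1874959185) (nat_lit 76) (nat_lit 7327675948) (nat_lit 178) (nat_lit 5) (nat_lit 188) (nat_lit 5) (nat_lit 179) (nat_lit 5) (nat_lit 285) (nat_lit 271) (nat_lit 224)) (XT.lf (nat_lit 0) (nat_lit 4075973264) (nat_lit 684) (nat_lit 3474668889) (nat_lit 76) (nat_lit 3296297100) (nat_lit 170) (nat_lit 5) (nat_lit 179) (nat_lit 5) (nat_lit 171) (nat_lit 5) (nat_lit 286) (nat_lit 271) (nat_lit 223))))) (XT.nd (nat_lit 234) (nat_lit 1520) (nat_lit 0) (XT.nd (nat_lit 78) (nat_lit 1064) (nat_lit 0) (XT.lf (nat_lit 0) (nat_lit 6005378015) (nat_lit 532) (nat_lit 946735615) (nat_lit 608) (nat_lit 4177538719) (nat_lit 163) (nat_lit 5) (nat_lit 170) (nat_lit 5) (nat_lit 171) (nat_lit 5) (nat_lit 287) (nat_lit 271) (nat_lit 222)) (XT.nd (nat_lit 78) (nat_lit 532) (nat_lit 0) (XT.lf (nat_lit 0) (nat_lit 4568009338) (nat_lit 532) (nat_lit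 5473440623) (nat_lit 608) (nat_lit 1383045436) (nat_lit 156) (nat_lit 5) (nat_lit 163) (nat_lit 5) (nat_lit 164) (nat_lit 5) (nat_lit 288) (nat_lit 271) (nat_lit 221)) (XT.lf (nat_lit 0) (nat_lit 1561855766) (nat_lit 532) (nat_lit 8662213905) (nat_lit 76) (nat_lit 1508405276) (nat_lit 149) (nat_lit 5) (nat_lit 156) (nat_lit 5) (nat_lit 150) (nat_lit 5) (nat_lit 289) (nat_lit 271) (nat_lit 220)))) (XT.nd (nat_lit 156) (nat_lit 988) (nat_lit 0) (XT.nd (nat_lit 78) (nat_lit 0) (nat_lit 0) (XT.lf (nat_lit 0) (nat_lit 1472538460) (nat_lit 532) (nat_lit 3229961516) (nat_lit 608) (nat_lit 7350696546) (nat_lit 142) (nat_lit 5) (nat_lit 149) (nat_lit 5) (nat_lit 150) (nat_lit 5) (nat_lit 290) (nat_lit 271) (nat_lit 219)) (XT.lf (nat_lit 0) (nat_lit 8068268508) (nat_lit 608) (nat_lit 201715337) (nat_lit 76) (nat_lit 4117991279) (nat_lit 142) (nat_lit 5) (nat_lit 150) (nat_lit 5) (nat_lit 143) (nat_lit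 5) (nat_lit 291) (nat_lit 271) (nat_lit 218))) (XT.nd (nat_lit 78) (nat_lit 532) (nat_lit 0) (XT.lf (nat_lit 0) (nat_lit 10808727360) (nat_lit 456) (nat_lit 871522351) (nat_lit 532) (nat_lit 1056965894) (nat_lit 136) (nat_lit 5) (nat_lit 142) (nat_lit 5) (nat_lit 143) (nat_lit 5) (nat_lit 292) (nat_lit 271) (nat_lit 217)) (XT.lf (nat_lit 0) (nat_lit 2425144946) (nat_lit 532) (nat_lit 3804661070) (nat_lit 76) (nat_lit 6870411283) (nat_lit 129) (nat_lit 5) (nat_lit 136) (nat_lit 5) (nat_lit 130) (nat_lit 5) (nat_lit 293) (nat_lit 271) (nat_lit 216))))))) (XT.nd (nat_lit 1092) (nat_lit 2280) (nat_lit 0) (XT.nd (nat_lit 546) (nat_lit 1900) (nat_lit 0) (XT.nd (nat_lit 234) (nat_lit 1140) (nat_lit 0) (XT.nd (nat_lit 78) (nat_lit 912) (nat_lit 0) (XT.lf (nat_lit 0) (nat_lit 6123004776) (nat_lit 456) (nat_lit 5788812109) (nat_lit 76) (nat_lit 1567386582) (nat_lit 124) (nat_lit 5) (nat_lit 130) (nat_lit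 5) (nat_lit 125) (nat_lit 5) (nat_lit 294) (nat_lit 271) (nat_lit 215)) (XT.nd (nat_lit 78) (nat_lit 456) (nat_lit 0) (XT.lf (nat_lit 0) (nat_lit 5952108012) (nat_lit 456) (nat_lit 4160225792) (nat_lit 532) (nat_lit 3761658741) (nat_lit 118) (nat_lit 5) (nat_lit 124) (nat_lit 5) (nat_lit 125) (nat_lit 5) (nat_lit 295) (nat_lit 271) (nat_lit 214)) (XT.lf (nat_lit 0) (nat_lit 99669420) (nat_lit 456) (nat_lit 10195780353) (nat_lit 76) (nat_lit 3990495504) (nat_lit 112) (nat_lit 5) (nat_lit 118) (nat_lit 5) (nat_lit 113) (nat_lit 5) (nat_lit 296) (nat_lit 271) (nat_lit 213)))) (XT.nd (nat_lit 156) (nat_lit 760) (nat_lit 0) (XT.nd (nat_lit 78) (nat_lit 0) (nat_lit 0) (XT.lf (nat_lit 0) (nat_lit 2048179713) (nat_lit 380) (nat_lit 2122895551) (nat_lit 456) (nat_lit 10543503625) (nat_lit 107) (nat_lit 5) (nat_lit 112) (nat_lit 5) (nat_lit 113) (nat_lit 5) (nat_lit 297) (nat_lit 271) (nat_lit 212))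 (XT.lf (nat_lit 0) (nat_lit 8565837163) (nat_lit 456) (nat_lit 170094244) (nat_lit 76) (nat_lit 6425161881) (nat_lit 107) (nat_lit 5) (nat_lit 113) (nat_lit 5) (nat_lit 108) (nat_lit 5) (nat_lit 298) (nat_lit 271) (nat_lit 211))) (XT.nd (nat_lit 78) (nat_lit 456) (nat_lit 0) (XT.lf (nat_lit 0) (nat_lit 13125847607) (nat_lit 304) (nat_lit 156098721) (nat_lit 380) (nat_lit 2344979451) (nat_lit 103) (nat_lit 5) (nat_lit 107) (nat_lit 5) (nat_lit 108) (nat_lit 5) (nat_lit 299) (nat_lit 271) (nat_lit 210)) (XT.lf (nat_lit 0) (nat_lit 2226463438) (nat_lit 456) (nat_lit 5088305280) (nat_lit 76) (nat_lit 8796208676) (nat_lit 97) (nat_lit 5) (nat_lit 103) (nat_lit 5) (nat_lit 98) (nat_lit 5) (nat_lit 300) (nat_lit 271) (nat_lit 209))))) (XT.nd (nat_lit 234) (nat_lit 912) (nat_lit 0) (XT.nd (nat_lit 78) (nat_lit 684) (nat_lit 0) (XT.lf (nat_lit 0) (nat_lit 7062965873) (nat_lit 380) (nat_lit 7889893841)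 (nat_lit 76) (nat_lit 1663161583) (nat_lit 93) (nat_lit 5) (nat_lit 98) (nat_lit 5) (nat_lit 94) (nat_lit 5) (nat_lit 301) (nat_lit 271) (nat_lit 208)) (XT.nd (nat_lit 78) (nat_lit 380) (nat_lit 0) (XT.lf (nat_lit 0) (nat_lit 6181066411) (nat_lit 304) (nat_lit 6104355220) (nat_lit 380) (nat_lit 4856606008) (nat_lit 89) (nat_lit 5) (nat_lit 93) (nat_lit 5) (nat_lit 94) (nat_lit 5) (nat_lit 302) (nat_lit 271) (nat_lit 207)) (XT.lf (nat_lit 0) (nat_lit 178900186) (nat_lit 380) (nat_lit 14286897022) (nat_lit 76) (nat_lit 3225376339) (nat_lit 84) (nat_lit 5) (nat_lit 89) (nat_lit 5) (nat_lit 85) (nat_lit 5) (nat_lit 303) (nat_lit 271) (nat_lit 206)))) (XT.nd (nat_lit 156) (nat_lit 608) (nat_lit 0) (XT.nd (nat_lit 78) (nat_lit 0) (nat_lit 0) (XT.lf (nat_lit 0) (nat_lit 289668506) (nat_lit 304) (nat_lit 5215625121) (nat_lit 380) (nat_lit 12756883968) (nat_lit 80) (nat_lit 5) (nat_lit 84) (nat_lit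 5) (nat_lit 85) (nat_lit 5) (nat_lit 304) (nat_lit 271) (nat_lit 205)) (XT.lf (nat_lit 0) (nat_lit 11251237131) (nat_lit 380) (nat_lit 3064454015) (nat_lit 76) (nat_lit 4541472377) (nat_lit 80) (nat_lit 5) (nat_lit 85) (nat_lit 5) (nat_lit 81) (nat_lit 5) (nat_lit 305) (nat_lit 271) (nat_lit 204))) (XT.nd (nat_lit 78) (nat_lit 380) (nat_lit 0) (XT.lf (nat_lit 0) (nat_lit 12731400398) (nat_lit 228) (nat_lit 4691411315) (nat_lit 304) (nat_lit 2054964245) (nat_lit 77) (nat_lit 5) (nat_lit 80) (nat_lit 5) (nat_lit 81) (nat_lit 5) (nat_lit 306) (nat_lit 271) (nat_lit 203)) (XT.lf (nat_lit 0) (nat_lit 3839233975) (nat_lit 380) (nat_lit 10833432516) (nat_lit 76) (nat_lit 5451509789) (nat_lit 72) (nat_lit 5) (nat_lit 77) (nat_lit 5) (nat_lit 73) (nat_lit 5) (nat_lit 307) (nat_lit 271) (nat_lit 202)))))) (XT.nd (nat_lit 546) (nat_lit 1064) (nat_lit 0) (XT.nd (nat_lit 234) (nat_lit 684) (nat_lit 0)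 (XT.nd (nat_lit 78) (nat_lit 304) (nat_lit 0) (XT.lf (nat_lit 0) (nat_lit 5455563112) (nat_lit 228) (nat_lit 4665641144) (nat_lit 304) (nat_lit 10677039095) (nat_lit 69) (nat_lit 5) (nat_lit 72) (nat_lit 5) (nat_lit 73) (nat_lit 5) (nat_lit 308) (nat_lit 271) (nat_lit 201)) (XT.nd (nat_lit 78) (nat_lit 76) (nat_lit 0) (XT.lf (nat_lit 0) (nat_lit 1197458568) (nat_lit 228) (nat_lit 15666349082) (nat_lit 304) (nat_lit 4637832925) (nat_lit 66) (nat_lit 5) (nat_lit 69) (nat_lit 5) (nat_lit 70) (nat_lit 5) (nat_lit 309) (nat_lit 271) (nat_lit 200)) (XT.lf (nat_lit 0) (nat_lit 1843718016) (nat_lit 304) (nat_lit 3465858473) (nat_lit 76) (nat_lit 16924952401) (nat_lit 65) (nat_lit 5) (nat_lit 69) (nat_lit 5) (nat_lit 66) (nat_lit 5) (nat_lit 310) (nat_lit 271) (nat_lit 199)))) (XT.nd (nat_lit 156) (nat_lit 228) (nat_lit 0) (XT.nd (nat_lit 78) (nat_lit 228) (nat_lit 0) (XT.lf (nat_lit 0) (nat_lit 8716511602)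 (nat_lit 304) (nat_lit 8654232736) (nat_lit 76) (nat_lit 5627067342) (nat_lit 62) (nat_lit 5) (nat_lit 66) (nat_lit 5) (nat_lit 63) (nat_lit 5) (nat_lit 311) (nat_lit 271) (nat_lit 198)) (XT.lf (nat_lit 0) (nat_lit 9399639079) (nat_lit 228) (nat_lit 6682768624) (nat_lit 304) (nat_lit 7712386171) (nat_lit 59) (nat_lit 5) (nat_lit 62) (nat_lit 5) (nat_lit 63) (nat_lit 5) (nat_lit 312) (nat_lit 271) (nat_lit 197))) (XT.nd (nat_lit 78) (nat_lit 76) (nat_lit 0) (XT.lf (nat_lit 0) (nat_lit 3892595617) (nat_lit 152) (nat_lit 20065362401) (nat_lit 228) (nat_lit 669444620) (nat_lit 57) (nat_lit 5) (nat_lit 59) (nat_lit 5) (nat_lit 60) (nat_lit 5) (nat_lit 313) (nat_lit 271) (nat_lit 196)) (XT.lf (nat_lit 0) (nat_lit 6782513292) (nat_lit 228) (nat_lit 2281406936) (nat_lit 76) (nat_lit 16430155621) (nat_lit 56) (nat_lit 5) (nat_lit 59) (nat_lit 5) (nat_lit 57) (nat_lit 5) (nat_lit 314) (nat_lit 271)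 (nat_lit 195))))) (XT.nd (nat_lit 234) (nat_lit 380) (nat_lit 0) (XT.nd (nat_lit 78) (nat_lit 456) (nat_lit 0) (XT.lf (nat_lit 0) (nat_lit 14758314027) (nat_lit 304) (nat_lit 9042066089) (nat_lit 76) (nat_lit 2598567122) (nat_lit 53) (nat_lit 5) (nat_lit 57) (nat_lit 5) (nat_lit 54) (nat_lit 5) (nat_lit 315) (nat_lit 271) (nat_lit 194)) (XT.nd (nat_lit 78) (nat_lit 304) (nat_lit 0) (XT.lf (nat_lit 0) (nat_lit 10751082665) (nat_lit 152) (nat_lit 12573508153) (nat_lit 228) (nat_lit 4018736094) (nat_lit 51) (nat_lit 5) (nat_lit 53) (nat_lit 5) (nat_lit 54) (nat_lit 5) (nat_lit 316) (nat_lit 271) (nat_lit 193)) (XT.lf (nat_lit 0) (nat_lit 3374652819) (nat_lit 228) (nat_lit 632037254) (nat_lit 304) (nat_lit 24324095226) (nat_lit 47) (nat_lit 5) (nat_lit 50) (nat_lit 5) (nat_lit 51) (nat_lit 5) (nat_lit 317) (nat_lit 271) (nat_lit 192)))) (XT.nd (nat_lit 156) (nat_lit 228) (nat_lit 0) (XT.nd (nat_lit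 78) (nat_lit 152) (nat_lit 0) (XT.lf (nat_lit 0) (nat_lit 12612430824) (nat_lit 304) (nat_lit 4874658680) (nat_lit 76) (nat_lit 11871482183) (nat_lit 47) (nat_lit 5) (nat_lit 51) (nat_lit 5) (nat_lit 48) (nat_lit 5) (nat_lit 318) (nat_lit 271) (nat_lit 191)) (XT.lf (nat_lit 0) (nat_lit 16486133181) (nat_lit 152) (nat_lit 5302834798) (nat_lit 228) (nat_lit 8644576962) (nat_lit 45) (nat_lit 5) (nat_lit 47) (nat_lit 5) (nat_lit 48) (nat_lit 5) (nat_lit 319) (nat_lit 271) (nat_lit 190))) (XT.nd (nat_lit 78) (nat_lit 0) (nat_lit 0) (XT.lf (nat_lit 0) (nat_lit 37412455) (nat_lit 228) (nat_lit 24067290006) (nat_lit 76) (nat_lit 7452436367) (nat_lit 42) (nat_lit 5) (nat_lit 45) (nat_lit 5) (nat_lit 43) (nat_lit 5) (nat_lit 320) (nat_lit 271) (nat_lit 189)) (XT.lf (nat_lit 0) (nat_lit 9151714836) (nat_lit 228) (nat_lit 2623211888) (nat_lit 76) (nat_lit 20954119389) (nat_lit 42) (nat_lit 5) (nat_lit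 45) (nat_lit 5) (nat_lit 43) (nat_lit 5) (nat_lit 321) (nat_lit 271) (nat_lit 188))))))))
noncomputable def xc70 : XT := (XT.nd (nat_lit 2106) (nat_lit 456) (nat_lit 0) (XT.nd (nat_lit 1014) (nat_lit 836) (nat_lit 0) (XT.nd (nat_lit 468) (nat_lit 608) (nat_lit 0) (XT.nd (nat_lit 234) (nat_lit 304) (nat_lit 0) (XT.nd (nat_lit 78) (nat_lit 228) (nat_lit 0) (XT.lf (nat_lit 0) (nat_lit 18907361554) (nat_lit 228) (nat_lit 13716173906) (nat_lit 76) (nat_lit 1330455186) (nat_lit 40) (nat_lit 5) (nat_lit 43) (nat_lit 5) (nat_lit 41) (nat_lit 5) (nat_lit 322) (nat_lit 271) (nat_lit 187)) (XT.nd (nat_lit 78) (nat_lit 76) (nat_lit 0) (XT.lf (nat_lit 0) (nat_lit 9078945845) (nat_lit 152) (nat_lit 20283719643) (nat_lit 228) (nat_lit 5871170918) (nat_lit 38) (nat_lit 5) (nat_lit 40) (nat_lit 5) (nat_lit 41) (nat_lit 5) (nat_lit 323) (nat_lit 271) (nat_lit 186)) (XT.lf (nat_lit 0) (nat_lit 3811175943) (nat_lit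 228) (nat_lit 3346388252) (nat_lit 76) (nat_lit 29415388151) (nat_lit 37) (nat_lit 5) (nat_lit 40) (nat_lit 5) (nat_lit 38) (nat_lit 5) (nat_lit 324) (nat_lit 271) (nat_lit 185)))) (XT.nd (nat_lit 78) (nat_lit 152) (nat_lit 0) (XT.lf (nat_lit 0) (nat_lit 14104494029) (nat_lit 228) (nat_lit 17120618917) (nat_lit 76) (nat_lit 6744727886) (nat_lit 35) (nat_lit 5) (nat_lit 38) (nat_lit 5) (nat_lit 36) (nat_lit 5) (nat_lit 325) (nat_lit 271) (nat_lit 184)) (XT.nd (nat_lit 78) (nat_lit 0) (nat_lit 0) (XT.lf (nat_lit 0) (nat_lit 6917806409) (nat_lit 152) (nat_lit 18148660907) (nat_lit 228) (nat_lit 14365495344) (nat_lit 33) (nat_lit 5) (nat_lit 35) (nat_lit 5) (nat_lit 36) (nat_lit 5) (nat_lit 326) (nat_lit 271) (nat_lit 183)) (XT.lf (nat_lit 0) (nat_lit 32483284026) (nat_lit 152) (nat_lit 4250572579) (nat_lit 228) (nat_lit 4228622637) (nat_lit 33) (nat_lit 5) (nat_lit 35) (nat_lit 5) (nat_lit 36)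 (nat_lit 5) (nat_lit 327) (nat_lit 271) (nat_lit 182))))) (XT.nd (nat_lit 234) (nat_lit 304) (nat_lit 0) (XT.nd (nat_lit 78) (nat_lit 152) (nat_lit 0) (XT.lf (nat_lit 0) (nat_lit 6536597741) (nat_lit 152) (nat_lit 25668795824) (nat_lit 76) (nat_lit 10354885117) (nat_lit 31) (nat_lit 5) (nat_lit 33) (nat_lit 5) (nat_lit 32) (nat_lit 5) (nat_lit 328) (nat_lit 271) (nat_lit 181)) (XT.nd (nat_lit 78) (nat_lit 152) (nat_lit 0) (XT.lf (nat_lit 0) (nat_lit 17866729780) (nat_lit 152) (nat_lit 644876938) (nat_lit 76) (nat_lit 25721689403) (nat_lit 31) (nat_lit 5) (nat_lit 33) (nat_lit 5) (nat_lit 32) (nat_lit 5) (nat_lit 329) (nat_lit 271) (nat_lit 180)) (XT.lf (nat_lit 0) (nat_lit 26110251795) (nat_lit 152) (nat_lit 3887190030) (nat_lit 228) (nat_lit 15985507271) (nat_lit 29) (nat_lit 5) (nat_lit 31) (nat_lit 5) (nat_lit 32) (nat_lit 5) (nat_lit 330) (nat_lit 271) (nat_lit 179)))) (XT.nd (nat_lit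 156) (nat_lit 152) (nat_lit 0) (XT.nd (nat_lit 78) (nat_lit 76) (nat_lit 0) (XT.lf (nat_lit 0) (nat_lit 6381928384) (nat_lit 76) (nat_lit 36514551894) (nat_lit 152) (nat_lit 4918757255) (nat_lit 28) (nat_lit 5) (nat_lit 29) (nat_lit 5) (nat_lit 30) (nat_lit 4) (nat_lit 331) (nat_lit 271) (nat_lit 178)) (XT.lf (nat_lit 0) (nat_lit 6800243178) (nat_lit 152) (nat_lit 15502635525) (nat_lit 76) (nat_lit 27427444815) (nat_lit 27) (nat_lit 5) (nat_lit 29) (nat_lit 5) (nat_lit 28) (nat_lit 5) (nat_lit 332) (nat_lit 271) (nat_lit 177))) (XT.nd (nat_lit 78) (nat_lit 0) (nat_lit 0) (XT.lf (nat_lit 0) (nat_lit 11879575578) (nat_lit 152) (nat_lit 7223647435) (nat_lit 228) (nat_lit 32633492825) (nat_lit 25) (nat_lit 5) (nat_lit 27) (nat_lit 5) (nat_lit 28) (nat_lit 5) (nat_lit 333) (nat_lit 271) (nat_lit 176)) (XT.lf (nat_lit 0) (nat_lit 32250264022) (nat_lit 228) (nat_lit 12994850650) (nat_lit 76) (nat_lit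 8591451219) (nat_lit 25) (nat_lit 5) (nat_lit 28) (nat_lit 5) (nat_lit 26) (nat_lit 4) (nat_lit 334) (nat_lit 271) (nat_lit 175)))))) (XT.nd (nat_lit 546) (nat_lit 228) (nat_lit 0) (XT.nd (nat_lit 234) (nat_lit 304) (nat_lit 0) (XT.nd (nat_lit 78) (nat_lit 228) (nat_lit 0) (XT.lf (nat_lit 0) (nat_lit 15412951421) (nat_lit 76) (nat_lit 30848475308) (nat_lit 152) (nat_lit 9773783851) (nat_lit 24) (nat_lit 5) (nat_lit 25) (nat_lit 5) (nat_lit 26) (nat_lit 4) (nat_lit 335) (nat_lit 271) (nat_lit 174)) (XT.nd (nat_lit 78) (nat_lit 152) (nat_lit 0) (XT.lf (nat_lit 0) (nat_lit 2699148849) (nat_lit 152) (nat_lit 12878684079) (nat_lit 76) (nat_lit 42761568240) (nat_lit 23) (nat_lit 5) (nat_lit 25) (nat_lit 5) (nat_lit 24) (nat_lit 5) (nat_lit 336) (nat_lit 271) (nat_lit 173)) (XT.lf (nat_lit 0) (nat_lit 15747100632) (nat_lit 228) (nat_lit 44307716382) (nat_lit 76) (nat_lit 696480489) (nat_lit 21)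 (nat_lit 5) (nat_lit 24) (nat_lit 5) (nat_lit 22) (nat_lit 4) (nat_lit 337) (nat_lit 271) (nat_lit 172)))) (XT.nd (nat_lit 156) (nat_lit 228) (nat_lit 0) (XT.nd (nat_lit 78) (nat_lit 76) (nat_lit 0) (XT.lf (nat_lit 0) (nat_lit 29725551055) (nat_lit 228) (nat_lit 15960696823) (nat_lit 76) (nat_lit 17589202123) (nat_lit 21) (nat_lit 5) (nat_lit 24) (nat_lit 5) (nat_lit 22) (nat_lit 4) (nat_lit 338) (nat_lit 271) (nat_lit 171)) (XT.lf (nat_lit 0) (nat_lit 14055637300) (nat_lit 76) (nat_lit 30470000844) (nat_lit 152) (nat_lit 21396494728) (nat_lit 20) (nat_lit 5) (nat_lit 21) (nat_lit 5) (nat_lit 22) (nat_lit 4) (nat_lit 339) (nat_lit 271) (nat_lit 170))) (XT.nd (nat_lit 78) (nat_lit 228) (nat_lit 0) (XT.lf (nat_lit 0) (nat_lit 45884646813) (nat_lit 76) (nat_lit 14333368838) (nat_lit 152) (nat_lit 8478569626) (nat_lit 20) (nat_lit 5) (nat_lit 21) (nat_lit 5) (nat_lit 22) (nat_lit 4) (nat_lit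 340) (nat_lit 271) (nat_lit 169)) (XT.lf (nat_lit 0) (nat_lit 5075445232) (nat_lit 228) (nat_lit 63855272470) (nat_lit 76) (nat_lit 2674897044) (nat_lit 17) (nat_lit 5) (nat_lit 20) (nat_lit 5) (nat_lit 18) (nat_lit 4) (nat_lit 341) (nat_lit 271) (nat_lit 168))))) (XT.nd (nat_lit 234) (nat_lit 152) (nat_lit 0) (XT.nd (nat_lit 78) (nat_lit 76) (nat_lit 0) (XT.lf (nat_lit 0) (nat_lit 19503973298) (nat_lit 228) (nat_lit 34588711508) (nat_lit 76) (nat_lit 20553731125) (nat_lit 17) (nat_lit 5) (nat_lit 20) (nat_lit 5) (nat_lit 18) (nat_lit 4) (nat_lit 342) (nat_lit 271) (nat_lit 167)) (XT.nd (nat_lit 78) (nat_lit 76) (nat_lit 0) (XT.lf (nat_lit 0) (nat_lit 34643173755) (nat_lit 228) (nat_lit 3878373639) (nat_lit 76) (nat_lit 39318035733) (nat_lit 17) (nat_lit 5) (nat_lit 20) (nat_lit 5) (nat_lit 18) (nat_lit 4) (nat_lit 343) (nat_lit 271) (nat_lit 166)) (XT.lf (nat_lit 0) (nat_lit 28913058908)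 (nat_lit 76) (nat_lit 21893963421) (nat_lit 152) (nat_lit 30377358884) (nat_lit 16) (nat_lit 5) (nat_lit 17) (nat_lit 5) (nat_lit 18) (nat_lit 4) (nat_lit 344) (nat_lit 271) (nat_lit 165)))) (XT.nd (nat_lit 156) (nat_lit 76) (nat_lit 0) (XT.nd (nat_lit 78) (nat_lit 76) (nat_lit 0) (XT.lf (nat_lit 0) (nat_lit 63407023294) (nat_lit 76) (nat_lit 4402036408) (nat_lit 152) (nat_lit 16886462631) (nat_lit 16) (nat_lit 5) (nat_lit 17) (nat_lit 5) (nat_lit 18) (nat_lit 4) (nat_lit 345) (nat_lit 271) (nat_lit 164)) (XT.lf (nat_lit 0) (nat_lit 11312541646) (nat_lit 76) (nat_lit 74582105574) (nat_lit 76) (nat_lit 2480572720) (nat_lit 15) (nat_lit 4) (nat_lit 16) (nat_lit 5) (nat_lit 16) (nat_lit 4) (nat_lit 346) (nat_lit 271) (nat_lit 163))) (XT.nd (nat_lit 78) (nat_lit 0) (nat_lit 0) (XT.lf (nat_lit 0) (nat_lit 12655264002) (nat_lit 152) (nat_lit 46429110160) (nat_lit 76) (nat_lit 33143191793) (nat_lit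 14) (nat_lit 5) (nat_lit 16) (nat_lit 5) (nat_lit 15) (nat_lit 4) (nat_lit 347) (nat_lit 271) (nat_lit 162)) (XT.lf (nat_lit 0) (nat_lit 28488178693) (nat_lit 152) (nat_lit 14305210701) (nat_lit 76) (nat_lit 53478657961) (nat_lit 14) (nat_lit 5) (nat_lit 16) (nat_lit 5) (nat_lit 15) (nat_lit 4) (nat_lit 348) (nat_lit 271) (nat_lit 161))))))) (XT.nd (nat_lit 34632) (nat_lit 0) (nat_lit 12920) (XT.nd (nat_lit 546) (nat_lit 152) (nat_lit 0) (XT.nd (nat_lit 234) (nat_lit 228) (nat_lit 0) (XT.nd (nat_lit 78) (nat_lit 0) (nat_lit 0) (XT.lf (nat_lit 0) (nat_lit 19795634466) (nat_lit 76) (nat_lit 25498926958) (nat_lit 152) (nat_lit 55218739148) (nat_lit 13) (nat_lit 5) (nat_lit 14) (nat_lit 5) (nat_lit 15) (nat_lit 4) (nat_lit 349) (nat_lit 271) (nat_lit 160)) (XT.nd (nat_lit 78) (nat_lit 0) (nat_lit 0) (XT.lf (nat_lit 0) (nat_lit 55885370592) (nat_lit 76) (nat_lit 7194944858) (nat_lit 152) (nat_lit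 41882131731) (nat_lit 13) (nat_lit 5) (nat_lit 14) (nat_lit 5) (nat_lit 15) (nat_lit 4) (nat_lit 350) (nat_lit 271) (nat_lit 159)) (XT.lf (nat_lit 0) (nat_lit 81863061965) (nat_lit 152) (nat_lit 15984585255) (nat_lit 0) (nat_lit 11783174947) (nat_lit 13) (nat_lit 5) (nat_lit 15) (nat_lit 4) (nat_lit 13) (nat_lit 4) (nat_lit 351) (nat_lit 271) (nat_lit 158)))) (XT.nd (nat_lit 156) (nat_lit 76) (nat_lit 0) (XT.nd (nat_lit 78) (nat_lit 76) (nat_lit 0) (XT.lf (nat_lit 0) (nat_lit 19047749727) (nat_lit 76) (nat_lit 82785410710) (nat_lit 76) (nat_lit 12692011112) (nat_lit 12) (nat_lit 4) (nat_lit 13) (nat_lit 5) (nat_lit 13) (nat_lit 4) (nat_lit 352) (nat_lit 271) (nat_lit 157)) (XT.lf (nat_lit 0) (nat_lit 3235127111) (nat_lit 152) (nat_lit 63538960684) (nat_lit 76) (nat_lit 52884482954) (nat_lit 11) (nat_lit 5) (nat_lit 13) (nat_lit 5) (nat_lit 12) (nat_lit 4) (nat_lit 353) (nat_lit 271) (nat_lit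 156))) (XT.nd (nat_lit 78) (nat_lit 76) (nat_lit 0) (XT.lf (nat_lit 0) (nat_lit 19691571786) (nat_lit 152) (nat_lit 30144634303) (nat_lit 76) (nat_lit 75208802560) (nat_lit 11) (nat_lit 5) (nat_lit 13) (nat_lit 5) (nat_lit 12) (nat_lit 4) (nat_lit 354) (nat_lit 271) (nat_lit 155)) (XT.lf (nat_lit 0) (nat_lit 5004731332) (nat_lit 76) (nat_lit 32007548981) (nat_lit 152) (nat_lit 93687246630) (nat_lit 10) (nat_lit 5) (nat_lit 11) (nat_lit 5) (nat_lit 12) (nat_lit 4) (nat_lit 355) (nat_lit 271) (nat_lit 154))))) (XT.nd (nat_lit 234) (nat_lit 152) (nat_lit 0) (XT.nd (nat_lit 78) (nat_lit 0) (nat_lit 0) (XT.lf (nat_lit 0) (nat_lit 42529515694) (nat_lit 76) (nat_lit 12973356340) (nat_lit 152) (nat_lit 81124785349) (nat_lit 10) (nat_lit 5) (nat_lit 11) (nat_lit 5) (nat_lit 12) (nat_lit 4) (nat_lit 356) (nat_lit 271) (nat_lit 153)) (XT.nd (nat_lit 78) (nat_lit 0) (nat_lit 0) (XT.lf (nat_lit 0) (nat_lit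 74979194895) (nat_lit 152) (nat_lit 61000612813) (nat_lit 0) (nat_lit 6870552178) (nat_lit 10) (nat_lit 5) (nat_lit 12) (nat_lit 4) (nat_lit 10) (nat_lit 4) (nat_lit 357) (nat_lit 271) (nat_lit 152)) (XT.lf (nat_lit 0) (nat_lit 95554365384) (nat_lit 152) (nat_lit 26390149635) (nat_lit 0) (nat_lit 27435933061) (nat_lit 10) (nat_lit 5) (nat_lit 12) (nat_lit 4) (nat_lit 10) (nat_lit 4) (nat_lit 358) (nat_lit 271) (nat_lit 151)))) (XT.nd (nat_lit 156) (nat_lit 76) (nat_lit 0) (XT.nd (nat_lit 78) (nat_lit 0) (nat_lit 0) (XT.lf (nat_lit 0) (nat_lit 10138194230) (nat_lit 76) (nat_lit 107111924461) (nat_lit 76) (nat_lit 38984168702) (nat_lit 9) (nat_lit 4) (nat_lit 10) (nat_lit 5) (nat_lit 10) (nat_lit 4) (nat_lit 359) (nat_lit 271) (nat_lit 150)) (XT.lf (nat_lit 0) (nat_lit 49034256911) (nat_lit 76) (nat_lit 91262606125) (nat_lit 76) (nat_lit 23125970904) (nat_lit 9) (nat_lit 4) (nat_lit 10) (nat_lit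 5) (nat_lit 10) (nat_lit 4) (nat_lit 360) (nat_lit 271) (nat_lit 149))) (XT.nd (nat_lit 78) (nat_lit 76) (nat_lit 0) (XT.lf (nat_lit 0) (nat_lit 89865432357) (nat_lit 76) (nat_lit 74625312306) (nat_lit 76) (nat_lit 6480220455) (nat_lit 9) (nat_lit 4) (nat_lit 10) (nat_lit 5) (nat_lit 10) (nat_lit 4) (nat_lit 361) (nat_lit 271) (nat_lit 148)) (XT.lf (nat_lit 0) (nat_lit 10778207913) (nat_lit 152) (nat_lit 46273383721) (nat_lit 76) (nat_lit 121841890973) (nat_lit 8) (nat_lit 5) (nat_lit 10) (nat_lit 5) (nat_lit 9) (nat_lit 4) (nat_lit 362) (nat_lit 271) (nat_lit 147)))))) (XT.nd (nat_lit 546) (nat_lit 3724) (nat_lit 0) (XT.nd (nat_lit 234) (nat_lit 836) (nat_lit 0) (XT.nd (nat_lit 78) (nat_lit 0) (nat_lit 0) (XT.lf (nat_lit 0) (nat_lit 950750720) (nat_lit 988) (nat_lit 1559577583) (nat_lit 988) (nat_lit 1559577583) (nat_lit 238) (nat_lit 3) (nat_lit 251) (nat_lit 3) (nat_lit 251) (nat_lit 5)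 (nat_lit 272) (nat_lit 272) (nat_lit 236)) (XT.nd (nat_lit 78) (nat_lit 0) (nat_lit 76) (XT.lf (nat_lit 76) (nat_lit 3149123653) (nat_lit 0) (nat_lit 636655328) (nat_lit 988) (nat_lit 4499980621) (nat_lit 239) (nat_lit 5) (nat_lit 238) (nat_lit 3) (nat_lit 251) (nat_lit 5) (nat_lit 273) (nat_lit 272) (nat_lit 235)) (XT.lf (nat_lit 76) (nat_lit 1279482970) (nat_lit 0) (nat_lit 4451953723) (nat_lit 988) (nat_lit 2708709669) (nat_lit 240) (nat_lit 5) (nat_lit 239) (nat_lit 5) (nat_lit 252) (nat_lit 5) (nat_lit 274) (nat_lit 272) (nat_lit 234)))) (XT.nd (nat_lit 156) (nat_lit 0) (nat_lit 76) (XT.nd (nat_lit 78) (nat_lit 988) (nat_lit 0) (XT.lf (nat_lit 0) (nat_lit 7726014882) (nat_lit 912) (nat_lit 553067901) (nat_lit 988) (nat_lit 324769624) (nat_lit 240) (nat_lit 5) (nat_lit 252) (nat_lit 5) (nat_lit 253) (nat_lit 5) (nat_lit 275) (nat_lit 272) (nat_lit 233)) (XT.lf (nat_lit 0) (nat_lit 1025459744)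 (nat_lit 988) (nat_lit 2384885975) (nat_lit 1064) (nat_lit 5365196689) (nat_lit 227) (nat_lit 5) (nat_lit 240) (nat_lit 5) (nat_lit 241) (nat_lit 5) (nat_lit 276) (nat_lit 272) (nat_lit 232))) (XT.nd (nat_lit 78) (nat_lit 0) (nat_lit 0) (XT.lf (nat_lit 0) (nat_lit 2972935597) (nat_lit 988) (nat_lit 4217312388) (nat_lit 1064) (nat_lit 1766424396) (nat_lit 228) (nat_lit 5) (nat_lit 241) (nat_lit 5) (nat_lit 242) (nat_lit 5) (nat_lit 277) (nat_lit 272) (nat_lit 231)) (XT.lf (nat_lit 76) (nat_lit 3083290522) (nat_lit 0) (nat_lit 1926137680) (nat_lit 1064) (nat_lit 4137806386) (nat_lit 229) (nat_lit 5) (nat_lit 228) (nat_lit 5) (nat_lit 242) (nat_lit 5) (nat_lit 278) (nat_lit 272) (nat_lit 230))))) (XT.nd (nat_lit 234) (nat_lit 2888) (nat_lit 0) (XT.nd (nat_lit 78) (nat_lit 988) (nat_lit 0) (XT.lf (nat_lit 76) (nat_lit 1416569859) (nat_lit 0) (nat_lit 5730339456) (nat_lit 1064) (nat_lit 2200559745)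 (nat_lit 230) (nat_lit 5) (nat_lit 229) (nat_lit 5) (nat_lit 243) (nat_lit 5) (nat_lit 279) (nat_lit 272) (nat_lit 229)) (XT.nd (nat_lit 78) (nat_lit 988) (nat_lit 0) (XT.lf (nat_lit 76) (nat_lit 9312865891) (nat_lit 0) (nat_lit 70957116) (nat_lit 1064) (nat_lit 174228894) (nat_lit 230) (nat_lit 5) (nat_lit 229) (nat_lit 5) (nat_lit 243) (nat_lit 5) (nat_lit 280) (nat_lit 272) (nat_lit 228)) (XT.lf (nat_lit 0) (nat_lit 1962974723) (nat_lit 1064) (nat_lit 1940316217) (nat_lit 1140) (nat_lit 5873984242) (nat_lit 216) (nat_lit 5) (nat_lit 230) (nat_lit 5) (nat_lit 231) (nat_lit 5) (nat_lit 281) (nat_lit 272) (nat_lit 227)))) (XT.nd (nat_lit 156) (nat_lit 1900) (nat_lit 0) (XT.nd (nat_lit 78) (nat_lit 1064) (nat_lit 0) (XT.lf (nat_lit 0) (nat_lit 4206985510) (nat_lit 1064) (nat_lit 3650975077) (nat_lit 76) (nat_lit 2149440643) (nat_lit 217) (nat_lit 5) (nat_lit 231) (nat_lit 5) (nat_lit 218)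 (nat_lit 5) (nat_lit 282) (nat_lit 272) (nat_lit 226)) (XT.lf (nat_lit 0) (nat_lit 4849621047) (nat_lit 1064) (nat_lit 1741089038) (nat_lit 1140) (nat_lit 3657593205) (nat_lit 203) (nat_lit 5) (nat_lit 217) (nat_lit 5) (nat_lit 218) (nat_lit 5) (nat_lit 283) (nat_lit 272) (nat_lit 225))) (XT.nd (nat_lit 78) (nat_lit 760) (nat_lit 0) (XT.lf (nat_lit 0) (nat_lit 3304396134) (nat_lit 1140) (nat_lit 5828522836) (nat_lit 1216) (nat_lit 1367243117) (nat_lit 188) (nat_lit 5) (nat_lit 203) (nat_lit 5) (nat_lit 204) (nat_lit 5) (nat_lit 284) (nat_lit 272) (nat_lit 224)) (XT.lf (nat_lit 0) (nat_lit 1041185350) (nat_lit 760) (nat_lit 9038162377) (nat_lit 76) (nat_lit 684336361) (nat_lit 178) (nat_lit 5) (nat_lit 188) (nat_lit 5) (nat_lit 179) (nat_lit 5) (nat_lit 285) (nat_lit 272) (nat_lit 223))))))))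
noncomputable def xc71 : XT := (XT.nd (nat_lit 2184) (nat_lit 2964) (nat_lit 0) (XT.nd (nat_lit 1092) (nat_lit 3344) (nat_lit 0) (XT.nd (nat_lit 546) (nat_lit 2508) (nat_lit 0) (XT.nd (nat_lit 234) (nat_lit 2052) (nat_lit 0) (XT.nd (nat_lit 78) (nat_lit 532) (nat_lit 0) (XT.lf (nat_lit 0) (nat_lit 66884732) (nat_lit 608) (nat_lit 3539100335) (nat_lit 684) (nat_lit 7432143980) (nat_lit 170) (nat_lit 5) (nat_lit 178) (nat_lit 5) (nat_lit 179) (nat_lit 5) (nat_lit 286) (nat_lit 272) (nat_lit 222)) (XT.nd (nat_lit 78) (nat_lit 532) (nat_lit 0) (XT.lf (nat_lit 0) (nat_lit 6357425592) (nat_lit 684) (nat_lit 1606745520) (nat_lit 76) (nat_lit 3360449083) (nat_lit 170) (nat_lit 5) (nat_lit 179) (nat_lit 5) (nat_lit 171) (nat_lit 5) (nat_lit 287) (nat_lit 272) (nat_lit 221)) (XT.lf (nat_lit 0) (nat_lit 8288780047) (nat_lit 532) (nat_lit 1008720129) (nat_lit 608) (nat_lit 2326476210) (nat_lit 163) (nat_lit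 5) (nat_lit 170) (nat_lit 5) (nat_lit 171) (nat_lit 5) (nat_lit 288) (nat_lit 272) (nat_lit 220)))) (XT.nd (nat_lit 156) (nat_lit 988) (nat_lit 0) (XT.nd (nat_lit 78) (nat_lit 456) (nat_lit 0) (XT.lf (nat_lit 0) (nat_lit 518856296) (nat_lit 608) (nat_lit 5157829014) (nat_lit 76) (nat_lit 6259114678) (nat_lit 155) (nat_lit 5) (nat_lit 163) (nat_lit 5) (nat_lit 156) (nat_lit 5) (nat_lit 289) (nat_lit 272) (nat_lit 219)) (XT.lf (nat_lit 0) (nat_lit 3510049577) (nat_lit 532) (nat_lit 7068851384) (nat_lit 76) (nat_lit 1682135209) (nat_lit 149) (nat_lit 5) (nat_lit 156) (nat_lit 5) (nat_lit 150) (nat_lit 5) (nat_lit 290) (nat_lit 272) (nat_lit 218))) (XT.nd (nat_lit 78) (nat_lit 456) (nat_lit 0) (XT.lf (nat_lit 0) (nat_lit 3514550152) (nat_lit 532) (nat_lit 3223044734) (nat_lit 608) (nat_lit 5862396179) (nat_lit 142) (nat_lit 5) (nat_lit 149) (nat_lit 5) (nat_lit 150) (nat_lit 5) (nat_lit 291)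 (nat_lit 272) (nat_lit 217)) (XT.lf (nat_lit 0) (nat_lit 1748636467) (nat_lit 456) (nat_lit 8455653304) (nat_lit 532) (nat_lit 2749328554) (nat_lit 136) (nat_lit 5) (nat_lit 142) (nat_lit 5) (nat_lit 143) (nat_lit 5) (nat_lit 292) (nat_lit 272) (nat_lit 216))))) (XT.nd (nat_lit 234) (nat_lit 1596) (nat_lit 0) (XT.nd (nat_lit 78) (nat_lit 836) (nat_lit 0) (XT.lf (nat_lit 0) (nat_lit 581939472) (nat_lit 532) (nat_lit 108264919) (nat_lit 76) (nat_lit 12632445740) (nat_lit 135) (nat_lit 5) (nat_lit 142) (nat_lit 5) (nat_lit 136) (nat_lit 5) (nat_lit 293) (nat_lit 272) (nat_lit 215)) (XT.nd (nat_lit 78) (nat_lit 380) (nat_lit 0) (XT.lf (nat_lit 0) (nat_lit 4157102878) (nat_lit 532) (nat_lit 2096068714) (nat_lit 76) (nat_lit 7452170424) (nat_lit 129) (nat_lit 5) (nat_lit 136) (nat_lit 5) (nat_lit 130) (nat_lit 5) (nat_lit 294) (nat_lit 272) (nat_lit 214)) (XT.lf (nat_lit 0) (nat_lit 7983698413)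 (nat_lit 456) (nat_lit 4188627536) (nat_lit 76) (nat_lit 1932710792) (nat_lit 124) (nat_lit 5) (nat_lit 130) (nat_lit 5) (nat_lit 125) (nat_lit 5) (nat_lit 295) (nat_lit 272) (nat_lit 213)))) (XT.nd (nat_lit 156) (nat_lit 684) (nat_lit 0) (XT.nd (nat_lit 78) (nat_lit 456) (nat_lit 0) (XT.lf (nat_lit 0) (nat_lit 8085172864) (nat_lit 456) (nat_lit 4030938711) (nat_lit 532) (nat_lit 2405216148) (nat_lit 118) (nat_lit 5) (nat_lit 124) (nat_lit 5) (nat_lit 125) (nat_lit 5) (nat_lit 296) (nat_lit 272) (nat_lit 212)) (XT.lf (nat_lit 0) (nat_lit 1567758140) (nat_lit 456) (nat_lit 8850405653) (nat_lit 76) (nat_lit 4536872954) (nat_lit 112) (nat_lit 5) (nat_lit 118) (nat_lit 5) (nat_lit 113) (nat_lit 5) (nat_lit 297) (nat_lit 272) (nat_lit 211))) (XT.nd (nat_lit 78) (nat_lit 304) (nat_lit 0) (XT.lf (nat_lit 0) (nat_lit 3952574522) (nat_lit 380) (nat_lit 1837809866) (nat_lit 456) (nat_lit 9616350655)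 (nat_lit 107) (nat_lit 5) (nat_lit 112) (nat_lit 5) (nat_lit 113) (nat_lit 5) (nat_lit 298) (nat_lit 272) (nat_lit 210)) (XT.lf (nat_lit 0) (nat_lit 1606849674) (nat_lit 304) (nat_lit 8749883566) (nat_lit 380) (nat_lit 5520345986) (nat_lit 103) (nat_lit 5) (nat_lit 107) (nat_lit 5) (nat_lit 108) (nat_lit 5) (nat_lit 299) (nat_lit 272) (nat_lit 209)))))) (XT.nd (nat_lit 546) (nat_lit 1596) (nat_lit 0) (XT.nd (nat_lit 234) (nat_lit 988) (nat_lit 0) (XT.nd (nat_lit 78) (nat_lit 760) (nat_lit 0) (XT.lf (nat_lit 0) (nat_lit 15247741594) (nat_lit 380) (nat_lit 884516176) (nat_lit 76) (nat_lit 235829455) (nat_lit 103) (nat_lit 5) (nat_lit 108) (nat_lit 5) (nat_lit 104) (nat_lit 5) (nat_lit 300) (nat_lit 272) (nat_lit 208)) (XT.nd (nat_lit 78) (nat_lit 304) (nat_lit 0) (XT.lf (nat_lit 0) (nat_lit 3608755266) (nat_lit 456) (nat_lit 3626214864) (nat_lit 76) (nat_lit 9642378617) (nat_lit 97) (nat_lit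 5) (nat_lit 103) (nat_lit 5) (nat_lit 98) (nat_lit 5) (nat_lit 301) (nat_lit 272) (nat_lit 207)) (XT.lf (nat_lit 0) (nat_lit 8646825153) (nat_lit 380) (nat_lit 6583530928) (nat_lit 76) (nat_lit 2178546421) (nat_lit 93) (nat_lit 5) (nat_lit 98) (nat_lit 5) (nat_lit 94) (nat_lit 5) (nat_lit 302) (nat_lit 272) (nat_lit 206)))) (XT.nd (nat_lit 156) (nat_lit 304) (nat_lit 0) (XT.nd (nat_lit 78) (nat_lit 380) (nat_lit 0) (XT.lf (nat_lit 0) (nat_lit 8142222595) (nat_lit 304) (nat_lit 5945456843) (nat_lit 380) (nat_lit 3874859001) (nat_lit 89) (nat_lit 5) (nat_lit 93) (nat_lit 5) (nat_lit 94) (nat_lit 5) (nat_lit 303) (nat_lit 272) (nat_lit 205)) (XT.lf (nat_lit 0) (nat_lit 1351523766) (nat_lit 380) (nat_lit 13341249169) (nat_lit 76) (nat_lit 3847169617) (nat_lit 84) (nat_lit 5) (nat_lit 89) (nat_lit 5) (nat_lit 85) (nat_lit 5) (nat_lit 304) (nat_lit 272) (nat_lit 204))) (XT.nd (nat_lit 78) (nat_lit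 0) (nat_lit 0) (XT.lf (nat_lit 0) (nat_lit 1916561278) (nat_lit 304) (nat_lit 4987761801) (nat_lit 380) (nat_lit 12236413009) (nat_lit 80) (nat_lit 5) (nat_lit 84) (nat_lit 5) (nat_lit 85) (nat_lit 5) (nat_lit 305) (nat_lit 272) (nat_lit 203)) (XT.lf (nat_lit 0) (nat_lit 12888524626) (nat_lit 380) (nat_lit 1653617113) (nat_lit 76) (nat_lit 5224840625) (nat_lit 80) (nat_lit 5) (nat_lit 85) (nat_lit 5) (nat_lit 81) (nat_lit 5) (nat_lit 306) (nat_lit 272) (nat_lit 202))))) (XT.nd (nat_lit 234) (nat_lit 760) (nat_lit 0) (XT.nd (nat_lit 78) (nat_lit 608) (nat_lit 0) (XT.lf (nat_lit 0) (nat_lit 14887196566) (nat_lit 228) (nat_lit 4444907692) (nat_lit 304) (nat_lit 1087656354) (nat_lit 77) (nat_lit 5) (nat_lit 80) (nat_lit 5) (nat_lit 81) (nat_lit 5) (nat_lit 307) (nat_lit 272) (nat_lit 201)) (XT.nd (nat_lit 78) (nat_lit 228) (nat_lit 0) (XT.lf (nat_lit 0) (nat_lit 5049440969) (nat_lit 380) (nat_lit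 9851961087) (nat_lit 76) (nat_lit 6197733335) (nat_lit 72) (nat_lit 5) (nat_lit 77) (nat_lit 5) (nat_lit 73) (nat_lit 5) (nat_lit 308) (nat_lit 272) (nat_lit 200)) (XT.lf (nat_lit 0) (nat_lit 7207823733) (nat_lit 228) (nat_lit 4403419850) (nat_lit 304) (nat_lit 10196723662) (nat_lit 69) (nat_lit 5) (nat_lit 72) (nat_lit 5) (nat_lit 73) (nat_lit 5) (nat_lit 309) (nat_lit 272) (nat_lit 199)))) (XT.nd (nat_lit 156) (nat_lit 456) (nat_lit 0) (XT.nd (nat_lit 78) (nat_lit 76) (nat_lit 0) (XT.lf (nat_lit 0) (nat_lit 2719101278) (nat_lit 228) (nat_lit 15943607414) (nat_lit 304) (nat_lit 3884705545) (nat_lit 66) (nat_lit 5) (nat_lit 69) (nat_lit 5) (nat_lit 70) (nat_lit 5) (nat_lit 310) (nat_lit 272) (nat_lit 198)) (XT.lf (nat_lit 0) (nat_lit 2855711305) (nat_lit 304) (nat_lit 2228094689) (nat_lit 76) (nat_lit 18234266079) (nat_lit 65) (nat_lit 5) (nat_lit 69) (nat_lit 5) (nat_lit 66) (nat_lit 5)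 (nat_lit 311) (nat_lit 272) (nat_lit 197))) (XT.nd (nat_lit 78) (nat_lit 228) (nat_lit 0) (XT.lf (nat_lit 0) (nat_lit 10046147121) (nat_lit 304) (nat_lit 7693726635) (nat_lit 76) (nat_lit 6380453218) (nat_lit 62) (nat_lit 5) (nat_lit 66) (nat_lit 5) (nat_lit 63) (nat_lit 5) (nat_lit 312) (nat_lit 272) (nat_lit 196)) (XT.lf (nat_lit 0) (nat_lit 11222902464) (nat_lit 228) (nat_lit 6527881754) (nat_lit 304) (nat_lit 7207287389) (nat_lit 59) (nat_lit 5) (nat_lit 62) (nat_lit 5) (nat_lit 63) (nat_lit 5) (nat_lit 313) (nat_lit 272) (nat_lit 195))))))) (XT.nd (nat_lit 1092) (nat_lit 988) (nat_lit 0) (XT.nd (nat_lit 546) (nat_lit 912) (nat_lit 0) (XT.nd (nat_lit 234) (nat_lit 608) (nat_lit 0) (XT.nd (nat_lit 78) (nat_lit 228) (nat_lit 0) (XT.lf (nat_lit 0) (nat_lit 160036358) (nat_lit 228) (nat_lit 20411767751) (nat_lit 76) (nat_lit 5261200248) (nat_lit 56) (nat_lit 5) (nat_lit 59) (nat_lit 5) (nat_lit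 57) (nat_lit 5) (nat_lit 314) (nat_lit 272) (nat_lit 194)) (XT.nd (nat_lit 78) (nat_lit 228) (nat_lit 0) (XT.lf (nat_lit 0) (nat_lit 7930435881) (nat_lit 228) (nat_lit 1106884184) (nat_lit 76) (nat_lit 17706725179) (nat_lit 56) (nat_lit 5) (nat_lit 59) (nat_lit 5) (nat_lit 57) (nat_lit 5) (nat_lit 315) (nat_lit 272) (nat_lit 193)) (XT.lf (nat_lit 0) (nat_lit 16283055792) (nat_lit 304) (nat_lit 8223107632) (nat_lit 76) (nat_lit 3188678307) (nat_lit 53) (nat_lit 5) (nat_lit 57) (nat_lit 5) (nat_lit 54) (nat_lit 5) (nat_lit 316) (nat_lit 272) (nat_lit 192)))) (XT.nd (nat_lit 156) (nat_lit 152) (nat_lit 0) (XT.nd (nat_lit 78) (nat_lit 304) (nat_lit 0) (XT.lf (nat_lit 0) (nat_lit 12523263829) (nat_lit 152) (nat_lit 12728782675) (nat_lit 228) (nat_lit 3435183220) (nat_lit 51) (nat_lit 5) (nat_lit 53) (nat_lit 5) (nat_lit 54) (nat_lit 5) (nat_lit 317) (nat_lit 272) (nat_lit 191)) (XT.lf (nat_lit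 0) (nat_lit 4757894010) (nat_lit 228) (nat_lit 193358937) (nat_lit 304) (nat_lit 24773350176) (nat_lit 47) (nat_lit 5) (nat_lit 50) (nat_lit 5) (nat_lit 51) (nat_lit 5) (nat_lit 318) (nat_lit 272) (nat_lit 190))) (XT.nd (nat_lit 78) (nat_lit 152) (nat_lit 0) (XT.lf (nat_lit 0) (nat_lit 13956146642) (nat_lit 304) (nat_lit 3944382690) (nat_lit 76) (nat_lit 12904202311) (nat_lit 47) (nat_lit 5) (nat_lit 51) (nat_lit 5) (nat_lit 48) (nat_lit 5) (nat_lit 319) (nat_lit 272) (nat_lit 189)) (XT.lf (nat_lit 0) (nat_lit 18450796034) (nat_lit 152) (nat_lit 5117719552) (nat_lit 228) (nat_lit 8365645721) (nat_lit 45) (nat_lit 5) (nat_lit 47) (nat_lit 5) (nat_lit 48) (nat_lit 5) (nat_lit 320) (nat_lit 272) (nat_lit 188))))) (XT.nd (nat_lit 234) (nat_lit 532) (nat_lit 0) (XT.nd (nat_lit 78) (nat_lit 152) (nat_lit 0) (XT.lf (nat_lit 0) (nat_lit 718435572) (nat_lit 228) (nat_lit 24132885900) (nat_lit 76)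 (nat_lit 8262968790) (nat_lit 42) (nat_lit 5) (nat_lit 45) (nat_lit 5) (nat_lit 43) (nat_lit 5) (nat_lit 321) (nat_lit 272) (nat_lit 187)) (XT.nd (nat_lit 78) (nat_lit 152) (nat_lit 0) (XT.lf (nat_lit 0) (nat_lit 10256112477) (nat_lit 228) (nat_lit 1670783333) (nat_lit 76) (nat_lit 22418883077) (nat_lit 42) (nat_lit 5) (nat_lit 45) (nat_lit 5) (nat_lit 43) (nat_lit 5) (nat_lit 322) (nat_lit 272) (nat_lit 186)) (XT.lf (nat_lit 0) (nat_lit 20482957322) (nat_lit 228) (nat_lit 13334469097) (nat_lit 76) (nat_lit 1815056763) (nat_lit 40) (nat_lit 5) (nat_lit 43) (nat_lit 5) (nat_lit 41) (nat_lit 5) (nat_lit 323) (nat_lit 272) (nat_lit 185)))) (XT.nd (nat_lit 156) (nat_lit 304) (nat_lit 0) (XT.nd (nat_lit 78) (nat_lit 76) (nat_lit 0) (XT.lf (nat_lit 0) (nat_lit 10569806582) (nat_lit 152) (nat_lit 20871176474) (nat_lit 228) (nat_lit 5535953768) (nat_lit 38) (nat_lit 5) (nat_lit 40) (nat_lit 5) (nat_lit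 41) (nat_lit 5) (nat_lit 324) (nat_lit 272) (nat_lit 184)) (XT.lf (nat_lit 0) (nat_lit 4588883327) (nat_lit 228) (nat_lit 2514221313) (nat_lit 76) (nat_lit 31280616535) (nat_lit 37) (nat_lit 5) (nat_lit 40) (nat_lit 5) (nat_lit 38) (nat_lit 5) (nat_lit 325) (nat_lit 272) (nat_lit 183))) (XT.nd (nat_lit 78) (nat_lit 152) (nat_lit 0) (XT.lf (nat_lit 0) (nat_lit 15382107431) (nat_lit 228) (nat_lit 16992373499) (nat_lit 76) (nat_lit 7476428541) (nat_lit 35) (nat_lit 5) (nat_lit 38) (nat_lit 5) (nat_lit 36) (nat_lit 5) (nat_lit 326) (nat_lit 272) (nat_lit 182)) (XT.lf (nat_lit 0) (nat_lit 8219759010) (nat_lit 152) (nat_lit 18654354023) (nat_lit 228) (nat_lit 14512578334) (nat_lit 33) (nat_lit 5) (nat_lit 35) (nat_lit 5) (nat_lit 36) (nat_lit 5) (nat_lit 327) (nat_lit 272) (nat_lit 181)))))) (XT.nd (nat_lit 546) (nat_lit 380) (nat_lit 0) (XT.nd (nat_lit 234) (nat_lit 304) (nat_lit 0) (XT.nd (nat_lit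 78) (nat_lit 304) (nat_lit 0) (XT.lf (nat_lit 0) (nat_lit 35017983733) (nat_lit 152) (nat_lit 4080491752) (nat_lit 228) (nat_lit 3896061601) (nat_lit 33) (nat_lit 5) (nat_lit 35) (nat_lit 5) (nat_lit 36) (nat_lit 5) (nat_lit 328) (nat_lit 272) (nat_lit 180)) (XT.nd (nat_lit 78) (nat_lit 152) (nat_lit 0) (XT.lf (nat_lit 0) (nat_lit 7383645791) (nat_lit 152) (nat_lit 26045202798) (nat_lit 76) (nat_lit 11243626351) (nat_lit 31) (nat_lit 5) (nat_lit 33) (nat_lit 5) (nat_lit 32) (nat_lit 5) (nat_lit 329) (nat_lit 272) (nat_lit 179)) (XT.lf (nat_lit 0) (nat_lit 190436086) (nat_lit 152) (nat_lit 19066906640) (nat_lit 228) (nat_lit 27172498830) (nat_lit 29) (nat_lit 5) (nat_lit 31) (nat_lit 5) (nat_lit 32) (nat_lit 5) (nat_lit 330) (nat_lit 272) (nat_lit 178)))) (XT.nd (nat_lit 156) (nat_lit 228) (nat_lit 0) (XT.nd (nat_lit 78) (nat_lit 76) (nat_lit 0) (XT.lf (nat_lit 0) (nat_lit 28254843340) (nat_lit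 152) (nat_lit 3722389525) (nat_lit 228) (nat_lit 16290274615) (nat_lit 29) (nat_lit 5) (nat_lit 31) (nat_lit 5) (nat_lit 32) (nat_lit 5) (nat_lit 331) (nat_lit 272) (nat_lit 177)) (XT.lf (nat_lit 0) (nat_lit 7526869105) (nat_lit 76) (nat_lit 37982727436) (nat_lit 152) (nat_lit 4682171718) (nat_lit 28) (nat_lit 5) (nat_lit 29) (nat_lit 5) (nat_lit 30) (nat_lit 4) (nat_lit 332) (nat_lit 272) (nat_lit 176))) (XT.nd (nat_lit 78) (nat_lit 152) (nat_lit 0) (XT.lf (nat_lit 0) (nat_lit 7590834032) (nat_lit 152) (nat_lit 15482112880) (nat_lit 76) (nat_lit 29130206782) (nat_lit 27) (nat_lit 5) (nat_lit 29) (nat_lit 5) (nat_lit 28) (nat_lit 5) (nat_lit 333) (nat_lit 272) (nat_lit 175)) (XT.lf (nat_lit 0) (nat_lit 13246401504) (nat_lit 152) (nat_lit 7248534306) (nat_lit 228) (nat_lit 33815358662) (nat_lit 25) (nat_lit 5) (nat_lit 27) (nat_lit 5) (nat_lit 28) (nat_lit 5) (nat_lit 334) (nat_lit 272) (nat_lit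 174))))) (XT.nd (nat_lit 234) (nat_lit 228) (nat_lit 0) (XT.nd (nat_lit 78) (nat_lit 152) (nat_lit 0) (XT.lf (nat_lit 0) (nat_lit 34281619437) (nat_lit 228) (nat_lit 12899001157) (nat_lit 76) (nat_lit 9335055365) (nat_lit 25) (nat_lit 5) (nat_lit 28) (nat_lit 5) (nat_lit 26) (nat_lit 4) (nat_lit 335) (nat_lit 272) (nat_lit 173)) (XT.nd (nat_lit 78) (nat_lit 76) (nat_lit 0) (XT.lf (nat_lit 0) (nat_lit 16907818771) (nat_lit 76) (nat_lit 32072538284) (nat_lit 152) (nat_lit 9844292607) (nat_lit 24) (nat_lit 5) (nat_lit 25) (nat_lit 5) (nat_lit 26) (nat_lit 4) (nat_lit 336) (nat_lit 272) (nat_lit 172)) (XT.lf (nat_lit 0) (nat_lit 3224601749) (nat_lit 152) (nat_lit 12824978836) (nat_lit 76) (nat_lit 45194941081) (nat_lit 23) (nat_lit 5) (nat_lit 25) (nat_lit 5) (nat_lit 24) (nat_lit 5) (nat_lit 337) (nat_lit 272) (nat_lit 171)))) (XT.nd (nat_lit 156) (nat_lit 76) (nat_lit 0) (XT.nd (nat_lit 78)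 (nat_lit 0) (nat_lit 0) (XT.lf (nat_lit 0) (nat_lit 16915746363) (nat_lit 228) (nat_lit 45836856091) (nat_lit 76) (nat_lit 1024692919) (nat_lit 21) (nat_lit 5) (nat_lit 24) (nat_lit 5) (nat_lit 22) (nat_lit 4) (nat_lit 338) (nat_lit 272) (nat_lit 170)) (XT.lf (nat_lit 0) (nat_lit 31574962607) (nat_lit 228) (nat_lit 16105163940) (nat_lit 76) (nat_lit 18748079759) (nat_lit 21) (nat_lit 5) (nat_lit 24) (nat_lit 5) (nat_lit 22) (nat_lit 4) (nat_lit 339) (nat_lit 272) (nat_lit 169))) (XT.nd (nat_lit 78) (nat_lit 0) (nat_lit 0) (XT.lf (nat_lit 0) (nat_lit 15393252502) (nat_lit 76) (nat_lit 31710611860) (nat_lit 152) (nat_lit 22103700467) (nat_lit 20) (nat_lit 5) (nat_lit 21) (nat_lit 5) (nat_lit 22) (nat_lit 4) (nat_lit 340) (nat_lit 272) (nat_lit 168)) (XT.lf (nat_lit 0) (nat_lit 48783482331) (nat_lit 76) (nat_lit 14780619160) (nat_lit 152) (nat_lit 8557146681) (nat_lit 20) (nat_lit 5) (nat_lit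 21) (nat_lit 5) (nat_lit 22) (nat_lit 4) (nat_lit 341) (nat_lit 272) (nat_lit 167))))))))
noncomputable def xc72 : XT := (XT.nd (nat_lit 35724) (nat_lit 0) (nat_lit 5396) (XT.nd (nat_lit 1014) (nat_lit 152) (nat_lit 0) (XT.nd (nat_lit 468) (nat_lit 304) (nat_lit 0) (XT.nd (nat_lit 234) (nat_lit 152) (nat_lit 0) (XT.nd (nat_lit 78) (nat_lit 0) (nat_lit 0) (XT.lf (nat_lit 0) (nat_lit 5659968936) (nat_lit 228) (nat_lit 66446719300) (nat_lit 76) (nat_lit 3069182238) (nat_lit 17) (nat_lit 5) (nat_lit 20) (nat_lit 5) (nat_lit 18) (nat_lit 4) (nat_lit 342) (nat_lit 272) (nat_lit 166)) (XT.nd (nat_lit 78) (nat_lit 0) (nat_lit 0) (XT.lf (nat_lit 0) (nat_lit 20794173337) (nat_lit 228) (nat_lit 35745464423) (nat_lit 76) (nat_lit 21829551340) (nat_lit 17) (nat_lit 5) (nat_lit 20) (nat_lit 5) (nat_lit 18) (nat_lit 4) (nat_lit 343) (nat_lit 272) (nat_lit 165)) (XT.lf (nat_lit 0) (nat_lit 36675333752) (nat_lit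 228) (nat_lit 3526880264) (nat_lit 76) (nat_lit 41520255289) (nat_lit 17) (nat_lit 5) (nat_lit 20) (nat_lit 5) (nat_lit 18) (nat_lit 4) (nat_lit 344) (nat_lit 272) (nat_lit 164)))) (XT.nd (nat_lit 78) (nat_lit 76) (nat_lit 0) (XT.lf (nat_lit 0) (nat_lit 30888489784) (nat_lit 76) (nat_lit 22749691743) (nat_lit 152) (nat_lit 31596605990) (nat_lit 16) (nat_lit 5) (nat_lit 17) (nat_lit 5) (nat_lit 18) (nat_lit 4) (nat_lit 345) (nat_lit 272) (nat_lit 163)) (XT.nd (nat_lit 78) (nat_lit 76) (nat_lit 0) (XT.lf (nat_lit 0) (nat_lit 67081924869) (nat_lit 76) (nat_lit 4394547896) (nat_lit 152) (nat_lit 17445432584) (nat_lit 16) (nat_lit 5) (nat_lit 17) (nat_lit 5) (nat_lit 18) (nat_lit 4) (nat_lit 346) (nat_lit 272) (nat_lit 162)) (XT.lf (nat_lit 0) (nat_lit 12374283791) (nat_lit 76) (nat_lit 78085719814) (nat_lit 76) (nat_lit 2325778327) (nat_lit 15) (nat_lit 4) (nat_lit 16) (nat_lit 5) (nat_lit 16)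 (nat_lit 4) (nat_lit 347) (nat_lit 272) (nat_lit 161))))) (XT.nd (nat_lit 234) (nat_lit 152) (nat_lit 0) (XT.nd (nat_lit 78) (nat_lit 76) (nat_lit 0) (XT.lf (nat_lit 0) (nat_lit 13548391190) (nat_lit 152) (nat_lit 48272819144) (nat_lit 76) (nat_lit 35009848764) (nat_lit 14) (nat_lit 5) (nat_lit 16) (nat_lit 5) (nat_lit 15) (nat_lit 4) (nat_lit 348) (nat_lit 272) (nat_lit 160)) (XT.nd (nat_lit 78) (nat_lit 76) (nat_lit 0) (XT.lf (nat_lit 0) (nat_lit 30160553331) (nat_lit 152) (nat_lit 14565474547) (nat_lit 76) (nat_lit 56352112175) (nat_lit 14) (nat_lit 5) (nat_lit 16) (nat_lit 5) (nat_lit 15) (nat_lit 4) (nat_lit 349) (nat_lit 272) (nat_lit 159)) (XT.lf (nat_lit 0) (nat_lit 21227370490) (nat_lit 76) (nat_lit 26572325153) (nat_lit 152) (nat_lit 57731990440) (nat_lit 13) (nat_lit 5) (nat_lit 14) (nat_lit 5) (nat_lit 15) (nat_lit 4) (nat_lit 350) (nat_lit 272) (nat_lit 158)))) (XT.nd (nat_lit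 156) (nat_lit 152) (nat_lit 0) (XT.nd (nat_lit 78) (nat_lit 0) (nat_lit 0) (XT.lf (nat_lit 0) (nat_lit 59100547979) (nat_lit 76) (nat_lit 7362741479) (nat_lit 152) (nat_lit 43740347209) (nat_lit 13) (nat_lit 5) (nat_lit 14) (nat_lit 5) (nat_lit 15) (nat_lit 4) (nat_lit 351) (nat_lit 272) (nat_lit 157)) (XT.lf (nat_lit 0) (nat_lit 86176027809) (nat_lit 152) (nat_lit 16378103485) (nat_lit 0) (nat_lit 12551576527) (nat_lit 13) (nat_lit 5) (nat_lit 15) (nat_lit 4) (nat_lit 13) (nat_lit 4) (nat_lit 352) (nat_lit 272) (nat_lit 156))) (XT.nd (nat_lit 78) (nat_lit 76) (nat_lit 0) (XT.lf (nat_lit 0) (nat_lit 20394218620) (nat_lit 76) (nat_lit 86743733462) (nat_lit 76) (nat_lit 13107025871) (nat_lit 12) (nat_lit 4) (nat_lit 13) (nat_lit 5) (nat_lit 13) (nat_lit 4) (nat_lit 353) (nat_lit 272) (nat_lit 155)) (XT.lf (nat_lit 0) (nat_lit 3601931930) (nat_lit 152) (nat_lit 66336458444) (nat_lit 76) (nat_lit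 55696903677) (nat_lit 11) (nat_lit 5) (nat_lit 13) (nat_lit 5) (nat_lit 12) (nat_lit 4) (nat_lit 354) (nat_lit 272) (nat_lit 154)))))) (XT.nd (nat_lit 546) (nat_lit 0) (nat_lit 0) (XT.nd (nat_lit 234) (nat_lit 76) (nat_lit 0) (XT.nd (nat_lit 78) (nat_lit 76) (nat_lit 0) (XT.lf (nat_lit 0) (nat_lit 20871434627) (nat_lit 152) (nat_lit 31290484804) (nat_lit 76) (nat_lit 79129429902) (nat_lit 11) (nat_lit 5) (nat_lit 13) (nat_lit 5) (nat_lit 12) (nat_lit 4) (nat_lit 355) (nat_lit 272) (nat_lit 153)) (XT.nd (nat_lit 78) (nat_lit 0) (nat_lit 0) (XT.lf (nat_lit 0) (nat_lit 5605990192) (nat_lit 76) (nat_lit 33446263379) (nat_lit 152) (nat_lit 98176520161) (nat_lit 10) (nat_lit 5) (nat_lit 11) (nat_lit 5) (nat_lit 12) (nat_lit 4) (nat_lit 356) (nat_lit 272) (nat_lit 152)) (XT.lf (nat_lit 0) (nat_lit 44990298425) (nat_lit 76) (nat_lit 13468059346) (nat_lit 152) (nat_lit 84995225758) (nat_lit 10) (nat_lit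 5) (nat_lit 11) (nat_lit 5) (nat_lit 12) (nat_lit 4) (nat_lit 357) (nat_lit 272) (nat_lit 151)))) (XT.nd (nat_lit 156) (nat_lit 76) (nat_lit 0) (XT.nd (nat_lit 78) (nat_lit 0) (nat_lit 0) (XT.lf (nat_lit 0) (nat_lit 78901318582) (nat_lit 152) (nat_lit 63728468534) (nat_lit 0) (nat_lit 7357851600) (nat_lit 10) (nat_lit 5) (nat_lit 12) (nat_lit 4) (nat_lit 10) (nat_lit 4) (nat_lit 358) (nat_lit 272) (nat_lit 150)) (XT.lf (nat_lit 0) (nat_lit 100497001693) (nat_lit 152) (nat_lit 27402823861) (nat_lit 0) (nat_lit 28944655249) (nat_lit 10) (nat_lit 5) (nat_lit 12) (nat_lit 4) (nat_lit 10) (nat_lit 4) (nat_lit 359) (nat_lit 272) (nat_lit 149))) (XT.nd (nat_lit 78) (nat_lit 0) (nat_lit 0) (XT.lf (nat_lit 0) (nat_lit 10943141884) (nat_lit 76) (nat_lit 112329412464) (nat_lit 76) (nat_lit 40768609390) (nat_lit 9) (nat_lit 4) (nat_lit 10) (nat_lit 5) (nat_lit 10) (nat_lit 4) (nat_lit 360) (nat_lit 272)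 (nat_lit 148)) (XT.lf (nat_lit 0) (nat_lit 51769815416) (nat_lit 76) (nat_lit 95694204794) (nat_lit 76) (nat_lit 24125347785) (nat_lit 9) (nat_lit 4) (nat_lit 10) (nat_lit 5) (nat_lit 10) (nat_lit 4) (nat_lit 361) (nat_lit 272) (nat_lit 147))))) (XT.nd (nat_lit 33852) (nat_lit 0) (nat_lit 16492) (XT.nd (nat_lit 33696) (nat_lit 0) (nat_lit 17404) (XT.lf (nat_lit 0) (nat_lit 94629033175) (nat_lit 76) (nat_lit 78231309695) (nat_lit 76) (nat_lit 6654782274) (nat_lit 9) (nat_lit 4) (nat_lit 10) (nat_lit 5) (nat_lit 10) (nat_lit 4) (nat_lit 362) (nat_lit 272) (nat_lit 146)) (XT.nd (nat_lit 78) (nat_lit 0) (nat_lit 0) (XT.lf (nat_lit 0) (nat_lit 2776552920) (nat_lit 988) (nat_lit 720546617) (nat_lit 988) (nat_lit 720546617) (nat_lit 238) (nat_lit 3) (nat_lit 251) (nat_lit 3) (nat_lit 251) (nat_lit 5) (nat_lit 273) (nat_lit 273) (nat_lit 234)) (XT.lf (nat_lit 76) (nat_lit 5088027720) (nat_lit 0)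 (nat_lit 2291335366) (nat_lit 988) (nat_lit 1213970714) (nat_lit 239) (nat_lit 5) (nat_lit 238) (nat_lit 3) (nat_lit 251) (nat_lit 5) (nat_lit 274) (nat_lit 273) (nat_lit 233)))) (XT.nd (nat_lit 156) (nat_lit 0) (nat_lit 76) (XT.nd (nat_lit 78) (nat_lit 0) (nat_lit 0) (XT.lf (nat_lit 0) (nat_lit 492869959) (nat_lit 988) (nat_lit 5572618363) (nat_lit 1064) (nat_lit 2694800666) (nat_lit 226) (nat_lit 5) (nat_lit 239) (nat_lit 5) (nat_lit 240) (nat_lit 5) (nat_lit 275) (nat_lit 273) (nat_lit 232)) (XT.lf (nat_lit 76) (nat_lit 1283939568) (nat_lit 0) (nat_lit 946535933) (nat_lit 1064) (nat_lit 6705771235) (nat_lit 227) (nat_lit 5) (nat_lit 226) (nat_lit 5) (nat_lit 240) (nat_lit 5) (nat_lit 276) (nat_lit 273) (nat_lit 231))) (XT.nd (nat_lit 78) (nat_lit 0) (nat_lit 76) (XT.lf (nat_lit 0) (nat_lit 4058513376) (nat_lit 988) (nat_lit 623778337) (nat_lit 1064) (nat_lit 4438729123) (nat_lit 227) (nat_lit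 5) (nat_lit 240) (nat_lit 5) (nat_lit 241) (nat_lit 5) (nat_lit 277) (nat_lit 273) (nat_lit 230)) (XT.lf (nat_lit 0) (nat_lit 5969020838) (nat_lit 988) (nat_lit 2502433769) (nat_lit 1064) (nat_lit 843966073) (nat_lit 228) (nat_lit 5) (nat_lit 241) (nat_lit 5) (nat_lit 242) (nat_lit 5) (nat_lit 278) (nat_lit 273) (nat_lit 229))))))) (XT.nd (nat_lit 1092) (nat_lit 4712) (nat_lit 0) (XT.nd (nat_lit 546) (nat_lit 3420) (nat_lit 0) (XT.nd (nat_lit 234) (nat_lit 2128) (nat_lit 0) (XT.nd (nat_lit 78) (nat_lit 988) (nat_lit 0) (XT.lf (nat_lit 76) (nat_lit 5107998214) (nat_lit 0) (nat_lit 2881728356) (nat_lit 1064) (nat_lit 1529487161) (nat_lit 229) (nat_lit 5) (nat_lit 228) (nat_lit 5) (nat_lit 242) (nat_lit 5) (nat_lit 279) (nat_lit 273) (nat_lit 228)) (XT.nd (nat_lit 78) (nat_lit 0) (nat_lit 0) (XT.lf (nat_lit 0) (nat_lit 373909972) (nat_lit 1064) (nat_lit 6341596279) (nat_lit 1140) (nat_lit 3017595347)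 (nat_lit 215) (nat_lit 5) (nat_lit 229) (nat_lit 5) (nat_lit 230) (nat_lit 5) (nat_lit 280) (nat_lit 273) (nat_lit 227)) (XT.lf (nat_lit 76) (nat_lit 1646574391) (nat_lit 0) (nat_lit 703606609) (nat_lit 1140) (nat_lit 7606868332) (nat_lit 216) (nat_lit 5) (nat_lit 215) (nat_lit 5) (nat_lit 230) (nat_lit 5) (nat_lit 281) (nat_lit 273) (nat_lit 226)))) (XT.nd (nat_lit 156) (nat_lit 2204) (nat_lit 0) (XT.nd (nat_lit 78) (nat_lit 0) (nat_lit 76) (XT.lf (nat_lit 0) (nat_lit 4466888381) (nat_lit 1064) (nat_lit 139819611) (nat_lit 1140) (nat_lit 5584332883) (nat_lit 216) (nat_lit 5) (nat_lit 230) (nat_lit 5) (nat_lit 231) (nat_lit 5) (nat_lit 282) (nat_lit 273) (nat_lit 225)) (XT.lf (nat_lit 0) (nat_lit 6721779109) (nat_lit 1064) (nat_lit 1913872174) (nat_lit 76) (nat_lit 1800200850) (nat_lit 217) (nat_lit 5) (nat_lit 231) (nat_lit 5) (nat_lit 218) (nat_lit 5) (nat_lit 283) (nat_lit 273) (nat_lit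 224))) (XT.nd (nat_lit 78) (nat_lit 1216) (nat_lit 0) (XT.lf (nat_lit 0) (nat_lit 6956727326) (nat_lit 1064) (nat_lit 2176151060) (nat_lit 1140) (nat_lit 1558807914) (nat_lit 203) (nat_lit 5) (nat_lit 217) (nat_lit 5) (nat_lit 218) (nat_lit 5) (nat_lit 284) (nat_lit 273) (nat_lit 223)) (XT.lf (nat_lit 0) (nat_lit 738066947) (nat_lit 1216) (nat_lit 5615119444) (nat_lit 76) (nat_lit 4605574815) (nat_lit 187) (nat_lit 5) (nat_lit 203) (nat_lit 5) (nat_lit 188) (nat_lit 5) (nat_lit 285) (nat_lit 273) (nat_lit 222))))) (XT.nd (nat_lit 234) (nat_lit 1596) (nat_lit 0) (XT.nd (nat_lit 78) (nat_lit 1140) (nat_lit 0) (XT.lf (nat_lit 0) (nat_lit 3152890899) (nat_lit 760) (nat_lit 7552654576) (nat_lit 76) (nat_lit 532197018) (nat_lit 178) (nat_lit 5) (nat_lit 188) (nat_lit 5) (nat_lit 179) (nat_lit 5) (nat_lit 286) (nat_lit 273) (nat_lit 221)) (XT.nd (nat_lit 78) (nat_lit 532) (nat_lit 0) (XT.lf (nat_lit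 0) (nat_lit 1952109250) (nat_lit 608) (nat_lit 3813832743) (nat_lit 684) (nat_lit 5762478623) (nat_lit 170) (nat_lit 5) (nat_lit 178) (nat_lit 5) (nat_lit 179) (nat_lit 5) (nat_lit 287) (nat_lit 273) (nat_lit 220)) (XT.lf (nat_lit 0) (nat_lit 168039168) (nat_lit 532) (nat_lit 8393366119) (nat_lit 608) (nat_lit 3270743471) (nat_lit 163) (nat_lit 5) (nat_lit 170) (nat_lit 5) (nat_lit 171) (nat_lit 5) (nat_lit 288) (nat_lit 273) (nat_lit 219)))) (XT.nd (nat_lit 156) (nat_lit 988) (nat_lit 0) (XT.nd (nat_lit 78) (nat_lit 608) (nat_lit 0) (XT.lf (nat_lit 0) (nat_lit 10501979259) (nat_lit 532) (nat_lit 1072442063) (nat_lit 608) (nat_lit 574374221) (nat_lit 163) (nat_lit 5) (nat_lit 170) (nat_lit 5) (nat_lit 171) (nat_lit 5) (nat_lit 289) (nat_lit 273) (nat_lit 218)) (XT.lf (nat_lit 0) (nat_lit 2306900150) (nat_lit 608) (nat_lit 3576698301) (nat_lit 76) (nat_lit 6594262320) (nat_lit 155) (nat_lit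 5) (nat_lit 163) (nat_lit 5) (nat_lit 156) (nat_lit 5) (nat_lit 290) (nat_lit 273) (nat_lit 217))) (XT.nd (nat_lit 78) (nat_lit 532) (nat_lit 0) (XT.lf (nat_lit 0) (nat_lit 5381788811) (nat_lit 532) (nat_lit 5584223008) (nat_lit 76) (nat_lit 1855411737) (nat_lit 149) (nat_lit 5) (nat_lit 156) (nat_lit 5) (nat_lit 150) (nat_lit 5) (nat_lit 291) (nat_lit 273) (nat_lit 216)) (XT.lf (nat_lit 0) (nat_lit 5475660670) (nat_lit 532) (nat_lit 3231439731) (nat_lit 608) (nat_lit 4472218760) (nat_lit 142) (nat_lit 5) (nat_lit 149) (nat_lit 5) (nat_lit 150) (nat_lit 5) (nat_lit 292) (nat_lit 273) (nat_lit 215)))))) (XT.nd (nat_lit 546) (nat_lit 2052) (nat_lit 0) (XT.nd (nat_lit 234) (nat_lit 1672) (nat_lit 0) (XT.nd (nat_lit 78) (nat_lit 532) (nat_lit 0) (XT.lf (nat_lit 0) (nat_lit 3618066322) (nat_lit 456) (nat_lit 8669847751) (nat_lit 532) (nat_lit 1264570793) (nat_lit 136) (nat_lit 5) (nat_lit 142)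 (nat_lit 5) (nat_lit 143) (nat_lit 5) (nat_lit 293) (nat_lit 273) (nat_lit 214)) (XT.nd (nat_lit 78) (nat_lit 0) (nat_lit 0) (XT.lf (nat_lit 0) (nat_lit 1647245134) (nat_lit 456) (nat_lit 494453022) (nat_lit 532) (nat_lit 11799674034) (nat_lit 129) (nat_lit 5) (nat_lit 135) (nat_lit 5) (nat_lit 136) (nat_lit 5) (nat_lit 294) (nat_lit 273) (nat_lit 213)) (XT.lf (nat_lit 0) (nat_lit 5825911024) (nat_lit 532) (nat_lit 478581529) (nat_lit 76) (nat_lit 8040868357) (nat_lit 129) (nat_lit 5) (nat_lit 136) (nat_lit 5) (nat_lit 130) (nat_lit 5) (nat_lit 295) (nat_lit 273) (nat_lit 212)))) (XT.nd (nat_lit 156) (nat_lit 836) (nat_lit 0) (XT.nd (nat_lit 78) (nat_lit 456) (nat_lit 0) (XT.lf (nat_lit 0) (nat_lit 9792900020) (nat_lit 456) (nat_lit 2684113173) (nat_lit 76) (nat_lit 2289622868) (nat_lit 124) (nat_lit 5) (nat_lit 130) (nat_lit 5) (nat_lit 125) (nat_lit 5) (nat_lit 296) (nat_lit 273) (nat_lit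 211)) (XT.lf (nat_lit 0) (nat_lit 10154247337) (nat_lit 456) (nat_lit 3926546081) (nat_lit 532) (nat_lit 1124546770) (nat_lit 118) (nat_lit 5) (nat_lit 124) (nat_lit 5) (nat_lit 125) (nat_lit 5) (nat_lit 297) (nat_lit 273) (nat_lit 210))) (XT.nd (nat_lit 78) (nat_lit 380) (nat_lit 0) (XT.lf (nat_lit 0) (nat_lit 2973225638) (nat_lit 456) (nat_lit 7610237755) (nat_lit 76) (nat_lit 5078322203) (nat_lit 112) (nat_lit 5) (nat_lit 118) (nat_lit 5) (nat_lit 113) (nat_lit 5) (nat_lit 298) (nat_lit 273) (nat_lit 209)) (XT.lf (nat_lit 0) (nat_lit 5784657509) (nat_lit 380) (nat_lit 1574842797) (nat_lit 456) (nat_lit 8778049683) (nat_lit 107) (nat_lit 5) (nat_lit 112) (nat_lit 5) (nat_lit 113) (nat_lit 5) (nat_lit 299) (nat_lit 273) (nat_lit 208))))) (XT.nd (nat_lit 234) (nat_lit 1292) (nat_lit 0) (XT.nd (nat_lit 78) (nat_lit 456) (nat_lit 0) (XT.lf (nat_lit 0) (nat_lit 3309870708) (nat_lit 304) (nat_lit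 8802209571) (nat_lit 380) (nat_lit 4520647689) (nat_lit 103) (nat_lit 5) (nat_lit 107) (nat_lit 5) (nat_lit 108) (nat_lit 5) (nat_lit 300) (nat_lit 273) (nat_lit 207)) (XT.nd (nat_lit 78) (nat_lit 0) (nat_lit 0) (XT.lf (nat_lit 0) (nat_lit 47843037) (nat_lit 456) (nat_lit 16487825134) (nat_lit 76) (nat_lit 614126598) (nat_lit 97) (nat_lit 5) (nat_lit 103) (nat_lit 5) (nat_lit 98) (nat_lit 5) (nat_lit 301) (nat_lit 273) (nat_lit 206)) (XT.lf (nat_lit 0) (nat_lit 4941999067) (nat_lit 456) (nat_lit 2250604356) (nat_lit 76) (nat_lit 10493077601) (nat_lit 97) (nat_lit 5) (nat_lit 103) (nat_lit 5) (nat_lit 98) (nat_lit 5) (nat_lit 302) (nat_lit 273) (nat_lit 205)))) (XT.nd (nat_lit 156) (nat_lit 684) (nat_lit 0) (XT.nd (nat_lit 78) (nat_lit 304) (nat_lit 0) (XT.lf (nat_lit 0) (nat_lit 10195457556) (nat_lit 380) (nat_lit 5369979488) (nat_lit 76) (nat_lit 2679516154) (nat_lit 93) (nat_lit 5) (nat_lit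 98) (nat_lit 5) (nat_lit 94) (nat_lit 5) (nat_lit 303) (nat_lit 273) (nat_lit 204)) (XT.lf (nat_lit 0) (nat_lit 10047839723) (nat_lit 304) (nat_lit 5821762667) (nat_lit 380) (nat_lit 2957874234) (nat_lit 89) (nat_lit 5) (nat_lit 93) (nat_lit 5) (nat_lit 94) (nat_lit 5) (nat_lit 304) (nat_lit 273) (nat_lit 203))) (XT.nd (nat_lit 78) (nat_lit 304) (nat_lit 0) (XT.lf (nat_lit 0) (nat_lit 2474590721) (nat_lit 380) (nat_lit 12502649311) (nat_lit 76) (nat_lit 4457237359) (nat_lit 84) (nat_lit 5) (nat_lit 89) (nat_lit 5) (nat_lit 85) (nat_lit 5) (nat_lit 305) (nat_lit 273) (nat_lit 202)) (XT.lf (nat_lit 0) (nat_lit 3474892150) (nat_lit 304) (nat_lit 4793934855) (nat_lit 380) (nat_lit 11797607667) (nat_lit 80) (nat_lit 5) (nat_lit 84) (nat_lit 5) (nat_lit 85) (nat_lit 5) (nat_lit 306) (nat_lit 273) (nat_lit 201))))))))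
noncomputable def xc73 : XT := (XT.nd (nat_lit 2184) (nat_lit 1368) (nat_lit 0) (XT.nd (nat_lit 1092) (nat_lit 1520) (nat_lit 0) (XT.nd (nat_lit 546) (nat_lit 1140) (nat_lit 0) (XT.nd (nat_lit 234) (nat_lit 760) (nat_lit 0) (XT.nd (nat_lit 78) (nat_lit 608) (nat_lit 0) (XT.lf (nat_lit 0) (nat_lit 14507758693) (nat_lit 380) (nat_lit 317649803) (nat_lit 76) (nat_lit 5899955336) (nat_lit 80) (nat_lit 5) (nat_lit 85) (nat_lit 5) (nat_lit 81) (nat_lit 5) (nat_lit 307) (nat_lit 273) (nat_lit 200)) (XT.nd (nat_lit 78) (nat_lit 380) (nat_lit 0) (XT.lf (nat_lit 0) (nat_lit 17009539295) (nat_lit 228) (nat_lit 4230804605) (nat_lit 304) (nat_lit 171466742) (nat_lit 77) (nat_lit 5) (nat_lit 80) (nat_lit 5) (nat_lit 81) (nat_lit 5) (nat_lit 308) (nat_lit 273) (nat_lit 199)) (XT.lf (nat_lit 0) (nat_lit 6225491517) (nat_lit 380) (nat_lit 8963023490) (nat_lit 76) (nat_lit 6937232751) (nat_lit 72) (nat_lit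 5) (nat_lit 77) (nat_lit 5) (nat_lit 73) (nat_lit 5) (nat_lit 309) (nat_lit 273) (nat_lit 198)))) (XT.nd (nat_lit 156) (nat_lit 304) (nat_lit 0) (XT.nd (nat_lit 78) (nat_lit 228) (nat_lit 0) (XT.lf (nat_lit 0) (nat_lit 8910149129) (nat_lit 228) (nat_lit 4174154697) (nat_lit 304) (nat_lit 9786680128) (nat_lit 69) (nat_lit 5) (nat_lit 72) (nat_lit 5) (nat_lit 73) (nat_lit 5) (nat_lit 310) (nat_lit 273) (nat_lit 197)) (XT.lf (nat_lit 0) (nat_lit 4180924624) (nat_lit 228) (nat_lit 16281777243) (nat_lit 304) (nat_lit 3185499528) (nat_lit 66) (nat_lit 5) (nat_lit 69) (nat_lit 5) (nat_lit 70) (nat_lit 5) (nat_lit 311) (nat_lit 273) (nat_lit 196))) (XT.nd (nat_lit 78) (nat_lit 228) (nat_lit 0) (XT.lf (nat_lit 0) (nat_lit 3832789286) (nat_lit 304) (nat_lit 1059629393) (nat_lit 76) (nat_lit 19565993947) (nat_lit 65) (nat_lit 5) (nat_lit 69) (nat_lit 5) (nat_lit 66) (nat_lit 5) (nat_lit 312) (nat_lit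 273) (nat_lit 195)) (XT.lf (nat_lit 0) (nat_lit 11359166440) (nat_lit 304) (nat_lit 6814723409) (nat_lit 76) (nat_lit 7127623280) (nat_lit 62) (nat_lit 5) (nat_lit 66) (nat_lit 5) (nat_lit 63) (nat_lit 5) (nat_lit 313) (nat_lit 273) (nat_lit 194))))) (XT.nd (nat_lit 234) (nat_lit 456) (nat_lit 0) (XT.nd (nat_lit 78) (nat_lit 456) (nat_lit 0) (XT.lf (nat_lit 0) (nat_lit 13011513738) (nat_lit 228) (nat_lit 6410715478) (nat_lit 304) (nat_lit 6759744193) (nat_lit 59) (nat_lit 5) (nat_lit 62) (nat_lit 5) (nat_lit 63) (nat_lit 5) (nat_lit 314) (nat_lit 273) (nat_lit 193)) (XT.nd (nat_lit 78) (nat_lit 228) (nat_lit 0) (XT.lf (nat_lit 0) (nat_lit 938320961) (nat_lit 228) (nat_lit 20205124616) (nat_lit 76) (nat_lit 5957652429) (nat_lit 56) (nat_lit 5) (nat_lit 59) (nat_lit 5) (nat_lit 57) (nat_lit 5) (nat_lit 315) (nat_lit 273) (nat_lit 192)) (XT.lf (nat_lit 0) (nat_lit 6694160) (nat_lit 228) (nat_lit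 9053930515) (nat_lit 304) (nat_lit 18998186072) (nat_lit 53) (nat_lit 5) (nat_lit 56) (nat_lit 5) (nat_lit 57) (nat_lit 5) (nat_lit 316) (nat_lit 273) (nat_lit 191)))) (XT.nd (nat_lit 156) (nat_lit 304) (nat_lit 0) (XT.nd (nat_lit 78) (nat_lit 152) (nat_lit 0) (XT.lf (nat_lit 0) (nat_lit 17810883015) (nat_lit 304) (nat_lit 7481372527) (nat_lit 76) (nat_lit 3765511615) (nat_lit 53) (nat_lit 5) (nat_lit 57) (nat_lit 5) (nat_lit 54) (nat_lit 5) (nat_lit 317) (nat_lit 273) (nat_lit 190)) (XT.lf (nat_lit 0) (nat_lit 14269270132) (nat_lit 152) (nat_lit 12935833251) (nat_lit 228) (nat_lit 2895387116) (nat_lit 51) (nat_lit 5) (nat_lit 53) (nat_lit 5) (nat_lit 54) (nat_lit 5) (nat_lit 318) (nat_lit 273) (nat_lit 189))) (XT.nd (nat_lit 78) (nat_lit 0) (nat_lit 0) (XT.lf (nat_lit 0) (nat_lit 5876001384) (nat_lit 304) (nat_lit 25094989214) (nat_lit 76) (nat_lit 219169204) (nat_lit 47) (nat_lit 5) (nat_lit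 51) (nat_lit 5) (nat_lit 48) (nat_lit 5) (nat_lit 319) (nat_lit 273) (nat_lit 188)) (XT.lf (nat_lit 0) (nat_lit 15300751504) (nat_lit 304) (nat_lit 3076741123) (nat_lit 76) (nat_lit 13947730811) (nat_lit 47) (nat_lit 5) (nat_lit 51) (nat_lit 5) (nat_lit 48) (nat_lit 5) (nat_lit 320) (nat_lit 273) (nat_lit 187)))))) (XT.nd (nat_lit 546) (nat_lit 608) (nat_lit 0) (XT.nd (nat_lit 234) (nat_lit 532) (nat_lit 0) (XT.nd (nat_lit 78) (nat_lit 228) (nat_lit 0) (XT.lf (nat_lit 0) (nat_lit 20407672520) (nat_lit 152) (nat_lit 4965209171) (nat_lit 228) (nat_lit 8138884843) (nat_lit 45) (nat_lit 5) (nat_lit 47) (nat_lit 5) (nat_lit 48) (nat_lit 5) (nat_lit 321) (nat_lit 273) (nat_lit 186)) (XT.nd (nat_lit 78) (nat_lit 0) (nat_lit 0) (XT.lf (nat_lit 0) (nat_lit 1370368683) (nat_lit 228) (nat_lit 24307540529) (nat_lit 76) (nat_lit 9073315057) (nat_lit 42) (nat_lit 5) (nat_lit 45) (nat_lit 5) (nat_lit 43)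 (nat_lit 5) (nat_lit 322) (nat_lit 273) (nat_lit 185)) (XT.lf (nat_lit 0) (nat_lit 11355595560) (nat_lit 228) (nat_lit 771475199) (nat_lit 76) (nat_lit 23918110876) (nat_lit 42) (nat_lit 5) (nat_lit 45) (nat_lit 5) (nat_lit 43) (nat_lit 5) (nat_lit 323) (nat_lit 273) (nat_lit 184)))) (XT.nd (nat_lit 156) (nat_lit 228) (nat_lit 0) (XT.nd (nat_lit 78) (nat_lit 152) (nat_lit 0) (XT.lf (nat_lit 0) (nat_lit 22078740281) (nat_lit 228) (nat_lit 13032926334) (nat_lit 76) (nat_lit 2285019413) (nat_lit 40) (nat_lit 5) (nat_lit 43) (nat_lit 5) (nat_lit 41) (nat_lit 5) (nat_lit 324) (nat_lit 273) (nat_lit 183)) (XT.lf (nat_lit 0) (nat_lit 12038807973) (nat_lit 152) (nat_lit 21527679379) (nat_lit 228) (nat_lit 5242433365) (nat_lit 38) (nat_lit 5) (nat_lit 40) (nat_lit 5) (nat_lit 41) (nat_lit 5) (nat_lit 325) (nat_lit 273) (nat_lit 182))) (XT.nd (nat_lit 78) (nat_lit 152) (nat_lit 0) (XT.lf (nat_lit 0)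 (nat_lit 5350888571) (nat_lit 228) (nat_lit 1733368794) (nat_lit 76) (nat_lit 33202433282) (nat_lit 37) (nat_lit 5) (nat_lit 40) (nat_lit 5) (nat_lit 38) (nat_lit 5) (nat_lit 326) (nat_lit 273) (nat_lit 181)) (XT.lf (nat_lit 0) (nat_lit 16670386226) (nat_lit 228) (nat_lit 16949224496) (nat_lit 76) (nat_lit 8208040681) (nat_lit 35) (nat_lit 5) (nat_lit 38) (nat_lit 5) (nat_lit 36) (nat_lit 5) (nat_lit 327) (nat_lit 273) (nat_lit 180))))) (XT.nd (nat_lit 234) (nat_lit 304) (nat_lit 0) (XT.nd (nat_lit 78) (nat_lit 152) (nat_lit 0) (XT.lf (nat_lit 0) (nat_lit 9497923632) (nat_lit 152) (nat_lit 19222681766) (nat_lit 228) (nat_lit 14720119472) (nat_lit 33) (nat_lit 5) (nat_lit 35) (nat_lit 5) (nat_lit 36) (nat_lit 5) (nat_lit 328) (nat_lit 273) (nat_lit 179)) (XT.nd (nat_lit 78) (nat_lit 152) (nat_lit 0) (XT.lf (nat_lit 0) (nat_lit 37594765464) (nat_lit 152) (nat_lit 3937478284) (nat_lit 228) (nat_lit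 3597447749) (nat_lit 33) (nat_lit 5) (nat_lit 35) (nat_lit 5) (nat_lit 36) (nat_lit 5) (nat_lit 329) (nat_lit 273) (nat_lit 178)) (XT.lf (nat_lit 0) (nat_lit 8224681289) (nat_lit 152) (nat_lit 26524757435) (nat_lit 76) (nat_lit 12142312864) (nat_lit 31) (nat_lit 5) (nat_lit 33) (nat_lit 5) (nat_lit 32) (nat_lit 5) (nat_lit 330) (nat_lit 273) (nat_lit 177)))) (XT.nd (nat_lit 156) (nat_lit 152) (nat_lit 0) (XT.nd (nat_lit 78) (nat_lit 0) (nat_lit 0) (XT.lf (nat_lit 0) (nat_lit 999080706) (nat_lit 152) (nat_lit 19678194823) (nat_lit 228) (nat_lit 28060163753) (nat_lit 29) (nat_lit 5) (nat_lit 31) (nat_lit 5) (nat_lit 32) (nat_lit 5) (nat_lit 331) (nat_lit 273) (nat_lit 176)) (XT.lf (nat_lit 0) (nat_lit 30428654855) (nat_lit 152) (nat_lit 3582740288) (nat_lit 228) (nat_lit 16656254994) (nat_lit 29) (nat_lit 5) (nat_lit 31) (nat_lit 5) (nat_lit 32) (nat_lit 5) (nat_lit 332) (nat_lit 273) (nat_lit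 175))) (XT.nd (nat_lit 78) (nat_lit 76) (nat_lit 0) (XT.lf (nat_lit 0) (nat_lit 8652277687) (nat_lit 76) (nat_lit 39557553556) (nat_lit 152) (nat_lit 4478617356) (nat_lit 28) (nat_lit 5) (nat_lit 29) (nat_lit 5) (nat_lit 30) (nat_lit 4) (nat_lit 333) (nat_lit 273) (nat_lit 174)) (XT.lf (nat_lit 0) (nat_lit 8379063893) (nat_lit 152) (nat_lit 15534536509) (nat_lit 76) (nat_lit 30887297372) (nat_lit 27) (nat_lit 5) (nat_lit 29) (nat_lit 5) (nat_lit 28) (nat_lit 5) (nat_lit 334) (nat_lit 273) (nat_lit 173))))))) (XT.nd (nat_lit 1092) (nat_lit 456) (nat_lit 0) (XT.nd (nat_lit 546) (nat_lit 380) (nat_lit 0) (XT.nd (nat_lit 234) (nat_lit 304) (nat_lit 0) (XT.nd (nat_lit 78) (nat_lit 76) (nat_lit 0) (XT.lf (nat_lit 0) (nat_lit 14609716724) (nat_lit 152) (nat_lit 7305931089) (nat_lit 228) (nat_lit 35098136750) (nat_lit 25) (nat_lit 5) (nat_lit 27) (nat_lit 5) (nat_lit 28) (nat_lit 5) (nat_lit 335)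 (nat_lit 273) (nat_lit 172)) (XT.nd (nat_lit 78) (nat_lit 76) (nat_lit 0) (XT.lf (nat_lit 0) (nat_lit 36375602644) (nat_lit 228) (nat_lit 12867677269) (nat_lit 76) (nat_lit 10086644038) (nat_lit 25) (nat_lit 5) (nat_lit 28) (nat_lit 5) (nat_lit 26) (nat_lit 4) (nat_lit 336) (nat_lit 273) (nat_lit 171)) (XT.lf (nat_lit 0) (nat_lit 18410098399) (nat_lit 76) (nat_lit 33387402577) (nat_lit 152) (nat_lit 9957205254) (nat_lit 24) (nat_lit 5) (nat_lit 25) (nat_lit 5) (nat_lit 26) (nat_lit 4) (nat_lit 337) (nat_lit 273) (nat_lit 170)))) (XT.nd (nat_lit 156) (nat_lit 76) (nat_lit 0) (XT.nd (nat_lit 78) (nat_lit 152) (nat_lit 0) (XT.lf (nat_lit 0) (nat_lit 3740022727) (nat_lit 152) (nat_lit 12833448234) (nat_lit 76) (nat_lit 47722528886) (nat_lit 23) (nat_lit 5) (nat_lit 25) (nat_lit 5) (nat_lit 24) (nat_lit 5) (nat_lit 338) (nat_lit 273) (nat_lit 169)) (XT.lf (nat_lit 0) (nat_lit 18107375585) (nat_lit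 228) (nat_lit 47506253444) (nat_lit 76) (nat_lit 1342039498) (nat_lit 21) (nat_lit 5) (nat_lit 24) (nat_lit 5) (nat_lit 22) (nat_lit 4) (nat_lit 339) (nat_lit 273) (nat_lit 168))) (XT.nd (nat_lit 78) (nat_lit 76) (nat_lit 0) (XT.lf (nat_lit 0) (nat_lit 33483083980) (nat_lit 228) (nat_lit 16317616945) (nat_lit 76) (nat_lit 19938923683) (nat_lit 21) (nat_lit 5) (nat_lit 24) (nat_lit 5) (nat_lit 22) (nat_lit 4) (nat_lit 340) (nat_lit 273) (nat_lit 167)) (XT.lf (nat_lit 0) (nat_lit 16738727677) (nat_lit 76) (nat_lit 33039553767) (nat_lit 152) (nat_lit 22879979370) (nat_lit 20) (nat_lit 5) (nat_lit 21) (nat_lit 5) (nat_lit 22) (nat_lit 4) (nat_lit 341) (nat_lit 273) (nat_lit 166))))) (XT.nd (nat_lit 234) (nat_lit 152) (nat_lit 0) (XT.nd (nat_lit 78) (nat_lit 228) (nat_lit 0) (XT.lf (nat_lit 0) (nat_lit 51771049353) (nat_lit 76) (nat_lit 15275279941) (nat_lit 152) (nat_lit 8671760091) (nat_lit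 20) (nat_lit 5) (nat_lit 21) (nat_lit 5) (nat_lit 22) (nat_lit 4) (nat_lit 342) (nat_lit 273) (nat_lit 165)) (XT.nd (nat_lit 78) (nat_lit 0) (nat_lit 0) (XT.lf (nat_lit 0) (nat_lit 6242968691) (nat_lit 228) (nat_lit 69223643208) (nat_lit 76) (nat_lit 3458959120) (nat_lit 17) (nat_lit 5) (nat_lit 20) (nat_lit 5) (nat_lit 18) (nat_lit 4) (nat_lit 343) (nat_lit 273) (nat_lit 164)) (XT.lf (nat_lit 0) (nat_lit 22119597536) (nat_lit 228) (nat_lit 37013297590) (nat_lit 76) (nat_lit 23146093450) (nat_lit 17) (nat_lit 5) (nat_lit 20) (nat_lit 5) (nat_lit 18) (nat_lit 4) (nat_lit 344) (nat_lit 273) (nat_lit 163)))) (XT.nd (nat_lit 156) (nat_lit 76) (nat_lit 0) (XT.nd (nat_lit 78) (nat_lit 76) (nat_lit 0) (XT.lf (nat_lit 0) (nat_lit 38781210470) (nat_lit 228) (nat_lit 3208519463) (nat_lit 76) (nat_lit 43810615237) (nat_lit 17) (nat_lit 5) (nat_lit 20) (nat_lit 5) (nat_lit 18) (nat_lit 4) (nat_lit 345)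 (nat_lit 273) (nat_lit 162)) (XT.lf (nat_lit 0) (nat_lit 32913438473) (nat_lit 76) (nat_lit 23670423633) (nat_lit 152) (nat_lit 32904671358) (nat_lit 16) (nat_lit 5) (nat_lit 17) (nat_lit 5) (nat_lit 18) (nat_lit 4) (nat_lit 346) (nat_lit 273) (nat_lit 161))) (XT.nd (nat_lit 78) (nat_lit 76) (nat_lit 0) (XT.lf (nat_lit 0) (nat_lit 70893663208) (nat_lit 76) (nat_lit 4407844151) (nat_lit 152) (nat_lit 18058880468) (nat_lit 16) (nat_lit 5) (nat_lit 17) (nat_lit 5) (nat_lit 18) (nat_lit 4) (nat_lit 347) (nat_lit 273) (nat_lit 160)) (XT.lf (nat_lit 0) (nat_lit 13442988966) (nat_lit 76) (nat_lit 81785478786) (nat_lit 76) (nat_lit 2189166537) (nat_lit 15) (nat_lit 4) (nat_lit 16) (nat_lit 5) (nat_lit 16) (nat_lit 4) (nat_lit 348) (nat_lit 273) (nat_lit 159)))))) (XT.nd (nat_lit 546) (nat_lit 152) (nat_lit 0) (XT.nd (nat_lit 234) (nat_lit 152) (nat_lit 0) (XT.nd (nat_lit 78) (nat_lit 76) (nat_lit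 0) (XT.lf (nat_lit 0) (nat_lit 14461968562) (nat_lit 152) (nat_lit 50253129921) (nat_lit 76) (nat_lit 36950361503) (nat_lit 14) (nat_lit 5) (nat_lit 16) (nat_lit 5) (nat_lit 15) (nat_lit 4) (nat_lit 349) (nat_lit 273) (nat_lit 158)) (XT.nd (nat_lit 78) (nat_lit 76) (nat_lit 0) (XT.lf (nat_lit 0) (nat_lit 31893493199) (nat_lit 152) (nat_lit 14881052865) (nat_lit 76) (nat_lit 59350689499) (nat_lit 14) (nat_lit 5) (nat_lit 16) (nat_lit 5) (nat_lit 15) (nat_lit 4) (nat_lit 350) (nat_lit 273) (nat_lit 157)) (XT.lf (nat_lit 0) (nat_lit 22689604593) (nat_lit 76) (nat_lit 27718131294) (nat_lit 152) (nat_lit 60393931763) (nat_lit 13) (nat_lit 5) (nat_lit 14) (nat_lit 5) (nat_lit 15) (nat_lit 4) (nat_lit 351) (nat_lit 273) (nat_lit 156)))) (XT.nd (nat_lit 156) (nat_lit 152) (nat_lit 0) (XT.nd (nat_lit 78) (nat_lit 0) (nat_lit 0) (XT.lf (nat_lit 0) (nat_lit 62437352119) (nat_lit 76) (nat_lit 7556773681)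 (nat_lit 152) (nat_lit 45713404379) (nat_lit 13) (nat_lit 5) (nat_lit 14) (nat_lit 5) (nat_lit 15) (nat_lit 4) (nat_lit 352) (nat_lit 273) (nat_lit 155)) (XT.lf (nat_lit 0) (nat_lit 90684205839) (nat_lit 152) (nat_lit 16829016793) (nat_lit 0) (nat_lit 13341733886) (nat_lit 13) (nat_lit 5) (nat_lit 15) (nat_lit 4) (nat_lit 13) (nat_lit 4) (nat_lit 353) (nat_lit 273) (nat_lit 154))) (XT.nd (nat_lit 78) (nat_lit 76) (nat_lit 0) (XT.lf (nat_lit 0) (nat_lit 21771373005) (nat_lit 76) (nat_lit 90916795160) (nat_lit 76) (nat_lit 13563206374) (nat_lit 12) (nat_lit 4) (nat_lit 13) (nat_lit 5) (nat_lit 13) (nat_lit 4) (nat_lit 354) (nat_lit 273) (nat_lit 153)) (XT.lf (nat_lit 0) (nat_lit 3968013528) (nat_lit 152) (nat_lit 69309108782) (nat_lit 76) (nat_lit 58634308113) (nat_lit 11) (nat_lit 5) (nat_lit 13) (nat_lit 5) (nat_lit 12) (nat_lit 4) (nat_lit 355) (nat_lit 273) (nat_lit 152))))) (XT.nd (nat_lit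 234) (nat_lit 76) (nat_lit 0) (XT.nd (nat_lit 78) (nat_lit 76) (nat_lit 0) (XT.lf (nat_lit 0) (nat_lit 22092134930) (nat_lit 152) (nat_lit 32527225631) (nat_lit 76) (nat_lit 83231195923) (nat_lit 11) (nat_lit 5) (nat_lit 13) (nat_lit 5) (nat_lit 12) (nat_lit 4) (nat_lit 356) (nat_lit 273) (nat_lit 151)) (XT.nd (nat_lit 78) (nat_lit 0) (nat_lit 0) (XT.lf (nat_lit 0) (nat_lit 6204677269) (nat_lit 76) (nat_lit 34971943394) (nat_lit 152) (nat_lit 102908394876) (nat_lit 10) (nat_lit 5) (nat_lit 11) (nat_lit 5) (nat_lit 12) (nat_lit 4) (nat_lit 357) (nat_lit 273) (nat_lit 150)) (XT.lf (nat_lit 0) (nat_lit 47543039602) (nat_lit 76) (nat_lit 14001811692) (nat_lit 152) (nat_lit 89076462005) (nat_lit 10) (nat_lit 5) (nat_lit 11) (nat_lit 5) (nat_lit 12) (nat_lit 4) (nat_lit 358) (nat_lit 273) (nat_lit 149)))) (XT.nd (nat_lit 156) (nat_lit 76) (nat_lit 0) (XT.nd (nat_lit 78) (nat_lit 0) (nat_lit 0)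 (XT.lf (nat_lit 0) (nat_lit 83003449311) (nat_lit 152) (nat_lit 66622669812) (nat_lit 0) (nat_lit 7856149452) (nat_lit 10) (nat_lit 5) (nat_lit 12) (nat_lit 4) (nat_lit 10) (nat_lit 4) (nat_lit 359) (nat_lit 273) (nat_lit 148)) (XT.lf (nat_lit 0) (nat_lit 105671437302) (nat_lit 152) (nat_lit 28494658245) (nat_lit 0) (nat_lit 30516083509) (nat_lit 10) (nat_lit 5) (nat_lit 12) (nat_lit 4) (nat_lit 10) (nat_lit 4) (nat_lit 360) (nat_lit 273) (nat_lit 147))) (XT.nd (nat_lit 78) (nat_lit 0) (nat_lit 0) (XT.lf (nat_lit 0) (nat_lit 11760628178) (nat_lit 76) (nat_lit 117820614861) (nat_lit 76) (nat_lit 42657590655) (nat_lit 9) (nat_lit 4) (nat_lit 10) (nat_lit 5) (nat_lit 10) (nat_lit 4) (nat_lit 361) (nat_lit 273) (nat_lit 146)) (XT.lf (nat_lit 0) (nat_lit 54615762568) (nat_lit 76) (nat_lit 100359611961) (nat_lit 76) (nat_lit 25189282599) (nat_lit 9) (nat_lit 4) (nat_lit 10) (nat_lit 5) (nat_lit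 10) (nat_lit 4) (nat_lit 362) (nat_lit 273) (nat_lit 145))))))))
noncomputable def xc74 : XT := (XT.nd (nat_lit 2106) (nat_lit 5472) (nat_lit 0) (XT.nd (nat_lit 1014) (nat_lit 6080) (nat_lit 0) (XT.nd (nat_lit 468) (nat_lit 2888) (nat_lit 0) (XT.nd (nat_lit 234) (nat_lit 0) (nat_lit 76) (XT.nd (nat_lit 78) (nat_lit 0) (nat_lit 0) (XT.lf (nat_lit 0) (nat_lit 74443945) (nat_lit 0) (nat_lit 74443945) (nat_lit 988) (nat_lit 4228981959) (nat_lit 225) (nat_lit 5) (nat_lit 225) (nat_lit 3) (nat_lit 238) (nat_lit 3) (nat_lit 274) (nat_lit 274) (nat_lit 232)) (XT.nd (nat_lit 78) (nat_lit 0) (nat_lit 76) (XT.lf (nat_lit 0) (nat_lit 1872649948) (nat_lit 988) (nat_lit 1986312406) (nat_lit 1064) (nat_lit 5066694811) (nat_lit 225) (nat_lit 5) (nat_lit 238) (nat_lit 3) (nat_lit 239) (nat_lit 5) (nat_lit 275) (nat_lit 274) (nat_lit 231)) (XT.lf (nat_lit 0) (nat_lit 3493944836) (nat_lit 988) (nat_lit 4110896867)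 (nat_lit 1064) (nat_lit 1500323518) (nat_lit 226) (nat_lit 5) (nat_lit 239) (nat_lit 5) (nat_lit 240) (nat_lit 5) (nat_lit 276) (nat_lit 274) (nat_lit 230)))) (XT.nd (nat_lit 78) (nat_lit 0) (nat_lit 76) (XT.lf (nat_lit 76) (nat_lit 3038602108) (nat_lit 0) (nat_lit 2154343510) (nat_lit 1064) (nat_lit 4100922899) (nat_lit 227) (nat_lit 5) (nat_lit 226) (nat_lit 5) (nat_lit 240) (nat_lit 5) (nat_lit 277) (nat_lit 274) (nat_lit 229)) (XT.nd (nat_lit 78) (nat_lit 0) (nat_lit 0) (XT.lf (nat_lit 76) (nat_lit 1071475734) (nat_lit 0) (nat_lit 5904825934) (nat_lit 1064) (nat_lit 2515836554) (nat_lit 228) (nat_lit 5) (nat_lit 227) (nat_lit 5) (nat_lit 241) (nat_lit 5) (nat_lit 278) (nat_lit 274) (nat_lit 228)) (XT.lf (nat_lit 76) (nat_lit 8819230609) (nat_lit 0) (nat_lit 31252309) (nat_lit 1064) (nat_lit 849896773) (nat_lit 228) (nat_lit 5) (nat_lit 227) (nat_lit 5) (nat_lit 241) (nat_lit 5) (nat_lit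 279) (nat_lit 274) (nat_lit 227))))) (XT.nd (nat_lit 234) (nat_lit 2052) (nat_lit 0) (XT.nd (nat_lit 78) (nat_lit 0) (nat_lit 76) (XT.lf (nat_lit 0) (nat_lit 929027065) (nat_lit 1064) (nat_lit 2866802087) (nat_lit 1140) (nat_lit 6121627501) (nat_lit 214) (nat_lit 5) (nat_lit 228) (nat_lit 5) (nat_lit 229) (nat_lit 5) (nat_lit 280) (nat_lit 274) (nat_lit 226)) (XT.nd (nat_lit 78) (nat_lit 0) (nat_lit 0) (XT.lf (nat_lit 0) (nat_lit 2786627979) (nat_lit 1064) (nat_lit 4877599359) (nat_lit 1140) (nat_lit 2480783545) (nat_lit 215) (nat_lit 5) (nat_lit 229) (nat_lit 5) (nat_lit 230) (nat_lit 5) (nat_lit 281) (nat_lit 274) (nat_lit 225)) (XT.lf (nat_lit 76) (nat_lit 3458925637) (nat_lit 0) (nat_lit 1305415884) (nat_lit 1140) (nat_lit 5618874905) (nat_lit 216) (nat_lit 5) (nat_lit 215) (nat_lit 5) (nat_lit 230) (nat_lit 5) (nat_lit 282) (nat_lit 274) (nat_lit 224)))) (XT.nd (nat_lit 156) (nat_lit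 2204) (nat_lit 0) (XT.nd (nat_lit 78) (nat_lit 0) (nat_lit 76) (XT.lf (nat_lit 76) (nat_lit 1605620546) (nat_lit 0) (nat_lit 5282146162) (nat_lit 1140) (nat_lit 3744247023) (nat_lit 217) (nat_lit 5) (nat_lit 216) (nat_lit 5) (nat_lit 231) (nat_lit 5) (nat_lit 283) (nat_lit 274) (nat_lit 223)) (XT.lf (nat_lit 0) (nat_lit 9148066998) (nat_lit 1064) (nat_lit 268385142) (nat_lit 76) (nat_lit 1475959805) (nat_lit 217) (nat_lit 5) (nat_lit 231) (nat_lit 5) (nat_lit 218) (nat_lit 5) (nat_lit 284) (nat_lit 274) (nat_lit 222))) (XT.nd (nat_lit 78) (nat_lit 1140) (nat_lit 0) (XT.lf (nat_lit 0) (nat_lit 424343787) (nat_lit 1140) (nat_lit 2171982910) (nat_lit 76) (nat_lit 8567204913) (nat_lit 202) (nat_lit 5) (nat_lit 217) (nat_lit 5) (nat_lit 203) (nat_lit 5) (nat_lit 285) (nat_lit 274) (nat_lit 221)) (XT.lf (nat_lit 0) (nat_lit 2721145706) (nat_lit 1216) (nat_lit 4148360776) (nat_lit 76) (nat_lit 4576582369)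 (nat_lit 187) (nat_lit 5) (nat_lit 203) (nat_lit 5) (nat_lit 188) (nat_lit 5) (nat_lit 286) (nat_lit 274) (nat_lit 220)))))) (XT.nd (nat_lit 546) (nat_lit 2660) (nat_lit 0) (XT.nd (nat_lit 234) (nat_lit 1596) (nat_lit 0) (XT.nd (nat_lit 78) (nat_lit 1140) (nat_lit 0) (XT.lf (nat_lit 0) (nat_lit 5178695338) (nat_lit 760) (nat_lit 6172993954) (nat_lit 76) (nat_lit 389776337) (nat_lit 178) (nat_lit 5) (nat_lit 188) (nat_lit 5) (nat_lit 179) (nat_lit 5) (nat_lit 287) (nat_lit 274) (nat_lit 219)) (XT.nd (nat_lit 78) (nat_lit 532) (nat_lit 0) (XT.lf (nat_lit 0) (nat_lit 3756635603) (nat_lit 608) (nat_lit 4093211356) (nat_lit 684) (nat_lit 4199108173) (nat_lit 170) (nat_lit 5) (nat_lit 178) (nat_lit 5) (nat_lit 179) (nat_lit 5) (nat_lit 288) (nat_lit 274) (nat_lit 218)) (XT.lf (nat_lit 0) (nat_lit 1889546088) (nat_lit 532) (nat_lit 8825687689) (nat_lit 608) (nat_lit 1654827502) (nat_lit 163) (nat_lit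 5) (nat_lit 170) (nat_lit 5) (nat_lit 171) (nat_lit 5) (nat_lit 289) (nat_lit 274) (nat_lit 217)))) (XT.nd (nat_lit 156) (nat_lit 988) (nat_lit 0) (XT.nd (nat_lit 78) (nat_lit 532) (nat_lit 0) (XT.lf (nat_lit 0) (nat_lit 1070322822) (nat_lit 608) (nat_lit 56983908) (nat_lit 76) (nat_lit 11577475772) (nat_lit 162) (nat_lit 5) (nat_lit 170) (nat_lit 5) (nat_lit 163) (nat_lit 5) (nat_lit 290) (nat_lit 274) (nat_lit 216)) (XT.lf (nat_lit 0) (nat_lit 4020522745) (nat_lit 608) (nat_lit 2087485902) (nat_lit 76) (nat_lit 6944104150) (nat_lit 155) (nat_lit 5) (nat_lit 163) (nat_lit 5) (nat_lit 156) (nat_lit 5) (nat_lit 291) (nat_lit 274) (nat_lit 215))) (XT.nd (nat_lit 78) (nat_lit 532) (nat_lit 0) (XT.lf (nat_lit 0) (nat_lit 7189414991) (nat_lit 532) (nat_lit 4196249628) (nat_lit 76) (nat_lit 2029061932) (nat_lit 149) (nat_lit 5) (nat_lit 156) (nat_lit 5) (nat_lit 150) (nat_lit 5) (nat_lit 292) (nat_lit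 274) (nat_lit 214)) (XT.lf (nat_lit 0) (nat_lit 7368838724) (nat_lit 532) (nat_lit 3254456397) (nat_lit 608) (nat_lit 3169029491) (nat_lit 142) (nat_lit 5) (nat_lit 149) (nat_lit 5) (nat_lit 150) (nat_lit 5) (nat_lit 293) (nat_lit 274) (nat_lit 213))))) (XT.nd (nat_lit 234) (nat_lit 1292) (nat_lit 0) (XT.nd (nat_lit 78) (nat_lit 836) (nat_lit 0) (XT.lf (nat_lit 0) (nat_lit 140803559) (nat_lit 532) (nat_lit 8771919077) (nat_lit 76) (nat_lit 5273068983) (nat_lit 135) (nat_lit 5) (nat_lit 142) (nat_lit 5) (nat_lit 136) (nat_lit 5) (nat_lit 294) (nat_lit 274) (nat_lit 212)) (XT.nd (nat_lit 78) (nat_lit 380) (nat_lit 0) (XT.lf (nat_lit 0) (nat_lit 3328868813) (nat_lit 456) (nat_lit 309280421) (nat_lit 532) (nat_lit 10957258565) (nat_lit 129) (nat_lit 5) (nat_lit 135) (nat_lit 5) (nat_lit 136) (nat_lit 5) (nat_lit 295) (nat_lit 274) (nat_lit 211)) (XT.lf (nat_lit 0) (nat_lit 1080747025) (nat_lit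 380) (nat_lit 6371975791) (nat_lit 456) (nat_lit 7568553019) (nat_lit 124) (nat_lit 5) (nat_lit 129) (nat_lit 5) (nat_lit 130) (nat_lit 5) (nat_lit 296) (nat_lit 274) (nat_lit 210)))) (XT.nd (nat_lit 156) (nat_lit 760) (nat_lit 0) (XT.nd (nat_lit 78) (nat_lit 532) (nat_lit 0) (XT.lf (nat_lit 0) (nat_lit 11561471722) (nat_lit 456) (nat_lit 1263719521) (nat_lit 76) (nat_lit 2640182502) (nat_lit 124) (nat_lit 5) (nat_lit 130) (nat_lit 5) (nat_lit 125) (nat_lit 5) (nat_lit 297) (nat_lit 274) (nat_lit 209)) (XT.lf (nat_lit 0) (nat_lit 88156382) (nat_lit 532) (nat_lit 3756330591) (nat_lit 76) (nat_lit 12082950148) (nat_lit 117) (nat_lit 5) (nat_lit 124) (nat_lit 5) (nat_lit 118) (nat_lit 5) (nat_lit 298) (nat_lit 274) (nat_lit 208))) (XT.nd (nat_lit 78) (nat_lit 380) (nat_lit 0) (XT.lf (nat_lit 0) (nat_lit 4325587229) (nat_lit 456) (nat_lit 6464501861) (nat_lit 76) (nat_lit 5617594867) (nat_lit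 112) (nat_lit 5) (nat_lit 118) (nat_lit 5) (nat_lit 113) (nat_lit 5) (nat_lit 299) (nat_lit 274) (nat_lit 207)) (XT.lf (nat_lit 0) (nat_lit 7556388581) (nat_lit 380) (nat_lit 1331718668) (nat_lit 456) (nat_lit 8020472798) (nat_lit 107) (nat_lit 5) (nat_lit 112) (nat_lit 5) (nat_lit 113) (nat_lit 5) (nat_lit 300) (nat_lit 274) (nat_lit 206))))))) (XT.nd (nat_lit 1092) (nat_lit 2052) (nat_lit 0) (XT.nd (nat_lit 546) (nat_lit 1368) (nat_lit 0) (XT.nd (nat_lit 234) (nat_lit 1292) (nat_lit 0) (XT.nd (nat_lit 78) (nat_lit 456) (nat_lit 0) (XT.lf (nat_lit 0) (nat_lit 4947181522) (nat_lit 304) (nat_lit 8892961161) (nat_lit 380) (nat_lit 3589568421) (nat_lit 103) (nat_lit 5) (nat_lit 107) (nat_lit 5) (nat_lit 108) (nat_lit 5) (nat_lit 301) (nat_lit 274) (nat_lit 205)) (XT.nd (nat_lit 78) (nat_lit 0) (nat_lit 0) (XT.lf (nat_lit 0) (nat_lit 1148145701) (nat_lit 456) (nat_lit 15829434246) (nat_lit 76)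 (nat_lit 995861550) (nat_lit 97) (nat_lit 5) (nat_lit 103) (nat_lit 5) (nat_lit 98) (nat_lit 5) (nat_lit 302) (nat_lit 274) (nat_lit 204)) (XT.lf (nat_lit 0) (nat_lit 6234728079) (nat_lit 456) (nat_lit 950961103) (nat_lit 76) (nat_lit 11352044454) (nat_lit 97) (nat_lit 5) (nat_lit 103) (nat_lit 5) (nat_lit 98) (nat_lit 5) (nat_lit 303) (nat_lit 274) (nat_lit 203)))) (XT.nd (nat_lit 156) (nat_lit 684) (nat_lit 0) (XT.nd (nat_lit 78) (nat_lit 304) (nat_lit 0) (XT.lf (nat_lit 0) (nat_lit 11717739409) (nat_lit 380) (nat_lit 4239178701) (nat_lit 76) (nat_lit 3169085986) (nat_lit 93) (nat_lit 5) (nat_lit 98) (nat_lit 5) (nat_lit 94) (nat_lit 5) (nat_lit 304) (nat_lit 274) (nat_lit 202)) (XT.lf (nat_lit 0) (nat_lit 11909420823) (nat_lit 304) (nat_lit 5731021305) (nat_lit 380) (nat_lit 2098305165) (nat_lit 89) (nat_lit 5) (nat_lit 93) (nat_lit 5) (nat_lit 94) (nat_lit 5) (nat_lit 305) (nat_lit 274)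 (nat_lit 201))) (XT.nd (nat_lit 78) (nat_lit 304) (nat_lit 0) (XT.lf (nat_lit 0) (nat_lit 3555681496) (nat_lit 380) (nat_lit 11762101671) (nat_lit 76) (nat_lit 5058973841) (nat_lit 84) (nat_lit 5) (nat_lit 89) (nat_lit 5) (nat_lit 85) (nat_lit 5) (nat_lit 306) (nat_lit 274) (nat_lit 200)) (XT.lf (nat_lit 0) (nat_lit 4975169918) (nat_lit 304) (nat_lit 4631622496) (nat_lit 380) (nat_lit 11434539304) (nat_lit 80) (nat_lit 5) (nat_lit 84) (nat_lit 5) (nat_lit 85) (nat_lit 5) (nat_lit 307) (nat_lit 274) (nat_lit 199))))) (XT.nd (nat_lit 234) (nat_lit 760) (nat_lit 0) (XT.nd (nat_lit 78) (nat_lit 380) (nat_lit 0) (XT.lf (nat_lit 0) (nat_lit 972194427) (nat_lit 228) (nat_lit 15154476970) (nat_lit 304) (nat_lit 5607498724) (nat_lit 77) (nat_lit 5) (nat_lit 80) (nat_lit 5) (nat_lit 81) (nat_lit 5) (nat_lit 308) (nat_lit 274) (nat_lit 198)) (XT.nd (nat_lit 78) (nat_lit 304) (nat_lit 0) (XT.lf (nat_lit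 0) (nat_lit 686632393) (nat_lit 304) (nat_lit 3352997874) (nat_lit 76) (nat_lit 18416321337) (nat_lit 76) (nat_lit 5) (nat_lit 80) (nat_lit 5) (nat_lit 77) (nat_lit 5) (nat_lit 309) (nat_lit 274) (nat_lit 197)) (XT.lf (nat_lit 0) (nat_lit 7374479017) (nat_lit 380) (nat_lit 8158081103) (nat_lit 76) (nat_lit 7673765816) (nat_lit 72) (nat_lit 5) (nat_lit 77) (nat_lit 5) (nat_lit 73) (nat_lit 5) (nat_lit 310) (nat_lit 274) (nat_lit 196)))) (XT.nd (nat_lit 156) (nat_lit 304) (nat_lit 0) (XT.nd (nat_lit 78) (nat_lit 228) (nat_lit 0) (XT.lf (nat_lit 0) (nat_lit 10572830471) (nat_lit 228) (nat_lit 3975210599) (nat_lit 304) (nat_lit 9441656115) (nat_lit 69) (nat_lit 5) (nat_lit 72) (nat_lit 5) (nat_lit 73) (nat_lit 5) (nat_lit 311) (nat_lit 274) (nat_lit 195)) (XT.lf (nat_lit 0) (nat_lit 5592572472) (nat_lit 228) (nat_lit 16679530013) (nat_lit 304) (nat_lit 2534396913) (nat_lit 66) (nat_lit 5) (nat_lit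 69) (nat_lit 5) (nat_lit 70) (nat_lit 5) (nat_lit 312) (nat_lit 274) (nat_lit 194))) (XT.nd (nat_lit 78) (nat_lit 0) (nat_lit 0) (XT.lf (nat_lit 0) (nat_lit 49229630) (nat_lit 228) (nat_lit 4732400160) (nat_lit 304) (nat_lit 20876502831) (nat_lit 62) (nat_lit 5) (nat_lit 65) (nat_lit 5) (nat_lit 66) (nat_lit 5) (nat_lit 313) (nat_lit 274) (nat_lit 193)) (XT.lf (nat_lit 0) (nat_lit 12662464411) (nat_lit 304) (nat_lit 6009255898) (nat_lit 76) (nat_lit 7872346757) (nat_lit 62) (nat_lit 5) (nat_lit 66) (nat_lit 5) (nat_lit 63) (nat_lit 5) (nat_lit 314) (nat_lit 274) (nat_lit 192)))))) (XT.nd (nat_lit 546) (nat_lit 912) (nat_lit 0) (XT.nd (nat_lit 234) (nat_lit 456) (nat_lit 0) (XT.nd (nat_lit 78) (nat_lit 456) (nat_lit 0) (XT.lf (nat_lit 0) (nat_lit 14775437407) (nat_lit 228) (nat_lit 6328928927) (nat_lit 304) (nat_lit 6364935424) (nat_lit 59) (nat_lit 5) (nat_lit 62) (nat_lit 5) (nat_lit 63)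 (nat_lit 5) (nat_lit 315) (nat_lit 274) (nat_lit 191)) (XT.nd (nat_lit 78) (nat_lit 228) (nat_lit 0) (XT.lf (nat_lit 0) (nat_lit 1683906202) (nat_lit 228) (nat_lit 20102245678) (nat_lit 76) (nat_lit 6648634523) (nat_lit 56) (nat_lit 5) (nat_lit 59) (nat_lit 5) (nat_lit 57) (nat_lit 5) (nat_lit 316) (nat_lit 274) (nat_lit 190)) (XT.lf (nat_lit 0) (nat_lit 1088256241) (nat_lit 228) (nat_lit 9101192319) (nat_lit 304) (nat_lit 19251641872) (nat_lit 53) (nat_lit 5) (nat_lit 56) (nat_lit 5) (nat_lit 57) (nat_lit 5) (nat_lit 317) (nat_lit 274) (nat_lit 189)))) (XT.nd (nat_lit 156) (nat_lit 304) (nat_lit 0) (XT.nd (nat_lit 78) (nat_lit 152) (nat_lit 0) (XT.lf (nat_lit 0) (nat_lit 19348750915) (nat_lit 304) (nat_lit 6809735498) (nat_lit 76) (nat_lit 4332380748) (nat_lit 53) (nat_lit 5) (nat_lit 57) (nat_lit 5) (nat_lit 54) (nat_lit 5) (nat_lit 318) (nat_lit 274) (nat_lit 188)) (XT.lf (nat_lit 0) (nat_lit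 15998464353) (nat_lit 152) (nat_lit 13193156833) (nat_lit 228) (nat_lit 2394754872) (nat_lit 51) (nat_lit 5) (nat_lit 53) (nat_lit 5) (nat_lit 54) (nat_lit 5) (nat_lit 319) (nat_lit 274) (nat_lit 187))) (XT.nd (nat_lit 78) (nat_lit 0) (nat_lit 0) (XT.lf (nat_lit 0) (nat_lit 6785799101) (nat_lit 304) (nat_lit 25335585625) (nat_lit 76) (nat_lit 609478506) (nat_lit 47) (nat_lit 5) (nat_lit 51) (nat_lit 5) (nat_lit 48) (nat_lit 5) (nat_lit 320) (nat_lit 274) (nat_lit 186)) (XT.lf (nat_lit 0) (nat_lit 16652453506) (nat_lit 304) (nat_lit 2264718132) (nat_lit 76) (nat_lit 15006403868) (nat_lit 47) (nat_lit 5) (nat_lit 51) (nat_lit 5) (nat_lit 48) (nat_lit 5) (nat_lit 321) (nat_lit 274) (nat_lit 185))))) (XT.nd (nat_lit 234) (nat_lit 380) (nat_lit 0) (XT.nd (nat_lit 78) (nat_lit 380) (nat_lit 0) (XT.lf (nat_lit 0) (nat_lit 22366230008) (nat_lit 152) (nat_lit 4843042093) (nat_lit 228) (nat_lit 7960755920)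 (nat_lit 45) (nat_lit 5) (nat_lit 47) (nat_lit 5) (nat_lit 48) (nat_lit 5) (nat_lit 322) (nat_lit 274) (nat_lit 184)) (XT.nd (nat_lit 78) (nat_lit 152) (nat_lit 0) (XT.lf (nat_lit 0) (nat_lit 1997627555) (nat_lit 228) (nat_lit 24586872506) (nat_lit 76) (nat_lit 9887250948) (nat_lit 42) (nat_lit 5) (nat_lit 45) (nat_lit 5) (nat_lit 43) (nat_lit 5) (nat_lit 323) (nat_lit 274) (nat_lit 183)) (XT.lf (nat_lit 0) (nat_lit 83042983) (nat_lit 152) (nat_lit 12373264365) (nat_lit 228) (nat_lit 25374886114) (nat_lit 40) (nat_lit 5) (nat_lit 42) (nat_lit 5) (nat_lit 43) (nat_lit 5) (nat_lit 324) (nat_lit 274) (nat_lit 182)))) (XT.nd (nat_lit 156) (nat_lit 228) (nat_lit 0) (XT.nd (nat_lit 78) (nat_lit 152) (nat_lit 0) (XT.lf (nat_lit 0) (nat_lit 23701167175) (nat_lit 228) (nat_lit 12806326648) (nat_lit 76) (nat_lit 2743224862) (nat_lit 40) (nat_lit 5) (nat_lit 43) (nat_lit 5) (nat_lit 41) (nat_lit 5)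 (nat_lit 325) (nat_lit 274) (nat_lit 181)) (XT.lf (nat_lit 0) (nat_lit 13493819628) (nat_lit 152) (nat_lit 22252992220) (nat_lit 228) (nat_lit 4987259712) (nat_lit 38) (nat_lit 5) (nat_lit 40) (nat_lit 5) (nat_lit 41) (nat_lit 5) (nat_lit 326) (nat_lit 274) (nat_lit 180))) (XT.nd (nat_lit 78) (nat_lit 152) (nat_lit 0) (XT.lf (nat_lit 0) (nat_lit 6101481596) (nat_lit 228) (nat_lit 997757338) (nat_lit 76) (nat_lit 35187077322) (nat_lit 37) (nat_lit 5) (nat_lit 40) (nat_lit 5) (nat_lit 38) (nat_lit 5) (nat_lit 327) (nat_lit 274) (nat_lit 179)) (XT.lf (nat_lit 0) (nat_lit 17974811138) (nat_lit 228) (nat_lit 16986919120) (nat_lit 76) (nat_lit 8942969439) (nat_lit 35) (nat_lit 5) (nat_lit 38) (nat_lit 5) (nat_lit 36) (nat_lit 5) (nat_lit 328) (nat_lit 274) (nat_lit 178))))))))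
noncomputable def xc75 : XT := (XT.nd (nat_lit 2184) (nat_lit 152) (nat_lit 0) (XT.nd (nat_lit 1092) (nat_lit 684) (nat_lit 0) (XT.nd (nat_lit 546) (nat_lit 532) (nat_lit 0) (XT.nd (nat_lit 234) (nat_lit 304) (nat_lit 0) (XT.nd (nat_lit 78) (nat_lit 152) (nat_lit 0) (XT.lf (nat_lit 0) (nat_lit 10759374617) (nat_lit 152) (nat_lit 19853303420) (nat_lit 228) (nat_lit 14986204558) (nat_lit 33) (nat_lit 5) (nat_lit 35) (nat_lit 5) (nat_lit 36) (nat_lit 5) (nat_lit 329) (nat_lit 274) (nat_lit 177)) (XT.nd (nat_lit 78) (nat_lit 152) (nat_lit 0) (XT.lf (nat_lit 0) (nat_lit 40223603550) (nat_lit 152) (nat_lit 3819578451) (nat_lit 228) (nat_lit 3329776434) (nat_lit 33) (nat_lit 5) (nat_lit 35) (nat_lit 5) (nat_lit 36) (nat_lit 5) (nat_lit 330) (nat_lit 274) (nat_lit 176)) (XT.lf (nat_lit 0) (nat_lit 9063900124) (nat_lit 152) (nat_lit 27104777164) (nat_lit 76) (nat_lit 13054648639) (nat_lit 31) (nat_lit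 5) (nat_lit 33) (nat_lit 5) (nat_lit 32) (nat_lit 5) (nat_lit 331) (nat_lit 274) (nat_lit 175)))) (XT.nd (nat_lit 156) (nat_lit 152) (nat_lit 0) (XT.nd (nat_lit 78) (nat_lit 0) (nat_lit 0) (XT.lf (nat_lit 0) (nat_lit 1773862691) (nat_lit 152) (nat_lit 20351848647) (nat_lit 228) (nat_lit 29035997320) (nat_lit 29) (nat_lit 5) (nat_lit 31) (nat_lit 5) (nat_lit 32) (nat_lit 5) (nat_lit 332) (nat_lit 274) (nat_lit 174)) (XT.lf (nat_lit 0) (nat_lit 32640399931) (nat_lit 152) (nat_lit 3466395476) (nat_lit 228) (nat_lit 17082234772) (nat_lit 29) (nat_lit 5) (nat_lit 31) (nat_lit 5) (nat_lit 32) (nat_lit 5) (nat_lit 333) (nat_lit 274) (nat_lit 173))) (XT.nd (nat_lit 78) (nat_lit 76) (nat_lit 0) (XT.lf (nat_lit 0) (nat_lit 9764315722) (nat_lit 76) (nat_lit 41241272275) (nat_lit 152) (nat_lit 4305575029) (nat_lit 28) (nat_lit 5) (nat_lit 29) (nat_lit 5) (nat_lit 30) (nat_lit 4) (nat_lit 334) (nat_lit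 274) (nat_lit 172)) (XT.lf (nat_lit 0) (nat_lit 9168709295) (nat_lit 152) (nat_lit 15656676473) (nat_lit 76) (nat_lit 32704297388) (nat_lit 27) (nat_lit 5) (nat_lit 29) (nat_lit 5) (nat_lit 28) (nat_lit 5) (nat_lit 335) (nat_lit 274) (nat_lit 171))))) (XT.nd (nat_lit 234) (nat_lit 304) (nat_lit 0) (XT.nd (nat_lit 78) (nat_lit 76) (nat_lit 0) (XT.lf (nat_lit 0) (nat_lit 15976025821) (nat_lit 152) (nat_lit 7394556503) (nat_lit 228) (nat_lit 36482984771) (nat_lit 25) (nat_lit 5) (nat_lit 27) (nat_lit 5) (nat_lit 28) (nat_lit 5) (nat_lit 336) (nat_lit 274) (nat_lit 170)) (XT.nd (nat_lit 78) (nat_lit 76) (nat_lit 0) (XT.lf (nat_lit 0) (nat_lit 38538965302) (nat_lit 228) (nat_lit 12897660728) (nat_lit 76) (nat_lit 10849330802) (nat_lit 25) (nat_lit 5) (nat_lit 28) (nat_lit 5) (nat_lit 26) (nat_lit 4) (nat_lit 337) (nat_lit 274) (nat_lit 169)) (XT.lf (nat_lit 0) (nat_lit 19926420724) (nat_lit 76)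 (nat_lit 34794856497) (nat_lit 152) (nat_lit 10111027437) (nat_lit 24) (nat_lit 5) (nat_lit 25) (nat_lit 5) (nat_lit 26) (nat_lit 4) (nat_lit 338) (nat_lit 274) (nat_lit 168)))) (XT.nd (nat_lit 156) (nat_lit 76) (nat_lit 0) (XT.nd (nat_lit 78) (nat_lit 152) (nat_lit 0) (XT.lf (nat_lit 0) (nat_lit 4248285442) (nat_lit 152) (nat_lit 12901170945) (nat_lit 76) (nat_lit 50351594787) (nat_lit 23) (nat_lit 5) (nat_lit 25) (nat_lit 5) (nat_lit 24) (nat_lit 5) (nat_lit 339) (nat_lit 274) (nat_lit 167)) (XT.lf (nat_lit 0) (nat_lit 19326433166) (nat_lit 228) (nat_lit 49316989742) (nat_lit 76) (nat_lit 1650512841) (nat_lit 21) (nat_lit 5) (nat_lit 24) (nat_lit 5) (nat_lit 22) (nat_lit 4) (nat_lit 340) (nat_lit 274) (nat_lit 166))) (XT.nd (nat_lit 78) (nat_lit 76) (nat_lit 0) (XT.lf (nat_lit 0) (nat_lit 35455989419) (nat_lit 228) (nat_lit 16595806008) (nat_lit 76) (nat_lit 21165747360) (nat_lit 21) (nat_lit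 5) (nat_lit 24) (nat_lit 5) (nat_lit 22) (nat_lit 4) (nat_lit 341) (nat_lit 274) (nat_lit 165)) (XT.lf (nat_lit 0) (nat_lit 18097943018) (nat_lit 76) (nat_lit 34458797954) (nat_lit 152) (nat_lit 23725650792) (nat_lit 20) (nat_lit 5) (nat_lit 21) (nat_lit 5) (nat_lit 22) (nat_lit 4) (nat_lit 342) (nat_lit 274) (nat_lit 164)))))) (XT.nd (nat_lit 546) (nat_lit 304) (nat_lit 0) (XT.nd (nat_lit 234) (nat_lit 152) (nat_lit 0) (XT.nd (nat_lit 78) (nat_lit 228) (nat_lit 0) (XT.lf (nat_lit 0) (nat_lit 54857010351) (nat_lit 76) (nat_lit 15817392984) (nat_lit 152) (nat_lit 8821226623) (nat_lit 20) (nat_lit 5) (nat_lit 21) (nat_lit 5) (nat_lit 22) (nat_lit 4) (nat_lit 343) (nat_lit 274) (nat_lit 163)) (XT.nd (nat_lit 78) (nat_lit 0) (nat_lit 0) (XT.lf (nat_lit 0) (nat_lit 6827227156) (nat_lit 228) (nat_lit 72190120554) (nat_lit 76) (nat_lit 3846254260) (nat_lit 17) (nat_lit 5) (nat_lit 20) (nat_lit 5)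 (nat_lit 18) (nat_lit 4) (nat_lit 344) (nat_lit 274) (nat_lit 162)) (XT.lf (nat_lit 0) (nat_lit 23484729822) (nat_lit 228) (nat_lit 38392815027) (nat_lit 76) (nat_lit 24507538297) (nat_lit 17) (nat_lit 5) (nat_lit 20) (nat_lit 5) (nat_lit 18) (nat_lit 4) (nat_lit 345) (nat_lit 274) (nat_lit 161)))) (XT.nd (nat_lit 156) (nat_lit 76) (nat_lit 0) (XT.nd (nat_lit 78) (nat_lit 76) (nat_lit 0) (XT.lf (nat_lit 0) (nat_lit 40967082812) (nat_lit 228) (nat_lit 2920233586) (nat_lit 76) (nat_lit 46195565214) (nat_lit 17) (nat_lit 5) (nat_lit 20) (nat_lit 5) (nat_lit 18) (nat_lit 4) (nat_lit 346) (nat_lit 274) (nat_lit 160)) (XT.lf (nat_lit 0) (nat_lit 34994960011) (nat_lit 76) (nat_lit 24657343728) (nat_lit 152) (nat_lit 34303406121) (nat_lit 16) (nat_lit 5) (nat_lit 17) (nat_lit 5) (nat_lit 18) (nat_lit 4) (nat_lit 347) (nat_lit 274) (nat_lit 159))) (XT.nd (nat_lit 78) (nat_lit 76) (nat_lit 0) (XT.lf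 (nat_lit 0) (nat_lit 74853441239) (nat_lit 76) (nat_lit 4440997229) (nat_lit 152) (nat_lit 18727063725) (nat_lit 16) (nat_lit 5) (nat_lit 17) (nat_lit 5) (nat_lit 18) (nat_lit 4) (nat_lit 348) (nat_lit 274) (nat_lit 158)) (XT.lf (nat_lit 0) (nat_lit 14523293504) (nat_lit 76) (nat_lit 85689240690) (nat_lit 76) (nat_lit 2069236468) (nat_lit 15) (nat_lit 4) (nat_lit 16) (nat_lit 5) (nat_lit 16) (nat_lit 4) (nat_lit 349) (nat_lit 274) (nat_lit 157))))) (XT.nd (nat_lit 234) (nat_lit 152) (nat_lit 0) (XT.nd (nat_lit 78) (nat_lit 76) (nat_lit 0) (XT.lf (nat_lit 0) (nat_lit 15399269088) (nat_lit 152) (nat_lit 52372743170) (nat_lit 76) (nat_lit 38970233593) (nat_lit 14) (nat_lit 5) (nat_lit 16) (nat_lit 5) (nat_lit 15) (nat_lit 4) (nat_lit 350) (nat_lit 274) (nat_lit 156)) (XT.nd (nat_lit 78) (nat_lit 76) (nat_lit 0) (XT.lf (nat_lit 0) (nat_lit 33692169857) (nat_lit 152) (nat_lit 15250778606) (nat_lit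 76) (nat_lit 62482370654) (nat_lit 14) (nat_lit 5) (nat_lit 16) (nat_lit 5) (nat_lit 15) (nat_lit 4) (nat_lit 351) (nat_lit 274) (nat_lit 155)) (XT.lf (nat_lit 0) (nat_lit 24187681719) (nat_lit 76) (nat_lit 28938223694) (nat_lit 152) (nat_lit 63209856742) (nat_lit 13) (nat_lit 5) (nat_lit 14) (nat_lit 5) (nat_lit 15) (nat_lit 4) (nat_lit 352) (nat_lit 274) (nat_lit 154)))) (XT.nd (nat_lit 156) (nat_lit 152) (nat_lit 0) (XT.nd (nat_lit 78) (nat_lit 0) (nat_lit 0) (XT.lf (nat_lit 0) (nat_lit 65905502484) (nat_lit 76) (nat_lit 7776694113) (nat_lit 152) (nat_lit 47805006399) (nat_lit 13) (nat_lit 5) (nat_lit 14) (nat_lit 5) (nat_lit 15) (nat_lit 4) (nat_lit 353) (nat_lit 274) (nat_lit 153)) (XT.lf (nat_lit 0) (nat_lit 95399256620) (nat_lit 152) (nat_lit 17336688162) (nat_lit 0) (nat_lit 14156284102) (nat_lit 13) (nat_lit 5) (nat_lit 15) (nat_lit 4) (nat_lit 13) (nat_lit 4) (nat_lit 354) (nat_lit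 274) (nat_lit 152))) (XT.nd (nat_lit 78) (nat_lit 76) (nat_lit 0) (XT.lf (nat_lit 0) (nat_lit 23184153405) (nat_lit 76) (nat_lit 95313768728) (nat_lit 76) (nat_lit 14060712915) (nat_lit 12) (nat_lit 4) (nat_lit 13) (nat_lit 5) (nat_lit 13) (nat_lit 4) (nat_lit 355) (nat_lit 274) (nat_lit 151)) (XT.lf (nat_lit 0) (nat_lit 4335108083) (nat_lit 152) (nat_lit 72462389542) (nat_lit 76) (nat_lit 61704399257) (nat_lit 11) (nat_lit 5) (nat_lit 13) (nat_lit 5) (nat_lit 12) (nat_lit 4) (nat_lit 356) (nat_lit 274) (nat_lit 150))))))) (XT.nd (nat_lit 34866) (nat_lit 0) (nat_lit 9120) (XT.nd (nat_lit 34320) (nat_lit 0) (nat_lit 15504) (XT.nd (nat_lit 234) (nat_lit 76) (nat_lit 0) (XT.nd (nat_lit 78) (nat_lit 76) (nat_lit 0) (XT.lf (nat_lit 0) (nat_lit 23357402513) (nat_lit 152) (nat_lit 33856277694) (nat_lit 76) (nat_lit 87524542137) (nat_lit 11) (nat_lit 5) (nat_lit 13) (nat_lit 5) (nat_lit 12) (nat_lit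 4) (nat_lit 357) (nat_lit 274) (nat_lit 149)) (XT.nd (nat_lit 78) (nat_lit 0) (nat_lit 0) (XT.lf (nat_lit 0) (nat_lit 6803698043) (nat_lit 76) (nat_lit 36587539971) (nat_lit 152) (nat_lit 107893314580) (nat_lit 10) (nat_lit 5) (nat_lit 11) (nat_lit 5) (nat_lit 12) (nat_lit 4) (nat_lit 358) (nat_lit 274) (nat_lit 148)) (XT.lf (nat_lit 0) (nat_lit 50195226734) (nat_lit 76) (nat_lit 14575235045) (nat_lit 152) (nat_lit 93377427926) (nat_lit 10) (nat_lit 5) (nat_lit 11) (nat_lit 5) (nat_lit 12) (nat_lit 4) (nat_lit 359) (nat_lit 274) (nat_lit 147)))) (XT.nd (nat_lit 156) (nat_lit 76) (nat_lit 0) (XT.nd (nat_lit 78) (nat_lit 0) (nat_lit 0) (XT.lf (nat_lit 0) (nat_lit 87296084180) (nat_lit 152) (nat_lit 69688749200) (nat_lit 0) (nat_lit 8367238350) (nat_lit 10) (nat_lit 5) (nat_lit 12) (nat_lit 4) (nat_lit 10) (nat_lit 4) (nat_lit 360) (nat_lit 274) (nat_lit 146)) (XT.lf (nat_lit 0) (nat_lit 111090687647)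 (nat_lit 152) (nat_lit 29666958679) (nat_lit 0) (nat_lit 32154536662) (nat_lit 10) (nat_lit 5) (nat_lit 12) (nat_lit 4) (nat_lit 10) (nat_lit 4) (nat_lit 361) (nat_lit 274) (nat_lit 145))) (XT.nd (nat_lit 33852) (nat_lit 0) (nat_lit 16416) (XT.lf (nat_lit 0) (nat_lit 12593856140) (nat_lit 76) (nat_lit 123598023631) (nat_lit 76) (nat_lit 44654915354) (nat_lit 9) (nat_lit 4) (nat_lit 10) (nat_lit 5) (nat_lit 10) (nat_lit 4) (nat_lit 362) (nat_lit 274) (nat_lit 144)) (XT.lf (nat_lit 0) (nat_lit 825196075) (nat_lit 0) (nat_lit 825196075) (nat_lit 988) (nat_lit 2899626757) (nat_lit 225) (nat_lit 5) (nat_lit 225) (nat_lit 3) (nat_lit 238) (nat_lit 3) (nat_lit 275) (nat_lit 275) (nat_lit 230))))) (XT.nd (nat_lit 234) (nat_lit 912) (nat_lit 0) (XT.nd (nat_lit 78) (nat_lit 0) (nat_lit 76) (XT.lf (nat_lit 0) (nat_lit 4798432841) (nat_lit 988) (nat_lit 559998931) (nat_lit 1064) (nat_lit 3924881573)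 (nat_lit 225) (nat_lit 5) (nat_lit 238) (nat_lit 3) (nat_lit 239) (nat_lit 5) (nat_lit 276) (nat_lit 275) (nat_lit 229)) (XT.nd (nat_lit 78) (nat_lit 0) (nat_lit 0) (XT.lf (nat_lit 0) (nat_lit 6368353080) (nat_lit 988) (nat_lit 2737890768) (nat_lit 1064) (nat_lit 369700527) (nat_lit 226) (nat_lit 5) (nat_lit 239) (nat_lit 5) (nat_lit 240) (nat_lit 5) (nat_lit 277) (nat_lit 275) (nat_lit 228)) (XT.lf (nat_lit 76) (nat_lit 4723834310) (nat_lit 0) (nat_lit 3314650961) (nat_lit 1064) (nat_lit 1639178207) (nat_lit 227) (nat_lit 5) (nat_lit 226) (nat_lit 5) (nat_lit 240) (nat_lit 5) (nat_lit 278) (nat_lit 275) (nat_lit 227)))) (XT.nd (nat_lit 156) (nat_lit 0) (nat_lit 76) (XT.nd (nat_lit 78) (nat_lit 1064) (nat_lit 0) (XT.lf (nat_lit 76) (nat_lit 2702807453) (nat_lit 0) (nat_lit 7090593988) (nat_lit 1064) (nat_lit 96131634) (nat_lit 228) (nat_lit 5) (nat_lit 227) (nat_lit 5) (nat_lit 241) (nat_lit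 5) (nat_lit 279) (nat_lit 275) (nat_lit 226)) (XT.lf (nat_lit 76) (nat_lit 648892107) (nat_lit 0) (nat_lit 859343734) (nat_lit 1140) (nat_lit 8602998651) (nat_lit 214) (nat_lit 5) (nat_lit 213) (nat_lit 5) (nat_lit 228) (nat_lit 5) (nat_lit 280) (nat_lit 275) (nat_lit 225))) (XT.nd (nat_lit 78) (nat_lit 0) (nat_lit 76) (XT.lf (nat_lit 0) (nat_lit 3246363217) (nat_lit 1064) (nat_lit 1423260811) (nat_lit 1140) (nat_lit 5672793085) (nat_lit 214) (nat_lit 5) (nat_lit 228) (nat_lit 5) (nat_lit 229) (nat_lit 5) (nat_lit 281) (nat_lit 275) (nat_lit 224)) (XT.lf (nat_lit 0) (nat_lit 5097408365) (nat_lit 1064) (nat_lit 3505990225) (nat_lit 1140) (nat_lit 1981066197) (nat_lit 215) (nat_lit 5) (nat_lit 229) (nat_lit 5) (nat_lit 230) (nat_lit 5) (nat_lit 282) (nat_lit 275) (nat_lit 223)))))) (XT.nd (nat_lit 546) (nat_lit 3116) (nat_lit 0) (XT.nd (nat_lit 234) (nat_lit 2432) (nat_lit 0) (XT.nd (nat_lit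 78) (nat_lit 988) (nat_lit 0) (XT.lf (nat_lit 76) (nat_lit 5201053350) (nat_lit 0) (nat_lit 1884635834) (nat_lit 1140) (nat_lit 3751667318) (nat_lit 216) (nat_lit 5) (nat_lit 215) (nat_lit 5) (nat_lit 230) (nat_lit 5) (nat_lit 283) (nat_lit 275) (nat_lit 222)) (XT.nd (nat_lit 78) (nat_lit 1064) (nat_lit 0) (XT.lf (nat_lit 76) (nat_lit 3278058451) (nat_lit 0) (nat_lit 5948630134) (nat_lit 1140) (nat_lit 1874683324) (nat_lit 217) (nat_lit 5) (nat_lit 216) (nat_lit 5) (nat_lit 231) (nat_lit 5) (nat_lit 284) (nat_lit 275) (nat_lit 221)) (XT.lf (nat_lit 0) (nat_lit 133914935) (nat_lit 1140) (nat_lit 10055475229) (nat_lit 76) (nat_lit 1188053305) (nat_lit 202) (nat_lit 5) (nat_lit 217) (nat_lit 5) (nat_lit 203) (nat_lit 5) (nat_lit 285) (nat_lit 275) (nat_lit 220)))) (XT.nd (nat_lit 156) (nat_lit 1292) (nat_lit 0) (XT.nd (nat_lit 78) (nat_lit 1140) (nat_lit 0) (XT.lf (nat_lit 0) (nat_lit 2286062784)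 (nat_lit 1140) (nat_lit 707801479) (nat_lit 76) (nat_lit 8670509681) (nat_lit 202) (nat_lit 5) (nat_lit 217) (nat_lit 5) (nat_lit 203) (nat_lit 5) (nat_lit 286) (nat_lit 275) (nat_lit 219)) (XT.lf (nat_lit 0) (nat_lit 4622441460) (nat_lit 1216) (nat_lit 2770731522) (nat_lit 76) (nat_lit 4570244879) (nat_lit 187) (nat_lit 5) (nat_lit 203) (nat_lit 5) (nat_lit 188) (nat_lit 5) (nat_lit 287) (nat_lit 275) (nat_lit 218))) (XT.nd (nat_lit 78) (nat_lit 608) (nat_lit 0) (XT.lf (nat_lit 0) (nat_lit 7132106198) (nat_lit 760) (nat_lit 4887726780) (nat_lit 76) (nat_lit 255949478) (nat_lit 178) (nat_lit 5) (nat_lit 188) (nat_lit 5) (nat_lit 179) (nat_lit 5) (nat_lit 288) (nat_lit 275) (nat_lit 217)) (XT.lf (nat_lit 0) (nat_lit 5492694948) (nat_lit 608) (nat_lit 4378313625) (nat_lit 684) (nat_lit 2729703598) (nat_lit 170) (nat_lit 5) (nat_lit 178) (nat_lit 5) (nat_lit 179) (nat_lit 5) (nat_lit 289) (nat_lit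 275) (nat_lit 216))))) (XT.nd (nat_lit 234) (nat_lit 1976) (nat_lit 0) (XT.nd (nat_lit 78) (nat_lit 608) (nat_lit 0) (XT.lf (nat_lit 0) (nat_lit 3537860092) (nat_lit 532) (nat_lit 9278448956) (nat_lit 608) (nat_lit 123552422) (nat_lit 163) (nat_lit 5) (nat_lit 170) (nat_lit 5) (nat_lit 171) (nat_lit 5) (nat_lit 290) (nat_lit 275) (nat_lit 215)) (XT.nd (nat_lit 78) (nat_lit 0) (nat_lit 0) (XT.lf (nat_lit 0) (nat_lit 1480509016) (nat_lit 532) (nat_lit 1164724536) (nat_lit 608) (nat_lit 10647534157) (nat_lit 155) (nat_lit 5) (nat_lit 162) (nat_lit 5) (nat_lit 163) (nat_lit 5) (nat_lit 291) (nat_lit 275) (nat_lit 214)) (XT.lf (nat_lit 0) (nat_lit 5671233768) (nat_lit 608) (nat_lit 678892111) (nat_lit 76) (nat_lit 7309566695) (nat_lit 155) (nat_lit 5) (nat_lit 163) (nat_lit 5) (nat_lit 156) (nat_lit 5) (nat_lit 292) (nat_lit 275) (nat_lit 213)))) (XT.nd (nat_lit 156) (nat_lit 988) (nat_lit 0)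 (XT.nd (nat_lit 78) (nat_lit 532) (nat_lit 0) (XT.lf (nat_lit 0) (nat_lit 8944383916) (nat_lit 532) (nat_lit 2893876594) (nat_lit 76) (nat_lit 2203875217) (nat_lit 149) (nat_lit 5) (nat_lit 156) (nat_lit 5) (nat_lit 150) (nat_lit 5) (nat_lit 293) (nat_lit 275) (nat_lit 212)) (XT.lf (nat_lit 0) (nat_lit 9206119681) (nat_lit 532) (nat_lit 3291505458) (nat_lit 608) (nat_lit 1942628170) (nat_lit 142) (nat_lit 5) (nat_lit 149) (nat_lit 5) (nat_lit 150) (nat_lit 5) (nat_lit 294) (nat_lit 275) (nat_lit 211))) (XT.nd (nat_lit 78) (nat_lit 456) (nat_lit 0) (XT.lf (nat_lit 0) (nat_lit 1456408585) (nat_lit 532) (nat_lit 7717130201) (nat_lit 76) (nat_lit 5680997835) (nat_lit 135) (nat_lit 5) (nat_lit 142) (nat_lit 5) (nat_lit 136) (nat_lit 5) (nat_lit 295) (nat_lit 275) (nat_lit 210)) (XT.lf (nat_lit 0) (nat_lit 4945889508) (nat_lit 456) (nat_lit 134363260) (nat_lit 532) (nat_lit 10205893220) (nat_lit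 129) (nat_lit 5) (nat_lit 135) (nat_lit 5) (nat_lit 136) (nat_lit 5) (nat_lit 296) (nat_lit 275) (nat_lit 209))))))))
noncomputable def xc76 : XT := (XT.nd (nat_lit 2106) (nat_lit 2356) (nat_lit 0) (XT.nd (nat_lit 1014) (nat_lit 2432) (nat_lit 0) (XT.nd (nat_lit 468) (nat_lit 1976) (nat_lit 0) (XT.nd (nat_lit 234) (nat_lit 1064) (nat_lit 0) (XT.nd (nat_lit 78) (nat_lit 532) (nat_lit 0) (XT.lf (nat_lit 0) (nat_lit 2579916872) (nat_lit 380) (nat_lit 6461263233) (nat_lit 456) (nat_lit 6693516965) (nat_lit 124) (nat_lit 5) (nat_lit 129) (nat_lit 5) (nat_lit 130) (nat_lit 5) (nat_lit 297) (nat_lit 275) (nat_lit 208)) (XT.nd (nat_lit 78) (nat_lit 76) (nat_lit 0) (XT.lf (nat_lit 0) (nat_lit 84816989) (nat_lit 456) (nat_lit 13215567850) (nat_lit 532) (nat_lit 2902320101) (nat_lit 118) (nat_lit 5) (nat_lit 124) (nat_lit 5) (nat_lit 125) (nat_lit 5) (nat_lit 298) (nat_lit 275) (nat_lit 207)) (XT.lf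 (nat_lit 0) (nat_lit 1222622554) (nat_lit 532) (nat_lit 2550980156) (nat_lit 76) (nat_lit 12915276031) (nat_lit 117) (nat_lit 5) (nat_lit 124) (nat_lit 5) (nat_lit 118) (nat_lit 5) (nat_lit 299) (nat_lit 275) (nat_lit 206)))) (XT.nd (nat_lit 78) (nat_lit 684) (nat_lit 0) (XT.lf (nat_lit 0) (nat_lit 5633658254) (nat_lit 456) (nat_lit 5403375224) (nat_lit 76) (nat_lit 6157301418) (nat_lit 112) (nat_lit 5) (nat_lit 118) (nat_lit 5) (nat_lit 113) (nat_lit 5) (nat_lit 300) (nat_lit 275) (nat_lit 205)) (XT.nd (nat_lit 78) (nat_lit 304) (nat_lit 0) (XT.lf (nat_lit 0) (nat_lit 9278877575) (nat_lit 380) (nat_lit 1106362406) (nat_lit 456) (nat_lit 7336254379) (nat_lit 107) (nat_lit 5) (nat_lit 112) (nat_lit 5) (nat_lit 113) (nat_lit 5) (nat_lit 301) (nat_lit 275) (nat_lit 204)) (XT.lf (nat_lit 0) (nat_lit 6529522257) (nat_lit 304) (nat_lit 9020730410) (nat_lit 380) (nat_lit 2719512464) (nat_lit 103)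 (nat_lit 5) (nat_lit 107) (nat_lit 5) (nat_lit 108) (nat_lit 5) (nat_lit 302) (nat_lit 275) (nat_lit 203))))) (XT.nd (nat_lit 234) (nat_lit 1216) (nat_lit 0) (XT.nd (nat_lit 78) (nat_lit 304) (nat_lit 0) (XT.lf (nat_lit 0) (nat_lit 2201390185) (nat_lit 456) (nat_lit 15275978843) (nat_lit 76) (nat_lit 1364047935) (nat_lit 97) (nat_lit 5) (nat_lit 103) (nat_lit 5) (nat_lit 98) (nat_lit 5) (nat_lit 303) (nat_lit 275) (nat_lit 202)) (XT.nd (nat_lit 78) (nat_lit 0) (nat_lit 0) (XT.lf (nat_lit 0) (nat_lit 287993600) (nat_lit 304) (nat_lit 7209655633) (nat_lit 380) (nat_lit 11937653168) (nat_lit 93) (nat_lit 5) (nat_lit 97) (nat_lit 5) (nat_lit 98) (nat_lit 5) (nat_lit 304) (nat_lit 275) (nat_lit 201)) (XT.lf (nat_lit 0) (nat_lit 13222001867) (nat_lit 380) (nat_lit 3181931504) (nat_lit 76) (nat_lit 3650074548) (nat_lit 93) (nat_lit 5) (nat_lit 98) (nat_lit 5) (nat_lit 94) (nat_lit 5) (nat_lit 305)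 (nat_lit 275) (nat_lit 200)))) (XT.nd (nat_lit 156) (nat_lit 532) (nat_lit 0) (XT.nd (nat_lit 78) (nat_lit 380) (nat_lit 0) (XT.lf (nat_lit 0) (nat_lit 13737716458) (nat_lit 304) (nat_lit 5671241762) (nat_lit 380) (nat_lit 1289421982) (nat_lit 89) (nat_lit 5) (nat_lit 93) (nat_lit 5) (nat_lit 94) (nat_lit 5) (nat_lit 306) (nat_lit 275) (nat_lit 199)) (XT.lf (nat_lit 0) (nat_lit 4601820437) (nat_lit 380) (nat_lit 11111494640) (nat_lit 76) (nat_lit 5655572976) (nat_lit 84) (nat_lit 5) (nat_lit 89) (nat_lit 5) (nat_lit 85) (nat_lit 5) (nat_lit 307) (nat_lit 275) (nat_lit 198))) (XT.nd (nat_lit 78) (nat_lit 228) (nat_lit 0) (XT.lf (nat_lit 0) (nat_lit 6427133094) (nat_lit 304) (nat_lit 4498569514) (nat_lit 380) (nat_lit 11141913665) (nat_lit 80) (nat_lit 5) (nat_lit 84) (nat_lit 5) (nat_lit 85) (nat_lit 5) (nat_lit 308) (nat_lit 275) (nat_lit 197)) (XT.lf (nat_lit 0) (nat_lit 2211157588) (nat_lit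 228) (nat_lit 15535266603) (nat_lit 304) (nat_lit 5049456703) (nat_lit 77) (nat_lit 5) (nat_lit 80) (nat_lit 5) (nat_lit 81) (nat_lit 5) (nat_lit 309) (nat_lit 275) (nat_lit 196)))))) (XT.nd (nat_lit 546) (nat_lit 1064) (nat_lit 0) (XT.nd (nat_lit 234) (nat_lit 760) (nat_lit 0) (XT.nd (nat_lit 78) (nat_lit 532) (nat_lit 0) (XT.lf (nat_lit 0) (nat_lit 1503874891) (nat_lit 304) (nat_lit 2370846058) (nat_lit 76) (nat_lit 19679990604) (nat_lit 76) (nat_lit 5) (nat_lit 80) (nat_lit 5) (nat_lit 77) (nat_lit 5) (nat_lit 310) (nat_lit 275) (nat_lit 195)) (XT.nd (nat_lit 78) (nat_lit 228) (nat_lit 0) (XT.lf (nat_lit 0) (nat_lit 8503033284) (nat_lit 380) (nat_lit 7429392359) (nat_lit 76) (nat_lit 8410897579) (nat_lit 72) (nat_lit 5) (nat_lit 77) (nat_lit 5) (nat_lit 73) (nat_lit 5) (nat_lit 311) (nat_lit 275) (nat_lit 194)) (XT.lf (nat_lit 0) (nat_lit 12205484589) (nat_lit 228) (nat_lit 3804218899)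 (nat_lit 304) (nat_lit 9156951601) (nat_lit 69) (nat_lit 5) (nat_lit 72) (nat_lit 5) (nat_lit 73) (nat_lit 5) (nat_lit 312) (nat_lit 275) (nat_lit 193)))) (XT.nd (nat_lit 156) (nat_lit 228) (nat_lit 0) (XT.nd (nat_lit 78) (nat_lit 304) (nat_lit 0) (XT.lf (nat_lit 0) (nat_lit 6962996213) (nat_lit 228) (nat_lit 17135877405) (nat_lit 304) (nat_lit 1926080395) (nat_lit 66) (nat_lit 5) (nat_lit 69) (nat_lit 5) (nat_lit 70) (nat_lit 5) (nat_lit 313) (nat_lit 275) (nat_lit 192)) (XT.lf (nat_lit 0) (nat_lit 1125599167) (nat_lit 228) (nat_lit 4591809609) (nat_lit 304) (nat_lit 21202290000) (nat_lit 62) (nat_lit 5) (nat_lit 65) (nat_lit 5) (nat_lit 66) (nat_lit 5) (nat_lit 314) (nat_lit 275) (nat_lit 191))) (XT.nd (nat_lit 78) (nat_lit 228) (nat_lit 0) (XT.lf (nat_lit 0) (nat_lit 13962562369) (nat_lit 304) (nat_lit 5270078167) (nat_lit 76) (nat_lit 8618202021) (nat_lit 62) (nat_lit 5) (nat_lit 66)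 (nat_lit 5) (nat_lit 63) (nat_lit 5) (nat_lit 315) (nat_lit 275) (nat_lit 190)) (XT.lf (nat_lit 0) (nat_lit 16524048717) (nat_lit 228) (nat_lit 6280457164) (nat_lit 304) (nat_lit 6018514642) (nat_lit 59) (nat_lit 5) (nat_lit 62) (nat_lit 5) (nat_lit 63) (nat_lit 5) (nat_lit 316) (nat_lit 275) (nat_lit 189))))) (XT.nd (nat_lit 234) (nat_lit 608) (nat_lit 0) (XT.nd (nat_lit 78) (nat_lit 228) (nat_lit 0) (XT.lf (nat_lit 0) (nat_lit 2401815066) (nat_lit 228) (nat_lit 20097711550) (nat_lit 76) (nat_lit 7337619058) (nat_lit 56) (nat_lit 5) (nat_lit 59) (nat_lit 5) (nat_lit 57) (nat_lit 5) (nat_lit 317) (nat_lit 275) (nat_lit 188)) (XT.nd (nat_lit 78) (nat_lit 0) (nat_lit 0) (XT.lf (nat_lit 0) (nat_lit 2123374152) (nat_lit 228) (nat_lit 9188510690) (nat_lit 304) (nat_lit 19582520107) (nat_lit 53) (nat_lit 5) (nat_lit 56) (nat_lit 5) (nat_lit 57) (nat_lit 5) (nat_lit 318) (nat_lit 275) (nat_lit 187))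 (XT.lf (nat_lit 0) (nat_lit 20903330183) (nat_lit 304) (nat_lit 6201736416) (nat_lit 76) (nat_lit 4892395299) (nat_lit 53) (nat_lit 5) (nat_lit 57) (nat_lit 5) (nat_lit 54) (nat_lit 5) (nat_lit 319) (nat_lit 275) (nat_lit 186)))) (XT.nd (nat_lit 156) (nat_lit 152) (nat_lit 0) (XT.nd (nat_lit 78) (nat_lit 304) (nat_lit 0) (XT.lf (nat_lit 0) (nat_lit 17719685270) (nat_lit 152) (nat_lit 13499555646) (nat_lit 228) (nat_lit 1929094339) (nat_lit 51) (nat_lit 5) (nat_lit 53) (nat_lit 5) (nat_lit 54) (nat_lit 5) (nat_lit 320) (nat_lit 275) (nat_lit 185)) (XT.lf (nat_lit 0) (nat_lit 7683817081) (nat_lit 304) (nat_lit 25682498194) (nat_lit 76) (nat_lit 984034828) (nat_lit 47) (nat_lit 5) (nat_lit 51) (nat_lit 5) (nat_lit 48) (nat_lit 5) (nat_lit 321) (nat_lit 275) (nat_lit 184))) (XT.nd (nat_lit 78) (nat_lit 152) (nat_lit 0) (XT.lf (nat_lit 0) (nat_lit 18017198110) (nat_lit 304) (nat_lit 1501890503)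 (nat_lit 76) (nat_lit 16084421581) (nat_lit 47) (nat_lit 5) (nat_lit 51) (nat_lit 5) (nat_lit 48) (nat_lit 5) (nat_lit 322) (nat_lit 275) (nat_lit 183)) (XT.lf (nat_lit 0) (nat_lit 24335492858) (nat_lit 152) (nat_lit 4749205503) (nat_lit 228) (nat_lit 7828115108) (nat_lit 45) (nat_lit 5) (nat_lit 47) (nat_lit 5) (nat_lit 48) (nat_lit 5) (nat_lit 323) (nat_lit 275) (nat_lit 182))))))) (XT.nd (nat_lit 1092) (nat_lit 836) (nat_lit 0) (XT.nd (nat_lit 546) (nat_lit 608) (nat_lit 0) (XT.nd (nat_lit 234) (nat_lit 532) (nat_lit 0) (XT.nd (nat_lit 78) (nat_lit 152) (nat_lit 0) (XT.lf (nat_lit 0) (nat_lit 2604302980) (nat_lit 228) (nat_lit 24967195679) (nat_lit 76) (nat_lit 10708389131) (nat_lit 42) (nat_lit 5) (nat_lit 45) (nat_lit 5) (nat_lit 43) (nat_lit 5) (nat_lit 324) (nat_lit 275) (nat_lit 181)) (XT.nd (nat_lit 78) (nat_lit 0) (nat_lit 0) (XT.lf (nat_lit 0) (nat_lit 911878584) (nat_lit 152)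 (nat_lit 12657832491) (nat_lit 228) (nat_lit 26138089221) (nat_lit 40) (nat_lit 5) (nat_lit 42) (nat_lit 5) (nat_lit 43) (nat_lit 5) (nat_lit 325) (nat_lit 275) (nat_lit 180)) (XT.lf (nat_lit 0) (nat_lit 25356511140) (nat_lit 228) (nat_lit 12650047967) (nat_lit 76) (nat_lit 3192362955) (nat_lit 40) (nat_lit 5) (nat_lit 43) (nat_lit 5) (nat_lit 41) (nat_lit 5) (nat_lit 326) (nat_lit 275) (nat_lit 179)))) (XT.nd (nat_lit 156) (nat_lit 304) (nat_lit 0) (XT.nd (nat_lit 78) (nat_lit 76) (nat_lit 0) (XT.lf (nat_lit 0) (nat_lit 14942271387) (nat_lit 152) (nat_lit 23047209969) (nat_lit 228) (nat_lit 4767420593) (nat_lit 38) (nat_lit 5) (nat_lit 40) (nat_lit 5) (nat_lit 41) (nat_lit 5) (nat_lit 327) (nat_lit 275) (nat_lit 178)) (XT.lf (nat_lit 0) (nat_lit 6844694992) (nat_lit 228) (nat_lit 301813100) (nat_lit 76) (nat_lit 37240782550) (nat_lit 37) (nat_lit 5) (nat_lit 40) (nat_lit 5) (nat_lit 38)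 (nat_lit 5) (nat_lit 328) (nat_lit 275) (nat_lit 177))) (XT.nd (nat_lit 78) (nat_lit 152) (nat_lit 0) (XT.lf (nat_lit 0) (nat_lit 19300676955) (nat_lit 228) (nat_lit 17101782898) (nat_lit 76) (nat_lit 9684473216) (nat_lit 35) (nat_lit 5) (nat_lit 38) (nat_lit 5) (nat_lit 36) (nat_lit 5) (nat_lit 329) (nat_lit 275) (nat_lit 176)) (XT.lf (nat_lit 0) (nat_lit 12010771742) (nat_lit 152) (nat_lit 20546184070) (nat_lit 228) (nat_lit 15309282688) (nat_lit 33) (nat_lit 5) (nat_lit 35) (nat_lit 5) (nat_lit 36) (nat_lit 5) (nat_lit 330) (nat_lit 275) (nat_lit 175))))) (XT.nd (nat_lit 234) (nat_lit 304) (nat_lit 0) (XT.nd (nat_lit 78) (nat_lit 304) (nat_lit 0) (XT.lf (nat_lit 0) (nat_lit 42914239341) (nat_lit 152) (nat_lit 3725048306) (nat_lit 228) (nat_lit 3090329924) (nat_lit 33) (nat_lit 5) (nat_lit 35) (nat_lit 5) (nat_lit 36) (nat_lit 5) (nat_lit 331) (nat_lit 275) (nat_lit 174)) (XT.nd (nat_lit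 78) (nat_lit 152) (nat_lit 0) (XT.lf (nat_lit 0) (nat_lit 9905289933) (nat_lit 152) (nat_lit 27783174169) (nat_lit 76) (nat_lit 13984224728) (nat_lit 31) (nat_lit 5) (nat_lit 33) (nat_lit 5) (nat_lit 32) (nat_lit 5) (nat_lit 332) (nat_lit 275) (nat_lit 173)) (XT.lf (nat_lit 0) (nat_lit 2519996143) (nat_lit 152) (nat_lit 21088029817) (nat_lit 228) (nat_lit 30100337213) (nat_lit 29) (nat_lit 5) (nat_lit 31) (nat_lit 5) (nat_lit 32) (nat_lit 5) (nat_lit 333) (nat_lit 275) (nat_lit 172)))) (XT.nd (nat_lit 156) (nat_lit 228) (nat_lit 0) (XT.nd (nat_lit 78) (nat_lit 76) (nat_lit 0) (XT.lf (nat_lit 0) (nat_lit 34898553563) (nat_lit 152) (nat_lit 3371704524) (nat_lit 228) (nat_lit 17567337013) (nat_lit 29) (nat_lit 5) (nat_lit 31) (nat_lit 5) (nat_lit 32) (nat_lit 5) (nat_lit 334) (nat_lit 275) (nat_lit 171)) (XT.lf (nat_lit 0) (nat_lit 10868789242) (nat_lit 76) (nat_lit 43036525042) (nat_lit 152)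 (nat_lit 4160787391) (nat_lit 28) (nat_lit 5) (nat_lit 29) (nat_lit 5) (nat_lit 30) (nat_lit 4) (nat_lit 335) (nat_lit 275) (nat_lit 170))) (XT.nd (nat_lit 78) (nat_lit 152) (nat_lit 0) (XT.lf (nat_lit 0) (nat_lit 9963373520) (nat_lit 152) (nat_lit 15845780717) (nat_lit 76) (nat_lit 34586800374) (nat_lit 27) (nat_lit 5) (nat_lit 29) (nat_lit 5) (nat_lit 28) (nat_lit 5) (nat_lit 336) (nat_lit 275) (nat_lit 169)) (XT.lf (nat_lit 0) (nat_lit 17351537552) (nat_lit 152) (nat_lit 7513335448) (nat_lit 228) (nat_lit 37971479754) (nat_lit 25) (nat_lit 5) (nat_lit 27) (nat_lit 5) (nat_lit 28) (nat_lit 5) (nat_lit 337) (nat_lit 275) (nat_lit 168)))))) (XT.nd (nat_lit 546) (nat_lit 456) (nat_lit 0) (XT.nd (nat_lit 234) (nat_lit 228) (nat_lit 0) (XT.nd (nat_lit 78) (nat_lit 152) (nat_lit 0) (XT.lf (nat_lit 0) (nat_lit 40778460076) (nat_lit 228) (nat_lit 12986171515) (nat_lit 76) (nat_lit 11626132545)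 (nat_lit 25) (nat_lit 5) (nat_lit 28) (nat_lit 5) (nat_lit 26) (nat_lit 4) (nat_lit 338) (nat_lit 275) (nat_lit 167)) (XT.nd (nat_lit 78) (nat_lit 76) (nat_lit 0) (XT.lf (nat_lit 0) (nat_lit 21463165710) (nat_lit 76) (nat_lit 36297033599) (nat_lit 152) (nat_lit 10304526129) (nat_lit 24) (nat_lit 5) (nat_lit 25) (nat_lit 5) (nat_lit 26) (nat_lit 4) (nat_lit 339) (nat_lit 275) (nat_lit 166)) (XT.lf (nat_lit 0) (nat_lit 4752093436) (nat_lit 152) (nat_lit 13025640196) (nat_lit 76) (nat_lit 53089527775) (nat_lit 23) (nat_lit 5) (nat_lit 25) (nat_lit 5) (nat_lit 24) (nat_lit 5) (nat_lit 340) (nat_lit 275) (nat_lit 165)))) (XT.nd (nat_lit 156) (nat_lit 76) (nat_lit 0) (XT.nd (nat_lit 78) (nat_lit 0) (nat_lit 0) (XT.lf (nat_lit 0) (nat_lit 20577279815) (nat_lit 228) (nat_lit 51270751816) (nat_lit 76) (nat_lit 1951969428) (nat_lit 21) (nat_lit 5) (nat_lit 24) (nat_lit 5) (nat_lit 22) (nat_lit 4) (nat_lit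 341) (nat_lit 275) (nat_lit 164)) (XT.lf (nat_lit 0) (nat_lit 37499765071) (nat_lit 228) (nat_lit 16937894010) (nat_lit 76) (nat_lit 22432540390) (nat_lit 21) (nat_lit 5) (nat_lit 24) (nat_lit 5) (nat_lit 22) (nat_lit 4) (nat_lit 342) (nat_lit 275) (nat_lit 163))) (XT.nd (nat_lit 78) (nat_lit 0) (nat_lit 0) (XT.lf (nat_lit 0) (nat_lit 19476562579) (nat_lit 76) (nat_lit 35970641705) (nat_lit 152) (nat_lit 24641341453) (nat_lit 20) (nat_lit 5) (nat_lit 21) (nat_lit 5) (nat_lit 22) (nat_lit 4) (nat_lit 343) (nat_lit 275) (nat_lit 162)) (XT.lf (nat_lit 0) (nat_lit 58051025068) (nat_lit 76) (nat_lit 16407218684) (nat_lit 152) (nat_lit 9004581403) (nat_lit 20) (nat_lit 5) (nat_lit 21) (nat_lit 5) (nat_lit 22) (nat_lit 4) (nat_lit 344) (nat_lit 275) (nat_lit 161))))) (XT.nd (nat_lit 234) (nat_lit 228) (nat_lit 0) (XT.nd (nat_lit 78) (nat_lit 0) (nat_lit 0) (XT.lf (nat_lit 0) (nat_lit 7415400333)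 (nat_lit 228) (nat_lit 75350914732) (nat_lit 76) (nat_lit 4232986187) (nat_lit 17) (nat_lit 5) (nat_lit 20) (nat_lit 5) (nat_lit 18) (nat_lit 4) (nat_lit 345) (nat_lit 275) (nat_lit 160)) (XT.nd (nat_lit 78) (nat_lit 0) (nat_lit 0) (XT.lf (nat_lit 0) (nat_lit 24894025189) (nat_lit 228) (nat_lit 39885111160) (nat_lit 76) (nat_lit 25918076368) (nat_lit 17) (nat_lit 5) (nat_lit 20) (nat_lit 5) (nat_lit 18) (nat_lit 4) (nat_lit 346) (nat_lit 275) (nat_lit 159)) (XT.lf (nat_lit 0) (nat_lit 43239302549) (nat_lit 228) (nat_lit 2659250391) (nat_lit 76) (nat_lit 48681687433) (nat_lit 17) (nat_lit 5) (nat_lit 20) (nat_lit 5) (nat_lit 18) (nat_lit 4) (nat_lit 347) (nat_lit 275) (nat_lit 158)))) (XT.nd (nat_lit 156) (nat_lit 152) (nat_lit 0) (XT.nd (nat_lit 78) (nat_lit 0) (nat_lit 0) (XT.lf (nat_lit 0) (nat_lit 37140036460) (nat_lit 76) (nat_lit 25711887934) (nat_lit 152) (nat_lit 35794994744) (nat_lit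 16) (nat_lit 5) (nat_lit 17) (nat_lit 5) (nat_lit 18) (nat_lit 4) (nat_lit 348) (nat_lit 275) (nat_lit 157)) (XT.lf (nat_lit 0) (nat_lit 78972616585) (nat_lit 76) (nat_lit 4493215680) (nat_lit 152) (nat_lit 19450481976) (nat_lit 16) (nat_lit 5) (nat_lit 17) (nat_lit 5) (nat_lit 18) (nat_lit 4) (nat_lit 349) (nat_lit 275) (nat_lit 156))) (XT.nd (nat_lit 78) (nat_lit 76) (nat_lit 0) (XT.lf (nat_lit 0) (nat_lit 15619666877) (nat_lit 76) (nat_lit 89805437840) (nat_lit 76) (nat_lit 1964636254) (nat_lit 15) (nat_lit 4) (nat_lit 16) (nat_lit 5) (nat_lit 16) (nat_lit 4) (nat_lit 350) (nat_lit 275) (nat_lit 155)) (XT.lf (nat_lit 0) (nat_lit 16363520159) (nat_lit 152) (nat_lit 54634878517) (nat_lit 76) (nat_lit 41075075444) (nat_lit 14) (nat_lit 5) (nat_lit 16) (nat_lit 5) (nat_lit 15) (nat_lit 4) (nat_lit 351) (nat_lit 275) (nat_lit 154))))))))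
noncomputable def xc77 : XT := (XT.nd (nat_lit 36192) (nat_lit 0) (nat_lit 2812) (XT.nd (nat_lit 35100) (nat_lit 0) (nat_lit 10564) (XT.nd (nat_lit 546) (nat_lit 76) (nat_lit 0) (XT.nd (nat_lit 234) (nat_lit 152) (nat_lit 0) (XT.nd (nat_lit 78) (nat_lit 76) (nat_lit 0) (XT.lf (nat_lit 0) (nat_lit 35561814175) (nat_lit 152) (nat_lit 15673792002) (nat_lit 76) (nat_lit 65755375064) (nat_lit 14) (nat_lit 5) (nat_lit 16) (nat_lit 5) (nat_lit 15) (nat_lit 4) (nat_lit 352) (nat_lit 275) (nat_lit 153)) (XT.nd (nat_lit 78) (nat_lit 0) (nat_lit 0) (XT.lf (nat_lit 0) (nat_lit 25726858909) (nat_lit 76) (nat_lit 30234736544) (nat_lit 152) (nat_lit 66185522723) (nat_lit 13) (nat_lit 5) (nat_lit 14) (nat_lit 5) (nat_lit 15) (nat_lit 4) (nat_lit 353) (nat_lit 275) (nat_lit 152)) (XT.lf (nat_lit 0) (nat_lit 69514866278) (nat_lit 76) (nat_lit 8022292309) (nat_lit 152) (nat_lit 50019231141) (nat_lit 13) (nat_lit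 5) (nat_lit 14) (nat_lit 5) (nat_lit 15) (nat_lit 4) (nat_lit 354) (nat_lit 275) (nat_lit 151)))) (XT.nd (nat_lit 156) (nat_lit 76) (nat_lit 0) (XT.nd (nat_lit 78) (nat_lit 76) (nat_lit 0) (XT.lf (nat_lit 0) (nat_lit 100333247106) (nat_lit 152) (nat_lit 17900774751) (nat_lit 0) (nat_lit 14997852068) (nat_lit 13) (nat_lit 5) (nat_lit 15) (nat_lit 4) (nat_lit 13) (nat_lit 4) (nat_lit 355) (nat_lit 275) (nat_lit 150)) (XT.lf (nat_lit 0) (nat_lit 24637430689) (nat_lit 76) (nat_lit 99944431142) (nat_lit 76) (nat_lit 14599890258) (nat_lit 12) (nat_lit 4) (nat_lit 13) (nat_lit 5) (nat_lit 13) (nat_lit 4) (nat_lit 356) (nat_lit 275) (nat_lit 149))) (XT.nd (nat_lit 78) (nat_lit 0) (nat_lit 0) (XT.lf (nat_lit 0) (nat_lit 4704873808) (nat_lit 152) (nat_lit 75802357382) (nat_lit 76) (nat_lit 64915130094) (nat_lit 11) (nat_lit 5) (nat_lit 13) (nat_lit 5) (nat_lit 12) (nat_lit 4) (nat_lit 357) (nat_lit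 275) (nat_lit 148)) (XT.lf (nat_lit 0) (nat_lit 24670996754) (nat_lit 152) (nat_lit 35279423353) (nat_lit 76) (nat_lit 92020303410) (nat_lit 11) (nat_lit 5) (nat_lit 13) (nat_lit 5) (nat_lit 12) (nat_lit 4) (nat_lit 358) (nat_lit 275) (nat_lit 147))))) (XT.nd (nat_lit 34242) (nat_lit 0) (nat_lit 15352) (XT.nd (nat_lit 156) (nat_lit 0) (nat_lit 0) (XT.lf (nat_lit 0) (nat_lit 7405821185) (nat_lit 76) (nat_lit 38296281512) (nat_lit 152) (nat_lit 113142402043) (nat_lit 10) (nat_lit 5) (nat_lit 11) (nat_lit 5) (nat_lit 12) (nat_lit 4) (nat_lit 359) (nat_lit 275) (nat_lit 146)) (XT.nd (nat_lit 34008) (nat_lit 0) (nat_lit 16340) (XT.lf (nat_lit 0) (nat_lit 91790105989) (nat_lit 152) (nat_lit 72932774775) (nat_lit 0) (nat_lit 8892885008) (nat_lit 10) (nat_lit 5) (nat_lit 12) (nat_lit 4) (nat_lit 10) (nat_lit 4) (nat_lit 361) (nat_lit 275) (nat_lit 144)) (XT.lf (nat_lit 0) (nat_lit 1544034049) (nat_lit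 0) (nat_lit 1544034049) (nat_lit 988) (nat_lit 1647053175) (nat_lit 225) (nat_lit 5) (nat_lit 225) (nat_lit 3) (nat_lit 238) (nat_lit 3) (nat_lit 276) (nat_lit 276) (nat_lit 228)))) (XT.nd (nat_lit 156) (nat_lit 988) (nat_lit 0) (XT.nd (nat_lit 78) (nat_lit 0) (nat_lit 0) (XT.lf (nat_lit 76) (nat_lit 811629499) (nat_lit 0) (nat_lit 6803370760) (nat_lit 1064) (nat_lit 2051857688) (nat_lit 226) (nat_lit 5) (nat_lit 225) (nat_lit 5) (nat_lit 239) (nat_lit 5) (nat_lit 277) (nat_lit 276) (nat_lit 227)) (XT.lf (nat_lit 76) (nat_lit 8423000685) (nat_lit 0) (nat_lit 719402851) (nat_lit 1064) (nat_lit 730505557) (nat_lit 226) (nat_lit 5) (nat_lit 225) (nat_lit 5) (nat_lit 239) (nat_lit 5) (nat_lit 278) (nat_lit 276) (nat_lit 226))) (XT.nd (nat_lit 78) (nat_lit 0) (nat_lit 76) (XT.lf (nat_lit 0) (nat_lit 684105738) (nat_lit 1064) (nat_lit 3744100054) (nat_lit 1140) (nat_lit 5659762362) (nat_lit 212)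 (nat_lit 5) (nat_lit 226) (nat_lit 5) (nat_lit 227) (nat_lit 5) (nat_lit 279) (nat_lit 276) (nat_lit 225)) (XT.lf (nat_lit 0) (nat_lit 2164818243) (nat_lit 1064) (nat_lit 6066179045) (nat_lit 1140) (nat_lit 2082342117) (nat_lit 213) (nat_lit 5) (nat_lit 227) (nat_lit 5) (nat_lit 228) (nat_lit 5) (nat_lit 280) (nat_lit 276) (nat_lit 224)))))) (XT.nd (nat_lit 546) (nat_lit 2888) (nat_lit 0) (XT.nd (nat_lit 234) (nat_lit 1976) (nat_lit 0) (XT.nd (nat_lit 78) (nat_lit 0) (nat_lit 76) (XT.lf (nat_lit 76) (nat_lit 2117856559) (nat_lit 0) (nat_lit 1635587202) (nat_lit 1140) (nat_lit 6795605402) (nat_lit 214) (nat_lit 5) (nat_lit 213) (nat_lit 5) (nat_lit 228) (nat_lit 5) (nat_lit 281) (nat_lit 276) (nat_lit 223)) (XT.nd (nat_lit 78) (nat_lit 0) (nat_lit 76) (XT.lf (nat_lit 0) (nat_lit 5468440833) (nat_lit 1064) (nat_lit 55075661) (nat_lit 1140) (nat_lit 5271701863) (nat_lit 214) (nat_lit 5) (nat_lit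 228) (nat_lit 5) (nat_lit 229) (nat_lit 5) (nat_lit 282) (nat_lit 276) (nat_lit 222)) (XT.lf (nat_lit 0) (nat_lit 7321847026) (nat_lit 1064) (nat_lit 2215993500) (nat_lit 1140) (nat_lit 1514353951) (nat_lit 215) (nat_lit 5) (nat_lit 229) (nat_lit 5) (nat_lit 230) (nat_lit 5) (nat_lit 283) (nat_lit 276) (nat_lit 221)))) (XT.nd (nat_lit 156) (nat_lit 2128) (nat_lit 0) (XT.nd (nat_lit 78) (nat_lit 0) (nat_lit 76) (XT.lf (nat_lit 76) (nat_lit 6884399832) (nat_lit 0) (nat_lit 2445034660) (nat_lit 1140) (nat_lit 1990814101) (nat_lit 216) (nat_lit 5) (nat_lit 215) (nat_lit 5) (nat_lit 230) (nat_lit 5) (nat_lit 284) (nat_lit 276) (nat_lit 220)) (XT.lf (nat_lit 76) (nat_lit 4886094596) (nat_lit 0) (nat_lit 6611029136) (nat_lit 1140) (nat_lit 102860982) (nat_lit 217) (nat_lit 5) (nat_lit 216) (nat_lit 5) (nat_lit 231) (nat_lit 5) (nat_lit 285) (nat_lit 276) (nat_lit 219))) (XT.nd (nat_lit 78) (nat_lit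 1140) (nat_lit 0) (XT.lf (nat_lit 0) (nat_lit 1893469546) (nat_lit 1140) (nat_lit 9060362726) (nat_lit 76) (nat_lit 937879325) (nat_lit 202) (nat_lit 5) (nat_lit 217) (nat_lit 5) (nat_lit 203) (nat_lit 5) (nat_lit 286) (nat_lit 276) (nat_lit 218)) (XT.lf (nat_lit 0) (nat_lit 696967132) (nat_lit 1140) (nat_lit 3379487859) (nat_lit 1216) (nat_lit 8118932806) (nat_lit 187) (nat_lit 5) (nat_lit 202) (nat_lit 5) (nat_lit 203) (nat_lit 5) (nat_lit 287) (nat_lit 276) (nat_lit 217))))) (XT.nd (nat_lit 234) (nat_lit 1596) (nat_lit 0) (XT.nd (nat_lit 78) (nat_lit 1292) (nat_lit 0) (XT.lf (nat_lit 0) (nat_lit 6454686860) (nat_lit 1216) (nat_lit 1471583478) (nat_lit 76) (nat_lit 4585454076) (nat_lit 187) (nat_lit 5) (nat_lit 203) (nat_lit 5) (nat_lit 188) (nat_lit 5) (nat_lit 288) (nat_lit 276) (nat_lit 216)) (XT.nd (nat_lit 78) (nat_lit 608) (nat_lit 0) (XT.lf (nat_lit 0) (nat_lit 9025651276) (nat_lit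 760) (nat_lit 3686383530) (nat_lit 76) (nat_lit 129685115) (nat_lit 178) (nat_lit 5) (nat_lit 188) (nat_lit 5) (nat_lit 179) (nat_lit 5) (nat_lit 289) (nat_lit 276) (nat_lit 215)) (XT.lf (nat_lit 0) (nat_lit 7171617736) (nat_lit 608) (nat_lit 4670192301) (nat_lit 684) (nat_lit 1342959768) (nat_lit 170) (nat_lit 5) (nat_lit 178) (nat_lit 5) (nat_lit 179) (nat_lit 5) (nat_lit 290) (nat_lit 276) (nat_lit 214)))) (XT.nd (nat_lit 156) (nat_lit 456) (nat_lit 0) (XT.nd (nat_lit 78) (nat_lit 532) (nat_lit 0) (XT.lf (nat_lit 0) (nat_lit 1308194818) (nat_lit 608) (nat_lit 8431376253) (nat_lit 76) (nat_lit 3802723767) (nat_lit 162) (nat_lit 5) (nat_lit 170) (nat_lit 5) (nat_lit 163) (nat_lit 5) (nat_lit 291) (nat_lit 276) (nat_lit 213)) (XT.lf (nat_lit 0) (nat_lit 2952750264) (nat_lit 532) (nat_lit 1205226768) (nat_lit 608) (nat_lit 9756552404) (nat_lit 155) (nat_lit 5) (nat_lit 162) (nat_lit 5) (nat_lit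 163) (nat_lit 5) (nat_lit 292) (nat_lit 276) (nat_lit 212))) (XT.nd (nat_lit 78) (nat_lit 0) (nat_lit 0) (XT.lf (nat_lit 0) (nat_lit 672594680) (nat_lit 456) (nat_lit 6603573093) (nat_lit 532) (nat_lit 7025475683) (nat_lit 149) (nat_lit 5) (nat_lit 155) (nat_lit 5) (nat_lit 156) (nat_lit 5) (nat_lit 293) (nat_lit 276) (nat_lit 211)) (XT.lf (nat_lit 0) (nat_lit 10657361095) (nat_lit 532) (nat_lit 1666973584) (nat_lit 76) (nat_lit 2380608832) (nat_lit 149) (nat_lit 5) (nat_lit 156) (nat_lit 5) (nat_lit 150) (nat_lit 5) (nat_lit 294) (nat_lit 276) (nat_lit 210))))))) (XT.nd (nat_lit 1092) (nat_lit 2812) (nat_lit 0) (XT.nd (nat_lit 546) (nat_lit 2128) (nat_lit 0) (XT.nd (nat_lit 234) (nat_lit 1292) (nat_lit 0) (XT.nd (nat_lit 78) (nat_lit 988) (nat_lit 0) (XT.lf (nat_lit 0) (nat_lit 10998705956) (nat_lit 532) (nat_lit 3342090926) (nat_lit 608) (nat_lit 783657270) (nat_lit 142) (nat_lit 5) (nat_lit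 149) (nat_lit 5) (nat_lit 150) (nat_lit 5) (nat_lit 295) (nat_lit 276) (nat_lit 209)) (XT.nd (nat_lit 78) (nat_lit 456) (nat_lit 0) (XT.lf (nat_lit 0) (nat_lit 2716135907) (nat_lit 532) (nat_lit 6748442647) (nat_lit 76) (nat_lit 6095909770) (nat_lit 135) (nat_lit 5) (nat_lit 142) (nat_lit 5) (nat_lit 136) (nat_lit 5) (nat_lit 296) (nat_lit 276) (nat_lit 208)) (XT.lf (nat_lit 0) (nat_lit 6477604151) (nat_lit 532) (nat_lit 9506453376) (nat_lit 76) (nat_lit 30983291) (nat_lit 129) (nat_lit 5) (nat_lit 136) (nat_lit 5) (nat_lit 130) (nat_lit 5) (nat_lit 297) (nat_lit 276) (nat_lit 207)))) (XT.nd (nat_lit 156) (nat_lit 456) (nat_lit 0) (XT.nd (nat_lit 78) (nat_lit 456) (nat_lit 0) (XT.lf (nat_lit 0) (nat_lit 4019690490) (nat_lit 380) (nat_lit 6576334241) (nat_lit 456) (nat_lit 5891264283) (nat_lit 124) (nat_lit 5) (nat_lit 129) (nat_lit 5) (nat_lit 130) (nat_lit 5) (nat_lit 298) (nat_lit 276)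 (nat_lit 206)) (XT.lf (nat_lit 0) (nat_lit 1393484603) (nat_lit 456) (nat_lit 13636634587) (nat_lit 532) (nat_lit 1949770648) (nat_lit 118) (nat_lit 5) (nat_lit 124) (nat_lit 5) (nat_lit 125) (nat_lit 5) (nat_lit 299) (nat_lit 276) (nat_lit 205))) (XT.nd (nat_lit 78) (nat_lit 380) (nat_lit 0) (XT.lf (nat_lit 0) (nat_lit 2308749921) (nat_lit 532) (nat_lit 1414885658) (nat_lit 76) (nat_lit 13768004346) (nat_lit 117) (nat_lit 5) (nat_lit 124) (nat_lit 5) (nat_lit 118) (nat_lit 5) (nat_lit 300) (nat_lit 276) (nat_lit 204)) (XT.lf (nat_lit 0) (nat_lit 6905628390) (nat_lit 456) (nat_lit 4417896157) (nat_lit 76) (nat_lit 6699930032) (nat_lit 112) (nat_lit 5) (nat_lit 118) (nat_lit 5) (nat_lit 113) (nat_lit 5) (nat_lit 301) (nat_lit 276) (nat_lit 203))))) (XT.nd (nat_lit 234) (nat_lit 988) (nat_lit 0) (XT.nd (nat_lit 78) (nat_lit 760) (nat_lit 0) (XT.lf (nat_lit 0) (nat_lit 10962476389) (nat_lit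 380) (nat_lit 896880350) (nat_lit 456) (nat_lit 6718720560) (nat_lit 107) (nat_lit 5) (nat_lit 112) (nat_lit 5) (nat_lit 113) (nat_lit 5) (nat_lit 302) (nat_lit 276) (nat_lit 202)) (XT.nd (nat_lit 78) (nat_lit 456) (nat_lit 0) (XT.lf (nat_lit 0) (nat_lit 8066866087) (nat_lit 304) (nat_lit 9184348509) (nat_lit 380) (nat_lit 1903529467) (nat_lit 103) (nat_lit 5) (nat_lit 107) (nat_lit 5) (nat_lit 108) (nat_lit 5) (nat_lit 303) (nat_lit 276) (nat_lit 201)) (XT.lf (nat_lit 0) (nat_lit 3214713389) (nat_lit 456) (nat_lit 14819889246) (nat_lit 76) (nat_lit 1721042447) (nat_lit 97) (nat_lit 5) (nat_lit 103) (nat_lit 5) (nat_lit 98) (nat_lit 5) (nat_lit 304) (nat_lit 276) (nat_lit 200)))) (XT.nd (nat_lit 156) (nat_lit 684) (nat_lit 0) (XT.nd (nat_lit 78) (nat_lit 0) (nat_lit 0) (XT.lf (nat_lit 0) (nat_lit 1487313960) (nat_lit 304) (nat_lit 7256849532) (nat_lit 380) (nat_lit 11636045439) (nat_lit 93)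 (nat_lit 5) (nat_lit 97) (nat_lit 5) (nat_lit 98) (nat_lit 5) (nat_lit 305) (nat_lit 276) (nat_lit 199)) (XT.lf (nat_lit 0) (nat_lit 14716095599) (nat_lit 380) (nat_lit 2189820703) (nat_lit 76) (nat_lit 4125126359) (nat_lit 93) (nat_lit 5) (nat_lit 98) (nat_lit 5) (nat_lit 94) (nat_lit 5) (nat_lit 306) (nat_lit 276) (nat_lit 198))) (XT.nd (nat_lit 78) (nat_lit 380) (nat_lit 0) (XT.lf (nat_lit 0) (nat_lit 15542810529) (nat_lit 304) (nat_lit 5640671780) (nat_lit 380) (nat_lit 525050957) (nat_lit 89) (nat_lit 5) (nat_lit 93) (nat_lit 5) (nat_lit 94) (nat_lit 5) (nat_lit 307) (nat_lit 276) (nat_lit 197)) (XT.lf (nat_lit 0) (nat_lit 5619534920) (nat_lit 380) (nat_lit 10543520969) (nat_lit 76) (nat_lit 6250052707) (nat_lit 84) (nat_lit 5) (nat_lit 89) (nat_lit 5) (nat_lit 85) (nat_lit 5) (nat_lit 308) (nat_lit 276) (nat_lit 196)))))) (XT.nd (nat_lit 546) (nat_lit 1140) (nat_lit 0) (XT.nd (nat_lit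 234) (nat_lit 1064) (nat_lit 0) (XT.nd (nat_lit 78) (nat_lit 304) (nat_lit 0) (XT.lf (nat_lit 0) (nat_lit 7839831862) (nat_lit 304) (nat_lit 4392764107) (nat_lit 380) (nat_lit 10915016056) (nat_lit 80) (nat_lit 5) (nat_lit 84) (nat_lit 5) (nat_lit 85) (nat_lit 5) (nat_lit 309) (nat_lit 276) (nat_lit 195)) (XT.nd (nat_lit 78) (nat_lit 76) (nat_lit 0) (XT.lf (nat_lit 0) (nat_lit 3401401128) (nat_lit 228) (nat_lit 15970139489) (nat_lit 304) (nat_lit 4541460644) (nat_lit 77) (nat_lit 5) (nat_lit 80) (nat_lit 5) (nat_lit 81) (nat_lit 5) (nat_lit 310) (nat_lit 276) (nat_lit 194)) (XT.lf (nat_lit 0) (nat_lit 2289191881) (nat_lit 304) (nat_lit 1446484315) (nat_lit 76) (nat_lit 20974968093) (nat_lit 76) (nat_lit 5) (nat_lit 80) (nat_lit 5) (nat_lit 77) (nat_lit 5) (nat_lit 311) (nat_lit 276) (nat_lit 193)))) (XT.nd (nat_lit 156) (nat_lit 532) (nat_lit 0) (XT.nd (nat_lit 78) (nat_lit 228) (nat_lit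 0) (XT.lf (nat_lit 0) (nat_lit 9617373444) (nat_lit 380) (nat_lit 6769938804) (nat_lit 76) (nat_lit 9152026107) (nat_lit 72) (nat_lit 5) (nat_lit 77) (nat_lit 5) (nat_lit 73) (nat_lit 5) (nat_lit 312) (nat_lit 276) (nat_lit 192)) (XT.lf (nat_lit 0) (nat_lit 13817130787) (nat_lit 228) (nat_lit 3659053672) (nat_lit 304) (nat_lit 8928370773) (nat_lit 69) (nat_lit 5) (nat_lit 72) (nat_lit 5) (nat_lit 73) (nat_lit 5) (nat_lit 313) (nat_lit 276) (nat_lit 191))) (XT.nd (nat_lit 78) (nat_lit 304) (nat_lit 0) (XT.lf (nat_lit 0) (nat_lit 8300529351) (nat_lit 228) (nat_lit 17650150542) (nat_lit 304) (nat_lit 1355684765) (nat_lit 66) (nat_lit 5) (nat_lit 69) (nat_lit 5) (nat_lit 70) (nat_lit 5) (nat_lit 314) (nat_lit 276) (nat_lit 190)) (XT.lf (nat_lit 0) (nat_lit 2155945389) (nat_lit 228) (nat_lit 4479258993) (nat_lit 304) (nat_lit 21611122892) (nat_lit 62) (nat_lit 5) (nat_lit 65) (nat_lit 5) (nat_lit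 66) (nat_lit 5) (nat_lit 315) (nat_lit 276) (nat_lit 189))))) (XT.nd (nat_lit 234) (nat_lit 684) (nat_lit 0) (XT.nd (nat_lit 78) (nat_lit 456) (nat_lit 0) (XT.lf (nat_lit 0) (nat_lit 15265656237) (nat_lit 304) (nat_lit 4590597470) (nat_lit 76) (nat_lit 9368602305) (nat_lit 62) (nat_lit 5) (nat_lit 66) (nat_lit 5) (nat_lit 63) (nat_lit 5) (nat_lit 316) (nat_lit 276) (nat_lit 188)) (XT.nd (nat_lit 78) (nat_lit 228) (nat_lit 0) (XT.lf (nat_lit 0) (nat_lit 18266205294) (nat_lit 228) (nat_lit 6263488450) (nat_lit 304) (nat_lit 5716567309) (nat_lit 59) (nat_lit 5) (nat_lit 62) (nat_lit 5) (nat_lit 63) (nat_lit 5) (nat_lit 317) (nat_lit 276) (nat_lit 187)) (XT.lf (nat_lit 0) (nat_lit 3096702693) (nat_lit 228) (nat_lit 20186818070) (nat_lit 76) (nat_lit 8027903920) (nat_lit 56) (nat_lit 5) (nat_lit 59) (nat_lit 5) (nat_lit 57) (nat_lit 5) (nat_lit 318) (nat_lit 276) (nat_lit 186)))) (XT.nd (nat_lit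 156) (nat_lit 456) (nat_lit 0) (XT.nd (nat_lit 78) (nat_lit 0) (nat_lit 0) (XT.lf (nat_lit 0) (nat_lit 3119071295) (nat_lit 228) (nat_lit 9314384075) (nat_lit 304) (nat_lit 19988672092) (nat_lit 53) (nat_lit 5) (nat_lit 56) (nat_lit 5) (nat_lit 57) (nat_lit 5) (nat_lit 319) (nat_lit 276) (nat_lit 185)) (XT.lf (nat_lit 0) (nat_lit 22481051543) (nat_lit 304) (nat_lit 5651518606) (nat_lit 76) (nat_lit 5448484916) (nat_lit 53) (nat_lit 5) (nat_lit 57) (nat_lit 5) (nat_lit 54) (nat_lit 5) (nat_lit 320) (nat_lit 276) (nat_lit 184))) (XT.nd (nat_lit 78) (nat_lit 304) (nat_lit 0) (XT.lf (nat_lit 0) (nat_lit 19441313705) (nat_lit 152) (nat_lit 13854117075) (nat_lit 228) (nat_lit 1494575562) (nat_lit 51) (nat_lit 5) (nat_lit 53) (nat_lit 5) (nat_lit 54) (nat_lit 5) (nat_lit 321) (nat_lit 276) (nat_lit 183)) (XT.lf (nat_lit 0) (nat_lit 8574790724) (nat_lit 304) (nat_lit 26132276881) (nat_lit 76) (nat_lit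 1345329446) (nat_lit 47) (nat_lit 5) (nat_lit 51) (nat_lit 5) (nat_lit 48) (nat_lit 5) (nat_lit 322) (nat_lit 276) (nat_lit 182))))))))
noncomputable def xc78 : XT := (XT.nd (nat_lit 2184) (nat_lit 456) (nat_lit 0) (XT.nd (nat_lit 1092) (nat_lit 912) (nat_lit 0) (XT.nd (nat_lit 546) (nat_lit 532) (nat_lit 0) (XT.nd (nat_lit 234) (nat_lit 532) (nat_lit 0) (XT.nd (nat_lit 78) (nat_lit 380) (nat_lit 0) (XT.lf (nat_lit 0) (nat_lit 19400708291) (nat_lit 304) (nat_lit 782369578) (nat_lit 76) (nat_lit 17185873972) (nat_lit 47) (nat_lit 5) (nat_lit 51) (nat_lit 5) (nat_lit 48) (nat_lit 5) (nat_lit 323) (nat_lit 276) (nat_lit 181)) (XT.nd (nat_lit 78) (nat_lit 228) (nat_lit 0) (XT.lf (nat_lit 0) (nat_lit 26324105460) (nat_lit 152) (nat_lit 4681914127) (nat_lit 228) (nat_lit 7738179723) (nat_lit 45) (nat_lit 5) (nat_lit 47) (nat_lit 5) (nat_lit 48) (nat_lit 5) (nat_lit 324) (nat_lit 276) (nat_lit 180))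 (XT.lf (nat_lit 0) (nat_lit 3194195270) (nat_lit 228) (nat_lit 25445468885) (nat_lit 76) (nat_lit 11540203722) (nat_lit 42) (nat_lit 5) (nat_lit 45) (nat_lit 5) (nat_lit 43) (nat_lit 5) (nat_lit 325) (nat_lit 276) (nat_lit 179)))) (XT.nd (nat_lit 156) (nat_lit 380) (nat_lit 0) (XT.nd (nat_lit 78) (nat_lit 0) (nat_lit 0) (XT.lf (nat_lit 0) (nat_lit 1705484714) (nat_lit 152) (nat_lit 12987690019) (nat_lit 228) (nat_lit 26986452912) (nat_lit 40) (nat_lit 5) (nat_lit 42) (nat_lit 5) (nat_lit 43) (nat_lit 5) (nat_lit 326) (nat_lit 276) (nat_lit 178)) (XT.lf (nat_lit 0) (nat_lit 27050899604) (nat_lit 228) (nat_lit 12560015206) (nat_lit 76) (nat_lit 3634953303) (nat_lit 40) (nat_lit 5) (nat_lit 43) (nat_lit 5) (nat_lit 41) (nat_lit 5) (nat_lit 327) (nat_lit 276) (nat_lit 177))) (XT.nd (nat_lit 78) (nat_lit 228) (nat_lit 0) (XT.lf (nat_lit 0) (nat_lit 16391208791) (nat_lit 152) (nat_lit 23910743381)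 (nat_lit 228) (nat_lit 4580211482) (nat_lit 38) (nat_lit 5) (nat_lit 40) (nat_lit 5) (nat_lit 41) (nat_lit 5) (nat_lit 328) (nat_lit 276) (nat_lit 176)) (XT.lf (nat_lit 0) (nat_lit 366744454) (nat_lit 152) (nat_lit 7221115935) (nat_lit 228) (nat_lit 39006587958) (nat_lit 35) (nat_lit 5) (nat_lit 37) (nat_lit 5) (nat_lit 38) (nat_lit 5) (nat_lit 329) (nat_lit 276) (nat_lit 175))))) (XT.nd (nat_lit 234) (nat_lit 380) (nat_lit 0) (XT.nd (nat_lit 78) (nat_lit 152) (nat_lit 0) (XT.lf (nat_lit 0) (nat_lit 20653126006) (nat_lit 228) (nat_lit 17290675056) (nat_lit 76) (nat_lit 10435685815) (nat_lit 35) (nat_lit 5) (nat_lit 38) (nat_lit 5) (nat_lit 36) (nat_lit 5) (nat_lit 330) (nat_lit 276) (nat_lit 174)) (XT.nd (nat_lit 78) (nat_lit 0) (nat_lit 0) (XT.lf (nat_lit 0) (nat_lit 13258410913) (nat_lit 152) (nat_lit 21301579876) (nat_lit 228) (nat_lit 15688141745) (nat_lit 33) (nat_lit 5) (nat_lit 35)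 (nat_lit 5) (nat_lit 36) (nat_lit 5) (nat_lit 331) (nat_lit 276) (nat_lit 173)) (XT.lf (nat_lit 0) (nat_lit 45676237578) (nat_lit 152) (nat_lit 3652335581) (nat_lit 228) (nat_lit 2876651108) (nat_lit 33) (nat_lit 5) (nat_lit 35) (nat_lit 5) (nat_lit 36) (nat_lit 5) (nat_lit 332) (nat_lit 276) (nat_lit 172)))) (XT.nd (nat_lit 156) (nat_lit 76) (nat_lit 0) (XT.nd (nat_lit 78) (nat_lit 152) (nat_lit 0) (XT.lf (nat_lit 0) (nat_lit 10752658559) (nat_lit 152) (nat_lit 28558417364) (nat_lit 76) (nat_lit 14934541323) (nat_lit 31) (nat_lit 5) (nat_lit 33) (nat_lit 5) (nat_lit 32) (nat_lit 5) (nat_lit 333) (nat_lit 276) (nat_lit 171)) (XT.lf (nat_lit 0) (nat_lit 3242313698) (nat_lit 152) (nat_lit 21887182997) (nat_lit 228) (nat_lit 31253916456) (nat_lit 29) (nat_lit 5) (nat_lit 31) (nat_lit 5) (nat_lit 32) (nat_lit 5) (nat_lit 334) (nat_lit 276) (nat_lit 170))) (XT.nd (nat_lit 78) (nat_lit 76) (nat_lit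 0) (XT.lf (nat_lit 0) (nat_lit 37211402906) (nat_lit 152) (nat_lit 3297196120) (nat_lit 228) (nat_lit 18111001371) (nat_lit 29) (nat_lit 5) (nat_lit 31) (nat_lit 5) (nat_lit 32) (nat_lit 5) (nat_lit 335) (nat_lit 276) (nat_lit 169)) (XT.lf (nat_lit 0) (nat_lit 11971192634) (nat_lit 76) (nat_lit 44946345991) (nat_lit 152) (nat_lit 4042235931) (nat_lit 28) (nat_lit 5) (nat_lit 29) (nat_lit 5) (nat_lit 30) (nat_lit 4) (nat_lit 336) (nat_lit 276) (nat_lit 168)))))) (XT.nd (nat_lit 546) (nat_lit 380) (nat_lit 0) (XT.nd (nat_lit 234) (nat_lit 304) (nat_lit 0) (XT.nd (nat_lit 78) (nat_lit 152) (nat_lit 0) (XT.lf (nat_lit 0) (nat_lit 10766511592) (nat_lit 152) (nat_lit 16099539522) (nat_lit 76) (nat_lit 36540438003) (nat_lit 27) (nat_lit 5) (nat_lit 29) (nat_lit 5) (nat_lit 28) (nat_lit 5) (nat_lit 337) (nat_lit 276) (nat_lit 167)) (XT.nd (nat_lit 78) (nat_lit 0) (nat_lit 0) (XT.lf (nat_lit 0) (nat_lit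 18742207799) (nat_lit 152) (nat_lit 7661384188) (nat_lit 228) (nat_lit 39565605438) (nat_lit 25) (nat_lit 5) (nat_lit 27) (nat_lit 5) (nat_lit 28) (nat_lit 5) (nat_lit 338) (nat_lit 276) (nat_lit 166)) (XT.lf (nat_lit 0) (nat_lit 43100871976) (nat_lit 228) (nat_lit 13130834060) (nat_lit 76) (nat_lit 12419988110) (nat_lit 25) (nat_lit 5) (nat_lit 28) (nat_lit 5) (nat_lit 26) (nat_lit 4) (nat_lit 339) (nat_lit 276) (nat_lit 165)))) (XT.nd (nat_lit 156) (nat_lit 152) (nat_lit 0) (XT.nd (nat_lit 78) (nat_lit 76) (nat_lit 0) (XT.lf (nat_lit 0) (nat_lit 23026504449) (nat_lit 76) (nat_lit 37896406165) (nat_lit 152) (nat_lit 10536711456) (nat_lit 24) (nat_lit 5) (nat_lit 25) (nat_lit 5) (nat_lit 26) (nat_lit 4) (nat_lit 340) (nat_lit 276) (nat_lit 164)) (XT.lf (nat_lit 0) (nat_lit 5254000804) (nat_lit 152) (nat_lit 13204732367) (nat_lit 76) (nat_lit 55943871056) (nat_lit 23) (nat_lit 5) (nat_lit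 25) (nat_lit 5) (nat_lit 24) (nat_lit 5) (nat_lit 341) (nat_lit 276) (nat_lit 163))) (XT.nd (nat_lit 78) (nat_lit 0) (nat_lit 0) (XT.lf (nat_lit 0) (nat_lit 21864216359) (nat_lit 228) (nat_lit 53369811028) (nat_lit 76) (nat_lit 2248144721) (nat_lit 21) (nat_lit 5) (nat_lit 24) (nat_lit 5) (nat_lit 22) (nat_lit 4) (nat_lit 342) (nat_lit 276) (nat_lit 162)) (XT.lf (nat_lit 0) (nat_lit 39620536709) (nat_lit 228) (nat_lit 17342428350) (nat_lit 76) (nat_lit 23743288192) (nat_lit 21) (nat_lit 5) (nat_lit 24) (nat_lit 5) (nat_lit 22) (nat_lit 4) (nat_lit 343) (nat_lit 276) (nat_lit 161))))) (XT.nd (nat_lit 234) (nat_lit 76) (nat_lit 0) (XT.nd (nat_lit 78) (nat_lit 228) (nat_lit 0) (XT.lf (nat_lit 0) (nat_lit 20880070898) (nat_lit 76) (nat_lit 37577703362) (nat_lit 152) (nat_lit 25627973715) (nat_lit 20) (nat_lit 5) (nat_lit 21) (nat_lit 5) (nat_lit 22) (nat_lit 4) (nat_lit 344) (nat_lit 276) (nat_lit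 160)) (XT.nd (nat_lit 78) (nat_lit 228) (nat_lit 0) (XT.lf (nat_lit 0) (nat_lit 61362795551) (nat_lit 76) (nat_lit 17045226830) (nat_lit 152) (nat_lit 9221063034) (nat_lit 20) (nat_lit 5) (nat_lit 21) (nat_lit 5) (nat_lit 22) (nat_lit 4) (nat_lit 345) (nat_lit 276) (nat_lit 159)) (XT.lf (nat_lit 0) (nat_lit 8010035945) (nat_lit 228) (nat_lit 78711465594) (nat_lit 76) (nat_lit 4620979455) (nat_lit 17) (nat_lit 5) (nat_lit 20) (nat_lit 5) (nat_lit 18) (nat_lit 4) (nat_lit 346) (nat_lit 276) (nat_lit 158)))) (XT.nd (nat_lit 156) (nat_lit 76) (nat_lit 0) (XT.nd (nat_lit 78) (nat_lit 0) (nat_lit 0) (XT.lf (nat_lit 0) (nat_lit 26351931777) (nat_lit 228) (nat_lit 41491752552) (nat_lit 76) (nat_lit 27381926814) (nat_lit 17) (nat_lit 5) (nat_lit 20) (nat_lit 5) (nat_lit 18) (nat_lit 4) (nat_lit 347) (nat_lit 276) (nat_lit 157)) (XT.lf (nat_lit 0) (nat_lit 45604320370) (nat_lit 228) (nat_lit 2423056561)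 (nat_lit 76) (nat_lit 51275720973) (nat_lit 17) (nat_lit 5) (nat_lit 20) (nat_lit 5) (nat_lit 18) (nat_lit 4) (nat_lit 348) (nat_lit 276) (nat_lit 156))) (XT.nd (nat_lit 78) (nat_lit 0) (nat_lit 0) (XT.lf (nat_lit 0) (nat_lit 39355612840) (nat_lit 76) (nat_lit 26835738131) (nat_lit 152) (nat_lit 37381949305) (nat_lit 16) (nat_lit 5) (nat_lit 17) (nat_lit 5) (nat_lit 18) (nat_lit 4) (nat_lit 349) (nat_lit 276) (nat_lit 155)) (XT.lf (nat_lit 0) (nat_lit 83262746992) (nat_lit 76) (nat_lit 4563834369) (nat_lit 152) (nat_lit 20229867811) (nat_lit 16) (nat_lit 5) (nat_lit 17) (nat_lit 5) (nat_lit 18) (nat_lit 4) (nat_lit 350) (nat_lit 276) (nat_lit 154))))))) (XT.nd (nat_lit 35178) (nat_lit 0) (nat_lit 10564) (XT.nd (nat_lit 546) (nat_lit 152) (nat_lit 0) (XT.nd (nat_lit 234) (nat_lit 152) (nat_lit 0) (XT.nd (nat_lit 78) (nat_lit 76) (nat_lit 0) (XT.lf (nat_lit 0) (nat_lit 16736440422) (nat_lit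 76) (nat_lit 94143088521) (nat_lit 76) (nat_lit 1874149666) (nat_lit 15) (nat_lit 4) (nat_lit 16) (nat_lit 5) (nat_lit 16) (nat_lit 4) (nat_lit 351) (nat_lit 276) (nat_lit 153)) (XT.nd (nat_lit 78) (nat_lit 0) (nat_lit 0) (XT.lf (nat_lit 0) (nat_lit 17357920762) (nat_lit 152) (nat_lit 57043264790) (nat_lit 76) (nat_lit 43270625290) (nat_lit 14) (nat_lit 5) (nat_lit 16) (nat_lit 5) (nat_lit 15) (nat_lit 4) (nat_lit 352) (nat_lit 276) (nat_lit 152)) (XT.lf (nat_lit 0) (nat_lit 37507737832) (nat_lit 152) (nat_lit 16149521933) (nat_lit 76) (nat_lit 69178187698) (nat_lit 14) (nat_lit 5) (nat_lit 16) (nat_lit 5) (nat_lit 15) (nat_lit 4) (nat_lit 353) (nat_lit 276) (nat_lit 151)))) (XT.nd (nat_lit 156) (nat_lit 76) (nat_lit 0) (XT.nd (nat_lit 78) (nat_lit 0) (nat_lit 0) (XT.lf (nat_lit 0) (nat_lit 27312333921) (nat_lit 76) (nat_lit 31610057648) (nat_lit 152) (nat_lit 69327155452) (nat_lit 13) (nat_lit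 5) (nat_lit 14) (nat_lit 5) (nat_lit 15) (nat_lit 4) (nat_lit 354) (nat_lit 276) (nat_lit 150)) (XT.lf (nat_lit 0) (nat_lit 73275497275) (nat_lit 76) (nat_lit 8293487188) (nat_lit 152) (nat_lit 52360532310) (nat_lit 13) (nat_lit 5) (nat_lit 14) (nat_lit 5) (nat_lit 15) (nat_lit 4) (nat_lit 355) (nat_lit 276) (nat_lit 149))) (XT.nd (nat_lit 78) (nat_lit 76) (nat_lit 0) (XT.lf (nat_lit 0) (nat_lit 105498687379) (nat_lit 152) (nat_lit 18521212292) (nat_lit 0) (nat_lit 15869063276) (nat_lit 13) (nat_lit 5) (nat_lit 15) (nat_lit 4) (nat_lit 13) (nat_lit 4) (nat_lit 356) (nat_lit 276) (nat_lit 148)) (XT.lf (nat_lit 0) (nat_lit 26136032032) (nat_lit 76) (nat_lit 104819180116) (nat_lit 76) (nat_lit 15181260461) (nat_lit 12) (nat_lit 4) (nat_lit 13) (nat_lit 5) (nat_lit 13) (nat_lit 4) (nat_lit 357) (nat_lit 276) (nat_lit 147))))) (XT.nd (nat_lit 34320) (nat_lit 0) (nat_lit 15276) (XT.nd (nat_lit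 78) (nat_lit 76) (nat_lit 0) (XT.lf (nat_lit 0) (nat_lit 5078902369) (nat_lit 152) (nat_lit 79335648370) (nat_lit 76) (nat_lit 68274728662) (nat_lit 11) (nat_lit 5) (nat_lit 13) (nat_lit 5) (nat_lit 12) (nat_lit 4) (nat_lit 358) (nat_lit 276) (nat_lit 146)) (XT.nd (nat_lit 156) (nat_lit 76) (nat_lit 0) (XT.lf (nat_lit 0) (nat_lit 26036722660) (nat_lit 152) (nat_lit 36798797491) (nat_lit 76) (nat_lit 96729739592) (nat_lit 11) (nat_lit 5) (nat_lit 13) (nat_lit 5) (nat_lit 12) (nat_lit 4) (nat_lit 359) (nat_lit 276) (nat_lit 145)) (XT.lf (nat_lit 0) (nat_lit 55828447815) (nat_lit 76) (nat_lit 15844351735) (nat_lit 152) (nat_lit 102677280041) (nat_lit 10) (nat_lit 5) (nat_lit 11) (nat_lit 5) (nat_lit 12) (nat_lit 4) (nat_lit 361) (nat_lit 276) (nat_lit 143)))) (XT.nd (nat_lit 156) (nat_lit 0) (nat_lit 0) (XT.nd (nat_lit 78) (nat_lit 1064) (nat_lit 0) (XT.lf (nat_lit 0) (nat_lit 2235819127) (nat_lit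 0) (nat_lit 2235819127) (nat_lit 988) (nat_lit 461782323) (nat_lit 225) (nat_lit 5) (nat_lit 225) (nat_lit 3) (nat_lit 238) (nat_lit 3) (nat_lit 277) (nat_lit 277) (nat_lit 226)) (XT.lf (nat_lit 0) (nat_lit 256058331) (nat_lit 1064) (nat_lit 7947099145) (nat_lit 1140) (nat_lit 1873685511) (nat_lit 211) (nat_lit 5) (nat_lit 225) (nat_lit 5) (nat_lit 226) (nat_lit 5) (nat_lit 278) (nat_lit 277) (nat_lit 225))) (XT.nd (nat_lit 78) (nat_lit 0) (nat_lit 76) (XT.lf (nat_lit 0) (nat_lit 1503620332) (nat_lit 1064) (nat_lit 248191774) (nat_lit 1140) (nat_lit 8544507300) (nat_lit 211) (nat_lit 5) (nat_lit 225) (nat_lit 5) (nat_lit 226) (nat_lit 5) (nat_lit 279) (nat_lit 277) (nat_lit 224)) (XT.lf (nat_lit 0) (nat_lit 2869474083) (nat_lit 1064) (nat_lit 2624388095) (nat_lit 1140) (nat_lit 5031316322) (nat_lit 212) (nat_lit 5) (nat_lit 226) (nat_lit 5) (nat_lit 227) (nat_lit 5) (nat_lit 280) (nat_lit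 277) (nat_lit 223)))))) (XT.nd (nat_lit 546) (nat_lit 3952) (nat_lit 0) (XT.nd (nat_lit 234) (nat_lit 912) (nat_lit 0) (XT.nd (nat_lit 78) (nat_lit 0) (nat_lit 0) (XT.lf (nat_lit 0) (nat_lit 4326380508) (nat_lit 1064) (nat_lit 5028070692) (nat_lit 1140) (nat_lit 1410428707) (nat_lit 213) (nat_lit 5) (nat_lit 227) (nat_lit 5) (nat_lit 228) (nat_lit 5) (nat_lit 281) (nat_lit 277) (nat_lit 222)) (XT.nd (nat_lit 78) (nat_lit 0) (nat_lit 76) (XT.lf (nat_lit 76) (nat_lit 3526715234) (nat_lit 0) (nat_lit 2382469765) (nat_lit 1140) (nat_lit 5105868047) (nat_lit 214) (nat_lit 5) (nat_lit 213) (nat_lit 5) (nat_lit 228) (nat_lit 5) (nat_lit 282) (nat_lit 277) (nat_lit 221)) (XT.lf (nat_lit 76) (nat_lit 1272533506) (nat_lit 0) (nat_lit 6349824283) (nat_lit 1140) (nat_lit 3653914731) (nat_lit 215) (nat_lit 5) (nat_lit 214) (nat_lit 5) (nat_lit 229) (nat_lit 5) (nat_lit 283) (nat_lit 277) (nat_lit 220))))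 (XT.nd (nat_lit 156) (nat_lit 1064) (nat_lit 0) (XT.nd (nat_lit 78) (nat_lit 0) (nat_lit 0) (XT.lf (nat_lit 0) (nat_lit 9474395833) (nat_lit 1064) (nat_lit 997726293) (nat_lit 1140) (nat_lit 1076905612) (nat_lit 215) (nat_lit 5) (nat_lit 229) (nat_lit 5) (nat_lit 230) (nat_lit 5) (nat_lit 284) (nat_lit 277) (nat_lit 219)) (XT.lf (nat_lit 76) (nat_lit 8519589269) (nat_lit 0) (nat_lit 2990113636) (nat_lit 1140) (nat_lit 323065389) (nat_lit 216) (nat_lit 5) (nat_lit 215) (nat_lit 5) (nat_lit 230) (nat_lit 5) (nat_lit 285) (nat_lit 277) (nat_lit 218))) (XT.nd (nat_lit 78) (nat_lit 0) (nat_lit 76) (XT.lf (nat_lit 0) (nat_lit 1553199009) (nat_lit 1140) (nat_lit 5703733596) (nat_lit 1216) (nat_lit 4871387455) (nat_lit 201) (nat_lit 5) (nat_lit 216) (nat_lit 5) (nat_lit 217) (nat_lit 5) (nat_lit 286) (nat_lit 277) (nat_lit 217)) (XT.lf (nat_lit 0) (nat_lit 3578037685) (nat_lit 1140) (nat_lit 8154753865)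 (nat_lit 76) (nat_lit 703978148) (nat_lit 202) (nat_lit 5) (nat_lit 217) (nat_lit 5) (nat_lit 203) (nat_lit 5) (nat_lit 287) (nat_lit 277) (nat_lit 216))))) (XT.nd (nat_lit 234) (nat_lit 2204) (nat_lit 0) (XT.nd (nat_lit 78) (nat_lit 684) (nat_lit 0) (XT.lf (nat_lit 0) (nat_lit 2051497716) (nat_lit 1140) (nat_lit 3755651010) (nat_lit 1216) (nat_lit 6950458866) (nat_lit 187) (nat_lit 5) (nat_lit 202) (nat_lit 5) (nat_lit 203) (nat_lit 5) (nat_lit 288) (nat_lit 277) (nat_lit 215)) (XT.nd (nat_lit 78) (nat_lit 684) (nat_lit 0) (XT.lf (nat_lit 0) (nat_lit 8229687260) (nat_lit 1216) (nat_lit 241140322) (nat_lit 76) (nat_lit 4621254628) (nat_lit 187) (nat_lit 5) (nat_lit 203) (nat_lit 5) (nat_lit 188) (nat_lit 5) (nat_lit 289) (nat_lit 277) (nat_lit 214)) (XT.lf (nat_lit 0) (nat_lit 10870983515) (nat_lit 760) (nat_lit 2559383351) (nat_lit 76) (nat_lit 10036185) (nat_lit 178) (nat_lit 5) (nat_lit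 188) (nat_lit 5) (nat_lit 179) (nat_lit 5) (nat_lit 290) (nat_lit 277) (nat_lit 213)))) (XT.nd (nat_lit 156) (nat_lit 988) (nat_lit 0) (XT.nd (nat_lit 78) (nat_lit 608) (nat_lit 0) (XT.lf (nat_lit 0) (nat_lit 8803929272) (nat_lit 608) (nat_lit 4969881503) (nat_lit 684) (nat_lit 28494143) (nat_lit 170) (nat_lit 5) (nat_lit 178) (nat_lit 5) (nat_lit 179) (nat_lit 5) (nat_lit 291) (nat_lit 277) (nat_lit 212)) (XT.lf (nat_lit 0) (nat_lit 2675548652) (nat_lit 608) (nat_lit 7547295951) (nat_lit 76) (nat_lit 3956114078) (nat_lit 162) (nat_lit 5) (nat_lit 170) (nat_lit 5) (nat_lit 163) (nat_lit 5) (nat_lit 292) (nat_lit 277) (nat_lit 211))) (XT.nd (nat_lit 78) (nat_lit 456) (nat_lit 0) (XT.lf (nat_lit 0) (nat_lit 4368610722) (nat_lit 532) (nat_lit 1249402851) (nat_lit 608) (nat_lit 8953351941) (nat_lit 155) (nat_lit 5) (nat_lit 162) (nat_lit 5) (nat_lit 163) (nat_lit 5) (nat_lit 293) (nat_lit 277)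 (nat_lit 210)) (XT.lf (nat_lit 0) (nat_lit 1975719423) (nat_lit 456) (nat_lit 6869119246) (nat_lit 532) (nat_lit 6134477979) (nat_lit 149) (nat_lit 5) (nat_lit 155) (nat_lit 5) (nat_lit 156) (nat_lit 5) (nat_lit 294) (nat_lit 277) (nat_lit 209))))))))
noncomputable def xc79 : XT := (XT.nd (nat_lit 2184) (nat_lit 2660) (nat_lit 0) (XT.nd (nat_lit 1092) (nat_lit 2812) (nat_lit 0) (XT.nd (nat_lit 546) (nat_lit 2204) (nat_lit 0) (XT.nd (nat_lit 234) (nat_lit 1368) (nat_lit 0) (XT.nd (nat_lit 78) (nat_lit 1064) (nat_lit 0) (XT.lf (nat_lit 0) (nat_lit 12338308953) (nat_lit 532) (nat_lit 506243498) (nat_lit 76) (nat_lit 2559992882) (nat_lit 149) (nat_lit 5) (nat_lit 156) (nat_lit 5) (nat_lit 150) (nat_lit 5) (nat_lit 295) (nat_lit 277) (nat_lit 208)) (XT.nd (nat_lit 78) (nat_lit 456) (nat_lit 0) (XT.lf (nat_lit 0) (nat_lit 310305990) (nat_lit 608) (nat_lit 3092363887) (nat_lit 76) (nat_lit 12443619280)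 (nat_lit 141) (nat_lit 5) (nat_lit 149) (nat_lit 5) (nat_lit 142) (nat_lit 5) (nat_lit 296) (nat_lit 277) (nat_lit 207)) (XT.lf (nat_lit 0) (nat_lit 3928502241) (nat_lit 532) (nat_lit 5857253383) (nat_lit 76) (nat_lit 6519400989) (nat_lit 135) (nat_lit 5) (nat_lit 142) (nat_lit 5) (nat_lit 136) (nat_lit 5) (nat_lit 297) (nat_lit 277) (nat_lit 206)))) (XT.nd (nat_lit 156) (nat_lit 532) (nat_lit 0) (XT.nd (nat_lit 78) (nat_lit 380) (nat_lit 0) (XT.lf (nat_lit 0) (nat_lit 7839756382) (nat_lit 532) (nat_lit 8757776255) (nat_lit 76) (nat_lit 186103167) (nat_lit 129) (nat_lit 5) (nat_lit 136) (nat_lit 5) (nat_lit 130) (nat_lit 5) (nat_lit 298) (nat_lit 277) (nat_lit 205)) (XT.lf (nat_lit 0) (nat_lit 5409589096) (nat_lit 380) (nat_lit 6716495940) (nat_lit 456) (nat_lit 5154599805) (nat_lit 124) (nat_lit 5) (nat_lit 129) (nat_lit 5) (nat_lit 130) (nat_lit 5) (nat_lit 299) (nat_lit 277) (nat_lit 204)))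 (XT.nd (nat_lit 78) (nat_lit 76) (nat_lit 0) (XT.lf (nat_lit 0) (nat_lit 2646312361) (nat_lit 456) (nat_lit 14101040779) (nat_lit 532) (nat_lit 1051644253) (nat_lit 118) (nat_lit 5) (nat_lit 124) (nat_lit 5) (nat_lit 125) (nat_lit 5) (nat_lit 300) (nat_lit 277) (nat_lit 203)) (XT.lf (nat_lit 0) (nat_lit 3353889222) (nat_lit 532) (nat_lit 339468031) (nat_lit 76) (nat_lit 14644127477) (nat_lit 117) (nat_lit 5) (nat_lit 124) (nat_lit 5) (nat_lit 118) (nat_lit 5) (nat_lit 301) (nat_lit 277) (nat_lit 202))))) (XT.nd (nat_lit 234) (nat_lit 1140) (nat_lit 0) (XT.nd (nat_lit 78) (nat_lit 684) (nat_lit 0) (XT.lf (nat_lit 0) (nat_lit 8149129514) (nat_lit 456) (nat_lit 3499881371) (nat_lit 76) (nat_lit 7247863988) (nat_lit 112) (nat_lit 5) (nat_lit 118) (nat_lit 5) (nat_lit 113) (nat_lit 5) (nat_lit 302) (nat_lit 277) (nat_lit 201)) (XT.nd (nat_lit 78) (nat_lit 304) (nat_lit 0) (XT.lf (nat_lit 0) (nat_lit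 12616863188) (nat_lit 380) (nat_lit 701542802) (nat_lit 456) (nat_lit 6161825261) (nat_lit 107) (nat_lit 5) (nat_lit 112) (nat_lit 5) (nat_lit 113) (nat_lit 5) (nat_lit 303) (nat_lit 277) (nat_lit 200)) (XT.lf (nat_lit 0) (nat_lit 9568502106) (nat_lit 304) (nat_lit 9382868953) (nat_lit 380) (nat_lit 1135251410) (nat_lit 103) (nat_lit 5) (nat_lit 107) (nat_lit 5) (nat_lit 108) (nat_lit 5) (nat_lit 304) (nat_lit 277) (nat_lit 199)))) (XT.nd (nat_lit 156) (nat_lit 380) (nat_lit 0) (XT.nd (nat_lit 78) (nat_lit 304) (nat_lit 0) (XT.lf (nat_lit 0) (nat_lit 4194726787) (nat_lit 456) (nat_lit 14454408842) (nat_lit 76) (nat_lit 2069037532) (nat_lit 97) (nat_lit 5) (nat_lit 103) (nat_lit 5) (nat_lit 98) (nat_lit 5) (nat_lit 305) (nat_lit 277) (nat_lit 198)) (XT.lf (nat_lit 0) (nat_lit 2636437644) (nat_lit 304) (nat_lit 7335529757) (nat_lit 380) (nat_lit 11402890444) (nat_lit 93) (nat_lit 5) (nat_lit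 97) (nat_lit 5) (nat_lit 98) (nat_lit 5) (nat_lit 306) (nat_lit 277) (nat_lit 197))) (XT.nd (nat_lit 78) (nat_lit 380) (nat_lit 0) (XT.lf (nat_lit 0) (nat_lit 16207450166) (nat_lit 380) (nat_lit 1255132712) (nat_lit 76) (nat_lit 4596732413) (nat_lit 93) (nat_lit 5) (nat_lit 98) (nat_lit 5) (nat_lit 94) (nat_lit 5) (nat_lit 307) (nat_lit 277) (nat_lit 196)) (XT.lf (nat_lit 0) (nat_lit 196568632) (nat_lit 380) (nat_lit 5439224731) (nat_lit 76) (nat_lit 17135645310) (nat_lit 88) (nat_lit 5) (nat_lit 93) (nat_lit 5) (nat_lit 89) (nat_lit 5) (nat_lit 308) (nat_lit 277) (nat_lit 195)))))) (XT.nd (nat_lit 546) (nat_lit 1140) (nat_lit 0) (XT.nd (nat_lit 234) (nat_lit 836) (nat_lit 0) (XT.nd (nat_lit 78) (nat_lit 532) (nat_lit 0) (XT.lf (nat_lit 0) (nat_lit 6614909363) (nat_lit 380) (nat_lit 10051605496) (nat_lit 76) (nat_lit 6845277412) (nat_lit 84) (nat_lit 5) (nat_lit 89) (nat_lit 5) (nat_lit 85)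 (nat_lit 5) (nat_lit 309) (nat_lit 277) (nat_lit 194)) (XT.nd (nat_lit 78) (nat_lit 228) (nat_lit 0) (XT.lf (nat_lit 0) (nat_lit 9221702923) (nat_lit 304) (nat_lit 4312416930) (nat_lit 380) (nat_lit 10749661832) (nat_lit 80) (nat_lit 5) (nat_lit 84) (nat_lit 5) (nat_lit 85) (nat_lit 5) (nat_lit 310) (nat_lit 277) (nat_lit 193)) (XT.lf (nat_lit 0) (nat_lit 4550777905) (nat_lit 228) (nat_lit 16458541751) (nat_lit 304) (nat_lit 4078765971) (nat_lit 77) (nat_lit 5) (nat_lit 80) (nat_lit 5) (nat_lit 81) (nat_lit 5) (nat_lit 311) (nat_lit 277) (nat_lit 192)))) (XT.nd (nat_lit 156) (nat_lit 456) (nat_lit 0) (XT.nd (nat_lit 78) (nat_lit 304) (nat_lit 0) (XT.lf (nat_lit 0) (nat_lit 3047754192) (nat_lit 304) (nat_lit 572863819) (nat_lit 76) (nat_lit 22305782674) (nat_lit 76) (nat_lit 5) (nat_lit 80) (nat_lit 5) (nat_lit 77) (nat_lit 5) (nat_lit 312) (nat_lit 277) (nat_lit 191)) (XT.lf (nat_lit 0) (nat_lit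 10723356399) (nat_lit 380) (nat_lit 6173358035) (nat_lit 76) (nat_lit 9900406231) (nat_lit 72) (nat_lit 5) (nat_lit 77) (nat_lit 5) (nat_lit 73) (nat_lit 5) (nat_lit 313) (nat_lit 277) (nat_lit 190))) (XT.nd (nat_lit 78) (nat_lit 228) (nat_lit 0) (XT.lf (nat_lit 0) (nat_lit 15416261220) (nat_lit 228) (nat_lit 3537810281) (nat_lit 304) (nat_lit 8752178511) (nat_lit 69) (nat_lit 5) (nat_lit 72) (nat_lit 5) (nat_lit 73) (nat_lit 5) (nat_lit 314) (nat_lit 277) (nat_lit 189)) (XT.lf (nat_lit 0) (nat_lit 9612955661) (nat_lit 228) (nat_lit 18221981667) (nat_lit 304) (nat_lit 818752767) (nat_lit 66) (nat_lit 5) (nat_lit 69) (nat_lit 5) (nat_lit 70) (nat_lit 5) (nat_lit 315) (nat_lit 277) (nat_lit 188))))) (XT.nd (nat_lit 234) (nat_lit 608) (nat_lit 0) (XT.nd (nat_lit 78) (nat_lit 228) (nat_lit 0) (XT.lf (nat_lit 0) (nat_lit 3147249473) (nat_lit 228) (nat_lit 4392889882) (nat_lit 304) (nat_lit 22100947420)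 (nat_lit 62) (nat_lit 5) (nat_lit 65) (nat_lit 5) (nat_lit 66) (nat_lit 5) (nat_lit 316) (nat_lit 277) (nat_lit 187)) (XT.nd (nat_lit 78) (nat_lit 228) (nat_lit 0) (XT.lf (nat_lit 0) (nat_lit 16577660816) (nat_lit 304) (nat_lit 3964812510) (nat_lit 76) (nat_lit 10126819434) (nat_lit 62) (nat_lit 5) (nat_lit 66) (nat_lit 5) (nat_lit 63) (nat_lit 5) (nat_lit 317) (nat_lit 277) (nat_lit 186)) (XT.lf (nat_lit 0) (nat_lit 20010312964) (nat_lit 228) (nat_lit 6276443758) (nat_lit 304) (nat_lit 5455572033) (nat_lit 59) (nat_lit 5) (nat_lit 62) (nat_lit 5) (nat_lit 63) (nat_lit 5) (nat_lit 318) (nat_lit 277) (nat_lit 185)))) (XT.nd (nat_lit 156) (nat_lit 152) (nat_lit 0) (XT.nd (nat_lit 78) (nat_lit 228) (nat_lit 0) (XT.lf (nat_lit 0) (nat_lit 3772895537) (nat_lit 228) (nat_lit 20365520372) (nat_lit 76) (nat_lit 8722635995) (nat_lit 56) (nat_lit 5) (nat_lit 59) (nat_lit 5) (nat_lit 57) (nat_lit 5)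 (nat_lit 319) (nat_lit 277) (nat_lit 184)) (XT.lf (nat_lit 0) (nat_lit 4081853372) (nat_lit 228) (nat_lit 9477561647) (nat_lit 304) (nat_lit 20468401369) (nat_lit 53) (nat_lit 5) (nat_lit 56) (nat_lit 5) (nat_lit 57) (nat_lit 5) (nat_lit 320) (nat_lit 277) (nat_lit 183))) (XT.nd (nat_lit 78) (nat_lit 152) (nat_lit 0) (XT.lf (nat_lit 0) (nat_lit 24088147068) (nat_lit 304) (nat_lit 5153772875) (nat_lit 76) (nat_lit 6003421501) (nat_lit 53) (nat_lit 5) (nat_lit 57) (nat_lit 5) (nat_lit 54) (nat_lit 5) (nat_lit 321) (nat_lit 277) (nat_lit 182)) (XT.lf (nat_lit 0) (nat_lit 21171333288) (nat_lit 152) (nat_lit 14256195851) (nat_lit 228) (nat_lit 1087695729) (nat_lit 51) (nat_lit 5) (nat_lit 53) (nat_lit 5) (nat_lit 54) (nat_lit 5) (nat_lit 322) (nat_lit 277) (nat_lit 181))))))) (XT.nd (nat_lit 1092) (nat_lit 988) (nat_lit 0) (XT.nd (nat_lit 546) (nat_lit 684) (nat_lit 0) (XT.nd (nat_lit 234) (nat_lit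 532) (nat_lit 0) (XT.nd (nat_lit 78) (nat_lit 152) (nat_lit 0) (XT.lf (nat_lit 0) (nat_lit 9463197190) (nat_lit 304) (nat_lit 26682114105) (nat_lit 76) (nat_lit 1695673358) (nat_lit 47) (nat_lit 5) (nat_lit 51) (nat_lit 5) (nat_lit 48) (nat_lit 5) (nat_lit 323) (nat_lit 277) (nat_lit 180)) (XT.nd (nat_lit 78) (nat_lit 152) (nat_lit 0) (XT.lf (nat_lit 0) (nat_lit 20808521734) (nat_lit 304) (nat_lit 100748418) (nat_lit 76) (nat_lit 18314765231) (nat_lit 47) (nat_lit 5) (nat_lit 51) (nat_lit 5) (nat_lit 48) (nat_lit 5) (nat_lit 324) (nat_lit 277) (nat_lit 179)) (XT.lf (nat_lit 0) (nat_lit 28340390514) (nat_lit 152) (nat_lit 4639591102) (nat_lit 228) (nat_lit 7688498105) (nat_lit 45) (nat_lit 5) (nat_lit 47) (nat_lit 5) (nat_lit 48) (nat_lit 5) (nat_lit 325) (nat_lit 277) (nat_lit 178)))) (XT.nd (nat_lit 156) (nat_lit 152) (nat_lit 0) (XT.nd (nat_lit 78) (nat_lit 152) (nat_lit 0) (XT.lf (nat_lit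 0) (nat_lit 3770845751) (nat_lit 228) (nat_lit 26019251102) (nat_lit 76) (nat_lit 12386053032) (nat_lit 42) (nat_lit 5) (nat_lit 45) (nat_lit 5) (nat_lit 43) (nat_lit 5) (nat_lit 326) (nat_lit 277) (nat_lit 177)) (XT.lf (nat_lit 0) (nat_lit 2469228066) (nat_lit 152) (nat_lit 13362213661) (nat_lit 228) (nat_lit 27919865562) (nat_lit 40) (nat_lit 5) (nat_lit 42) (nat_lit 5) (nat_lit 43) (nat_lit 5) (nat_lit 327) (nat_lit 277) (nat_lit 176))) (XT.nd (nat_lit 78) (nat_lit 152) (nat_lit 0) (XT.lf (nat_lit 0) (nat_lit 28790349716) (nat_lit 228) (nat_lit 12532655277) (nat_lit 76) (nat_lit 4073365096) (nat_lit 40) (nat_lit 5) (nat_lit 43) (nat_lit 5) (nat_lit 41) (nat_lit 5) (nat_lit 328) (nat_lit 277) (nat_lit 175)) (XT.lf (nat_lit 0) (nat_lit 17847344137) (nat_lit 152) (nat_lit 24844305869) (nat_lit 228) (nat_lit 4423208323) (nat_lit 38) (nat_lit 5) (nat_lit 40) (nat_lit 5) (nat_lit 41) (nat_lit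 5) (nat_lit 329) (nat_lit 277) (nat_lit 174))))) (XT.nd (nat_lit 234) (nat_lit 304) (nat_lit 0) (XT.nd (nat_lit 78) (nat_lit 152) (nat_lit 0) (XT.lf (nat_lit 0) (nat_lit 1010891397) (nat_lit 152) (nat_lit 7322835978) (nat_lit 228) (nat_lit 40579286895) (nat_lit 35) (nat_lit 5) (nat_lit 37) (nat_lit 5) (nat_lit 38) (nat_lit 5) (nat_lit 330) (nat_lit 277) (nat_lit 173)) (XT.nd (nat_lit 78) (nat_lit 152) (nat_lit 0) (XT.lf (nat_lit 0) (nat_lit 22037179315) (nat_lit 228) (nat_lit 17550948503) (nat_lit 76) (nat_lit 11199636944) (nat_lit 35) (nat_lit 5) (nat_lit 38) (nat_lit 5) (nat_lit 36) (nat_lit 5) (nat_lit 331) (nat_lit 277) (nat_lit 172)) (XT.lf (nat_lit 0) (nat_lit 14508270763) (nat_lit 152) (nat_lit 22120025403) (nat_lit 228) (nat_lit 16121886630) (nat_lit 33) (nat_lit 5) (nat_lit 35) (nat_lit 5) (nat_lit 36) (nat_lit 5) (nat_lit 332) (nat_lit 277) (nat_lit 171)))) (XT.nd (nat_lit 156)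 (nat_lit 152) (nat_lit 0) (XT.nd (nat_lit 78) (nat_lit 152) (nat_lit 0) (XT.lf (nat_lit 0) (nat_lit 48519039271) (nat_lit 152) (nat_lit 3600063344) (nat_lit 228) (nat_lit 2686519662) (nat_lit 33) (nat_lit 5) (nat_lit 35) (nat_lit 5) (nat_lit 36) (nat_lit 5) (nat_lit 333) (nat_lit 277) (nat_lit 170)) (XT.lf (nat_lit 0) (nat_lit 11609660312) (nat_lit 152) (nat_lit 29429498764) (nat_lit 76) (nat_lit 15909028351) (nat_lit 31) (nat_lit 5) (nat_lit 33) (nat_lit 5) (nat_lit 32) (nat_lit 5) (nat_lit 334) (nat_lit 277) (nat_lit 169))) (XT.nd (nat_lit 78) (nat_lit 0) (nat_lit 0) (XT.lf (nat_lit 0) (nat_lit 3945307159) (nat_lit 152) (nat_lit 22750024404) (nat_lit 228) (nat_lit 32497848001) (nat_lit 29) (nat_lit 5) (nat_lit 31) (nat_lit 5) (nat_lit 32) (nat_lit 5) (nat_lit 335) (nat_lit 277) (nat_lit 168)) (XT.lf (nat_lit 0) (nat_lit 39587094743) (nat_lit 152) (nat_lit 3241562839) (nat_lit 228) (nat_lit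 18712966412) (nat_lit 29) (nat_lit 5) (nat_lit 31) (nat_lit 5) (nat_lit 32) (nat_lit 5) (nat_lit 336) (nat_lit 277) (nat_lit 167)))))) (XT.nd (nat_lit 546) (nat_lit 380) (nat_lit 0) (XT.nd (nat_lit 234) (nat_lit 304) (nat_lit 0) (XT.nd (nat_lit 78) (nat_lit 228) (nat_lit 0) (XT.lf (nat_lit 0) (nat_lit 13076749028) (nat_lit 76) (nat_lit 46974157346) (nat_lit 152) (nat_lit 3948120217) (nat_lit 28) (nat_lit 5) (nat_lit 29) (nat_lit 5) (nat_lit 30) (nat_lit 4) (nat_lit 337) (nat_lit 277) (nat_lit 166)) (XT.nd (nat_lit 78) (nat_lit 152) (nat_lit 0) (XT.lf (nat_lit 0) (nat_lit 11581453405) (nat_lit 152) (nat_lit 16416053704) (nat_lit 76) (nat_lit 38570904449) (nat_lit 27) (nat_lit 5) (nat_lit 29) (nat_lit 5) (nat_lit 28) (nat_lit 5) (nat_lit 338) (nat_lit 277) (nat_lit 165)) (XT.lf (nat_lit 0) (nat_lit 20153779296) (nat_lit 152) (nat_lit 7837997133) (nat_lit 228) (nat_lit 41267742123) (nat_lit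 25) (nat_lit 5) (nat_lit 27) (nat_lit 5) (nat_lit 28) (nat_lit 5) (nat_lit 339) (nat_lit 277) (nat_lit 164)))) (XT.nd (nat_lit 156) (nat_lit 228) (nat_lit 0) (XT.nd (nat_lit 78) (nat_lit 76) (nat_lit 0) (XT.lf (nat_lit 0) (nat_lit 45513048361) (nat_lit 228) (nat_lit 13329646937) (nat_lit 76) (nat_lit 13233775667) (nat_lit 25) (nat_lit 5) (nat_lit 28) (nat_lit 5) (nat_lit 26) (nat_lit 4) (nat_lit 340) (nat_lit 277) (nat_lit 163)) (XT.lf (nat_lit 0) (nat_lit 24622437793) (nat_lit 76) (nat_lit 39595780565) (nat_lit 152) (nat_lit 10806820516) (nat_lit 24) (nat_lit 5) (nat_lit 25) (nat_lit 5) (nat_lit 26) (nat_lit 4) (nat_lit 341) (nat_lit 277) (nat_lit 162))) (XT.nd (nat_lit 78) (nat_lit 152) (nat_lit 0) (XT.lf (nat_lit 0) (nat_lit 5756431181) (nat_lit 152) (nat_lit 13436678883) (nat_lit 76) (nat_lit 58922349772) (nat_lit 23) (nat_lit 5) (nat_lit 25) (nat_lit 5) (nat_lit 24) (nat_lit 5) (nat_lit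 342) (nat_lit 277) (nat_lit 161)) (XT.lf (nat_lit 0) (nat_lit 23191506591) (nat_lit 228) (nat_lit 55617005997) (nat_lit 76) (nat_lit 2540666988) (nat_lit 21) (nat_lit 5) (nat_lit 24) (nat_lit 5) (nat_lit 22) (nat_lit 4) (nat_lit 343) (nat_lit 277) (nat_lit 160))))) (XT.nd (nat_lit 234) (nat_lit 304) (nat_lit 0) (XT.nd (nat_lit 78) (nat_lit 76) (nat_lit 0) (XT.lf (nat_lit 0) (nat_lit 41824496319) (nat_lit 228) (nat_lit 17808315879) (nat_lit 76) (nat_lit 25101990726) (nat_lit 21) (nat_lit 5) (nat_lit 24) (nat_lit 5) (nat_lit 22) (nat_lit 4) (nat_lit 344) (nat_lit 277) (nat_lit 159)) (XT.nd (nat_lit 78) (nat_lit 0) (nat_lit 0) (XT.lf (nat_lit 0) (nat_lit 22313807042) (nat_lit 76) (nat_lit 39282919208) (nat_lit 152) (nat_lit 26686755792) (nat_lit 20) (nat_lit 5) (nat_lit 21) (nat_lit 5) (nat_lit 22) (nat_lit 4) (nat_lit 345) (nat_lit 277) (nat_lit 158)) (XT.lf (nat_lit 0) (nat_lit 64802109232)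 (nat_lit 76) (nat_lit 17732088816) (nat_lit 152) (nat_lit 9470100368) (nat_lit 20) (nat_lit 5) (nat_lit 21) (nat_lit 5) (nat_lit 22) (nat_lit 4) (nat_lit 346) (nat_lit 277) (nat_lit 157)))) (XT.nd (nat_lit 156) (nat_lit 76) (nat_lit 0) (XT.nd (nat_lit 78) (nat_lit 0) (nat_lit 0) (XT.lf (nat_lit 0) (nat_lit 8613590437) (nat_lit 228) (nat_lit 82277882525) (nat_lit 76) (nat_lit 5011977596) (nat_lit 17) (nat_lit 5) (nat_lit 20) (nat_lit 5) (nat_lit 18) (nat_lit 4) (nat_lit 347) (nat_lit 277) (nat_lit 156)) (XT.lf (nat_lit 0) (nat_lit 27862911885) (nat_lit 228) (nat_lit 43214762704) (nat_lit 76) (nat_lit 28903355696) (nat_lit 17) (nat_lit 5) (nat_lit 20) (nat_lit 5) (nat_lit 18) (nat_lit 4) (nat_lit 348) (nat_lit 277) (nat_lit 155))) (XT.nd (nat_lit 78) (nat_lit 76) (nat_lit 0) (XT.lf (nat_lit 0) (nat_lit 48068711168) (nat_lit 228) (nat_lit 2209373699) (nat_lit 76) (nat_lit 53984585633) (nat_lit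 17) (nat_lit 5) (nat_lit 20) (nat_lit 5) (nat_lit 18) (nat_lit 4) (nat_lit 349) (nat_lit 277) (nat_lit 154)) (XT.lf (nat_lit 0) (nat_lit 41648631175) (nat_lit 76) (nat_lit 28030818280) (nat_lit 152) (nat_lit 39067105567) (nat_lit 16) (nat_lit 5) (nat_lit 17) (nat_lit 5) (nat_lit 18) (nat_lit 4) (nat_lit 350) (nat_lit 277) (nat_lit 153))))))))
noncomputable def xc80 : XT := (XT.nd (nat_lit 36270) (nat_lit 0) (nat_lit 3268) (XT.nd (nat_lit 35178) (nat_lit 0) (nat_lit 11020) (XT.nd (nat_lit 468) (nat_lit 228) (nat_lit 0) (XT.nd (nat_lit 234) (nat_lit 76) (nat_lit 0) (XT.nd (nat_lit 78) (nat_lit 152) (nat_lit 0) (XT.lf (nat_lit 0) (nat_lit 87735634525) (nat_lit 76) (nat_lit 4652305366) (nat_lit 152) (nat_lit 21066179103) (nat_lit 16) (nat_lit 5) (nat_lit 17) (nat_lit 5) (nat_lit 18) (nat_lit 4) (nat_lit 351) (nat_lit 277) (nat_lit 152)) (XT.nd (nat_lit 78) (nat_lit 76) (nat_lit 0) (XT.lf (nat_lit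 0) (nat_lit 17877834055) (nat_lit 76) (nat_lit 98711811010) (nat_lit 76) (nat_lit 1796683997) (nat_lit 15) (nat_lit 4) (nat_lit 16) (nat_lit 5) (nat_lit 16) (nat_lit 4) (nat_lit 352) (nat_lit 277) (nat_lit 151)) (XT.lf (nat_lit 0) (nat_lit 18385657703) (nat_lit 152) (nat_lit 59602133107) (nat_lit 76) (nat_lit 45562769774) (nat_lit 14) (nat_lit 5) (nat_lit 16) (nat_lit 5) (nat_lit 15) (nat_lit 4) (nat_lit 353) (nat_lit 277) (nat_lit 150)))) (XT.nd (nat_lit 78) (nat_lit 76) (nat_lit 0) (XT.lf (nat_lit 0) (nat_lit 39535354155) (nat_lit 152) (nat_lit 16677669532) (nat_lit 76) (nat_lit 72759585863) (nat_lit 14) (nat_lit 5) (nat_lit 16) (nat_lit 5) (nat_lit 15) (nat_lit 4) (nat_lit 354) (nat_lit 277) (nat_lit 149)) (XT.nd (nat_lit 78) (nat_lit 0) (nat_lit 0) (XT.lf (nat_lit 0) (nat_lit 28949272220) (nat_lit 76) (nat_lit 33066827448) (nat_lit 152) (nat_lit 72641455712) (nat_lit 13) (nat_lit 5) (nat_lit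 14) (nat_lit 5) (nat_lit 15) (nat_lit 4) (nat_lit 355) (nat_lit 277) (nat_lit 148)) (XT.lf (nat_lit 0) (nat_lit 77197673665) (nat_lit 76) (nat_lit 8590320517) (nat_lit 152) (nat_lit 54833742248) (nat_lit 13) (nat_lit 5) (nat_lit 14) (nat_lit 5) (nat_lit 15) (nat_lit 4) (nat_lit 356) (nat_lit 277) (nat_lit 147))))) (XT.nd (nat_lit 312) (nat_lit 76) (nat_lit 0) (XT.nd (nat_lit 78) (nat_lit 152) (nat_lit 0) (XT.lf (nat_lit 0) (nat_lit 110908567706) (nat_lit 152) (nat_lit 19198201526) (nat_lit 0) (nat_lit 16772555990) (nat_lit 13) (nat_lit 5) (nat_lit 15) (nat_lit 4) (nat_lit 13) (nat_lit 4) (nat_lit 357) (nat_lit 277) (nat_lit 146)) (XT.nd (nat_lit 78) (nat_lit 76) (nat_lit 0) (XT.lf (nat_lit 0) (nat_lit 27684765432) (nat_lit 76) (nat_lit 109949052879) (nat_lit 76) (nat_lit 15805516853) (nat_lit 12) (nat_lit 4) (nat_lit 13) (nat_lit 5) (nat_lit 13) (nat_lit 4) (nat_lit 358) (nat_lit 277) (nat_lit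 145)) (XT.lf (nat_lit 0) (nat_lit 5458729457) (nat_lit 152) (nat_lit 83069481236) (nat_lit 76) (nat_lit 71791723202) (nat_lit 11) (nat_lit 5) (nat_lit 13) (nat_lit 5) (nat_lit 12) (nat_lit 4) (nat_lit 359) (nat_lit 277) (nat_lit 144)))) (XT.nd (nat_lit 34242) (nat_lit 0) (nat_lit 15276) (XT.nd (nat_lit 34164) (nat_lit 0) (nat_lit 15200) (XT.lf (nat_lit 0) (nat_lit 8629880085) (nat_lit 76) (nat_lit 42007512364) (nat_lit 152) (nat_lit 124481084683) (nat_lit 10) (nat_lit 5) (nat_lit 11) (nat_lit 5) (nat_lit 12) (nat_lit 4) (nat_lit 361) (nat_lit 277) (nat_lit 142)) (XT.lf (nat_lit 0) (nat_lit 651925849) (nat_lit 1140) (nat_lit 2246546299) (nat_lit 1140) (nat_lit 2246546299) (nat_lit 210) (nat_lit 3) (nat_lit 225) (nat_lit 3) (nat_lit 225) (nat_lit 5) (nat_lit 278) (nat_lit 278) (nat_lit 224))) (XT.nd (nat_lit 78) (nat_lit 0) (nat_lit 0) (XT.lf (nat_lit 0) (nat_lit 2417131374) (nat_lit 1064)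 (nat_lit 7137940878) (nat_lit 1140) (nat_lit 958511611) (nat_lit 211) (nat_lit 5) (nat_lit 225) (nat_lit 5) (nat_lit 226) (nat_lit 5) (nat_lit 279) (nat_lit 278) (nat_lit 223)) (XT.lf (nat_lit 76) (nat_lit 906140923) (nat_lit 0) (nat_lit 2727342355) (nat_lit 1140) (nat_lit 7113484813) (nat_lit 212) (nat_lit 5) (nat_lit 211) (nat_lit 5) (nat_lit 226) (nat_lit 5) (nat_lit 280) (nat_lit 278) (nat_lit 222)))))) (XT.nd (nat_lit 546) (nat_lit 3420) (nat_lit 0) (XT.nd (nat_lit 234) (nat_lit 912) (nat_lit 0) (XT.nd (nat_lit 78) (nat_lit 0) (nat_lit 76) (XT.lf (nat_lit 0) (nat_lit 4964116094) (nat_lit 1064) (nat_lit 1570195289) (nat_lit 1140) (nat_lit 4456184490) (nat_lit 212) (nat_lit 5) (nat_lit 226) (nat_lit 5) (nat_lit 227) (nat_lit 5) (nat_lit 281) (nat_lit 278) (nat_lit 221)) (XT.nd (nat_lit 78) (nat_lit 0) (nat_lit 0) (XT.lf (nat_lit 0) (nat_lit 6405122529) (nat_lit 1064) (nat_lit 4062769188)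 (nat_lit 1140) (nat_lit 777067588) (nat_lit 213) (nat_lit 5) (nat_lit 227) (nat_lit 5) (nat_lit 228) (nat_lit 5) (nat_lit 282) (nat_lit 278) (nat_lit 220)) (XT.lf (nat_lit 76) (nat_lit 4884879429) (nat_lit 0) (nat_lit 3104861464) (nat_lit 1140) (nat_lit 3520329137) (nat_lit 214) (nat_lit 5) (nat_lit 213) (nat_lit 5) (nat_lit 228) (nat_lit 5) (nat_lit 283) (nat_lit 278) (nat_lit 219)))) (XT.nd (nat_lit 156) (nat_lit 1064) (nat_lit 0) (XT.nd (nat_lit 78) (nat_lit 0) (nat_lit 76) (XT.lf (nat_lit 76) (nat_lit 2543882513) (nat_lit 0) (nat_lit 7165771733) (nat_lit 1140) (nat_lit 2077167715) (nat_lit 215) (nat_lit 5) (nat_lit 214) (nat_lit 5) (nat_lit 229) (nat_lit 5) (nat_lit 284) (nat_lit 278) (nat_lit 218)) (XT.lf (nat_lit 76) (nat_lit 161032557) (nat_lit 0) (nat_lit 11408999678) (nat_lit 1140) (nat_lit 505809556) (nat_lit 216) (nat_lit 5) (nat_lit 215) (nat_lit 5) (nat_lit 230) (nat_lit 5) (nat_lit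 285) (nat_lit 278) (nat_lit 217))) (XT.nd (nat_lit 78) (nat_lit 0) (nat_lit 76) (XT.lf (nat_lit 0) (nat_lit 1239104333) (nat_lit 1140) (nat_lit 2271519233) (nat_lit 1216) (nat_lit 8864899219) (nat_lit 200) (nat_lit 5) (nat_lit 215) (nat_lit 5) (nat_lit 216) (nat_lit 5) (nat_lit 286) (nat_lit 278) (nat_lit 216)) (XT.lf (nat_lit 0) (nat_lit 3135707479) (nat_lit 1140) (nat_lit 4769135398) (nat_lit 1216) (nat_lit 4783004264) (nat_lit 201) (nat_lit 5) (nat_lit 216) (nat_lit 5) (nat_lit 217) (nat_lit 5) (nat_lit 287) (nat_lit 278) (nat_lit 215))))) (XT.nd (nat_lit 234) (nat_lit 1748) (nat_lit 0) (XT.nd (nat_lit 78) (nat_lit 1824) (nat_lit 0) (XT.lf (nat_lit 0) (nat_lit 5199020894) (nat_lit 1140) (nat_lit 7330176822) (nat_lit 76) (nat_lit 484487583) (nat_lit 202) (nat_lit 5) (nat_lit 217) (nat_lit 5) (nat_lit 203) (nat_lit 5) (nat_lit 288) (nat_lit 278) (nat_lit 214)) (XT.nd (nat_lit 78) (nat_lit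 684) (nat_lit 0) (XT.lf (nat_lit 0) (nat_lit 3351063284) (nat_lit 1140) (nat_lit 4131359871) (nat_lit 1216) (nat_lit 5869935932) (nat_lit 187) (nat_lit 5) (nat_lit 202) (nat_lit 5) (nat_lit 203) (nat_lit 5) (nat_lit 289) (nat_lit 278) (nat_lit 213)) (XT.lf (nat_lit 0) (nat_lit 948090007) (nat_lit 684) (nat_lit 9019443361) (nat_lit 760) (nat_lit 3737856029) (nat_lit 178) (nat_lit 5) (nat_lit 187) (nat_lit 5) (nat_lit 188) (nat_lit 5) (nat_lit 290) (nat_lit 278) (nat_lit 212)))) (XT.nd (nat_lit 156) (nat_lit 1064) (nat_lit 0) (XT.nd (nat_lit 78) (nat_lit 684) (nat_lit 0) (XT.lf (nat_lit 0) (nat_lit 12574059450) (nat_lit 684) (nat_lit 105935709) (nat_lit 760) (nat_lit 1393029817) (nat_lit 178) (nat_lit 5) (nat_lit 187) (nat_lit 5) (nat_lit 188) (nat_lit 5) (nat_lit 291) (nat_lit 278) (nat_lit 211)) (XT.lf (nat_lit 0) (nat_lit 1199375501) (nat_lit 684) (nat_lit 4066915572) (nat_lit 76) (nat_lit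 9187950139) (nat_lit 169) (nat_lit 5) (nat_lit 178) (nat_lit 5) (nat_lit 170) (nat_lit 5) (nat_lit 292) (nat_lit 278) (nat_lit 210))) (XT.nd (nat_lit 78) (nat_lit 532) (nat_lit 0) (XT.lf (nat_lit 0) (nat_lit 3990227755) (nat_lit 608) (nat_lit 6740398513) (nat_lit 76) (nat_lit 4120590189) (nat_lit 162) (nat_lit 5) (nat_lit 170) (nat_lit 5) (nat_lit 163) (nat_lit 5) (nat_lit 293) (nat_lit 278) (nat_lit 209)) (XT.lf (nat_lit 0) (nat_lit 5737356854) (nat_lit 532) (nat_lit 1297283192) (nat_lit 608) (nat_lit 8230019009) (nat_lit 155) (nat_lit 5) (nat_lit 162) (nat_lit 5) (nat_lit 163) (nat_lit 5) (nat_lit 294) (nat_lit 278) (nat_lit 208))))))) (XT.nd (nat_lit 1092) (nat_lit 3040) (nat_lit 0) (XT.nd (nat_lit 546) (nat_lit 1900) (nat_lit 0) (XT.nd (nat_lit 234) (nat_lit 1748) (nat_lit 0) (XT.nd (nat_lit 78) (nat_lit 608) (nat_lit 0) (XT.lf (nat_lit 0) (nat_lit 3225974789) (nat_lit 456) (nat_lit 7153951624)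 (nat_lit 532) (nat_lit 5314425017) (nat_lit 149) (nat_lit 5) (nat_lit 155) (nat_lit 5) (nat_lit 156) (nat_lit 5) (nat_lit 295) (nat_lit 278) (nat_lit 207)) (XT.nd (nat_lit 78) (nat_lit 76) (nat_lit 0) (XT.lf (nat_lit 0) (nat_lit 608739133) (nat_lit 532) (nat_lit 13393679065) (nat_lit 608) (nat_lit 2139847468) (nat_lit 142) (nat_lit 5) (nat_lit 149) (nat_lit 5) (nat_lit 150) (nat_lit 5) (nat_lit 296) (nat_lit 278) (nat_lit 206)) (XT.lf (nat_lit 0) (nat_lit 1339054441) (nat_lit 608) (nat_lit 2129737567) (nat_lit 76) (nat_lit 13138405717) (nat_lit 141) (nat_lit 5) (nat_lit 149) (nat_lit 5) (nat_lit 142) (nat_lit 5) (nat_lit 297) (nat_lit 278) (nat_lit 205)))) (XT.nd (nat_lit 156) (nat_lit 836) (nat_lit 0) (XT.nd (nat_lit 78) (nat_lit 456) (nat_lit 0) (XT.lf (nat_lit 0) (nat_lit 5101398591) (nat_lit 532) (nat_lit 5035729299) (nat_lit 76) (nat_lit 6953031565) (nat_lit 135) (nat_lit 5) (nat_lit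 142) (nat_lit 5) (nat_lit 136) (nat_lit 5) (nat_lit 298) (nat_lit 278) (nat_lit 204)) (XT.lf (nat_lit 0) (nat_lit 9173487532) (nat_lit 532) (nat_lit 8085461178) (nat_lit 76) (nat_lit 334701487) (nat_lit 129) (nat_lit 5) (nat_lit 136) (nat_lit 5) (nat_lit 130) (nat_lit 5) (nat_lit 299) (nat_lit 278) (nat_lit 203))) (XT.nd (nat_lit 78) (nat_lit 456) (nat_lit 0) (XT.lf (nat_lit 0) (nat_lit 6758448670) (nat_lit 380) (nat_lit 6881205078) (nat_lit 456) (nat_lit 4476975880) (nat_lit 124) (nat_lit 5) (nat_lit 129) (nat_lit 5) (nat_lit 130) (nat_lit 5) (nat_lit 300) (nat_lit 278) (nat_lit 202)) (XT.lf (nat_lit 0) (nat_lit 3851783107) (nat_lit 456) (nat_lit 14608881446) (nat_lit 532) (nat_lit 201174377) (nat_lit 118) (nat_lit 5) (nat_lit 124) (nat_lit 5) (nat_lit 125) (nat_lit 5) (nat_lit 301) (nat_lit 278) (nat_lit 201))))) (XT.nd (nat_lit 234) (nat_lit 1064) (nat_lit 0) (XT.nd (nat_lit 78) (nat_lit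 380) (nat_lit 0) (XT.lf (nat_lit 0) (nat_lit 696757453) (nat_lit 380) (nat_lit 3674790830) (nat_lit 456) (nat_lit 14856544273) (nat_lit 112) (nat_lit 5) (nat_lit 117) (nat_lit 5) (nat_lit 118) (nat_lit 5) (nat_lit 302) (nat_lit 278) (nat_lit 200)) (XT.nd (nat_lit 78) (nat_lit 380) (nat_lit 0) (XT.lf (nat_lit 0) (nat_lit 9371297739) (nat_lit 456) (nat_lit 2641850864) (nat_lit 76) (nat_lit 7803397736) (nat_lit 112) (nat_lit 5) (nat_lit 118) (nat_lit 5) (nat_lit 113) (nat_lit 5) (nat_lit 303) (nat_lit 278) (nat_lit 199)) (XT.lf (nat_lit 0) (nat_lit 14251119480) (nat_lit 380) (nat_lit 518768181) (nat_lit 456) (nat_lit 5660092190) (nat_lit 107) (nat_lit 5) (nat_lit 112) (nat_lit 5) (nat_lit 113) (nat_lit 5) (nat_lit 304) (nat_lit 278) (nat_lit 198)))) (XT.nd (nat_lit 156) (nat_lit 304) (nat_lit 0) (XT.nd (nat_lit 78) (nat_lit 456) (nat_lit 0) (XT.lf (nat_lit 0) (nat_lit 11043111080) (nat_lit 304)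 (nat_lit 9615552554) (nat_lit 380) (nat_lit 408835268) (nat_lit 103) (nat_lit 5) (nat_lit 107) (nat_lit 5) (nat_lit 108) (nat_lit 5) (nat_lit 305) (nat_lit 278) (nat_lit 197)) (XT.lf (nat_lit 0) (nat_lit 5147572177) (nat_lit 456) (nat_lit 14173523964) (nat_lit 76) (nat_lit 2410079396) (nat_lit 97) (nat_lit 5) (nat_lit 103) (nat_lit 5) (nat_lit 98) (nat_lit 5) (nat_lit 306) (nat_lit 278) (nat_lit 196))) (XT.nd (nat_lit 78) (nat_lit 0) (nat_lit 0) (XT.lf (nat_lit 0) (nat_lit 3743096702) (nat_lit 304) (nat_lit 7444562706) (nat_lit 380) (nat_lit 11233844701) (nat_lit 93) (nat_lit 5) (nat_lit 97) (nat_lit 5) (nat_lit 98) (nat_lit 5) (nat_lit 307) (nat_lit 278) (nat_lit 195)) (XT.lf (nat_lit 0) (nat_lit 17703128603) (nat_lit 380) (nat_lit 370788190) (nat_lit 76) (nat_lit 5067249067) (nat_lit 93) (nat_lit 5) (nat_lit 98) (nat_lit 5) (nat_lit 94) (nat_lit 5) (nat_lit 308) (nat_lit 278) (nat_lit 194))))))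 (XT.nd (nat_lit 546) (nat_lit 1216) (nat_lit 0) (XT.nd (nat_lit 234) (nat_lit 836) (nat_lit 0) (XT.nd (nat_lit 78) (nat_lit 608) (nat_lit 0) (XT.lf (nat_lit 0) (nat_lit 874981390) (nat_lit 380) (nat_lit 4777413017) (nat_lit 76) (nat_lit 18237044550) (nat_lit 88) (nat_lit 5) (nat_lit 93) (nat_lit 5) (nat_lit 89) (nat_lit 5) (nat_lit 309) (nat_lit 278) (nat_lit 193)) (XT.nd (nat_lit 78) (nat_lit 304) (nat_lit 0) (XT.lf (nat_lit 0) (nat_lit 7593634602) (nat_lit 380) (nat_lit 9629839719) (nat_lit 76) (nat_lit 7443978535) (nat_lit 84) (nat_lit 5) (nat_lit 89) (nat_lit 5) (nat_lit 85) (nat_lit 5) (nat_lit 310) (nat_lit 278) (nat_lit 192)) (XT.lf (nat_lit 0) (nat_lit 10580637927) (nat_lit 304) (nat_lit 4255942192) (nat_lit 380) (nat_lit 10642151703) (nat_lit 80) (nat_lit 5) (nat_lit 84) (nat_lit 5) (nat_lit 85) (nat_lit 5) (nat_lit 311) (nat_lit 278) (nat_lit 191)))) (XT.nd (nat_lit 156) (nat_lit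 228) (nat_lit 0) (XT.nd (nat_lit 78) (nat_lit 380) (nat_lit 0) (XT.lf (nat_lit 0) (nat_lit 5666576864) (nat_lit 228) (nat_lit 17000194723) (nat_lit 304) (nat_lit 3657064627) (nat_lit 77) (nat_lit 5) (nat_lit 80) (nat_lit 5) (nat_lit 81) (nat_lit 5) (nat_lit 312) (nat_lit 278) (nat_lit 190)) (XT.lf (nat_lit 0) (nat_lit 261597437) (nat_lit 304) (nat_lit 3525279250) (nat_lit 380) (nat_lit 23417831342) (nat_lit 72) (nat_lit 5) (nat_lit 76) (nat_lit 5) (nat_lit 77) (nat_lit 5) (nat_lit 313) (nat_lit 278) (nat_lit 189))) (XT.nd (nat_lit 78) (nat_lit 228) (nat_lit 0) (XT.lf (nat_lit 0) (nat_lit 11826521300) (nat_lit 380) (nat_lit 5633882891) (nat_lit 76) (nat_lit 10659171503) (nat_lit 72) (nat_lit 5) (nat_lit 77) (nat_lit 5) (nat_lit 73) (nat_lit 5) (nat_lit 314) (nat_lit 278) (nat_lit 188)) (XT.lf (nat_lit 0) (nat_lit 17010905477) (nat_lit 228) (nat_lit 3438785989) (nat_lit 304) (nat_lit 8625061087)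 (nat_lit 69) (nat_lit 5) (nat_lit 72) (nat_lit 5) (nat_lit 73) (nat_lit 5) (nat_lit 315) (nat_lit 278) (nat_lit 187))))) (XT.nd (nat_lit 234) (nat_lit 684) (nat_lit 0) (XT.nd (nat_lit 78) (nat_lit 304) (nat_lit 0) (XT.lf (nat_lit 0) (nat_lit 10907571555) (nat_lit 228) (nat_lit 18851288095) (nat_lit 304) (nat_lit 311194954) (nat_lit 66) (nat_lit 5) (nat_lit 69) (nat_lit 5) (nat_lit 70) (nat_lit 5) (nat_lit 316) (nat_lit 278) (nat_lit 186)) (XT.nd (nat_lit 78) (nat_lit 0) (nat_lit 0) (XT.lf (nat_lit 0) (nat_lit 4105978672) (nat_lit 228) (nat_lit 4331054049) (nat_lit 304) (nat_lit 22670183800) (nat_lit 62) (nat_lit 5) (nat_lit 65) (nat_lit 5) (nat_lit 66) (nat_lit 5) (nat_lit 317) (nat_lit 278) (nat_lit 185)) (XT.lf (nat_lit 0) (nat_lit 17904250676) (nat_lit 304) (nat_lit 3387257367) (nat_lit 76) (nat_lit 10896005769) (nat_lit 62) (nat_lit 5) (nat_lit 66) (nat_lit 5) (nat_lit 63) (nat_lit 5)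 (nat_lit 318) (nat_lit 278) (nat_lit 184)))) (XT.nd (nat_lit 156) (nat_lit 228) (nat_lit 0) (XT.nd (nat_lit 78) (nat_lit 228) (nat_lit 0) (XT.lf (nat_lit 0) (nat_lit 21764386351) (nat_lit 228) (nat_lit 6317958360) (nat_lit 304) (nat_lit 5232365473) (nat_lit 59) (nat_lit 5) (nat_lit 62) (nat_lit 5) (nat_lit 63) (nat_lit 5) (nat_lit 319) (nat_lit 278) (nat_lit 183)) (XT.lf (nat_lit 0) (nat_lit 4434427124) (nat_lit 228) (nat_lit 20630382694) (nat_lit 76) (nat_lit 9424832991) (nat_lit 56) (nat_lit 5) (nat_lit 59) (nat_lit 5) (nat_lit 57) (nat_lit 5) (nat_lit 320) (nat_lit 278) (nat_lit 182))) (XT.nd (nat_lit 78) (nat_lit 0) (nat_lit 0) (XT.lf (nat_lit 0) (nat_lit 5017763286) (nat_lit 228) (nat_lit 9677025550) (nat_lit 304) (nat_lit 21020434293) (nat_lit 53) (nat_lit 5) (nat_lit 56) (nat_lit 5) (nat_lit 57) (nat_lit 5) (nat_lit 321) (nat_lit 278) (nat_lit 181)) (XT.lf (nat_lit 0) (nat_lit 25730688615)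 (nat_lit 304) (nat_lit 4703686769) (nat_lit 76) (nat_lit 6559839594) (nat_lit 53) (nat_lit 5) (nat_lit 57) (nat_lit 5) (nat_lit 54) (nat_lit 5) (nat_lit 322) (nat_lit 278) (nat_lit 180))))))))
noncomputable def xc81 : XT := (XT.nd (nat_lit 2184) (nat_lit 456) (nat_lit 0) (XT.nd (nat_lit 1092) (nat_lit 912) (nat_lit 0) (XT.nd (nat_lit 546) (nat_lit 836) (nat_lit 0) (XT.nd (nat_lit 234) (nat_lit 380) (nat_lit 0) (XT.nd (nat_lit 78) (nat_lit 456) (nat_lit 0) (XT.lf (nat_lit 0) (nat_lit 22917386480) (nat_lit 152) (nat_lit 14705398317) (nat_lit 228) (nat_lit 705247308) (nat_lit 51) (nat_lit 5) (nat_lit 53) (nat_lit 5) (nat_lit 54) (nat_lit 5) (nat_lit 323) (nat_lit 278) (nat_lit 179)) (XT.nd (nat_lit 78) (nat_lit 152) (nat_lit 0) (XT.lf (nat_lit 0) (nat_lit 10353288504) (nat_lit 304) (nat_lit 27329801107) (nat_lit 76) (nat_lit 2037216608) (nat_lit 47) (nat_lit 5) (nat_lit 51) (nat_lit 5) (nat_lit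 48) (nat_lit 5) (nat_lit 324) (nat_lit 278) (nat_lit 178)) (XT.lf (nat_lit 0) (nat_lit 558851463) (nat_lit 152) (nat_lit 21692545955) (nat_lit 228) (nat_lit 18921556987) (nat_lit 45) (nat_lit 5) (nat_lit 47) (nat_lit 5) (nat_lit 48) (nat_lit 5) (nat_lit 325) (nat_lit 278) (nat_lit 177)))) (XT.nd (nat_lit 156) (nat_lit 152) (nat_lit 0) (XT.nd (nat_lit 78) (nat_lit 228) (nat_lit 0) (XT.lf (nat_lit 0) (nat_lit 30392403039) (nat_lit 152) (nat_lit 4620850720) (nat_lit 228) (nat_lit 7676922462) (nat_lit 45) (nat_lit 5) (nat_lit 47) (nat_lit 5) (nat_lit 48) (nat_lit 5) (nat_lit 326) (nat_lit 278) (nat_lit 176)) (XT.lf (nat_lit 0) (nat_lit 4337565560) (nat_lit 228) (nat_lit 26686661524) (nat_lit 76) (nat_lit 13249200694) (nat_lit 42) (nat_lit 5) (nat_lit 45) (nat_lit 5) (nat_lit 43) (nat_lit 5) (nat_lit 327) (nat_lit 278) (nat_lit 175))) (XT.nd (nat_lit 78) (nat_lit 0) (nat_lit 0) (XT.lf (nat_lit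 0) (nat_lit 3208080959) (nat_lit 152) (nat_lit 13781017442) (nat_lit 228) (nat_lit 28938616214) (nat_lit 40) (nat_lit 5) (nat_lit 42) (nat_lit 5) (nat_lit 43) (nat_lit 5) (nat_lit 328) (nat_lit 278) (nat_lit 174)) (XT.lf (nat_lit 0) (nat_lit 30580801562) (nat_lit 228) (nat_lit 12564856577) (nat_lit 76) (nat_lit 4509835280) (nat_lit 40) (nat_lit 5) (nat_lit 43) (nat_lit 5) (nat_lit 41) (nat_lit 5) (nat_lit 329) (nat_lit 278) (nat_lit 173))))) (XT.nd (nat_lit 234) (nat_lit 456) (nat_lit 0) (XT.nd (nat_lit 78) (nat_lit 228) (nat_lit 0) (XT.lf (nat_lit 0) (nat_lit 19317103549) (nat_lit 152) (nat_lit 25848902404) (nat_lit 228) (nat_lit 4294242904) (nat_lit 38) (nat_lit 5) (nat_lit 40) (nat_lit 5) (nat_lit 41) (nat_lit 5) (nat_lit 330) (nat_lit 278) (nat_lit 172)) (XT.nd (nat_lit 78) (nat_lit 0) (nat_lit 0) (XT.lf (nat_lit 0) (nat_lit 1629063830) (nat_lit 152) (nat_lit 7453752603) (nat_lit 228)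 (nat_lit 42265729281) (nat_lit 35) (nat_lit 5) (nat_lit 37) (nat_lit 5) (nat_lit 38) (nat_lit 5) (nat_lit 331) (nat_lit 278) (nat_lit 171)) (XT.lf (nat_lit 0) (nat_lit 23457765727) (nat_lit 228) (nat_lit 17880414019) (nat_lit 76) (nat_lit 11979271251) (nat_lit 35) (nat_lit 5) (nat_lit 38) (nat_lit 5) (nat_lit 36) (nat_lit 5) (nat_lit 332) (nat_lit 278) (nat_lit 170)))) (XT.nd (nat_lit 156) (nat_lit 304) (nat_lit 0) (XT.nd (nat_lit 78) (nat_lit 0) (nat_lit 0) (XT.lf (nat_lit 0) (nat_lit 15766055553) (nat_lit 152) (nat_lit 23002322848) (nat_lit 228) (nat_lit 16609920007) (nat_lit 33) (nat_lit 5) (nat_lit 35) (nat_lit 5) (nat_lit 36) (nat_lit 5) (nat_lit 333) (nat_lit 278) (nat_lit 169)) (XT.lf (nat_lit 0) (nat_lit 51452011475) (nat_lit 152) (nat_lit 3567015249) (nat_lit 228) (nat_lit 2517930451) (nat_lit 33) (nat_lit 5) (nat_lit 35) (nat_lit 5) (nat_lit 36) (nat_lit 5) (nat_lit 334) (nat_lit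 278) (nat_lit 168))) (XT.nd (nat_lit 78) (nat_lit 152) (nat_lit 0) (XT.lf (nat_lit 0) (nat_lit 12479820266) (nat_lit 152) (nat_lit 30395903891) (nat_lit 76) (nat_lit 16911064768) (nat_lit 31) (nat_lit 5) (nat_lit 33) (nat_lit 5) (nat_lit 32) (nat_lit 5) (nat_lit 335) (nat_lit 278) (nat_lit 167)) (XT.lf (nat_lit 0) (nat_lit 4633164604) (nat_lit 152) (nat_lit 23677532207) (nat_lit 228) (nat_lit 33833611803) (nat_lit 29) (nat_lit 5) (nat_lit 31) (nat_lit 5) (nat_lit 32) (nat_lit 5) (nat_lit 336) (nat_lit 278) (nat_lit 166)))))) (XT.nd (nat_lit 546) (nat_lit 456) (nat_lit 0) (XT.nd (nat_lit 234) (nat_lit 304) (nat_lit 0) (XT.nd (nat_lit 78) (nat_lit 152) (nat_lit 0) (XT.lf (nat_lit 0) (nat_lit 42033680040) (nat_lit 152) (nat_lit 3203647250) (nat_lit 228) (nat_lit 19373254164) (nat_lit 29) (nat_lit 5) (nat_lit 31) (nat_lit 5) (nat_lit 32) (nat_lit 5) (nat_lit 337) (nat_lit 278) (nat_lit 165))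 (XT.nd (nat_lit 78) (nat_lit 76) (nat_lit 0) (XT.lf (nat_lit 0) (nat_lit 14190447489) (nat_lit 76) (nat_lit 49123766852) (nat_lit 152) (nat_lit 3876839144) (nat_lit 28) (nat_lit 5) (nat_lit 29) (nat_lit 5) (nat_lit 30) (nat_lit 4) (nat_lit 338) (nat_lit 278) (nat_lit 164)) (XT.lf (nat_lit 0) (nat_lit 12411425153) (nat_lit 152) (nat_lit 16793806236) (nat_lit 76) (nat_lit 40683979871) (nat_lit 27) (nat_lit 5) (nat_lit 29) (nat_lit 5) (nat_lit 28) (nat_lit 5) (nat_lit 339) (nat_lit 278) (nat_lit 163)))) (XT.nd (nat_lit 156) (nat_lit 152) (nat_lit 0) (XT.nd (nat_lit 78) (nat_lit 0) (nat_lit 0) (XT.lf (nat_lit 0) (nat_lit 21591818471) (nat_lit 152) (nat_lit 8042635071) (nat_lit 228) (nat_lit 43080658856) (nat_lit 25) (nat_lit 5) (nat_lit 27) (nat_lit 5) (nat_lit 28) (nat_lit 5) (nat_lit 340) (nat_lit 278) (nat_lit 162)) (XT.lf (nat_lit 0) (nat_lit 48021927796) (nat_lit 228) (nat_lit 13580955746)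 (nat_lit 76) (nat_lit 14070328988) (nat_lit 25) (nat_lit 5) (nat_lit 28) (nat_lit 5) (nat_lit 26) (nat_lit 4) (nat_lit 341) (nat_lit 278) (nat_lit 161))) (XT.nd (nat_lit 78) (nat_lit 76) (nat_lit 0) (XT.lf (nat_lit 0) (nat_lit 26256832355) (nat_lit 76) (nat_lit 41398294393) (nat_lit 152) (nat_lit 11114303028) (nat_lit 24) (nat_lit 5) (nat_lit 25) (nat_lit 5) (nat_lit 26) (nat_lit 4) (nat_lit 342) (nat_lit 278) (nat_lit 160)) (XT.lf (nat_lit 0) (nat_lit 6261695222) (nat_lit 152) (nat_lit 13720041078) (nat_lit 76) (nat_lit 62032898247) (nat_lit 23) (nat_lit 5) (nat_lit 25) (nat_lit 5) (nat_lit 24) (nat_lit 5) (nat_lit 343) (nat_lit 278) (nat_lit 159))))) (XT.nd (nat_lit 234) (nat_lit 228) (nat_lit 0) (XT.nd (nat_lit 78) (nat_lit 76) (nat_lit 0) (XT.lf (nat_lit 0) (nat_lit 24563398849) (nat_lit 228) (nat_lit 58015728784) (nat_lit 76) (nat_lit 2831069980) (nat_lit 21) (nat_lit 5) (nat_lit 24)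 (nat_lit 5) (nat_lit 22) (nat_lit 4) (nat_lit 344) (nat_lit 278) (nat_lit 158)) (XT.nd (nat_lit 78) (nat_lit 76) (nat_lit 0) (XT.lf (nat_lit 0) (nat_lit 44117927734) (nat_lit 228) (nat_lit 18334800709) (nat_lit 76) (nat_lit 26512680398) (nat_lit 21) (nat_lit 5) (nat_lit 24) (nat_lit 5) (nat_lit 22) (nat_lit 4) (nat_lit 345) (nat_lit 278) (nat_lit 157)) (XT.lf (nat_lit 0) (nat_lit 23782996351) (nat_lit 76) (nat_lit 41089541973) (nat_lit 152) (nat_lit 27819173755) (nat_lit 20) (nat_lit 5) (nat_lit 21) (nat_lit 5) (nat_lit 22) (nat_lit 4) (nat_lit 346) (nat_lit 278) (nat_lit 156)))) (XT.nd (nat_lit 156) (nat_lit 0) (nat_lit 0) (XT.nd (nat_lit 78) (nat_lit 228) (nat_lit 0) (XT.lf (nat_lit 0) (nat_lit 68378880366) (nat_lit 76) (nat_lit 18468671167) (nat_lit 152) (nat_lit 9751300790) (nat_lit 20) (nat_lit 5) (nat_lit 21) (nat_lit 5) (nat_lit 22) (nat_lit 4) (nat_lit 347) (nat_lit 278) (nat_lit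 155)) (XT.lf (nat_lit 0) (nat_lit 9228444738) (nat_lit 228) (nat_lit 86056940960) (nat_lit 76) (nat_lit 5407655087) (nat_lit 17) (nat_lit 5) (nat_lit 20) (nat_lit 5) (nat_lit 18) (nat_lit 4) (nat_lit 348) (nat_lit 278) (nat_lit 154))) (XT.nd (nat_lit 78) (nat_lit 0) (nat_lit 0) (XT.lf (nat_lit 0) (nat_lit 29431462031) (nat_lit 228) (nat_lit 45056609705) (nat_lit 76) (nat_lit 30486693587) (nat_lit 17) (nat_lit 5) (nat_lit 20) (nat_lit 5) (nat_lit 18) (nat_lit 4) (nat_lit 349) (nat_lit 278) (nat_lit 153)) (XT.lf (nat_lit 0) (nat_lit 50639198681) (nat_lit 228) (nat_lit 2016136542) (nat_lit 76) (nat_lit 56815405492) (nat_lit 17) (nat_lit 5) (nat_lit 20) (nat_lit 5) (nat_lit 18) (nat_lit 4) (nat_lit 350) (nat_lit 278) (nat_lit 152))))))) (XT.nd (nat_lit 35334) (nat_lit 0) (nat_lit 10488) (XT.nd (nat_lit 546) (nat_lit 152) (nat_lit 0) (XT.nd (nat_lit 234) (nat_lit 152) (nat_lit 0) (XT.nd (nat_lit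 78) (nat_lit 76) (nat_lit 0) (XT.lf (nat_lit 0) (nat_lit 44026062908) (nat_lit 76) (nat_lit 29299291841) (nat_lit 152) (nat_lit 40853620751) (nat_lit 16) (nat_lit 5) (nat_lit 17) (nat_lit 5) (nat_lit 18) (nat_lit 4) (nat_lit 351) (nat_lit 278) (nat_lit 151)) (XT.nd (nat_lit 78) (nat_lit 76) (nat_lit 0) (XT.lf (nat_lit 0) (nat_lit 92403368799) (nat_lit 76) (nat_lit 4758189822) (nat_lit 152) (nat_lit 21960592731) (nat_lit 16) (nat_lit 5) (nat_lit 17) (nat_lit 5) (nat_lit 18) (nat_lit 4) (nat_lit 352) (nat_lit 278) (nat_lit 150)) (XT.lf (nat_lit 0) (nat_lit 19047981188) (nat_lit 76) (nat_lit 103521839713) (nat_lit 76) (nat_lit 1731259101) (nat_lit 15) (nat_lit 4) (nat_lit 16) (nat_lit 5) (nat_lit 16) (nat_lit 4) (nat_lit 353) (nat_lit 278) (nat_lit 149)))) (XT.nd (nat_lit 156) (nat_lit 76) (nat_lit 0) (XT.nd (nat_lit 78) (nat_lit 0) (nat_lit 0) (XT.lf (nat_lit 0) (nat_lit 19449920999) (nat_lit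 152) (nat_lit 62316212622) (nat_lit 76) (nat_lit 47957564243) (nat_lit 14) (nat_lit 5) (nat_lit 16) (nat_lit 5) (nat_lit 15) (nat_lit 4) (nat_lit 354) (nat_lit 278) (nat_lit 148)) (XT.lf (nat_lit 0) (nat_lit 41650198444) (nat_lit 152) (nat_lit 17258193827) (nat_lit 76) (nat_lit 76508666090) (nat_lit 14) (nat_lit 5) (nat_lit 16) (nat_lit 5) (nat_lit 15) (nat_lit 4) (nat_lit 355) (nat_lit 278) (nat_lit 147))) (XT.nd (nat_lit 78) (nat_lit 0) (nat_lit 0) (XT.lf (nat_lit 0) (nat_lit 30642832522) (nat_lit 76) (nat_lit 34607939267) (nat_lit 152) (nat_lit 76135607851) (nat_lit 13) (nat_lit 5) (nat_lit 14) (nat_lit 5) (nat_lit 15) (nat_lit 4) (nat_lit 356) (nat_lit 278) (nat_lit 146)) (XT.lf (nat_lit 0) (nat_lit 81291935150) (nat_lit 76) (nat_lit 8912951254) (nat_lit 152) (nat_lit 57444076364) (nat_lit 13) (nat_lit 5) (nat_lit 14) (nat_lit 5) (nat_lit 15) (nat_lit 4) (nat_lit 357) (nat_lit 278) (nat_lit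 145))))) (XT.nd (nat_lit 34476) (nat_lit 0) (nat_lit 15124) (XT.nd (nat_lit 78) (nat_lit 152) (nat_lit 0) (XT.lf (nat_lit 0) (nat_lit 116576396053) (nat_lit 152) (nat_lit 19932196519) (nat_lit 0) (nat_lit 17710992906) (nat_lit 13) (nat_lit 5) (nat_lit 15) (nat_lit 4) (nat_lit 13) (nat_lit 4) (nat_lit 358) (nat_lit 278) (nat_lit 144)) (XT.nd (nat_lit 156) (nat_lit 76) (nat_lit 0) (XT.lf (nat_lit 0) (nat_lit 29288442977) (nat_lit 76) (nat_lit 115345747026) (nat_lit 76) (nat_lit 16473519108) (nat_lit 12) (nat_lit 4) (nat_lit 13) (nat_lit 5) (nat_lit 13) (nat_lit 4) (nat_lit 359) (nat_lit 278) (nat_lit 143)) (XT.lf (nat_lit 0) (nat_lit 28940110280) (nat_lit 152) (nat_lit 40136494099) (nat_lit 76) (nat_lit 106836994242) (nat_lit 11) (nat_lit 5) (nat_lit 13) (nat_lit 5) (nat_lit 12) (nat_lit 4) (nat_lit 361) (nat_lit 278) (nat_lit 141)))) (XT.nd (nat_lit 156) (nat_lit 0) (nat_lit 76) (XT.nd (nat_lit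 78) (nat_lit 0) (nat_lit 76) (XT.lf (nat_lit 0) (nat_lit 1707048854) (nat_lit 1140) (nat_lit 1831640650) (nat_lit 1140) (nat_lit 1831640650) (nat_lit 210) (nat_lit 3) (nat_lit 225) (nat_lit 3) (nat_lit 225) (nat_lit 5) (nat_lit 279) (nat_lit 279) (nat_lit 222)) (XT.lf (nat_lit 0) (nat_lit 4486532275) (nat_lit 1064) (nat_lit 6400494862) (nat_lit 1140) (nat_lit 91373087) (nat_lit 211) (nat_lit 5) (nat_lit 225) (nat_lit 5) (nat_lit 226) (nat_lit 5) (nat_lit 280) (nat_lit 279) (nat_lit 221))) (XT.nd (nat_lit 78) (nat_lit 0) (nat_lit 76) (XT.lf (nat_lit 76) (nat_lit 2014421905) (nat_lit 0) (nat_lit 3666709999) (nat_lit 1140) (nat_lit 5544913449) (nat_lit 212) (nat_lit 5) (nat_lit 211) (nat_lit 5) (nat_lit 226) (nat_lit 5) (nat_lit 281) (nat_lit 279) (nat_lit 220)) (XT.lf (nat_lit 0) (nat_lit 6982089071) (nat_lit 1064) (nat_lit 573501234) (nat_lit 1140) (nat_lit 3929154577) (nat_lit 212) (nat_lit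 5) (nat_lit 226) (nat_lit 5) (nat_lit 227) (nat_lit 5) (nat_lit 282) (nat_lit 279) (nat_lit 219)))))) (XT.nd (nat_lit 546) (nat_lit 3876) (nat_lit 0) (XT.nd (nat_lit 234) (nat_lit 988) (nat_lit 0) (XT.nd (nat_lit 78) (nat_lit 0) (nat_lit 0) (XT.lf (nat_lit 0) (nat_lit 8414651214) (nat_lit 1064) (nat_lit 3162320311) (nat_lit 1140) (nat_lit 177478741) (nat_lit 213) (nat_lit 5) (nat_lit 227) (nat_lit 5) (nat_lit 228) (nat_lit 5) (nat_lit 283) (nat_lit 279) (nat_lit 218)) (XT.nd (nat_lit 78) (nat_lit 0) (nat_lit 76) (XT.lf (nat_lit 76) (nat_lit 6201076628) (nat_lit 0) (nat_lit 3807286589) (nat_lit 1140) (nat_lit 2026656421) (nat_lit 214) (nat_lit 5) (nat_lit 213) (nat_lit 5) (nat_lit 228) (nat_lit 5) (nat_lit 284) (nat_lit 279) (nat_lit 217)) (XT.lf (nat_lit 76) (nat_lit 3766516395) (nat_lit 0) (nat_lit 7976174819) (nat_lit 1140) (nat_lit 585159659) (nat_lit 215) (nat_lit 5) (nat_lit 214) (nat_lit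 5) (nat_lit 229) (nat_lit 5) (nat_lit 285) (nat_lit 279) (nat_lit 216)))) (XT.nd (nat_lit 156) (nat_lit 0) (nat_lit 76) (XT.nd (nat_lit 78) (nat_lit 0) (nat_lit 0) (XT.lf (nat_lit 0) (nat_lit 976124226) (nat_lit 1140) (nat_lit 11358722565) (nat_lit 1216) (nat_lit 298290964) (nat_lit 200) (nat_lit 5) (nat_lit 215) (nat_lit 5) (nat_lit 216) (nat_lit 5) (nat_lit 286) (nat_lit 279) (nat_lit 215)) (XT.lf (nat_lit 0) (nat_lit 2726641060) (nat_lit 1140) (nat_lit 1292979126) (nat_lit 1216) (nat_lit 8930250850) (nat_lit 200) (nat_lit 5) (nat_lit 215) (nat_lit 5) (nat_lit 216) (nat_lit 5) (nat_lit 287) (nat_lit 279) (nat_lit 214))) (XT.nd (nat_lit 78) (nat_lit 0) (nat_lit 76) (XT.lf (nat_lit 0) (nat_lit 4657434822) (nat_lit 1140) (nat_lit 3901211327) (nat_lit 1216) (nat_lit 4721063716) (nat_lit 201) (nat_lit 5) (nat_lit 216) (nat_lit 5) (nat_lit 217) (nat_lit 5) (nat_lit 288) (nat_lit 279) (nat_lit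 213)) (XT.lf (nat_lit 0) (nat_lit 6766982212) (nat_lit 1140) (nat_lit 6578939871) (nat_lit 76) (nat_lit 277701103) (nat_lit 202) (nat_lit 5) (nat_lit 217) (nat_lit 5) (nat_lit 203) (nat_lit 5) (nat_lit 289) (nat_lit 279) (nat_lit 212))))) (XT.nd (nat_lit 234) (nat_lit 2204) (nat_lit 0) (XT.nd (nat_lit 78) (nat_lit 684) (nat_lit 0) (XT.lf (nat_lit 0) (nat_lit 4604322282) (nat_lit 1140) (nat_lit 4508382568) (nat_lit 1216) (nat_lit 4868153022) (nat_lit 187) (nat_lit 5) (nat_lit 202) (nat_lit 5) (nat_lit 203) (nat_lit 5) (nat_lit 290) (nat_lit 279) (nat_lit 211)) (XT.nd (nat_lit 78) (nat_lit 0) (nat_lit 0) (XT.lf (nat_lit 0) (nat_lit 2089668175) (nat_lit 684) (nat_lit 9581542607) (nat_lit 760) (nat_lit 2681923012) (nat_lit 178) (nat_lit 5) (nat_lit 187) (nat_lit 5) (nat_lit 188) (nat_lit 5) (nat_lit 291) (nat_lit 279) (nat_lit 210)) (XT.lf (nat_lit 0) (nat_lit 14244832583) (nat_lit 684) (nat_lit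 217067807) (nat_lit 760) (nat_lit 279037671) (nat_lit 178) (nat_lit 5) (nat_lit 187) (nat_lit 5) (nat_lit 188) (nat_lit 5) (nat_lit 292) (nat_lit 279) (nat_lit 209)))) (XT.nd (nat_lit 156) (nat_lit 988) (nat_lit 0) (XT.nd (nat_lit 78) (nat_lit 532) (nat_lit 0) (XT.lf (nat_lit 0) (nat_lit 2373820945) (nat_lit 684) (nat_lit 3198976763) (nat_lit 76) (nat_lit 9569518306) (nat_lit 169) (nat_lit 5) (nat_lit 178) (nat_lit 5) (nat_lit 170) (nat_lit 5) (nat_lit 293) (nat_lit 279) (nat_lit 208)) (XT.lf (nat_lit 0) (nat_lit 5260851770) (nat_lit 608) (nat_lit 6003257681) (nat_lit 76) (nat_lit 4296388775) (nat_lit 162) (nat_lit 5) (nat_lit 170) (nat_lit 5) (nat_lit 163) (nat_lit 5) (nat_lit 294) (nat_lit 279) (nat_lit 207))) (XT.nd (nat_lit 78) (nat_lit 456) (nat_lit 0) (XT.lf (nat_lit 0) (nat_lit 7067594853) (nat_lit 532) (nat_lit 1348913972) (nat_lit 608) (nat_lit 7579387960) (nat_lit 155) (nat_lit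 5) (nat_lit 162) (nat_lit 5) (nat_lit 163) (nat_lit 5) (nat_lit 295) (nat_lit 279) (nat_lit 206)) (XT.lf (nat_lit 0) (nat_lit 4431690214) (nat_lit 456) (nat_lit 7458475885) (nat_lit 532) (nat_lit 4558126439) (nat_lit 149) (nat_lit 5) (nat_lit 155) (nat_lit 5) (nat_lit 156) (nat_lit 5) (nat_lit 296) (nat_lit 279) (nat_lit 205))))))))
noncomputable def xc82 : XT := (XT.nd (nat_lit 2106) (nat_lit 2736) (nat_lit 0) (XT.nd (nat_lit 1014) (nat_lit 2736) (nat_lit 0) (XT.nd (nat_lit 468) (nat_lit 2128) (nat_lit 0) (XT.nd (nat_lit 234) (nat_lit 1368) (nat_lit 0) (XT.nd (nat_lit 78) (nat_lit 532) (nat_lit 0) (XT.lf (nat_lit 0) (nat_lit 1683052559) (nat_lit 532) (nat_lit 13974049024) (nat_lit 608) (nat_lit 1262650814) (nat_lit 142) (nat_lit 5) (nat_lit 149) (nat_lit 5) (nat_lit 150) (nat_lit 5) (nat_lit 297) (nat_lit 279) (nat_lit 204)) (XT.nd (nat_lit 78) (nat_lit 456) (nat_lit 0) (XT.lf (nat_lit 0)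 (nat_lit 2325039500) (nat_lit 608) (nat_lit 1222850737) (nat_lit 76) (nat_lit 13861181307) (nat_lit 141) (nat_lit 5) (nat_lit 149) (nat_lit 5) (nat_lit 142) (nat_lit 5) (nat_lit 298) (nat_lit 279) (nat_lit 203)) (XT.lf (nat_lit 0) (nat_lit 6242156717) (nat_lit 532) (nat_lit 4276734128) (nat_lit 76) (nat_lit 7398334415) (nat_lit 135) (nat_lit 5) (nat_lit 142) (nat_lit 5) (nat_lit 136) (nat_lit 5) (nat_lit 299) (nat_lit 279) (nat_lit 202)))) (XT.nd (nat_lit 78) (nat_lit 912) (nat_lit 0) (XT.lf (nat_lit 0) (nat_lit 10486350872) (nat_lit 532) (nat_lit 7482746581) (nat_lit 76) (nat_lit 477779565) (nat_lit 129) (nat_lit 5) (nat_lit 136) (nat_lit 5) (nat_lit 130) (nat_lit 5) (nat_lit 300) (nat_lit 279) (nat_lit 201)) (XT.nd (nat_lit 78) (nat_lit 532) (nat_lit 0) (XT.lf (nat_lit 0) (nat_lit 8074493660) (nat_lit 380) (nat_lit 7070058385) (nat_lit 456) (nat_lit 3852431100) (nat_lit 124) (nat_lit 5)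 (nat_lit 129) (nat_lit 5) (nat_lit 130) (nat_lit 5) (nat_lit 301) (nat_lit 279) (nat_lit 200)) (XT.lf (nat_lit 0) (nat_lit 596000195) (nat_lit 532) (nat_lit 14558430362) (nat_lit 76) (nat_lit 4415736968) (nat_lit 117) (nat_lit 5) (nat_lit 124) (nat_lit 5) (nat_lit 118) (nat_lit 5) (nat_lit 302) (nat_lit 279) (nat_lit 199))))) (XT.nd (nat_lit 234) (nat_lit 1368) (nat_lit 0) (XT.nd (nat_lit 78) (nat_lit 380) (nat_lit 0) (XT.lf (nat_lit 0) (nat_lit 1693312125) (nat_lit 380) (nat_lit 3670926159) (nat_lit 456) (nat_lit 14801339405) (nat_lit 112) (nat_lit 5) (nat_lit 117) (nat_lit 5) (nat_lit 118) (nat_lit 5) (nat_lit 303) (nat_lit 279) (nat_lit 198)) (XT.nd (nat_lit 78) (nat_lit 380) (nat_lit 0) (XT.lf (nat_lit 0) (nat_lit 10578830199) (nat_lit 456) (nat_lit 1836959665) (nat_lit 76) (nat_lit 8368751793) (nat_lit 112) (nat_lit 5) (nat_lit 118) (nat_lit 5) (nat_lit 113) (nat_lit 5) (nat_lit 304)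 (nat_lit 279) (nat_lit 197)) (XT.lf (nat_lit 0) (nat_lit 15873800745) (nat_lit 380) (nat_lit 347108622) (nat_lit 456) (nat_lit 5208562257) (nat_lit 107) (nat_lit 5) (nat_lit 112) (nat_lit 5) (nat_lit 113) (nat_lit 5) (nat_lit 305) (nat_lit 279) (nat_lit 196)))) (XT.nd (nat_lit 156) (nat_lit 608) (nat_lit 0) (XT.nd (nat_lit 78) (nat_lit 380) (nat_lit 0) (XT.lf (nat_lit 0) (nat_lit 275604085) (nat_lit 380) (nat_lit 9603466983) (nat_lit 76) (nat_lit 12220447621) (nat_lit 102) (nat_lit 5) (nat_lit 107) (nat_lit 5) (nat_lit 103) (nat_lit 5) (nat_lit 306) (nat_lit 279) (nat_lit 195)) (XT.lf (nat_lit 0) (nat_lit 6078972600) (nat_lit 456) (nat_lit 13971900552) (nat_lit 76) (nat_lit 2746084489) (nat_lit 97) (nat_lit 5) (nat_lit 103) (nat_lit 5) (nat_lit 98) (nat_lit 5) (nat_lit 307) (nat_lit 279) (nat_lit 194))) (XT.nd (nat_lit 78) (nat_lit 304) (nat_lit 0) (XT.lf (nat_lit 0) (nat_lit 4814457592)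 (nat_lit 304) (nat_lit 7583009853) (nat_lit 380) (nat_lit 11125069576) (nat_lit 93) (nat_lit 5) (nat_lit 97) (nat_lit 5) (nat_lit 98) (nat_lit 5) (nat_lit 308) (nat_lit 279) (nat_lit 193)) (XT.lf (nat_lit 0) (nat_lit 479069439) (nat_lit 304) (nat_lit 18735413381) (nat_lit 380) (nat_lit 5064451073) (nat_lit 89) (nat_lit 5) (nat_lit 93) (nat_lit 5) (nat_lit 94) (nat_lit 5) (nat_lit 309) (nat_lit 279) (nat_lit 192)))))) (XT.nd (nat_lit 546) (nat_lit 1216) (nat_lit 0) (XT.nd (nat_lit 234) (nat_lit 836) (nat_lit 0) (XT.nd (nat_lit 78) (nat_lit 608) (nat_lit 0) (XT.lf (nat_lit 0) (nat_lit 1525156154) (nat_lit 380) (nat_lit 4169324076) (nat_lit 76) (nat_lit 19370771585) (nat_lit 88) (nat_lit 5) (nat_lit 93) (nat_lit 5) (nat_lit 89) (nat_lit 5) (nat_lit 310) (nat_lit 279) (nat_lit 191)) (XT.nd (nat_lit 78) (nat_lit 304) (nat_lit 0) (XT.lf (nat_lit 0) (nat_lit 8561053086) (nat_lit 380) (nat_lit 9272922588)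 (nat_lit 76) (nat_lit 8048773608) (nat_lit 84) (nat_lit 5) (nat_lit 89) (nat_lit 5) (nat_lit 85) (nat_lit 5) (nat_lit 311) (nat_lit 279) (nat_lit 190)) (XT.lf (nat_lit 0) (nat_lit 11924046111) (nat_lit 304) (nat_lit 4221940586) (nat_lit 380) (nat_lit 10589231422) (nat_lit 80) (nat_lit 5) (nat_lit 84) (nat_lit 5) (nat_lit 85) (nat_lit 5) (nat_lit 312) (nat_lit 279) (nat_lit 189)))) (XT.nd (nat_lit 156) (nat_lit 228) (nat_lit 0) (XT.nd (nat_lit 78) (nat_lit 380) (nat_lit 0) (XT.lf (nat_lit 0) (nat_lit 6755583770) (nat_lit 228) (nat_lit 17595080545) (nat_lit 304) (nat_lit 3272444261) (nat_lit 77) (nat_lit 5) (nat_lit 80) (nat_lit 5) (nat_lit 81) (nat_lit 5) (nat_lit 313) (nat_lit 279) (nat_lit 188)) (XT.lf (nat_lit 0) (nat_lit 1068396689) (nat_lit 304) (nat_lit 3445358448) (nat_lit 380) (nat_lit 24034689786) (nat_lit 72) (nat_lit 5) (nat_lit 76) (nat_lit 5) (nat_lit 77) (nat_lit 5) (nat_lit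 314) (nat_lit 279) (nat_lit 187))) (XT.nd (nat_lit 78) (nat_lit 228) (nat_lit 0) (XT.lf (nat_lit 0) (nat_lit 12932130432) (nat_lit 380) (nat_lit 5146286290) (nat_lit 76) (nat_lit 11431354533) (nat_lit 72) (nat_lit 5) (nat_lit 77) (nat_lit 5) (nat_lit 73) (nat_lit 5) (nat_lit 315) (nat_lit 279) (nat_lit 186)) (XT.lf (nat_lit 0) (nat_lit 18608689932) (nat_lit 228) (nat_lit 3360462425) (nat_lit 304) (nat_lit 8544090695) (nat_lit 69) (nat_lit 5) (nat_lit 72) (nat_lit 5) (nat_lit 73) (nat_lit 5) (nat_lit 316) (nat_lit 279) (nat_lit 185))))) (XT.nd (nat_lit 234) (nat_lit 684) (nat_lit 0) (XT.nd (nat_lit 78) (nat_lit 228) (nat_lit 0) (XT.lf (nat_lit 0) (nat_lit 167414955) (nat_lit 304) (nat_lit 19369152736) (nat_lit 76) (nat_lit 12022137686) (nat_lit 65) (nat_lit 5) (nat_lit 69) (nat_lit 5) (nat_lit 66) (nat_lit 5) (nat_lit 317) (nat_lit 279) (nat_lit 184)) (XT.nd (nat_lit 78) (nat_lit 0) (nat_lit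 0) (XT.lf (nat_lit 0) (nat_lit 5038140849) (nat_lit 228) (nat_lit 4292295798) (nat_lit 304) (nat_lit 23317696627) (nat_lit 62) (nat_lit 5) (nat_lit 65) (nat_lit 5) (nat_lit 66) (nat_lit 5) (nat_lit 318) (nat_lit 279) (nat_lit 183)) (XT.lf (nat_lit 0) (nat_lit 19250897966) (nat_lit 304) (nat_lit 2852950605) (nat_lit 76) (nat_lit 11679214551) (nat_lit 62) (nat_lit 5) (nat_lit 66) (nat_lit 5) (nat_lit 63) (nat_lit 5) (nat_lit 319) (nat_lit 279) (nat_lit 182)))) (XT.nd (nat_lit 156) (nat_lit 228) (nat_lit 0) (XT.nd (nat_lit 78) (nat_lit 228) (nat_lit 0) (XT.lf (nat_lit 0) (nat_lit 23536104751) (nat_lit 228) (nat_lit 6386865271) (nat_lit 304) (nat_lit 5044110584) (nat_lit 59) (nat_lit 5) (nat_lit 62) (nat_lit 5) (nat_lit 63) (nat_lit 5) (nat_lit 320) (nat_lit 279) (nat_lit 181)) (XT.lf (nat_lit 0) (nat_lit 5085070758) (nat_lit 228) (nat_lit 20978533395) (nat_lit 76) (nat_lit 10137403616) (nat_lit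 56) (nat_lit 5) (nat_lit 59) (nat_lit 5) (nat_lit 57) (nat_lit 5) (nat_lit 321) (nat_lit 279) (nat_lit 180))) (XT.nd (nat_lit 78) (nat_lit 0) (nat_lit 0) (XT.lf (nat_lit 0) (nat_lit 5932431264) (nat_lit 228) (nat_lit 9911975079) (nat_lit 304) (nat_lit 21643893971) (nat_lit 53) (nat_lit 5) (nat_lit 56) (nat_lit 5) (nat_lit 57) (nat_lit 5) (nat_lit 322) (nat_lit 279) (nat_lit 179)) (XT.lf (nat_lit 0) (nat_lit 27414623675) (nat_lit 304) (nat_lit 4296898546) (nat_lit 76) (nat_lit 7120255174) (nat_lit 53) (nat_lit 5) (nat_lit 57) (nat_lit 5) (nat_lit 54) (nat_lit 5) (nat_lit 323) (nat_lit 279) (nat_lit 178))))))) (XT.nd (nat_lit 1092) (nat_lit 912) (nat_lit 0) (XT.nd (nat_lit 546) (nat_lit 836) (nat_lit 0) (XT.nd (nat_lit 234) (nat_lit 380) (nat_lit 0) (XT.nd (nat_lit 78) (nat_lit 456) (nat_lit 0) (XT.lf (nat_lit 0) (nat_lit 24686826352) (nat_lit 152) (nat_lit 15201568617) (nat_lit 228) (nat_lit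 344289077) (nat_lit 51) (nat_lit 5) (nat_lit 53) (nat_lit 5) (nat_lit 54) (nat_lit 5) (nat_lit 324) (nat_lit 279) (nat_lit 177)) (XT.nd (nat_lit 78) (nat_lit 152) (nat_lit 0) (XT.lf (nat_lit 0) (nat_lit 11249122050) (nat_lit 304) (nat_lit 28073689164) (nat_lit 76) (nat_lit 2371965948) (nat_lit 47) (nat_lit 5) (nat_lit 51) (nat_lit 5) (nat_lit 48) (nat_lit 5) (nat_lit 325) (nat_lit 279) (nat_lit 176)) (XT.lf (nat_lit 0) (nat_lit 1191549273) (nat_lit 152) (nat_lit 22538392360) (nat_lit 228) (nat_lit 19490491457) (nat_lit 45) (nat_lit 5) (nat_lit 47) (nat_lit 5) (nat_lit 48) (nat_lit 5) (nat_lit 326) (nat_lit 279) (nat_lit 175)))) (XT.nd (nat_lit 156) (nat_lit 152) (nat_lit 0) (XT.nd (nat_lit 78) (nat_lit 228) (nat_lit 0) (XT.lf (nat_lit 0) (nat_lit 32487980559) (nat_lit 152) (nat_lit 4624482882) (nat_lit 228) (nat_lit 7701584415) (nat_lit 45) (nat_lit 5) (nat_lit 47) (nat_lit 5) (nat_lit 48)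 (nat_lit 5) (nat_lit 327) (nat_lit 279) (nat_lit 174)) (XT.lf (nat_lit 0) (nat_lit 4897461997) (nat_lit 228) (nat_lit 27446344138) (nat_lit 76) (nat_lit 14132835342) (nat_lit 42) (nat_lit 5) (nat_lit 45) (nat_lit 5) (nat_lit 43) (nat_lit 5) (nat_lit 328) (nat_lit 279) (nat_lit 173))) (XT.nd (nat_lit 78) (nat_lit 0) (nat_lit 0) (XT.lf (nat_lit 0) (nat_lit 3926663228) (nat_lit 152) (nat_lit 14243939606) (nat_lit 228) (nat_lit 30043376843) (nat_lit 40) (nat_lit 5) (nat_lit 42) (nat_lit 5) (nat_lit 43) (nat_lit 5) (nat_lit 329) (nat_lit 279) (nat_lit 172)) (XT.lf (nat_lit 0) (nat_lit 32428149449) (nat_lit 228) (nat_lit 12653932545) (nat_lit 76) (nat_lit 4946485257) (nat_lit 40) (nat_lit 5) (nat_lit 43) (nat_lit 5) (nat_lit 41) (nat_lit 5) (nat_lit 330) (nat_lit 279) (nat_lit 171))))) (XT.nd (nat_lit 234) (nat_lit 456) (nat_lit 0) (XT.nd (nat_lit 78) (nat_lit 228) (nat_lit 0) (XT.lf (nat_lit 0)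 (nat_lit 20806670477) (nat_lit 152) (nat_lit 26925820305) (nat_lit 228) (nat_lit 4191380596) (nat_lit 38) (nat_lit 5) (nat_lit 40) (nat_lit 5) (nat_lit 41) (nat_lit 5) (nat_lit 331) (nat_lit 279) (nat_lit 170)) (XT.nd (nat_lit 78) (nat_lit 0) (nat_lit 0) (XT.lf (nat_lit 0) (nat_lit 2225372227) (nat_lit 152) (nat_lit 7613084066) (nat_lit 228) (nat_lit 44068338230) (nat_lit 35) (nat_lit 5) (nat_lit 37) (nat_lit 5) (nat_lit 38) (nat_lit 5) (nat_lit 332) (nat_lit 279) (nat_lit 169)) (XT.lf (nat_lit 0) (nat_lit 24919749202) (nat_lit 228) (nat_lit 18277308271) (nat_lit 76) (nat_lit 12777466071) (nat_lit 35) (nat_lit 5) (nat_lit 38) (nat_lit 5) (nat_lit 36) (nat_lit 5) (nat_lit 333) (nat_lit 279) (nat_lit 168)))) (XT.nd (nat_lit 156) (nat_lit 304) (nat_lit 0) (XT.nd (nat_lit 78) (nat_lit 0) (nat_lit 0) (XT.lf (nat_lit 0) (nat_lit 17037234750) (nat_lit 152) (nat_lit 23949533026) (nat_lit 228) (nat_lit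 17151925347) (nat_lit 33) (nat_lit 5) (nat_lit 35) (nat_lit 5) (nat_lit 36) (nat_lit 5) (nat_lit 334) (nat_lit 279) (nat_lit 167)) (XT.lf (nat_lit 0) (nat_lit 54484494352) (nat_lit 152) (nat_lit 3552122236) (nat_lit 228) (nat_lit 2369073962) (nat_lit 33) (nat_lit 5) (nat_lit 35) (nat_lit 5) (nat_lit 36) (nat_lit 5) (nat_lit 335) (nat_lit 279) (nat_lit 166))) (XT.nd (nat_lit 78) (nat_lit 152) (nat_lit 0) (XT.lf (nat_lit 0) (nat_lit 13366556802) (nat_lit 152) (nat_lit 31457585877) (nat_lit 76) (nat_lit 17943996690) (nat_lit 31) (nat_lit 5) (nat_lit 33) (nat_lit 5) (nat_lit 32) (nat_lit 5) (nat_lit 336) (nat_lit 279) (nat_lit 165)) (XT.lf (nat_lit 0) (nat_lit 5309804320) (nat_lit 152) (nat_lit 24670938598) (nat_lit 228) (nat_lit 35263044233) (nat_lit 29) (nat_lit 5) (nat_lit 31) (nat_lit 5) (nat_lit 32) (nat_lit 5) (nat_lit 337) (nat_lit 279) (nat_lit 164)))))) (XT.nd (nat_lit 546) (nat_lit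 456) (nat_lit 0) (XT.nd (nat_lit 234) (nat_lit 304) (nat_lit 0) (XT.nd (nat_lit 78) (nat_lit 152) (nat_lit 0) (XT.lf (nat_lit 0) (nat_lit 44559155932) (nat_lit 152) (nat_lit 3182429403) (nat_lit 228) (nat_lit 20092156719) (nat_lit 29) (nat_lit 5) (nat_lit 31) (nat_lit 5) (nat_lit 32) (nat_lit 5) (nat_lit 338) (nat_lit 279) (nat_lit 163)) (XT.nd (nat_lit 78) (nat_lit 76) (nat_lit 0) (XT.lf (nat_lit 0) (nat_lit 15317077354) (nat_lit 76) (nat_lit 51399367111) (nat_lit 152) (nat_lit 3826973995) (nat_lit 28) (nat_lit 5) (nat_lit 29) (nat_lit 5) (nat_lit 30) (nat_lit 4) (nat_lit 339) (nat_lit 279) (nat_lit 162)) (XT.lf (nat_lit 0) (nat_lit 13259569269) (nat_lit 152) (nat_lit 17231636998) (nat_lit 76) (nat_lit 42885553195) (nat_lit 27) (nat_lit 5) (nat_lit 29) (nat_lit 5) (nat_lit 28) (nat_lit 5) (nat_lit 340) (nat_lit 279) (nat_lit 161)))) (XT.nd (nat_lit 156) (nat_lit 152) (nat_lit 0) (XT.nd (nat_lit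 78) (nat_lit 0) (nat_lit 0) (XT.lf (nat_lit 0) (nat_lit 23061749721) (nat_lit 152) (nat_lit 8274914745) (nat_lit 228) (nat_lit 45007507787) (nat_lit 25) (nat_lit 5) (nat_lit 27) (nat_lit 5) (nat_lit 28) (nat_lit 5) (nat_lit 341) (nat_lit 279) (nat_lit 160)) (XT.lf (nat_lit 0) (nat_lit 50634567966) (nat_lit 228) (nat_lit 13883428895) (nat_lit 76) (nat_lit 14932452727) (nat_lit 25) (nat_lit 5) (nat_lit 28) (nat_lit 5) (nat_lit 26) (nat_lit 4) (nat_lit 342) (nat_lit 279) (nat_lit 159))) (XT.nd (nat_lit 78) (nat_lit 76) (nat_lit 0) (XT.lf (nat_lit 0) (nat_lit 27935454174) (nat_lit 76) (nat_lit 43307415281) (nat_lit 152) (nat_lit 11458808642) (nat_lit 24) (nat_lit 5) (nat_lit 25) (nat_lit 5) (nat_lit 26) (nat_lit 4) (nat_lit 343) (nat_lit 279) (nat_lit 158)) (XT.lf (nat_lit 0) (nat_lit 6772006724) (nat_lit 152) (nat_lit 14053687805) (nat_lit 76) (nat_lit 65283686912) (nat_lit 23) (nat_lit 5) (nat_lit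 25) (nat_lit 5) (nat_lit 24) (nat_lit 5) (nat_lit 344) (nat_lit 279) (nat_lit 157))))) (XT.nd (nat_lit 234) (nat_lit 228) (nat_lit 0) (XT.nd (nat_lit 78) (nat_lit 76) (nat_lit 0) (XT.lf (nat_lit 0) (nat_lit 25984146504) (nat_lit 228) (nat_lit 60569914305) (nat_lit 76) (nat_lit 3120804560) (nat_lit 21) (nat_lit 5) (nat_lit 24) (nat_lit 5) (nat_lit 22) (nat_lit 4) (nat_lit 345) (nat_lit 279) (nat_lit 156)) (XT.nd (nat_lit 78) (nat_lit 76) (nat_lit 0) (XT.lf (nat_lit 0) (nat_lit 46507231466) (nat_lit 228) (nat_lit 18921444632) (nat_lit 76) (nat_lit 27979439258) (nat_lit 21) (nat_lit 5) (nat_lit 24) (nat_lit 5) (nat_lit 22) (nat_lit 4) (nat_lit 346) (nat_lit 279) (nat_lit 155)) (XT.lf (nat_lit 0) (nat_lit 25292780142) (nat_lit 76) (nat_lit 43001140891) (nat_lit 152) (nat_lit 29026985208) (nat_lit 20) (nat_lit 5) (nat_lit 21) (nat_lit 5) (nat_lit 22) (nat_lit 4) (nat_lit 347) (nat_lit 279) (nat_lit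 154)))) (XT.nd (nat_lit 156) (nat_lit 0) (nat_lit 0) (XT.nd (nat_lit 78) (nat_lit 228) (nat_lit 0) (XT.lf (nat_lit 0) (nat_lit 72103190074) (nat_lit 76) (nat_lit 19256030267) (nat_lit 152) (nat_lit 10064439892) (nat_lit 20) (nat_lit 5) (nat_lit 21) (nat_lit 5) (nat_lit 22) (nat_lit 4) (nat_lit 348) (nat_lit 279) (nat_lit 153)) (XT.lf (nat_lit 0) (nat_lit 9856918929) (nat_lit 228) (nat_lit 90056082167) (nat_lit 76) (nat_lit 5809628419) (nat_lit 17) (nat_lit 5) (nat_lit 20) (nat_lit 5) (nat_lit 18) (nat_lit 4) (nat_lit 349) (nat_lit 279) (nat_lit 152))) (XT.nd (nat_lit 78) (nat_lit 0) (nat_lit 0) (XT.lf (nat_lit 0) (nat_lit 31062132231) (nat_lit 228) (nat_lit 47020196531) (nat_lit 76) (nat_lit 32136352625) (nat_lit 17) (nat_lit 5) (nat_lit 20) (nat_lit 5) (nat_lit 18) (nat_lit 4) (nat_lit 350) (nat_lit 279) (nat_lit 151)) (XT.lf (nat_lit 0) (nat_lit 53322679662) (nat_lit 228) (nat_lit 1841473217)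 (nat_lit 76) (nat_lit 59775532299) (nat_lit 17) (nat_lit 5) (nat_lit 20) (nat_lit 5) (nat_lit 18) (nat_lit 4) (nat_lit 351) (nat_lit 279) (nat_lit 150))))))))
noncomputable def xc83 : XT := (XT.nd (nat_lit 36504) (nat_lit 0) (nat_lit 2736) (XT.nd (nat_lit 35412) (nat_lit 0) (nat_lit 9956) (XT.nd (nat_lit 546) (nat_lit 152) (nat_lit 0) (XT.nd (nat_lit 234) (nat_lit 152) (nat_lit 0) (XT.nd (nat_lit 78) (nat_lit 76) (nat_lit 0) (XT.lf (nat_lit 0) (nat_lit 46494939909) (nat_lit 76) (nat_lit 30643560420) (nat_lit 152) (nat_lit 42744972906) (nat_lit 16) (nat_lit 5) (nat_lit 17) (nat_lit 5) (nat_lit 18) (nat_lit 4) (nat_lit 352) (nat_lit 279) (nat_lit 149)) (XT.nd (nat_lit 78) (nat_lit 76) (nat_lit 0) (XT.lf (nat_lit 0) (nat_lit 97278369482) (nat_lit 76) (nat_lit 4881150730) (nat_lit 152) (nat_lit 22914499621) (nat_lit 16) (nat_lit 5) (nat_lit 17) (nat_lit 5) (nat_lit 18) (nat_lit 4) (nat_lit 353)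 (nat_lit 279) (nat_lit 148)) (XT.lf (nat_lit 0) (nat_lit 20250952067) (nat_lit 76) (nat_lit 108584043402) (nat_lit 76) (nat_lit 1676997479) (nat_lit 15) (nat_lit 4) (nat_lit 16) (nat_lit 5) (nat_lit 16) (nat_lit 4) (nat_lit 354) (nat_lit 279) (nat_lit 147)))) (XT.nd (nat_lit 156) (nat_lit 76) (nat_lit 0) (XT.nd (nat_lit 78) (nat_lit 0) (nat_lit 0) (XT.lf (nat_lit 0) (nat_lit 20553918556) (nat_lit 152) (nat_lit 65190728794) (nat_lit 76) (nat_lit 50461252869) (nat_lit 14) (nat_lit 5) (nat_lit 16) (nat_lit 5) (nat_lit 15) (nat_lit 4) (nat_lit 355) (nat_lit 279) (nat_lit 146)) (XT.lf (nat_lit 0) (nat_lit 43857947897) (nat_lit 152) (nat_lit 17891299271) (nat_lit 76) (nat_lit 80434871217) (nat_lit 14) (nat_lit 5) (nat_lit 16) (nat_lit 5) (nat_lit 15) (nat_lit 4) (nat_lit 356) (nat_lit 279) (nat_lit 145))) (XT.nd (nat_lit 78) (nat_lit 0) (nat_lit 0) (XT.lf (nat_lit 0) (nat_lit 32398191102) (nat_lit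 76) (nat_lit 36236540717) (nat_lit 152) (nat_lit 79817290152) (nat_lit 13) (nat_lit 5) (nat_lit 14) (nat_lit 5) (nat_lit 15) (nat_lit 4) (nat_lit 357) (nat_lit 279) (nat_lit 144)) (XT.lf (nat_lit 0) (nat_lit 85569119482) (nat_lit 76) (nat_lit 9261650709) (nat_lit 152) (nat_lit 60197139142) (nat_lit 13) (nat_lit 5) (nat_lit 14) (nat_lit 5) (nat_lit 15) (nat_lit 4) (nat_lit 358) (nat_lit 279) (nat_lit 143))))) (XT.nd (nat_lit 34554) (nat_lit 0) (nat_lit 15124) (XT.nd (nat_lit 156) (nat_lit 152) (nat_lit 0) (XT.lf (nat_lit 0) (nat_lit 122516236228) (nat_lit 152) (nat_lit 20723894704) (nat_lit 0) (nat_lit 18687072362) (nat_lit 13) (nat_lit 5) (nat_lit 15) (nat_lit 4) (nat_lit 13) (nat_lit 4) (nat_lit 359) (nat_lit 279) (nat_lit 142)) (XT.nd (nat_lit 34320) (nat_lit 0) (nat_lit 15124) (XT.lf (nat_lit 0) (nat_lit 6241700224) (nat_lit 152) (nat_lit 91170598173) (nat_lit 76) (nat_lit 79333666584)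 (nat_lit 11) (nat_lit 5) (nat_lit 13) (nat_lit 5) (nat_lit 12) (nat_lit 4) (nat_lit 361) (nat_lit 279) (nat_lit 140)) (XT.lf (nat_lit 0) (nat_lit 2719863168) (nat_lit 1140) (nat_lit 1445006842) (nat_lit 1140) (nat_lit 1445006842) (nat_lit 210) (nat_lit 3) (nat_lit 225) (nat_lit 3) (nat_lit 225) (nat_lit 5) (nat_lit 280) (nat_lit 280) (nat_lit 220)))) (XT.nd (nat_lit 156) (nat_lit 0) (nat_lit 152) (XT.nd (nat_lit 78) (nat_lit 0) (nat_lit 76) (XT.lf (nat_lit 76) (nat_lit 5736785213) (nat_lit 0) (nat_lit 748657378) (nat_lit 1140) (nat_lit 4986457364) (nat_lit 211) (nat_lit 5) (nat_lit 210) (nat_lit 3) (nat_lit 225) (nat_lit 5) (nat_lit 281) (nat_lit 280) (nat_lit 219)) (XT.lf (nat_lit 76) (nat_lit 3079291695) (nat_lit 0) (nat_lit 4578390648) (nat_lit 1140) (nat_lit 4076811634) (nat_lit 212) (nat_lit 5) (nat_lit 211) (nat_lit 5) (nat_lit 226) (nat_lit 5) (nat_lit 282) (nat_lit 280) (nat_lit 218)))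 (XT.nd (nat_lit 78) (nat_lit 0) (nat_lit 0) (XT.lf (nat_lit 76) (nat_lit 380489992) (nat_lit 0) (nat_lit 8559592029) (nat_lit 1140) (nat_lit 3068653614) (nat_lit 213) (nat_lit 5) (nat_lit 212) (nat_lit 5) (nat_lit 227) (nat_lit 5) (nat_lit 283) (nat_lit 280) (nat_lit 217)) (XT.lf (nat_lit 76) (nat_lit 9970904705) (nat_lit 0) (nat_lit 400549403) (nat_lit 1140) (nat_lit 1922751003) (nat_lit 213) (nat_lit 5) (nat_lit 212) (nat_lit 5) (nat_lit 227) (nat_lit 5) (nat_lit 284) (nat_lit 280) (nat_lit 216)))))) (XT.nd (nat_lit 546) (nat_lit 3420) (nat_lit 0) (XT.nd (nat_lit 234) (nat_lit 912) (nat_lit 0) (XT.nd (nat_lit 78) (nat_lit 1064) (nat_lit 0) (XT.lf (nat_lit 76) (nat_lit 7483423636) (nat_lit 0) (nat_lit 4493961169) (nat_lit 1140) (nat_lit 613531943) (nat_lit 214) (nat_lit 5) (nat_lit 213) (nat_lit 5) (nat_lit 228) (nat_lit 5) (nat_lit 285) (nat_lit 280) (nat_lit 215)) (XT.nd (nat_lit 78) (nat_lit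 0) (nat_lit 0) (XT.lf (nat_lit 0) (nat_lit 816823866) (nat_lit 1140) (nat_lit 7959992552) (nat_lit 1216) (nat_lit 4123366179) (nat_lit 199) (nat_lit 5) (nat_lit 214) (nat_lit 5) (nat_lit 215) (nat_lit 5) (nat_lit 286) (nat_lit 280) (nat_lit 214)) (XT.lf (nat_lit 76) (nat_lit 2335462710) (nat_lit 0) (nat_lit 47622176) (nat_lit 1216) (nat_lit 10839383748) (nat_lit 200) (nat_lit 5) (nat_lit 199) (nat_lit 5) (nat_lit 215) (nat_lit 5) (nat_lit 287) (nat_lit 280) (nat_lit 213)))) (XT.nd (nat_lit 156) (nat_lit 988) (nat_lit 0) (XT.nd (nat_lit 78) (nat_lit 0) (nat_lit 76) (XT.lf (nat_lit 0) (nat_lit 4156017566) (nat_lit 1140) (nat_lit 367046614) (nat_lit 1216) (nat_lit 9034003003) (nat_lit 200) (nat_lit 5) (nat_lit 215) (nat_lit 5) (nat_lit 216) (nat_lit 5) (nat_lit 288) (nat_lit 280) (nat_lit 212)) (XT.lf (nat_lit 0) (nat_lit 6128349164) (nat_lit 1140) (nat_lit 3092751856) (nat_lit 1216) (nat_lit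 4684018707) (nat_lit 201) (nat_lit 5) (nat_lit 216) (nat_lit 5) (nat_lit 217) (nat_lit 5) (nat_lit 289) (nat_lit 280) (nat_lit 211))) (XT.nd (nat_lit 78) (nat_lit 1140) (nat_lit 0) (XT.lf (nat_lit 0) (nat_lit 8291735198) (nat_lit 1140) (nat_lit 5894058481) (nat_lit 76) (nat_lit 82052499) (nat_lit 202) (nat_lit 5) (nat_lit 217) (nat_lit 5) (nat_lit 203) (nat_lit 5) (nat_lit 290) (nat_lit 280) (nat_lit 210)) (XT.lf (nat_lit 0) (nat_lit 5819305592) (nat_lit 1140) (nat_lit 4888409138) (nat_lit 1216) (nat_lit 3936703795) (nat_lit 187) (nat_lit 5) (nat_lit 202) (nat_lit 5) (nat_lit 203) (nat_lit 5) (nat_lit 291) (nat_lit 280) (nat_lit 209))))) (XT.nd (nat_lit 234) (nat_lit 2052) (nat_lit 0) (XT.nd (nat_lit 78) (nat_lit 684) (nat_lit 0) (XT.lf (nat_lit 0) (nat_lit 3186599355) (nat_lit 684) (nat_lit 10161415272) (nat_lit 760) (nat_lit 1688739508) (nat_lit 178) (nat_lit 5) (nat_lit 187) (nat_lit 5)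 (nat_lit 188) (nat_lit 5) (nat_lit 292) (nat_lit 280) (nat_lit 208)) (XT.nd (nat_lit 78) (nat_lit 0) (nat_lit 0) (XT.lf (nat_lit 0) (nat_lit 458129219) (nat_lit 608) (nat_lit 311652199) (nat_lit 684) (nat_lit 14675430750) (nat_lit 169) (nat_lit 5) (nat_lit 177) (nat_lit 5) (nat_lit 178) (nat_lit 5) (nat_lit 293) (nat_lit 280) (nat_lit 207)) (XT.lf (nat_lit 0) (nat_lit 3503375184) (nat_lit 684) (nat_lit 2387238900) (nat_lit 76) (nat_lit 9977400715) (nat_lit 169) (nat_lit 5) (nat_lit 178) (nat_lit 5) (nat_lit 170) (nat_lit 5) (nat_lit 294) (nat_lit 280) (nat_lit 206)))) (XT.nd (nat_lit 156) (nat_lit 988) (nat_lit 0) (XT.nd (nat_lit 78) (nat_lit 532) (nat_lit 0) (XT.lf (nat_lit 0) (nat_lit 6495425086) (nat_lit 608) (nat_lit 5329125093) (nat_lit 76) (nat_lit 4483787875) (nat_lit 162) (nat_lit 5) (nat_lit 170) (nat_lit 5) (nat_lit 163) (nat_lit 5) (nat_lit 295) (nat_lit 280) (nat_lit 205)) (XT.lf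 (nat_lit 0) (nat_lit 8367342083) (nat_lit 532) (nat_lit 1404356605) (nat_lit 608) (nat_lit 6994972325) (nat_lit 155) (nat_lit 5) (nat_lit 162) (nat_lit 5) (nat_lit 163) (nat_lit 5) (nat_lit 296) (nat_lit 280) (nat_lit 204))) (XT.nd (nat_lit 78) (nat_lit 532) (nat_lit 0) (XT.lf (nat_lit 0) (nat_lit 5600591445) (nat_lit 456) (nat_lit 7783169911) (nat_lit 532) (nat_lit 3859030649) (nat_lit 149) (nat_lit 5) (nat_lit 155) (nat_lit 5) (nat_lit 156) (nat_lit 5) (nat_lit 297) (nat_lit 280) (nat_lit 203)) (XT.lf (nat_lit 0) (nat_lit 2714031917) (nat_lit 532) (nat_lit 14591741049) (nat_lit 608) (nat_lit 433094896) (nat_lit 142) (nat_lit 5) (nat_lit 149) (nat_lit 5) (nat_lit 150) (nat_lit 5) (nat_lit 298) (nat_lit 280) (nat_lit 202))))))) (XT.nd (nat_lit 1092) (nat_lit 2812) (nat_lit 0) (XT.nd (nat_lit 546) (nat_lit 2128) (nat_lit 0) (XT.nd (nat_lit 234) (nat_lit 1292) (nat_lit 0) (XT.nd (nat_lit 78)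 (nat_lit 912) (nat_lit 0) (XT.lf (nat_lit 0) (nat_lit 3274880896) (nat_lit 608) (nat_lit 364833447) (nat_lit 76) (nat_lit 14613973074) (nat_lit 141) (nat_lit 5) (nat_lit 149) (nat_lit 5) (nat_lit 142) (nat_lit 5) (nat_lit 299) (nat_lit 280) (nat_lit 201)) (XT.nd (nat_lit 78) (nat_lit 456) (nat_lit 0) (XT.lf (nat_lit 0) (nat_lit 7357609857) (nat_lit 532) (nat_lit 3573762094) (nat_lit 76) (nat_lit 7856823718) (nat_lit 135) (nat_lit 5) (nat_lit 142) (nat_lit 5) (nat_lit 136) (nat_lit 5) (nat_lit 300) (nat_lit 280) (nat_lit 200)) (XT.lf (nat_lit 0) (nat_lit 11785442985) (nat_lit 532) (nat_lit 6943516421) (nat_lit 76) (nat_lit 616265373) (nat_lit 129) (nat_lit 5) (nat_lit 136) (nat_lit 5) (nat_lit 130) (nat_lit 5) (nat_lit 301) (nat_lit 280) (nat_lit 199)))) (XT.nd (nat_lit 156) (nat_lit 380) (nat_lit 0) (XT.nd (nat_lit 78) (nat_lit 532) (nat_lit 0) (XT.lf (nat_lit 0) (nat_lit 9365404336) (nat_lit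 380) (nat_lit 7282784028) (nat_lit 456) (nat_lit 3275534674) (nat_lit 124) (nat_lit 5) (nat_lit 129) (nat_lit 5) (nat_lit 130) (nat_lit 5) (nat_lit 302) (nat_lit 280) (nat_lit 198)) (XT.lf (nat_lit 0) (nat_lit 1354245896) (nat_lit 532) (nat_lit 14388304032) (nat_lit 76) (nat_lit 4783609632) (nat_lit 117) (nat_lit 5) (nat_lit 124) (nat_lit 5) (nat_lit 118) (nat_lit 5) (nat_lit 303) (nat_lit 280) (nat_lit 197))) (XT.nd (nat_lit 78) (nat_lit 0) (nat_lit 0) (XT.lf (nat_lit 0) (nat_lit 2650283217) (nat_lit 380) (nat_lit 3684309915) (nat_lit 456) (nat_lit 14817567752) (nat_lit 112) (nat_lit 5) (nat_lit 117) (nat_lit 5) (nat_lit 118) (nat_lit 5) (nat_lit 304) (nat_lit 280) (nat_lit 196)) (XT.lf (nat_lit 0) (nat_lit 11778037081) (nat_lit 456) (nat_lit 1078935774) (nat_lit 76) (nat_lit 8946086590) (nat_lit 112) (nat_lit 5) (nat_lit 118) (nat_lit 5) (nat_lit 113) (nat_lit 5) (nat_lit 305) (nat_lit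 280) (nat_lit 195))))) (XT.nd (nat_lit 234) (nat_lit 988) (nat_lit 0) (XT.nd (nat_lit 78) (nat_lit 760) (nat_lit 0) (XT.lf (nat_lit 0) (nat_lit 17493001251) (nat_lit 380) (nat_lit 185236870) (nat_lit 456) (nat_lit 4802745887) (nat_lit 107) (nat_lit 5) (nat_lit 112) (nat_lit 5) (nat_lit 113) (nat_lit 5) (nat_lit 306) (nat_lit 280) (nat_lit 194)) (XT.nd (nat_lit 78) (nat_lit 380) (nat_lit 0) (XT.lf (nat_lit 0) (nat_lit 921134291) (nat_lit 380) (nat_lit 9250974794) (nat_lit 76) (nat_lit 13012903498) (nat_lit 102) (nat_lit 5) (nat_lit 107) (nat_lit 5) (nat_lit 103) (nat_lit 5) (nat_lit 307) (nat_lit 280) (nat_lit 193)) (XT.lf (nat_lit 0) (nat_lit 6994278885) (nat_lit 456) (nat_lit 13844826998) (nat_lit 76) (nat_lit 3078854585) (nat_lit 97) (nat_lit 5) (nat_lit 103) (nat_lit 5) (nat_lit 98) (nat_lit 5) (nat_lit 308) (nat_lit 280) (nat_lit 192)))) (XT.nd (nat_lit 156) (nat_lit 380) (nat_lit 0)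 (XT.nd (nat_lit 78) (nat_lit 304) (nat_lit 0) (XT.lf (nat_lit 0) (nat_lit 5857181428) (nat_lit 304) (nat_lit 7750114098) (nat_lit 380) (nat_lit 11073189394) (nat_lit 93) (nat_lit 5) (nat_lit 97) (nat_lit 5) (nat_lit 98) (nat_lit 5) (nat_lit 309) (nat_lit 280) (nat_lit 191)) (XT.lf (nat_lit 0) (nat_lit 1297712636) (nat_lit 304) (nat_lit 19448936252) (nat_lit 380) (nat_lit 4728631004) (nat_lit 89) (nat_lit 5) (nat_lit 93) (nat_lit 5) (nat_lit 94) (nat_lit 5) (nat_lit 310) (nat_lit 280) (nat_lit 190))) (XT.nd (nat_lit 78) (nat_lit 304) (nat_lit 0) (XT.lf (nat_lit 0) (nat_lit 2151459942) (nat_lit 380) (nat_lit 3609572964) (nat_lit 76) (nat_lit 20540557155) (nat_lit 88) (nat_lit 5) (nat_lit 93) (nat_lit 5) (nat_lit 89) (nat_lit 5) (nat_lit 311) (nat_lit 280) (nat_lit 189)) (XT.lf (nat_lit 0) (nat_lit 9522200301) (nat_lit 380) (nat_lit 8976106933) (nat_lit 76) (nat_lit 8662183850) (nat_lit 84)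 (nat_lit 5) (nat_lit 89) (nat_lit 5) (nat_lit 85) (nat_lit 5) (nat_lit 312) (nat_lit 280) (nat_lit 188)))))) (XT.nd (nat_lit 546) (nat_lit 1140) (nat_lit 0) (XT.nd (nat_lit 234) (nat_lit 760) (nat_lit 0) (XT.nd (nat_lit 78) (nat_lit 608) (nat_lit 0) (XT.lf (nat_lit 0) (nat_lit 13258911716) (nat_lit 304) (nat_lit 4209183905) (nat_lit 380) (nat_lit 10588055474) (nat_lit 80) (nat_lit 5) (nat_lit 84) (nat_lit 5) (nat_lit 85) (nat_lit 5) (nat_lit 313) (nat_lit 280) (nat_lit 187)) (XT.nd (nat_lit 78) (nat_lit 380) (nat_lit 0) (XT.lf (nat_lit 0) (nat_lit 7824136712) (nat_lit 228) (nat_lit 18243429662) (nat_lit 304) (nat_lit 2921351192) (nat_lit 77) (nat_lit 5) (nat_lit 80) (nat_lit 5) (nat_lit 81) (nat_lit 5) (nat_lit 314) (nat_lit 280) (nat_lit 186)) (XT.lf (nat_lit 0) (nat_lit 1841743398) (nat_lit 304) (nat_lit 3385259238) (nat_lit 380) (nat_lit 24733899901) (nat_lit 72) (nat_lit 5) (nat_lit 76)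 (nat_lit 5) (nat_lit 77) (nat_lit 5) (nat_lit 315) (nat_lit 280) (nat_lit 185)))) (XT.nd (nat_lit 156) (nat_lit 532) (nat_lit 0) (XT.nd (nat_lit 78) (nat_lit 228) (nat_lit 0) (XT.lf (nat_lit 0) (nat_lit 14045206855) (nat_lit 380) (nat_lit 4705831221) (nat_lit 76) (nat_lit 12219905891) (nat_lit 72) (nat_lit 5) (nat_lit 77) (nat_lit 5) (nat_lit 73) (nat_lit 5) (nat_lit 316) (nat_lit 280) (nat_lit 184)) (XT.lf (nat_lit 0) (nat_lit 20216892392) (nat_lit 228) (nat_lit 3301489752) (nat_lit 304) (nat_lit 8506693464) (nat_lit 69) (nat_lit 5) (nat_lit 72) (nat_lit 5) (nat_lit 73) (nat_lit 5) (nat_lit 317) (nat_lit 280) (nat_lit 183))) (XT.nd (nat_lit 78) (nat_lit 228) (nat_lit 0) (XT.lf (nat_lit 0) (nat_lit 618228784) (nat_lit 304) (nat_lit 19658867970) (nat_lit 76) (nat_lit 12845987261) (nat_lit 65) (nat_lit 5) (nat_lit 69) (nat_lit 5) (nat_lit 66) (nat_lit 5) (nat_lit 318) (nat_lit 280) (nat_lit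 182)) (XT.lf (nat_lit 0) (nat_lit 5949334280) (nat_lit 228) (nat_lit 4275336026) (nat_lit 304) (nat_lit 24042768430) (nat_lit 62) (nat_lit 5) (nat_lit 65) (nat_lit 5) (nat_lit 66) (nat_lit 5) (nat_lit 319) (nat_lit 280) (nat_lit 181))))) (XT.nd (nat_lit 234) (nat_lit 684) (nat_lit 0) (XT.nd (nat_lit 78) (nat_lit 456) (nat_lit 0) (XT.lf (nat_lit 0) (nat_lit 20622907496) (nat_lit 304) (nat_lit 2357349036) (nat_lit 76) (nat_lit 12479418810) (nat_lit 62) (nat_lit 5) (nat_lit 66) (nat_lit 5) (nat_lit 63) (nat_lit 5) (nat_lit 320) (nat_lit 280) (nat_lit 180)) (XT.nd (nat_lit 78) (nat_lit 228) (nat_lit 0) (XT.lf (nat_lit 0) (nat_lit 25332863804) (nat_lit 228) (nat_lit 6482180409) (nat_lit 304) (nat_lit 4888267892) (nat_lit 59) (nat_lit 5) (nat_lit 62) (nat_lit 5) (nat_lit 63) (nat_lit 5) (nat_lit 321) (nat_lit 280) (nat_lit 179)) (XT.lf (nat_lit 0) (nat_lit 5728369445) (nat_lit 228) (nat_lit 21407624752)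 (nat_lit 76) (nat_lit 10863166292) (nat_lit 56) (nat_lit 5) (nat_lit 59) (nat_lit 5) (nat_lit 57) (nat_lit 5) (nat_lit 322) (nat_lit 280) (nat_lit 178)))) (XT.nd (nat_lit 156) (nat_lit 456) (nat_lit 0) (XT.nd (nat_lit 78) (nat_lit 0) (nat_lit 0) (XT.lf (nat_lit 0) (nat_lit 6831120686) (nat_lit 228) (nat_lit 10181812608) (nat_lit 304) (nat_lit 22338277299) (nat_lit 53) (nat_lit 5) (nat_lit 56) (nat_lit 5) (nat_lit 57) (nat_lit 5) (nat_lit 323) (nat_lit 280) (nat_lit 177)) (XT.lf (nat_lit 0) (nat_lit 29145808944) (nat_lit 304) (nat_lit 3929455436) (nat_lit 76) (nat_lit 7687082989) (nat_lit 53) (nat_lit 5) (nat_lit 57) (nat_lit 5) (nat_lit 54) (nat_lit 5) (nat_lit 324) (nat_lit 280) (nat_lit 176))) (XT.nd (nat_lit 78) (nat_lit 304) (nat_lit 0) (XT.lf (nat_lit 0) (nat_lit 26486764537) (nat_lit 152) (nat_lit 15744776648) (nat_lit 228) (nat_lit 2119770) (nat_lit 51) (nat_lit 5) (nat_lit 53) (nat_lit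 5) (nat_lit 54) (nat_lit 5) (nat_lit 325) (nat_lit 280) (nat_lit 175)) (XT.lf (nat_lit 0) (nat_lit 12154588692) (nat_lit 304) (nat_lit 28912655256) (nat_lit 76) (nat_lit 2701800989) (nat_lit 47) (nat_lit 5) (nat_lit 51) (nat_lit 5) (nat_lit 48) (nat_lit 5) (nat_lit 326) (nat_lit 280) (nat_lit 174))))))))
noncomputable def xc84 : XT := (XT.nd (nat_lit 2106) (nat_lit 304) (nat_lit 0) (XT.nd (nat_lit 1014) (nat_lit 988) (nat_lit 0) (XT.nd (nat_lit 468) (nat_lit 684) (nat_lit 0) (XT.nd (nat_lit 234) (nat_lit 304) (nat_lit 0) (XT.nd (nat_lit 78) (nat_lit 228) (nat_lit 0) (XT.lf (nat_lit 0) (nat_lit 1799657564) (nat_lit 152) (nat_lit 23448730670) (nat_lit 228) (nat_lit 20122935868) (nat_lit 45) (nat_lit 5) (nat_lit 47) (nat_lit 5) (nat_lit 48) (nat_lit 5) (nat_lit 327) (nat_lit 280) (nat_lit 173)) (XT.nd (nat_lit 78) (nat_lit 228) (nat_lit 0) (XT.lf (nat_lit 0) (nat_lit 34634789899) (nat_lit 152)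 (nat_lit 4649439113) (nat_lit 228) (nat_lit 7760873005) (nat_lit 45) (nat_lit 5) (nat_lit 47) (nat_lit 5) (nat_lit 48) (nat_lit 5) (nat_lit 328) (nat_lit 280) (nat_lit 172)) (XT.lf (nat_lit 0) (nat_lit 5453462680) (nat_lit 228) (nat_lit 28297436437) (nat_lit 76) (nat_lit 15040089002) (nat_lit 42) (nat_lit 5) (nat_lit 45) (nat_lit 5) (nat_lit 43) (nat_lit 5) (nat_lit 329) (nat_lit 280) (nat_lit 171)))) (XT.nd (nat_lit 78) (nat_lit 152) (nat_lit 0) (XT.lf (nat_lit 0) (nat_lit 4629280490) (nat_lit 152) (nat_lit 14751031181) (nat_lit 228) (nat_lit 31235187243) (nat_lit 40) (nat_lit 5) (nat_lit 42) (nat_lit 5) (nat_lit 43) (nat_lit 5) (nat_lit 330) (nat_lit 280) (nat_lit 170)) (XT.nd (nat_lit 78) (nat_lit 152) (nat_lit 0) (XT.lf (nat_lit 0) (nat_lit 34338271488) (nat_lit 228) (nat_lit 12797588936) (nat_lit 76) (nat_lit 5385336243) (nat_lit 40) (nat_lit 5) (nat_lit 43) (nat_lit 5) (nat_lit 41)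 (nat_lit 5) (nat_lit 331) (nat_lit 280) (nat_lit 169)) (XT.lf (nat_lit 0) (nat_lit 22322025998) (nat_lit 152) (nat_lit 28076621780) (nat_lit 228) (nat_lit 4112900235) (nat_lit 38) (nat_lit 5) (nat_lit 40) (nat_lit 5) (nat_lit 41) (nat_lit 5) (nat_lit 332) (nat_lit 280) (nat_lit 168))))) (XT.nd (nat_lit 234) (nat_lit 304) (nat_lit 0) (XT.nd (nat_lit 78) (nat_lit 152) (nat_lit 0) (XT.lf (nat_lit 0) (nat_lit 2803629687) (nat_lit 152) (nat_lit 7800217936) (nat_lit 228) (nat_lit 45989961478) (nat_lit 35) (nat_lit 5) (nat_lit 37) (nat_lit 5) (nat_lit 38) (nat_lit 5) (nat_lit 333) (nat_lit 280) (nat_lit 167)) (XT.nd (nat_lit 78) (nat_lit 152) (nat_lit 0) (XT.lf (nat_lit 0) (nat_lit 26427954521) (nat_lit 228) (nat_lit 18740265341) (nat_lit 76) (nat_lit 13597047997) (nat_lit 35) (nat_lit 5) (nat_lit 38) (nat_lit 5) (nat_lit 36) (nat_lit 5) (nat_lit 334) (nat_lit 280) (nat_lit 166)) (XT.lf (nat_lit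 0) (nat_lit 18327079634) (nat_lit 152) (nat_lit 24962967987) (nat_lit 228) (nat_lit 17747852080) (nat_lit 33) (nat_lit 5) (nat_lit 35) (nat_lit 5) (nat_lit 36) (nat_lit 5) (nat_lit 335) (nat_lit 280) (nat_lit 165)))) (XT.nd (nat_lit 156) (nat_lit 152) (nat_lit 0) (XT.nd (nat_lit 78) (nat_lit 152) (nat_lit 0) (XT.lf (nat_lit 0) (nat_lit 57625845876) (nat_lit 152) (nat_lit 3554450548) (nat_lit 228) (nat_lit 2238318580) (nat_lit 33) (nat_lit 5) (nat_lit 35) (nat_lit 5) (nat_lit 36) (nat_lit 5) (nat_lit 336) (nat_lit 280) (nat_lit 164)) (XT.lf (nat_lit 0) (nat_lit 14273202577) (nat_lit 152) (nat_lit 32614942987) (nat_lit 76) (nat_lit 19011154515) (nat_lit 31) (nat_lit 5) (nat_lit 33) (nat_lit 5) (nat_lit 32) (nat_lit 5) (nat_lit 337) (nat_lit 280) (nat_lit 163))) (XT.nd (nat_lit 78) (nat_lit 0) (nat_lit 0) (XT.lf (nat_lit 0) (nat_lit 5978905860) (nat_lit 152) (nat_lit 25731723424) (nat_lit 228)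 (nat_lit 36788329632) (nat_lit 29) (nat_lit 5) (nat_lit 31) (nat_lit 5) (nat_lit 32) (nat_lit 5) (nat_lit 338) (nat_lit 280) (nat_lit 162)) (XT.lf (nat_lit 0) (nat_lit 47171505466) (nat_lit 152) (nat_lit 3177015536) (nat_lit 228) (nat_lit 20870224733) (nat_lit 29) (nat_lit 5) (nat_lit 31) (nat_lit 5) (nat_lit 32) (nat_lit 5) (nat_lit 339) (nat_lit 280) (nat_lit 161)))))) (XT.nd (nat_lit 546) (nat_lit 380) (nat_lit 0) (XT.nd (nat_lit 234) (nat_lit 304) (nat_lit 0) (XT.nd (nat_lit 78) (nat_lit 228) (nat_lit 0) (XT.lf (nat_lit 0) (nat_lit 16461260012) (nat_lit 76) (nat_lit 53805536751) (nat_lit 152) (nat_lit 3797273166) (nat_lit 28) (nat_lit 5) (nat_lit 29) (nat_lit 5) (nat_lit 30) (nat_lit 4) (nat_lit 340) (nat_lit 280) (nat_lit 160)) (XT.nd (nat_lit 78) (nat_lit 152) (nat_lit 0) (XT.lf (nat_lit 0) (nat_lit 14128963025) (nat_lit 152) (nat_lit 17728720390) (nat_lit 76) (nat_lit 45181644306)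 (nat_lit 27) (nat_lit 5) (nat_lit 29) (nat_lit 5) (nat_lit 28) (nat_lit 5) (nat_lit 341) (nat_lit 280) (nat_lit 159)) (XT.lf (nat_lit 0) (nat_lit 24568887389) (nat_lit 152) (nat_lit 8534599639) (nat_lit 228) (nat_lit 47051820580) (nat_lit 25) (nat_lit 5) (nat_lit 27) (nat_lit 5) (nat_lit 28) (nat_lit 5) (nat_lit 342) (nat_lit 280) (nat_lit 158)))) (XT.nd (nat_lit 156) (nat_lit 228) (nat_lit 0) (XT.nd (nat_lit 78) (nat_lit 76) (nat_lit 0) (XT.lf (nat_lit 0) (nat_lit 53358172808) (nat_lit 228) (nat_lit 14236036042) (nat_lit 76) (nat_lit 15822936850) (nat_lit 25) (nat_lit 5) (nat_lit 28) (nat_lit 5) (nat_lit 26) (nat_lit 4) (nat_lit 343) (nat_lit 280) (nat_lit 157)) (XT.lf (nat_lit 0) (nat_lit 29664000309) (nat_lit 76) (nat_lit 45326941299) (nat_lit 152) (nat_lit 11840175798) (nat_lit 24) (nat_lit 5) (nat_lit 25) (nat_lit 5) (nat_lit 26) (nat_lit 4) (nat_lit 344) (nat_lit 280) (nat_lit 156)))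 (XT.nd (nat_lit 78) (nat_lit 152) (nat_lit 0) (XT.lf (nat_lit 0) (nat_lit 7289497528) (nat_lit 152) (nat_lit 14436775526) (nat_lit 76) (nat_lit 68683149038) (nat_lit 23) (nat_lit 5) (nat_lit 25) (nat_lit 5) (nat_lit 24) (nat_lit 5) (nat_lit 345) (nat_lit 280) (nat_lit 155)) (XT.lf (nat_lit 0) (nat_lit 27458027492) (nat_lit 228) (nat_lit 63284032770) (nat_lit 76) (nat_lit 3411249398) (nat_lit 21) (nat_lit 5) (nat_lit 24) (nat_lit 5) (nat_lit 22) (nat_lit 4) (nat_lit 346) (nat_lit 280) (nat_lit 154))))) (XT.nd (nat_lit 234) (nat_lit 304) (nat_lit 0) (XT.nd (nat_lit 78) (nat_lit 76) (nat_lit 0) (XT.lf (nat_lit 0) (nat_lit 48998948908) (nat_lit 228) (nat_lit 19568109959) (nat_lit 76) (nat_lit 29506415610) (nat_lit 21) (nat_lit 5) (nat_lit 24) (nat_lit 5) (nat_lit 22) (nat_lit 4) (nat_lit 347) (nat_lit 280) (nat_lit 153)) (XT.nd (nat_lit 78) (nat_lit 0) (nat_lit 0) (XT.lf (nat_lit 0) (nat_lit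 26848243615) (nat_lit 76) (nat_lit 45021603213) (nat_lit 152) (nat_lit 30312214528) (nat_lit 20) (nat_lit 5) (nat_lit 21) (nat_lit 5) (nat_lit 22) (nat_lit 4) (nat_lit 348) (nat_lit 280) (nat_lit 152)) (XT.lf (nat_lit 0) (nat_lit 75985325260) (nat_lit 76) (nat_lit 20095408235) (nat_lit 152) (nat_lit 10409452419) (nat_lit 20) (nat_lit 5) (nat_lit 21) (nat_lit 5) (nat_lit 22) (nat_lit 4) (nat_lit 349) (nat_lit 280) (nat_lit 151)))) (XT.nd (nat_lit 156) (nat_lit 76) (nat_lit 0) (XT.nd (nat_lit 78) (nat_lit 0) (nat_lit 0) (XT.lf (nat_lit 0) (nat_lit 10501285923) (nat_lit 228) (nat_lit 94283416124) (nat_lit 76) (nat_lit 6219466372) (nat_lit 17) (nat_lit 5) (nat_lit 20) (nat_lit 5) (nat_lit 18) (nat_lit 4) (nat_lit 350) (nat_lit 280) (nat_lit 150)) (XT.lf (nat_lit 0) (nat_lit 32759544602) (nat_lit 228) (nat_lit 49108853833) (nat_lit 76) (nat_lit 33856843145) (nat_lit 17) (nat_lit 5) (nat_lit 20)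 (nat_lit 5) (nat_lit 18) (nat_lit 4) (nat_lit 351) (nat_lit 280) (nat_lit 149))) (XT.nd (nat_lit 78) (nat_lit 76) (nat_lit 0) (XT.lf (nat_lit 0) (nat_lit 56126247701) (nat_lit 228) (nat_lit 1683687331) (nat_lit 76) (nat_lit 62872568807) (nat_lit 17) (nat_lit 5) (nat_lit 20) (nat_lit 5) (nat_lit 18) (nat_lit 4) (nat_lit 352) (nat_lit 280) (nat_lit 148)) (XT.lf (nat_lit 0) (nat_lit 49062384278) (nat_lit 76) (nat_lit 32066263600) (nat_lit 152) (nat_lit 44744961793) (nat_lit 16) (nat_lit 5) (nat_lit 17) (nat_lit 5) (nat_lit 18) (nat_lit 4) (nat_lit 353) (nat_lit 280) (nat_lit 147))))))) (XT.nd (nat_lit 35490) (nat_lit 0) (nat_lit 9348) (XT.nd (nat_lit 34944) (nat_lit 0) (nat_lit 14136) (XT.nd (nat_lit 234) (nat_lit 152) (nat_lit 0) (XT.nd (nat_lit 78) (nat_lit 152) (nat_lit 0) (XT.lf (nat_lit 0) (nat_lit 102373428312) (nat_lit 76) (nat_lit 5020946513) (nat_lit 152) (nat_lit 23929501023) (nat_lit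 16) (nat_lit 5) (nat_lit 17) (nat_lit 5) (nat_lit 18) (nat_lit 4) (nat_lit 354) (nat_lit 280) (nat_lit 146)) (XT.nd (nat_lit 78) (nat_lit 76) (nat_lit 0) (XT.lf (nat_lit 0) (nat_lit 21490775696) (nat_lit 76) (nat_lit 113909945529) (nat_lit 76) (nat_lit 1633115311) (nat_lit 15) (nat_lit 4) (nat_lit 16) (nat_lit 5) (nat_lit 16) (nat_lit 4) (nat_lit 355) (nat_lit 280) (nat_lit 145)) (XT.lf (nat_lit 0) (nat_lit 21700890226) (nat_lit 152) (nat_lit 68231404047) (nat_lit 76) (nat_lit 53080288677) (nat_lit 14) (nat_lit 5) (nat_lit 16) (nat_lit 5) (nat_lit 15) (nat_lit 4) (nat_lit 356) (nat_lit 280) (nat_lit 144)))) (XT.nd (nat_lit 156) (nat_lit 76) (nat_lit 0) (XT.nd (nat_lit 78) (nat_lit 76) (nat_lit 0) (XT.lf (nat_lit 0) (nat_lit 46164441237) (nat_lit 152) (nat_lit 18577425009) (nat_lit 76) (nat_lit 84548017791) (nat_lit 14) (nat_lit 5) (nat_lit 16) (nat_lit 5) (nat_lit 15) (nat_lit 4) (nat_lit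 357) (nat_lit 280) (nat_lit 143)) (XT.lf (nat_lit 0) (nat_lit 34220565014) (nat_lit 76) (nat_lit 37956036222) (nat_lit 152) (nat_lit 83694687003) (nat_lit 13) (nat_lit 5) (nat_lit 14) (nat_lit 5) (nat_lit 15) (nat_lit 4) (nat_lit 358) (nat_lit 280) (nat_lit 142))) (XT.nd (nat_lit 156) (nat_lit 76) (nat_lit 0) (XT.lf (nat_lit 0) (nat_lit 90040398654) (nat_lit 76) (nat_lit 9636798453) (nat_lit 152) (nat_lit 63098931664) (nat_lit 13) (nat_lit 5) (nat_lit 14) (nat_lit 5) (nat_lit 15) (nat_lit 4) (nat_lit 359) (nat_lit 280) (nat_lit 141)) (XT.lf (nat_lit 0) (nat_lit 32680031400) (nat_lit 76) (nat_lit 126989831357) (nat_lit 76) (nat_lit 17945008997) (nat_lit 12) (nat_lit 4) (nat_lit 13) (nat_lit 5) (nat_lit 13) (nat_lit 4) (nat_lit 361) (nat_lit 280) (nat_lit 139))))) (XT.nd (nat_lit 234) (nat_lit 912) (nat_lit 0) (XT.nd (nat_lit 78) (nat_lit 0) (nat_lit 0) (XT.lf (nat_lit 0) (nat_lit 3697091583)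 (nat_lit 1140) (nat_lit 1083501320) (nat_lit 1140) (nat_lit 1083501320) (nat_lit 210) (nat_lit 3) (nat_lit 225) (nat_lit 3) (nat_lit 225) (nat_lit 5) (nat_lit 281) (nat_lit 281) (nat_lit 218)) (XT.nd (nat_lit 78) (nat_lit 0) (nat_lit 76) (XT.lf (nat_lit 76) (nat_lit 6866269152) (nat_lit 0) (nat_lit 1553898455) (nat_lit 1140) (nat_lit 3575033923) (nat_lit 211) (nat_lit 5) (nat_lit 210) (nat_lit 3) (nat_lit 225) (nat_lit 5) (nat_lit 282) (nat_lit 281) (nat_lit 217)) (XT.lf (nat_lit 76) (nat_lit 4107767568) (nat_lit 0) (nat_lit 5467940701) (nat_lit 1140) (nat_lit 2697570595) (nat_lit 212) (nat_lit 5) (nat_lit 211) (nat_lit 5) (nat_lit 226) (nat_lit 5) (nat_lit 283) (nat_lit 281) (nat_lit 216)))) (XT.nd (nat_lit 156) (nat_lit 1064) (nat_lit 0) (XT.nd (nat_lit 78) (nat_lit 0) (nat_lit 0) (XT.lf (nat_lit 76) (nat_lit 1301692069) (nat_lit 0) (nat_lit 9550058169) (nat_lit 1140) (nat_lit 1711686487)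 (nat_lit 213) (nat_lit 5) (nat_lit 212) (nat_lit 5) (nat_lit 227) (nat_lit 5) (nat_lit 284) (nat_lit 281) (nat_lit 215)) (XT.lf (nat_lit 76) (nat_lit 11328666680) (nat_lit 0) (nat_lit 956278338) (nat_lit 1140) (nat_lit 580412546) (nat_lit 213) (nat_lit 5) (nat_lit 212) (nat_lit 5) (nat_lit 227) (nat_lit 5) (nat_lit 285) (nat_lit 281) (nat_lit 214))) (XT.nd (nat_lit 78) (nat_lit 0) (nat_lit 76) (XT.lf (nat_lit 0) (nat_lit 715214698) (nat_lit 1140) (nat_lit 4446390290) (nat_lit 1216) (nat_lit 8017056425) (nat_lit 198) (nat_lit 5) (nat_lit 213) (nat_lit 5) (nat_lit 214) (nat_lit 5) (nat_lit 286) (nat_lit 281) (nat_lit 213)) (XT.lf (nat_lit 0) (nat_lit 2144968468) (nat_lit 1140) (nat_lit 7429645248) (nat_lit 1216) (nat_lit 3930452838) (nat_lit 199) (nat_lit 5) (nat_lit 214) (nat_lit 5) (nat_lit 215) (nat_lit 5) (nat_lit 287) (nat_lit 281) (nat_lit 212)))))) (XT.nd (nat_lit 546) (nat_lit 2584)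 (nat_lit 0) (XT.nd (nat_lit 234) (nat_lit 2280) (nat_lit 0) (XT.nd (nat_lit 78) (nat_lit 0) (nat_lit 76) (XT.lf (nat_lit 76) (nat_lit 3353971899) (nat_lit 0) (nat_lit 382938517) (nat_lit 1216) (nat_lit 10108207158) (nat_lit 200) (nat_lit 5) (nat_lit 199) (nat_lit 5) (nat_lit 215) (nat_lit 5) (nat_lit 288) (nat_lit 281) (nat_lit 211)) (XT.nd (nat_lit 78) (nat_lit 0) (nat_lit 76) (XT.lf (nat_lit 76) (nat_lit 523299098) (nat_lit 0) (nat_lit 5018379054) (nat_lit 1216) (nat_lit 8656540549) (nat_lit 201) (nat_lit 5) (nat_lit 200) (nat_lit 5) (nat_lit 216) (nat_lit 5) (nat_lit 289) (nat_lit 281) (nat_lit 210)) (XT.lf (nat_lit 0) (nat_lit 7557707757) (nat_lit 1140) (nat_lit 2337167192) (nat_lit 1216) (nat_lit 4670511528) (nat_lit 201) (nat_lit 5) (nat_lit 216) (nat_lit 5) (nat_lit 217) (nat_lit 5) (nat_lit 290) (nat_lit 281) (nat_lit 209)))) (XT.nd (nat_lit 156) (nat_lit 1368) (nat_lit 0) (XT.nd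 (nat_lit 78) (nat_lit 1064) (nat_lit 0) (XT.lf (nat_lit 76) (nat_lit 9677477998) (nat_lit 0) (nat_lit 105965856) (nat_lit 1216) (nat_lit 5164241927) (nat_lit 202) (nat_lit 5) (nat_lit 201) (nat_lit 5) (nat_lit 217) (nat_lit 5) (nat_lit 291) (nat_lit 281) (nat_lit 208)) (XT.lf (nat_lit 0) (nat_lit 7003483748) (nat_lit 1140) (nat_lit 5273063101) (nat_lit 1216) (nat_lit 3067909164) (nat_lit 187) (nat_lit 5) (nat_lit 202) (nat_lit 5) (nat_lit 203) (nat_lit 5) (nat_lit 292) (nat_lit 281) (nat_lit 207))) (XT.nd (nat_lit 78) (nat_lit 684) (nat_lit 0) (XT.lf (nat_lit 0) (nat_lit 4246108707) (nat_lit 684) (nat_lit 10760910558) (nat_lit 760) (nat_lit 750700607) (nat_lit 178) (nat_lit 5) (nat_lit 187) (nat_lit 5) (nat_lit 188) (nat_lit 5) (nat_lit 293) (nat_lit 281) (nat_lit 206)) (XT.lf (nat_lit 0) (nat_lit 1375851708) (nat_lit 608) (nat_lit 395804767) (nat_lit 684) (nat_lit 14415875561) (nat_lit 169)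 (nat_lit 5) (nat_lit 177) (nat_lit 5) (nat_lit 178) (nat_lit 5) (nat_lit 294) (nat_lit 281) (nat_lit 205))))) (XT.nd (nat_lit 234) (nat_lit 1520) (nat_lit 0) (XT.nd (nat_lit 78) (nat_lit 1064) (nat_lit 0) (XT.lf (nat_lit 0) (nat_lit 4595426656) (nat_lit 684) (nat_lit 1625252363) (nat_lit 76) (nat_lit 10412240359) (nat_lit 169) (nat_lit 5) (nat_lit 178) (nat_lit 5) (nat_lit 170) (nat_lit 5) (nat_lit 295) (nat_lit 281) (nat_lit 204)) (XT.nd (nat_lit 78) (nat_lit 532) (nat_lit 0) (XT.lf (nat_lit 0) (nat_lit 7701403349) (nat_lit 608) (nat_lit 4711866634) (nat_lit 76) (nat_lit 4683106213) (nat_lit 162) (nat_lit 5) (nat_lit 170) (nat_lit 5) (nat_lit 163) (nat_lit 5) (nat_lit 296) (nat_lit 281) (nat_lit 203)) (XT.lf (nat_lit 0) (nat_lit 9644092397) (nat_lit 532) (nat_lit 1463687301) (nat_lit 608) (nat_lit 6470902317) (nat_lit 155) (nat_lit 5) (nat_lit 162) (nat_lit 5) (nat_lit 163) (nat_lit 5) (nat_lit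 297) (nat_lit 281) (nat_lit 202)))) (XT.nd (nat_lit 156) (nat_lit 456) (nat_lit 0) (XT.nd (nat_lit 78) (nat_lit 608) (nat_lit 0) (XT.lf (nat_lit 0) (nat_lit 6739865209) (nat_lit 456) (nat_lit 8128582586) (nat_lit 532) (nat_lit 3211163940) (nat_lit 149) (nat_lit 5) (nat_lit 155) (nat_lit 5) (nat_lit 156) (nat_lit 5) (nat_lit 298) (nat_lit 281) (nat_lit 201)) (XT.lf (nat_lit 0) (nat_lit 348018849) (nat_lit 608) (nat_lit 14896316099) (nat_lit 76) (nat_lit 3357000110) (nat_lit 141) (nat_lit 5) (nat_lit 149) (nat_lit 5) (nat_lit 142) (nat_lit 5) (nat_lit 299) (nat_lit 281) (nat_lit 200))) (XT.nd (nat_lit 78) (nat_lit 0) (nat_lit 0) (XT.lf (nat_lit 0) (nat_lit 459598357) (nat_lit 456) (nat_lit 3739534702) (nat_lit 532) (nat_lit 14943670633) (nat_lit 135) (nat_lit 5) (nat_lit 141) (nat_lit 5) (nat_lit 142) (nat_lit 5) (nat_lit 300) (nat_lit 281) (nat_lit 199)) (XT.lf (nat_lit 0) (nat_lit 8454148221)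 (nat_lit 532) (nat_lit 2920877645) (nat_lit 76) (nat_lit 8330002846) (nat_lit 135) (nat_lit 5) (nat_lit 142) (nat_lit 5) (nat_lit 136) (nat_lit 5) (nat_lit 301) (nat_lit 281) (nat_lit 198))))))))
noncomputable def xc85 : XT := (XT.nd (nat_lit 2184) (nat_lit 2356) (nat_lit 0) (XT.nd (nat_lit 1092) (nat_lit 2432) (nat_lit 0) (XT.nd (nat_lit 546) (nat_lit 1900) (nat_lit 0) (XT.nd (nat_lit 234) (nat_lit 1140) (nat_lit 0) (XT.nd (nat_lit 78) (nat_lit 912) (nat_lit 0) (XT.lf (nat_lit 0) (nat_lit 13077458507) (nat_lit 532) (nat_lit 6462241006) (nat_lit 76) (nat_lit 751021343) (nat_lit 129) (nat_lit 5) (nat_lit 136) (nat_lit 5) (nat_lit 130) (nat_lit 5) (nat_lit 302) (nat_lit 281) (nat_lit 197)) (XT.nd (nat_lit 78) (nat_lit 532) (nat_lit 0) (XT.lf (nat_lit 0) (nat_lit 10638378401) (nat_lit 380) (nat_lit 7519234091) (nat_lit 456) (nat_lit 2741335915) (nat_lit 124) (nat_lit 5) (nat_lit 129) (nat_lit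 5) (nat_lit 130) (nat_lit 5) (nat_lit 303) (nat_lit 281) (nat_lit 196)) (XT.lf (nat_lit 0) (nat_lit 2082679906) (nat_lit 532) (nat_lit 14293163363) (nat_lit 76) (nat_lit 5156201284) (nat_lit 117) (nat_lit 5) (nat_lit 124) (nat_lit 5) (nat_lit 118) (nat_lit 5) (nat_lit 304) (nat_lit 281) (nat_lit 195)))) (XT.nd (nat_lit 156) (nat_lit 760) (nat_lit 0) (XT.nd (nat_lit 78) (nat_lit 0) (nat_lit 0) (XT.lf (nat_lit 0) (nat_lit 3574004168) (nat_lit 380) (nat_lit 3714182960) (nat_lit 456) (nat_lit 14901903170) (nat_lit 112) (nat_lit 5) (nat_lit 117) (nat_lit 5) (nat_lit 118) (nat_lit 5) (nat_lit 305) (nat_lit 281) (nat_lit 194)) (XT.lf (nat_lit 0) (nat_lit 12974889387) (nat_lit 456) (nat_lit 362023720) (nat_lit 76) (nat_lit 9537515370) (nat_lit 112) (nat_lit 5) (nat_lit 118) (nat_lit 5) (nat_lit 113) (nat_lit 5) (nat_lit 306) (nat_lit 281) (nat_lit 193))) (XT.nd (nat_lit 78) (nat_lit 380) (nat_lit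 0) (XT.lf (nat_lit 0) (nat_lit 19116413642) (nat_lit 380) (nat_lit 31934376) (nat_lit 456) (nat_lit 4438579796) (nat_lit 107) (nat_lit 5) (nat_lit 112) (nat_lit 5) (nat_lit 113) (nat_lit 5) (nat_lit 307) (nat_lit 281) (nat_lit 192)) (XT.lf (nat_lit 0) (nat_lit 1540206880) (nat_lit 380) (nat_lit 8958271344) (nat_lit 76) (nat_lit 13828114202) (nat_lit 102) (nat_lit 5) (nat_lit 107) (nat_lit 5) (nat_lit 103) (nat_lit 5) (nat_lit 308) (nat_lit 281) (nat_lit 191))))) (XT.nd (nat_lit 234) (nat_lit 912) (nat_lit 0) (XT.nd (nat_lit 78) (nat_lit 608) (nat_lit 0) (XT.lf (nat_lit 0) (nat_lit 7898512244) (nat_lit 456) (nat_lit 13788162606) (nat_lit 76) (nat_lit 3410090622) (nat_lit 97) (nat_lit 5) (nat_lit 103) (nat_lit 5) (nat_lit 98) (nat_lit 5) (nat_lit 309) (nat_lit 281) (nat_lit 190)) (XT.nd (nat_lit 78) (nat_lit 304) (nat_lit 0) (XT.lf (nat_lit 0) (nat_lit 6877479009) (nat_lit 304) (nat_lit 7945287606)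 (nat_lit 380) (nat_lit 11075253707) (nat_lit 93) (nat_lit 5) (nat_lit 97) (nat_lit 5) (nat_lit 98) (nat_lit 5) (nat_lit 310) (nat_lit 281) (nat_lit 189)) (XT.lf (nat_lit 0) (nat_lit 2083405275) (nat_lit 304) (nat_lit 20218890731) (nat_lit 380) (nat_lit 4430783532) (nat_lit 89) (nat_lit 5) (nat_lit 93) (nat_lit 5) (nat_lit 94) (nat_lit 5) (nat_lit 311) (nat_lit 281) (nat_lit 188)))) (XT.nd (nat_lit 156) (nat_lit 532) (nat_lit 0) (XT.nd (nat_lit 78) (nat_lit 304) (nat_lit 0) (XT.lf (nat_lit 0) (nat_lit 2757940858) (nat_lit 380) (nat_lit 3093255859) (nat_lit 76) (nat_lit 21750121966) (nat_lit 88) (nat_lit 5) (nat_lit 93) (nat_lit 5) (nat_lit 89) (nat_lit 5) (nat_lit 312) (nat_lit 281) (nat_lit 187)) (XT.lf (nat_lit 0) (nat_lit 10481842798) (nat_lit 380) (nat_lit 8735151025) (nat_lit 76) (nat_lit 9286650468) (nat_lit 84) (nat_lit 5) (nat_lit 89) (nat_lit 5) (nat_lit 85) (nat_lit 5) (nat_lit 313)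 (nat_lit 281) (nat_lit 186))) (XT.nd (nat_lit 78) (nat_lit 228) (nat_lit 0) (XT.lf (nat_lit 0) (nat_lit 14591846690) (nat_lit 304) (nat_lit 4216601186) (nat_lit 380) (nat_lit 10636154375) (nat_lit 80) (nat_lit 5) (nat_lit 84) (nat_lit 5) (nat_lit 85) (nat_lit 5) (nat_lit 314) (nat_lit 281) (nat_lit 185)) (XT.lf (nat_lit 0) (nat_lit 8878176884) (nat_lit 228) (nat_lit 18945710070) (nat_lit 304) (nat_lit 2600556818) (nat_lit 77) (nat_lit 5) (nat_lit 80) (nat_lit 5) (nat_lit 81) (nat_lit 5) (nat_lit 315) (nat_lit 281) (nat_lit 184)))))) (XT.nd (nat_lit 546) (nat_lit 1064) (nat_lit 0) (XT.nd (nat_lit 234) (nat_lit 760) (nat_lit 0) (XT.nd (nat_lit 78) (nat_lit 228) (nat_lit 0) (XT.lf (nat_lit 0) (nat_lit 2586825466) (nat_lit 304) (nat_lit 3343758360) (nat_lit 380) (nat_lit 25514790475) (nat_lit 72) (nat_lit 5) (nat_lit 76) (nat_lit 5) (nat_lit 77) (nat_lit 5) (nat_lit 316) (nat_lit 281) (nat_lit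 183)) (XT.nd (nat_lit 78) (nat_lit 228) (nat_lit 0) (XT.lf (nat_lit 0) (nat_lit 15170569150) (nat_lit 380) (nat_lit 4308225383) (nat_lit 76) (nat_lit 13027711737) (nat_lit 72) (nat_lit 5) (nat_lit 77) (nat_lit 5) (nat_lit 73) (nat_lit 5) (nat_lit 317) (nat_lit 281) (nat_lit 182)) (XT.lf (nat_lit 0) (nat_lit 21842492535) (nat_lit 228) (nat_lit 3260672363) (nat_lit 304) (nat_lit 8510620640) (nat_lit 69) (nat_lit 5) (nat_lit 72) (nat_lit 5) (nat_lit 73) (nat_lit 5) (nat_lit 318) (nat_lit 281) (nat_lit 181)))) (XT.nd (nat_lit 156) (nat_lit 228) (nat_lit 0) (XT.nd (nat_lit 78) (nat_lit 228) (nat_lit 0) (XT.lf (nat_lit 0) (nat_lit 1050449140) (nat_lit 304) (nat_lit 20026172001) (nat_lit 76) (nat_lit 13690320811) (nat_lit 65) (nat_lit 5) (nat_lit 69) (nat_lit 5) (nat_lit 66) (nat_lit 5) (nat_lit 319) (nat_lit 281) (nat_lit 180)) (XT.lf (nat_lit 0) (nat_lit 6844793183) (nat_lit 228) (nat_lit 4279057873)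 (nat_lit 304) (nat_lit 24845076441) (nat_lit 62) (nat_lit 5) (nat_lit 65) (nat_lit 5) (nat_lit 66) (nat_lit 5) (nat_lit 320) (nat_lit 281) (nat_lit 179))) (XT.nd (nat_lit 78) (nat_lit 228) (nat_lit 0) (XT.lf (nat_lit 0) (nat_lit 22025449361) (nat_lit 304) (nat_lit 1896305742) (nat_lit 76) (nat_lit 13299529008) (nat_lit 62) (nat_lit 5) (nat_lit 66) (nat_lit 5) (nat_lit 63) (nat_lit 5) (nat_lit 321) (nat_lit 281) (nat_lit 178)) (XT.lf (nat_lit 0) (nat_lit 27161823381) (nat_lit 228) (nat_lit 6603089316) (nat_lit 304) (nat_lit 4762569522) (nat_lit 59) (nat_lit 5) (nat_lit 62) (nat_lit 5) (nat_lit 63) (nat_lit 5) (nat_lit 322) (nat_lit 281) (nat_lit 177))))) (XT.nd (nat_lit 234) (nat_lit 608) (nat_lit 0) (XT.nd (nat_lit 78) (nat_lit 228) (nat_lit 0) (XT.lf (nat_lit 0) (nat_lit 6367663336) (nat_lit 228) (nat_lit 21915797088) (nat_lit 76) (nat_lit 11604866553) (nat_lit 56) (nat_lit 5) (nat_lit 59)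 (nat_lit 5) (nat_lit 57) (nat_lit 5) (nat_lit 323) (nat_lit 281) (nat_lit 176)) (XT.nd (nat_lit 78) (nat_lit 0) (nat_lit 0) (XT.lf (nat_lit 0) (nat_lit 7718770016) (nat_lit 228) (nat_lit 10486131154) (nat_lit 304) (nat_lit 23103434818) (nat_lit 53) (nat_lit 5) (nat_lit 56) (nat_lit 5) (nat_lit 57) (nat_lit 5) (nat_lit 324) (nat_lit 281) (nat_lit 175)) (XT.lf (nat_lit 0) (nat_lit 30930041872) (nat_lit 304) (nat_lit 3597775792) (nat_lit 76) (nat_lit 8262652609) (nat_lit 53) (nat_lit 5) (nat_lit 57) (nat_lit 5) (nat_lit 54) (nat_lit 5) (nat_lit 325) (nat_lit 281) (nat_lit 174)))) (XT.nd (nat_lit 156) (nat_lit 152) (nat_lit 0) (XT.nd (nat_lit 78) (nat_lit 228) (nat_lit 0) (XT.lf (nat_lit 0) (nat_lit 317428456) (nat_lit 228) (nat_lit 16014673772) (nat_lit 76) (nat_lit 28003481935) (nat_lit 50) (nat_lit 5) (nat_lit 53) (nat_lit 5) (nat_lit 51) (nat_lit 5) (nat_lit 326) (nat_lit 281) (nat_lit 173))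 (XT.lf (nat_lit 0) (nat_lit 13073438798) (nat_lit 304) (nat_lit 29846071815) (nat_lit 76) (nat_lit 3028488992) (nat_lit 47) (nat_lit 5) (nat_lit 51) (nat_lit 5) (nat_lit 48) (nat_lit 5) (nat_lit 327) (nat_lit 281) (nat_lit 172))) (XT.nd (nat_lit 78) (nat_lit 0) (nat_lit 0) (XT.lf (nat_lit 0) (nat_lit 2387174072) (nat_lit 152) (nat_lit 24424721572) (nat_lit 228) (nat_lit 20818805870) (nat_lit 45) (nat_lit 5) (nat_lit 47) (nat_lit 5) (nat_lit 48) (nat_lit 5) (nat_lit 328) (nat_lit 281) (nat_lit 171)) (XT.lf (nat_lit 0) (nat_lit 36840370946) (nat_lit 152) (nat_lit 4694819991) (nat_lit 228) (nat_lit 7853414949) (nat_lit 45) (nat_lit 5) (nat_lit 47) (nat_lit 5) (nat_lit 48) (nat_lit 5) (nat_lit 329) (nat_lit 281) (nat_lit 170))))))) (XT.nd (nat_lit 1092) (nat_lit 836) (nat_lit 0) (XT.nd (nat_lit 546) (nat_lit 608) (nat_lit 0) (XT.nd (nat_lit 234) (nat_lit 532) (nat_lit 0) (XT.nd (nat_lit 78) (nat_lit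 152) (nat_lit 0) (XT.lf (nat_lit 0) (nat_lit 6008337703) (nat_lit 228) (nat_lit 29239541902) (nat_lit 76) (nat_lit 15974054354) (nat_lit 42) (nat_lit 5) (nat_lit 45) (nat_lit 5) (nat_lit 43) (nat_lit 5) (nat_lit 330) (nat_lit 281) (nat_lit 169)) (XT.nd (nat_lit 78) (nat_lit 0) (nat_lit 0) (XT.lf (nat_lit 0) (nat_lit 5319959119) (nat_lit 152) (nat_lit 15302546092) (nat_lit 228) (nat_lit 32515442349) (nat_lit 40) (nat_lit 5) (nat_lit 42) (nat_lit 5) (nat_lit 43) (nat_lit 5) (nat_lit 331) (nat_lit 281) (nat_lit 168)) (XT.lf (nat_lit 0) (nat_lit 36317057685) (nat_lit 228) (nat_lit 12993894472) (nat_lit 76) (nat_lit 5828323439) (nat_lit 40) (nat_lit 5) (nat_lit 43) (nat_lit 5) (nat_lit 41) (nat_lit 5) (nat_lit 332) (nat_lit 281) (nat_lit 167)))) (XT.nd (nat_lit 156) (nat_lit 152) (nat_lit 0) (XT.nd (nat_lit 78) (nat_lit 228) (nat_lit 0) (XT.lf (nat_lit 0) (nat_lit 23868986251) (nat_lit 152) (nat_lit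 29303138093) (nat_lit 228) (nat_lit 4057275957) (nat_lit 38) (nat_lit 5) (nat_lit 40) (nat_lit 5) (nat_lit 41) (nat_lit 5) (nat_lit 333) (nat_lit 281) (nat_lit 166)) (XT.lf (nat_lit 0) (nat_lit 3367383823) (nat_lit 152) (nat_lit 8014700187) (nat_lit 228) (nat_lit 48033864392) (nat_lit 35) (nat_lit 5) (nat_lit 37) (nat_lit 5) (nat_lit 38) (nat_lit 5) (nat_lit 334) (nat_lit 281) (nat_lit 165))) (XT.nd (nat_lit 78) (nat_lit 152) (nat_lit 0) (XT.lf (nat_lit 0) (nat_lit 27987191575) (nat_lit 228) (nat_lit 19268291449) (nat_lit 76) (nat_lit 14440808445) (nat_lit 35) (nat_lit 5) (nat_lit 38) (nat_lit 5) (nat_lit 36) (nat_lit 5) (nat_lit 335) (nat_lit 281) (nat_lit 164)) (XT.lf (nat_lit 0) (nat_lit 19640697240) (nat_lit 152) (nat_lit 26044185148) (nat_lit 228) (nat_lit 18397902703) (nat_lit 33) (nat_lit 5) (nat_lit 35) (nat_lit 5) (nat_lit 36) (nat_lit 5) (nat_lit 336) (nat_lit 281) (nat_lit 163)))))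 (XT.nd (nat_lit 234) (nat_lit 304) (nat_lit 0) (XT.nd (nat_lit 78) (nat_lit 304) (nat_lit 0) (XT.lf (nat_lit 0) (nat_lit 60885484479) (nat_lit 152) (nat_lit 3573190943) (nat_lit 228) (nat_lit 2124194528) (nat_lit 33) (nat_lit 5) (nat_lit 35) (nat_lit 5) (nat_lit 36) (nat_lit 5) (nat_lit 337) (nat_lit 281) (nat_lit 162)) (XT.nd (nat_lit 78) (nat_lit 152) (nat_lit 0) (XT.lf (nat_lit 0) (nat_lit 15203024098) (nat_lit 152) (nat_lit 33868799266) (nat_lit 76) (nat_lit 20115869148) (nat_lit 31) (nat_lit 5) (nat_lit 33) (nat_lit 5) (nat_lit 32) (nat_lit 5) (nat_lit 338) (nat_lit 281) (nat_lit 161)) (XT.lf (nat_lit 0) (nat_lit 6643938522) (nat_lit 152) (nat_lit 26861609274) (nat_lit 228) (nat_lit 38411993902) (nat_lit 29) (nat_lit 5) (nat_lit 31) (nat_lit 5) (nat_lit 32) (nat_lit 5) (nat_lit 339) (nat_lit 281) (nat_lit 160)))) (XT.nd (nat_lit 156) (nat_lit 228) (nat_lit 0) (XT.nd (nat_lit 78) (nat_lit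 76) (nat_lit 0) (XT.lf (nat_lit 0) (nat_lit 49878735377) (nat_lit 152) (nat_lit 3186627912) (nat_lit 228) (nat_lit 21708257674) (nat_lit 29) (nat_lit 5) (nat_lit 31) (nat_lit 5) (nat_lit 32) (nat_lit 5) (nat_lit 340) (nat_lit 281) (nat_lit 159)) (XT.lf (nat_lit 0) (nat_lit 17627478378) (nat_lit 76) (nat_lit 56347243326) (nat_lit 152) (nat_lit 3786638386) (nat_lit 28) (nat_lit 5) (nat_lit 29) (nat_lit 5) (nat_lit 30) (nat_lit 4) (nat_lit 341) (nat_lit 281) (nat_lit 158))) (XT.nd (nat_lit 78) (nat_lit 152) (nat_lit 0) (XT.lf (nat_lit 0) (nat_lit 15022635931) (nat_lit 152) (nat_lit 18284545563) (nat_lit 76) (nat_lit 47578425798) (nat_lit 27) (nat_lit 5) (nat_lit 29) (nat_lit 5) (nat_lit 28) (nat_lit 5) (nat_lit 342) (nat_lit 281) (nat_lit 157)) (XT.lf (nat_lit 0) (nat_lit 26118465711) (nat_lit 152) (nat_lit 8821591894) (nat_lit 228) (nat_lit 49217506760) (nat_lit 25) (nat_lit 5) (nat_lit 27)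 (nat_lit 5) (nat_lit 28) (nat_lit 5) (nat_lit 343) (nat_lit 281) (nat_lit 156)))))) (XT.nd (nat_lit 546) (nat_lit 456) (nat_lit 0) (XT.nd (nat_lit 234) (nat_lit 228) (nat_lit 0) (XT.nd (nat_lit 78) (nat_lit 152) (nat_lit 0) (XT.lf (nat_lit 0) (nat_lit 56200119040) (nat_lit 228) (nat_lit 14638028958) (nat_lit 76) (nat_lit 16744570303) (nat_lit 25) (nat_lit 5) (nat_lit 28) (nat_lit 5) (nat_lit 26) (nat_lit 4) (nat_lit 344) (nat_lit 281) (nat_lit 155)) (XT.nd (nat_lit 78) (nat_lit 76) (nat_lit 0) (XT.lf (nat_lit 0) (nat_lit 31448128601) (nat_lit 76) (nat_lit 47461002880) (nat_lit 152) (nat_lit 12258421979) (nat_lit 24) (nat_lit 5) (nat_lit 25) (nat_lit 5) (nat_lit 26) (nat_lit 4) (nat_lit 345) (nat_lit 281) (nat_lit 154)) (XT.lf (nat_lit 0) (nat_lit 7816231333) (nat_lit 152) (nat_lit 14868730702) (nat_lit 76) (nat_lit 72240007424) (nat_lit 23) (nat_lit 5) (nat_lit 25) (nat_lit 5) (nat_lit 24)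 (nat_lit 5) (nat_lit 346) (nat_lit 281) (nat_lit 153)))) (XT.nd (nat_lit 156) (nat_lit 76) (nat_lit 0) (XT.nd (nat_lit 78) (nat_lit 0) (nat_lit 0) (XT.lf (nat_lit 0) (nat_lit 28989363028) (nat_lit 228) (nat_lit 66163084976) (nat_lit 76) (nat_lit 3703720810) (nat_lit 21) (nat_lit 5) (nat_lit 24) (nat_lit 5) (nat_lit 22) (nat_lit 4) (nat_lit 347) (nat_lit 281) (nat_lit 152)) (XT.lf (nat_lit 0) (nat_lit 51599786031) (nat_lit 228) (nat_lit 20274944568) (nat_lit 76) (nat_lit 31097840146) (nat_lit 21) (nat_lit 5) (nat_lit 24) (nat_lit 5) (nat_lit 22) (nat_lit 4) (nat_lit 348) (nat_lit 281) (nat_lit 151))) (XT.nd (nat_lit 78) (nat_lit 0) (nat_lit 0) (XT.lf (nat_lit 0) (nat_lit 28454442159) (nat_lit 76) (nat_lit 47155137140) (nat_lit 152) (nat_lit 31677149571) (nat_lit 20) (nat_lit 5) (nat_lit 21) (nat_lit 5) (nat_lit 22) (nat_lit 4) (nat_lit 349) (nat_lit 281) (nat_lit 150)) (XT.lf (nat_lit 0) (nat_lit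 80035816631) (nat_lit 76) (nat_lit 20988229853) (nat_lit 152) (nat_lit 10786424389) (nat_lit 20) (nat_lit 5) (nat_lit 21) (nat_lit 5) (nat_lit 22) (nat_lit 4) (nat_lit 350) (nat_lit 281) (nat_lit 149))))) (XT.nd (nat_lit 234) (nat_lit 228) (nat_lit 0) (XT.nd (nat_lit 78) (nat_lit 0) (nat_lit 0) (XT.lf (nat_lit 0) (nat_lit 11163784275) (nat_lit 228) (nat_lit 98747727382) (nat_lit 76) (nat_lit 6638699584) (nat_lit 17) (nat_lit 5) (nat_lit 20) (nat_lit 5) (nat_lit 18) (nat_lit 4) (nat_lit 351) (nat_lit 281) (nat_lit 148)) (XT.nd (nat_lit 78) (nat_lit 0) (nat_lit 0) (XT.lf (nat_lit 0) (nat_lit 34528411409) (nat_lit 228) (nat_lit 51326335050) (nat_lit 76) (nat_lit 35652789962) (nat_lit 17) (nat_lit 5) (nat_lit 20) (nat_lit 5) (nat_lit 18) (nat_lit 4) (nat_lit 352) (nat_lit 281) (nat_lit 147)) (XT.lf (nat_lit 0) (nat_lit 59057216826) (nat_lit 228) (nat_lit 1541241722) (nat_lit 76) (nat_lit 66114392162)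 (nat_lit 17) (nat_lit 5) (nat_lit 20) (nat_lit 5) (nat_lit 18) (nat_lit 4) (nat_lit 353) (nat_lit 281) (nat_lit 146)))) (XT.nd (nat_lit 156) (nat_lit 152) (nat_lit 0) (XT.nd (nat_lit 78) (nat_lit 0) (nat_lit 0) (XT.lf (nat_lit 0) (nat_lit 51735637165) (nat_lit 76) (nat_lit 33570279872) (nat_lit 152) (nat_lit 46857711236) (nat_lit 16) (nat_lit 5) (nat_lit 17) (nat_lit 5) (nat_lit 18) (nat_lit 4) (nat_lit 354) (nat_lit 281) (nat_lit 145)) (XT.lf (nat_lit 0) (nat_lit 107701750844) (nat_lit 76) (nat_lit 5177425355) (nat_lit 152) (nat_lit 25007405935) (nat_lit 16) (nat_lit 5) (nat_lit 17) (nat_lit 5) (nat_lit 18) (nat_lit 4) (nat_lit 355) (nat_lit 281) (nat_lit 144))) (XT.nd (nat_lit 78) (nat_lit 76) (nat_lit 0) (XT.lf (nat_lit 0) (nat_lit 22771460536) (nat_lit 76) (nat_lit 119511746622) (nat_lit 76) (nat_lit 1598914349) (nat_lit 15) (nat_lit 4) (nat_lit 16) (nat_lit 5) (nat_lit 16) (nat_lit 4)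 (nat_lit 356) (nat_lit 281) (nat_lit 143)) (XT.lf (nat_lit 0) (nat_lit 22894121352) (nat_lit 152) (nat_lit 71444460701) (nat_lit 76) (nat_lit 55821353600) (nat_lit 14) (nat_lit 5) (nat_lit 16) (nat_lit 5) (nat_lit 15) (nat_lit 4) (nat_lit 357) (nat_lit 281) (nat_lit 142))))))))
noncomputable def xc86 : XT := (XT.nd (nat_lit 36660) (nat_lit 0) (nat_lit 1900) (XT.nd (nat_lit 35568) (nat_lit 0) (nat_lit 7524) (XT.nd (nat_lit 35022) (nat_lit 0) (nat_lit 13984) (XT.nd (nat_lit 34788) (nat_lit 0) (nat_lit 14972) (XT.nd (nat_lit 156) (nat_lit 76) (nat_lit 0) (XT.lf (nat_lit 0) (nat_lit 48575698170) (nat_lit 152) (nat_lit 19317235738) (nat_lit 76) (nat_lit 88858323909) (nat_lit 14) (nat_lit 5) (nat_lit 16) (nat_lit 5) (nat_lit 15) (nat_lit 4) (nat_lit 358) (nat_lit 281) (nat_lit 141)) (XT.nd (nat_lit 34554) (nat_lit 0) (nat_lit 14972) (XT.lf (nat_lit 0) (nat_lit 94717314911) (nat_lit 76) (nat_lit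 10038878927) (nat_lit 152) (nat_lit 66155860619) (nat_lit 13) (nat_lit 5) (nat_lit 14) (nat_lit 5) (nat_lit 15) (nat_lit 4) (nat_lit 360) (nat_lit 281) (nat_lit 139)) (XT.lf (nat_lit 0) (nat_lit 4644971339) (nat_lit 1140) (nat_lit 744247030) (nat_lit 1140) (nat_lit 744247030) (nat_lit 210) (nat_lit 3) (nat_lit 225) (nat_lit 3) (nat_lit 225) (nat_lit 5) (nat_lit 282) (nat_lit 282) (nat_lit 216)))) (XT.nd (nat_lit 78) (nat_lit 0) (nat_lit 76) (XT.lf (nat_lit 76) (nat_lit 7973886174) (nat_lit 0) (nat_lit 2328018055) (nat_lit 1140) (nat_lit 2247439760) (nat_lit 211) (nat_lit 5) (nat_lit 210) (nat_lit 3) (nat_lit 225) (nat_lit 5) (nat_lit 283) (nat_lit 282) (nat_lit 215)) (XT.nd (nat_lit 78) (nat_lit 0) (nat_lit 76) (XT.lf (nat_lit 76) (nat_lit 5106363464) (nat_lit 0) (nat_lit 6340549092) (nat_lit 1140) (nat_lit 1396547428) (nat_lit 212) (nat_lit 5) (nat_lit 211) (nat_lit 5) (nat_lit 226) (nat_lit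 5) (nat_lit 284) (nat_lit 282) (nat_lit 214)) (XT.lf (nat_lit 76) (nat_lit 2185078329) (nat_lit 0) (nat_lit 10537752949) (nat_lit 1140) (nat_lit 427293661) (nat_lit 213) (nat_lit 5) (nat_lit 212) (nat_lit 5) (nat_lit 227) (nat_lit 5) (nat_lit 285) (nat_lit 282) (nat_lit 213))))) (XT.nd (nat_lit 234) (nat_lit 0) (nat_lit 152) (XT.nd (nat_lit 78) (nat_lit 0) (nat_lit 76) (XT.lf (nat_lit 0) (nat_lit 681739026) (nat_lit 1140) (nat_lit 801366021) (nat_lit 1216) (nat_lit 11985811672) (nat_lit 197) (nat_lit 5) (nat_lit 212) (nat_lit 5) (nat_lit 213) (nat_lit 5) (nat_lit 286) (nat_lit 282) (nat_lit 212)) (XT.nd (nat_lit 78) (nat_lit 0) (nat_lit 76) (XT.lf (nat_lit 0) (nat_lit 1972610273) (nat_lit 1140) (nat_lit 3843054519) (nat_lit 1216) (nat_lit 7983846293) (nat_lit 198) (nat_lit 5) (nat_lit 213) (nat_lit 5) (nat_lit 214) (nat_lit 5) (nat_lit 287) (nat_lit 282) (nat_lit 211)) (XT.lf (nat_lit 0)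 (nat_lit 3419839032) (nat_lit 1140) (nat_lit 6959089477) (nat_lit 1216) (nat_lit 3764996658) (nat_lit 199) (nat_lit 5) (nat_lit 214) (nat_lit 5) (nat_lit 215) (nat_lit 5) (nat_lit 288) (nat_lit 282) (nat_lit 210)))) (XT.nd (nat_lit 156) (nat_lit 0) (nat_lit 152) (XT.nd (nat_lit 78) (nat_lit 0) (nat_lit 76) (XT.lf (nat_lit 76) (nat_lit 4339571676) (nat_lit 0) (nat_lit 704067513) (nat_lit 1216) (nat_lit 9458836766) (nat_lit 200) (nat_lit 5) (nat_lit 199) (nat_lit 5) (nat_lit 215) (nat_lit 5) (nat_lit 289) (nat_lit 282) (nat_lit 209)) (XT.lf (nat_lit 76) (nat_lit 1380637057) (nat_lit 0) (nat_lit 5509905617) (nat_lit 1216) (nat_lit 7984194494) (nat_lit 201) (nat_lit 5) (nat_lit 200) (nat_lit 5) (nat_lit 216) (nat_lit 5) (nat_lit 290) (nat_lit 282) (nat_lit 208))) (XT.nd (nat_lit 78) (nat_lit 0) (nat_lit 0) (XT.lf (nat_lit 0) (nat_lit 8954133858) (nat_lit 1140) (nat_lit 1628427134) (nat_lit 1216)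 (nat_lit 4679358543) (nat_lit 201) (nat_lit 5) (nat_lit 216) (nat_lit 5) (nat_lit 217) (nat_lit 5) (nat_lit 291) (nat_lit 282) (nat_lit 207)) (XT.lf (nat_lit 76) (nat_lit 10963284703) (nat_lit 0) (nat_lit 287078786) (nat_lit 1216) (nat_lit 4414250304) (nat_lit 202) (nat_lit 5) (nat_lit 201) (nat_lit 5) (nat_lit 217) (nat_lit 5) (nat_lit 292) (nat_lit 282) (nat_lit 206)))))) (XT.nd (nat_lit 546) (nat_lit 2812) (nat_lit 0) (XT.nd (nat_lit 234) (nat_lit 1520) (nat_lit 0) (XT.nd (nat_lit 78) (nat_lit 1368) (nat_lit 0) (XT.lf (nat_lit 0) (nat_lit 8163828345) (nat_lit 1140) (nat_lit 5663912181) (nat_lit 1216) (nat_lit 2254746962) (nat_lit 187) (nat_lit 5) (nat_lit 202) (nat_lit 5) (nat_lit 203) (nat_lit 5) (nat_lit 293) (nat_lit 282) (nat_lit 205)) (XT.nd (nat_lit 78) (nat_lit 608) (nat_lit 0) (XT.lf (nat_lit 0) (nat_lit 136464218) (nat_lit 760) (nat_lit 11244038583) (nat_lit 76) (nat_lit 5137061141)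 (nat_lit 177) (nat_lit 5) (nat_lit 187) (nat_lit 5) (nat_lit 178) (nat_lit 5) (nat_lit 294) (nat_lit 282) (nat_lit 204)) (XT.lf (nat_lit 0) (nat_lit 2256268809) (nat_lit 608) (nat_lit 477789978) (nat_lit 684) (nat_lit 14235692716) (nat_lit 169) (nat_lit 5) (nat_lit 177) (nat_lit 5) (nat_lit 178) (nat_lit 5) (nat_lit 295) (nat_lit 282) (nat_lit 203)))) (XT.nd (nat_lit 156) (nat_lit 988) (nat_lit 0) (XT.nd (nat_lit 78) (nat_lit 532) (nat_lit 0) (XT.lf (nat_lit 0) (nat_lit 5656837639) (nat_lit 684) (nat_lit 907105928) (nat_lit 76) (nat_lit 10874774925) (nat_lit 169) (nat_lit 5) (nat_lit 178) (nat_lit 5) (nat_lit 170) (nat_lit 5) (nat_lit 296) (nat_lit 282) (nat_lit 202)) (XT.lf (nat_lit 0) (nat_lit 8885754250) (nat_lit 608) (nat_lit 4145904669) (nat_lit 76) (nat_lit 4894702744) (nat_lit 162) (nat_lit 5) (nat_lit 170) (nat_lit 5) (nat_lit 163) (nat_lit 5) (nat_lit 297) (nat_lit 282) (nat_lit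 201))) (XT.nd (nat_lit 78) (nat_lit 456) (nat_lit 0) (XT.lf (nat_lit 0) (nat_lit 10904875891) (nat_lit 532) (nat_lit 1526996715) (nat_lit 608) (nat_lit 6001868182) (nat_lit 155) (nat_lit 5) (nat_lit 162) (nat_lit 5) (nat_lit 163) (nat_lit 5) (nat_lit 298) (nat_lit 282) (nat_lit 200)) (XT.lf (nat_lit 0) (nat_lit 7856218281) (nat_lit 456) (nat_lit 8495332965) (nat_lit 532) (nat_lit 2609075205) (nat_lit 149) (nat_lit 5) (nat_lit 155) (nat_lit 5) (nat_lit 156) (nat_lit 5) (nat_lit 299) (nat_lit 282) (nat_lit 199))))) (XT.nd (nat_lit 234) (nat_lit 1748) (nat_lit 0) (XT.nd (nat_lit 78) (nat_lit 456) (nat_lit 0) (XT.lf (nat_lit 0) (nat_lit 1085505675) (nat_lit 608) (nat_lit 14847127087) (nat_lit 76) (nat_lit 3576449469) (nat_lit 141) (nat_lit 5) (nat_lit 149) (nat_lit 5) (nat_lit 142) (nat_lit 5) (nat_lit 300) (nat_lit 282) (nat_lit 198)) (XT.nd (nat_lit 78) (nat_lit 0) (nat_lit 0) (XT.lf (nat_lit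 0) (nat_lit 1253823104) (nat_lit 456) (nat_lit 3848476365) (nat_lit 532) (nat_lit 14976165255) (nat_lit 135) (nat_lit 5) (nat_lit 141) (nat_lit 5) (nat_lit 142) (nat_lit 5) (nat_lit 301) (nat_lit 282) (nat_lit 197)) (XT.lf (nat_lit 0) (nat_lit 9537769802) (nat_lit 532) (nat_lit 2312660708) (nat_lit 76) (nat_lit 8819371871) (nat_lit 135) (nat_lit 5) (nat_lit 142) (nat_lit 5) (nat_lit 136) (nat_lit 5) (nat_lit 302) (nat_lit 282) (nat_lit 196)))) (XT.nd (nat_lit 156) (nat_lit 912) (nat_lit 0) (XT.nd (nat_lit 78) (nat_lit 380) (nat_lit 0) (XT.lf (nat_lit 0) (nat_lit 14368740388) (nat_lit 532) (nat_lit 6033923363) (nat_lit 76) (nat_lit 882851505) (nat_lit 129) (nat_lit 5) (nat_lit 136) (nat_lit 5) (nat_lit 130) (nat_lit 5) (nat_lit 303) (nat_lit 282) (nat_lit 195)) (XT.lf (nat_lit 0) (nat_lit 11900187433) (nat_lit 380) (nat_lit 7779377982) (nat_lit 456) (nat_lit 2245318363) (nat_lit 124) (nat_lit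 5) (nat_lit 129) (nat_lit 5) (nat_lit 130) (nat_lit 5) (nat_lit 304) (nat_lit 282) (nat_lit 194))) (XT.nd (nat_lit 78) (nat_lit 380) (nat_lit 0) (XT.lf (nat_lit 0) (nat_lit 2786107973) (nat_lit 532) (nat_lit 14268995345) (nat_lit 76) (nat_lit 5535019213) (nat_lit 117) (nat_lit 5) (nat_lit 124) (nat_lit 5) (nat_lit 118) (nat_lit 5) (nat_lit 305) (nat_lit 282) (nat_lit 193)) (XT.lf (nat_lit 0) (nat_lit 4470352259) (nat_lit 380) (nat_lit 3759898956) (nat_lit 456) (nat_lit 15051494502) (nat_lit 112) (nat_lit 5) (nat_lit 117) (nat_lit 5) (nat_lit 118) (nat_lit 5) (nat_lit 306) (nat_lit 282) (nat_lit 192))))))) (XT.nd (nat_lit 1092) (nat_lit 2052) (nat_lit 0) (XT.nd (nat_lit 546) (nat_lit 1748) (nat_lit 0) (XT.nd (nat_lit 234) (nat_lit 1064) (nat_lit 0) (XT.nd (nat_lit 78) (nat_lit 380) (nat_lit 0) (XT.lf (nat_lit 0) (nat_lit 325416843) (nat_lit 380) (nat_lit 13852774099) (nat_lit 456) (nat_lit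 9822827527) (nat_lit 107) (nat_lit 5) (nat_lit 112) (nat_lit 5) (nat_lit 113) (nat_lit 5) (nat_lit 307) (nat_lit 282) (nat_lit 191)) (XT.nd (nat_lit 78) (nat_lit 380) (nat_lit 0) (XT.lf (nat_lit 0) (nat_lit 20638559342) (nat_lit 456) (nat_lit 3999563314) (nat_lit 76) (nat_lit 111696570) (nat_lit 107) (nat_lit 5) (nat_lit 113) (nat_lit 5) (nat_lit 108) (nat_lit 5) (nat_lit 308) (nat_lit 282) (nat_lit 190)) (XT.lf (nat_lit 0) (nat_lit 2136959513) (nat_lit 380) (nat_lit 8721148912) (nat_lit 76) (nat_lit 14668785699) (nat_lit 102) (nat_lit 5) (nat_lit 107) (nat_lit 5) (nat_lit 103) (nat_lit 5) (nat_lit 309) (nat_lit 282) (nat_lit 189)))) (XT.nd (nat_lit 156) (nat_lit 380) (nat_lit 0) (XT.nd (nat_lit 78) (nat_lit 304) (nat_lit 0) (XT.lf (nat_lit 0) (nat_lit 8796403312) (nat_lit 456) (nat_lit 13798291151) (nat_lit 76) (nat_lit 3741405409) (nat_lit 97) (nat_lit 5) (nat_lit 103) (nat_lit 5) (nat_lit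 98) (nat_lit 5) (nat_lit 310) (nat_lit 282) (nat_lit 188)) (XT.lf (nat_lit 0) (nat_lit 7881161132) (nat_lit 304) (nat_lit 8168101014) (nat_lit 380) (nat_lit 11128703325) (nat_lit 93) (nat_lit 5) (nat_lit 97) (nat_lit 5) (nat_lit 98) (nat_lit 5) (nat_lit 311) (nat_lit 282) (nat_lit 187))) (XT.nd (nat_lit 78) (nat_lit 76) (nat_lit 0) (XT.lf (nat_lit 0) (nat_lit 2841368742) (nat_lit 304) (nat_lit 21046168752) (nat_lit 380) (nat_lit 4167715885) (nat_lit 89) (nat_lit 5) (nat_lit 93) (nat_lit 5) (nat_lit 94) (nat_lit 5) (nat_lit 312) (nat_lit 282) (nat_lit 186)) (XT.lf (nat_lit 0) (nat_lit 3348362090) (nat_lit 380) (nat_lit 2615904365) (nat_lit 76) (nat_lit 23003194462) (nat_lit 88) (nat_lit 5) (nat_lit 93) (nat_lit 5) (nat_lit 89) (nat_lit 5) (nat_lit 313) (nat_lit 282) (nat_lit 185))))) (XT.nd (nat_lit 234) (nat_lit 912) (nat_lit 0) (XT.nd (nat_lit 78) (nat_lit 532) (nat_lit 0) (XT.lf (nat_lit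 0) (nat_lit 11444513152) (nat_lit 380) (nat_lit 8546274784) (nat_lit 76) (nat_lit 9924549817) (nat_lit 84) (nat_lit 5) (nat_lit 89) (nat_lit 5) (nat_lit 85) (nat_lit 5) (nat_lit 314) (nat_lit 282) (nat_lit 184)) (XT.nd (nat_lit 78) (nat_lit 228) (nat_lit 0) (XT.lf (nat_lit 0) (nat_lit 15929139149) (nat_lit 304) (nat_lit 4243266243) (nat_lit 380) (nat_lit 10731405293) (nat_lit 80) (nat_lit 5) (nat_lit 84) (nat_lit 5) (nat_lit 85) (nat_lit 5) (nat_lit 315) (nat_lit 282) (nat_lit 183)) (XT.lf (nat_lit 0) (nat_lit 9923295103) (nat_lit 228) (nat_lit 19702618181) (nat_lit 304) (nat_lit 2307127123) (nat_lit 77) (nat_lit 5) (nat_lit 80) (nat_lit 5) (nat_lit 81) (nat_lit 5) (nat_lit 316) (nat_lit 282) (nat_lit 182)))) (XT.nd (nat_lit 156) (nat_lit 532) (nat_lit 0) (XT.nd (nat_lit 78) (nat_lit 0) (nat_lit 0) (XT.lf (nat_lit 0) (nat_lit 3308452361) (nat_lit 304) (nat_lit 3319777262) (nat_lit 380) (nat_lit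 26377101953) (nat_lit 72) (nat_lit 5) (nat_lit 76) (nat_lit 5) (nat_lit 77) (nat_lit 5) (nat_lit 317) (nat_lit 282) (nat_lit 181)) (XT.lf (nat_lit 0) (nat_lit 16312863550) (nat_lit 380) (nat_lit 3949580053) (nat_lit 76) (nat_lit 13857610294) (nat_lit 72) (nat_lit 5) (nat_lit 77) (nat_lit 5) (nat_lit 73) (nat_lit 5) (nat_lit 318) (nat_lit 282) (nat_lit 180))) (XT.nd (nat_lit 78) (nat_lit 304) (nat_lit 0) (XT.lf (nat_lit 0) (nat_lit 23492218543) (nat_lit 228) (nat_lit 3236955979) (nat_lit 304) (nat_lit 8553922649) (nat_lit 69) (nat_lit 5) (nat_lit 72) (nat_lit 5) (nat_lit 73) (nat_lit 5) (nat_lit 319) (nat_lit 282) (nat_lit 179)) (XT.lf (nat_lit 0) (nat_lit 1466970614) (nat_lit 304) (nat_lit 20469077546) (nat_lit 76) (nat_lit 14558087815) (nat_lit 65) (nat_lit 5) (nat_lit 69) (nat_lit 5) (nat_lit 66) (nat_lit 5) (nat_lit 320) (nat_lit 282) (nat_lit 178)))))) (XT.nd (nat_lit 546) (nat_lit 912)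 (nat_lit 0) (XT.nd (nat_lit 234) (nat_lit 684) (nat_lit 0) (XT.nd (nat_lit 78) (nat_lit 228) (nat_lit 0) (XT.lf (nat_lit 0) (nat_lit 7729429385) (nat_lit 228) (nat_lit 4302493802) (nat_lit 304) (nat_lit 25724672294) (nat_lit 62) (nat_lit 5) (nat_lit 65) (nat_lit 5) (nat_lit 66) (nat_lit 5) (nat_lit 321) (nat_lit 282) (nat_lit 177)) (XT.nd (nat_lit 78) (nat_lit 228) (nat_lit 0) (XT.lf (nat_lit 0) (nat_lit 23463589395) (nat_lit 304) (nat_lit 1466031916) (nat_lit 76) (nat_lit 14142409546) (nat_lit 62) (nat_lit 5) (nat_lit 66) (nat_lit 5) (nat_lit 63) (nat_lit 5) (nat_lit 322) (nat_lit 282) (nat_lit 176)) (XT.lf (nat_lit 0) (nat_lit 29029952088) (nat_lit 228) (nat_lit 6748935289) (nat_lit 304) (nat_lit 4664995718) (nat_lit 59) (nat_lit 5) (nat_lit 62) (nat_lit 5) (nat_lit 63) (nat_lit 5) (nat_lit 323) (nat_lit 282) (nat_lit 175)))) (XT.nd (nat_lit 156) (nat_lit 228) (nat_lit 0) (XT.nd (nat_lit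 78) (nat_lit 228) (nat_lit 0) (XT.lf (nat_lit 0) (nat_lit 7006114910) (nat_lit 228) (nat_lit 22501646897) (nat_lit 76) (nat_lit 12365193278) (nat_lit 56) (nat_lit 5) (nat_lit 59) (nat_lit 5) (nat_lit 57) (nat_lit 5) (nat_lit 324) (nat_lit 282) (nat_lit 174)) (XT.lf (nat_lit 0) (nat_lit 8600031234) (nat_lit 228) (nat_lit 10824703394) (nat_lit 304) (nat_lit 23939553185) (nat_lit 53) (nat_lit 5) (nat_lit 56) (nat_lit 5) (nat_lit 57) (nat_lit 5) (nat_lit 325) (nat_lit 282) (nat_lit 173))) (XT.nd (nat_lit 78) (nat_lit 228) (nat_lit 0) (XT.lf (nat_lit 0) (nat_lit 32773090434) (nat_lit 304) (nat_lit 3298614772) (nat_lit 76) (nat_lit 8849223309) (nat_lit 53) (nat_lit 5) (nat_lit 57) (nat_lit 5) (nat_lit 54) (nat_lit 5) (nat_lit 326) (nat_lit 282) (nat_lit 172)) (XT.lf (nat_lit 0) (nat_lit 623196282) (nat_lit 228) (nat_lit 16344163858) (nat_lit 76) (nat_lit 29576150187) (nat_lit 50) (nat_lit 5) (nat_lit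 53) (nat_lit 5) (nat_lit 51) (nat_lit 5) (nat_lit 327) (nat_lit 282) (nat_lit 171))))) (XT.nd (nat_lit 234) (nat_lit 532) (nat_lit 0) (XT.nd (nat_lit 78) (nat_lit 152) (nat_lit 0) (XT.lf (nat_lit 0) (nat_lit 14009306358) (nat_lit 304) (nat_lit 30873780208) (nat_lit 76) (nat_lit 3353698433) (nat_lit 47) (nat_lit 5) (nat_lit 51) (nat_lit 5) (nat_lit 48) (nat_lit 5) (nat_lit 328) (nat_lit 282) (nat_lit 170)) (XT.nd (nat_lit 78) (nat_lit 0) (nat_lit 0) (XT.lf (nat_lit 0) (nat_lit 2957810445) (nat_lit 152) (nat_lit 25467775672) (nat_lit 228) (nat_lit 21578315968) (nat_lit 45) (nat_lit 5) (nat_lit 47) (nat_lit 5) (nat_lit 48) (nat_lit 5) (nat_lit 329) (nat_lit 282) (nat_lit 169)) (XT.lf (nat_lit 0) (nat_lit 39112177749) (nat_lit 152) (nat_lit 4759863869) (nat_lit 228) (nat_lit 7978056939) (nat_lit 45) (nat_lit 5) (nat_lit 47) (nat_lit 5) (nat_lit 48) (nat_lit 5) (nat_lit 330) (nat_lit 282) (nat_lit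 168)))) (XT.nd (nat_lit 156) (nat_lit 152) (nat_lit 0) (XT.nd (nat_lit 78) (nat_lit 152) (nat_lit 0) (XT.lf (nat_lit 0) (nat_lit 6564720021) (nat_lit 228) (nat_lit 30272705975) (nat_lit 76) (nat_lit 16937800973) (nat_lit 42) (nat_lit 5) (nat_lit 45) (nat_lit 5) (nat_lit 43) (nat_lit 5) (nat_lit 331) (nat_lit 282) (nat_lit 167)) (XT.lf (nat_lit 0) (nat_lit 6002478257) (nat_lit 152) (nat_lit 15898932672) (nat_lit 228) (nat_lit 33885881808) (nat_lit 40) (nat_lit 5) (nat_lit 42) (nat_lit 5) (nat_lit 43) (nat_lit 5) (nat_lit 332) (nat_lit 282) (nat_lit 166))) (XT.nd (nat_lit 78) (nat_lit 152) (nat_lit 0) (XT.lf (nat_lit 0) (nat_lit 38370436758) (nat_lit 228) (nat_lit 13241254583) (nat_lit 76) (nat_lit 6277309121) (nat_lit 40) (nat_lit 5) (nat_lit 43) (nat_lit 5) (nat_lit 41) (nat_lit 5) (nat_lit 333) (nat_lit 282) (nat_lit 165)) (XT.lf (nat_lit 0) (nat_lit 25453237336) (nat_lit 152) (nat_lit 30607465269)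 (nat_lit 228) (nat_lit 4023160808) (nat_lit 38) (nat_lit 5) (nat_lit 40) (nat_lit 5) (nat_lit 41) (nat_lit 5) (nat_lit 334) (nat_lit 282) (nat_lit 164))))))))
noncomputable def xc87 : XT := (XT.nd (nat_lit 36816) (nat_lit 0) (nat_lit 5776) (XT.nd (nat_lit 1092) (nat_lit 608) (nat_lit 0) (XT.nd (nat_lit 546) (nat_lit 608) (nat_lit 0) (XT.nd (nat_lit 234) (nat_lit 304) (nat_lit 0) (XT.nd (nat_lit 78) (nat_lit 152) (nat_lit 0) (XT.lf (nat_lit 0) (nat_lit 3919945895) (nat_lit 152) (nat_lit 8256225539) (nat_lit 228) (nat_lit 50203725267) (nat_lit 35) (nat_lit 5) (nat_lit 37) (nat_lit 5) (nat_lit 38) (nat_lit 5) (nat_lit 335) (nat_lit 282) (nat_lit 163)) (XT.nd (nat_lit 78) (nat_lit 152) (nat_lit 0) (XT.lf (nat_lit 0) (nat_lit 29602278435) (nat_lit 228) (nat_lit 19860742611) (nat_lit 76) (nat_lit 15311518298) (nat_lit 35) (nat_lit 5) (nat_lit 38) (nat_lit 5) (nat_lit 36) (nat_lit 5) (nat_lit 336)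 (nat_lit 282) (nat_lit 162)) (XT.lf (nat_lit 0) (nat_lit 20983061921) (nat_lit 152) (nat_lit 27194982851) (nat_lit 228) (nat_lit 19102521665) (nat_lit 33) (nat_lit 5) (nat_lit 35) (nat_lit 5) (nat_lit 36) (nat_lit 5) (nat_lit 337) (nat_lit 282) (nat_lit 161)))) (XT.nd (nat_lit 156) (nat_lit 152) (nat_lit 0) (XT.nd (nat_lit 78) (nat_lit 152) (nat_lit 0) (XT.lf (nat_lit 0) (nat_lit 64272929958) (nat_lit 152) (nat_lit 3607649010) (nat_lit 228) (nat_lit 2025379327) (nat_lit 33) (nat_lit 5) (nat_lit 35) (nat_lit 5) (nat_lit 36) (nat_lit 5) (nat_lit 338) (nat_lit 282) (nat_lit 160)) (XT.lf (nat_lit 0) (nat_lit 16159240057) (nat_lit 152) (nat_lit 35220388100) (nat_lit 76) (nat_lit 21261487465) (nat_lit 31) (nat_lit 5) (nat_lit 33) (nat_lit 5) (nat_lit 32) (nat_lit 5) (nat_lit 339) (nat_lit 282) (nat_lit 159))) (XT.nd (nat_lit 78) (nat_lit 0) (nat_lit 0) (XT.lf (nat_lit 0) (nat_lit 7308187483) (nat_lit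 152) (nat_lit 28062557927) (nat_lit 228) (nat_lit 40136899982) (nat_lit 29) (nat_lit 5) (nat_lit 31) (nat_lit 5) (nat_lit 32) (nat_lit 5) (nat_lit 340) (nat_lit 282) (nat_lit 158)) (XT.lf (nat_lit 0) (nat_lit 52688912179) (nat_lit 152) (nat_lit 3210595679) (nat_lit 228) (nat_lit 22607295685) (nat_lit 29) (nat_lit 5) (nat_lit 31) (nat_lit 5) (nat_lit 32) (nat_lit 5) (nat_lit 341) (nat_lit 282) (nat_lit 157))))) (XT.nd (nat_lit 234) (nat_lit 304) (nat_lit 0) (XT.nd (nat_lit 78) (nat_lit 228) (nat_lit 0) (XT.lf (nat_lit 0) (nat_lit 18820104329) (nat_lit 76) (nat_lit 59029847884) (nat_lit 152) (nat_lit 3794112310) (nat_lit 28) (nat_lit 5) (nat_lit 29) (nat_lit 5) (nat_lit 30) (nat_lit 4) (nat_lit 342) (nat_lit 282) (nat_lit 156)) (XT.nd (nat_lit 78) (nat_lit 152) (nat_lit 0) (XT.lf (nat_lit 0) (nat_lit 15943586099) (nat_lit 152) (nat_lit 18898899058) (nat_lit 76) (nat_lit 50082244390) (nat_lit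 27) (nat_lit 5) (nat_lit 29) (nat_lit 5) (nat_lit 28) (nat_lit 5) (nat_lit 343) (nat_lit 282) (nat_lit 155)) (XT.lf (nat_lit 0) (nat_lit 27715666959) (nat_lit 152) (nat_lit 9135925251) (nat_lit 228) (nat_lit 51508853891) (nat_lit 25) (nat_lit 5) (nat_lit 27) (nat_lit 5) (nat_lit 28) (nat_lit 5) (nat_lit 344) (nat_lit 282) (nat_lit 154)))) (XT.nd (nat_lit 156) (nat_lit 228) (nat_lit 0) (XT.nd (nat_lit 78) (nat_lit 76) (nat_lit 0) (XT.lf (nat_lit 0) (nat_lit 59167982217) (nat_lit 228) (nat_lit 15088924613) (nat_lit 76) (nat_lit 17700154019) (nat_lit 25) (nat_lit 5) (nat_lit 28) (nat_lit 5) (nat_lit 26) (nat_lit 4) (nat_lit 345) (nat_lit 282) (nat_lit 153)) (XT.lf (nat_lit 0) (nat_lit 33293485850) (nat_lit 76) (nat_lit 49714066191) (nat_lit 152) (nat_lit 12713735270) (nat_lit 24) (nat_lit 5) (nat_lit 25) (nat_lit 5) (nat_lit 26) (nat_lit 4) (nat_lit 346) (nat_lit 282) (nat_lit 152))) (XT.nd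 (nat_lit 78) (nat_lit 152) (nat_lit 0) (XT.lf (nat_lit 0) (nat_lit 8354216530) (nat_lit 152) (nat_lit 15349234267) (nat_lit 76) (nat_lit 75963301159) (nat_lit 23) (nat_lit 5) (nat_lit 25) (nat_lit 5) (nat_lit 24) (nat_lit 5) (nat_lit 347) (nat_lit 282) (nat_lit 151)) (XT.lf (nat_lit 0) (nat_lit 30582535633) (nat_lit 228) (nat_lit 69212600283) (nat_lit 76) (nat_lit 3999481855) (nat_lit 21) (nat_lit 5) (nat_lit 24) (nat_lit 5) (nat_lit 22) (nat_lit 4) (nat_lit 348) (nat_lit 282) (nat_lit 150)))))) (XT.nd (nat_lit 546) (nat_lit 228) (nat_lit 0) (XT.nd (nat_lit 234) (nat_lit 304) (nat_lit 0) (XT.nd (nat_lit 78) (nat_lit 76) (nat_lit 0) (XT.lf (nat_lit 0) (nat_lit 54316636718) (nat_lit 228) (nat_lit 21042368995) (nat_lit 76) (nat_lit 32758041681) (nat_lit 21) (nat_lit 5) (nat_lit 24) (nat_lit 5) (nat_lit 22) (nat_lit 4) (nat_lit 349) (nat_lit 282) (nat_lit 149)) (XT.nd (nat_lit 78) (nat_lit 0)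 (nat_lit 0) (XT.lf (nat_lit 0) (nat_lit 30116426275) (nat_lit 76) (nat_lit 49406276099) (nat_lit 152) (nat_lit 33124339763) (nat_lit 20) (nat_lit 5) (nat_lit 21) (nat_lit 5) (nat_lit 22) (nat_lit 4) (nat_lit 350) (nat_lit 282) (nat_lit 148)) (XT.lf (nat_lit 0) (nat_lit 84265476042) (nat_lit 76) (nat_lit 21936100490) (nat_lit 152) (nat_lit 11195586288) (nat_lit 20) (nat_lit 5) (nat_lit 21) (nat_lit 5) (nat_lit 22) (nat_lit 4) (nat_lit 351) (nat_lit 282) (nat_lit 147)))) (XT.nd (nat_lit 156) (nat_lit 76) (nat_lit 0) (XT.nd (nat_lit 78) (nat_lit 0) (nat_lit 0) (XT.lf (nat_lit 0) (nat_lit 11846630229) (nat_lit 228) (nat_lit 103458483776) (nat_lit 76) (nat_lit 7068829478) (nat_lit 17) (nat_lit 5) (nat_lit 20) (nat_lit 5) (nat_lit 18) (nat_lit 4) (nat_lit 352) (nat_lit 282) (nat_lit 146)) (XT.lf (nat_lit 0) (nat_lit 36373552685) (nat_lit 228) (nat_lit 53676813731) (nat_lit 76) (nat_lit 37528948427)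 (nat_lit 17) (nat_lit 5) (nat_lit 20) (nat_lit 5) (nat_lit 18) (nat_lit 4) (nat_lit 353) (nat_lit 282) (nat_lit 145))) (XT.nd (nat_lit 78) (nat_lit 76) (nat_lit 0) (XT.lf (nat_lit 0) (nat_lit 62123145006) (nat_lit 228) (nat_lit 1412743740) (nat_lit 76) (nat_lit 69509177452) (nat_lit 17) (nat_lit 5) (nat_lit 20) (nat_lit 5) (nat_lit 18) (nat_lit 4) (nat_lit 354) (nat_lit 282) (nat_lit 144)) (XT.lf (nat_lit 0) (nat_lit 54522086753) (nat_lit 76) (nat_lit 35158728643) (nat_lit 152) (nat_lit 49087672855) (nat_lit 16) (nat_lit 5) (nat_lit 17) (nat_lit 5) (nat_lit 18) (nat_lit 4) (nat_lit 355) (nat_lit 282) (nat_lit 143))))) (XT.nd (nat_lit 312) (nat_lit 76) (nat_lit 0) (XT.nd (nat_lit 78) (nat_lit 152) (nat_lit 0) (XT.lf (nat_lit 0) (nat_lit 113276998130) (nat_lit 76) (nat_lit 5350520220) (nat_lit 152) (nat_lit 26150229619) (nat_lit 16) (nat_lit 5) (nat_lit 17) (nat_lit 5) (nat_lit 18) (nat_lit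 4) (nat_lit 356) (nat_lit 282) (nat_lit 142)) (XT.nd (nat_lit 78) (nat_lit 76) (nat_lit 0) (XT.lf (nat_lit 0) (nat_lit 24097014112) (nat_lit 76) (nat_lit 125402348752) (nat_lit 76) (nat_lit 1573774599) (nat_lit 15) (nat_lit 4) (nat_lit 16) (nat_lit 5) (nat_lit 16) (nat_lit 4) (nat_lit 357) (nat_lit 282) (nat_lit 141)) (XT.lf (nat_lit 0) (nat_lit 24136955869) (nat_lit 152) (nat_lit 74836626096) (nat_lit 76) (nat_lit 58691378640) (nat_lit 14) (nat_lit 5) (nat_lit 16) (nat_lit 5) (nat_lit 15) (nat_lit 4) (nat_lit 358) (nat_lit 282) (nat_lit 140)))) (XT.nd (nat_lit 34710) (nat_lit 0) (nat_lit 14972) (XT.nd (nat_lit 34632) (nat_lit 0) (nat_lit 14972) (XT.lf (nat_lit 0) (nat_lit 38087564054) (nat_lit 76) (nat_lit 41682633764) (nat_lit 152) (nat_lit 92071977864) (nat_lit 13) (nat_lit 5) (nat_lit 14) (nat_lit 5) (nat_lit 15) (nat_lit 4) (nat_lit 360) (nat_lit 282) (nat_lit 138)) (XT.lf (nat_lit 0)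 (nat_lit 5569306233) (nat_lit 1140) (nat_lit 424607359) (nat_lit 1140) (nat_lit 424607359) (nat_lit 210) (nat_lit 3) (nat_lit 225) (nat_lit 3) (nat_lit 225) (nat_lit 5) (nat_lit 283) (nat_lit 283) (nat_lit 214))) (XT.nd (nat_lit 78) (nat_lit 0) (nat_lit 76) (XT.lf (nat_lit 76) (nat_lit 9065826346) (nat_lit 0) (nat_lit 3076096671) (nat_lit 1140) (nat_lit 993511649) (nat_lit 211) (nat_lit 5) (nat_lit 210) (nat_lit 3) (nat_lit 225) (nat_lit 5) (nat_lit 284) (nat_lit 283) (nat_lit 213)) (XT.lf (nat_lit 76) (nat_lit 6081144238) (nat_lit 0) (nat_lit 7201078911) (nat_lit 1140) (nat_lit 163969632) (nat_lit 212) (nat_lit 5) (nat_lit 211) (nat_lit 5) (nat_lit 226) (nat_lit 5) (nat_lit 285) (nat_lit 283) (nat_lit 212))))))) (XT.nd (nat_lit 1092) (nat_lit 5016) (nat_lit 0) (XT.nd (nat_lit 546) (nat_lit 3192) (nat_lit 0) (XT.nd (nat_lit 234) (nat_lit 0) (nat_lit 152) (XT.nd (nat_lit 78) (nat_lit 0) (nat_lit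 0) (XT.lf (nat_lit 0) (nat_lit 778458465) (nat_lit 1140) (nat_lit 10741080294) (nat_lit 1216) (nat_lit 2250236602) (nat_lit 197) (nat_lit 5) (nat_lit 212) (nat_lit 5) (nat_lit 213) (nat_lit 5) (nat_lit 286) (nat_lit 283) (nat_lit 211)) (XT.nd (nat_lit 78) (nat_lit 0) (nat_lit 76) (XT.lf (nat_lit 0) (nat_lit 1876170615) (nat_lit 1140) (nat_lit 110095400) (nat_lit 1216) (nat_lit 12119920151) (nat_lit 197) (nat_lit 5) (nat_lit 212) (nat_lit 5) (nat_lit 213) (nat_lit 5) (nat_lit 287) (nat_lit 283) (nat_lit 210)) (XT.lf (nat_lit 0) (nat_lit 3179299598) (nat_lit 1140) (nat_lit 3286313563) (nat_lit 1216) (nat_lit 7989330713) (nat_lit 198) (nat_lit 5) (nat_lit 213) (nat_lit 5) (nat_lit 214) (nat_lit 5) (nat_lit 288) (nat_lit 283) (nat_lit 209)))) (XT.nd (nat_lit 156) (nat_lit 0) (nat_lit 76) (XT.nd (nat_lit 78) (nat_lit 0) (nat_lit 0) (XT.lf (nat_lit 0) (nat_lit 4649898683) (nat_lit 1140) (nat_lit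 6543290633) (nat_lit 1216) (nat_lit 3624921029) (nat_lit 199) (nat_lit 5) (nat_lit 214) (nat_lit 5) (nat_lit 215) (nat_lit 5) (nat_lit 289) (nat_lit 283) (nat_lit 208)) (XT.lf (nat_lit 76) (nat_lit 5298410742) (nat_lit 0) (nat_lit 1013177528) (nat_lit 1216) (nat_lit 8884358423) (nat_lit 200) (nat_lit 5) (nat_lit 199) (nat_lit 5) (nat_lit 215) (nat_lit 5) (nat_lit 290) (nat_lit 283) (nat_lit 207))) (XT.nd (nat_lit 78) (nat_lit 0) (nat_lit 76) (XT.lf (nat_lit 76) (nat_lit 2203567327) (nat_lit 0) (nat_lit 6003639093) (nat_lit 1216) (nat_lit 7380979654) (nat_lit 201) (nat_lit 5) (nat_lit 200) (nat_lit 5) (nat_lit 216) (nat_lit 5) (nat_lit 291) (nat_lit 283) (nat_lit 206)) (XT.lf (nat_lit 0) (nat_lit 10325687001) (nat_lit 1140) (nat_lit 961006387) (nat_lit 1216) (nat_lit 4709536392) (nat_lit 201) (nat_lit 5) (nat_lit 216) (nat_lit 5) (nat_lit 217) (nat_lit 5) (nat_lit 292) (nat_lit 283) (nat_lit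 205))))) (XT.nd (nat_lit 234) (nat_lit 1672) (nat_lit 0) (XT.nd (nat_lit 78) (nat_lit 1824) (nat_lit 0) (XT.lf (nat_lit 76) (nat_lit 12238825633) (nat_lit 0) (nat_lit 460901783) (nat_lit 1216) (nat_lit 3720492326) (nat_lit 202) (nat_lit 5) (nat_lit 201) (nat_lit 5) (nat_lit 217) (nat_lit 5) (nat_lit 293) (nat_lit 283) (nat_lit 204)) (XT.nd (nat_lit 78) (nat_lit 760) (nat_lit 0) (XT.lf (nat_lit 0) (nat_lit 9306868207) (nat_lit 1140) (nat_lit 6062478243) (nat_lit 1216) (nat_lit 1490788019) (nat_lit 187) (nat_lit 5) (nat_lit 202) (nat_lit 5) (nat_lit 203) (nat_lit 5) (nat_lit 294) (nat_lit 283) (nat_lit 203)) (XT.lf (nat_lit 0) (nat_lit 968066149) (nat_lit 760) (nat_lit 11048348324) (nat_lit 76) (nat_lit 5301386637) (nat_lit 177) (nat_lit 5) (nat_lit 187) (nat_lit 5) (nat_lit 178) (nat_lit 5) (nat_lit 295) (nat_lit 283) (nat_lit 202)))) (XT.nd (nat_lit 156) (nat_lit 1064) (nat_lit 0) (XT.nd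 (nat_lit 78) (nat_lit 0) (nat_lit 0) (XT.lf (nat_lit 0) (nat_lit 3105249610) (nat_lit 608) (nat_lit 558092151) (nat_lit 684) (nat_lit 14130264995) (nat_lit 169) (nat_lit 5) (nat_lit 177) (nat_lit 5) (nat_lit 178) (nat_lit 5) (nat_lit 296) (nat_lit 283) (nat_lit 201)) (XT.lf (nat_lit 0) (nat_lit 6694001198) (nat_lit 684) (nat_lit 227373647) (nat_lit 76) (nat_lit 11365835710) (nat_lit 169) (nat_lit 5) (nat_lit 178) (nat_lit 5) (nat_lit 170) (nat_lit 5) (nat_lit 297) (nat_lit 283) (nat_lit 200))) (XT.nd (nat_lit 78) (nat_lit 532) (nat_lit 0) (XT.lf (nat_lit 0) (nat_lit 10055013149) (nat_lit 608) (nat_lit 3626165620) (nat_lit 76) (nat_lit 5118976402) (nat_lit 162) (nat_lit 5) (nat_lit 170) (nat_lit 5) (nat_lit 163) (nat_lit 5) (nat_lit 298) (nat_lit 283) (nat_lit 199)) (XT.lf (nat_lit 0) (nat_lit 12156313676) (nat_lit 532) (nat_lit 1594389678) (nat_lit 608) (nat_lit 5583068847) (nat_lit 155)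 (nat_lit 5) (nat_lit 162) (nat_lit 5) (nat_lit 163) (nat_lit 5) (nat_lit 299) (nat_lit 283) (nat_lit 198)))))) (XT.nd (nat_lit 546) (nat_lit 2128) (nat_lit 0) (XT.nd (nat_lit 234) (nat_lit 1368) (nat_lit 0) (XT.nd (nat_lit 78) (nat_lit 1064) (nat_lit 0) (XT.lf (nat_lit 0) (nat_lit 8955931518) (nat_lit 456) (nat_lit 8884109818) (nat_lit 532) (nat_lit 2047785717) (nat_lit 149) (nat_lit 5) (nat_lit 155) (nat_lit 5) (nat_lit 156) (nat_lit 5) (nat_lit 300) (nat_lit 283) (nat_lit 197)) (XT.nd (nat_lit 78) (nat_lit 456) (nat_lit 0) (XT.lf (nat_lit 0) (nat_lit 1792920083) (nat_lit 608) (nat_lit 14869297666) (nat_lit 76) (nat_lit 3802074078) (nat_lit 141) (nat_lit 5) (nat_lit 149) (nat_lit 5) (nat_lit 142) (nat_lit 5) (nat_lit 301) (nat_lit 283) (nat_lit 196)) (XT.lf (nat_lit 0) (nat_lit 2016056054) (nat_lit 456) (nat_lit 3970120073) (nat_lit 532) (nat_lit 15076729609) (nat_lit 135) (nat_lit 5) (nat_lit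 141) (nat_lit 5) (nat_lit 142) (nat_lit 5) (nat_lit 302) (nat_lit 283) (nat_lit 195)))) (XT.nd (nat_lit 156) (nat_lit 912) (nat_lit 0) (XT.nd (nat_lit 78) (nat_lit 456) (nat_lit 0) (XT.lf (nat_lit 0) (nat_lit 10614126926) (nat_lit 532) (nat_lit 1744156946) (nat_lit 76) (nat_lit 9326434688) (nat_lit 135) (nat_lit 5) (nat_lit 142) (nat_lit 5) (nat_lit 136) (nat_lit 5) (nat_lit 303) (nat_lit 283) (nat_lit 194)) (XT.lf (nat_lit 0) (nat_lit 15665326120) (nat_lit 532) (nat_lit 5654050648) (nat_lit 76) (nat_lit 1012507999) (nat_lit 129) (nat_lit 5) (nat_lit 136) (nat_lit 5) (nat_lit 130) (nat_lit 5) (nat_lit 304) (nat_lit 283) (nat_lit 193))) (XT.nd (nat_lit 78) (nat_lit 532) (nat_lit 0) (XT.lf (nat_lit 0) (nat_lit 13157228652) (nat_lit 380) (nat_lit 8063296710) (nat_lit 456) (nat_lit 1783358116) (nat_lit 124) (nat_lit 5) (nat_lit 129) (nat_lit 5) (nat_lit 130) (nat_lit 5) (nat_lit 305) (nat_lit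 283) (nat_lit 192)) (XT.lf (nat_lit 0) (nat_lit 3468990762) (nat_lit 532) (nat_lit 14312307981) (nat_lit 76) (nat_lit 5921527873) (nat_lit 117) (nat_lit 5) (nat_lit 124) (nat_lit 5) (nat_lit 118) (nat_lit 5) (nat_lit 306) (nat_lit 283) (nat_lit 191))))) (XT.nd (nat_lit 234) (nat_lit 1368) (nat_lit 0) (XT.nd (nat_lit 78) (nat_lit 380) (nat_lit 0) (XT.lf (nat_lit 0) (nat_lit 5344797656) (nat_lit 380) (nat_lit 3820915988) (nat_lit 456) (nat_lit 15263929702) (nat_lit 112) (nat_lit 5) (nat_lit 117) (nat_lit 5) (nat_lit 118) (nat_lit 5) (nat_lit 307) (nat_lit 283) (nat_lit 190)) (XT.nd (nat_lit 78) (nat_lit 0) (nat_lit 0) (XT.lf (nat_lit 0) (nat_lit 988496737) (nat_lit 380) (nat_lit 14404983617) (nat_lit 456) (nat_lit 9791948917) (nat_lit 107) (nat_lit 5) (nat_lit 112) (nat_lit 5) (nat_lit 113) (nat_lit 5) (nat_lit 308) (nat_lit 283) (nat_lit 189)) (XT.lf (nat_lit 0) (nat_lit 22154039459) (nat_lit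 456) (nat_lit 3569923116) (nat_lit 76) (nat_lit 248413692) (nat_lit 107) (nat_lit 5) (nat_lit 113) (nat_lit 5) (nat_lit 108) (nat_lit 5) (nat_lit 309) (nat_lit 283) (nat_lit 188)))) (XT.nd (nat_lit 156) (nat_lit 608) (nat_lit 0) (XT.nd (nat_lit 78) (nat_lit 380) (nat_lit 0) (XT.lf (nat_lit 0) (nat_lit 2715229067) (nat_lit 380) (nat_lit 8535858512) (nat_lit 76) (nat_lit 15537613452) (nat_lit 102) (nat_lit 5) (nat_lit 107) (nat_lit 5) (nat_lit 103) (nat_lit 5) (nat_lit 310) (nat_lit 283) (nat_lit 187)) (XT.lf (nat_lit 0) (nat_lit 9692427973) (nat_lit 456) (nat_lit 13872079101) (nat_lit 76) (nat_lit 4074335322) (nat_lit 97) (nat_lit 5) (nat_lit 103) (nat_lit 5) (nat_lit 98) (nat_lit 5) (nat_lit 311) (nat_lit 283) (nat_lit 186))) (XT.nd (nat_lit 78) (nat_lit 304) (nat_lit 0) (XT.lf (nat_lit 0) (nat_lit 8873684650) (nat_lit 304) (nat_lit 8418273890) (nat_lit 380) (nat_lit 11231339791) (nat_lit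 93) (nat_lit 5) (nat_lit 97) (nat_lit 5) (nat_lit 98) (nat_lit 5) (nat_lit 312) (nat_lit 283) (nat_lit 185)) (XT.lf (nat_lit 0) (nat_lit 3576446888) (nat_lit 304) (nat_lit 21931886245) (nat_lit 380) (nat_lit 3936549004) (nat_lit 89) (nat_lit 5) (nat_lit 93) (nat_lit 5) (nat_lit 94) (nat_lit 5) (nat_lit 313) (nat_lit 283) (nat_lit 184))))))))
noncomputable def xc88 : XT := (XT.nd (nat_lit 2106) (nat_lit 1292) (nat_lit 0) (XT.nd (nat_lit 1014) (nat_lit 1672) (nat_lit 0) (XT.nd (nat_lit 468) (nat_lit 1444) (nat_lit 0) (XT.nd (nat_lit 234) (nat_lit 608) (nat_lit 0) (XT.nd (nat_lit 78) (nat_lit 608) (nat_lit 0) (XT.lf (nat_lit 0) (nat_lit 3926232974) (nat_lit 380) (nat_lit 2173443993) (nat_lit 76) (nat_lit 24303527788) (nat_lit 88) (nat_lit 5) (nat_lit 93) (nat_lit 5) (nat_lit 89) (nat_lit 5) (nat_lit 314) (nat_lit 283) (nat_lit 183)) (XT.nd (nat_lit 78) (nat_lit 304) (nat_lit 0) (XT.lf (nat_lit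 0) (nat_lit 12414542179) (nat_lit 380) (nat_lit 8406120231) (nat_lit 76) (nat_lit 10578207536) (nat_lit 84) (nat_lit 5) (nat_lit 89) (nat_lit 5) (nat_lit 85) (nat_lit 5) (nat_lit 315) (nat_lit 283) (nat_lit 182)) (XT.lf (nat_lit 0) (nat_lit 17276798034) (nat_lit 304) (nat_lit 4288386470) (nat_lit 380) (nat_lit 10872005671) (nat_lit 80) (nat_lit 5) (nat_lit 84) (nat_lit 5) (nat_lit 85) (nat_lit 5) (nat_lit 316) (nat_lit 283) (nat_lit 181)))) (XT.nd (nat_lit 78) (nat_lit 380) (nat_lit 0) (XT.lf (nat_lit 0) (nat_lit 10964774485) (nat_lit 228) (nat_lit 20515071182) (nat_lit 304) (nat_lit 2038395011) (nat_lit 77) (nat_lit 5) (nat_lit 80) (nat_lit 5) (nat_lit 81) (nat_lit 5) (nat_lit 317) (nat_lit 283) (nat_lit 180)) (XT.nd (nat_lit 78) (nat_lit 0) (nat_lit 0) (XT.lf (nat_lit 0) (nat_lit 4011095498) (nat_lit 304) (nat_lit 3312370193) (nat_lit 380) (nat_lit 27320965625) (nat_lit 72) (nat_lit 5)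 (nat_lit 76) (nat_lit 5) (nat_lit 77) (nat_lit 5) (nat_lit 318) (nat_lit 283) (nat_lit 179)) (XT.lf (nat_lit 0) (nat_lit 17476593750) (nat_lit 380) (nat_lit 3626372799) (nat_lit 76) (nat_lit 14712407336) (nat_lit 72) (nat_lit 5) (nat_lit 77) (nat_lit 5) (nat_lit 73) (nat_lit 5) (nat_lit 319) (nat_lit 283) (nat_lit 178))))) (XT.nd (nat_lit 234) (nat_lit 684) (nat_lit 0) (XT.nd (nat_lit 78) (nat_lit 532) (nat_lit 0) (XT.lf (nat_lit 0) (nat_lit 25172590360) (nat_lit 228) (nat_lit 3229416022) (nat_lit 304) (nat_lit 8634925791) (nat_lit 69) (nat_lit 5) (nat_lit 72) (nat_lit 5) (nat_lit 73) (nat_lit 5) (nat_lit 320) (nat_lit 283) (nat_lit 177)) (XT.nd (nat_lit 78) (nat_lit 228) (nat_lit 0) (XT.lf (nat_lit 0) (nat_lit 1870476984) (nat_lit 304) (nat_lit 20986043392) (nat_lit 76) (nat_lit 15452206231) (nat_lit 65) (nat_lit 5) (nat_lit 69) (nat_lit 5) (nat_lit 66) (nat_lit 5) (nat_lit 321) (nat_lit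 283) (nat_lit 176)) (XT.lf (nat_lit 0) (nat_lit 8607870508) (nat_lit 228) (nat_lit 4344813989) (nat_lit 304) (nat_lit 26681964440) (nat_lit 62) (nat_lit 5) (nat_lit 65) (nat_lit 5) (nat_lit 66) (nat_lit 5) (nat_lit 322) (nat_lit 283) (nat_lit 175)))) (XT.nd (nat_lit 156) (nat_lit 456) (nat_lit 0) (XT.nd (nat_lit 78) (nat_lit 228) (nat_lit 0) (XT.lf (nat_lit 0) (nat_lit 24942317677) (nat_lit 304) (nat_lit 1063062208) (nat_lit 76) (nat_lit 15010894276) (nat_lit 62) (nat_lit 5) (nat_lit 66) (nat_lit 5) (nat_lit 63) (nat_lit 5) (nat_lit 323) (nat_lit 283) (nat_lit 174)) (XT.lf (nat_lit 0) (nat_lit 30944068776) (nat_lit 228) (nat_lit 6919208818) (nat_lit 304) (nat_lit 4593753639) (nat_lit 59) (nat_lit 5) (nat_lit 62) (nat_lit 5) (nat_lit 63) (nat_lit 5) (nat_lit 324) (nat_lit 283) (nat_lit 173))) (XT.nd (nat_lit 78) (nat_lit 228) (nat_lit 0) (XT.lf (nat_lit 0) (nat_lit 7646732137) (nat_lit 228)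 (nat_lit 23164198587) (nat_lit 76) (nat_lit 13146793892) (nat_lit 56) (nat_lit 5) (nat_lit 59) (nat_lit 5) (nat_lit 57) (nat_lit 5) (nat_lit 325) (nat_lit 283) (nat_lit 172)) (XT.lf (nat_lit 0) (nat_lit 9479305102) (nat_lit 228) (nat_lit 11197472062) (nat_lit 304) (nat_lit 24847140028) (nat_lit 53) (nat_lit 5) (nat_lit 56) (nat_lit 5) (nat_lit 57) (nat_lit 5) (nat_lit 326) (nat_lit 283) (nat_lit 171)))))) (XT.nd (nat_lit 546) (nat_lit 684) (nat_lit 0) (XT.nd (nat_lit 234) (nat_lit 532) (nat_lit 0) (XT.nd (nat_lit 78) (nat_lit 456) (nat_lit 0) (XT.lf (nat_lit 0) (nat_lit 34680721344) (nat_lit 304) (nat_lit 3029033211) (nat_lit 76) (nat_lit 9448997915) (nat_lit 53) (nat_lit 5) (nat_lit 57) (nat_lit 5) (nat_lit 54) (nat_lit 5) (nat_lit 327) (nat_lit 283) (nat_lit 170)) (XT.nd (nat_lit 78) (nat_lit 228) (nat_lit 0) (XT.lf (nat_lit 0) (nat_lit 917300679) (nat_lit 228) (nat_lit 16733940212) (nat_lit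 76) (nat_lit 31211414980) (nat_lit 50) (nat_lit 5) (nat_lit 53) (nat_lit 5) (nat_lit 51) (nat_lit 5) (nat_lit 328) (nat_lit 283) (nat_lit 169)) (XT.lf (nat_lit 0) (nat_lit 14965731422) (nat_lit 304) (nat_lit 31996067680) (nat_lit 76) (nat_lit 3679011465) (nat_lit 47) (nat_lit 5) (nat_lit 51) (nat_lit 5) (nat_lit 48) (nat_lit 5) (nat_lit 329) (nat_lit 283) (nat_lit 168)))) (XT.nd (nat_lit 156) (nat_lit 380) (nat_lit 0) (XT.nd (nat_lit 78) (nat_lit 0) (nat_lit 0) (XT.lf (nat_lit 0) (nat_lit 3515023116) (nat_lit 152) (nat_lit 26579548148) (nat_lit 228) (nat_lit 22401966282) (nat_lit 45) (nat_lit 5) (nat_lit 47) (nat_lit 5) (nat_lit 48) (nat_lit 5) (nat_lit 330) (nat_lit 283) (nat_lit 167)) (XT.lf (nat_lit 0) (nat_lit 41457617255) (nat_lit 152) (nat_lit 4843936770) (nat_lit 228) (nat_lit 8133849801) (nat_lit 45) (nat_lit 5) (nat_lit 47) (nat_lit 5) (nat_lit 48) (nat_lit 5) (nat_lit 331) (nat_lit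 283) (nat_lit 166))) (XT.nd (nat_lit 78) (nat_lit 152) (nat_lit 0) (XT.lf (nat_lit 0) (nat_lit 7125124214) (nat_lit 228) (nat_lit 31397395223) (nat_lit 76) (nat_lit 17934390705) (nat_lit 42) (nat_lit 5) (nat_lit 45) (nat_lit 5) (nat_lit 43) (nat_lit 5) (nat_lit 332) (nat_lit 283) (nat_lit 165)) (XT.lf (nat_lit 0) (nat_lit 6680399161) (nat_lit 152) (nat_lit 16540826495) (nat_lit 228) (nat_lit 35348581651) (nat_lit 40) (nat_lit 5) (nat_lit 42) (nat_lit 5) (nat_lit 43) (nat_lit 5) (nat_lit 333) (nat_lit 283) (nat_lit 164))))) (XT.nd (nat_lit 234) (nat_lit 304) (nat_lit 0) (XT.nd (nat_lit 78) (nat_lit 380) (nat_lit 0) (XT.lf (nat_lit 0) (nat_lit 40504401850) (nat_lit 228) (nat_lit 13538387958) (nat_lit 76) (nat_lit 6734094767) (nat_lit 40) (nat_lit 5) (nat_lit 43) (nat_lit 5) (nat_lit 41) (nat_lit 5) (nat_lit 334) (nat_lit 283) (nat_lit 163)) (XT.nd (nat_lit 78) (nat_lit 228) (nat_lit 0) (XT.lf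 (nat_lit 0) (nat_lit 27080367930) (nat_lit 152) (nat_lit 31991961227) (nat_lit 228) (nat_lit 4009371958) (nat_lit 38) (nat_lit 5) (nat_lit 40) (nat_lit 5) (nat_lit 41) (nat_lit 5) (nat_lit 335) (nat_lit 283) (nat_lit 162)) (XT.lf (nat_lit 0) (nat_lit 4464417459) (nat_lit 152) (nat_lit 8524628965) (nat_lit 228) (nat_lit 52503632760) (nat_lit 35) (nat_lit 5) (nat_lit 37) (nat_lit 5) (nat_lit 38) (nat_lit 5) (nat_lit 336) (nat_lit 283) (nat_lit 161)))) (XT.nd (nat_lit 156) (nat_lit 152) (nat_lit 0) (XT.nd (nat_lit 78) (nat_lit 152) (nat_lit 0) (XT.lf (nat_lit 0) (nat_lit 31278063360) (nat_lit 228) (nat_lit 20517304993) (nat_lit 76) (nat_lit 16211941770) (nat_lit 35) (nat_lit 5) (nat_lit 38) (nat_lit 5) (nat_lit 36) (nat_lit 5) (nat_lit 337) (nat_lit 283) (nat_lit 160)) (XT.lf (nat_lit 0) (nat_lit 22359044784) (nat_lit 152) (nat_lit 28417397251) (nat_lit 228) (nat_lit 19862385913) (nat_lit 33)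 (nat_lit 5) (nat_lit 35) (nat_lit 5) (nat_lit 36) (nat_lit 5) (nat_lit 338) (nat_lit 283) (nat_lit 159))) (XT.nd (nat_lit 78) (nat_lit 152) (nat_lit 0) (XT.lf (nat_lit 0) (nat_lit 67797842901) (nat_lit 152) (nat_lit 3657236467) (nat_lit 228) (nat_lit 1940684641) (nat_lit 33) (nat_lit 5) (nat_lit 35) (nat_lit 5) (nat_lit 36) (nat_lit 5) (nat_lit 339) (nat_lit 283) (nat_lit 158)) (XT.lf (nat_lit 0) (nat_lit 17145038572) (nat_lit 152) (nat_lit 36671338453) (nat_lit 76) (nat_lit 22451387107) (nat_lit 31) (nat_lit 5) (nat_lit 33) (nat_lit 5) (nat_lit 32) (nat_lit 5) (nat_lit 340) (nat_lit 283) (nat_lit 157))))))) (XT.nd (nat_lit 1092) (nat_lit 228) (nat_lit 0) (XT.nd (nat_lit 546) (nat_lit 532) (nat_lit 0) (XT.nd (nat_lit 234) (nat_lit 304) (nat_lit 0) (XT.nd (nat_lit 78) (nat_lit 76) (nat_lit 0) (XT.lf (nat_lit 0) (nat_lit 7974777842) (nat_lit 152) (nat_lit 29336768082) (nat_lit 228) (nat_lit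 41966245103) (nat_lit 29) (nat_lit 5) (nat_lit 31) (nat_lit 5) (nat_lit 32) (nat_lit 5) (nat_lit 341) (nat_lit 283) (nat_lit 156)) (XT.nd (nat_lit 78) (nat_lit 76) (nat_lit 0) (XT.lf (nat_lit 0) (nat_lit 55610196821) (nat_lit 152) (nat_lit 3248346661) (nat_lit 228) (nat_lit 23568612967) (nat_lit 29) (nat_lit 5) (nat_lit 31) (nat_lit 5) (nat_lit 32) (nat_lit 5) (nat_lit 342) (nat_lit 283) (nat_lit 155)) (XT.lf (nat_lit 0) (nat_lit 20043424313) (nat_lit 76) (nat_lit 61859111155) (nat_lit 152) (nat_lit 3818867364) (nat_lit 28) (nat_lit 5) (nat_lit 29) (nat_lit 5) (nat_lit 30) (nat_lit 4) (nat_lit 343) (nat_lit 283) (nat_lit 154)))) (XT.nd (nat_lit 156) (nat_lit 76) (nat_lit 0) (XT.nd (nat_lit 78) (nat_lit 152) (nat_lit 0) (XT.lf (nat_lit 0) (nat_lit 16894795672) (nat_lit 152) (nat_lit 19571849650) (nat_lit 76) (nat_lit 52699642145) (nat_lit 27) (nat_lit 5) (nat_lit 29) (nat_lit 5) (nat_lit 28)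 (nat_lit 5) (nat_lit 344) (nat_lit 283) (nat_lit 153)) (XT.lf (nat_lit 0) (nat_lit 29365648004) (nat_lit 152) (nat_lit 9477758941) (nat_lit 228) (nat_lit 53930529504) (nat_lit 25) (nat_lit 5) (nat_lit 27) (nat_lit 5) (nat_lit 28) (nat_lit 5) (nat_lit 345) (nat_lit 283) (nat_lit 152))) (XT.nd (nat_lit 78) (nat_lit 76) (nat_lit 0) (XT.lf (nat_lit 0) (nat_lit 62269562485) (nat_lit 228) (nat_lit 15588490306) (nat_lit 76) (nat_lit 18692513377) (nat_lit 25) (nat_lit 5) (nat_lit 28) (nat_lit 5) (nat_lit 26) (nat_lit 4) (nat_lit 346) (nat_lit 283) (nat_lit 151)) (XT.lf (nat_lit 0) (nat_lit 35205734580) (nat_lit 76) (nat_lit 52090937906) (nat_lit 152) (nat_lit 13206467105) (nat_lit 24) (nat_lit 5) (nat_lit 25) (nat_lit 5) (nat_lit 26) (nat_lit 4) (nat_lit 347) (nat_lit 283) (nat_lit 150))))) (XT.nd (nat_lit 234) (nat_lit 304) (nat_lit 0) (XT.nd (nat_lit 78) (nat_lit 152) (nat_lit 0) (XT.lf (nat_lit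 0) (nat_lit 8905418178) (nat_lit 152) (nat_lit 15878208025) (nat_lit 76) (nat_lit 79862412579) (nat_lit 23) (nat_lit 5) (nat_lit 25) (nat_lit 5) (nat_lit 24) (nat_lit 5) (nat_lit 348) (nat_lit 283) (nat_lit 149)) (XT.nd (nat_lit 78) (nat_lit 0) (nat_lit 0) (XT.lf (nat_lit 0) (nat_lit 32242006591) (nat_lit 228) (nat_lit 72438637153) (nat_lit 76) (nat_lit 4299750737) (nat_lit 21) (nat_lit 5) (nat_lit 24) (nat_lit 5) (nat_lit 22) (nat_lit 4) (nat_lit 349) (nat_lit 283) (nat_lit 148)) (XT.lf (nat_lit 0) (nat_lit 57156605864) (nat_lit 228) (nat_lit 21871065402) (nat_lit 76) (nat_lit 34491462612) (nat_lit 21) (nat_lit 5) (nat_lit 24) (nat_lit 5) (nat_lit 22) (nat_lit 4) (nat_lit 350) (nat_lit 283) (nat_lit 147)))) (XT.nd (nat_lit 156) (nat_lit 228) (nat_lit 0) (XT.nd (nat_lit 78) (nat_lit 0) (nat_lit 0) (XT.lf (nat_lit 0) (nat_lit 31839265283) (nat_lit 76) (nat_lit 51779884326) (nat_lit 152) (nat_lit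 34656595494) (nat_lit 20) (nat_lit 5) (nat_lit 21) (nat_lit 5) (nat_lit 22) (nat_lit 4) (nat_lit 351) (nat_lit 283) (nat_lit 146)) (XT.lf (nat_lit 0) (nat_lit 88685433362) (nat_lit 76) (nat_lit 22940804965) (nat_lit 152) (nat_lit 11637307262) (nat_lit 20) (nat_lit 5) (nat_lit 21) (nat_lit 5) (nat_lit 22) (nat_lit 4) (nat_lit 352) (nat_lit 283) (nat_lit 145))) (XT.nd (nat_lit 78) (nat_lit 0) (nat_lit 0) (XT.lf (nat_lit 0) (nat_lit 12552029079) (nat_lit 228) (nat_lit 108425847896) (nat_lit 76) (nat_lit 7511336634) (nat_lit 17) (nat_lit 5) (nat_lit 20) (nat_lit 5) (nat_lit 18) (nat_lit 4) (nat_lit 353) (nat_lit 283) (nat_lit 144)) (XT.lf (nat_lit 0) (nat_lit 38299913498) (nat_lit 228) (nat_lit 56164882924) (nat_lit 76) (nat_lit 39490220307) (nat_lit 17) (nat_lit 5) (nat_lit 20) (nat_lit 5) (nat_lit 18) (nat_lit 4) (nat_lit 354) (nat_lit 283) (nat_lit 143)))))) (XT.nd (nat_lit 35256) (nat_lit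 0) (nat_lit 13832) (XT.nd (nat_lit 234) (nat_lit 152) (nat_lit 0) (XT.nd (nat_lit 78) (nat_lit 76) (nat_lit 0) (XT.lf (nat_lit 0) (nat_lit 65331857665) (nat_lit 228) (nat_lit 1296931885) (nat_lit 76) (nat_lit 73065421524) (nat_lit 17) (nat_lit 5) (nat_lit 20) (nat_lit 5) (nat_lit 18) (nat_lit 4) (nat_lit 355) (nat_lit 283) (nat_lit 142)) (XT.nd (nat_lit 78) (nat_lit 0) (nat_lit 0) (XT.lf (nat_lit 0) (nat_lit 57429295608) (nat_lit 76) (nat_lit 36834973263) (nat_lit 152) (nat_lit 51439631153) (nat_lit 16) (nat_lit 5) (nat_lit 17) (nat_lit 5) (nat_lit 18) (nat_lit 4) (nat_lit 356) (nat_lit 283) (nat_lit 141)) (XT.lf (nat_lit 0) (nat_lit 119113328529) (nat_lit 76) (nat_lit 5540244505) (nat_lit 152) (nat_lit 27360193153) (nat_lit 16) (nat_lit 5) (nat_lit 17) (nat_lit 5) (nat_lit 18) (nat_lit 4) (nat_lit 357) (nat_lit 283) (nat_lit 140)))) (XT.nd (nat_lit 34866) (nat_lit 0) (nat_lit 13756) (XT.nd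 (nat_lit 156) (nat_lit 76) (nat_lit 0) (XT.lf (nat_lit 0) (nat_lit 25471461688) (nat_lit 76) (nat_lit 131595382107) (nat_lit 76) (nat_lit 1557147713) (nat_lit 15) (nat_lit 4) (nat_lit 16) (nat_lit 5) (nat_lit 16) (nat_lit 4) (nat_lit 358) (nat_lit 283) (nat_lit 139)) (XT.lf (nat_lit 0) (nat_lit 53737602725) (nat_lit 152) (nat_lit 20961654201) (nat_lit 76) (nat_lit 98113465805) (nat_lit 14) (nat_lit 5) (nat_lit 16) (nat_lit 5) (nat_lit 15) (nat_lit 4) (nat_lit 360) (nat_lit 283) (nat_lit 137))) (XT.nd (nat_lit 78) (nat_lit 1140) (nat_lit 0) (XT.lf (nat_lit 0) (nat_lit 6475514246) (nat_lit 1140) (nat_lit 122162422) (nat_lit 1140) (nat_lit 122162422) (nat_lit 210) (nat_lit 3) (nat_lit 225) (nat_lit 3) (nat_lit 225) (nat_lit 5) (nat_lit 284) (nat_lit 284) (nat_lit 212)) (XT.lf (nat_lit 0) (nat_lit 192260865) (nat_lit 1140) (nat_lit 3608649487) (nat_lit 1216) (nat_lit 9953709773) (nat_lit 195)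 (nat_lit 5) (nat_lit 210) (nat_lit 3) (nat_lit 211) (nat_lit 5) (nat_lit 285) (nat_lit 284) (nat_lit 211))))) (XT.nd (nat_lit 234) (nat_lit 0) (nat_lit 152) (XT.nd (nat_lit 78) (nat_lit 0) (nat_lit 76) (XT.lf (nat_lit 0) (nat_lit 989459579) (nat_lit 1140) (nat_lit 7054654342) (nat_lit 1216) (nat_lit 6038324056) (nat_lit 196) (nat_lit 5) (nat_lit 211) (nat_lit 5) (nat_lit 212) (nat_lit 5) (nat_lit 286) (nat_lit 284) (nat_lit 210)) (XT.nd (nat_lit 78) (nat_lit 0) (nat_lit 0) (XT.lf (nat_lit 0) (nat_lit 1922471519) (nat_lit 1140) (nat_lit 10581621049) (nat_lit 1216) (nat_lit 1919717855) (nat_lit 197) (nat_lit 5) (nat_lit 212) (nat_lit 5) (nat_lit 213) (nat_lit 5) (nat_lit 287) (nat_lit 284) (nat_lit 209)) (XT.lf (nat_lit 76) (nat_lit 558647006) (nat_lit 0) (nat_lit 2469168987) (nat_lit 1216) (nat_lit 11750705326) (nat_lit 198) (nat_lit 5) (nat_lit 197) (nat_lit 5) (nat_lit 213) (nat_lit 5) (nat_lit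 288) (nat_lit 284) (nat_lit 208)))) (XT.nd (nat_lit 156) (nat_lit 0) (nat_lit 76) (XT.nd (nat_lit 78) (nat_lit 0) (nat_lit 76) (XT.lf (nat_lit 0) (nat_lit 4343306584) (nat_lit 1140) (nat_lit 2771360595) (nat_lit 1216) (nat_lit 8031692583) (nat_lit 198) (nat_lit 5) (nat_lit 213) (nat_lit 5) (nat_lit 214) (nat_lit 5) (nat_lit 289) (nat_lit 284) (nat_lit 207)) (XT.lf (nat_lit 0) (nat_lit 5842999242) (nat_lit 1140) (nat_lit 6177708391) (nat_lit 1216) (nat_lit 3508366208) (nat_lit 199) (nat_lit 5) (nat_lit 214) (nat_lit 5) (nat_lit 215) (nat_lit 5) (nat_lit 290) (nat_lit 284) (nat_lit 206))) (XT.nd (nat_lit 78) (nat_lit 0) (nat_lit 76) (XT.lf (nat_lit 76) (nat_lit 6236220606) (nat_lit 0) (nat_lit 1312277800) (nat_lit 1216) (nat_lit 8378535362) (nat_lit 200) (nat_lit 5) (nat_lit 199) (nat_lit 5) (nat_lit 215) (nat_lit 5) (nat_lit 291) (nat_lit 284) (nat_lit 205)) (XT.lf (nat_lit 76) (nat_lit 2997553782)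 (nat_lit 0) (nat_lit 6501769524) (nat_lit 1216) (nat_lit 6840800007) (nat_lit 201) (nat_lit 5) (nat_lit 200) (nat_lit 5) (nat_lit 216) (nat_lit 5) (nat_lit 292) (nat_lit 284) (nat_lit 204))))))))
noncomputable def xc89 : XT := (XT.nd (nat_lit 2184) (nat_lit 3648) (nat_lit 0) (XT.nd (nat_lit 1092) (nat_lit 3952) (nat_lit 0) (XT.nd (nat_lit 546) (nat_lit 2888) (nat_lit 0) (XT.nd (nat_lit 234) (nat_lit 1900) (nat_lit 0) (XT.nd (nat_lit 78) (nat_lit 1064) (nat_lit 0) (XT.lf (nat_lit 0) (nat_lit 11679927316) (nat_lit 1140) (nat_lit 329834845) (nat_lit 1216) (nat_lit 4760169603) (nat_lit 201) (nat_lit 5) (nat_lit 216) (nat_lit 5) (nat_lit 217) (nat_lit 5) (nat_lit 293) (nat_lit 284) (nat_lit 203)) (XT.nd (nat_lit 78) (nat_lit 1064) (nat_lit 0) (XT.lf (nat_lit 76) (nat_lit 13510519018) (nat_lit 0) (nat_lit 628590009) (nat_lit 1216) (nat_lit 3077065248) (nat_lit 202) (nat_lit 5) (nat_lit 201) (nat_lit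 5) (nat_lit 217) (nat_lit 5) (nat_lit 294) (nat_lit 284) (nat_lit 202)) (XT.lf (nat_lit 0) (nat_lit 10438740818) (nat_lit 1140) (nat_lit 6470246557) (nat_lit 1216) (nat_lit 770138041) (nat_lit 187) (nat_lit 5) (nat_lit 202) (nat_lit 5) (nat_lit 203) (nat_lit 5) (nat_lit 295) (nat_lit 284) (nat_lit 201)))) (XT.nd (nat_lit 156) (nat_lit 532) (nat_lit 0) (XT.nd (nat_lit 78) (nat_lit 608) (nat_lit 0) (XT.lf (nat_lit 0) (nat_lit 1764568070) (nat_lit 760) (nat_lit 10913335184) (nat_lit 76) (nat_lit 5482530743) (nat_lit 177) (nat_lit 5) (nat_lit 187) (nat_lit 5) (nat_lit 178) (nat_lit 5) (nat_lit 296) (nat_lit 284) (nat_lit 200)) (XT.lf (nat_lit 0) (nat_lit 3928237588) (nat_lit 608) (nat_lit 637164716) (nat_lit 684) (nat_lit 14095542547) (nat_lit 169) (nat_lit 5) (nat_lit 177) (nat_lit 5) (nat_lit 178) (nat_lit 5) (nat_lit 297) (nat_lit 284) (nat_lit 199))) (XT.nd (nat_lit 78) (nat_lit 0) (nat_lit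 0) (XT.lf (nat_lit 0) (nat_lit 427271074) (nat_lit 532) (nat_lit 7289729372) (nat_lit 608) (nat_lit 11463183149) (nat_lit 162) (nat_lit 5) (nat_lit 169) (nat_lit 5) (nat_lit 170) (nat_lit 5) (nat_lit 298) (nat_lit 284) (nat_lit 198)) (XT.lf (nat_lit 0) (nat_lit 11215334044) (nat_lit 608) (nat_lit 3148032376) (nat_lit 76) (nat_lit 5356366057) (nat_lit 162) (nat_lit 5) (nat_lit 170) (nat_lit 5) (nat_lit 163) (nat_lit 5) (nat_lit 299) (nat_lit 284) (nat_lit 197))))) (XT.nd (nat_lit 234) (nat_lit 1292) (nat_lit 0) (XT.nd (nat_lit 78) (nat_lit 1064) (nat_lit 0) (XT.lf (nat_lit 0) (nat_lit 13404668127) (nat_lit 532) (nat_lit 1665985015) (nat_lit 608) (nat_lit 5210165378) (nat_lit 155) (nat_lit 5) (nat_lit 162) (nat_lit 5) (nat_lit 163) (nat_lit 5) (nat_lit 300) (nat_lit 284) (nat_lit 196)) (XT.nd (nat_lit 78) (nat_lit 608) (nat_lit 0) (XT.lf (nat_lit 0) (nat_lit 10044909339) (nat_lit 456) (nat_lit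 9295671503) (nat_lit 532) (nat_lit 1522743485) (nat_lit 149) (nat_lit 5) (nat_lit 155) (nat_lit 5) (nat_lit 156) (nat_lit 5) (nat_lit 301) (nat_lit 284) (nat_lit 195)) (XT.lf (nat_lit 0) (nat_lit 2474982526) (nat_lit 608) (nat_lit 14959532821) (nat_lit 76) (nat_lit 4034628698) (nat_lit 141) (nat_lit 5) (nat_lit 149) (nat_lit 5) (nat_lit 142) (nat_lit 5) (nat_lit 302) (nat_lit 284) (nat_lit 194)))) (XT.nd (nat_lit 156) (nat_lit 836) (nat_lit 0) (XT.nd (nat_lit 78) (nat_lit 0) (nat_lit 0) (XT.lf (nat_lit 0) (nat_lit 2751363886) (nat_lit 456) (nat_lit 4104426430) (nat_lit 532) (nat_lit 15242589755) (nat_lit 135) (nat_lit 5) (nat_lit 141) (nat_lit 5) (nat_lit 142) (nat_lit 5) (nat_lit 303) (nat_lit 284) (nat_lit 193)) (XT.lf (nat_lit 0) (nat_lit 11688568996) (nat_lit 532) (nat_lit 1210832551) (nat_lit 76) (nat_lit 9852705833) (nat_lit 135) (nat_lit 5) (nat_lit 142) (nat_lit 5) (nat_lit 136) (nat_lit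 5) (nat_lit 304) (nat_lit 284) (nat_lit 192))) (XT.nd (nat_lit 78) (nat_lit 380) (nat_lit 0) (XT.lf (nat_lit 0) (nat_lit 16972990352) (nat_lit 532) (nat_lit 5318550113) (nat_lit 76) (nat_lit 1140697044) (nat_lit 129) (nat_lit 5) (nat_lit 136) (nat_lit 5) (nat_lit 130) (nat_lit 5) (nat_lit 305) (nat_lit 284) (nat_lit 191)) (XT.lf (nat_lit 0) (nat_lit 14415572486) (nat_lit 380) (nat_lit 8371177944) (nat_lit 456) (nat_lit 1351685963) (nat_lit 124) (nat_lit 5) (nat_lit 129) (nat_lit 5) (nat_lit 130) (nat_lit 5) (nat_lit 306) (nat_lit 284) (nat_lit 190)))))) (XT.nd (nat_lit 546) (nat_lit 1596) (nat_lit 0) (XT.nd (nat_lit 234) (nat_lit 1064) (nat_lit 0) (XT.nd (nat_lit 78) (nat_lit 760) (nat_lit 0) (XT.lf (nat_lit 0) (nat_lit 4135481017) (nat_lit 532) (nat_lit 14420089248) (nat_lit 76) (nat_lit 6317157736) (nat_lit 117) (nat_lit 5) (nat_lit 124) (nat_lit 5) (nat_lit 118) (nat_lit 5) (nat_lit 307)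 (nat_lit 284) (nat_lit 189)) (XT.nd (nat_lit 78) (nat_lit 380) (nat_lit 0) (XT.lf (nat_lit 0) (nat_lit 6202448228) (nat_lit 380) (nat_lit 3896789075) (nat_lit 456) (nat_lit 15537203715) (nat_lit 112) (nat_lit 5) (nat_lit 117) (nat_lit 5) (nat_lit 118) (nat_lit 5) (nat_lit 308) (nat_lit 284) (nat_lit 188)) (XT.lf (nat_lit 0) (nat_lit 1624596451) (nat_lit 380) (nat_lit 14997859385) (nat_lit 456) (nat_lit 9808058848) (nat_lit 107) (nat_lit 5) (nat_lit 112) (nat_lit 5) (nat_lit 113) (nat_lit 5) (nat_lit 309) (nat_lit 284) (nat_lit 187)))) (XT.nd (nat_lit 156) (nat_lit 684) (nat_lit 0) (XT.nd (nat_lit 78) (nat_lit 380) (nat_lit 0) (XT.lf (nat_lit 0) (nat_lit 23700337485) (nat_lit 456) (nat_lit 3177336856) (nat_lit 76) (nat_lit 379775232) (nat_lit 107) (nat_lit 5) (nat_lit 113) (nat_lit 5) (nat_lit 108) (nat_lit 5) (nat_lit 310) (nat_lit 284) (nat_lit 186)) (XT.lf (nat_lit 0) (nat_lit 3278583788)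 (nat_lit 380) (nat_lit 8399070626) (nat_lit 76) (nat_lit 16437295456) (nat_lit 102) (nat_lit 5) (nat_lit 107) (nat_lit 5) (nat_lit 103) (nat_lit 5) (nat_lit 311) (nat_lit 284) (nat_lit 185))) (XT.nd (nat_lit 78) (nat_lit 304) (nat_lit 0) (XT.lf (nat_lit 0) (nat_lit 10590840296) (nat_lit 456) (nat_lit 14006838061) (nat_lit 76) (nat_lit 4410351084) (nat_lit 97) (nat_lit 5) (nat_lit 103) (nat_lit 5) (nat_lit 98) (nat_lit 5) (nat_lit 312) (nat_lit 284) (nat_lit 184)) (XT.lf (nat_lit 0) (nat_lit 9860194699) (nat_lit 304) (nat_lit 8695666338) (nat_lit 380) (nat_lit 11381297982) (nat_lit 93) (nat_lit 5) (nat_lit 97) (nat_lit 5) (nat_lit 98) (nat_lit 5) (nat_lit 313) (nat_lit 284) (nat_lit 183))))) (XT.nd (nat_lit 234) (nat_lit 912) (nat_lit 0) (XT.nd (nat_lit 78) (nat_lit 380) (nat_lit 0) (XT.lf (nat_lit 0) (nat_lit 4293146519) (nat_lit 304) (nat_lit 22877377661) (nat_lit 380) (nat_lit 3734689222)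 (nat_lit 89) (nat_lit 5) (nat_lit 93) (nat_lit 5) (nat_lit 94) (nat_lit 5) (nat_lit 314) (nat_lit 284) (nat_lit 182)) (XT.nd (nat_lit 78) (nat_lit 304) (nat_lit 0) (XT.lf (nat_lit 0) (nat_lit 4494837394) (nat_lit 380) (nat_lit 1762156474) (nat_lit 76) (nat_lit 25654916062) (nat_lit 88) (nat_lit 5) (nat_lit 93) (nat_lit 5) (nat_lit 89) (nat_lit 5) (nat_lit 315) (nat_lit 284) (nat_lit 181)) (XT.lf (nat_lit 0) (nat_lit 13396088671) (nat_lit 380) (nat_lit 8311715774) (nat_lit 76) (nat_lit 11249911770) (nat_lit 84) (nat_lit 5) (nat_lit 89) (nat_lit 5) (nat_lit 85) (nat_lit 5) (nat_lit 316) (nat_lit 284) (nat_lit 180)))) (XT.nd (nat_lit 156) (nat_lit 380) (nat_lit 0) (XT.nd (nat_lit 78) (nat_lit 228) (nat_lit 0) (XT.lf (nat_lit 0) (nat_lit 18640594332) (nat_lit 304) (nat_lit 4351292791) (nat_lit 380) (nat_lit 11056449594) (nat_lit 80) (nat_lit 5) (nat_lit 84) (nat_lit 5) (nat_lit 85) (nat_lit 5)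 (nat_lit 317) (nat_lit 284) (nat_lit 179)) (XT.lf (nat_lit 0) (nat_lit 12007629650) (nat_lit 228) (nat_lit 21384200789) (nat_lit 304) (nat_lit 1791935199) (nat_lit 77) (nat_lit 5) (nat_lit 80) (nat_lit 5) (nat_lit 81) (nat_lit 5) (nat_lit 318) (nat_lit 284) (nat_lit 178))) (XT.nd (nat_lit 78) (nat_lit 0) (nat_lit 0) (XT.lf (nat_lit 0) (nat_lit 4698925120) (nat_lit 304) (nat_lit 3320713480) (nat_lit 380) (nat_lit 28346885630) (nat_lit 72) (nat_lit 5) (nat_lit 76) (nat_lit 5) (nat_lit 77) (nat_lit 5) (nat_lit 319) (nat_lit 284) (nat_lit 177)) (XT.lf (nat_lit 0) (nat_lit 18666148629) (nat_lit 380) (nat_lit 3335413655) (nat_lit 76) (nat_lit 15594890766) (nat_lit 72) (nat_lit 5) (nat_lit 77) (nat_lit 5) (nat_lit 73) (nat_lit 5) (nat_lit 320) (nat_lit 284) (nat_lit 176))))))) (XT.nd (nat_lit 1092) (nat_lit 1216) (nat_lit 0) (XT.nd (nat_lit 546) (nat_lit 988) (nat_lit 0) (XT.nd (nat_lit 234) (nat_lit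 684) (nat_lit 0) (XT.nd (nat_lit 78) (nat_lit 532) (nat_lit 0) (XT.lf (nat_lit 0) (nat_lit 26889959914) (nat_lit 228) (nat_lit 3237247134) (nat_lit 304) (nat_lit 8752211318) (nat_lit 69) (nat_lit 5) (nat_lit 72) (nat_lit 5) (nat_lit 73) (nat_lit 5) (nat_lit 321) (nat_lit 284) (nat_lit 175)) (XT.nd (nat_lit 78) (nat_lit 228) (nat_lit 0) (XT.lf (nat_lit 0) (nat_lit 2263463726) (nat_lit 304) (nat_lit 21575945986) (nat_lit 76) (nat_lit 16375577564) (nat_lit 65) (nat_lit 5) (nat_lit 69) (nat_lit 5) (nat_lit 66) (nat_lit 5) (nat_lit 322) (nat_lit 284) (nat_lit 174)) (XT.lf (nat_lit 0) (nat_lit 9484495012) (nat_lit 228) (nat_lit 4405315910) (nat_lit 304) (nat_lit 27717703054) (nat_lit 62) (nat_lit 5) (nat_lit 65) (nat_lit 5) (nat_lit 66) (nat_lit 5) (nat_lit 323) (nat_lit 284) (nat_lit 173)))) (XT.nd (nat_lit 156) (nat_lit 456) (nat_lit 0) (XT.nd (nat_lit 78) (nat_lit 228) (nat_lit 0) (XT.lf (nat_lit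 0) (nat_lit 26466575341) (nat_lit 304) (nat_lit 684223206) (nat_lit 76) (nat_lit 15907801124) (nat_lit 62) (nat_lit 5) (nat_lit 66) (nat_lit 5) (nat_lit 63) (nat_lit 5) (nat_lit 324) (nat_lit 284) (nat_lit 172)) (XT.lf (nat_lit 0) (nat_lit 32910881360) (nat_lit 228) (nat_lit 7113538205) (nat_lit 304) (nat_lit 4547258224) (nat_lit 59) (nat_lit 5) (nat_lit 62) (nat_lit 5) (nat_lit 63) (nat_lit 5) (nat_lit 325) (nat_lit 284) (nat_lit 171))) (XT.nd (nat_lit 78) (nat_lit 228) (nat_lit 0) (XT.lf (nat_lit 0) (nat_lit 8292389814) (nat_lit 228) (nat_lit 23902879579) (nat_lit 76) (nat_lit 13952288644) (nat_lit 56) (nat_lit 5) (nat_lit 59) (nat_lit 5) (nat_lit 57) (nat_lit 5) (nat_lit 326) (nat_lit 284) (nat_lit 170)) (XT.lf (nat_lit 0) (nat_lit 10360773582) (nat_lit 228) (nat_lit 11604541582) (nat_lit 304) (nat_lit 25827011029) (nat_lit 53) (nat_lit 5) (nat_lit 56) (nat_lit 5) (nat_lit 57) (nat_lit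 5) (nat_lit 327) (nat_lit 284) (nat_lit 169))))) (XT.nd (nat_lit 234) (nat_lit 532) (nat_lit 0) (XT.nd (nat_lit 78) (nat_lit 456) (nat_lit 0) (XT.lf (nat_lit 0) (nat_lit 36658726924) (nat_lit 304) (nat_lit 2786369408) (nat_lit 76) (nat_lit 10064135739) (nat_lit 53) (nat_lit 5) (nat_lit 57) (nat_lit 5) (nat_lit 54) (nat_lit 5) (nat_lit 328) (nat_lit 284) (nat_lit 168)) (XT.nd (nat_lit 78) (nat_lit 228) (nat_lit 0) (XT.lf (nat_lit 0) (nat_lit 1201664200) (nat_lit 228) (nat_lit 17182943945) (nat_lit 76) (nat_lit 32913897097) (nat_lit 50) (nat_lit 5) (nat_lit 53) (nat_lit 5) (nat_lit 51) (nat_lit 5) (nat_lit 329) (nat_lit 284) (nat_lit 167)) (XT.lf (nat_lit 0) (nat_lit 15946181028) (nat_lit 304) (nat_lit 33213647445) (nat_lit 76) (nat_lit 4005935381) (nat_lit 47) (nat_lit 5) (nat_lit 51) (nat_lit 5) (nat_lit 48) (nat_lit 5) (nat_lit 330) (nat_lit 284) (nat_lit 166)))) (XT.nd (nat_lit 156) (nat_lit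 380) (nat_lit 0) (XT.nd (nat_lit 78) (nat_lit 0) (nat_lit 0) (XT.lf (nat_lit 0) (nat_lit 4062041526) (nat_lit 152) (nat_lit 27761934801) (nat_lit 228) (nat_lit 23290531277) (nat_lit 45) (nat_lit 5) (nat_lit 47) (nat_lit 5) (nat_lit 48) (nat_lit 5) (nat_lit 331) (nat_lit 284) (nat_lit 165)) (XT.lf (nat_lit 0) (nat_lit 43884085980) (nat_lit 152) (nat_lit 4946523365) (nat_lit 228) (nat_lit 8320034368) (nat_lit 45) (nat_lit 5) (nat_lit 47) (nat_lit 5) (nat_lit 48) (nat_lit 5) (nat_lit 332) (nat_lit 284) (nat_lit 164))) (XT.nd (nat_lit 78) (nat_lit 152) (nat_lit 0) (XT.lf (nat_lit 0) (nat_lit 7691963819) (nat_lit 228) (nat_lit 32614479449) (nat_lit 76) (nat_lit 18966892267) (nat_lit 42) (nat_lit 5) (nat_lit 45) (nat_lit 5) (nat_lit 43) (nat_lit 5) (nat_lit 333) (nat_lit 284) (nat_lit 163)) (XT.lf (nat_lit 0) (nat_lit 7357092127) (nat_lit 152) (nat_lit 17229044408) (nat_lit 228) (nat_lit 36905947923)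 (nat_lit 40) (nat_lit 5) (nat_lit 42) (nat_lit 5) (nat_lit 43) (nat_lit 5) (nat_lit 334) (nat_lit 284) (nat_lit 162)))))) (XT.nd (nat_lit 546) (nat_lit 532) (nat_lit 0) (XT.nd (nat_lit 234) (nat_lit 304) (nat_lit 0) (XT.nd (nat_lit 78) (nat_lit 380) (nat_lit 0) (XT.lf (nat_lit 0) (nat_lit 42725035326) (nat_lit 228) (nat_lit 13884305674) (nat_lit 76) (nat_lit 7200432331) (nat_lit 40) (nat_lit 5) (nat_lit 43) (nat_lit 5) (nat_lit 41) (nat_lit 5) (nat_lit 335) (nat_lit 284) (nat_lit 161)) (XT.nd (nat_lit 78) (nat_lit 228) (nat_lit 0) (XT.lf (nat_lit 0) (nat_lit 28755899911) (nat_lit 152) (nat_lit 33459244273) (nat_lit 228) (nat_lit 4014877390) (nat_lit 38) (nat_lit 5) (nat_lit 40) (nat_lit 5) (nat_lit 41) (nat_lit 5) (nat_lit 336) (nat_lit 284) (nat_lit 160)) (XT.lf (nat_lit 0) (nat_lit 5003714766) (nat_lit 152) (nat_lit 8819878234) (nat_lit 228) (nat_lit 54938085355) (nat_lit 35) (nat_lit 5)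 (nat_lit 37) (nat_lit 5) (nat_lit 38) (nat_lit 5) (nat_lit 337) (nat_lit 284) (nat_lit 159)))) (XT.nd (nat_lit 156) (nat_lit 152) (nat_lit 0) (XT.nd (nat_lit 78) (nat_lit 152) (nat_lit 0) (XT.lf (nat_lit 0) (nat_lit 33019445896) (nat_lit 228) (nat_lit 21237977728) (nat_lit 76) (nat_lit 17144849568) (nat_lit 35) (nat_lit 5) (nat_lit 38) (nat_lit 5) (nat_lit 36) (nat_lit 5) (nat_lit 338) (nat_lit 284) (nat_lit 158)) (XT.lf (nat_lit 0) (nat_lit 23773441257) (nat_lit 152) (nat_lit 29713700453) (nat_lit 228) (nat_lit 20678396968) (nat_lit 33) (nat_lit 5) (nat_lit 35) (nat_lit 5) (nat_lit 36) (nat_lit 5) (nat_lit 339) (nat_lit 284) (nat_lit 157))) (XT.nd (nat_lit 78) (nat_lit 152) (nat_lit 0) (XT.lf (nat_lit 0) (nat_lit 71470062888) (nat_lit 152) (nat_lit 3721463376) (nat_lit 228) (nat_lit 1869044358) (nat_lit 33) (nat_lit 5) (nat_lit 35) (nat_lit 5) (nat_lit 36) (nat_lit 5) (nat_lit 340) (nat_lit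 284) (nat_lit 156)) (XT.lf (nat_lit 0) (nat_lit 18163593459) (nat_lit 152) (nat_lit 38223663606) (nat_lit 76) (nat_lit 23688990721) (nat_lit 31) (nat_lit 5) (nat_lit 33) (nat_lit 5) (nat_lit 32) (nat_lit 5) (nat_lit 341) (nat_lit 284) (nat_lit 155))))) (XT.nd (nat_lit 234) (nat_lit 304) (nat_lit 0) (XT.nd (nat_lit 78) (nat_lit 76) (nat_lit 0) (XT.lf (nat_lit 0) (nat_lit 8646696765) (nat_lit 152) (nat_lit 30686674293) (nat_lit 228) (nat_lit 43903559736) (nat_lit 29) (nat_lit 5) (nat_lit 31) (nat_lit 5) (nat_lit 32) (nat_lit 5) (nat_lit 342) (nat_lit 284) (nat_lit 154)) (XT.nd (nat_lit 78) (nat_lit 76) (nat_lit 0) (XT.lf (nat_lit 0) (nat_lit 58650878120) (nat_lit 152) (nat_lit 3299400001) (nat_lit 228) (nat_lit 24593712547) (nat_lit 29) (nat_lit 5) (nat_lit 31) (nat_lit 5) (nat_lit 32) (nat_lit 5) (nat_lit 343) (nat_lit 284) (nat_lit 153)) (XT.lf (nat_lit 0) (nat_lit 21301663346) (nat_lit 76)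 (nat_lit 64841201295) (nat_lit 152) (nat_lit 3860195710) (nat_lit 28) (nat_lit 5) (nat_lit 29) (nat_lit 5) (nat_lit 30) (nat_lit 4) (nat_lit 344) (nat_lit 284) (nat_lit 152)))) (XT.nd (nat_lit 156) (nat_lit 76) (nat_lit 0) (XT.nd (nat_lit 78) (nat_lit 152) (nat_lit 0) (XT.lf (nat_lit 0) (nat_lit 17879245450) (nat_lit 152) (nat_lit 20303735229) (nat_lit 76) (nat_lit 55437377572) (nat_lit 27) (nat_lit 5) (nat_lit 29) (nat_lit 5) (nat_lit 28) (nat_lit 5) (nat_lit 345) (nat_lit 284) (nat_lit 151)) (XT.lf (nat_lit 0) (nat_lit 31073565504) (nat_lit 152) (nat_lit 9847372445) (nat_lit 228) (nat_lit 56487584703) (nat_lit 25) (nat_lit 5) (nat_lit 27) (nat_lit 5) (nat_lit 28) (nat_lit 5) (nat_lit 346) (nat_lit 284) (nat_lit 150))) (XT.nd (nat_lit 78) (nat_lit 76) (nat_lit 0) (XT.lf (nat_lit 0) (nat_lit 65512910139) (nat_lit 228) (nat_lit 16136730660) (nat_lit 76) (nat_lit 19724510163) (nat_lit 25) (nat_lit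 5) (nat_lit 28) (nat_lit 5) (nat_lit 26) (nat_lit 4) (nat_lit 347) (nat_lit 284) (nat_lit 149)) (XT.lf (nat_lit 0) (nat_lit 37190578623) (nat_lit 76) (nat_lit 54596771336) (nat_lit 152) (nat_lit 13737126126) (nat_lit 24) (nat_lit 5) (nat_lit 25) (nat_lit 5) (nat_lit 26) (nat_lit 4) (nat_lit 348) (nat_lit 284) (nat_lit 148))))))))
noncomputable def xc90 : XT := (XT.nd (nat_lit 36894) (nat_lit 0) (nat_lit 2964) (XT.nd (nat_lit 35802) (nat_lit 0) (nat_lit 11248) (XT.nd (nat_lit 468) (nat_lit 228) (nat_lit 0) (XT.nd (nat_lit 234) (nat_lit 304) (nat_lit 0) (XT.nd (nat_lit 78) (nat_lit 152) (nat_lit 0) (XT.lf (nat_lit 0) (nat_lit 9471769198) (nat_lit 152) (nat_lit 16455802821) (nat_lit 76) (nat_lit 83947094534) (nat_lit 23) (nat_lit 5) (nat_lit 25) (nat_lit 5) (nat_lit 24) (nat_lit 5) (nat_lit 349) (nat_lit 284) (nat_lit 147)) (XT.nd (nat_lit 78) (nat_lit 0) (nat_lit 0) (XT.lf (nat_lit 0) (nat_lit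 33972332931) (nat_lit 228) (nat_lit 75847786113) (nat_lit 76) (nat_lit 4605708603) (nat_lit 21) (nat_lit 5) (nat_lit 24) (nat_lit 5) (nat_lit 22) (nat_lit 4) (nat_lit 350) (nat_lit 284) (nat_lit 146)) (XT.lf (nat_lit 0) (nat_lit 60127032358) (nat_lit 228) (nat_lit 22761968294) (nat_lit 76) (nat_lit 36302674152) (nat_lit 21) (nat_lit 5) (nat_lit 24) (nat_lit 5) (nat_lit 22) (nat_lit 4) (nat_lit 351) (nat_lit 284) (nat_lit 145)))) (XT.nd (nat_lit 78) (nat_lit 228) (nat_lit 0) (XT.lf (nat_lit 0) (nat_lit 33628069994) (nat_lit 76) (nat_lit 54281163734) (nat_lit 152) (nat_lit 36276988754) (nat_lit 20) (nat_lit 5) (nat_lit 21) (nat_lit 5) (nat_lit 22) (nat_lit 4) (nat_lit 352) (nat_lit 284) (nat_lit 144)) (XT.nd (nat_lit 78) (nat_lit 228) (nat_lit 0) (XT.lf (nat_lit 0) (nat_lit 93307173074) (nat_lit 76) (nat_lit 24004307300) (nat_lit 152) (nat_lit 12112090230) (nat_lit 20) (nat_lit 5) (nat_lit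 21) (nat_lit 5) (nat_lit 22) (nat_lit 4) (nat_lit 353) (nat_lit 284) (nat_lit 143)) (XT.lf (nat_lit 0) (nat_lit 13282185941) (nat_lit 228) (nat_lit 113660691250) (nat_lit 76) (nat_lit 7967688665) (nat_lit 17) (nat_lit 5) (nat_lit 20) (nat_lit 5) (nat_lit 18) (nat_lit 4) (nat_lit 354) (nat_lit 284) (nat_lit 142))))) (XT.nd (nat_lit 234) (nat_lit 152) (nat_lit 0) (XT.nd (nat_lit 78) (nat_lit 76) (nat_lit 0) (XT.lf (nat_lit 0) (nat_lit 40312580991) (nat_lit 228) (nat_lit 58795556555) (nat_lit 76) (nat_lit 41541669607) (nat_lit 17) (nat_lit 5) (nat_lit 20) (nat_lit 5) (nat_lit 18) (nat_lit 4) (nat_lit 355) (nat_lit 284) (nat_lit 141)) (XT.nd (nat_lit 78) (nat_lit 76) (nat_lit 0) (XT.lf (nat_lit 0) (nat_lit 68691471327) (nat_lit 228) (nat_lit 1192663702) (nat_lit 76) (nat_lit 76791967157) (nat_lit 17) (nat_lit 5) (nat_lit 20) (nat_lit 5) (nat_lit 18) (nat_lit 4) (nat_lit 356) (nat_lit 284) (nat_lit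 140)) (XT.lf (nat_lit 0) (nat_lit 60465027524) (nat_lit 76) (nat_lit 38602625045) (nat_lit 152) (nat_lit 53918709903) (nat_lit 16) (nat_lit 5) (nat_lit 17) (nat_lit 5) (nat_lit 18) (nat_lit 4) (nat_lit 357) (nat_lit 284) (nat_lit 139)))) (XT.nd (nat_lit 34944) (nat_lit 0) (nat_lit 13756) (XT.nd (nat_lit 156) (nat_lit 152) (nat_lit 0) (XT.lf (nat_lit 0) (nat_lit 125225439846) (nat_lit 76) (nat_lit 5746688272) (nat_lit 152) (nat_lit 28639723947) (nat_lit 16) (nat_lit 5) (nat_lit 17) (nat_lit 5) (nat_lit 18) (nat_lit 4) (nat_lit 358) (nat_lit 284) (nat_lit 138)) (XT.lf (nat_lit 0) (nat_lit 26785180029) (nat_lit 152) (nat_lit 82187762937) (nat_lit 76) (nat_lit 64847400851) (nat_lit 14) (nat_lit 5) (nat_lit 16) (nat_lit 5) (nat_lit 15) (nat_lit 4) (nat_lit 360) (nat_lit 284) (nat_lit 136))) (XT.nd (nat_lit 78) (nat_lit 0) (nat_lit 0) (XT.lf (nat_lit 0) (nat_lit 163691787) (nat_lit 0) (nat_lit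 163691787) (nat_lit 1140) (nat_lit 6710470868) (nat_lit 195) (nat_lit 5) (nat_lit 195) (nat_lit 3) (nat_lit 210) (nat_lit 3) (nat_lit 285) (nat_lit 285) (nat_lit 210)) (XT.lf (nat_lit 0) (nat_lit 1303997951) (nat_lit 1140) (nat_lit 3195511444) (nat_lit 1216) (nat_lit 9908477014) (nat_lit 195) (nat_lit 5) (nat_lit 210) (nat_lit 3) (nat_lit 211) (nat_lit 5) (nat_lit 286) (nat_lit 285) (nat_lit 209)))))) (XT.nd (nat_lit 546) (nat_lit 2584) (nat_lit 0) (XT.nd (nat_lit 234) (nat_lit 0) (nat_lit 152) (XT.nd (nat_lit 78) (nat_lit 0) (nat_lit 76) (XT.lf (nat_lit 0) (nat_lit 2089515845) (nat_lit 1140) (nat_lit 6793335681) (nat_lit 1216) (nat_lit 5870951803) (nat_lit 196) (nat_lit 5) (nat_lit 211) (nat_lit 5) (nat_lit 212) (nat_lit 5) (nat_lit 287) (nat_lit 285) (nat_lit 208)) (XT.nd (nat_lit 78) (nat_lit 0) (nat_lit 0) (XT.lf (nat_lit 0) (nat_lit 3020944421) (nat_lit 1140) (nat_lit 10478944042) (nat_lit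 1216) (nat_lit 1613861955) (nat_lit 197) (nat_lit 5) (nat_lit 212) (nat_lit 5) (nat_lit 213) (nat_lit 5) (nat_lit 288) (nat_lit 285) (nat_lit 207)) (XT.lf (nat_lit 76) (nat_lit 1200228197) (nat_lit 0) (nat_lit 2939495769) (nat_lit 1216) (nat_lit 11347784050) (nat_lit 198) (nat_lit 5) (nat_lit 197) (nat_lit 5) (nat_lit 213) (nat_lit 5) (nat_lit 289) (nat_lit 285) (nat_lit 206)))) (XT.nd (nat_lit 156) (nat_lit 0) (nat_lit 76) (XT.nd (nat_lit 78) (nat_lit 0) (nat_lit 76) (XT.lf (nat_lit 0) (nat_lit 5472074639) (nat_lit 1140) (nat_lit 2293811939) (nat_lit 1216) (nat_lit 8109372753) (nat_lit 198) (nat_lit 5) (nat_lit 213) (nat_lit 5) (nat_lit 214) (nat_lit 5) (nat_lit 290) (nat_lit 285) (nat_lit 205)) (XT.lf (nat_lit 0) (nat_lit 7006446822) (nat_lit 1140) (nat_lit 5858252066) (nat_lit 1216) (nat_lit 3413670349) (nat_lit 199) (nat_lit 5) (nat_lit 214) (nat_lit 5) (nat_lit 215) (nat_lit 5) (nat_lit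 291) (nat_lit 285) (nat_lit 204))) (XT.nd (nat_lit 78) (nat_lit 0) (nat_lit 76) (XT.lf (nat_lit 76) (nat_lit 7158362091) (nat_lit 0) (nat_lit 1603235360) (nat_lit 1216) (nat_lit 7935746955) (nat_lit 200) (nat_lit 5) (nat_lit 199) (nat_lit 5) (nat_lit 215) (nat_lit 5) (nat_lit 292) (nat_lit 285) (nat_lit 203)) (XT.lf (nat_lit 76) (nat_lit 3767665564) (nat_lit 0) (nat_lit 7006403104) (nat_lit 1216) (nat_lit 6358142837) (nat_lit 201) (nat_lit 5) (nat_lit 200) (nat_lit 5) (nat_lit 216) (nat_lit 5) (nat_lit 293) (nat_lit 285) (nat_lit 202))))) (XT.nd (nat_lit 234) (nat_lit 1900) (nat_lit 0) (XT.nd (nat_lit 78) (nat_lit 1064) (nat_lit 0) (XT.lf (nat_lit 76) (nat_lit 275116170) (nat_lit 0) (nat_lit 12751502857) (nat_lit 1216) (nat_lit 4558047896) (nat_lit 202) (nat_lit 5) (nat_lit 201) (nat_lit 5) (nat_lit 217) (nat_lit 5) (nat_lit 294) (nat_lit 285) (nat_lit 201)) (XT.nd (nat_lit 78) (nat_lit 1064)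 (nat_lit 0) (XT.lf (nat_lit 76) (nat_lit 14784459575) (nat_lit 0) (nat_lit 791215099) (nat_lit 1216) (nat_lit 2478581372) (nat_lit 202) (nat_lit 5) (nat_lit 201) (nat_lit 5) (nat_lit 217) (nat_lit 5) (nat_lit 295) (nat_lit 285) (nat_lit 200)) (XT.lf (nat_lit 0) (nat_lit 11565239492) (nat_lit 1140) (nat_lit 6888674442) (nat_lit 1216) (nat_lit 87384735) (nat_lit 187) (nat_lit 5) (nat_lit 202) (nat_lit 5) (nat_lit 203) (nat_lit 5) (nat_lit 296) (nat_lit 285) (nat_lit 199)))) (XT.nd (nat_lit 156) (nat_lit 532) (nat_lit 0) (XT.nd (nat_lit 78) (nat_lit 608) (nat_lit 0) (XT.lf (nat_lit 0) (nat_lit 2531343968) (nat_lit 760) (nat_lit 10835482164) (nat_lit 76) (nat_lit 5680534626) (nat_lit 177) (nat_lit 5) (nat_lit 187) (nat_lit 5) (nat_lit 178) (nat_lit 5) (nat_lit 297) (nat_lit 285) (nat_lit 198)) (XT.lf (nat_lit 0) (nat_lit 4730296177) (nat_lit 608) (nat_lit 715433799) (nat_lit 684) (nat_lit 14127997046)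 (nat_lit 169) (nat_lit 5) (nat_lit 177) (nat_lit 5) (nat_lit 178) (nat_lit 5) (nat_lit 298) (nat_lit 285) (nat_lit 197))) (XT.nd (nat_lit 78) (nat_lit 0) (nat_lit 0) (XT.lf (nat_lit 0) (nat_lit 1057038115) (nat_lit 532) (nat_lit 7672243011) (nat_lit 608) (nat_lit 11390448876) (nat_lit 162) (nat_lit 5) (nat_lit 169) (nat_lit 5) (nat_lit 170) (nat_lit 5) (nat_lit 299) (nat_lit 285) (nat_lit 196)) (XT.lf (nat_lit 0) (nat_lit 12372536336) (nat_lit 608) (nat_lit 2707301091) (nat_lit 76) (nat_lit 5607350651) (nat_lit 162) (nat_lit 5) (nat_lit 170) (nat_lit 5) (nat_lit 163) (nat_lit 5) (nat_lit 300) (nat_lit 285) (nat_lit 195))))))) (XT.nd (nat_lit 1092) (nat_lit 3040) (nat_lit 0) (XT.nd (nat_lit 546) (nat_lit 2356) (nat_lit 0) (XT.nd (nat_lit 234) (nat_lit 1292) (nat_lit 0) (XT.nd (nat_lit 78) (nat_lit 1064) (nat_lit 0) (XT.lf (nat_lit 0) (nat_lit 14655889077) (nat_lit 532) (nat_lit 1741915425)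 (nat_lit 608) (nat_lit 4879238807) (nat_lit 155) (nat_lit 5) (nat_lit 162) (nat_lit 5) (nat_lit 163) (nat_lit 5) (nat_lit 301) (nat_lit 285) (nat_lit 194)) (XT.nd (nat_lit 78) (nat_lit 608) (nat_lit 0) (XT.lf (nat_lit 0) (nat_lit 11128725096) (nat_lit 456) (nat_lit 9730846185) (nat_lit 532) (nat_lit 1029781776) (nat_lit 149) (nat_lit 5) (nat_lit 155) (nat_lit 5) (nat_lit 156) (nat_lit 5) (nat_lit 302) (nat_lit 285) (nat_lit 193)) (XT.lf (nat_lit 0) (nat_lit 3136070825) (nat_lit 608) (nat_lit 15115010842) (nat_lit 76) (nat_lit 4274864366) (nat_lit 141) (nat_lit 5) (nat_lit 149) (nat_lit 5) (nat_lit 142) (nat_lit 5) (nat_lit 303) (nat_lit 285) (nat_lit 192)))) (XT.nd (nat_lit 156) (nat_lit 836) (nat_lit 0) (XT.nd (nat_lit 78) (nat_lit 0) (nat_lit 0) (XT.lf (nat_lit 0) (nat_lit 3464446846) (nat_lit 456) (nat_lit 4251416780) (nat_lit 532) (nat_lit 15471407374) (nat_lit 135) (nat_lit 5) (nat_lit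 141) (nat_lit 5) (nat_lit 142) (nat_lit 5) (nat_lit 304) (nat_lit 285) (nat_lit 191)) (XT.lf (nat_lit 0) (nat_lit 12766181774) (nat_lit 532) (nat_lit 708533142) (nat_lit 76) (nat_lit 10399717006) (nat_lit 135) (nat_lit 5) (nat_lit 142) (nat_lit 5) (nat_lit 136) (nat_lit 5) (nat_lit 305) (nat_lit 285) (nat_lit 190))) (XT.nd (nat_lit 78) (nat_lit 380) (nat_lit 0) (XT.lf (nat_lit 0) (nat_lit 18297284246) (nat_lit 532) (nat_lit 5023749212) (nat_lit 76) (nat_lit 1268084408) (nat_lit 129) (nat_lit 5) (nat_lit 136) (nat_lit 5) (nat_lit 130) (nat_lit 5) (nat_lit 306) (nat_lit 285) (nat_lit 189)) (XT.lf (nat_lit 0) (nat_lit 15681006350) (nat_lit 380) (nat_lit 8703311806) (nat_lit 456) (nat_lit 946852973) (nat_lit 124) (nat_lit 5) (nat_lit 129) (nat_lit 5) (nat_lit 130) (nat_lit 5) (nat_lit 307) (nat_lit 285) (nat_lit 188))))) (XT.nd (nat_lit 234) (nat_lit 1064) (nat_lit 0) (XT.nd (nat_lit 78) (nat_lit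 760) (nat_lit 0) (XT.lf (nat_lit 0) (nat_lit 4789457531) (nat_lit 532) (nat_lit 14589770235) (nat_lit 76) (nat_lit 6723313555) (nat_lit 117) (nat_lit 5) (nat_lit 124) (nat_lit 5) (nat_lit 118) (nat_lit 5) (nat_lit 308) (nat_lit 285) (nat_lit 187)) (XT.nd (nat_lit 78) (nat_lit 380) (nat_lit 0) (XT.lf (nat_lit 0) (nat_lit 7048090538) (nat_lit 380) (nat_lit 3987163483) (nat_lit 456) (nat_lit 15869689777) (nat_lit 112) (nat_lit 5) (nat_lit 117) (nat_lit 5) (nat_lit 118) (nat_lit 5) (nat_lit 309) (nat_lit 285) (nat_lit 186)) (XT.lf (nat_lit 0) (nat_lit 2237957682) (nat_lit 380) (nat_lit 15632220915) (nat_lit 456) (nat_lit 9868994656) (nat_lit 107) (nat_lit 5) (nat_lit 112) (nat_lit 5) (nat_lit 113) (nat_lit 5) (nat_lit 310) (nat_lit 285) (nat_lit 185)))) (XT.nd (nat_lit 156) (nat_lit 684) (nat_lit 0) (XT.nd (nat_lit 78) (nat_lit 380) (nat_lit 0) (XT.lf (nat_lit 0) (nat_lit 25283173909) (nat_lit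 456) (nat_lit 2818215113) (nat_lit 76) (nat_lit 506646856) (nat_lit 107) (nat_lit 5) (nat_lit 113) (nat_lit 5) (nat_lit 108) (nat_lit 5) (nat_lit 311) (nat_lit 285) (nat_lit 184)) (XT.lf (nat_lit 0) (nat_lit 3830352676) (nat_lit 380) (nat_lit 8307839747) (nat_lit 76) (nat_lit 17370544657) (nat_lit 102) (nat_lit 5) (nat_lit 107) (nat_lit 5) (nat_lit 103) (nat_lit 5) (nat_lit 312) (nat_lit 285) (nat_lit 183))) (XT.nd (nat_lit 78) (nat_lit 304) (nat_lit 0) (XT.lf (nat_lit 0) (nat_lit 11495702878) (nat_lit 456) (nat_lit 14200291079) (nat_lit 76) (nat_lit 4750867727) (nat_lit 97) (nat_lit 5) (nat_lit 103) (nat_lit 5) (nat_lit 98) (nat_lit 5) (nat_lit 313) (nat_lit 285) (nat_lit 182)) (XT.lf (nat_lit 0) (nat_lit 10845563451) (nat_lit 304) (nat_lit 9000271653) (nat_lit 380) (nat_lit 11577021567) (nat_lit 93) (nat_lit 5) (nat_lit 97) (nat_lit 5) (nat_lit 98) (nat_lit 5) (nat_lit 314) (nat_lit 285)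 (nat_lit 181)))))) (XT.nd (nat_lit 546) (nat_lit 1444) (nat_lit 0) (XT.nd (nat_lit 234) (nat_lit 912) (nat_lit 0) (XT.nd (nat_lit 78) (nat_lit 380) (nat_lit 0) (XT.lf (nat_lit 0) (nat_lit 4995674399) (nat_lit 304) (nat_lit 23884191762) (nat_lit 380) (nat_lit 3559802610) (nat_lit 89) (nat_lit 5) (nat_lit 93) (nat_lit 5) (nat_lit 94) (nat_lit 5) (nat_lit 315) (nat_lit 285) (nat_lit 180)) (XT.nd (nat_lit 78) (nat_lit 304) (nat_lit 0) (XT.lf (nat_lit 0) (nat_lit 5057259781) (nat_lit 380) (nat_lit 1378645506) (nat_lit 76) (nat_lit 27061210060) (nat_lit 88) (nat_lit 5) (nat_lit 93) (nat_lit 5) (nat_lit 89) (nat_lit 5) (nat_lit 316) (nat_lit 285) (nat_lit 179)) (XT.lf (nat_lit 0) (nat_lit 14393166921) (nat_lit 380) (nat_lit 8260443995) (nat_lit 76) (nat_lit 11941925596) (nat_lit 84) (nat_lit 5) (nat_lit 89) (nat_lit 5) (nat_lit 85) (nat_lit 5) (nat_lit 317) (nat_lit 285) (nat_lit 178)))) (XT.nd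 (nat_lit 156) (nat_lit 380) (nat_lit 0) (XT.nd (nat_lit 78) (nat_lit 228) (nat_lit 0) (XT.lf (nat_lit 0) (nat_lit 20026099238) (nat_lit 304) (nat_lit 4431430671) (nat_lit 380) (nat_lit 11283506668) (nat_lit 80) (nat_lit 5) (nat_lit 84) (nat_lit 5) (nat_lit 85) (nat_lit 5) (nat_lit 318) (nat_lit 285) (nat_lit 177)) (XT.lf (nat_lit 0) (nat_lit 13056642825) (nat_lit 228) (nat_lit 22311348287) (nat_lit 304) (nat_lit 1565541425) (nat_lit 77) (nat_lit 5) (nat_lit 80) (nat_lit 5) (nat_lit 81) (nat_lit 5) (nat_lit 319) (nat_lit 285) (nat_lit 176))) (XT.nd (nat_lit 78) (nat_lit 0) (nat_lit 0) (XT.lf (nat_lit 0) (nat_lit 5375844026) (nat_lit 304) (nat_lit 3344095892) (nat_lit 380) (nat_lit 29455723538) (nat_lit 72) (nat_lit 5) (nat_lit 76) (nat_lit 5) (nat_lit 77) (nat_lit 5) (nat_lit 320) (nat_lit 285) (nat_lit 175)) (XT.lf (nat_lit 0) (nat_lit 19885828115) (nat_lit 380) (nat_lit 3073814465) (nat_lit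 76) (nat_lit 16507844432) (nat_lit 72) (nat_lit 5) (nat_lit 77) (nat_lit 5) (nat_lit 73) (nat_lit 5) (nat_lit 321) (nat_lit 285) (nat_lit 174))))) (XT.nd (nat_lit 234) (nat_lit 684) (nat_lit 0) (XT.nd (nat_lit 78) (nat_lit 532) (nat_lit 0) (XT.lf (nat_lit 0) (nat_lit 28650548646) (nat_lit 228) (nat_lit 3259753764) (nat_lit 304) (nat_lit 8904596702) (nat_lit 69) (nat_lit 5) (nat_lit 72) (nat_lit 5) (nat_lit 73) (nat_lit 5) (nat_lit 322) (nat_lit 285) (nat_lit 173)) (XT.nd (nat_lit 78) (nat_lit 228) (nat_lit 0) (XT.lf (nat_lit 0) (nat_lit 2648258583) (nat_lit 304) (nat_lit 22238054329) (nat_lit 76) (nat_lit 17331101132) (nat_lit 65) (nat_lit 5) (nat_lit 69) (nat_lit 5) (nat_lit 66) (nat_lit 5) (nat_lit 323) (nat_lit 285) (nat_lit 172)) (XT.lf (nat_lit 0) (nat_lit 10363464415) (nat_lit 228) (nat_lit 4483415013) (nat_lit 304) (nat_lit 28832967246) (nat_lit 62) (nat_lit 5) (nat_lit 65) (nat_lit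 5) (nat_lit 66) (nat_lit 5) (nat_lit 324) (nat_lit 285) (nat_lit 171)))) (XT.nd (nat_lit 156) (nat_lit 456) (nat_lit 0) (XT.nd (nat_lit 78) (nat_lit 228) (nat_lit 0) (XT.lf (nat_lit 0) (nat_lit 28041279872) (nat_lit 304) (nat_lit 326604786) (nat_lit 76) (nat_lit 16835945950) (nat_lit 62) (nat_lit 5) (nat_lit 66) (nat_lit 5) (nat_lit 63) (nat_lit 5) (nat_lit 325) (nat_lit 285) (nat_lit 170)) (XT.lf (nat_lit 0) (nat_lit 34937023292) (nat_lit 228) (nat_lit 7331681281) (nat_lit 304) (nat_lit 4524114924) (nat_lit 59) (nat_lit 5) (nat_lit 62) (nat_lit 5) (nat_lit 63) (nat_lit 5) (nat_lit 326) (nat_lit 285) (nat_lit 169))) (XT.nd (nat_lit 78) (nat_lit 228) (nat_lit 0) (XT.lf (nat_lit 0) (nat_lit 8945849278) (nat_lit 228) (nat_lit 24717498444) (nat_lit 76) (nat_lit 14784284080) (nat_lit 56) (nat_lit 5) (nat_lit 59) (nat_lit 5) (nat_lit 57) (nat_lit 5) (nat_lit 327) (nat_lit 285) (nat_lit 168)) (XT.lf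 (nat_lit 0) (nat_lit 11248429699) (nat_lit 228) (nat_lit 12046170854) (nat_lit 304) (nat_lit 26880279040) (nat_lit 53) (nat_lit 5) (nat_lit 56) (nat_lit 5) (nat_lit 57) (nat_lit 5) (nat_lit 328) (nat_lit 285) (nat_lit 167))))))))
noncomputable def xc91 : XT := (XT.nd (nat_lit 2184) (nat_lit 152) (nat_lit 0) (XT.nd (nat_lit 1092) (nat_lit 1064) (nat_lit 0) (XT.nd (nat_lit 546) (nat_lit 684) (nat_lit 0) (XT.nd (nat_lit 234) (nat_lit 532) (nat_lit 0) (XT.nd (nat_lit 78) (nat_lit 456) (nat_lit 0) (XT.lf (nat_lit 0) (nat_lit 38712950811) (nat_lit 304) (nat_lit 2568213535) (nat_lit 76) (nat_lit 10696764683) (nat_lit 53) (nat_lit 5) (nat_lit 57) (nat_lit 5) (nat_lit 54) (nat_lit 5) (nat_lit 329) (nat_lit 285) (nat_lit 166)) (XT.nd (nat_lit 78) (nat_lit 228) (nat_lit 0) (XT.lf (nat_lit 0) (nat_lit 1478072570) (nat_lit 228) (nat_lit 17690441910) (nat_lit 76) (nat_lit 34688309747) (nat_lit 50) (nat_lit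 5) (nat_lit 53) (nat_lit 5) (nat_lit 51) (nat_lit 5) (nat_lit 330) (nat_lit 285) (nat_lit 165)) (XT.lf (nat_lit 0) (nat_lit 16954068795) (nat_lit 304) (nat_lit 34527641728) (nat_lit 76) (nat_lit 4335913187) (nat_lit 47) (nat_lit 5) (nat_lit 51) (nat_lit 5) (nat_lit 48) (nat_lit 5) (nat_lit 331) (nat_lit 285) (nat_lit 164)))) (XT.nd (nat_lit 156) (nat_lit 380) (nat_lit 0) (XT.nd (nat_lit 78) (nat_lit 0) (nat_lit 0) (XT.lf (nat_lit 0) (nat_lit 4601893948) (nat_lit 152) (nat_lit 29017069405) (nat_lit 228) (nat_lit 24245050296) (nat_lit 45) (nat_lit 5) (nat_lit 47) (nat_lit 5) (nat_lit 48) (nat_lit 5) (nat_lit 332) (nat_lit 285) (nat_lit 163)) (XT.lf (nat_lit 0) (nat_lit 46399004893) (nat_lit 152) (nat_lit 5067218928) (nat_lit 228) (nat_lit 8536028901) (nat_lit 45) (nat_lit 5) (nat_lit 47) (nat_lit 5) (nat_lit 48) (nat_lit 5) (nat_lit 333) (nat_lit 285) (nat_lit 162))) (XT.nd (nat_lit 78) (nat_lit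 152) (nat_lit 0) (XT.lf (nat_lit 0) (nat_lit 8267567357) (nat_lit 228) (nat_lit 33925216543) (nat_lit 76) (nat_lit 20038395180) (nat_lit 42) (nat_lit 5) (nat_lit 45) (nat_lit 5) (nat_lit 43) (nat_lit 5) (nat_lit 334) (nat_lit 285) (nat_lit 161)) (XT.lf (nat_lit 0) (nat_lit 8035761253) (nat_lit 152) (nat_lit 17964579702) (nat_lit 228) (nat_lit 38560712158) (nat_lit 40) (nat_lit 5) (nat_lit 42) (nat_lit 5) (nat_lit 43) (nat_lit 5) (nat_lit 335) (nat_lit 285) (nat_lit 160))))) (XT.nd (nat_lit 234) (nat_lit 304) (nat_lit 0) (XT.nd (nat_lit 78) (nat_lit 380) (nat_lit 0) (XT.lf (nat_lit 0) (nat_lit 45038532791) (nat_lit 228) (nat_lit 14278292675) (nat_lit 76) (nat_lit 7678034741) (nat_lit 40) (nat_lit 5) (nat_lit 43) (nat_lit 5) (nat_lit 41) (nat_lit 5) (nat_lit 336) (nat_lit 285) (nat_lit 159)) (XT.nd (nat_lit 78) (nat_lit 228) (nat_lit 0) (XT.lf (nat_lit 0) (nat_lit 30485317206) (nat_lit 152)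 (nat_lit 35012192866) (nat_lit 228) (nat_lit 4038783921) (nat_lit 38) (nat_lit 5) (nat_lit 40) (nat_lit 5) (nat_lit 41) (nat_lit 5) (nat_lit 337) (nat_lit 285) (nat_lit 158)) (XT.lf (nat_lit 0) (nat_lit 5540591148) (nat_lit 152) (nat_lit 9142067449) (nat_lit 228) (nat_lit 57511992757) (nat_lit 35) (nat_lit 5) (nat_lit 37) (nat_lit 5) (nat_lit 38) (nat_lit 5) (nat_lit 338) (nat_lit 285) (nat_lit 157)))) (XT.nd (nat_lit 156) (nat_lit 152) (nat_lit 0) (XT.nd (nat_lit 78) (nat_lit 152) (nat_lit 0) (XT.lf (nat_lit 0) (nat_lit 34831397209) (nat_lit 228) (nat_lit 22023058006) (nat_lit 76) (nat_lit 18113031465) (nat_lit 35) (nat_lit 5) (nat_lit 38) (nat_lit 5) (nat_lit 36) (nat_lit 5) (nat_lit 339) (nat_lit 285) (nat_lit 156)) (XT.lf (nat_lit 0) (nat_lit 25230996978) (nat_lit 152) (nat_lit 31086399842) (nat_lit 228) (nat_lit 21551674422) (nat_lit 33) (nat_lit 5) (nat_lit 35) (nat_lit 5) (nat_lit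 36) (nat_lit 5) (nat_lit 340) (nat_lit 285) (nat_lit 155))) (XT.nd (nat_lit 78) (nat_lit 152) (nat_lit 0) (XT.lf (nat_lit 0) (nat_lit 75299645707) (nat_lit 152) (nat_lit 3799931180) (nat_lit 228) (nat_lit 1809503819) (nat_lit 33) (nat_lit 5) (nat_lit 35) (nat_lit 5) (nat_lit 36) (nat_lit 5) (nat_lit 341) (nat_lit 285) (nat_lit 154)) (XT.lf (nat_lit 0) (nat_lit 19218079670) (nat_lit 152) (nat_lit 39879752210) (nat_lit 76) (nat_lit 24977779719) (nat_lit 31) (nat_lit 5) (nat_lit 33) (nat_lit 5) (nat_lit 32) (nat_lit 5) (nat_lit 342) (nat_lit 285) (nat_lit 153)))))) (XT.nd (nat_lit 546) (nat_lit 532) (nat_lit 0) (XT.nd (nat_lit 234) (nat_lit 304) (nat_lit 0) (XT.nd (nat_lit 78) (nat_lit 76) (nat_lit 0) (XT.lf (nat_lit 0) (nat_lit 9326813945) (nat_lit 152) (nat_lit 32114947063) (nat_lit 228) (nat_lit 45952708134) (nat_lit 29) (nat_lit 5) (nat_lit 31) (nat_lit 5) (nat_lit 32) (nat_lit 5) (nat_lit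 343) (nat_lit 285) (nat_lit 152)) (XT.nd (nat_lit 78) (nat_lit 76) (nat_lit 0) (XT.lf (nat_lit 0) (nat_lit 61819405208) (nat_lit 152) (nat_lit 3363359577) (nat_lit 228) (nat_lit 25684322376) (nat_lit 29) (nat_lit 5) (nat_lit 31) (nat_lit 5) (nat_lit 32) (nat_lit 5) (nat_lit 344) (nat_lit 285) (nat_lit 151)) (XT.lf (nat_lit 0) (nat_lit 22599007571) (nat_lit 76) (nat_lit 67982703158) (nat_lit 152) (nat_lit 3917500260) (nat_lit 28) (nat_lit 5) (nat_lit 29) (nat_lit 5) (nat_lit 30) (nat_lit 4) (nat_lit 345) (nat_lit 285) (nat_lit 150)))) (XT.nd (nat_lit 156) (nat_lit 76) (nat_lit 0) (XT.nd (nat_lit 78) (nat_lit 152) (nat_lit 0) (XT.lf (nat_lit 0) (nat_lit 18899928806) (nat_lit 152) (nat_lit 21095151556) (nat_lit 76) (nat_lit 58302446741) (nat_lit 27) (nat_lit 5) (nat_lit 29) (nat_lit 5) (nat_lit 28) (nat_lit 5) (nat_lit 346) (nat_lit 285) (nat_lit 149)) (XT.lf (nat_lit 0) (nat_lit 32844599879)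 (nat_lit 152) (nat_lit 10245161073) (nat_lit 228) (nat_lit 59185459379) (nat_lit 25) (nat_lit 5) (nat_lit 27) (nat_lit 5) (nat_lit 28) (nat_lit 5) (nat_lit 347) (nat_lit 285) (nat_lit 148))) (XT.nd (nat_lit 78) (nat_lit 76) (nat_lit 0) (XT.lf (nat_lit 0) (nat_lit 68906351138) (nat_lit 228) (nat_lit 16733876344) (nat_lit 76) (nat_lit 20799054145) (nat_lit 25) (nat_lit 5) (nat_lit 28) (nat_lit 5) (nat_lit 26) (nat_lit 4) (nat_lit 348) (nat_lit 285) (nat_lit 147)) (XT.lf (nat_lit 0) (nat_lit 39253787657) (nat_lit 76) (nat_lit 57237073881) (nat_lit 152) (nat_lit 14306373060) (nat_lit 24) (nat_lit 5) (nat_lit 25) (nat_lit 5) (nat_lit 26) (nat_lit 4) (nat_lit 349) (nat_lit 285) (nat_lit 146))))) (XT.nd (nat_lit 234) (nat_lit 304) (nat_lit 0) (XT.nd (nat_lit 78) (nat_lit 152) (nat_lit 0) (XT.lf (nat_lit 0) (nat_lit 10055180887) (nat_lit 152) (nat_lit 17082388331) (nat_lit 76) (nat_lit 88227498083)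 (nat_lit 23) (nat_lit 5) (nat_lit 25) (nat_lit 5) (nat_lit 24) (nat_lit 5) (nat_lit 350) (nat_lit 285) (nat_lit 145)) (XT.nd (nat_lit 78) (nat_lit 0) (nat_lit 0) (XT.lf (nat_lit 0) (nat_lit 35778184054) (nat_lit 228) (nat_lit 79447175058) (nat_lit 76) (nat_lit 4918506804) (nat_lit 21) (nat_lit 5) (nat_lit 24) (nat_lit 5) (nat_lit 22) (nat_lit 4) (nat_lit 351) (nat_lit 285) (nat_lit 144)) (XT.lf (nat_lit 0) (nat_lit 63235512049) (nat_lit 228) (nat_lit 23716256842) (nat_lit 76) (nat_lit 38196391451) (nat_lit 21) (nat_lit 5) (nat_lit 24) (nat_lit 5) (nat_lit 22) (nat_lit 4) (nat_lit 352) (nat_lit 285) (nat_lit 143)))) (XT.nd (nat_lit 156) (nat_lit 228) (nat_lit 0) (XT.nd (nat_lit 78) (nat_lit 0) (nat_lit 0) (XT.lf (nat_lit 0) (nat_lit 35488014487) (nat_lit 76) (nat_lit 56915662003) (nat_lit 152) (nat_lit 37988854958) (nat_lit 20) (nat_lit 5) (nat_lit 21) (nat_lit 5) (nat_lit 22) (nat_lit 4)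 (nat_lit 353) (nat_lit 285) (nat_lit 142)) (XT.lf (nat_lit 0) (nat_lit 98142570770) (nat_lit 76) (nat_lit 25128751314) (nat_lit 152) (nat_lit 12620567853) (nat_lit 20) (nat_lit 5) (nat_lit 21) (nat_lit 5) (nat_lit 22) (nat_lit 4) (nat_lit 354) (nat_lit 285) (nat_lit 141))) (XT.nd (nat_lit 78) (nat_lit 0) (nat_lit 0) (XT.lf (nat_lit 0) (nat_lit 14039316017) (nat_lit 228) (nat_lit 119174611035) (nat_lit 76) (nat_lit 8439347655) (nat_lit 17) (nat_lit 5) (nat_lit 20) (nat_lit 5) (nat_lit 18) (nat_lit 4) (nat_lit 355) (nat_lit 285) (nat_lit 140)) (XT.lf (nat_lit 0) (nat_lit 42416801258) (nat_lit 228) (nat_lit 61574272690) (nat_lit 76) (nat_lit 43688538380) (nat_lit 17) (nat_lit 5) (nat_lit 20) (nat_lit 5) (nat_lit 18) (nat_lit 4) (nat_lit 356) (nat_lit 285) (nat_lit 139))))))) (XT.nd (nat_lit 35958) (nat_lit 0) (nat_lit 7372) (XT.nd (nat_lit 35412) (nat_lit 0) (nat_lit 13832) (XT.nd (nat_lit 35100)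 (nat_lit 0) (nat_lit 13680) (XT.nd (nat_lit 78) (nat_lit 152) (nat_lit 0) (XT.lf (nat_lit 0) (nat_lit 72210417482) (nat_lit 228) (nat_lit 1098904800) (nat_lit 76) (nat_lit 80698027698) (nat_lit 17) (nat_lit 5) (nat_lit 20) (nat_lit 5) (nat_lit 18) (nat_lit 4) (nat_lit 357) (nat_lit 285) (nat_lit 138)) (XT.nd (nat_lit 156) (nat_lit 76) (nat_lit 0) (XT.lf (nat_lit 0) (nat_lit 63637274035) (nat_lit 76) (nat_lit 40465548241) (nat_lit 152) (nat_lit 56530379814) (nat_lit 16) (nat_lit 5) (nat_lit 17) (nat_lit 5) (nat_lit 18) (nat_lit 4) (nat_lit 358) (nat_lit 285) (nat_lit 137)) (XT.lf (nat_lit 0) (nat_lit 28383335104) (nat_lit 76) (nat_lit 144947078096) (nat_lit 76) (nat_lit 1547562182) (nat_lit 15) (nat_lit 4) (nat_lit 16) (nat_lit 5) (nat_lit 16) (nat_lit 4) (nat_lit 360) (nat_lit 285) (nat_lit 135)))) (XT.nd (nat_lit 156) (nat_lit 0) (nat_lit 76) (XT.nd (nat_lit 78) (nat_lit 0) (nat_lit 0) (XT.lf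 (nat_lit 0) (nat_lit 435554179) (nat_lit 0) (nat_lit 435554179) (nat_lit 1140) (nat_lit 6502198614) (nat_lit 195) (nat_lit 5) (nat_lit 195) (nat_lit 3) (nat_lit 210) (nat_lit 3) (nat_lit 286) (nat_lit 286) (nat_lit 208)) (XT.lf (nat_lit 0) (nat_lit 2368856845) (nat_lit 1140) (nat_lit 2816901060) (nat_lit 1216) (nat_lit 9911458010) (nat_lit 195) (nat_lit 5) (nat_lit 210) (nat_lit 3) (nat_lit 211) (nat_lit 5) (nat_lit 287) (nat_lit 286) (nat_lit 207))) (XT.nd (nat_lit 78) (nat_lit 0) (nat_lit 76) (XT.lf (nat_lit 0) (nat_lit 3146901648) (nat_lit 1140) (nat_lit 6576039764) (nat_lit 1216) (nat_lit 5738840930) (nat_lit 196) (nat_lit 5) (nat_lit 211) (nat_lit 5) (nat_lit 212) (nat_lit 5) (nat_lit 288) (nat_lit 286) (nat_lit 206)) (XT.lf (nat_lit 0) (nat_lit 4081152028) (nat_lit 1140) (nat_lit 10429868062) (nat_lit 1216) (nat_lit 1330072701) (nat_lit 197) (nat_lit 5) (nat_lit 212) (nat_lit 5) (nat_lit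 213) (nat_lit 5) (nat_lit 289) (nat_lit 286) (nat_lit 205))))) (XT.nd (nat_lit 234) (nat_lit 0) (nat_lit 152) (XT.nd (nat_lit 78) (nat_lit 0) (nat_lit 76) (XT.lf (nat_lit 76) (nat_lit 1816837195) (nat_lit 0) (nat_lit 3401090360) (nat_lit 1216) (nat_lit 11016799972) (nat_lit 198) (nat_lit 5) (nat_lit 197) (nat_lit 5) (nat_lit 213) (nat_lit 5) (nat_lit 290) (nat_lit 286) (nat_lit 204)) (XT.nd (nat_lit 78) (nat_lit 0) (nat_lit 76) (XT.lf (nat_lit 0) (nat_lit 6572528917) (nat_lit 1140) (nat_lit 1849666540) (nat_lit 1216) (nat_lit 8221050498) (nat_lit 198) (nat_lit 5) (nat_lit 213) (nat_lit 5) (nat_lit 214) (nat_lit 5) (nat_lit 291) (nat_lit 286) (nat_lit 203)) (XT.lf (nat_lit 0) (nat_lit 8147061787) (nat_lit 1140) (nat_lit 5581240184) (nat_lit 1216) (nat_lit 3339352352) (nat_lit 199) (nat_lit 5) (nat_lit 214) (nat_lit 5) (nat_lit 215) (nat_lit 5) (nat_lit 292) (nat_lit 286) (nat_lit 202)))) (XT.nd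 (nat_lit 156) (nat_lit 0) (nat_lit 152) (XT.nd (nat_lit 78) (nat_lit 0) (nat_lit 76) (XT.lf (nat_lit 76) (nat_lit 8069867910) (nat_lit 0) (nat_lit 1887790480) (nat_lit 1216) (nat_lit 7550933236) (nat_lit 200) (nat_lit 5) (nat_lit 199) (nat_lit 5) (nat_lit 215) (nat_lit 5) (nat_lit 293) (nat_lit 286) (nat_lit 201)) (XT.lf (nat_lit 76) (nat_lit 4518619449) (nat_lit 0) (nat_lit 7519575961) (nat_lit 1216) (nat_lit 5928025335) (nat_lit 201) (nat_lit 5) (nat_lit 200) (nat_lit 5) (nat_lit 216) (nat_lit 5) (nat_lit 294) (nat_lit 286) (nat_lit 200))) (XT.nd (nat_lit 78) (nat_lit 0) (nat_lit 0) (XT.lf (nat_lit 76) (nat_lit 858790652) (nat_lit 0) (nat_lit 13514026180) (nat_lit 1216) (nat_lit 4069438730) (nat_lit 202) (nat_lit 5) (nat_lit 201) (nat_lit 5) (nat_lit 217) (nat_lit 5) (nat_lit 295) (nat_lit 286) (nat_lit 199)) (XT.lf (nat_lit 76) (nat_lit 16066462243) (nat_lit 0) (nat_lit 949774120) (nat_lit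 1216) (nat_lit 1920118479) (nat_lit 202) (nat_lit 5) (nat_lit 201) (nat_lit 5) (nat_lit 217) (nat_lit 5) (nat_lit 296) (nat_lit 286) (nat_lit 198)))))) (XT.nd (nat_lit 546) (nat_lit 2812) (nat_lit 0) (XT.nd (nat_lit 234) (nat_lit 1520) (nat_lit 0) (XT.nd (nat_lit 78) (nat_lit 1292) (nat_lit 0) (XT.lf (nat_lit 0) (nat_lit 551474867) (nat_lit 1216) (nat_lit 6762155690) (nat_lit 76) (nat_lit 12134813008) (nat_lit 186) (nat_lit 5) (nat_lit 202) (nat_lit 5) (nat_lit 187) (nat_lit 5) (nat_lit 297) (nat_lit 286) (nat_lit 197)) (XT.nd (nat_lit 78) (nat_lit 608) (nat_lit 0) (XT.lf (nat_lit 0) (nat_lit 3273373746) (nat_lit 760) (nat_lit 10811705453) (nat_lit 76) (nat_lit 5895515867) (nat_lit 177) (nat_lit 5) (nat_lit 187) (nat_lit 5) (nat_lit 178) (nat_lit 5) (nat_lit 298) (nat_lit 286) (nat_lit 196)) (XT.lf (nat_lit 0) (nat_lit 5516150404) (nat_lit 608) (nat_lit 793301494) (nat_lit 684) (nat_lit 14224580456)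 (nat_lit 169) (nat_lit 5) (nat_lit 177) (nat_lit 5) (nat_lit 178) (nat_lit 5) (nat_lit 299) (nat_lit 286) (nat_lit 195)))) (XT.nd (nat_lit 156) (nat_lit 988) (nat_lit 0) (XT.nd (nat_lit 78) (nat_lit 0) (nat_lit 0) (XT.lf (nat_lit 0) (nat_lit 1661729919) (nat_lit 532) (nat_lit 8072206336) (nat_lit 608) (nat_lit 11374126939) (nat_lit 162) (nat_lit 5) (nat_lit 169) (nat_lit 5) (nat_lit 170) (nat_lit 5) (nat_lit 300) (nat_lit 286) (nat_lit 194)) (XT.lf (nat_lit 0) (nat_lit 13532147815) (nat_lit 608) (nat_lit 2300141971) (nat_lit 76) (nat_lit 5872449513) (nat_lit 162) (nat_lit 5) (nat_lit 170) (nat_lit 5) (nat_lit 163) (nat_lit 5) (nat_lit 301) (nat_lit 286) (nat_lit 193))) (XT.nd (nat_lit 78) (nat_lit 456) (nat_lit 0) (XT.lf (nat_lit 0) (nat_lit 15915656359) (nat_lit 532) (nat_lit 1822327440) (nat_lit 608) (nat_lit 4586751913) (nat_lit 155) (nat_lit 5) (nat_lit 162) (nat_lit 5) (nat_lit 163)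 (nat_lit 5) (nat_lit 302) (nat_lit 286) (nat_lit 192)) (XT.lf (nat_lit 0) (nat_lit 12212662748) (nat_lit 456) (nat_lit 10190532354) (nat_lit 532) (nat_lit 565081403) (nat_lit 149) (nat_lit 5) (nat_lit 155) (nat_lit 5) (nat_lit 156) (nat_lit 5) (nat_lit 303) (nat_lit 286) (nat_lit 191))))) (XT.nd (nat_lit 234) (nat_lit 1748) (nat_lit 0) (XT.nd (nat_lit 78) (nat_lit 456) (nat_lit 0) (XT.lf (nat_lit 0) (nat_lit 3780256837) (nat_lit 608) (nat_lit 15333347671) (nat_lit 76) (nat_lit 4523532058) (nat_lit 141) (nat_lit 5) (nat_lit 149) (nat_lit 5) (nat_lit 142) (nat_lit 5) (nat_lit 304) (nat_lit 286) (nat_lit 190)) (XT.nd (nat_lit 78) (nat_lit 0) (nat_lit 0) (XT.lf (nat_lit 0) (nat_lit 4159678046) (nat_lit 456) (nat_lit 4411170411) (nat_lit 532) (nat_lit 15761248158) (nat_lit 135) (nat_lit 5) (nat_lit 141) (nat_lit 5) (nat_lit 142) (nat_lit 5) (nat_lit 305) (nat_lit 286) (nat_lit 189)) (XT.lf (nat_lit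 0) (nat_lit 13851823588) (nat_lit 532) (nat_lit 233446387) (nat_lit 76) (nat_lit 10969023384) (nat_lit 135) (nat_lit 5) (nat_lit 142) (nat_lit 5) (nat_lit 136) (nat_lit 5) (nat_lit 306) (nat_lit 286) (nat_lit 188)))) (XT.nd (nat_lit 156) (nat_lit 912) (nat_lit 0) (XT.nd (nat_lit 78) (nat_lit 380) (nat_lit 0) (XT.lf (nat_lit 0) (nat_lit 19643571929) (nat_lit 532) (nat_lit 4766339479) (nat_lit 76) (nat_lit 1395300431) (nat_lit 129) (nat_lit 5) (nat_lit 136) (nat_lit 5) (nat_lit 130) (nat_lit 5) (nat_lit 307) (nat_lit 286) (nat_lit 187)) (XT.lf (nat_lit 0) (nat_lit 16959075025) (nat_lit 380) (nat_lit 9060087341) (nat_lit 456) (nat_lit 565699216) (nat_lit 124) (nat_lit 5) (nat_lit 129) (nat_lit 5) (nat_lit 130) (nat_lit 5) (nat_lit 308) (nat_lit 286) (nat_lit 186))) (XT.nd (nat_lit 78) (nat_lit 380) (nat_lit 0) (XT.lf (nat_lit 0) (nat_lit 5434556226) (nat_lit 532) (nat_lit 14819192102) (nat_lit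 76) (nat_lit 7141382118) (nat_lit 117) (nat_lit 5) (nat_lit 124) (nat_lit 5) (nat_lit 118) (nat_lit 5) (nat_lit 309) (nat_lit 286) (nat_lit 185)) (XT.lf (nat_lit 0) (nat_lit 7886227400) (nat_lit 380) (nat_lit 4091768781) (nat_lit 456) (nat_lit 16260113835) (nat_lit 112) (nat_lit 5) (nat_lit 117) (nat_lit 5) (nat_lit 118) (nat_lit 5) (nat_lit 310) (nat_lit 286) (nat_lit 184))))))))
noncomputable def xc92 : XT := (XT.nd (nat_lit 2106) (nat_lit 1824) (nat_lit 0) (XT.nd (nat_lit 1014) (nat_lit 2204) (nat_lit 0) (XT.nd (nat_lit 468) (nat_lit 1520) (nat_lit 0) (XT.nd (nat_lit 234) (nat_lit 988) (nat_lit 0) (XT.nd (nat_lit 78) (nat_lit 380) (nat_lit 0) (XT.lf (nat_lit 0) (nat_lit 2832514440) (nat_lit 380) (nat_lit 16309041539) (nat_lit 456) (nat_lit 9972905038) (nat_lit 107) (nat_lit 5) (nat_lit 112) (nat_lit 5) (nat_lit 113) (nat_lit 5) (nat_lit 311) (nat_lit 286) (nat_lit 183)) (XT.nd (nat_lit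 78) (nat_lit 380) (nat_lit 0) (XT.lf (nat_lit 0) (nat_lit 26908166663) (nat_lit 456) (nat_lit 2489294951) (nat_lit 76) (nat_lit 629832135) (nat_lit 107) (nat_lit 5) (nat_lit 113) (nat_lit 5) (nat_lit 108) (nat_lit 5) (nat_lit 312) (nat_lit 286) (nat_lit 182)) (XT.lf (nat_lit 0) (nat_lit 4373652350) (nat_lit 380) (nat_lit 8259572406) (nat_lit 76) (nat_lit 18340100849) (nat_lit 102) (nat_lit 5) (nat_lit 107) (nat_lit 5) (nat_lit 103) (nat_lit 5) (nat_lit 313) (nat_lit 286) (nat_lit 181)))) (XT.nd (nat_lit 78) (nat_lit 608) (nat_lit 0) (XT.lf (nat_lit 0) (nat_lit 12410914840) (nat_lit 456) (nat_lit 14450542472) (nat_lit 76) (nat_lit 5097253825) (nat_lit 97) (nat_lit 5) (nat_lit 103) (nat_lit 5) (nat_lit 98) (nat_lit 5) (nat_lit 314) (nat_lit 286) (nat_lit 180)) (XT.nd (nat_lit 78) (nat_lit 304) (nat_lit 0) (XT.lf (nat_lit 0) (nat_lit 11834425765) (nat_lit 304) (nat_lit 9332209951) (nat_lit 380)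 (nat_lit 11817241068) (nat_lit 93) (nat_lit 5) (nat_lit 97) (nat_lit 5) (nat_lit 98) (nat_lit 5) (nat_lit 315) (nat_lit 286) (nat_lit 179)) (XT.lf (nat_lit 0) (nat_lit 5687971094) (nat_lit 304) (nat_lit 24954088622) (nat_lit 380) (nat_lit 3409791767) (nat_lit 89) (nat_lit 5) (nat_lit 93) (nat_lit 5) (nat_lit 94) (nat_lit 5) (nat_lit 316) (nat_lit 286) (nat_lit 178))))) (XT.nd (nat_lit 234) (nat_lit 836) (nat_lit 0) (XT.nd (nat_lit 78) (nat_lit 608) (nat_lit 0) (XT.lf (nat_lit 0) (nat_lit 5616408954) (nat_lit 380) (nat_lit 1019805634) (nat_lit 76) (nat_lit 28526332418) (nat_lit 88) (nat_lit 5) (nat_lit 93) (nat_lit 5) (nat_lit 89) (nat_lit 5) (nat_lit 317) (nat_lit 286) (nat_lit 177)) (XT.nd (nat_lit 78) (nat_lit 304) (nat_lit 0) (XT.lf (nat_lit 0) (nat_lit 15409672266) (nat_lit 380) (nat_lit 8250012618) (nat_lit 76) (nat_lit 12656498736) (nat_lit 84) (nat_lit 5) (nat_lit 89) (nat_lit 5) (nat_lit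 85) (nat_lit 5) (nat_lit 318) (nat_lit 286) (nat_lit 176)) (XT.lf (nat_lit 0) (nat_lit 21438719565) (nat_lit 304) (nat_lit 4528352082) (nat_lit 380) (nat_lit 11552203175) (nat_lit 80) (nat_lit 5) (nat_lit 84) (nat_lit 5) (nat_lit 85) (nat_lit 5) (nat_lit 319) (nat_lit 286) (nat_lit 175)))) (XT.nd (nat_lit 156) (nat_lit 228) (nat_lit 0) (XT.nd (nat_lit 78) (nat_lit 380) (nat_lit 0) (XT.lf (nat_lit 0) (nat_lit 14116397136) (nat_lit 228) (nat_lit 23298060789) (nat_lit 304) (nat_lit 1357205768) (nat_lit 77) (nat_lit 5) (nat_lit 80) (nat_lit 5) (nat_lit 81) (nat_lit 5) (nat_lit 320) (nat_lit 286) (nat_lit 174)) (XT.lf (nat_lit 0) (nat_lit 6045518450) (nat_lit 304) (nat_lit 3381909972) (nat_lit 380) (nat_lit 30648685339) (nat_lit 72) (nat_lit 5) (nat_lit 76) (nat_lit 5) (nat_lit 77) (nat_lit 5) (nat_lit 321) (nat_lit 286) (nat_lit 173))) (XT.nd (nat_lit 78) (nat_lit 228) (nat_lit 0) (XT.lf (nat_lit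 0) (nat_lit 21139867417) (nat_lit 380) (nat_lit 2838961087) (nat_lit 76) (nat_lit 17454061259) (nat_lit 72) (nat_lit 5) (nat_lit 77) (nat_lit 5) (nat_lit 73) (nat_lit 5) (nat_lit 322) (nat_lit 286) (nat_lit 172)) (XT.lf (nat_lit 0) (nat_lit 30460482641) (nat_lit 228) (nat_lit 3296341701) (nat_lit 304) (nat_lit 9091118890) (nat_lit 69) (nat_lit 5) (nat_lit 72) (nat_lit 5) (nat_lit 73) (nat_lit 5) (nat_lit 323) (nat_lit 286) (nat_lit 171)))))) (XT.nd (nat_lit 546) (nat_lit 988) (nat_lit 0) (XT.nd (nat_lit 234) (nat_lit 456) (nat_lit 0) (XT.nd (nat_lit 78) (nat_lit 456) (nat_lit 0) (XT.lf (nat_lit 0) (nat_lit 3027040375) (nat_lit 304) (nat_lit 22972007878) (nat_lit 76) (nat_lit 18321687654) (nat_lit 65) (nat_lit 5) (nat_lit 69) (nat_lit 5) (nat_lit 66) (nat_lit 5) (nat_lit 324) (nat_lit 286) (nat_lit 170)) (XT.nd (nat_lit 78) (nat_lit 228) (nat_lit 0) (XT.lf (nat_lit 0) (nat_lit 11248752966)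 (nat_lit 228) (nat_lit 4578636383) (nat_lit 304) (nat_lit 30029154420) (nat_lit 62) (nat_lit 5) (nat_lit 65) (nat_lit 5) (nat_lit 66) (nat_lit 5) (nat_lit 325) (nat_lit 286) (nat_lit 169)) (XT.lf (nat_lit 0) (nat_lit 12714051) (nat_lit 228) (nat_lit 29658757258) (nat_lit 304) (nat_lit 17785563900) (nat_lit 59) (nat_lit 5) (nat_lit 62) (nat_lit 5) (nat_lit 63) (nat_lit 5) (nat_lit 326) (nat_lit 286) (nat_lit 168)))) (XT.nd (nat_lit 156) (nat_lit 228) (nat_lit 0) (XT.nd (nat_lit 78) (nat_lit 228) (nat_lit 0) (XT.lf (nat_lit 0) (nat_lit 37029087939) (nat_lit 228) (nat_lit 7573518102) (nat_lit 304) (nat_lit 4523104153) (nat_lit 59) (nat_lit 5) (nat_lit 62) (nat_lit 5) (nat_lit 63) (nat_lit 5) (nat_lit 327) (nat_lit 286) (nat_lit 167)) (XT.lf (nat_lit 0) (nat_lit 9609776639) (nat_lit 228) (nat_lit 25608225870) (nat_lit 76) (nat_lit 15645385816) (nat_lit 56) (nat_lit 5) (nat_lit 59) (nat_lit 5)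 (nat_lit 57) (nat_lit 5) (nat_lit 328) (nat_lit 286) (nat_lit 166))) (XT.nd (nat_lit 78) (nat_lit 0) (nat_lit 0) (XT.lf (nat_lit 0) (nat_lit 12146105096) (nat_lit 228) (nat_lit 12522767100) (nat_lit 304) (nat_lit 28008345110) (nat_lit 53) (nat_lit 5) (nat_lit 56) (nat_lit 5) (nat_lit 57) (nat_lit 5) (nat_lit 329) (nat_lit 286) (nat_lit 165)) (XT.lf (nat_lit 0) (nat_lit 40849312674) (nat_lit 304) (nat_lit 2372384444) (nat_lit 76) (nat_lit 11348992629) (nat_lit 53) (nat_lit 5) (nat_lit 57) (nat_lit 5) (nat_lit 54) (nat_lit 5) (nat_lit 330) (nat_lit 286) (nat_lit 164))))) (XT.nd (nat_lit 234) (nat_lit 380) (nat_lit 0) (XT.nd (nat_lit 78) (nat_lit 380) (nat_lit 0) (XT.lf (nat_lit 0) (nat_lit 1748189494) (nat_lit 228) (nat_lit 18256007787) (nat_lit 76) (nat_lit 36539476068) (nat_lit 50) (nat_lit 5) (nat_lit 53) (nat_lit 5) (nat_lit 51) (nat_lit 5) (nat_lit 331) (nat_lit 286) (nat_lit 163)) (XT.nd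 (nat_lit 78) (nat_lit 152) (nat_lit 0) (XT.lf (nat_lit 0) (nat_lit 17992773339) (nat_lit 304) (nat_lit 35939567498) (nat_lit 76) (nat_lit 4670333369) (nat_lit 47) (nat_lit 5) (nat_lit 51) (nat_lit 5) (nat_lit 48) (nat_lit 5) (nat_lit 332) (nat_lit 286) (nat_lit 162)) (XT.lf (nat_lit 0) (nat_lit 5137431135) (nat_lit 152) (nat_lit 30347322299) (nat_lit 228) (nat_lit 25266819776) (nat_lit 45) (nat_lit 5) (nat_lit 47) (nat_lit 5) (nat_lit 48) (nat_lit 5) (nat_lit 333) (nat_lit 286) (nat_lit 161)))) (XT.nd (nat_lit 156) (nat_lit 152) (nat_lit 0) (XT.nd (nat_lit 78) (nat_lit 228) (nat_lit 0) (XT.lf (nat_lit 0) (nat_lit 49009852746) (nat_lit 152) (nat_lit 5205722182) (nat_lit 228) (nat_lit 8781417932) (nat_lit 45) (nat_lit 5) (nat_lit 47) (nat_lit 5) (nat_lit 48) (nat_lit 5) (nat_lit 334) (nat_lit 286) (nat_lit 160)) (XT.lf (nat_lit 0) (nat_lit 8854193205) (nat_lit 228) (nat_lit 35331239838) (nat_lit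 76) (nat_lit 21152023148) (nat_lit 42) (nat_lit 5) (nat_lit 45) (nat_lit 5) (nat_lit 43) (nat_lit 5) (nat_lit 335) (nat_lit 286) (nat_lit 159))) (XT.nd (nat_lit 78) (nat_lit 0) (nat_lit 0) (XT.lf (nat_lit 0) (nat_lit 8719467248) (nat_lit 152) (nat_lit 18748598323) (nat_lit 228) (nat_lit 40315928573) (nat_lit 40) (nat_lit 5) (nat_lit 42) (nat_lit 5) (nat_lit 43) (nat_lit 5) (nat_lit 336) (nat_lit 286) (nat_lit 158)) (XT.lf (nat_lit 0) (nat_lit 47451226504) (nat_lit 228) (nat_lit 14719891406) (nat_lit 76) (nat_lit 8168585724) (nat_lit 40) (nat_lit 5) (nat_lit 43) (nat_lit 5) (nat_lit 41) (nat_lit 5) (nat_lit 337) (nat_lit 286) (nat_lit 157))))))) (XT.nd (nat_lit 1092) (nat_lit 532) (nat_lit 0) (XT.nd (nat_lit 546) (nat_lit 456) (nat_lit 0) (XT.nd (nat_lit 234) (nat_lit 456) (nat_lit 0) (XT.nd (nat_lit 78) (nat_lit 228) (nat_lit 0) (XT.lf (nat_lit 0) (nat_lit 32274093089) (nat_lit 152) (nat_lit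 36653946619) (nat_lit 228) (nat_lit 4080326438) (nat_lit 38) (nat_lit 5) (nat_lit 40) (nat_lit 5) (nat_lit 41) (nat_lit 5) (nat_lit 338) (nat_lit 286) (nat_lit 156)) (XT.nd (nat_lit 78) (nat_lit 0) (nat_lit 0) (XT.lf (nat_lit 0) (nat_lit 6077657570) (nat_lit 152) (nat_lit 9491411459) (nat_lit 228) (nat_lit 60230679139) (nat_lit 35) (nat_lit 5) (nat_lit 37) (nat_lit 5) (nat_lit 38) (nat_lit 5) (nat_lit 339) (nat_lit 286) (nat_lit 155)) (XT.lf (nat_lit 0) (nat_lit 36718979785) (nat_lit 228) (nat_lit 22873128268) (nat_lit 76) (nat_lit 19119308361) (nat_lit 35) (nat_lit 5) (nat_lit 38) (nat_lit 5) (nat_lit 36) (nat_lit 5) (nat_lit 340) (nat_lit 286) (nat_lit 154)))) (XT.nd (nat_lit 156) (nat_lit 304) (nat_lit 0) (XT.nd (nat_lit 78) (nat_lit 0) (nat_lit 0) (XT.lf (nat_lit 0) (nat_lit 26736432231) (nat_lit 152) (nat_lit 32538238535) (nat_lit 228) (nat_lit 22483550755) (nat_lit 33) (nat_lit 5) (nat_lit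 35) (nat_lit 5) (nat_lit 36) (nat_lit 5) (nat_lit 341) (nat_lit 286) (nat_lit 153)) (XT.lf (nat_lit 0) (nat_lit 79296899806) (nat_lit 152) (nat_lit 3892326501) (nat_lit 228) (nat_lit 1761210069) (nat_lit 33) (nat_lit 5) (nat_lit 35) (nat_lit 5) (nat_lit 36) (nat_lit 5) (nat_lit 342) (nat_lit 286) (nat_lit 152))) (XT.nd (nat_lit 78) (nat_lit 152) (nat_lit 0) (XT.lf (nat_lit 0) (nat_lit 20311687997) (nat_lit 152) (nat_lit 41642361521) (nat_lit 76) (nat_lit 26321307674) (nat_lit 31) (nat_lit 5) (nat_lit 33) (nat_lit 5) (nat_lit 32) (nat_lit 5) (nat_lit 343) (nat_lit 286) (nat_lit 151)) (XT.lf (nat_lit 0) (nat_lit 10017900530) (nat_lit 152) (nat_lit 33624494012) (nat_lit 228) (nat_lit 48117890399) (nat_lit 29) (nat_lit 5) (nat_lit 31) (nat_lit 5) (nat_lit 32) (nat_lit 5) (nat_lit 344) (nat_lit 286) (nat_lit 150))))) (XT.nd (nat_lit 234) (nat_lit 304) (nat_lit 0) (XT.nd (nat_lit 78) (nat_lit 152)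 (nat_lit 0) (XT.lf (nat_lit 0) (nat_lit 65124419171) (nat_lit 152) (nat_lit 3439908124) (nat_lit 228) (nat_lit 26842392645) (nat_lit 29) (nat_lit 5) (nat_lit 31) (nat_lit 5) (nat_lit 32) (nat_lit 5) (nat_lit 345) (nat_lit 286) (nat_lit 149)) (XT.nd (nat_lit 78) (nat_lit 76) (nat_lit 0) (XT.lf (nat_lit 0) (nat_lit 23939625577) (nat_lit 76) (nat_lit 71290629062) (nat_lit 152) (nat_lit 3990286624) (nat_lit 28) (nat_lit 5) (nat_lit 29) (nat_lit 5) (nat_lit 30) (nat_lit 4) (nat_lit 346) (nat_lit 286) (nat_lit 148)) (XT.lf (nat_lit 0) (nat_lit 19959865005) (nat_lit 152) (nat_lit 21946942753) (nat_lit 76) (nat_lit 61302104489) (nat_lit 27) (nat_lit 5) (nat_lit 29) (nat_lit 5) (nat_lit 28) (nat_lit 5) (nat_lit 347) (nat_lit 286) (nat_lit 147)))) (XT.nd (nat_lit 156) (nat_lit 152) (nat_lit 0) (XT.nd (nat_lit 78) (nat_lit 0) (nat_lit 0) (XT.lf (nat_lit 0) (nat_lit 34683978263) (nat_lit 152) (nat_lit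 10671632284) (nat_lit 228) (nat_lit 62029988984) (nat_lit 25) (nat_lit 5) (nat_lit 27) (nat_lit 5) (nat_lit 28) (nat_lit 5) (nat_lit 348) (nat_lit 286) (nat_lit 146)) (XT.lf (nat_lit 0) (nat_lit 72458512679) (nat_lit 228) (nat_lit 17380374379) (nat_lit 76) (nat_lit 21919114311) (nat_lit 25) (nat_lit 5) (nat_lit 28) (nat_lit 5) (nat_lit 26) (nat_lit 4) (nat_lit 349) (nat_lit 286) (nat_lit 145))) (XT.nd (nat_lit 78) (nat_lit 76) (nat_lit 0) (XT.lf (nat_lit 0) (nat_lit 41401220898) (nat_lit 76) (nat_lit 60017715763) (nat_lit 152) (nat_lit 14915016544) (nat_lit 24) (nat_lit 5) (nat_lit 25) (nat_lit 5) (nat_lit 26) (nat_lit 4) (nat_lit 350) (nat_lit 286) (nat_lit 144)) (XT.lf (nat_lit 0) (nat_lit 10657552838) (nat_lit 152) (nat_lit 17758544363) (nat_lit 76) (nat_lit 92714200717) (nat_lit 23) (nat_lit 5) (nat_lit 25) (nat_lit 5) (nat_lit 24) (nat_lit 5) (nat_lit 351) (nat_lit 286) (nat_lit 143))))))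 (XT.nd (nat_lit 624) (nat_lit 76) (nat_lit 0) (XT.nd (nat_lit 234) (nat_lit 228) (nat_lit 0) (XT.nd (nat_lit 78) (nat_lit 76) (nat_lit 0) (XT.lf (nat_lit 0) (nat_lit 37664358088) (nat_lit 228) (nat_lit 83244476795) (nat_lit 76) (nat_lit 5239273660) (nat_lit 21) (nat_lit 5) (nat_lit 24) (nat_lit 5) (nat_lit 22) (nat_lit 4) (nat_lit 352) (nat_lit 286) (nat_lit 142)) (XT.nd (nat_lit 78) (nat_lit 76) (nat_lit 0) (XT.lf (nat_lit 0) (nat_lit 66489920824) (nat_lit 228) (nat_lit 24735348716) (nat_lit 76) (nat_lit 40177488657) (nat_lit 21) (nat_lit 5) (nat_lit 24) (nat_lit 5) (nat_lit 22) (nat_lit 4) (nat_lit 353) (nat_lit 286) (nat_lit 141)) (XT.lf (nat_lit 0) (nat_lit 37424357157) (nat_lit 76) (nat_lit 59689281912) (nat_lit 152) (nat_lit 39795795907) (nat_lit 20) (nat_lit 5) (nat_lit 21) (nat_lit 5) (nat_lit 22) (nat_lit 4) (nat_lit 354) (nat_lit 286) (nat_lit 140)))) (XT.nd (nat_lit 156) (nat_lit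 0) (nat_lit 0) (XT.nd (nat_lit 78) (nat_lit 228) (nat_lit 0) (XT.lf (nat_lit 0) (nat_lit 103203929732) (nat_lit 76) (nat_lit 26316462032) (nat_lit 152) (nat_lit 13163499294) (nat_lit 20) (nat_lit 5) (nat_lit 21) (nat_lit 5) (nat_lit 22) (nat_lit 4) (nat_lit 355) (nat_lit 286) (nat_lit 139)) (XT.lf (nat_lit 0) (nat_lit 14825654407) (nat_lit 228) (nat_lit 124979949499) (nat_lit 76) (nat_lit 8927777221) (nat_lit 17) (nat_lit 5) (nat_lit 20) (nat_lit 5) (nat_lit 18) (nat_lit 4) (nat_lit 356) (nat_lit 286) (nat_lit 138))) (XT.nd (nat_lit 78) (nat_lit 0) (nat_lit 0) (XT.lf (nat_lit 0) (nat_lit 44617996168) (nat_lit 228) (nat_lit 64506898622) (nat_lit 76) (nat_lit 45936262617) (nat_lit 17) (nat_lit 5) (nat_lit 20) (nat_lit 5) (nat_lit 18) (nat_lit 4) (nat_lit 357) (nat_lit 286) (nat_lit 137)) (XT.lf (nat_lit 0) (nat_lit 75897466781) (nat_lit 228) (nat_lit 1014718894) (nat_lit 76) (nat_lit 84793212243)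 (nat_lit 17) (nat_lit 5) (nat_lit 20) (nat_lit 5) (nat_lit 18) (nat_lit 4) (nat_lit 358) (nat_lit 286) (nat_lit 136))))) (XT.nd (nat_lit 35100) (nat_lit 0) (nat_lit 13680) (XT.nd (nat_lit 34944) (nat_lit 0) (nat_lit 13604) (XT.lf (nat_lit 0) (nat_lit 138338750164) (nat_lit 76) (nat_lit 6210458918) (nat_lit 152) (nat_lit 31418238286) (nat_lit 16) (nat_lit 5) (nat_lit 17) (nat_lit 5) (nat_lit 18) (nat_lit 4) (nat_lit 360) (nat_lit 286) (nat_lit 134)) (XT.nd (nat_lit 78) (nat_lit 0) (nat_lit 0) (XT.lf (nat_lit 0) (nat_lit 696495428) (nat_lit 0) (nat_lit 696495428) (nat_lit 1140) (nat_lit 6334069726) (nat_lit 195) (nat_lit 5) (nat_lit 195) (nat_lit 3) (nat_lit 210) (nat_lit 3) (nat_lit 287) (nat_lit 287) (nat_lit 206)) (XT.lf (nat_lit 0) (nat_lit 3394019864) (nat_lit 1140) (nat_lit 2469414179) (nat_lit 1216) (nat_lit 9960370724) (nat_lit 195) (nat_lit 5) (nat_lit 210) (nat_lit 3) (nat_lit 211)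 (nat_lit 5) (nat_lit 288) (nat_lit 287) (nat_lit 205)))) (XT.nd (nat_lit 156) (nat_lit 0) (nat_lit 76) (XT.nd (nat_lit 78) (nat_lit 0) (nat_lit 76) (XT.lf (nat_lit 0) (nat_lit 4168564200) (nat_lit 1140) (nat_lit 6399660164) (nat_lit 1216) (nat_lit 5639698203) (nat_lit 196) (nat_lit 5) (nat_lit 211) (nat_lit 5) (nat_lit 212) (nat_lit 5) (nat_lit 289) (nat_lit 287) (nat_lit 204)) (XT.lf (nat_lit 0) (nat_lit 5109844900) (nat_lit 1140) (nat_lit 10431612547) (nat_lit 1216) (nat_lit 1065980099) (nat_lit 197) (nat_lit 5) (nat_lit 212) (nat_lit 5) (nat_lit 213) (nat_lit 5) (nat_lit 290) (nat_lit 287) (nat_lit 203))) (XT.nd (nat_lit 78) (nat_lit 0) (nat_lit 76) (XT.lf (nat_lit 76) (nat_lit 2412529475) (nat_lit 0) (nat_lit 3856514314) (nat_lit 1216) (nat_lit 10752788922) (nat_lit 198) (nat_lit 5) (nat_lit 197) (nat_lit 5) (nat_lit 213) (nat_lit 5) (nat_lit 291) (nat_lit 287) (nat_lit 202)) (XT.lf (nat_lit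 0) (nat_lit 7651133181) (nat_lit 1140) (nat_lit 1435269145) (nat_lit 1216) (nat_lit 8365626023) (nat_lit 198) (nat_lit 5) (nat_lit 213) (nat_lit 5) (nat_lit 214) (nat_lit 5) (nat_lit 292) (nat_lit 287) (nat_lit 201))))))))
noncomputable def xc93 : XT := (XT.nd (nat_lit 2184) (nat_lit 4028) (nat_lit 0) (XT.nd (nat_lit 1092) (nat_lit 4180) (nat_lit 0) (XT.nd (nat_lit 546) (nat_lit 3192) (nat_lit 0) (XT.nd (nat_lit 234) (nat_lit 1672) (nat_lit 0) (XT.nd (nat_lit 78) (nat_lit 0) (nat_lit 0) (XT.lf (nat_lit 0) (nat_lit 9271233583) (nat_lit 1140) (nat_lit 5343363884) (nat_lit 1216) (nat_lit 3284096373) (nat_lit 199) (nat_lit 5) (nat_lit 214) (nat_lit 5) (nat_lit 215) (nat_lit 5) (nat_lit 293) (nat_lit 287) (nat_lit 200)) (XT.nd (nat_lit 78) (nat_lit 0) (nat_lit 76) (XT.lf (nat_lit 76) (nat_lit 8975481681) (nat_lit 0) (nat_lit 2167570799) (nat_lit 1216) (nat_lit 7219544691) (nat_lit 200) (nat_lit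 5) (nat_lit 199) (nat_lit 5) (nat_lit 215) (nat_lit 5) (nat_lit 294) (nat_lit 287) (nat_lit 199)) (XT.lf (nat_lit 76) (nat_lit 5254818545) (nat_lit 0) (nat_lit 8043266960) (nat_lit 1216) (nat_lit 5545946200) (nat_lit 201) (nat_lit 5) (nat_lit 200) (nat_lit 5) (nat_lit 216) (nat_lit 5) (nat_lit 295) (nat_lit 287) (nat_lit 198)))) (XT.nd (nat_lit 156) (nat_lit 1824) (nat_lit 0) (XT.nd (nat_lit 78) (nat_lit 0) (nat_lit 0) (XT.lf (nat_lit 76) (nat_lit 1418663221) (nat_lit 0) (nat_lit 14303059172) (nat_lit 1216) (nat_lit 3623013560) (nat_lit 202) (nat_lit 5) (nat_lit 201) (nat_lit 5) (nat_lit 217) (nat_lit 5) (nat_lit 296) (nat_lit 287) (nat_lit 197)) (XT.lf (nat_lit 76) (nat_lit 17362102532) (nat_lit 0) (nat_lit 1105197762) (nat_lit 1216) (nat_lit 1397174778) (nat_lit 202) (nat_lit 5) (nat_lit 201) (nat_lit 5) (nat_lit 217) (nat_lit 5) (nat_lit 297) (nat_lit 287) (nat_lit 196))) (XT.nd (nat_lit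 78) (nat_lit 684) (nat_lit 0) (XT.lf (nat_lit 0) (nat_lit 1160852137) (nat_lit 1216) (nat_lit 6590672137) (nat_lit 76) (nat_lit 12651249408) (nat_lit 186) (nat_lit 5) (nat_lit 202) (nat_lit 5) (nat_lit 187) (nat_lit 5) (nat_lit 298) (nat_lit 287) (nat_lit 195)) (XT.lf (nat_lit 0) (nat_lit 3995285137) (nat_lit 760) (nat_lit 10839319460) (nat_lit 76) (nat_lit 6127665365) (nat_lit 177) (nat_lit 5) (nat_lit 187) (nat_lit 5) (nat_lit 178) (nat_lit 5) (nat_lit 299) (nat_lit 287) (nat_lit 194))))) (XT.nd (nat_lit 234) (nat_lit 2052) (nat_lit 0) (XT.nd (nat_lit 78) (nat_lit 532) (nat_lit 0) (XT.lf (nat_lit 0) (nat_lit 6290224971) (nat_lit 608) (nat_lit 871148887) (nat_lit 684) (nat_lit 14382687989) (nat_lit 169) (nat_lit 5) (nat_lit 177) (nat_lit 5) (nat_lit 178) (nat_lit 5) (nat_lit 300) (nat_lit 287) (nat_lit 193)) (XT.nd (nat_lit 78) (nat_lit 0) (nat_lit 0) (XT.lf (nat_lit 0) (nat_lit 2245351470)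 (nat_lit 532) (nat_lit 8490647650) (nat_lit 608) (nat_lit 11411455162) (nat_lit 162) (nat_lit 5) (nat_lit 169) (nat_lit 5) (nat_lit 170) (nat_lit 5) (nat_lit 301) (nat_lit 287) (nat_lit 192)) (XT.lf (nat_lit 0) (nat_lit 14699444242) (nat_lit 608) (nat_lit 1923063650) (nat_lit 76) (nat_lit 6152222854) (nat_lit 162) (nat_lit 5) (nat_lit 170) (nat_lit 5) (nat_lit 163) (nat_lit 5) (nat_lit 302) (nat_lit 287) (nat_lit 191)))) (XT.nd (nat_lit 156) (nat_lit 1064) (nat_lit 0) (XT.nd (nat_lit 78) (nat_lit 456) (nat_lit 0) (XT.lf (nat_lit 0) (nat_lit 17189419067) (nat_lit 532) (nat_lit 1907381448) (nat_lit 608) (nat_lit 4329514602) (nat_lit 155) (nat_lit 5) (nat_lit 162) (nat_lit 5) (nat_lit 163) (nat_lit 5) (nat_lit 303) (nat_lit 287) (nat_lit 190)) (XT.lf (nat_lit 0) (nat_lit 13301755203) (nat_lit 456) (nat_lit 10675699662) (nat_lit 532) (nat_lit 125136414) (nat_lit 149) (nat_lit 5) (nat_lit 155)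 (nat_lit 5) (nat_lit 156) (nat_lit 5) (nat_lit 304) (nat_lit 287) (nat_lit 189))) (XT.nd (nat_lit 78) (nat_lit 456) (nat_lit 0) (XT.lf (nat_lit 0) (nat_lit 4411339947) (nat_lit 608) (nat_lit 15612564973) (nat_lit 76) (nat_lit 4781386188) (nat_lit 141) (nat_lit 5) (nat_lit 149) (nat_lit 5) (nat_lit 142) (nat_lit 5) (nat_lit 305) (nat_lit 287) (nat_lit 188)) (XT.lf (nat_lit 0) (nat_lit 4841139370) (nat_lit 456) (nat_lit 4583822167) (nat_lit 532) (nat_lit 16110553572) (nat_lit 135) (nat_lit 5) (nat_lit 141) (nat_lit 5) (nat_lit 142) (nat_lit 5) (nat_lit 306) (nat_lit 287) (nat_lit 187)))))) (XT.nd (nat_lit 546) (nat_lit 2052) (nat_lit 0) (XT.nd (nat_lit 234) (nat_lit 1292) (nat_lit 0) (XT.nd (nat_lit 78) (nat_lit 380) (nat_lit 0) (XT.lf (nat_lit 0) (nat_lit 222269280) (nat_lit 456) (nat_lit 14730026043) (nat_lit 532) (nat_lit 11342077033) (nat_lit 129) (nat_lit 5) (nat_lit 135) (nat_lit 5) (nat_lit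 136) (nat_lit 5) (nat_lit 307) (nat_lit 287) (nat_lit 186)) (XT.nd (nat_lit 78) (nat_lit 380) (nat_lit 0) (XT.lf (nat_lit 0) (nat_lit 21017064331) (nat_lit 532) (nat_lit 4543343805) (nat_lit 76) (nat_lit 1522944638) (nat_lit 129) (nat_lit 5) (nat_lit 136) (nat_lit 5) (nat_lit 130) (nat_lit 5) (nat_lit 308) (nat_lit 287) (nat_lit 185)) (XT.lf (nat_lit 0) (nat_lit 18255117989) (nat_lit 380) (nat_lit 9441989618) (nat_lit 456) (nat_lit 205325306) (nat_lit 124) (nat_lit 5) (nat_lit 129) (nat_lit 5) (nat_lit 130) (nat_lit 5) (nat_lit 309) (nat_lit 287) (nat_lit 184)))) (XT.nd (nat_lit 156) (nat_lit 380) (nat_lit 0) (XT.nd (nat_lit 78) (nat_lit 380) (nat_lit 0) (XT.lf (nat_lit 0) (nat_lit 6074198611) (nat_lit 532) (nat_lit 15106576519) (nat_lit 76) (nat_lit 7572739556) (nat_lit 117) (nat_lit 5) (nat_lit 124) (nat_lit 5) (nat_lit 118) (nat_lit 5) (nat_lit 310) (nat_lit 287) (nat_lit 183)) (XT.lf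 (nat_lit 0) (nat_lit 8721112316) (nat_lit 380) (nat_lit 4210413568) (nat_lit 456) (nat_lit 16707531835) (nat_lit 112) (nat_lit 5) (nat_lit 117) (nat_lit 5) (nat_lit 118) (nat_lit 5) (nat_lit 311) (nat_lit 287) (nat_lit 182))) (XT.nd (nat_lit 78) (nat_lit 0) (nat_lit 0) (XT.lf (nat_lit 0) (nat_lit 3411925988) (nat_lit 380) (nat_lit 17029445614) (nat_lit 456) (nat_lit 10118226616) (nat_lit 107) (nat_lit 5) (nat_lit 112) (nat_lit 5) (nat_lit 113) (nat_lit 5) (nat_lit 312) (nat_lit 287) (nat_lit 181)) (XT.lf (nat_lit 0) (nat_lit 28580862124) (nat_lit 456) (nat_lit 2187609208) (nat_lit 76) (nat_lit 750079240) (nat_lit 107) (nat_lit 5) (nat_lit 113) (nat_lit 5) (nat_lit 108) (nat_lit 5) (nat_lit 313) (nat_lit 287) (nat_lit 180))))) (XT.nd (nat_lit 234) (nat_lit 988) (nat_lit 0) (XT.nd (nat_lit 78) (nat_lit 684) (nat_lit 0) (XT.lf (nat_lit 0) (nat_lit 4911411647) (nat_lit 380) (nat_lit 8251998347)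 (nat_lit 76) (nat_lit 19348742136) (nat_lit 102) (nat_lit 5) (nat_lit 107) (nat_lit 5) (nat_lit 103) (nat_lit 5) (nat_lit 314) (nat_lit 287) (nat_lit 179)) (XT.nd (nat_lit 78) (nat_lit 304) (nat_lit 0) (XT.lf (nat_lit 0) (nat_lit 13340237742) (nat_lit 456) (nat_lit 14756050855) (nat_lit 76) (nat_lit 5450840064) (nat_lit 97) (nat_lit 5) (nat_lit 103) (nat_lit 5) (nat_lit 98) (nat_lit 5) (nat_lit 315) (nat_lit 287) (nat_lit 178)) (XT.lf (nat_lit 0) (nat_lit 12831212035) (nat_lit 304) (nat_lit 9691722684) (nat_lit 380) (nat_lit 12100954299) (nat_lit 93) (nat_lit 5) (nat_lit 97) (nat_lit 5) (nat_lit 98) (nat_lit 5) (nat_lit 316) (nat_lit 287) (nat_lit 177)))) (XT.nd (nat_lit 156) (nat_lit 608) (nat_lit 0) (XT.nd (nat_lit 78) (nat_lit 76) (nat_lit 0) (XT.lf (nat_lit 0) (nat_lit 6373741962) (nat_lit 304) (nat_lit 26089037745) (nat_lit 380) (nat_lit 3282774803) (nat_lit 89) (nat_lit 5) (nat_lit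 93) (nat_lit 5) (nat_lit 94) (nat_lit 5) (nat_lit 317) (nat_lit 287) (nat_lit 176)) (XT.lf (nat_lit 0) (nat_lit 6175039999) (nat_lit 380) (nat_lit 682793968) (nat_lit 76) (nat_lit 30054292445) (nat_lit 88) (nat_lit 5) (nat_lit 93) (nat_lit 5) (nat_lit 89) (nat_lit 5) (nat_lit 318) (nat_lit 287) (nat_lit 175))) (XT.nd (nat_lit 78) (nat_lit 304) (nat_lit 0) (XT.lf (nat_lit 0) (nat_lit 16449404858) (nat_lit 380) (nat_lit 8278428372) (nat_lit 76) (nat_lit 13395878647) (nat_lit 84) (nat_lit 5) (nat_lit 89) (nat_lit 5) (nat_lit 85) (nat_lit 5) (nat_lit 319) (nat_lit 287) (nat_lit 174)) (XT.lf (nat_lit 0) (nat_lit 22883730704) (nat_lit 304) (nat_lit 4641708351) (nat_lit 380) (nat_lit 11861805328) (nat_lit 80) (nat_lit 5) (nat_lit 84) (nat_lit 5) (nat_lit 85) (nat_lit 5) (nat_lit 320) (nat_lit 287) (nat_lit 173))))))) (XT.nd (nat_lit 1092) (nat_lit 1368) (nat_lit 0) (XT.nd (nat_lit 546) (nat_lit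 1064) (nat_lit 0) (XT.nd (nat_lit 234) (nat_lit 988) (nat_lit 0) (XT.nd (nat_lit 78) (nat_lit 380) (nat_lit 0) (XT.lf (nat_lit 0) (nat_lit 15191307396) (nat_lit 228) (nat_lit 24346088624) (nat_lit 304) (nat_lit 1165099863) (nat_lit 77) (nat_lit 5) (nat_lit 80) (nat_lit 5) (nat_lit 81) (nat_lit 5) (nat_lit 321) (nat_lit 287) (nat_lit 172)) (XT.nd (nat_lit 78) (nat_lit 0) (nat_lit 0) (XT.lf (nat_lit 0) (nat_lit 6711406366) (nat_lit 304) (nat_lit 3433644278) (nat_lit 380) (nat_lit 31927310649) (nat_lit 72) (nat_lit 5) (nat_lit 76) (nat_lit 5) (nat_lit 77) (nat_lit 5) (nat_lit 322) (nat_lit 287) (nat_lit 171)) (XT.lf (nat_lit 0) (nat_lit 22432459786) (nat_lit 380) (nat_lit 2628488187) (nat_lit 76) (nat_lit 18436355800) (nat_lit 72) (nat_lit 5) (nat_lit 77) (nat_lit 5) (nat_lit 73) (nat_lit 5) (nat_lit 323) (nat_lit 287) (nat_lit 170)))) (XT.nd (nat_lit 156) (nat_lit 456) (nat_lit 0) (XT.nd (nat_lit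 78) (nat_lit 304) (nat_lit 0) (XT.lf (nat_lit 0) (nat_lit 32325825652) (nat_lit 228) (nat_lit 3346510484) (nat_lit 304) (nat_lit 9311019372) (nat_lit 69) (nat_lit 5) (nat_lit 72) (nat_lit 5) (nat_lit 73) (nat_lit 5) (nat_lit 324) (nat_lit 287) (nat_lit 169)) (XT.lf (nat_lit 0) (nat_lit 3401856215) (nat_lit 304) (nat_lit 23777797235) (nat_lit 76) (nat_lit 19350272232) (nat_lit 65) (nat_lit 5) (nat_lit 69) (nat_lit 5) (nat_lit 66) (nat_lit 5) (nat_lit 325) (nat_lit 287) (nat_lit 168))) (XT.nd (nat_lit 78) (nat_lit 228) (nat_lit 0) (XT.lf (nat_lit 0) (nat_lit 12144175041) (nat_lit 228) (nat_lit 4690607312) (nat_lit 304) (nat_lit 31307971608) (nat_lit 62) (nat_lit 5) (nat_lit 65) (nat_lit 5) (nat_lit 66) (nat_lit 5) (nat_lit 326) (nat_lit 287) (nat_lit 167)) (XT.lf (nat_lit 0) (nat_lit 342124499) (nat_lit 228) (nat_lit 31022888223) (nat_lit 304) (nat_lit 18458445412) (nat_lit 59) (nat_lit 5)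 (nat_lit 62) (nat_lit 5) (nat_lit 63) (nat_lit 5) (nat_lit 327) (nat_lit 287) (nat_lit 166))))) (XT.nd (nat_lit 234) (nat_lit 608) (nat_lit 0) (XT.nd (nat_lit 78) (nat_lit 456) (nat_lit 0) (XT.lf (nat_lit 0) (nat_lit 39193661141) (nat_lit 228) (nat_lit 7839044581) (nat_lit 304) (nat_lit 4543167281) (nat_lit 59) (nat_lit 5) (nat_lit 62) (nat_lit 5) (nat_lit 63) (nat_lit 5) (nat_lit 328) (nat_lit 287) (nat_lit 165)) (XT.nd (nat_lit 78) (nat_lit 228) (nat_lit 0) (XT.lf (nat_lit 0) (nat_lit 10286759708) (nat_lit 228) (nat_lit 26575578211) (nat_lit 76) (nat_lit 16538210692) (nat_lit 56) (nat_lit 5) (nat_lit 59) (nat_lit 5) (nat_lit 57) (nat_lit 5) (nat_lit 329) (nat_lit 287) (nat_lit 164)) (XT.lf (nat_lit 0) (nat_lit 13057495532) (nat_lit 228) (nat_lit 13034880695) (nat_lit 304) (nat_lit 29212891270) (nat_lit 53) (nat_lit 5) (nat_lit 56) (nat_lit 5) (nat_lit 57) (nat_lit 5) (nat_lit 330) (nat_lit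 287) (nat_lit 163)))) (XT.nd (nat_lit 156) (nat_lit 380) (nat_lit 0) (XT.nd (nat_lit 78) (nat_lit 228) (nat_lit 0) (XT.lf (nat_lit 0) (nat_lit 43073832114) (nat_lit 304) (nat_lit 2196908639) (nat_lit 76) (nat_lit 12022918190) (nat_lit 53) (nat_lit 5) (nat_lit 57) (nat_lit 5) (nat_lit 54) (nat_lit 5) (nat_lit 331) (nat_lit 287) (nat_lit 162)) (XT.lf (nat_lit 0) (nat_lit 2013570213) (nat_lit 228) (nat_lit 18879505483) (nat_lit 76) (nat_lit 38472346320) (nat_lit 50) (nat_lit 5) (nat_lit 53) (nat_lit 5) (nat_lit 51) (nat_lit 5) (nat_lit 332) (nat_lit 287) (nat_lit 161))) (XT.nd (nat_lit 78) (nat_lit 152) (nat_lit 0) (XT.lf (nat_lit 0) (nat_lit 19065655637) (nat_lit 304) (nat_lit 37451324724) (nat_lit 76) (nat_lit 5010538947) (nat_lit 47) (nat_lit 5) (nat_lit 51) (nat_lit 5) (nat_lit 48) (nat_lit 5) (nat_lit 333) (nat_lit 287) (nat_lit 160)) (XT.lf (nat_lit 0) (nat_lit 5671348033) (nat_lit 152)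 (nat_lit 31755300136) (nat_lit 228) (nat_lit 26357387038) (nat_lit 45) (nat_lit 5) (nat_lit 47) (nat_lit 5) (nat_lit 48) (nat_lit 5) (nat_lit 334) (nat_lit 287) (nat_lit 159)))))) (XT.nd (nat_lit 546) (nat_lit 608) (nat_lit 0) (XT.nd (nat_lit 234) (nat_lit 380) (nat_lit 0) (XT.nd (nat_lit 78) (nat_lit 380) (nat_lit 0) (XT.lf (nat_lit 0) (nat_lit 51724198090) (nat_lit 152) (nat_lit 5361828979) (nat_lit 228) (nat_lit 9055942422) (nat_lit 45) (nat_lit 5) (nat_lit 47) (nat_lit 5) (nat_lit 48) (nat_lit 5) (nat_lit 335) (nat_lit 287) (nat_lit 158)) (XT.nd (nat_lit 78) (nat_lit 152) (nat_lit 0) (XT.lf (nat_lit 0) (nat_lit 9454043436) (nat_lit 228) (nat_lit 36834547832) (nat_lit 76) (nat_lit 22310946944) (nat_lit 42) (nat_lit 5) (nat_lit 45) (nat_lit 5) (nat_lit 43) (nat_lit 5) (nat_lit 336) (nat_lit 287) (nat_lit 157)) (XT.lf (nat_lit 0) (nat_lit 9411148484) (nat_lit 152) (nat_lit 19582436072) (nat_lit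 228) (nat_lit 42174972898) (nat_lit 40) (nat_lit 5) (nat_lit 42) (nat_lit 5) (nat_lit 43) (nat_lit 5) (nat_lit 337) (nat_lit 287) (nat_lit 156)))) (XT.nd (nat_lit 156) (nat_lit 228) (nat_lit 0) (XT.nd (nat_lit 78) (nat_lit 152) (nat_lit 0) (XT.lf (nat_lit 0) (nat_lit 49969608304) (nat_lit 228) (nat_lit 15208887426) (nat_lit 76) (nat_lit 8673749021) (nat_lit 40) (nat_lit 5) (nat_lit 43) (nat_lit 5) (nat_lit 41) (nat_lit 5) (nat_lit 338) (nat_lit 287) (nat_lit 155)) (XT.lf (nat_lit 0) (nat_lit 34127716130) (nat_lit 152) (nat_lit 38387908447) (nat_lit 228) (nat_lit 4138858244) (nat_lit 38) (nat_lit 5) (nat_lit 40) (nat_lit 5) (nat_lit 41) (nat_lit 5) (nat_lit 339) (nat_lit 287) (nat_lit 154))) (XT.nd (nat_lit 78) (nat_lit 0) (nat_lit 0) (XT.lf (nat_lit 0) (nat_lit 6617401550) (nat_lit 152) (nat_lit 9868241114) (nat_lit 228) (nat_lit 63099888147) (nat_lit 35) (nat_lit 5) (nat_lit 37) (nat_lit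 5) (nat_lit 38) (nat_lit 5) (nat_lit 340) (nat_lit 287) (nat_lit 153)) (XT.lf (nat_lit 0) (nat_lit 38687366612) (nat_lit 228) (nat_lit 23789045328) (nat_lit 76) (nat_lit 20166543913) (nat_lit 35) (nat_lit 5) (nat_lit 38) (nat_lit 5) (nat_lit 36) (nat_lit 5) (nat_lit 341) (nat_lit 287) (nat_lit 152))))) (XT.nd (nat_lit 234) (nat_lit 304) (nat_lit 0) (XT.nd (nat_lit 78) (nat_lit 152) (nat_lit 0) (XT.lf (nat_lit 0) (nat_lit 28294465094) (nat_lit 152) (nat_lit 34072196902) (nat_lit 228) (nat_lit 23475567397) (nat_lit 33) (nat_lit 5) (nat_lit 35) (nat_lit 5) (nat_lit 36) (nat_lit 5) (nat_lit 342) (nat_lit 287) (nat_lit 151)) (XT.nd (nat_lit 78) (nat_lit 152) (nat_lit 0) (XT.lf (nat_lit 0) (nat_lit 83472422178) (nat_lit 152) (nat_lit 3998415626) (nat_lit 228) (nat_lit 1723403053) (nat_lit 33) (nat_lit 5) (nat_lit 35) (nat_lit 5) (nat_lit 36) (nat_lit 5) (nat_lit 343) (nat_lit 287) (nat_lit 150))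 (XT.lf (nat_lit 0) (nat_lit 21447639148) (nat_lit 152) (nat_lit 43514612658) (nat_lit 76) (nat_lit 27723213392) (nat_lit 31) (nat_lit 5) (nat_lit 33) (nat_lit 5) (nat_lit 32) (nat_lit 5) (nat_lit 344) (nat_lit 287) (nat_lit 149)))) (XT.nd (nat_lit 156) (nat_lit 152) (nat_lit 0) (XT.nd (nat_lit 78) (nat_lit 0) (nat_lit 0) (XT.lf (nat_lit 0) (nat_lit 10722646702) (nat_lit 152) (nat_lit 35218462110) (nat_lit 228) (nat_lit 50403646015) (nat_lit 29) (nat_lit 5) (nat_lit 31) (nat_lit 5) (nat_lit 32) (nat_lit 5) (nat_lit 345) (nat_lit 287) (nat_lit 148)) (XT.lf (nat_lit 0) (nat_lit 68574784078) (nat_lit 152) (nat_lit 3528802004) (nat_lit 228) (nat_lit 28070094273) (nat_lit 29) (nat_lit 5) (nat_lit 31) (nat_lit 5) (nat_lit 32) (nat_lit 5) (nat_lit 346) (nat_lit 287) (nat_lit 147))) (XT.nd (nat_lit 78) (nat_lit 76) (nat_lit 0) (XT.lf (nat_lit 0) (nat_lit 25327688603) (nat_lit 76) (nat_lit 74772431033)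 (nat_lit 152) (nat_lit 4078155922) (nat_lit 28) (nat_lit 5) (nat_lit 29) (nat_lit 5) (nat_lit 30) (nat_lit 4) (nat_lit 347) (nat_lit 287) (nat_lit 146)) (XT.lf (nat_lit 0) (nat_lit 21062112004) (nat_lit 152) (nat_lit 22860193401) (nat_lit 76) (nat_lit 64443885823) (nat_lit 27) (nat_lit 5) (nat_lit 29) (nat_lit 5) (nat_lit 28) (nat_lit 5) (nat_lit 348) (nat_lit 287) (nat_lit 145))))))))
noncomputable def xc94 : XT := (XT.nd (nat_lit 37362) (nat_lit 0) (nat_lit 2280) (XT.nd (nat_lit 36270) (nat_lit 0) (nat_lit 9424) (XT.nd (nat_lit 546) (nat_lit 228) (nat_lit 0) (XT.nd (nat_lit 234) (nat_lit 304) (nat_lit 0) (XT.nd (nat_lit 78) (nat_lit 76) (nat_lit 0) (XT.lf (nat_lit 0) (nat_lit 36596996577) (nat_lit 152) (nat_lit 11127402704) (nat_lit 228) (nat_lit 65027412820) (nat_lit 25) (nat_lit 5) (nat_lit 27) (nat_lit 5) (nat_lit 28) (nat_lit 5) (nat_lit 349) (nat_lit 287) (nat_lit 144)) (XT.nd (nat_lit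 78) (nat_lit 76) (nat_lit 0) (XT.lf (nat_lit 0) (nat_lit 76178348955) (nat_lit 228) (nat_lit 18076879918) (nat_lit 76) (nat_lit 23087729854) (nat_lit 25) (nat_lit 5) (nat_lit 28) (nat_lit 5) (nat_lit 26) (nat_lit 4) (nat_lit 350) (nat_lit 287) (nat_lit 143)) (XT.lf (nat_lit 0) (nat_lit 43638850068) (nat_lit 76) (nat_lit 62944940044) (nat_lit 152) (nat_lit 15564009849) (nat_lit 24) (nat_lit 5) (nat_lit 25) (nat_lit 5) (nat_lit 26) (nat_lit 4) (nat_lit 351) (nat_lit 287) (nat_lit 142)))) (XT.nd (nat_lit 156) (nat_lit 76) (nat_lit 0) (XT.nd (nat_lit 78) (nat_lit 152) (nat_lit 0) (XT.lf (nat_lit 0) (nat_lit 11280782322) (nat_lit 152) (nat_lit 18485053546) (nat_lit 76) (nat_lit 97418235224) (nat_lit 23) (nat_lit 5) (nat_lit 25) (nat_lit 5) (nat_lit 24) (nat_lit 5) (nat_lit 352) (nat_lit 287) (nat_lit 141)) (XT.lf (nat_lit 0) (nat_lit 39635798062) (nat_lit 228) (nat_lit 87247918761) (nat_lit 76)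 (nat_lit 5569120804) (nat_lit 21) (nat_lit 5) (nat_lit 24) (nat_lit 5) (nat_lit 22) (nat_lit 4) (nat_lit 353) (nat_lit 287) (nat_lit 140))) (XT.nd (nat_lit 78) (nat_lit 76) (nat_lit 0) (XT.lf (nat_lit 0) (nat_lit 69898437883) (nat_lit 228) (nat_lit 25820895319) (nat_lit 76) (nat_lit 42251014005) (nat_lit 21) (nat_lit 5) (nat_lit 24) (nat_lit 5) (nat_lit 22) (nat_lit 4) (nat_lit 354) (nat_lit 287) (nat_lit 139)) (XT.lf (nat_lit 0) (nat_lit 39442461132) (nat_lit 76) (nat_lit 62608291867) (nat_lit 152) (nat_lit 41701683844) (nat_lit 20) (nat_lit 5) (nat_lit 21) (nat_lit 5) (nat_lit 22) (nat_lit 4) (nat_lit 355) (nat_lit 287) (nat_lit 138))))) (XT.nd (nat_lit 35412) (nat_lit 0) (nat_lit 13528) (XT.nd (nat_lit 78) (nat_lit 228) (nat_lit 0) (XT.lf (nat_lit 0) (nat_lit 108504017759) (nat_lit 76) (nat_lit 27569947856) (nat_lit 152) (nat_lit 13741767727) (nat_lit 20) (nat_lit 5) (nat_lit 21) (nat_lit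 5) (nat_lit 22) (nat_lit 4) (nat_lit 356) (nat_lit 287) (nat_lit 137)) (XT.nd (nat_lit 35256) (nat_lit 0) (nat_lit 13528) (XT.lf (nat_lit 0) (nat_lit 15643465552) (nat_lit 228) (nat_lit 131089815829) (nat_lit 76) (nat_lit 9434449242) (nat_lit 17) (nat_lit 5) (nat_lit 20) (nat_lit 5) (nat_lit 18) (nat_lit 4) (nat_lit 357) (nat_lit 287) (nat_lit 136)) (XT.lf (nat_lit 0) (nat_lit 948248580) (nat_lit 0) (nat_lit 948248580) (nat_lit 1140) (nat_lit 6203391064) (nat_lit 195) (nat_lit 5) (nat_lit 195) (nat_lit 3) (nat_lit 210) (nat_lit 3) (nat_lit 288) (nat_lit 288) (nat_lit 204)))) (XT.nd (nat_lit 156) (nat_lit 0) (nat_lit 152) (XT.nd (nat_lit 78) (nat_lit 0) (nat_lit 76) (XT.lf (nat_lit 0) (nat_lit 4386142788) (nat_lit 1140) (nat_lit 2149953429) (nat_lit 1216) (nat_lit 10053255305) (nat_lit 195) (nat_lit 5) (nat_lit 210) (nat_lit 3) (nat_lit 211) (nat_lit 5) (nat_lit 289) (nat_lit 288) (nat_lit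 203)) (XT.lf (nat_lit 0) (nat_lit 5160953834) (nat_lit 1140) (nat_lit 6261428579) (nat_lit 1216) (nat_lit 5571492841) (nat_lit 196) (nat_lit 5) (nat_lit 211) (nat_lit 5) (nat_lit 212) (nat_lit 5) (nat_lit 290) (nat_lit 288) (nat_lit 202))) (XT.nd (nat_lit 78) (nat_lit 0) (nat_lit 0) (XT.lf (nat_lit 0) (nat_lit 6113305644) (nat_lit 1140) (nat_lit 10481765584) (nat_lit 1216) (nat_lit 819418571) (nat_lit 197) (nat_lit 5) (nat_lit 212) (nat_lit 5) (nat_lit 213) (nat_lit 5) (nat_lit 291) (nat_lit 288) (nat_lit 201)) (XT.lf (nat_lit 76) (nat_lit 2991070162) (nat_lit 0) (nat_lit 4308178520) (nat_lit 1216) (nat_lit 10551334447) (nat_lit 198) (nat_lit 5) (nat_lit 197) (nat_lit 5) (nat_lit 213) (nat_lit 5) (nat_lit 292) (nat_lit 288) (nat_lit 200)))))) (XT.nd (nat_lit 546) (nat_lit 3420) (nat_lit 0) (XT.nd (nat_lit 234) (nat_lit 912) (nat_lit 0) (XT.nd (nat_lit 78) (nat_lit 0) (nat_lit 76) (XT.lf (nat_lit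 0) (nat_lit 8713941831) (nat_lit 1140) (nat_lit 1047276845) (nat_lit 1216) (nat_lit 8542204830) (nat_lit 198) (nat_lit 5) (nat_lit 213) (nat_lit 5) (nat_lit 214) (nat_lit 5) (nat_lit 293) (nat_lit 288) (nat_lit 199)) (XT.nd (nat_lit 78) (nat_lit 0) (nat_lit 0) (XT.lf (nat_lit 0) (nat_lit 10384970960) (nat_lit 1140) (nat_lit 5141653794) (nat_lit 1216) (nat_lit 3246737840) (nat_lit 199) (nat_lit 5) (nat_lit 214) (nat_lit 5) (nat_lit 215) (nat_lit 5) (nat_lit 294) (nat_lit 288) (nat_lit 198)) (XT.lf (nat_lit 76) (nat_lit 9879693748) (nat_lit 0) (nat_lit 2444104255) (nat_lit 1216) (nat_lit 6937496794) (nat_lit 200) (nat_lit 5) (nat_lit 199) (nat_lit 5) (nat_lit 215) (nat_lit 5) (nat_lit 295) (nat_lit 288) (nat_lit 197)))) (XT.nd (nat_lit 156) (nat_lit 1064) (nat_lit 0) (XT.nd (nat_lit 78) (nat_lit 0) (nat_lit 76) (XT.lf (nat_lit 76) (nat_lit 5980387702) (nat_lit 0) (nat_lit 8579409629) (nat_lit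 1216) (nat_lit 5207841784) (nat_lit 201) (nat_lit 5) (nat_lit 200) (nat_lit 5) (nat_lit 216) (nat_lit 5) (nat_lit 296) (nat_lit 288) (nat_lit 196)) (XT.lf (nat_lit 76) (nat_lit 1958469885) (nat_lit 0) (nat_lit 15121007307) (nat_lit 1216) (nat_lit 3214688405) (nat_lit 202) (nat_lit 5) (nat_lit 201) (nat_lit 5) (nat_lit 217) (nat_lit 5) (nat_lit 297) (nat_lit 288) (nat_lit 195))) (XT.nd (nat_lit 78) (nat_lit 1140) (nat_lit 0) (XT.lf (nat_lit 76) (nat_lit 18676753852) (nat_lit 0) (nat_lit 1258357818) (nat_lit 1216) (nat_lit 905627961) (nat_lit 202) (nat_lit 5) (nat_lit 201) (nat_lit 5) (nat_lit 217) (nat_lit 5) (nat_lit 298) (nat_lit 288) (nat_lit 194)) (XT.lf (nat_lit 0) (nat_lit 1746607694) (nat_lit 1216) (nat_lit 6457991378) (nat_lit 76) (nat_lit 13201903262) (nat_lit 186) (nat_lit 5) (nat_lit 202) (nat_lit 5) (nat_lit 187) (nat_lit 5) (nat_lit 299) (nat_lit 288) (nat_lit 193))))) (XT.nd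 (nat_lit 234) (nat_lit 1596) (nat_lit 0) (XT.nd (nat_lit 78) (nat_lit 1140) (nat_lit 0) (XT.lf (nat_lit 0) (nat_lit 4701391981) (nat_lit 760) (nat_lit 10916005374) (nat_lit 76) (nat_lit 6377244737) (nat_lit 177) (nat_lit 5) (nat_lit 187) (nat_lit 5) (nat_lit 178) (nat_lit 5) (nat_lit 300) (nat_lit 288) (nat_lit 192)) (XT.nd (nat_lit 78) (nat_lit 532) (nat_lit 0) (XT.lf (nat_lit 0) (nat_lit 7056679120) (nat_lit 608) (nat_lit 949338820) (nat_lit 684) (nat_lit 14600124892) (nat_lit 169) (nat_lit 5) (nat_lit 177) (nat_lit 5) (nat_lit 178) (nat_lit 5) (nat_lit 301) (nat_lit 288) (nat_lit 191)) (XT.lf (nat_lit 0) (nat_lit 2811619093) (nat_lit 532) (nat_lit 8928632184) (nat_lit 608) (nat_lit 11500052298) (nat_lit 162) (nat_lit 5) (nat_lit 169) (nat_lit 5) (nat_lit 170) (nat_lit 5) (nat_lit 302) (nat_lit 288) (nat_lit 190)))) (XT.nd (nat_lit 156) (nat_lit 1064) (nat_lit 0) (XT.nd (nat_lit 78) (nat_lit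 532) (nat_lit 0) (XT.lf (nat_lit 0) (nat_lit 15879485874) (nat_lit 608) (nat_lit 1572880850) (nat_lit 76) (nat_lit 6447272424) (nat_lit 162) (nat_lit 5) (nat_lit 170) (nat_lit 5) (nat_lit 163) (nat_lit 5) (nat_lit 303) (nat_lit 288) (nat_lit 189)) (XT.lf (nat_lit 0) (nat_lit 18482431871) (nat_lit 532) (nat_lit 1997251778) (nat_lit 608) (nat_lit 4104652548) (nat_lit 155) (nat_lit 5) (nat_lit 162) (nat_lit 5) (nat_lit 163) (nat_lit 5) (nat_lit 304) (nat_lit 288) (nat_lit 188))) (XT.nd (nat_lit 78) (nat_lit 532) (nat_lit 0) (XT.lf (nat_lit 0) (nat_lit 287554220) (nat_lit 532) (nat_lit 10896932078) (nat_lit 76) (nat_lit 14110361713) (nat_lit 148) (nat_lit 5) (nat_lit 155) (nat_lit 5) (nat_lit 149) (nat_lit 5) (nat_lit 305) (nat_lit 288) (nat_lit 187)) (XT.lf (nat_lit 0) (nat_lit 5032877709) (nat_lit 608) (nat_lit 15951061630) (nat_lit 76) (nat_lit 5049187949) (nat_lit 141) (nat_lit 5) (nat_lit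 149) (nat_lit 5) (nat_lit 142) (nat_lit 5) (nat_lit 306) (nat_lit 288) (nat_lit 186))))))) (XT.nd (nat_lit 1092) (nat_lit 2812) (nat_lit 0) (XT.nd (nat_lit 546) (nat_lit 1748) (nat_lit 0) (XT.nd (nat_lit 234) (nat_lit 1672) (nat_lit 0) (XT.nd (nat_lit 78) (nat_lit 456) (nat_lit 0) (XT.lf (nat_lit 0) (nat_lit 5512654318) (nat_lit 456) (nat_lit 4769560427) (nat_lit 532) (nat_lit 16518115723) (nat_lit 135) (nat_lit 5) (nat_lit 141) (nat_lit 5) (nat_lit 142) (nat_lit 5) (nat_lit 307) (nat_lit 288) (nat_lit 185)) (XT.nd (nat_lit 78) (nat_lit 0) (nat_lit 0) (XT.lf (nat_lit 0) (nat_lit 661742228) (nat_lit 456) (nat_lit 15410307254) (nat_lit 532) (nat_lit 11525515175) (nat_lit 129) (nat_lit 5) (nat_lit 135) (nat_lit 5) (nat_lit 136) (nat_lit 5) (nat_lit 308) (nat_lit 288) (nat_lit 184)) (XT.lf (nat_lit 0) (nat_lit 22422850705) (nat_lit 532) (nat_lit 4352086825) (nat_lit 76) (nat_lit 1651589998) (nat_lit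 129) (nat_lit 5) (nat_lit 136) (nat_lit 5) (nat_lit 130) (nat_lit 5) (nat_lit 309) (nat_lit 288) (nat_lit 183)))) (XT.nd (nat_lit 156) (nat_lit 760) (nat_lit 0) (XT.nd (nat_lit 78) (nat_lit 456) (nat_lit 0) (XT.lf (nat_lit 0) (nat_lit 134261416) (nat_lit 456) (nat_lit 9713980213) (nat_lit 76) (nat_lit 19438686820) (nat_lit 123) (nat_lit 5) (nat_lit 129) (nat_lit 5) (nat_lit 124) (nat_lit 5) (nat_lit 310) (nat_lit 288) (nat_lit 182)) (XT.lf (nat_lit 0) (nat_lit 6711617905) (nat_lit 532) (nat_lit 15450499279) (nat_lit 76) (nat_lit 8018758240) (nat_lit 117) (nat_lit 5) (nat_lit 124) (nat_lit 5) (nat_lit 118) (nat_lit 5) (nat_lit 311) (nat_lit 288) (nat_lit 181))) (XT.nd (nat_lit 78) (nat_lit 380) (nat_lit 0) (XT.lf (nat_lit 0) (nat_lit 9556781126) (nat_lit 380) (nat_lit 4342980821) (nat_lit 456) (nat_lit 17211309614) (nat_lit 112) (nat_lit 5) (nat_lit 117) (nat_lit 5) (nat_lit 118) (nat_lit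 5) (nat_lit 312) (nat_lit 288) (nat_lit 180)) (XT.lf (nat_lit 0) (nat_lit 3979606937) (nat_lit 380) (nat_lit 17794706556) (nat_lit 456) (nat_lit 10303662959) (nat_lit 107) (nat_lit 5) (nat_lit 112) (nat_lit 5) (nat_lit 113) (nat_lit 5) (nat_lit 313) (nat_lit 288) (nat_lit 179))))) (XT.nd (nat_lit 234) (nat_lit 988) (nat_lit 0) (XT.nd (nat_lit 78) (nat_lit 760) (nat_lit 0) (XT.lf (nat_lit 0) (nat_lit 30306764303) (nat_lit 456) (nat_lit 1910458610) (nat_lit 76) (nat_lit 868087055) (nat_lit 107) (nat_lit 5) (nat_lit 113) (nat_lit 5) (nat_lit 108) (nat_lit 5) (nat_lit 314) (nat_lit 288) (nat_lit 178)) (XT.nd (nat_lit 78) (nat_lit 380) (nat_lit 0) (XT.lf (nat_lit 0) (nat_lit 5446394184) (nat_lit 380) (nat_lit 8283144587) (nat_lit 76) (nat_lit 20399296018) (nat_lit 102) (nat_lit 5) (nat_lit 107) (nat_lit 5) (nat_lit 103) (nat_lit 5) (nat_lit 315) (nat_lit 288) (nat_lit 177)) (XT.lf (nat_lit 0)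 (nat_lit 14287319615) (nat_lit 456) (nat_lit 15115605108) (nat_lit 76) (nat_lit 5812927235) (nat_lit 97) (nat_lit 5) (nat_lit 103) (nat_lit 5) (nat_lit 98) (nat_lit 5) (nat_lit 316) (nat_lit 288) (nat_lit 176)))) (XT.nd (nat_lit 156) (nat_lit 380) (nat_lit 0) (XT.nd (nat_lit 78) (nat_lit 304) (nat_lit 0) (XT.lf (nat_lit 0) (nat_lit 13840178516) (nat_lit 304) (nat_lit 10079167989) (nat_lit 380) (nat_lit 12427408977) (nat_lit 93) (nat_lit 5) (nat_lit 97) (nat_lit 5) (nat_lit 98) (nat_lit 5) (nat_lit 317) (nat_lit 288) (nat_lit 175)) (XT.lf (nat_lit 0) (nat_lit 7056485579) (nat_lit 304) (nat_lit 27291217244) (nat_lit 380) (nat_lit 3177066331) (nat_lit 89) (nat_lit 5) (nat_lit 93) (nat_lit 5) (nat_lit 94) (nat_lit 5) (nat_lit 318) (nat_lit 288) (nat_lit 174))) (XT.nd (nat_lit 78) (nat_lit 304) (nat_lit 0) (XT.lf (nat_lit 0) (nat_lit 6735774400) (nat_lit 380) (nat_lit 365004462) (nat_lit 76) (nat_lit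 31649200632) (nat_lit 88) (nat_lit 5) (nat_lit 93) (nat_lit 5) (nat_lit 89) (nat_lit 5) (nat_lit 319) (nat_lit 288) (nat_lit 173)) (XT.lf (nat_lit 0) (nat_lit 17516091861) (nat_lit 380) (nat_lit 8343973485) (nat_lit 76) (nat_lit 14162321083) (nat_lit 84) (nat_lit 5) (nat_lit 89) (nat_lit 5) (nat_lit 85) (nat_lit 5) (nat_lit 320) (nat_lit 288) (nat_lit 172)))))) (XT.nd (nat_lit 546) (nat_lit 1140) (nat_lit 0) (XT.nd (nat_lit 234) (nat_lit 760) (nat_lit 0) (XT.nd (nat_lit 78) (nat_lit 608) (nat_lit 0) (XT.lf (nat_lit 0) (nat_lit 24366307408) (nat_lit 304) (nat_lit 4771243804) (nat_lit 380) (nat_lit 12211804433) (nat_lit 80) (nat_lit 5) (nat_lit 84) (nat_lit 5) (nat_lit 85) (nat_lit 5) (nat_lit 321) (nat_lit 288) (nat_lit 171)) (XT.nd (nat_lit 78) (nat_lit 380) (nat_lit 0) (XT.lf (nat_lit 0) (nat_lit 16285648642) (nat_lit 228) (nat_lit 25457383799) (nat_lit 304) (nat_lit 987557855) (nat_lit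 77) (nat_lit 5) (nat_lit 80) (nat_lit 5) (nat_lit 81) (nat_lit 5) (nat_lit 322) (nat_lit 288) (nat_lit 170)) (XT.lf (nat_lit 0) (nat_lit 7376783481) (nat_lit 304) (nat_lit 3498876431) (nat_lit 380) (nat_lit 33293463976) (nat_lit 72) (nat_lit 5) (nat_lit 76) (nat_lit 5) (nat_lit 77) (nat_lit 5) (nat_lit 323) (nat_lit 288) (nat_lit 169)))) (XT.nd (nat_lit 156) (nat_lit 532) (nat_lit 0) (XT.nd (nat_lit 78) (nat_lit 228) (nat_lit 0) (XT.lf (nat_lit 0) (nat_lit 23767778012) (nat_lit 380) (nat_lit 2440256402) (nat_lit 76) (nat_lit 19457576292) (nat_lit 72) (nat_lit 5) (nat_lit 77) (nat_lit 5) (nat_lit 73) (nat_lit 5) (nat_lit 324) (nat_lit 288) (nat_lit 168)) (XT.lf (nat_lit 0) (nat_lit 34252610248) (nat_lit 228) (nat_lit 3409846620) (nat_lit 304) (nat_lit 9563730918) (nat_lit 69) (nat_lit 5) (nat_lit 72) (nat_lit 5) (nat_lit 73) (nat_lit 5) (nat_lit 325) (nat_lit 288) (nat_lit 167))) (XT.nd (nat_lit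 78) (nat_lit 228) (nat_lit 0) (XT.lf (nat_lit 0) (nat_lit 3774637299) (nat_lit 304) (nat_lit 24655747382) (nat_lit 76) (nat_lit 20419826837) (nat_lit 65) (nat_lit 5) (nat_lit 69) (nat_lit 5) (nat_lit 66) (nat_lit 5) (nat_lit 326) (nat_lit 288) (nat_lit 166)) (XT.lf (nat_lit 0) (nat_lit 13053410483) (nat_lit 228) (nat_lit 4819050703) (nat_lit 304) (nat_lit 32671428661) (nat_lit 62) (nat_lit 5) (nat_lit 65) (nat_lit 5) (nat_lit 66) (nat_lit 5) (nat_lit 327) (nat_lit 288) (nat_lit 165))))) (XT.nd (nat_lit 234) (nat_lit 684) (nat_lit 0) (XT.nd (nat_lit 78) (nat_lit 228) (nat_lit 0) (XT.lf (nat_lit 0) (nat_lit 657439109) (nat_lit 228) (nat_lit 32466271276) (nat_lit 304) (nat_lit 19185089512) (nat_lit 59) (nat_lit 5) (nat_lit 62) (nat_lit 5) (nat_lit 63) (nat_lit 5) (nat_lit 328) (nat_lit 288) (nat_lit 164)) (XT.nd (nat_lit 78) (nat_lit 228) (nat_lit 0) (XT.lf (nat_lit 0) (nat_lit 41437352184)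 (nat_lit 228) (nat_lit 8128366944) (nat_lit 304) (nat_lit 4583394054) (nat_lit 59) (nat_lit 5) (nat_lit 62) (nat_lit 5) (nat_lit 63) (nat_lit 5) (nat_lit 329) (nat_lit 288) (nat_lit 163)) (XT.lf (nat_lit 0) (nat_lit 10979323759) (nat_lit 228) (nat_lit 27620403423) (nat_lit 76) (nat_lit 17465398400) (nat_lit 56) (nat_lit 5) (nat_lit 59) (nat_lit 5) (nat_lit 57) (nat_lit 5) (nat_lit 330) (nat_lit 288) (nat_lit 162)))) (XT.nd (nat_lit 156) (nat_lit 456) (nat_lit 0) (XT.nd (nat_lit 78) (nat_lit 0) (nat_lit 0) (XT.lf (nat_lit 0) (nat_lit 13986184531) (nat_lit 228) (nat_lit 13583200912) (nat_lit 304) (nat_lit 30495874976) (nat_lit 53) (nat_lit 5) (nat_lit 56) (nat_lit 5) (nat_lit 57) (nat_lit 5) (nat_lit 331) (nat_lit 288) (nat_lit 161)) (XT.lf (nat_lit 0) (nat_lit 45392651890) (nat_lit 304) (nat_lit 2040001211) (nat_lit 76) (nat_lit 12720640906) (nat_lit 53) (nat_lit 5) (nat_lit 57) (nat_lit 5)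 (nat_lit 54) (nat_lit 5) (nat_lit 332) (nat_lit 288) (nat_lit 160))) (XT.nd (nat_lit 78) (nat_lit 228) (nat_lit 0) (XT.lf (nat_lit 0) (nat_lit 2275673888) (nat_lit 228) (nat_lit 19561074686) (nat_lit 76) (nat_lit 40492014836) (nat_lit 50) (nat_lit 5) (nat_lit 53) (nat_lit 5) (nat_lit 51) (nat_lit 5) (nat_lit 333) (nat_lit 288) (nat_lit 159)) (XT.lf (nat_lit 0) (nat_lit 20176075499) (nat_lit 304) (nat_lit 39065186970) (nat_lit 76) (nat_lit 5357835880) (nat_lit 47) (nat_lit 5) (nat_lit 51) (nat_lit 5) (nat_lit 48) (nat_lit 5) (nat_lit 334) (nat_lit 288) (nat_lit 158))))))))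
noncomputable def xc95 : XT := (XT.nd (nat_lit 37440) (nat_lit 0) (nat_lit 4864) (XT.nd (nat_lit 1092) (nat_lit 608) (nat_lit 0) (XT.nd (nat_lit 546) (nat_lit 532) (nat_lit 0) (XT.nd (nat_lit 234) (nat_lit 532) (nat_lit 0) (XT.nd (nat_lit 78) (nat_lit 228) (nat_lit 0) (XT.lf (nat_lit 0) (nat_lit 6206203727) (nat_lit 152) (nat_lit 33243846749) (nat_lit 228) (nat_lit 27518545526) (nat_lit 45) (nat_lit 5) (nat_lit 47) (nat_lit 5) (nat_lit 48) (nat_lit 5) (nat_lit 335) (nat_lit 288) (nat_lit 157)) (XT.nd (nat_lit 78) (nat_lit 228) (nat_lit 0) (XT.lf (nat_lit 0) (nat_lit 54549730178) (nat_lit 152) (nat_lit 5535426720) (nat_lit 228) (nat_lit 9359491101) (nat_lit 45) (nat_lit 5) (nat_lit 47) (nat_lit 5) (nat_lit 48) (nat_lit 5) (nat_lit 336) (nat_lit 288) (nat_lit 156)) (XT.lf (nat_lit 0) (nat_lit 10069276739) (nat_lit 228) (nat_lit 38437496088) (nat_lit 76) (nat_lit 23518396911) (nat_lit 42) (nat_lit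 5) (nat_lit 45) (nat_lit 5) (nat_lit 43) (nat_lit 5) (nat_lit 337) (nat_lit 288) (nat_lit 155)))) (XT.nd (nat_lit 156) (nat_lit 380) (nat_lit 0) (XT.nd (nat_lit 78) (nat_lit 0) (nat_lit 0) (XT.lf (nat_lit 0) (nat_lit 10113640489) (nat_lit 152) (nat_lit 20467596727) (nat_lit 228) (nat_lit 44141542765) (nat_lit 40) (nat_lit 5) (nat_lit 42) (nat_lit 5) (nat_lit 43) (nat_lit 5) (nat_lit 338) (nat_lit 288) (nat_lit 154)) (XT.lf (nat_lit 0) (nat_lit 52600352189) (nat_lit 228) (nat_lit 15745296830) (nat_lit 76) (nat_lit 9195177071) (nat_lit 40) (nat_lit 5) (nat_lit 43) (nat_lit 5) (nat_lit 41) (nat_lit 5) (nat_lit 339) (nat_lit 288) (nat_lit 153))) (XT.nd (nat_lit 78) (nat_lit 228) (nat_lit 0) (XT.lf (nat_lit 0) (nat_lit 36051714987) (nat_lit 152) (nat_lit 40217747859) (nat_lit 228) (nat_lit 4213842411) (nat_lit 38) (nat_lit 5) (nat_lit 40) (nat_lit 5) (nat_lit 41) (nat_lit 5) (nat_lit 340) (nat_lit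 288) (nat_lit 152)) (XT.lf (nat_lit 0) (nat_lit 7162204600) (nat_lit 152) (nat_lit 10272999275) (nat_lit 228) (nat_lit 66125789631) (nat_lit 35) (nat_lit 5) (nat_lit 37) (nat_lit 5) (nat_lit 38) (nat_lit 5) (nat_lit 341) (nat_lit 288) (nat_lit 151))))) (XT.nd (nat_lit 234) (nat_lit 380) (nat_lit 0) (XT.nd (nat_lit 78) (nat_lit 152) (nat_lit 0) (XT.lf (nat_lit 0) (nat_lit 40741859965) (nat_lit 228) (nat_lit 24771931287) (nat_lit 76) (nat_lit 21257655811) (nat_lit 35) (nat_lit 5) (nat_lit 38) (nat_lit 5) (nat_lit 36) (nat_lit 5) (nat_lit 342) (nat_lit 288) (nat_lit 150)) (XT.nd (nat_lit 78) (nat_lit 0) (nat_lit 0) (XT.lf (nat_lit 0) (nat_lit 29909833474) (nat_lit 152) (nat_lit 35691495128) (nat_lit 228) (nat_lit 24529471938) (nat_lit 33) (nat_lit 5) (nat_lit 35) (nat_lit 5) (nat_lit 36) (nat_lit 5) (nat_lit 343) (nat_lit 288) (nat_lit 149)) (XT.lf (nat_lit 0) (nat_lit 87837133883) (nat_lit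 152) (nat_lit 4118039627) (nat_lit 228) (nat_lit 1695407655) (nat_lit 33) (nat_lit 5) (nat_lit 35) (nat_lit 5) (nat_lit 36) (nat_lit 5) (nat_lit 344) (nat_lit 288) (nat_lit 148)))) (XT.nd (nat_lit 156) (nat_lit 76) (nat_lit 0) (XT.nd (nat_lit 78) (nat_lit 152) (nat_lit 0) (XT.lf (nat_lit 0) (nat_lit 22629197298) (nat_lit 152) (nat_lit 45499987790) (nat_lit 76) (nat_lit 29187233775) (nat_lit 31) (nat_lit 5) (nat_lit 33) (nat_lit 5) (nat_lit 32) (nat_lit 5) (nat_lit 345) (nat_lit 288) (nat_lit 147)) (XT.lf (nat_lit 0) (nat_lit 11443678035) (nat_lit 152) (nat_lit 36900240906) (nat_lit 228) (nat_lit 52814858788) (nat_lit 29) (nat_lit 5) (nat_lit 31) (nat_lit 5) (nat_lit 32) (nat_lit 5) (nat_lit 346) (nat_lit 288) (nat_lit 146))) (XT.nd (nat_lit 78) (nat_lit 76) (nat_lit 0) (XT.lf (nat_lit 0) (nat_lit 72179617566) (nat_lit 152) (nat_lit 3629866571) (nat_lit 228) (nat_lit 29369818485) (nat_lit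 29) (nat_lit 5) (nat_lit 31) (nat_lit 5) (nat_lit 32) (nat_lit 5) (nat_lit 347) (nat_lit 288) (nat_lit 145)) (XT.lf (nat_lit 0) (nat_lit 26767389811) (nat_lit 76) (nat_lit 78436014506) (nat_lit 152) (nat_lit 4180798382) (nat_lit 28) (nat_lit 5) (nat_lit 29) (nat_lit 5) (nat_lit 30) (nat_lit 4) (nat_lit 348) (nat_lit 288) (nat_lit 144)))))) (XT.nd (nat_lit 546) (nat_lit 76) (nat_lit 0) (XT.nd (nat_lit 234) (nat_lit 304) (nat_lit 0) (XT.nd (nat_lit 78) (nat_lit 152) (nat_lit 0) (XT.lf (nat_lit 0) (nat_lit 22209778828) (nat_lit 152) (nat_lit 23836222128) (nat_lit 76) (nat_lit 67735627605) (nat_lit 27) (nat_lit 5) (nat_lit 29) (nat_lit 5) (nat_lit 28) (nat_lit 5) (nat_lit 349) (nat_lit 288) (nat_lit 143)) (XT.nd (nat_lit 78) (nat_lit 0) (nat_lit 0) (XT.lf (nat_lit 0) (nat_lit 38589040874) (nat_lit 152) (nat_lit 11613195791) (nat_lit 228) (nat_lit 68184383812) (nat_lit 25) (nat_lit 5) (nat_lit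 27) (nat_lit 5) (nat_lit 28) (nat_lit 5) (nat_lit 350) (nat_lit 288) (nat_lit 142)) (XT.lf (nat_lit 0) (nat_lit 80075167213) (nat_lit 228) (nat_lit 18824249373) (nat_lit 76) (nat_lit 24308020951) (nat_lit 25) (nat_lit 5) (nat_lit 28) (nat_lit 5) (nat_lit 26) (nat_lit 4) (nat_lit 351) (nat_lit 288) (nat_lit 141)))) (XT.nd (nat_lit 156) (nat_lit 152) (nat_lit 0) (XT.nd (nat_lit 78) (nat_lit 76) (nat_lit 0) (XT.lf (nat_lit 0) (nat_lit 45972781800) (nat_lit 76) (nat_lit 66025373888) (nat_lit 152) (nat_lit 16254448416) (nat_lit 24) (nat_lit 5) (nat_lit 25) (nat_lit 5) (nat_lit 26) (nat_lit 4) (nat_lit 352) (nat_lit 288) (nat_lit 140)) (XT.lf (nat_lit 0) (nat_lit 11926773223) (nat_lit 152) (nat_lit 19262895307) (nat_lit 76) (nat_lit 102351119295) (nat_lit 23) (nat_lit 5) (nat_lit 25) (nat_lit 5) (nat_lit 24) (nat_lit 5) (nat_lit 353) (nat_lit 288) (nat_lit 139))) (XT.nd (nat_lit 78) (nat_lit 0)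 (nat_lit 0) (XT.lf (nat_lit 0) (nat_lit 41697607982) (nat_lit 228) (nat_lit 91466294858) (nat_lit 76) (nat_lit 5909149144) (nat_lit 21) (nat_lit 5) (nat_lit 24) (nat_lit 5) (nat_lit 22) (nat_lit 4) (nat_lit 354) (nat_lit 288) (nat_lit 138)) (XT.lf (nat_lit 0) (nat_lit 73469569318) (nat_lit 228) (nat_lit 26974778332) (nat_lit 76) (nat_lit 44422204991) (nat_lit 21) (nat_lit 5) (nat_lit 24) (nat_lit 5) (nat_lit 22) (nat_lit 4) (nat_lit 355) (nat_lit 288) (nat_lit 137))))) (XT.nd (nat_lit 35490) (nat_lit 0) (nat_lit 13300) (XT.nd (nat_lit 78) (nat_lit 0) (nat_lit 0) (XT.lf (nat_lit 0) (nat_lit 41547814228) (nat_lit 76) (nat_lit 65679337625) (nat_lit 152) (nat_lit 43710666578) (nat_lit 20) (nat_lit 5) (nat_lit 21) (nat_lit 5) (nat_lit 22) (nat_lit 4) (nat_lit 356) (nat_lit 288) (nat_lit 136)) (XT.nd (nat_lit 35334) (nat_lit 0) (nat_lit 13300) (XT.lf (nat_lit 0) (nat_lit 114056104398) (nat_lit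 76) (nat_lit 28891903501) (nat_lit 152) (nat_lit 14356378533) (nat_lit 20) (nat_lit 5) (nat_lit 21) (nat_lit 5) (nat_lit 22) (nat_lit 4) (nat_lit 357) (nat_lit 288) (nat_lit 135)) (XT.lf (nat_lit 0) (nat_lit 1192421445) (nat_lit 0) (nat_lit 1192421445) (nat_lit 1140) (nat_lit 6107771820) (nat_lit 195) (nat_lit 5) (nat_lit 195) (nat_lit 3) (nat_lit 210) (nat_lit 3) (nat_lit 289) (nat_lit 289) (nat_lit 202)))) (XT.nd (nat_lit 156) (nat_lit 0) (nat_lit 152) (XT.nd (nat_lit 78) (nat_lit 0) (nat_lit 76) (XT.lf (nat_lit 0) (nat_lit 5351410861) (nat_lit 1140) (nat_lit 1855699210) (nat_lit 1216) (nat_lit 10188449630) (nat_lit 195) (nat_lit 5) (nat_lit 210) (nat_lit 3) (nat_lit 211) (nat_lit 5) (nat_lit 290) (nat_lit 289) (nat_lit 201)) (XT.lf (nat_lit 0) (nat_lit 6130077648) (nat_lit 1140) (nat_lit 6158885865) (nat_lit 1216) (nat_lit 5532434584) (nat_lit 196) (nat_lit 5) (nat_lit 211) (nat_lit 5)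 (nat_lit 212) (nat_lit 5) (nat_lit 291) (nat_lit 289) (nat_lit 200))) (XT.nd (nat_lit 78) (nat_lit 0) (nat_lit 0) (XT.lf (nat_lit 0) (nat_lit 7097400404) (nat_lit 1140) (nat_lit 10578255141) (nat_lit 1216) (nat_lit 588407157) (nat_lit 197) (nat_lit 5) (nat_lit 212) (nat_lit 5) (nat_lit 213) (nat_lit 5) (nat_lit 292) (nat_lit 289) (nat_lit 199)) (XT.lf (nat_lit 76) (nat_lit 3555965360) (nat_lit 0) (nat_lit 4758361587) (nat_lit 1216) (nat_lit 10408521196) (nat_lit 198) (nat_lit 5) (nat_lit 197) (nat_lit 5) (nat_lit 213) (nat_lit 5) (nat_lit 293) (nat_lit 289) (nat_lit 198))))))) (XT.nd (nat_lit 1092) (nat_lit 4332) (nat_lit 0) (XT.nd (nat_lit 546) (nat_lit 3420) (nat_lit 0) (XT.nd (nat_lit 234) (nat_lit 912) (nat_lit 0) (XT.nd (nat_lit 78) (nat_lit 0) (nat_lit 76) (XT.lf (nat_lit 0) (nat_lit 9766647530) (nat_lit 1140) (nat_lit 682628663) (nat_lit 1216) (nat_lit 8750083784) (nat_lit 198) (nat_lit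 5) (nat_lit 213) (nat_lit 5) (nat_lit 214) (nat_lit 5) (nat_lit 294) (nat_lit 289) (nat_lit 197)) (XT.nd (nat_lit 78) (nat_lit 0) (nat_lit 0) (XT.lf (nat_lit 0) (nat_lit 11493948032) (nat_lit 1140) (nat_lit 4973450058) (nat_lit 1216) (nat_lit 3226250829) (nat_lit 199) (nat_lit 5) (nat_lit 214) (nat_lit 5) (nat_lit 215) (nat_lit 5) (nat_lit 295) (nat_lit 289) (nat_lit 196)) (XT.lf (nat_lit 76) (nat_lit 10786774111) (nat_lit 0) (nat_lit 2718830933) (nat_lit 1216) (nat_lit 6701128884) (nat_lit 200) (nat_lit 5) (nat_lit 199) (nat_lit 5) (nat_lit 215) (nat_lit 5) (nat_lit 296) (nat_lit 289) (nat_lit 195)))) (XT.nd (nat_lit 156) (nat_lit 1064) (nat_lit 0) (XT.nd (nat_lit 78) (nat_lit 0) (nat_lit 76) (XT.lf (nat_lit 76) (nat_lit 6699205935) (nat_lit 0) (nat_lit 9129903304) (nat_lit 1216) (nat_lit 4910046367) (nat_lit 201) (nat_lit 5) (nat_lit 200) (nat_lit 5) (nat_lit 216) (nat_lit 5) (nat_lit 297)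 (nat_lit 289) (nat_lit 194)) (XT.lf (nat_lit 76) (nat_lit 2481675468) (nat_lit 0) (nat_lit 15970295928) (nat_lit 1216) (nat_lit 2840750867) (nat_lit 202) (nat_lit 5) (nat_lit 201) (nat_lit 5) (nat_lit 217) (nat_lit 5) (nat_lit 298) (nat_lit 289) (nat_lit 193))) (XT.nd (nat_lit 78) (nat_lit 1140) (nat_lit 0) (XT.lf (nat_lit 76) (nat_lit 20015622105) (nat_lit 0) (nat_lit 1410074048) (nat_lit 1216) (nat_lit 441697970) (nat_lit 202) (nat_lit 5) (nat_lit 201) (nat_lit 5) (nat_lit 217) (nat_lit 5) (nat_lit 299) (nat_lit 289) (nat_lit 192)) (XT.lf (nat_lit 0) (nat_lit 2312589280) (nat_lit 1216) (nat_lit 6361648892) (nat_lit 76) (nat_lit 13787704895) (nat_lit 186) (nat_lit 5) (nat_lit 202) (nat_lit 5) (nat_lit 187) (nat_lit 5) (nat_lit 300) (nat_lit 289) (nat_lit 191))))) (XT.nd (nat_lit 234) (nat_lit 1596) (nat_lit 0) (XT.nd (nat_lit 78) (nat_lit 1140) (nat_lit 0) (XT.lf (nat_lit 0) (nat_lit 5395729234)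 (nat_lit 760) (nat_lit 11039782914) (nat_lit 76) (nat_lit 6644584166) (nat_lit 177) (nat_lit 5) (nat_lit 187) (nat_lit 5) (nat_lit 178) (nat_lit 5) (nat_lit 301) (nat_lit 289) (nat_lit 190)) (XT.nd (nat_lit 78) (nat_lit 532) (nat_lit 0) (XT.lf (nat_lit 0) (nat_lit 7819438608) (nat_lit 608) (nat_lit 1028218448) (nat_lit 684) (nat_lit 14875076717) (nat_lit 169) (nat_lit 5) (nat_lit 177) (nat_lit 5) (nat_lit 178) (nat_lit 5) (nat_lit 302) (nat_lit 289) (nat_lit 189)) (XT.lf (nat_lit 0) (nat_lit 3363991476) (nat_lit 532) (nat_lit 9387265292) (nat_lit 608) (nat_lit 11637888816) (nat_lit 162) (nat_lit 5) (nat_lit 169) (nat_lit 5) (nat_lit 170) (nat_lit 5) (nat_lit 303) (nat_lit 289) (nat_lit 188)))) (XT.nd (nat_lit 156) (nat_lit 1064) (nat_lit 0) (XT.nd (nat_lit 78) (nat_lit 532) (nat_lit 0) (XT.lf (nat_lit 0) (nat_lit 17077151252) (nat_lit 608) (nat_lit 1246685000) (nat_lit 76) (nat_lit 6758242328)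 (nat_lit 162) (nat_lit 5) (nat_lit 170) (nat_lit 5) (nat_lit 163) (nat_lit 5) (nat_lit 304) (nat_lit 289) (nat_lit 187)) (XT.lf (nat_lit 0) (nat_lit 19799788703) (nat_lit 532) (nat_lit 2092126845) (nat_lit 608) (nat_lit 3909578796) (nat_lit 155) (nat_lit 5) (nat_lit 162) (nat_lit 5) (nat_lit 163) (nat_lit 5) (nat_lit 305) (nat_lit 289) (nat_lit 186))) (XT.nd (nat_lit 78) (nat_lit 532) (nat_lit 0) (XT.lf (nat_lit 0) (nat_lit 679604040) (nat_lit 532) (nat_lit 11040252360) (nat_lit 76) (nat_lit 14828023606) (nat_lit 148) (nat_lit 5) (nat_lit 155) (nat_lit 5) (nat_lit 149) (nat_lit 5) (nat_lit 306) (nat_lit 289) (nat_lit 185)) (XT.lf (nat_lit 0) (nat_lit 5648213897) (nat_lit 608) (nat_lit 16347588323) (nat_lit 76) (nat_lit 5327708526) (nat_lit 141) (nat_lit 5) (nat_lit 149) (nat_lit 5) (nat_lit 142) (nat_lit 5) (nat_lit 307) (nat_lit 289) (nat_lit 184)))))) (XT.nd (nat_lit 546) (nat_lit 1748)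 (nat_lit 0) (XT.nd (nat_lit 234) (nat_lit 1672) (nat_lit 0) (XT.nd (nat_lit 78) (nat_lit 456) (nat_lit 0) (XT.lf (nat_lit 0) (nat_lit 6177818081) (nat_lit 456) (nat_lit 4968625435) (nat_lit 532) (nat_lit 16983055045) (nat_lit 135) (nat_lit 5) (nat_lit 141) (nat_lit 5) (nat_lit 142) (nat_lit 5) (nat_lit 308) (nat_lit 289) (nat_lit 183)) (XT.nd (nat_lit 78) (nat_lit 0) (nat_lit 0) (XT.lf (nat_lit 0) (nat_lit 1083364019) (nat_lit 456) (nat_lit 16129829338) (nat_lit 532) (nat_lit 11753794825) (nat_lit 129) (nat_lit 5) (nat_lit 135) (nat_lit 5) (nat_lit 136) (nat_lit 5) (nat_lit 309) (nat_lit 289) (nat_lit 182)) (XT.lf (nat_lit 0) (nat_lit 23865928077) (nat_lit 532) (nat_lit 4190168109) (nat_lit 76) (nat_lit 1781786847) (nat_lit 129) (nat_lit 5) (nat_lit 136) (nat_lit 5) (nat_lit 130) (nat_lit 5) (nat_lit 310) (nat_lit 289) (nat_lit 181)))) (XT.nd (nat_lit 156) (nat_lit 760) (nat_lit 0) (XT.nd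 (nat_lit 78) (nat_lit 456) (nat_lit 0) (XT.lf (nat_lit 0) (nat_lit 454485616) (nat_lit 456) (nat_lit 9824506381) (nat_lit 76) (nat_lit 20462588289) (nat_lit 123) (nat_lit 5) (nat_lit 129) (nat_lit 5) (nat_lit 124) (nat_lit 5) (nat_lit 311) (nat_lit 289) (nat_lit 180)) (XT.lf (nat_lit 0) (nat_lit 7349883031) (nat_lit 532) (nat_lit 15849866813) (nat_lit 76) (nat_lit 8480813347) (nat_lit 117) (nat_lit 5) (nat_lit 124) (nat_lit 5) (nat_lit 118) (nat_lit 5) (nat_lit 312) (nat_lit 289) (nat_lit 179))) (XT.nd (nat_lit 78) (nat_lit 380) (nat_lit 0) (XT.lf (nat_lit 0) (nat_lit 10397081129) (nat_lit 380) (nat_lit 4489423807) (nat_lit 456) (nat_lit 17771105196) (nat_lit 112) (nat_lit 5) (nat_lit 117) (nat_lit 5) (nat_lit 118) (nat_lit 5) (nat_lit 313) (nat_lit 289) (nat_lit 178)) (XT.lf (nat_lit 0) (nat_lit 4538754767) (nat_lit 380) (nat_lit 18606245658) (nat_lit 456) (nat_lit 10528165846) (nat_lit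 107) (nat_lit 5) (nat_lit 112) (nat_lit 5) (nat_lit 113) (nat_lit 5) (nat_lit 314) (nat_lit 289) (nat_lit 177))))) (XT.nd (nat_lit 234) (nat_lit 988) (nat_lit 0) (XT.nd (nat_lit 78) (nat_lit 760) (nat_lit 0) (XT.lf (nat_lit 0) (nat_lit 32091362448) (nat_lit 456) (nat_lit 1655386476) (nat_lit 76) (nat_lit 984510775) (nat_lit 107) (nat_lit 5) (nat_lit 113) (nat_lit 5) (nat_lit 108) (nat_lit 5) (nat_lit 315) (nat_lit 289) (nat_lit 176)) (XT.nd (nat_lit 78) (nat_lit 380) (nat_lit 0) (XT.lf (nat_lit 0) (nat_lit 5981219068) (nat_lit 380) (nat_lit 8351312087) (nat_lit 76) (nat_lit 21494650184) (nat_lit 102) (nat_lit 5) (nat_lit 107) (nat_lit 5) (nat_lit 103) (nat_lit 5) (nat_lit 316) (nat_lit 289) (nat_lit 175)) (XT.lf (nat_lit 0) (nat_lit 15255717328) (nat_lit 456) (nat_lit 15528303014) (nat_lit 76) (nat_lit 6184793703) (nat_lit 97) (nat_lit 5) (nat_lit 103) (nat_lit 5) (nat_lit 98) (nat_lit 5)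 (nat_lit 317) (nat_lit 289) (nat_lit 174)))) (XT.nd (nat_lit 156) (nat_lit 380) (nat_lit 0) (XT.nd (nat_lit 78) (nat_lit 304) (nat_lit 0) (XT.lf (nat_lit 0) (nat_lit 14865435405) (nat_lit 304) (nat_lit 10495016793) (nat_lit 380) (nat_lit 12796087329) (nat_lit 93) (nat_lit 5) (nat_lit 97) (nat_lit 5) (nat_lit 98) (nat_lit 5) (nat_lit 318) (nat_lit 289) (nat_lit 173)) (XT.lf (nat_lit 0) (nat_lit 7739519853) (nat_lit 304) (nat_lit 28563014035) (nat_lit 380) (nat_lit 3091160271) (nat_lit 89) (nat_lit 5) (nat_lit 93) (nat_lit 5) (nat_lit 94) (nat_lit 5) (nat_lit 319) (nat_lit 289) (nat_lit 172))) (XT.nd (nat_lit 78) (nat_lit 304) (nat_lit 0) (XT.lf (nat_lit 0) (nat_lit 7301118587) (nat_lit 380) (nat_lit 64044522) (nat_lit 76) (nat_lit 33315282945) (nat_lit 88) (nat_lit 5) (nat_lit 93) (nat_lit 5) (nat_lit 89) (nat_lit 5) (nat_lit 320) (nat_lit 289) (nat_lit 171)) (XT.lf (nat_lit 0) (nat_lit 18613408255)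 (nat_lit 380) (nat_lit 8445184581) (nat_lit 76) (nat_lit 14958100178) (nat_lit 84) (nat_lit 5) (nat_lit 89) (nat_lit 5) (nat_lit 85) (nat_lit 5) (nat_lit 321) (nat_lit 289) (nat_lit 170))))))))
noncomputable def xc96 : XT := (XT.nd (nat_lit 2106) (nat_lit 684) (nat_lit 0) (XT.nd (nat_lit 1014) (nat_lit 1596) (nat_lit 0) (XT.nd (nat_lit 468) (nat_lit 1140) (nat_lit 0) (XT.nd (nat_lit 234) (nat_lit 532) (nat_lit 0) (XT.nd (nat_lit 78) (nat_lit 608) (nat_lit 0) (XT.lf (nat_lit 0) (nat_lit 25891552637) (nat_lit 304) (nat_lit 4916790154) (nat_lit 380) (nat_lit 12601903805) (nat_lit 80) (nat_lit 5) (nat_lit 84) (nat_lit 5) (nat_lit 85) (nat_lit 5) (nat_lit 322) (nat_lit 289) (nat_lit 169)) (XT.nd (nat_lit 78) (nat_lit 380) (nat_lit 0) (XT.lf (nat_lit 0) (nat_lit 17403582663) (nat_lit 228) (nat_lit 26634099469) (nat_lit 304) (nat_lit 823060917) (nat_lit 77) (nat_lit 5) (nat_lit 80) (nat_lit 5) (nat_lit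 81) (nat_lit 5) (nat_lit 323) (nat_lit 289) (nat_lit 168)) (XT.lf (nat_lit 0) (nat_lit 8044767141) (nat_lit 304) (nat_lit 3577266909) (nat_lit 380) (nat_lit 34749327918) (nat_lit 72) (nat_lit 5) (nat_lit 76) (nat_lit 5) (nat_lit 77) (nat_lit 5) (nat_lit 324) (nat_lit 289) (nat_lit 167)))) (XT.nd (nat_lit 78) (nat_lit 532) (nat_lit 0) (XT.lf (nat_lit 0) (nat_lit 25149994792) (nat_lit 380) (nat_lit 2272331631) (nat_lit 76) (nat_lit 20520616288) (nat_lit 72) (nat_lit 5) (nat_lit 77) (nat_lit 5) (nat_lit 73) (nat_lit 5) (nat_lit 325) (nat_lit 289) (nat_lit 166)) (XT.nd (nat_lit 78) (nat_lit 304) (nat_lit 0) (XT.lf (nat_lit 0) (nat_lit 36246867348) (nat_lit 228) (nat_lit 3486017510) (nat_lit 304) (nat_lit 9848865834) (nat_lit 69) (nat_lit 5) (nat_lit 72) (nat_lit 5) (nat_lit 73) (nat_lit 5) (nat_lit 326) (nat_lit 289) (nat_lit 165)) (XT.lf (nat_lit 0) (nat_lit 4147213403) (nat_lit 304) (nat_lit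 25606503263) (nat_lit 76) (nat_lit 21533372367) (nat_lit 65) (nat_lit 5) (nat_lit 69) (nat_lit 5) (nat_lit 66) (nat_lit 5) (nat_lit 327) (nat_lit 289) (nat_lit 164))))) (XT.nd (nat_lit 234) (nat_lit 684) (nat_lit 0) (XT.nd (nat_lit 78) (nat_lit 228) (nat_lit 0) (XT.lf (nat_lit 0) (nat_lit 13980028119) (nat_lit 228) (nat_lit 4963779224) (nat_lit 304) (nat_lit 34121833176) (nat_lit 62) (nat_lit 5) (nat_lit 65) (nat_lit 5) (nat_lit 66) (nat_lit 5) (nat_lit 328) (nat_lit 289) (nat_lit 163)) (XT.nd (nat_lit 78) (nat_lit 0) (nat_lit 0) (XT.lf (nat_lit 0) (nat_lit 960794861) (nat_lit 228) (nat_lit 33991842111) (nat_lit 304) (nat_lit 19966313901) (nat_lit 59) (nat_lit 5) (nat_lit 62) (nat_lit 5) (nat_lit 63) (nat_lit 5) (nat_lit 329) (nat_lit 289) (nat_lit 162)) (XT.lf (nat_lit 0) (nat_lit 43766823409) (nat_lit 228) (nat_lit 8441696978) (nat_lit 304) (nat_lit 4643011293) (nat_lit 59) (nat_lit 5)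 (nat_lit 62) (nat_lit 5) (nat_lit 63) (nat_lit 5) (nat_lit 330) (nat_lit 289) (nat_lit 161)))) (XT.nd (nat_lit 156) (nat_lit 228) (nat_lit 0) (XT.nd (nat_lit 78) (nat_lit 228) (nat_lit 0) (XT.lf (nat_lit 0) (nat_lit 11689946242) (nat_lit 228) (nat_lit 28743869218) (nat_lit 76) (nat_lit 18429622673) (nat_lit 56) (nat_lit 5) (nat_lit 59) (nat_lit 5) (nat_lit 57) (nat_lit 5) (nat_lit 331) (nat_lit 289) (nat_lit 160)) (XT.lf (nat_lit 0) (nat_lit 14935665389) (nat_lit 228) (nat_lit 14168552506) (nat_lit 304) (nat_lit 31859525090) (nat_lit 53) (nat_lit 5) (nat_lit 56) (nat_lit 5) (nat_lit 57) (nat_lit 5) (nat_lit 332) (nat_lit 289) (nat_lit 159))) (XT.nd (nat_lit 78) (nat_lit 228) (nat_lit 0) (XT.lf (nat_lit 0) (nat_lit 47812060602) (nat_lit 304) (nat_lit 1900048565) (nat_lit 76) (nat_lit 13444270962) (nat_lit 53) (nat_lit 5) (nat_lit 57) (nat_lit 5) (nat_lit 54) (nat_lit 5) (nat_lit 333) (nat_lit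 289) (nat_lit 158)) (XT.lf (nat_lit 0) (nat_lit 2535874965) (nat_lit 228) (nat_lit 20301118378) (nat_lit 76) (nat_lit 42603736848) (nat_lit 50) (nat_lit 5) (nat_lit 53) (nat_lit 5) (nat_lit 51) (nat_lit 5) (nat_lit 334) (nat_lit 289) (nat_lit 157)))))) (XT.nd (nat_lit 546) (nat_lit 684) (nat_lit 0) (XT.nd (nat_lit 234) (nat_lit 532) (nat_lit 0) (XT.nd (nat_lit 78) (nat_lit 152) (nat_lit 0) (XT.lf (nat_lit 0) (nat_lit 21327407238) (nat_lit 304) (nat_lit 40783794173) (nat_lit 76) (nat_lit 5713500904) (nat_lit 47) (nat_lit 5) (nat_lit 51) (nat_lit 5) (nat_lit 48) (nat_lit 5) (nat_lit 335) (nat_lit 289) (nat_lit 156)) (XT.nd (nat_lit 78) (nat_lit 0) (nat_lit 0) (XT.lf (nat_lit 0) (nat_lit 6744439802) (nat_lit 152) (nat_lit 34816045080) (nat_lit 228) (nat_lit 28752331429) (nat_lit 45) (nat_lit 5) (nat_lit 47) (nat_lit 5) (nat_lit 48) (nat_lit 5) (nat_lit 336) (nat_lit 289) (nat_lit 155)) (XT.lf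 (nat_lit 0) (nat_lit 57494288962) (nat_lit 152) (nat_lit 5726489478) (nat_lit 228) (nat_lit 9692092920) (nat_lit 45) (nat_lit 5) (nat_lit 47) (nat_lit 5) (nat_lit 48) (nat_lit 5) (nat_lit 337) (nat_lit 289) (nat_lit 154)))) (XT.nd (nat_lit 156) (nat_lit 152) (nat_lit 0) (XT.nd (nat_lit 78) (nat_lit 152) (nat_lit 0) (XT.lf (nat_lit 0) (nat_lit 10702020513) (nat_lit 228) (nat_lit 40142791177) (nat_lit 76) (nat_lit 24777675142) (nat_lit 42) (nat_lit 5) (nat_lit 45) (nat_lit 5) (nat_lit 43) (nat_lit 5) (nat_lit 338) (nat_lit 289) (nat_lit 153)) (XT.lf (nat_lit 0) (nat_lit 10829694014) (nat_lit 152) (nat_lit 21405751031) (nat_lit 228) (nat_lit 46219659560) (nat_lit 40) (nat_lit 5) (nat_lit 42) (nat_lit 5) (nat_lit 43) (nat_lit 5) (nat_lit 339) (nat_lit 289) (nat_lit 152))) (XT.nd (nat_lit 78) (nat_lit 152) (nat_lit 0) (XT.lf (nat_lit 0) (nat_lit 55350336664) (nat_lit 228) (nat_lit 16329355352)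 (nat_lit 76) (nat_lit 9734519234) (nat_lit 40) (nat_lit 5) (nat_lit 43) (nat_lit 5) (nat_lit 41) (nat_lit 5) (nat_lit 340) (nat_lit 289) (nat_lit 151)) (XT.lf (nat_lit 0) (nat_lit 38051682187) (nat_lit 152) (nat_lit 42147405310) (nat_lit 228) (nat_lit 4304844060) (nat_lit 38) (nat_lit 5) (nat_lit 40) (nat_lit 5) (nat_lit 41) (nat_lit 5) (nat_lit 341) (nat_lit 289) (nat_lit 150))))) (XT.nd (nat_lit 234) (nat_lit 304) (nat_lit 0) (XT.nd (nat_lit 78) (nat_lit 152) (nat_lit 0) (XT.lf (nat_lit 0) (nat_lit 7714358342) (nat_lit 152) (nat_lit 10706237544) (nat_lit 228) (nat_lit 69314988024) (nat_lit 35) (nat_lit 5) (nat_lit 37) (nat_lit 5) (nat_lit 38) (nat_lit 5) (nat_lit 342) (nat_lit 289) (nat_lit 149)) (XT.nd (nat_lit 78) (nat_lit 152) (nat_lit 0) (XT.lf (nat_lit 0) (nat_lit 42887909899) (nat_lit 228) (nat_lit 25823166121) (nat_lit 76) (nat_lit 22395626767) (nat_lit 35) (nat_lit 5) (nat_lit 38)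 (nat_lit 5) (nat_lit 36) (nat_lit 5) (nat_lit 343) (nat_lit 289) (nat_lit 148)) (XT.lf (nat_lit 0) (nat_lit 31587316192) (nat_lit 152) (nat_lit 37399596761) (nat_lit 228) (nat_lit 25647216439) (nat_lit 33) (nat_lit 5) (nat_lit 35) (nat_lit 5) (nat_lit 36) (nat_lit 5) (nat_lit 344) (nat_lit 289) (nat_lit 147)))) (XT.nd (nat_lit 156) (nat_lit 152) (nat_lit 0) (XT.nd (nat_lit 78) (nat_lit 152) (nat_lit 0) (XT.lf (nat_lit 0) (nat_lit 92402315381) (nat_lit 152) (nat_lit 4251110062) (nat_lit 228) (nat_lit 1676626517) (nat_lit 33) (nat_lit 5) (nat_lit 35) (nat_lit 5) (nat_lit 36) (nat_lit 5) (nat_lit 345) (nat_lit 289) (nat_lit 146)) (XT.lf (nat_lit 0) (nat_lit 23859683187) (nat_lit 152) (nat_lit 47602329130) (nat_lit 76) (nat_lit 30717216519) (nat_lit 31) (nat_lit 5) (nat_lit 33) (nat_lit 5) (nat_lit 32) (nat_lit 5) (nat_lit 346) (nat_lit 289) (nat_lit 145))) (XT.nd (nat_lit 78) (nat_lit 0) (nat_lit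 0) (XT.lf (nat_lit 0) (nat_lit 12183570778) (nat_lit 152) (nat_lit 38673466728) (nat_lit 228) (nat_lit 55356763154) (nat_lit 29) (nat_lit 5) (nat_lit 31) (nat_lit 5) (nat_lit 32) (nat_lit 5) (nat_lit 347) (nat_lit 289) (nat_lit 144)) (XT.lf (nat_lit 0) (nat_lit 75948321150) (nat_lit 152) (nat_lit 3742992068) (nat_lit 228) (nat_lit 30744177434) (nat_lit 29) (nat_lit 5) (nat_lit 31) (nat_lit 5) (nat_lit 32) (nat_lit 5) (nat_lit 348) (nat_lit 289) (nat_lit 143))))))) (XT.nd (nat_lit 36426) (nat_lit 0) (nat_lit 9196) (XT.nd (nat_lit 546) (nat_lit 76) (nat_lit 0) (XT.nd (nat_lit 234) (nat_lit 304) (nat_lit 0) (XT.nd (nat_lit 78) (nat_lit 228) (nat_lit 0) (XT.lf (nat_lit 0) (nat_lit 28262962728) (nat_lit 76) (nat_lit 82289753482) (nat_lit 152) (nat_lit 4297987657) (nat_lit 28) (nat_lit 5) (nat_lit 29) (nat_lit 5) (nat_lit 30) (nat_lit 4) (nat_lit 349) (nat_lit 289) (nat_lit 142)) (XT.nd (nat_lit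 78) (nat_lit 152) (nat_lit 0) (XT.lf (nat_lit 0) (nat_lit 23406037587) (nat_lit 152) (nat_lit 24876576596) (nat_lit 76) (nat_lit 71185490610) (nat_lit 27) (nat_lit 5) (nat_lit 29) (nat_lit 5) (nat_lit 28) (nat_lit 5) (nat_lit 350) (nat_lit 289) (nat_lit 141)) (XT.lf (nat_lit 0) (nat_lit 40665608081) (nat_lit 152) (nat_lit 12129840118) (nat_lit 228) (nat_lit 71507979738) (nat_lit 25) (nat_lit 5) (nat_lit 27) (nat_lit 5) (nat_lit 28) (nat_lit 5) (nat_lit 351) (nat_lit 289) (nat_lit 140)))) (XT.nd (nat_lit 156) (nat_lit 228) (nat_lit 0) (XT.nd (nat_lit 78) (nat_lit 76) (nat_lit 0) (XT.lf (nat_lit 0) (nat_lit 84158654199) (nat_lit 228) (nat_lit 19623534822) (nat_lit 76) (nat_lit 25583199418) (nat_lit 25) (nat_lit 5) (nat_lit 28) (nat_lit 5) (nat_lit 26) (nat_lit 4) (nat_lit 352) (nat_lit 289) (nat_lit 139)) (XT.lf (nat_lit 0) (nat_lit 48409279601) (nat_lit 76) (nat_lit 69266041078) (nat_lit 152)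 (nat_lit 16987568184) (nat_lit 24) (nat_lit 5) (nat_lit 25) (nat_lit 5) (nat_lit 26) (nat_lit 4) (nat_lit 353) (nat_lit 289) (nat_lit 138))) (XT.nd (nat_lit 78) (nat_lit 152) (nat_lit 0) (XT.lf (nat_lit 0) (nat_lit 12597444568) (nat_lit 152) (nat_lit 20093241055) (nat_lit 76) (nat_lit 107524885972) (nat_lit 23) (nat_lit 5) (nat_lit 25) (nat_lit 5) (nat_lit 24) (nat_lit 5) (nat_lit 354) (nat_lit 289) (nat_lit 137)) (XT.lf (nat_lit 0) (nat_lit 43855068896) (nat_lit 228) (nat_lit 95908979360) (nat_lit 76) (nat_lit 6260454493) (nat_lit 21) (nat_lit 5) (nat_lit 24) (nat_lit 5) (nat_lit 22) (nat_lit 4) (nat_lit 355) (nat_lit 289) (nat_lit 136))))) (XT.nd (nat_lit 35568) (nat_lit 0) (nat_lit 13300) (XT.nd (nat_lit 78) (nat_lit 76) (nat_lit 0) (XT.lf (nat_lit 0) (nat_lit 77212172083) (nat_lit 228) (nat_lit 28199107496) (nat_lit 76) (nat_lit 46696503708) (nat_lit 21) (nat_lit 5) (nat_lit 24) (nat_lit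 5) (nat_lit 22) (nat_lit 4) (nat_lit 356) (nat_lit 289) (nat_lit 135)) (XT.nd (nat_lit 35412) (nat_lit 0) (nat_lit 13300) (XT.lf (nat_lit 0) (nat_lit 43746048512) (nat_lit 76) (nat_lit 68909455222) (nat_lit 152) (nat_lit 45827173640) (nat_lit 20) (nat_lit 5) (nat_lit 21) (nat_lit 5) (nat_lit 22) (nat_lit 4) (nat_lit 357) (nat_lit 289) (nat_lit 134)) (XT.lf (nat_lit 0) (nat_lit 1430510033) (nat_lit 0) (nat_lit 1430510033) (nat_lit 1140) (nat_lit 6045098011) (nat_lit 195) (nat_lit 5) (nat_lit 195) (nat_lit 3) (nat_lit 210) (nat_lit 3) (nat_lit 290) (nat_lit 290) (nat_lit 200)))) (XT.nd (nat_lit 156) (nat_lit 0) (nat_lit 152) (XT.nd (nat_lit 78) (nat_lit 0) (nat_lit 76) (XT.lf (nat_lit 0) (nat_lit 6295589961) (nat_lit 1140) (nat_lit 1584083363) (nat_lit 1216) (nat_lit 10364567403) (nat_lit 195) (nat_lit 5) (nat_lit 210) (nat_lit 3) (nat_lit 211) (nat_lit 5) (nat_lit 291) (nat_lit 290) (nat_lit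 199)) (XT.lf (nat_lit 0) (nat_lit 7081548534) (nat_lit 1140) (nat_lit 6089855879) (nat_lit 1216) (nat_lit 5520953911) (nat_lit 196) (nat_lit 5) (nat_lit 211) (nat_lit 5) (nat_lit 212) (nat_lit 5) (nat_lit 292) (nat_lit 290) (nat_lit 198))) (XT.nd (nat_lit 78) (nat_lit 0) (nat_lit 0) (XT.lf (nat_lit 0) (nat_lit 8067625960) (nat_lit 1140) (nat_lit 10719323253) (nat_lit 1216) (nat_lit 371131513) (nat_lit 197) (nat_lit 5) (nat_lit 212) (nat_lit 5) (nat_lit 213) (nat_lit 5) (nat_lit 293) (nat_lit 290) (nat_lit 197)) (XT.lf (nat_lit 76) (nat_lit 4110490784) (nat_lit 0) (nat_lit 5209226733) (nat_lit 1216) (nat_lit 10320892857) (nat_lit 198) (nat_lit 5) (nat_lit 197) (nat_lit 5) (nat_lit 213) (nat_lit 5) (nat_lit 294) (nat_lit 290) (nat_lit 196)))))) (XT.nd (nat_lit 546) (nat_lit 3420) (nat_lit 0) (XT.nd (nat_lit 234) (nat_lit 912) (nat_lit 0) (XT.nd (nat_lit 78) (nat_lit 0) (nat_lit 76) (XT.lf (nat_lit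 0) (nat_lit 10814624902) (nat_lit 1140) (nat_lit 338517897) (nat_lit 1216) (nat_lit 8988738733) (nat_lit 198) (nat_lit 5) (nat_lit 213) (nat_lit 5) (nat_lit 214) (nat_lit 5) (nat_lit 295) (nat_lit 290) (nat_lit 195)) (XT.nd (nat_lit 78) (nat_lit 0) (nat_lit 0) (XT.lf (nat_lit 0) (nat_lit 12603546589) (nat_lit 1140) (nat_lit 4836375236) (nat_lit 1216) (nat_lit 3221736702) (nat_lit 199) (nat_lit 5) (nat_lit 214) (nat_lit 5) (nat_lit 215) (nat_lit 5) (nat_lit 296) (nat_lit 290) (nat_lit 194)) (XT.lf (nat_lit 76) (nat_lit 11700802772) (nat_lit 0) (nat_lit 2993113946) (nat_lit 1216) (nat_lit 6507166961) (nat_lit 200) (nat_lit 5) (nat_lit 199) (nat_lit 5) (nat_lit 215) (nat_lit 5) (nat_lit 297) (nat_lit 290) (nat_lit 193)))) (XT.nd (nat_lit 156) (nat_lit 1064) (nat_lit 0) (XT.nd (nat_lit 78) (nat_lit 0) (nat_lit 76) (XT.lf (nat_lit 76) (nat_lit 7414936162) (nat_lit 0) (nat_lit 9696623587) (nat_lit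 1216) (nat_lit 4649256162) (nat_lit 201) (nat_lit 5) (nat_lit 200) (nat_lit 5) (nat_lit 216) (nat_lit 5) (nat_lit 298) (nat_lit 290) (nat_lit 192)) (XT.lf (nat_lit 76) (nat_lit 2991502632) (nat_lit 0) (nat_lit 16853380571) (nat_lit 1216) (nat_lit 2497825183) (nat_lit 202) (nat_lit 5) (nat_lit 201) (nat_lit 5) (nat_lit 217) (nat_lit 5) (nat_lit 299) (nat_lit 290) (nat_lit 191))) (XT.nd (nat_lit 78) (nat_lit 1140) (nat_lit 0) (XT.lf (nat_lit 76) (nat_lit 21383777868) (nat_lit 0) (nat_lit 1561120461) (nat_lit 1216) (nat_lit 1913129) (nat_lit 202) (nat_lit 5) (nat_lit 201) (nat_lit 5) (nat_lit 217) (nat_lit 5) (nat_lit 300) (nat_lit 290) (nat_lit 190)) (XT.lf (nat_lit 0) (nat_lit 2862369494) (nat_lit 1216) (nat_lit 6299466434) (nat_lit 76) (nat_lit 14409703718) (nat_lit 186) (nat_lit 5) (nat_lit 202) (nat_lit 5) (nat_lit 187) (nat_lit 5) (nat_lit 301) (nat_lit 290) (nat_lit 189))))) (XT.nd (nat_lit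 234) (nat_lit 1596) (nat_lit 0) (XT.nd (nat_lit 78) (nat_lit 1140) (nat_lit 0) (XT.lf (nat_lit 0) (nat_lit 6082084996) (nat_lit 760) (nat_lit 11208985003) (nat_lit 76) (nat_lit 6930080668) (nat_lit 177) (nat_lit 5) (nat_lit 187) (nat_lit 5) (nat_lit 178) (nat_lit 5) (nat_lit 302) (nat_lit 290) (nat_lit 188)) (XT.nd (nat_lit 78) (nat_lit 532) (nat_lit 0) (XT.lf (nat_lit 0) (nat_lit 8582225081) (nat_lit 608) (nat_lit 1108121604) (nat_lit 684) (nat_lit 15206082781) (nat_lit 169) (nat_lit 5) (nat_lit 177) (nat_lit 5) (nat_lit 178) (nat_lit 5) (nat_lit 303) (nat_lit 290) (nat_lit 187)) (XT.lf (nat_lit 0) (nat_lit 3905698014) (nat_lit 532) (nat_lit 9867695675) (nat_lit 608) (nat_lit 11823260720) (nat_lit 162) (nat_lit 5) (nat_lit 169) (nat_lit 5) (nat_lit 170) (nat_lit 5) (nat_lit 304) (nat_lit 290) (nat_lit 186)))) (XT.nd (nat_lit 156) (nat_lit 1064) (nat_lit 0) (XT.nd (nat_lit 78) (nat_lit 532)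 (nat_lit 0) (XT.lf (nat_lit 0) (nat_lit 18297168527) (nat_lit 608) (nat_lit 941817534) (nat_lit 76) (nat_lit 7085820007) (nat_lit 162) (nat_lit 5) (nat_lit 170) (nat_lit 5) (nat_lit 163) (nat_lit 5) (nat_lit 305) (nat_lit 290) (nat_lit 185)) (XT.lf (nat_lit 0) (nat_lit 21146454091) (nat_lit 532) (nat_lit 2192209359) (nat_lit 608) (nat_lit 3741968049) (nat_lit 155) (nat_lit 5) (nat_lit 162) (nat_lit 5) (nat_lit 163) (nat_lit 5) (nat_lit 306) (nat_lit 290) (nat_lit 184))) (XT.nd (nat_lit 78) (nat_lit 532) (nat_lit 0) (XT.lf (nat_lit 0) (nat_lit 1056143979) (nat_lit 532) (nat_lit 11228068768) (nat_lit 76) (nat_lit 15580439578) (nat_lit 148) (nat_lit 5) (nat_lit 155) (nat_lit 5) (nat_lit 149) (nat_lit 5) (nat_lit 307) (nat_lit 290) (nat_lit 183)) (XT.lf (nat_lit 0) (nat_lit 6260504232) (nat_lit 608) (nat_lit 16801224984) (nat_lit 76) (nat_lit 5617732211) (nat_lit 141) (nat_lit 5) (nat_lit 149)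 (nat_lit 5) (nat_lit 142) (nat_lit 5) (nat_lit 308) (nat_lit 290) (nat_lit 182))))))))
noncomputable def xc97 : XT := (XT.nd (nat_lit 2184) (nat_lit 1976) (nat_lit 0) (XT.nd (nat_lit 1092) (nat_lit 2812) (nat_lit 0) (XT.nd (nat_lit 546) (nat_lit 1748) (nat_lit 0) (XT.nd (nat_lit 234) (nat_lit 1672) (nat_lit 0) (XT.nd (nat_lit 78) (nat_lit 456) (nat_lit 0) (XT.lf (nat_lit 0) (nat_lit 6840025127) (nat_lit 456) (nat_lit 5181307941) (nat_lit 532) (nat_lit 17504800573) (nat_lit 135) (nat_lit 5) (nat_lit 141) (nat_lit 5) (nat_lit 142) (nat_lit 5) (nat_lit 309) (nat_lit 290) (nat_lit 181)) (XT.nd (nat_lit 78) (nat_lit 0) (nat_lit 0) (XT.lf (nat_lit 0) (nat_lit 1489944627) (nat_lit 456) (nat_lit 16890068397) (nat_lit 532) (nat_lit 12025841837) (nat_lit 129) (nat_lit 5) (nat_lit 135) (nat_lit 5) (nat_lit 136) (nat_lit 5) (nat_lit 310) (nat_lit 290) (nat_lit 180)) (XT.lf (nat_lit 0) (nat_lit 25351228867)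 (nat_lit 532) (nat_lit 4055437914) (nat_lit 76) (nat_lit 1914066529) (nat_lit 129) (nat_lit 5) (nat_lit 136) (nat_lit 5) (nat_lit 130) (nat_lit 5) (nat_lit 311) (nat_lit 290) (nat_lit 179)))) (XT.nd (nat_lit 156) (nat_lit 760) (nat_lit 0) (XT.nd (nat_lit 78) (nat_lit 456) (nat_lit 0) (XT.lf (nat_lit 0) (nat_lit 761573733) (nat_lit 456) (nat_lit 9975438872) (nat_lit 76) (nat_lit 21532853421) (nat_lit 123) (nat_lit 5) (nat_lit 129) (nat_lit 5) (nat_lit 124) (nat_lit 5) (nat_lit 312) (nat_lit 290) (nat_lit 178)) (XT.lf (nat_lit 0) (nat_lit 7991920702) (nat_lit 532) (nat_lit 16303895365) (nat_lit 76) (nat_lit 8960289111) (nat_lit 117) (nat_lit 5) (nat_lit 124) (nat_lit 5) (nat_lit 118) (nat_lit 5) (nat_lit 313) (nat_lit 290) (nat_lit 177))) (XT.nd (nat_lit 78) (nat_lit 380) (nat_lit 0) (XT.lf (nat_lit 0) (nat_lit 11245697949) (nat_lit 380) (nat_lit 4649762522) (nat_lit 456) (nat_lit 18386853291)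 (nat_lit 112) (nat_lit 5) (nat_lit 117) (nat_lit 5) (nat_lit 118) (nat_lit 5) (nat_lit 314) (nat_lit 290) (nat_lit 176)) (XT.lf (nat_lit 0) (nat_lit 5092375029) (nat_lit 380) (nat_lit 19465631658) (nat_lit 456) (nat_lit 10790918573) (nat_lit 107) (nat_lit 5) (nat_lit 112) (nat_lit 5) (nat_lit 113) (nat_lit 5) (nat_lit 315) (nat_lit 290) (nat_lit 175))))) (XT.nd (nat_lit 234) (nat_lit 988) (nat_lit 0) (XT.nd (nat_lit 78) (nat_lit 760) (nat_lit 0) (XT.lf (nat_lit 0) (nat_lit 33940157265) (nat_lit 456) (nat_lit 1420155742) (nat_lit 76) (nat_lit 1099967033) (nat_lit 107) (nat_lit 5) (nat_lit 113) (nat_lit 5) (nat_lit 108) (nat_lit 5) (nat_lit 316) (nat_lit 290) (nat_lit 174)) (XT.nd (nat_lit 78) (nat_lit 380) (nat_lit 0) (XT.lf (nat_lit 0) (nat_lit 6518379952) (nat_lit 380) (nat_lit 8455054807) (nat_lit 76) (nat_lit 22637763069) (nat_lit 102) (nat_lit 5) (nat_lit 107) (nat_lit 5) (nat_lit 103)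 (nat_lit 5) (nat_lit 317) (nat_lit 290) (nat_lit 173)) (XT.lf (nat_lit 0) (nat_lit 16248917465) (nat_lit 456) (nat_lit 15993532360) (nat_lit 76) (nat_lit 6567702420) (nat_lit 97) (nat_lit 5) (nat_lit 103) (nat_lit 5) (nat_lit 98) (nat_lit 5) (nat_lit 318) (nat_lit 290) (nat_lit 172)))) (XT.nd (nat_lit 156) (nat_lit 380) (nat_lit 0) (XT.nd (nat_lit 78) (nat_lit 304) (nat_lit 0) (XT.lf (nat_lit 0) (nat_lit 15910972901) (nat_lit 304) (nat_lit 10939849632) (nat_lit 380) (nat_lit 13206692515) (nat_lit 93) (nat_lit 5) (nat_lit 97) (nat_lit 5) (nat_lit 98) (nat_lit 5) (nat_lit 319) (nat_lit 290) (nat_lit 171)) (XT.lf (nat_lit 0) (nat_lit 8426006045) (nat_lit 304) (nat_lit 29907024990) (nat_lit 380) (nat_lit 3023714315) (nat_lit 89) (nat_lit 5) (nat_lit 93) (nat_lit 5) (nat_lit 94) (nat_lit 5) (nat_lit 320) (nat_lit 290) (nat_lit 170))) (XT.nd (nat_lit 78) (nat_lit 0) (nat_lit 0) (XT.lf (nat_lit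 0) (nat_lit 226710210) (nat_lit 304) (nat_lit 7648950127) (nat_lit 380) (nat_lit 34832364033) (nat_lit 84) (nat_lit 5) (nat_lit 88) (nat_lit 5) (nat_lit 89) (nat_lit 5) (nat_lit 321) (nat_lit 290) (nat_lit 169)) (XT.lf (nat_lit 0) (nat_lit 19744996402) (nat_lit 380) (nat_lit 8580833762) (nat_lit 76) (nat_lit 15785518150) (nat_lit 84) (nat_lit 5) (nat_lit 89) (nat_lit 5) (nat_lit 85) (nat_lit 5) (nat_lit 322) (nat_lit 290) (nat_lit 168)))))) (XT.nd (nat_lit 546) (nat_lit 1140) (nat_lit 0) (XT.nd (nat_lit 234) (nat_lit 760) (nat_lit 0) (XT.nd (nat_lit 78) (nat_lit 608) (nat_lit 0) (XT.lf (nat_lit 0) (nat_lit 27464524697) (nat_lit 304) (nat_lit 5078261552) (nat_lit 380) (nat_lit 13032007295) (nat_lit 80) (nat_lit 5) (nat_lit 84) (nat_lit 5) (nat_lit 85) (nat_lit 5) (nat_lit 323) (nat_lit 290) (nat_lit 167)) (XT.nd (nat_lit 78) (nat_lit 380) (nat_lit 0) (XT.lf (nat_lit 0) (nat_lit 18549182738)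 (nat_lit 228) (nat_lit 27878590365) (nat_lit 304) (nat_lit 670223186) (nat_lit 77) (nat_lit 5) (nat_lit 80) (nat_lit 5) (nat_lit 81) (nat_lit 5) (nat_lit 324) (nat_lit 290) (nat_lit 166)) (XT.lf (nat_lit 0) (nat_lit 8718338366) (nat_lit 304) (nat_lit 3668553526) (nat_lit 380) (nat_lit 36297398162) (nat_lit 72) (nat_lit 5) (nat_lit 76) (nat_lit 5) (nat_lit 77) (nat_lit 5) (nat_lit 325) (nat_lit 290) (nat_lit 165)))) (XT.nd (nat_lit 156) (nat_lit 532) (nat_lit 0) (XT.nd (nat_lit 78) (nat_lit 228) (nat_lit 0) (XT.lf (nat_lit 0) (nat_lit 26583302132) (nat_lit 380) (nat_lit 2122966271) (nat_lit 76) (nat_lit 21628425951) (nat_lit 72) (nat_lit 5) (nat_lit 77) (nat_lit 5) (nat_lit 73) (nat_lit 5) (nat_lit 326) (nat_lit 290) (nat_lit 164)) (XT.lf (nat_lit 0) (nat_lit 38314654333) (nat_lit 228) (nat_lit 3574766058) (nat_lit 304) (nat_lit 10166205607) (nat_lit 69) (nat_lit 5) (nat_lit 72) (nat_lit 5)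 (nat_lit 73) (nat_lit 5) (nat_lit 327) (nat_lit 290) (nat_lit 163))) (XT.nd (nat_lit 78) (nat_lit 228) (nat_lit 0) (XT.lf (nat_lit 0) (nat_lit 4521326217) (nat_lit 304) (nat_lit 26631017553) (nat_lit 76) (nat_lit 22693990364) (nat_lit 65) (nat_lit 5) (nat_lit 69) (nat_lit 5) (nat_lit 66) (nat_lit 5) (nat_lit 328) (nat_lit 290) (nat_lit 162)) (XT.lf (nat_lit 0) (nat_lit 14927507631) (nat_lit 228) (nat_lit 5124690169) (nat_lit 304) (nat_lit 35661787041) (nat_lit 62) (nat_lit 5) (nat_lit 65) (nat_lit 5) (nat_lit 66) (nat_lit 5) (nat_lit 329) (nat_lit 290) (nat_lit 161))))) (XT.nd (nat_lit 234) (nat_lit 684) (nat_lit 0) (XT.nd (nat_lit 78) (nat_lit 228) (nat_lit 0) (XT.lf (nat_lit 0) (nat_lit 1254171381) (nat_lit 228) (nat_lit 35602778680) (nat_lit 304) (nat_lit 20803151059) (nat_lit 59) (nat_lit 5) (nat_lit 62) (nat_lit 5) (nat_lit 63) (nat_lit 5) (nat_lit 330) (nat_lit 290) (nat_lit 160)) (XT.nd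 (nat_lit 78) (nat_lit 228) (nat_lit 0) (XT.lf (nat_lit 0) (nat_lit 46188818652) (nat_lit 228) (nat_lit 8779347983) (nat_lit 304) (nat_lit 4721372775) (nat_lit 59) (nat_lit 5) (nat_lit 62) (nat_lit 5) (nat_lit 63) (nat_lit 5) (nat_lit 331) (nat_lit 290) (nat_lit 159)) (XT.lf (nat_lit 0) (nat_lit 12421070580) (nat_lit 228) (nat_lit 29947453269) (nat_lit 76) (nat_lit 19433602086) (nat_lit 56) (nat_lit 5) (nat_lit 59) (nat_lit 5) (nat_lit 57) (nat_lit 5) (nat_lit 332) (nat_lit 290) (nat_lit 158)))) (XT.nd (nat_lit 156) (nat_lit 456) (nat_lit 0) (XT.nd (nat_lit 78) (nat_lit 0) (nat_lit 0) (XT.lf (nat_lit 0) (nat_lit 15909361702) (nat_lit 228) (nat_lit 14791893101) (nat_lit 304) (nat_lit 33306339318) (nat_lit 53) (nat_lit 5) (nat_lit 56) (nat_lit 5) (nat_lit 57) (nat_lit 5) (nat_lit 333) (nat_lit 290) (nat_lit 157)) (XT.lf (nat_lit 0) (nat_lit 50338514986) (nat_lit 304) (nat_lit 1775592756) (nat_lit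 76) (nat_lit 14195938487) (nat_lit 53) (nat_lit 5) (nat_lit 57) (nat_lit 5) (nat_lit 54) (nat_lit 5) (nat_lit 334) (nat_lit 290) (nat_lit 156))) (XT.nd (nat_lit 78) (nat_lit 228) (nat_lit 0) (XT.lf (nat_lit 0) (nat_lit 2795473595) (nat_lit 228) (nat_lit 21100292173) (nat_lit 76) (nat_lit 44812945250) (nat_lit 50) (nat_lit 5) (nat_lit 53) (nat_lit 5) (nat_lit 51) (nat_lit 5) (nat_lit 335) (nat_lit 290) (nat_lit 155)) (XT.lf (nat_lit 0) (nat_lit 22523054665) (nat_lit 304) (nat_lit 42610147469) (nat_lit 76) (nat_lit 6078788857) (nat_lit 47) (nat_lit 5) (nat_lit 51) (nat_lit 5) (nat_lit 48) (nat_lit 5) (nat_lit 336) (nat_lit 290) (nat_lit 154))))))) (XT.nd (nat_lit 1092) (nat_lit 532) (nat_lit 0) (XT.nd (nat_lit 546) (nat_lit 532) (nat_lit 0) (XT.nd (nat_lit 234) (nat_lit 532) (nat_lit 0) (XT.nd (nat_lit 78) (nat_lit 228) (nat_lit 0) (XT.lf (nat_lit 0) (nat_lit 7288397292) (nat_lit 152) (nat_lit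 36475220116) (nat_lit 228) (nat_lit 30061021585) (nat_lit 45) (nat_lit 5) (nat_lit 47) (nat_lit 5) (nat_lit 48) (nat_lit 5) (nat_lit 337) (nat_lit 290) (nat_lit 153)) (XT.nd (nat_lit 78) (nat_lit 228) (nat_lit 0) (XT.lf (nat_lit 0) (nat_lit 60565894362) (nat_lit 152) (nat_lit 5935073745) (nat_lit 228) (nat_lit 10053910504) (nat_lit 45) (nat_lit 5) (nat_lit 47) (nat_lit 5) (nat_lit 48) (nat_lit 5) (nat_lit 338) (nat_lit 290) (nat_lit 152)) (XT.lf (nat_lit 0) (nat_lit 11354382252) (nat_lit 228) (nat_lit 41953486550) (nat_lit 76) (nat_lit 26092167412) (nat_lit 42) (nat_lit 5) (nat_lit 45) (nat_lit 5) (nat_lit 43) (nat_lit 5) (nat_lit 339) (nat_lit 290) (nat_lit 151)))) (XT.nd (nat_lit 156) (nat_lit 380) (nat_lit 0) (XT.nd (nat_lit 78) (nat_lit 0) (nat_lit 0) (XT.lf (nat_lit 0) (nat_lit 11561991868) (nat_lit 152) (nat_lit 22398736513) (nat_lit 228) (nat_lit 48413671705) (nat_lit 40) (nat_lit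 5) (nat_lit 42) (nat_lit 5) (nat_lit 43) (nat_lit 5) (nat_lit 340) (nat_lit 290) (nat_lit 150)) (XT.lf (nat_lit 0) (nat_lit 58226666981) (nat_lit 228) (nat_lit 16961508998) (nat_lit 76) (nat_lit 10293429603) (nat_lit 40) (nat_lit 5) (nat_lit 43) (nat_lit 5) (nat_lit 41) (nat_lit 5) (nat_lit 341) (nat_lit 290) (nat_lit 149))) (XT.nd (nat_lit 78) (nat_lit 228) (nat_lit 0) (XT.lf (nat_lit 0) (nat_lit 40133297091) (nat_lit 152) (nat_lit 44181097623) (nat_lit 228) (nat_lit 4411523477) (nat_lit 38) (nat_lit 5) (nat_lit 40) (nat_lit 5) (nat_lit 41) (nat_lit 5) (nat_lit 342) (nat_lit 290) (nat_lit 148)) (XT.lf (nat_lit 0) (nat_lit 8276079445) (nat_lit 152) (nat_lit 11168613643) (nat_lit 228) (nat_lit 72674532357) (nat_lit 35) (nat_lit 5) (nat_lit 37) (nat_lit 5) (nat_lit 38) (nat_lit 5) (nat_lit 343) (nat_lit 290) (nat_lit 147))))) (XT.nd (nat_lit 234) (nat_lit 380) (nat_lit 0) (XT.nd (nat_lit 78)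 (nat_lit 152) (nat_lit 0) (XT.lf (nat_lit 0) (nat_lit 45131132547) (nat_lit 228) (nat_lit 26944381814) (nat_lit 76) (nat_lit 23583515285) (nat_lit 35) (nat_lit 5) (nat_lit 38) (nat_lit 5) (nat_lit 36) (nat_lit 5) (nat_lit 344) (nat_lit 290) (nat_lit 146)) (XT.nd (nat_lit 78) (nat_lit 0) (nat_lit 0) (XT.lf (nat_lit 0) (nat_lit 33331753243) (nat_lit 152) (nat_lit 39200213221) (nat_lit 228) (nat_lit 26830956766) (nat_lit 33) (nat_lit 5) (nat_lit 35) (nat_lit 5) (nat_lit 36) (nat_lit 5) (nat_lit 345) (nat_lit 290) (nat_lit 145)) (XT.lf (nat_lit 0) (nat_lit 97179641856) (nat_lit 152) (nat_lit 4397605206) (nat_lit 228) (nat_lit 1666533562) (nat_lit 33) (nat_lit 5) (nat_lit 35) (nat_lit 5) (nat_lit 36) (nat_lit 5) (nat_lit 346) (nat_lit 290) (nat_lit 144)))) (XT.nd (nat_lit 156) (nat_lit 76) (nat_lit 0) (XT.nd (nat_lit 78) (nat_lit 152) (nat_lit 0) (XT.lf (nat_lit 0) (nat_lit 25142486869) (nat_lit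 152) (nat_lit 49825839645) (nat_lit 76) (nat_lit 32317132724) (nat_lit 31) (nat_lit 5) (nat_lit 33) (nat_lit 5) (nat_lit 32) (nat_lit 5) (nat_lit 347) (nat_lit 290) (nat_lit 143)) (XT.lf (nat_lit 0) (nat_lit 12944866181) (nat_lit 152) (nat_lit 40542027845) (nat_lit 228) (nat_lit 58034951812) (nat_lit 29) (nat_lit 5) (nat_lit 31) (nat_lit 5) (nat_lit 32) (nat_lit 5) (nat_lit 348) (nat_lit 290) (nat_lit 142))) (XT.nd (nat_lit 78) (nat_lit 76) (nat_lit 0) (XT.lf (nat_lit 0) (nat_lit 79890610411) (nat_lit 152) (nat_lit 3868130033) (nat_lit 228) (nat_lit 32196005829) (nat_lit 29) (nat_lit 5) (nat_lit 31) (nat_lit 5) (nat_lit 32) (nat_lit 5) (nat_lit 349) (nat_lit 290) (nat_lit 141)) (XT.lf (nat_lit 0) (nat_lit 29818699007) (nat_lit 76) (nat_lit 86342507143) (nat_lit 152) (nat_lit 4429575797) (nat_lit 28) (nat_lit 5) (nat_lit 29) (nat_lit 5) (nat_lit 30) (nat_lit 4) (nat_lit 350) (nat_lit 290)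 (nat_lit 140)))))) (XT.nd (nat_lit 35958) (nat_lit 0) (nat_lit 13224) (XT.nd (nat_lit 234) (nat_lit 304) (nat_lit 0) (XT.nd (nat_lit 78) (nat_lit 152) (nat_lit 0) (XT.lf (nat_lit 0) (nat_lit 24654135218) (nat_lit 152) (nat_lit 25983029791) (nat_lit 76) (nat_lit 74801982034) (nat_lit 27) (nat_lit 5) (nat_lit 29) (nat_lit 5) (nat_lit 28) (nat_lit 5) (nat_lit 351) (nat_lit 290) (nat_lit 139)) (XT.nd (nat_lit 78) (nat_lit 0) (nat_lit 0) (XT.lf (nat_lit 0) (nat_lit 42832326276) (nat_lit 152) (nat_lit 12678268213) (nat_lit 228) (nat_lit 75005715899) (nat_lit 25) (nat_lit 5) (nat_lit 27) (nat_lit 5) (nat_lit 28) (nat_lit 5) (nat_lit 352) (nat_lit 290) (nat_lit 138)) (XT.lf (nat_lit 0) (nat_lit 88438903123) (nat_lit 228) (nat_lit 20475979571) (nat_lit 76) (nat_lit 26916579271) (nat_lit 25) (nat_lit 5) (nat_lit 28) (nat_lit 5) (nat_lit 26) (nat_lit 4) (nat_lit 353) (nat_lit 290) (nat_lit 137)))) (XT.nd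 (nat_lit 156) (nat_lit 152) (nat_lit 0) (XT.nd (nat_lit 78) (nat_lit 76) (nat_lit 0) (XT.lf (nat_lit 0) (nat_lit 50954785496) (nat_lit 76) (nat_lit 72674375781) (nat_lit 152) (nat_lit 17764744640) (nat_lit 24) (nat_lit 5) (nat_lit 25) (nat_lit 5) (nat_lit 26) (nat_lit 4) (nat_lit 354) (nat_lit 290) (nat_lit 136)) (XT.lf (nat_lit 0) (nat_lit 13294738733) (nat_lit 152) (nat_lit 20977450485) (nat_lit 76) (nat_lit 112952115043) (nat_lit 23) (nat_lit 5) (nat_lit 25) (nat_lit 5) (nat_lit 24) (nat_lit 5) (nat_lit 355) (nat_lit 290) (nat_lit 135))) (XT.nd (nat_lit 78) (nat_lit 0) (nat_lit 0) (XT.lf (nat_lit 0) (nat_lit 46113655007) (nat_lit 228) (nat_lit 100585942849) (nat_lit 76) (nat_lit 6624132901) (nat_lit 21) (nat_lit 5) (nat_lit 24) (nat_lit 5) (nat_lit 22) (nat_lit 4) (nat_lit 356) (nat_lit 290) (nat_lit 134)) (XT.lf (nat_lit 0) (nat_lit 81135478465) (nat_lit 228) (nat_lit 29496219557) (nat_lit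 76) (nat_lit 49079572402) (nat_lit 21) (nat_lit 5) (nat_lit 24) (nat_lit 5) (nat_lit 22) (nat_lit 4) (nat_lit 357) (nat_lit 290) (nat_lit 133))))) (XT.nd (nat_lit 234) (nat_lit 0) (nat_lit 152) (XT.nd (nat_lit 78) (nat_lit 0) (nat_lit 0) (XT.lf (nat_lit 0) (nat_lit 1663910832) (nat_lit 0) (nat_lit 1663910832) (nat_lit 1140) (nat_lit 6013509464) (nat_lit 195) (nat_lit 5) (nat_lit 195) (nat_lit 3) (nat_lit 210) (nat_lit 3) (nat_lit 291) (nat_lit 291) (nat_lit 198)) (XT.nd (nat_lit 78) (nat_lit 0) (nat_lit 76) (XT.lf (nat_lit 0) (nat_lit 7224073366) (nat_lit 1140) (nat_lit 1332765257) (nat_lit 1216) (nat_lit 10580478578) (nat_lit 195) (nat_lit 5) (nat_lit 210) (nat_lit 3) (nat_lit 211) (nat_lit 5) (nat_lit 292) (nat_lit 291) (nat_lit 197)) (XT.lf (nat_lit 0) (nat_lit 8020630045) (nat_lit 1140) (nat_lit 6052421889) (nat_lit 1216) (nat_lit 5535684234) (nat_lit 196) (nat_lit 5) (nat_lit 211) (nat_lit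 5) (nat_lit 212) (nat_lit 5) (nat_lit 293) (nat_lit 291) (nat_lit 196)))) (XT.nd (nat_lit 156) (nat_lit 0) (nat_lit 76) (XT.nd (nat_lit 78) (nat_lit 0) (nat_lit 0) (XT.lf (nat_lit 0) (nat_lit 9029152869) (nat_lit 1140) (nat_lit 10903502890) (nat_lit 1216) (nat_lit 165927542) (nat_lit 197) (nat_lit 5) (nat_lit 212) (nat_lit 5) (nat_lit 213) (nat_lit 5) (nat_lit 294) (nat_lit 291) (nat_lit 195)) (XT.lf (nat_lit 76) (nat_lit 4657717960) (nat_lit 0) (nat_lit 5662837336) (nat_lit 1216) (nat_lit 10285414237) (nat_lit 198) (nat_lit 5) (nat_lit 197) (nat_lit 5) (nat_lit 213) (nat_lit 5) (nat_lit 295) (nat_lit 291) (nat_lit 194))) (XT.nd (nat_lit 78) (nat_lit 0) (nat_lit 76) (XT.lf (nat_lit 0) (nat_lit 11862970656) (nat_lit 1140) (nat_lit 12366967) (nat_lit 1216) (nat_lit 9257813547) (nat_lit 198) (nat_lit 5) (nat_lit 213) (nat_lit 5) (nat_lit 214) (nat_lit 5) (nat_lit 296) (nat_lit 291) (nat_lit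 193)) (XT.lf (nat_lit 0) (nat_lit 13718895034) (nat_lit 1140) (nat_lit 4728309803) (nat_lit 1216) (nat_lit 3232413860) (nat_lit 199) (nat_lit 5) (nat_lit 214) (nat_lit 5) (nat_lit 215) (nat_lit 5) (nat_lit 297) (nat_lit 291) (nat_lit 192))))))))
noncomputable def xc98 : XT := (XT.nd (nat_lit 2106) (nat_lit 4028) (nat_lit 0) (XT.nd (nat_lit 1014) (nat_lit 4180) (nat_lit 0) (XT.nd (nat_lit 468) (nat_lit 3192) (nat_lit 0) (XT.nd (nat_lit 234) (nat_lit 1672) (nat_lit 0) (XT.nd (nat_lit 78) (nat_lit 0) (nat_lit 76) (XT.lf (nat_lit 76) (nat_lit 12625697746) (nat_lit 0) (nat_lit 3268249430) (nat_lit 1216) (nat_lit 6352690055) (nat_lit 200) (nat_lit 5) (nat_lit 199) (nat_lit 5) (nat_lit 215) (nat_lit 5) (nat_lit 298) (nat_lit 291) (nat_lit 191)) (XT.nd (nat_lit 78) (nat_lit 0) (nat_lit 76) (XT.lf (nat_lit 76) (nat_lit 8131052522) (nat_lit 0) (nat_lit 10281432199) (nat_lit 1216) (nat_lit 4422496728)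 (nat_lit 201) (nat_lit 5) (nat_lit 200) (nat_lit 5) (nat_lit 216) (nat_lit 5) (nat_lit 299) (nat_lit 291) (nat_lit 190)) (XT.lf (nat_lit 76) (nat_lit 3490958390) (nat_lit 0) (nat_lit 17772756943) (nat_lit 1216) (nat_lit 2182840499) (nat_lit 202) (nat_lit 5) (nat_lit 201) (nat_lit 5) (nat_lit 217) (nat_lit 5) (nat_lit 300) (nat_lit 291) (nat_lit 189)))) (XT.nd (nat_lit 78) (nat_lit 608) (nat_lit 0) (XT.lf (nat_lit 0) (nat_lit 408785059) (nat_lit 1216) (nat_lit 1299318110) (nat_lit 1292) (nat_lit 22373273419) (nat_lit 185) (nat_lit 5) (nat_lit 201) (nat_lit 5) (nat_lit 202) (nat_lit 5) (nat_lit 301) (nat_lit 291) (nat_lit 188)) (XT.nd (nat_lit 78) (nat_lit 684) (nat_lit 0) (XT.lf (nat_lit 0) (nat_lit 3399275497) (nat_lit 1216) (nat_lit 6269528279) (nat_lit 76) (nat_lit 15069067433) (nat_lit 186) (nat_lit 5) (nat_lit 202) (nat_lit 5) (nat_lit 187) (nat_lit 5) (nat_lit 302) (nat_lit 291) (nat_lit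 187)) (XT.lf (nat_lit 0) (nat_lit 6764029881) (nat_lit 760) (nat_lit 11422235110) (nat_lit 76) (nat_lit 7234196760) (nat_lit 177) (nat_lit 5) (nat_lit 187) (nat_lit 5) (nat_lit 178) (nat_lit 5) (nat_lit 303) (nat_lit 291) (nat_lit 186))))) (XT.nd (nat_lit 234) (nat_lit 2052) (nat_lit 0) (XT.nd (nat_lit 78) (nat_lit 532) (nat_lit 0) (XT.lf (nat_lit 0) (nat_lit 9348583085) (nat_lit 608) (nat_lit 1189370980) (nat_lit 684) (nat_lit 15592012524) (nat_lit 169) (nat_lit 5) (nat_lit 177) (nat_lit 5) (nat_lit 178) (nat_lit 5) (nat_lit 304) (nat_lit 291) (nat_lit 185)) (XT.nd (nat_lit 78) (nat_lit 0) (nat_lit 0) (XT.lf (nat_lit 0) (nat_lit 4439764742) (nat_lit 532) (nat_lit 10371118661) (nat_lit 608) (nat_lit 12054766126) (nat_lit 162) (nat_lit 5) (nat_lit 169) (nat_lit 5) (nat_lit 170) (nat_lit 5) (nat_lit 305) (nat_lit 291) (nat_lit 184)) (XT.lf (nat_lit 0) (nat_lit 19544144608) (nat_lit 608) (nat_lit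 655845629) (nat_lit 76) (nat_lit 7430737368) (nat_lit 162) (nat_lit 5) (nat_lit 170) (nat_lit 5) (nat_lit 163) (nat_lit 5) (nat_lit 306) (nat_lit 291) (nat_lit 183)))) (XT.nd (nat_lit 156) (nat_lit 988) (nat_lit 0) (XT.nd (nat_lit 78) (nat_lit 532) (nat_lit 0) (XT.lf (nat_lit 0) (nat_lit 22527292399) (nat_lit 532) (nat_lit 2297716580) (nat_lit 608) (nat_lit 3599733402) (nat_lit 155) (nat_lit 5) (nat_lit 162) (nat_lit 5) (nat_lit 163) (nat_lit 5) (nat_lit 307) (nat_lit 291) (nat_lit 182)) (XT.lf (nat_lit 0) (nat_lit 1419662956) (nat_lit 532) (nat_lit 11459135507) (nat_lit 76) (nat_lit 16369452297) (nat_lit 148) (nat_lit 5) (nat_lit 155) (nat_lit 5) (nat_lit 149) (nat_lit 5) (nat_lit 308) (nat_lit 291) (nat_lit 181))) (XT.nd (nat_lit 78) (nat_lit 456) (nat_lit 0) (XT.lf (nat_lit 0) (nat_lit 6872740002) (nat_lit 608) (nat_lit 17311360832) (nat_lit 76) (nat_lit 5920059419) (nat_lit 141) (nat_lit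 5) (nat_lit 149) (nat_lit 5) (nat_lit 142) (nat_lit 5) (nat_lit 309) (nat_lit 291) (nat_lit 180)) (XT.lf (nat_lit 0) (nat_lit 7502494540) (nat_lit 456) (nat_lit 5407948154) (nat_lit 532) (nat_lit 18083072598) (nat_lit 135) (nat_lit 5) (nat_lit 141) (nat_lit 5) (nat_lit 142) (nat_lit 5) (nat_lit 310) (nat_lit 291) (nat_lit 179)))))) (XT.nd (nat_lit 546) (nat_lit 2052) (nat_lit 0) (XT.nd (nat_lit 234) (nat_lit 1216) (nat_lit 0) (XT.nd (nat_lit 78) (nat_lit 456) (nat_lit 0) (XT.lf (nat_lit 0) (nat_lit 1884090300) (nat_lit 456) (nat_lit 17692619519) (nat_lit 532) (nat_lit 12340836669) (nat_lit 129) (nat_lit 5) (nat_lit 135) (nat_lit 5) (nat_lit 136) (nat_lit 5) (nat_lit 311) (nat_lit 291) (nat_lit 178)) (XT.nd (nat_lit 78) (nat_lit 456) (nat_lit 0) (XT.lf (nat_lit 0) (nat_lit 26883646898) (nat_lit 532) (nat_lit 3945975252) (nat_lit 76) (nat_lit 2048944767) (nat_lit 129) (nat_lit 5) (nat_lit 136)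 (nat_lit 5) (nat_lit 130) (nat_lit 5) (nat_lit 312) (nat_lit 291) (nat_lit 177)) (XT.lf (nat_lit 0) (nat_lit 1057578802) (nat_lit 456) (nat_lit 10165555189) (nat_lit 76) (nat_lit 22652249576) (nat_lit 123) (nat_lit 5) (nat_lit 129) (nat_lit 5) (nat_lit 124) (nat_lit 5) (nat_lit 313) (nat_lit 291) (nat_lit 176)))) (XT.nd (nat_lit 156) (nat_lit 380) (nat_lit 0) (XT.nd (nat_lit 78) (nat_lit 380) (nat_lit 0) (XT.lf (nat_lit 0) (nat_lit 8640535803) (nat_lit 532) (nat_lit 16812092592) (nat_lit 76) (nat_lit 9458584834) (nat_lit 117) (nat_lit 5) (nat_lit 124) (nat_lit 5) (nat_lit 118) (nat_lit 5) (nat_lit 314) (nat_lit 291) (nat_lit 175)) (XT.lf (nat_lit 0) (nat_lit 12106180365) (nat_lit 380) (nat_lit 4824080601) (nat_lit 456) (nat_lit 19058751815) (nat_lit 112) (nat_lit 5) (nat_lit 117) (nat_lit 5) (nat_lit 118) (nat_lit 5) (nat_lit 315) (nat_lit 291) (nat_lit 174))) (XT.nd (nat_lit 78) (nat_lit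 0) (nat_lit 0) (XT.lf (nat_lit 0) (nat_lit 5643304460) (nat_lit 380) (nat_lit 20374581013) (nat_lit 456) (nat_lit 11091321131) (nat_lit 107) (nat_lit 5) (nat_lit 112) (nat_lit 5) (nat_lit 113) (nat_lit 5) (nat_lit 316) (nat_lit 291) (nat_lit 173)) (XT.lf (nat_lit 0) (nat_lit 35858685939) (nat_lit 456) (nat_lit 1202728103) (nat_lit 76) (nat_lit 1215038599) (nat_lit 107) (nat_lit 5) (nat_lit 113) (nat_lit 5) (nat_lit 108) (nat_lit 5) (nat_lit 317) (nat_lit 291) (nat_lit 172))))) (XT.nd (nat_lit 234) (nat_lit 988) (nat_lit 0) (XT.nd (nat_lit 78) (nat_lit 684) (nat_lit 0) (XT.lf (nat_lit 0) (nat_lit 7060262606) (nat_lit 380) (nat_lit 8593160940) (nat_lit 76) (nat_lit 23831674240) (nat_lit 102) (nat_lit 5) (nat_lit 107) (nat_lit 5) (nat_lit 103) (nat_lit 5) (nat_lit 318) (nat_lit 291) (nat_lit 171)) (XT.nd (nat_lit 78) (nat_lit 304) (nat_lit 0) (XT.lf (nat_lit 0) (nat_lit 17270355874) (nat_lit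 456) (nat_lit 16510954280) (nat_lit 76) (nat_lit 6962907523) (nat_lit 97) (nat_lit 5) (nat_lit 103) (nat_lit 5) (nat_lit 98) (nat_lit 5) (nat_lit 319) (nat_lit 291) (nat_lit 170)) (XT.lf (nat_lit 0) (nat_lit 16980685470) (nat_lit 304) (nat_lit 11414354131) (nat_lit 380) (nat_lit 13659136727) (nat_lit 93) (nat_lit 5) (nat_lit 97) (nat_lit 5) (nat_lit 98) (nat_lit 5) (nat_lit 320) (nat_lit 291) (nat_lit 169)))) (XT.nd (nat_lit 156) (nat_lit 304) (nat_lit 0) (XT.nd (nat_lit 78) (nat_lit 380) (nat_lit 0) (XT.lf (nat_lit 0) (nat_lit 9118970928) (nat_lit 304) (nat_lit 31326059008) (nat_lit 380) (nat_lit 2973535887) (nat_lit 89) (nat_lit 5) (nat_lit 93) (nat_lit 5) (nat_lit 94) (nat_lit 5) (nat_lit 321) (nat_lit 291) (nat_lit 168)) (XT.lf (nat_lit 0) (nat_lit 505887265) (nat_lit 304) (nat_lit 7954163894) (nat_lit 380) (nat_lit 36377511605) (nat_lit 84) (nat_lit 5) (nat_lit 88) (nat_lit 5) (nat_lit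 89) (nat_lit 5) (nat_lit 322) (nat_lit 291) (nat_lit 167))) (XT.nd (nat_lit 78) (nat_lit 304) (nat_lit 0) (XT.lf (nat_lit 0) (nat_lit 20914484529) (nat_lit 380) (nat_lit 8749911687) (nat_lit 76) (nat_lit 16646914659) (nat_lit 84) (nat_lit 5) (nat_lit 89) (nat_lit 5) (nat_lit 85) (nat_lit 5) (nat_lit 323) (nat_lit 291) (nat_lit 166)) (XT.lf (nat_lit 0) (nat_lit 29090262886) (nat_lit 304) (nat_lit 5255650268) (nat_lit 380) (nat_lit 13502209292) (nat_lit 80) (nat_lit 5) (nat_lit 84) (nat_lit 5) (nat_lit 85) (nat_lit 5) (nat_lit 324) (nat_lit 291) (nat_lit 165))))))) (XT.nd (nat_lit 1092) (nat_lit 1368) (nat_lit 0) (XT.nd (nat_lit 546) (nat_lit 1064) (nat_lit 0) (XT.nd (nat_lit 234) (nat_lit 988) (nat_lit 0) (XT.nd (nat_lit 78) (nat_lit 380) (nat_lit 0) (XT.lf (nat_lit 0) (nat_lit 19726456788) (nat_lit 228) (nat_lit 29193414145) (nat_lit 304) (nat_lit 527778993) (nat_lit 77) (nat_lit 5) (nat_lit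 80) (nat_lit 5) (nat_lit 81) (nat_lit 5) (nat_lit 325) (nat_lit 291) (nat_lit 164)) (XT.nd (nat_lit 78) (nat_lit 0) (nat_lit 0) (XT.lf (nat_lit 0) (nat_lit 9400362194) (nat_lit 304) (nat_lit 3772546527) (nat_lit 380) (nat_lit 37940480178) (nat_lit 72) (nat_lit 5) (nat_lit 76) (nat_lit 5) (nat_lit 77) (nat_lit 5) (nat_lit 326) (nat_lit 291) (nat_lit 163)) (XT.lf (nat_lit 0) (nat_lit 28071929914) (nat_lit 380) (nat_lit 1990582211) (nat_lit 76) (nat_lit 22784023075) (nat_lit 72) (nat_lit 5) (nat_lit 77) (nat_lit 5) (nat_lit 73) (nat_lit 5) (nat_lit 327) (nat_lit 291) (nat_lit 162)))) (XT.nd (nat_lit 156) (nat_lit 456) (nat_lit 0) (XT.nd (nat_lit 78) (nat_lit 304) (nat_lit 0) (XT.lf (nat_lit 0) (nat_lit 40462081941) (nat_lit 228) (nat_lit 3675905878) (nat_lit 304) (nat_lit 10515691833) (nat_lit 69) (nat_lit 5) (nat_lit 72) (nat_lit 5) (nat_lit 73) (nat_lit 5) (nat_lit 328) (nat_lit 291) (nat_lit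 161)) (XT.lf (nat_lit 0) (nat_lit 4898641638) (nat_lit 304) (nat_lit 27730540428) (nat_lit 76) (nat_lit 23904834442) (nat_lit 65) (nat_lit 5) (nat_lit 69) (nat_lit 5) (nat_lit 66) (nat_lit 5) (nat_lit 329) (nat_lit 291) (nat_lit 160))) (XT.nd (nat_lit 78) (nat_lit 228) (nat_lit 0) (XT.lf (nat_lit 0) (nat_lit 15899259980) (nat_lit 228) (nat_lit 5301760943) (nat_lit 304) (nat_lit 37294184516) (nat_lit 62) (nat_lit 5) (nat_lit 65) (nat_lit 5) (nat_lit 66) (nat_lit 5) (nat_lit 330) (nat_lit 291) (nat_lit 159)) (XT.lf (nat_lit 0) (nat_lit 1539407639) (nat_lit 228) (nat_lit 37302504429) (nat_lit 304) (nat_lit 21696842819) (nat_lit 59) (nat_lit 5) (nat_lit 62) (nat_lit 5) (nat_lit 63) (nat_lit 5) (nat_lit 331) (nat_lit 291) (nat_lit 158))))) (XT.nd (nat_lit 234) (nat_lit 608) (nat_lit 0) (XT.nd (nat_lit 78) (nat_lit 456) (nat_lit 0) (XT.lf (nat_lit 0) (nat_lit 48710190717) (nat_lit 228) (nat_lit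 9141731397) (nat_lit 304) (nat_lit 4817950182) (nat_lit 59) (nat_lit 5) (nat_lit 62) (nat_lit 5) (nat_lit 63) (nat_lit 5) (nat_lit 332) (nat_lit 291) (nat_lit 157)) (XT.nd (nat_lit 78) (nat_lit 228) (nat_lit 0) (XT.lf (nat_lit 0) (nat_lit 13175119143) (nat_lit 228) (nat_lit 31232935310) (nat_lit 76) (nat_lit 20480110562) (nat_lit 56) (nat_lit 5) (nat_lit 59) (nat_lit 5) (nat_lit 57) (nat_lit 5) (nat_lit 333) (nat_lit 291) (nat_lit 156)) (XT.lf (nat_lit 0) (nat_lit 16910646607) (nat_lit 228) (nat_lit 15454311311) (nat_lit 304) (nat_lit 34839083017) (nat_lit 53) (nat_lit 5) (nat_lit 56) (nat_lit 5) (nat_lit 57) (nat_lit 5) (nat_lit 334) (nat_lit 291) (nat_lit 155)))) (XT.nd (nat_lit 156) (nat_lit 380) (nat_lit 0) (XT.nd (nat_lit 78) (nat_lit 228) (nat_lit 0) (XT.lf (nat_lit 0) (nat_lit 52978661918) (nat_lit 304) (nat_lit 1665317303) (nat_lit 76) (nat_lit 14977802512) (nat_lit 53) (nat_lit 5)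 (nat_lit 57) (nat_lit 5) (nat_lit 54) (nat_lit 5) (nat_lit 335) (nat_lit 291) (nat_lit 154)) (XT.lf (nat_lit 0) (nat_lit 3055705218) (nat_lit 228) (nat_lit 21959495332) (nat_lit 76) (nat_lit 47125267397) (nat_lit 50) (nat_lit 5) (nat_lit 53) (nat_lit 5) (nat_lit 51) (nat_lit 5) (nat_lit 336) (nat_lit 291) (nat_lit 153))) (XT.nd (nat_lit 78) (nat_lit 152) (nat_lit 0) (XT.lf (nat_lit 0) (nat_lit 23766465507) (nat_lit 304) (nat_lit 44547605942) (nat_lit 76) (nat_lit 6454939553) (nat_lit 47) (nat_lit 5) (nat_lit 51) (nat_lit 5) (nat_lit 48) (nat_lit 5) (nat_lit 337) (nat_lit 291) (nat_lit 152)) (XT.lf (nat_lit 0) (nat_lit 7840332349) (nat_lit 152) (nat_lit 38224942830) (nat_lit 228) (nat_lit 31447132605) (nat_lit 45) (nat_lit 5) (nat_lit 47) (nat_lit 5) (nat_lit 48) (nat_lit 5) (nat_lit 338) (nat_lit 291) (nat_lit 151)))))) (XT.nd (nat_lit 546) (nat_lit 608) (nat_lit 0) (XT.nd (nat_lit 234) (nat_lit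 380) (nat_lit 0) (XT.nd (nat_lit 78) (nat_lit 380) (nat_lit 0) (XT.lf (nat_lit 0) (nat_lit 63772774978) (nat_lit 152) (nat_lit 6161314773) (nat_lit 228) (nat_lit 10445234544) (nat_lit 45) (nat_lit 5) (nat_lit 47) (nat_lit 5) (nat_lit 48) (nat_lit 5) (nat_lit 339) (nat_lit 291) (nat_lit 150)) (XT.nd (nat_lit 78) (nat_lit 152) (nat_lit 0) (XT.lf (nat_lit 0) (nat_lit 12028460289) (nat_lit 228) (nat_lit 43872980210) (nat_lit 76) (nat_lit 27465354933) (nat_lit 42) (nat_lit 5) (nat_lit 45) (nat_lit 5) (nat_lit 43) (nat_lit 5) (nat_lit 340) (nat_lit 291) (nat_lit 149)) (XT.lf (nat_lit 0) (nat_lit 12313164616) (nat_lit 152) (nat_lit 23448558082) (nat_lit 228) (nat_lit 50728259297) (nat_lit 40) (nat_lit 5) (nat_lit 42) (nat_lit 5) (nat_lit 43) (nat_lit 5) (nat_lit 341) (nat_lit 291) (nat_lit 148)))) (XT.nd (nat_lit 156) (nat_lit 228) (nat_lit 0) (XT.nd (nat_lit 78) (nat_lit 152) (nat_lit 0) (XT.lf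 (nat_lit 0) (nat_lit 61236697367) (nat_lit 228) (nat_lit 17642406106) (nat_lit 76) (nat_lit 10873574469) (nat_lit 40) (nat_lit 5) (nat_lit 43) (nat_lit 5) (nat_lit 41) (nat_lit 5) (nat_lit 342) (nat_lit 291) (nat_lit 147)) (XT.lf (nat_lit 0) (nat_lit 42302348154) (nat_lit 152) (nat_lit 46323324430) (nat_lit 228) (nat_lit 4533630004) (nat_lit 38) (nat_lit 5) (nat_lit 40) (nat_lit 5) (nat_lit 41) (nat_lit 5) (nat_lit 343) (nat_lit 291) (nat_lit 146))) (XT.nd (nat_lit 78) (nat_lit 0) (nat_lit 0) (XT.lf (nat_lit 0) (nat_lit 8849523495) (nat_lit 152) (nat_lit 11660889424) (nat_lit 228) (nat_lit 76211927848) (nat_lit 35) (nat_lit 5) (nat_lit 37) (nat_lit 5) (nat_lit 38) (nat_lit 5) (nat_lit 344) (nat_lit 291) (nat_lit 145)) (XT.lf (nat_lit 0) (nat_lit 47477328316) (nat_lit 228) (nat_lit 28137457946) (nat_lit 76) (nat_lit 24824466269) (nat_lit 35) (nat_lit 5) (nat_lit 38) (nat_lit 5) (nat_lit 36)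 (nat_lit 5) (nat_lit 345) (nat_lit 291) (nat_lit 144))))) (XT.nd (nat_lit 234) (nat_lit 304) (nat_lit 0) (XT.nd (nat_lit 78) (nat_lit 152) (nat_lit 0) (XT.lf (nat_lit 0) (nat_lit 35148065387) (nat_lit 152) (nat_lit 41097309254) (nat_lit 228) (nat_lit 28083052907) (nat_lit 33) (nat_lit 5) (nat_lit 35) (nat_lit 5) (nat_lit 36) (nat_lit 5) (nat_lit 346) (nat_lit 291) (nat_lit 143)) (XT.nd (nat_lit 78) (nat_lit 152) (nat_lit 0) (XT.lf (nat_lit 0) (nat_lit 102181218694) (nat_lit 152) (nat_lit 4557566773) (nat_lit 228) (nat_lit 1664668148) (nat_lit 33) (nat_lit 5) (nat_lit 35) (nat_lit 5) (nat_lit 36) (nat_lit 5) (nat_lit 347) (nat_lit 291) (nat_lit 142)) (XT.lf (nat_lit 0) (nat_lit 26481080168) (nat_lit 152) (nat_lit 52175085422) (nat_lit 76) (nat_lit 33991089478) (nat_lit 31) (nat_lit 5) (nat_lit 33) (nat_lit 5) (nat_lit 32) (nat_lit 5) (nat_lit 348) (nat_lit 291) (nat_lit 141)))) (XT.nd (nat_lit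 156) (nat_lit 152) (nat_lit 0) (XT.nd (nat_lit 78) (nat_lit 0) (nat_lit 0) (XT.lf (nat_lit 0) (nat_lit 13730083969) (nat_lit 152) (nat_lit 42510070534) (nat_lit 228) (nat_lit 60855384663) (nat_lit 29) (nat_lit 5) (nat_lit 31) (nat_lit 5) (nat_lit 32) (nat_lit 5) (nat_lit 349) (nat_lit 291) (nat_lit 140)) (XT.lf (nat_lit 0) (nat_lit 84016545198) (nat_lit 152) (nat_lit 4005290151) (nat_lit 228) (nat_lit 33728363512) (nat_lit 29) (nat_lit 5) (nat_lit 31) (nat_lit 5) (nat_lit 32) (nat_lit 5) (nat_lit 350) (nat_lit 291) (nat_lit 139))) (XT.nd (nat_lit 78) (nat_lit 76) (nat_lit 0) (XT.lf (nat_lit 0) (nat_lit 31438965605) (nat_lit 76) (nat_lit 90603637931) (nat_lit 152) (nat_lit 4575488834) (nat_lit 28) (nat_lit 5) (nat_lit 29) (nat_lit 5) (nat_lit 30) (nat_lit 4) (nat_lit 351) (nat_lit 291) (nat_lit 138)) (XT.lf (nat_lit 0) (nat_lit 25957405020) (nat_lit 152) (nat_lit 27157577530) (nat_lit 76)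 (nat_lit 78593978545) (nat_lit 27) (nat_lit 5) (nat_lit 29) (nat_lit 5) (nat_lit 28) (nat_lit 5) (nat_lit 352) (nat_lit 291) (nat_lit 137))))))))
noncomputable def xc99 : XT := (XT.nd (nat_lit 37674) (nat_lit 0) (nat_lit 1444) (XT.nd (nat_lit 36582) (nat_lit 0) (nat_lit 7752) (XT.nd (nat_lit 36036) (nat_lit 0) (nat_lit 13300) (XT.nd (nat_lit 234) (nat_lit 228) (nat_lit 0) (XT.nd (nat_lit 78) (nat_lit 76) (nat_lit 0) (XT.lf (nat_lit 0) (nat_lit 45094974599) (nat_lit 152) (nat_lit 13259515944) (nat_lit 228) (nat_lit 78685559222) (nat_lit 25) (nat_lit 5) (nat_lit 27) (nat_lit 5) (nat_lit 28) (nat_lit 5) (nat_lit 353) (nat_lit 291) (nat_lit 136)) (XT.nd (nat_lit 78) (nat_lit 76) (nat_lit 0) (XT.lf (nat_lit 0) (nat_lit 92926441217) (nat_lit 228) (nat_lit 21383014839) (nat_lit 76) (nat_lit 28311587265) (nat_lit 25) (nat_lit 5) (nat_lit 28) (nat_lit 5) (nat_lit 26) (nat_lit 4) (nat_lit 354) (nat_lit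 291) (nat_lit 135)) (XT.lf (nat_lit 0) (nat_lit 53615941473) (nat_lit 76) (nat_lit 76258237562) (nat_lit 152) (nat_lit 18587492572) (nat_lit 24) (nat_lit 5) (nat_lit 25) (nat_lit 5) (nat_lit 26) (nat_lit 4) (nat_lit 355) (nat_lit 291) (nat_lit 134)))) (XT.nd (nat_lit 35646) (nat_lit 0) (nat_lit 13224) (XT.nd (nat_lit 78) (nat_lit 152) (nat_lit 0) (XT.lf (nat_lit 0) (nat_lit 14020629353) (nat_lit 152) (nat_lit 21917068929) (nat_lit 76) (nat_lit 118645965487) (nat_lit 23) (nat_lit 5) (nat_lit 25) (nat_lit 5) (nat_lit 24) (nat_lit 5) (nat_lit 356) (nat_lit 291) (nat_lit 133)) (XT.lf (nat_lit 0) (nat_lit 48479049927) (nat_lit 228) (nat_lit 105507770169) (nat_lit 76) (nat_lit 7001285744) (nat_lit 21) (nat_lit 5) (nat_lit 24) (nat_lit 5) (nat_lit 22) (nat_lit 4) (nat_lit 357) (nat_lit 291) (nat_lit 132))) (XT.nd (nat_lit 78) (nat_lit 0) (nat_lit 0) (XT.lf (nat_lit 0) (nat_lit 1893932041) (nat_lit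 0) (nat_lit 1893932041) (nat_lit 1140) (nat_lit 6011379089) (nat_lit 195) (nat_lit 5) (nat_lit 195) (nat_lit 3) (nat_lit 210) (nat_lit 3) (nat_lit 292) (nat_lit 292) (nat_lit 196)) (XT.lf (nat_lit 0) (nat_lit 8141924569) (nat_lit 1140) (nat_lit 1099610074) (nat_lit 1216) (nat_lit 10835291899) (nat_lit 195) (nat_lit 5) (nat_lit 210) (nat_lit 3) (nat_lit 211) (nat_lit 5) (nat_lit 293) (nat_lit 292) (nat_lit 195))))) (XT.nd (nat_lit 234) (nat_lit 0) (nat_lit 152) (XT.nd (nat_lit 78) (nat_lit 0) (nat_lit 0) (XT.lf (nat_lit 0) (nat_lit 8952277498) (nat_lit 1140) (nat_lit 6044905311) (nat_lit 1216) (nat_lit 5575445886) (nat_lit 196) (nat_lit 5) (nat_lit 211) (nat_lit 5) (nat_lit 212) (nat_lit 5) (nat_lit 294) (nat_lit 292) (nat_lit 194)) (XT.nd (nat_lit 78) (nat_lit 0) (nat_lit 76) (XT.lf (nat_lit 76) (nat_lit 9957841390) (nat_lit 0) (nat_lit 29305344) (nat_lit 1216) (nat_lit 11100573641) (nat_lit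 197) (nat_lit 5) (nat_lit 196) (nat_lit 5) (nat_lit 212) (nat_lit 5) (nat_lit 295) (nat_lit 292) (nat_lit 193)) (XT.lf (nat_lit 76) (nat_lit 5200538222) (nat_lit 0) (nat_lit 6121171281) (nat_lit 1216) (nat_lit 10299437090) (nat_lit 198) (nat_lit 5) (nat_lit 197) (nat_lit 5) (nat_lit 213) (nat_lit 5) (nat_lit 296) (nat_lit 292) (nat_lit 192)))) (XT.nd (nat_lit 156) (nat_lit 0) (nat_lit 76) (XT.nd (nat_lit 78) (nat_lit 0) (nat_lit 76) (XT.lf (nat_lit 76) (nat_lit 304130152) (nat_lit 0) (nat_lit 12615333844) (nat_lit 1216) (nat_lit 9255903795) (nat_lit 199) (nat_lit 5) (nat_lit 198) (nat_lit 5) (nat_lit 214) (nat_lit 5) (nat_lit 297) (nat_lit 292) (nat_lit 191)) (XT.lf (nat_lit 0) (nat_lit 14844904291) (nat_lit 1140) (nat_lit 4647370014) (nat_lit 1216) (nat_lit 3257608542) (nat_lit 199) (nat_lit 5) (nat_lit 214) (nat_lit 5) (nat_lit 215) (nat_lit 5) (nat_lit 298) (nat_lit 292) (nat_lit 190)))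 (XT.nd (nat_lit 78) (nat_lit 0) (nat_lit 76) (XT.lf (nat_lit 76) (nat_lit 13565240987) (nat_lit 0) (nat_lit 3545475768) (nat_lit 1216) (nat_lit 6235099838) (nat_lit 200) (nat_lit 5) (nat_lit 199) (nat_lit 5) (nat_lit 215) (nat_lit 5) (nat_lit 299) (nat_lit 292) (nat_lit 189)) (XT.lf (nat_lit 76) (nat_lit 8850865512) (nat_lit 0) (nat_lit 10886186287) (nat_lit 1216) (nat_lit 4227093452) (nat_lit 201) (nat_lit 5) (nat_lit 200) (nat_lit 5) (nat_lit 216) (nat_lit 5) (nat_lit 300) (nat_lit 292) (nat_lit 188)))))) (XT.nd (nat_lit 546) (nat_lit 2964) (nat_lit 0) (XT.nd (nat_lit 234) (nat_lit 1748) (nat_lit 0) (XT.nd (nat_lit 78) (nat_lit 1216) (nat_lit 0) (XT.lf (nat_lit 76) (nat_lit 3982858352) (nat_lit 0) (nat_lit 18730970612) (nat_lit 1216) (nat_lit 1893002077) (nat_lit 202) (nat_lit 5) (nat_lit 201) (nat_lit 5) (nat_lit 217) (nat_lit 5) (nat_lit 301) (nat_lit 292) (nat_lit 187)) (XT.nd (nat_lit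 78) (nat_lit 0) (nat_lit 76) (XT.lf (nat_lit 0) (nat_lit 801790885) (nat_lit 1216) (nat_lit 1054217938) (nat_lit 1292) (nat_lit 23417848365) (nat_lit 185) (nat_lit 5) (nat_lit 201) (nat_lit 5) (nat_lit 202) (nat_lit 5) (nat_lit 302) (nat_lit 292) (nat_lit 186)) (XT.lf (nat_lit 0) (nat_lit 3926416168) (nat_lit 1216) (nat_lit 6270159817) (nat_lit 76) (nat_lit 15767081829) (nat_lit 186) (nat_lit 5) (nat_lit 202) (nat_lit 5) (nat_lit 187) (nat_lit 5) (nat_lit 303) (nat_lit 292) (nat_lit 185)))) (XT.nd (nat_lit 156) (nat_lit 532) (nat_lit 0) (XT.nd (nat_lit 78) (nat_lit 608) (nat_lit 0) (XT.lf (nat_lit 0) (nat_lit 7444943969) (nat_lit 760) (nat_lit 11678427007) (nat_lit 76) (nat_lit 7557459485) (nat_lit 177) (nat_lit 5) (nat_lit 187) (nat_lit 5) (nat_lit 178) (nat_lit 5) (nat_lit 304) (nat_lit 292) (nat_lit 184)) (XT.lf (nat_lit 0) (nat_lit 10121904983) (nat_lit 608) (nat_lit 1272280160) (nat_lit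 684) (nat_lit 16032044537) (nat_lit 169) (nat_lit 5) (nat_lit 177) (nat_lit 5) (nat_lit 178) (nat_lit 5) (nat_lit 305) (nat_lit 292) (nat_lit 183))) (XT.nd (nat_lit 78) (nat_lit 0) (nat_lit 0) (XT.lf (nat_lit 0) (nat_lit 4969038083) (nat_lit 532) (nat_lit 10898779540) (nat_lit 608) (nat_lit 12331284360) (nat_lit 162) (nat_lit 5) (nat_lit 169) (nat_lit 5) (nat_lit 170) (nat_lit 5) (nat_lit 306) (nat_lit 292) (nat_lit 182)) (XT.lf (nat_lit 0) (nat_lit 20822592341) (nat_lit 608) (nat_lit 386540149) (nat_lit 76) (nat_lit 7793772069) (nat_lit 162) (nat_lit 5) (nat_lit 170) (nat_lit 5) (nat_lit 163) (nat_lit 5) (nat_lit 307) (nat_lit 292) (nat_lit 181))))) (XT.nd (nat_lit 234) (nat_lit 1368) (nat_lit 0) (XT.nd (nat_lit 78) (nat_lit 1064) (nat_lit 0) (XT.lf (nat_lit 0) (nat_lit 23947095209) (nat_lit 532) (nat_lit 2408880644) (nat_lit 608) (nat_lit 3481005288) (nat_lit 155) (nat_lit 5) (nat_lit 162)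 (nat_lit 5) (nat_lit 163) (nat_lit 5) (nat_lit 308) (nat_lit 292) (nat_lit 180)) (XT.nd (nat_lit 78) (nat_lit 532) (nat_lit 0) (XT.lf (nat_lit 0) (nat_lit 1772470847) (nat_lit 532) (nat_lit 11732467159) (nat_lit 76) (nat_lit 17196986808) (nat_lit 148) (nat_lit 5) (nat_lit 155) (nat_lit 5) (nat_lit 149) (nat_lit 5) (nat_lit 309) (nat_lit 292) (nat_lit 179)) (XT.lf (nat_lit 0) (nat_lit 7487769799) (nat_lit 608) (nat_lit 17877676808) (nat_lit 76) (nat_lit 6235509644) (nat_lit 141) (nat_lit 5) (nat_lit 149) (nat_lit 5) (nat_lit 142) (nat_lit 5) (nat_lit 310) (nat_lit 292) (nat_lit 178)))) (XT.nd (nat_lit 156) (nat_lit 456) (nat_lit 0) (XT.nd (nat_lit 78) (nat_lit 456) (nat_lit 0) (XT.lf (nat_lit 0) (nat_lit 8168293331) (nat_lit 456) (nat_lit 5648934964) (nat_lit 532) (nat_lit 18717867494) (nat_lit 135) (nat_lit 5) (nat_lit 141) (nat_lit 5) (nat_lit 142) (nat_lit 5) (nat_lit 311) (nat_lit 292)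 (nat_lit 177)) (XT.lf (nat_lit 0) (nat_lit 2268225375) (nat_lit 456) (nat_lit 18539198525) (nat_lit 532) (nat_lit 12698198448) (nat_lit 129) (nat_lit 5) (nat_lit 135) (nat_lit 5) (nat_lit 136) (nat_lit 5) (nat_lit 312) (nat_lit 292) (nat_lit 176))) (XT.nd (nat_lit 78) (nat_lit 456) (nat_lit 0) (XT.lf (nat_lit 0) (nat_lit 28468061974) (nat_lit 532) (nat_lit 3860068066) (nat_lit 76) (nat_lit 2186924804) (nat_lit 129) (nat_lit 5) (nat_lit 136) (nat_lit 5) (nat_lit 130) (nat_lit 5) (nat_lit 313) (nat_lit 292) (nat_lit 175)) (XT.lf (nat_lit 0) (nat_lit 1344404573) (nat_lit 456) (nat_lit 10393873197) (nat_lit 76) (nat_lit 23823640726) (nat_lit 123) (nat_lit 5) (nat_lit 129) (nat_lit 5) (nat_lit 124) (nat_lit 5) (nat_lit 314) (nat_lit 292) (nat_lit 174))))))) (XT.nd (nat_lit 1092) (nat_lit 2432) (nat_lit 0) (XT.nd (nat_lit 546) (nat_lit 1596) (nat_lit 0) (XT.nd (nat_lit 234) (nat_lit 1064) (nat_lit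 0) (XT.nd (nat_lit 78) (nat_lit 760) (nat_lit 0) (XT.lf (nat_lit 0) (nat_lit 9298430226) (nat_lit 532) (nat_lit 17374241402) (nat_lit 76) (nat_lit 9977120667) (nat_lit 117) (nat_lit 5) (nat_lit 124) (nat_lit 5) (nat_lit 118) (nat_lit 5) (nat_lit 315) (nat_lit 292) (nat_lit 173)) (XT.nd (nat_lit 78) (nat_lit 380) (nat_lit 0) (XT.lf (nat_lit 0) (nat_lit 12981963323) (nat_lit 380) (nat_lit 5012522685) (nat_lit 456) (nat_lit 19787250277) (nat_lit 112) (nat_lit 5) (nat_lit 117) (nat_lit 5) (nat_lit 118) (nat_lit 5) (nat_lit 316) (nat_lit 292) (nat_lit 172)) (XT.lf (nat_lit 0) (nat_lit 6194232204) (nat_lit 380) (nat_lit 21334958836) (nat_lit 456) (nat_lit 11428977101) (nat_lit 107) (nat_lit 5) (nat_lit 112) (nat_lit 5) (nat_lit 113) (nat_lit 5) (nat_lit 317) (nat_lit 292) (nat_lit 171)))) (XT.nd (nat_lit 156) (nat_lit 684) (nat_lit 0) (XT.nd (nat_lit 78) (nat_lit 380) (nat_lit 0) (XT.lf (nat_lit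 0) (nat_lit 37852546142) (nat_lit 456) (nat_lit 1001245073) (nat_lit 76) (nat_lit 1330278705) (nat_lit 107) (nat_lit 5) (nat_lit 113) (nat_lit 5) (nat_lit 108) (nat_lit 5) (nat_lit 318) (nat_lit 292) (nat_lit 170)) (XT.lf (nat_lit 0) (nat_lit 7609161139) (nat_lit 380) (nat_lit 8764636123) (nat_lit 76) (nat_lit 25079514657) (nat_lit 102) (nat_lit 5) (nat_lit 107) (nat_lit 5) (nat_lit 103) (nat_lit 5) (nat_lit 319) (nat_lit 292) (nat_lit 169))) (XT.nd (nat_lit 78) (nat_lit 304) (nat_lit 0) (XT.lf (nat_lit 0) (nat_lit 18323436058) (nat_lit 456) (nat_lit 17080488663) (nat_lit 76) (nat_lit 7371660594) (nat_lit 97) (nat_lit 5) (nat_lit 103) (nat_lit 5) (nat_lit 98) (nat_lit 5) (nat_lit 320) (nat_lit 292) (nat_lit 168)) (XT.lf (nat_lit 0) (nat_lit 18078394504) (nat_lit 304) (nat_lit 11919323101) (nat_lit 380) (nat_lit 14153530830) (nat_lit 93) (nat_lit 5) (nat_lit 97) (nat_lit 5) (nat_lit 98) (nat_lit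 5) (nat_lit 321) (nat_lit 292) (nat_lit 167))))) (XT.nd (nat_lit 234) (nat_lit 912) (nat_lit 0) (XT.nd (nat_lit 78) (nat_lit 380) (nat_lit 0) (XT.lf (nat_lit 0) (nat_lit 9821327257) (nat_lit 304) (nat_lit 32823139981) (nat_lit 380) (nat_lit 2939569466) (nat_lit 89) (nat_lit 5) (nat_lit 93) (nat_lit 5) (nat_lit 94) (nat_lit 5) (nat_lit 322) (nat_lit 292) (nat_lit 166)) (XT.nd (nat_lit 78) (nat_lit 0) (nat_lit 0) (XT.lf (nat_lit 0) (nat_lit 774121804) (nat_lit 304) (nat_lit 8281818810) (nat_lit 380) (nat_lit 38018182533) (nat_lit 84) (nat_lit 5) (nat_lit 88) (nat_lit 5) (nat_lit 89) (nat_lit 5) (nat_lit 323) (nat_lit 292) (nat_lit 165)) (XT.lf (nat_lit 0) (nat_lit 22125504272) (nat_lit 380) (nat_lit 8951612475) (nat_lit 76) (nat_lit 17544675903) (nat_lit 84) (nat_lit 5) (nat_lit 89) (nat_lit 5) (nat_lit 85) (nat_lit 5) (nat_lit 324) (nat_lit 292) (nat_lit 164)))) (XT.nd (nat_lit 156) (nat_lit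 380) (nat_lit 0) (XT.nd (nat_lit 78) (nat_lit 228) (nat_lit 0) (XT.lf (nat_lit 0) (nat_lit 30773811816) (nat_lit 304) (nat_lit 5449022929) (nat_lit 380) (nat_lit 14012786090) (nat_lit 80) (nat_lit 5) (nat_lit 84) (nat_lit 5) (nat_lit 85) (nat_lit 5) (nat_lit 325) (nat_lit 292) (nat_lit 163)) (XT.lf (nat_lit 0) (nat_lit 20939369118) (nat_lit 228) (nat_lit 30581333615) (nat_lit 304) (nat_lit 394571251) (nat_lit 77) (nat_lit 5) (nat_lit 80) (nat_lit 5) (nat_lit 81) (nat_lit 5) (nat_lit 326) (nat_lit 292) (nat_lit 162))) (XT.nd (nat_lit 78) (nat_lit 0) (nat_lit 0) (XT.lf (nat_lit 0) (nat_lit 10093606525) (nat_lit 304) (nat_lit 3889124262) (nat_lit 380) (nat_lit 39681687504) (nat_lit 72) (nat_lit 5) (nat_lit 76) (nat_lit 5) (nat_lit 77) (nat_lit 5) (nat_lit 327) (nat_lit 292) (nat_lit 161)) (XT.lf (nat_lit 0) (nat_lit 29620163758) (nat_lit 380) (nat_lit 1873755427) (nat_lit 76) (nat_lit 23990503890)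 (nat_lit 72) (nat_lit 5) (nat_lit 77) (nat_lit 5) (nat_lit 73) (nat_lit 5) (nat_lit 328) (nat_lit 292) (nat_lit 160)))))) (XT.nd (nat_lit 546) (nat_lit 988) (nat_lit 0) (XT.nd (nat_lit 234) (nat_lit 684) (nat_lit 0) (XT.nd (nat_lit 78) (nat_lit 532) (nat_lit 0) (XT.lf (nat_lit 0) (nat_lit 42695340134) (nat_lit 228) (nat_lit 3789317060) (nat_lit 304) (nat_lit 10897418327) (nat_lit 69) (nat_lit 5) (nat_lit 72) (nat_lit 5) (nat_lit 73) (nat_lit 5) (nat_lit 329) (nat_lit 292) (nat_lit 159)) (XT.nd (nat_lit 78) (nat_lit 228) (nat_lit 0) (XT.lf (nat_lit 0) (nat_lit 5280761121) (nat_lit 304) (nat_lit 28906611211) (nat_lit 76) (nat_lit 25169141525) (nat_lit 65) (nat_lit 5) (nat_lit 69) (nat_lit 5) (nat_lit 66) (nat_lit 5) (nat_lit 330) (nat_lit 292) (nat_lit 158)) (XT.lf (nat_lit 0) (nat_lit 16898646531) (nat_lit 228) (nat_lit 5495045150) (nat_lit 304) (nat_lit 39022211767) (nat_lit 62) (nat_lit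 5) (nat_lit 65) (nat_lit 5) (nat_lit 66) (nat_lit 5) (nat_lit 331) (nat_lit 292) (nat_lit 157)))) (XT.nd (nat_lit 156) (nat_lit 456) (nat_lit 0) (XT.nd (nat_lit 78) (nat_lit 0) (nat_lit 0) (XT.lf (nat_lit 0) (nat_lit 1818217194) (nat_lit 228) (nat_lit 39094692521) (nat_lit 304) (nat_lit 22648836168) (nat_lit 59) (nat_lit 5) (nat_lit 62) (nat_lit 5) (nat_lit 63) (nat_lit 5) (nat_lit 332) (nat_lit 292) (nat_lit 156)) (XT.lf (nat_lit 0) (nat_lit 51337928037) (nat_lit 228) (nat_lit 9529354034) (nat_lit 304) (nat_lit 4932325032) (nat_lit 59) (nat_lit 5) (nat_lit 62) (nat_lit 5) (nat_lit 63) (nat_lit 5) (nat_lit 333) (nat_lit 292) (nat_lit 155))) (XT.nd (nat_lit 78) (nat_lit 228) (nat_lit 0) (XT.lf (nat_lit 0) (nat_lit 13954505517) (nat_lit 228) (nat_lit 32602391035) (nat_lit 76) (nat_lit 21571987629) (nat_lit 56) (nat_lit 5) (nat_lit 59) (nat_lit 5) (nat_lit 57) (nat_lit 5) (nat_lit 334) (nat_lit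 292) (nat_lit 154)) (XT.lf (nat_lit 0) (nat_lit 17942860860) (nat_lit 228) (nat_lit 16157025565) (nat_lit 304) (nat_lit 36460789306) (nat_lit 53) (nat_lit 5) (nat_lit 56) (nat_lit 5) (nat_lit 57) (nat_lit 5) (nat_lit 335) (nat_lit 292) (nat_lit 153))))) (XT.nd (nat_lit 234) (nat_lit 532) (nat_lit 0) (XT.nd (nat_lit 78) (nat_lit 456) (nat_lit 0) (XT.lf (nat_lit 0) (nat_lit 55739360258) (nat_lit 304) (nat_lit 1568034333) (nat_lit 76) (nat_lit 15792059621) (nat_lit 53) (nat_lit 5) (nat_lit 57) (nat_lit 5) (nat_lit 54) (nat_lit 5) (nat_lit 336) (nat_lit 292) (nat_lit 152)) (XT.nd (nat_lit 78) (nat_lit 228) (nat_lit 0) (XT.lf (nat_lit 0) (nat_lit 3317749384) (nat_lit 228) (nat_lit 22879863340) (nat_lit 76) (nat_lit 49546542000) (nat_lit 50) (nat_lit 5) (nat_lit 53) (nat_lit 5) (nat_lit 51) (nat_lit 5) (nat_lit 337) (nat_lit 292) (nat_lit 151)) (XT.lf (nat_lit 0) (nat_lit 25061145344) (nat_lit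 304) (nat_lit 46599885196) (nat_lit 76) (nat_lit 6843184266) (nat_lit 47) (nat_lit 5) (nat_lit 51) (nat_lit 5) (nat_lit 48) (nat_lit 5) (nat_lit 338) (nat_lit 292) (nat_lit 150)))) (XT.nd (nat_lit 156) (nat_lit 380) (nat_lit 0) (XT.nd (nat_lit 78) (nat_lit 0) (nat_lit 0) (XT.lf (nat_lit 0) (nat_lit 8402430774) (nat_lit 152) (nat_lit 40069035057) (nat_lit 228) (nat_lit 32913421154) (nat_lit 45) (nat_lit 5) (nat_lit 47) (nat_lit 5) (nat_lit 48) (nat_lit 5) (nat_lit 339) (nat_lit 292) (nat_lit 149)) (XT.lf (nat_lit 0) (nat_lit 67123396400) (nat_lit 152) (nat_lit 6405423451) (nat_lit 228) (nat_lit 10866479051) (nat_lit 45) (nat_lit 5) (nat_lit 47) (nat_lit 5) (nat_lit 48) (nat_lit 5) (nat_lit 340) (nat_lit 292) (nat_lit 148))) (XT.nd (nat_lit 78) (nat_lit 152) (nat_lit 0) (XT.lf (nat_lit 0) (nat_lit 12726353982) (nat_lit 228) (nat_lit 45905014102) (nat_lit 76) (nat_lit 28900825990) (nat_lit 42)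 (nat_lit 5) (nat_lit 45) (nat_lit 5) (nat_lit 43) (nat_lit 5) (nat_lit 341) (nat_lit 292) (nat_lit 147)) (XT.lf (nat_lit 0) (nat_lit 13085805300) (nat_lit 152) (nat_lit 24557389382) (nat_lit 228) (nat_lit 53168440069) (nat_lit 40) (nat_lit 5) (nat_lit 42) (nat_lit 5) (nat_lit 43) (nat_lit 5) (nat_lit 342) (nat_lit 292) (nat_lit 146))))))))
noncomputable def xc100 : XT := (XT.nd (nat_lit 37752) (nat_lit 0) (nat_lit 2660) (XT.nd (nat_lit 1014) (nat_lit 76) (nat_lit 0) (XT.nd (nat_lit 468) (nat_lit 608) (nat_lit 0) (XT.nd (nat_lit 234) (nat_lit 152) (nat_lit 0) (XT.nd (nat_lit 78) (nat_lit 380) (nat_lit 0) (XT.lf (nat_lit 0) (nat_lit 64388053358) (nat_lit 228) (nat_lit 18372890727) (nat_lit 76) (nat_lit 11476639484) (nat_lit 40) (nat_lit 5) (nat_lit 43) (nat_lit 5) (nat_lit 41) (nat_lit 5) (nat_lit 343) (nat_lit 292) (nat_lit 145)) (XT.nd (nat_lit 78) (nat_lit 228) (nat_lit 0) (XT.lf (nat_lit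 0) (nat_lit 44564754639) (nat_lit 152) (nat_lit 48578875619) (nat_lit 228) (nat_lit 4670996631) (nat_lit 38) (nat_lit 5) (nat_lit 40) (nat_lit 5) (nat_lit 41) (nat_lit 5) (nat_lit 344) (nat_lit 292) (nat_lit 144)) (XT.lf (nat_lit 0) (nat_lit 9436797926) (nat_lit 152) (nat_lit 12183929450) (nat_lit 228) (nat_lit 79935149068) (nat_lit 35) (nat_lit 5) (nat_lit 37) (nat_lit 5) (nat_lit 38) (nat_lit 5) (nat_lit 345) (nat_lit 292) (nat_lit 143)))) (XT.nd (nat_lit 78) (nat_lit 152) (nat_lit 0) (XT.lf (nat_lit 0) (nat_lit 49932500075) (nat_lit 228) (nat_lit 29404518636) (nat_lit 76) (nat_lit 26121721527) (nat_lit 35) (nat_lit 5) (nat_lit 38) (nat_lit 5) (nat_lit 36) (nat_lit 5) (nat_lit 346) (nat_lit 292) (nat_lit 142)) (XT.nd (nat_lit 78) (nat_lit 0) (nat_lit 0) (XT.lf (nat_lit 0) (nat_lit 37041273176) (nat_lit 152) (nat_lit 43095109294) (nat_lit 228) (nat_lit 29406070227) (nat_lit 33) (nat_lit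 5) (nat_lit 35) (nat_lit 5) (nat_lit 36) (nat_lit 5) (nat_lit 347) (nat_lit 292) (nat_lit 141)) (XT.lf (nat_lit 0) (nat_lit 107419617266) (nat_lit 152) (nat_lit 4731097090) (nat_lit 228) (nat_lit 1670629817) (nat_lit 33) (nat_lit 5) (nat_lit 35) (nat_lit 5) (nat_lit 36) (nat_lit 5) (nat_lit 348) (nat_lit 292) (nat_lit 140))))) (XT.nd (nat_lit 234) (nat_lit 304) (nat_lit 0) (XT.nd (nat_lit 78) (nat_lit 152) (nat_lit 0) (XT.lf (nat_lit 0) (nat_lit 27879028920) (nat_lit 152) (nat_lit 54654999598) (nat_lit 76) (nat_lit 35743342471) (nat_lit 31) (nat_lit 5) (nat_lit 33) (nat_lit 5) (nat_lit 32) (nat_lit 5) (nat_lit 349) (nat_lit 292) (nat_lit 139)) (XT.nd (nat_lit 78) (nat_lit 0) (nat_lit 0) (XT.lf (nat_lit 0) (nat_lit 14541735087) (nat_lit 152) (nat_lit 44582006076) (nat_lit 228) (nat_lit 63824399031) (nat_lit 29) (nat_lit 5) (nat_lit 31) (nat_lit 5) (nat_lit 32) (nat_lit 5) (nat_lit 350) (nat_lit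 292) (nat_lit 138)) (XT.lf (nat_lit 0) (nat_lit 88336560000) (nat_lit 152) (nat_lit 4154537531) (nat_lit 228) (nat_lit 35344538959) (nat_lit 29) (nat_lit 5) (nat_lit 31) (nat_lit 5) (nat_lit 32) (nat_lit 5) (nat_lit 351) (nat_lit 292) (nat_lit 137)))) (XT.nd (nat_lit 156) (nat_lit 152) (nat_lit 0) (XT.nd (nat_lit 78) (nat_lit 76) (nat_lit 0) (XT.lf (nat_lit 0) (nat_lit 33128221503) (nat_lit 76) (nat_lit 95083031102) (nat_lit 152) (nat_lit 4735722910) (nat_lit 28) (nat_lit 5) (nat_lit 29) (nat_lit 5) (nat_lit 30) (nat_lit 4) (nat_lit 352) (nat_lit 292) (nat_lit 136)) (XT.lf (nat_lit 0) (nat_lit 27319278030) (nat_lit 152) (nat_lit 28402437131) (nat_lit 76) (nat_lit 82570749952) (nat_lit 27) (nat_lit 5) (nat_lit 29) (nat_lit 5) (nat_lit 28) (nat_lit 5) (nat_lit 353) (nat_lit 292) (nat_lit 135))) (XT.nd (nat_lit 78) (nat_lit 0) (nat_lit 0) (XT.lf (nat_lit 0) (nat_lit 47459502929) (nat_lit 152)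 (nat_lit 13874722417) (nat_lit 228) (nat_lit 82555943785) (nat_lit 25) (nat_lit 5) (nat_lit 27) (nat_lit 5) (nat_lit 28) (nat_lit 5) (nat_lit 354) (nat_lit 292) (nat_lit 134)) (XT.lf (nat_lit 0) (nat_lit 97632258006) (nat_lit 228) (nat_lit 22346257453) (nat_lit 76) (nat_lit 29771773459) (nat_lit 25) (nat_lit 5) (nat_lit 28) (nat_lit 5) (nat_lit 26) (nat_lit 4) (nat_lit 355) (nat_lit 292) (nat_lit 133)))))) (XT.nd (nat_lit 36192) (nat_lit 0) (nat_lit 11628) (XT.nd (nat_lit 35880) (nat_lit 0) (nat_lit 13072) (XT.nd (nat_lit 35724) (nat_lit 0) (nat_lit 12996) (XT.lf (nat_lit 0) (nat_lit 56399610840) (nat_lit 76) (nat_lit 80025927665) (nat_lit 152) (nat_lit 19457466476) (nat_lit 24) (nat_lit 5) (nat_lit 25) (nat_lit 5) (nat_lit 26) (nat_lit 4) (nat_lit 356) (nat_lit 292) (nat_lit 132)) (XT.nd (nat_lit 78) (nat_lit 0) (nat_lit 0) (XT.lf (nat_lit 0) (nat_lit 2121803851) (nat_lit 0) (nat_lit 2121803851)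 (nat_lit 1140) (nat_lit 6037294213) (nat_lit 195) (nat_lit 5) (nat_lit 195) (nat_lit 3) (nat_lit 210) (nat_lit 3) (nat_lit 293) (nat_lit 293) (nat_lit 194)) (XT.lf (nat_lit 0) (nat_lit 9053916520) (nat_lit 1140) (nat_lit 882669084) (nat_lit 1216) (nat_lit 11128339389) (nat_lit 195) (nat_lit 5) (nat_lit 210) (nat_lit 3) (nat_lit 211) (nat_lit 5) (nat_lit 294) (nat_lit 293) (nat_lit 193)))) (XT.nd (nat_lit 156) (nat_lit 0) (nat_lit 76) (XT.nd (nat_lit 78) (nat_lit 0) (nat_lit 0) (XT.lf (nat_lit 0) (nat_lit 9881175681) (nat_lit 1140) (nat_lit 6065846565) (nat_lit 1216) (nat_lit 5639231732) (nat_lit 196) (nat_lit 5) (nat_lit 211) (nat_lit 5) (nat_lit 212) (nat_lit 5) (nat_lit 295) (nat_lit 293) (nat_lit 192)) (XT.lf (nat_lit 76) (nat_lit 10728973948) (nat_lit 0) (nat_lit 218522686) (nat_lit 1216) (nat_lit 11180239390) (nat_lit 197) (nat_lit 5) (nat_lit 196) (nat_lit 5) (nat_lit 212) (nat_lit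 5) (nat_lit 296) (nat_lit 293) (nat_lit 191))) (XT.nd (nat_lit 78) (nat_lit 0) (nat_lit 76) (XT.lf (nat_lit 76) (nat_lit 5741684737) (nat_lit 0) (nat_lit 6586134225) (nat_lit 1216) (nat_lit 10360669391) (nat_lit 198) (nat_lit 5) (nat_lit 197) (nat_lit 5) (nat_lit 213) (nat_lit 5) (nat_lit 297) (nat_lit 293) (nat_lit 190)) (XT.lf (nat_lit 76) (nat_lit 607204144) (nat_lit 0) (nat_lit 13378615923) (nat_lit 1216) (nat_lit 9285214295) (nat_lit 199) (nat_lit 5) (nat_lit 198) (nat_lit 5) (nat_lit 214) (nat_lit 5) (nat_lit 298) (nat_lit 293) (nat_lit 189))))) (XT.nd (nat_lit 234) (nat_lit 1672) (nat_lit 0) (XT.nd (nat_lit 78) (nat_lit 0) (nat_lit 0) (XT.lf (nat_lit 0) (nat_lit 15986300983) (nat_lit 1140) (nat_lit 4591887921) (nat_lit 1216) (nat_lit 3296746556) (nat_lit 199) (nat_lit 5) (nat_lit 214) (nat_lit 5) (nat_lit 215) (nat_lit 5) (nat_lit 299) (nat_lit 293) (nat_lit 188)) (XT.nd (nat_lit 78)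 (nat_lit 0) (nat_lit 76) (XT.lf (nat_lit 76) (nat_lit 14523102450) (nat_lit 0) (nat_lit 3825982088) (nat_lit 1216) (nat_lit 6152093179) (nat_lit 200) (nat_lit 5) (nat_lit 199) (nat_lit 5) (nat_lit 215) (nat_lit 5) (nat_lit 300) (nat_lit 293) (nat_lit 187)) (XT.lf (nat_lit 76) (nat_lit 9577545172) (nat_lit 0) (nat_lit 11512747282) (nat_lit 1216) (nat_lit 4060644849) (nat_lit 201) (nat_lit 5) (nat_lit 200) (nat_lit 5) (nat_lit 216) (nat_lit 5) (nat_lit 301) (nat_lit 293) (nat_lit 186)))) (XT.nd (nat_lit 156) (nat_lit 608) (nat_lit 0) (XT.nd (nat_lit 78) (nat_lit 1216) (nat_lit 0) (XT.lf (nat_lit 76) (nat_lit 4469848927) (nat_lit 0) (nat_lit 19730626464) (nat_lit 1216) (nat_lit 1625765154) (nat_lit 202) (nat_lit 5) (nat_lit 201) (nat_lit 5) (nat_lit 217) (nat_lit 5) (nat_lit 302) (nat_lit 293) (nat_lit 185)) (XT.lf (nat_lit 0) (nat_lit 1179809294) (nat_lit 1216) (nat_lit 825689763) (nat_lit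 1292) (nat_lit 24521540127) (nat_lit 185) (nat_lit 5) (nat_lit 201) (nat_lit 5) (nat_lit 202) (nat_lit 5) (nat_lit 303) (nat_lit 293) (nat_lit 184))) (XT.nd (nat_lit 78) (nat_lit 684) (nat_lit 0) (XT.lf (nat_lit 0) (nat_lit 4446706951) (nat_lit 1216) (nat_lit 6299908282) (nat_lit 76) (nat_lit 16505151135) (nat_lit 186) (nat_lit 5) (nat_lit 202) (nat_lit 5) (nat_lit 187) (nat_lit 5) (nat_lit 304) (nat_lit 293) (nat_lit 183)) (XT.lf (nat_lit 0) (nat_lit 8128041593) (nat_lit 760) (nat_lit 11976706762) (nat_lit 76) (nat_lit 7900459794) (nat_lit 177) (nat_lit 5) (nat_lit 187) (nat_lit 5) (nat_lit 178) (nat_lit 5) (nat_lit 305) (nat_lit 293) (nat_lit 182))))))) (XT.nd (nat_lit 1092) (nat_lit 3648) (nat_lit 0) (XT.nd (nat_lit 546) (nat_lit 2128) (nat_lit 0) (XT.nd (nat_lit 234) (nat_lit 2052) (nat_lit 0) (XT.nd (nat_lit 78) (nat_lit 532) (nat_lit 0) (XT.lf (nat_lit 0) (nat_lit 10905453968) (nat_lit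 608) (nat_lit 1357155512) (nat_lit 684) (nat_lit 16525648021) (nat_lit 169) (nat_lit 5) (nat_lit 177) (nat_lit 5) (nat_lit 178) (nat_lit 5) (nat_lit 306) (nat_lit 293) (nat_lit 181)) (XT.nd (nat_lit 78) (nat_lit 0) (nat_lit 0) (XT.lf (nat_lit 0) (nat_lit 5496206635) (nat_lit 532) (nat_lit 11451976971) (nat_lit 608) (nat_lit 12651957355) (nat_lit 162) (nat_lit 5) (nat_lit 169) (nat_lit 5) (nat_lit 170) (nat_lit 5) (nat_lit 307) (nat_lit 293) (nat_lit 180)) (XT.lf (nat_lit 0) (nat_lit 22136955973) (nat_lit 608) (nat_lit 131855582) (nat_lit 76) (nat_lit 8175748956) (nat_lit 162) (nat_lit 5) (nat_lit 170) (nat_lit 5) (nat_lit 163) (nat_lit 5) (nat_lit 308) (nat_lit 293) (nat_lit 179)))) (XT.nd (nat_lit 156) (nat_lit 988) (nat_lit 0) (XT.nd (nat_lit 78) (nat_lit 532) (nat_lit 0) (XT.lf (nat_lit 0) (nat_lit 25410607057) (nat_lit 532) (nat_lit 2525948925) (nat_lit 608) (nat_lit 3384112437) (nat_lit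 155) (nat_lit 5) (nat_lit 162) (nat_lit 5) (nat_lit 163) (nat_lit 5) (nat_lit 309) (nat_lit 293) (nat_lit 178)) (XT.lf (nat_lit 0) (nat_lit 2116717739) (nat_lit 532) (nat_lit 12047321698) (nat_lit 76) (nat_lit 18065055556) (nat_lit 148) (nat_lit 5) (nat_lit 155) (nat_lit 5) (nat_lit 149) (nat_lit 5) (nat_lit 310) (nat_lit 293) (nat_lit 177))) (XT.nd (nat_lit 78) (nat_lit 456) (nat_lit 0) (XT.lf (nat_lit 0) (nat_lit 8108319555) (nat_lit 608) (nat_lit 18500130204) (nat_lit 76) (nat_lit 6564924359) (nat_lit 141) (nat_lit 5) (nat_lit 149) (nat_lit 5) (nat_lit 142) (nat_lit 5) (nat_lit 311) (nat_lit 293) (nat_lit 176)) (XT.lf (nat_lit 0) (nat_lit 8840357943) (nat_lit 456) (nat_lit 5904705433) (nat_lit 532) (nat_lit 19409444557) (nat_lit 135) (nat_lit 5) (nat_lit 141) (nat_lit 5) (nat_lit 142) (nat_lit 5) (nat_lit 312) (nat_lit 293) (nat_lit 175))))) (XT.nd (nat_lit 234) (nat_lit 1216) (nat_lit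 0) (XT.nd (nat_lit 78) (nat_lit 456) (nat_lit 0) (XT.lf (nat_lit 0) (nat_lit 2644612208) (nat_lit 456) (nat_lit 19431644193) (nat_lit 532) (nat_lit 13097570906) (nat_lit 129) (nat_lit 5) (nat_lit 135) (nat_lit 5) (nat_lit 136) (nat_lit 5) (nat_lit 313) (nat_lit 293) (nat_lit 174)) (XT.nd (nat_lit 78) (nat_lit 456) (nat_lit 0) (XT.lf (nat_lit 0) (nat_lit 30109363242) (nat_lit 532) (nat_lit 3796195326) (nat_lit 76) (nat_lit 2328500341) (nat_lit 129) (nat_lit 5) (nat_lit 136) (nat_lit 5) (nat_lit 130) (nat_lit 5) (nat_lit 314) (nat_lit 293) (nat_lit 173)) (XT.lf (nat_lit 0) (nat_lit 1623821475) (nat_lit 456) (nat_lit 10659635109) (nat_lit 76) (nat_lit 25049996160) (nat_lit 123) (nat_lit 5) (nat_lit 129) (nat_lit 5) (nat_lit 124) (nat_lit 5) (nat_lit 315) (nat_lit 293) (nat_lit 172)))) (XT.nd (nat_lit 156) (nat_lit 380) (nat_lit 0) (XT.nd (nat_lit 78) (nat_lit 380) (nat_lit 0) (XT.lf (nat_lit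 0) (nat_lit 9968220339) (nat_lit 532) (nat_lit 17990385836) (nat_lit 76) (nat_lit 10517343223) (nat_lit 117) (nat_lit 5) (nat_lit 124) (nat_lit 5) (nat_lit 118) (nat_lit 5) (nat_lit 316) (nat_lit 293) (nat_lit 171)) (XT.lf (nat_lit 0) (nat_lit 13876389325) (nat_lit 380) (nat_lit 5215292178) (nat_lit 456) (nat_lit 20573039884) (nat_lit 112) (nat_lit 5) (nat_lit 117) (nat_lit 5) (nat_lit 118) (nat_lit 5) (nat_lit 317) (nat_lit 293) (nat_lit 170))) (XT.nd (nat_lit 78) (nat_lit 0) (nat_lit 0) (XT.lf (nat_lit 0) (nat_lit 6747719344) (nat_lit 380) (nat_lit 22348780494) (nat_lit 456) (nat_lit 11803682114) (nat_lit 107) (nat_lit 5) (nat_lit 112) (nat_lit 5) (nat_lit 113) (nat_lit 5) (nat_lit 318) (nat_lit 293) (nat_lit 169)) (XT.lf (nat_lit 0) (nat_lit 39927419168) (nat_lit 456) (nat_lit 814010787) (nat_lit 76) (nat_lit 1446215023) (nat_lit 107) (nat_lit 5) (nat_lit 113) (nat_lit 5) (nat_lit 108)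 (nat_lit 5) (nat_lit 319) (nat_lit 293) (nat_lit 168)))))) (XT.nd (nat_lit 546) (nat_lit 1596) (nat_lit 0) (XT.nd (nat_lit 234) (nat_lit 988) (nat_lit 0) (XT.nd (nat_lit 78) (nat_lit 684) (nat_lit 0) (XT.lf (nat_lit 0) (nat_lit 8167293031) (nat_lit 380) (nat_lit 8968688461) (nat_lit 76) (nat_lit 26384516880) (nat_lit 102) (nat_lit 5) (nat_lit 107) (nat_lit 5) (nat_lit 103) (nat_lit 5) (nat_lit 320) (nat_lit 293) (nat_lit 167)) (XT.nd (nat_lit 78) (nat_lit 304) (nat_lit 0) (XT.lf (nat_lit 0) (nat_lit 19411546537) (nat_lit 456) (nat_lit 17702301457) (nat_lit 76) (nat_lit 7795216589) (nat_lit 97) (nat_lit 5) (nat_lit 103) (nat_lit 5) (nat_lit 98) (nat_lit 5) (nat_lit 321) (nat_lit 293) (nat_lit 166)) (XT.lf (nat_lit 0) (nat_lit 19207869568) (nat_lit 304) (nat_lit 12455653214) (nat_lit 380) (nat_lit 14690175414) (nat_lit 93) (nat_lit 5) (nat_lit 97) (nat_lit 5) (nat_lit 98) (nat_lit 5) (nat_lit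 322) (nat_lit 293) (nat_lit 165)))) (XT.nd (nat_lit 156) (nat_lit 304) (nat_lit 0) (XT.nd (nat_lit 78) (nat_lit 380) (nat_lit 0) (XT.lf (nat_lit 0) (nat_lit 10535892742) (nat_lit 304) (nat_lit 34401510605) (nat_lit 380) (nat_lit 2920885159) (nat_lit 89) (nat_lit 5) (nat_lit 93) (nat_lit 5) (nat_lit 94) (nat_lit 5) (nat_lit 323) (nat_lit 293) (nat_lit 164)) (XT.lf (nat_lit 0) (nat_lit 1033181796) (nat_lit 304) (nat_lit 8632369362) (nat_lit 380) (nat_lit 39757454787) (nat_lit 84) (nat_lit 5) (nat_lit 88) (nat_lit 5) (nat_lit 89) (nat_lit 5) (nat_lit 324) (nat_lit 293) (nat_lit 163))) (XT.nd (nat_lit 78) (nat_lit 304) (nat_lit 0) (XT.lf (nat_lit 0) (nat_lit 23381707391) (nat_lit 380) (nat_lit 9185320268) (nat_lit 76) (nat_lit 18481243495) (nat_lit 84) (nat_lit 5) (nat_lit 89) (nat_lit 5) (nat_lit 85) (nat_lit 5) (nat_lit 325) (nat_lit 293) (nat_lit 162)) (XT.lf (nat_lit 0) (nat_lit 32520244616)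 (nat_lit 304) (nat_lit 5658517293) (nat_lit 380) (nat_lit 14564188508) (nat_lit 80) (nat_lit 5) (nat_lit 84) (nat_lit 5) (nat_lit 85) (nat_lit 5) (nat_lit 326) (nat_lit 293) (nat_lit 161))))) (XT.nd (nat_lit 234) (nat_lit 988) (nat_lit 0) (XT.nd (nat_lit 78) (nat_lit 380) (nat_lit 0) (XT.lf (nat_lit 0) (nat_lit 22191860922) (nat_lit 228) (nat_lit 32045319808) (nat_lit 304) (nat_lit 269540909) (nat_lit 77) (nat_lit 5) (nat_lit 80) (nat_lit 5) (nat_lit 81) (nat_lit 5) (nat_lit 327) (nat_lit 293) (nat_lit 160)) (XT.nd (nat_lit 78) (nat_lit 0) (nat_lit 0) (XT.lf (nat_lit 0) (nat_lit 10800759615) (nat_lit 304) (nat_lit 4018229372) (nat_lit 380) (nat_lit 41524441555) (nat_lit 72) (nat_lit 5) (nat_lit 76) (nat_lit 5) (nat_lit 77) (nat_lit 5) (nat_lit 328) (nat_lit 293) (nat_lit 159)) (XT.lf (nat_lit 0) (nat_lit 31232362284) (nat_lit 380) (nat_lit 1771202024) (nat_lit 76) (nat_lit 25251053721) (nat_lit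 72) (nat_lit 5) (nat_lit 77) (nat_lit 5) (nat_lit 73) (nat_lit 5) (nat_lit 329) (nat_lit 293) (nat_lit 158)))) (XT.nd (nat_lit 156) (nat_lit 456) (nat_lit 0) (XT.nd (nat_lit 78) (nat_lit 304) (nat_lit 0) (XT.lf (nat_lit 0) (nat_lit 45020723102) (nat_lit 228) (nat_lit 3914942449) (nat_lit 304) (nat_lit 11311624301) (nat_lit 69) (nat_lit 5) (nat_lit 72) (nat_lit 5) (nat_lit 73) (nat_lit 5) (nat_lit 330) (nat_lit 293) (nat_lit 157)) (XT.lf (nat_lit 0) (nat_lit 5669232194) (nat_lit 304) (nat_lit 30161051759) (nat_lit 76) (nat_lit 26490242919) (nat_lit 65) (nat_lit 5) (nat_lit 69) (nat_lit 5) (nat_lit 66) (nat_lit 5) (nat_lit 331) (nat_lit 293) (nat_lit 156))) (XT.nd (nat_lit 78) (nat_lit 228) (nat_lit 0) (XT.lf (nat_lit 0) (nat_lit 17928997046) (nat_lit 228) (nat_lit 5704669208) (nat_lit 304) (nat_lit 40849347776) (nat_lit 62) (nat_lit 5) (nat_lit 65) (nat_lit 5) (nat_lit 66) (nat_lit 5) (nat_lit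 332) (nat_lit 293) (nat_lit 155)) (XT.lf (nat_lit 0) (nat_lit 2092202134) (nat_lit 228) (nat_lit 40983271021) (nat_lit 304) (nat_lit 23660780205) (nat_lit 59) (nat_lit 5) (nat_lit 62) (nat_lit 5) (nat_lit 63) (nat_lit 5) (nat_lit 333) (nat_lit 293) (nat_lit 154))))))))
noncomputable def xc101 : XT := (XT.nd (nat_lit 37908) (nat_lit 0) (nat_lit 4484) (XT.nd (nat_lit 1092) (nat_lit 760) (nat_lit 0) (XT.nd (nat_lit 546) (nat_lit 760) (nat_lit 0) (XT.nd (nat_lit 234) (nat_lit 608) (nat_lit 0) (XT.nd (nat_lit 78) (nat_lit 456) (nat_lit 0) (XT.lf (nat_lit 0) (nat_lit 54079180706) (nat_lit 228) (nat_lit 9942815901) (nat_lit 304) (nat_lit 5064181503) (nat_lit 59) (nat_lit 5) (nat_lit 62) (nat_lit 5) (nat_lit 63) (nat_lit 5) (nat_lit 334) (nat_lit 293) (nat_lit 153)) (XT.nd (nat_lit 78) (nat_lit 228) (nat_lit 0) (XT.lf (nat_lit 0) (nat_lit 14761646136) (nat_lit 228) (nat_lit 34058187648) (nat_lit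 76) (nat_lit 22712148497) (nat_lit 56) (nat_lit 5) (nat_lit 59) (nat_lit 5) (nat_lit 57) (nat_lit 5) (nat_lit 335) (nat_lit 293) (nat_lit 152)) (XT.lf (nat_lit 0) (nat_lit 19009329910) (nat_lit 228) (nat_lit 16901383591) (nat_lit 304) (nat_lit 38174760417) (nat_lit 53) (nat_lit 5) (nat_lit 56) (nat_lit 5) (nat_lit 57) (nat_lit 5) (nat_lit 336) (nat_lit 293) (nat_lit 151)))) (XT.nd (nat_lit 156) (nat_lit 380) (nat_lit 0) (XT.nd (nat_lit 78) (nat_lit 228) (nat_lit 0) (XT.lf (nat_lit 0) (nat_lit 58627702643) (nat_lit 304) (nat_lit 1482672934) (nat_lit 76) (nat_lit 16640952384) (nat_lit 53) (nat_lit 5) (nat_lit 57) (nat_lit 5) (nat_lit 54) (nat_lit 5) (nat_lit 337) (nat_lit 293) (nat_lit 150)) (XT.lf (nat_lit 0) (nat_lit 3582737901) (nat_lit 228) (nat_lit 23862761943) (nat_lit 76) (nat_lit 52082836205) (nat_lit 50) (nat_lit 5) (nat_lit 53) (nat_lit 5) (nat_lit 51) (nat_lit 5) (nat_lit 338) (nat_lit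 293) (nat_lit 149))) (XT.nd (nat_lit 78) (nat_lit 152) (nat_lit 0) (XT.lf (nat_lit 0) (nat_lit 26410671148) (nat_lit 304) (nat_lit 48771057647) (nat_lit 76) (nat_lit 7244751857) (nat_lit 47) (nat_lit 5) (nat_lit 51) (nat_lit 5) (nat_lit 48) (nat_lit 5) (nat_lit 339) (nat_lit 293) (nat_lit 148)) (XT.lf (nat_lit 0) (nat_lit 8976821525) (nat_lit 152) (nat_lit 42011575324) (nat_lit 228) (nat_lit 34462885336) (nat_lit 45) (nat_lit 5) (nat_lit 47) (nat_lit 5) (nat_lit 48) (nat_lit 5) (nat_lit 340) (nat_lit 293) (nat_lit 147))))) (XT.nd (nat_lit 234) (nat_lit 380) (nat_lit 0) (XT.nd (nat_lit 78) (nat_lit 380) (nat_lit 0) (XT.lf (nat_lit 0) (nat_lit 70626489280) (nat_lit 152) (nat_lit 6667683684) (nat_lit 228) (nat_lit 11318177407) (nat_lit 45) (nat_lit 5) (nat_lit 47) (nat_lit 5) (nat_lit 48) (nat_lit 5) (nat_lit 341) (nat_lit 293) (nat_lit 146)) (XT.nd (nat_lit 78) (nat_lit 152) (nat_lit 0) (XT.lf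 (nat_lit 0) (nat_lit 13450173432) (nat_lit 228) (nat_lit 48053675131) (nat_lit 76) (nat_lit 30402287526) (nat_lit 42) (nat_lit 5) (nat_lit 45) (nat_lit 5) (nat_lit 43) (nat_lit 5) (nat_lit 342) (nat_lit 293) (nat_lit 145)) (XT.lf (nat_lit 0) (nat_lit 13882483278) (nat_lit 152) (nat_lit 25727574856) (nat_lit 228) (nat_lit 55739576636) (nat_lit 40) (nat_lit 5) (nat_lit 42) (nat_lit 5) (nat_lit 43) (nat_lit 5) (nat_lit 343) (nat_lit 293) (nat_lit 144)))) (XT.nd (nat_lit 156) (nat_lit 228) (nat_lit 0) (XT.nd (nat_lit 78) (nat_lit 152) (nat_lit 0) (XT.lf (nat_lit 0) (nat_lit 67688654323) (nat_lit 228) (nat_lit 19153997228) (nat_lit 76) (nat_lit 12104336574) (nat_lit 40) (nat_lit 5) (nat_lit 43) (nat_lit 5) (nat_lit 41) (nat_lit 5) (nat_lit 344) (nat_lit 293) (nat_lit 143)) (XT.lf (nat_lit 0) (nat_lit 46926587906) (nat_lit 152) (nat_lit 50952839777) (nat_lit 228) (nat_lit 4823535240) (nat_lit 38)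 (nat_lit 5) (nat_lit 40) (nat_lit 5) (nat_lit 41) (nat_lit 5) (nat_lit 345) (nat_lit 293) (nat_lit 142))) (XT.nd (nat_lit 78) (nat_lit 0) (nat_lit 0) (XT.lf (nat_lit 0) (nat_lit 10039974109) (nat_lit 152) (nat_lit 12738700122) (nat_lit 228) (nat_lit 83852654664) (nat_lit 35) (nat_lit 5) (nat_lit 37) (nat_lit 5) (nat_lit 38) (nat_lit 5) (nat_lit 346) (nat_lit 293) (nat_lit 141)) (XT.lf (nat_lit 0) (nat_lit 52502871422) (nat_lit 228) (nat_lit 30747930773) (nat_lit 76) (nat_lit 27478630229) (nat_lit 35) (nat_lit 5) (nat_lit 38) (nat_lit 5) (nat_lit 36) (nat_lit 5) (nat_lit 347) (nat_lit 293) (nat_lit 140)))))) (XT.nd (nat_lit 546) (nat_lit 152) (nat_lit 0) (XT.nd (nat_lit 234) (nat_lit 304) (nat_lit 0) (XT.nd (nat_lit 78) (nat_lit 152) (nat_lit 0) (XT.lf (nat_lit 0) (nat_lit 39016515536) (nat_lit 152) (nat_lit 45198104739) (nat_lit 228) (nat_lit 30802781607) (nat_lit 33) (nat_lit 5) (nat_lit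 35) (nat_lit 5) (nat_lit 36) (nat_lit 5) (nat_lit 348) (nat_lit 293) (nat_lit 139)) (XT.nd (nat_lit 78) (nat_lit 152) (nat_lit 0) (XT.lf (nat_lit 0) (nat_lit 112907911179) (nat_lit 152) (nat_lit 4918356687) (nat_lit 228) (nat_lit 1684073563) (nat_lit 33) (nat_lit 5) (nat_lit 35) (nat_lit 5) (nat_lit 36) (nat_lit 5) (nat_lit 349) (nat_lit 293) (nat_lit 138)) (XT.lf (nat_lit 0) (nat_lit 29340005077) (nat_lit 152) (nat_lit 57270887813) (nat_lit 76) (nat_lit 37578308704) (nat_lit 31) (nat_lit 5) (nat_lit 33) (nat_lit 5) (nat_lit 32) (nat_lit 5) (nat_lit 350) (nat_lit 293) (nat_lit 137)))) (XT.nd (nat_lit 156) (nat_lit 152) (nat_lit 0) (XT.nd (nat_lit 78) (nat_lit 0) (nat_lit 0) (XT.lf (nat_lit 0) (nat_lit 15382333787) (nat_lit 152) (nat_lit 46762518639) (nat_lit 228) (nat_lit 66948721145) (nat_lit 29) (nat_lit 5) (nat_lit 31) (nat_lit 5) (nat_lit 32) (nat_lit 5) (nat_lit 351) (nat_lit 293) (nat_lit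 136)) (XT.lf (nat_lit 0) (nat_lit 92861494615) (nat_lit 152) (nat_lit 4315990368) (nat_lit 228) (nat_lit 37048053681) (nat_lit 29) (nat_lit 5) (nat_lit 31) (nat_lit 5) (nat_lit 32) (nat_lit 5) (nat_lit 352) (nat_lit 293) (nat_lit 135))) (XT.nd (nat_lit 78) (nat_lit 76) (nat_lit 0) (XT.lf (nat_lit 0) (nat_lit 34891034045) (nat_lit 76) (nat_lit 99791115786) (nat_lit 152) (nat_lit 4910340923) (nat_lit 28) (nat_lit 5) (nat_lit 29) (nat_lit 5) (nat_lit 30) (nat_lit 4) (nat_lit 353) (nat_lit 293) (nat_lit 134)) (XT.lf (nat_lit 0) (nat_lit 28743294319) (nat_lit 152) (nat_lit 29720047174) (nat_lit 76) (nat_lit 86741983577) (nat_lit 27) (nat_lit 5) (nat_lit 29) (nat_lit 5) (nat_lit 28) (nat_lit 5) (nat_lit 354) (nat_lit 293) (nat_lit 133))))) (XT.nd (nat_lit 35958) (nat_lit 0) (nat_lit 12920) (XT.nd (nat_lit 78) (nat_lit 0) (nat_lit 0) (XT.lf (nat_lit 0) (nat_lit 49932051409) (nat_lit 152) (nat_lit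 14525130353) (nat_lit 228) (nat_lit 86625787778) (nat_lit 25) (nat_lit 5) (nat_lit 27) (nat_lit 5) (nat_lit 28) (nat_lit 5) (nat_lit 355) (nat_lit 293) (nat_lit 132)) (XT.nd (nat_lit 35802) (nat_lit 0) (nat_lit 12920) (XT.lf (nat_lit 0) (nat_lit 102567834378) (nat_lit 228) (nat_lit 23367508531) (nat_lit 76) (nat_lit 31300821843) (nat_lit 25) (nat_lit 5) (nat_lit 28) (nat_lit 5) (nat_lit 26) (nat_lit 4) (nat_lit 356) (nat_lit 293) (nat_lit 131)) (XT.lf (nat_lit 0) (nat_lit 2348687883) (nat_lit 0) (nat_lit 2348687883) (nat_lit 1140) (nat_lit 6090039803) (nat_lit 195) (nat_lit 5) (nat_lit 195) (nat_lit 3) (nat_lit 210) (nat_lit 3) (nat_lit 294) (nat_lit 294) (nat_lit 192)))) (XT.nd (nat_lit 156) (nat_lit 0) (nat_lit 76) (XT.nd (nat_lit 78) (nat_lit 0) (nat_lit 76) (XT.lf (nat_lit 0) (nat_lit 9964567650) (nat_lit 1140) (nat_lit 680161728) (nat_lit 1216) (nat_lit 11459162613) (nat_lit 195) (nat_lit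 5) (nat_lit 210) (nat_lit 3) (nat_lit 211) (nat_lit 5) (nat_lit 295) (nat_lit 294) (nat_lit 191)) (XT.lf (nat_lit 0) (nat_lit 10811773521) (nat_lit 1140) (nat_lit 6113987863) (nat_lit 1216) (nat_lit 5726194272) (nat_lit 196) (nat_lit 5) (nat_lit 211) (nat_lit 5) (nat_lit 212) (nat_lit 5) (nat_lit 296) (nat_lit 294) (nat_lit 190))) (XT.nd (nat_lit 78) (nat_lit 0) (nat_lit 76) (XT.lf (nat_lit 76) (nat_lit 11513259824) (nat_lit 0) (nat_lit 399745486) (nat_lit 1216) (nat_lit 11308083167) (nat_lit 197) (nat_lit 5) (nat_lit 196) (nat_lit 5) (nat_lit 212) (nat_lit 5) (nat_lit 297) (nat_lit 294) (nat_lit 189)) (XT.lf (nat_lit 76) (nat_lit 6283752742) (nat_lit 0) (nat_lit 7059571893) (nat_lit 1216) (nat_lit 10467147709) (nat_lit 198) (nat_lit 5) (nat_lit 197) (nat_lit 5) (nat_lit 213) (nat_lit 5) (nat_lit 298) (nat_lit 294) (nat_lit 188))))))) (XT.nd (nat_lit 1092) (nat_lit 4332) (nat_lit 0) (XT.nd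 (nat_lit 546) (nat_lit 3344) (nat_lit 0) (XT.nd (nat_lit 234) (nat_lit 988) (nat_lit 0) (XT.nd (nat_lit 78) (nat_lit 0) (nat_lit 76) (XT.lf (nat_lit 76) (nat_lit 898668645) (nat_lit 0) (nat_lit 14167742081) (nat_lit 1216) (nat_lit 9356291617) (nat_lit 199) (nat_lit 5) (nat_lit 198) (nat_lit 5) (nat_lit 214) (nat_lit 5) (nat_lit 299) (nat_lit 294) (nat_lit 187)) (XT.nd (nat_lit 78) (nat_lit 0) (nat_lit 0) (XT.lf (nat_lit 0) (nat_lit 17147658189) (nat_lit 1140) (nat_lit 4560393344) (nat_lit 1216) (nat_lit 3349345867) (nat_lit 199) (nat_lit 5) (nat_lit 214) (nat_lit 5) (nat_lit 215) (nat_lit 5) (nat_lit 300) (nat_lit 294) (nat_lit 186)) (XT.lf (nat_lit 76) (nat_lit 15502862483) (nat_lit 0) (nat_lit 4110916142) (nat_lit 1216) (nat_lit 6101637384) (nat_lit 200) (nat_lit 5) (nat_lit 199) (nat_lit 5) (nat_lit 215) (nat_lit 5) (nat_lit 301) (nat_lit 294) (nat_lit 185)))) (XT.nd (nat_lit 156) (nat_lit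 1140) (nat_lit 0) (XT.nd (nat_lit 78) (nat_lit 0) (nat_lit 76) (XT.lf (nat_lit 76) (nat_lit 10314142507) (nat_lit 0) (nat_lit 12162989345) (nat_lit 1216) (nat_lit 3920998384) (nat_lit 201) (nat_lit 5) (nat_lit 200) (nat_lit 5) (nat_lit 216) (nat_lit 5) (nat_lit 302) (nat_lit 294) (nat_lit 184)) (XT.lf (nat_lit 76) (nat_lit 4954427684) (nat_lit 0) (nat_lit 20774397988) (nat_lit 1216) (nat_lit 1378811211) (nat_lit 202) (nat_lit 5) (nat_lit 201) (nat_lit 5) (nat_lit 217) (nat_lit 5) (nat_lit 303) (nat_lit 294) (nat_lit 183))) (XT.nd (nat_lit 78) (nat_lit 0) (nat_lit 76) (XT.lf (nat_lit 0) (nat_lit 1545311200) (nat_lit 1216) (nat_lit 611882122) (nat_lit 1292) (nat_lit 25686664156) (nat_lit 185) (nat_lit 5) (nat_lit 201) (nat_lit 5) (nat_lit 202) (nat_lit 5) (nat_lit 304) (nat_lit 294) (nat_lit 182)) (XT.lf (nat_lit 0) (nat_lit 4962892615) (nat_lit 1216) (nat_lit 6357525442) (nat_lit 76) (nat_lit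 17284798909) (nat_lit 186) (nat_lit 5) (nat_lit 202) (nat_lit 5) (nat_lit 187) (nat_lit 5) (nat_lit 305) (nat_lit 294) (nat_lit 181))))) (XT.nd (nat_lit 234) (nat_lit 1596) (nat_lit 0) (XT.nd (nat_lit 78) (nat_lit 1140) (nat_lit 0) (XT.lf (nat_lit 0) (nat_lit 8816394172) (nat_lit 760) (nat_lit 12316456754) (nat_lit 76) (nat_lit 8263852249) (nat_lit 177) (nat_lit 5) (nat_lit 187) (nat_lit 5) (nat_lit 178) (nat_lit 5) (nat_lit 306) (nat_lit 294) (nat_lit 180)) (XT.nd (nat_lit 78) (nat_lit 532) (nat_lit 0) (XT.lf (nat_lit 0) (nat_lit 11702385383) (nat_lit 608) (nat_lit 1444297953) (nat_lit 684) (nat_lit 17072566483) (nat_lit 169) (nat_lit 5) (nat_lit 177) (nat_lit 5) (nat_lit 178) (nat_lit 5) (nat_lit 307) (nat_lit 294) (nat_lit 179)) (XT.lf (nat_lit 0) (nat_lit 6023821182) (nat_lit 532) (nat_lit 12032066481) (nat_lit 608) (nat_lit 13016173162) (nat_lit 162) (nat_lit 5) (nat_lit 169) (nat_lit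 5) (nat_lit 170) (nat_lit 5) (nat_lit 308) (nat_lit 294) (nat_lit 178)))) (XT.nd (nat_lit 156) (nat_lit 1064) (nat_lit 0) (XT.nd (nat_lit 78) (nat_lit 0) (nat_lit 0) (XT.lf (nat_lit 0) (nat_lit 112279185) (nat_lit 532) (nat_lit 23380435190) (nat_lit 608) (nat_lit 8466341762) (nat_lit 155) (nat_lit 5) (nat_lit 162) (nat_lit 5) (nat_lit 163) (nat_lit 5) (nat_lit 309) (nat_lit 294) (nat_lit 177)) (XT.lf (nat_lit 0) (nat_lit 26922549734) (nat_lit 532) (nat_lit 2649184466) (nat_lit 608) (nat_lit 3307564667) (nat_lit 155) (nat_lit 5) (nat_lit 162) (nat_lit 5) (nat_lit 163) (nat_lit 5) (nat_lit 310) (nat_lit 294) (nat_lit 176))) (XT.nd (nat_lit 78) (nat_lit 532) (nat_lit 0) (XT.lf (nat_lit 0) (nat_lit 2454411539) (nat_lit 532) (nat_lit 12403185452) (nat_lit 76) (nat_lit 18975763578) (nat_lit 148) (nat_lit 5) (nat_lit 155) (nat_lit 5) (nat_lit 149) (nat_lit 5) (nat_lit 311) (nat_lit 294) (nat_lit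 175)) (XT.lf (nat_lit 0) (nat_lit 8737011058) (nat_lit 608) (nat_lit 19178941300) (nat_lit 76) (nat_lit 6909169881) (nat_lit 141) (nat_lit 5) (nat_lit 149) (nat_lit 5) (nat_lit 142) (nat_lit 5) (nat_lit 312) (nat_lit 294) (nat_lit 174)))))) (XT.nd (nat_lit 546) (nat_lit 1748) (nat_lit 0) (XT.nd (nat_lit 234) (nat_lit 1672) (nat_lit 0) (XT.nd (nat_lit 78) (nat_lit 456) (nat_lit 0) (XT.lf (nat_lit 0) (nat_lit 9521514113) (nat_lit 456) (nat_lit 6175744533) (nat_lit 532) (nat_lit 20158314689) (nat_lit 135) (nat_lit 5) (nat_lit 141) (nat_lit 5) (nat_lit 142) (nat_lit 5) (nat_lit 313) (nat_lit 294) (nat_lit 173)) (XT.nd (nat_lit 78) (nat_lit 0) (nat_lit 0) (XT.lf (nat_lit 0) (nat_lit 3015369408) (nat_lit 456) (nat_lit 20371920952) (nat_lit 532) (nat_lit 13538810028) (nat_lit 129) (nat_lit 5) (nat_lit 135) (nat_lit 5) (nat_lit 136) (nat_lit 5) (nat_lit 314) (nat_lit 294) (nat_lit 172)) (XT.lf (nat_lit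 0) (nat_lit 31812471467) (nat_lit 532) (nat_lit 3753010857) (nat_lit 76) (nat_lit 2474158280) (nat_lit 129) (nat_lit 5) (nat_lit 136) (nat_lit 5) (nat_lit 130) (nat_lit 5) (nat_lit 315) (nat_lit 294) (nat_lit 171)))) (XT.nd (nat_lit 156) (nat_lit 760) (nat_lit 0) (XT.nd (nat_lit 78) (nat_lit 456) (nat_lit 0) (XT.lf (nat_lit 0) (nat_lit 1897481186) (nat_lit 456) (nat_lit 10962293284) (nat_lit 76) (nat_lit 26334399276) (nat_lit 123) (nat_lit 5) (nat_lit 129) (nat_lit 5) (nat_lit 124) (nat_lit 5) (nat_lit 316) (nat_lit 294) (nat_lit 170)) (XT.lf (nat_lit 0) (nat_lit 10652453217) (nat_lit 532) (nat_lit 18660818836) (nat_lit 76) (nat_lit 11080731040) (nat_lit 117) (nat_lit 5) (nat_lit 124) (nat_lit 5) (nat_lit 118) (nat_lit 5) (nat_lit 317) (nat_lit 294) (nat_lit 169))) (XT.nd (nat_lit 78) (nat_lit 380) (nat_lit 0) (XT.lf (nat_lit 0) (nat_lit 14792728370) (nat_lit 380) (nat_lit 5432649403) (nat_lit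 456) (nat_lit 21417045252) (nat_lit 112) (nat_lit 5) (nat_lit 117) (nat_lit 5) (nat_lit 118) (nat_lit 5) (nat_lit 318) (nat_lit 294) (nat_lit 168)) (XT.lf (nat_lit 0) (nat_lit 7306216902) (nat_lit 380) (nat_lit 23418213819) (nat_lit 456) (nat_lit 12215413755) (nat_lit 107) (nat_lit 5) (nat_lit 112) (nat_lit 5) (nat_lit 113) (nat_lit 5) (nat_lit 319) (nat_lit 294) (nat_lit 167))))) (XT.nd (nat_lit 234) (nat_lit 988) (nat_lit 0) (XT.nd (nat_lit 78) (nat_lit 760) (nat_lit 0) (XT.lf (nat_lit 0) (nat_lit 42089092366) (nat_lit 456) (nat_lit 639476370) (nat_lit 76) (nat_lit 1563353332) (nat_lit 107) (nat_lit 5) (nat_lit 113) (nat_lit 5) (nat_lit 108) (nat_lit 5) (nat_lit 320) (nat_lit 294) (nat_lit 166)) (XT.nd (nat_lit 78) (nat_lit 380) (nat_lit 0) (XT.lf (nat_lit 0) (nat_lit 8736813088) (nat_lit 380) (nat_lit 9204715204) (nat_lit 76) (nat_lit 27750025254) (nat_lit 102) (nat_lit 5) (nat_lit 107)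 (nat_lit 5) (nat_lit 103) (nat_lit 5) (nat_lit 321) (nat_lit 294) (nat_lit 165)) (XT.lf (nat_lit 0) (nat_lit 20538077312) (nat_lit 456) (nat_lit 18376793729) (nat_lit 76) (nat_lit 8234839518) (nat_lit 97) (nat_lit 5) (nat_lit 103) (nat_lit 5) (nat_lit 98) (nat_lit 5) (nat_lit 322) (nat_lit 294) (nat_lit 164)))) (XT.nd (nat_lit 156) (nat_lit 380) (nat_lit 0) (XT.nd (nat_lit 78) (nat_lit 304) (nat_lit 0) (XT.lf (nat_lit 0) (nat_lit 20372848387) (nat_lit 304) (nat_lit 13024344226) (nat_lit 380) (nat_lit 15269553158) (nat_lit 93) (nat_lit 5) (nat_lit 97) (nat_lit 5) (nat_lit 98) (nat_lit 5) (nat_lit 323) (nat_lit 294) (nat_lit 163)) (XT.lf (nat_lit 0) (nat_lit 11265407671) (nat_lit 304) (nat_lit 36064637043) (nat_lit 380) (nat_lit 2916668392) (nat_lit 89) (nat_lit 5) (nat_lit 93) (nat_lit 5) (nat_lit 94) (nat_lit 5) (nat_lit 324) (nat_lit 294) (nat_lit 162))) (XT.nd (nat_lit 78) (nat_lit 0) (nat_lit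 0) (XT.lf (nat_lit 0) (nat_lit 1284708369) (nat_lit 304) (nat_lit 9006354825) (nat_lit 380) (nat_lit 41598718117) (nat_lit 84) (nat_lit 5) (nat_lit 88) (nat_lit 5) (nat_lit 89) (nat_lit 5) (nat_lit 325) (nat_lit 294) (nat_lit 161)) (XT.lf (nat_lit 0) (nat_lit 24686781791) (nat_lit 380) (nat_lit 9450597319) (nat_lit 76) (nat_lit 19459123173) (nat_lit 84) (nat_lit 5) (nat_lit 89) (nat_lit 5) (nat_lit 85) (nat_lit 5) (nat_lit 326) (nat_lit 294) (nat_lit 160))))))))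
noncomputable def xc102 : XT := (XT.nd (nat_lit 2106) (nat_lit 304) (nat_lit 0) (XT.nd (nat_lit 1014) (nat_lit 1596) (nat_lit 0) (XT.nd (nat_lit 468) (nat_lit 1140) (nat_lit 0) (XT.nd (nat_lit 234) (nat_lit 532) (nat_lit 0) (XT.nd (nat_lit 78) (nat_lit 608) (nat_lit 0) (XT.lf (nat_lit 0) (nat_lit 34334685155) (nat_lit 304) (nat_lit 5884339501) (nat_lit 380) (nat_lit 15157035679) (nat_lit 80) (nat_lit 5) (nat_lit 84) (nat_lit 5) (nat_lit 85) (nat_lit 5) (nat_lit 327) (nat_lit 294) (nat_lit 159)) (XT.nd (nat_lit 78) (nat_lit 380) (nat_lit 0) (XT.lf (nat_lit 0) (nat_lit 23487869702) (nat_lit 228) (nat_lit 33588555879) (nat_lit 304) (nat_lit 151717361) (nat_lit 77) (nat_lit 5) (nat_lit 80) (nat_lit 5) (nat_lit 81) (nat_lit 5) (nat_lit 328) (nat_lit 294) (nat_lit 158)) (XT.lf (nat_lit 0) (nat_lit 11524446361) (nat_lit 304) (nat_lit 4159865464) (nat_lit 380) (nat_lit 43472472862) (nat_lit 72) (nat_lit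 5) (nat_lit 76) (nat_lit 5) (nat_lit 77) (nat_lit 5) (nat_lit 329) (nat_lit 294) (nat_lit 157)))) (XT.nd (nat_lit 78) (nat_lit 532) (nat_lit 0) (XT.lf (nat_lit 0) (nat_lit 32912973902) (nat_lit 380) (nat_lit 1681765595) (nat_lit 76) (nat_lit 26568957551) (nat_lit 72) (nat_lit 5) (nat_lit 77) (nat_lit 5) (nat_lit 73) (nat_lit 5) (nat_lit 330) (nat_lit 294) (nat_lit 156)) (XT.nd (nat_lit 78) (nat_lit 304) (nat_lit 0) (XT.lf (nat_lit 0) (nat_lit 47444653552) (nat_lit 228) (nat_lit 4052784389) (nat_lit 304) (nat_lit 11758688562) (nat_lit 69) (nat_lit 5) (nat_lit 72) (nat_lit 5) (nat_lit 73) (nat_lit 5) (nat_lit 331) (nat_lit 294) (nat_lit 155)) (XT.lf (nat_lit 0) (nat_lit 6065558219) (nat_lit 304) (nat_lit 31495961479) (nat_lit 76) (nat_lit 27871575309) (nat_lit 65) (nat_lit 5) (nat_lit 69) (nat_lit 5) (nat_lit 66) (nat_lit 5) (nat_lit 332) (nat_lit 294) (nat_lit 154))))) (XT.nd (nat_lit 234)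 (nat_lit 684) (nat_lit 0) (XT.nd (nat_lit 78) (nat_lit 228) (nat_lit 0) (XT.lf (nat_lit 0) (nat_lit 18993626662) (nat_lit 228) (nat_lit 5930829471) (nat_lit 304) (nat_lit 42779366566) (nat_lit 62) (nat_lit 5) (nat_lit 65) (nat_lit 5) (nat_lit 66) (nat_lit 5) (nat_lit 333) (nat_lit 294) (nat_lit 153)) (XT.nd (nat_lit 78) (nat_lit 0) (nat_lit 0) (XT.lf (nat_lit 0) (nat_lit 2362865828) (nat_lit 228) (nat_lit 42972429015) (nat_lit 304) (nat_lit 24734524186) (nat_lit 59) (nat_lit 5) (nat_lit 62) (nat_lit 5) (nat_lit 63) (nat_lit 5) (nat_lit 334) (nat_lit 294) (nat_lit 152)) (XT.lf (nat_lit 0) (nat_lit 56941286015) (nat_lit 228) (nat_lit 10382808547) (nat_lit 304) (nat_lit 5213300073) (nat_lit 59) (nat_lit 5) (nat_lit 62) (nat_lit 5) (nat_lit 63) (nat_lit 5) (nat_lit 335) (nat_lit 294) (nat_lit 151)))) (XT.nd (nat_lit 156) (nat_lit 228) (nat_lit 0) (XT.nd (nat_lit 78) (nat_lit 228) (nat_lit 0)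 (XT.lf (nat_lit 0) (nat_lit 15598971385) (nat_lit 228) (nat_lit 35602980986) (nat_lit 76) (nat_lit 23903594004) (nat_lit 56) (nat_lit 5) (nat_lit 59) (nat_lit 5) (nat_lit 57) (nat_lit 5) (nat_lit 336) (nat_lit 294) (nat_lit 150)) (XT.lf (nat_lit 0) (nat_lit 20113380086) (nat_lit 228) (nat_lit 17688862519) (nat_lit 304) (nat_lit 39984570224) (nat_lit 53) (nat_lit 5) (nat_lit 56) (nat_lit 5) (nat_lit 57) (nat_lit 5) (nat_lit 337) (nat_lit 294) (nat_lit 149))) (XT.nd (nat_lit 78) (nat_lit 228) (nat_lit 0) (XT.lf (nat_lit 0) (nat_lit 61651037319) (nat_lit 304) (nat_lit 1408268607) (nat_lit 76) (nat_lit 17526777583) (nat_lit 53) (nat_lit 5) (nat_lit 57) (nat_lit 5) (nat_lit 54) (nat_lit 5) (nat_lit 338) (nat_lit 294) (nat_lit 148)) (XT.lf (nat_lit 0) (nat_lit 3851762368) (nat_lit 228) (nat_lit 24909782521) (nat_lit 76) (nat_lit 54740462918) (nat_lit 50) (nat_lit 5) (nat_lit 53) (nat_lit 5) (nat_lit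 51) (nat_lit 5) (nat_lit 339) (nat_lit 294) (nat_lit 147)))))) (XT.nd (nat_lit 546) (nat_lit 684) (nat_lit 0) (XT.nd (nat_lit 234) (nat_lit 532) (nat_lit 0) (XT.nd (nat_lit 78) (nat_lit 152) (nat_lit 0) (XT.lf (nat_lit 0) (nat_lit 27818704511) (nat_lit 304) (nat_lit 51065554468) (nat_lit 76) (nat_lit 7660874599) (nat_lit 47) (nat_lit 5) (nat_lit 51) (nat_lit 5) (nat_lit 48) (nat_lit 5) (nat_lit 340) (nat_lit 294) (nat_lit 146)) (XT.nd (nat_lit 78) (nat_lit 0) (nat_lit 0) (XT.lf (nat_lit 0) (nat_lit 9565589325) (nat_lit 152) (nat_lit 44056905576) (nat_lit 228) (nat_lit 36098767130) (nat_lit 45) (nat_lit 5) (nat_lit 47) (nat_lit 5) (nat_lit 48) (nat_lit 5) (nat_lit 341) (nat_lit 294) (nat_lit 145)) (XT.lf (nat_lit 0) (nat_lit 74291077291) (nat_lit 152) (nat_lit 6948450236) (nat_lit 228) (nat_lit 11800979160) (nat_lit 45) (nat_lit 5) (nat_lit 47) (nat_lit 5) (nat_lit 48) (nat_lit 5) (nat_lit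 342) (nat_lit 294) (nat_lit 144)))) (XT.nd (nat_lit 156) (nat_lit 152) (nat_lit 0) (XT.nd (nat_lit 78) (nat_lit 152) (nat_lit 0) (XT.lf (nat_lit 0) (nat_lit 14202048770) (nat_lit 228) (nat_lit 50323397730) (nat_lit 76) (nat_lit 31973576720) (nat_lit 42) (nat_lit 5) (nat_lit 45) (nat_lit 5) (nat_lit 43) (nat_lit 5) (nat_lit 343) (nat_lit 294) (nat_lit 143)) (XT.lf (nat_lit 0) (nat_lit 14705757294) (nat_lit 152) (nat_lit 26961632515) (nat_lit 228) (nat_lit 58447385004) (nat_lit 40) (nat_lit 5) (nat_lit 42) (nat_lit 5) (nat_lit 43) (nat_lit 5) (nat_lit 344) (nat_lit 294) (nat_lit 142))) (XT.nd (nat_lit 78) (nat_lit 152) (nat_lit 0) (XT.lf (nat_lit 0) (nat_lit 71146736288) (nat_lit 228) (nat_lit 19986946037) (nat_lit 76) (nat_lit 12758410652) (nat_lit 40) (nat_lit 5) (nat_lit 43) (nat_lit 5) (nat_lit 41) (nat_lit 5) (nat_lit 345) (nat_lit 294) (nat_lit 141)) (XT.lf (nat_lit 0) (nat_lit 49394092390)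 (nat_lit 152) (nat_lit 53450613628) (nat_lit 228) (nat_lit 4991232436) (nat_lit 38) (nat_lit 5) (nat_lit 40) (nat_lit 5) (nat_lit 41) (nat_lit 5) (nat_lit 346) (nat_lit 294) (nat_lit 140))))) (XT.nd (nat_lit 234) (nat_lit 304) (nat_lit 0) (XT.nd (nat_lit 78) (nat_lit 152) (nat_lit 0) (XT.lf (nat_lit 0) (nat_lit 10661098698) (nat_lit 152) (nat_lit 13326269322) (nat_lit 228) (nat_lit 87973403627) (nat_lit 35) (nat_lit 5) (nat_lit 37) (nat_lit 5) (nat_lit 38) (nat_lit 5) (nat_lit 347) (nat_lit 294) (nat_lit 139)) (XT.nd (nat_lit 78) (nat_lit 152) (nat_lit 0) (XT.lf (nat_lit 0) (nat_lit 55194905100) (nat_lit 228) (nat_lit 32170303463) (nat_lit 76) (nat_lit 28898659361) (nat_lit 35) (nat_lit 5) (nat_lit 38) (nat_lit 5) (nat_lit 36) (nat_lit 5) (nat_lit 348) (nat_lit 294) (nat_lit 138)) (XT.lf (nat_lit 0) (nat_lit 41079068027) (nat_lit 152) (nat_lit 47411062111) (nat_lit 228) (nat_lit 32276170454)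 (nat_lit 33) (nat_lit 5) (nat_lit 35) (nat_lit 5) (nat_lit 36) (nat_lit 5) (nat_lit 349) (nat_lit 294) (nat_lit 137)))) (XT.nd (nat_lit 156) (nat_lit 152) (nat_lit 0) (XT.nd (nat_lit 78) (nat_lit 152) (nat_lit 0) (XT.lf (nat_lit 0) (nat_lit 118659713132) (nat_lit 152) (nat_lit 5119562270) (nat_lit 228) (nat_lit 1704705591) (nat_lit 33) (nat_lit 5) (nat_lit 35) (nat_lit 5) (nat_lit 36) (nat_lit 5) (nat_lit 350) (nat_lit 294) (nat_lit 136)) (XT.lf (nat_lit 0) (nat_lit 30867798720) (nat_lit 152) (nat_lit 60028435139) (nat_lit 76) (nat_lit 39500579341) (nat_lit 31) (nat_lit 5) (nat_lit 33) (nat_lit 5) (nat_lit 32) (nat_lit 5) (nat_lit 351) (nat_lit 294) (nat_lit 135))) (XT.nd (nat_lit 78) (nat_lit 0) (nat_lit 0) (XT.lf (nat_lit 0) (nat_lit 16254409157) (nat_lit 152) (nat_lit 49056574057) (nat_lit 228) (nat_lit 70235478892) (nat_lit 29) (nat_lit 5) (nat_lit 31) (nat_lit 5) (nat_lit 32) (nat_lit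 5) (nat_lit 352) (nat_lit 294) (nat_lit 134)) (XT.lf (nat_lit 0) (nat_lit 97602625232) (nat_lit 152) (nat_lit 4489817969) (nat_lit 228) (nat_lit 38842667498) (nat_lit 29) (nat_lit 5) (nat_lit 31) (nat_lit 5) (nat_lit 32) (nat_lit 5) (nat_lit 353) (nat_lit 294) (nat_lit 133))))))) (XT.nd (nat_lit 36894) (nat_lit 0) (nat_lit 6612) (XT.nd (nat_lit 36348) (nat_lit 0) (nat_lit 12160) (XT.nd (nat_lit 36036) (nat_lit 0) (nat_lit 12920) (XT.nd (nat_lit 78) (nat_lit 228) (nat_lit 0) (XT.lf (nat_lit 0) (nat_lit 36732095015) (nat_lit 76) (nat_lit 104738887566) (nat_lit 152) (nat_lit 5099469641) (nat_lit 28) (nat_lit 5) (nat_lit 29) (nat_lit 5) (nat_lit 30) (nat_lit 4) (nat_lit 354) (nat_lit 294) (nat_lit 132)) (XT.nd (nat_lit 78) (nat_lit 152) (nat_lit 0) (XT.lf (nat_lit 0) (nat_lit 30233114263) (nat_lit 152) (nat_lit 31113068295) (nat_lit 76) (nat_lit 91117809401) (nat_lit 27) (nat_lit 5) (nat_lit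 29) (nat_lit 5) (nat_lit 28) (nat_lit 5) (nat_lit 355) (nat_lit 294) (nat_lit 131)) (XT.lf (nat_lit 0) (nat_lit 52518969928) (nat_lit 152) (nat_lit 15212086930) (nat_lit 228) (nat_lit 90904511910) (nat_lit 25) (nat_lit 5) (nat_lit 27) (nat_lit 5) (nat_lit 28) (nat_lit 5) (nat_lit 356) (nat_lit 294) (nat_lit 130)))) (XT.nd (nat_lit 156) (nat_lit 0) (nat_lit 76) (XT.nd (nat_lit 78) (nat_lit 0) (nat_lit 0) (XT.lf (nat_lit 0) (nat_lit 2575685850) (nat_lit 0) (nat_lit 2575685850) (nat_lit 1140) (nat_lit 6168583408) (nat_lit 195) (nat_lit 5) (nat_lit 195) (nat_lit 3) (nat_lit 210) (nat_lit 3) (nat_lit 295) (nat_lit 295) (nat_lit 190)) (XT.lf (nat_lit 0) (nat_lit 10878174993) (nat_lit 1140) (nat_lit 490459329) (nat_lit 1216) (nat_lit 11827500566) (nat_lit 195) (nat_lit 5) (nat_lit 210) (nat_lit 3) (nat_lit 211) (nat_lit 5) (nat_lit 296) (nat_lit 295) (nat_lit 189))) (XT.nd (nat_lit 78) (nat_lit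 0) (nat_lit 0) (XT.lf (nat_lit 0) (nat_lit 11748315989) (nat_lit 1140) (nat_lit 6188257750) (nat_lit 1216) (nat_lit 5835634102) (nat_lit 196) (nat_lit 5) (nat_lit 211) (nat_lit 5) (nat_lit 212) (nat_lit 5) (nat_lit 297) (nat_lit 295) (nat_lit 188)) (XT.lf (nat_lit 76) (nat_lit 12313718441) (nat_lit 0) (nat_lit 574196857) (nat_lit 1216) (nat_lit 11482405065) (nat_lit 197) (nat_lit 5) (nat_lit 196) (nat_lit 5) (nat_lit 212) (nat_lit 5) (nat_lit 298) (nat_lit 295) (nat_lit 187))))) (XT.nd (nat_lit 234) (nat_lit 912) (nat_lit 0) (XT.nd (nat_lit 78) (nat_lit 0) (nat_lit 76) (XT.lf (nat_lit 76) (nat_lit 6829218174) (nat_lit 0) (nat_lit 7543281514) (nat_lit 1216) (nat_lit 10617212441) (nat_lit 198) (nat_lit 5) (nat_lit 197) (nat_lit 5) (nat_lit 213) (nat_lit 5) (nat_lit 299) (nat_lit 295) (nat_lit 186)) (XT.nd (nat_lit 78) (nat_lit 0) (nat_lit 76) (XT.lf (nat_lit 76) (nat_lit 1180431369) (nat_lit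 0) (nat_lit 14985149922) (nat_lit 1216) (nat_lit 9467477270) (nat_lit 199) (nat_lit 5) (nat_lit 198) (nat_lit 5) (nat_lit 214) (nat_lit 5) (nat_lit 300) (nat_lit 295) (nat_lit 185)) (XT.lf (nat_lit 0) (nat_lit 18333424007) (nat_lit 1140) (nat_lit 4551597616) (nat_lit 1216) (nat_lit 3415009971) (nat_lit 199) (nat_lit 5) (nat_lit 214) (nat_lit 5) (nat_lit 215) (nat_lit 5) (nat_lit 301) (nat_lit 295) (nat_lit 184)))) (XT.nd (nat_lit 156) (nat_lit 1064) (nat_lit 0) (XT.nd (nat_lit 78) (nat_lit 0) (nat_lit 76) (XT.lf (nat_lit 76) (nat_lit 16508032736) (nat_lit 0) (nat_lit 4401391608) (nat_lit 1216) (nat_lit 6081947866) (nat_lit 200) (nat_lit 5) (nat_lit 199) (nat_lit 5) (nat_lit 215) (nat_lit 5) (nat_lit 302) (nat_lit 295) (nat_lit 183)) (XT.lf (nat_lit 76) (nat_lit 11063609339) (nat_lit 0) (nat_lit 12838807473) (nat_lit 1216) (nat_lit 3806228613) (nat_lit 201) (nat_lit 5) (nat_lit 200) (nat_lit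 5) (nat_lit 216) (nat_lit 5) (nat_lit 303) (nat_lit 295) (nat_lit 182))) (XT.nd (nat_lit 78) (nat_lit 1216) (nat_lit 0) (XT.lf (nat_lit 76) (nat_lit 5438962049) (nat_lit 0) (nat_lit 21865036437) (nat_lit 1216) (nat_lit 1150026419) (nat_lit 202) (nat_lit 5) (nat_lit 201) (nat_lit 5) (nat_lit 217) (nat_lit 5) (nat_lit 304) (nat_lit 295) (nat_lit 181)) (XT.lf (nat_lit 0) (nat_lit 1900591673) (nat_lit 1216) (nat_lit 411100147) (nat_lit 1292) (nat_lit 26915711217) (nat_lit 185) (nat_lit 5) (nat_lit 201) (nat_lit 5) (nat_lit 202) (nat_lit 5) (nat_lit 305) (nat_lit 295) (nat_lit 180)))))) (XT.nd (nat_lit 546) (nat_lit 2736) (nat_lit 0) (XT.nd (nat_lit 234) (nat_lit 1596) (nat_lit 0) (XT.nd (nat_lit 78) (nat_lit 1292) (nat_lit 0) (XT.lf (nat_lit 0) (nat_lit 5477568145) (nat_lit 1216) (nat_lit 6441952051) (nat_lit 76) (nat_lit 18107669437) (nat_lit 186) (nat_lit 5) (nat_lit 202) (nat_lit 5) (nat_lit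 187) (nat_lit 5) (nat_lit 306) (nat_lit 295) (nat_lit 179)) (XT.nd (nat_lit 78) (nat_lit 608) (nat_lit 0) (XT.lf (nat_lit 0) (nat_lit 9512951295) (nat_lit 760) (nat_lit 12697281544) (nat_lit 76) (nat_lit 8648355034) (nat_lit 177) (nat_lit 5) (nat_lit 187) (nat_lit 5) (nat_lit 178) (nat_lit 5) (nat_lit 307) (nat_lit 295) (nat_lit 178)) (XT.lf (nat_lit 0) (nat_lit 12515766528) (nat_lit 608) (nat_lit 1534004610) (nat_lit 684) (nat_lit 17672803480) (nat_lit 169) (nat_lit 5) (nat_lit 177) (nat_lit 5) (nat_lit 178) (nat_lit 5) (nat_lit 308) (nat_lit 295) (nat_lit 177)))) (XT.nd (nat_lit 156) (nat_lit 532) (nat_lit 0) (XT.nd (nat_lit 78) (nat_lit 532) (nat_lit 0) (XT.lf (nat_lit 0) (nat_lit 6554313117) (nat_lit 532) (nat_lit 12640464056) (nat_lit 608) (nat_lit 13423551380) (nat_lit 162) (nat_lit 5) (nat_lit 169) (nat_lit 5) (nat_lit 170) (nat_lit 5) (nat_lit 309) (nat_lit 295) (nat_lit 176)) (XT.lf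 (nat_lit 0) (nat_lit 347809643) (nat_lit 532) (nat_lit 24546540849) (nat_lit 608) (nat_lit 8655608000) (nat_lit 155) (nat_lit 5) (nat_lit 162) (nat_lit 5) (nat_lit 163) (nat_lit 5) (nat_lit 310) (nat_lit 295) (nat_lit 175))) (XT.nd (nat_lit 78) (nat_lit 532) (nat_lit 0) (XT.lf (nat_lit 0) (nat_lit 28487645316) (nat_lit 532) (nat_lit 2778866450) (nat_lit 608) (nat_lit 3250037330) (nat_lit 155) (nat_lit 5) (nat_lit 162) (nat_lit 5) (nat_lit 163) (nat_lit 5) (nat_lit 311) (nat_lit 295) (nat_lit 174)) (XT.lf (nat_lit 0) (nat_lit 2787434078) (nat_lit 532) (nat_lit 12799759845) (nat_lit 76) (nat_lit 19931313883) (nat_lit 148) (nat_lit 5) (nat_lit 155) (nat_lit 5) (nat_lit 149) (nat_lit 5) (nat_lit 312) (nat_lit 295) (nat_lit 173))))) (XT.nd (nat_lit 234) (nat_lit 1292) (nat_lit 0) (XT.nd (nat_lit 78) (nat_lit 912) (nat_lit 0) (XT.lf (nat_lit 0) (nat_lit 9376379094) (nat_lit 608) (nat_lit 19914581867)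 (nat_lit 76) (nat_lit 7269140215) (nat_lit 141) (nat_lit 5) (nat_lit 149) (nat_lit 5) (nat_lit 142) (nat_lit 5) (nat_lit 313) (nat_lit 295) (nat_lit 172)) (XT.nd (nat_lit 78) (nat_lit 456) (nat_lit 0) (XT.lf (nat_lit 0) (nat_lit 10214495281) (nat_lit 456) (nat_lit 6462585119) (nat_lit 532) (nat_lit 20965230789) (nat_lit 135) (nat_lit 5) (nat_lit 141) (nat_lit 5) (nat_lit 142) (nat_lit 5) (nat_lit 314) (nat_lit 295) (nat_lit 171)) (XT.lf (nat_lit 0) (nat_lit 3382488526) (nat_lit 456) (nat_lit 21362122034) (nat_lit 532) (nat_lit 14021973275) (nat_lit 129) (nat_lit 5) (nat_lit 135) (nat_lit 5) (nat_lit 136) (nat_lit 5) (nat_lit 315) (nat_lit 295) (nat_lit 170)))) (XT.nd (nat_lit 156) (nat_lit 836) (nat_lit 0) (XT.nd (nat_lit 78) (nat_lit 456) (nat_lit 0) (XT.lf (nat_lit 0) (nat_lit 33582360404) (nat_lit 532) (nat_lit 3729328761) (nat_lit 76) (nat_lit 2624381316) (nat_lit 129) (nat_lit 5) (nat_lit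 136) (nat_lit 5) (nat_lit 130) (nat_lit 5) (nat_lit 316) (nat_lit 295) (nat_lit 169)) (XT.lf (nat_lit 0) (nat_lit 2166929973) (nat_lit 456) (nat_lit 11301497671) (nat_lit 76) (nat_lit 27680056481) (nat_lit 123) (nat_lit 5) (nat_lit 129) (nat_lit 5) (nat_lit 124) (nat_lit 5) (nat_lit 317) (nat_lit 295) (nat_lit 168))) (XT.nd (nat_lit 78) (nat_lit 380) (nat_lit 0) (XT.lf (nat_lit 0) (nat_lit 11353621783) (nat_lit 532) (nat_lit 19386071758) (nat_lit 76) (nat_lit 11668799933) (nat_lit 117) (nat_lit 5) (nat_lit 124) (nat_lit 5) (nat_lit 118) (nat_lit 5) (nat_lit 318) (nat_lit 295) (nat_lit 167)) (XT.lf (nat_lit 0) (nat_lit 15734196606) (nat_lit 380) (nat_lit 5664910096) (nat_lit 456) (nat_lit 22320417580) (nat_lit 112) (nat_lit 5) (nat_lit 117) (nat_lit 5) (nat_lit 118) (nat_lit 5) (nat_lit 319) (nat_lit 295) (nat_lit 166))))))))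
noncomputable def xc103 : XT := (XT.nd (nat_lit 2184) (nat_lit 836) (nat_lit 0) (XT.nd (nat_lit 1092) (nat_lit 2052) (nat_lit 0) (XT.nd (nat_lit 546) (nat_lit 1444) (nat_lit 0) (XT.nd (nat_lit 234) (nat_lit 1368) (nat_lit 0) (XT.nd (nat_lit 78) (nat_lit 380) (nat_lit 0) (XT.lf (nat_lit 0) (nat_lit 7872082478) (nat_lit 380) (nat_lit 24545581925) (nat_lit 456) (nat_lit 12664322797) (nat_lit 107) (nat_lit 5) (nat_lit 112) (nat_lit 5) (nat_lit 113) (nat_lit 5) (nat_lit 320) (nat_lit 295) (nat_lit 165)) (XT.nd (nat_lit 78) (nat_lit 380) (nat_lit 0) (XT.lf (nat_lit 0) (nat_lit 44343480989) (nat_lit 456) (nat_lit 476225739) (nat_lit 76) (nat_lit 1682180915) (nat_lit 107) (nat_lit 5) (nat_lit 113) (nat_lit 5) (nat_lit 108) (nat_lit 5) (nat_lit 321) (nat_lit 295) (nat_lit 164)) (XT.lf (nat_lit 0) (nat_lit 9319826446) (nat_lit 380) (nat_lit 9472290936) (nat_lit 76) (nat_lit 29179506136) (nat_lit 102)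 (nat_lit 5) (nat_lit 107) (nat_lit 5) (nat_lit 103) (nat_lit 5) (nat_lit 322) (nat_lit 295) (nat_lit 163)))) (XT.nd (nat_lit 156) (nat_lit 684) (nat_lit 0) (XT.nd (nat_lit 78) (nat_lit 304) (nat_lit 0) (XT.lf (nat_lit 0) (nat_lit 21706435552) (nat_lit 456) (nat_lit 19104592326) (nat_lit 76) (nat_lit 8691807889) (nat_lit 97) (nat_lit 5) (nat_lit 103) (nat_lit 5) (nat_lit 98) (nat_lit 5) (nat_lit 323) (nat_lit 295) (nat_lit 162)) (XT.lf (nat_lit 0) (nat_lit 21577055742) (nat_lit 304) (nat_lit 13626498717) (nat_lit 380) (nat_lit 15892322401) (nat_lit 93) (nat_lit 5) (nat_lit 97) (nat_lit 5) (nat_lit 98) (nat_lit 5) (nat_lit 324) (nat_lit 295) (nat_lit 161))) (XT.nd (nat_lit 78) (nat_lit 380) (nat_lit 0) (XT.lf (nat_lit 0) (nat_lit 12012551336) (nat_lit 304) (nat_lit 37816214389) (nat_lit 380) (nat_lit 2926210632) (nat_lit 89) (nat_lit 5) (nat_lit 93) (nat_lit 5) (nat_lit 94) (nat_lit 5) (nat_lit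 325) (nat_lit 295) (nat_lit 160)) (XT.lf (nat_lit 0) (nat_lit 1530229488) (nat_lit 304) (nat_lit 9404397731) (nat_lit 380) (nat_lit 43545674968) (nat_lit 84) (nat_lit 5) (nat_lit 88) (nat_lit 5) (nat_lit 89) (nat_lit 5) (nat_lit 326) (nat_lit 295) (nat_lit 159))))) (XT.nd (nat_lit 234) (nat_lit 912) (nat_lit 0) (XT.nd (nat_lit 78) (nat_lit 532) (nat_lit 0) (XT.lf (nat_lit 0) (nat_lit 26044466940) (nat_lit 380) (nat_lit 9747173477) (nat_lit 76) (nat_lit 20480893393) (nat_lit 84) (nat_lit 5) (nat_lit 89) (nat_lit 5) (nat_lit 85) (nat_lit 5) (nat_lit 327) (nat_lit 295) (nat_lit 158)) (XT.nd (nat_lit 78) (nat_lit 228) (nat_lit 0) (XT.lf (nat_lit 0) (nat_lit 36222329443) (nat_lit 304) (nat_lit 6126761776) (nat_lit 380) (nat_lit 15792109908) (nat_lit 80) (nat_lit 5) (nat_lit 84) (nat_lit 5) (nat_lit 85) (nat_lit 5) (nat_lit 328) (nat_lit 295) (nat_lit 157)) (XT.lf (nat_lit 0) (nat_lit 24831347754)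 (nat_lit 228) (nat_lit 35214441795) (nat_lit 304) (nat_lit 40209721) (nat_lit 77) (nat_lit 5) (nat_lit 80) (nat_lit 5) (nat_lit 81) (nat_lit 5) (nat_lit 329) (nat_lit 295) (nat_lit 156)))) (XT.nd (nat_lit 156) (nat_lit 532) (nat_lit 0) (XT.nd (nat_lit 78) (nat_lit 0) (nat_lit 0) (XT.lf (nat_lit 0) (nat_lit 12267243523) (nat_lit 304) (nat_lit 4314094222) (nat_lit 380) (nat_lit 45529823698) (nat_lit 72) (nat_lit 5) (nat_lit 76) (nat_lit 5) (nat_lit 77) (nat_lit 5) (nat_lit 330) (nat_lit 295) (nat_lit 155)) (XT.lf (nat_lit 0) (nat_lit 34666553212) (nat_lit 380) (nat_lit 1604405775) (nat_lit 76) (nat_lit 27947610548) (nat_lit 72) (nat_lit 5) (nat_lit 77) (nat_lit 5) (nat_lit 73) (nat_lit 5) (nat_lit 331) (nat_lit 295) (nat_lit 154))) (XT.nd (nat_lit 78) (nat_lit 304) (nat_lit 0) (XT.lf (nat_lit 0) (nat_lit 49973706452) (nat_lit 228) (nat_lit 4202901901) (nat_lit 304) (nat_lit 12239124619) (nat_lit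 69) (nat_lit 5) (nat_lit 72) (nat_lit 5) (nat_lit 73) (nat_lit 5) (nat_lit 332) (nat_lit 295) (nat_lit 153)) (XT.lf (nat_lit 0) (nat_lit 6471207481) (nat_lit 304) (nat_lit 32913713867) (nat_lit 76) (nat_lit 29316691710) (nat_lit 65) (nat_lit 5) (nat_lit 69) (nat_lit 5) (nat_lit 66) (nat_lit 5) (nat_lit 333) (nat_lit 295) (nat_lit 152)))))) (XT.nd (nat_lit 546) (nat_lit 912) (nat_lit 0) (XT.nd (nat_lit 234) (nat_lit 684) (nat_lit 0) (XT.nd (nat_lit 78) (nat_lit 228) (nat_lit 0) (XT.lf (nat_lit 0) (nat_lit 20095851997) (nat_lit 228) (nat_lit 6173789813) (nat_lit 304) (nat_lit 44816340700) (nat_lit 62) (nat_lit 5) (nat_lit 65) (nat_lit 5) (nat_lit 66) (nat_lit 5) (nat_lit 334) (nat_lit 295) (nat_lit 151)) (XT.nd (nat_lit 78) (nat_lit 0) (nat_lit 0) (XT.lf (nat_lit 0) (nat_lit 2631624619) (nat_lit 228) (nat_lit 45066623657) (nat_lit 304) (nat_lit 25872116581) (nat_lit 59) (nat_lit 5) (nat_lit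 62) (nat_lit 5) (nat_lit 63) (nat_lit 5) (nat_lit 335) (nat_lit 295) (nat_lit 150)) (XT.lf (nat_lit 0) (nat_lit 59931793648) (nat_lit 228) (nat_lit 10850113918) (nat_lit 304) (nat_lit 5379551921) (nat_lit 59) (nat_lit 5) (nat_lit 62) (nat_lit 5) (nat_lit 63) (nat_lit 5) (nat_lit 336) (nat_lit 295) (nat_lit 149)))) (XT.nd (nat_lit 156) (nat_lit 228) (nat_lit 0) (XT.nd (nat_lit 78) (nat_lit 228) (nat_lit 0) (XT.lf (nat_lit 0) (nat_lit 16468936229) (nat_lit 228) (nat_lit 37239714122) (nat_lit 76) (nat_lit 25149420492) (nat_lit 56) (nat_lit 5) (nat_lit 59) (nat_lit 5) (nat_lit 57) (nat_lit 5) (nat_lit 337) (nat_lit 295) (nat_lit 148)) (XT.lf (nat_lit 0) (nat_lit 21258354015) (nat_lit 228) (nat_lit 18521069589) (nat_lit 304) (nat_lit 41894067930) (nat_lit 53) (nat_lit 5) (nat_lit 56) (nat_lit 5) (nat_lit 57) (nat_lit 5) (nat_lit 338) (nat_lit 295) (nat_lit 147))) (XT.nd (nat_lit 78) (nat_lit 228)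 (nat_lit 0) (XT.lf (nat_lit 0) (nat_lit 64816990132) (nat_lit 304) (nat_lit 1343953717) (nat_lit 76) (nat_lit 18451894312) (nat_lit 53) (nat_lit 5) (nat_lit 57) (nat_lit 5) (nat_lit 54) (nat_lit 5) (nat_lit 339) (nat_lit 295) (nat_lit 146)) (XT.lf (nat_lit 0) (nat_lit 4125881164) (nat_lit 228) (nat_lit 26022738750) (nat_lit 76) (nat_lit 57525998447) (nat_lit 50) (nat_lit 5) (nat_lit 53) (nat_lit 5) (nat_lit 51) (nat_lit 5) (nat_lit 340) (nat_lit 295) (nat_lit 145))))) (XT.nd (nat_lit 234) (nat_lit 532) (nat_lit 0) (XT.nd (nat_lit 78) (nat_lit 152) (nat_lit 0) (XT.lf (nat_lit 0) (nat_lit 29289004640) (nat_lit 304) (nat_lit 53488169097) (nat_lit 76) (nat_lit 8092793748) (nat_lit 47) (nat_lit 5) (nat_lit 51) (nat_lit 5) (nat_lit 48) (nat_lit 5) (nat_lit 341) (nat_lit 295) (nat_lit 144)) (XT.nd (nat_lit 78) (nat_lit 0) (nat_lit 0) (XT.lf (nat_lit 0) (nat_lit 10170786455) (nat_lit 152) (nat_lit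 46209638825) (nat_lit 228) (nat_lit 37824555851) (nat_lit 45) (nat_lit 5) (nat_lit 47) (nat_lit 5) (nat_lit 48) (nat_lit 5) (nat_lit 342) (nat_lit 295) (nat_lit 143)) (XT.lf (nat_lit 0) (nat_lit 78126505120) (nat_lit 152) (nat_lit 7248147004) (nat_lit 228) (nat_lit 12315647513) (nat_lit 45) (nat_lit 5) (nat_lit 47) (nat_lit 5) (nat_lit 48) (nat_lit 5) (nat_lit 343) (nat_lit 295) (nat_lit 142)))) (XT.nd (nat_lit 156) (nat_lit 152) (nat_lit 0) (XT.nd (nat_lit 78) (nat_lit 152) (nat_lit 0) (XT.lf (nat_lit 0) (nat_lit 14984139115) (nat_lit 228) (nat_lit 52718967927) (nat_lit 76) (nat_lit 33618672624) (nat_lit 42) (nat_lit 5) (nat_lit 45) (nat_lit 5) (nat_lit 43) (nat_lit 5) (nat_lit 344) (nat_lit 295) (nat_lit 141)) (XT.lf (nat_lit 0) (nat_lit 15558187883) (nat_lit 152) (nat_lit 28262257376) (nat_lit 228) (nat_lit 61297944309) (nat_lit 40) (nat_lit 5) (nat_lit 42) (nat_lit 5) (nat_lit 43) (nat_lit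 5) (nat_lit 345) (nat_lit 295) (nat_lit 140))) (XT.nd (nat_lit 78) (nat_lit 152) (nat_lit 0) (XT.lf (nat_lit 0) (nat_lit 74770875142) (nat_lit 228) (nat_lit 20873140456) (nat_lit 76) (nat_lit 13440646149) (nat_lit 40) (nat_lit 5) (nat_lit 43) (nat_lit 5) (nat_lit 41) (nat_lit 5) (nat_lit 346) (nat_lit 295) (nat_lit 139)) (XT.lf (nat_lit 0) (nat_lit 51973706388) (nat_lit 152) (nat_lit 56077912439) (nat_lit 228) (nat_lit 5174145924) (nat_lit 38) (nat_lit 5) (nat_lit 40) (nat_lit 5) (nat_lit 41) (nat_lit 5) (nat_lit 347) (nat_lit 295) (nat_lit 138))))))) (XT.nd (nat_lit 36972) (nat_lit 0) (nat_lit 8664) (XT.nd (nat_lit 546) (nat_lit 152) (nat_lit 0) (XT.nd (nat_lit 234) (nat_lit 304) (nat_lit 0) (XT.nd (nat_lit 78) (nat_lit 152) (nat_lit 0) (XT.lf (nat_lit 0) (nat_lit 11302204322) (nat_lit 152) (nat_lit 13947806548) (nat_lit 228) (nat_lit 92306873109) (nat_lit 35) (nat_lit 5) (nat_lit 37) (nat_lit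 5) (nat_lit 38) (nat_lit 5) (nat_lit 348) (nat_lit 295) (nat_lit 137)) (XT.nd (nat_lit 78) (nat_lit 152) (nat_lit 0) (XT.lf (nat_lit 0) (nat_lit 58015321655) (nat_lit 228) (nat_lit 33674488614) (nat_lit 76) (nat_lit 30385404229) (nat_lit 35) (nat_lit 5) (nat_lit 38) (nat_lit 5) (nat_lit 36) (nat_lit 5) (nat_lit 349) (nat_lit 295) (nat_lit 136)) (XT.lf (nat_lit 0) (nat_lit 43234360851) (nat_lit 152) (nat_lit 49739032120) (nat_lit 228) (nat_lit 33829434547) (nat_lit 33) (nat_lit 5) (nat_lit 35) (nat_lit 5) (nat_lit 36) (nat_lit 5) (nat_lit 350) (nat_lit 295) (nat_lit 135)))) (XT.nd (nat_lit 156) (nat_lit 152) (nat_lit 0) (XT.nd (nat_lit 78) (nat_lit 152) (nat_lit 0) (XT.lf (nat_lit 0) (nat_lit 124689212524) (nat_lit 152) (nat_lit 5334985053) (nat_lit 228) (nat_lit 1732279509) (nat_lit 33) (nat_lit 5) (nat_lit 35) (nat_lit 5) (nat_lit 36) (nat_lit 5) (nat_lit 351) (nat_lit 295) (nat_lit 134))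 (XT.lf (nat_lit 0) (nat_lit 32466330051) (nat_lit 152) (nat_lit 62933714433) (nat_lit 76) (nat_lit 41514932755) (nat_lit 31) (nat_lit 5) (nat_lit 33) (nat_lit 5) (nat_lit 32) (nat_lit 5) (nat_lit 352) (nat_lit 295) (nat_lit 133))) (XT.nd (nat_lit 78) (nat_lit 0) (nat_lit 0) (XT.lf (nat_lit 0) (nat_lit 17160516173) (nat_lit 152) (nat_lit 51469429506) (nat_lit 228) (nat_lit 73692215821) (nat_lit 29) (nat_lit 5) (nat_lit 31) (nat_lit 5) (nat_lit 32) (nat_lit 5) (nat_lit 353) (nat_lit 295) (nat_lit 132)) (XT.lf (nat_lit 0) (nat_lit 102571696073) (nat_lit 152) (nat_lit 4676239101) (nat_lit 228) (nat_lit 40732384667) (nat_lit 29) (nat_lit 5) (nat_lit 31) (nat_lit 5) (nat_lit 32) (nat_lit 5) (nat_lit 354) (nat_lit 295) (nat_lit 131))))) (XT.nd (nat_lit 36114) (nat_lit 0) (nat_lit 12768) (XT.nd (nat_lit 78) (nat_lit 76) (nat_lit 0) (XT.lf (nat_lit 0) (nat_lit 38656236516) (nat_lit 76) (nat_lit 109937932615)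 (nat_lit 152) (nat_lit 5303297247) (nat_lit 28) (nat_lit 5) (nat_lit 29) (nat_lit 5) (nat_lit 30) (nat_lit 4) (nat_lit 355) (nat_lit 295) (nat_lit 130)) (XT.nd (nat_lit 35958) (nat_lit 0) (nat_lit 12768) (XT.lf (nat_lit 0) (nat_lit 31792529820) (nat_lit 152) (nat_lit 32584384986) (nat_lit 76) (nat_lit 95708826080) (nat_lit 27) (nat_lit 5) (nat_lit 29) (nat_lit 5) (nat_lit 28) (nat_lit 5) (nat_lit 356) (nat_lit 295) (nat_lit 129)) (XT.lf (nat_lit 0) (nat_lit 2803847534) (nat_lit 0) (nat_lit 2803847534) (nat_lit 1140) (nat_lit 6272061661) (nat_lit 195) (nat_lit 5) (nat_lit 195) (nat_lit 3) (nat_lit 210) (nat_lit 3) (nat_lit 296) (nat_lit 296) (nat_lit 188)))) (XT.nd (nat_lit 156) (nat_lit 0) (nat_lit 76) (XT.nd (nat_lit 78) (nat_lit 0) (nat_lit 76) (XT.lf (nat_lit 0) (nat_lit 11798844705) (nat_lit 1140) (nat_lit 312070291) (nat_lit 1216) (nat_lit 12233279061) (nat_lit 195) (nat_lit 5) (nat_lit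 210) (nat_lit 3) (nat_lit 211) (nat_lit 5) (nat_lit 297) (nat_lit 296) (nat_lit 187)) (XT.lf (nat_lit 0) (nat_lit 12694873549) (nat_lit 1140) (nat_lit 6287757253) (nat_lit 1216) (nat_lit 5966989609) (nat_lit 196) (nat_lit 5) (nat_lit 211) (nat_lit 5) (nat_lit 212) (nat_lit 5) (nat_lit 298) (nat_lit 296) (nat_lit 186))) (XT.nd (nat_lit 78) (nat_lit 0) (nat_lit 76) (XT.lf (nat_lit 76) (nat_lit 13133300622) (nat_lit 0) (nat_lit 743010189) (nat_lit 1216) (nat_lit 11701802179) (nat_lit 197) (nat_lit 5) (nat_lit 196) (nat_lit 5) (nat_lit 212) (nat_lit 5) (nat_lit 299) (nat_lit 296) (nat_lit 185)) (XT.lf (nat_lit 76) (nat_lit 7380454860) (nat_lit 0) (nat_lit 8039022485) (nat_lit 1216) (nat_lit 10809485622) (nat_lit 198) (nat_lit 5) (nat_lit 197) (nat_lit 5) (nat_lit 213) (nat_lit 5) (nat_lit 300) (nat_lit 296) (nat_lit 184)))))) (XT.nd (nat_lit 546) (nat_lit 3344) (nat_lit 0) (XT.nd (nat_lit 234)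 (nat_lit 988) (nat_lit 0) (XT.nd (nat_lit 78) (nat_lit 0) (nat_lit 76) (XT.lf (nat_lit 76) (nat_lit 1454264086) (nat_lit 0) (nat_lit 15833292440) (nat_lit 1216) (nat_lit 9617378183) (nat_lit 199) (nat_lit 5) (nat_lit 198) (nat_lit 5) (nat_lit 214) (nat_lit 5) (nat_lit 301) (nat_lit 296) (nat_lit 183)) (XT.nd (nat_lit 78) (nat_lit 0) (nat_lit 0) (XT.lf (nat_lit 0) (nat_lit 19547948186) (nat_lit 1140) (nat_lit 4564378952) (nat_lit 1216) (nat_lit 3493421975) (nat_lit 199) (nat_lit 5) (nat_lit 214) (nat_lit 5) (nat_lit 215) (nat_lit 5) (nat_lit 302) (nat_lit 296) (nat_lit 182)) (XT.lf (nat_lit 76) (nat_lit 17542075760) (nat_lit 0) (nat_lit 4698494893) (nat_lit 1216) (nat_lit 6091468038) (nat_lit 200) (nat_lit 5) (nat_lit 199) (nat_lit 5) (nat_lit 215) (nat_lit 5) (nat_lit 303) (nat_lit 296) (nat_lit 181)))) (XT.nd (nat_lit 156) (nat_lit 1140) (nat_lit 0) (XT.nd (nat_lit 78) (nat_lit 0) (nat_lit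 76) (XT.lf (nat_lit 76) (nat_lit 11828816751) (nat_lit 0) (nat_lit 13542125317) (nat_lit 1216) (nat_lit 3714617423) (nat_lit 201) (nat_lit 5) (nat_lit 200) (nat_lit 5) (nat_lit 216) (nat_lit 5) (nat_lit 304) (nat_lit 296) (nat_lit 180)) (XT.lf (nat_lit 76) (nat_lit 5925706505) (nat_lit 0) (nat_lit 23005379914) (nat_lit 1216) (nat_lit 937482068) (nat_lit 202) (nat_lit 5) (nat_lit 201) (nat_lit 5) (nat_lit 217) (nat_lit 5) (nat_lit 305) (nat_lit 296) (nat_lit 179))) (XT.nd (nat_lit 78) (nat_lit 0) (nat_lit 76) (XT.lf (nat_lit 0) (nat_lit 2247788978) (nat_lit 1216) (nat_lit 221790228) (nat_lit 1292) (nat_lit 28211350613) (nat_lit 185) (nat_lit 5) (nat_lit 201) (nat_lit 5) (nat_lit 202) (nat_lit 5) (nat_lit 306) (nat_lit 296) (nat_lit 178)) (XT.lf (nat_lit 0) (nat_lit 5993197935) (nat_lit 1216) (nat_lit 6552303927) (nat_lit 76) (nat_lit 18975529628) (nat_lit 186) (nat_lit 5) (nat_lit 202) (nat_lit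 5) (nat_lit 187) (nat_lit 5) (nat_lit 307) (nat_lit 296) (nat_lit 177))))) (XT.nd (nat_lit 234) (nat_lit 1596) (nat_lit 0) (XT.nd (nat_lit 78) (nat_lit 1140) (nat_lit 0) (XT.lf (nat_lit 0) (nat_lit 10220560233) (nat_lit 760) (nat_lit 13118995466) (nat_lit 76) (nat_lit 9054750267) (nat_lit 177) (nat_lit 5) (nat_lit 187) (nat_lit 5) (nat_lit 178) (nat_lit 5) (nat_lit 308) (nat_lit 296) (nat_lit 176)) (XT.nd (nat_lit 78) (nat_lit 532) (nat_lit 0) (XT.lf (nat_lit 0) (nat_lit 13348595104) (nat_lit 608) (nat_lit 1626570383) (nat_lit 684) (nat_lit 18326610250) (nat_lit 169) (nat_lit 5) (nat_lit 177) (nat_lit 5) (nat_lit 178) (nat_lit 5) (nat_lit 309) (nat_lit 296) (nat_lit 175)) (XT.lf (nat_lit 0) (nat_lit 7090011427) (nat_lit 532) (nat_lit 13278649845) (nat_lit 608) (nat_lit 13873930363) (nat_lit 162) (nat_lit 5) (nat_lit 169) (nat_lit 5) (nat_lit 170) (nat_lit 5) (nat_lit 310) (nat_lit 296) (nat_lit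 174)))) (XT.nd (nat_lit 156) (nat_lit 1064) (nat_lit 0) (XT.nd (nat_lit 78) (nat_lit 0) (nat_lit 0) (XT.lf (nat_lit 0) (nat_lit 573741168) (nat_lit 532) (nat_lit 25771222902) (nat_lit 608) (nat_lit 8876097380) (nat_lit 155) (nat_lit 5) (nat_lit 162) (nat_lit 5) (nat_lit 163) (nat_lit 5) (nat_lit 311) (nat_lit 296) (nat_lit 173)) (XT.lf (nat_lit 0) (nat_lit 30110638099) (nat_lit 532) (nat_lit 2915290735) (nat_lit 608) (nat_lit 3210357272) (nat_lit 155) (nat_lit 5) (nat_lit 162) (nat_lit 5) (nat_lit 163) (nat_lit 5) (nat_lit 312) (nat_lit 296) (nat_lit 172))) (XT.nd (nat_lit 78) (nat_lit 532) (nat_lit 0) (XT.lf (nat_lit 0) (nat_lit 3117555861) (nat_lit 532) (nat_lit 13236949760) (nat_lit 76) (nat_lit 20934013025) (nat_lit 148) (nat_lit 5) (nat_lit 155) (nat_lit 5) (nat_lit 149) (nat_lit 5) (nat_lit 313) (nat_lit 296) (nat_lit 171)) (XT.lf (nat_lit 0) (nat_lit 10028887376) (nat_lit 608) (nat_lit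 20707765383) (nat_lit 76) (nat_lit 7645759893) (nat_lit 141) (nat_lit 5) (nat_lit 149) (nat_lit 5) (nat_lit 142) (nat_lit 5) (nat_lit 314) (nat_lit 296) (nat_lit 170))))))))
noncomputable def xc104 : XT := (XT.nd (nat_lit 2106) (nat_lit 1596) (nat_lit 0) (XT.nd (nat_lit 1014) (nat_lit 2584) (nat_lit 0) (XT.nd (nat_lit 468) (nat_lit 2128) (nat_lit 0) (XT.nd (nat_lit 234) (nat_lit 1292) (nat_lit 0) (XT.nd (nat_lit 78) (nat_lit 456) (nat_lit 0) (XT.lf (nat_lit 0) (nat_lit 10921959693) (nat_lit 456) (nat_lit 6765808124) (nat_lit 532) (nat_lit 21831179735) (nat_lit 135) (nat_lit 5) (nat_lit 141) (nat_lit 5) (nat_lit 142) (nat_lit 5) (nat_lit 315) (nat_lit 296) (nat_lit 169)) (XT.nd (nat_lit 78) (nat_lit 0) (nat_lit 0) (XT.lf (nat_lit 0) (nat_lit 3747849367) (nat_lit 456) (nat_lit 22404473064) (nat_lit 532) (nat_lit 14547310256) (nat_lit 129) (nat_lit 5) (nat_lit 135) (nat_lit 5) (nat_lit 136)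 (nat_lit 5) (nat_lit 316) (nat_lit 296) (nat_lit 168)) (XT.lf (nat_lit 0) (nat_lit 35424077393) (nat_lit 532) (nat_lit 3724110266) (nat_lit 76) (nat_lit 2779650379) (nat_lit 129) (nat_lit 5) (nat_lit 136) (nat_lit 5) (nat_lit 130) (nat_lit 5) (nat_lit 317) (nat_lit 296) (nat_lit 167)))) (XT.nd (nat_lit 78) (nat_lit 836) (nat_lit 0) (XT.lf (nat_lit 0) (nat_lit 2433620896) (nat_lit 456) (nat_lit 11677084775) (nat_lit 76) (nat_lit 29090306236) (nat_lit 123) (nat_lit 5) (nat_lit 129) (nat_lit 5) (nat_lit 124) (nat_lit 5) (nat_lit 318) (nat_lit 296) (nat_lit 166)) (XT.nd (nat_lit 78) (nat_lit 380) (nat_lit 0) (XT.lf (nat_lit 0) (nat_lit 12074178977) (nat_lit 532) (nat_lit 20166905487) (nat_lit 76) (nat_lit 12283108265) (nat_lit 117) (nat_lit 5) (nat_lit 124) (nat_lit 5) (nat_lit 118) (nat_lit 5) (nat_lit 319) (nat_lit 296) (nat_lit 165)) (XT.lf (nat_lit 0) (nat_lit 16703973845) (nat_lit 380) (nat_lit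 5912444238) (nat_lit 456) (nat_lit 23284529222) (nat_lit 112) (nat_lit 5) (nat_lit 117) (nat_lit 5) (nat_lit 118) (nat_lit 5) (nat_lit 320) (nat_lit 296) (nat_lit 164))))) (XT.nd (nat_lit 234) (nat_lit 1368) (nat_lit 0) (XT.nd (nat_lit 78) (nat_lit 380) (nat_lit 0) (XT.lf (nat_lit 0) (nat_lit 8447595656) (nat_lit 380) (nat_lit 25733366613) (nat_lit 456) (nat_lit 13150725652) (nat_lit 107) (nat_lit 5) (nat_lit 112) (nat_lit 5) (nat_lit 113) (nat_lit 5) (nat_lit 321) (nat_lit 296) (nat_lit 163)) (XT.nd (nat_lit 78) (nat_lit 380) (nat_lit 0) (XT.lf (nat_lit 0) (nat_lit 46696649600) (nat_lit 456) (nat_lit 322962694) (nat_lit 76) (nat_lit 1803169703) (nat_lit 107) (nat_lit 5) (nat_lit 113) (nat_lit 5) (nat_lit 108) (nat_lit 5) (nat_lit 322) (nat_lit 296) (nat_lit 162)) (XT.lf (nat_lit 0) (nat_lit 9918400720) (nat_lit 380) (nat_lit 9771157158) (nat_lit 76) (nat_lit 30676558195) (nat_lit 102) (nat_lit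 5) (nat_lit 107) (nat_lit 5) (nat_lit 103) (nat_lit 5) (nat_lit 323) (nat_lit 296) (nat_lit 161)))) (XT.nd (nat_lit 156) (nat_lit 684) (nat_lit 0) (XT.nd (nat_lit 78) (nat_lit 304) (nat_lit 0) (XT.lf (nat_lit 0) (nat_lit 22920060617) (nat_lit 456) (nat_lit 19886542042) (nat_lit 76) (nat_lit 9167419957) (nat_lit 97) (nat_lit 5) (nat_lit 103) (nat_lit 5) (nat_lit 98) (nat_lit 5) (nat_lit 324) (nat_lit 296) (nat_lit 160)) (XT.lf (nat_lit 0) (nat_lit 22824221395) (nat_lit 304) (nat_lit 14263322320) (nat_lit 380) (nat_lit 16559311841) (nat_lit 93) (nat_lit 5) (nat_lit 97) (nat_lit 5) (nat_lit 98) (nat_lit 5) (nat_lit 325) (nat_lit 296) (nat_lit 159))) (XT.nd (nat_lit 78) (nat_lit 380) (nat_lit 0) (XT.lf (nat_lit 0) (nat_lit 12779957389) (nat_lit 304) (nat_lit 39660172949) (nat_lit 380) (nat_lit 2948901047) (nat_lit 89) (nat_lit 5) (nat_lit 93) (nat_lit 5) (nat_lit 94) (nat_lit 5) (nat_lit 326)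 (nat_lit 296) (nat_lit 158)) (XT.lf (nat_lit 0) (nat_lit 1771172436) (nat_lit 304) (nat_lit 9827202801) (nat_lit 380) (nat_lit 45602342793) (nat_lit 84) (nat_lit 5) (nat_lit 88) (nat_lit 5) (nat_lit 89) (nat_lit 5) (nat_lit 327) (nat_lit 296) (nat_lit 157)))))) (XT.nd (nat_lit 546) (nat_lit 1140) (nat_lit 0) (XT.nd (nat_lit 234) (nat_lit 836) (nat_lit 0) (XT.nd (nat_lit 78) (nat_lit 608) (nat_lit 0) (XT.lf (nat_lit 0) (nat_lit 27458568799) (nat_lit 380) (nat_lit 10074936952) (nat_lit 76) (nat_lit 21549213856) (nat_lit 84) (nat_lit 5) (nat_lit 89) (nat_lit 5) (nat_lit 85) (nat_lit 5) (nat_lit 328) (nat_lit 296) (nat_lit 156)) (XT.nd (nat_lit 78) (nat_lit 304) (nat_lit 0) (XT.lf (nat_lit 0) (nat_lit 38188466350) (nat_lit 304) (nat_lit 6386120544) (nat_lit 380) (nat_lit 16470352541) (nat_lit 80) (nat_lit 5) (nat_lit 84) (nat_lit 5) (nat_lit 85) (nat_lit 5) (nat_lit 329) (nat_lit 296) (nat_lit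 155)) (XT.lf (nat_lit 0) (nat_lit 64517098) (nat_lit 304) (nat_lit 36861431228) (nat_lit 76) (nat_lit 26161111233) (nat_lit 76) (nat_lit 5) (nat_lit 80) (nat_lit 5) (nat_lit 77) (nat_lit 5) (nat_lit 330) (nat_lit 296) (nat_lit 154)))) (XT.nd (nat_lit 156) (nat_lit 532) (nat_lit 0) (XT.nd (nat_lit 78) (nat_lit 0) (nat_lit 0) (XT.lf (nat_lit 0) (nat_lit 13031693992) (nat_lit 304) (nat_lit 4481032934) (nat_lit 380) (nat_lit 47700852019) (nat_lit 72) (nat_lit 5) (nat_lit 76) (nat_lit 5) (nat_lit 77) (nat_lit 5) (nat_lit 331) (nat_lit 296) (nat_lit 153)) (XT.lf (nat_lit 0) (nat_lit 36497777123) (nat_lit 380) (nat_lit 1538187878) (nat_lit 76) (nat_lit 29390528598) (nat_lit 72) (nat_lit 5) (nat_lit 77) (nat_lit 5) (nat_lit 73) (nat_lit 5) (nat_lit 332) (nat_lit 296) (nat_lit 152))) (XT.nd (nat_lit 78) (nat_lit 304) (nat_lit 0) (XT.lf (nat_lit 0) (nat_lit 52614632339) (nat_lit 228) (nat_lit 4365408258)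 (nat_lit 304) (nat_lit 12753576658) (nat_lit 69) (nat_lit 5) (nat_lit 72) (nat_lit 5) (nat_lit 73) (nat_lit 5) (nat_lit 333) (nat_lit 296) (nat_lit 151)) (XT.lf (nat_lit 0) (nat_lit 6887621688) (nat_lit 304) (nat_lit 34416954494) (nat_lit 76) (nat_lit 30829272450) (nat_lit 65) (nat_lit 5) (nat_lit 69) (nat_lit 5) (nat_lit 66) (nat_lit 5) (nat_lit 334) (nat_lit 296) (nat_lit 150))))) (XT.nd (nat_lit 234) (nat_lit 684) (nat_lit 0) (XT.nd (nat_lit 78) (nat_lit 228) (nat_lit 0) (XT.lf (nat_lit 0) (nat_lit 21239006504) (nat_lit 228) (nat_lit 6433879638) (nat_lit 304) (nat_lit 46964645995) (nat_lit 62) (nat_lit 5) (nat_lit 65) (nat_lit 5) (nat_lit 66) (nat_lit 5) (nat_lit 335) (nat_lit 296) (nat_lit 149)) (XT.nd (nat_lit 78) (nat_lit 0) (nat_lit 0) (XT.lf (nat_lit 0) (nat_lit 2899818547) (nat_lit 228) (nat_lit 47270588120) (nat_lit 304) (nat_lit 27075805119) (nat_lit 59) (nat_lit 5) (nat_lit 62)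 (nat_lit 5) (nat_lit 63) (nat_lit 5) (nat_lit 336) (nat_lit 296) (nat_lit 148)) (XT.lf (nat_lit 0) (nat_lit 63058490661) (nat_lit 228) (nat_lit 11345603691) (nat_lit 304) (nat_lit 5562894001) (nat_lit 59) (nat_lit 5) (nat_lit 62) (nat_lit 5) (nat_lit 63) (nat_lit 5) (nat_lit 337) (nat_lit 296) (nat_lit 147)))) (XT.nd (nat_lit 156) (nat_lit 228) (nat_lit 0) (XT.nd (nat_lit 78) (nat_lit 228) (nat_lit 0) (XT.lf (nat_lit 0) (nat_lit 17374030454) (nat_lit 228) (nat_lit 38971617367) (nat_lit 76) (nat_lit 26452829645) (nat_lit 56) (nat_lit 5) (nat_lit 59) (nat_lit 5) (nat_lit 57) (nat_lit 5) (nat_lit 338) (nat_lit 296) (nat_lit 146)) (XT.lf (nat_lit 0) (nat_lit 22447625389) (nat_lit 228) (nat_lit 19399743425) (nat_lit 304) (nat_lit 43907382841) (nat_lit 53) (nat_lit 5) (nat_lit 56) (nat_lit 5) (nat_lit 57) (nat_lit 5) (nat_lit 339) (nat_lit 296) (nat_lit 145))) (XT.nd (nat_lit 78) (nat_lit 228)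 (nat_lit 0) (XT.lf (nat_lit 0) (nat_lit 68133486755) (nat_lit 304) (nat_lit 1288948845) (nat_lit 76) (nat_lit 19418731975) (nat_lit 53) (nat_lit 5) (nat_lit 57) (nat_lit 5) (nat_lit 54) (nat_lit 5) (nat_lit 340) (nat_lit 296) (nat_lit 144)) (XT.lf (nat_lit 0) (nat_lit 4406125949) (nat_lit 228) (nat_lit 27203664443) (nat_lit 76) (nat_lit 60446300530) (nat_lit 50) (nat_lit 5) (nat_lit 53) (nat_lit 5) (nat_lit 51) (nat_lit 5) (nat_lit 341) (nat_lit 296) (nat_lit 143))))))) (XT.nd (nat_lit 37128) (nat_lit 0) (nat_lit 10640) (XT.nd (nat_lit 546) (nat_lit 684) (nat_lit 0) (XT.nd (nat_lit 234) (nat_lit 532) (nat_lit 0) (XT.nd (nat_lit 78) (nat_lit 152) (nat_lit 0) (XT.lf (nat_lit 0) (nat_lit 30825441179) (nat_lit 304) (nat_lit 56044062273) (nat_lit 76) (nat_lit 8541764881) (nat_lit 47) (nat_lit 5) (nat_lit 51) (nat_lit 5) (nat_lit 48) (nat_lit 5) (nat_lit 342) (nat_lit 296) (nat_lit 142)) (XT.nd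 (nat_lit 78) (nat_lit 0) (nat_lit 0) (XT.lf (nat_lit 0) (nat_lit 10794443840) (nat_lit 152) (nat_lit 48474667677) (nat_lit 228) (nat_lit 39643992592) (nat_lit 45) (nat_lit 5) (nat_lit 47) (nat_lit 5) (nat_lit 48) (nat_lit 5) (nat_lit 343) (nat_lit 296) (nat_lit 141)) (XT.lf (nat_lit 0) (nat_lit 82142466626) (nat_lit 152) (nat_lit 7567265698) (nat_lit 228) (nat_lit 12863057458) (nat_lit 45) (nat_lit 5) (nat_lit 47) (nat_lit 5) (nat_lit 48) (nat_lit 5) (nat_lit 344) (nat_lit 296) (nat_lit 140)))) (XT.nd (nat_lit 156) (nat_lit 152) (nat_lit 0) (XT.nd (nat_lit 78) (nat_lit 152) (nat_lit 0) (XT.lf (nat_lit 0) (nat_lit 15798641224) (nat_lit 228) (nat_lit 55245528850) (nat_lit 76) (nat_lit 35341707905) (nat_lit 42) (nat_lit 5) (nat_lit 45) (nat_lit 5) (nat_lit 43) (nat_lit 5) (nat_lit 345) (nat_lit 296) (nat_lit 139)) (XT.lf (nat_lit 0) (nat_lit 16442349180) (nat_lit 152) (nat_lit 29632325560) (nat_lit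 228) (nat_lit 64297707788) (nat_lit 40) (nat_lit 5) (nat_lit 42) (nat_lit 5) (nat_lit 43) (nat_lit 5) (nat_lit 346) (nat_lit 296) (nat_lit 138))) (XT.nd (nat_lit 78) (nat_lit 152) (nat_lit 0) (XT.lf (nat_lit 0) (nat_lit 78570010318) (nat_lit 228) (nat_lit 21814164479) (nat_lit 76) (nat_lit 14152873436) (nat_lit 40) (nat_lit 5) (nat_lit 43) (nat_lit 5) (nat_lit 41) (nat_lit 5) (nat_lit 347) (nat_lit 296) (nat_lit 137)) (XT.lf (nat_lit 0) (nat_lit 54672082752) (nat_lit 152) (nat_lit 58840781420) (nat_lit 228) (nat_lit 5372401399) (nat_lit 38) (nat_lit 5) (nat_lit 40) (nat_lit 5) (nat_lit 41) (nat_lit 5) (nat_lit 348) (nat_lit 296) (nat_lit 136))))) (XT.nd (nat_lit 234) (nat_lit 304) (nat_lit 0) (XT.nd (nat_lit 78) (nat_lit 152) (nat_lit 0) (XT.lf (nat_lit 0) (nat_lit 11965319697) (nat_lit 152) (nat_lit 14604583505) (nat_lit 228) (nat_lit 96863077808) (nat_lit 35) (nat_lit 5) (nat_lit 37) (nat_lit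 5) (nat_lit 38) (nat_lit 5) (nat_lit 349) (nat_lit 296) (nat_lit 135)) (XT.nd (nat_lit 78) (nat_lit 152) (nat_lit 0) (XT.lf (nat_lit 0) (nat_lit 60971118394) (nat_lit 228) (nat_lit 35263582639) (nat_lit 76) (nat_lit 31942599066) (nat_lit 35) (nat_lit 5) (nat_lit 38) (nat_lit 5) (nat_lit 36) (nat_lit 5) (nat_lit 350) (nat_lit 296) (nat_lit 134)) (XT.lf (nat_lit 0) (nat_lit 45487996738) (nat_lit 152) (nat_lit 52187359602) (nat_lit 228) (nat_lit 35465990693) (nat_lit 33) (nat_lit 5) (nat_lit 35) (nat_lit 5) (nat_lit 36) (nat_lit 5) (nat_lit 351) (nat_lit 296) (nat_lit 133)))) (XT.nd (nat_lit 156) (nat_lit 152) (nat_lit 0) (XT.nd (nat_lit 78) (nat_lit 152) (nat_lit 0) (XT.lf (nat_lit 0) (nat_lit 131011213954) (nat_lit 152) (nat_lit 5564949426) (nat_lit 228) (nat_lit 1766592930) (nat_lit 33) (nat_lit 5) (nat_lit 35) (nat_lit 5) (nat_lit 36) (nat_lit 5) (nat_lit 352) (nat_lit 296) (nat_lit 132))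 (XT.lf (nat_lit 0) (nat_lit 34139661425) (nat_lit 152) (nat_lit 65993196107) (nat_lit 76) (nat_lit 43626347824) (nat_lit 31) (nat_lit 5) (nat_lit 33) (nat_lit 5) (nat_lit 32) (nat_lit 5) (nat_lit 353) (nat_lit 296) (nat_lit 131))) (XT.nd (nat_lit 78) (nat_lit 0) (nat_lit 0) (XT.lf (nat_lit 0) (nat_lit 18103246344) (nat_lit 152) (nat_lit 54006644060) (nat_lit 228) (nat_lit 77326906416) (nat_lit 29) (nat_lit 5) (nat_lit 31) (nat_lit 5) (nat_lit 32) (nat_lit 5) (nat_lit 354) (nat_lit 296) (nat_lit 130)) (XT.lf (nat_lit 0) (nat_lit 107780951697) (nat_lit 152) (nat_lit 4875520656) (nat_lit 228) (nat_lit 42721460856) (nat_lit 29) (nat_lit 5) (nat_lit 31) (nat_lit 5) (nat_lit 32) (nat_lit 5) (nat_lit 355) (nat_lit 296) (nat_lit 129)))))) (XT.nd (nat_lit 546) (nat_lit 1976) (nat_lit 0) (XT.nd (nat_lit 234) (nat_lit 0) (nat_lit 76) (XT.nd (nat_lit 78) (nat_lit 0) (nat_lit 0) (XT.lf (nat_lit 0) (nat_lit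 3034178133) (nat_lit 0) (nat_lit 3034178133) (nat_lit 1140) (nat_lit 6399768221) (nat_lit 195) (nat_lit 5) (nat_lit 195) (nat_lit 3) (nat_lit 210) (nat_lit 3) (nat_lit 297) (nat_lit 297) (nat_lit 186)) (XT.nd (nat_lit 78) (nat_lit 0) (nat_lit 76) (XT.lf (nat_lit 0) (nat_lit 12730520239) (nat_lit 1140) (nat_lit 143626636) (nat_lit 1216) (nat_lit 12676601488) (nat_lit 195) (nat_lit 5) (nat_lit 210) (nat_lit 3) (nat_lit 211) (nat_lit 5) (nat_lit 298) (nat_lit 297) (nat_lit 185)) (XT.lf (nat_lit 0) (nat_lit 13655369391) (nat_lit 1140) (nat_lit 6411747488) (nat_lit 1216) (nat_lit 6119827798) (nat_lit 196) (nat_lit 5) (nat_lit 211) (nat_lit 5) (nat_lit 212) (nat_lit 5) (nat_lit 299) (nat_lit 297) (nat_lit 184)))) (XT.nd (nat_lit 156) (nat_lit 0) (nat_lit 152) (XT.nd (nat_lit 78) (nat_lit 0) (nat_lit 76) (XT.lf (nat_lit 76) (nat_lit 13974905571) (nat_lit 0) (nat_lit 907238692) (nat_lit 1216) (nat_lit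 11965147944) (nat_lit 197) (nat_lit 5) (nat_lit 196) (nat_lit 5) (nat_lit 212) (nat_lit 5) (nat_lit 300) (nat_lit 297) (nat_lit 183)) (XT.lf (nat_lit 76) (nat_lit 7939750416) (nat_lit 0) (nat_lit 8548526348) (nat_lit 1216) (nat_lit 11042851113) (nat_lit 198) (nat_lit 5) (nat_lit 197) (nat_lit 5) (nat_lit 213) (nat_lit 5) (nat_lit 301) (nat_lit 297) (nat_lit 182))) (XT.nd (nat_lit 78) (nat_lit 0) (nat_lit 76) (XT.lf (nat_lit 76) (nat_lit 1721817335) (nat_lit 0) (nat_lit 16714648692) (nat_lit 1216) (nat_lit 9804847591) (nat_lit 199) (nat_lit 5) (nat_lit 198) (nat_lit 5) (nat_lit 214) (nat_lit 5) (nat_lit 302) (nat_lit 297) (nat_lit 181)) (XT.lf (nat_lit 0) (nat_lit 20795507027) (nat_lit 1140) (nat_lit 4597769288) (nat_lit 1216) (nat_lit 3584339338) (nat_lit 199) (nat_lit 5) (nat_lit 214) (nat_lit 5) (nat_lit 215) (nat_lit 5) (nat_lit 303) (nat_lit 297) (nat_lit 180))))) (XT.nd (nat_lit 234)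 (nat_lit 2280) (nat_lit 0) (XT.nd (nat_lit 78) (nat_lit 0) (nat_lit 76) (XT.lf (nat_lit 76) (nat_lit 18608423437) (nat_lit 0) (nat_lit 5003291479) (nat_lit 1216) (nat_lit 6128851216) (nat_lit 200) (nat_lit 5) (nat_lit 199) (nat_lit 5) (nat_lit 215) (nat_lit 5) (nat_lit 304) (nat_lit 297) (nat_lit 179)) (XT.nd (nat_lit 78) (nat_lit 0) (nat_lit 76) (XT.lf (nat_lit 76) (nat_lit 12612572278) (nat_lit 0) (nat_lit 14274902758) (nat_lit 1216) (nat_lit 3644636166) (nat_lit 201) (nat_lit 5) (nat_lit 200) (nat_lit 5) (nat_lit 216) (nat_lit 5) (nat_lit 305) (nat_lit 297) (nat_lit 178)) (XT.lf (nat_lit 76) (nat_lit 6416818455) (nat_lit 0) (nat_lit 24198362429) (nat_lit 1216) (nat_lit 739416787) (nat_lit 202) (nat_lit 5) (nat_lit 201) (nat_lit 5) (nat_lit 217) (nat_lit 5) (nat_lit 306) (nat_lit 297) (nat_lit 177)))) (XT.nd (nat_lit 156) (nat_lit 1216) (nat_lit 0) (XT.nd (nat_lit 78) (nat_lit 0) (nat_lit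 76) (XT.lf (nat_lit 0) (nat_lit 2588901984) (nat_lit 1216) (nat_lit 42526065) (nat_lit 1292) (nat_lit 29576434093) (nat_lit 185) (nat_lit 5) (nat_lit 201) (nat_lit 5) (nat_lit 202) (nat_lit 5) (nat_lit 307) (nat_lit 297) (nat_lit 176)) (XT.lf (nat_lit 0) (nat_lit 6512133462) (nat_lit 1216) (nat_lit 6687859507) (nat_lit 76) (nat_lit 19890271388) (nat_lit 186) (nat_lit 5) (nat_lit 202) (nat_lit 5) (nat_lit 187) (nat_lit 5) (nat_lit 308) (nat_lit 297) (nat_lit 175))) (XT.nd (nat_lit 78) (nat_lit 608) (nat_lit 0) (XT.lf (nat_lit 0) (nat_lit 10941984048) (nat_lit 760) (nat_lit 13581611764) (nat_lit 76) (nat_lit 9483884588) (nat_lit 177) (nat_lit 5) (nat_lit 187) (nat_lit 5) (nat_lit 178) (nat_lit 5) (nat_lit 309) (nat_lit 297) (nat_lit 174)) (XT.lf (nat_lit 0) (nat_lit 14203816469) (nat_lit 608) (nat_lit 1722289416) (nat_lit 684) (nat_lit 19034475090) (nat_lit 169) (nat_lit 5) (nat_lit 177) (nat_lit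 5) (nat_lit 178) (nat_lit 5) (nat_lit 310) (nat_lit 297) (nat_lit 173))))))))
noncomputable def xc105 : XT := (XT.nd (nat_lit 2184) (nat_lit 2280) (nat_lit 0) (XT.nd (nat_lit 1092) (nat_lit 3268) (nat_lit 0) (XT.nd (nat_lit 546) (nat_lit 2052) (nat_lit 0) (XT.nd (nat_lit 234) (nat_lit 1976) (nat_lit 0) (XT.nd (nat_lit 78) (nat_lit 532) (nat_lit 0) (XT.lf (nat_lit 0) (nat_lit 7633158396) (nat_lit 532) (nat_lit 13948171984) (nat_lit 608) (nat_lit 14367356055) (nat_lit 162) (nat_lit 5) (nat_lit 169) (nat_lit 5) (nat_lit 170) (nat_lit 5) (nat_lit 311) (nat_lit 297) (nat_lit 172)) (XT.nd (nat_lit 78) (nat_lit 0) (nat_lit 0) (XT.lf (nat_lit 0) (nat_lit 791581100) (nat_lit 532) (nat_lit 27057384964) (nat_lit 608) (nat_lit 9127348036) (nat_lit 155) (nat_lit 5) (nat_lit 162) (nat_lit 5) (nat_lit 163) (nat_lit 5) (nat_lit 312) (nat_lit 297) (nat_lit 171)) (XT.lf (nat_lit 0) (nat_lit 31796315597) (nat_lit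 532) (nat_lit 3058770431) (nat_lit 608) (nat_lit 3187490171) (nat_lit 155) (nat_lit 5) (nat_lit 162) (nat_lit 5) (nat_lit 163) (nat_lit 5) (nat_lit 313) (nat_lit 297) (nat_lit 170)))) (XT.nd (nat_lit 156) (nat_lit 912) (nat_lit 0) (XT.nd (nat_lit 78) (nat_lit 532) (nat_lit 0) (XT.lf (nat_lit 0) (nat_lit 3446449599) (nat_lit 532) (nat_lit 13714853413) (nat_lit 76) (nat_lit 21986276895) (nat_lit 148) (nat_lit 5) (nat_lit 155) (nat_lit 5) (nat_lit 149) (nat_lit 5) (nat_lit 314) (nat_lit 297) (nat_lit 169)) (XT.lf (nat_lit 0) (nat_lit 10696943380) (nat_lit 608) (nat_lit 21559438844) (nat_lit 76) (nat_lit 8039986814) (nat_lit 141) (nat_lit 5) (nat_lit 149) (nat_lit 5) (nat_lit 142) (nat_lit 5) (nat_lit 315) (nat_lit 297) (nat_lit 168))) (XT.nd (nat_lit 78) (nat_lit 456) (nat_lit 0) (XT.lf (nat_lit 0) (nat_lit 11646506339) (nat_lit 456) (nat_lit 7086042975) (nat_lit 532) (nat_lit 22757375825) (nat_lit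 135) (nat_lit 5) (nat_lit 141) (nat_lit 5) (nat_lit 142) (nat_lit 5) (nat_lit 316) (nat_lit 297) (nat_lit 167)) (XT.lf (nat_lit 0) (nat_lit 4113234048) (nat_lit 456) (nat_lit 23501336109) (nat_lit 532) (nat_lit 15115254742) (nat_lit 129) (nat_lit 5) (nat_lit 135) (nat_lit 5) (nat_lit 136) (nat_lit 5) (nat_lit 317) (nat_lit 297) (nat_lit 166))))) (XT.nd (nat_lit 234) (nat_lit 1140) (nat_lit 0) (XT.nd (nat_lit 78) (nat_lit 912) (nat_lit 0) (XT.lf (nat_lit 0) (nat_lit 37342763320) (nat_lit 532) (nat_lit 3736451894) (nat_lit 76) (nat_lit 2940446954) (nat_lit 129) (nat_lit 5) (nat_lit 136) (nat_lit 5) (nat_lit 130) (nat_lit 5) (nat_lit 318) (nat_lit 297) (nat_lit 165)) (XT.nd (nat_lit 78) (nat_lit 456) (nat_lit 0) (XT.lf (nat_lit 0) (nat_lit 2698925001) (nat_lit 456) (nat_lit 12089068012) (nat_lit 76) (nat_lit 30568628288) (nat_lit 123) (nat_lit 5) (nat_lit 129) (nat_lit 5) (nat_lit 124) (nat_lit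 5) (nat_lit 319) (nat_lit 297) (nat_lit 164)) (XT.lf (nat_lit 0) (nat_lit 12816551059) (nat_lit 532) (nat_lit 21004303043) (nat_lit 76) (nat_lit 12925262170) (nat_lit 117) (nat_lit 5) (nat_lit 124) (nat_lit 5) (nat_lit 118) (nat_lit 5) (nat_lit 320) (nat_lit 297) (nat_lit 163)))) (XT.nd (nat_lit 156) (nat_lit 380) (nat_lit 0) (XT.nd (nat_lit 78) (nat_lit 380) (nat_lit 0) (XT.lf (nat_lit 0) (nat_lit 17705220074) (nat_lit 380) (nat_lit 6175675192) (nat_lit 456) (nat_lit 24310969527) (nat_lit 112) (nat_lit 5) (nat_lit 117) (nat_lit 5) (nat_lit 118) (nat_lit 5) (nat_lit 321) (nat_lit 297) (nat_lit 162)) (XT.lf (nat_lit 0) (nat_lit 9034972312) (nat_lit 380) (nat_lit 26984212352) (nat_lit 456) (nat_lit 13675097958) (nat_lit 107) (nat_lit 5) (nat_lit 112) (nat_lit 5) (nat_lit 113) (nat_lit 5) (nat_lit 322) (nat_lit 297) (nat_lit 161))) (XT.nd (nat_lit 78) (nat_lit 380) (nat_lit 0) (XT.lf (nat_lit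 0) (nat_lit 49154833156) (nat_lit 456) (nat_lit 178499191) (nat_lit 76) (nat_lit 1926779202) (nat_lit 107) (nat_lit 5) (nat_lit 113) (nat_lit 5) (nat_lit 108) (nat_lit 5) (nat_lit 323) (nat_lit 297) (nat_lit 160)) (XT.lf (nat_lit 0) (nat_lit 10534577401) (nat_lit 380) (nat_lit 10101213134) (nat_lit 76) (nat_lit 32244922842) (nat_lit 102) (nat_lit 5) (nat_lit 107) (nat_lit 5) (nat_lit 103) (nat_lit 5) (nat_lit 324) (nat_lit 297) (nat_lit 159)))))) (XT.nd (nat_lit 546) (nat_lit 1292) (nat_lit 0) (XT.nd (nat_lit 234) (nat_lit 988) (nat_lit 0) (XT.nd (nat_lit 78) (nat_lit 608) (nat_lit 0) (XT.lf (nat_lit 0) (nat_lit 24182438512) (nat_lit 456) (nat_lit 20723699167) (nat_lit 76) (nat_lit 9662998821) (nat_lit 97) (nat_lit 5) (nat_lit 103) (nat_lit 5) (nat_lit 98) (nat_lit 5) (nat_lit 325) (nat_lit 297) (nat_lit 158)) (XT.nd (nat_lit 78) (nat_lit 304) (nat_lit 0) (XT.lf (nat_lit 0) (nat_lit 24118097196)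 (nat_lit 304) (nat_lit 14936124415) (nat_lit 380) (nat_lit 17271516272) (nat_lit 93) (nat_lit 5) (nat_lit 97) (nat_lit 5) (nat_lit 98) (nat_lit 5) (nat_lit 326) (nat_lit 297) (nat_lit 157)) (XT.lf (nat_lit 0) (nat_lit 13570228262) (nat_lit 304) (nat_lit 41600685306) (nat_lit 380) (nat_lit 2984219008) (nat_lit 89) (nat_lit 5) (nat_lit 93) (nat_lit 5) (nat_lit 94) (nat_lit 5) (nat_lit 327) (nat_lit 297) (nat_lit 156)))) (XT.nd (nat_lit 156) (nat_lit 608) (nat_lit 0) (XT.nd (nat_lit 78) (nat_lit 0) (nat_lit 0) (XT.lf (nat_lit 0) (nat_lit 2008875251) (nat_lit 304) (nat_lit 10275556305) (nat_lit 380) (nat_lit 47773057735) (nat_lit 84) (nat_lit 5) (nat_lit 88) (nat_lit 5) (nat_lit 89) (nat_lit 5) (nat_lit 328) (nat_lit 297) (nat_lit 155)) (XT.lf (nat_lit 0) (nat_lit 28932974348) (nat_lit 380) (nat_lit 10433926249) (nat_lit 76) (nat_lit 22666833998) (nat_lit 84) (nat_lit 5) (nat_lit 89) (nat_lit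 5) (nat_lit 85) (nat_lit 5) (nat_lit 329) (nat_lit 297) (nat_lit 154))) (XT.nd (nat_lit 78) (nat_lit 304) (nat_lit 0) (XT.lf (nat_lit 0) (nat_lit 40238497772) (nat_lit 304) (nat_lit 6662814943) (nat_lit 380) (nat_lit 17192860769) (nat_lit 80) (nat_lit 5) (nat_lit 84) (nat_lit 5) (nat_lit 85) (nat_lit 5) (nat_lit 330) (nat_lit 297) (nat_lit 153)) (XT.lf (nat_lit 0) (nat_lit 163809564) (nat_lit 304) (nat_lit 38563417059) (nat_lit 76) (nat_lit 27511236391) (nat_lit 76) (nat_lit 5) (nat_lit 80) (nat_lit 5) (nat_lit 77) (nat_lit 5) (nat_lit 331) (nat_lit 297) (nat_lit 152))))) (XT.nd (nat_lit 234) (nat_lit 760) (nat_lit 0) (XT.nd (nat_lit 78) (nat_lit 228) (nat_lit 0) (XT.lf (nat_lit 0) (nat_lit 13820320228) (nat_lit 304) (nat_lit 4660852382) (nat_lit 380) (nat_lit 49990236693) (nat_lit 72) (nat_lit 5) (nat_lit 76) (nat_lit 5) (nat_lit 77) (nat_lit 5) (nat_lit 332) (nat_lit 297) (nat_lit 151))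 (XT.nd (nat_lit 78) (nat_lit 228) (nat_lit 0) (XT.lf (nat_lit 0) (nat_lit 38411460764) (nat_lit 380) (nat_lit 1482273521) (nat_lit 76) (nat_lit 30901358904) (nat_lit 72) (nat_lit 5) (nat_lit 77) (nat_lit 5) (nat_lit 73) (nat_lit 5) (nat_lit 333) (nat_lit 297) (nat_lit 150)) (XT.lf (nat_lit 0) (nat_lit 55374380341) (nat_lit 228) (nat_lit 4540468932) (nat_lit 304) (nat_lit 13302816315) (nat_lit 69) (nat_lit 5) (nat_lit 72) (nat_lit 5) (nat_lit 73) (nat_lit 5) (nat_lit 334) (nat_lit 297) (nat_lit 149)))) (XT.nd (nat_lit 156) (nat_lit 228) (nat_lit 0) (XT.nd (nat_lit 78) (nat_lit 228) (nat_lit 0) (XT.lf (nat_lit 0) (nat_lit 7316223937) (nat_lit 304) (nat_lit 36008600345) (nat_lit 76) (nat_lit 32413136213) (nat_lit 65) (nat_lit 5) (nat_lit 69) (nat_lit 5) (nat_lit 66) (nat_lit 5) (nat_lit 335) (nat_lit 297) (nat_lit 148)) (XT.lf (nat_lit 0) (nat_lit 22426455158) (nat_lit 228) (nat_lit 6711492291)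 (nat_lit 304) (nat_lit 49228967419) (nat_lit 62) (nat_lit 5) (nat_lit 65) (nat_lit 5) (nat_lit 66) (nat_lit 5) (nat_lit 336) (nat_lit 297) (nat_lit 147))) (XT.nd (nat_lit 78) (nat_lit 0) (nat_lit 0) (XT.lf (nat_lit 0) (nat_lit 3168721218) (nat_lit 228) (nat_lit 49589340456) (nat_lit 304) (nat_lit 28348037740) (nat_lit 59) (nat_lit 5) (nat_lit 62) (nat_lit 5) (nat_lit 63) (nat_lit 5) (nat_lit 337) (nat_lit 297) (nat_lit 146)) (XT.lf (nat_lit 0) (nat_lit 66329426379) (nat_lit 228) (nat_lit 11870239046) (nat_lit 304) (nat_lit 5763364764) (nat_lit 59) (nat_lit 5) (nat_lit 62) (nat_lit 5) (nat_lit 63) (nat_lit 5) (nat_lit 338) (nat_lit 297) (nat_lit 145))))))) (XT.nd (nat_lit 1092) (nat_lit 304) (nat_lit 0) (XT.nd (nat_lit 546) (nat_lit 912) (nat_lit 0) (XT.nd (nat_lit 234) (nat_lit 608) (nat_lit 0) (XT.nd (nat_lit 78) (nat_lit 228) (nat_lit 0) (XT.lf (nat_lit 0) (nat_lit 18316788588) (nat_lit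 228) (nat_lit 40802209609) (nat_lit 76) (nat_lit 27817138364) (nat_lit 56) (nat_lit 5) (nat_lit 59) (nat_lit 5) (nat_lit 57) (nat_lit 5) (nat_lit 339) (nat_lit 297) (nat_lit 144)) (XT.nd (nat_lit 78) (nat_lit 0) (nat_lit 0) (XT.lf (nat_lit 0) (nat_lit 23684613165) (nat_lit 228) (nat_lit 20326755864) (nat_lit 304) (nat_lit 46028930227) (nat_lit 53) (nat_lit 5) (nat_lit 56) (nat_lit 5) (nat_lit 57) (nat_lit 5) (nat_lit 340) (nat_lit 297) (nat_lit 143)) (XT.lf (nat_lit 0) (nat_lit 71608775258) (nat_lit 304) (nat_lit 1242554964) (nat_lit 76) (nat_lit 20429798232) (nat_lit 53) (nat_lit 5) (nat_lit 57) (nat_lit 5) (nat_lit 54) (nat_lit 5) (nat_lit 341) (nat_lit 297) (nat_lit 142)))) (XT.nd (nat_lit 156) (nat_lit 152) (nat_lit 0) (XT.nd (nat_lit 78) (nat_lit 228) (nat_lit 0) (XT.lf (nat_lit 0) (nat_lit 4693507737) (nat_lit 228) (nat_lit 28454812522) (nat_lit 76) (nat_lit 63508526815) (nat_lit 50)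 (nat_lit 5) (nat_lit 53) (nat_lit 5) (nat_lit 51) (nat_lit 5) (nat_lit 342) (nat_lit 297) (nat_lit 141)) (XT.lf (nat_lit 0) (nat_lit 32432006941) (nat_lit 304) (nat_lit 58738768535) (nat_lit 76) (nat_lit 9009063053) (nat_lit 47) (nat_lit 5) (nat_lit 51) (nat_lit 5) (nat_lit 48) (nat_lit 5) (nat_lit 343) (nat_lit 297) (nat_lit 140))) (XT.nd (nat_lit 78) (nat_lit 0) (nat_lit 0) (XT.lf (nat_lit 0) (nat_lit 11438581508) (nat_lit 152) (nat_lit 50857173769) (nat_lit 228) (nat_lit 41561075620) (nat_lit 45) (nat_lit 5) (nat_lit 47) (nat_lit 5) (nat_lit 48) (nat_lit 5) (nat_lit 344) (nat_lit 297) (nat_lit 139)) (XT.lf (nat_lit 0) (nat_lit 86349033267) (nat_lit 152) (nat_lit 7906364896) (nat_lit 228) (nat_lit 13444194521) (nat_lit 45) (nat_lit 5) (nat_lit 47) (nat_lit 5) (nat_lit 48) (nat_lit 5) (nat_lit 345) (nat_lit 297) (nat_lit 138))))) (XT.nd (nat_lit 234) (nat_lit 532) (nat_lit 0) (XT.nd (nat_lit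 78) (nat_lit 152) (nat_lit 0) (XT.lf (nat_lit 0) (nat_lit 16647797913) (nat_lit 228) (nat_lit 57908587629) (nat_lit 76) (nat_lit 37146980737) (nat_lit 42) (nat_lit 5) (nat_lit 45) (nat_lit 5) (nat_lit 43) (nat_lit 5) (nat_lit 346) (nat_lit 297) (nat_lit 137)) (XT.nd (nat_lit 78) (nat_lit 0) (nat_lit 0) (XT.lf (nat_lit 0) (nat_lit 17360840248) (nat_lit 152) (nat_lit 31074899039) (nat_lit 228) (nat_lit 67453514959) (nat_lit 40) (nat_lit 5) (nat_lit 42) (nat_lit 5) (nat_lit 43) (nat_lit 5) (nat_lit 347) (nat_lit 297) (nat_lit 136)) (XT.lf (nat_lit 0) (nat_lit 82553469037) (nat_lit 228) (nat_lit 22811781547) (nat_lit 76) (nat_lit 14896975138) (nat_lit 40) (nat_lit 5) (nat_lit 43) (nat_lit 5) (nat_lit 41) (nat_lit 5) (nat_lit 348) (nat_lit 297) (nat_lit 135)))) (XT.nd (nat_lit 156) (nat_lit 152) (nat_lit 0) (XT.nd (nat_lit 78) (nat_lit 228) (nat_lit 0) (XT.lf (nat_lit 0) (nat_lit 57496109607)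 (nat_lit 152) (nat_lit 61745608119) (nat_lit 228) (nat_lit 5586189885) (nat_lit 38) (nat_lit 5) (nat_lit 40) (nat_lit 5) (nat_lit 41) (nat_lit 5) (nat_lit 349) (nat_lit 297) (nat_lit 134)) (XT.lf (nat_lit 0) (nat_lit 12652479251) (nat_lit 152) (nat_lit 15297975156) (nat_lit 228) (nat_lit 101652590923) (nat_lit 35) (nat_lit 5) (nat_lit 37) (nat_lit 5) (nat_lit 38) (nat_lit 5) (nat_lit 350) (nat_lit 297) (nat_lit 133))) (XT.nd (nat_lit 78) (nat_lit 152) (nat_lit 0) (XT.lf (nat_lit 0) (nat_lit 64069588742) (nat_lit 228) (nat_lit 36940929204) (nat_lit 76) (nat_lit 33574127773) (nat_lit 35) (nat_lit 5) (nat_lit 38) (nat_lit 5) (nat_lit 36) (nat_lit 5) (nat_lit 351) (nat_lit 297) (nat_lit 132)) (XT.lf (nat_lit 0) (nat_lit 47845768769) (nat_lit 152) (nat_lit 54761694363) (nat_lit 228) (nat_lit 37189480176) (nat_lit 33) (nat_lit 5) (nat_lit 35) (nat_lit 5) (nat_lit 36) (nat_lit 5) (nat_lit 352) (nat_lit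 297) (nat_lit 131)))))) (XT.nd (nat_lit 36660) (nat_lit 0) (nat_lit 11856) (XT.nd (nat_lit 36348) (nat_lit 0) (nat_lit 12616) (XT.nd (nat_lit 78) (nat_lit 304) (nat_lit 0) (XT.lf (nat_lit 0) (nat_lit 137641176742) (nat_lit 152) (nat_lit 5809831926) (nat_lit 228) (nat_lit 1807484432) (nat_lit 33) (nat_lit 5) (nat_lit 35) (nat_lit 5) (nat_lit 36) (nat_lit 5) (nat_lit 353) (nat_lit 297) (nat_lit 130)) (XT.nd (nat_lit 78) (nat_lit 152) (nat_lit 0) (XT.lf (nat_lit 0) (nat_lit 35892009459) (nat_lit 152) (nat_lit 69213759270) (nat_lit 76) (nat_lit 45840017535) (nat_lit 31) (nat_lit 5) (nat_lit 33) (nat_lit 5) (nat_lit 32) (nat_lit 5) (nat_lit 354) (nat_lit 297) (nat_lit 129)) (XT.lf (nat_lit 0) (nat_lit 19085238014) (nat_lit 152) (nat_lit 56674090168) (nat_lit 228) (nat_lit 81147972647) (nat_lit 29) (nat_lit 5) (nat_lit 31) (nat_lit 5) (nat_lit 32) (nat_lit 5) (nat_lit 355) (nat_lit 297) (nat_lit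 128)))) (XT.nd (nat_lit 156) (nat_lit 0) (nat_lit 76) (XT.nd (nat_lit 78) (nat_lit 0) (nat_lit 0) (XT.lf (nat_lit 0) (nat_lit 3267645065) (nat_lit 0) (nat_lit 3267645065) (nat_lit 1140) (nat_lit 6551143005) (nat_lit 195) (nat_lit 5) (nat_lit 195) (nat_lit 3) (nat_lit 210) (nat_lit 3) (nat_lit 298) (nat_lit 298) (nat_lit 184)) (XT.lf (nat_lit 76) (nat_lit 16449224) (nat_lit 0) (nat_lit 13660717323) (nat_lit 1216) (nat_lit 13141449731) (nat_lit 196) (nat_lit 5) (nat_lit 195) (nat_lit 5) (nat_lit 211) (nat_lit 5) (nat_lit 299) (nat_lit 298) (nat_lit 183))) (XT.nd (nat_lit 78) (nat_lit 0) (nat_lit 0) (XT.lf (nat_lit 0) (nat_lit 14633604676) (nat_lit 1140) (nat_lit 6559638602) (nat_lit 1216) (nat_lit 6293836158) (nat_lit 196) (nat_lit 5) (nat_lit 211) (nat_lit 5) (nat_lit 212) (nat_lit 5) (nat_lit 300) (nat_lit 298) (nat_lit 182)) (XT.lf (nat_lit 76) (nat_lit 14841396807) (nat_lit 0) (nat_lit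 1067864114) (nat_lit 1216) (nat_lit 12271573736) (nat_lit 197) (nat_lit 5) (nat_lit 196) (nat_lit 5) (nat_lit 212) (nat_lit 5) (nat_lit 301) (nat_lit 298) (nat_lit 181))))) (XT.nd (nat_lit 234) (nat_lit 912) (nat_lit 0) (XT.nd (nat_lit 78) (nat_lit 0) (nat_lit 76) (XT.lf (nat_lit 76) (nat_lit 8509320988) (nat_lit 0) (nat_lit 9073506170) (nat_lit 1216) (nat_lit 11316436943) (nat_lit 198) (nat_lit 5) (nat_lit 197) (nat_lit 5) (nat_lit 213) (nat_lit 5) (nat_lit 302) (nat_lit 298) (nat_lit 180)) (XT.nd (nat_lit 78) (nat_lit 0) (nat_lit 76) (XT.lf (nat_lit 76) (nat_lit 1984633865) (nat_lit 0) (nat_lit 17631734078) (nat_lit 1216) (nat_lit 10028967974) (nat_lit 199) (nat_lit 5) (nat_lit 198) (nat_lit 5) (nat_lit 214) (nat_lit 5) (nat_lit 303) (nat_lit 298) (nat_lit 179)) (XT.lf (nat_lit 0) (nat_lit 22080326761) (nat_lit 1140) (nat_lit 4650942458) (nat_lit 1216) (nat_lit 3687589197) (nat_lit 199)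 (nat_lit 5) (nat_lit 214) (nat_lit 5) (nat_lit 215) (nat_lit 5) (nat_lit 304) (nat_lit 298) (nat_lit 178)))) (XT.nd (nat_lit 156) (nat_lit 1064) (nat_lit 0) (XT.nd (nat_lit 78) (nat_lit 0) (nat_lit 76) (XT.lf (nat_lit 76) (nat_lit 19710494395) (nat_lit 0) (nat_lit 5316831872) (nat_lit 1216) (nat_lit 6192944368) (nat_lit 200) (nat_lit 5) (nat_lit 199) (nat_lit 5) (nat_lit 215) (nat_lit 5) (nat_lit 305) (nat_lit 298) (nat_lit 177)) (XT.lf (nat_lit 76) (nat_lit 13417635984) (nat_lit 0) (nat_lit 15039143293) (nat_lit 1216) (nat_lit 3594929536) (nat_lit 201) (nat_lit 5) (nat_lit 200) (nat_lit 5) (nat_lit 216) (nat_lit 5) (nat_lit 306) (nat_lit 298) (nat_lit 176))) (XT.nd (nat_lit 78) (nat_lit 1216) (nat_lit 0) (XT.lf (nat_lit 76) (nat_lit 6914372870) (nat_lit 0) (nat_lit 25447022971) (nat_lit 1216) (nat_lit 554220385) (nat_lit 202) (nat_lit 5) (nat_lit 201) (nat_lit 5) (nat_lit 217) (nat_lit 5)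 (nat_lit 307) (nat_lit 298) (nat_lit 175)) (XT.lf (nat_lit 76) (nat_lit 130551555) (nat_lit 0) (nat_lit 2796509478) (nat_lit 1292) (nat_lit 30884703810) (nat_lit 186) (nat_lit 5) (nat_lit 185) (nat_lit 5) (nat_lit 202) (nat_lit 5) (nat_lit 308) (nat_lit 298) (nat_lit 174))))))))
noncomputable def xc106 : XT := (XT.nd (nat_lit 2106) (nat_lit 2888) (nat_lit 0) (XT.nd (nat_lit 1014) (nat_lit 3648) (nat_lit 0) (XT.nd (nat_lit 468) (nat_lit 2888) (nat_lit 0) (XT.nd (nat_lit 234) (nat_lit 1064) (nat_lit 0) (XT.nd (nat_lit 78) (nat_lit 1292) (nat_lit 0) (XT.lf (nat_lit 0) (nat_lit 7036629596) (nat_lit 1216) (nat_lit 6848048749) (nat_lit 76) (nat_lit 20853914461) (nat_lit 186) (nat_lit 5) (nat_lit 202) (nat_lit 5) (nat_lit 187) (nat_lit 5) (nat_lit 309) (nat_lit 298) (nat_lit 173)) (XT.nd (nat_lit 78) (nat_lit 608) (nat_lit 0) (XT.lf (nat_lit 0) (nat_lit 11679918447) (nat_lit 760) (nat_lit 14085333191)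 (nat_lit 76) (nat_lit 9936670026) (nat_lit 177) (nat_lit 5) (nat_lit 187) (nat_lit 5) (nat_lit 178) (nat_lit 5) (nat_lit 310) (nat_lit 298) (nat_lit 172)) (XT.lf (nat_lit 0) (nat_lit 15084339818) (nat_lit 608) (nat_lit 1821456507) (nat_lit 684) (nat_lit 19797114335) (nat_lit 169) (nat_lit 5) (nat_lit 177) (nat_lit 5) (nat_lit 178) (nat_lit 5) (nat_lit 311) (nat_lit 298) (nat_lit 171)))) (XT.nd (nat_lit 78) (nat_lit 532) (nat_lit 0) (XT.lf (nat_lit 0) (nat_lit 8185924160) (nat_lit 532) (nat_lit 14650650558) (nat_lit 608) (nat_lit 14904072315) (nat_lit 162) (nat_lit 5) (nat_lit 169) (nat_lit 5) (nat_lit 170) (nat_lit 5) (nat_lit 312) (nat_lit 298) (nat_lit 170)) (XT.nd (nat_lit 78) (nat_lit 0) (nat_lit 0) (XT.lf (nat_lit 0) (nat_lit 1002727387) (nat_lit 532) (nat_lit 28408078173) (nat_lit 608) (nat_lit 9409063090) (nat_lit 155) (nat_lit 5) (nat_lit 162) (nat_lit 5) (nat_lit 163) (nat_lit 5)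 (nat_lit 313) (nat_lit 298) (nat_lit 169)) (XT.lf (nat_lit 0) (nat_lit 33549528741) (nat_lit 532) (nat_lit 3209636534) (nat_lit 608) (nat_lit 3180529110) (nat_lit 155) (nat_lit 5) (nat_lit 162) (nat_lit 5) (nat_lit 163) (nat_lit 5) (nat_lit 314) (nat_lit 298) (nat_lit 168))))) (XT.nd (nat_lit 234) (nat_lit 1368) (nat_lit 0) (XT.nd (nat_lit 78) (nat_lit 988) (nat_lit 0) (XT.lf (nat_lit 0) (nat_lit 3775702641) (nat_lit 532) (nat_lit 14233753604) (nat_lit 76) (nat_lit 23090636742) (nat_lit 148) (nat_lit 5) (nat_lit 155) (nat_lit 5) (nat_lit 149) (nat_lit 5) (nat_lit 315) (nat_lit 298) (nat_lit 167)) (XT.nd (nat_lit 78) (nat_lit 456) (nat_lit 0) (XT.lf (nat_lit 0) (nat_lit 11382912213) (nat_lit 608) (nat_lit 22470776039) (nat_lit 76) (nat_lit 8452815114) (nat_lit 141) (nat_lit 5) (nat_lit 149) (nat_lit 5) (nat_lit 142) (nat_lit 5) (nat_lit 316) (nat_lit 298) (nat_lit 166)) (XT.lf (nat_lit 0)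 (nat_lit 12390689851) (nat_lit 456) (nat_lit 7423968202) (nat_lit 532) (nat_lit 23745255595) (nat_lit 135) (nat_lit 5) (nat_lit 141) (nat_lit 5) (nat_lit 142) (nat_lit 5) (nat_lit 317) (nat_lit 298) (nat_lit 165)))) (XT.nd (nat_lit 156) (nat_lit 912) (nat_lit 0) (XT.nd (nat_lit 78) (nat_lit 0) (nat_lit 0) (XT.lf (nat_lit 0) (nat_lit 4480339935) (nat_lit 456) (nat_lit 24655214153) (nat_lit 532) (nat_lit 15726417908) (nat_lit 129) (nat_lit 5) (nat_lit 135) (nat_lit 5) (nat_lit 136) (nat_lit 5) (nat_lit 318) (nat_lit 298) (nat_lit 164)) (XT.lf (nat_lit 0) (nat_lit 39343672060) (nat_lit 532) (nat_lit 3765574819) (nat_lit 76) (nat_lit 3107255294) (nat_lit 129) (nat_lit 5) (nat_lit 136) (nat_lit 5) (nat_lit 130) (nat_lit 5) (nat_lit 319) (nat_lit 298) (nat_lit 163))) (XT.nd (nat_lit 78) (nat_lit 456) (nat_lit 0) (XT.lf (nat_lit 0) (nat_lit 2964141601) (nat_lit 456) (nat_lit 12537629347) (nat_lit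 76) (nat_lit 32118653118) (nat_lit 123) (nat_lit 5) (nat_lit 129) (nat_lit 5) (nat_lit 124) (nat_lit 5) (nat_lit 320) (nat_lit 298) (nat_lit 162)) (XT.lf (nat_lit 0) (nat_lit 13583150161) (nat_lit 532) (nat_lit 21899463576) (nat_lit 76) (nat_lit 13596920735) (nat_lit 117) (nat_lit 5) (nat_lit 124) (nat_lit 5) (nat_lit 118) (nat_lit 5) (nat_lit 321) (nat_lit 298) (nat_lit 161)))))) (XT.nd (nat_lit 546) (nat_lit 1520) (nat_lit 0) (XT.nd (nat_lit 234) (nat_lit 1368) (nat_lit 0) (XT.nd (nat_lit 78) (nat_lit 380) (nat_lit 0) (XT.lf (nat_lit 0) (nat_lit 18741091087) (nat_lit 380) (nat_lit 6455079125) (nat_lit 456) (nat_lit 25401541898) (nat_lit 112) (nat_lit 5) (nat_lit 117) (nat_lit 5) (nat_lit 118) (nat_lit 5) (nat_lit 322) (nat_lit 298) (nat_lit 160)) (XT.nd (nat_lit 78) (nat_lit 0) (nat_lit 0) (XT.lf (nat_lit 0) (nat_lit 9636377956) (nat_lit 380) (nat_lit 28300930823) (nat_lit 456) (nat_lit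 14238069203) (nat_lit 107) (nat_lit 5) (nat_lit 112) (nat_lit 5) (nat_lit 113) (nat_lit 5) (nat_lit 323) (nat_lit 298) (nat_lit 159)) (XT.lf (nat_lit 0) (nat_lit 51724457877) (nat_lit 456) (nat_lit 41744660) (nat_lit 76) (nat_lit 2053459217) (nat_lit 107) (nat_lit 5) (nat_lit 113) (nat_lit 5) (nat_lit 108) (nat_lit 5) (nat_lit 324) (nat_lit 298) (nat_lit 158)))) (XT.nd (nat_lit 156) (nat_lit 608) (nat_lit 0) (XT.nd (nat_lit 78) (nat_lit 380) (nat_lit 0) (XT.lf (nat_lit 0) (nat_lit 11170382592) (nat_lit 380) (nat_lit 10462507912) (nat_lit 76) (nat_lit 33888494822) (nat_lit 102) (nat_lit 5) (nat_lit 107) (nat_lit 5) (nat_lit 103) (nat_lit 5) (nat_lit 325) (nat_lit 298) (nat_lit 157)) (XT.lf (nat_lit 0) (nat_lit 25497115869) (nat_lit 456) (nat_lit 21617326323) (nat_lit 76) (nat_lit 10179897394) (nat_lit 97) (nat_lit 5) (nat_lit 103) (nat_lit 5) (nat_lit 98) (nat_lit 5) (nat_lit 326) (nat_lit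 298) (nat_lit 156))) (XT.nd (nat_lit 78) (nat_lit 304) (nat_lit 0) (XT.lf (nat_lit 0) (nat_lit 25462473468) (nat_lit 304) (nat_lit 15646319279) (nat_lit 380) (nat_lit 18030093300) (nat_lit 93) (nat_lit 5) (nat_lit 97) (nat_lit 5) (nat_lit 98) (nat_lit 5) (nat_lit 327) (nat_lit 298) (nat_lit 155)) (XT.lf (nat_lit 0) (nat_lit 14385948748) (nat_lit 304) (nat_lit 43642174184) (nat_lit 380) (nat_lit 3031727383) (nat_lit 89) (nat_lit 5) (nat_lit 93) (nat_lit 5) (nat_lit 94) (nat_lit 5) (nat_lit 328) (nat_lit 298) (nat_lit 154))))) (XT.nd (nat_lit 234) (nat_lit 836) (nat_lit 0) (XT.nd (nat_lit 78) (nat_lit 304) (nat_lit 0) (XT.lf (nat_lit 0) (nat_lit 2244597194) (nat_lit 304) (nat_lit 10750325833) (nat_lit 380) (nat_lit 50062479603) (nat_lit 84) (nat_lit 5) (nat_lit 88) (nat_lit 5) (nat_lit 89) (nat_lit 5) (nat_lit 329) (nat_lit 298) (nat_lit 153)) (XT.nd (nat_lit 78) (nat_lit 304) (nat_lit 0) (XT.lf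 (nat_lit 0) (nat_lit 30471665794) (nat_lit 380) (nat_lit 10824323195) (nat_lit 76) (nat_lit 23836601502) (nat_lit 84) (nat_lit 5) (nat_lit 89) (nat_lit 5) (nat_lit 85) (nat_lit 5) (nat_lit 330) (nat_lit 298) (nat_lit 152)) (XT.lf (nat_lit 0) (nat_lit 42377958356) (nat_lit 304) (nat_lit 6957305687) (nat_lit 380) (nat_lit 17960885305) (nat_lit 80) (nat_lit 5) (nat_lit 84) (nat_lit 5) (nat_lit 85) (nat_lit 5) (nat_lit 331) (nat_lit 298) (nat_lit 151)))) (XT.nd (nat_lit 156) (nat_lit 228) (nat_lit 0) (XT.nd (nat_lit 78) (nat_lit 304) (nat_lit 0) (XT.lf (nat_lit 0) (nat_lit 259135289) (nat_lit 304) (nat_lit 40363618996) (nat_lit 76) (nat_lit 28924956575) (nat_lit 76) (nat_lit 5) (nat_lit 80) (nat_lit 5) (nat_lit 77) (nat_lit 5) (nat_lit 332) (nat_lit 298) (nat_lit 150)) (XT.lf (nat_lit 0) (nat_lit 14635636953) (nat_lit 304) (nat_lit 4853775092) (nat_lit 380) (nat_lit 52402983969) (nat_lit 72)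 (nat_lit 5) (nat_lit 76) (nat_lit 5) (nat_lit 77) (nat_lit 5) (nat_lit 333) (nat_lit 298) (nat_lit 149))) (XT.nd (nat_lit 78) (nat_lit 228) (nat_lit 0) (XT.lf (nat_lit 0) (nat_lit 40412573290) (nat_lit 380) (nat_lit 1435912140) (nat_lit 76) (nat_lit 32483890682) (nat_lit 72) (nat_lit 5) (nat_lit 77) (nat_lit 5) (nat_lit 73) (nat_lit 5) (nat_lit 334) (nat_lit 298) (nat_lit 148)) (XT.lf (nat_lit 0) (nat_lit 58260121022) (nat_lit 228) (nat_lit 4728299872) (nat_lit 304) (nat_lit 13887740191) (nat_lit 69) (nat_lit 5) (nat_lit 72) (nat_lit 5) (nat_lit 73) (nat_lit 5) (nat_lit 335) (nat_lit 298) (nat_lit 147))))))) (XT.nd (nat_lit 1092) (nat_lit 684) (nat_lit 0) (XT.nd (nat_lit 546) (nat_lit 988) (nat_lit 0) (XT.nd (nat_lit 234) (nat_lit 456) (nat_lit 0) (XT.nd (nat_lit 78) (nat_lit 456) (nat_lit 0) (XT.lf (nat_lit 0) (nat_lit 7758426212) (nat_lit 304) (nat_lit 37691840454) (nat_lit 76) (nat_lit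 34072251200) (nat_lit 65) (nat_lit 5) (nat_lit 69) (nat_lit 5) (nat_lit 66) (nat_lit 5) (nat_lit 336) (nat_lit 298) (nat_lit 146)) (XT.nd (nat_lit 78) (nat_lit 228) (nat_lit 0) (XT.lf (nat_lit 0) (nat_lit 23661608599) (nat_lit 228) (nat_lit 7007083840) (nat_lit 304) (nat_lit 51614306153) (nat_lit 62) (nat_lit 5) (nat_lit 65) (nat_lit 5) (nat_lit 66) (nat_lit 5) (nat_lit 337) (nat_lit 298) (nat_lit 145)) (XT.lf (nat_lit 0) (nat_lit 3439548883) (nat_lit 228) (nat_lit 52028193356) (nat_lit 304) (nat_lit 29691464449) (nat_lit 59) (nat_lit 5) (nat_lit 62) (nat_lit 5) (nat_lit 63) (nat_lit 5) (nat_lit 338) (nat_lit 298) (nat_lit 144)))) (XT.nd (nat_lit 156) (nat_lit 228) (nat_lit 0) (XT.nd (nat_lit 78) (nat_lit 228) (nat_lit 0) (XT.lf (nat_lit 0) (nat_lit 69752937321) (nat_lit 228) (nat_lit 12425070882) (nat_lit 304) (nat_lit 5981080451) (nat_lit 59) (nat_lit 5) (nat_lit 62) (nat_lit 5) (nat_lit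 63) (nat_lit 5) (nat_lit 339) (nat_lit 298) (nat_lit 143)) (XT.lf (nat_lit 0) (nat_lit 19299799548) (nat_lit 228) (nat_lit 42735300926) (nat_lit 76) (nat_lit 29245788695) (nat_lit 56) (nat_lit 5) (nat_lit 59) (nat_lit 5) (nat_lit 57) (nat_lit 5) (nat_lit 340) (nat_lit 298) (nat_lit 142))) (XT.nd (nat_lit 78) (nat_lit 0) (nat_lit 0) (XT.lf (nat_lit 0) (nat_lit 24972795303) (nat_lit 228) (nat_lit 21304114308) (nat_lit 304) (nat_lit 48263418230) (nat_lit 53) (nat_lit 5) (nat_lit 56) (nat_lit 5) (nat_lit 57) (nat_lit 5) (nat_lit 341) (nat_lit 298) (nat_lit 141)) (XT.lf (nat_lit 0) (nat_lit 75251449092) (nat_lit 304) (nat_lit 1204146365) (nat_lit 76) (nat_lit 21487686926) (nat_lit 53) (nat_lit 5) (nat_lit 57) (nat_lit 5) (nat_lit 54) (nat_lit 5) (nat_lit 342) (nat_lit 298) (nat_lit 140))))) (XT.nd (nat_lit 234) (nat_lit 380) (nat_lit 0) (XT.nd (nat_lit 78) (nat_lit 380) (nat_lit 0) (XT.lf (nat_lit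 0) (nat_lit 4989022571) (nat_lit 228) (nat_lit 29778655060) (nat_lit 76) (nat_lit 66720153843) (nat_lit 50) (nat_lit 5) (nat_lit 53) (nat_lit 5) (nat_lit 51) (nat_lit 5) (nat_lit 343) (nat_lit 298) (nat_lit 139)) (XT.nd (nat_lit 78) (nat_lit 152) (nat_lit 0) (XT.lf (nat_lit 0) (nat_lit 34112830601) (nat_lit 304) (nat_lit 61578204149) (nat_lit 76) (nat_lit 9495987795) (nat_lit 47) (nat_lit 5) (nat_lit 51) (nat_lit 5) (nat_lit 48) (nat_lit 5) (nat_lit 344) (nat_lit 298) (nat_lit 138)) (XT.lf (nat_lit 0) (nat_lit 12105218497) (nat_lit 152) (nat_lit 53362638089) (nat_lit 228) (nat_lit 43580066725) (nat_lit 45) (nat_lit 5) (nat_lit 47) (nat_lit 5) (nat_lit 48) (nat_lit 5) (nat_lit 345) (nat_lit 298) (nat_lit 137)))) (XT.nd (nat_lit 156) (nat_lit 152) (nat_lit 0) (XT.nd (nat_lit 78) (nat_lit 228) (nat_lit 0) (XT.lf (nat_lit 0) (nat_lit 90756682944) (nat_lit 152) (nat_lit 8266069456) (nat_lit 228)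 (nat_lit 14060154079) (nat_lit 45) (nat_lit 5) (nat_lit 47) (nat_lit 5) (nat_lit 48) (nat_lit 5) (nat_lit 346) (nat_lit 298) (nat_lit 136)) (XT.lf (nat_lit 0) (nat_lit 17533906293) (nat_lit 228) (nat_lit 60714023666) (nat_lit 76) (nat_lit 39038966904) (nat_lit 42) (nat_lit 5) (nat_lit 45) (nat_lit 5) (nat_lit 43) (nat_lit 5) (nat_lit 347) (nat_lit 298) (nat_lit 135))) (XT.nd (nat_lit 78) (nat_lit 0) (nat_lit 0) (XT.lf (nat_lit 0) (nat_lit 18316295964) (nat_lit 152) (nat_lit 32593231022) (nat_lit 228) (nat_lit 70772605021) (nat_lit 40) (nat_lit 5) (nat_lit 42) (nat_lit 5) (nat_lit 43) (nat_lit 5) (nat_lit 348) (nat_lit 298) (nat_lit 134)) (XT.lf (nat_lit 0) (nat_lit 86730991200) (nat_lit 228) (nat_lit 23867934202) (nat_lit 76) (nat_lit 15674892404) (nat_lit 40) (nat_lit 5) (nat_lit 43) (nat_lit 5) (nat_lit 41) (nat_lit 5) (nat_lit 349) (nat_lit 298) (nat_lit 133)))))) (XT.nd (nat_lit 36738)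 (nat_lit 0) (nat_lit 12464) (XT.nd (nat_lit 234) (nat_lit 304) (nat_lit 0) (XT.nd (nat_lit 78) (nat_lit 228) (nat_lit 0) (XT.lf (nat_lit 0) (nat_lit 60452931157) (nat_lit 152) (nat_lit 64799135806) (nat_lit 228) (nat_lit 5815765516) (nat_lit 38) (nat_lit 5) (nat_lit 40) (nat_lit 5) (nat_lit 41) (nat_lit 5) (nat_lit 350) (nat_lit 298) (nat_lit 132)) (XT.nd (nat_lit 78) (nat_lit 0) (nat_lit 0) (XT.lf (nat_lit 0) (nat_lit 13365732300) (nat_lit 152) (nat_lit 16029461193) (nat_lit 228) (nat_lit 106686566703) (nat_lit 35) (nat_lit 5) (nat_lit 37) (nat_lit 5) (nat_lit 38) (nat_lit 5) (nat_lit 351) (nat_lit 298) (nat_lit 131)) (XT.lf (nat_lit 0) (nat_lit 67318342036) (nat_lit 228) (nat_lit 38710122995) (nat_lit 76) (nat_lit 35284034846) (nat_lit 35) (nat_lit 5) (nat_lit 38) (nat_lit 5) (nat_lit 36) (nat_lit 5) (nat_lit 352) (nat_lit 298) (nat_lit 130)))) (XT.nd (nat_lit 156) (nat_lit 152) (nat_lit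 0) (XT.nd (nat_lit 78) (nat_lit 0) (nat_lit 0) (XT.lf (nat_lit 0) (nat_lit 50313678245) (nat_lit 152) (nat_lit 57468002919) (nat_lit 228) (nat_lit 39003774999) (nat_lit 33) (nat_lit 5) (nat_lit 35) (nat_lit 5) (nat_lit 36) (nat_lit 5) (nat_lit 353) (nat_lit 298) (nat_lit 129)) (XT.lf (nat_lit 0) (nat_lit 144595255615) (nat_lit 152) (nat_lit 6070060511) (nat_lit 228) (nat_lit 1854830858) (nat_lit 33) (nat_lit 5) (nat_lit 35) (nat_lit 5) (nat_lit 36) (nat_lit 5) (nat_lit 354) (nat_lit 298) (nat_lit 128))) (XT.nd (nat_lit 36270) (nat_lit 0) (nat_lit 12464) (XT.lf (nat_lit 0) (nat_lit 37727757290) (nat_lit 152) (nat_lit 72602704247) (nat_lit 76) (nat_lit 48161362919) (nat_lit 31) (nat_lit 5) (nat_lit 33) (nat_lit 5) (nat_lit 32) (nat_lit 5) (nat_lit 355) (nat_lit 298) (nat_lit 127)) (XT.lf (nat_lit 0) (nat_lit 3505184257) (nat_lit 0) (nat_lit 3505184257) (nat_lit 1140) (nat_lit 6725762626) (nat_lit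 195) (nat_lit 5) (nat_lit 195) (nat_lit 3) (nat_lit 210) (nat_lit 3) (nat_lit 299) (nat_lit 299) (nat_lit 182))))) (XT.nd (nat_lit 234) (nat_lit 0) (nat_lit 152) (XT.nd (nat_lit 78) (nat_lit 0) (nat_lit 76) (XT.lf (nat_lit 76) (nat_lit 171701224) (nat_lit 0) (nat_lit 14471952952) (nat_lit 1216) (nat_lit 13507082159) (nat_lit 196) (nat_lit 5) (nat_lit 195) (nat_lit 5) (nat_lit 211) (nat_lit 5) (nat_lit 300) (nat_lit 299) (nat_lit 181)) (XT.nd (nat_lit 78) (nat_lit 0) (nat_lit 0) (XT.lf (nat_lit 0) (nat_lit 15633282022) (nat_lit 1140) (nat_lit 6730979932) (nat_lit 1216) (nat_lit 6488815467) (nat_lit 196) (nat_lit 5) (nat_lit 211) (nat_lit 5) (nat_lit 212) (nat_lit 5) (nat_lit 301) (nat_lit 299) (nat_lit 180)) (XT.lf (nat_lit 76) (nat_lit 15735617175) (nat_lit 0) (nat_lit 1225804700) (nat_lit 1216) (nat_lit 12620452555) (nat_lit 197) (nat_lit 5) (nat_lit 196) (nat_lit 5) (nat_lit 212) (nat_lit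 5) (nat_lit 302) (nat_lit 299) (nat_lit 179)))) (XT.nd (nat_lit 156) (nat_lit 0) (nat_lit 152) (XT.nd (nat_lit 78) (nat_lit 0) (nat_lit 76) (XT.lf (nat_lit 76) (nat_lit 9091324952) (nat_lit 0) (nat_lit 9615665383) (nat_lit 1216) (nat_lit 11629599628) (nat_lit 198) (nat_lit 5) (nat_lit 197) (nat_lit 5) (nat_lit 213) (nat_lit 5) (nat_lit 303) (nat_lit 299) (nat_lit 178)) (XT.lf (nat_lit 76) (nat_lit 2244160945) (nat_lit 0) (nat_lit 18587110308) (nat_lit 1216) (nat_lit 10289035877) (nat_lit 199) (nat_lit 5) (nat_lit 198) (nat_lit 5) (nat_lit 214) (nat_lit 5) (nat_lit 304) (nat_lit 299) (nat_lit 177))) (XT.nd (nat_lit 78) (nat_lit 0) (nat_lit 0) (XT.lf (nat_lit 0) (nat_lit 23406605577) (nat_lit 1140) (nat_lit 4723203600) (nat_lit 1216) (nat_lit 3803064251) (nat_lit 199) (nat_lit 5) (nat_lit 214) (nat_lit 5) (nat_lit 215) (nat_lit 5) (nat_lit 305) (nat_lit 299) (nat_lit 176)) (XT.lf (nat_lit 76)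 (nat_lit 20851710530) (nat_lit 0) (nat_lit 5640157202) (nat_lit 1216) (nat_lit 6282773528) (nat_lit 200) (nat_lit 5) (nat_lit 199) (nat_lit 5) (nat_lit 215) (nat_lit 5) (nat_lit 306) (nat_lit 299) (nat_lit 175))))))))
noncomputable def xc107 : XT := (XT.nd (nat_lit 2184) (nat_lit 2964) (nat_lit 0) (XT.nd (nat_lit 1092) (nat_lit 4332) (nat_lit 0) (XT.nd (nat_lit 546) (nat_lit 2508) (nat_lit 0) (XT.nd (nat_lit 234) (nat_lit 1748) (nat_lit 0) (XT.nd (nat_lit 78) (nat_lit 1140) (nat_lit 0) (XT.lf (nat_lit 76) (nat_lit 14246735554) (nat_lit 0) (nat_lit 15836901271) (nat_lit 1216) (nat_lit 3564301012) (nat_lit 201) (nat_lit 5) (nat_lit 200) (nat_lit 5) (nat_lit 216) (nat_lit 5) (nat_lit 307) (nat_lit 299) (nat_lit 174)) (XT.nd (nat_lit 78) (nat_lit 1216) (nat_lit 0) (XT.lf (nat_lit 76) (nat_lit 7420375860) (nat_lit 0) (nat_lit 26754514638) (nat_lit 1216) (nat_lit 380419166) (nat_lit 202) (nat_lit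 5) (nat_lit 201) (nat_lit 5) (nat_lit 217) (nat_lit 5) (nat_lit 308) (nat_lit 299) (nat_lit 173)) (XT.lf (nat_lit 76) (nat_lit 296800307) (nat_lit 0) (nat_lit 2966320551) (nat_lit 1292) (nat_lit 32233333323) (nat_lit 186) (nat_lit 5) (nat_lit 185) (nat_lit 5) (nat_lit 202) (nat_lit 5) (nat_lit 309) (nat_lit 299) (nat_lit 172)))) (XT.nd (nat_lit 156) (nat_lit 1140) (nat_lit 0) (XT.nd (nat_lit 78) (nat_lit 684) (nat_lit 0) (XT.lf (nat_lit 0) (nat_lit 7568859680) (nat_lit 1216) (nat_lit 7032443266) (nat_lit 76) (nat_lit 21868609734) (nat_lit 186) (nat_lit 5) (nat_lit 202) (nat_lit 5) (nat_lit 187) (nat_lit 5) (nat_lit 310) (nat_lit 299) (nat_lit 171)) (XT.lf (nat_lit 0) (nat_lit 12437007517) (nat_lit 760) (nat_lit 14630543923) (nat_lit 76) (nat_lit 10414085123) (nat_lit 177) (nat_lit 5) (nat_lit 187) (nat_lit 5) (nat_lit 178) (nat_lit 5) (nat_lit 311) (nat_lit 299) (nat_lit 170))) (XT.nd (nat_lit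 78) (nat_lit 532) (nat_lit 0) (XT.lf (nat_lit 0) (nat_lit 15993053431) (nat_lit 608) (nat_lit 1924368444) (nat_lit 684) (nat_lit 20615464827) (nat_lit 169) (nat_lit 5) (nat_lit 177) (nat_lit 5) (nat_lit 178) (nat_lit 5) (nat_lit 312) (nat_lit 299) (nat_lit 169)) (XT.lf (nat_lit 0) (nat_lit 8750420226) (nat_lit 532) (nat_lit 15387781702) (nat_lit 608) (nat_lit 15484512626) (nat_lit 162) (nat_lit 5) (nat_lit 169) (nat_lit 5) (nat_lit 170) (nat_lit 5) (nat_lit 313) (nat_lit 299) (nat_lit 168))))) (XT.nd (nat_lit 234) (nat_lit 1444) (nat_lit 0) (XT.nd (nat_lit 78) (nat_lit 532) (nat_lit 0) (XT.lf (nat_lit 0) (nat_lit 1208480293) (nat_lit 532) (nat_lit 29826508350) (nat_lit 608) (nat_lit 9721101417) (nat_lit 155) (nat_lit 5) (nat_lit 162) (nat_lit 5) (nat_lit 163) (nat_lit 5) (nat_lit 314) (nat_lit 299) (nat_lit 167)) (XT.nd (nat_lit 78) (nat_lit 532) (nat_lit 0) (XT.lf (nat_lit 0) (nat_lit 35375211403)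 (nat_lit 532) (nat_lit 3368238617) (nat_lit 608) (nat_lit 3188684301) (nat_lit 155) (nat_lit 5) (nat_lit 162) (nat_lit 5) (nat_lit 163) (nat_lit 5) (nat_lit 315) (nat_lit 299) (nat_lit 166)) (XT.lf (nat_lit 0) (nat_lit 4106828419) (nat_lit 532) (nat_lit 14794110236) (nat_lit 76) (nat_lit 24249745453) (nat_lit 148) (nat_lit 5) (nat_lit 155) (nat_lit 5) (nat_lit 149) (nat_lit 5) (nat_lit 316) (nat_lit 299) (nat_lit 165)))) (XT.nd (nat_lit 156) (nat_lit 456) (nat_lit 0) (XT.nd (nat_lit 78) (nat_lit 456) (nat_lit 0) (XT.lf (nat_lit 0) (nat_lit 12089129628) (nat_lit 608) (nat_lit 23443172213) (nat_lit 76) (nat_lit 8885278054) (nat_lit 141) (nat_lit 5) (nat_lit 149) (nat_lit 5) (nat_lit 142) (nat_lit 5) (nat_lit 317) (nat_lit 299) (nat_lit 164)) (XT.lf (nat_lit 0) (nat_lit 13157034499) (nat_lit 456) (nat_lit 7780312262) (nat_lit 532) (nat_lit 24796473911) (nat_lit 135) (nat_lit 5) (nat_lit 141)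 (nat_lit 5) (nat_lit 142) (nat_lit 5) (nat_lit 318) (nat_lit 299) (nat_lit 163))) (XT.nd (nat_lit 78) (nat_lit 0) (nat_lit 0) (XT.lf (nat_lit 0) (nat_lit 4850791566) (nat_lit 456) (nat_lit 25868756030) (nat_lit 532) (nat_lit 16381582730) (nat_lit 129) (nat_lit 5) (nat_lit 135) (nat_lit 5) (nat_lit 136) (nat_lit 5) (nat_lit 319) (nat_lit 299) (nat_lit 162)) (XT.lf (nat_lit 0) (nat_lit 41432189517) (nat_lit 532) (nat_lit 3810815312) (nat_lit 76) (nat_lit 3280564537) (nat_lit 129) (nat_lit 5) (nat_lit 136) (nat_lit 5) (nat_lit 130) (nat_lit 5) (nat_lit 320) (nat_lit 299) (nat_lit 161)))))) (XT.nd (nat_lit 546) (nat_lit 1900) (nat_lit 0) (XT.nd (nat_lit 234) (nat_lit 1140) (nat_lit 0) (XT.nd (nat_lit 78) (nat_lit 836) (nat_lit 0) (XT.lf (nat_lit 0) (nat_lit 3230507729) (nat_lit 456) (nat_lit 13023112116) (nat_lit 76) (nat_lit 33744171637) (nat_lit 123) (nat_lit 5) (nat_lit 129) (nat_lit 5) (nat_lit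 124) (nat_lit 5) (nat_lit 321) (nat_lit 299) (nat_lit 160)) (XT.nd (nat_lit 78) (nat_lit 380) (nat_lit 0) (XT.lf (nat_lit 0) (nat_lit 14376386173) (nat_lit 532) (nat_lit 22853797644) (nat_lit 76) (nat_lit 14299801199) (nat_lit 117) (nat_lit 5) (nat_lit 124) (nat_lit 5) (nat_lit 118) (nat_lit 5) (nat_lit 322) (nat_lit 299) (nat_lit 159)) (XT.lf (nat_lit 0) (nat_lit 19814753361) (nat_lit 380) (nat_lit 6751184713) (nat_lit 456) (nat_lit 26558261982) (nat_lit 112) (nat_lit 5) (nat_lit 117) (nat_lit 5) (nat_lit 118) (nat_lit 5) (nat_lit 323) (nat_lit 299) (nat_lit 158)))) (XT.nd (nat_lit 156) (nat_lit 456) (nat_lit 0) (XT.nd (nat_lit 78) (nat_lit 304) (nat_lit 0) (XT.lf (nat_lit 0) (nat_lit 10253940190) (nat_lit 380) (nat_lit 29686506029) (nat_lit 456) (nat_lit 14840418330) (nat_lit 107) (nat_lit 5) (nat_lit 112) (nat_lit 5) (nat_lit 113) (nat_lit 5) (nat_lit 324) (nat_lit 299) (nat_lit 157))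 (XT.lf (nat_lit 0) (nat_lit 90061116) (nat_lit 304) (nat_lit 54322966613) (nat_lit 380) (nat_lit 2094457016) (nat_lit 103) (nat_lit 5) (nat_lit 107) (nat_lit 5) (nat_lit 108) (nat_lit 5) (nat_lit 325) (nat_lit 299) (nat_lit 156))) (XT.nd (nat_lit 78) (nat_lit 380) (nat_lit 0) (XT.lf (nat_lit 0) (nat_lit 11827837161) (nat_lit 380) (nat_lit 10855233417) (nat_lit 76) (nat_lit 35611333022) (nat_lit 102) (nat_lit 5) (nat_lit 107) (nat_lit 5) (nat_lit 103) (nat_lit 5) (nat_lit 326) (nat_lit 299) (nat_lit 155)) (XT.lf (nat_lit 0) (nat_lit 26867713552) (nat_lit 456) (nat_lit 22568888509) (nat_lit 76) (nat_lit 10719503268) (nat_lit 97) (nat_lit 5) (nat_lit 103) (nat_lit 5) (nat_lit 98) (nat_lit 5) (nat_lit 327) (nat_lit 299) (nat_lit 154))))) (XT.nd (nat_lit 234) (nat_lit 912) (nat_lit 0) (XT.nd (nat_lit 78) (nat_lit 684) (nat_lit 0) (XT.lf (nat_lit 0) (nat_lit 26861194794) (nat_lit 304) (nat_lit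 16395427663) (nat_lit 380) (nat_lit 18836360971) (nat_lit 93) (nat_lit 5) (nat_lit 97) (nat_lit 5) (nat_lit 98) (nat_lit 5) (nat_lit 328) (nat_lit 299) (nat_lit 153)) (XT.nd (nat_lit 78) (nat_lit 380) (nat_lit 0) (XT.lf (nat_lit 0) (nat_lit 15229698860) (nat_lit 304) (nat_lit 45789321091) (nat_lit 380) (nat_lit 3091066517) (nat_lit 89) (nat_lit 5) (nat_lit 93) (nat_lit 5) (nat_lit 94) (nat_lit 5) (nat_lit 329) (nat_lit 299) (nat_lit 152)) (XT.lf (nat_lit 0) (nat_lit 2479528351) (nat_lit 304) (nat_lit 11252460459) (nat_lit 380) (nat_lit 52475598124) (nat_lit 84) (nat_lit 5) (nat_lit 88) (nat_lit 5) (nat_lit 89) (nat_lit 5) (nat_lit 330) (nat_lit 299) (nat_lit 151)))) (XT.nd (nat_lit 156) (nat_lit 608) (nat_lit 0) (XT.nd (nat_lit 78) (nat_lit 304) (nat_lit 0) (XT.lf (nat_lit 0) (nat_lit 32078734552) (nat_lit 380) (nat_lit 11246446960) (nat_lit 76) (nat_lit 25061470856) (nat_lit 84) (nat_lit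 5) (nat_lit 89) (nat_lit 5) (nat_lit 85) (nat_lit 5) (nat_lit 331) (nat_lit 299) (nat_lit 150)) (XT.lf (nat_lit 0) (nat_lit 44612534909) (nat_lit 304) (nat_lit 7270114280) (nat_lit 380) (nat_lit 18775828888) (nat_lit 80) (nat_lit 5) (nat_lit 84) (nat_lit 5) (nat_lit 85) (nat_lit 5) (nat_lit 332) (nat_lit 299) (nat_lit 149))) (XT.nd (nat_lit 78) (nat_lit 304) (nat_lit 0) (XT.lf (nat_lit 0) (nat_lit 351126292) (nat_lit 304) (nat_lit 42265728366) (nat_lit 76) (nat_lit 30405815165) (nat_lit 76) (nat_lit 5) (nat_lit 80) (nat_lit 5) (nat_lit 77) (nat_lit 5) (nat_lit 333) (nat_lit 299) (nat_lit 148)) (XT.lf (nat_lit 0) (nat_lit 15480163211) (nat_lit 304) (nat_lit 5060073907) (nat_lit 380) (nat_lit 54944435154) (nat_lit 72) (nat_lit 5) (nat_lit 76) (nat_lit 5) (nat_lit 77) (nat_lit 5) (nat_lit 334) (nat_lit 299) (nat_lit 147))))))) (XT.nd (nat_lit 1092) (nat_lit 684) (nat_lit 0) (XT.nd (nat_lit 546)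 (nat_lit 1064) (nat_lit 0) (XT.nd (nat_lit 234) (nat_lit 684) (nat_lit 0) (XT.nd (nat_lit 78) (nat_lit 532) (nat_lit 0) (XT.lf (nat_lit 0) (nat_lit 42506253643) (nat_lit 380) (nat_lit 1398433318) (nat_lit 76) (nat_lit 34142066017) (nat_lit 72) (nat_lit 5) (nat_lit 77) (nat_lit 5) (nat_lit 73) (nat_lit 5) (nat_lit 335) (nat_lit 299) (nat_lit 146)) (XT.nd (nat_lit 78) (nat_lit 304) (nat_lit 0) (XT.lf (nat_lit 0) (nat_lit 61279269172) (nat_lit 228) (nat_lit 4929166107) (nat_lit 304) (nat_lit 14509368072) (nat_lit 69) (nat_lit 5) (nat_lit 72) (nat_lit 5) (nat_lit 73) (nat_lit 5) (nat_lit 336) (nat_lit 299) (nat_lit 145)) (XT.lf (nat_lit 0) (nat_lit 8215636483) (nat_lit 304) (nat_lit 39470137775) (nat_lit 76) (nat_lit 35810746461) (nat_lit 65) (nat_lit 5) (nat_lit 69) (nat_lit 5) (nat_lit 66) (nat_lit 5) (nat_lit 337) (nat_lit 299) (nat_lit 144)))) (XT.nd (nat_lit 156) (nat_lit 228) (nat_lit 0)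 (XT.nd (nat_lit 78) (nat_lit 228) (nat_lit 0) (XT.lf (nat_lit 0) (nat_lit 24947936814) (nat_lit 228) (nat_lit 7321172214) (nat_lit 304) (nat_lit 54125987775) (nat_lit 62) (nat_lit 5) (nat_lit 65) (nat_lit 5) (nat_lit 66) (nat_lit 5) (nat_lit 338) (nat_lit 299) (nat_lit 143)) (XT.lf (nat_lit 0) (nat_lit 3713468825) (nat_lit 228) (nat_lit 54592764818) (nat_lit 304) (nat_lit 31108940004) (nat_lit 59) (nat_lit 5) (nat_lit 62) (nat_lit 5) (nat_lit 63) (nat_lit 5) (nat_lit 339) (nat_lit 299) (nat_lit 142))) (XT.nd (nat_lit 78) (nat_lit 228) (nat_lit 0) (XT.lf (nat_lit 0) (nat_lit 73337672280) (nat_lit 228) (nat_lit 13011240420) (nat_lit 304) (nat_lit 6216231933) (nat_lit 59) (nat_lit 5) (nat_lit 62) (nat_lit 5) (nat_lit 63) (nat_lit 5) (nat_lit 340) (nat_lit 299) (nat_lit 141)) (XT.lf (nat_lit 0) (nat_lit 20325716083) (nat_lit 228) (nat_lit 44774996437) (nat_lit 76) (nat_lit 30742357869) (nat_lit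 56) (nat_lit 5) (nat_lit 59) (nat_lit 5) (nat_lit 57) (nat_lit 5) (nat_lit 341) (nat_lit 299) (nat_lit 140))))) (XT.nd (nat_lit 234) (nat_lit 608) (nat_lit 0) (XT.nd (nat_lit 78) (nat_lit 228) (nat_lit 0) (XT.lf (nat_lit 0) (nat_lit 26315722125) (nat_lit 228) (nat_lit 22333964605) (nat_lit 304) (nat_lit 50615855800) (nat_lit 53) (nat_lit 5) (nat_lit 56) (nat_lit 5) (nat_lit 57) (nat_lit 5) (nat_lit 342) (nat_lit 299) (nat_lit 139)) (XT.nd (nat_lit 78) (nat_lit 228) (nat_lit 0) (XT.lf (nat_lit 0) (nat_lit 79070470590) (nat_lit 304) (nat_lit 1173164253) (nat_lit 76) (nat_lit 22595086041) (nat_lit 53) (nat_lit 5) (nat_lit 57) (nat_lit 5) (nat_lit 54) (nat_lit 5) (nat_lit 343) (nat_lit 299) (nat_lit 138)) (XT.lf (nat_lit 0) (nat_lit 5293656871) (nat_lit 228) (nat_lit 31177884332) (nat_lit 76) (nat_lit 70088996625) (nat_lit 50) (nat_lit 5) (nat_lit 53) (nat_lit 5) (nat_lit 51) (nat_lit 5) (nat_lit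 344) (nat_lit 299) (nat_lit 137)))) (XT.nd (nat_lit 156) (nat_lit 228) (nat_lit 0) (XT.nd (nat_lit 78) (nat_lit 152) (nat_lit 0) (XT.lf (nat_lit 0) (nat_lit 35872189422) (nat_lit 304) (nat_lit 64568676431) (nat_lit 76) (nat_lit 10003867992) (nat_lit 47) (nat_lit 5) (nat_lit 51) (nat_lit 5) (nat_lit 48) (nat_lit 5) (nat_lit 345) (nat_lit 299) (nat_lit 136)) (XT.lf (nat_lit 0) (nat_lit 12796382292) (nat_lit 152) (nat_lit 55996852198) (nat_lit 228) (nat_lit 45705498473) (nat_lit 45) (nat_lit 5) (nat_lit 47) (nat_lit 5) (nat_lit 48) (nat_lit 5) (nat_lit 346) (nat_lit 299) (nat_lit 135))) (XT.nd (nat_lit 78) (nat_lit 228) (nat_lit 0) (XT.lf (nat_lit 0) (nat_lit 95376329349) (nat_lit 152) (nat_lit 8647070267) (nat_lit 228) (nat_lit 14712141223) (nat_lit 45) (nat_lit 5) (nat_lit 47) (nat_lit 5) (nat_lit 48) (nat_lit 5) (nat_lit 347) (nat_lit 299) (nat_lit 134)) (XT.lf (nat_lit 0) (nat_lit 18459325856)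 (nat_lit 228) (nat_lit 63668098232) (nat_lit 76) (nat_lit 41022332148) (nat_lit 42) (nat_lit 5) (nat_lit 45) (nat_lit 5) (nat_lit 43) (nat_lit 5) (nat_lit 348) (nat_lit 299) (nat_lit 133)))))) (XT.nd (nat_lit 36816) (nat_lit 0) (nat_lit 12312) (XT.nd (nat_lit 234) (nat_lit 380) (nat_lit 0) (XT.nd (nat_lit 78) (nat_lit 152) (nat_lit 0) (XT.lf (nat_lit 0) (nat_lit 19311397569) (nat_lit 152) (nat_lit 34190771967) (nat_lit 228) (nat_lit 74262631475) (nat_lit 40) (nat_lit 5) (nat_lit 42) (nat_lit 5) (nat_lit 43) (nat_lit 5) (nat_lit 349) (nat_lit 299) (nat_lit 132)) (XT.nd (nat_lit 78) (nat_lit 152) (nat_lit 0) (XT.lf (nat_lit 0) (nat_lit 91112755010) (nat_lit 228) (nat_lit 24984744587) (nat_lit 76) (nat_lit 16488631137) (nat_lit 40) (nat_lit 5) (nat_lit 43) (nat_lit 5) (nat_lit 41) (nat_lit 5) (nat_lit 350) (nat_lit 299) (nat_lit 131)) (XT.lf (nat_lit 0) (nat_lit 63549968708) (nat_lit 152) (nat_lit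 68008477886) (nat_lit 228) (nat_lit 6061443712) (nat_lit 38) (nat_lit 5) (nat_lit 40) (nat_lit 5) (nat_lit 41) (nat_lit 5) (nat_lit 351) (nat_lit 299) (nat_lit 130)))) (XT.nd (nat_lit 156) (nat_lit 152) (nat_lit 0) (XT.nd (nat_lit 78) (nat_lit 0) (nat_lit 0) (XT.lf (nat_lit 0) (nat_lit 14107151874) (nat_lit 152) (nat_lit 16800627931) (nat_lit 228) (nat_lit 111976764639) (nat_lit 35) (nat_lit 5) (nat_lit 37) (nat_lit 5) (nat_lit 38) (nat_lit 5) (nat_lit 352) (nat_lit 299) (nat_lit 129)) (XT.lf (nat_lit 0) (nat_lit 70725323862) (nat_lit 228) (nat_lit 40575014479) (nat_lit 76) (nat_lit 37076536528) (nat_lit 35) (nat_lit 5) (nat_lit 38) (nat_lit 5) (nat_lit 36) (nat_lit 5) (nat_lit 353) (nat_lit 299) (nat_lit 128))) (XT.nd (nat_lit 78) (nat_lit 0) (nat_lit 0) (XT.lf (nat_lit 0) (nat_lit 52897952668) (nat_lit 152) (nat_lit 60312581149) (nat_lit 228) (nat_lit 40912984896) (nat_lit 33) (nat_lit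 5) (nat_lit 35) (nat_lit 5) (nat_lit 36) (nat_lit 5) (nat_lit 354) (nat_lit 299) (nat_lit 127)) (XT.lf (nat_lit 0) (nat_lit 151890342691) (nat_lit 152) (nat_lit 6346114093) (nat_lit 228) (nat_lit 1908544923) (nat_lit 33) (nat_lit 5) (nat_lit 35) (nat_lit 5) (nat_lit 36) (nat_lit 5) (nat_lit 355) (nat_lit 299) (nat_lit 126))))) (XT.nd (nat_lit 234) (nat_lit 0) (nat_lit 76) (XT.nd (nat_lit 78) (nat_lit 0) (nat_lit 0) (XT.lf (nat_lit 0) (nat_lit 3747706000) (nat_lit 0) (nat_lit 3747706000) (nat_lit 1140) (nat_lit 6923331909) (nat_lit 195) (nat_lit 5) (nat_lit 195) (nat_lit 3) (nat_lit 210) (nat_lit 3) (nat_lit 300) (nat_lit 300) (nat_lit 180)) (XT.nd (nat_lit 78) (nat_lit 0) (nat_lit 76) (XT.lf (nat_lit 76) (nat_lit 320358429) (nat_lit 0) (nat_lit 15311831564) (nat_lit 1216) (nat_lit 13918091543) (nat_lit 196) (nat_lit 5) (nat_lit 195) (nat_lit 5) (nat_lit 211) (nat_lit 5) (nat_lit 301) (nat_lit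 300) (nat_lit 179)) (XT.lf (nat_lit 0) (nat_lit 16658027404) (nat_lit 1140) (nat_lit 6925451288) (nat_lit 1216) (nat_lit 6704673475) (nat_lit 196) (nat_lit 5) (nat_lit 211) (nat_lit 5) (nat_lit 212) (nat_lit 5) (nat_lit 302) (nat_lit 300) (nat_lit 178)))) (XT.nd (nat_lit 156) (nat_lit 0) (nat_lit 152) (XT.nd (nat_lit 78) (nat_lit 0) (nat_lit 76) (XT.lf (nat_lit 76) (nat_lit 16660403048) (nat_lit 0) (nat_lit 1381922491) (nat_lit 1216) (nat_lit 13011384600) (nat_lit 197) (nat_lit 5) (nat_lit 196) (nat_lit 5) (nat_lit 212) (nat_lit 5) (nat_lit 303) (nat_lit 300) (nat_lit 177)) (XT.lf (nat_lit 76) (nat_lit 9687875703) (nat_lit 0) (nat_lit 10176706162) (nat_lit 1216) (nat_lit 11981910302) (nat_lit 198) (nat_lit 5) (nat_lit 197) (nat_lit 5) (nat_lit 213) (nat_lit 5) (nat_lit 304) (nat_lit 300) (nat_lit 176))) (XT.nd (nat_lit 78) (nat_lit 0) (nat_lit 76) (XT.lf (nat_lit 76) (nat_lit 2501761633)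 (nat_lit 0) (nat_lit 19583395099) (nat_lit 1216) (nat_lit 10584548445) (nat_lit 199) (nat_lit 5) (nat_lit 198) (nat_lit 5) (nat_lit 214) (nat_lit 5) (nat_lit 305) (nat_lit 300) (nat_lit 175)) (XT.lf (nat_lit 0) (nat_lit 24778534476) (nat_lit 1140) (nat_lit 4813979671) (nat_lit 1216) (nat_lit 3930719136) (nat_lit 199) (nat_lit 5) (nat_lit 214) (nat_lit 5) (nat_lit 215) (nat_lit 5) (nat_lit 306) (nat_lit 300) (nat_lit 174))))))))
noncomputable def xc108 : XT := (XT.nd (nat_lit 2106) (nat_lit 3420) (nat_lit 0) (XT.nd (nat_lit 1014) (nat_lit 4180) (nat_lit 0) (XT.nd (nat_lit 468) (nat_lit 3192) (nat_lit 0) (XT.nd (nat_lit 234) (nat_lit 1672) (nat_lit 0) (XT.nd (nat_lit 78) (nat_lit 0) (nat_lit 76) (XT.lf (nat_lit 76) (nat_lit 22035512760) (nat_lit 0) (nat_lit 5974304506) (nat_lit 1216) (nat_lit 6397530745) (nat_lit 200) (nat_lit 5) (nat_lit 199) (nat_lit 5) (nat_lit 215) (nat_lit 5) (nat_lit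 307) (nat_lit 300) (nat_lit 173)) (XT.nd (nat_lit 78) (nat_lit 0) (nat_lit 76) (XT.lf (nat_lit 76) (nat_lit 15102580514) (nat_lit 0) (nat_lit 16670289023) (nat_lit 1216) (nat_lit 3551699736) (nat_lit 201) (nat_lit 5) (nat_lit 200) (nat_lit 5) (nat_lit 216) (nat_lit 5) (nat_lit 308) (nat_lit 300) (nat_lit 172)) (XT.lf (nat_lit 76) (nat_lit 7936777280) (nat_lit 0) (nat_lit 28124113855) (nat_lit 1216) (nat_lit 216662584) (nat_lit 202) (nat_lit 5) (nat_lit 201) (nat_lit 5) (nat_lit 217) (nat_lit 5) (nat_lit 309) (nat_lit 300) (nat_lit 171)))) (XT.nd (nat_lit 78) (nat_lit 608) (nat_lit 0) (XT.lf (nat_lit 76) (nat_lit 456512136) (nat_lit 0) (nat_lit 3141834402) (nat_lit 1292) (nat_lit 33667579874) (nat_lit 186) (nat_lit 5) (nat_lit 185) (nat_lit 5) (nat_lit 202) (nat_lit 5) (nat_lit 310) (nat_lit 300) (nat_lit 170)) (XT.nd (nat_lit 78) (nat_lit 684) (nat_lit 0) (XT.lf (nat_lit 0) (nat_lit 8110929515)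 (nat_lit 1216) (nat_lit 7240747586) (nat_lit 76) (nat_lit 22936642987) (nat_lit 186) (nat_lit 5) (nat_lit 202) (nat_lit 5) (nat_lit 187) (nat_lit 5) (nat_lit 311) (nat_lit 300) (nat_lit 169)) (XT.lf (nat_lit 0) (nat_lit 13215858481) (nat_lit 760) (nat_lit 15217802703) (nat_lit 76) (nat_lit 10917176314) (nat_lit 177) (nat_lit 5) (nat_lit 187) (nat_lit 5) (nat_lit 178) (nat_lit 5) (nat_lit 312) (nat_lit 300) (nat_lit 168))))) (XT.nd (nat_lit 234) (nat_lit 1520) (nat_lit 0) (XT.nd (nat_lit 78) (nat_lit 1064) (nat_lit 0) (XT.lf (nat_lit 0) (nat_lit 16932839093) (nat_lit 608) (nat_lit 2031325290) (nat_lit 684) (nat_lit 21490677774) (nat_lit 169) (nat_lit 5) (nat_lit 177) (nat_lit 5) (nat_lit 178) (nat_lit 5) (nat_lit 313) (nat_lit 300) (nat_lit 167)) (XT.nd (nat_lit 78) (nat_lit 532) (nat_lit 0) (XT.lf (nat_lit 0) (nat_lit 9328712084) (nat_lit 532) (nat_lit 16161341868) (nat_lit 608) (nat_lit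 16109293083) (nat_lit 162) (nat_lit 5) (nat_lit 169) (nat_lit 5) (nat_lit 170) (nat_lit 5) (nat_lit 314) (nat_lit 300) (nat_lit 166)) (XT.lf (nat_lit 0) (nat_lit 1410053094) (nat_lit 532) (nat_lit 31316043535) (nat_lit 608) (nat_lit 10063469569) (nat_lit 155) (nat_lit 5) (nat_lit 162) (nat_lit 5) (nat_lit 163) (nat_lit 5) (nat_lit 315) (nat_lit 300) (nat_lit 165)))) (XT.nd (nat_lit 156) (nat_lit 988) (nat_lit 0) (XT.nd (nat_lit 78) (nat_lit 532) (nat_lit 0) (XT.lf (nat_lit 0) (nat_lit 37278399389) (nat_lit 532) (nat_lit 3534945564) (nat_lit 608) (nat_lit 3211273832) (nat_lit 155) (nat_lit 5) (nat_lit 162) (nat_lit 5) (nat_lit 163) (nat_lit 5) (nat_lit 316) (nat_lit 300) (nat_lit 164)) (XT.lf (nat_lit 0) (nat_lit 4441277001) (nat_lit 532) (nat_lit 15396554027) (nat_lit 76) (nat_lit 25466384084) (nat_lit 148) (nat_lit 5) (nat_lit 155) (nat_lit 5) (nat_lit 149) (nat_lit 5) (nat_lit 317) (nat_lit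 300) (nat_lit 163))) (XT.nd (nat_lit 78) (nat_lit 456) (nat_lit 0) (XT.lf (nat_lit 0) (nat_lit 12817914276) (nat_lit 608) (nat_lit 24478240004) (nat_lit 76) (nat_lit 9338450968) (nat_lit 141) (nat_lit 5) (nat_lit 149) (nat_lit 5) (nat_lit 142) (nat_lit 5) (nat_lit 318) (nat_lit 300) (nat_lit 162)) (XT.lf (nat_lit 0) (nat_lit 13948047362) (nat_lit 456) (nat_lit 8155854541) (nat_lit 532) (nat_lit 25912901267) (nat_lit 135) (nat_lit 5) (nat_lit 141) (nat_lit 5) (nat_lit 142) (nat_lit 5) (nat_lit 319) (nat_lit 300) (nat_lit 161)))))) (XT.nd (nat_lit 546) (nat_lit 1748) (nat_lit 0) (XT.nd (nat_lit 234) (nat_lit 1520) (nat_lit 0) (XT.nd (nat_lit 78) (nat_lit 456) (nat_lit 0) (XT.lf (nat_lit 0) (nat_lit 5226151675) (nat_lit 456) (nat_lit 27144761786) (nat_lit 532) (nat_lit 17081699441) (nat_lit 129) (nat_lit 5) (nat_lit 135) (nat_lit 5) (nat_lit 136) (nat_lit 5) (nat_lit 320) (nat_lit 300) (nat_lit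 160)) (XT.nd (nat_lit 78) (nat_lit 456) (nat_lit 0) (XT.lf (nat_lit 0) (nat_lit 43613852376) (nat_lit 532) (nat_lit 3871616169) (nat_lit 76) (nat_lit 3460870749) (nat_lit 129) (nat_lit 5) (nat_lit 136) (nat_lit 5) (nat_lit 130) (nat_lit 5) (nat_lit 321) (nat_lit 300) (nat_lit 159)) (XT.lf (nat_lit 0) (nat_lit 3499206854) (nat_lit 456) (nat_lit 13546014934) (nat_lit 76) (nat_lit 35449145175) (nat_lit 123) (nat_lit 5) (nat_lit 129) (nat_lit 5) (nat_lit 124) (nat_lit 5) (nat_lit 322) (nat_lit 300) (nat_lit 158)))) (XT.nd (nat_lit 156) (nat_lit 684) (nat_lit 0) (XT.nd (nat_lit 78) (nat_lit 380) (nat_lit 0) (XT.lf (nat_lit 0) (nat_lit 15198678046) (nat_lit 532) (nat_lit 23868923707) (nat_lit 76) (nat_lit 15035684164) (nat_lit 117) (nat_lit 5) (nat_lit 124) (nat_lit 5) (nat_lit 118) (nat_lit 5) (nat_lit 323) (nat_lit 300) (nat_lit 157)) (XT.lf (nat_lit 0) (nat_lit 20929398257) (nat_lit 380) (nat_lit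 7064573093) (nat_lit 456) (nat_lit 27783356930) (nat_lit 112) (nat_lit 5) (nat_lit 117) (nat_lit 5) (nat_lit 118) (nat_lit 5) (nat_lit 324) (nat_lit 300) (nat_lit 156))) (XT.nd (nat_lit 78) (nat_lit 304) (nat_lit 0) (XT.lf (nat_lit 0) (nat_lit 10889760407) (nat_lit 380) (nat_lit 31144099960) (nat_lit 456) (nat_lit 15483070237) (nat_lit 107) (nat_lit 5) (nat_lit 112) (nat_lit 5) (nat_lit 113) (nat_lit 5) (nat_lit 325) (nat_lit 300) (nat_lit 155)) (XT.lf (nat_lit 0) (nat_lit 216800316) (nat_lit 304) (nat_lit 57010100280) (nat_lit 380) (nat_lit 2103080392) (nat_lit 103) (nat_lit 5) (nat_lit 107) (nat_lit 5) (nat_lit 108) (nat_lit 5) (nat_lit 326) (nat_lit 300) (nat_lit 154))))) (XT.nd (nat_lit 234) (nat_lit 988) (nat_lit 0) (XT.nd (nat_lit 78) (nat_lit 684) (nat_lit 0) (XT.lf (nat_lit 0) (nat_lit 12508966380) (nat_lit 380) (nat_lit 11279718543) (nat_lit 76) (nat_lit 37417671518) (nat_lit 102)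 (nat_lit 5) (nat_lit 107) (nat_lit 5) (nat_lit 103) (nat_lit 5) (nat_lit 327) (nat_lit 300) (nat_lit 153)) (XT.nd (nat_lit 78) (nat_lit 304) (nat_lit 0) (XT.lf (nat_lit 0) (nat_lit 28297939944) (nat_lit 456) (nat_lit 23580050278) (nat_lit 76) (nat_lit 11283243515) (nat_lit 97) (nat_lit 5) (nat_lit 103) (nat_lit 5) (nat_lit 98) (nat_lit 5) (nat_lit 328) (nat_lit 300) (nat_lit 152)) (XT.lf (nat_lit 0) (nat_lit 28318175307) (nat_lit 304) (nat_lit 17185078793) (nat_lit 380) (nat_lit 19691796259) (nat_lit 93) (nat_lit 5) (nat_lit 97) (nat_lit 5) (nat_lit 98) (nat_lit 5) (nat_lit 329) (nat_lit 300) (nat_lit 151)))) (XT.nd (nat_lit 156) (nat_lit 304) (nat_lit 0) (XT.nd (nat_lit 78) (nat_lit 380) (nat_lit 0) (XT.lf (nat_lit 0) (nat_lit 16104066047) (nat_lit 304) (nat_lit 48047075759) (nat_lit 380) (nat_lit 3161948882) (nat_lit 89) (nat_lit 5) (nat_lit 93) (nat_lit 5) (nat_lit 94) (nat_lit 5) (nat_lit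 330) (nat_lit 300) (nat_lit 150)) (XT.lf (nat_lit 0) (nat_lit 2714798463) (nat_lit 304) (nat_lit 11782991268) (nat_lit 380) (nat_lit 55017740426) (nat_lit 84) (nat_lit 5) (nat_lit 88) (nat_lit 5) (nat_lit 89) (nat_lit 5) (nat_lit 331) (nat_lit 300) (nat_lit 149))) (XT.nd (nat_lit 78) (nat_lit 304) (nat_lit 0) (XT.lf (nat_lit 0) (nat_lit 33758395060) (nat_lit 380) (nat_lit 11700748995) (nat_lit 76) (nat_lit 26344511998) (nat_lit 84) (nat_lit 5) (nat_lit 89) (nat_lit 5) (nat_lit 85) (nat_lit 5) (nat_lit 332) (nat_lit 300) (nat_lit 148)) (XT.lf (nat_lit 0) (nat_lit 46948085587) (nat_lit 304) (nat_lit 7601822541) (nat_lit 380) (nat_lit 19639245564) (nat_lit 80) (nat_lit 5) (nat_lit 84) (nat_lit 5) (nat_lit 85) (nat_lit 5) (nat_lit 333) (nat_lit 300) (nat_lit 147))))))) (XT.nd (nat_lit 1092) (nat_lit 760) (nat_lit 0) (XT.nd (nat_lit 546) (nat_lit 1064) (nat_lit 0) (XT.nd (nat_lit 234) (nat_lit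 988) (nat_lit 0) (XT.nd (nat_lit 78) (nat_lit 304) (nat_lit 0) (XT.lf (nat_lit 0) (nat_lit 440368990) (nat_lit 304) (nat_lit 44273734440) (nat_lit 76) (nat_lit 31957498904) (nat_lit 76) (nat_lit 5) (nat_lit 80) (nat_lit 5) (nat_lit 77) (nat_lit 5) (nat_lit 334) (nat_lit 300) (nat_lit 146)) (XT.nd (nat_lit 78) (nat_lit 0) (nat_lit 0) (XT.lf (nat_lit 0) (nat_lit 16356433876) (nat_lit 304) (nat_lit 5280070855) (nat_lit 380) (nat_lit 57620275494) (nat_lit 72) (nat_lit 5) (nat_lit 76) (nat_lit 5) (nat_lit 77) (nat_lit 5) (nat_lit 335) (nat_lit 300) (nat_lit 145)) (XT.lf (nat_lit 0) (nat_lit 44697826361) (nat_lit 380) (nat_lit 1369239856) (nat_lit 76) (nat_lit 35879990906) (nat_lit 72) (nat_lit 5) (nat_lit 77) (nat_lit 5) (nat_lit 73) (nat_lit 5) (nat_lit 336) (nat_lit 300) (nat_lit 144)))) (XT.nd (nat_lit 156) (nat_lit 456) (nat_lit 0) (XT.nd (nat_lit 78) (nat_lit 304) (nat_lit 0) (XT.lf (nat_lit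 0) (nat_lit 64439506644) (nat_lit 228) (nat_lit 5143380639) (nat_lit 304) (nat_lit 15168841800) (nat_lit 69) (nat_lit 5) (nat_lit 72) (nat_lit 5) (nat_lit 73) (nat_lit 5) (nat_lit 337) (nat_lit 300) (nat_lit 143)) (XT.lf (nat_lit 0) (nat_lit 8689265436) (nat_lit 304) (nat_lit 41347232236) (nat_lit 76) (nat_lit 37632923422) (nat_lit 65) (nat_lit 5) (nat_lit 69) (nat_lit 5) (nat_lit 66) (nat_lit 5) (nat_lit 338) (nat_lit 300) (nat_lit 142))) (XT.nd (nat_lit 78) (nat_lit 228) (nat_lit 0) (XT.lf (nat_lit 0) (nat_lit 26288982440) (nat_lit 228) (nat_lit 7654336658) (nat_lit 304) (nat_lit 56769671577) (nat_lit 62) (nat_lit 5) (nat_lit 65) (nat_lit 5) (nat_lit 66) (nat_lit 5) (nat_lit 339) (nat_lit 300) (nat_lit 141)) (XT.lf (nat_lit 0) (nat_lit 3991607118) (nat_lit 228) (nat_lit 57288989719) (nat_lit 304) (nat_lit 32603527442) (nat_lit 59) (nat_lit 5) (nat_lit 62) (nat_lit 5) (nat_lit 63) (nat_lit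 5) (nat_lit 340) (nat_lit 300) (nat_lit 140))))) (XT.nd (nat_lit 234) (nat_lit 608) (nat_lit 0) (XT.nd (nat_lit 78) (nat_lit 456) (nat_lit 0) (XT.lf (nat_lit 0) (nat_lit 77092617657) (nat_lit 228) (nat_lit 13629980213) (nat_lit 304) (nat_lit 6469082042) (nat_lit 59) (nat_lit 5) (nat_lit 62) (nat_lit 5) (nat_lit 63) (nat_lit 5) (nat_lit 341) (nat_lit 300) (nat_lit 139)) (XT.nd (nat_lit 78) (nat_lit 228) (nat_lit 0) (XT.lf (nat_lit 0) (nat_lit 21397264070) (nat_lit 228) (nat_lit 46925701329) (nat_lit 76) (nat_lit 32310568496) (nat_lit 56) (nat_lit 5) (nat_lit 59) (nat_lit 5) (nat_lit 57) (nat_lit 5) (nat_lit 342) (nat_lit 300) (nat_lit 138)) (XT.lf (nat_lit 0) (nat_lit 27717029371) (nat_lit 228) (nat_lit 23418594428) (nat_lit 304) (nat_lit 53091561659) (nat_lit 53) (nat_lit 5) (nat_lit 56) (nat_lit 5) (nat_lit 57) (nat_lit 5) (nat_lit 343) (nat_lit 300) (nat_lit 137)))) (XT.nd (nat_lit 156)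 (nat_lit 380) (nat_lit 0) (XT.nd (nat_lit 78) (nat_lit 228) (nat_lit 0) (XT.lf (nat_lit 0) (nat_lit 83075195066) (nat_lit 304) (nat_lit 1149110964) (nat_lit 76) (nat_lit 23754785712) (nat_lit 53) (nat_lit 5) (nat_lit 57) (nat_lit 5) (nat_lit 54) (nat_lit 5) (nat_lit 344) (nat_lit 300) (nat_lit 136)) (XT.lf (nat_lit 0) (nat_lit 5608392478) (nat_lit 228) (nat_lit 32655414846) (nat_lit 76) (nat_lit 73623228851) (nat_lit 50) (nat_lit 5) (nat_lit 53) (nat_lit 5) (nat_lit 51) (nat_lit 5) (nat_lit 345) (nat_lit 300) (nat_lit 135))) (XT.nd (nat_lit 78) (nat_lit 152) (nat_lit 0) (XT.lf (nat_lit 0) (nat_lit 37714522059) (nat_lit 304) (nat_lit 67716894447) (nat_lit 76) (nat_lit 10534066659) (nat_lit 47) (nat_lit 5) (nat_lit 51) (nat_lit 5) (nat_lit 48) (nat_lit 5) (nat_lit 346) (nat_lit 300) (nat_lit 134)) (XT.lf (nat_lit 0) (nat_lit 13514117843) (nat_lit 152) (nat_lit 58765930369) (nat_lit 228) (nat_lit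 47942182386) (nat_lit 45) (nat_lit 5) (nat_lit 47) (nat_lit 5) (nat_lit 48) (nat_lit 5) (nat_lit 347) (nat_lit 300) (nat_lit 133)))))) (XT.nd (nat_lit 36972) (nat_lit 0) (nat_lit 12160) (XT.nd (nat_lit 234) (nat_lit 380) (nat_lit 0) (XT.nd (nat_lit 78) (nat_lit 380) (nat_lit 0) (XT.lf (nat_lit 0) (nat_lit 100219351946) (nat_lit 152) (nat_lit 9050124314) (nat_lit 228) (nat_lit 15401471131) (nat_lit 45) (nat_lit 5) (nat_lit 47) (nat_lit 5) (nat_lit 48) (nat_lit 5) (nat_lit 348) (nat_lit 300) (nat_lit 132)) (XT.nd (nat_lit 78) (nat_lit 152) (nat_lit 0) (XT.lf (nat_lit 0) (nat_lit 19426486479) (nat_lit 228) (nat_lit 66777465396) (nat_lit 76) (nat_lit 43101944809) (nat_lit 42) (nat_lit 5) (nat_lit 45) (nat_lit 5) (nat_lit 43) (nat_lit 5) (nat_lit 349) (nat_lit 300) (nat_lit 131)) (XT.lf (nat_lit 0) (nat_lit 20348882918) (nat_lit 152) (nat_lit 35871176228) (nat_lit 228) (nat_lit 77931677972) (nat_lit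 40) (nat_lit 5) (nat_lit 42) (nat_lit 5) (nat_lit 43) (nat_lit 5) (nat_lit 350) (nat_lit 300) (nat_lit 130)))) (XT.nd (nat_lit 156) (nat_lit 228) (nat_lit 0) (XT.nd (nat_lit 78) (nat_lit 152) (nat_lit 0) (XT.lf (nat_lit 0) (nat_lit 95709403418) (nat_lit 228) (nat_lit 26164515762) (nat_lit 76) (nat_lit 17340268238) (nat_lit 40) (nat_lit 5) (nat_lit 43) (nat_lit 5) (nat_lit 41) (nat_lit 5) (nat_lit 351) (nat_lit 300) (nat_lit 129)) (XT.lf (nat_lit 0) (nat_lit 66794941967) (nat_lit 152) (nat_lit 71381133335) (nat_lit 228) (nat_lit 6323599725) (nat_lit 38) (nat_lit 5) (nat_lit 40) (nat_lit 5) (nat_lit 41) (nat_lit 5) (nat_lit 352) (nat_lit 300) (nat_lit 128))) (XT.nd (nat_lit 78) (nat_lit 0) (nat_lit 0) (XT.lf (nat_lit 0) (nat_lit 14878843218) (nat_lit 152) (nat_lit 17613170600) (nat_lit 228) (nat_lit 117535575298) (nat_lit 35) (nat_lit 5) (nat_lit 37) (nat_lit 5) (nat_lit 38) (nat_lit 5) (nat_lit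 353) (nat_lit 300) (nat_lit 127)) (XT.lf (nat_lit 0) (nat_lit 74298836969) (nat_lit 228) (nat_lit 42539715620) (nat_lit 76) (nat_lit 38956032234) (nat_lit 35) (nat_lit 5) (nat_lit 38) (nat_lit 5) (nat_lit 36) (nat_lit 5) (nat_lit 354) (nat_lit 300) (nat_lit 126))))) (XT.nd (nat_lit 234) (nat_lit 0) (nat_lit 76) (XT.nd (nat_lit 78) (nat_lit 0) (nat_lit 0) (XT.lf (nat_lit 0) (nat_lit 3996100397) (nat_lit 0) (nat_lit 3996100397) (nat_lit 1140) (nat_lit 7143676421) (nat_lit 195) (nat_lit 5) (nat_lit 195) (nat_lit 3) (nat_lit 210) (nat_lit 3) (nat_lit 301) (nat_lit 301) (nat_lit 178)) (XT.nd (nat_lit 78) (nat_lit 0) (nat_lit 76) (XT.lf (nat_lit 76) (nat_lit 463425914) (nat_lit 0) (nat_lit 16182893405) (nat_lit 1216) (nat_lit 14374227664) (nat_lit 196) (nat_lit 5) (nat_lit 195) (nat_lit 5) (nat_lit 211) (nat_lit 5) (nat_lit 302) (nat_lit 301) (nat_lit 177)) (XT.lf (nat_lit 0) (nat_lit 17711410661)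 (nat_lit 1140) (nat_lit 7142855243) (nat_lit 1216) (nat_lit 6941419379) (nat_lit 196) (nat_lit 5) (nat_lit 211) (nat_lit 5) (nat_lit 212) (nat_lit 5) (nat_lit 303) (nat_lit 301) (nat_lit 176)))) (XT.nd (nat_lit 156) (nat_lit 0) (nat_lit 152) (XT.nd (nat_lit 78) (nat_lit 0) (nat_lit 76) (XT.lf (nat_lit 76) (nat_lit 17618597817) (nat_lit 0) (nat_lit 1537030004) (nat_lit 1216) (nat_lit 13444184593) (nat_lit 197) (nat_lit 5) (nat_lit 196) (nat_lit 5) (nat_lit 212) (nat_lit 5) (nat_lit 304) (nat_lit 301) (nat_lit 175)) (XT.lf (nat_lit 76) (nat_lit 10301053618) (nat_lit 0) (nat_lit 10758337398) (nat_lit 1216) (nat_lit 12373142499) (nat_lit 198) (nat_lit 5) (nat_lit 197) (nat_lit 5) (nat_lit 213) (nat_lit 5) (nat_lit 305) (nat_lit 301) (nat_lit 174))) (XT.nd (nat_lit 78) (nat_lit 0) (nat_lit 76) (XT.lf (nat_lit 76) (nat_lit 2758725126) (nat_lit 0) (nat_lit 20623271679) (nat_lit 1216) (nat_lit 10915191536)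 (nat_lit 199) (nat_lit 5) (nat_lit 198) (nat_lit 5) (nat_lit 214) (nat_lit 5) (nat_lit 306) (nat_lit 301) (nat_lit 173)) (XT.lf (nat_lit 0) (nat_lit 26200317091) (nat_lit 1140) (nat_lit 4922810981) (nat_lit 1216) (nat_lit 4070567267) (nat_lit 199) (nat_lit 5) (nat_lit 214) (nat_lit 5) (nat_lit 215) (nat_lit 5) (nat_lit 307) (nat_lit 301) (nat_lit 172))))))))
noncomputable def xc109 : XT := (XT.nd (nat_lit 2184) (nat_lit 3116) (nat_lit 0) (XT.nd (nat_lit 1092) (nat_lit 4028) (nat_lit 0) (XT.nd (nat_lit 546) (nat_lit 3040) (nat_lit 0) (XT.nd (nat_lit 234) (nat_lit 2280) (nat_lit 0) (XT.nd (nat_lit 78) (nat_lit 0) (nat_lit 76) (XT.lf (nat_lit 76) (nat_lit 23265376111) (nat_lit 0) (nat_lit 6320311743) (nat_lit 1216) (nat_lit 6536562422) (nat_lit 200) (nat_lit 5) (nat_lit 199) (nat_lit 5) (nat_lit 215) (nat_lit 5) (nat_lit 308) (nat_lit 301) (nat_lit 171)) (XT.nd (nat_lit 78) (nat_lit 0) (nat_lit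 76) (XT.lf (nat_lit 76) (nat_lit 15987875691) (nat_lit 0) (nat_lit 17541483917) (nat_lit 1216) (nat_lit 3556208689) (nat_lit 201) (nat_lit 5) (nat_lit 200) (nat_lit 5) (nat_lit 216) (nat_lit 5) (nat_lit 309) (nat_lit 301) (nat_lit 170)) (XT.lf (nat_lit 76) (nat_lit 8465482472) (nat_lit 0) (nat_lit 29559229739) (nat_lit 1216) (nat_lit 61711097) (nat_lit 202) (nat_lit 5) (nat_lit 201) (nat_lit 5) (nat_lit 217) (nat_lit 5) (nat_lit 310) (nat_lit 301) (nat_lit 169)))) (XT.nd (nat_lit 156) (nat_lit 1216) (nat_lit 0) (XT.nd (nat_lit 78) (nat_lit 0) (nat_lit 76) (XT.lf (nat_lit 76) (nat_lit 610740749) (nat_lit 0) (nat_lit 3323595349) (nat_lit 1292) (nat_lit 35190033593) (nat_lit 186) (nat_lit 5) (nat_lit 185) (nat_lit 5) (nat_lit 202) (nat_lit 5) (nat_lit 311) (nat_lit 301) (nat_lit 168)) (XT.lf (nat_lit 0) (nat_lit 8664890369) (nat_lit 1216) (nat_lit 7472791458) (nat_lit 76) (nat_lit 24060439097)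 (nat_lit 186) (nat_lit 5) (nat_lit 202) (nat_lit 5) (nat_lit 187) (nat_lit 5) (nat_lit 312) (nat_lit 301) (nat_lit 167))) (XT.nd (nat_lit 78) (nat_lit 608) (nat_lit 0) (XT.lf (nat_lit 0) (nat_lit 14019055567) (nat_lit 760) (nat_lit 15847837133) (nat_lit 76) (nat_lit 11447059560) (nat_lit 177) (nat_lit 5) (nat_lit 187) (nat_lit 5) (nat_lit 178) (nat_lit 5) (nat_lit 313) (nat_lit 301) (nat_lit 166)) (XT.lf (nat_lit 0) (nat_lit 17906585801) (nat_lit 608) (nat_lit 2142631621) (nat_lit 684) (nat_lit 22424113890) (nat_lit 169) (nat_lit 5) (nat_lit 177) (nat_lit 5) (nat_lit 178) (nat_lit 5) (nat_lit 314) (nat_lit 301) (nat_lit 165))))) (XT.nd (nat_lit 234) (nat_lit 1976) (nat_lit 0) (XT.nd (nat_lit 78) (nat_lit 532) (nat_lit 0) (XT.lf (nat_lit 0) (nat_lit 9922830996) (nat_lit 532) (nat_lit 16973192254) (nat_lit 608) (nat_lit 16779206559) (nat_lit 162) (nat_lit 5) (nat_lit 169) (nat_lit 5) (nat_lit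 170) (nat_lit 5) (nat_lit 315) (nat_lit 301) (nat_lit 164)) (XT.nd (nat_lit 78) (nat_lit 0) (nat_lit 0) (XT.lf (nat_lit 0) (nat_lit 1608581859) (nat_lit 532) (nat_lit 32880221918) (nat_lit 608) (nat_lit 10436314777) (nat_lit 155) (nat_lit 5) (nat_lit 162) (nat_lit 5) (nat_lit 163) (nat_lit 5) (nat_lit 316) (nat_lit 301) (nat_lit 163)) (XT.lf (nat_lit 0) (nat_lit 39264248987) (nat_lit 532) (nat_lit 3710146372) (nat_lit 608) (nat_lit 3247715361) (nat_lit 155) (nat_lit 5) (nat_lit 162) (nat_lit 5) (nat_lit 163) (nat_lit 5) (nat_lit 317) (nat_lit 301) (nat_lit 162)))) (XT.nd (nat_lit 156) (nat_lit 912) (nat_lit 0) (XT.nd (nat_lit 78) (nat_lit 532) (nat_lit 0) (XT.lf (nat_lit 0) (nat_lit 4780444853) (nat_lit 532) (nat_lit 16041881300) (nat_lit 76) (nat_lit 26743468694) (nat_lit 148) (nat_lit 5) (nat_lit 155) (nat_lit 5) (nat_lit 149) (nat_lit 5) (nat_lit 318) (nat_lit 301) (nat_lit 161)) (XT.lf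 (nat_lit 0) (nat_lit 13571579302) (nat_lit 608) (nat_lit 25577806590) (nat_lit 76) (nat_lit 9813454252) (nat_lit 141) (nat_lit 5) (nat_lit 149) (nat_lit 5) (nat_lit 142) (nat_lit 5) (nat_lit 319) (nat_lit 301) (nat_lit 160))) (XT.nd (nat_lit 78) (nat_lit 456) (nat_lit 0) (XT.lf (nat_lit 0) (nat_lit 14766230808) (nat_lit 456) (nat_lit 8551426557) (nat_lit 532) (nat_lit 27096622213) (nat_lit 135) (nat_lit 5) (nat_lit 141) (nat_lit 5) (nat_lit 142) (nat_lit 5) (nat_lit 320) (nat_lit 301) (nat_lit 159)) (XT.lf (nat_lit 0) (nat_lit 5607931394) (nat_lit 456) (nat_lit 28486188496) (nat_lit 532) (nat_lit 17827881987) (nat_lit 129) (nat_lit 5) (nat_lit 135) (nat_lit 5) (nat_lit 136) (nat_lit 5) (nat_lit 321) (nat_lit 301) (nat_lit 158)))))) (XT.nd (nat_lit 546) (nat_lit 1976) (nat_lit 0) (XT.nd (nat_lit 234) (nat_lit 1140) (nat_lit 0) (XT.nd (nat_lit 78) (nat_lit 912) (nat_lit 0) (XT.lf (nat_lit 0)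 (nat_lit 45894366656) (nat_lit 532) (nat_lit 3947519057) (nat_lit 76) (nat_lit 3648678898) (nat_lit 129) (nat_lit 5) (nat_lit 136) (nat_lit 5) (nat_lit 130) (nat_lit 5) (nat_lit 322) (nat_lit 301) (nat_lit 157)) (XT.nd (nat_lit 78) (nat_lit 456) (nat_lit 0) (XT.lf (nat_lit 0) (nat_lit 3771376938) (nat_lit 456) (nat_lit 14106986621) (nat_lit 76) (nat_lit 37237715773) (nat_lit 123) (nat_lit 5) (nat_lit 129) (nat_lit 5) (nat_lit 124) (nat_lit 5) (nat_lit 323) (nat_lit 301) (nat_lit 156)) (XT.lf (nat_lit 0) (nat_lit 16052464616) (nat_lit 532) (nat_lit 24946665748) (nat_lit 76) (nat_lit 15806418853) (nat_lit 117) (nat_lit 5) (nat_lit 124) (nat_lit 5) (nat_lit 118) (nat_lit 5) (nat_lit 324) (nat_lit 301) (nat_lit 155)))) (XT.nd (nat_lit 156) (nat_lit 380) (nat_lit 0) (XT.nd (nat_lit 78) (nat_lit 380) (nat_lit 0) (XT.lf (nat_lit 0) (nat_lit 22088255678) (nat_lit 380) (nat_lit 7395878069) (nat_lit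 456) (nat_lit 29079265682) (nat_lit 112) (nat_lit 5) (nat_lit 117) (nat_lit 5) (nat_lit 118) (nat_lit 5) (nat_lit 325) (nat_lit 301) (nat_lit 154)) (XT.lf (nat_lit 0) (nat_lit 11545924806) (nat_lit 380) (nat_lit 32677058818) (nat_lit 456) (nat_lit 16167093128) (nat_lit 107) (nat_lit 5) (nat_lit 112) (nat_lit 5) (nat_lit 113) (nat_lit 5) (nat_lit 326) (nat_lit 301) (nat_lit 153))) (XT.nd (nat_lit 78) (nat_lit 76) (nat_lit 0) (XT.lf (nat_lit 0) (nat_lit 338512119) (nat_lit 304) (nat_lit 59834288138) (nat_lit 380) (nat_lit 2121069355) (nat_lit 103) (nat_lit 5) (nat_lit 107) (nat_lit 5) (nat_lit 108) (nat_lit 5) (nat_lit 327) (nat_lit 301) (nat_lit 152)) (XT.lf (nat_lit 0) (nat_lit 13215809129) (nat_lit 380) (nat_lit 11736424158) (nat_lit 76) (nat_lit 39311930917) (nat_lit 102) (nat_lit 5) (nat_lit 107) (nat_lit 5) (nat_lit 103) (nat_lit 5) (nat_lit 328) (nat_lit 301) (nat_lit 151))))) (XT.nd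 (nat_lit 234) (nat_lit 988) (nat_lit 0) (XT.nd (nat_lit 78) (nat_lit 608) (nat_lit 0) (XT.lf (nat_lit 0) (nat_lit 29791604030) (nat_lit 456) (nat_lit 24652673965) (nat_lit 76) (nat_lit 11872589439) (nat_lit 97) (nat_lit 5) (nat_lit 103) (nat_lit 5) (nat_lit 98) (nat_lit 5) (nat_lit 329) (nat_lit 301) (nat_lit 150)) (XT.nd (nat_lit 78) (nat_lit 304) (nat_lit 0) (XT.lf (nat_lit 0) (nat_lit 29837413571) (nat_lit 304) (nat_lit 18017012774) (nat_lit 380) (nat_lit 20598034362) (nat_lit 93) (nat_lit 5) (nat_lit 97) (nat_lit 5) (nat_lit 98) (nat_lit 5) (nat_lit 330) (nat_lit 301) (nat_lit 149)) (XT.lf (nat_lit 0) (nat_lit 17011656873) (nat_lit 304) (nat_lit 50420666386) (nat_lit 380) (nat_lit 3244154297) (nat_lit 89) (nat_lit 5) (nat_lit 93) (nat_lit 5) (nat_lit 94) (nat_lit 5) (nat_lit 331) (nat_lit 301) (nat_lit 148)))) (XT.nd (nat_lit 156) (nat_lit 608) (nat_lit 0) (XT.nd (nat_lit 78) (nat_lit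 0) (nat_lit 0) (XT.lf (nat_lit 0) (nat_lit 2951485047) (nat_lit 304) (nat_lit 12343032247) (nat_lit 380) (nat_lit 57694579733) (nat_lit 84) (nat_lit 5) (nat_lit 88) (nat_lit 5) (nat_lit 89) (nat_lit 5) (nat_lit 332) (nat_lit 301) (nat_lit 147)) (XT.lf (nat_lit 0) (nat_lit 35514998514) (nat_lit 380) (nat_lit 12187808837) (nat_lit 76) (nat_lit 27688919094) (nat_lit 84) (nat_lit 5) (nat_lit 89) (nat_lit 5) (nat_lit 85) (nat_lit 5) (nat_lit 333) (nat_lit 301) (nat_lit 146))) (XT.nd (nat_lit 78) (nat_lit 304) (nat_lit 0) (XT.lf (nat_lit 0) (nat_lit 49390658966) (nat_lit 304) (nat_lit 7953072441) (nat_lit 380) (nat_lit 20552840706) (nat_lit 80) (nat_lit 5) (nat_lit 84) (nat_lit 5) (nat_lit 85) (nat_lit 5) (nat_lit 334) (nat_lit 301) (nat_lit 145)) (XT.lf (nat_lit 0) (nat_lit 527409103) (nat_lit 304) (nat_lit 46391928787) (nat_lit 76) (nat_lit 33583848208) (nat_lit 76) (nat_lit 5) (nat_lit 80) (nat_lit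 5) (nat_lit 77) (nat_lit 5) (nat_lit 335) (nat_lit 301) (nat_lit 144))))))) (XT.nd (nat_lit 1092) (nat_lit 760) (nat_lit 0) (XT.nd (nat_lit 546) (nat_lit 1064) (nat_lit 0) (XT.nd (nat_lit 234) (nat_lit 760) (nat_lit 0) (XT.nd (nat_lit 78) (nat_lit 228) (nat_lit 0) (XT.lf (nat_lit 0) (nat_lit 17267010676) (nat_lit 304) (nat_lit 5514136304) (nat_lit 380) (nat_lit 60436544219) (nat_lit 72) (nat_lit 5) (nat_lit 76) (nat_lit 5) (nat_lit 77) (nat_lit 5) (nat_lit 336) (nat_lit 301) (nat_lit 143)) (XT.nd (nat_lit 78) (nat_lit 228) (nat_lit 0) (XT.lf (nat_lit 0) (nat_lit 46992817484) (nat_lit 380) (nat_lit 1347801505) (nat_lit 76) (nat_lit 37701946540) (nat_lit 72) (nat_lit 5) (nat_lit 77) (nat_lit 5) (nat_lit 73) (nat_lit 5) (nat_lit 337) (nat_lit 301) (nat_lit 142)) (XT.lf (nat_lit 0) (nat_lit 67748805344) (nat_lit 228) (nat_lit 5371303619) (nat_lit 304) (nat_lit 15867424775) (nat_lit 69) (nat_lit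 5) (nat_lit 72) (nat_lit 5) (nat_lit 73) (nat_lit 5) (nat_lit 338) (nat_lit 301) (nat_lit 141)))) (XT.nd (nat_lit 156) (nat_lit 228) (nat_lit 0) (XT.nd (nat_lit 78) (nat_lit 228) (nat_lit 0) (XT.lf (nat_lit 0) (nat_lit 9180732907) (nat_lit 304) (nat_lit 43327144934) (nat_lit 76) (nat_lit 39543267677) (nat_lit 65) (nat_lit 5) (nat_lit 69) (nat_lit 5) (nat_lit 66) (nat_lit 5) (nat_lit 339) (nat_lit 301) (nat_lit 140)) (XT.lf (nat_lit 0) (nat_lit 27688373770) (nat_lit 228) (nat_lit 8007217512) (nat_lit 304) (nat_lit 59551360972) (nat_lit 62) (nat_lit 5) (nat_lit 65) (nat_lit 5) (nat_lit 66) (nat_lit 5) (nat_lit 340) (nat_lit 301) (nat_lit 139))) (XT.nd (nat_lit 78) (nat_lit 0) (nat_lit 0) (XT.lf (nat_lit 0) (nat_lit 4275055819) (nat_lit 228) (nat_lit 60123132321) (nat_lit 304) (nat_lit 34178502397) (nat_lit 59) (nat_lit 5) (nat_lit 62) (nat_lit 5) (nat_lit 63) (nat_lit 5) (nat_lit 341) (nat_lit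 301) (nat_lit 138)) (XT.lf (nat_lit 0) (nat_lit 81027123155) (nat_lit 228) (nat_lit 14282615525) (nat_lit 304) (nat_lit 6739963366) (nat_lit 59) (nat_lit 5) (nat_lit 62) (nat_lit 5) (nat_lit 63) (nat_lit 5) (nat_lit 342) (nat_lit 301) (nat_lit 137))))) (XT.nd (nat_lit 234) (nat_lit 608) (nat_lit 0) (XT.nd (nat_lit 78) (nat_lit 228) (nat_lit 0) (XT.lf (nat_lit 0) (nat_lit 22517251704) (nat_lit 228) (nat_lit 49192127049) (nat_lit 76) (nat_lit 33954298947) (nat_lit 56) (nat_lit 5) (nat_lit 59) (nat_lit 5) (nat_lit 57) (nat_lit 5) (nat_lit 343) (nat_lit 301) (nat_lit 136)) (XT.nd (nat_lit 78) (nat_lit 0) (nat_lit 0) (XT.lf (nat_lit 0) (nat_lit 29180451035) (nat_lit 228) (nat_lit 24560437159) (nat_lit 304) (nat_lit 55696174272) (nat_lit 53) (nat_lit 5) (nat_lit 56) (nat_lit 5) (nat_lit 57) (nat_lit 5) (nat_lit 344) (nat_lit 301) (nat_lit 135)) (XT.lf (nat_lit 0) (nat_lit 87275395587) (nat_lit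 304) (nat_lit 1131544742) (nat_lit 76) (nat_lit 24969686329) (nat_lit 53) (nat_lit 5) (nat_lit 57) (nat_lit 5) (nat_lit 54) (nat_lit 5) (nat_lit 345) (nat_lit 301) (nat_lit 134)))) (XT.nd (nat_lit 156) (nat_lit 152) (nat_lit 0) (XT.nd (nat_lit 78) (nat_lit 228) (nat_lit 0) (XT.lf (nat_lit 0) (nat_lit 5934211433) (nat_lit 228) (nat_lit 34214386312) (nat_lit 76) (nat_lit 77331403804) (nat_lit 50) (nat_lit 5) (nat_lit 53) (nat_lit 5) (nat_lit 51) (nat_lit 5) (nat_lit 346) (nat_lit 301) (nat_lit 133)) (XT.lf (nat_lit 0) (nat_lit 39644441510) (nat_lit 304) (nat_lit 71029981069) (nat_lit 76) (nat_lit 11087985654) (nat_lit 47) (nat_lit 5) (nat_lit 51) (nat_lit 5) (nat_lit 48) (nat_lit 5) (nat_lit 347) (nat_lit 301) (nat_lit 132))) (XT.nd (nat_lit 78) (nat_lit 0) (nat_lit 0) (XT.lf (nat_lit 0) (nat_lit 14260496239) (nat_lit 152) (nat_lit 61676322633) (nat_lit 228) (nat_lit 50295218027) (nat_lit 45)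 (nat_lit 5) (nat_lit 47) (nat_lit 5) (nat_lit 48) (nat_lit 5) (nat_lit 348) (nat_lit 301) (nat_lit 131)) (XT.lf (nat_lit 0) (nat_lit 105297626689) (nat_lit 152) (nat_lit 9476055050) (nat_lit 228) (nat_lit 16129569946) (nat_lit 45) (nat_lit 5) (nat_lit 47) (nat_lit 5) (nat_lit 48) (nat_lit 5) (nat_lit 349) (nat_lit 301) (nat_lit 130)))))) (XT.nd (nat_lit 37050) (nat_lit 0) (nat_lit 12236) (XT.nd (nat_lit 234) (nat_lit 380) (nat_lit 0) (XT.nd (nat_lit 78) (nat_lit 152) (nat_lit 0) (XT.lf (nat_lit 0) (nat_lit 20437896363) (nat_lit 228) (nat_lit 70049184246) (nat_lit 76) (nat_lit 45282888810) (nat_lit 42) (nat_lit 5) (nat_lit 45) (nat_lit 5) (nat_lit 43) (nat_lit 5) (nat_lit 350) (nat_lit 301) (nat_lit 129)) (XT.nd (nat_lit 78) (nat_lit 0) (nat_lit 0) (XT.lf (nat_lit 0) (nat_lit 21431556515) (nat_lit 152) (nat_lit 37638309337) (nat_lit 228) (nat_lit 81788275406) (nat_lit 40) (nat_lit 5) (nat_lit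 42) (nat_lit 5) (nat_lit 43) (nat_lit 5) (nat_lit 351) (nat_lit 301) (nat_lit 128)) (XT.lf (nat_lit 0) (nat_lit 100532071464) (nat_lit 228) (nat_lit 27409733792) (nat_lit 76) (nat_lit 18231957880) (nat_lit 40) (nat_lit 5) (nat_lit 43) (nat_lit 5) (nat_lit 41) (nat_lit 5) (nat_lit 352) (nat_lit 301) (nat_lit 127)))) (XT.nd (nat_lit 36660) (nat_lit 0) (nat_lit 12160) (XT.nd (nat_lit 78) (nat_lit 228) (nat_lit 0) (XT.lf (nat_lit 0) (nat_lit 70195890719) (nat_lit 152) (nat_lit 74925003203) (nat_lit 228) (nat_lit 6602667537) (nat_lit 38) (nat_lit 5) (nat_lit 40) (nat_lit 5) (nat_lit 41) (nat_lit 5) (nat_lit 353) (nat_lit 301) (nat_lit 126)) (XT.lf (nat_lit 0) (nat_lit 15682952045) (nat_lit 152) (nat_lit 18468896043) (nat_lit 228) (nat_lit 123376047874) (nat_lit 35) (nat_lit 5) (nat_lit 37) (nat_lit 5) (nat_lit 38) (nat_lit 5) (nat_lit 354) (nat_lit 301) (nat_lit 125))) (XT.nd (nat_lit 78) (nat_lit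 0) (nat_lit 0) (XT.lf (nat_lit 0) (nat_lit 4251242467) (nat_lit 0) (nat_lit 4251242467) (nat_lit 1140) (nat_lit 7386735902) (nat_lit 195) (nat_lit 5) (nat_lit 195) (nat_lit 3) (nat_lit 210) (nat_lit 3) (nat_lit 302) (nat_lit 302) (nat_lit 176)) (XT.lf (nat_lit 76) (nat_lit 601834909) (nat_lit 0) (nat_lit 17087702712) (nat_lit 1216) (nat_lit 14875461988) (nat_lit 196) (nat_lit 5) (nat_lit 195) (nat_lit 5) (nat_lit 211) (nat_lit 5) (nat_lit 303) (nat_lit 302) (nat_lit 175))))) (XT.nd (nat_lit 234) (nat_lit 0) (nat_lit 152) (XT.nd (nat_lit 78) (nat_lit 0) (nat_lit 0) (XT.lf (nat_lit 0) (nat_lit 18796964765) (nat_lit 1140) (nat_lit 7383110379) (nat_lit 1216) (nat_lit 7199159038) (nat_lit 196) (nat_lit 5) (nat_lit 211) (nat_lit 5) (nat_lit 212) (nat_lit 5) (nat_lit 304) (nat_lit 302) (nat_lit 174)) (XT.nd (nat_lit 78) (nat_lit 0) (nat_lit 76) (XT.lf (nat_lit 76) (nat_lit 18613064774) (nat_lit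 0) (nat_lit 1691896370) (nat_lit 1216) (nat_lit 13918870706) (nat_lit 197) (nat_lit 5) (nat_lit 196) (nat_lit 5) (nat_lit 212) (nat_lit 5) (nat_lit 305) (nat_lit 302) (nat_lit 173)) (XT.lf (nat_lit 76) (nat_lit 10932917301) (nat_lit 0) (nat_lit 11362282320) (nat_lit 1216) (nat_lit 12803261468) (nat_lit 198) (nat_lit 5) (nat_lit 197) (nat_lit 5) (nat_lit 213) (nat_lit 5) (nat_lit 306) (nat_lit 302) (nat_lit 172)))) (XT.nd (nat_lit 156) (nat_lit 0) (nat_lit 76) (XT.nd (nat_lit 78) (nat_lit 0) (nat_lit 76) (XT.lf (nat_lit 76) (nat_lit 3016276268) (nat_lit 0) (nat_lit 21709498143) (nat_lit 1216) (nat_lit 11280829271) (nat_lit 199) (nat_lit 5) (nat_lit 198) (nat_lit 5) (nat_lit 214) (nat_lit 5) (nat_lit 307) (nat_lit 302) (nat_lit 171)) (XT.lf (nat_lit 0) (nat_lit 27676188629) (nat_lit 1140) (nat_lit 5049343663) (nat_lit 1216) (nat_lit 4222678102) (nat_lit 199) (nat_lit 5) (nat_lit 214) (nat_lit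 5) (nat_lit 215) (nat_lit 5) (nat_lit 308) (nat_lit 302) (nat_lit 170))) (XT.nd (nat_lit 78) (nat_lit 0) (nat_lit 76) (XT.lf (nat_lit 76) (nat_lit 24544824248) (nat_lit 0) (nat_lit 6679222579) (nat_lit 1216) (nat_lit 6699358924) (nat_lit 200) (nat_lit 5) (nat_lit 199) (nat_lit 5) (nat_lit 215) (nat_lit 5) (nat_lit 309) (nat_lit 302) (nat_lit 169)) (XT.lf (nat_lit 76) (nat_lit 16905334013) (nat_lit 0) (nat_lit 18452735385) (nat_lit 1216) (nat_lit 3577034059) (nat_lit 201) (nat_lit 5) (nat_lit 200) (nat_lit 5) (nat_lit 216) (nat_lit 5) (nat_lit 310) (nat_lit 302) (nat_lit 168))))))))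
noncomputable def xc110 : XT := (XT.nd (nat_lit 2184) (nat_lit 2584) (nat_lit 0) (XT.nd (nat_lit 1092) (nat_lit 3876) (nat_lit 0) (XT.nd (nat_lit 546) (nat_lit 2432) (nat_lit 0) (XT.nd (nat_lit 234) (nat_lit 2280) (nat_lit 0) (XT.nd (nat_lit 78) (nat_lit 0) (nat_lit 0) (XT.lf (nat_lit 0) (nat_lit 83905007) (nat_lit 1216) (nat_lit 30978661338) (nat_lit 1292) (nat_lit 8923610959) (nat_lit 185) (nat_lit 5) (nat_lit 201) (nat_lit 5) (nat_lit 202) (nat_lit 5) (nat_lit 311) (nat_lit 302) (nat_lit 167)) (XT.nd (nat_lit 78) (nat_lit 0) (nat_lit 76) (XT.lf (nat_lit 76) (nat_lit 760464185) (nat_lit 0) (nat_lit 3512150833) (nat_lit 1292) (nat_lit 36803571305) (nat_lit 186) (nat_lit 5) (nat_lit 185) (nat_lit 5) (nat_lit 202) (nat_lit 5) (nat_lit 312) (nat_lit 302) (nat_lit 166)) (XT.lf (nat_lit 0) (nat_lit 9232751103) (nat_lit 1216) (nat_lit 7728523087) (nat_lit 76) (nat_lit 25242566684) (nat_lit 186)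 (nat_lit 5) (nat_lit 202) (nat_lit 5) (nat_lit 187) (nat_lit 5) (nat_lit 313) (nat_lit 302) (nat_lit 165)))) (XT.nd (nat_lit 156) (nat_lit 1064) (nat_lit 0) (XT.nd (nat_lit 78) (nat_lit 608) (nat_lit 0) (XT.lf (nat_lit 0) (nat_lit 14849173118) (nat_lit 760) (nat_lit 16521539007) (nat_lit 76) (nat_lit 12004922226) (nat_lit 177) (nat_lit 5) (nat_lit 187) (nat_lit 5) (nat_lit 178) (nat_lit 5) (nat_lit 314) (nat_lit 302) (nat_lit 164)) (XT.lf (nat_lit 0) (nat_lit 18917202849) (nat_lit 608) (nat_lit 2258597729) (nat_lit 684) (nat_lit 23417339746) (nat_lit 169) (nat_lit 5) (nat_lit 177) (nat_lit 5) (nat_lit 178) (nat_lit 5) (nat_lit 315) (nat_lit 302) (nat_lit 163))) (XT.nd (nat_lit 78) (nat_lit 532) (nat_lit 0) (XT.lf (nat_lit 0) (nat_lit 10534785070) (nat_lit 532) (nat_lit 17825283425) (nat_lit 608) (nat_lit 17495217973) (nat_lit 162) (nat_lit 5) (nat_lit 169) (nat_lit 5) (nat_lit 170) (nat_lit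 5) (nat_lit 316) (nat_lit 302) (nat_lit 162)) (XT.lf (nat_lit 0) (nat_lit 1805134408) (nat_lit 532) (nat_lit 34522760185) (nat_lit 608) (nat_lit 10839918932) (nat_lit 155) (nat_lit 5) (nat_lit 162) (nat_lit 5) (nat_lit 163) (nat_lit 5) (nat_lit 317) (nat_lit 302) (nat_lit 161))))) (XT.nd (nat_lit 234) (nat_lit 1368) (nat_lit 0) (XT.nd (nat_lit 78) (nat_lit 1064) (nat_lit 0) (XT.lf (nat_lit 0) (nat_lit 41338055204) (nat_lit 532) (nat_lit 3894250996) (nat_lit 608) (nat_lit 3297518669) (nat_lit 155) (nat_lit 5) (nat_lit 162) (nat_lit 5) (nat_lit 163) (nat_lit 5) (nat_lit 318) (nat_lit 302) (nat_lit 160)) (XT.nd (nat_lit 78) (nat_lit 532) (nat_lit 0) (XT.lf (nat_lit 0) (nat_lit 5125683877) (nat_lit 532) (nat_lit 16731049808) (nat_lit 76) (nat_lit 28084057462) (nat_lit 148) (nat_lit 5) (nat_lit 155) (nat_lit 5) (nat_lit 149) (nat_lit 5) (nat_lit 319) (nat_lit 302) (nat_lit 159)) (XT.lf (nat_lit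 0) (nat_lit 14352443358) (nat_lit 608) (nat_lit 26743911964) (nat_lit 76) (nat_lit 10311456430) (nat_lit 141) (nat_lit 5) (nat_lit 149) (nat_lit 5) (nat_lit 142) (nat_lit 5) (nat_lit 320) (nat_lit 302) (nat_lit 158)))) (XT.nd (nat_lit 156) (nat_lit 456) (nat_lit 0) (XT.nd (nat_lit 78) (nat_lit 456) (nat_lit 0) (XT.lf (nat_lit 0) (nat_lit 15614094346) (nat_lit 456) (nat_lit 8967913340) (nat_lit 532) (nat_lit 28349934850) (nat_lit 135) (nat_lit 5) (nat_lit 141) (nat_lit 5) (nat_lit 142) (nat_lit 5) (nat_lit 321) (nat_lit 302) (nat_lit 157)) (XT.lf (nat_lit 0) (nat_lit 5997599743) (nat_lit 456) (nat_lit 29896156533) (nat_lit 532) (nat_lit 18621405405) (nat_lit 129) (nat_lit 5) (nat_lit 135) (nat_lit 5) (nat_lit 136) (nat_lit 5) (nat_lit 322) (nat_lit 302) (nat_lit 156))) (XT.nd (nat_lit 78) (nat_lit 456) (nat_lit 0) (XT.lf (nat_lit 0) (nat_lit 48279626179) (nat_lit 532) (nat_lit 4038157666)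 (nat_lit 76) (nat_lit 3844504782) (nat_lit 129) (nat_lit 5) (nat_lit 136) (nat_lit 5) (nat_lit 130) (nat_lit 5) (nat_lit 323) (nat_lit 302) (nat_lit 155)) (XT.lf (nat_lit 0) (nat_lit 4048117885) (nat_lit 456) (nat_lit 14706822066) (nat_lit 76) (nat_lit 39114216835) (nat_lit 123) (nat_lit 5) (nat_lit 129) (nat_lit 5) (nat_lit 124) (nat_lit 5) (nat_lit 324) (nat_lit 302) (nat_lit 154)))))) (XT.nd (nat_lit 546) (nat_lit 1596) (nat_lit 0) (XT.nd (nat_lit 234) (nat_lit 1064) (nat_lit 0) (XT.nd (nat_lit 78) (nat_lit 760) (nat_lit 0) (XT.lf (nat_lit 0) (nat_lit 16940214982) (nat_lit 532) (nat_lit 26089051966) (nat_lit 76) (nat_lit 16613928441) (nat_lit 117) (nat_lit 5) (nat_lit 124) (nat_lit 5) (nat_lit 118) (nat_lit 5) (nat_lit 325) (nat_lit 302) (nat_lit 153)) (XT.nd (nat_lit 78) (nat_lit 380) (nat_lit 0) (XT.lf (nat_lit 0) (nat_lit 23294607245) (nat_lit 380) (nat_lit 7745786550) (nat_lit 456)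 (nat_lit 30448640219) (nat_lit 112) (nat_lit 5) (nat_lit 117) (nat_lit 5) (nat_lit 118) (nat_lit 5) (nat_lit 326) (nat_lit 302) (nat_lit 152)) (XT.lf (nat_lit 0) (nat_lit 12224514814) (nat_lit 380) (nat_lit 34288919795) (nat_lit 456) (nat_lit 16893696654) (nat_lit 107) (nat_lit 5) (nat_lit 112) (nat_lit 5) (nat_lit 113) (nat_lit 5) (nat_lit 327) (nat_lit 302) (nat_lit 151)))) (XT.nd (nat_lit 156) (nat_lit 684) (nat_lit 0) (XT.nd (nat_lit 78) (nat_lit 76) (nat_lit 0) (XT.lf (nat_lit 0) (nat_lit 456001704) (nat_lit 304) (nat_lit 62802132110) (nat_lit 380) (nat_lit 2148061547) (nat_lit 103) (nat_lit 5) (nat_lit 107) (nat_lit 5) (nat_lit 108) (nat_lit 5) (nat_lit 328) (nat_lit 302) (nat_lit 150)) (XT.lf (nat_lit 0) (nat_lit 13950426734) (nat_lit 380) (nat_lit 12225938960) (nat_lit 76) (nat_lit 41298730023) (nat_lit 102) (nat_lit 5) (nat_lit 107) (nat_lit 5) (nat_lit 103) (nat_lit 5) (nat_lit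 329) (nat_lit 302) (nat_lit 149))) (XT.nd (nat_lit 78) (nat_lit 304) (nat_lit 0) (XT.lf (nat_lit 0) (nat_lit 31352628303) (nat_lit 456) (nat_lit 25788818931) (nat_lit 76) (nat_lit 12489061314) (nat_lit 97) (nat_lit 5) (nat_lit 103) (nat_lit 5) (nat_lit 98) (nat_lit 5) (nat_lit 330) (nat_lit 302) (nat_lit 148)) (XT.lf (nat_lit 0) (nat_lit 31423007152) (nat_lit 304) (nat_lit 18893083405) (nat_lit 380) (nat_lit 21556868769) (nat_lit 93) (nat_lit 5) (nat_lit 97) (nat_lit 5) (nat_lit 98) (nat_lit 5) (nat_lit 331) (nat_lit 302) (nat_lit 147))))) (XT.nd (nat_lit 234) (nat_lit 912) (nat_lit 0) (XT.nd (nat_lit 78) (nat_lit 380) (nat_lit 0) (XT.lf (nat_lit 0) (nat_lit 17955108218) (nat_lit 304) (nat_lit 52915610670) (nat_lit 380) (nat_lit 3337525705) (nat_lit 89) (nat_lit 5) (nat_lit 93) (nat_lit 5) (nat_lit 94) (nat_lit 5) (nat_lit 332) (nat_lit 302) (nat_lit 146)) (XT.nd (nat_lit 78) (nat_lit 0)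 (nat_lit 0) (XT.lf (nat_lit 0) (nat_lit 3190620896) (nat_lit 304) (nat_lit 12933781515) (nat_lit 380) (nat_lit 60512145261) (nat_lit 84) (nat_lit 5) (nat_lit 88) (nat_lit 5) (nat_lit 89) (nat_lit 5) (nat_lit 333) (nat_lit 302) (nat_lit 145)) (XT.lf (nat_lit 0) (nat_lit 37353046582) (nat_lit 380) (nat_lit 12708330700) (nat_lit 76) (nat_lit 29098019467) (nat_lit 84) (nat_lit 5) (nat_lit 89) (nat_lit 5) (nat_lit 85) (nat_lit 5) (nat_lit 334) (nat_lit 302) (nat_lit 144)))) (XT.nd (nat_lit 156) (nat_lit 304) (nat_lit 0) (XT.nd (nat_lit 78) (nat_lit 304) (nat_lit 0) (XT.lf (nat_lit 0) (nat_lit 51946513093) (nat_lit 304) (nat_lit 8324566219) (nat_lit 380) (nat_lit 21518471732) (nat_lit 80) (nat_lit 5) (nat_lit 84) (nat_lit 5) (nat_lit 85) (nat_lit 5) (nat_lit 335) (nat_lit 302) (nat_lit 143)) (XT.lf (nat_lit 0) (nat_lit 612756124) (nat_lit 304) (nat_lit 48624910827) (nat_lit 76) (nat_lit 35288867702)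 (nat_lit 76) (nat_lit 5) (nat_lit 80) (nat_lit 5) (nat_lit 77) (nat_lit 5) (nat_lit 336) (nat_lit 302) (nat_lit 142))) (XT.nd (nat_lit 78) (nat_lit 0) (nat_lit 0) (XT.lf (nat_lit 0) (nat_lit 18214492825) (nat_lit 304) (nat_lit 5762688386) (nat_lit 380) (nat_lit 63399645761) (nat_lit 72) (nat_lit 5) (nat_lit 76) (nat_lit 5) (nat_lit 77) (nat_lit 5) (nat_lit 337) (nat_lit 302) (nat_lit 141)) (XT.lf (nat_lit 0) (nat_lit 49396970654) (nat_lit 380) (nat_lit 1333649320) (nat_lit 76) (nat_lit 39612400864) (nat_lit 72) (nat_lit 5) (nat_lit 77) (nat_lit 5) (nat_lit 73) (nat_lit 5) (nat_lit 338) (nat_lit 302) (nat_lit 140))))))) (XT.nd (nat_lit 1092) (nat_lit 152) (nat_lit 0) (XT.nd (nat_lit 546) (nat_lit 988) (nat_lit 0) (XT.nd (nat_lit 234) (nat_lit 684) (nat_lit 0) (XT.nd (nat_lit 78) (nat_lit 532) (nat_lit 0) (XT.lf (nat_lit 0) (nat_lit 71215450480) (nat_lit 228) (nat_lit 5613341769) (nat_lit 304)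 (nat_lit 16606502032) (nat_lit 69) (nat_lit 5) (nat_lit 72) (nat_lit 5) (nat_lit 73) (nat_lit 5) (nat_lit 339) (nat_lit 302) (nat_lit 139)) (XT.nd (nat_lit 78) (nat_lit 228) (nat_lit 0) (XT.lf (nat_lit 0) (nat_lit 9691474041) (nat_lit 304) (nat_lit 45414183437) (nat_lit 76) (nat_lit 41546461069) (nat_lit 65) (nat_lit 5) (nat_lit 69) (nat_lit 5) (nat_lit 66) (nat_lit 5) (nat_lit 340) (nat_lit 302) (nat_lit 138)) (XT.lf (nat_lit 0) (nat_lit 29149837546) (nat_lit 228) (nat_lit 8380516275) (nat_lit 304) (nat_lit 62477415022) (nat_lit 62) (nat_lit 5) (nat_lit 65) (nat_lit 5) (nat_lit 66) (nat_lit 5) (nat_lit 341) (nat_lit 302) (nat_lit 137)))) (XT.nd (nat_lit 156) (nat_lit 456) (nat_lit 0) (XT.nd (nat_lit 78) (nat_lit 0) (nat_lit 0) (XT.lf (nat_lit 0) (nat_lit 4564879672) (nat_lit 228) (nat_lit 63101799701) (nat_lit 304) (nat_lit 35837358205) (nat_lit 59) (nat_lit 5) (nat_lit 62) (nat_lit 5) (nat_lit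 63) (nat_lit 5) (nat_lit 342) (nat_lit 302) (nat_lit 136)) (XT.lf (nat_lit 0) (nat_lit 85150927943) (nat_lit 228) (nat_lit 14970566075) (nat_lit 304) (nat_lit 7029276475) (nat_lit 59) (nat_lit 5) (nat_lit 62) (nat_lit 5) (nat_lit 63) (nat_lit 5) (nat_lit 343) (nat_lit 302) (nat_lit 135))) (XT.nd (nat_lit 78) (nat_lit 228) (nat_lit 0) (XT.lf (nat_lit 0) (nat_lit 23688578624) (nat_lit 228) (nat_lit 51579298619) (nat_lit 76) (nat_lit 35677593964) (nat_lit 56) (nat_lit 5) (nat_lit 59) (nat_lit 5) (nat_lit 57) (nat_lit 5) (nat_lit 344) (nat_lit 302) (nat_lit 134)) (XT.lf (nat_lit 0) (nat_lit 30709832040) (nat_lit 228) (nat_lit 25762076259) (nat_lit 304) (nat_lit 58435662832) (nat_lit 53) (nat_lit 5) (nat_lit 56) (nat_lit 5) (nat_lit 57) (nat_lit 5) (nat_lit 345) (nat_lit 302) (nat_lit 133))))) (XT.nd (nat_lit 234) (nat_lit 532) (nat_lit 0) (XT.nd (nat_lit 78) (nat_lit 456) (nat_lit 0) (XT.lf (nat_lit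 0) (nat_lit 91681288512) (nat_lit 304) (nat_lit 1120075022) (nat_lit 76) (nat_lit 26242806774) (nat_lit 53) (nat_lit 5) (nat_lit 57) (nat_lit 5) (nat_lit 54) (nat_lit 5) (nat_lit 346) (nat_lit 302) (nat_lit 132)) (XT.nd (nat_lit 78) (nat_lit 228) (nat_lit 0) (XT.lf (nat_lit 0) (nat_lit 6272100537) (nat_lit 228) (nat_lit 35858167509) (nat_lit 76) (nat_lit 81222476044) (nat_lit 50) (nat_lit 5) (nat_lit 53) (nat_lit 5) (nat_lit 51) (nat_lit 5) (nat_lit 347) (nat_lit 302) (nat_lit 131)) (XT.lf (nat_lit 0) (nat_lit 41666748255) (nat_lit 304) (nat_lit 74515486381) (nat_lit 76) (nat_lit 11667070345) (nat_lit 47) (nat_lit 5) (nat_lit 51) (nat_lit 5) (nat_lit 48) (nat_lit 5) (nat_lit 348) (nat_lit 302) (nat_lit 130)))) (XT.nd (nat_lit 156) (nat_lit 380) (nat_lit 0) (XT.nd (nat_lit 78) (nat_lit 0) (nat_lit 0) (XT.lf (nat_lit 0) (nat_lit 15037623095) (nat_lit 152) (nat_lit 64734828784) (nat_lit 228)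 (nat_lit 52770002984) (nat_lit 45) (nat_lit 5) (nat_lit 47) (nat_lit 5) (nat_lit 48) (nat_lit 5) (nat_lit 349) (nat_lit 302) (nat_lit 129)) (XT.lf (nat_lit 0) (nat_lit 110623557590) (nat_lit 152) (nat_lit 9925753059) (nat_lit 228) (nat_lit 16897976116) (nat_lit 45) (nat_lit 5) (nat_lit 47) (nat_lit 5) (nat_lit 48) (nat_lit 5) (nat_lit 350) (nat_lit 302) (nat_lit 128))) (XT.nd (nat_lit 78) (nat_lit 152) (nat_lit 0) (XT.lf (nat_lit 0) (nat_lit 21496149965) (nat_lit 228) (nat_lit 73490732420) (nat_lit 76) (nat_lit 47570477024) (nat_lit 42) (nat_lit 5) (nat_lit 45) (nat_lit 5) (nat_lit 43) (nat_lit 5) (nat_lit 351) (nat_lit 302) (nat_lit 127)) (XT.lf (nat_lit 0) (nat_lit 22562299377) (nat_lit 152) (nat_lit 39496255912) (nat_lit 228) (nat_lit 85841420275) (nat_lit 40) (nat_lit 5) (nat_lit 42) (nat_lit 5) (nat_lit 43) (nat_lit 5) (nat_lit 352) (nat_lit 302) (nat_lit 126)))))) (XT.nd (nat_lit 37128)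 (nat_lit 0) (nat_lit 11172) (XT.nd (nat_lit 36816) (nat_lit 0) (nat_lit 11932) (XT.nd (nat_lit 78) (nat_lit 152) (nat_lit 0) (XT.lf (nat_lit 0) (nat_lit 105592414607) (nat_lit 228) (nat_lit 28723070587) (nat_lit 76) (nat_lit 19165937843) (nat_lit 40) (nat_lit 5) (nat_lit 43) (nat_lit 5) (nat_lit 41) (nat_lit 5) (nat_lit 353) (nat_lit 302) (nat_lit 125)) (XT.nd (nat_lit 36660) (nat_lit 0) (nat_lit 11932) (XT.lf (nat_lit 0) (nat_lit 73761196960) (nat_lit 152) (nat_lit 78648408195) (nat_lit 228) (nat_lit 6899139078) (nat_lit 38) (nat_lit 5) (nat_lit 40) (nat_lit 5) (nat_lit 41) (nat_lit 5) (nat_lit 354) (nat_lit 302) (nat_lit 124)) (XT.lf (nat_lit 0) (nat_lit 4513996925) (nat_lit 0) (nat_lit 4513996925) (nat_lit 1140) (nat_lit 7652558557) (nat_lit 195) (nat_lit 5) (nat_lit 195) (nat_lit 3) (nat_lit 210) (nat_lit 3) (nat_lit 303) (nat_lit 303) (nat_lit 174)))) (XT.nd (nat_lit 156) (nat_lit 0)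 (nat_lit 76) (XT.nd (nat_lit 78) (nat_lit 0) (nat_lit 76) (XT.lf (nat_lit 76) (nat_lit 736450645) (nat_lit 0) (nat_lit 18028858493) (nat_lit 1216) (nat_lit 15421976985) (nat_lit 196) (nat_lit 5) (nat_lit 195) (nat_lit 5) (nat_lit 211) (nat_lit 5) (nat_lit 304) (nat_lit 303) (nat_lit 173)) (XT.lf (nat_lit 0) (nat_lit 19918203997) (nat_lit 1140) (nat_lit 7646245374) (nat_lit 1216) (nat_lit 7478090859) (nat_lit 196) (nat_lit 5) (nat_lit 211) (nat_lit 5) (nat_lit 212) (nat_lit 5) (nat_lit 305) (nat_lit 303) (nat_lit 172))) (XT.nd (nat_lit 78) (nat_lit 0) (nat_lit 76) (XT.lf (nat_lit 76) (nat_lit 19646699479) (nat_lit 0) (nat_lit 1847252970) (nat_lit 1216) (nat_lit 14435654951) (nat_lit 197) (nat_lit 5) (nat_lit 196) (nat_lit 5) (nat_lit 212) (nat_lit 5) (nat_lit 306) (nat_lit 303) (nat_lit 171)) (XT.lf (nat_lit 76) (nat_lit 11585514188) (nat_lit 0) (nat_lit 11990285825) (nat_lit 1216) (nat_lit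 13272414875) (nat_lit 198) (nat_lit 5) (nat_lit 197) (nat_lit 5) (nat_lit 213) (nat_lit 5) (nat_lit 307) (nat_lit 303) (nat_lit 170))))) (XT.nd (nat_lit 234) (nat_lit 988) (nat_lit 0) (XT.nd (nat_lit 78) (nat_lit 0) (nat_lit 76) (XT.lf (nat_lit 76) (nat_lit 3275584309) (nat_lit 0) (nat_lit 22844916706) (nat_lit 1216) (nat_lit 11681494914) (nat_lit 199) (nat_lit 5) (nat_lit 198) (nat_lit 5) (nat_lit 214) (nat_lit 5) (nat_lit 308) (nat_lit 303) (nat_lit 169)) (XT.nd (nat_lit 78) (nat_lit 0) (nat_lit 0) (XT.lf (nat_lit 0) (nat_lit 29210434055) (nat_lit 1140) (nat_lit 5193322985) (nat_lit 1216) (nat_lit 4387174793) (nat_lit 199) (nat_lit 5) (nat_lit 214) (nat_lit 5) (nat_lit 215) (nat_lit 5) (nat_lit 309) (nat_lit 303) (nat_lit 168)) (XT.lf (nat_lit 76) (nat_lit 25877443539) (nat_lit 0) (nat_lit 7052090964) (nat_lit 1216) (nat_lit 6885545356) (nat_lit 200) (nat_lit 5) (nat_lit 199) (nat_lit 5)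 (nat_lit 215) (nat_lit 5) (nat_lit 310) (nat_lit 303) (nat_lit 167)))) (XT.nd (nat_lit 156) (nat_lit 0) (nat_lit 0) (XT.nd (nat_lit 78) (nat_lit 1140) (nat_lit 0) (XT.lf (nat_lit 76) (nat_lit 17857688728) (nat_lit 0) (nat_lit 19406371947) (nat_lit 1216) (nat_lit 3613495680) (nat_lit 201) (nat_lit 5) (nat_lit 200) (nat_lit 5) (nat_lit 216) (nat_lit 5) (nat_lit 311) (nat_lit 303) (nat_lit 166)) (XT.lf (nat_lit 0) (nat_lit 221830184) (nat_lit 1216) (nat_lit 32416298554) (nat_lit 1292) (nat_lit 9343197925) (nat_lit 185) (nat_lit 5) (nat_lit 201) (nat_lit 5) (nat_lit 202) (nat_lit 5) (nat_lit 312) (nat_lit 303) (nat_lit 165))) (XT.nd (nat_lit 78) (nat_lit 0) (nat_lit 76) (XT.lf (nat_lit 76) (nat_lit 906592973) (nat_lit 0) (nat_lit 3708053808) (nat_lit 1292) (nat_lit 38511356248) (nat_lit 186) (nat_lit 5) (nat_lit 185) (nat_lit 5) (nat_lit 202) (nat_lit 5) (nat_lit 313) (nat_lit 303) (nat_lit 164))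 (XT.lf (nat_lit 0) (nat_lit 9816489534) (nat_lit 1216) (nat_lit 8008003261) (nat_lit 76) (nat_lit 26485743212) (nat_lit 186) (nat_lit 5) (nat_lit 202) (nat_lit 5) (nat_lit 187) (nat_lit 5) (nat_lit 314) (nat_lit 303) (nat_lit 163))))))))
noncomputable def xc111 : XT := (XT.nd (nat_lit 2184) (nat_lit 1672) (nat_lit 0) (XT.nd (nat_lit 1092) (nat_lit 3420) (nat_lit 0) (XT.nd (nat_lit 546) (nat_lit 2584) (nat_lit 0) (XT.nd (nat_lit 234) (nat_lit 1596) (nat_lit 0) (XT.nd (nat_lit 78) (nat_lit 1140) (nat_lit 0) (XT.lf (nat_lit 0) (nat_lit 15708788030) (nat_lit 760) (nat_lit 17239960644) (nat_lit 76) (nat_lit 12592025197) (nat_lit 177) (nat_lit 5) (nat_lit 187) (nat_lit 5) (nat_lit 178) (nat_lit 5) (nat_lit 315) (nat_lit 303) (nat_lit 162)) (XT.nd (nat_lit 78) (nat_lit 532) (nat_lit 0) (XT.lf (nat_lit 0) (nat_lit 19967632386) (nat_lit 608) (nat_lit 2379540792) (nat_lit 684) (nat_lit 24472125246)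 (nat_lit 169) (nat_lit 5) (nat_lit 177) (nat_lit 5) (nat_lit 178) (nat_lit 5) (nat_lit 316) (nat_lit 303) (nat_lit 161)) (XT.lf (nat_lit 0) (nat_lit 11166569697) (nat_lit 532) (nat_lit 18719660121) (nat_lit 608) (nat_lit 18258460582) (nat_lit 162) (nat_lit 5) (nat_lit 169) (nat_lit 5) (nat_lit 170) (nat_lit 5) (nat_lit 317) (nat_lit 303) (nat_lit 160)))) (XT.nd (nat_lit 156) (nat_lit 1064) (nat_lit 0) (XT.nd (nat_lit 78) (nat_lit 0) (nat_lit 0) (XT.lf (nat_lit 0) (nat_lit 2000718526) (nat_lit 532) (nat_lit 36247562295) (nat_lit 608) (nat_lit 11274693488) (nat_lit 155) (nat_lit 5) (nat_lit 162) (nat_lit 5) (nat_lit 163) (nat_lit 5) (nat_lit 318) (nat_lit 303) (nat_lit 159)) (XT.lf (nat_lit 0) (nat_lit 43505269772) (nat_lit 532) (nat_lit 4087691261) (nat_lit 608) (nat_lit 3360278992) (nat_lit 155) (nat_lit 5) (nat_lit 162) (nat_lit 5) (nat_lit 163) (nat_lit 5) (nat_lit 319) (nat_lit 303) (nat_lit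 158))) (XT.nd (nat_lit 78) (nat_lit 532) (nat_lit 0) (XT.lf (nat_lit 0) (nat_lit 5478309823) (nat_lit 532) (nat_lit 17465175488) (nat_lit 76) (nat_lit 29491358143) (nat_lit 148) (nat_lit 5) (nat_lit 155) (nat_lit 5) (nat_lit 149) (nat_lit 5) (nat_lit 320) (nat_lit 303) (nat_lit 157)) (XT.lf (nat_lit 0) (nat_lit 15162841119) (nat_lit 608) (nat_lit 27978808282) (nat_lit 76) (nat_lit 10833677293) (nat_lit 141) (nat_lit 5) (nat_lit 149) (nat_lit 5) (nat_lit 142) (nat_lit 5) (nat_lit 321) (nat_lit 303) (nat_lit 156))))) (XT.nd (nat_lit 234) (nat_lit 1672) (nat_lit 0) (XT.nd (nat_lit 78) (nat_lit 456) (nat_lit 0) (XT.lf (nat_lit 0) (nat_lit 16494165955) (nat_lit 456) (nat_lit 9406254998) (nat_lit 532) (nat_lit 29675351344) (nat_lit 135) (nat_lit 5) (nat_lit 141) (nat_lit 5) (nat_lit 142) (nat_lit 5) (nat_lit 322) (nat_lit 303) (nat_lit 155)) (XT.nd (nat_lit 78) (nat_lit 0) (nat_lit 0) (XT.lf (nat_lit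 0) (nat_lit 6396592454) (nat_lit 456) (nat_lit 31377956299) (nat_lit 532) (nat_lit 19463704082) (nat_lit 129) (nat_lit 5) (nat_lit 135) (nat_lit 5) (nat_lit 136) (nat_lit 5) (nat_lit 323) (nat_lit 303) (nat_lit 154)) (XT.lf (nat_lit 0) (nat_lit 50775731017) (nat_lit 532) (nat_lit 4143251632) (nat_lit 76) (nat_lit 4048876904) (nat_lit 129) (nat_lit 5) (nat_lit 136) (nat_lit 5) (nat_lit 130) (nat_lit 5) (nat_lit 324) (nat_lit 303) (nat_lit 153)))) (XT.nd (nat_lit 156) (nat_lit 760) (nat_lit 0) (XT.nd (nat_lit 78) (nat_lit 456) (nat_lit 0) (XT.lf (nat_lit 0) (nat_lit 4330498473) (nat_lit 456) (nat_lit 15346458965) (nat_lit 76) (nat_lit 41083184160) (nat_lit 123) (nat_lit 5) (nat_lit 129) (nat_lit 5) (nat_lit 124) (nat_lit 5) (nat_lit 325) (nat_lit 303) (nat_lit 152)) (XT.lf (nat_lit 0) (nat_lit 17864438552) (nat_lit 532) (nat_lit 27298314478) (nat_lit 76) (nat_lit 17460215470) (nat_lit 117)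 (nat_lit 5) (nat_lit 124) (nat_lit 5) (nat_lit 118) (nat_lit 5) (nat_lit 326) (nat_lit 303) (nat_lit 151))) (XT.nd (nat_lit 78) (nat_lit 380) (nat_lit 0) (XT.lf (nat_lit 0) (nat_lit 24551799088) (nat_lit 380) (nat_lit 8115039212) (nat_lit 456) (nat_lit 31894347743) (nat_lit 112) (nat_lit 5) (nat_lit 117) (nat_lit 5) (nat_lit 118) (nat_lit 5) (nat_lit 327) (nat_lit 303) (nat_lit 150)) (XT.lf (nat_lit 0) (nat_lit 12927616988) (nat_lit 380) (nat_lit 35983418425) (nat_lit 456) (nat_lit 17664230802) (nat_lit 107) (nat_lit 5) (nat_lit 112) (nat_lit 5) (nat_lit 113) (nat_lit 5) (nat_lit 328) (nat_lit 303) (nat_lit 149)))))) (XT.nd (nat_lit 546) (nat_lit 1672) (nat_lit 0) (XT.nd (nat_lit 234) (nat_lit 988) (nat_lit 0) (XT.nd (nat_lit 78) (nat_lit 456) (nat_lit 0) (XT.lf (nat_lit 0) (nat_lit 570016282) (nat_lit 304) (nat_lit 65920587526) (nat_lit 380) (nat_lit 2183753717) (nat_lit 103) (nat_lit 5)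 (nat_lit 107) (nat_lit 5) (nat_lit 108) (nat_lit 5) (nat_lit 329) (nat_lit 303) (nat_lit 148)) (XT.nd (nat_lit 78) (nat_lit 380) (nat_lit 0) (XT.lf (nat_lit 0) (nat_lit 14714911470) (nat_lit 380) (nat_lit 12748976130) (nat_lit 76) (nat_lit 43382897872) (nat_lit 102) (nat_lit 5) (nat_lit 107) (nat_lit 5) (nat_lit 103) (nat_lit 5) (nat_lit 330) (nat_lit 303) (nat_lit 147)) (XT.lf (nat_lit 0) (nat_lit 32985061597) (nat_lit 456) (nat_lit 26990741753) (nat_lit 76) (nat_lit 13134233112) (nat_lit 97) (nat_lit 5) (nat_lit 103) (nat_lit 5) (nat_lit 98) (nat_lit 5) (nat_lit 331) (nat_lit 303) (nat_lit 146)))) (XT.nd (nat_lit 156) (nat_lit 380) (nat_lit 0) (XT.nd (nat_lit 78) (nat_lit 304) (nat_lit 0) (XT.lf (nat_lit 0) (nat_lit 33079166944) (nat_lit 304) (nat_lit 19815261379) (nat_lit 380) (nat_lit 22570252061) (nat_lit 93) (nat_lit 5) (nat_lit 97) (nat_lit 5) (nat_lit 98) (nat_lit 5) (nat_lit 332)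 (nat_lit 303) (nat_lit 145)) (XT.lf (nat_lit 0) (nat_lit 18937098098) (nat_lit 304) (nat_lit 55537727679) (nat_lit 380) (nat_lit 3441965431) (nat_lit 89) (nat_lit 5) (nat_lit 93) (nat_lit 5) (nat_lit 94) (nat_lit 5) (nat_lit 333) (nat_lit 303) (nat_lit 144))) (XT.nd (nat_lit 78) (nat_lit 0) (nat_lit 0) (XT.lf (nat_lit 0) (nat_lit 3433201009) (nat_lit 304) (nat_lit 13556522887) (nat_lit 380) (nat_lit 63476833286) (nat_lit 84) (nat_lit 5) (nat_lit 88) (nat_lit 5) (nat_lit 89) (nat_lit 5) (nat_lit 334) (nat_lit 303) (nat_lit 143)) (XT.lf (nat_lit 0) (nat_lit 39277205162) (nat_lit 380) (nat_lit 13263140814) (nat_lit 76) (nat_lit 30575282724) (nat_lit 84) (nat_lit 5) (nat_lit 89) (nat_lit 5) (nat_lit 85) (nat_lit 5) (nat_lit 335) (nat_lit 303) (nat_lit 142))))) (XT.nd (nat_lit 234) (nat_lit 760) (nat_lit 0) (XT.nd (nat_lit 78) (nat_lit 608) (nat_lit 0) (XT.lf (nat_lit 0) (nat_lit 54622134602)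 (nat_lit 304) (nat_lit 8717066781) (nat_lit 380) (nat_lit 22538149506) (nat_lit 80) (nat_lit 5) (nat_lit 84) (nat_lit 5) (nat_lit 85) (nat_lit 5) (nat_lit 336) (nat_lit 303) (nat_lit 141)) (XT.nd (nat_lit 78) (nat_lit 304) (nat_lit 0) (XT.lf (nat_lit 0) (nat_lit 696887413) (nat_lit 304) (nat_lit 50977594554) (nat_lit 76) (nat_lit 37076737012) (nat_lit 76) (nat_lit 5) (nat_lit 80) (nat_lit 5) (nat_lit 77) (nat_lit 5) (nat_lit 337) (nat_lit 303) (nat_lit 140)) (XT.lf (nat_lit 0) (nat_lit 19201527321) (nat_lit 304) (nat_lit 6026192662) (nat_lit 380) (nat_lit 66516362136) (nat_lit 72) (nat_lit 5) (nat_lit 76) (nat_lit 5) (nat_lit 77) (nat_lit 5) (nat_lit 338) (nat_lit 303) (nat_lit 139)))) (XT.nd (nat_lit 156) (nat_lit 532) (nat_lit 0) (XT.nd (nat_lit 78) (nat_lit 228) (nat_lit 0) (XT.lf (nat_lit 0) (nat_lit 51916263445) (nat_lit 380) (nat_lit 1326370551) (nat_lit 76) (nat_lit 41616020451) (nat_lit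 72) (nat_lit 5) (nat_lit 77) (nat_lit 5) (nat_lit 73) (nat_lit 5) (nat_lit 339) (nat_lit 303) (nat_lit 138)) (XT.lf (nat_lit 0) (nat_lit 74848064154) (nat_lit 228) (nat_lit 5869948058) (nat_lit 304) (nat_lit 17387580891) (nat_lit 69) (nat_lit 5) (nat_lit 72) (nat_lit 5) (nat_lit 73) (nat_lit 5) (nat_lit 340) (nat_lit 303) (nat_lit 137))) (XT.nd (nat_lit 78) (nat_lit 228) (nat_lit 0) (XT.lf (nat_lit 0) (nat_lit 10222945239) (nat_lit 304) (nat_lit 47612948171) (nat_lit 76) (nat_lit 43647394107) (nat_lit 65) (nat_lit 5) (nat_lit 69) (nat_lit 5) (nat_lit 66) (nat_lit 5) (nat_lit 341) (nat_lit 303) (nat_lit 136)) (XT.lf (nat_lit 0) (nat_lit 30677211588) (nat_lit 228) (nat_lit 8774995956) (nat_lit 304) (nat_lit 65554561058) (nat_lit 62) (nat_lit 5) (nat_lit 65) (nat_lit 5) (nat_lit 66) (nat_lit 5) (nat_lit 342) (nat_lit 303) (nat_lit 135))))))) (XT.nd (nat_lit 37752) (nat_lit 0) (nat_lit 8740)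 (XT.nd (nat_lit 546) (nat_lit 532) (nat_lit 0) (XT.nd (nat_lit 234) (nat_lit 684) (nat_lit 0) (XT.nd (nat_lit 78) (nat_lit 228) (nat_lit 0) (XT.lf (nat_lit 0) (nat_lit 4862122351) (nat_lit 228) (nat_lit 66231956138) (nat_lit 304) (nat_lit 37583811773) (nat_lit 59) (nat_lit 5) (nat_lit 62) (nat_lit 5) (nat_lit 63) (nat_lit 5) (nat_lit 343) (nat_lit 303) (nat_lit 134)) (XT.nd (nat_lit 78) (nat_lit 228) (nat_lit 0) (XT.lf (nat_lit 0) (nat_lit 89474187383) (nat_lit 228) (nat_lit 15695348143) (nat_lit 304) (nat_lit 7337488544) (nat_lit 59) (nat_lit 5) (nat_lit 62) (nat_lit 5) (nat_lit 63) (nat_lit 5) (nat_lit 344) (nat_lit 303) (nat_lit 133)) (XT.lf (nat_lit 0) (nat_lit 24914245048) (nat_lit 228) (nat_lit 54092563068) (nat_lit 76) (nat_lit 37484675538) (nat_lit 56) (nat_lit 5) (nat_lit 59) (nat_lit 5) (nat_lit 57) (nat_lit 5) (nat_lit 345) (nat_lit 303) (nat_lit 132)))) (XT.nd (nat_lit 156) (nat_lit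 456) (nat_lit 0) (XT.nd (nat_lit 78) (nat_lit 0) (nat_lit 0) (XT.lf (nat_lit 0) (nat_lit 32309140833) (nat_lit 228) (nat_lit 27026250133) (nat_lit 304) (nat_lit 61316339257) (nat_lit 53) (nat_lit 5) (nat_lit 56) (nat_lit 5) (nat_lit 57) (nat_lit 5) (nat_lit 346) (nat_lit 303) (nat_lit 131)) (XT.lf (nat_lit 0) (nat_lit 96303559872) (nat_lit 304) (nat_lit 1114358177) (nat_lit 76) (nat_lit 27577292808) (nat_lit 53) (nat_lit 5) (nat_lit 57) (nat_lit 5) (nat_lit 54) (nat_lit 5) (nat_lit 347) (nat_lit 303) (nat_lit 130))) (XT.nd (nat_lit 78) (nat_lit 228) (nat_lit 0) (XT.lf (nat_lit 0) (nat_lit 6623055707) (nat_lit 228) (nat_lit 37590361037) (nat_lit 76) (nat_lit 85305823928) (nat_lit 50) (nat_lit 5) (nat_lit 53) (nat_lit 5) (nat_lit 51) (nat_lit 5) (nat_lit 348) (nat_lit 303) (nat_lit 129)) (XT.lf (nat_lit 0) (nat_lit 43786443645) (nat_lit 304) (nat_lit 78181402431) (nat_lit 76) (nat_lit 12272814254)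 (nat_lit 47) (nat_lit 5) (nat_lit 51) (nat_lit 5) (nat_lit 48) (nat_lit 5) (nat_lit 349) (nat_lit 303) (nat_lit 128))))) (XT.nd (nat_lit 234) (nat_lit 152) (nat_lit 0) (XT.nd (nat_lit 78) (nat_lit 228) (nat_lit 0) (XT.lf (nat_lit 0) (nat_lit 15847646694) (nat_lit 152) (nat_lit 67948613325) (nat_lit 228) (nat_lit 55372243774) (nat_lit 45) (nat_lit 5) (nat_lit 47) (nat_lit 5) (nat_lit 48) (nat_lit 5) (nat_lit 350) (nat_lit 303) (nat_lit 127)) (XT.nd (nat_lit 78) (nat_lit 228) (nat_lit 0) (XT.lf (nat_lit 0) (nat_lit 116210109226) (nat_lit 152) (nat_lit 10400176999) (nat_lit 228) (nat_lit 17708342198) (nat_lit 45) (nat_lit 5) (nat_lit 47) (nat_lit 5) (nat_lit 48) (nat_lit 5) (nat_lit 351) (nat_lit 303) (nat_lit 126)) (XT.lf (nat_lit 0) (nat_lit 22603935953) (nat_lit 228) (nat_lit 77110020934) (nat_lit 76) (nat_lit 49970265069) (nat_lit 42) (nat_lit 5) (nat_lit 45) (nat_lit 5) (nat_lit 43) (nat_lit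 5) (nat_lit 352) (nat_lit 303) (nat_lit 125)))) (XT.nd (nat_lit 36816) (nat_lit 0) (nat_lit 11780) (XT.nd (nat_lit 78) (nat_lit 0) (nat_lit 0) (XT.lf (nat_lit 0) (nat_lit 23744078777) (nat_lit 152) (nat_lit 41449328217) (nat_lit 228) (nat_lit 90100594326) (nat_lit 40) (nat_lit 5) (nat_lit 42) (nat_lit 5) (nat_lit 43) (nat_lit 5) (nat_lit 353) (nat_lit 303) (nat_lit 124)) (XT.lf (nat_lit 0) (nat_lit 110902638121) (nat_lit 228) (nat_lit 30107387477) (nat_lit 76) (nat_lit 20144535931) (nat_lit 40) (nat_lit 5) (nat_lit 43) (nat_lit 5) (nat_lit 41) (nat_lit 5) (nat_lit 354) (nat_lit 303) (nat_lit 123))) (XT.nd (nat_lit 78) (nat_lit 0) (nat_lit 0) (XT.lf (nat_lit 0) (nat_lit 4785222699) (nat_lit 0) (nat_lit 4785222699) (nat_lit 1140) (nat_lit 7941296109) (nat_lit 195) (nat_lit 5) (nat_lit 195) (nat_lit 3) (nat_lit 210) (nat_lit 3) (nat_lit 304) (nat_lit 304) (nat_lit 172)) (XT.lf (nat_lit 76) (nat_lit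 868079518) (nat_lit 0) (nat_lit 19009004952) (nat_lit 1216) (nat_lit 16014156920) (nat_lit 196) (nat_lit 5) (nat_lit 195) (nat_lit 5) (nat_lit 211) (nat_lit 5) (nat_lit 305) (nat_lit 304) (nat_lit 171)))))) (XT.nd (nat_lit 546) (nat_lit 3116) (nat_lit 0) (XT.nd (nat_lit 234) (nat_lit 0) (nat_lit 152) (XT.nd (nat_lit 78) (nat_lit 0) (nat_lit 0) (XT.lf (nat_lit 0) (nat_lit 21078641176) (nat_lit 1140) (nat_lit 7932393903) (nat_lit 1216) (nat_lit 7778502312) (nat_lit 196) (nat_lit 5) (nat_lit 211) (nat_lit 5) (nat_lit 212) (nat_lit 5) (nat_lit 306) (nat_lit 304) (nat_lit 170)) (XT.nd (nat_lit 78) (nat_lit 0) (nat_lit 76) (XT.lf (nat_lit 76) (nat_lit 20722441679) (nat_lit 0) (nat_lit 2003798641) (nat_lit 1216) (nat_lit 14994934942) (nat_lit 197) (nat_lit 5) (nat_lit 196) (nat_lit 5) (nat_lit 212) (nat_lit 5) (nat_lit 307) (nat_lit 304) (nat_lit 169)) (XT.lf (nat_lit 76) (nat_lit 12260890598) (nat_lit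 0) (nat_lit 12644121558) (nat_lit 1216) (nat_lit 13780924811) (nat_lit 198) (nat_lit 5) (nat_lit 197) (nat_lit 5) (nat_lit 213) (nat_lit 5) (nat_lit 308) (nat_lit 304) (nat_lit 168)))) (XT.nd (nat_lit 156) (nat_lit 0) (nat_lit 76) (XT.nd (nat_lit 78) (nat_lit 0) (nat_lit 76) (XT.lf (nat_lit 76) (nat_lit 3537770986) (nat_lit 0) (nat_lit 24032462909) (nat_lit 1216) (nat_lit 12117382974) (nat_lit 199) (nat_lit 5) (nat_lit 198) (nat_lit 5) (nat_lit 214) (nat_lit 5) (nat_lit 309) (nat_lit 304) (nat_lit 167)) (XT.lf (nat_lit 0) (nat_lit 30807405639) (nat_lit 1140) (nat_lit 5354587446) (nat_lit 1216) (nat_lit 4564232204) (nat_lit 199) (nat_lit 5) (nat_lit 214) (nat_lit 5) (nat_lit 215) (nat_lit 5) (nat_lit 310) (nat_lit 304) (nat_lit 166))) (XT.nd (nat_lit 78) (nat_lit 0) (nat_lit 76) (XT.lf (nat_lit 76) (nat_lit 27266896740) (nat_lit 0) (nat_lit 7439985540) (nat_lit 1216) (nat_lit 7094873404) (nat_lit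 200) (nat_lit 5) (nat_lit 199) (nat_lit 5) (nat_lit 215) (nat_lit 5) (nat_lit 311) (nat_lit 304) (nat_lit 165)) (XT.lf (nat_lit 76) (nat_lit 18847705151) (nat_lit 0) (nat_lit 20404808271) (nat_lit 1216) (nat_lit 3665018463) (nat_lit 201) (nat_lit 5) (nat_lit 200) (nat_lit 5) (nat_lit 216) (nat_lit 5) (nat_lit 312) (nat_lit 304) (nat_lit 164))))) (XT.nd (nat_lit 234) (nat_lit 2280) (nat_lit 0) (XT.nd (nat_lit 78) (nat_lit 0) (nat_lit 0) (XT.lf (nat_lit 0) (nat_lit 354218679) (nat_lit 1216) (nat_lit 33936164864) (nat_lit 1292) (nat_lit 9786236659) (nat_lit 185) (nat_lit 5) (nat_lit 201) (nat_lit 5) (nat_lit 202) (nat_lit 5) (nat_lit 313) (nat_lit 304) (nat_lit 163)) (XT.nd (nat_lit 78) (nat_lit 0) (nat_lit 76) (XT.lf (nat_lit 76) (nat_lit 1049977567) (nat_lit 0) (nat_lit 3911865056) (nat_lit 1292) (nat_lit 40316839143) (nat_lit 186) (nat_lit 5) (nat_lit 185) (nat_lit 5) (nat_lit 202) (nat_lit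 5) (nat_lit 314) (nat_lit 304) (nat_lit 162)) (XT.lf (nat_lit 0) (nat_lit 10418063105) (nat_lit 1216) (nat_lit 8311400267) (nat_lit 76) (nat_lit 27792840525) (nat_lit 186) (nat_lit 5) (nat_lit 202) (nat_lit 5) (nat_lit 187) (nat_lit 5) (nat_lit 315) (nat_lit 304) (nat_lit 161)))) (XT.nd (nat_lit 156) (nat_lit 1064) (nat_lit 0) (XT.nd (nat_lit 78) (nat_lit 608) (nat_lit 0) (XT.lf (nat_lit 0) (nat_lit 16600491609) (nat_lit 760) (nat_lit 18004312134) (nat_lit 76) (nat_lit 13209705241) (nat_lit 177) (nat_lit 5) (nat_lit 187) (nat_lit 5) (nat_lit 178) (nat_lit 5) (nat_lit 316) (nat_lit 304) (nat_lit 160)) (XT.lf (nat_lit 0) (nat_lit 21060861529) (nat_lit 608) (nat_lit 2505786020) (nat_lit 684) (nat_lit 25590442178) (nat_lit 169) (nat_lit 5) (nat_lit 177) (nat_lit 5) (nat_lit 178) (nat_lit 5) (nat_lit 317) (nat_lit 304) (nat_lit 159))) (XT.nd (nat_lit 78) (nat_lit 532) (nat_lit 0) (XT.lf (nat_lit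 0) (nat_lit 11820177432) (nat_lit 532) (nat_lit 19658466278) (nat_lit 608) (nat_lit 19070233235) (nat_lit 162) (nat_lit 5) (nat_lit 169) (nat_lit 5) (nat_lit 170) (nat_lit 5) (nat_lit 318) (nat_lit 304) (nat_lit 158)) (XT.lf (nat_lit 0) (nat_lit 2196289507) (nat_lit 532) (nat_lit 38058728710) (nat_lit 608) (nat_lit 11741175200) (nat_lit 155) (nat_lit 5) (nat_lit 162) (nat_lit 5) (nat_lit 163) (nat_lit 5) (nat_lit 319) (nat_lit 304) (nat_lit 157))))))))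
noncomputable def xc112 : XT := (XT.nd (nat_lit 2106) (nat_lit 1064) (nat_lit 0) (XT.nd (nat_lit 1014) (nat_lit 3116) (nat_lit 0) (XT.nd (nat_lit 468) (nat_lit 2432) (nat_lit 0) (XT.nd (nat_lit 234) (nat_lit 912) (nat_lit 0) (XT.nd (nat_lit 78) (nat_lit 1064) (nat_lit 0) (XT.lf (nat_lit 0) (nat_lit 45771519026) (nat_lit 532) (nat_lit 4290921824) (nat_lit 608) (nat_lit 3435671072) (nat_lit 155) (nat_lit 5) (nat_lit 162) (nat_lit 5) (nat_lit 163) (nat_lit 5) (nat_lit 320) (nat_lit 304) (nat_lit 156)) (XT.nd (nat_lit 78) (nat_lit 532) (nat_lit 0) (XT.lf (nat_lit 0) (nat_lit 5839610124) (nat_lit 532) (nat_lit 18245530127) (nat_lit 76) (nat_lit 30968735853) (nat_lit 148) (nat_lit 5) (nat_lit 155) (nat_lit 5) (nat_lit 149) (nat_lit 5) (nat_lit 321) (nat_lit 304) (nat_lit 155)) (XT.lf (nat_lit 0) (nat_lit 16005133372) (nat_lit 608) (nat_lit 29284960234) (nat_lit 76) (nat_lit 11381391127) (nat_lit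 141) (nat_lit 5) (nat_lit 149) (nat_lit 5) (nat_lit 142) (nat_lit 5) (nat_lit 322) (nat_lit 304) (nat_lit 154)))) (XT.nd (nat_lit 78) (nat_lit 456) (nat_lit 0) (XT.lf (nat_lit 0) (nat_lit 17409002952) (nat_lit 456) (nat_lit 9867448466) (nat_lit 532) (nat_lit 31075599411) (nat_lit 135) (nat_lit 5) (nat_lit 141) (nat_lit 5) (nat_lit 142) (nat_lit 5) (nat_lit 323) (nat_lit 304) (nat_lit 153)) (XT.nd (nat_lit 78) (nat_lit 0) (nat_lit 0) (XT.lf (nat_lit 0) (nat_lit 6806320240) (nat_lit 456) (nat_lit 32935055419) (nat_lit 532) (nat_lit 20356370835) (nat_lit 129) (nat_lit 5) (nat_lit 135) (nat_lit 5) (nat_lit 136) (nat_lit 5) (nat_lit 324) (nat_lit 304) (nat_lit 152)) (XT.lf (nat_lit 0) (nat_lit 53389006028) (nat_lit 532) (nat_lit 4262601137) (nat_lit 76) (nat_lit 4262338330) (nat_lit 129) (nat_lit 5) (nat_lit 136) (nat_lit 5) (nat_lit 130) (nat_lit 5) (nat_lit 325) (nat_lit 304) (nat_lit 151)))))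 (XT.nd (nat_lit 234) (nat_lit 1140) (nat_lit 0) (XT.nd (nat_lit 78) (nat_lit 836) (nat_lit 0) (XT.lf (nat_lit 0) (nat_lit 4619562802) (nat_lit 456) (nat_lit 16026975378) (nat_lit 76) (nat_lit 43149367390) (nat_lit 123) (nat_lit 5) (nat_lit 129) (nat_lit 5) (nat_lit 124) (nat_lit 5) (nat_lit 326) (nat_lit 304) (nat_lit 150)) (XT.nd (nat_lit 78) (nat_lit 380) (nat_lit 0) (XT.lf (nat_lit 0) (nat_lit 18827694785) (nat_lit 532) (nat_lit 28576889988) (nat_lit 76) (nat_lit 18347367384) (nat_lit 117) (nat_lit 5) (nat_lit 124) (nat_lit 5) (nat_lit 118) (nat_lit 5) (nat_lit 327) (nat_lit 304) (nat_lit 149)) (XT.lf (nat_lit 0) (nat_lit 25863254332) (nat_lit 380) (nat_lit 8504431386) (nat_lit 456) (nat_lit 33419473758) (nat_lit 112) (nat_lit 5) (nat_lit 117) (nat_lit 5) (nat_lit 118) (nat_lit 5) (nat_lit 328) (nat_lit 304) (nat_lit 148)))) (XT.nd (nat_lit 156) (nat_lit 456) (nat_lit 0) (XT.nd (nat_lit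 78) (nat_lit 304) (nat_lit 0) (XT.lf (nat_lit 0) (nat_lit 13657332471) (nat_lit 380) (nat_lit 37764496503) (nat_lit 456) (nat_lit 18480185485) (nat_lit 107) (nat_lit 5) (nat_lit 112) (nat_lit 5) (nat_lit 113) (nat_lit 5) (nat_lit 329) (nat_lit 304) (nat_lit 147)) (XT.lf (nat_lit 0) (nat_lit 681251331) (nat_lit 304) (nat_lit 69196978636) (nat_lit 380) (nat_lit 2227897496) (nat_lit 103) (nat_lit 5) (nat_lit 107) (nat_lit 5) (nat_lit 108) (nat_lit 5) (nat_lit 330) (nat_lit 304) (nat_lit 146))) (XT.nd (nat_lit 78) (nat_lit 380) (nat_lit 0) (XT.lf (nat_lit 0) (nat_lit 15511394821) (nat_lit 380) (nat_lit 13306370715) (nat_lit 76) (nat_lit 45569486164) (nat_lit 102) (nat_lit 5) (nat_lit 107) (nat_lit 5) (nat_lit 103) (nat_lit 5) (nat_lit 331) (nat_lit 304) (nat_lit 145)) (XT.lf (nat_lit 0) (nat_lit 34693091891) (nat_lit 456) (nat_lit 28260897322) (nat_lit 76) (nat_lit 13809737269) (nat_lit 97) (nat_lit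 5) (nat_lit 103) (nat_lit 5) (nat_lit 98) (nat_lit 5) (nat_lit 332) (nat_lit 304) (nat_lit 144)))))) (XT.nd (nat_lit 546) (nat_lit 1216) (nat_lit 0) (XT.nd (nat_lit 234) (nat_lit 912) (nat_lit 0) (XT.nd (nat_lit 78) (nat_lit 684) (nat_lit 0) (XT.lf (nat_lit 0) (nat_lit 34810231355) (nat_lit 304) (nat_lit 20785637874) (nat_lit 380) (nat_lit 23640297412) (nat_lit 93) (nat_lit 5) (nat_lit 97) (nat_lit 5) (nat_lit 98) (nat_lit 5) (nat_lit 333) (nat_lit 304) (nat_lit 143)) (XT.nd (nat_lit 78) (nat_lit 380) (nat_lit 0) (XT.lf (nat_lit 0) (nat_lit 19960356149) (nat_lit 304) (nat_lit 58293150549) (nat_lit 380) (nat_lit 3557431903) (nat_lit 89) (nat_lit 5) (nat_lit 93) (nat_lit 5) (nat_lit 94) (nat_lit 5) (nat_lit 334) (nat_lit 304) (nat_lit 142)) (XT.lf (nat_lit 0) (nat_lit 3680189012) (nat_lit 304) (nat_lit 14212627758) (nat_lit 380) (nat_lit 66595419406) (nat_lit 84) (nat_lit 5) (nat_lit 88) (nat_lit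 5) (nat_lit 89) (nat_lit 5) (nat_lit 335) (nat_lit 304) (nat_lit 141)))) (XT.nd (nat_lit 156) (nat_lit 608) (nat_lit 0) (XT.nd (nat_lit 78) (nat_lit 304) (nat_lit 0) (XT.lf (nat_lit 0) (nat_lit 41292318255) (nat_lit 380) (nat_lit 13853185455) (nat_lit 76) (nat_lit 32124330111) (nat_lit 84) (nat_lit 5) (nat_lit 89) (nat_lit 5) (nat_lit 85) (nat_lit 5) (nat_lit 336) (nat_lit 304) (nat_lit 140)) (XT.lf (nat_lit 0) (nat_lit 57424257980) (nat_lit 304) (nat_lit 9131398353) (nat_lit 380) (nat_lit 23614040371) (nat_lit 80) (nat_lit 5) (nat_lit 84) (nat_lit 5) (nat_lit 85) (nat_lit 5) (nat_lit 337) (nat_lit 304) (nat_lit 139))) (XT.nd (nat_lit 78) (nat_lit 304) (nat_lit 0) (XT.lf (nat_lit 0) (nat_lit 780251950) (nat_lit 304) (nat_lit 53455216401) (nat_lit 76) (nat_lit 38951821868) (nat_lit 76) (nat_lit 5) (nat_lit 80) (nat_lit 5) (nat_lit 77) (nat_lit 5) (nat_lit 338) (nat_lit 304) (nat_lit 138))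 (XT.lf (nat_lit 0) (nat_lit 20230818975) (nat_lit 304) (nat_lit 6305162029) (nat_lit 380) (nat_lit 69793866490) (nat_lit 72) (nat_lit 5) (nat_lit 76) (nat_lit 5) (nat_lit 77) (nat_lit 5) (nat_lit 339) (nat_lit 304) (nat_lit 137))))) (XT.nd (nat_lit 234) (nat_lit 684) (nat_lit 0) (XT.nd (nat_lit 78) (nat_lit 532) (nat_lit 0) (XT.lf (nat_lit 0) (nat_lit 54556924018) (nat_lit 380) (nat_lit 1325604058) (nat_lit 76) (nat_lit 43717682737) (nat_lit 72) (nat_lit 5) (nat_lit 77) (nat_lit 5) (nat_lit 73) (nat_lit 5) (nat_lit 340) (nat_lit 304) (nat_lit 136)) (XT.nd (nat_lit 78) (nat_lit 304) (nat_lit 0) (XT.lf (nat_lit 0) (nat_lit 78655629403) (nat_lit 228) (nat_lit 6141621606) (nat_lit 304) (nat_lit 18212292142) (nat_lit 69) (nat_lit 5) (nat_lit 72) (nat_lit 5) (nat_lit 73) (nat_lit 5) (nat_lit 341) (nat_lit 304) (nat_lit 135)) (XT.lf (nat_lit 0) (nat_lit 10776629912) (nat_lit 304) (nat_lit 49928339854)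 (nat_lit 76) (nat_lit 45851178764) (nat_lit 65) (nat_lit 5) (nat_lit 69) (nat_lit 5) (nat_lit 66) (nat_lit 5) (nat_lit 342) (nat_lit 304) (nat_lit 134)))) (XT.nd (nat_lit 156) (nat_lit 228) (nat_lit 0) (XT.nd (nat_lit 78) (nat_lit 228) (nat_lit 0) (XT.lf (nat_lit 0) (nat_lit 32274457351) (nat_lit 228) (nat_lit 9191481687) (nat_lit 304) (nat_lit 68789908417) (nat_lit 62) (nat_lit 5) (nat_lit 65) (nat_lit 5) (nat_lit 66) (nat_lit 5) (nat_lit 343) (nat_lit 304) (nat_lit 133)) (XT.lf (nat_lit 0) (nat_lit 5167812319) (nat_lit 228) (nat_lit 69520938481) (nat_lit 304) (nat_lit 39421810214) (nat_lit 59) (nat_lit 5) (nat_lit 62) (nat_lit 5) (nat_lit 63) (nat_lit 5) (nat_lit 344) (nat_lit 304) (nat_lit 132))) (XT.nd (nat_lit 78) (nat_lit 228) (nat_lit 0) (XT.lf (nat_lit 0) (nat_lit 94007500420) (nat_lit 228) (nat_lit 16458577014) (nat_lit 304) (nat_lit 7665132355) (nat_lit 59) (nat_lit 5) (nat_lit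 62) (nat_lit 5) (nat_lit 63) (nat_lit 5) (nat_lit 345) (nat_lit 304) (nat_lit 131)) (XT.lf (nat_lit 0) (nat_lit 26197360921) (nat_lit 228) (nat_lit 56737598947) (nat_lit 76) (nat_lit 39379954102) (nat_lit 56) (nat_lit 5) (nat_lit 59) (nat_lit 5) (nat_lit 57) (nat_lit 5) (nat_lit 346) (nat_lit 304) (nat_lit 130))))))) (XT.nd (nat_lit 37908) (nat_lit 0) (nat_lit 6612) (XT.nd (nat_lit 37362) (nat_lit 0) (nat_lit 11628) (XT.nd (nat_lit 234) (nat_lit 608) (nat_lit 0) (XT.nd (nat_lit 78) (nat_lit 228) (nat_lit 0) (XT.lf (nat_lit 0) (nat_lit 33982481948) (nat_lit 228) (nat_lit 28355857479) (nat_lit 304) (nat_lit 64344871217) (nat_lit 53) (nat_lit 5) (nat_lit 56) (nat_lit 5) (nat_lit 57) (nat_lit 5) (nat_lit 347) (nat_lit 304) (nat_lit 129)) (XT.nd (nat_lit 78) (nat_lit 228) (nat_lit 0) (XT.lf (nat_lit 0) (nat_lit 101153392682) (nat_lit 304) (nat_lit 1114093686) (nat_lit 76) (nat_lit 28976425653)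 (nat_lit 53) (nat_lit 5) (nat_lit 57) (nat_lit 5) (nat_lit 54) (nat_lit 5) (nat_lit 348) (nat_lit 304) (nat_lit 128)) (XT.lf (nat_lit 0) (nat_lit 6988086173) (nat_lit 228) (nat_lit 39414808933) (nat_lit 76) (nat_lit 89591273022) (nat_lit 50) (nat_lit 5) (nat_lit 53) (nat_lit 5) (nat_lit 51) (nat_lit 5) (nat_lit 349) (nat_lit 304) (nat_lit 127)))) (XT.nd (nat_lit 156) (nat_lit 228) (nat_lit 0) (XT.nd (nat_lit 78) (nat_lit 152) (nat_lit 0) (XT.lf (nat_lit 0) (nat_lit 46008743584) (nat_lit 304) (nat_lit 82036179337) (nat_lit 76) (nat_lit 12906763713) (nat_lit 47) (nat_lit 5) (nat_lit 51) (nat_lit 5) (nat_lit 48) (nat_lit 5) (nat_lit 350) (nat_lit 304) (nat_lit 126)) (XT.lf (nat_lit 0) (nat_lit 16692765939) (nat_lit 152) (nat_lit 71325221407) (nat_lit 228) (nat_lit 58107967654) (nat_lit 45) (nat_lit 5) (nat_lit 47) (nat_lit 5) (nat_lit 48) (nat_lit 5) (nat_lit 351) (nat_lit 304) (nat_lit 125)))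 (XT.nd (nat_lit 78) (nat_lit 228) (nat_lit 0) (XT.lf (nat_lit 0) (nat_lit 122070840316) (nat_lit 152) (nat_lit 10900354817) (nat_lit 228) (nat_lit 18562437110) (nat_lit 45) (nat_lit 5) (nat_lit 47) (nat_lit 5) (nat_lit 48) (nat_lit 5) (nat_lit 352) (nat_lit 304) (nat_lit 124)) (XT.lf (nat_lit 0) (nat_lit 23764045213) (nat_lit 228) (nat_lit 80915410319) (nat_lit 76) (nat_lit 52488065573) (nat_lit 42) (nat_lit 5) (nat_lit 45) (nat_lit 5) (nat_lit 43) (nat_lit 5) (nat_lit 353) (nat_lit 304) (nat_lit 123))))) (XT.nd (nat_lit 234) (nat_lit 0) (nat_lit 76) (XT.nd (nat_lit 78) (nat_lit 0) (nat_lit 0) (XT.lf (nat_lit 0) (nat_lit 5065777193) (nat_lit 0) (nat_lit 5065777193) (nat_lit 1140) (nat_lit 8253199575) (nat_lit 195) (nat_lit 5) (nat_lit 195) (nat_lit 3) (nat_lit 210) (nat_lit 3) (nat_lit 305) (nat_lit 305) (nat_lit 170)) (XT.nd (nat_lit 78) (nat_lit 0) (nat_lit 76) (XT.lf (nat_lit 76) (nat_lit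 997475640) (nat_lit 0) (nat_lit 20030841625) (nat_lit 1216) (nat_lit 16652580036) (nat_lit 196) (nat_lit 5) (nat_lit 195) (nat_lit 5) (nat_lit 211) (nat_lit 5) (nat_lit 306) (nat_lit 305) (nat_lit 169)) (XT.lf (nat_lit 0) (nat_lit 22281804055) (nat_lit 1140) (nat_lit 8241790251) (nat_lit 1216) (nat_lit 8100767028) (nat_lit 196) (nat_lit 5) (nat_lit 211) (nat_lit 5) (nat_lit 212) (nat_lit 5) (nat_lit 307) (nat_lit 305) (nat_lit 168)))) (XT.nd (nat_lit 156) (nat_lit 0) (nat_lit 152) (XT.nd (nat_lit 78) (nat_lit 0) (nat_lit 76) (XT.lf (nat_lit 76) (nat_lit 21843286870) (nat_lit 0) (nat_lit 2162204467) (nat_lit 1216) (nat_lit 15597286898) (nat_lit 197) (nat_lit 5) (nat_lit 196) (nat_lit 5) (nat_lit 212) (nat_lit 5) (nat_lit 308) (nat_lit 305) (nat_lit 167)) (XT.lf (nat_lit 76) (nat_lit 12961101297) (nat_lit 0) (nat_lit 13325598785) (nat_lit 1216) (nat_lit 14329280976) (nat_lit 198) (nat_lit 5)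 (nat_lit 197) (nat_lit 5) (nat_lit 213) (nat_lit 5) (nat_lit 309) (nat_lit 305) (nat_lit 166))) (XT.nd (nat_lit 78) (nat_lit 0) (nat_lit 76) (XT.lf (nat_lit 76) (nat_lit 3803918005) (nat_lit 0) (nat_lit 25275174824) (nat_lit 1216) (nat_lit 12588842430) (nat_lit 199) (nat_lit 5) (nat_lit 198) (nat_lit 5) (nat_lit 214) (nat_lit 5) (nat_lit 310) (nat_lit 305) (nat_lit 165)) (XT.lf (nat_lit 0) (nat_lit 32471539985) (nat_lit 1140) (nat_lit 5533063586) (nat_lit 1216) (nat_lit 4754075263) (nat_lit 199) (nat_lit 5) (nat_lit 214) (nat_lit 5) (nat_lit 215) (nat_lit 5) (nat_lit 311) (nat_lit 305) (nat_lit 164)))))) (XT.nd (nat_lit 546) (nat_lit 3040) (nat_lit 0) (XT.nd (nat_lit 234) (nat_lit 1216) (nat_lit 0) (XT.nd (nat_lit 78) (nat_lit 1064) (nat_lit 0) (XT.lf (nat_lit 76) (nat_lit 28716936383) (nat_lit 0) (nat_lit 7843993912) (nat_lit 1216) (nat_lit 7327214154) (nat_lit 200) (nat_lit 5) (nat_lit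 199) (nat_lit 5) (nat_lit 215) (nat_lit 5) (nat_lit 312) (nat_lit 305) (nat_lit 163)) (XT.nd (nat_lit 78) (nat_lit 1140) (nat_lit 0) (XT.lf (nat_lit 76) (nat_lit 19878191984) (nat_lit 0) (nat_lit 21450552291) (nat_lit 1216) (nat_lit 3731124714) (nat_lit 201) (nat_lit 5) (nat_lit 200) (nat_lit 5) (nat_lit 216) (nat_lit 5) (nat_lit 313) (nat_lit 305) (nat_lit 162)) (XT.lf (nat_lit 0) (nat_lit 481949555) (nat_lit 1216) (nat_lit 35541409735) (nat_lit 1292) (nat_lit 10253669886) (nat_lit 185) (nat_lit 5) (nat_lit 201) (nat_lit 5) (nat_lit 202) (nat_lit 5) (nat_lit 314) (nat_lit 305) (nat_lit 161)))) (XT.nd (nat_lit 156) (nat_lit 1216) (nat_lit 0) (XT.nd (nat_lit 78) (nat_lit 0) (nat_lit 76) (XT.lf (nat_lit 76) (nat_lit 1191415172) (nat_lit 0) (nat_lit 4124155412) (nat_lit 1292) (nat_lit 42223760540) (nat_lit 186) (nat_lit 5) (nat_lit 185) (nat_lit 5) (nat_lit 202) (nat_lit 5) (nat_lit 315) (nat_lit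 305) (nat_lit 160)) (XT.lf (nat_lit 0) (nat_lit 11039418953) (nat_lit 1216) (nat_lit 8638985557) (nat_lit 76) (nat_lit 29166890853) (nat_lit 186) (nat_lit 5) (nat_lit 202) (nat_lit 5) (nat_lit 187) (nat_lit 5) (nat_lit 316) (nat_lit 305) (nat_lit 159))) (XT.nd (nat_lit 78) (nat_lit 608) (nat_lit 0) (XT.lf (nat_lit 0) (nat_lit 17526900932) (nat_lit 760) (nat_lit 18815959448) (nat_lit 76) (nat_lit 13859377608) (nat_lit 177) (nat_lit 5) (nat_lit 187) (nat_lit 5) (nat_lit 178) (nat_lit 5) (nat_lit 317) (nat_lit 305) (nat_lit 158)) (XT.lf (nat_lit 0) (nat_lit 22199934106) (nat_lit 608) (nat_lit 2637667781) (nat_lit 684) (nat_lit 26774463761) (nat_lit 169) (nat_lit 5) (nat_lit 177) (nat_lit 5) (nat_lit 178) (nat_lit 5) (nat_lit 318) (nat_lit 305) (nat_lit 157))))) (XT.nd (nat_lit 234) (nat_lit 1976) (nat_lit 0) (XT.nd (nat_lit 78) (nat_lit 532) (nat_lit 0) (XT.lf (nat_lit 0) (nat_lit 12497607392)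 (nat_lit 532) (nat_lit 20643950274) (nat_lit 608) (nat_lit 19931998524) (nat_lit 162) (nat_lit 5) (nat_lit 169) (nat_lit 5) (nat_lit 170) (nat_lit 5) (nat_lit 319) (nat_lit 305) (nat_lit 156)) (XT.nd (nat_lit 78) (nat_lit 0) (nat_lit 0) (XT.lf (nat_lit 0) (nat_lit 2392757093) (nat_lit 532) (nat_lit 39960566097) (nat_lit 608) (nat_lit 12240022657) (nat_lit 155) (nat_lit 5) (nat_lit 162) (nat_lit 5) (nat_lit 163) (nat_lit 5) (nat_lit 320) (nat_lit 305) (nat_lit 155)) (XT.lf (nat_lit 0) (nat_lit 48142621750) (nat_lit 532) (nat_lit 4504421203) (nat_lit 608) (nat_lit 3523443861) (nat_lit 155) (nat_lit 5) (nat_lit 162) (nat_lit 5) (nat_lit 163) (nat_lit 5) (nat_lit 321) (nat_lit 305) (nat_lit 154)))) (XT.nd (nat_lit 156) (nat_lit 912) (nat_lit 0) (XT.nd (nat_lit 78) (nat_lit 532) (nat_lit 0) (XT.lf (nat_lit 0) (nat_lit 6210851227) (nat_lit 532) (nat_lit 19073539843) (nat_lit 76) (nat_lit 32519721220)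 (nat_lit 148) (nat_lit 5) (nat_lit 155) (nat_lit 5) (nat_lit 149) (nat_lit 5) (nat_lit 322) (nat_lit 305) (nat_lit 153)) (XT.lf (nat_lit 0) (nat_lit 16881716750) (nat_lit 608) (nat_lit 30665046375) (nat_lit 76) (nat_lit 11955930043) (nat_lit 141) (nat_lit 5) (nat_lit 149) (nat_lit 5) (nat_lit 142) (nat_lit 5) (nat_lit 323) (nat_lit 305) (nat_lit 152))) (XT.nd (nat_lit 78) (nat_lit 456) (nat_lit 0) (XT.lf (nat_lit 0) (nat_lit 18361202488) (nat_lit 456) (nat_lit 10352549431) (nat_lit 532) (nat_lit 32553624734) (nat_lit 135) (nat_lit 5) (nat_lit 141) (nat_lit 5) (nat_lit 142) (nat_lit 5) (nat_lit 324) (nat_lit 305) (nat_lit 151)) (XT.lf (nat_lit 0) (nat_lit 7228176536) (nat_lit 456) (nat_lit 34571106425) (nat_lit 532) (nat_lit 21301156767) (nat_lit 129) (nat_lit 5) (nat_lit 135) (nat_lit 5) (nat_lit 136) (nat_lit 5) (nat_lit 325) (nat_lit 305) (nat_lit 150))))))))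
noncomputable def xc113 : XT := (XT.nd (nat_lit 39078) (nat_lit 0) (nat_lit 4332) (XT.nd (nat_lit 1092) (nat_lit 2356) (nat_lit 0) (XT.nd (nat_lit 546) (nat_lit 1976) (nat_lit 0) (XT.nd (nat_lit 234) (nat_lit 1140) (nat_lit 0) (XT.nd (nat_lit 78) (nat_lit 912) (nat_lit 0) (XT.lf (nat_lit 0) (nat_lit 56126019560) (nat_lit 532) (nat_lit 4396082145) (nat_lit 76) (nat_lit 4485448517) (nat_lit 129) (nat_lit 5) (nat_lit 136) (nat_lit 5) (nat_lit 130) (nat_lit 5) (nat_lit 326) (nat_lit 305) (nat_lit 149)) (XT.nd (nat_lit 78) (nat_lit 456) (nat_lit 0) (XT.lf (nat_lit 0) (nat_lit 4916336321) (nat_lit 456) (nat_lit 16749588060) (nat_lit 76) (nat_lit 45317741901) (nat_lit 123) (nat_lit 5) (nat_lit 129) (nat_lit 5) (nat_lit 124) (nat_lit 5) (nat_lit 327) (nat_lit 305) (nat_lit 148)) (XT.lf (nat_lit 0) (nat_lit 19832602703) (nat_lit 532) (nat_lit 29927421368) (nat_lit 76) (nat_lit 19277562185) (nat_lit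 117) (nat_lit 5) (nat_lit 124) (nat_lit 5) (nat_lit 118) (nat_lit 5) (nat_lit 328) (nat_lit 305) (nat_lit 147)))) (XT.nd (nat_lit 156) (nat_lit 380) (nat_lit 0) (XT.nd (nat_lit 78) (nat_lit 380) (nat_lit 0) (XT.lf (nat_lit 0) (nat_lit 27232485338) (nat_lit 380) (nat_lit 8914814147) (nat_lit 456) (nat_lit 35027326020) (nat_lit 112) (nat_lit 5) (nat_lit 117) (nat_lit 5) (nat_lit 118) (nat_lit 5) (nat_lit 329) (nat_lit 305) (nat_lit 146)) (XT.lf (nat_lit 0) (nat_lit 14415786063) (nat_lit 380) (nat_lit 39636310586) (nat_lit 456) (nat_lit 19343190807) (nat_lit 107) (nat_lit 5) (nat_lit 112) (nat_lit 5) (nat_lit 113) (nat_lit 5) (nat_lit 330) (nat_lit 305) (nat_lit 145))) (XT.nd (nat_lit 78) (nat_lit 76) (nat_lit 0) (XT.lf (nat_lit 0) (nat_lit 790356287) (nat_lit 304) (nat_lit 72639015081) (nat_lit 380) (nat_lit 2280295629) (nat_lit 103) (nat_lit 5) (nat_lit 107) (nat_lit 5) (nat_lit 108) (nat_lit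 5) (nat_lit 331) (nat_lit 305) (nat_lit 144)) (XT.lf (nat_lit 0) (nat_lit 16342055517) (nat_lit 380) (nat_lit 13899077713) (nat_lit 76) (nat_lit 47863782149) (nat_lit 102) (nat_lit 5) (nat_lit 107) (nat_lit 5) (nat_lit 103) (nat_lit 5) (nat_lit 332) (nat_lit 305) (nat_lit 143))))) (XT.nd (nat_lit 234) (nat_lit 988) (nat_lit 0) (XT.nd (nat_lit 78) (nat_lit 608) (nat_lit 0) (XT.lf (nat_lit 0) (nat_lit 36481059152) (nat_lit 456) (nat_lit 29601940811) (nat_lit 76) (nat_lit 14517269484) (nat_lit 97) (nat_lit 5) (nat_lit 103) (nat_lit 5) (nat_lit 98) (nat_lit 5) (nat_lit 333) (nat_lit 305) (nat_lit 142)) (XT.nd (nat_lit 78) (nat_lit 304) (nat_lit 0) (XT.lf (nat_lit 0) (nat_lit 36620680395) (nat_lit 304) (nat_lit 21806428545) (nat_lit 380) (nat_lit 24769280761) (nat_lit 93) (nat_lit 5) (nat_lit 97) (nat_lit 5) (nat_lit 98) (nat_lit 5) (nat_lit 334) (nat_lit 305) (nat_lit 141)) (XT.lf (nat_lit 0)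 (nat_lit 21027673862) (nat_lit 304) (nat_lit 61188340036) (nat_lit 380) (nat_lit 3683936786) (nat_lit 89) (nat_lit 5) (nat_lit 93) (nat_lit 5) (nat_lit 94) (nat_lit 5) (nat_lit 335) (nat_lit 305) (nat_lit 140)))) (XT.nd (nat_lit 156) (nat_lit 608) (nat_lit 0) (XT.nd (nat_lit 78) (nat_lit 0) (nat_lit 0) (XT.lf (nat_lit 0) (nat_lit 3932523137) (nat_lit 304) (nat_lit 14903557310) (nat_lit 380) (nat_lit 69875071969) (nat_lit 84) (nat_lit 5) (nat_lit 88) (nat_lit 5) (nat_lit 89) (nat_lit 5) (nat_lit 336) (nat_lit 305) (nat_lit 139)) (XT.lf (nat_lit 0) (nat_lit 43403422001) (nat_lit 380) (nat_lit 14479529626) (nat_lit 76) (nat_lit 33748944123) (nat_lit 84) (nat_lit 5) (nat_lit 89) (nat_lit 5) (nat_lit 85) (nat_lit 5) (nat_lit 337) (nat_lit 305) (nat_lit 138))) (XT.nd (nat_lit 78) (nat_lit 304) (nat_lit 0) (XT.lf (nat_lit 0) (nat_lit 60359885071) (nat_lit 304) (nat_lit 9568447392) (nat_lit 380)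 (nat_lit 24748468821) (nat_lit 80) (nat_lit 5) (nat_lit 84) (nat_lit 5) (nat_lit 85) (nat_lit 5) (nat_lit 338) (nat_lit 305) (nat_lit 137)) (XT.lf (nat_lit 0) (nat_lit 863273769) (nat_lit 304) (nat_lit 56063344222) (nat_lit 76) (nat_lit 40918685528) (nat_lit 76) (nat_lit 5) (nat_lit 80) (nat_lit 5) (nat_lit 77) (nat_lit 5) (nat_lit 339) (nat_lit 305) (nat_lit 136)))))) (XT.nd (nat_lit 546) (nat_lit 1064) (nat_lit 0) (XT.nd (nat_lit 234) (nat_lit 760) (nat_lit 0) (XT.nd (nat_lit 78) (nat_lit 228) (nat_lit 0) (XT.lf (nat_lit 0) (nat_lit 21305140231) (nat_lit 304) (nat_lit 6600156850) (nat_lit 380) (nat_lit 73239737816) (nat_lit 72) (nat_lit 5) (nat_lit 76) (nat_lit 5) (nat_lit 77) (nat_lit 5) (nat_lit 340) (nat_lit 305) (nat_lit 135)) (XT.nd (nat_lit 78) (nat_lit 228) (nat_lit 0) (XT.lf (nat_lit 0) (nat_lit 57325448133) (nat_lit 380) (nat_lit 1331036171) (nat_lit 76) (nat_lit 45922488655) (nat_lit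 72) (nat_lit 5) (nat_lit 77) (nat_lit 5) (nat_lit 73) (nat_lit 5) (nat_lit 341) (nat_lit 305) (nat_lit 134)) (XT.lf (nat_lit 0) (nat_lit 82647514766) (nat_lit 228) (nat_lit 6428907807) (nat_lit 304) (nat_lit 19082391743) (nat_lit 69) (nat_lit 5) (nat_lit 72) (nat_lit 5) (nat_lit 73) (nat_lit 5) (nat_lit 342) (nat_lit 305) (nat_lit 133)))) (XT.nd (nat_lit 156) (nat_lit 228) (nat_lit 0) (XT.nd (nat_lit 78) (nat_lit 228) (nat_lit 0) (XT.lf (nat_lit 0) (nat_lit 11354044093) (nat_lit 304) (nat_lit 52365567979) (nat_lit 76) (nat_lit 48163161695) (nat_lit 65) (nat_lit 5) (nat_lit 69) (nat_lit 5) (nat_lit 66) (nat_lit 5) (nat_lit 343) (nat_lit 305) (nat_lit 132)) (XT.lf (nat_lit 0) (nat_lit 33945672449) (nat_lit 228) (nat_lit 9630861606) (nat_lit 304) (nat_lit 72190963298) (nat_lit 62) (nat_lit 5) (nat_lit 65) (nat_lit 5) (nat_lit 66) (nat_lit 5) (nat_lit 344) (nat_lit 305) (nat_lit 131))) (XT.nd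 (nat_lit 78) (nat_lit 0) (nat_lit 0) (XT.lf (nat_lit 0) (nat_lit 5482968332) (nat_lit 228) (nat_lit 72976472513) (nat_lit 304) (nat_lit 41355538233) (nat_lit 59) (nat_lit 5) (nat_lit 62) (nat_lit 5) (nat_lit 63) (nat_lit 5) (nat_lit 345) (nat_lit 305) (nat_lit 130)) (XT.lf (nat_lit 0) (nat_lit 98761937724) (nat_lit 228) (nat_lit 17261969777) (nat_lit 304) (nat_lit 8012805647) (nat_lit 59) (nat_lit 5) (nat_lit 62) (nat_lit 5) (nat_lit 63) (nat_lit 5) (nat_lit 346) (nat_lit 305) (nat_lit 129))))) (XT.nd (nat_lit 234) (nat_lit 608) (nat_lit 0) (XT.nd (nat_lit 78) (nat_lit 228) (nat_lit 0) (XT.lf (nat_lit 0) (nat_lit 27541155154) (nat_lit 228) (nat_lit 59520426945) (nat_lit 76) (nat_lit 41368040048) (nat_lit 56) (nat_lit 5) (nat_lit 59) (nat_lit 5) (nat_lit 57) (nat_lit 5) (nat_lit 347) (nat_lit 305) (nat_lit 128)) (XT.nd (nat_lit 78) (nat_lit 0) (nat_lit 0) (XT.lf (nat_lit 0) (nat_lit 35734108607)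 (nat_lit 228) (nat_lit 29753963133) (nat_lit 304) (nat_lit 67528296181) (nat_lit 53) (nat_lit 5) (nat_lit 56) (nat_lit 5) (nat_lit 57) (nat_lit 5) (nat_lit 348) (nat_lit 305) (nat_lit 127)) (XT.lf (nat_lit 0) (nat_lit 106242495255) (nat_lit 304) (nat_lit 1119020683) (nat_lit 76) (nat_lit 30443630794) (nat_lit 53) (nat_lit 5) (nat_lit 57) (nat_lit 5) (nat_lit 54) (nat_lit 5) (nat_lit 349) (nat_lit 305) (nat_lit 126)))) (XT.nd (nat_lit 156) (nat_lit 152) (nat_lit 0) (XT.nd (nat_lit 78) (nat_lit 228) (nat_lit 0) (XT.lf (nat_lit 0) (nat_lit 7368218536) (nat_lit 228) (nat_lit 41335599124) (nat_lit 76) (nat_lit 94089120480) (nat_lit 50) (nat_lit 5) (nat_lit 53) (nat_lit 5) (nat_lit 51) (nat_lit 5) (nat_lit 350) (nat_lit 305) (nat_lit 125)) (XT.lf (nat_lit 0) (nat_lit 48339092560) (nat_lit 304) (nat_lit 86088742758) (nat_lit 76) (nat_lit 13570522530) (nat_lit 47) (nat_lit 5) (nat_lit 51) (nat_lit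 5) (nat_lit 48) (nat_lit 5) (nat_lit 351) (nat_lit 305) (nat_lit 124))) (XT.nd (nat_lit 78) (nat_lit 0) (nat_lit 0) (XT.lf (nat_lit 0) (nat_lit 17575238169) (nat_lit 152) (nat_lit 74872595780) (nat_lit 228) (nat_lit 60983535372) (nat_lit 45) (nat_lit 5) (nat_lit 47) (nat_lit 5) (nat_lit 48) (nat_lit 5) (nat_lit 352) (nat_lit 305) (nat_lit 123)) (XT.lf (nat_lit 0) (nat_lit 128219938458) (nat_lit 152) (nat_lit 11427385227) (nat_lit 228) (nat_lit 19462148808) (nat_lit 45) (nat_lit 5) (nat_lit 47) (nat_lit 5) (nat_lit 48) (nat_lit 5) (nat_lit 353) (nat_lit 305) (nat_lit 122))))))) (XT.nd (nat_lit 1092) (nat_lit 5092) (nat_lit 0) (XT.nd (nat_lit 546) (nat_lit 1976) (nat_lit 0) (XT.nd (nat_lit 234) (nat_lit 0) (nat_lit 76) (XT.nd (nat_lit 78) (nat_lit 0) (nat_lit 0) (XT.lf (nat_lit 0) (nat_lit 5356520346) (nat_lit 0) (nat_lit 5356520346) (nat_lit 1140) (nat_lit 8588615709) (nat_lit 195) (nat_lit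 5) (nat_lit 195) (nat_lit 3) (nat_lit 210) (nat_lit 3) (nat_lit 306) (nat_lit 306) (nat_lit 168)) (XT.nd (nat_lit 78) (nat_lit 0) (nat_lit 76) (XT.lf (nat_lit 76) (nat_lit 1125346833) (nat_lit 0) (nat_lit 21097133298) (nat_lit 1216) (nat_lit 17338012005) (nat_lit 196) (nat_lit 5) (nat_lit 195) (nat_lit 5) (nat_lit 211) (nat_lit 5) (nat_lit 307) (nat_lit 306) (nat_lit 167)) (XT.lf (nat_lit 0) (nat_lit 23531251010) (nat_lit 1140) (nat_lit 8574765617) (nat_lit 1216) (nat_lit 8445342433) (nat_lit 196) (nat_lit 5) (nat_lit 211) (nat_lit 5) (nat_lit 212) (nat_lit 5) (nat_lit 308) (nat_lit 306) (nat_lit 166)))) (XT.nd (nat_lit 156) (nat_lit 0) (nat_lit 152) (XT.nd (nat_lit 78) (nat_lit 0) (nat_lit 76) (XT.lf (nat_lit 76) (nat_lit 23012297570) (nat_lit 0) (nat_lit 2323118222) (nat_lit 1216) (nat_lit 16243459822) (nat_lit 197) (nat_lit 5) (nat_lit 196) (nat_lit 5) (nat_lit 212) (nat_lit 5) (nat_lit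 309) (nat_lit 306) (nat_lit 165)) (XT.lf (nat_lit 76) (nat_lit 13688218646) (nat_lit 0) (nat_lit 14036569109) (nat_lit 1216) (nat_lit 14918134980) (nat_lit 198) (nat_lit 5) (nat_lit 197) (nat_lit 5) (nat_lit 213) (nat_lit 5) (nat_lit 310) (nat_lit 306) (nat_lit 164))) (XT.nd (nat_lit 78) (nat_lit 0) (nat_lit 76) (XT.lf (nat_lit 76) (nat_lit 4075073968) (nat_lit 0) (nat_lit 26576202290) (nat_lit 1216) (nat_lit 13096370999) (nat_lit 199) (nat_lit 5) (nat_lit 198) (nat_lit 5) (nat_lit 214) (nat_lit 5) (nat_lit 311) (nat_lit 306) (nat_lit 163)) (XT.lf (nat_lit 0) (nat_lit 34207374640) (nat_lit 1140) (nat_lit 5728761453) (nat_lit 1216) (nat_lit 4956977619) (nat_lit 199) (nat_lit 5) (nat_lit 214) (nat_lit 5) (nat_lit 215) (nat_lit 5) (nat_lit 312) (nat_lit 306) (nat_lit 162))))) (XT.nd (nat_lit 234) (nat_lit 1216) (nat_lit 0) (XT.nd (nat_lit 78) (nat_lit 1064) (nat_lit 0) (XT.lf (nat_lit 76) (nat_lit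 30231417946) (nat_lit 0) (nat_lit 8265226801) (nat_lit 1216) (nat_lit 7582551805) (nat_lit 200) (nat_lit 5) (nat_lit 199) (nat_lit 5) (nat_lit 215) (nat_lit 5) (nat_lit 313) (nat_lit 306) (nat_lit 161)) (XT.nd (nat_lit 78) (nat_lit 1140) (nat_lit 0) (XT.lf (nat_lit 76) (nat_lit 20952012308) (nat_lit 0) (nat_lit 22546212429) (nat_lit 1216) (nat_lit 3811427279) (nat_lit 201) (nat_lit 5) (nat_lit 200) (nat_lit 5) (nat_lit 216) (nat_lit 5) (nat_lit 314) (nat_lit 306) (nat_lit 160)) (XT.lf (nat_lit 0) (nat_lit 605838363) (nat_lit 1216) (nat_lit 37235429544) (nat_lit 1292) (nat_lit 10746508840) (nat_lit 185) (nat_lit 5) (nat_lit 201) (nat_lit 5) (nat_lit 202) (nat_lit 5) (nat_lit 315) (nat_lit 306) (nat_lit 159)))) (XT.nd (nat_lit 156) (nat_lit 1216) (nat_lit 0) (XT.nd (nat_lit 78) (nat_lit 0) (nat_lit 76) (XT.lf (nat_lit 76) (nat_lit 1331655977) (nat_lit 0) (nat_lit 4345507949) (nat_lit 1292)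 (nat_lit 44236154408) (nat_lit 186) (nat_lit 5) (nat_lit 185) (nat_lit 5) (nat_lit 202) (nat_lit 5) (nat_lit 316) (nat_lit 306) (nat_lit 158)) (XT.lf (nat_lit 0) (nat_lit 11682503454) (nat_lit 1216) (nat_lit 8991130098) (nat_lit 76) (nat_lit 30611093266) (nat_lit 186) (nat_lit 5) (nat_lit 202) (nat_lit 5) (nat_lit 187) (nat_lit 5) (nat_lit 317) (nat_lit 306) (nat_lit 157))) (XT.nd (nat_lit 78) (nat_lit 608) (nat_lit 0) (XT.lf (nat_lit 0) (nat_lit 18490669780) (nat_lit 760) (nat_lit 19676423369) (nat_lit 76) (nat_lit 14542538875) (nat_lit 177) (nat_lit 5) (nat_lit 187) (nat_lit 5) (nat_lit 178) (nat_lit 5) (nat_lit 318) (nat_lit 306) (nat_lit 156)) (XT.lf (nat_lit 0) (nat_lit 23387962104) (nat_lit 608) (nat_lit 2775530726) (nat_lit 684) (nat_lit 28026565156) (nat_lit 169) (nat_lit 5) (nat_lit 177) (nat_lit 5) (nat_lit 178) (nat_lit 5) (nat_lit 319) (nat_lit 306) (nat_lit 155)))))) (XT.nd (nat_lit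 546) (nat_lit 2052) (nat_lit 0) (XT.nd (nat_lit 234) (nat_lit 1976) (nat_lit 0) (XT.nd (nat_lit 78) (nat_lit 532) (nat_lit 0) (XT.lf (nat_lit 0) (nat_lit 13200874236) (nat_lit 532) (nat_lit 21678470402) (nat_lit 608) (nat_lit 20845381785) (nat_lit 162) (nat_lit 5) (nat_lit 169) (nat_lit 5) (nat_lit 170) (nat_lit 5) (nat_lit 320) (nat_lit 306) (nat_lit 154)) (XT.nd (nat_lit 78) (nat_lit 0) (nat_lit 0) (XT.lf (nat_lit 0) (nat_lit 2590991873) (nat_lit 532) (nat_lit 41957597534) (nat_lit 608) (nat_lit 12772013537) (nat_lit 155) (nat_lit 5) (nat_lit 162) (nat_lit 5) (nat_lit 163) (nat_lit 5) (nat_lit 321) (nat_lit 306) (nat_lit 153)) (XT.lf (nat_lit 0) (nat_lit 50624607052) (nat_lit 532) (nat_lit 4728692865) (nat_lit 608) (nat_lit 3623415813) (nat_lit 155) (nat_lit 5) (nat_lit 162) (nat_lit 5) (nat_lit 163) (nat_lit 5) (nat_lit 322) (nat_lit 306) (nat_lit 152)))) (XT.nd (nat_lit 156) (nat_lit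 912) (nat_lit 0) (XT.nd (nat_lit 78) (nat_lit 532) (nat_lit 0) (XT.lf (nat_lit 0) (nat_lit 6593285488) (nat_lit 532) (nat_lit 19950784373) (nat_lit 76) (nat_lit 34148018913) (nat_lit 148) (nat_lit 5) (nat_lit 155) (nat_lit 5) (nat_lit 149) (nat_lit 5) (nat_lit 323) (nat_lit 306) (nat_lit 151)) (XT.lf (nat_lit 0) (nat_lit 17795033163) (nat_lit 608) (nat_lit 32121961396) (nat_lit 76) (nat_lit 12558687416) (nat_lit 141) (nat_lit 5) (nat_lit 149) (nat_lit 5) (nat_lit 142) (nat_lit 5) (nat_lit 324) (nat_lit 306) (nat_lit 150))) (XT.nd (nat_lit 78) (nat_lit 456) (nat_lit 0) (XT.lf (nat_lit 0) (nat_lit 19353411716) (nat_lit 456) (nat_lit 10862674446) (nat_lit 532) (nat_lit 34112594271) (nat_lit 135) (nat_lit 5) (nat_lit 141) (nat_lit 5) (nat_lit 142) (nat_lit 5) (nat_lit 325) (nat_lit 306) (nat_lit 149)) (XT.lf (nat_lit 0) (nat_lit 7663544803) (nat_lit 456) (nat_lit 36289954931) (nat_lit 532) (nat_lit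 22299971876) (nat_lit 129) (nat_lit 5) (nat_lit 135) (nat_lit 5) (nat_lit 136) (nat_lit 5) (nat_lit 326) (nat_lit 306) (nat_lit 148))))) (XT.nd (nat_lit 234) (nat_lit 1140) (nat_lit 0) (XT.nd (nat_lit 78) (nat_lit 912) (nat_lit 0) (XT.lf (nat_lit 0) (nat_lit 58993602379) (nat_lit 532) (nat_lit 4543642217) (nat_lit 76) (nat_lit 4718785134) (nat_lit 129) (nat_lit 5) (nat_lit 136) (nat_lit 5) (nat_lit 130) (nat_lit 5) (nat_lit 327) (nat_lit 306) (nat_lit 147)) (XT.nd (nat_lit 78) (nat_lit 456) (nat_lit 0) (XT.lf (nat_lit 0) (nat_lit 5221831486) (nat_lit 456) (nat_lit 17515651512) (nat_lit 76) (nat_lit 47593521188) (nat_lit 123) (nat_lit 5) (nat_lit 129) (nat_lit 5) (nat_lit 124) (nat_lit 5) (nat_lit 328) (nat_lit 306) (nat_lit 146)) (XT.lf (nat_lit 0) (nat_lit 20881850234) (nat_lit 532) (nat_lit 31352760129) (nat_lit 76) (nat_lit 20253074245) (nat_lit 117) (nat_lit 5) (nat_lit 124) (nat_lit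 5) (nat_lit 118) (nat_lit 5) (nat_lit 329) (nat_lit 306) (nat_lit 145)))) (XT.nd (nat_lit 156) (nat_lit 380) (nat_lit 0) (XT.nd (nat_lit 78) (nat_lit 380) (nat_lit 0) (XT.lf (nat_lit 0) (nat_lit 28663105786) (nat_lit 380) (nat_lit 9347095617) (nat_lit 456) (nat_lit 36721439327) (nat_lit 112) (nat_lit 5) (nat_lit 117) (nat_lit 5) (nat_lit 118) (nat_lit 5) (nat_lit 330) (nat_lit 306) (nat_lit 144)) (XT.lf (nat_lit 0) (nat_lit 15205134976) (nat_lit 380) (nat_lit 41603241088) (nat_lit 456) (nat_lit 20255017964) (nat_lit 107) (nat_lit 5) (nat_lit 112) (nat_lit 5) (nat_lit 113) (nat_lit 5) (nat_lit 331) (nat_lit 306) (nat_lit 143))) (XT.nd (nat_lit 78) (nat_lit 76) (nat_lit 0) (XT.lf (nat_lit 0) (nat_lit 897939760) (nat_lit 304) (nat_lit 76254809385) (nat_lit 380) (nat_lit 2340798627) (nat_lit 103) (nat_lit 5) (nat_lit 107) (nat_lit 5) (nat_lit 108) (nat_lit 5) (nat_lit 332) (nat_lit 306) (nat_lit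 142)) (XT.lf (nat_lit 0) (nat_lit 17209127413) (nat_lit 380) (nat_lit 14528170793) (nat_lit 76) (nat_lit 50271321984) (nat_lit 102) (nat_lit 5) (nat_lit 107) (nat_lit 5) (nat_lit 103) (nat_lit 5) (nat_lit 333) (nat_lit 306) (nat_lit 141))))))))
noncomputable def xc114 : XT := (XT.nd (nat_lit 39078) (nat_lit 0) (nat_lit 2356) (XT.nd (nat_lit 1014) (nat_lit 1064) (nat_lit 0) (XT.nd (nat_lit 468) (nat_lit 1596) (nat_lit 0) (XT.nd (nat_lit 234) (nat_lit 684) (nat_lit 0) (XT.nd (nat_lit 78) (nat_lit 608) (nat_lit 0) (XT.lf (nat_lit 0) (nat_lit 38353468269) (nat_lit 456) (nat_lit 31016730479) (nat_lit 76) (nat_lit 15258593596) (nat_lit 97) (nat_lit 5) (nat_lit 103) (nat_lit 5) (nat_lit 98) (nat_lit 5) (nat_lit 334) (nat_lit 306) (nat_lit 140)) (XT.nd (nat_lit 78) (nat_lit 304) (nat_lit 0) (XT.lf (nat_lit 0) (nat_lit 38515149764) (nat_lit 304) (nat_lit 22879977888) (nat_lit 380) (nat_lit 25959643645)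 (nat_lit 93) (nat_lit 5) (nat_lit 97) (nat_lit 5) (nat_lit 98) (nat_lit 5) (nat_lit 335) (nat_lit 306) (nat_lit 139)) (XT.lf (nat_lit 0) (nat_lit 22141914612) (nat_lit 304) (nat_lit 64230098952) (nat_lit 380) (nat_lit 3821542503) (nat_lit 89) (nat_lit 5) (nat_lit 93) (nat_lit 5) (nat_lit 94) (nat_lit 5) (nat_lit 336) (nat_lit 306) (nat_lit 138)))) (XT.nd (nat_lit 78) (nat_lit 304) (nat_lit 0) (XT.lf (nat_lit 0) (nat_lit 4191121786) (nat_lit 304) (nat_lit 15630865030) (nat_lit 380) (nat_lit 73323366695) (nat_lit 84) (nat_lit 5) (nat_lit 88) (nat_lit 5) (nat_lit 89) (nat_lit 5) (nat_lit 337) (nat_lit 306) (nat_lit 137)) (XT.nd (nat_lit 78) (nat_lit 304) (nat_lit 0) (XT.lf (nat_lit 0) (nat_lit 45615758935) (nat_lit 380) (nat_lit 15143356355) (nat_lit 76) (nat_lit 35453078410) (nat_lit 84) (nat_lit 5) (nat_lit 89) (nat_lit 5) (nat_lit 85) (nat_lit 5) (nat_lit 338) (nat_lit 306) (nat_lit 136))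 (XT.lf (nat_lit 0) (nat_lit 63436304897) (nat_lit 304) (nat_lit 10029163750) (nat_lit 380) (nat_lit 25943920770) (nat_lit 80) (nat_lit 5) (nat_lit 84) (nat_lit 5) (nat_lit 85) (nat_lit 5) (nat_lit 339) (nat_lit 306) (nat_lit 135))))) (XT.nd (nat_lit 234) (nat_lit 988) (nat_lit 0) (XT.nd (nat_lit 78) (nat_lit 304) (nat_lit 0) (XT.lf (nat_lit 0) (nat_lit 946355118) (nat_lit 304) (nat_lit 58807887399) (nat_lit 76) (nat_lit 42982100591) (nat_lit 76) (nat_lit 5) (nat_lit 80) (nat_lit 5) (nat_lit 77) (nat_lit 5) (nat_lit 340) (nat_lit 306) (nat_lit 134)) (XT.nd (nat_lit 78) (nat_lit 0) (nat_lit 0) (XT.lf (nat_lit 0) (nat_lit 22427340831) (nat_lit 304) (nat_lit 6911785300) (nat_lit 380) (nat_lit 76861976863) (nat_lit 72) (nat_lit 5) (nat_lit 76) (nat_lit 5) (nat_lit 77) (nat_lit 5) (nat_lit 341) (nat_lit 306) (nat_lit 133)) (XT.lf (nat_lit 0) (nat_lit 60228616606) (nat_lit 380) (nat_lit 1342396967)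 (nat_lit 76) (nat_lit 48235775702) (nat_lit 72) (nat_lit 5) (nat_lit 77) (nat_lit 5) (nat_lit 73) (nat_lit 5) (nat_lit 342) (nat_lit 306) (nat_lit 132)))) (XT.nd (nat_lit 156) (nat_lit 456) (nat_lit 0) (XT.nd (nat_lit 78) (nat_lit 304) (nat_lit 0) (XT.lf (nat_lit 0) (nat_lit 86833499477) (nat_lit 228) (nat_lit 6732398659) (nat_lit 304) (nat_lit 19999763026) (nat_lit 69) (nat_lit 5) (nat_lit 72) (nat_lit 5) (nat_lit 73) (nat_lit 5) (nat_lit 343) (nat_lit 306) (nat_lit 131)) (XT.lf (nat_lit 0) (nat_lit 11956741931) (nat_lit 304) (nat_lit 54930160331) (nat_lit 76) (nat_lit 50588937914) (nat_lit 65) (nat_lit 5) (nat_lit 69) (nat_lit 5) (nat_lit 66) (nat_lit 5) (nat_lit 344) (nat_lit 306) (nat_lit 130))) (XT.nd (nat_lit 78) (nat_lit 228) (nat_lit 0) (XT.lf (nat_lit 0) (nat_lit 35695103219) (nat_lit 228) (nat_lit 10094087984) (nat_lit 304) (nat_lit 75765644761) (nat_lit 62) (nat_lit 5) (nat_lit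 65) (nat_lit 5) (nat_lit 66) (nat_lit 5) (nat_lit 345) (nat_lit 306) (nat_lit 129)) (XT.lf (nat_lit 0) (nat_lit 5808604638) (nat_lit 228) (nat_lit 76606690342) (nat_lit 304) (nat_lit 43389426263) (nat_lit 59) (nat_lit 5) (nat_lit 62) (nat_lit 5) (nat_lit 63) (nat_lit 5) (nat_lit 346) (nat_lit 306) (nat_lit 128)))))) (XT.nd (nat_lit 37518) (nat_lit 0) (nat_lit 11400) (XT.nd (nat_lit 234) (nat_lit 608) (nat_lit 0) (XT.nd (nat_lit 78) (nat_lit 456) (nat_lit 0) (XT.lf (nat_lit 0) (nat_lit 103749070695) (nat_lit 228) (nat_lit 18107348459) (nat_lit 304) (nat_lit 8381170804) (nat_lit 59) (nat_lit 5) (nat_lit 62) (nat_lit 5) (nat_lit 63) (nat_lit 5) (nat_lit 347) (nat_lit 306) (nat_lit 127)) (XT.nd (nat_lit 78) (nat_lit 228) (nat_lit 0) (XT.lf (nat_lit 0) (nat_lit 28948984964) (nat_lit 228) (nat_lit 62447421581) (nat_lit 76) (nat_lit 43453755648) (nat_lit 56) (nat_lit 5) (nat_lit 59) (nat_lit 5)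 (nat_lit 57) (nat_lit 5) (nat_lit 348) (nat_lit 306) (nat_lit 126)) (XT.lf (nat_lit 0) (nat_lit 37568435408) (nat_lit 228) (nat_lit 31223804401) (nat_lit 304) (nat_lit 70874036526) (nat_lit 53) (nat_lit 5) (nat_lit 56) (nat_lit 5) (nat_lit 57) (nat_lit 5) (nat_lit 349) (nat_lit 306) (nat_lit 125)))) (XT.nd (nat_lit 156) (nat_lit 380) (nat_lit 0) (XT.nd (nat_lit 78) (nat_lit 228) (nat_lit 0) (XT.lf (nat_lit 0) (nat_lit 111583130621) (nat_lit 304) (nat_lit 1128914858) (nat_lit 76) (nat_lit 31982487036) (nat_lit 53) (nat_lit 5) (nat_lit 57) (nat_lit 5) (nat_lit 54) (nat_lit 5) (nat_lit 350) (nat_lit 306) (nat_lit 124)) (XT.lf (nat_lit 0) (nat_lit 7764500715) (nat_lit 228) (nat_lit 43357072727) (nat_lit 76) (nat_lit 98810160456) (nat_lit 50) (nat_lit 5) (nat_lit 53) (nat_lit 5) (nat_lit 51) (nat_lit 5) (nat_lit 351) (nat_lit 306) (nat_lit 123))) (XT.nd (nat_lit 78) (nat_lit 152) (nat_lit 0) (XT.lf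 (nat_lit 0) (nat_lit 50783178070) (nat_lit 304) (nat_lit 90348512734) (nat_lit 76) (nat_lit 14265756712) (nat_lit 47) (nat_lit 5) (nat_lit 51) (nat_lit 5) (nat_lit 48) (nat_lit 5) (nat_lit 352) (nat_lit 306) (nat_lit 122)) (XT.lf (nat_lit 0) (nat_lit 18497386864) (nat_lit 152) (nat_lit 78599094778) (nat_lit 228) (nat_lit 64005654848) (nat_lit 45) (nat_lit 5) (nat_lit 47) (nat_lit 5) (nat_lit 48) (nat_lit 5) (nat_lit 353) (nat_lit 306) (nat_lit 121))))) (XT.nd (nat_lit 234) (nat_lit 0) (nat_lit 76) (XT.nd (nat_lit 78) (nat_lit 0) (nat_lit 0) (XT.lf (nat_lit 0) (nat_lit 5658318511) (nat_lit 0) (nat_lit 5658318511) (nat_lit 1140) (nat_lit 8947984050) (nat_lit 195) (nat_lit 5) (nat_lit 195) (nat_lit 3) (nat_lit 210) (nat_lit 3) (nat_lit 307) (nat_lit 307) (nat_lit 166)) (XT.nd (nat_lit 78) (nat_lit 0) (nat_lit 76) (XT.lf (nat_lit 76) (nat_lit 1252360125) (nat_lit 0) (nat_lit 22210719751) (nat_lit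 1216) (nat_lit 18071400556) (nat_lit 196) (nat_lit 5) (nat_lit 195) (nat_lit 5) (nat_lit 211) (nat_lit 5) (nat_lit 308) (nat_lit 307) (nat_lit 165)) (XT.lf (nat_lit 0) (nat_lit 24830586126) (nat_lit 1140) (nat_lit 8931745034) (nat_lit 1216) (nat_lit 8812767879) (nat_lit 196) (nat_lit 5) (nat_lit 211) (nat_lit 5) (nat_lit 212) (nat_lit 5) (nat_lit 309) (nat_lit 307) (nat_lit 164)))) (XT.nd (nat_lit 156) (nat_lit 0) (nat_lit 152) (XT.nd (nat_lit 78) (nat_lit 0) (nat_lit 76) (XT.lf (nat_lit 76) (nat_lit 24232614358) (nat_lit 0) (nat_lit 2487168492) (nat_lit 1216) (nat_lit 16934370754) (nat_lit 197) (nat_lit 5) (nat_lit 196) (nat_lit 5) (nat_lit 212) (nat_lit 5) (nat_lit 310) (nat_lit 307) (nat_lit 163)) (XT.lf (nat_lit 76) (nat_lit 14444341400) (nat_lit 0) (nat_lit 14778933061) (nat_lit 1216) (nat_lit 15548295656) (nat_lit 198) (nat_lit 5) (nat_lit 197) (nat_lit 5) (nat_lit 213) (nat_lit 5)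 (nat_lit 311) (nat_lit 307) (nat_lit 162))) (XT.nd (nat_lit 78) (nat_lit 0) (nat_lit 76) (XT.lf (nat_lit 76) (nat_lit 4352260830) (nat_lit 0) (nat_lit 27938816236) (nat_lit 1216) (nat_lit 13640610363) (nat_lit 199) (nat_lit 5) (nat_lit 198) (nat_lit 5) (nat_lit 214) (nat_lit 5) (nat_lit 312) (nat_lit 307) (nat_lit 161)) (XT.lf (nat_lit 0) (nat_lit 36019564374) (nat_lit 1140) (nat_lit 5941770671) (nat_lit 1216) (nat_lit 5173260598) (nat_lit 199) (nat_lit 5) (nat_lit 214) (nat_lit 5) (nat_lit 215) (nat_lit 5) (nat_lit 313) (nat_lit 307) (nat_lit 160))))))) (XT.nd (nat_lit 1092) (nat_lit 4028) (nat_lit 0) (XT.nd (nat_lit 546) (nat_lit 3040) (nat_lit 0) (XT.nd (nat_lit 234) (nat_lit 1216) (nat_lit 0) (XT.nd (nat_lit 78) (nat_lit 1064) (nat_lit 0) (XT.lf (nat_lit 76) (nat_lit 31814312875) (nat_lit 0) (nat_lit 8704822103) (nat_lit 1216) (nat_lit 7860978210) (nat_lit 200) (nat_lit 5) (nat_lit 199)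 (nat_lit 5) (nat_lit 215) (nat_lit 5) (nat_lit 314) (nat_lit 307) (nat_lit 159)) (XT.nd (nat_lit 78) (nat_lit 1140) (nat_lit 0) (XT.lf (nat_lit 76) (nat_lit 22072094308) (nat_lit 0) (nat_lit 23694504931) (nat_lit 1216) (nat_lit 3905623431) (nat_lit 201) (nat_lit 5) (nat_lit 200) (nat_lit 5) (nat_lit 216) (nat_lit 5) (nat_lit 315) (nat_lit 307) (nat_lit 158)) (XT.lf (nat_lit 0) (nat_lit 726643959) (nat_lit 1216) (nat_lit 39021871609) (nat_lit 1292) (nat_lit 11265834699) (nat_lit 185) (nat_lit 5) (nat_lit 201) (nat_lit 5) (nat_lit 202) (nat_lit 5) (nat_lit 316) (nat_lit 307) (nat_lit 157)))) (XT.nd (nat_lit 156) (nat_lit 1216) (nat_lit 0) (XT.nd (nat_lit 78) (nat_lit 0) (nat_lit 76) (XT.lf (nat_lit 76) (nat_lit 1471408886) (nat_lit 0) (nat_lit 4576520095) (nat_lit 1292) (nat_lit 46358352914) (nat_lit 186) (nat_lit 5) (nat_lit 185) (nat_lit 5) (nat_lit 202) (nat_lit 5) (nat_lit 317) (nat_lit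 307) (nat_lit 156)) (XT.lf (nat_lit 0) (nat_lit 12349271306) (nat_lit 1216) (nat_lit 9368301353) (nat_lit 76) (nat_lit 32128820600) (nat_lit 186) (nat_lit 5) (nat_lit 202) (nat_lit 5) (nat_lit 187) (nat_lit 5) (nat_lit 318) (nat_lit 307) (nat_lit 155))) (XT.nd (nat_lit 78) (nat_lit 608) (nat_lit 0) (XT.lf (nat_lit 0) (nat_lit 19494499235) (nat_lit 760) (nat_lit 20587379184) (nat_lit 76) (nat_lit 15260770024) (nat_lit 177) (nat_lit 5) (nat_lit 187) (nat_lit 5) (nat_lit 178) (nat_lit 5) (nat_lit 319) (nat_lit 307) (nat_lit 154)) (XT.lf (nat_lit 0) (nat_lit 24628136892) (nat_lit 608) (nat_lit 2919730896) (nat_lit 684) (nat_lit 29349324894) (nat_lit 169) (nat_lit 5) (nat_lit 177) (nat_lit 5) (nat_lit 178) (nat_lit 5) (nat_lit 320) (nat_lit 307) (nat_lit 153))))) (XT.nd (nat_lit 234) (nat_lit 1976) (nat_lit 0) (XT.nd (nat_lit 78) (nat_lit 532) (nat_lit 0) (XT.lf (nat_lit 0) (nat_lit 13932016791)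 (nat_lit 532) (nat_lit 22764500601) (nat_lit 608) (nat_lit 21812170906) (nat_lit 162) (nat_lit 5) (nat_lit 169) (nat_lit 5) (nat_lit 170) (nat_lit 5) (nat_lit 321) (nat_lit 307) (nat_lit 152)) (XT.nd (nat_lit 78) (nat_lit 0) (nat_lit 0) (XT.lf (nat_lit 0) (nat_lit 2791831195) (nat_lit 532) (nat_lit 44054573221) (nat_lit 608) (nat_lit 13338042556) (nat_lit 155) (nat_lit 5) (nat_lit 162) (nat_lit 5) (nat_lit 163) (nat_lit 5) (nat_lit 322) (nat_lit 307) (nat_lit 151)) (XT.lf (nat_lit 0) (nat_lit 53223732384) (nat_lit 532) (nat_lit 4964266375) (nat_lit 608) (nat_lit 3735470739) (nat_lit 155) (nat_lit 5) (nat_lit 162) (nat_lit 5) (nat_lit 163) (nat_lit 5) (nat_lit 323) (nat_lit 307) (nat_lit 150)))) (XT.nd (nat_lit 156) (nat_lit 912) (nat_lit 0) (XT.nd (nat_lit 78) (nat_lit 532) (nat_lit 0) (XT.lf (nat_lit 0) (nat_lit 6988157652) (nat_lit 532) (nat_lit 20878997095) (nat_lit 76) (nat_lit 35857516577)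 (nat_lit 148) (nat_lit 5) (nat_lit 155) (nat_lit 5) (nat_lit 149) (nat_lit 5) (nat_lit 324) (nat_lit 307) (nat_lit 149)) (XT.lf (nat_lit 0) (nat_lit 18747578994) (nat_lit 608) (nat_lit 33658819287) (nat_lit 76) (nat_lit 13191121443) (nat_lit 141) (nat_lit 5) (nat_lit 149) (nat_lit 5) (nat_lit 142) (nat_lit 5) (nat_lit 325) (nat_lit 307) (nat_lit 148))) (XT.nd (nat_lit 78) (nat_lit 456) (nat_lit 0) (XT.lf (nat_lit 0) (nat_lit 20388337726) (nat_lit 456) (nat_lit 11399003219) (nat_lit 532) (nat_lit 35755900448) (nat_lit 135) (nat_lit 5) (nat_lit 141) (nat_lit 5) (nat_lit 142) (nat_lit 5) (nat_lit 326) (nat_lit 307) (nat_lit 147)) (XT.lf (nat_lit 0) (nat_lit 8113805437) (nat_lit 456) (nat_lit 38095648310) (nat_lit 532) (nat_lit 23354886361) (nat_lit 129) (nat_lit 5) (nat_lit 135) (nat_lit 5) (nat_lit 136) (nat_lit 5) (nat_lit 327) (nat_lit 307) (nat_lit 146)))))) (XT.nd (nat_lit 546) (nat_lit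 1976) (nat_lit 0) (XT.nd (nat_lit 234) (nat_lit 1140) (nat_lit 0) (XT.nd (nat_lit 78) (nat_lit 912) (nat_lit 0) (XT.lf (nat_lit 0) (nat_lit 61998866935) (nat_lit 532) (nat_lit 4705296858) (nat_lit 76) (nat_lit 4962945879) (nat_lit 129) (nat_lit 5) (nat_lit 136) (nat_lit 5) (nat_lit 130) (nat_lit 5) (nat_lit 328) (nat_lit 307) (nat_lit 145)) (XT.nd (nat_lit 78) (nat_lit 456) (nat_lit 0) (XT.lf (nat_lit 0) (nat_lit 5537053081) (nat_lit 456) (nat_lit 18326657715) (nat_lit 76) (nat_lit 49982169758) (nat_lit 123) (nat_lit 5) (nat_lit 129) (nat_lit 5) (nat_lit 124) (nat_lit 5) (nat_lit 329) (nat_lit 307) (nat_lit 144)) (XT.lf (nat_lit 0) (nat_lit 21978203423) (nat_lit 532) (nat_lit 32855969738) (nat_lit 76) (nat_lit 21276280294) (nat_lit 117) (nat_lit 5) (nat_lit 124) (nat_lit 5) (nat_lit 118) (nat_lit 5) (nat_lit 330) (nat_lit 307) (nat_lit 143)))) (XT.nd (nat_lit 156) (nat_lit 380) (nat_lit 0)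 (XT.nd (nat_lit 78) (nat_lit 380) (nat_lit 0) (XT.lf (nat_lit 0) (nat_lit 30158842645) (nat_lit 380) (nat_lit 9802242474) (nat_lit 456) (nat_lit 38505581141) (nat_lit 112) (nat_lit 5) (nat_lit 117) (nat_lit 5) (nat_lit 118) (nat_lit 5) (nat_lit 331) (nat_lit 307) (nat_lit 142)) (XT.lf (nat_lit 0) (nat_lit 16027577311) (nat_lit 380) (nat_lit 43669901984) (nat_lit 456) (nat_lit 21217580760) (nat_lit 107) (nat_lit 5) (nat_lit 112) (nat_lit 5) (nat_lit 113) (nat_lit 5) (nat_lit 332) (nat_lit 307) (nat_lit 141))) (XT.nd (nat_lit 78) (nat_lit 76) (nat_lit 0) (XT.lf (nat_lit 0) (nat_lit 1004574308) (nat_lit 304) (nat_lit 80052895477) (nat_lit 380) (nat_lit 2409301793) (nat_lit 103) (nat_lit 5) (nat_lit 107) (nat_lit 5) (nat_lit 108) (nat_lit 5) (nat_lit 333) (nat_lit 307) (nat_lit 140)) (XT.lf (nat_lit 0) (nat_lit 18114907248) (nat_lit 380) (nat_lit 15194841640) (nat_lit 76) (nat_lit 52797904617)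 (nat_lit 102) (nat_lit 5) (nat_lit 107) (nat_lit 5) (nat_lit 103) (nat_lit 5) (nat_lit 334) (nat_lit 307) (nat_lit 139))))) (XT.nd (nat_lit 234) (nat_lit 988) (nat_lit 0) (XT.nd (nat_lit 78) (nat_lit 608) (nat_lit 0) (XT.lf (nat_lit 0) (nat_lit 40315002145) (nat_lit 456) (nat_lit 32508331292) (nat_lit 76) (nat_lit 16035546529) (nat_lit 97) (nat_lit 5) (nat_lit 103) (nat_lit 5) (nat_lit 98) (nat_lit 5) (nat_lit 335) (nat_lit 307) (nat_lit 138)) (XT.nd (nat_lit 78) (nat_lit 304) (nat_lit 0) (XT.lf (nat_lit 0) (nat_lit 40498444984) (nat_lit 304) (nat_lit 24008764007) (nat_lit 380) (nat_lit 27213996663) (nat_lit 93) (nat_lit 5) (nat_lit 97) (nat_lit 5) (nat_lit 98) (nat_lit 5) (nat_lit 336) (nat_lit 307) (nat_lit 137)) (XT.lf (nat_lit 0) (nat_lit 23306023547) (nat_lit 304) (nat_lit 67425587495) (nat_lit 380) (nat_lit 3970360107) (nat_lit 89) (nat_lit 5) (nat_lit 93) (nat_lit 5) (nat_lit 94) (nat_lit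 5) (nat_lit 337) (nat_lit 307) (nat_lit 136)))) (XT.nd (nat_lit 156) (nat_lit 608) (nat_lit 0) (XT.nd (nat_lit 78) (nat_lit 0) (nat_lit 0) (XT.lf (nat_lit 0) (nat_lit 4456888754) (nat_lit 304) (nat_lit 16396199533) (nat_lit 380) (nat_lit 76948302492) (nat_lit 84) (nat_lit 5) (nat_lit 88) (nat_lit 5) (nat_lit 89) (nat_lit 5) (nat_lit 338) (nat_lit 307) (nat_lit 135)) (XT.lf (nat_lit 0) (nat_lit 47934792537) (nat_lit 380) (nat_lit 15845966575) (nat_lit 76) (nat_lit 37240868005) (nat_lit 84) (nat_lit 5) (nat_lit 89) (nat_lit 5) (nat_lit 85) (nat_lit 5) (nat_lit 339) (nat_lit 307) (nat_lit 134))) (XT.nd (nat_lit 78) (nat_lit 304) (nat_lit 0) (XT.lf (nat_lit 0) (nat_lit 66661113857) (nat_lit 304) (nat_lit 10514562063) (nat_lit 380) (nat_lit 27203047429) (nat_lit 80) (nat_lit 5) (nat_lit 84) (nat_lit 5) (nat_lit 85) (nat_lit 5) (nat_lit 340) (nat_lit 307) (nat_lit 133)) (XT.lf (nat_lit 0) (nat_lit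 1029879369) (nat_lit 304) (nat_lit 61695108041) (nat_lit 76) (nat_lit 45147061209) (nat_lit 76) (nat_lit 5) (nat_lit 80) (nat_lit 5) (nat_lit 77) (nat_lit 5) (nat_lit 341) (nat_lit 307) (nat_lit 132))))))))
noncomputable def xc115 : XT := (XT.nd (nat_lit 39312) (nat_lit 0) (nat_lit 228) (XT.nd (nat_lit 38220) (nat_lit 0) (nat_lit 7980) (XT.nd (nat_lit 546) (nat_lit 684) (nat_lit 0) (XT.nd (nat_lit 234) (nat_lit 760) (nat_lit 0) (XT.nd (nat_lit 78) (nat_lit 228) (nat_lit 0) (XT.lf (nat_lit 0) (nat_lit 23600357386) (nat_lit 304) (nat_lit 7240703915) (nat_lit 380) (nat_lit 80669023239) (nat_lit 72) (nat_lit 5) (nat_lit 76) (nat_lit 5) (nat_lit 77) (nat_lit 5) (nat_lit 342) (nat_lit 307) (nat_lit 131)) (XT.nd (nat_lit 78) (nat_lit 228) (nat_lit 0) (XT.lf (nat_lit 0) (nat_lit 63273513257) (nat_lit 380) (nat_lit 1359456941) (nat_lit 76) (nat_lit 50663131483) (nat_lit 72) (nat_lit 5) (nat_lit 77)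 (nat_lit 5) (nat_lit 73) (nat_lit 5) (nat_lit 343) (nat_lit 307) (nat_lit 130)) (XT.lf (nat_lit 0) (nat_lit 91223799370) (nat_lit 228) (nat_lit 7052733296) (nat_lit 304) (nat_lit 20966419382) (nat_lit 69) (nat_lit 5) (nat_lit 72) (nat_lit 5) (nat_lit 73) (nat_lit 5) (nat_lit 344) (nat_lit 307) (nat_lit 129)))) (XT.nd (nat_lit 156) (nat_lit 228) (nat_lit 0) (XT.nd (nat_lit 78) (nat_lit 228) (nat_lit 0) (XT.lf (nat_lit 0) (nat_lit 12586321098) (nat_lit 304) (nat_lit 57627973520) (nat_lit 76) (nat_lit 53134364977) (nat_lit 65) (nat_lit 5) (nat_lit 69) (nat_lit 5) (nat_lit 66) (nat_lit 5) (nat_lit 345) (nat_lit 307) (nat_lit 128)) (XT.lf (nat_lit 0) (nat_lit 37527157380) (nat_lit 228) (nat_lit 10582178594) (nat_lit 304) (nat_lit 79522301873) (nat_lit 62) (nat_lit 5) (nat_lit 65) (nat_lit 5) (nat_lit 66) (nat_lit 5) (nat_lit 346) (nat_lit 307) (nat_lit 127))) (XT.nd (nat_lit 78) (nat_lit 0) (nat_lit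 0) (XT.lf (nat_lit 0) (nat_lit 6145735903) (nat_lit 228) (nat_lit 80420148852) (nat_lit 304) (nat_lit 45528159362) (nat_lit 59) (nat_lit 5) (nat_lit 62) (nat_lit 5) (nat_lit 63) (nat_lit 5) (nat_lit 347) (nat_lit 307) (nat_lit 126)) (XT.lf (nat_lit 0) (nat_lit 108981001404) (nat_lit 228) (nat_lit 18996643494) (nat_lit 304) (nat_lit 8770954854) (nat_lit 59) (nat_lit 5) (nat_lit 62) (nat_lit 5) (nat_lit 63) (nat_lit 5) (nat_lit 348) (nat_lit 307) (nat_lit 125))))) (XT.nd (nat_lit 234) (nat_lit 228) (nat_lit 0) (XT.nd (nat_lit 78) (nat_lit 228) (nat_lit 0) (XT.lf (nat_lit 0) (nat_lit 30424345370) (nat_lit 228) (nat_lit 65525323987) (nat_lit 76) (nat_lit 45642147374) (nat_lit 56) (nat_lit 5) (nat_lit 59) (nat_lit 5) (nat_lit 57) (nat_lit 5) (nat_lit 349) (nat_lit 307) (nat_lit 124)) (XT.nd (nat_lit 78) (nat_lit 0) (nat_lit 0) (XT.lf (nat_lit 0) (nat_lit 39490051165) (nat_lit 228) (nat_lit 32768797896)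 (nat_lit 304) (nat_lit 74389915709) (nat_lit 53) (nat_lit 5) (nat_lit 56) (nat_lit 5) (nat_lit 57) (nat_lit 5) (nat_lit 350) (nat_lit 307) (nat_lit 123)) (XT.lf (nat_lit 0) (nat_lit 117188147109) (nat_lit 304) (nat_lit 1143585672) (nat_lit 76) (nat_lit 33596735833) (nat_lit 53) (nat_lit 5) (nat_lit 57) (nat_lit 5) (nat_lit 54) (nat_lit 5) (nat_lit 351) (nat_lit 307) (nat_lit 122)))) (XT.nd (nat_lit 37284) (nat_lit 0) (nat_lit 11020) (XT.nd (nat_lit 37206) (nat_lit 0) (nat_lit 11020) (XT.lf (nat_lit 0) (nat_lit 8178005797) (nat_lit 228) (nat_lit 45483832165) (nat_lit 76) (nat_lit 103765710612) (nat_lit 50) (nat_lit 5) (nat_lit 53) (nat_lit 5) (nat_lit 51) (nat_lit 5) (nat_lit 352) (nat_lit 307) (nat_lit 121)) (XT.lf (nat_lit 0) (nat_lit 5972048177) (nat_lit 0) (nat_lit 5972048177) (nat_lit 1140) (nat_lit 9331834550) (nat_lit 195) (nat_lit 5) (nat_lit 195) (nat_lit 3) (nat_lit 210) (nat_lit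 3) (nat_lit 308) (nat_lit 308) (nat_lit 164))) (XT.nd (nat_lit 78) (nat_lit 0) (nat_lit 76) (XT.lf (nat_lit 76) (nat_lit 1379146795) (nat_lit 0) (nat_lit 23374525389) (nat_lit 1216) (nat_lit 18853871220) (nat_lit 196) (nat_lit 5) (nat_lit 195) (nat_lit 5) (nat_lit 211) (nat_lit 5) (nat_lit 309) (nat_lit 308) (nat_lit 163)) (XT.lf (nat_lit 0) (nat_lit 26183473767) (nat_lit 1140) (nat_lit 9313244881) (nat_lit 1216) (nat_lit 9203663257) (nat_lit 196) (nat_lit 5) (nat_lit 211) (nat_lit 5) (nat_lit 212) (nat_lit 5) (nat_lit 310) (nat_lit 308) (nat_lit 162)))))) (XT.nd (nat_lit 546) (nat_lit 2280) (nat_lit 0) (XT.nd (nat_lit 234) (nat_lit 836) (nat_lit 0) (XT.nd (nat_lit 78) (nat_lit 0) (nat_lit 76) (XT.lf (nat_lit 76) (nat_lit 25507466763) (nat_lit 0) (nat_lit 2654968513) (nat_lit 1216) (nat_lit 17671101029) (nat_lit 197) (nat_lit 5) (nat_lit 196) (nat_lit 5) (nat_lit 212) (nat_lit 5) (nat_lit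 311) (nat_lit 308) (nat_lit 161)) (XT.nd (nat_lit 78) (nat_lit 0) (nat_lit 76) (XT.lf (nat_lit 76) (nat_lit 15231603207) (nat_lit 0) (nat_lit 15554646604) (nat_lit 1216) (nat_lit 16220725338) (nat_lit 198) (nat_lit 5) (nat_lit 197) (nat_lit 5) (nat_lit 213) (nat_lit 5) (nat_lit 312) (nat_lit 308) (nat_lit 160)) (XT.lf (nat_lit 76) (nat_lit 4636479916) (nat_lit 0) (nat_lit 29366418120) (nat_lit 1216) (nat_lit 14222342299) (nat_lit 199) (nat_lit 5) (nat_lit 198) (nat_lit 5) (nat_lit 214) (nat_lit 5) (nat_lit 313) (nat_lit 308) (nat_lit 159)))) (XT.nd (nat_lit 156) (nat_lit 1064) (nat_lit 0) (XT.nd (nat_lit 78) (nat_lit 0) (nat_lit 0) (XT.lf (nat_lit 0) (nat_lit 37912897243) (nat_lit 1140) (nat_lit 6172257069) (nat_lit 1216) (nat_lit 5403292424) (nat_lit 199) (nat_lit 5) (nat_lit 214) (nat_lit 5) (nat_lit 215) (nat_lit 5) (nat_lit 314) (nat_lit 308) (nat_lit 158)) (XT.lf (nat_lit 76) (nat_lit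 33469721518) (nat_lit 0) (nat_lit 9163948888) (nat_lit 1216) (nat_lit 8162688177) (nat_lit 200) (nat_lit 5) (nat_lit 199) (nat_lit 5) (nat_lit 215) (nat_lit 5) (nat_lit 315) (nat_lit 308) (nat_lit 157))) (XT.nd (nat_lit 78) (nat_lit 1140) (nat_lit 0) (XT.lf (nat_lit 76) (nat_lit 23241441775) (nat_lit 0) (nat_lit 24898261362) (nat_lit 1216) (nat_lit 4013489445) (nat_lit 201) (nat_lit 5) (nat_lit 200) (nat_lit 5) (nat_lit 216) (nat_lit 5) (nat_lit 316) (nat_lit 308) (nat_lit 156)) (XT.lf (nat_lit 0) (nat_lit 845074732) (nat_lit 1216) (nat_lit 40904639191) (nat_lit 1292) (nat_lit 11812800281) (nat_lit 185) (nat_lit 5) (nat_lit 201) (nat_lit 5) (nat_lit 202) (nat_lit 5) (nat_lit 317) (nat_lit 308) (nat_lit 155))))) (XT.nd (nat_lit 234) (nat_lit 1672) (nat_lit 0) (XT.nd (nat_lit 78) (nat_lit 608) (nat_lit 0) (XT.lf (nat_lit 76) (nat_lit 1611346777) (nat_lit 0) (nat_lit 4817805735) (nat_lit 1292)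 (nat_lit 48594992361) (nat_lit 186) (nat_lit 5) (nat_lit 185) (nat_lit 5) (nat_lit 202) (nat_lit 5) (nat_lit 318) (nat_lit 308) (nat_lit 154)) (XT.nd (nat_lit 78) (nat_lit 684) (nat_lit 0) (XT.lf (nat_lit 0) (nat_lit 13041694217) (nat_lit 1216) (nat_lit 9771060866) (nat_lit 76) (nat_lit 33723626865) (nat_lit 186) (nat_lit 5) (nat_lit 202) (nat_lit 5) (nat_lit 187) (nat_lit 5) (nat_lit 319) (nat_lit 308) (nat_lit 153)) (XT.lf (nat_lit 0) (nat_lit 20541147975) (nat_lit 760) (nat_lit 21550657120) (nat_lit 76) (nat_lit 16015739777) (nat_lit 177) (nat_lit 5) (nat_lit 187) (nat_lit 5) (nat_lit 178) (nat_lit 5) (nat_lit 320) (nat_lit 308) (nat_lit 152)))) (XT.nd (nat_lit 156) (nat_lit 532) (nat_lit 0) (XT.nd (nat_lit 78) (nat_lit 532) (nat_lit 0) (XT.lf (nat_lit 0) (nat_lit 25923740274) (nat_lit 608) (nat_lit 3070636836) (nat_lit 684) (nat_lit 30745527176) (nat_lit 169) (nat_lit 5) (nat_lit 177)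 (nat_lit 5) (nat_lit 178) (nat_lit 5) (nat_lit 321) (nat_lit 308) (nat_lit 151)) (XT.lf (nat_lit 0) (nat_lit 14693106378) (nat_lit 532) (nat_lit 23904636451) (nat_lit 608) (nat_lit 22834316895) (nat_lit 162) (nat_lit 5) (nat_lit 169) (nat_lit 5) (nat_lit 170) (nat_lit 5) (nat_lit 322) (nat_lit 308) (nat_lit 150))) (XT.nd (nat_lit 78) (nat_lit 0) (nat_lit 0) (XT.lf (nat_lit 0) (nat_lit 2996084640) (nat_lit 532) (nat_lit 46256481756) (nat_lit 608) (nat_lit 13939120051) (nat_lit 155) (nat_lit 5) (nat_lit 162) (nat_lit 5) (nat_lit 163) (nat_lit 5) (nat_lit 323) (nat_lit 308) (nat_lit 149)) (XT.lf (nat_lit 0) (nat_lit 55946501752) (nat_lit 532) (nat_lit 5211698621) (nat_lit 608) (nat_lit 3859554150) (nat_lit 155) (nat_lit 5) (nat_lit 162) (nat_lit 5) (nat_lit 163) (nat_lit 5) (nat_lit 324) (nat_lit 308) (nat_lit 148))))))) (XT.nd (nat_lit 1092) (nat_lit 2736) (nat_lit 0) (XT.nd (nat_lit 546) (nat_lit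 2128) (nat_lit 0) (XT.nd (nat_lit 234) (nat_lit 1368) (nat_lit 0) (XT.nd (nat_lit 78) (nat_lit 988) (nat_lit 0) (XT.lf (nat_lit 0) (nat_lit 7396711013) (nat_lit 532) (nat_lit 21860065774) (nat_lit 76) (nat_lit 37652294192) (nat_lit 148) (nat_lit 5) (nat_lit 155) (nat_lit 5) (nat_lit 149) (nat_lit 5) (nat_lit 325) (nat_lit 308) (nat_lit 147)) (XT.nd (nat_lit 78) (nat_lit 456) (nat_lit 0) (XT.lf (nat_lit 0) (nat_lit 19741914109) (nat_lit 608) (nat_lit 35278957367) (nat_lit 76) (nat_lit 13854758836) (nat_lit 141) (nat_lit 5) (nat_lit 149) (nat_lit 5) (nat_lit 142) (nat_lit 5) (nat_lit 326) (nat_lit 308) (nat_lit 146)) (XT.lf (nat_lit 0) (nat_lit 21468757264) (nat_lit 456) (nat_lit 11962781091) (nat_lit 532) (nat_lit 37487166186) (nat_lit 135) (nat_lit 5) (nat_lit 141) (nat_lit 5) (nat_lit 142) (nat_lit 5) (nat_lit 327) (nat_lit 308) (nat_lit 145)))) (XT.nd (nat_lit 156) (nat_lit 912) (nat_lit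 0) (XT.nd (nat_lit 78) (nat_lit 0) (nat_lit 0) (XT.lf (nat_lit 0) (nat_lit 8580342324) (nat_lit 456) (nat_lit 39992444904) (nat_lit 532) (nat_lit 24468132622) (nat_lit 129) (nat_lit 5) (nat_lit 135) (nat_lit 5) (nat_lit 136) (nat_lit 5) (nat_lit 328) (nat_lit 308) (nat_lit 144)) (XT.lf (nat_lit 0) (nat_lit 65149227004) (nat_lit 532) (nat_lit 4881126354) (nat_lit 76) (nat_lit 5218550305) (nat_lit 129) (nat_lit 5) (nat_lit 136) (nat_lit 5) (nat_lit 130) (nat_lit 5) (nat_lit 329) (nat_lit 308) (nat_lit 143))) (XT.nd (nat_lit 78) (nat_lit 456) (nat_lit 0) (XT.lf (nat_lit 0) (nat_lit 5863003260) (nat_lit 456) (nat_lit 19184236520) (nat_lit 76) (nat_lit 52489416576) (nat_lit 123) (nat_lit 5) (nat_lit 129) (nat_lit 5) (nat_lit 124) (nat_lit 5) (nat_lit 330) (nat_lit 308) (nat_lit 142)) (XT.lf (nat_lit 0) (nat_lit 23124515568) (nat_lit 532) (nat_lit 34440329770) (nat_lit 76) (nat_lit 22349665589)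 (nat_lit 117) (nat_lit 5) (nat_lit 124) (nat_lit 5) (nat_lit 118) (nat_lit 5) (nat_lit 331) (nat_lit 308) (nat_lit 141))))) (XT.nd (nat_lit 234) (nat_lit 1064) (nat_lit 0) (XT.nd (nat_lit 78) (nat_lit 684) (nat_lit 0) (XT.lf (nat_lit 0) (nat_lit 31723548106) (nat_lit 380) (nat_lit 10281281650) (nat_lit 456) (nat_lit 40383758018) (nat_lit 112) (nat_lit 5) (nat_lit 117) (nat_lit 5) (nat_lit 118) (nat_lit 5) (nat_lit 332) (nat_lit 308) (nat_lit 140)) (XT.nd (nat_lit 78) (nat_lit 304) (nat_lit 0) (XT.lf (nat_lit 0) (nat_lit 16885360336) (nat_lit 380) (nat_lit 45841151135) (nat_lit 456) (nat_lit 22232937710) (nat_lit 107) (nat_lit 5) (nat_lit 112) (nat_lit 5) (nat_lit 113) (nat_lit 5) (nat_lit 333) (nat_lit 308) (nat_lit 139)) (XT.lf (nat_lit 0) (nat_lit 1110800810) (nat_lit 304) (nat_lit 84042248299) (nat_lit 380) (nat_lit 2485742606) (nat_lit 103) (nat_lit 5) (nat_lit 107) (nat_lit 5) (nat_lit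 108) (nat_lit 5) (nat_lit 334) (nat_lit 308) (nat_lit 138)))) (XT.nd (nat_lit 156) (nat_lit 608) (nat_lit 0) (XT.nd (nat_lit 78) (nat_lit 380) (nat_lit 0) (XT.lf (nat_lit 0) (nat_lit 19061762329) (nat_lit 380) (nat_lit 15900399874) (nat_lit 76) (nat_lit 55449606226) (nat_lit 102) (nat_lit 5) (nat_lit 107) (nat_lit 5) (nat_lit 103) (nat_lit 5) (nat_lit 335) (nat_lit 308) (nat_lit 137)) (XT.lf (nat_lit 0) (nat_lit 42370534984) (nat_lit 456) (nat_lit 34080019320) (nat_lit 76) (nat_lit 16850043360) (nat_lit 97) (nat_lit 5) (nat_lit 103) (nat_lit 5) (nat_lit 98) (nat_lit 5) (nat_lit 336) (nat_lit 308) (nat_lit 136))) (XT.nd (nat_lit 78) (nat_lit 304) (nat_lit 0) (XT.lf (nat_lit 0) (nat_lit 42575555652) (nat_lit 304) (nat_lit 25195403772) (nat_lit 380) (nat_lit 28535123558) (nat_lit 93) (nat_lit 5) (nat_lit 97) (nat_lit 5) (nat_lit 98) (nat_lit 5) (nat_lit 337) (nat_lit 308) (nat_lit 135)) (XT.lf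 (nat_lit 0) (nat_lit 24523037381) (nat_lit 304) (nat_lit 70782339518) (nat_lit 380) (nat_lit 4130547481) (nat_lit 89) (nat_lit 5) (nat_lit 93) (nat_lit 5) (nat_lit 94) (nat_lit 5) (nat_lit 338) (nat_lit 308) (nat_lit 134)))))) (XT.nd (nat_lit 546) (nat_lit 1216) (nat_lit 0) (XT.nd (nat_lit 234) (nat_lit 836) (nat_lit 0) (XT.nd (nat_lit 78) (nat_lit 304) (nat_lit 0) (XT.lf (nat_lit 0) (nat_lit 4730718115) (nat_lit 304) (nat_lit 17201307696) (nat_lit 380) (nat_lit 80758318489) (nat_lit 84) (nat_lit 5) (nat_lit 88) (nat_lit 5) (nat_lit 89) (nat_lit 5) (nat_lit 339) (nat_lit 308) (nat_lit 133)) (XT.nd (nat_lit 78) (nat_lit 304) (nat_lit 0) (XT.lf (nat_lit 0) (nat_lit 50366222100) (nat_lit 380) (nat_lit 16588779554) (nat_lit 76) (nat_lit 39116639908) (nat_lit 84) (nat_lit 5) (nat_lit 89) (nat_lit 5) (nat_lit 85) (nat_lit 5) (nat_lit 340) (nat_lit 308) (nat_lit 132)) (XT.lf (nat_lit 0) (nat_lit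 70042236412) (nat_lit 304) (nat_lit 11025723387) (nat_lit 380) (nat_lit 28528669750) (nat_lit 80) (nat_lit 5) (nat_lit 84) (nat_lit 5) (nat_lit 85) (nat_lit 5) (nat_lit 341) (nat_lit 308) (nat_lit 131)))) (XT.nd (nat_lit 156) (nat_lit 228) (nat_lit 0) (XT.nd (nat_lit 78) (nat_lit 304) (nat_lit 0) (XT.lf (nat_lit 0) (nat_lit 1114213696) (nat_lit 304) (nat_lit 64731633304) (nat_lit 76) (nat_lit 47418795756) (nat_lit 76) (nat_lit 5) (nat_lit 80) (nat_lit 5) (nat_lit 77) (nat_lit 5) (nat_lit 342) (nat_lit 308) (nat_lit 130)) (XT.lf (nat_lit 0) (nat_lit 24827222887) (nat_lit 304) (nat_lit 7587618339) (nat_lit 380) (nat_lit 84669773752) (nat_lit 72) (nat_lit 5) (nat_lit 76) (nat_lit 5) (nat_lit 77) (nat_lit 5) (nat_lit 343) (nat_lit 308) (nat_lit 129))) (XT.nd (nat_lit 78) (nat_lit 228) (nat_lit 0) (XT.lf (nat_lit 0) (nat_lit 66467543406) (nat_lit 380) (nat_lit 1382024005) (nat_lit 76) (nat_lit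 53210407782) (nat_lit 72) (nat_lit 5) (nat_lit 77) (nat_lit 5) (nat_lit 73) (nat_lit 5) (nat_lit 344) (nat_lit 308) (nat_lit 128)) (XT.lf (nat_lit 0) (nat_lit 95829093573) (nat_lit 228) (nat_lit 7390598717) (nat_lit 304) (nat_lit 21984507430) (nat_lit 69) (nat_lit 5) (nat_lit 72) (nat_lit 5) (nat_lit 73) (nat_lit 5) (nat_lit 345) (nat_lit 308) (nat_lit 127))))) (XT.nd (nat_lit 234) (nat_lit 456) (nat_lit 0) (XT.nd (nat_lit 78) (nat_lit 456) (nat_lit 0) (XT.lf (nat_lit 0) (nat_lit 13244428147) (nat_lit 304) (nat_lit 60465204552) (nat_lit 76) (nat_lit 55805577708) (nat_lit 65) (nat_lit 5) (nat_lit 69) (nat_lit 5) (nat_lit 66) (nat_lit 5) (nat_lit 346) (nat_lit 308) (nat_lit 126)) (XT.nd (nat_lit 78) (nat_lit 228) (nat_lit 0) (XT.lf (nat_lit 0) (nat_lit 39446416837) (nat_lit 228) (nat_lit 11096218327) (nat_lit 304) (nat_lit 83469732045) (nat_lit 62) (nat_lit 5) (nat_lit 65) (nat_lit 5) (nat_lit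 66) (nat_lit 5) (nat_lit 347) (nat_lit 308) (nat_lit 125)) (XT.lf (nat_lit 0) (nat_lit 6495381912) (nat_lit 228) (nat_lit 84425849259) (nat_lit 304) (nat_lit 47776686863) (nat_lit 59) (nat_lit 5) (nat_lit 62) (nat_lit 5) (nat_lit 63) (nat_lit 5) (nat_lit 348) (nat_lit 308) (nat_lit 124)))) (XT.nd (nat_lit 156) (nat_lit 228) (nat_lit 0) (XT.nd (nat_lit 78) (nat_lit 228) (nat_lit 0) (XT.lf (nat_lit 0) (nat_lit 114470393582) (nat_lit 228) (nat_lit 19931897539) (nat_lit 304) (nat_lit 9182949772) (nat_lit 59) (nat_lit 5) (nat_lit 62) (nat_lit 5) (nat_lit 63) (nat_lit 5) (nat_lit 349) (nat_lit 308) (nat_lit 123)) (XT.lf (nat_lit 0) (nat_lit 31970878882) (nat_lit 228) (nat_lit 68761255790) (nat_lit 76) (nat_lit 47938498682) (nat_lit 56) (nat_lit 5) (nat_lit 59) (nat_lit 5) (nat_lit 57) (nat_lit 5) (nat_lit 350) (nat_lit 308) (nat_lit 122))) (XT.nd (nat_lit 78) (nat_lit 0) (nat_lit 0) (XT.lf (nat_lit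 0) (nat_lit 41503731943) (nat_lit 228) (nat_lit 34392546884) (nat_lit 304) (nat_lit 78084175537) (nat_lit 53) (nat_lit 5) (nat_lit 56) (nat_lit 5) (nat_lit 57) (nat_lit 5) (nat_lit 351) (nat_lit 308) (nat_lit 121)) (XT.lf (nat_lit 0) (nat_lit 123071010208) (nat_lit 304) (nat_lit 1162873864) (nat_lit 76) (nat_lit 35290290943) (nat_lit 53) (nat_lit 5) (nat_lit 57) (nat_lit 5) (nat_lit 54) (nat_lit 5) (nat_lit 352) (nat_lit 308) (nat_lit 120))))))))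
noncomputable def xc116 : XT := (XT.nd (nat_lit 2106) (nat_lit 3800) (nat_lit 0) (XT.nd (nat_lit 1014) (nat_lit 5624) (nat_lit 0) (XT.nd (nat_lit 468) (nat_lit 1368) (nat_lit 0) (XT.nd (nat_lit 234) (nat_lit 0) (nat_lit 76) (XT.nd (nat_lit 78) (nat_lit 0) (nat_lit 0) (XT.lf (nat_lit 0) (nat_lit 6298599556) (nat_lit 0) (nat_lit 6298599556) (nat_lit 1140) (nat_lit 9740785731) (nat_lit 195) (nat_lit 5) (nat_lit 195) (nat_lit 3) (nat_lit 210) (nat_lit 3) (nat_lit 309) (nat_lit 309) (nat_lit 162)) (XT.nd (nat_lit 78) (nat_lit 0) (nat_lit 76) (XT.lf (nat_lit 76) (nat_lit 1506307003) (nat_lit 0) (nat_lit 24591568800) (nat_lit 1216) (nat_lit 19686724089) (nat_lit 196) (nat_lit 5) (nat_lit 195) (nat_lit 5) (nat_lit 211) (nat_lit 5) (nat_lit 310) (nat_lit 309) (nat_lit 161)) (XT.lf (nat_lit 0) (nat_lit 27593652749) (nat_lit 1140) (nat_lit 9719870931) (nat_lit 1216) (nat_lit 9618728038) (nat_lit 196)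 (nat_lit 5) (nat_lit 211) (nat_lit 5) (nat_lit 212) (nat_lit 5) (nat_lit 311) (nat_lit 309) (nat_lit 160)))) (XT.nd (nat_lit 78) (nat_lit 0) (nat_lit 76) (XT.lf (nat_lit 76) (nat_lit 26840184035) (nat_lit 0) (nat_lit 2827119747) (nat_lit 1216) (nat_lit 18454893484) (nat_lit 197) (nat_lit 5) (nat_lit 196) (nat_lit 5) (nat_lit 212) (nat_lit 5) (nat_lit 312) (nat_lit 309) (nat_lit 159)) (XT.nd (nat_lit 78) (nat_lit 0) (nat_lit 76) (XT.lf (nat_lit 76) (nat_lit 16052180861) (nat_lit 0) (nat_lit 16365727587) (nat_lit 1216) (nat_lit 16936537024) (nat_lit 198) (nat_lit 5) (nat_lit 197) (nat_lit 5) (nat_lit 213) (nat_lit 5) (nat_lit 313) (nat_lit 309) (nat_lit 158)) (XT.lf (nat_lit 76) (nat_lit 4928717557) (nat_lit 0) (nat_lit 30862549522) (nat_lit 1216) (nat_lit 14842485644) (nat_lit 199) (nat_lit 5) (nat_lit 198) (nat_lit 5) (nat_lit 214) (nat_lit 5) (nat_lit 314) (nat_lit 309) (nat_lit 157)))))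 (XT.nd (nat_lit 234) (nat_lit 1672) (nat_lit 0) (XT.nd (nat_lit 78) (nat_lit 0) (nat_lit 0) (XT.lf (nat_lit 0) (nat_lit 39892310496) (nat_lit 1140) (nat_lit 6420459822) (nat_lit 1216) (nat_lit 5647487699) (nat_lit 199) (nat_lit 5) (nat_lit 214) (nat_lit 5) (nat_lit 215) (nat_lit 5) (nat_lit 315) (nat_lit 309) (nat_lit 156)) (XT.nd (nat_lit 78) (nat_lit 0) (nat_lit 76) (XT.lf (nat_lit 76) (nat_lit 35201886051) (nat_lit 0) (nat_lit 9643811348) (nat_lit 1216) (nat_lit 8487975472) (nat_lit 200) (nat_lit 5) (nat_lit 199) (nat_lit 5) (nat_lit 215) (nat_lit 5) (nat_lit 316) (nat_lit 309) (nat_lit 155)) (XT.lf (nat_lit 76) (nat_lit 24463144477) (nat_lit 0) (nat_lit 26160436275) (nat_lit 1216) (nat_lit 4134875792) (nat_lit 201) (nat_lit 5) (nat_lit 200) (nat_lit 5) (nat_lit 216) (nat_lit 5) (nat_lit 317) (nat_lit 309) (nat_lit 154)))) (XT.nd (nat_lit 156) (nat_lit 608) (nat_lit 0) (XT.nd (nat_lit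 78) (nat_lit 0) (nat_lit 0) (XT.lf (nat_lit 0) (nat_lit 961794296) (nat_lit 1216) (nat_lit 42887897457) (nat_lit 1292) (nat_lit 12388631994) (nat_lit 185) (nat_lit 5) (nat_lit 201) (nat_lit 5) (nat_lit 202) (nat_lit 5) (nat_lit 318) (nat_lit 309) (nat_lit 153)) (XT.lf (nat_lit 76) (nat_lit 1752111347) (nat_lit 0) (nat_lit 5069997279) (nat_lit 1292) (nat_lit 50951020257) (nat_lit 186) (nat_lit 5) (nat_lit 185) (nat_lit 5) (nat_lit 202) (nat_lit 5) (nat_lit 319) (nat_lit 309) (nat_lit 152))) (XT.nd (nat_lit 78) (nat_lit 684) (nat_lit 0) (XT.lf (nat_lit 0) (nat_lit 13761769264) (nat_lit 1216) (nat_lit 10200062386) (nat_lit 76) (nat_lit 35399255133) (nat_lit 186) (nat_lit 5) (nat_lit 202) (nat_lit 5) (nat_lit 187) (nat_lit 5) (nat_lit 320) (nat_lit 309) (nat_lit 151)) (XT.lf (nat_lit 0) (nat_lit 21633442361) (nat_lit 760) (nat_lit 22568243469) (nat_lit 76) (nat_lit 16809208173) (nat_lit 177)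 (nat_lit 5) (nat_lit 187) (nat_lit 5) (nat_lit 178) (nat_lit 5) (nat_lit 321) (nat_lit 309) (nat_lit 150)))))) (XT.nd (nat_lit 546) (nat_lit 2432) (nat_lit 0) (XT.nd (nat_lit 234) (nat_lit 1520) (nat_lit 0) (XT.nd (nat_lit 78) (nat_lit 1064) (nat_lit 0) (XT.lf (nat_lit 0) (nat_lit 27278155439) (nat_lit 608) (nat_lit 3228630714) (nat_lit 684) (nat_lit 32218165019) (nat_lit 169) (nat_lit 5) (nat_lit 177) (nat_lit 5) (nat_lit 178) (nat_lit 5) (nat_lit 322) (nat_lit 309) (nat_lit 149)) (XT.nd (nat_lit 78) (nat_lit 532) (nat_lit 0) (XT.lf (nat_lit 0) (nat_lit 15486254891) (nat_lit 532) (nat_lit 25101601444) (nat_lit 608) (nat_lit 23913935184) (nat_lit 162) (nat_lit 5) (nat_lit 169) (nat_lit 5) (nat_lit 170) (nat_lit 5) (nat_lit 323) (nat_lit 309) (nat_lit 148)) (XT.lf (nat_lit 0) (nat_lit 3204539109) (nat_lit 532) (nat_lit 48568561965) (nat_lit 608) (nat_lit 14576371171) (nat_lit 155) (nat_lit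 5) (nat_lit 162) (nat_lit 5) (nat_lit 163) (nat_lit 5) (nat_lit 324) (nat_lit 309) (nat_lit 147)))) (XT.nd (nat_lit 156) (nat_lit 988) (nat_lit 0) (XT.nd (nat_lit 78) (nat_lit 532) (nat_lit 0) (XT.lf (nat_lit 0) (nat_lit 58799684207) (nat_lit 532) (nat_lit 5471575097) (nat_lit 608) (nat_lit 3995670064) (nat_lit 155) (nat_lit 5) (nat_lit 162) (nat_lit 5) (nat_lit 163) (nat_lit 5) (nat_lit 325) (nat_lit 309) (nat_lit 146)) (XT.lf (nat_lit 0) (nat_lit 7820193256) (nat_lit 532) (nat_lit 22896033982) (nat_lit 76) (nat_lit 39536633877) (nat_lit 148) (nat_lit 5) (nat_lit 155) (nat_lit 5) (nat_lit 149) (nat_lit 5) (nat_lit 326) (nat_lit 309) (nat_lit 145))) (XT.nd (nat_lit 78) (nat_lit 456) (nat_lit 0) (XT.lf (nat_lit 0) (nat_lit 20780670736) (nat_lit 608) (nat_lit 36985941169) (nat_lit 76) (nat_lit 14551198656) (nat_lit 141) (nat_lit 5) (nat_lit 149) (nat_lit 5) (nat_lit 142) (nat_lit 5) (nat_lit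 327) (nat_lit 309) (nat_lit 144)) (XT.lf (nat_lit 0) (nat_lit 22597526330) (nat_lit 456) (nat_lit 12555321697) (nat_lit 532) (nat_lit 39310250768) (nat_lit 135) (nat_lit 5) (nat_lit 141) (nat_lit 5) (nat_lit 142) (nat_lit 5) (nat_lit 328) (nat_lit 309) (nat_lit 143))))) (XT.nd (nat_lit 234) (nat_lit 1520) (nat_lit 0) (XT.nd (nat_lit 78) (nat_lit 456) (nat_lit 0) (XT.lf (nat_lit 0) (nat_lit 9064549114) (nat_lit 456) (nat_lit 41984823775) (nat_lit 532) (nat_lit 25642107908) (nat_lit 129) (nat_lit 5) (nat_lit 135) (nat_lit 5) (nat_lit 136) (nat_lit 5) (nat_lit 329) (nat_lit 309) (nat_lit 142)) (XT.nd (nat_lit 78) (nat_lit 456) (nat_lit 0) (XT.lf (nat_lit 0) (nat_lit 68452417808) (nat_lit 532) (nat_lit 5071273061) (nat_lit 76) (nat_lit 5486241659) (nat_lit 129) (nat_lit 5) (nat_lit 136) (nat_lit 5) (nat_lit 130) (nat_lit 5) (nat_lit 330) (nat_lit 309) (nat_lit 141)) (XT.lf (nat_lit 0) (nat_lit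 6200686325) (nat_lit 456) (nat_lit 20090156664) (nat_lit 76) (nat_lit 55121269111) (nat_lit 123) (nat_lit 5) (nat_lit 129) (nat_lit 5) (nat_lit 124) (nat_lit 5) (nat_lit 331) (nat_lit 309) (nat_lit 140)))) (XT.nd (nat_lit 156) (nat_lit 684) (nat_lit 0) (XT.nd (nat_lit 78) (nat_lit 380) (nat_lit 0) (XT.lf (nat_lit 0) (nat_lit 24323736335) (nat_lit 532) (nat_lit 36109340856) (nat_lit 76) (nat_lit 23475830302) (nat_lit 117) (nat_lit 5) (nat_lit 124) (nat_lit 5) (nat_lit 118) (nat_lit 5) (nat_lit 332) (nat_lit 309) (nat_lit 139)) (XT.lf (nat_lit 0) (nat_lit 33361211524) (nat_lit 380) (nat_lit 10785302243) (nat_lit 456) (nat_lit 42360222853) (nat_lit 112) (nat_lit 5) (nat_lit 117) (nat_lit 5) (nat_lit 118) (nat_lit 5) (nat_lit 333) (nat_lit 309) (nat_lit 138))) (XT.nd (nat_lit 78) (nat_lit 304) (nat_lit 0) (XT.lf (nat_lit 0) (nat_lit 17780788589) (nat_lit 380) (nat_lit 48122101255) (nat_lit 456)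 (nat_lit 23303294719) (nat_lit 107) (nat_lit 5) (nat_lit 112) (nat_lit 5) (nat_lit 113) (nat_lit 5) (nat_lit 334) (nat_lit 309) (nat_lit 137)) (XT.lf (nat_lit 0) (nat_lit 1217132493) (nat_lit 304) (nat_lit 88232304522) (nat_lit 380) (nat_lit 2570098420) (nat_lit 103) (nat_lit 5) (nat_lit 107) (nat_lit 5) (nat_lit 108) (nat_lit 5) (nat_lit 335) (nat_lit 309) (nat_lit 136))))))) (XT.nd (nat_lit 1092) (nat_lit 456) (nat_lit 0) (XT.nd (nat_lit 546) (nat_lit 1596) (nat_lit 0) (XT.nd (nat_lit 234) (nat_lit 988) (nat_lit 0) (XT.nd (nat_lit 78) (nat_lit 684) (nat_lit 0) (XT.lf (nat_lit 0) (nat_lit 20052138172) (nat_lit 380) (nat_lit 16646273521) (nat_lit 76) (nat_lit 58232795272) (nat_lit 102) (nat_lit 5) (nat_lit 107) (nat_lit 5) (nat_lit 103) (nat_lit 5) (nat_lit 336) (nat_lit 309) (nat_lit 135)) (XT.nd (nat_lit 78) (nat_lit 304) (nat_lit 0) (XT.lf (nat_lit 0) (nat_lit 44525145844) (nat_lit 456)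 (nat_lit 35735286920) (nat_lit 76) (nat_lit 17704082494) (nat_lit 97) (nat_lit 5) (nat_lit 103) (nat_lit 5) (nat_lit 98) (nat_lit 5) (nat_lit 337) (nat_lit 309) (nat_lit 134)) (XT.lf (nat_lit 0) (nat_lit 44751669869) (nat_lit 304) (nat_lit 26442658373) (nat_lit 380) (nat_lit 29925985915) (nat_lit 93) (nat_lit 5) (nat_lit 97) (nat_lit 5) (nat_lit 98) (nat_lit 5) (nat_lit 338) (nat_lit 309) (nat_lit 133)))) (XT.nd (nat_lit 156) (nat_lit 304) (nat_lit 0) (XT.nd (nat_lit 78) (nat_lit 380) (nat_lit 0) (XT.lf (nat_lit 0) (nat_lit 25796094154) (nat_lit 304) (nat_lit 74308279758) (nat_lit 380) (nat_lit 4302307842) (nat_lit 89) (nat_lit 5) (nat_lit 93) (nat_lit 5) (nat_lit 94) (nat_lit 5) (nat_lit 339) (nat_lit 309) (nat_lit 132)) (XT.lf (nat_lit 0) (nat_lit 5013498849) (nat_lit 304) (nat_lit 18048038103) (nat_lit 380) (nat_lit 84762312302) (nat_lit 84) (nat_lit 5) (nat_lit 88) (nat_lit 5) (nat_lit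 89) (nat_lit 5) (nat_lit 340) (nat_lit 309) (nat_lit 131))) (XT.nd (nat_lit 78) (nat_lit 304) (nat_lit 0) (XT.lf (nat_lit 0) (nat_lit 52915998000) (nat_lit 380) (nat_lit 17373333860) (nat_lit 76) (nat_lit 41084924060) (nat_lit 84) (nat_lit 5) (nat_lit 89) (nat_lit 5) (nat_lit 85) (nat_lit 5) (nat_lit 341) (nat_lit 309) (nat_lit 130)) (XT.lf (nat_lit 0) (nat_lit 73587946294) (nat_lit 304) (nat_lit 11563797058) (nat_lit 380) (nat_lit 29923783465) (nat_lit 80) (nat_lit 5) (nat_lit 84) (nat_lit 5) (nat_lit 85) (nat_lit 5) (nat_lit 342) (nat_lit 309) (nat_lit 129))))) (XT.nd (nat_lit 234) (nat_lit 988) (nat_lit 0) (XT.nd (nat_lit 78) (nat_lit 304) (nat_lit 0) (XT.lf (nat_lit 0) (nat_lit 1199711554) (nat_lit 304) (nat_lit 67924468812) (nat_lit 76) (nat_lit 49802779975) (nat_lit 76) (nat_lit 5) (nat_lit 80) (nat_lit 5) (nat_lit 77) (nat_lit 5) (nat_lit 343) (nat_lit 309) (nat_lit 128)) (XT.nd (nat_lit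 78) (nat_lit 0) (nat_lit 0) (XT.lf (nat_lit 0) (nat_lit 26111076214) (nat_lit 304) (nat_lit 7953284270) (nat_lit 380) (nat_lit 88873601986) (nat_lit 72) (nat_lit 5) (nat_lit 76) (nat_lit 5) (nat_lit 77) (nat_lit 5) (nat_lit 344) (nat_lit 309) (nat_lit 127)) (XT.lf (nat_lit 0) (nat_lit 69818452989) (nat_lit 380) (nat_lit 1409940823) (nat_lit 76) (nat_lit 55883735178) (nat_lit 72) (nat_lit 5) (nat_lit 77) (nat_lit 5) (nat_lit 73) (nat_lit 5) (nat_lit 345) (nat_lit 309) (nat_lit 126)))) (XT.nd (nat_lit 156) (nat_lit 456) (nat_lit 0) (XT.nd (nat_lit 78) (nat_lit 304) (nat_lit 0) (XT.lf (nat_lit 0) (nat_lit 100660552092) (nat_lit 228) (nat_lit 7746730699) (nat_lit 304) (nat_lit 23056310651) (nat_lit 69) (nat_lit 5) (nat_lit 72) (nat_lit 5) (nat_lit 73) (nat_lit 5) (nat_lit 346) (nat_lit 309) (nat_lit 125)) (XT.lf (nat_lit 0) (nat_lit 13932763835) (nat_lit 304) (nat_lit 63448403425) (nat_lit 76)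 (nat_lit 58609003516) (nat_lit 65) (nat_lit 5) (nat_lit 69) (nat_lit 5) (nat_lit 66) (nat_lit 5) (nat_lit 347) (nat_lit 309) (nat_lit 124))) (XT.nd (nat_lit 78) (nat_lit 228) (nat_lit 0) (XT.lf (nat_lit 0) (nat_lit 41457650683) (nat_lit 228) (nat_lit 11637361037) (nat_lit 304) (nat_lit 87617200577) (nat_lit 62) (nat_lit 5) (nat_lit 65) (nat_lit 5) (nat_lit 66) (nat_lit 5) (nat_lit 348) (nat_lit 309) (nat_lit 123)) (XT.lf (nat_lit 0) (nat_lit 6858572063) (nat_lit 228) (nat_lit 88633257789) (nat_lit 304) (nat_lit 50140232801) (nat_lit 59) (nat_lit 5) (nat_lit 62) (nat_lit 5) (nat_lit 63) (nat_lit 5) (nat_lit 349) (nat_lit 309) (nat_lit 122)))))) (XT.nd (nat_lit 37830) (nat_lit 0) (nat_lit 10032) (XT.nd (nat_lit 37518) (nat_lit 0) (nat_lit 10792) (XT.nd (nat_lit 78) (nat_lit 456) (nat_lit 0) (XT.lf (nat_lit 0) (nat_lit 120230504743) (nat_lit 228) (nat_lit 20915269624) (nat_lit 304) (nat_lit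 9618013065) (nat_lit 59) (nat_lit 5) (nat_lit 62) (nat_lit 5) (nat_lit 63) (nat_lit 5) (nat_lit 350) (nat_lit 309) (nat_lit 121)) (XT.nd (nat_lit 78) (nat_lit 228) (nat_lit 0) (XT.lf (nat_lit 0) (nat_lit 33592385404) (nat_lit 228) (nat_lit 72162734093) (nat_lit 76) (nat_lit 50348343290) (nat_lit 56) (nat_lit 5) (nat_lit 59) (nat_lit 5) (nat_lit 57) (nat_lit 5) (nat_lit 351) (nat_lit 309) (nat_lit 120)) (XT.lf (nat_lit 0) (nat_lit 43614454340) (nat_lit 228) (nat_lit 36098849143) (nat_lit 304) (nat_lit 81965494556) (nat_lit 53) (nat_lit 5) (nat_lit 56) (nat_lit 5) (nat_lit 57) (nat_lit 5) (nat_lit 352) (nat_lit 309) (nat_lit 119)))) (XT.nd (nat_lit 156) (nat_lit 0) (nat_lit 76) (XT.nd (nat_lit 78) (nat_lit 0) (nat_lit 0) (XT.lf (nat_lit 0) (nat_lit 6638880074) (nat_lit 0) (nat_lit 6638880074) (nat_lit 1140) (nat_lit 10175543342) (nat_lit 195) (nat_lit 5) (nat_lit 195) (nat_lit 3) (nat_lit 210)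 (nat_lit 3) (nat_lit 310) (nat_lit 310) (nat_lit 160)) (XT.lf (nat_lit 76) (nat_lit 1634414071) (nat_lit 0) (nat_lit 25864972313) (nat_lit 1216) (nat_lit 20571431547) (nat_lit 196) (nat_lit 5) (nat_lit 195) (nat_lit 5) (nat_lit 211) (nat_lit 5) (nat_lit 311) (nat_lit 310) (nat_lit 159))) (XT.nd (nat_lit 78) (nat_lit 0) (nat_lit 0) (XT.lf (nat_lit 0) (nat_lit 29064950164) (nat_lit 1140) (nat_lit 10152316909) (nat_lit 1216) (nat_lit 10058740738) (nat_lit 196) (nat_lit 5) (nat_lit 211) (nat_lit 5) (nat_lit 212) (nat_lit 5) (nat_lit 312) (nat_lit 310) (nat_lit 158)) (XT.lf (nat_lit 76) (nat_lit 28234205875) (nat_lit 0) (nat_lit 3004215243) (nat_lit 1216) (nat_lit 19287150543) (nat_lit 197) (nat_lit 5) (nat_lit 196) (nat_lit 5) (nat_lit 212) (nat_lit 5) (nat_lit 313) (nat_lit 310) (nat_lit 157))))) (XT.nd (nat_lit 234) (nat_lit 912) (nat_lit 0) (XT.nd (nat_lit 78) (nat_lit 0) (nat_lit 76) (XT.lf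 (nat_lit 76) (nat_lit 16908302370) (nat_lit 0) (nat_lit 17214262177) (nat_lit 1216) (nat_lit 17696992374) (nat_lit 198) (nat_lit 5) (nat_lit 197) (nat_lit 5) (nat_lit 213) (nat_lit 5) (nat_lit 314) (nat_lit 310) (nat_lit 156)) (XT.nd (nat_lit 78) (nat_lit 0) (nat_lit 76) (XT.lf (nat_lit 76) (nat_lit 5229950392) (nat_lit 0) (nat_lit 32430901938) (nat_lit 1216) (nat_lit 15502094035) (nat_lit 199) (nat_lit 5) (nat_lit 198) (nat_lit 5) (nat_lit 214) (nat_lit 5) (nat_lit 315) (nat_lit 310) (nat_lit 155)) (XT.lf (nat_lit 0) (nat_lit 41962906420) (nat_lit 1140) (nat_lit 6686689071) (nat_lit 1216) (nat_lit 5906307121) (nat_lit 199) (nat_lit 5) (nat_lit 214) (nat_lit 5) (nat_lit 215) (nat_lit 5) (nat_lit 316) (nat_lit 310) (nat_lit 154)))) (XT.nd (nat_lit 156) (nat_lit 1064) (nat_lit 0) (XT.nd (nat_lit 78) (nat_lit 0) (nat_lit 76) (XT.lf (nat_lit 76) (nat_lit 37015203444) (nat_lit 0) (nat_lit 10145652723)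 (nat_lit 1216) (nat_lit 8837229470) (nat_lit 200) (nat_lit 5) (nat_lit 199) (nat_lit 5) (nat_lit 215) (nat_lit 5) (nat_lit 317) (nat_lit 310) (nat_lit 153)) (XT.lf (nat_lit 76) (nat_lit 25740388426) (nat_lit 0) (nat_lit 27484115091) (nat_lit 1216) (nat_lit 4269702915) (nat_lit 201) (nat_lit 5) (nat_lit 200) (nat_lit 5) (nat_lit 216) (nat_lit 5) (nat_lit 318) (nat_lit 310) (nat_lit 152))) (XT.nd (nat_lit 78) (nat_lit 0) (nat_lit 0) (XT.lf (nat_lit 0) (nat_lit 1077426711) (nat_lit 1216) (nat_lit 44976080362) (nat_lit 1292) (nat_lit 12994632028) (nat_lit 185) (nat_lit 5) (nat_lit 201) (nat_lit 5) (nat_lit 202) (nat_lit 5) (nat_lit 319) (nat_lit 310) (nat_lit 151)) (XT.lf (nat_lit 76) (nat_lit 1894317577) (nat_lit 0) (nat_lit 5333747717) (nat_lit 1292) (nat_lit 53431703494) (nat_lit 186) (nat_lit 5) (nat_lit 185) (nat_lit 5) (nat_lit 202) (nat_lit 5) (nat_lit 320) (nat_lit 310) (nat_lit 150))))))))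
noncomputable def xc117 : XT := (XT.nd (nat_lit 2184) (nat_lit 456) (nat_lit 0) (XT.nd (nat_lit 1092) (nat_lit 3572) (nat_lit 0) (XT.nd (nat_lit 546) (nat_lit 2736) (nat_lit 0) (XT.nd (nat_lit 234) (nat_lit 1596) (nat_lit 0) (XT.nd (nat_lit 78) (nat_lit 1292) (nat_lit 0) (XT.lf (nat_lit 0) (nat_lit 14511526967) (nat_lit 1216) (nat_lit 10656050517) (nat_lit 76) (nat_lit 37159645940) (nat_lit 186) (nat_lit 5) (nat_lit 202) (nat_lit 5) (nat_lit 187) (nat_lit 5) (nat_lit 321) (nat_lit 310) (nat_lit 149)) (XT.nd (nat_lit 78) (nat_lit 608) (nat_lit 0) (XT.lf (nat_lit 0) (nat_lit 22774286350) (nat_lit 760) (nat_lit 23642282394) (nat_lit 76) (nat_lit 17643030403) (nat_lit 177) (nat_lit 5) (nat_lit 187) (nat_lit 5) (nat_lit 178) (nat_lit 5) (nat_lit 322) (nat_lit 310) (nat_lit 148)) (XT.lf (nat_lit 0) (nat_lit 28694877862) (nat_lit 608) (nat_lit 3394109449) (nat_lit 684) (nat_lit 33770444231) (nat_lit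 169) (nat_lit 5) (nat_lit 177) (nat_lit 5) (nat_lit 178) (nat_lit 5) (nat_lit 323) (nat_lit 310) (nat_lit 147)))) (XT.nd (nat_lit 156) (nat_lit 532) (nat_lit 0) (XT.nd (nat_lit 78) (nat_lit 532) (nat_lit 0) (XT.lf (nat_lit 0) (nat_lit 16313622687) (nat_lit 532) (nat_lit 26358253552) (nat_lit 608) (nat_lit 25053307629) (nat_lit 162) (nat_lit 5) (nat_lit 169) (nat_lit 5) (nat_lit 170) (nat_lit 5) (nat_lit 324) (nat_lit 310) (nat_lit 146)) (XT.lf (nat_lit 0) (nat_lit 3417963557) (nat_lit 532) (nat_lit 50996315343) (nat_lit 608) (nat_lit 15251035641) (nat_lit 155) (nat_lit 5) (nat_lit 162) (nat_lit 5) (nat_lit 163) (nat_lit 5) (nat_lit 325) (nat_lit 310) (nat_lit 145))) (XT.nd (nat_lit 78) (nat_lit 532) (nat_lit 0) (XT.lf (nat_lit 0) (nat_lit 61790332696) (nat_lit 532) (nat_lit 5744511261) (nat_lit 608) (nat_lit 4143878245) (nat_lit 155) (nat_lit 5) (nat_lit 162) (nat_lit 5) (nat_lit 163) (nat_lit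 5) (nat_lit 326) (nat_lit 310) (nat_lit 144)) (XT.lf (nat_lit 0) (nat_lit 8259862050) (nat_lit 532) (nat_lit 23989103182) (nat_lit 76) (nat_lit 41515030174) (nat_lit 148) (nat_lit 5) (nat_lit 155) (nat_lit 5) (nat_lit 149) (nat_lit 5) (nat_lit 327) (nat_lit 310) (nat_lit 143))))) (XT.nd (nat_lit 234) (nat_lit 1292) (nat_lit 0) (XT.nd (nat_lit 78) (nat_lit 912) (nat_lit 0) (XT.lf (nat_lit 0) (nat_lit 21866562252) (nat_lit 608) (nat_lit 38783570140) (nat_lit 76) (nat_lit 15282116301) (nat_lit 141) (nat_lit 5) (nat_lit 149) (nat_lit 5) (nat_lit 142) (nat_lit 5) (nat_lit 328) (nat_lit 310) (nat_lit 142)) (XT.nd (nat_lit 78) (nat_lit 456) (nat_lit 0) (XT.lf (nat_lit 0) (nat_lit 23777589679) (nat_lit 456) (nat_lit 13178009824) (nat_lit 532) (nat_lit 41229256524) (nat_lit 135) (nat_lit 5) (nat_lit 141) (nat_lit 5) (nat_lit 142) (nat_lit 5) (nat_lit 329) (nat_lit 310) (nat_lit 141)) (XT.lf (nat_lit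 0) (nat_lit 9567835230) (nat_lit 456) (nat_lit 44077495009) (nat_lit 532) (nat_lit 26879377617) (nat_lit 129) (nat_lit 5) (nat_lit 135) (nat_lit 5) (nat_lit 136) (nat_lit 5) (nat_lit 330) (nat_lit 310) (nat_lit 140)))) (XT.nd (nat_lit 156) (nat_lit 836) (nat_lit 0) (XT.nd (nat_lit 78) (nat_lit 456) (nat_lit 0) (XT.lf (nat_lit 0) (nat_lit 71916516660) (nat_lit 532) (nat_lit 5275939107) (nat_lit 76) (nat_lit 5766688744) (nat_lit 129) (nat_lit 5) (nat_lit 136) (nat_lit 5) (nat_lit 130) (nat_lit 5) (nat_lit 331) (nat_lit 310) (nat_lit 139)) (XT.lf (nat_lit 0) (nat_lit 6551113296) (nat_lit 456) (nat_lit 21046327370) (nat_lit 76) (nat_lit 57884027992) (nat_lit 123) (nat_lit 5) (nat_lit 129) (nat_lit 5) (nat_lit 124) (nat_lit 5) (nat_lit 332) (nat_lit 310) (nat_lit 138))) (XT.nd (nat_lit 78) (nat_lit 380) (nat_lit 0) (XT.lf (nat_lit 0) (nat_lit 25578920873) (nat_lit 532) (nat_lit 37866730437) (nat_lit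 76) (nat_lit 24657496134) (nat_lit 117) (nat_lit 5) (nat_lit 124) (nat_lit 5) (nat_lit 118) (nat_lit 5) (nat_lit 333) (nat_lit 310) (nat_lit 137)) (XT.lf (nat_lit 0) (nat_lit 35075971431) (nat_lit 380) (nat_lit 11315457614) (nat_lit 456) (nat_lit 44439482916) (nat_lit 112) (nat_lit 5) (nat_lit 117) (nat_lit 5) (nat_lit 118) (nat_lit 5) (nat_lit 334) (nat_lit 310) (nat_lit 136)))))) (XT.nd (nat_lit 546) (nat_lit 1444) (nat_lit 0) (XT.nd (nat_lit 234) (nat_lit 1368) (nat_lit 0) (XT.nd (nat_lit 78) (nat_lit 380) (nat_lit 0) (XT.lf (nat_lit 0) (nat_lit 18716231860) (nat_lit 380) (nat_lit 50518131546) (nat_lit 456) (nat_lit 24431008321) (nat_lit 107) (nat_lit 5) (nat_lit 112) (nat_lit 5) (nat_lit 113) (nat_lit 5) (nat_lit 335) (nat_lit 310) (nat_lit 135)) (XT.nd (nat_lit 78) (nat_lit 76) (nat_lit 0) (XT.lf (nat_lit 0) (nat_lit 1324058635) (nat_lit 304) (nat_lit 92632984426) (nat_lit 380) (nat_lit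 2662384460) (nat_lit 103) (nat_lit 5) (nat_lit 107) (nat_lit 5) (nat_lit 108) (nat_lit 5) (nat_lit 336) (nat_lit 310) (nat_lit 134)) (XT.lf (nat_lit 0) (nat_lit 21088566148) (nat_lit 380) (nat_lit 17434010011) (nat_lit 76) (nat_lit 61154148172) (nat_lit 102) (nat_lit 5) (nat_lit 107) (nat_lit 5) (nat_lit 103) (nat_lit 5) (nat_lit 337) (nat_lit 310) (nat_lit 133)))) (XT.nd (nat_lit 156) (nat_lit 684) (nat_lit 0) (XT.nd (nat_lit 78) (nat_lit 304) (nat_lit 0) (XT.lf (nat_lit 0) (nat_lit 46784132489) (nat_lit 456) (nat_lit 37477848666) (nat_lit 76) (nat_lit 18599750986) (nat_lit 97) (nat_lit 5) (nat_lit 103) (nat_lit 5) (nat_lit 98) (nat_lit 5) (nat_lit 338) (nat_lit 310) (nat_lit 132)) (XT.lf (nat_lit 0) (nat_lit 47032188904) (nat_lit 304) (nat_lit 27753439285) (nat_lit 380) (nat_lit 31389728457) (nat_lit 93) (nat_lit 5) (nat_lit 97) (nat_lit 5) (nat_lit 98) (nat_lit 5) (nat_lit 339) (nat_lit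 310) (nat_lit 131))) (XT.nd (nat_lit 78) (nat_lit 380) (nat_lit 0) (XT.lf (nat_lit 0) (nat_lit 27128442993) (nat_lit 304) (nat_lit 78011742058) (nat_lit 380) (nat_lit 4485888529) (nat_lit 89) (nat_lit 5) (nat_lit 93) (nat_lit 5) (nat_lit 94) (nat_lit 5) (nat_lit 340) (nat_lit 310) (nat_lit 130)) (XT.lf (nat_lit 0) (nat_lit 5306119214) (nat_lit 304) (nat_lit 18938344790) (nat_lit 380) (nat_lit 88969659563) (nat_lit 84) (nat_lit 5) (nat_lit 88) (nat_lit 5) (nat_lit 89) (nat_lit 5) (nat_lit 341) (nat_lit 310) (nat_lit 129))))) (XT.nd (nat_lit 234) (nat_lit 836) (nat_lit 0) (XT.nd (nat_lit 78) (nat_lit 608) (nat_lit 0) (XT.lf (nat_lit 0) (nat_lit 55590337397) (nat_lit 380) (nat_lit 18201288833) (nat_lit 76) (nat_lit 43150464736) (nat_lit 84) (nat_lit 5) (nat_lit 89) (nat_lit 5) (nat_lit 85) (nat_lit 5) (nat_lit 342) (nat_lit 310) (nat_lit 128)) (XT.nd (nat_lit 78) (nat_lit 304) (nat_lit 0) (XT.lf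 (nat_lit 0) (nat_lit 77306888336) (nat_lit 304) (nat_lit 12130002785) (nat_lit 380) (nat_lit 31391564680) (nat_lit 80) (nat_lit 5) (nat_lit 84) (nat_lit 5) (nat_lit 85) (nat_lit 5) (nat_lit 343) (nat_lit 310) (nat_lit 127)) (XT.lf (nat_lit 0) (nat_lit 1286714976) (nat_lit 304) (nat_lit 71281013198) (nat_lit 76) (nat_lit 52304750658) (nat_lit 76) (nat_lit 5) (nat_lit 80) (nat_lit 5) (nat_lit 77) (nat_lit 5) (nat_lit 344) (nat_lit 310) (nat_lit 126)))) (XT.nd (nat_lit 156) (nat_lit 532) (nat_lit 0) (XT.nd (nat_lit 78) (nat_lit 0) (nat_lit 0) (XT.lf (nat_lit 0) (nat_lit 27455171687) (nat_lit 304) (nat_lit 8338508588) (nat_lit 380) (nat_lit 93290379179) (nat_lit 72) (nat_lit 5) (nat_lit 76) (nat_lit 5) (nat_lit 77) (nat_lit 5) (nat_lit 345) (nat_lit 310) (nat_lit 125)) (XT.lf (nat_lit 0) (nat_lit 73334348349) (nat_lit 380) (nat_lit 1443082415) (nat_lit 76) (nat_lit 58689538269) (nat_lit 72) (nat_lit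 5) (nat_lit 77) (nat_lit 5) (nat_lit 73) (nat_lit 5) (nat_lit 346) (nat_lit 310) (nat_lit 124))) (XT.nd (nat_lit 78) (nat_lit 304) (nat_lit 0) (XT.lf (nat_lit 0) (nat_lit 105729864360) (nat_lit 228) (nat_lit 8121914895) (nat_lit 304) (nat_lit 24184253485) (nat_lit 69) (nat_lit 5) (nat_lit 72) (nat_lit 5) (nat_lit 73) (nat_lit 5) (nat_lit 347) (nat_lit 310) (nat_lit 123)) (XT.lf (nat_lit 0) (nat_lit 14653088449) (nat_lit 304) (nat_lit 66584486766) (nat_lit 76) (nat_lit 61551378339) (nat_lit 65) (nat_lit 5) (nat_lit 69) (nat_lit 5) (nat_lit 66) (nat_lit 5) (nat_lit 348) (nat_lit 310) (nat_lit 122))))))) (XT.nd (nat_lit 38532) (nat_lit 0) (nat_lit 4028) (XT.nd (nat_lit 37986) (nat_lit 0) (nat_lit 9576) (XT.nd (nat_lit 37674) (nat_lit 0) (nat_lit 10336) (XT.nd (nat_lit 78) (nat_lit 228) (nat_lit 0) (XT.lf (nat_lit 0) (nat_lit 43565828459) (nat_lit 228) (nat_lit 12206831624) (nat_lit 304) (nat_lit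 91974461450) (nat_lit 62) (nat_lit 5) (nat_lit 65) (nat_lit 5) (nat_lit 66) (nat_lit 5) (nat_lit 349) (nat_lit 310) (nat_lit 121)) (XT.nd (nat_lit 78) (nat_lit 0) (nat_lit 0) (XT.lf (nat_lit 0) (nat_lit 7236349696) (nat_lit 228) (nat_lit 93052327542) (nat_lit 304) (nat_lit 52624307112) (nat_lit 59) (nat_lit 5) (nat_lit 62) (nat_lit 5) (nat_lit 63) (nat_lit 5) (nat_lit 350) (nat_lit 310) (nat_lit 120)) (XT.lf (nat_lit 0) (nat_lit 126275219532) (nat_lit 228) (nat_lit 21949039642) (nat_lit 304) (nat_lit 10077068643) (nat_lit 59) (nat_lit 5) (nat_lit 62) (nat_lit 5) (nat_lit 63) (nat_lit 5) (nat_lit 351) (nat_lit 310) (nat_lit 119)))) (XT.nd (nat_lit 156) (nat_lit 0) (nat_lit 76) (XT.nd (nat_lit 78) (nat_lit 0) (nat_lit 0) (XT.lf (nat_lit 0) (nat_lit 6993817765) (nat_lit 0) (nat_lit 6993817765) (nat_lit 1140) (nat_lit 10636899489) (nat_lit 195) (nat_lit 5) (nat_lit 195) (nat_lit 3) (nat_lit 210)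 (nat_lit 3) (nat_lit 311) (nat_lit 311) (nat_lit 158)) (XT.lf (nat_lit 76) (nat_lit 1764018419) (nat_lit 0) (nat_lit 27197971561) (nat_lit 1216) (nat_lit 21509636915) (nat_lit 196) (nat_lit 5) (nat_lit 195) (nat_lit 5) (nat_lit 211) (nat_lit 5) (nat_lit 312) (nat_lit 311) (nat_lit 157))) (XT.nd (nat_lit 78) (nat_lit 0) (nat_lit 0) (XT.lf (nat_lit 0) (nat_lit 30601294977) (nat_lit 1140) (nat_lit 10611363531) (nat_lit 1216) (nat_lit 10524558771) (nat_lit 196) (nat_lit 5) (nat_lit 211) (nat_lit 5) (nat_lit 212) (nat_lit 5) (nat_lit 313) (nat_lit 311) (nat_lit 156)) (XT.lf (nat_lit 76) (nat_lit 29693093165) (nat_lit 0) (nat_lit 3186842792) (nat_lit 1216) (nat_lit 20169433135) (nat_lit 197) (nat_lit 5) (nat_lit 196) (nat_lit 5) (nat_lit 212) (nat_lit 5) (nat_lit 314) (nat_lit 311) (nat_lit 155))))) (XT.nd (nat_lit 234) (nat_lit 912) (nat_lit 0) (XT.nd (nat_lit 78) (nat_lit 0) (nat_lit 76) (XT.lf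 (nat_lit 76) (nat_lit 17802254873) (nat_lit 0) (nat_lit 18102411306) (nat_lit 1216) (nat_lit 18503500494) (nat_lit 198) (nat_lit 5) (nat_lit 197) (nat_lit 5) (nat_lit 213) (nat_lit 5) (nat_lit 315) (nat_lit 311) (nat_lit 154)) (XT.nd (nat_lit 78) (nat_lit 0) (nat_lit 76) (XT.lf (nat_lit 76) (nat_lit 5541150367) (nat_lit 0) (nat_lit 34075326799) (nat_lit 1216) (nat_lit 16202354390) (nat_lit 199) (nat_lit 5) (nat_lit 198) (nat_lit 5) (nat_lit 214) (nat_lit 5) (nat_lit 316) (nat_lit 311) (nat_lit 153)) (XT.lf (nat_lit 0) (nat_lit 44129968203) (nat_lit 1140) (nat_lit 6971323986) (nat_lit 1216) (nat_lit 6180257432) (nat_lit 199) (nat_lit 5) (nat_lit 214) (nat_lit 5) (nat_lit 215) (nat_lit 5) (nat_lit 317) (nat_lit 311) (nat_lit 152)))) (XT.nd (nat_lit 156) (nat_lit 1064) (nat_lit 0) (XT.nd (nat_lit 78) (nat_lit 0) (nat_lit 76) (XT.lf (nat_lit 76) (nat_lit 38914238528) (nat_lit 0) (nat_lit 10670759221)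 (nat_lit 1216) (nat_lit 9210932418) (nat_lit 200) (nat_lit 5) (nat_lit 199) (nat_lit 5) (nat_lit 215) (nat_lit 5) (nat_lit 318) (nat_lit 311) (nat_lit 151)) (XT.lf (nat_lit 76) (nat_lit 27076466101) (nat_lit 0) (nat_lit 28872522208) (nat_lit 1216) (nat_lit 4417957524) (nat_lit 201) (nat_lit 5) (nat_lit 200) (nat_lit 5) (nat_lit 216) (nat_lit 5) (nat_lit 319) (nat_lit 311) (nat_lit 150))) (XT.nd (nat_lit 78) (nat_lit 0) (nat_lit 0) (XT.lf (nat_lit 0) (nat_lit 1192561266) (nat_lit 1216) (nat_lit 47173898468) (nat_lit 1292) (nat_lit 13632180803) (nat_lit 185) (nat_lit 5) (nat_lit 201) (nat_lit 5) (nat_lit 202) (nat_lit 5) (nat_lit 320) (nat_lit 311) (nat_lit 149)) (XT.lf (nat_lit 76) (nat_lit 2038557867) (nat_lit 0) (nat_lit 5609732675) (nat_lit 1292) (nat_lit 56042637625) (nat_lit 186) (nat_lit 5) (nat_lit 185) (nat_lit 5) (nat_lit 202) (nat_lit 5) (nat_lit 321) (nat_lit 311) (nat_lit 148))))))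 (XT.nd (nat_lit 546) (nat_lit 2736) (nat_lit 0) (XT.nd (nat_lit 234) (nat_lit 1596) (nat_lit 0) (XT.nd (nat_lit 78) (nat_lit 1292) (nat_lit 0) (XT.lf (nat_lit 0) (nat_lit 15293039134) (nat_lit 1216) (nat_lit 11139859857) (nat_lit 76) (nat_lit 39008946195) (nat_lit 186) (nat_lit 5) (nat_lit 202) (nat_lit 5) (nat_lit 187) (nat_lit 5) (nat_lit 322) (nat_lit 311) (nat_lit 147)) (XT.nd (nat_lit 78) (nat_lit 608) (nat_lit 0) (XT.lf (nat_lit 0) (nat_lit 23966671298) (nat_lit 760) (nat_lit 24775078375) (nat_lit 76) (nat_lit 18519160899) (nat_lit 177) (nat_lit 5) (nat_lit 187) (nat_lit 5) (nat_lit 178) (nat_lit 5) (nat_lit 323) (nat_lit 311) (nat_lit 146)) (XT.lf (nat_lit 0) (nat_lit 30177526199) (nat_lit 608) (nat_lit 3567485850) (nat_lit 684) (nat_lit 35405788176) (nat_lit 169) (nat_lit 5) (nat_lit 177) (nat_lit 5) (nat_lit 178) (nat_lit 5) (nat_lit 324) (nat_lit 311) (nat_lit 145)))) (XT.nd (nat_lit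 156) (nat_lit 532) (nat_lit 0) (XT.nd (nat_lit 78) (nat_lit 532) (nat_lit 0) (XT.lf (nat_lit 0) (nat_lit 17177426318) (nat_lit 532) (nat_lit 27677592113) (nat_lit 608) (nat_lit 26254885197) (nat_lit 162) (nat_lit 5) (nat_lit 169) (nat_lit 5) (nat_lit 170) (nat_lit 5) (nat_lit 325) (nat_lit 311) (nat_lit 144)) (XT.lf (nat_lit 0) (nat_lit 3637113429) (nat_lit 532) (nat_lit 53545519120) (nat_lit 608) (nat_lit 15964468068) (nat_lit 155) (nat_lit 5) (nat_lit 162) (nat_lit 5) (nat_lit 163) (nat_lit 5) (nat_lit 326) (nat_lit 311) (nat_lit 143))) (XT.nd (nat_lit 78) (nat_lit 532) (nat_lit 0) (XT.lf (nat_lit 0) (nat_lit 64925803326) (nat_lit 532) (nat_lit 6031153976) (nat_lit 608) (nat_lit 4304291820) (nat_lit 155) (nat_lit 5) (nat_lit 162) (nat_lit 5) (nat_lit 163) (nat_lit 5) (nat_lit 327) (nat_lit 311) (nat_lit 142)) (XT.lf (nat_lit 0) (nat_lit 8716990419) (nat_lit 532) (nat_lit 25141635439) (nat_lit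 76) (nat_lit 43592200824) (nat_lit 148) (nat_lit 5) (nat_lit 155) (nat_lit 5) (nat_lit 149) (nat_lit 5) (nat_lit 328) (nat_lit 311) (nat_lit 141))))) (XT.nd (nat_lit 234) (nat_lit 1292) (nat_lit 0) (XT.nd (nat_lit 78) (nat_lit 912) (nat_lit 0) (XT.lf (nat_lit 0) (nat_lit 23002391932) (nat_lit 608) (nat_lit 40675884168) (nat_lit 76) (nat_lit 16049267661) (nat_lit 141) (nat_lit 5) (nat_lit 149) (nat_lit 5) (nat_lit 142) (nat_lit 5) (nat_lit 329) (nat_lit 311) (nat_lit 140)) (XT.nd (nat_lit 78) (nat_lit 456) (nat_lit 0) (XT.lf (nat_lit 0) (nat_lit 25011990281) (nat_lit 456) (nat_lit 13832304458) (nat_lit 532) (nat_lit 43248536327) (nat_lit 135) (nat_lit 5) (nat_lit 141) (nat_lit 5) (nat_lit 142) (nat_lit 5) (nat_lit 330) (nat_lit 311) (nat_lit 139)) (XT.lf (nat_lit 0) (nat_lit 10091631673) (nat_lit 456) (nat_lit 46275410616) (nat_lit 532) (nat_lit 28182679208) (nat_lit 129) (nat_lit 5) (nat_lit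 135) (nat_lit 5) (nat_lit 136) (nat_lit 5) (nat_lit 331) (nat_lit 311) (nat_lit 138)))) (XT.nd (nat_lit 156) (nat_lit 836) (nat_lit 0) (XT.nd (nat_lit 78) (nat_lit 456) (nat_lit 0) (XT.lf (nat_lit 0) (nat_lit 75549964228) (nat_lit 532) (nat_lit 5495384491) (nat_lit 76) (nat_lit 6060587808) (nat_lit 129) (nat_lit 5) (nat_lit 136) (nat_lit 5) (nat_lit 130) (nat_lit 5) (nat_lit 332) (nat_lit 311) (nat_lit 137)) (XT.lf (nat_lit 0) (nat_lit 6915306290) (nat_lit 456) (nat_lit 22054800540) (nat_lit 76) (nat_lit 60784302340) (nat_lit 123) (nat_lit 5) (nat_lit 129) (nat_lit 5) (nat_lit 124) (nat_lit 5) (nat_lit 333) (nat_lit 311) (nat_lit 136))) (XT.nd (nat_lit 78) (nat_lit 380) (nat_lit 0) (XT.lf (nat_lit 0) (nat_lit 26893239000) (nat_lit 532) (nat_lit 39716459284) (nat_lit 76) (nat_lit 25897513177) (nat_lit 117) (nat_lit 5) (nat_lit 124) (nat_lit 5) (nat_lit 118) (nat_lit 5) (nat_lit 334) (nat_lit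 311) (nat_lit 135)) (XT.lf (nat_lit 0) (nat_lit 36872127673) (nat_lit 380) (nat_lit 11872967690) (nat_lit 456) (nat_lit 46626308690) (nat_lit 112) (nat_lit 5) (nat_lit 117) (nat_lit 5) (nat_lit 118) (nat_lit 5) (nat_lit 335) (nat_lit 311) (nat_lit 134))))))))
noncomputable def xc118 : XT := (XT.nd (nat_lit 39702) (nat_lit 0) (nat_lit 456) (XT.nd (nat_lit 1092) (nat_lit 456) (nat_lit 0) (XT.nd (nat_lit 546) (nat_lit 1444) (nat_lit 0) (XT.nd (nat_lit 234) (nat_lit 1368) (nat_lit 0) (XT.nd (nat_lit 78) (nat_lit 380) (nat_lit 0) (XT.lf (nat_lit 0) (nat_lit 19694133106) (nat_lit 380) (nat_lit 53034900008) (nat_lit 456) (nat_lit 25618589454) (nat_lit 107) (nat_lit 5) (nat_lit 112) (nat_lit 5) (nat_lit 113) (nat_lit 5) (nat_lit 336) (nat_lit 311) (nat_lit 133)) (XT.nd (nat_lit 78) (nat_lit 76) (nat_lit 0) (XT.lf (nat_lit 0) (nat_lit 1432047978) (nat_lit 304) (nat_lit 97254714988) (nat_lit 380) (nat_lit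 2762652090) (nat_lit 103) (nat_lit 5) (nat_lit 107) (nat_lit 5) (nat_lit 108) (nat_lit 5) (nat_lit 337) (nat_lit 311) (nat_lit 132)) (XT.lf (nat_lit 0) (nat_lit 22173671161) (nat_lit 380) (nat_lit 18265277690) (nat_lit 76) (nat_lit 64220665683) (nat_lit 102) (nat_lit 5) (nat_lit 107) (nat_lit 5) (nat_lit 103) (nat_lit 5) (nat_lit 338) (nat_lit 311) (nat_lit 131)))) (XT.nd (nat_lit 156) (nat_lit 684) (nat_lit 0) (XT.nd (nat_lit 78) (nat_lit 304) (nat_lit 0) (XT.lf (nat_lit 0) (nat_lit 49153025601) (nat_lit 456) (nat_lit 39311648038) (nat_lit 76) (nat_lit 19539230026) (nat_lit 97) (nat_lit 5) (nat_lit 103) (nat_lit 5) (nat_lit 98) (nat_lit 5) (nat_lit 339) (nat_lit 311) (nat_lit 130)) (XT.lf (nat_lit 0) (nat_lit 49422742151) (nat_lit 304) (nat_lit 29130814644) (nat_lit 380) (nat_lit 32929684944) (nat_lit 93) (nat_lit 5) (nat_lit 97) (nat_lit 5) (nat_lit 98) (nat_lit 5) (nat_lit 340) (nat_lit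 311) (nat_lit 129))) (XT.nd (nat_lit 78) (nat_lit 380) (nat_lit 0) (XT.lf (nat_lit 0) (nat_lit 28523453923) (nat_lit 304) (nat_lit 81901488628) (nat_lit 380) (nat_lit 4681580048) (nat_lit 89) (nat_lit 5) (nat_lit 93) (nat_lit 5) (nat_lit 94) (nat_lit 5) (nat_lit 341) (nat_lit 311) (nat_lit 128)) (XT.lf (nat_lit 0) (nat_lit 5609470910) (nat_lit 304) (nat_lit 19874291311) (nat_lit 380) (nat_lit 93390234737) (nat_lit 84) (nat_lit 5) (nat_lit 88) (nat_lit 5) (nat_lit 89) (nat_lit 5) (nat_lit 342) (nat_lit 311) (nat_lit 127))))) (XT.nd (nat_lit 234) (nat_lit 836) (nat_lit 0) (XT.nd (nat_lit 78) (nat_lit 608) (nat_lit 0) (XT.lf (nat_lit 0) (nat_lit 58395740431) (nat_lit 380) (nat_lit 19074426545) (nat_lit 76) (nat_lit 45318232393) (nat_lit 84) (nat_lit 5) (nat_lit 89) (nat_lit 5) (nat_lit 85) (nat_lit 5) (nat_lit 343) (nat_lit 311) (nat_lit 126)) (XT.nd (nat_lit 78) (nat_lit 304) (nat_lit 0) (XT.lf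 (nat_lit 0) (nat_lit 81208100985) (nat_lit 304) (nat_lit 12725632969) (nat_lit 380) (nat_lit 32935376059) (nat_lit 80) (nat_lit 5) (nat_lit 84) (nat_lit 5) (nat_lit 85) (nat_lit 5) (nat_lit 344) (nat_lit 311) (nat_lit 125)) (XT.lf (nat_lit 0) (nat_lit 1375556706) (nat_lit 304) (nat_lit 74809073786) (nat_lit 76) (nat_lit 54930719878) (nat_lit 76) (nat_lit 5) (nat_lit 80) (nat_lit 5) (nat_lit 77) (nat_lit 5) (nat_lit 345) (nat_lit 311) (nat_lit 124)))) (XT.nd (nat_lit 156) (nat_lit 532) (nat_lit 0) (XT.nd (nat_lit 78) (nat_lit 0) (nat_lit 0) (XT.lf (nat_lit 0) (nat_lit 28862888695) (nat_lit 304) (nat_lit 8744150665) (nat_lit 380) (nat_lit 97930496410) (nat_lit 72) (nat_lit 5) (nat_lit 76) (nat_lit 5) (nat_lit 77) (nat_lit 5) (nat_lit 346) (nat_lit 311) (nat_lit 123)) (XT.lf (nat_lit 0) (nat_lit 77023716751) (nat_lit 380) (nat_lit 1481354042) (nat_lit 76) (nat_lit 61634551538) (nat_lit 72) (nat_lit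 5) (nat_lit 77) (nat_lit 5) (nat_lit 73) (nat_lit 5) (nat_lit 347) (nat_lit 311) (nat_lit 122))) (XT.nd (nat_lit 78) (nat_lit 304) (nat_lit 0) (XT.lf (nat_lit 0) (nat_lit 111049268837) (nat_lit 228) (nat_lit 8516988111) (nat_lit 304) (nat_lit 25370905888) (nat_lit 69) (nat_lit 5) (nat_lit 72) (nat_lit 5) (nat_lit 73) (nat_lit 5) (nat_lit 348) (nat_lit 311) (nat_lit 121)) (XT.lf (nat_lit 0) (nat_lit 15407227154) (nat_lit 304) (nat_lit 69880752528) (nat_lit 76) (nat_lit 64639763262) (nat_lit 65) (nat_lit 5) (nat_lit 69) (nat_lit 5) (nat_lit 66) (nat_lit 5) (nat_lit 349) (nat_lit 311) (nat_lit 120)))))) (XT.nd (nat_lit 38064) (nat_lit 0) (nat_lit 9576) (XT.nd (nat_lit 37752) (nat_lit 0) (nat_lit 10336) (XT.nd (nat_lit 78) (nat_lit 228) (nat_lit 0) (XT.lf (nat_lit 0) (nat_lit 45776133707) (nat_lit 228) (nat_lit 12805928338) (nat_lit 304) (nat_lit 96551779392) (nat_lit 62) (nat_lit 5) (nat_lit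 65) (nat_lit 5) (nat_lit 66) (nat_lit 5) (nat_lit 350) (nat_lit 311) (nat_lit 119)) (XT.nd (nat_lit 37596) (nat_lit 0) (nat_lit 10336) (XT.lf (nat_lit 0) (nat_lit 7629776278) (nat_lit 228) (nat_lit 97693521574) (nat_lit 304) (nat_lit 55234717634) (nat_lit 59) (nat_lit 5) (nat_lit 62) (nat_lit 5) (nat_lit 63) (nat_lit 5) (nat_lit 351) (nat_lit 311) (nat_lit 118)) (XT.lf (nat_lit 0) (nat_lit 7364364605) (nat_lit 0) (nat_lit 7364364605) (nat_lit 1140) (nat_lit 11125732200) (nat_lit 195) (nat_lit 5) (nat_lit 195) (nat_lit 3) (nat_lit 210) (nat_lit 3) (nat_lit 312) (nat_lit 312) (nat_lit 156)))) (XT.nd (nat_lit 156) (nat_lit 0) (nat_lit 76) (XT.nd (nat_lit 78) (nat_lit 0) (nat_lit 76) (XT.lf (nat_lit 76) (nat_lit 1895651217) (nat_lit 0) (nat_lit 28593925135) (nat_lit 1216) (nat_lit 22503153944) (nat_lit 196) (nat_lit 5) (nat_lit 195) (nat_lit 5) (nat_lit 211) (nat_lit 5) (nat_lit 313) (nat_lit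 312) (nat_lit 155)) (XT.lf (nat_lit 0) (nat_lit 32206731430) (nat_lit 1140) (nat_lit 11097877990) (nat_lit 1216) (nat_lit 11017118678) (nat_lit 196) (nat_lit 5) (nat_lit 211) (nat_lit 5) (nat_lit 212) (nat_lit 5) (nat_lit 314) (nat_lit 312) (nat_lit 154))) (XT.nd (nat_lit 78) (nat_lit 0) (nat_lit 76) (XT.lf (nat_lit 76) (nat_lit 31220538750) (nat_lit 0) (nat_lit 3375587914) (nat_lit 1216) (nat_lit 21103460406) (nat_lit 197) (nat_lit 5) (nat_lit 196) (nat_lit 5) (nat_lit 212) (nat_lit 5) (nat_lit 315) (nat_lit 312) (nat_lit 153)) (XT.lf (nat_lit 76) (nat_lit 18736392455) (nat_lit 0) (nat_lit 19032417149) (nat_lit 1216) (nat_lit 19357617470) (nat_lit 198) (nat_lit 5) (nat_lit 197) (nat_lit 5) (nat_lit 213) (nat_lit 5) (nat_lit 316) (nat_lit 312) (nat_lit 152))))) (XT.nd (nat_lit 234) (nat_lit 988) (nat_lit 0) (XT.nd (nat_lit 78) (nat_lit 0) (nat_lit 76) (XT.lf (nat_lit 76) (nat_lit 5863289478)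 (nat_lit 0) (nat_lit 35799845760) (nat_lit 1216) (nat_lit 16944586082) (nat_lit 199) (nat_lit 5) (nat_lit 198) (nat_lit 5) (nat_lit 214) (nat_lit 5) (nat_lit 317) (nat_lit 312) (nat_lit 151)) (XT.nd (nat_lit 78) (nat_lit 0) (nat_lit 0) (XT.lf (nat_lit 0) (nat_lit 46398975876) (nat_lit 1140) (nat_lit 7274811238) (nat_lit 1216) (nat_lit 6469891578) (nat_lit 199) (nat_lit 5) (nat_lit 214) (nat_lit 5) (nat_lit 215) (nat_lit 5) (nat_lit 318) (nat_lit 312) (nat_lit 150)) (XT.lf (nat_lit 76) (nat_lit 40903737223) (nat_lit 0) (nat_lit 11220463951) (nat_lit 1216) (nat_lit 9609657246) (nat_lit 200) (nat_lit 5) (nat_lit 199) (nat_lit 5) (nat_lit 215) (nat_lit 5) (nat_lit 319) (nat_lit 312) (nat_lit 149)))) (XT.nd (nat_lit 156) (nat_lit 0) (nat_lit 0) (XT.nd (nat_lit 78) (nat_lit 1140) (nat_lit 0) (XT.lf (nat_lit 76) (nat_lit 28474786688) (nat_lit 0) (nat_lit 30329029372) (nat_lit 1216) (nat_lit 4579689380)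 (nat_lit 201) (nat_lit 5) (nat_lit 200) (nat_lit 5) (nat_lit 216) (nat_lit 5) (nat_lit 320) (nat_lit 312) (nat_lit 148)) (XT.lf (nat_lit 0) (nat_lit 1307756877) (nat_lit 1216) (nat_lit 49486347667) (nat_lit 1292) (nat_lit 14302739660) (nat_lit 185) (nat_lit 5) (nat_lit 201) (nat_lit 5) (nat_lit 202) (nat_lit 5) (nat_lit 321) (nat_lit 312) (nat_lit 147))) (XT.nd (nat_lit 78) (nat_lit 0) (nat_lit 76) (XT.lf (nat_lit 76) (nat_lit 2185405861) (nat_lit 0) (nat_lit 5898652481) (nat_lit 1292) (nat_lit 58789757222) (nat_lit 186) (nat_lit 5) (nat_lit 185) (nat_lit 5) (nat_lit 202) (nat_lit 5) (nat_lit 322) (nat_lit 312) (nat_lit 146)) (XT.lf (nat_lit 0) (nat_lit 16108426526) (nat_lit 1216) (nat_lit 11652414586) (nat_lit 76) (nat_lit 40951518638) (nat_lit 186) (nat_lit 5) (nat_lit 202) (nat_lit 5) (nat_lit 187) (nat_lit 5) (nat_lit 323) (nat_lit 312) (nat_lit 145))))))) (XT.nd (nat_lit 1092) (nat_lit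 3192) (nat_lit 0) (XT.nd (nat_lit 546) (nat_lit 2584) (nat_lit 0) (XT.nd (nat_lit 234) (nat_lit 1596) (nat_lit 0) (XT.nd (nat_lit 78) (nat_lit 1140) (nat_lit 0) (XT.lf (nat_lit 0) (nat_lit 25213685707) (nat_lit 760) (nat_lit 25969099287) (nat_lit 76) (nat_lit 19439657697) (nat_lit 177) (nat_lit 5) (nat_lit 187) (nat_lit 5) (nat_lit 178) (nat_lit 5) (nat_lit 324) (nat_lit 312) (nat_lit 144)) (XT.nd (nat_lit 78) (nat_lit 532) (nat_lit 0) (XT.lf (nat_lit 0) (nat_lit 31729853253) (nat_lit 608) (nat_lit 3749189783) (nat_lit 684) (nat_lit 37127843330) (nat_lit 169) (nat_lit 5) (nat_lit 177) (nat_lit 5) (nat_lit 178) (nat_lit 5) (nat_lit 325) (nat_lit 312) (nat_lit 143)) (XT.lf (nat_lit 0) (nat_lit 18079946156) (nat_lit 532) (nat_lit 29062765037) (nat_lit 608) (nat_lit 27521291304) (nat_lit 162) (nat_lit 5) (nat_lit 169) (nat_lit 5) (nat_lit 170) (nat_lit 5) (nat_lit 326) (nat_lit 312) (nat_lit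 142)))) (XT.nd (nat_lit 156) (nat_lit 1064) (nat_lit 0) (XT.nd (nat_lit 78) (nat_lit 0) (nat_lit 0) (XT.lf (nat_lit 0) (nat_lit 3862734810) (nat_lit 532) (nat_lit 56222239982) (nat_lit 608) (nat_lit 16718138769) (nat_lit 155) (nat_lit 5) (nat_lit 162) (nat_lit 5) (nat_lit 163) (nat_lit 5) (nat_lit 327) (nat_lit 312) (nat_lit 141)) (XT.lf (nat_lit 0) (nat_lit 68213775120) (nat_lit 532) (nat_lit 6332183014) (nat_lit 608) (nat_lit 4477075265) (nat_lit 155) (nat_lit 5) (nat_lit 162) (nat_lit 5) (nat_lit 163) (nat_lit 5) (nat_lit 328) (nat_lit 312) (nat_lit 140))) (XT.nd (nat_lit 78) (nat_lit 532) (nat_lit 0) (XT.lf (nat_lit 0) (nat_lit 9192871928) (nat_lit 532) (nat_lit 26356156756) (nat_lit 76) (nat_lit 45773098069) (nat_lit 148) (nat_lit 5) (nat_lit 155) (nat_lit 5) (nat_lit 149) (nat_lit 5) (nat_lit 329) (nat_lit 312) (nat_lit 139)) (XT.lf (nat_lit 0) (nat_lit 24191061704) (nat_lit 608) (nat_lit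 42667170912) (nat_lit 76) (nat_lit 16854493442) (nat_lit 141) (nat_lit 5) (nat_lit 149) (nat_lit 5) (nat_lit 142) (nat_lit 5) (nat_lit 330) (nat_lit 312) (nat_lit 138))))) (XT.nd (nat_lit 234) (nat_lit 1672) (nat_lit 0) (XT.nd (nat_lit 78) (nat_lit 456) (nat_lit 0) (XT.lf (nat_lit 0) (nat_lit 26303878791) (nat_lit 456) (nat_lit 14519742032) (nat_lit 532) (nat_lit 45372701898) (nat_lit 135) (nat_lit 5) (nat_lit 141) (nat_lit 5) (nat_lit 142) (nat_lit 5) (nat_lit 331) (nat_lit 312) (nat_lit 137)) (XT.nd (nat_lit 78) (nat_lit 0) (nat_lit 0) (XT.lf (nat_lit 0) (nat_lit 10637396640) (nat_lit 456) (nat_lit 48583776029) (nat_lit 532) (nat_lit 29554926738) (nat_lit 129) (nat_lit 5) (nat_lit 135) (nat_lit 5) (nat_lit 136) (nat_lit 5) (nat_lit 332) (nat_lit 312) (nat_lit 136)) (XT.lf (nat_lit 0) (nat_lit 79361586462) (nat_lit 532) (nat_lit 5729925534) (nat_lit 76) (nat_lit 6368664479) (nat_lit 129)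 (nat_lit 5) (nat_lit 136) (nat_lit 5) (nat_lit 130) (nat_lit 5) (nat_lit 333) (nat_lit 312) (nat_lit 135)))) (XT.nd (nat_lit 156) (nat_lit 760) (nat_lit 0) (XT.nd (nat_lit 78) (nat_lit 456) (nat_lit 0) (XT.lf (nat_lit 0) (nat_lit 7294302742) (nat_lit 456) (nat_lit 23117773493) (nat_lit 76) (nat_lit 63829025799) (nat_lit 123) (nat_lit 5) (nat_lit 129) (nat_lit 5) (nat_lit 124) (nat_lit 5) (nat_lit 334) (nat_lit 312) (nat_lit 134)) (XT.lf (nat_lit 0) (nat_lit 28269984472) (nat_lit 532) (nat_lit 41662728801) (nat_lit 76) (nat_lit 27198867056) (nat_lit 117) (nat_lit 5) (nat_lit 124) (nat_lit 5) (nat_lit 118) (nat_lit 5) (nat_lit 335) (nat_lit 312) (nat_lit 133))) (XT.nd (nat_lit 78) (nat_lit 380) (nat_lit 0) (XT.lf (nat_lit 0) (nat_lit 38754153712) (nat_lit 380) (nat_lit 12459121468) (nat_lit 456) (nat_lit 48925743516) (nat_lit 112) (nat_lit 5) (nat_lit 117) (nat_lit 5) (nat_lit 118) (nat_lit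 5) (nat_lit 336) (nat_lit 312) (nat_lit 132)) (XT.lf (nat_lit 0) (nat_lit 20717016317) (nat_lit 380) (nat_lit 55678356468) (nat_lit 456) (nat_lit 26868707785) (nat_lit 107) (nat_lit 5) (nat_lit 112) (nat_lit 5) (nat_lit 113) (nat_lit 5) (nat_lit 337) (nat_lit 312) (nat_lit 131)))))) (XT.nd (nat_lit 546) (nat_lit 1444) (nat_lit 0) (XT.nd (nat_lit 234) (nat_lit 988) (nat_lit 0) (XT.nd (nat_lit 78) (nat_lit 456) (nat_lit 0) (XT.lf (nat_lit 0) (nat_lit 1541551882) (nat_lit 304) (nat_lit 102108454222) (nat_lit 380) (nat_lit 2870987331) (nat_lit 103) (nat_lit 5) (nat_lit 107) (nat_lit 5) (nat_lit 108) (nat_lit 5) (nat_lit 338) (nat_lit 312) (nat_lit 130)) (XT.nd (nat_lit 78) (nat_lit 380) (nat_lit 0) (XT.lf (nat_lit 0) (nat_lit 23310179394) (nat_lit 380) (nat_lit 19141867813) (nat_lit 76) (nat_lit 67439689989) (nat_lit 102) (nat_lit 5) (nat_lit 107) (nat_lit 5) (nat_lit 103) (nat_lit 5) (nat_lit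 339) (nat_lit 312) (nat_lit 129)) (XT.lf (nat_lit 0) (nat_lit 51637603400) (nat_lit 456) (nat_lit 41240864851) (nat_lit 76) (nat_lit 20524800588) (nat_lit 97) (nat_lit 5) (nat_lit 103) (nat_lit 5) (nat_lit 98) (nat_lit 5) (nat_lit 340) (nat_lit 312) (nat_lit 128)))) (XT.nd (nat_lit 156) (nat_lit 380) (nat_lit 0) (XT.nd (nat_lit 78) (nat_lit 304) (nat_lit 0) (XT.lf (nat_lit 0) (nat_lit 51929202434) (nat_lit 304) (nat_lit 30578016052) (nat_lit 380) (nat_lit 34549384669) (nat_lit 93) (nat_lit 5) (nat_lit 97) (nat_lit 5) (nat_lit 98) (nat_lit 5) (nat_lit 341) (nat_lit 312) (nat_lit 127)) (XT.lf (nat_lit 0) (nat_lit 29984627781) (nat_lit 304) (nat_lit 85986730377) (nat_lit 380) (nat_lit 4889715371) (nat_lit 89) (nat_lit 5) (nat_lit 93) (nat_lit 5) (nat_lit 94) (nat_lit 5) (nat_lit 342) (nat_lit 312) (nat_lit 126))) (XT.nd (nat_lit 78) (nat_lit 0) (nat_lit 0) (XT.lf (nat_lit 0) (nat_lit 5924453059)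 (nat_lit 304) (nat_lit 20858055111) (nat_lit 380) (nat_lit 98034433272) (nat_lit 84) (nat_lit 5) (nat_lit 88) (nat_lit 5) (nat_lit 89) (nat_lit 5) (nat_lit 343) (nat_lit 312) (nat_lit 125)) (XT.lf (nat_lit 0) (nat_lit 61339006967) (nat_lit 380) (nat_lit 19994654239) (nat_lit 76) (nat_lit 47593436003) (nat_lit 84) (nat_lit 5) (nat_lit 89) (nat_lit 5) (nat_lit 85) (nat_lit 5) (nat_lit 344) (nat_lit 312) (nat_lit 124))))) (XT.nd (nat_lit 234) (nat_lit 532) (nat_lit 0) (XT.nd (nat_lit 78) (nat_lit 608) (nat_lit 0) (XT.lf (nat_lit 0) (nat_lit 85301039579) (nat_lit 304) (nat_lit 13352055248) (nat_lit 380) (nat_lit 34558773565) (nat_lit 80) (nat_lit 5) (nat_lit 84) (nat_lit 5) (nat_lit 85) (nat_lit 5) (nat_lit 345) (nat_lit 312) (nat_lit 123)) (XT.nd (nat_lit 78) (nat_lit 304) (nat_lit 0) (XT.lf (nat_lit 0) (nat_lit 1466562188) (nat_lit 304) (nat_lit 78516883419) (nat_lit 76) (nat_lit 57686989827)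 (nat_lit 76) (nat_lit 5) (nat_lit 80) (nat_lit 5) (nat_lit 77) (nat_lit 5) (nat_lit 346) (nat_lit 312) (nat_lit 122)) (XT.lf (nat_lit 0) (nat_lit 30337741451) (nat_lit 304) (nat_lit 9171123865) (nat_lit 380) (nat_lit 102804888144) (nat_lit 72) (nat_lit 5) (nat_lit 76) (nat_lit 5) (nat_lit 77) (nat_lit 5) (nat_lit 347) (nat_lit 312) (nat_lit 121)))) (XT.nd (nat_lit 156) (nat_lit 304) (nat_lit 0) (XT.nd (nat_lit 78) (nat_lit 228) (nat_lit 0) (XT.lf (nat_lit 0) (nat_lit 80895447700) (nat_lit 380) (nat_lit 1524689323) (nat_lit 76) (nat_lit 64725835901) (nat_lit 72) (nat_lit 5) (nat_lit 77) (nat_lit 5) (nat_lit 73) (nat_lit 5) (nat_lit 348) (nat_lit 312) (nat_lit 120)) (XT.lf (nat_lit 0) (nat_lit 116631583761) (nat_lit 228) (nat_lit 8932839757) (nat_lit 304) (nat_lit 26618988352) (nat_lit 69) (nat_lit 5) (nat_lit 72) (nat_lit 5) (nat_lit 73) (nat_lit 5) (nat_lit 349) (nat_lit 312) (nat_lit 119)))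 (XT.nd (nat_lit 37752) (nat_lit 0) (nat_lit 9880) (XT.lf (nat_lit 0) (nat_lit 16197075390) (nat_lit 304) (nat_lit 73344895755) (nat_lit 76) (nat_lit 67881561861) (nat_lit 65) (nat_lit 5) (nat_lit 69) (nat_lit 5) (nat_lit 66) (nat_lit 5) (nat_lit 350) (nat_lit 312) (nat_lit 118)) (XT.lf (nat_lit 0) (nat_lit 7751499798) (nat_lit 0) (nat_lit 7751499798) (nat_lit 1140) (nat_lit 11643005420) (nat_lit 195) (nat_lit 5) (nat_lit 195) (nat_lit 3) (nat_lit 210) (nat_lit 3) (nat_lit 313) (nat_lit 313) (nat_lit 154))))))))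
noncomputable def xc119 : XT := (XT.nd (nat_lit 2184) (nat_lit 2128) (nat_lit 0) (XT.nd (nat_lit 1092) (nat_lit 4940) (nat_lit 0) (XT.nd (nat_lit 546) (nat_lit 2508) (nat_lit 0) (XT.nd (nat_lit 234) (nat_lit 0) (nat_lit 152) (XT.nd (nat_lit 78) (nat_lit 0) (nat_lit 76) (XT.lf (nat_lit 76) (nat_lit 2029827771) (nat_lit 0) (nat_lit 30056324336) (nat_lit 1216) (nat_lit 23553967137) (nat_lit 196) (nat_lit 5) (nat_lit 195) (nat_lit 5) (nat_lit 211) (nat_lit 5) (nat_lit 314) (nat_lit 313) (nat_lit 153)) (XT.nd (nat_lit 78) (nat_lit 0) (nat_lit 0) (XT.lf (nat_lit 0) (nat_lit 33885432360) (nat_lit 1140) (nat_lit 11612813870) (nat_lit 1216) (nat_lit 11537436715) (nat_lit 196) (nat_lit 5) (nat_lit 211) (nat_lit 5) (nat_lit 212) (nat_lit 5) (nat_lit 315) (nat_lit 313) (nat_lit 152)) (XT.lf (nat_lit 76) (nat_lit 32820378319) (nat_lit 0) (nat_lit 3571036681) (nat_lit 1216) (nat_lit 22091110175) (nat_lit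 197) (nat_lit 5) (nat_lit 196) (nat_lit 5) (nat_lit 212) (nat_lit 5) (nat_lit 316) (nat_lit 313) (nat_lit 151)))) (XT.nd (nat_lit 156) (nat_lit 0) (nat_lit 152) (XT.nd (nat_lit 78) (nat_lit 0) (nat_lit 76) (XT.lf (nat_lit 76) (nat_lit 19713143904) (nat_lit 0) (nat_lit 20006609688) (nat_lit 1216) (nat_lit 20261046599) (nat_lit 198) (nat_lit 5) (nat_lit 197) (nat_lit 5) (nat_lit 213) (nat_lit 5) (nat_lit 317) (nat_lit 313) (nat_lit 150)) (XT.lf (nat_lit 76) (nat_lit 6197344285) (nat_lit 0) (nat_lit 37608661286) (nat_lit 1216) (nat_lit 17730240757) (nat_lit 199) (nat_lit 5) (nat_lit 198) (nat_lit 5) (nat_lit 214) (nat_lit 5) (nat_lit 318) (nat_lit 313) (nat_lit 149))) (XT.nd (nat_lit 78) (nat_lit 0) (nat_lit 0) (XT.lf (nat_lit 0) (nat_lit 48775622414) (nat_lit 1140) (nat_lit 7597663866) (nat_lit 1216) (nat_lit 6775809082) (nat_lit 199) (nat_lit 5) (nat_lit 214) (nat_lit 5) (nat_lit 215) (nat_lit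 5) (nat_lit 319) (nat_lit 313) (nat_lit 148)) (XT.lf (nat_lit 76) (nat_lit 42988639973) (nat_lit 0) (nat_lit 11796150884) (nat_lit 1216) (nat_lit 10034065921) (nat_lit 200) (nat_lit 5) (nat_lit 199) (nat_lit 5) (nat_lit 215) (nat_lit 5) (nat_lit 320) (nat_lit 313) (nat_lit 147))))) (XT.nd (nat_lit 234) (nat_lit 1748) (nat_lit 0) (XT.nd (nat_lit 78) (nat_lit 1140) (nat_lit 0) (XT.lf (nat_lit 76) (nat_lit 29938886369) (nat_lit 0) (nat_lit 31857164337) (nat_lit 1216) (nat_lit 4755008525) (nat_lit 201) (nat_lit 5) (nat_lit 200) (nat_lit 5) (nat_lit 216) (nat_lit 5) (nat_lit 321) (nat_lit 313) (nat_lit 146)) (XT.nd (nat_lit 78) (nat_lit 0) (nat_lit 0) (XT.lf (nat_lit 0) (nat_lit 1423546123) (nat_lit 1216) (nat_lit 51918718814) (nat_lit 1292) (nat_lit 15007853802) (nat_lit 185) (nat_lit 5) (nat_lit 201) (nat_lit 5) (nat_lit 202) (nat_lit 5) (nat_lit 322) (nat_lit 313) (nat_lit 145)) (XT.lf (nat_lit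 76) (nat_lit 2335420009) (nat_lit 0) (nat_lit 6201234240) (nat_lit 1292) (nat_lit 61679347319) (nat_lit 186) (nat_lit 5) (nat_lit 185) (nat_lit 5) (nat_lit 202) (nat_lit 5) (nat_lit 323) (nat_lit 313) (nat_lit 144)))) (XT.nd (nat_lit 156) (nat_lit 1140) (nat_lit 0) (XT.nd (nat_lit 78) (nat_lit 684) (nat_lit 0) (XT.lf (nat_lit 0) (nat_lit 16959866388) (nat_lit 1216) (nat_lit 12194728500) (nat_lit 76) (nat_lit 42991951833) (nat_lit 186) (nat_lit 5) (nat_lit 202) (nat_lit 5) (nat_lit 187) (nat_lit 5) (nat_lit 324) (nat_lit 313) (nat_lit 143)) (XT.lf (nat_lit 0) (nat_lit 26518524953) (nat_lit 760) (nat_lit 27226980096) (nat_lit 76) (nat_lit 20406687071) (nat_lit 177) (nat_lit 5) (nat_lit 187) (nat_lit 5) (nat_lit 178) (nat_lit 5) (nat_lit 325) (nat_lit 313) (nat_lit 142))) (XT.nd (nat_lit 78) (nat_lit 532) (nat_lit 0) (XT.lf (nat_lit 0) (nat_lit 33355757021) (nat_lit 608) (nat_lit 3939669354)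 (nat_lit 684) (nat_lit 38940485605) (nat_lit 169) (nat_lit 5) (nat_lit 177) (nat_lit 5) (nat_lit 178) (nat_lit 5) (nat_lit 326) (nat_lit 313) (nat_lit 141)) (XT.lf (nat_lit 0) (nat_lit 19023533960) (nat_lit 532) (nat_lit 30517076367) (nat_lit 608) (nat_lit 28855325798) (nat_lit 162) (nat_lit 5) (nat_lit 169) (nat_lit 5) (nat_lit 170) (nat_lit 5) (nat_lit 327) (nat_lit 313) (nat_lit 140)))))) (XT.nd (nat_lit 546) (nat_lit 2432) (nat_lit 0) (XT.nd (nat_lit 234) (nat_lit 1444) (nat_lit 0) (XT.nd (nat_lit 78) (nat_lit 532) (nat_lit 0) (XT.lf (nat_lit 0) (nat_lit 4095568339) (nat_lit 532) (nat_lit 59032848495) (nat_lit 608) (nat_lit 17513635093) (nat_lit 155) (nat_lit 5) (nat_lit 162) (nat_lit 5) (nat_lit 163) (nat_lit 5) (nat_lit 328) (nat_lit 313) (nat_lit 139)) (XT.nd (nat_lit 78) (nat_lit 532) (nat_lit 0) (XT.lf (nat_lit 0) (nat_lit 71662270341) (nat_lit 532) (nat_lit 6648312654) (nat_lit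 608) (nat_lit 4662442729) (nat_lit 155) (nat_lit 5) (nat_lit 162) (nat_lit 5) (nat_lit 163) (nat_lit 5) (nat_lit 329) (nat_lit 313) (nat_lit 138)) (XT.lf (nat_lit 0) (nat_lit 9688825718) (nat_lit 532) (nat_lit 27635361007) (nat_lit 76) (nat_lit 48062920503) (nat_lit 148) (nat_lit 5) (nat_lit 155) (nat_lit 5) (nat_lit 149) (nat_lit 5) (nat_lit 330) (nat_lit 313) (nat_lit 137)))) (XT.nd (nat_lit 156) (nat_lit 456) (nat_lit 0) (XT.nd (nat_lit 78) (nat_lit 456) (nat_lit 0) (XT.lf (nat_lit 0) (nat_lit 25435580934) (nat_lit 608) (nat_lit 44761973935) (nat_lit 76) (nat_lit 17699723691) (nat_lit 141) (nat_lit 5) (nat_lit 149) (nat_lit 5) (nat_lit 142) (nat_lit 5) (nat_lit 331) (nat_lit 313) (nat_lit 136)) (XT.lf (nat_lit 0) (nat_lit 27656523067) (nat_lit 456) (nat_lit 15241939884) (nat_lit 532) (nat_lit 47606632916) (nat_lit 135) (nat_lit 5) (nat_lit 141) (nat_lit 5) (nat_lit 142) (nat_lit 5) (nat_lit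 332) (nat_lit 313) (nat_lit 135))) (XT.nd (nat_lit 78) (nat_lit 0) (nat_lit 0) (XT.lf (nat_lit 0) (nat_lit 11206621016) (nat_lit 456) (nat_lit 51008062229) (nat_lit 532) (nat_lit 30999215995) (nat_lit 129) (nat_lit 5) (nat_lit 135) (nat_lit 5) (nat_lit 136) (nat_lit 5) (nat_lit 333) (nat_lit 313) (nat_lit 134)) (XT.lf (nat_lit 0) (nat_lit 83360617279) (nat_lit 532) (nat_lit 5979933663) (nat_lit 76) (nat_lit 6691675735) (nat_lit 129) (nat_lit 5) (nat_lit 136) (nat_lit 5) (nat_lit 130) (nat_lit 5) (nat_lit 334) (nat_lit 313) (nat_lit 133))))) (XT.nd (nat_lit 234) (nat_lit 1140) (nat_lit 0) (XT.nd (nat_lit 78) (nat_lit 836) (nat_lit 0) (XT.lf (nat_lit 0) (nat_lit 7689159500) (nat_lit 456) (nat_lit 24237592259) (nat_lit 76) (nat_lit 67025473319) (nat_lit 123) (nat_lit 5) (nat_lit 129) (nat_lit 5) (nat_lit 124) (nat_lit 5) (nat_lit 335) (nat_lit 313) (nat_lit 132)) (XT.nd (nat_lit 78) (nat_lit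 380) (nat_lit 0) (XT.lf (nat_lit 0) (nat_lit 29712584396) (nat_lit 532) (nat_lit 43709989099) (nat_lit 76) (nat_lit 28564686344) (nat_lit 117) (nat_lit 5) (nat_lit 124) (nat_lit 5) (nat_lit 118) (nat_lit 5) (nat_lit 336) (nat_lit 313) (nat_lit 131)) (XT.lf (nat_lit 0) (nat_lit 40726709157) (nat_lit 380) (nat_lit 13075279712) (nat_lit 456) (nat_lit 51343114039) (nat_lit 112) (nat_lit 5) (nat_lit 117) (nat_lit 5) (nat_lit 118) (nat_lit 5) (nat_lit 337) (nat_lit 313) (nat_lit 130)))) (XT.nd (nat_lit 156) (nat_lit 456) (nat_lit 0) (XT.nd (nat_lit 78) (nat_lit 304) (nat_lit 0) (XT.lf (nat_lit 0) (nat_lit 21787494394) (nat_lit 380) (nat_lit 58454756342) (nat_lit 456) (nat_lit 28184196561) (nat_lit 107) (nat_lit 5) (nat_lit 112) (nat_lit 5) (nat_lit 113) (nat_lit 5) (nat_lit 338) (nat_lit 313) (nat_lit 129)) (XT.lf (nat_lit 0) (nat_lit 1653007260) (nat_lit 304) (nat_lit 107205716827) (nat_lit 380)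 (nat_lit 2987509610) (nat_lit 103) (nat_lit 5) (nat_lit 107) (nat_lit 5) (nat_lit 108) (nat_lit 5) (nat_lit 339) (nat_lit 313) (nat_lit 128))) (XT.nd (nat_lit 78) (nat_lit 380) (nat_lit 0) (XT.lf (nat_lit 0) (nat_lit 24500926165) (nat_lit 380) (nat_lit 20065697022) (nat_lit 76) (nat_lit 70818922581) (nat_lit 102) (nat_lit 5) (nat_lit 107) (nat_lit 5) (nat_lit 103) (nat_lit 5) (nat_lit 340) (nat_lit 313) (nat_lit 127)) (XT.lf (nat_lit 0) (nat_lit 54243906716) (nat_lit 456) (nat_lit 43269923433) (nat_lit 76) (nat_lit 21558849290) (nat_lit 97) (nat_lit 5) (nat_lit 103) (nat_lit 5) (nat_lit 98) (nat_lit 5) (nat_lit 341) (nat_lit 313) (nat_lit 126))))))) (XT.nd (nat_lit 38844) (nat_lit 0) (nat_lit 5472) (XT.nd (nat_lit 546) (nat_lit 228) (nat_lit 0) (XT.nd (nat_lit 234) (nat_lit 912) (nat_lit 0) (XT.nd (nat_lit 78) (nat_lit 684) (nat_lit 0) (XT.lf (nat_lit 0) (nat_lit 54557701718) (nat_lit 304)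 (nat_lit 32098445812) (nat_lit 380) (nat_lit 36252559552) (nat_lit 93) (nat_lit 5) (nat_lit 97) (nat_lit 5) (nat_lit 98) (nat_lit 5) (nat_lit 342) (nat_lit 313) (nat_lit 125)) (XT.nd (nat_lit 78) (nat_lit 380) (nat_lit 0) (XT.lf (nat_lit 0) (nat_lit 31515606255) (nat_lit 304) (nat_lit 90277148362) (nat_lit 380) (nat_lit 5110669457) (nat_lit 89) (nat_lit 5) (nat_lit 93) (nat_lit 5) (nat_lit 94) (nat_lit 5) (nat_lit 343) (nat_lit 313) (nat_lit 124)) (XT.lf (nat_lit 0) (nat_lit 6251976032) (nat_lit 304) (nat_lit 21891932228) (nat_lit 380) (nat_lit 102913195116) (nat_lit 84) (nat_lit 5) (nat_lit 88) (nat_lit 5) (nat_lit 89) (nat_lit 5) (nat_lit 344) (nat_lit 313) (nat_lit 123)))) (XT.nd (nat_lit 156) (nat_lit 608) (nat_lit 0) (XT.nd (nat_lit 78) (nat_lit 304) (nat_lit 0) (XT.lf (nat_lit 0) (nat_lit 64427253927) (nat_lit 380) (nat_lit 20964007239) (nat_lit 76) (nat_lit 49981535913) (nat_lit 84)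 (nat_lit 5) (nat_lit 89) (nat_lit 5) (nat_lit 85) (nat_lit 5) (nat_lit 345) (nat_lit 313) (nat_lit 122)) (XT.lf (nat_lit 0) (nat_lit 89595600442) (nat_lit 304) (nat_lit 14010715271) (nat_lit 380) (nat_lit 36265513788) (nat_lit 80) (nat_lit 5) (nat_lit 84) (nat_lit 5) (nat_lit 85) (nat_lit 5) (nat_lit 346) (nat_lit 313) (nat_lit 121))) (XT.nd (nat_lit 78) (nat_lit 304) (nat_lit 0) (XT.lf (nat_lit 0) (nat_lit 1560051429) (nat_lit 304) (nat_lit 82413118468) (nat_lit 76) (nat_lit 60580168304) (nat_lit 76) (nat_lit 5) (nat_lit 80) (nat_lit 5) (nat_lit 77) (nat_lit 5) (nat_lit 347) (nat_lit 313) (nat_lit 120)) (XT.lf (nat_lit 0) (nat_lit 31883388906) (nat_lit 304) (nat_lit 9620397216) (nat_lit 380) (nat_lit 107925057188) (nat_lit 72) (nat_lit 5) (nat_lit 76) (nat_lit 5) (nat_lit 77) (nat_lit 5) (nat_lit 348) (nat_lit 313) (nat_lit 119))))) (XT.nd (nat_lit 37986) (nat_lit 0) (nat_lit 9576) (XT.nd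 (nat_lit 78) (nat_lit 228) (nat_lit 0) (XT.lf (nat_lit 0) (nat_lit 84958855106) (nat_lit 380) (nat_lit 1573048578) (nat_lit 76) (nat_lit 67970795982) (nat_lit 72) (nat_lit 5) (nat_lit 77) (nat_lit 5) (nat_lit 73) (nat_lit 5) (nat_lit 349) (nat_lit 313) (nat_lit 118)) (XT.nd (nat_lit 37830) (nat_lit 0) (nat_lit 9576) (XT.lf (nat_lit 0) (nat_lit 122490239123) (nat_lit 228) (nat_lit 9370413483) (nat_lit 304) (nat_lit 27931377379) (nat_lit 69) (nat_lit 5) (nat_lit 72) (nat_lit 5) (nat_lit 73) (nat_lit 5) (nat_lit 350) (nat_lit 313) (nat_lit 117)) (XT.lf (nat_lit 0) (nat_lit 8156233032) (nat_lit 0) (nat_lit 8156233032) (nat_lit 1140) (nat_lit 12189769395) (nat_lit 195) (nat_lit 5) (nat_lit 195) (nat_lit 3) (nat_lit 210) (nat_lit 3) (nat_lit 314) (nat_lit 314) (nat_lit 152)))) (XT.nd (nat_lit 156) (nat_lit 0) (nat_lit 76) (XT.nd (nat_lit 78) (nat_lit 0) (nat_lit 76) (XT.lf (nat_lit 76) (nat_lit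 2167050672) (nat_lit 0) (nat_lit 31588803087) (nat_lit 1216) (nat_lit 24664232837) (nat_lit 196) (nat_lit 5) (nat_lit 195) (nat_lit 5) (nat_lit 211) (nat_lit 5) (nat_lit 315) (nat_lit 314) (nat_lit 151)) (XT.lf (nat_lit 0) (nat_lit 35641712466) (nat_lit 1140) (nat_lit 12157211461) (nat_lit 1216) (nat_lit 12086609778) (nat_lit 196) (nat_lit 5) (nat_lit 211) (nat_lit 5) (nat_lit 212) (nat_lit 5) (nat_lit 316) (nat_lit 314) (nat_lit 150))) (XT.nd (nat_lit 78) (nat_lit 0) (nat_lit 76) (XT.lf (nat_lit 76) (nat_lit 34496601436) (nat_lit 0) (nat_lit 3773778422) (nat_lit 1216) (nat_lit 23134420103) (nat_lit 197) (nat_lit 5) (nat_lit 196) (nat_lit 5) (nat_lit 212) (nat_lit 5) (nat_lit 317) (nat_lit 314) (nat_lit 149)) (XT.lf (nat_lit 76) (nat_lit 20735020442) (nat_lit 0) (nat_lit 21027413352) (nat_lit 1216) (nat_lit 21215639297) (nat_lit 198) (nat_lit 5) (nat_lit 197) (nat_lit 5) (nat_lit 213) (nat_lit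 5) (nat_lit 318) (nat_lit 314) (nat_lit 148)))))) (XT.nd (nat_lit 546) (nat_lit 3344) (nat_lit 0) (XT.nd (nat_lit 234) (nat_lit 988) (nat_lit 0) (XT.nd (nat_lit 78) (nat_lit 0) (nat_lit 76) (XT.lf (nat_lit 76) (nat_lit 6544300237) (nat_lit 0) (nat_lit 39506167583) (nat_lit 1216) (nat_lit 18560902792) (nat_lit 199) (nat_lit 5) (nat_lit 198) (nat_lit 5) (nat_lit 214) (nat_lit 5) (nat_lit 319) (nat_lit 314) (nat_lit 147)) (XT.nd (nat_lit 78) (nat_lit 0) (nat_lit 0) (XT.lf (nat_lit 0) (nat_lit 51265830060) (nat_lit 1140) (nat_lit 7940460498) (nat_lit 1216) (nat_lit 7098656610) (nat_lit 199) (nat_lit 5) (nat_lit 214) (nat_lit 5) (nat_lit 215) (nat_lit 5) (nat_lit 320) (nat_lit 314) (nat_lit 146)) (XT.lf (nat_lit 76) (nat_lit 45174095454) (nat_lit 0) (nat_lit 12399258868) (nat_lit 1216) (nat_lit 10484908275) (nat_lit 200) (nat_lit 5) (nat_lit 199) (nat_lit 5) (nat_lit 215) (nat_lit 5) (nat_lit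 321) (nat_lit 314) (nat_lit 145)))) (XT.nd (nat_lit 156) (nat_lit 0) (nat_lit 0) (XT.nd (nat_lit 78) (nat_lit 1140) (nat_lit 0) (XT.lf (nat_lit 76) (nat_lit 31472438712) (nat_lit 0) (nat_lit 33460619829) (nat_lit 1216) (nat_lit 4944082921) (nat_lit 201) (nat_lit 5) (nat_lit 200) (nat_lit 5) (nat_lit 216) (nat_lit 5) (nat_lit 322) (nat_lit 314) (nat_lit 144)) (XT.lf (nat_lit 0) (nat_lit 1540438988) (nat_lit 1216) (nat_lit 54476608283) (nat_lit 1292) (nat_lit 15749155480) (nat_lit 185) (nat_lit 5) (nat_lit 201) (nat_lit 5) (nat_lit 202) (nat_lit 5) (nat_lit 323) (nat_lit 314) (nat_lit 143))) (XT.nd (nat_lit 78) (nat_lit 0) (nat_lit 76) (XT.lf (nat_lit 76) (nat_lit 2489146887) (nat_lit 0) (nat_lit 6518233944) (nat_lit 1292) (nat_lit 64718055943) (nat_lit 186) (nat_lit 5) (nat_lit 185) (nat_lit 5) (nat_lit 202) (nat_lit 5) (nat_lit 324) (nat_lit 314) (nat_lit 142)) (XT.lf (nat_lit 0) (nat_lit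 17849599877) (nat_lit 1216) (nat_lit 12767905455) (nat_lit 76) (nat_lit 45135070752) (nat_lit 186) (nat_lit 5) (nat_lit 202) (nat_lit 5) (nat_lit 187) (nat_lit 5) (nat_lit 325) (nat_lit 314) (nat_lit 141))))) (XT.nd (nat_lit 234) (nat_lit 1596) (nat_lit 0) (XT.nd (nat_lit 78) (nat_lit 1140) (nat_lit 0) (XT.lf (nat_lit 0) (nat_lit 27884501052) (nat_lit 760) (nat_lit 28551527146) (nat_lit 76) (nat_lit 21422528444) (nat_lit 177) (nat_lit 5) (nat_lit 187) (nat_lit 5) (nat_lit 178) (nat_lit 5) (nat_lit 326) (nat_lit 314) (nat_lit 140)) (XT.nd (nat_lit 78) (nat_lit 532) (nat_lit 0) (XT.lf (nat_lit 0) (nat_lit 35059291906) (nat_lit 608) (nat_lit 4139392125) (nat_lit 684) (nat_lit 40847827444) (nat_lit 169) (nat_lit 5) (nat_lit 177) (nat_lit 5) (nat_lit 178) (nat_lit 5) (nat_lit 327) (nat_lit 314) (nat_lit 139)) (XT.lf (nat_lit 0) (nat_lit 20010620405) (nat_lit 532) (nat_lit 32043994201) (nat_lit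 608) (nat_lit 30259969575) (nat_lit 162) (nat_lit 5) (nat_lit 169) (nat_lit 5) (nat_lit 170) (nat_lit 5) (nat_lit 328) (nat_lit 314) (nat_lit 138)))) (XT.nd (nat_lit 156) (nat_lit 1064) (nat_lit 0) (XT.nd (nat_lit 78) (nat_lit 0) (nat_lit 0) (XT.lf (nat_lit 0) (nat_lit 4336352913) (nat_lit 532) (nat_lit 61984034243) (nat_lit 608) (nat_lit 18352663229) (nat_lit 155) (nat_lit 5) (nat_lit 162) (nat_lit 5) (nat_lit 163) (nat_lit 5) (nat_lit 329) (nat_lit 314) (nat_lit 137)) (XT.lf (nat_lit 0) (nat_lit 75279675437) (nat_lit 532) (nat_lit 6980293356) (nat_lit 608) (nat_lit 4860656657) (nat_lit 155) (nat_lit 5) (nat_lit 162) (nat_lit 5) (nat_lit 163) (nat_lit 5) (nat_lit 330) (nat_lit 314) (nat_lit 136))) (XT.nd (nat_lit 78) (nat_lit 532) (nat_lit 0) (XT.lf (nat_lit 0) (nat_lit 10206201419) (nat_lit 532) (nat_lit 28982114465) (nat_lit 76) (nat_lit 50467125514) (nat_lit 148) (nat_lit 5) (nat_lit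 155) (nat_lit 5) (nat_lit 149) (nat_lit 5) (nat_lit 331) (nat_lit 314) (nat_lit 135)) (XT.lf (nat_lit 0) (nat_lit 26739075305) (nat_lit 608) (nat_lit 46965101637) (nat_lit 76) (nat_lit 18586982508) (nat_lit 141) (nat_lit 5) (nat_lit 149) (nat_lit 5) (nat_lit 142) (nat_lit 5) (nat_lit 332) (nat_lit 314) (nat_lit 134))))))))
noncomputable def xc120 : XT := (XT.nd (nat_lit 39936) (nat_lit 0) (nat_lit 304) (XT.nd (nat_lit 1014) (nat_lit 912) (nat_lit 0) (XT.nd (nat_lit 468) (nat_lit 2128) (nat_lit 0) (XT.nd (nat_lit 234) (nat_lit 1292) (nat_lit 0) (XT.nd (nat_lit 78) (nat_lit 456) (nat_lit 0) (XT.lf (nat_lit 0) (nat_lit 29073317779) (nat_lit 456) (nat_lit 16000599916) (nat_lit 532) (nat_lit 49955486941) (nat_lit 135) (nat_lit 5) (nat_lit 141) (nat_lit 5) (nat_lit 142) (nat_lit 5) (nat_lit 333) (nat_lit 314) (nat_lit 133)) (XT.nd (nat_lit 78) (nat_lit 0) (nat_lit 0) (XT.lf (nat_lit 0) (nat_lit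 11800833739) (nat_lit 456) (nat_lit 53554018537) (nat_lit 532) (nat_lit 32518830237) (nat_lit 129) (nat_lit 5) (nat_lit 135) (nat_lit 5) (nat_lit 136) (nat_lit 5) (nat_lit 334) (nat_lit 314) (nat_lit 132)) (XT.lf (nat_lit 0) (nat_lit 87556722061) (nat_lit 532) (nat_lit 6245834521) (nat_lit 76) (nat_lit 7030411933) (nat_lit 129) (nat_lit 5) (nat_lit 136) (nat_lit 5) (nat_lit 130) (nat_lit 5) (nat_lit 335) (nat_lit 314) (nat_lit 131)))) (XT.nd (nat_lit 78) (nat_lit 836) (nat_lit 0) (XT.lf (nat_lit 0) (nat_lit 8100956814) (nat_lit 456) (nat_lit 25416755402) (nat_lit 76) (nat_lit 70381278712) (nat_lit 123) (nat_lit 5) (nat_lit 129) (nat_lit 5) (nat_lit 124) (nat_lit 5) (nat_lit 336) (nat_lit 314) (nat_lit 130)) (XT.nd (nat_lit 78) (nat_lit 380) (nat_lit 0) (XT.lf (nat_lit 0) (nat_lit 31224608809) (nat_lit 532) (nat_lit 45862947836) (nat_lit 76) (nat_lit 29998250309) (nat_lit 117) (nat_lit 5)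 (nat_lit 124) (nat_lit 5) (nat_lit 118) (nat_lit 5) (nat_lit 337) (nat_lit 314) (nat_lit 129)) (XT.lf (nat_lit 0) (nat_lit 42794652560) (nat_lit 380) (nat_lit 13722877866) (nat_lit 456) (nat_lit 53884041485) (nat_lit 112) (nat_lit 5) (nat_lit 117) (nat_lit 5) (nat_lit 118) (nat_lit 5) (nat_lit 338) (nat_lit 314) (nat_lit 128))))) (XT.nd (nat_lit 234) (nat_lit 1368) (nat_lit 0) (XT.nd (nat_lit 78) (nat_lit 380) (nat_lit 0) (XT.lf (nat_lit 0) (nat_lit 22908277061) (nat_lit 380) (nat_lit 61370675157) (nat_lit 456) (nat_lit 29568057987) (nat_lit 107) (nat_lit 5) (nat_lit 112) (nat_lit 5) (nat_lit 113) (nat_lit 5) (nat_lit 339) (nat_lit 314) (nat_lit 127)) (XT.nd (nat_lit 78) (nat_lit 76) (nat_lit 0) (XT.lf (nat_lit 0) (nat_lit 1766839286) (nat_lit 304) (nat_lit 112558601213) (nat_lit 380) (nat_lit 3112370726) (nat_lit 103) (nat_lit 5) (nat_lit 107) (nat_lit 5) (nat_lit 108) (nat_lit 5) (nat_lit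 340) (nat_lit 314) (nat_lit 126)) (XT.lf (nat_lit 0) (nat_lit 25748863903) (nat_lit 380) (nat_lit 21038810279) (nat_lit 76) (nat_lit 74366442944) (nat_lit 102) (nat_lit 5) (nat_lit 107) (nat_lit 5) (nat_lit 103) (nat_lit 5) (nat_lit 341) (nat_lit 314) (nat_lit 125)))) (XT.nd (nat_lit 156) (nat_lit 684) (nat_lit 0) (XT.nd (nat_lit 78) (nat_lit 304) (nat_lit 0) (XT.lf (nat_lit 0) (nat_lit 56978254566) (nat_lit 456) (nat_lit 45403501546) (nat_lit 76) (nat_lit 22643874451) (nat_lit 97) (nat_lit 5) (nat_lit 103) (nat_lit 5) (nat_lit 98) (nat_lit 5) (nat_lit 342) (nat_lit 314) (nat_lit 124)) (XT.lf (nat_lit 0) (nat_lit 57314647268) (nat_lit 304) (nat_lit 33695684618) (nat_lit 380) (nat_lit 38043151837) (nat_lit 93) (nat_lit 5) (nat_lit 97) (nat_lit 5) (nat_lit 98) (nat_lit 5) (nat_lit 343) (nat_lit 314) (nat_lit 123))) (XT.nd (nat_lit 78) (nat_lit 380) (nat_lit 0) (XT.lf (nat_lit 0) (nat_lit 33120182110)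 (nat_lit 304) (nat_lit 94782916407) (nat_lit 380) (nat_lit 5344859000) (nat_lit 89) (nat_lit 5) (nat_lit 93) (nat_lit 5) (nat_lit 94) (nat_lit 5) (nat_lit 344) (nat_lit 314) (nat_lit 122)) (XT.lf (nat_lit 0) (nat_lit 6592965147) (nat_lit 304) (nat_lit 22978342320) (nat_lit 380) (nat_lit 108038029638) (nat_lit 84) (nat_lit 5) (nat_lit 88) (nat_lit 5) (nat_lit 89) (nat_lit 5) (nat_lit 345) (nat_lit 314) (nat_lit 121)))))) (XT.nd (nat_lit 38376) (nat_lit 0) (nat_lit 9424) (XT.nd (nat_lit 234) (nat_lit 304) (nat_lit 0) (XT.nd (nat_lit 78) (nat_lit 608) (nat_lit 0) (XT.lf (nat_lit 0) (nat_lit 67667933278) (nat_lit 380) (nat_lit 21984652307) (nat_lit 76) (nat_lit 52488257253) (nat_lit 84) (nat_lit 5) (nat_lit 89) (nat_lit 5) (nat_lit 85) (nat_lit 5) (nat_lit 346) (nat_lit 314) (nat_lit 120)) (XT.nd (nat_lit 78) (nat_lit 304) (nat_lit 0) (XT.lf (nat_lit 0) (nat_lit 94102145891) (nat_lit 304) (nat_lit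 14703139707) (nat_lit 380) (nat_lit 38059561854) (nat_lit 80) (nat_lit 5) (nat_lit 84) (nat_lit 5) (nat_lit 85) (nat_lit 5) (nat_lit 347) (nat_lit 314) (nat_lit 119)) (XT.lf (nat_lit 0) (nat_lit 1656340741) (nat_lit 304) (nat_lit 86506918046) (nat_lit 76) (nat_lit 63617184869) (nat_lit 76) (nat_lit 5) (nat_lit 80) (nat_lit 5) (nat_lit 77) (nat_lit 5) (nat_lit 348) (nat_lit 314) (nat_lit 118)))) (XT.nd (nat_lit 37986) (nat_lit 0) (nat_lit 9348) (XT.nd (nat_lit 78) (nat_lit 0) (nat_lit 0) (XT.lf (nat_lit 0) (nat_lit 33503644865) (nat_lit 304) (nat_lit 10092997265) (nat_lit 380) (nat_lit 113303101102) (nat_lit 72) (nat_lit 5) (nat_lit 76) (nat_lit 5) (nat_lit 77) (nat_lit 5) (nat_lit 349) (nat_lit 314) (nat_lit 117)) (XT.lf (nat_lit 0) (nat_lit 89223700375) (nat_lit 380) (nat_lit 1626417368) (nat_lit 76) (nat_lit 71377198172) (nat_lit 72) (nat_lit 5) (nat_lit 77) (nat_lit 5) (nat_lit 73) (nat_lit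 5) (nat_lit 350) (nat_lit 314) (nat_lit 116))) (XT.nd (nat_lit 78) (nat_lit 0) (nat_lit 0) (XT.lf (nat_lit 0) (nat_lit 8579607716) (nat_lit 0) (nat_lit 8579607716) (nat_lit 1140) (nat_lit 12767161452) (nat_lit 195) (nat_lit 5) (nat_lit 195) (nat_lit 3) (nat_lit 210) (nat_lit 3) (nat_lit 315) (nat_lit 315) (nat_lit 150)) (XT.lf (nat_lit 76) (nat_lit 2307812741) (nat_lit 0) (nat_lit 33195148034) (nat_lit 1216) (nat_lit 25836281071) (nat_lit 196) (nat_lit 5) (nat_lit 195) (nat_lit 5) (nat_lit 211) (nat_lit 5) (nat_lit 316) (nat_lit 315) (nat_lit 149))))) (XT.nd (nat_lit 234) (nat_lit 0) (nat_lit 152) (XT.nd (nat_lit 78) (nat_lit 0) (nat_lit 0) (XT.lf (nat_lit 0) (nat_lit 37480041616) (nat_lit 1140) (nat_lit 12732198472) (nat_lit 1216) (nat_lit 12665816664) (nat_lit 196) (nat_lit 5) (nat_lit 211) (nat_lit 5) (nat_lit 212) (nat_lit 5) (nat_lit 317) (nat_lit 315) (nat_lit 148)) (XT.nd (nat_lit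 78) (nat_lit 0) (nat_lit 76) (XT.lf (nat_lit 76) (nat_lit 36253362756) (nat_lit 0) (nat_lit 3984408301) (nat_lit 1216) (nat_lit 24235589562) (nat_lit 197) (nat_lit 5) (nat_lit 196) (nat_lit 5) (nat_lit 212) (nat_lit 5) (nat_lit 318) (nat_lit 315) (nat_lit 147)) (XT.lf (nat_lit 76) (nat_lit 21804623477) (nat_lit 0) (nat_lit 22097353798) (nat_lit 1216) (nat_lit 22223396652) (nat_lit 198) (nat_lit 5) (nat_lit 197) (nat_lit 5) (nat_lit 213) (nat_lit 5) (nat_lit 319) (nat_lit 315) (nat_lit 146)))) (XT.nd (nat_lit 156) (nat_lit 0) (nat_lit 76) (XT.nd (nat_lit 78) (nat_lit 0) (nat_lit 76) (XT.lf (nat_lit 76) (nat_lit 6905155827) (nat_lit 0) (nat_lit 41496961887) (nat_lit 1216) (nat_lit 19438290332) (nat_lit 199) (nat_lit 5) (nat_lit 198) (nat_lit 5) (nat_lit 214) (nat_lit 5) (nat_lit 320) (nat_lit 315) (nat_lit 145)) (XT.lf (nat_lit 0) (nat_lit 53875766938) (nat_lit 1140) (nat_lit 8303844918) (nat_lit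 1216) (nat_lit 7439128737) (nat_lit 199) (nat_lit 5) (nat_lit 214) (nat_lit 5) (nat_lit 215) (nat_lit 5) (nat_lit 321) (nat_lit 315) (nat_lit 144))) (XT.nd (nat_lit 78) (nat_lit 0) (nat_lit 76) (XT.lf (nat_lit 76) (nat_lit 47465474588) (nat_lit 0) (nat_lit 13031285703) (nat_lit 1216) (nat_lit 10963021316) (nat_lit 200) (nat_lit 5) (nat_lit 199) (nat_lit 5) (nat_lit 215) (nat_lit 5) (nat_lit 322) (nat_lit 315) (nat_lit 143)) (XT.lf (nat_lit 76) (nat_lit 33079265204) (nat_lit 0) (nat_lit 35143262862) (nat_lit 1216) (nat_lit 5147136472) (nat_lit 201) (nat_lit 5) (nat_lit 200) (nat_lit 5) (nat_lit 216) (nat_lit 5) (nat_lit 323) (nat_lit 315) (nat_lit 142))))))) (XT.nd (nat_lit 1092) (nat_lit 3572) (nat_lit 0) (XT.nd (nat_lit 546) (nat_lit 2432) (nat_lit 0) (XT.nd (nat_lit 234) (nat_lit 2280) (nat_lit 0) (XT.nd (nat_lit 78) (nat_lit 0) (nat_lit 0) (XT.lf (nat_lit 0) (nat_lit 1658926296) (nat_lit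 1216) (nat_lit 57165929425) (nat_lit 1292) (nat_lit 16528367437) (nat_lit 185) (nat_lit 5) (nat_lit 201) (nat_lit 5) (nat_lit 202) (nat_lit 5) (nat_lit 324) (nat_lit 315) (nat_lit 141)) (XT.nd (nat_lit 78) (nat_lit 0) (nat_lit 76) (XT.lf (nat_lit 76) (nat_lit 2647124302) (nat_lit 0) (nat_lit 6850438604) (nat_lit 1292) (nat_lit 67912907726) (nat_lit 186) (nat_lit 5) (nat_lit 185) (nat_lit 5) (nat_lit 202) (nat_lit 5) (nat_lit 325) (nat_lit 315) (nat_lit 140)) (XT.lf (nat_lit 0) (nat_lit 18779939434) (nat_lit 1216) (nat_lit 13373140211) (nat_lit 76) (nat_lit 47385947943) (nat_lit 186) (nat_lit 5) (nat_lit 202) (nat_lit 5) (nat_lit 187) (nat_lit 5) (nat_lit 326) (nat_lit 315) (nat_lit 139)))) (XT.nd (nat_lit 156) (nat_lit 1064) (nat_lit 0) (XT.nd (nat_lit 78) (nat_lit 608) (nat_lit 0) (XT.lf (nat_lit 0) (nat_lit 29315052500) (nat_lit 760) (nat_lit 29945723046) (nat_lit 76) (nat_lit 22489579600)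 (nat_lit 177) (nat_lit 5) (nat_lit 187) (nat_lit 5) (nat_lit 178) (nat_lit 5) (nat_lit 327) (nat_lit 315) (nat_lit 138)) (XT.lf (nat_lit 0) (nat_lit 36844680115) (nat_lit 608) (nat_lit 4348846360) (nat_lit 684) (nat_lit 42854225672) (nat_lit 169) (nat_lit 5) (nat_lit 177) (nat_lit 5) (nat_lit 178) (nat_lit 5) (nat_lit 328) (nat_lit 315) (nat_lit 137))) (XT.nd (nat_lit 78) (nat_lit 532) (nat_lit 0) (XT.lf (nat_lit 0) (nat_lit 21043722625) (nat_lit 532) (nat_lit 33647159005) (nat_lit 608) (nat_lit 31738389811) (nat_lit 162) (nat_lit 5) (nat_lit 169) (nat_lit 5) (nat_lit 170) (nat_lit 5) (nat_lit 329) (nat_lit 315) (nat_lit 136)) (XT.lf (nat_lit 0) (nat_lit 4585829205) (nat_lit 532) (nat_lit 65082821735) (nat_lit 608) (nat_lit 19237050478) (nat_lit 155) (nat_lit 5) (nat_lit 162) (nat_lit 5) (nat_lit 163) (nat_lit 5) (nat_lit 330) (nat_lit 315) (nat_lit 135))))) (XT.nd (nat_lit 234) (nat_lit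 1368) (nat_lit 0) (XT.nd (nat_lit 78) (nat_lit 1064) (nat_lit 0) (XT.lf (nat_lit 0) (nat_lit 79074762681) (nat_lit 532) (nat_lit 7328913529) (nat_lit 608) (nat_lit 5072026716) (nat_lit 155) (nat_lit 5) (nat_lit 162) (nat_lit 5) (nat_lit 163) (nat_lit 5) (nat_lit 331) (nat_lit 315) (nat_lit 134)) (XT.nd (nat_lit 78) (nat_lit 532) (nat_lit 0) (XT.lf (nat_lit 0) (nat_lit 10746383976) (nat_lit 532) (nat_lit 30399460922) (nat_lit 76) (nat_lit 52991442320) (nat_lit 148) (nat_lit 5) (nat_lit 155) (nat_lit 5) (nat_lit 149) (nat_lit 5) (nat_lit 332) (nat_lit 315) (nat_lit 133)) (XT.lf (nat_lit 0) (nat_lit 28104795805) (nat_lit 608) (nat_lit 49281636994) (nat_lit 76) (nat_lit 19518392977) (nat_lit 141) (nat_lit 5) (nat_lit 149) (nat_lit 5) (nat_lit 142) (nat_lit 5) (nat_lit 333) (nat_lit 315) (nat_lit 132)))) (XT.nd (nat_lit 156) (nat_lit 456) (nat_lit 0) (XT.nd (nat_lit 78) (nat_lit 456) (nat_lit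 0) (XT.lf (nat_lit 0) (nat_lit 30557794153) (nat_lit 456) (nat_lit 16797512487) (nat_lit 532) (nat_lit 52424710158) (nat_lit 135) (nat_lit 5) (nat_lit 141) (nat_lit 5) (nat_lit 142) (nat_lit 5) (nat_lit 334) (nat_lit 315) (nat_lit 131)) (XT.lf (nat_lit 0) (nat_lit 12421607101) (nat_lit 456) (nat_lit 56227686081) (nat_lit 532) (nat_lit 34117246526) (nat_lit 129) (nat_lit 5) (nat_lit 135) (nat_lit 5) (nat_lit 136) (nat_lit 5) (nat_lit 335) (nat_lit 315) (nat_lit 130))) (XT.nd (nat_lit 78) (nat_lit 456) (nat_lit 0) (XT.lf (nat_lit 0) (nat_lit 91960022034) (nat_lit 532) (nat_lit 6528107359) (nat_lit 76) (nat_lit 7385698888) (nat_lit 129) (nat_lit 5) (nat_lit 136) (nat_lit 5) (nat_lit 130) (nat_lit 5) (nat_lit 336) (nat_lit 315) (nat_lit 129)) (XT.lf (nat_lit 0) (nat_lit 8530802241) (nat_lit 456) (nat_lit 26657918369) (nat_lit 76) (nat_lit 73904453058) (nat_lit 123) (nat_lit 5) (nat_lit 129) (nat_lit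 5) (nat_lit 124) (nat_lit 5) (nat_lit 337) (nat_lit 315) (nat_lit 128)))))) (XT.nd (nat_lit 546) (nat_lit 1292) (nat_lit 0) (XT.nd (nat_lit 234) (nat_lit 1064) (nat_lit 0) (XT.nd (nat_lit 78) (nat_lit 760) (nat_lit 0) (XT.lf (nat_lit 0) (nat_lit 32809780467) (nat_lit 532) (nat_lit 48126579836) (nat_lit 76) (nat_lit 31502996971) (nat_lit 117) (nat_lit 5) (nat_lit 124) (nat_lit 5) (nat_lit 118) (nat_lit 5) (nat_lit 338) (nat_lit 315) (nat_lit 127)) (XT.nd (nat_lit 78) (nat_lit 380) (nat_lit 0) (XT.lf (nat_lit 0) (nat_lit 44963054527) (nat_lit 380) (nat_lit 14403429169) (nat_lit 456) (nat_lit 56554453758) (nat_lit 112) (nat_lit 5) (nat_lit 117) (nat_lit 5) (nat_lit 118) (nat_lit 5) (nat_lit 339) (nat_lit 315) (nat_lit 126)) (XT.lf (nat_lit 0) (nat_lit 24082178848) (nat_lit 380) (nat_lit 64433023878) (nat_lit 456) (nat_lit 31023469138) (nat_lit 107) (nat_lit 5) (nat_lit 112) (nat_lit 5) (nat_lit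 113) (nat_lit 5) (nat_lit 340) (nat_lit 315) (nat_lit 125)))) (XT.nd (nat_lit 156) (nat_lit 684) (nat_lit 0) (XT.nd (nat_lit 78) (nat_lit 76) (nat_lit 0) (XT.lf (nat_lit 0) (nat_lit 1883463937) (nat_lit 304) (nat_lit 118179817934) (nat_lit 380) (nat_lit 3245754011) (nat_lit 103) (nat_lit 5) (nat_lit 107) (nat_lit 5) (nat_lit 108) (nat_lit 5) (nat_lit 341) (nat_lit 315) (nat_lit 124)) (XT.lf (nat_lit 0) (nat_lit 27057070299) (nat_lit 380) (nat_lit 22063384268) (nat_lit 76) (nat_lit 78090728115) (nat_lit 102) (nat_lit 5) (nat_lit 107) (nat_lit 5) (nat_lit 103) (nat_lit 5) (nat_lit 342) (nat_lit 315) (nat_lit 123))) (XT.nd (nat_lit 78) (nat_lit 304) (nat_lit 0) (XT.lf (nat_lit 0) (nat_lit 59847260277) (nat_lit 456) (nat_lit 47646540061) (nat_lit 76) (nat_lit 23782492387) (nat_lit 97) (nat_lit 5) (nat_lit 103) (nat_lit 5) (nat_lit 98) (nat_lit 5) (nat_lit 343) (nat_lit 315) (nat_lit 122)) (XT.lf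 (nat_lit 0) (nat_lit 60206738330) (nat_lit 304) (nat_lit 35373499701) (nat_lit 380) (nat_lit 39925322406) (nat_lit 93) (nat_lit 5) (nat_lit 97) (nat_lit 5) (nat_lit 98) (nat_lit 5) (nat_lit 344) (nat_lit 315) (nat_lit 121))))) (XT.nd (nat_lit 234) (nat_lit 608) (nat_lit 0) (XT.nd (nat_lit 78) (nat_lit 380) (nat_lit 0) (XT.lf (nat_lit 0) (nat_lit 34802309621) (nat_lit 304) (nat_lit 99514724928) (nat_lit 380) (nat_lit 5592742376) (nat_lit 89) (nat_lit 5) (nat_lit 93) (nat_lit 5) (nat_lit 94) (nat_lit 5) (nat_lit 345) (nat_lit 315) (nat_lit 120)) (XT.nd (nat_lit 78) (nat_lit 0) (nat_lit 0) (XT.lf (nat_lit 0) (nat_lit 6948364255) (nat_lit 304) (nat_lit 24119834022) (nat_lit 380) (nat_lit 113421042019) (nat_lit 84) (nat_lit 5) (nat_lit 88) (nat_lit 5) (nat_lit 89) (nat_lit 5) (nat_lit 346) (nat_lit 315) (nat_lit 119)) (XT.lf (nat_lit 0) (nat_lit 71068850717) (nat_lit 380) (nat_lit 23058891457)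 (nat_lit 76) (nat_lit 55119603942) (nat_lit 84) (nat_lit 5) (nat_lit 89) (nat_lit 5) (nat_lit 85) (nat_lit 5) (nat_lit 347) (nat_lit 315) (nat_lit 118)))) (XT.nd (nat_lit 38142) (nat_lit 0) (nat_lit 9044) (XT.nd (nat_lit 78) (nat_lit 304) (nat_lit 0) (XT.lf (nat_lit 0) (nat_lit 98831530218) (nat_lit 304) (nat_lit 15430939479) (nat_lit 380) (nat_lit 39945099925) (nat_lit 80) (nat_lit 5) (nat_lit 84) (nat_lit 5) (nat_lit 85) (nat_lit 5) (nat_lit 348) (nat_lit 315) (nat_lit 117)) (XT.lf (nat_lit 0) (nat_lit 1755744391) (nat_lit 304) (nat_lit 90807904451) (nat_lit 76) (nat_lit 66805307740) (nat_lit 76) (nat_lit 5) (nat_lit 80) (nat_lit 5) (nat_lit 77) (nat_lit 5) (nat_lit 349) (nat_lit 315) (nat_lit 116))) (XT.nd (nat_lit 78) (nat_lit 0) (nat_lit 0) (XT.lf (nat_lit 0) (nat_lit 9022704231) (nat_lit 0) (nat_lit 9022704231) (nat_lit 1140) (nat_lit 13376407132) (nat_lit 195) (nat_lit 5) (nat_lit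 195) (nat_lit 3) (nat_lit 210) (nat_lit 3) (nat_lit 316) (nat_lit 316) (nat_lit 148)) (XT.lf (nat_lit 76) (nat_lit 2452599782) (nat_lit 0) (nat_lit 34879308876) (nat_lit 1216) (nat_lit 27072618111) (nat_lit 196) (nat_lit 5) (nat_lit 195) (nat_lit 5) (nat_lit 211) (nat_lit 5) (nat_lit 317) (nat_lit 316) (nat_lit 147))))))))
noncomputable def xc121 : XT := (XT.nd (nat_lit 2184) (nat_lit 988) (nat_lit 0) (XT.nd (nat_lit 1092) (nat_lit 4712) (nat_lit 0) (XT.nd (nat_lit 546) (nat_lit 3116) (nat_lit 0) (XT.nd (nat_lit 234) (nat_lit 0) (nat_lit 152) (XT.nd (nat_lit 78) (nat_lit 0) (nat_lit 0) (XT.lf (nat_lit 0) (nat_lit 39405058233) (nat_lit 1140) (nat_lit 13338991105) (nat_lit 1216) (nat_lit 13276319648) (nat_lit 196) (nat_lit 5) (nat_lit 211) (nat_lit 5) (nat_lit 212) (nat_lit 5) (nat_lit 318) (nat_lit 316) (nat_lit 146)) (XT.nd (nat_lit 78) (nat_lit 0) (nat_lit 76) (XT.lf (nat_lit 76) (nat_lit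 38094993477) (nat_lit 0) (nat_lit 4203529811) (nat_lit 1216) (nat_lit 25396982150) (nat_lit 197) (nat_lit 5) (nat_lit 196) (nat_lit 5) (nat_lit 212) (nat_lit 5) (nat_lit 319) (nat_lit 316) (nat_lit 145)) (XT.lf (nat_lit 76) (nat_lit 22924652394) (nat_lit 0) (nat_lit 23219064824) (nat_lit 1216) (nat_lit 23286471601) (nat_lit 198) (nat_lit 5) (nat_lit 197) (nat_lit 5) (nat_lit 213) (nat_lit 5) (nat_lit 320) (nat_lit 316) (nat_lit 144)))) (XT.nd (nat_lit 156) (nat_lit 0) (nat_lit 76) (XT.nd (nat_lit 78) (nat_lit 0) (nat_lit 76) (XT.lf (nat_lit 76) (nat_lit 7280926615) (nat_lit 0) (nat_lit 43585856172) (nat_lit 1216) (nat_lit 20364256913) (nat_lit 199) (nat_lit 5) (nat_lit 198) (nat_lit 5) (nat_lit 214) (nat_lit 5) (nat_lit 321) (nat_lit 316) (nat_lit 143)) (XT.lf (nat_lit 0) (nat_lit 56611864014) (nat_lit 1140) (nat_lit 8688525958) (nat_lit 1216) (nat_lit 7797968889) (nat_lit 199) (nat_lit 5)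 (nat_lit 214) (nat_lit 5) (nat_lit 215) (nat_lit 5) (nat_lit 322) (nat_lit 316) (nat_lit 142))) (XT.nd (nat_lit 78) (nat_lit 0) (nat_lit 76) (XT.lf (nat_lit 76) (nat_lit 49868384925) (nat_lit 0) (nat_lit 13693792293) (nat_lit 1216) (nat_lit 11469328959) (nat_lit 200) (nat_lit 5) (nat_lit 199) (nat_lit 5) (nat_lit 215) (nat_lit 5) (nat_lit 323) (nat_lit 316) (nat_lit 141)) (XT.lf (nat_lit 76) (nat_lit 34763345976) (nat_lit 0) (nat_lit 36909144410) (nat_lit 1216) (nat_lit 5364447404) (nat_lit 201) (nat_lit 5) (nat_lit 200) (nat_lit 5) (nat_lit 216) (nat_lit 5) (nat_lit 324) (nat_lit 316) (nat_lit 140))))) (XT.nd (nat_lit 234) (nat_lit 2280) (nat_lit 0) (XT.nd (nat_lit 78) (nat_lit 0) (nat_lit 0) (XT.lf (nat_lit 0) (nat_lit 1779482914) (nat_lit 1216) (nat_lit 59992924969) (nat_lit 1292) (nat_lit 17347306611) (nat_lit 185) (nat_lit 5) (nat_lit 201) (nat_lit 5) (nat_lit 202) (nat_lit 5) (nat_lit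 325) (nat_lit 316) (nat_lit 139)) (XT.nd (nat_lit 78) (nat_lit 0) (nat_lit 76) (XT.lf (nat_lit 76) (nat_lit 2809884210) (nat_lit 0) (nat_lit 7198668437) (nat_lit 1292) (nat_lit 71271318633) (nat_lit 186) (nat_lit 5) (nat_lit 185) (nat_lit 5) (nat_lit 202) (nat_lit 5) (nat_lit 326) (nat_lit 316) (nat_lit 138)) (XT.lf (nat_lit 0) (nat_lit 19753276146) (nat_lit 1216) (nat_lit 14011719656) (nat_lit 76) (nat_lit 49749915320) (nat_lit 186) (nat_lit 5) (nat_lit 202) (nat_lit 5) (nat_lit 187) (nat_lit 5) (nat_lit 327) (nat_lit 316) (nat_lit 137)))) (XT.nd (nat_lit 156) (nat_lit 1064) (nat_lit 0) (XT.nd (nat_lit 78) (nat_lit 608) (nat_lit 0) (XT.lf (nat_lit 0) (nat_lit 30813754237) (nat_lit 760) (nat_lit 31412732139) (nat_lit 76) (nat_lit 23610362193) (nat_lit 177) (nat_lit 5) (nat_lit 187) (nat_lit 5) (nat_lit 178) (nat_lit 5) (nat_lit 328) (nat_lit 316) (nat_lit 136)) (XT.lf (nat_lit 0) (nat_lit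 38716323295) (nat_lit 608) (nat_lit 4568542310) (nat_lit 684) (nat_lit 44964290113) (nat_lit 169) (nat_lit 5) (nat_lit 177) (nat_lit 5) (nat_lit 178) (nat_lit 5) (nat_lit 329) (nat_lit 316) (nat_lit 135))) (XT.nd (nat_lit 78) (nat_lit 532) (nat_lit 0) (XT.lf (nat_lit 0) (nat_lit 22125451794) (nat_lit 532) (nat_lit 35330392324) (nat_lit 608) (nat_lit 33293945816) (nat_lit 162) (nat_lit 5) (nat_lit 169) (nat_lit 5) (nat_lit 170) (nat_lit 5) (nat_lit 330) (nat_lit 316) (nat_lit 134)) (XT.lf (nat_lit 0) (nat_lit 4844743020) (nat_lit 532) (nat_lit 68336587113) (nat_lit 608) (nat_lit 20168747979) (nat_lit 155) (nat_lit 5) (nat_lit 162) (nat_lit 5) (nat_lit 163) (nat_lit 5) (nat_lit 331) (nat_lit 316) (nat_lit 133)))))) (XT.nd (nat_lit 546) (nat_lit 2280) (nat_lit 0) (XT.nd (nat_lit 234) (nat_lit 1368) (nat_lit 0) (XT.nd (nat_lit 78) (nat_lit 1064) (nat_lit 0) (XT.lf (nat_lit 0) (nat_lit 83056712581)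 (nat_lit 532) (nat_lit 7695001387) (nat_lit 608) (nat_lit 5296908983) (nat_lit 155) (nat_lit 5) (nat_lit 162) (nat_lit 5) (nat_lit 163) (nat_lit 5) (nat_lit 332) (nat_lit 316) (nat_lit 132)) (XT.nd (nat_lit 78) (nat_lit 532) (nat_lit 0) (XT.lf (nat_lit 0) (nat_lit 11310798400) (nat_lit 532) (nat_lit 31890627377) (nat_lit 76) (nat_lit 55641885666) (nat_lit 148) (nat_lit 5) (nat_lit 155) (nat_lit 5) (nat_lit 149) (nat_lit 5) (nat_lit 333) (nat_lit 316) (nat_lit 131)) (XT.lf (nat_lit 0) (nat_lit 29536127871) (nat_lit 608) (nat_lit 51716948120) (nat_lit 76) (nat_lit 20496182326) (nat_lit 141) (nat_lit 5) (nat_lit 149) (nat_lit 5) (nat_lit 142) (nat_lit 5) (nat_lit 334) (nat_lit 316) (nat_lit 130)))) (XT.nd (nat_lit 156) (nat_lit 456) (nat_lit 0) (XT.nd (nat_lit 78) (nat_lit 456) (nat_lit 0) (XT.lf (nat_lit 0) (nat_lit 32113629878) (nat_lit 456) (nat_lit 17634560514) (nat_lit 532) (nat_lit 55020048949)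 (nat_lit 135) (nat_lit 5) (nat_lit 141) (nat_lit 5) (nat_lit 142) (nat_lit 5) (nat_lit 335) (nat_lit 316) (nat_lit 129)) (XT.lf (nat_lit 0) (nat_lit 13070561992) (nat_lit 456) (nat_lit 59035411988) (nat_lit 532) (nat_lit 35798142665) (nat_lit 129) (nat_lit 5) (nat_lit 135) (nat_lit 5) (nat_lit 136) (nat_lit 5) (nat_lit 336) (nat_lit 316) (nat_lit 128))) (XT.nd (nat_lit 78) (nat_lit 456) (nat_lit 0) (XT.lf (nat_lit 0) (nat_lit 96581119618) (nat_lit 532) (nat_lit 6827284709) (nat_lit 76) (nat_lit 7758400030) (nat_lit 129) (nat_lit 5) (nat_lit 136) (nat_lit 5) (nat_lit 130) (nat_lit 5) (nat_lit 337) (nat_lit 316) (nat_lit 127)) (XT.lf (nat_lit 0) (nat_lit 8979834495) (nat_lit 456) (nat_lit 27963898367) (nat_lit 76) (nat_lit 77603403974) (nat_lit 123) (nat_lit 5) (nat_lit 129) (nat_lit 5) (nat_lit 124) (nat_lit 5) (nat_lit 338) (nat_lit 316) (nat_lit 126))))) (XT.nd (nat_lit 234) (nat_lit 1064)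 (nat_lit 0) (XT.nd (nat_lit 78) (nat_lit 760) (nat_lit 0) (XT.lf (nat_lit 0) (nat_lit 34471984881) (nat_lit 532) (nat_lit 50506137498) (nat_lit 76) (nat_lit 33082531534) (nat_lit 117) (nat_lit 5) (nat_lit 124) (nat_lit 5) (nat_lit 118) (nat_lit 5) (nat_lit 339) (nat_lit 316) (nat_lit 125)) (XT.nd (nat_lit 78) (nat_lit 380) (nat_lit 0) (XT.lf (nat_lit 0) (nat_lit 47237211188) (nat_lit 380) (nat_lit 15118527982) (nat_lit 456) (nat_lit 59360598394) (nat_lit 112) (nat_lit 5) (nat_lit 117) (nat_lit 5) (nat_lit 118) (nat_lit 5) (nat_lit 340) (nat_lit 316) (nat_lit 124)) (XT.lf (nat_lit 0) (nat_lit 25312127186) (nat_lit 380) (nat_lit 67649065062) (nat_lit 456) (nat_lit 32553788402) (nat_lit 107) (nat_lit 5) (nat_lit 112) (nat_lit 5) (nat_lit 113) (nat_lit 5) (nat_lit 341) (nat_lit 316) (nat_lit 123)))) (XT.nd (nat_lit 156) (nat_lit 684) (nat_lit 0) (XT.nd (nat_lit 78) (nat_lit 76) (nat_lit 0) (XT.lf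 (nat_lit 0) (nat_lit 2003290365) (nat_lit 304) (nat_lit 124082719635) (nat_lit 380) (nat_lit 3387873684) (nat_lit 103) (nat_lit 5) (nat_lit 107) (nat_lit 5) (nat_lit 108) (nat_lit 5) (nat_lit 342) (nat_lit 316) (nat_lit 122)) (XT.lf (nat_lit 0) (nat_lit 28428756650) (nat_lit 380) (nat_lit 23141731236) (nat_lit 76) (nat_lit 82000673159) (nat_lit 102) (nat_lit 5) (nat_lit 107) (nat_lit 5) (nat_lit 103) (nat_lit 5) (nat_lit 343) (nat_lit 316) (nat_lit 121))) (XT.nd (nat_lit 78) (nat_lit 304) (nat_lit 0) (XT.lf (nat_lit 0) (nat_lit 62857848219) (nat_lit 456) (nat_lit 50004253402) (nat_lit 76) (nat_lit 24977443958) (nat_lit 97) (nat_lit 5) (nat_lit 103) (nat_lit 5) (nat_lit 98) (nat_lit 5) (nat_lit 344) (nat_lit 316) (nat_lit 120)) (XT.lf (nat_lit 0) (nat_lit 63240983362) (nat_lit 304) (nat_lit 37135853464) (nat_lit 380) (nat_lit 41903459707) (nat_lit 93) (nat_lit 5) (nat_lit 97) (nat_lit 5) (nat_lit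 98) (nat_lit 5) (nat_lit 345) (nat_lit 316) (nat_lit 119))))))) (XT.nd (nat_lit 39156) (nat_lit 0) (nat_lit 2812) (XT.nd (nat_lit 38610) (nat_lit 0) (nat_lit 7980) (XT.nd (nat_lit 234) (nat_lit 304) (nat_lit 0) (XT.nd (nat_lit 78) (nat_lit 380) (nat_lit 0) (XT.lf (nat_lit 0) (nat_lit 36566115266) (nat_lit 304) (nat_lit 104483806028) (nat_lit 380) (nat_lit 5854819791) (nat_lit 89) (nat_lit 5) (nat_lit 93) (nat_lit 5) (nat_lit 94) (nat_lit 5) (nat_lit 346) (nat_lit 316) (nat_lit 118)) (XT.nd (nat_lit 78) (nat_lit 0) (nat_lit 0) (XT.lf (nat_lit 0) (nat_lit 7319139249) (nat_lit 304) (nat_lit 25319090653) (nat_lit 380) (nat_lit 119074961149) (nat_lit 84) (nat_lit 5) (nat_lit 88) (nat_lit 5) (nat_lit 89) (nat_lit 5) (nat_lit 347) (nat_lit 316) (nat_lit 117)) (XT.lf (nat_lit 0) (nat_lit 74638185113) (nat_lit 380) (nat_lit 24189166221) (nat_lit 76) (nat_lit 57881873324) (nat_lit 84) (nat_lit 5) (nat_lit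 89) (nat_lit 5) (nat_lit 85) (nat_lit 5) (nat_lit 348) (nat_lit 316) (nat_lit 116)))) (XT.nd (nat_lit 38220) (nat_lit 0) (nat_lit 8740) (XT.nd (nat_lit 38142) (nat_lit 0) (nat_lit 8740) (XT.lf (nat_lit 0) (nat_lit 103795126712) (nat_lit 304) (nat_lit 16195813243) (nat_lit 380) (nat_lit 41926536308) (nat_lit 80) (nat_lit 5) (nat_lit 84) (nat_lit 5) (nat_lit 85) (nat_lit 5) (nat_lit 349) (nat_lit 316) (nat_lit 115)) (XT.lf (nat_lit 0) (nat_lit 9486643188) (nat_lit 0) (nat_lit 9486643188) (nat_lit 1140) (nat_lit 14018821690) (nat_lit 195) (nat_lit 5) (nat_lit 195) (nat_lit 3) (nat_lit 210) (nat_lit 3) (nat_lit 317) (nat_lit 317) (nat_lit 146))) (XT.nd (nat_lit 78) (nat_lit 0) (nat_lit 76) (XT.lf (nat_lit 76) (nat_lit 2601893176) (nat_lit 0) (nat_lit 36645408959) (nat_lit 1216) (nat_lit 28375929729) (nat_lit 196) (nat_lit 5) (nat_lit 195) (nat_lit 5) (nat_lit 211) (nat_lit 5) (nat_lit 318) (nat_lit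 317) (nat_lit 145)) (XT.lf (nat_lit 0) (nat_lit 41421582833) (nat_lit 1140) (nat_lit 13978895500) (nat_lit 1216) (nat_lit 13919466380) (nat_lit 196) (nat_lit 5) (nat_lit 211) (nat_lit 5) (nat_lit 212) (nat_lit 5) (nat_lit 319) (nat_lit 317) (nat_lit 144))))) (XT.nd (nat_lit 234) (nat_lit 836) (nat_lit 0) (XT.nd (nat_lit 78) (nat_lit 0) (nat_lit 76) (XT.lf (nat_lit 76) (nat_lit 40026013068) (nat_lit 0) (nat_lit 4431757182) (nat_lit 1216) (nat_lit 26621128862) (nat_lit 197) (nat_lit 5) (nat_lit 196) (nat_lit 5) (nat_lit 212) (nat_lit 5) (nat_lit 320) (nat_lit 317) (nat_lit 143)) (XT.nd (nat_lit 78) (nat_lit 0) (nat_lit 76) (XT.lf (nat_lit 76) (nat_lit 24097912445) (nat_lit 0) (nat_lit 24395295467) (nat_lit 1216) (nat_lit 24407171703) (nat_lit 198) (nat_lit 5) (nat_lit 197) (nat_lit 5) (nat_lit 213) (nat_lit 5) (nat_lit 321) (nat_lit 317) (nat_lit 142)) (XT.lf (nat_lit 76) (nat_lit 7672649132)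 (nat_lit 0) (nat_lit 45777889289) (nat_lit 1216) (nat_lit 21340793626) (nat_lit 199) (nat_lit 5) (nat_lit 198) (nat_lit 5) (nat_lit 214) (nat_lit 5) (nat_lit 322) (nat_lit 317) (nat_lit 141)))) (XT.nd (nat_lit 156) (nat_lit 1064) (nat_lit 0) (XT.nd (nat_lit 78) (nat_lit 0) (nat_lit 0) (XT.lf (nat_lit 0) (nat_lit 59480832480) (nat_lit 1140) (nat_lit 9095277693) (nat_lit 1216) (nat_lit 8175970477) (nat_lit 199) (nat_lit 5) (nat_lit 214) (nat_lit 5) (nat_lit 215) (nat_lit 5) (nat_lit 323) (nat_lit 317) (nat_lit 140)) (XT.lf (nat_lit 76) (nat_lit 52388685449) (nat_lit 0) (nat_lit 14388406901) (nat_lit 1216) (nat_lit 12004842190) (nat_lit 200) (nat_lit 5) (nat_lit 199) (nat_lit 5) (nat_lit 215) (nat_lit 5) (nat_lit 324) (nat_lit 317) (nat_lit 139))) (XT.nd (nat_lit 78) (nat_lit 1140) (nat_lit 0) (XT.lf (nat_lit 76) (nat_lit 36528830747) (nat_lit 0) (nat_lit 38762509480) (nat_lit 1216) (nat_lit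 5596346971) (nat_lit 201) (nat_lit 5) (nat_lit 200) (nat_lit 5) (nat_lit 216) (nat_lit 5) (nat_lit 325) (nat_lit 317) (nat_lit 138)) (XT.lf (nat_lit 0) (nat_lit 1902570713) (nat_lit 1216) (nat_lit 62964180354) (nat_lit 1292) (nat_lit 18207888088) (nat_lit 185) (nat_lit 5) (nat_lit 201) (nat_lit 5) (nat_lit 202) (nat_lit 5) (nat_lit 326) (nat_lit 317) (nat_lit 137)))))) (XT.nd (nat_lit 546) (nat_lit 2888) (nat_lit 0) (XT.nd (nat_lit 234) (nat_lit 1672) (nat_lit 0) (XT.nd (nat_lit 78) (nat_lit 608) (nat_lit 0) (XT.lf (nat_lit 76) (nat_lit 2977955465) (nat_lit 0) (nat_lit 7563779095) (nat_lit 1292) (nat_lit 74801111794) (nat_lit 186) (nat_lit 5) (nat_lit 185) (nat_lit 5) (nat_lit 202) (nat_lit 5) (nat_lit 327) (nat_lit 317) (nat_lit 136)) (XT.nd (nat_lit 78) (nat_lit 684) (nat_lit 0) (XT.lf (nat_lit 0) (nat_lit 20772087110) (nat_lit 1216) (nat_lit 14685024400) (nat_lit 76) (nat_lit 52232576601)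 (nat_lit 186) (nat_lit 5) (nat_lit 202) (nat_lit 5) (nat_lit 187) (nat_lit 5) (nat_lit 328) (nat_lit 317) (nat_lit 135)) (XT.lf (nat_lit 0) (nat_lit 32384327764) (nat_lit 760) (nat_lit 32955906560) (nat_lit 76) (nat_lit 24787527571) (nat_lit 177) (nat_lit 5) (nat_lit 187) (nat_lit 5) (nat_lit 178) (nat_lit 5) (nat_lit 329) (nat_lit 317) (nat_lit 134)))) (XT.nd (nat_lit 156) (nat_lit 532) (nat_lit 0) (XT.nd (nat_lit 78) (nat_lit 532) (nat_lit 0) (XT.lf (nat_lit 0) (nat_lit 40678814447) (nat_lit 608) (nat_lit 4799013536) (nat_lit 684) (nat_lit 47182892970) (nat_lit 169) (nat_lit 5) (nat_lit 177) (nat_lit 5) (nat_lit 178) (nat_lit 5) (nat_lit 330) (nat_lit 317) (nat_lit 133)) (XT.lf (nat_lit 0) (nat_lit 23258520790) (nat_lit 532) (nat_lit 37097705926) (nat_lit 608) (nat_lit 34930195501) (nat_lit 162) (nat_lit 5) (nat_lit 169) (nat_lit 5) (nat_lit 170) (nat_lit 5) (nat_lit 331) (nat_lit 317)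 (nat_lit 132))) (XT.nd (nat_lit 78) (nat_lit 0) (nat_lit 0) (XT.lf (nat_lit 0) (nat_lit 5113848520) (nat_lit 532) (nat_lit 71753075689) (nat_lit 608) (nat_lit 21149833883) (nat_lit 155) (nat_lit 5) (nat_lit 162) (nat_lit 5) (nat_lit 163) (nat_lit 5) (nat_lit 332) (nat_lit 317) (nat_lit 131)) (XT.lf (nat_lit 0) (nat_lit 87235137114) (nat_lit 532) (nat_lit 8079426905) (nat_lit 608) (nat_lit 5535705389) (nat_lit 155) (nat_lit 5) (nat_lit 162) (nat_lit 5) (nat_lit 163) (nat_lit 5) (nat_lit 333) (nat_lit 317) (nat_lit 130))))) (XT.nd (nat_lit 234) (nat_lit 1368) (nat_lit 0) (XT.nd (nat_lit 78) (nat_lit 988) (nat_lit 0) (XT.lf (nat_lit 0) (nat_lit 11900914488) (nat_lit 532) (nat_lit 33459030318) (nat_lit 76) (nat_lit 58424770181) (nat_lit 148) (nat_lit 5) (nat_lit 155) (nat_lit 5) (nat_lit 149) (nat_lit 5) (nat_lit 334) (nat_lit 317) (nat_lit 129)) (XT.nd (nat_lit 78) (nat_lit 456) (nat_lit 0)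 (XT.lf (nat_lit 0) (nat_lit 31036600727) (nat_lit 608) (nat_lit 54276699630) (nat_lit 76) (nat_lit 21522687316) (nat_lit 141) (nat_lit 5) (nat_lit 149) (nat_lit 5) (nat_lit 142) (nat_lit 5) (nat_lit 335) (nat_lit 317) (nat_lit 128)) (XT.lf (nat_lit 0) (nat_lit 33744659234) (nat_lit 456) (nat_lit 18513723826) (nat_lit 532) (nat_lit 57747562311) (nat_lit 135) (nat_lit 5) (nat_lit 141) (nat_lit 5) (nat_lit 142) (nat_lit 5) (nat_lit 336) (nat_lit 317) (nat_lit 127)))) (XT.nd (nat_lit 156) (nat_lit 912) (nat_lit 0) (XT.nd (nat_lit 78) (nat_lit 0) (nat_lit 0) (XT.lf (nat_lit 0) (nat_lit 13749373117) (nat_lit 456) (nat_lit 61983864314) (nat_lit 532) (nat_lit 37565404729) (nat_lit 129) (nat_lit 5) (nat_lit 135) (nat_lit 5) (nat_lit 136) (nat_lit 5) (nat_lit 337) (nat_lit 317) (nat_lit 126)) (XT.lf (nat_lit 0) (nat_lit 101431124788) (nat_lit 532) (nat_lit 7143952331) (nat_lit 76) (nat_lit 8149418625)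 (nat_lit 129) (nat_lit 5) (nat_lit 136) (nat_lit 5) (nat_lit 130) (nat_lit 5) (nat_lit 338) (nat_lit 317) (nat_lit 125))) (XT.nd (nat_lit 78) (nat_lit 456) (nat_lit 0) (XT.lf (nat_lit 0) (nat_lit 9449227255) (nat_lit 456) (nat_lit 29337679752) (nat_lit 76) (nat_lit 81486955817) (nat_lit 123) (nat_lit 5) (nat_lit 129) (nat_lit 5) (nat_lit 124) (nat_lit 5) (nat_lit 339) (nat_lit 317) (nat_lit 124)) (XT.lf (nat_lit 0) (nat_lit 36215280625) (nat_lit 532) (nat_lit 53007161988) (nat_lit 76) (nat_lit 34740635175) (nat_lit 117) (nat_lit 5) (nat_lit 124) (nat_lit 5) (nat_lit 118) (nat_lit 5) (nat_lit 340) (nat_lit 317) (nat_lit 123))))))))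
noncomputable def xc122 : XT := (XT.nd (nat_lit 40326) (nat_lit 0) (nat_lit 380) (XT.nd (nat_lit 39234) (nat_lit 0) (nat_lit 4332) (XT.nd (nat_lit 468) (nat_lit 684) (nat_lit 0) (XT.nd (nat_lit 234) (nat_lit 760) (nat_lit 0) (XT.nd (nat_lit 78) (nat_lit 684) (nat_lit 0) (XT.lf (nat_lit 0) (nat_lit 49622658083) (nat_lit 380) (nat_lit 15869853343) (nat_lit 456) (nat_lit 62309056386) (nat_lit 112) (nat_lit 5) (nat_lit 117) (nat_lit 5) (nat_lit 118) (nat_lit 5) (nat_lit 341) (nat_lit 317) (nat_lit 122)) (XT.nd (nat_lit 78) (nat_lit 304) (nat_lit 0) (XT.lf (nat_lit 0) (nat_lit 26601170639) (nat_lit 380) (nat_lit 71026429871) (nat_lit 456) (nat_lit 34162562454) (nat_lit 107) (nat_lit 5) (nat_lit 112) (nat_lit 5) (nat_lit 113) (nat_lit 5) (nat_lit 342) (nat_lit 317) (nat_lit 121)) (XT.lf (nat_lit 0) (nat_lit 2126723120) (nat_lit 304) (nat_lit 130281332536) (nat_lit 380) (nat_lit 3538974372) (nat_lit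 103) (nat_lit 5) (nat_lit 107) (nat_lit 5) (nat_lit 108) (nat_lit 5) (nat_lit 343) (nat_lit 317) (nat_lit 120)))) (XT.nd (nat_lit 78) (nat_lit 684) (nat_lit 0) (XT.lf (nat_lit 0) (nat_lit 29867276420) (nat_lit 380) (nat_lit 24276303290) (nat_lit 76) (nat_lit 86105612611) (nat_lit 102) (nat_lit 5) (nat_lit 107) (nat_lit 5) (nat_lit 103) (nat_lit 5) (nat_lit 344) (nat_lit 317) (nat_lit 119)) (XT.nd (nat_lit 78) (nat_lit 304) (nat_lit 0) (XT.lf (nat_lit 0) (nat_lit 66017271177) (nat_lit 456) (nat_lit 52482140756) (nat_lit 76) (nat_lit 26231601373) (nat_lit 97) (nat_lit 5) (nat_lit 103) (nat_lit 5) (nat_lit 98) (nat_lit 5) (nat_lit 345) (nat_lit 317) (nat_lit 118)) (XT.lf (nat_lit 0) (nat_lit 66424717896) (nat_lit 304) (nat_lit 38986912603) (nat_lit 380) (nat_lit 43982189320) (nat_lit 93) (nat_lit 5) (nat_lit 97) (nat_lit 5) (nat_lit 98) (nat_lit 5) (nat_lit 346) (nat_lit 317) (nat_lit 117)))))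 (XT.nd (nat_lit 38454) (nat_lit 0) (nat_lit 8436) (XT.nd (nat_lit 78) (nat_lit 380) (nat_lit 0) (XT.lf (nat_lit 0) (nat_lit 38415908707) (nat_lit 304) (nat_lit 109701959915) (nat_lit 380) (nat_lit 6131633611) (nat_lit 89) (nat_lit 5) (nat_lit 93) (nat_lit 5) (nat_lit 94) (nat_lit 5) (nat_lit 347) (nat_lit 317) (nat_lit 116)) (XT.nd (nat_lit 38298) (nat_lit 0) (nat_lit 8436) (XT.lf (nat_lit 0) (nat_lit 7706281500) (nat_lit 304) (nat_lit 26578936278) (nat_lit 380) (nat_lit 125013169097) (nat_lit 84) (nat_lit 5) (nat_lit 88) (nat_lit 5) (nat_lit 89) (nat_lit 5) (nat_lit 348) (nat_lit 317) (nat_lit 115)) (XT.lf (nat_lit 0) (nat_lit 9972588722) (nat_lit 0) (nat_lit 9972588722) (nat_lit 1140) (nat_lit 14695811937) (nat_lit 195) (nat_lit 5) (nat_lit 195) (nat_lit 3) (nat_lit 210) (nat_lit 3) (nat_lit 318) (nat_lit 318) (nat_lit 144)))) (XT.nd (nat_lit 156) (nat_lit 0) (nat_lit 76) (XT.nd (nat_lit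 78) (nat_lit 0) (nat_lit 76) (XT.lf (nat_lit 76) (nat_lit 2756172329) (nat_lit 0) (nat_lit 38497756178) (nat_lit 1216) (nat_lit 29749085139) (nat_lit 196) (nat_lit 5) (nat_lit 195) (nat_lit 5) (nat_lit 211) (nat_lit 5) (nat_lit 319) (nat_lit 318) (nat_lit 143)) (XT.lf (nat_lit 0) (nat_lit 43534631760) (nat_lit 1140) (nat_lit 14653309517) (nat_lit 1216) (nat_lit 14596692080) (nat_lit 196) (nat_lit 5) (nat_lit 211) (nat_lit 5) (nat_lit 212) (nat_lit 5) (nat_lit 320) (nat_lit 318) (nat_lit 142))) (XT.nd (nat_lit 78) (nat_lit 0) (nat_lit 76) (XT.lf (nat_lit 76) (nat_lit 42051141310) (nat_lit 0) (nat_lit 4669717722) (nat_lit 1216) (nat_lit 27910731886) (nat_lit 197) (nat_lit 5) (nat_lit 196) (nat_lit 5) (nat_lit 212) (nat_lit 5) (nat_lit 321) (nat_lit 318) (nat_lit 141)) (XT.lf (nat_lit 76) (nat_lit 25327322745) (nat_lit 0) (nat_lit 25628917295) (nat_lit 1216) (nat_lit 25587962508) (nat_lit 198)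 (nat_lit 5) (nat_lit 197) (nat_lit 5) (nat_lit 213) (nat_lit 5) (nat_lit 322) (nat_lit 318) (nat_lit 140)))))) (XT.nd (nat_lit 546) (nat_lit 3344) (nat_lit 0) (XT.nd (nat_lit 234) (nat_lit 988) (nat_lit 0) (XT.nd (nat_lit 78) (nat_lit 0) (nat_lit 76) (XT.lf (nat_lit 76) (nat_lit 8081384707) (nat_lit 0) (nat_lit 48078339589) (nat_lit 1216) (nat_lit 22370031827) (nat_lit 199) (nat_lit 5) (nat_lit 198) (nat_lit 5) (nat_lit 214) (nat_lit 5) (nat_lit 323) (nat_lit 318) (nat_lit 139)) (XT.nd (nat_lit 78) (nat_lit 0) (nat_lit 0) (XT.lf (nat_lit 0) (nat_lit 62489681600) (nat_lit 1140) (nat_lit 9524939933) (nat_lit 1216) (nat_lit 8573978202) (nat_lit 199) (nat_lit 5) (nat_lit 214) (nat_lit 5) (nat_lit 215) (nat_lit 5) (nat_lit 324) (nat_lit 318) (nat_lit 138)) (XT.lf (nat_lit 76) (nat_lit 55032501832) (nat_lit 0) (nat_lit 15116829508) (nat_lit 1216) (nat_lit 12570659612) (nat_lit 200) (nat_lit 5)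 (nat_lit 199) (nat_lit 5) (nat_lit 215) (nat_lit 5) (nat_lit 325) (nat_lit 318) (nat_lit 137)))) (XT.nd (nat_lit 156) (nat_lit 0) (nat_lit 0) (XT.nd (nat_lit 78) (nat_lit 1140) (nat_lit 0) (XT.lf (nat_lit 76) (nat_lit 38380050036) (nat_lit 0) (nat_lit 40707807608) (nat_lit 1216) (nat_lit 5843218466) (nat_lit 201) (nat_lit 5) (nat_lit 200) (nat_lit 5) (nat_lit 216) (nat_lit 5) (nat_lit 326) (nat_lit 318) (nat_lit 136)) (XT.lf (nat_lit 0) (nat_lit 2028641338) (nat_lit 1216) (nat_lit 66086638022) (nat_lit 1292) (nat_lit 19112129337) (nat_lit 185) (nat_lit 5) (nat_lit 201) (nat_lit 5) (nat_lit 202) (nat_lit 5) (nat_lit 327) (nat_lit 318) (nat_lit 135))) (XT.nd (nat_lit 78) (nat_lit 0) (nat_lit 76) (XT.lf (nat_lit 76) (nat_lit 3151866431) (nat_lit 0) (nat_lit 7946663956) (nat_lit 1292) (nat_lit 78510534486) (nat_lit 186) (nat_lit 5) (nat_lit 185) (nat_lit 5) (nat_lit 202) (nat_lit 5) (nat_lit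 328) (nat_lit 318) (nat_lit 134)) (XT.lf (nat_lit 0) (nat_lit 21838942854) (nat_lit 1216) (nat_lit 15394530731) (nat_lit 76) (nat_lit 54839820410) (nat_lit 186) (nat_lit 5) (nat_lit 202) (nat_lit 5) (nat_lit 187) (nat_lit 5) (nat_lit 329) (nat_lit 318) (nat_lit 133))))) (XT.nd (nat_lit 234) (nat_lit 1596) (nat_lit 0) (XT.nd (nat_lit 78) (nat_lit 1140) (nat_lit 0) (XT.lf (nat_lit 0) (nat_lit 34030651468) (nat_lit 760) (nat_lit 34578792877) (nat_lit 76) (nat_lit 26023862924) (nat_lit 177) (nat_lit 5) (nat_lit 187) (nat_lit 5) (nat_lit 178) (nat_lit 5) (nat_lit 330) (nat_lit 318) (nat_lit 132)) (XT.nd (nat_lit 78) (nat_lit 532) (nat_lit 0) (XT.lf (nat_lit 0) (nat_lit 42736950169) (nat_lit 608) (nat_lit 5040818281) (nat_lit 684) (nat_lit 49515178980) (nat_lit 169) (nat_lit 5) (nat_lit 177) (nat_lit 5) (nat_lit 178) (nat_lit 5) (nat_lit 331) (nat_lit 318) (nat_lit 131)) (XT.lf (nat_lit 0) (nat_lit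 24445751960) (nat_lit 532) (nat_lit 38953311390) (nat_lit 608) (nat_lit 36650902458) (nat_lit 162) (nat_lit 5) (nat_lit 169) (nat_lit 5) (nat_lit 170) (nat_lit 5) (nat_lit 332) (nat_lit 318) (nat_lit 130)))) (XT.nd (nat_lit 156) (nat_lit 1064) (nat_lit 0) (XT.nd (nat_lit 78) (nat_lit 0) (nat_lit 0) (XT.lf (nat_lit 0) (nat_lit 5393911330) (nat_lit 532) (nat_lit 75340420376) (nat_lit 608) (nat_lit 22182516966) (nat_lit 155) (nat_lit 5) (nat_lit 162) (nat_lit 5) (nat_lit 163) (nat_lit 5) (nat_lit 333) (nat_lit 318) (nat_lit 129)) (XT.lf (nat_lit 0) (nat_lit 91620103860) (nat_lit 532) (nat_lit 8483103872) (nat_lit 608) (nat_lit 5788863410) (nat_lit 155) (nat_lit 5) (nat_lit 162) (nat_lit 5) (nat_lit 163) (nat_lit 5) (nat_lit 334) (nat_lit 318) (nat_lit 128))) (XT.nd (nat_lit 78) (nat_lit 532) (nat_lit 0) (XT.lf (nat_lit 0) (nat_lit 12518251521) (nat_lit 532) (nat_lit 35108282580) (nat_lit 76)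 (nat_lit 61346725453) (nat_lit 148) (nat_lit 5) (nat_lit 155) (nat_lit 5) (nat_lit 149) (nat_lit 5) (nat_lit 335) (nat_lit 318) (nat_lit 127)) (XT.lf (nat_lit 0) (nat_lit 32609896944) (nat_lit 608) (nat_lit 56966864865) (nat_lit 76) (nat_lit 22600359888) (nat_lit 141) (nat_lit 5) (nat_lit 149) (nat_lit 5) (nat_lit 142) (nat_lit 5) (nat_lit 336) (nat_lit 318) (nat_lit 126))))))) (XT.nd (nat_lit 39390) (nat_lit 0) (nat_lit 5016) (XT.nd (nat_lit 546) (nat_lit 1368) (nat_lit 0) (XT.nd (nat_lit 234) (nat_lit 1672) (nat_lit 0) (XT.nd (nat_lit 78) (nat_lit 456) (nat_lit 0) (XT.lf (nat_lit 0) (nat_lit 35454883453) (nat_lit 456) (nat_lit 19437083746) (nat_lit 532) (nat_lit 60613635134) (nat_lit 135) (nat_lit 5) (nat_lit 141) (nat_lit 5) (nat_lit 142) (nat_lit 5) (nat_lit 337) (nat_lit 318) (nat_lit 125)) (XT.nd (nat_lit 78) (nat_lit 0) (nat_lit 0) (XT.lf (nat_lit 0) (nat_lit 14459774222) (nat_lit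 456) (nat_lit 65080047758) (nat_lit 532) (nat_lit 39423135221) (nat_lit 129) (nat_lit 5) (nat_lit 135) (nat_lit 5) (nat_lit 136) (nat_lit 5) (nat_lit 338) (nat_lit 318) (nat_lit 124)) (XT.lf (nat_lit 0) (nat_lit 106521682560) (nat_lit 532) (nat_lit 7478749390) (nat_lit 76) (nat_lit 8559700071) (nat_lit 129) (nat_lit 5) (nat_lit 136) (nat_lit 5) (nat_lit 130) (nat_lit 5) (nat_lit 339) (nat_lit 318) (nat_lit 123)))) (XT.nd (nat_lit 156) (nat_lit 760) (nat_lit 0) (XT.nd (nat_lit 78) (nat_lit 456) (nat_lit 0) (XT.lf (nat_lit 0) (nat_lit 9940192959) (nat_lit 456) (nat_lit 30782419944) (nat_lit 76) (nat_lit 85564370859) (nat_lit 123) (nat_lit 5) (nat_lit 129) (nat_lit 5) (nat_lit 124) (nat_lit 5) (nat_lit 340) (nat_lit 318) (nat_lit 122)) (XT.lf (nat_lit 0) (nat_lit 38043909961) (nat_lit 532) (nat_lit 55635495248) (nat_lit 76) (nat_lit 36481274249) (nat_lit 117) (nat_lit 5) (nat_lit 124) (nat_lit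 5) (nat_lit 118) (nat_lit 5) (nat_lit 341) (nat_lit 318) (nat_lit 121))) (XT.nd (nat_lit 78) (nat_lit 380) (nat_lit 0) (XT.lf (nat_lit 0) (nat_lit 52125184489) (nat_lit 380) (nat_lit 16659172733) (nat_lit 456) (nat_lit 65406756889) (nat_lit 112) (nat_lit 5) (nat_lit 117) (nat_lit 5) (nat_lit 118) (nat_lit 5) (nat_lit 342) (nat_lit 318) (nat_lit 120)) (XT.lf (nat_lit 0) (nat_lit 27952487305) (nat_lit 380) (nat_lit 74573135995) (nat_lit 456) (nat_lit 35853533781) (nat_lit 107) (nat_lit 5) (nat_lit 112) (nat_lit 5) (nat_lit 113) (nat_lit 5) (nat_lit 343) (nat_lit 318) (nat_lit 119))))) (XT.nd (nat_lit 234) (nat_lit 608) (nat_lit 0) (XT.nd (nat_lit 78) (nat_lit 456) (nat_lit 0) (XT.lf (nat_lit 0) (nat_lit 2254164253) (nat_lit 304) (nat_lit 136790389566) (nat_lit 380) (nat_lit 3699330803) (nat_lit 103) (nat_lit 5) (nat_lit 107) (nat_lit 5) (nat_lit 108) (nat_lit 5) (nat_lit 344) (nat_lit 318)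 (nat_lit 118)) (XT.nd (nat_lit 78) (nat_lit 380) (nat_lit 0) (XT.lf (nat_lit 0) (nat_lit 31376134061) (nat_lit 380) (nat_lit 25469697132) (nat_lit 76) (nat_lit 90415342942) (nat_lit 102) (nat_lit 5) (nat_lit 107) (nat_lit 5) (nat_lit 103) (nat_lit 5) (nat_lit 345) (nat_lit 318) (nat_lit 117)) (XT.lf (nat_lit 0) (nat_lit 69333128430) (nat_lit 456) (nat_lit 55085998073) (nat_lit 76) (nat_lit 27547975289) (nat_lit 97) (nat_lit 5) (nat_lit 103) (nat_lit 5) (nat_lit 98) (nat_lit 5) (nat_lit 346) (nat_lit 318) (nat_lit 116)))) (XT.nd (nat_lit 38454) (nat_lit 0) (nat_lit 8056) (XT.nd (nat_lit 78) (nat_lit 304) (nat_lit 0) (XT.lf (nat_lit 0) (nat_lit 69765623057) (nat_lit 304) (nat_lit 40931057748) (nat_lit 380) (nat_lit 46166384161) (nat_lit 93) (nat_lit 5) (nat_lit 97) (nat_lit 5) (nat_lit 98) (nat_lit 5) (nat_lit 347) (nat_lit 318) (nat_lit 115)) (XT.lf (nat_lit 0) (nat_lit 40356194099) (nat_lit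 304) (nat_lit 115181582704) (nat_lit 380) (nat_lit 6423768880) (nat_lit 89) (nat_lit 5) (nat_lit 93) (nat_lit 5) (nat_lit 94) (nat_lit 5) (nat_lit 348) (nat_lit 318) (nat_lit 114))) (XT.nd (nat_lit 78) (nat_lit 0) (nat_lit 0) (XT.lf (nat_lit 0) (nat_lit 10481751831) (nat_lit 0) (nat_lit 10481751831) (nat_lit 1140) (nat_lit 15408878418) (nat_lit 195) (nat_lit 5) (nat_lit 195) (nat_lit 3) (nat_lit 210) (nat_lit 3) (nat_lit 319) (nat_lit 319) (nat_lit 142)) (XT.lf (nat_lit 76) (nat_lit 2915916995) (nat_lit 0) (nat_lit 40440854210) (nat_lit 1216) (nat_lit 31195141594) (nat_lit 196) (nat_lit 5) (nat_lit 195) (nat_lit 5) (nat_lit 211) (nat_lit 5) (nat_lit 320) (nat_lit 319) (nat_lit 141)))))) (XT.nd (nat_lit 546) (nat_lit 3116) (nat_lit 0) (XT.nd (nat_lit 234) (nat_lit 0) (nat_lit 152) (XT.nd (nat_lit 78) (nat_lit 0) (nat_lit 0) (XT.lf (nat_lit 0) (nat_lit 45749431181) (nat_lit 1140) (nat_lit 15363724872)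 (nat_lit 1216) (nat_lit 15309522040) (nat_lit 196) (nat_lit 5) (nat_lit 211) (nat_lit 5) (nat_lit 212) (nat_lit 5) (nat_lit 321) (nat_lit 319) (nat_lit 140)) (XT.nd (nat_lit 78) (nat_lit 0) (nat_lit 76) (XT.lf (nat_lit 76) (nat_lit 44175310701) (nat_lit 0) (nat_lit 4918054112) (nat_lit 1216) (nat_lit 29268669007) (nat_lit 197) (nat_lit 5) (nat_lit 196) (nat_lit 5) (nat_lit 212) (nat_lit 5) (nat_lit 322) (nat_lit 319) (nat_lit 139)) (XT.lf (nat_lit 76) (nat_lit 26615924417) (nat_lit 0) (nat_lit 26922931916) (nat_lit 1216) (nat_lit 26831471491) (nat_lit 198) (nat_lit 5) (nat_lit 197) (nat_lit 5) (nat_lit 213) (nat_lit 5) (nat_lit 323) (nat_lit 319) (nat_lit 138)))) (XT.nd (nat_lit 156) (nat_lit 0) (nat_lit 76) (XT.nd (nat_lit 78) (nat_lit 0) (nat_lit 76) (XT.lf (nat_lit 76) (nat_lit 8508223209) (nat_lit 0) (nat_lit 50492738052) (nat_lit 1216) (nat_lit 23454246361) (nat_lit 199) (nat_lit 5)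 (nat_lit 198) (nat_lit 5) (nat_lit 214) (nat_lit 5) (nat_lit 324) (nat_lit 319) (nat_lit 137)) (XT.lf (nat_lit 0) (nat_lit 65645737106) (nat_lit 1140) (nat_lit 9978418998) (nat_lit 1216) (nat_lit 8992889538) (nat_lit 199) (nat_lit 5) (nat_lit 214) (nat_lit 5) (nat_lit 215) (nat_lit 5) (nat_lit 325) (nat_lit 319) (nat_lit 136))) (XT.nd (nat_lit 78) (nat_lit 0) (nat_lit 76) (XT.lf (nat_lit 76) (nat_lit 57806242217) (nat_lit 0) (nat_lit 15880836300) (nat_lit 1216) (nat_lit 13167968387) (nat_lit 200) (nat_lit 5) (nat_lit 199) (nat_lit 5) (nat_lit 215) (nat_lit 5) (nat_lit 326) (nat_lit 319) (nat_lit 135)) (XT.lf (nat_lit 76) (nat_lit 40321526689) (nat_lit 0) (nat_lit 42749703796) (nat_lit 1216) (nat_lit 6105496528) (nat_lit 201) (nat_lit 5) (nat_lit 200) (nat_lit 5) (nat_lit 216) (nat_lit 5) (nat_lit 327) (nat_lit 319) (nat_lit 134))))) (XT.nd (nat_lit 234) (nat_lit 2280) (nat_lit 0) (XT.nd (nat_lit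 78) (nat_lit 0) (nat_lit 0) (XT.lf (nat_lit 0) (nat_lit 2158138792) (nat_lit 1216) (nat_lit 69367612690) (nat_lit 1292) (nat_lit 20062154711) (nat_lit 185) (nat_lit 5) (nat_lit 201) (nat_lit 5) (nat_lit 202) (nat_lit 5) (nat_lit 328) (nat_lit 319) (nat_lit 133)) (XT.nd (nat_lit 78) (nat_lit 0) (nat_lit 76) (XT.lf (nat_lit 76) (nat_lit 3332147456) (nat_lit 0) (nat_lit 8348256478) (nat_lit 1292) (nat_lit 82408276268) (nat_lit 186) (nat_lit 5) (nat_lit 185) (nat_lit 5) (nat_lit 202) (nat_lit 5) (nat_lit 329) (nat_lit 319) (nat_lit 132)) (XT.lf (nat_lit 0) (nat_lit 22956514840) (nat_lit 1216) (nat_lit 16141812925) (nat_lit 76) (nat_lit 57577834088) (nat_lit 186) (nat_lit 5) (nat_lit 202) (nat_lit 5) (nat_lit 187) (nat_lit 5) (nat_lit 330) (nat_lit 319) (nat_lit 131)))) (XT.nd (nat_lit 156) (nat_lit 1064) (nat_lit 0) (XT.nd (nat_lit 78) (nat_lit 608) (nat_lit 0) (XT.lf (nat_lit 0) (nat_lit 35756771176)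 (nat_lit 760) (nat_lit 36285139313) (nat_lit 76) (nat_lit 27322297769) (nat_lit 177) (nat_lit 5) (nat_lit 187) (nat_lit 5) (nat_lit 178) (nat_lit 5) (nat_lit 331) (nat_lit 319) (nat_lit 130)) (XT.lf (nat_lit 0) (nat_lit 44895743255) (nat_lit 608) (nat_lit 5294540890) (nat_lit 684) (nat_lit 51966576353) (nat_lit 169) (nat_lit 5) (nat_lit 177) (nat_lit 5) (nat_lit 178) (nat_lit 5) (nat_lit 332) (nat_lit 319) (nat_lit 129))) (XT.nd (nat_lit 78) (nat_lit 532) (nat_lit 0) (XT.lf (nat_lit 0) (nat_lit 25690085028) (nat_lit 532) (nat_lit 40901630173) (nat_lit 608) (nat_lit 38460043665) (nat_lit 162) (nat_lit 5) (nat_lit 169) (nat_lit 5) (nat_lit 170) (nat_lit 5) (nat_lit 333) (nat_lit 319) (nat_lit 128)) (XT.lf (nat_lit 0) (nat_lit 5685711554) (nat_lit 532) (nat_lit 79107161035) (nat_lit 608) (nat_lit 23269140672) (nat_lit 155) (nat_lit 5) (nat_lit 162) (nat_lit 5) (nat_lit 163) (nat_lit 5) (nat_lit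 334) (nat_lit 319) (nat_lit 127))))))))
noncomputable def xc123 : XT := (XT.nd (nat_lit 40560) (nat_lit 0) (nat_lit 684) (XT.nd (nat_lit 39468) (nat_lit 0) (nat_lit 5776) (XT.nd (nat_lit 546) (nat_lit 2280) (nat_lit 0) (XT.nd (nat_lit 234) (nat_lit 1368) (nat_lit 0) (XT.nd (nat_lit 78) (nat_lit 1064) (nat_lit 0) (XT.lf (nat_lit 0) (nat_lit 96222161108) (nat_lit 532) (nat_lit 8906992056) (nat_lit 608) (nat_lit 6056875968) (nat_lit 155) (nat_lit 5) (nat_lit 162) (nat_lit 5) (nat_lit 163) (nat_lit 5) (nat_lit 335) (nat_lit 319) (nat_lit 126)) (XT.nd (nat_lit 78) (nat_lit 532) (nat_lit 0) (XT.lf (nat_lit 0) (nat_lit 13164382971) (nat_lit 532) (nat_lit 36842200787) (nat_lit 76) (nat_lit 64414711850) (nat_lit 148) (nat_lit 5) (nat_lit 155) (nat_lit 5) (nat_lit 149) (nat_lit 5) (nat_lit 336) (nat_lit 319) (nat_lit 125)) (XT.lf (nat_lit 0) (nat_lit 34259862249) (nat_lit 608) (nat_lit 59793738951)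 (nat_lit 76) (nat_lit 23731773082) (nat_lit 141) (nat_lit 5) (nat_lit 149) (nat_lit 5) (nat_lit 142) (nat_lit 5) (nat_lit 337) (nat_lit 319) (nat_lit 124)))) (XT.nd (nat_lit 156) (nat_lit 456) (nat_lit 0) (XT.nd (nat_lit 78) (nat_lit 456) (nat_lit 0) (XT.lf (nat_lit 0) (nat_lit 37248481375) (nat_lit 456) (nat_lit 20406827937) (nat_lit 532) (nat_lit 63624992362) (nat_lit 135) (nat_lit 5) (nat_lit 141) (nat_lit 5) (nat_lit 142) (nat_lit 5) (nat_lit 338) (nat_lit 319) (nat_lit 123)) (XT.lf (nat_lit 0) (nat_lit 15203563341) (nat_lit 456) (nat_lit 68331320194) (nat_lit 532) (nat_lit 41375661828) (nat_lit 129) (nat_lit 5) (nat_lit 135) (nat_lit 5) (nat_lit 136) (nat_lit 5) (nat_lit 339) (nat_lit 319) (nat_lit 122))) (XT.nd (nat_lit 78) (nat_lit 456) (nat_lit 0) (XT.lf (nat_lit 0) (nat_lit 111865001638) (nat_lit 532) (nat_lit 7832368894) (nat_lit 76) (nat_lit 8990234294) (nat_lit 129) (nat_lit 5)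 (nat_lit 136) (nat_lit 5) (nat_lit 130) (nat_lit 5) (nat_lit 340) (nat_lit 319) (nat_lit 121)) (XT.lf (nat_lit 0) (nat_lit 10453986589) (nat_lit 456) (nat_lit 32301455867) (nat_lit 76) (nat_lit 89845371490) (nat_lit 123) (nat_lit 5) (nat_lit 129) (nat_lit 5) (nat_lit 124) (nat_lit 5) (nat_lit 341) (nat_lit 319) (nat_lit 120))))) (XT.nd (nat_lit 234) (nat_lit 1064) (nat_lit 0) (XT.nd (nat_lit 78) (nat_lit 760) (nat_lit 0) (XT.lf (nat_lit 0) (nat_lit 39962309818) (nat_lit 532) (nat_lit 58397292832) (nat_lit 76) (nat_lit 38308609902) (nat_lit 117) (nat_lit 5) (nat_lit 124) (nat_lit 5) (nat_lit 118) (nat_lit 5) (nat_lit 342) (nat_lit 319) (nat_lit 119)) (XT.nd (nat_lit 78) (nat_lit 380) (nat_lit 0) (XT.lf (nat_lit 0) (nat_lit 54750848250) (nat_lit 380) (nat_lit 17488346084) (nat_lit 456) (nat_lit 68660992859) (nat_lit 112) (nat_lit 5) (nat_lit 117) (nat_lit 5) (nat_lit 118) (nat_lit 5) (nat_lit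 343) (nat_lit 319) (nat_lit 118)) (XT.lf (nat_lit 0) (nat_lit 29369393425) (nat_lit 380) (nat_lit 78297606519) (nat_lit 456) (nat_lit 37630648750) (nat_lit 107) (nat_lit 5) (nat_lit 112) (nat_lit 5) (nat_lit 113) (nat_lit 5) (nat_lit 344) (nat_lit 319) (nat_lit 117)))) (XT.nd (nat_lit 156) (nat_lit 684) (nat_lit 0) (XT.nd (nat_lit 78) (nat_lit 76) (nat_lit 0) (XT.lf (nat_lit 0) (nat_lit 2386015302) (nat_lit 304) (nat_lit 143625365192) (nat_lit 380) (nat_lit 3869247650) (nat_lit 103) (nat_lit 5) (nat_lit 107) (nat_lit 5) (nat_lit 108) (nat_lit 5) (nat_lit 345) (nat_lit 319) (nat_lit 116)) (XT.lf (nat_lit 0) (nat_lit 32958994117) (nat_lit 380) (nat_lit 26724659248) (nat_lit 76) (nat_lit 94940146098) (nat_lit 102) (nat_lit 5) (nat_lit 107) (nat_lit 5) (nat_lit 103) (nat_lit 5) (nat_lit 346) (nat_lit 319) (nat_lit 115))) (XT.nd (nat_lit 78) (nat_lit 304) (nat_lit 0) (XT.lf (nat_lit 0) (nat_lit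 72813384573) (nat_lit 456) (nat_lit 57821930884) (nat_lit 76) (nat_lit 28929722215) (nat_lit 97) (nat_lit 5) (nat_lit 103) (nat_lit 5) (nat_lit 98) (nat_lit 5) (nat_lit 347) (nat_lit 319) (nat_lit 114)) (XT.lf (nat_lit 0) (nat_lit 73271744814) (nat_lit 304) (nat_lit 42972893642) (nat_lit 380) (nat_lit 48461175366) (nat_lit 93) (nat_lit 5) (nat_lit 97) (nat_lit 5) (nat_lit 98) (nat_lit 5) (nat_lit 348) (nat_lit 319) (nat_lit 113)))))) (XT.nd (nat_lit 546) (nat_lit 1976) (nat_lit 0) (XT.nd (nat_lit 234) (nat_lit 0) (nat_lit 76) (XT.nd (nat_lit 78) (nat_lit 0) (nat_lit 0) (XT.lf (nat_lit 0) (nat_lit 11015393774) (nat_lit 0) (nat_lit 11015393774) (nat_lit 1140) (nat_lit 16159617925) (nat_lit 195) (nat_lit 5) (nat_lit 195) (nat_lit 3) (nat_lit 210) (nat_lit 3) (nat_lit 320) (nat_lit 320) (nat_lit 140)) (XT.nd (nat_lit 78) (nat_lit 0) (nat_lit 76) (XT.lf (nat_lit 76) (nat_lit 3081609488) (nat_lit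 0) (nat_lit 42479414129) (nat_lit 1216) (nat_lit 32717349647) (nat_lit 196) (nat_lit 5) (nat_lit 195) (nat_lit 5) (nat_lit 211) (nat_lit 5) (nat_lit 321) (nat_lit 320) (nat_lit 139)) (XT.lf (nat_lit 0) (nat_lit 48071431386) (nat_lit 1140) (nat_lit 16111729600) (nat_lit 1216) (nat_lit 16059574429) (nat_lit 196) (nat_lit 5) (nat_lit 211) (nat_lit 5) (nat_lit 212) (nat_lit 5) (nat_lit 322) (nat_lit 320) (nat_lit 138)))) (XT.nd (nat_lit 156) (nat_lit 0) (nat_lit 152) (XT.nd (nat_lit 78) (nat_lit 0) (nat_lit 76) (XT.lf (nat_lit 76) (nat_lit 46403679253) (nat_lit 0) (nat_lit 5177426663) (nat_lit 1216) (nat_lit 30697998627) (nat_lit 197) (nat_lit 5) (nat_lit 196) (nat_lit 5) (nat_lit 212) (nat_lit 5) (nat_lit 323) (nat_lit 320) (nat_lit 137)) (XT.lf (nat_lit 76) (nat_lit 27966888923) (nat_lit 0) (nat_lit 28280478745) (nat_lit 1216) (nat_lit 28140492555) (nat_lit 198) (nat_lit 5) (nat_lit 197) (nat_lit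 5) (nat_lit 213) (nat_lit 5) (nat_lit 324) (nat_lit 320) (nat_lit 136))) (XT.nd (nat_lit 78) (nat_lit 0) (nat_lit 76) (XT.lf (nat_lit 76) (nat_lit 8954286767) (nat_lit 0) (nat_lit 53026881969) (nat_lit 1216) (nat_lit 24595859308) (nat_lit 199) (nat_lit 5) (nat_lit 198) (nat_lit 5) (nat_lit 214) (nat_lit 5) (nat_lit 325) (nat_lit 320) (nat_lit 135)) (XT.lf (nat_lit 0) (nat_lit 68956660174) (nat_lit 1140) (nat_lit 10456688763) (nat_lit 1216) (nat_lit 9433656398) (nat_lit 199) (nat_lit 5) (nat_lit 214) (nat_lit 5) (nat_lit 215) (nat_lit 5) (nat_lit 326) (nat_lit 320) (nat_lit 134))))) (XT.nd (nat_lit 234) (nat_lit 1216) (nat_lit 0) (XT.nd (nat_lit 78) (nat_lit 1064) (nat_lit 0) (XT.lf (nat_lit 76) (nat_lit 60716613551) (nat_lit 0) (nat_lit 16682284298) (nat_lit 1216) (nat_lit 13798045531) (nat_lit 200) (nat_lit 5) (nat_lit 199) (nat_lit 5) (nat_lit 215) (nat_lit 5) (nat_lit 327) (nat_lit 320)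 (nat_lit 133)) (XT.nd (nat_lit 78) (nat_lit 1140) (nat_lit 0) (XT.lf (nat_lit 76) (nat_lit 42357987741) (nat_lit 0) (nat_lit 44893089945) (nat_lit 1216) (nat_lit 6383666719) (nat_lit 201) (nat_lit 5) (nat_lit 200) (nat_lit 5) (nat_lit 216) (nat_lit 5) (nat_lit 328) (nat_lit 320) (nat_lit 132)) (XT.lf (nat_lit 0) (nat_lit 2291501865) (nat_lit 1216) (nat_lit 72814807625) (nat_lit 1292) (nat_lit 21060200230) (nat_lit 185) (nat_lit 5) (nat_lit 201) (nat_lit 5) (nat_lit 202) (nat_lit 5) (nat_lit 329) (nat_lit 320) (nat_lit 131)))) (XT.nd (nat_lit 156) (nat_lit 1216) (nat_lit 0) (XT.nd (nat_lit 78) (nat_lit 0) (nat_lit 76) (XT.lf (nat_lit 76) (nat_lit 3519333244) (nat_lit 0) (nat_lit 8769532636) (nat_lit 1292) (nat_lit 86503488320) (nat_lit 186) (nat_lit 5) (nat_lit 185) (nat_lit 5) (nat_lit 202) (nat_lit 5) (nat_lit 330) (nat_lit 320) (nat_lit 130)) (XT.lf (nat_lit 0) (nat_lit 24127583070) (nat_lit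 1216) (nat_lit 16928545891) (nat_lit 76) (nat_lit 60453118225) (nat_lit 186) (nat_lit 5) (nat_lit 202) (nat_lit 5) (nat_lit 187) (nat_lit 5) (nat_lit 331) (nat_lit 320) (nat_lit 129))) (XT.nd (nat_lit 78) (nat_lit 608) (nat_lit 0) (XT.lf (nat_lit 0) (nat_lit 37566910990) (nat_lit 760) (nat_lit 38078903573) (nat_lit 76) (nat_lit 28685910798) (nat_lit 177) (nat_lit 5) (nat_lit 187) (nat_lit 5) (nat_lit 178) (nat_lit 5) (nat_lit 332) (nat_lit 320) (nat_lit 128)) (XT.lf (nat_lit 0) (nat_lit 47160435704) (nat_lit 608) (nat_lit 5560793281) (nat_lit 684) (nat_lit 54542808502) (nat_lit 169) (nat_lit 5) (nat_lit 177) (nat_lit 5) (nat_lit 178) (nat_lit 5) (nat_lit 333) (nat_lit 320) (nat_lit 127))))))) (XT.nd (nat_lit 39624) (nat_lit 0) (nat_lit 5092) (XT.nd (nat_lit 546) (nat_lit 2052) (nat_lit 0) (XT.nd (nat_lit 234) (nat_lit 1976) (nat_lit 0) (XT.nd (nat_lit 78) (nat_lit 532) (nat_lit 0) (XT.lf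 (nat_lit 0) (nat_lit 26994585170) (nat_lit 532) (nat_lit 42947304166) (nat_lit 608) (nat_lit 40361817807) (nat_lit 162) (nat_lit 5) (nat_lit 169) (nat_lit 5) (nat_lit 170) (nat_lit 5) (nat_lit 334) (nat_lit 320) (nat_lit 126)) (XT.nd (nat_lit 78) (nat_lit 0) (nat_lit 0) (XT.lf (nat_lit 0) (nat_lit 5990046708) (nat_lit 532) (nat_lit 83062264792) (nat_lit 608) (nat_lit 24412187599) (nat_lit 155) (nat_lit 5) (nat_lit 162) (nat_lit 5) (nat_lit 163) (nat_lit 5) (nat_lit 335) (nat_lit 320) (nat_lit 125)) (XT.lf (nat_lit 0) (nat_lit 101052363997) (nat_lit 532) (nat_lit 9352099473) (nat_lit 608) (nat_lit 6340281570) (nat_lit 155) (nat_lit 5) (nat_lit 162) (nat_lit 5) (nat_lit 163) (nat_lit 5) (nat_lit 336) (nat_lit 320) (nat_lit 124)))) (XT.nd (nat_lit 156) (nat_lit 912) (nat_lit 0) (XT.nd (nat_lit 78) (nat_lit 532) (nat_lit 0) (XT.lf (nat_lit 0) (nat_lit 13840941235) (nat_lit 532) (nat_lit 38664813392)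 (nat_lit 76) (nat_lit 67636037126) (nat_lit 148) (nat_lit 5) (nat_lit 155) (nat_lit 5) (nat_lit 149) (nat_lit 5) (nat_lit 337) (nat_lit 320) (nat_lit 123)) (XT.lf (nat_lit 0) (nat_lit 35990515641) (nat_lit 608) (nat_lit 62763952740) (nat_lit 76) (nat_lit 24919627222) (nat_lit 141) (nat_lit 5) (nat_lit 149) (nat_lit 5) (nat_lit 142) (nat_lit 5) (nat_lit 338) (nat_lit 320) (nat_lit 122))) (XT.nd (nat_lit 78) (nat_lit 456) (nat_lit 0) (XT.lf (nat_lit 0) (nat_lit 39129820408) (nat_lit 456) (nat_lit 21425255505) (nat_lit 532) (nat_lit 66788714063) (nat_lit 135) (nat_lit 5) (nat_lit 141) (nat_lit 5) (nat_lit 142) (nat_lit 5) (nat_lit 339) (nat_lit 320) (nat_lit 121)) (XT.lf (nat_lit 0) (nat_lit 15982608090) (nat_lit 456) (nat_lit 71745410057) (nat_lit 532) (nat_lit 43427546821) (nat_lit 129) (nat_lit 5) (nat_lit 135) (nat_lit 5) (nat_lit 136) (nat_lit 5) (nat_lit 340) (nat_lit 320) (nat_lit 120)))))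 (XT.nd (nat_lit 234) (nat_lit 1140) (nat_lit 0) (XT.nd (nat_lit 78) (nat_lit 912) (nat_lit 0) (XT.lf (nat_lit 0) (nat_lit 117473884328) (nat_lit 532) (nat_lit 8205558345) (nat_lit 76) (nat_lit 9442058226) (nat_lit 129) (nat_lit 5) (nat_lit 136) (nat_lit 5) (nat_lit 130) (nat_lit 5) (nat_lit 341) (nat_lit 320) (nat_lit 119)) (XT.nd (nat_lit 78) (nat_lit 456) (nat_lit 0) (XT.lf (nat_lit 0) (nat_lit 10991909486) (nat_lit 456) (nat_lit 33898310906) (nat_lit 76) (nat_lit 94340163500) (nat_lit 123) (nat_lit 5) (nat_lit 129) (nat_lit 5) (nat_lit 124) (nat_lit 5) (nat_lit 342) (nat_lit 320) (nat_lit 118)) (XT.lf (nat_lit 0) (nat_lit 41975123140) (nat_lit 532) (nat_lit 61299037584) (nat_lit 76) (nat_lit 40227008144) (nat_lit 117) (nat_lit 5) (nat_lit 124) (nat_lit 5) (nat_lit 118) (nat_lit 5) (nat_lit 343) (nat_lit 320) (nat_lit 117)))) (XT.nd (nat_lit 156) (nat_lit 380) (nat_lit 0) (XT.nd (nat_lit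 78) (nat_lit 380) (nat_lit 0) (XT.lf (nat_lit 0) (nat_lit 57505991149) (nat_lit 380) (nat_lit 18359330022) (nat_lit 456) (nat_lit 72079437628) (nat_lit 112) (nat_lit 5) (nat_lit 117) (nat_lit 5) (nat_lit 118) (nat_lit 5) (nat_lit 344) (nat_lit 320) (nat_lit 116)) (XT.lf (nat_lit 0) (nat_lit 30855352217) (nat_lit 380) (nat_lit 82208689769) (nat_lit 456) (nat_lit 39498066249) (nat_lit 107) (nat_lit 5) (nat_lit 112) (nat_lit 5) (nat_lit 113) (nat_lit 5) (nat_lit 345) (nat_lit 320) (nat_lit 115))) (XT.nd (nat_lit 78) (nat_lit 76) (nat_lit 0) (XT.lf (nat_lit 0) (nat_lit 2522679184) (nat_lit 304) (nat_lit 150802512044) (nat_lit 380) (nat_lit 4049059517) (nat_lit 103) (nat_lit 5) (nat_lit 107) (nat_lit 5) (nat_lit 108) (nat_lit 5) (nat_lit 346) (nat_lit 320) (nat_lit 114)) (XT.lf (nat_lit 0) (nat_lit 34619690627) (nat_lit 380) (nat_lit 28044091537) (nat_lit 76) (nat_lit 99690814182) (nat_lit 102)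 (nat_lit 5) (nat_lit 107) (nat_lit 5) (nat_lit 103) (nat_lit 5) (nat_lit 347) (nat_lit 320) (nat_lit 113)))))) (XT.nd (nat_lit 546) (nat_lit 1976) (nat_lit 0) (XT.nd (nat_lit 234) (nat_lit 0) (nat_lit 76) (XT.nd (nat_lit 78) (nat_lit 0) (nat_lit 0) (XT.lf (nat_lit 0) (nat_lit 11574829542) (nat_lit 0) (nat_lit 11574829542) (nat_lit 1140) (nat_lit 16949726338) (nat_lit 195) (nat_lit 5) (nat_lit 195) (nat_lit 3) (nat_lit 210) (nat_lit 3) (nat_lit 321) (nat_lit 321) (nat_lit 138)) (XT.nd (nat_lit 78) (nat_lit 0) (nat_lit 76) (XT.lf (nat_lit 76) (nat_lit 3253736804) (nat_lit 0) (nat_lit 44618366431) (nat_lit 1216) (nat_lit 34319159056) (nat_lit 196) (nat_lit 5) (nat_lit 195) (nat_lit 5) (nat_lit 211) (nat_lit 5) (nat_lit 322) (nat_lit 321) (nat_lit 137)) (XT.lf (nat_lit 0) (nat_lit 50506321456) (nat_lit 1140) (nat_lit 16899010850) (nat_lit 1216) (nat_lit 16848563388) (nat_lit 196) (nat_lit 5)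 (nat_lit 211) (nat_lit 5) (nat_lit 212) (nat_lit 5) (nat_lit 323) (nat_lit 321) (nat_lit 136)))) (XT.nd (nat_lit 156) (nat_lit 0) (nat_lit 152) (XT.nd (nat_lit 78) (nat_lit 0) (nat_lit 76) (XT.lf (nat_lit 76) (nat_lit 48741643729) (nat_lit 0) (nat_lit 5448515542) (nat_lit 1216) (nat_lit 32201965378) (nat_lit 197) (nat_lit 5) (nat_lit 196) (nat_lit 5) (nat_lit 212) (nat_lit 5) (nat_lit 324) (nat_lit 321) (nat_lit 135)) (XT.lf (nat_lit 76) (nat_lit 29383526599) (nat_lit 0) (nat_lit 29704843029) (nat_lit 1216) (nat_lit 29517991096) (nat_lit 198) (nat_lit 5) (nat_lit 197) (nat_lit 5) (nat_lit 213) (nat_lit 5) (nat_lit 325) (nat_lit 321) (nat_lit 134))) (XT.nd (nat_lit 78) (nat_lit 0) (nat_lit 76) (XT.lf (nat_lit 76) (nat_lit 9420733438) (nat_lit 0) (nat_lit 55686849210) (nat_lit 1216) (nat_lit 25797444226) (nat_lit 199) (nat_lit 5) (nat_lit 198) (nat_lit 5) (nat_lit 214) (nat_lit 5) (nat_lit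 326) (nat_lit 321) (nat_lit 133)) (XT.lf (nat_lit 0) (nat_lit 72430467073) (nat_lit 1140) (nat_lit 10960791968) (nat_lit 1216) (nat_lit 9897286957) (nat_lit 199) (nat_lit 5) (nat_lit 214) (nat_lit 5) (nat_lit 215) (nat_lit 5) (nat_lit 327) (nat_lit 321) (nat_lit 132))))) (XT.nd (nat_lit 234) (nat_lit 1216) (nat_lit 0) (XT.nd (nat_lit 78) (nat_lit 1064) (nat_lit 0) (XT.lf (nat_lit 76) (nat_lit 63770638535) (nat_lit 0) (nat_lit 17523116139) (nat_lit 1216) (nat_lit 14462259575) (nat_lit 200) (nat_lit 5) (nat_lit 199) (nat_lit 5) (nat_lit 215) (nat_lit 5) (nat_lit 328) (nat_lit 321) (nat_lit 131)) (XT.nd (nat_lit 78) (nat_lit 1140) (nat_lit 0) (XT.lf (nat_lit 76) (nat_lit 44494376668) (nat_lit 0) (nat_lit 47143096787) (nat_lit 1216) (nat_lit 6678265352) (nat_lit 201) (nat_lit 5) (nat_lit 200) (nat_lit 5) (nat_lit 216) (nat_lit 5) (nat_lit 329) (nat_lit 321) (nat_lit 130)) (XT.lf (nat_lit 0) (nat_lit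 2429166421) (nat_lit 1216) (nat_lit 76436331952) (nat_lit 1292) (nat_lit 22108618663) (nat_lit 185) (nat_lit 5) (nat_lit 201) (nat_lit 5) (nat_lit 202) (nat_lit 5) (nat_lit 330) (nat_lit 321) (nat_lit 129)))) (XT.nd (nat_lit 156) (nat_lit 1216) (nat_lit 0) (XT.nd (nat_lit 78) (nat_lit 0) (nat_lit 76) (XT.lf (nat_lit 76) (nat_lit 3713965136) (nat_lit 0) (nat_lit 9211513425) (nat_lit 1292) (nat_lit 90805803996) (nat_lit 186) (nat_lit 5) (nat_lit 185) (nat_lit 5) (nat_lit 202) (nat_lit 5) (nat_lit 331) (nat_lit 321) (nat_lit 128)) (XT.lf (nat_lit 0) (nat_lit 25355043845) (nat_lit 1216) (nat_lit 17756508169) (nat_lit 76) (nat_lit 63472501966) (nat_lit 186) (nat_lit 5) (nat_lit 202) (nat_lit 5) (nat_lit 187) (nat_lit 5) (nat_lit 332) (nat_lit 321) (nat_lit 127))) (XT.nd (nat_lit 78) (nat_lit 608) (nat_lit 0) (XT.lf (nat_lit 0) (nat_lit 39465484436) (nat_lit 760) (nat_lit 39964261264) (nat_lit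 76) (nat_lit 30117937077) (nat_lit 177) (nat_lit 5) (nat_lit 187) (nat_lit 5) (nat_lit 178) (nat_lit 5) (nat_lit 333) (nat_lit 321) (nat_lit 126)) (XT.lf (nat_lit 0) (nat_lit 49536512171) (nat_lit 608) (nat_lit 5840216480) (nat_lit 684) (nat_lit 57249906598) (nat_lit 169) (nat_lit 5) (nat_lit 177) (nat_lit 5) (nat_lit 178) (nat_lit 5) (nat_lit 334) (nat_lit 321) (nat_lit 125))))))))
noncomputable def xc124 : XT := (XT.nd (nat_lit 40716) (nat_lit 0) (nat_lit 684) (XT.nd (nat_lit 39624) (nat_lit 0) (nat_lit 5016) (XT.nd (nat_lit 468) (nat_lit 2432) (nat_lit 0) (XT.nd (nat_lit 234) (nat_lit 1520) (nat_lit 0) (XT.nd (nat_lit 78) (nat_lit 532) (nat_lit 0) (XT.lf (nat_lit 0) (nat_lit 28362451291) (nat_lit 532) (nat_lit 45095206775) (nat_lit 608) (nat_lit 42360654238) (nat_lit 162) (nat_lit 5) (nat_lit 169) (nat_lit 5) (nat_lit 170) (nat_lit 5) (nat_lit 335) (nat_lit 321) (nat_lit 124)) (XT.nd (nat_lit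 78) (nat_lit 0) (nat_lit 0) (XT.lf (nat_lit 0) (nat_lit 6307734599) (nat_lit 532) (nat_lit 87215147379) (nat_lit 608) (nat_lit 25614284411) (nat_lit 155) (nat_lit 5) (nat_lit 162) (nat_lit 5) (nat_lit 163) (nat_lit 5) (nat_lit 336) (nat_lit 321) (nat_lit 123)) (XT.lf (nat_lit 0) (nat_lit 106122301774) (nat_lit 532) (nat_lit 9819484777) (nat_lit 608) (nat_lit 6639664631) (nat_lit 155) (nat_lit 5) (nat_lit 162) (nat_lit 5) (nat_lit 163) (nat_lit 5) (nat_lit 337) (nat_lit 321) (nat_lit 122)))) (XT.nd (nat_lit 78) (nat_lit 988) (nat_lit 0) (XT.lf (nat_lit 0) (nat_lit 14549622414) (nat_lit 532) (nat_lit 40580369313) (nat_lit 76) (nat_lit 71018373841) (nat_lit 148) (nat_lit 5) (nat_lit 155) (nat_lit 5) (nat_lit 149) (nat_lit 5) (nat_lit 338) (nat_lit 321) (nat_lit 121)) (XT.nd (nat_lit 78) (nat_lit 456) (nat_lit 0) (XT.lf (nat_lit 0) (nat_lit 37806059817) (nat_lit 608) (nat_lit 65884487647) (nat_lit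 76) (nat_lit 26166756417) (nat_lit 141) (nat_lit 5) (nat_lit 149) (nat_lit 5) (nat_lit 142) (nat_lit 5) (nat_lit 339) (nat_lit 321) (nat_lit 120)) (XT.lf (nat_lit 0) (nat_lit 41103467859) (nat_lit 456) (nat_lit 22494782381) (nat_lit 532) (nat_lit 70112251428) (nat_lit 135) (nat_lit 5) (nat_lit 141) (nat_lit 5) (nat_lit 142) (nat_lit 5) (nat_lit 340) (nat_lit 321) (nat_lit 119))))) (XT.nd (nat_lit 234) (nat_lit 1520) (nat_lit 0) (XT.nd (nat_lit 78) (nat_lit 456) (nat_lit 0) (XT.lf (nat_lit 0) (nat_lit 16798851042) (nat_lit 456) (nat_lit 75330434622) (nat_lit 532) (nat_lit 45583597088) (nat_lit 129) (nat_lit 5) (nat_lit 135) (nat_lit 5) (nat_lit 136) (nat_lit 5) (nat_lit 341) (nat_lit 321) (nat_lit 118)) (XT.nd (nat_lit 78) (nat_lit 456) (nat_lit 0) (XT.lf (nat_lit 0) (nat_lit 123361757780) (nat_lit 532) (nat_lit 8599120622) (nat_lit 76) (nat_lit 9916258387) (nat_lit 129) (nat_lit 5) (nat_lit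 136) (nat_lit 5) (nat_lit 130) (nat_lit 5) (nat_lit 342) (nat_lit 321) (nat_lit 117)) (XT.lf (nat_lit 0) (nat_lit 11555313184) (nat_lit 456) (nat_lit 35576702410) (nat_lit 76) (nat_lit 99059460505) (nat_lit 123) (nat_lit 5) (nat_lit 129) (nat_lit 5) (nat_lit 124) (nat_lit 5) (nat_lit 343) (nat_lit 321) (nat_lit 116)))) (XT.nd (nat_lit 156) (nat_lit 684) (nat_lit 0) (XT.nd (nat_lit 78) (nat_lit 380) (nat_lit 0) (XT.lf (nat_lit 0) (nat_lit 44087210664) (nat_lit 532) (nat_lit 64347554189) (nat_lit 76) (nat_lit 42241050386) (nat_lit 117) (nat_lit 5) (nat_lit 124) (nat_lit 5) (nat_lit 118) (nat_lit 5) (nat_lit 344) (nat_lit 321) (nat_lit 115)) (XT.lf (nat_lit 0) (nat_lit 60397254867) (nat_lit 380) (nat_lit 19274182360) (nat_lit 456) (nat_lit 75670162458) (nat_lit 112) (nat_lit 5) (nat_lit 117) (nat_lit 5) (nat_lit 118) (nat_lit 5) (nat_lit 345) (nat_lit 321) (nat_lit 114))) (XT.nd (nat_lit 78)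 (nat_lit 304) (nat_lit 0) (XT.lf (nat_lit 0) (nat_lit 32413982975) (nat_lit 380) (nat_lit 86315680198) (nat_lit 456) (nat_lit 41460166895) (nat_lit 107) (nat_lit 5) (nat_lit 112) (nat_lit 5) (nat_lit 113) (nat_lit 5) (nat_lit 346) (nat_lit 321) (nat_lit 113)) (XT.lf (nat_lit 0) (nat_lit 2664562001) (nat_lit 304) (nat_lit 158338899408) (nat_lit 380) (nat_lit 4239131073) (nat_lit 103) (nat_lit 5) (nat_lit 107) (nat_lit 5) (nat_lit 108) (nat_lit 5) (nat_lit 347) (nat_lit 321) (nat_lit 112)))))) (XT.nd (nat_lit 546) (nat_lit 1976) (nat_lit 0) (XT.nd (nat_lit 234) (nat_lit 0) (nat_lit 76) (XT.nd (nat_lit 78) (nat_lit 0) (nat_lit 0) (XT.lf (nat_lit 0) (nat_lit 12161431408) (nat_lit 0) (nat_lit 12161431408) (nat_lit 1140) (nat_lit 17781001785) (nat_lit 195) (nat_lit 5) (nat_lit 195) (nat_lit 3) (nat_lit 210) (nat_lit 3) (nat_lit 322) (nat_lit 322) (nat_lit 136)) (XT.nd (nat_lit 78) (nat_lit 0) (nat_lit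 76) (XT.lf (nat_lit 76) (nat_lit 3432792662) (nat_lit 0) (nat_lit 46862873501) (nat_lit 1216) (nat_lit 36004225331) (nat_lit 196) (nat_lit 5) (nat_lit 195) (nat_lit 5) (nat_lit 211) (nat_lit 5) (nat_lit 323) (nat_lit 322) (nat_lit 135)) (XT.lf (nat_lit 0) (nat_lit 53060044331) (nat_lit 1140) (nat_lit 17727358010) (nat_lit 1216) (nat_lit 17678302431) (nat_lit 196) (nat_lit 5) (nat_lit 211) (nat_lit 5) (nat_lit 212) (nat_lit 5) (nat_lit 324) (nat_lit 322) (nat_lit 134)))) (XT.nd (nat_lit 156) (nat_lit 0) (nat_lit 152) (XT.nd (nat_lit 78) (nat_lit 0) (nat_lit 76) (XT.lf (nat_lit 76) (nat_lit 51194853366) (nat_lit 0) (nat_lit 5732022994) (nat_lit 1216) (nat_lit 33784006341) (nat_lit 197) (nat_lit 5) (nat_lit 196) (nat_lit 5) (nat_lit 212) (nat_lit 5) (nat_lit 325) (nat_lit 322) (nat_lit 133)) (XT.lf (nat_lit 76) (nat_lit 30869295428) (nat_lit 0) (nat_lit 31199464180) (nat_lit 1216) (nat_lit 30967109619)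 (nat_lit 198) (nat_lit 5) (nat_lit 197) (nat_lit 5) (nat_lit 213) (nat_lit 5) (nat_lit 326) (nat_lit 322) (nat_lit 132))) (XT.nd (nat_lit 78) (nat_lit 0) (nat_lit 76) (XT.lf (nat_lit 76) (nat_lit 9908760888) (nat_lit 0) (nat_lit 58479013115) (nat_lit 1216) (nat_lit 27061730908) (nat_lit 199) (nat_lit 5) (nat_lit 198) (nat_lit 5) (nat_lit 214) (nat_lit 5) (nat_lit 327) (nat_lit 322) (nat_lit 131)) (XT.lf (nat_lit 0) (nat_lit 76075549510) (nat_lit 1140) (nat_lit 11491841785) (nat_lit 1216) (nat_lit 10384847667) (nat_lit 199) (nat_lit 5) (nat_lit 214) (nat_lit 5) (nat_lit 215) (nat_lit 5) (nat_lit 328) (nat_lit 322) (nat_lit 130))))) (XT.nd (nat_lit 234) (nat_lit 1216) (nat_lit 0) (XT.nd (nat_lit 78) (nat_lit 1064) (nat_lit 0) (XT.lf (nat_lit 76) (nat_lit 66975673235) (nat_lit 0) (nat_lit 18405365031) (nat_lit 1216) (nat_lit 15162072571) (nat_lit 200) (nat_lit 5) (nat_lit 199) (nat_lit 5) (nat_lit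 215) (nat_lit 5) (nat_lit 329) (nat_lit 322) (nat_lit 129)) (XT.nd (nat_lit 78) (nat_lit 1140) (nat_lit 0) (XT.lf (nat_lit 76) (nat_lit 46735866059) (nat_lit 0) (nat_lit 49505106360) (nat_lit 1216) (nat_lit 6989879569) (nat_lit 201) (nat_lit 5) (nat_lit 200) (nat_lit 5) (nat_lit 216) (nat_lit 5) (nat_lit 330) (nat_lit 322) (nat_lit 128)) (XT.lf (nat_lit 0) (nat_lit 2571567566) (nat_lit 1216) (nat_lit 80240719022) (nat_lit 1292) (nat_lit 23209884898) (nat_lit 185) (nat_lit 5) (nat_lit 201) (nat_lit 5) (nat_lit 202) (nat_lit 5) (nat_lit 331) (nat_lit 322) (nat_lit 127)))) (XT.nd (nat_lit 156) (nat_lit 1216) (nat_lit 0) (XT.nd (nat_lit 78) (nat_lit 0) (nat_lit 76) (XT.lf (nat_lit 76) (nat_lit 3916593306) (nat_lit 0) (nat_lit 9675267470) (nat_lit 1292) (nat_lit 95325360644) (nat_lit 186) (nat_lit 5) (nat_lit 185) (nat_lit 5) (nat_lit 202) (nat_lit 5) (nat_lit 332) (nat_lit 322) (nat_lit 126))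 (XT.lf (nat_lit 0) (nat_lit 26641917689) (nat_lit 1216) (nat_lit 18627585263) (nat_lit 76) (nat_lit 66643159110) (nat_lit 186) (nat_lit 5) (nat_lit 202) (nat_lit 5) (nat_lit 187) (nat_lit 5) (nat_lit 333) (nat_lit 322) (nat_lit 125))) (XT.nd (nat_lit 78) (nat_lit 608) (nat_lit 0) (XT.lf (nat_lit 0) (nat_lit 41457105956) (nat_lit 760) (nat_lit 41945614927) (nat_lit 76) (nat_lit 31621775645) (nat_lit 177) (nat_lit 5) (nat_lit 187) (nat_lit 5) (nat_lit 178) (nat_lit 5) (nat_lit 334) (nat_lit 322) (nat_lit 124)) (XT.lf (nat_lit 0) (nat_lit 52029713908) (nat_lit 608) (nat_lit 6133482210) (nat_lit 684) (nat_lit 60094222944) (nat_lit 169) (nat_lit 5) (nat_lit 177) (nat_lit 5) (nat_lit 178) (nat_lit 5) (nat_lit 335) (nat_lit 322) (nat_lit 123))))))) (XT.nd (nat_lit 39858) (nat_lit 0) (nat_lit 3268) (XT.nd (nat_lit 546) (nat_lit 1292) (nat_lit 0) (XT.nd (nat_lit 234) (nat_lit 1976) (nat_lit 0) (XT.nd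 (nat_lit 78) (nat_lit 532) (nat_lit 0) (XT.lf (nat_lit 0) (nat_lit 29797024525) (nat_lit 532) (nat_lit 47350454551) (nat_lit 608) (nat_lit 44461222587) (nat_lit 162) (nat_lit 5) (nat_lit 169) (nat_lit 5) (nat_lit 170) (nat_lit 5) (nat_lit 336) (nat_lit 322) (nat_lit 122)) (XT.nd (nat_lit 78) (nat_lit 0) (nat_lit 0) (XT.lf (nat_lit 0) (nat_lit 6639616165) (nat_lit 532) (nat_lit 91575695539) (nat_lit 608) (nat_lit 26878207186) (nat_lit 155) (nat_lit 5) (nat_lit 162) (nat_lit 5) (nat_lit 163) (nat_lit 5) (nat_lit 337) (nat_lit 322) (nat_lit 121)) (XT.lf (nat_lit 0) (nat_lit 111444126230) (nat_lit 532) (nat_lit 10310259770) (nat_lit 608) (nat_lit 6955656011) (nat_lit 155) (nat_lit 5) (nat_lit 162) (nat_lit 5) (nat_lit 163) (nat_lit 5) (nat_lit 338) (nat_lit 322) (nat_lit 120)))) (XT.nd (nat_lit 156) (nat_lit 912) (nat_lit 0) (XT.nd (nat_lit 78) (nat_lit 532) (nat_lit 0) (XT.lf (nat_lit 0) (nat_lit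 15292191170) (nat_lit 532) (nat_lit 42593347191) (nat_lit 76) (nat_lit 74569777667) (nat_lit 148) (nat_lit 5) (nat_lit 155) (nat_lit 5) (nat_lit 149) (nat_lit 5) (nat_lit 339) (nat_lit 322) (nat_lit 119)) (XT.lf (nat_lit 0) (nat_lit 39710891963) (nat_lit 608) (nat_lit 69162691414) (nat_lit 76) (nat_lit 27476135357) (nat_lit 141) (nat_lit 5) (nat_lit 149) (nat_lit 5) (nat_lit 142) (nat_lit 5) (nat_lit 340) (nat_lit 322) (nat_lit 118))) (XT.nd (nat_lit 78) (nat_lit 456) (nat_lit 0) (XT.lf (nat_lit 0) (nat_lit 43174202640) (nat_lit 456) (nat_lit 23617946989) (nat_lit 532) (nat_lit 73603443739) (nat_lit 135) (nat_lit 5) (nat_lit 141) (nat_lit 5) (nat_lit 142) (nat_lit 5) (nat_lit 341) (nat_lit 322) (nat_lit 117)) (XT.lf (nat_lit 0) (nat_lit 17654315178) (nat_lit 456) (nat_lit 79094919221) (nat_lit 532) (nat_lit 47848874835) (nat_lit 129) (nat_lit 5) (nat_lit 135) (nat_lit 5) (nat_lit 136) (nat_lit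 5) (nat_lit 342) (nat_lit 322) (nat_lit 116))))) (XT.nd (nat_lit 234) (nat_lit 380) (nat_lit 0) (XT.nd (nat_lit 78) (nat_lit 912) (nat_lit 0) (XT.lf (nat_lit 0) (nat_lit 129542706655) (nat_lit 532) (nat_lit 9013915074) (nat_lit 76) (nat_lit 10413973573) (nat_lit 129) (nat_lit 5) (nat_lit 136) (nat_lit 5) (nat_lit 130) (nat_lit 5) (nat_lit 343) (nat_lit 322) (nat_lit 115)) (XT.nd (nat_lit 78) (nat_lit 456) (nat_lit 0) (XT.lf (nat_lit 0) (nat_lit 12145603310) (nat_lit 456) (nat_lit 37340549739) (nat_lit 76) (nat_lit 104014509566) (nat_lit 123) (nat_lit 5) (nat_lit 129) (nat_lit 5) (nat_lit 124) (nat_lit 5) (nat_lit 344) (nat_lit 322) (nat_lit 114)) (XT.lf (nat_lit 0) (nat_lit 46303663139) (nat_lit 532) (nat_lit 67550024621) (nat_lit 76) (nat_lit 44355544478) (nat_lit 117) (nat_lit 5) (nat_lit 124) (nat_lit 5) (nat_lit 118) (nat_lit 5) (nat_lit 345) (nat_lit 322) (nat_lit 113)))) (XT.nd (nat_lit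 38922) (nat_lit 0) (nat_lit 6308) (XT.nd (nat_lit 38844) (nat_lit 0) (nat_lit 6308) (XT.lf (nat_lit 0) (nat_lit 63431597574) (nat_lit 380) (nat_lit 20235066839) (nat_lit 456) (nat_lit 79441655114) (nat_lit 112) (nat_lit 5) (nat_lit 117) (nat_lit 5) (nat_lit 118) (nat_lit 5) (nat_lit 346) (nat_lit 322) (nat_lit 112)) (XT.lf (nat_lit 0) (nat_lit 12776632583) (nat_lit 0) (nat_lit 12776632583) (nat_lit 1140) (nat_lit 18655348138) (nat_lit 195) (nat_lit 5) (nat_lit 195) (nat_lit 3) (nat_lit 210) (nat_lit 3) (nat_lit 323) (nat_lit 323) (nat_lit 134))) (XT.nd (nat_lit 78) (nat_lit 0) (nat_lit 76) (XT.lf (nat_lit 76) (nat_lit 3619279477) (nat_lit 0) (nat_lit 49218342572) (nat_lit 1216) (nat_lit 37776416936) (nat_lit 196) (nat_lit 5) (nat_lit 195) (nat_lit 5) (nat_lit 211) (nat_lit 5) (nat_lit 324) (nat_lit 323) (nat_lit 133)) (XT.lf (nat_lit 0) (nat_lit 55738812355) (nat_lit 1140) (nat_lit 18598666153)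 (nat_lit 1216) (nat_lit 18550708140) (nat_lit 196) (nat_lit 5) (nat_lit 211) (nat_lit 5) (nat_lit 212) (nat_lit 5) (nat_lit 325) (nat_lit 323) (nat_lit 132)))))) (XT.nd (nat_lit 546) (nat_lit 2280) (nat_lit 0) (XT.nd (nat_lit 234) (nat_lit 836) (nat_lit 0) (XT.nd (nat_lit 78) (nat_lit 0) (nat_lit 76) (XT.lf (nat_lit 76) (nat_lit 53769224107) (nat_lit 0) (nat_lit 6028675550) (nat_lit 1216) (nat_lit 35447757855) (nat_lit 197) (nat_lit 5) (nat_lit 196) (nat_lit 5) (nat_lit 212) (nat_lit 5) (nat_lit 326) (nat_lit 323) (nat_lit 131)) (XT.nd (nat_lit 78) (nat_lit 0) (nat_lit 76) (XT.lf (nat_lit 76) (nat_lit 32427810084) (nat_lit 0) (nat_lit 32767944418) (nat_lit 1216) (nat_lit 32491173916) (nat_lit 198) (nat_lit 5) (nat_lit 197) (nat_lit 5) (nat_lit 213) (nat_lit 5) (nat_lit 327) (nat_lit 323) (nat_lit 130)) (XT.lf (nat_lit 76) (nat_lit 10419610069) (nat_lit 0) (nat_lit 61410058051) (nat_lit 1216)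 (nat_lit 28391610623) (nat_lit 199) (nat_lit 5) (nat_lit 198) (nat_lit 5) (nat_lit 214) (nat_lit 5) (nat_lit 328) (nat_lit 323) (nat_lit 129)))) (XT.nd (nat_lit 156) (nat_lit 1064) (nat_lit 0) (XT.nd (nat_lit 78) (nat_lit 0) (nat_lit 0) (XT.lf (nat_lit 0) (nat_lit 79900695769) (nat_lit 1140) (nat_lit 12051023642) (nat_lit 1216) (nat_lit 10897465435) (nat_lit 199) (nat_lit 5) (nat_lit 214) (nat_lit 5) (nat_lit 215) (nat_lit 5) (nat_lit 329) (nat_lit 323) (nat_lit 128)) (XT.lf (nat_lit 76) (nat_lit 70339425397) (nat_lit 0) (nat_lit 19331159890) (nat_lit 1216) (nat_lit 15899042428) (nat_lit 200) (nat_lit 5) (nat_lit 199) (nat_lit 5) (nat_lit 215) (nat_lit 5) (nat_lit 330) (nat_lit 323) (nat_lit 127))) (XT.nd (nat_lit 78) (nat_lit 1140) (nat_lit 0) (XT.lf (nat_lit 76) (nat_lit 49087870752) (nat_lit 0) (nat_lit 51984765065) (nat_lit 1216) (nat_lit 7319147651) (nat_lit 201) (nat_lit 5) (nat_lit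 200) (nat_lit 5) (nat_lit 216) (nat_lit 5) (nat_lit 331) (nat_lit 323) (nat_lit 126)) (XT.lf (nat_lit 0) (nat_lit 2719141703) (nat_lit 1216) (nat_lit 84236945878) (nat_lit 1292) (nat_lit 24366601640) (nat_lit 185) (nat_lit 5) (nat_lit 201) (nat_lit 5) (nat_lit 202) (nat_lit 5) (nat_lit 332) (nat_lit 323) (nat_lit 125))))) (XT.nd (nat_lit 234) (nat_lit 1672) (nat_lit 0) (XT.nd (nat_lit 78) (nat_lit 608) (nat_lit 0) (XT.lf (nat_lit 76) (nat_lit 4127778902) (nat_lit 0) (nat_lit 10161913722) (nat_lit 1292) (nat_lit 100072822734) (nat_lit 186) (nat_lit 5) (nat_lit 185) (nat_lit 5) (nat_lit 202) (nat_lit 5) (nat_lit 333) (nat_lit 323) (nat_lit 124)) (XT.nd (nat_lit 78) (nat_lit 684) (nat_lit 0) (XT.lf (nat_lit 0) (nat_lit 27991357476) (nat_lit 1216) (nat_lit 19543773311) (nat_lit 76) (nat_lit 69972625043) (nat_lit 186) (nat_lit 5) (nat_lit 202) (nat_lit 5) (nat_lit 187) (nat_lit 5) (nat_lit 334)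 (nat_lit 323) (nat_lit 123)) (XT.lf (nat_lit 0) (nat_lit 43546602795) (nat_lit 760) (nat_lit 44027603701) (nat_lit 76) (nat_lit 33200997501) (nat_lit 177) (nat_lit 5) (nat_lit 187) (nat_lit 5) (nat_lit 178) (nat_lit 5) (nat_lit 335) (nat_lit 323) (nat_lit 122)))) (XT.nd (nat_lit 156) (nat_lit 532) (nat_lit 0) (XT.nd (nat_lit 78) (nat_lit 532) (nat_lit 0) (XT.lf (nat_lit 0) (nat_lit 54646053234) (nat_lit 608) (nat_lit 6441294558) (nat_lit 684) (nat_lit 63082445217) (nat_lit 169) (nat_lit 5) (nat_lit 177) (nat_lit 5) (nat_lit 178) (nat_lit 5) (nat_lit 336) (nat_lit 323) (nat_lit 121)) (XT.lf (nat_lit 0) (nat_lit 31301796993) (nat_lit 532) (nat_lit 49718419400) (nat_lit 608) (nat_lit 46668443025) (nat_lit 162) (nat_lit 5) (nat_lit 169) (nat_lit 5) (nat_lit 170) (nat_lit 5) (nat_lit 337) (nat_lit 323) (nat_lit 120))) (XT.nd (nat_lit 78) (nat_lit 0) (nat_lit 0) (XT.lf (nat_lit 0) (nat_lit 6986558275)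 (nat_lit 532) (nat_lit 96154290557) (nat_lit 608) (nat_lit 28206887210) (nat_lit 155) (nat_lit 5) (nat_lit 162) (nat_lit 5) (nat_lit 163) (nat_lit 5) (nat_lit 338) (nat_lit 323) (nat_lit 119)) (XT.lf (nat_lit 0) (nat_lit 117030581401) (nat_lit 532) (nat_lit 10825592036) (nat_lit 608) (nat_lit 7288933730) (nat_lit 155) (nat_lit 5) (nat_lit 162) (nat_lit 5) (nat_lit 163) (nat_lit 5) (nat_lit 339) (nat_lit 323) (nat_lit 118))))))))
noncomputable def xc125 : XT := (XT.nd (nat_lit 41028) (nat_lit 0) (nat_lit 912) (XT.nd (nat_lit 39936) (nat_lit 0) (nat_lit 912) (XT.nd (nat_lit 39390) (nat_lit 0) (nat_lit 5928) (XT.nd (nat_lit 234) (nat_lit 1368) (nat_lit 0) (XT.nd (nat_lit 78) (nat_lit 988) (nat_lit 0) (XT.lf (nat_lit 0) (nat_lit 16070485659) (nat_lit 532) (nat_lit 44708465264) (nat_lit 76) (nat_lit 78298706581) (nat_lit 148) (nat_lit 5) (nat_lit 155) (nat_lit 5) (nat_lit 149) (nat_lit 5) (nat_lit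 340) (nat_lit 323) (nat_lit 117)) (XT.nd (nat_lit 78) (nat_lit 456) (nat_lit 0) (XT.lf (nat_lit 0) (nat_lit 41709614934) (nat_lit 608) (nat_lit 72606294813) (nat_lit 76) (nat_lit 28850886450) (nat_lit 141) (nat_lit 5) (nat_lit 149) (nat_lit 5) (nat_lit 142) (nat_lit 5) (nat_lit 341) (nat_lit 323) (nat_lit 116)) (XT.lf (nat_lit 0) (nat_lit 45347027410) (nat_lit 456) (nat_lit 24797416210) (nat_lit 532) (nat_lit 77270536324) (nat_lit 135) (nat_lit 5) (nat_lit 141) (nat_lit 5) (nat_lit 142) (nat_lit 5) (nat_lit 342) (nat_lit 323) (nat_lit 115)))) (XT.nd (nat_lit 156) (nat_lit 912) (nat_lit 0) (XT.nd (nat_lit 78) (nat_lit 0) (nat_lit 0) (XT.lf (nat_lit 0) (nat_lit 18551109472) (nat_lit 456) (nat_lit 83047817443) (nat_lit 532) (nat_lit 50228708955) (nat_lit 129) (nat_lit 5) (nat_lit 135) (nat_lit 5) (nat_lit 136) (nat_lit 5) (nat_lit 343) (nat_lit 323) (nat_lit 114)) (XT.lf (nat_lit 0) (nat_lit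 136031507280) (nat_lit 532) (nat_lit 9450858829) (nat_lit 76) (nat_lit 10936397664) (nat_lit 129) (nat_lit 5) (nat_lit 136) (nat_lit 5) (nat_lit 130) (nat_lit 5) (nat_lit 344) (nat_lit 323) (nat_lit 113))) (XT.nd (nat_lit 78) (nat_lit 456) (nat_lit 0) (XT.lf (nat_lit 0) (nat_lit 12764243535) (nat_lit 456) (nat_lit 39193982857) (nat_lit 76) (nat_lit 109217118071) (nat_lit 123) (nat_lit 5) (nat_lit 129) (nat_lit 5) (nat_lit 124) (nat_lit 5) (nat_lit 345) (nat_lit 323) (nat_lit 112)) (XT.lf (nat_lit 0) (nat_lit 48629814044) (nat_lit 532) (nat_lit 70914004511) (nat_lit 76) (nat_lit 46575536280) (nat_lit 117) (nat_lit 5) (nat_lit 124) (nat_lit 5) (nat_lit 118) (nat_lit 5) (nat_lit 346) (nat_lit 323) (nat_lit 111))))) (XT.nd (nat_lit 234) (nat_lit 0) (nat_lit 76) (XT.nd (nat_lit 78) (nat_lit 0) (nat_lit 0) (XT.lf (nat_lit 0) (nat_lit 13421930974) (nat_lit 0) (nat_lit 13421930974) (nat_lit 1140)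 (nat_lit 19574778822) (nat_lit 195) (nat_lit 5) (nat_lit 195) (nat_lit 3) (nat_lit 210) (nat_lit 3) (nat_lit 324) (nat_lit 324) (nat_lit 132)) (XT.nd (nat_lit 78) (nat_lit 0) (nat_lit 76) (XT.lf (nat_lit 76) (nat_lit 3813710282) (nat_lit 0) (nat_lit 51690439198) (nat_lit 1216) (nat_lit 39639823124) (nat_lit 196) (nat_lit 5) (nat_lit 195) (nat_lit 5) (nat_lit 211) (nat_lit 5) (nat_lit 325) (nat_lit 324) (nat_lit 131)) (XT.lf (nat_lit 0) (nat_lit 58549123320) (nat_lit 1140) (nat_lit 19514939817) (nat_lit 1216) (nat_lit 19467804171) (nat_lit 196) (nat_lit 5) (nat_lit 211) (nat_lit 5) (nat_lit 212) (nat_lit 5) (nat_lit 326) (nat_lit 324) (nat_lit 130)))) (XT.nd (nat_lit 156) (nat_lit 0) (nat_lit 152) (XT.nd (nat_lit 78) (nat_lit 0) (nat_lit 76) (XT.lf (nat_lit 76) (nat_lit 56470953405) (nat_lit 0) (nat_lit 6339226248) (nat_lit 1216) (nat_lit 37197062933) (nat_lit 197) (nat_lit 5) (nat_lit 196)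 (nat_lit 5) (nat_lit 212) (nat_lit 5) (nat_lit 327) (nat_lit 324) (nat_lit 129)) (XT.lf (nat_lit 76) (nat_lit 34062851278) (nat_lit 0) (nat_lit 34414057766) (nat_lit 1216) (nat_lit 34093699791) (nat_lit 198) (nat_lit 5) (nat_lit 197) (nat_lit 5) (nat_lit 213) (nat_lit 5) (nat_lit 328) (nat_lit 324) (nat_lit 128))) (XT.nd (nat_lit 78) (nat_lit 0) (nat_lit 76) (XT.lf (nat_lit 76) (nat_lit 10954568928) (nat_lit 0) (nat_lit 64486995676) (nat_lit 1216) (nat_lit 29790141875) (nat_lit 199) (nat_lit 5) (nat_lit 198) (nat_lit 5) (nat_lit 214) (nat_lit 5) (nat_lit 329) (nat_lit 324) (nat_lit 127)) (XT.lf (nat_lit 0) (nat_lit 83915112674) (nat_lit 1140) (nat_lit 12639597290) (nat_lit 1216) (nat_lit 11436329986) (nat_lit 199) (nat_lit 5) (nat_lit 214) (nat_lit 5) (nat_lit 215) (nat_lit 5) (nat_lit 330) (nat_lit 324) (nat_lit 126)))))) (XT.nd (nat_lit 546) (nat_lit 3040) (nat_lit 0) (XT.nd (nat_lit 234)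 (nat_lit 1216) (nat_lit 0) (XT.nd (nat_lit 78) (nat_lit 1064) (nat_lit 0) (XT.lf (nat_lit 76) (nat_lit 73869973539) (nat_lit 0) (nat_lit 20302730680) (nat_lit 1216) (nat_lit 16674825595) (nat_lit 200) (nat_lit 5) (nat_lit 199) (nat_lit 5) (nat_lit 215) (nat_lit 5) (nat_lit 331) (nat_lit 324) (nat_lit 125)) (XT.nd (nat_lit 78) (nat_lit 1140) (nat_lit 0) (XT.lf (nat_lit 76) (nat_lit 51556061469) (nat_lit 0) (nat_lit 54587997320) (nat_lit 1216) (nat_lit 7666759550) (nat_lit 201) (nat_lit 5) (nat_lit 200) (nat_lit 5) (nat_lit 216) (nat_lit 5) (nat_lit 332) (nat_lit 324) (nat_lit 124)) (XT.lf (nat_lit 0) (nat_lit 2872328502) (nat_lit 1216) (nat_lit 88434453857) (nat_lit 1292) (nat_lit 25581505415) (nat_lit 185) (nat_lit 5) (nat_lit 201) (nat_lit 5) (nat_lit 202) (nat_lit 5) (nat_lit 333) (nat_lit 324) (nat_lit 123)))) (XT.nd (nat_lit 156) (nat_lit 1216) (nat_lit 0) (XT.nd (nat_lit 78) (nat_lit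 0) (nat_lit 76) (XT.lf (nat_lit 76) (nat_lit 4348096129) (nat_lit 0) (nat_lit 10672624264) (nat_lit 1292) (nat_lit 105059406327) (nat_lit 186) (nat_lit 5) (nat_lit 185) (nat_lit 5) (nat_lit 202) (nat_lit 5) (nat_lit 334) (nat_lit 324) (nat_lit 122)) (XT.lf (nat_lit 0) (nat_lit 29406656780) (nat_lit 1216) (nat_lit 20507183097) (nat_lit 76) (nat_lit 73468814551) (nat_lit 186) (nat_lit 5) (nat_lit 202) (nat_lit 5) (nat_lit 187) (nat_lit 5) (nat_lit 335) (nat_lit 324) (nat_lit 121))) (XT.nd (nat_lit 78) (nat_lit 608) (nat_lit 0) (XT.lf (nat_lit 0) (nat_lit 45739027302) (nat_lit 760) (nat_lit 46215113617) (nat_lit 76) (nat_lit 34859354018) (nat_lit 177) (nat_lit 5) (nat_lit 187) (nat_lit 5) (nat_lit 178) (nat_lit 5) (nat_lit 336) (nat_lit 324) (nat_lit 120)) (XT.lf (nat_lit 0) (nat_lit 57391828577) (nat_lit 608) (nat_lit 6764391700) (nat_lit 684) (nat_lit 66221611583) (nat_lit 169) (nat_lit 5)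 (nat_lit 177) (nat_lit 5) (nat_lit 178) (nat_lit 5) (nat_lit 337) (nat_lit 324) (nat_lit 119))))) (XT.nd (nat_lit 234) (nat_lit 1976) (nat_lit 0) (XT.nd (nat_lit 78) (nat_lit 532) (nat_lit 0) (XT.lf (nat_lit 0) (nat_lit 32880420849) (nat_lit 532) (nat_lit 52204741386) (nat_lit 608) (nat_lit 48987497202) (nat_lit 162) (nat_lit 5) (nat_lit 169) (nat_lit 5) (nat_lit 170) (nat_lit 5) (nat_lit 338) (nat_lit 324) (nat_lit 118)) (XT.nd (nat_lit 78) (nat_lit 0) (nat_lit 0) (XT.lf (nat_lit 0) (nat_lit 7349456531) (nat_lit 532) (nat_lit 100961832968) (nat_lit 608) (nat_lit 29603417207) (nat_lit 155) (nat_lit 5) (nat_lit 162) (nat_lit 5) (nat_lit 163) (nat_lit 5) (nat_lit 339) (nat_lit 324) (nat_lit 117)) (XT.lf (nat_lit 0) (nat_lit 122895034606) (nat_lit 532) (nat_lit 11366707717) (nat_lit 608) (nat_lit 7640223880) (nat_lit 155) (nat_lit 5) (nat_lit 162) (nat_lit 5) (nat_lit 163) (nat_lit 5) (nat_lit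 340) (nat_lit 324) (nat_lit 116)))) (XT.nd (nat_lit 156) (nat_lit 912) (nat_lit 0) (XT.nd (nat_lit 78) (nat_lit 532) (nat_lit 0) (XT.lf (nat_lit 0) (nat_lit 16886422576) (nat_lit 532) (nat_lit 46930691896) (nat_lit 76) (nat_lit 82214041030) (nat_lit 148) (nat_lit 5) (nat_lit 155) (nat_lit 5) (nat_lit 149) (nat_lit 5) (nat_lit 341) (nat_lit 324) (nat_lit 115)) (XT.lf (nat_lit 0) (nat_lit 43807048852) (nat_lit 608) (nat_lit 76223429354) (nat_lit 76) (nat_lit 30294287304) (nat_lit 141) (nat_lit 5) (nat_lit 149) (nat_lit 5) (nat_lit 142) (nat_lit 5) (nat_lit 342) (nat_lit 324) (nat_lit 114))) (XT.nd (nat_lit 78) (nat_lit 456) (nat_lit 0) (XT.lf (nat_lit 0) (nat_lit 47627181174) (nat_lit 456) (nat_lit 26035991665) (nat_lit 532) (nat_lit 81122199556) (nat_lit 135) (nat_lit 5) (nat_lit 141) (nat_lit 5) (nat_lit 142) (nat_lit 5) (nat_lit 343) (nat_lit 324) (nat_lit 113)) (XT.lf (nat_lit 0) (nat_lit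 19491434591) (nat_lit 456) (nat_lit 87198532361) (nat_lit 532) (nat_lit 52728707104) (nat_lit 129) (nat_lit 5) (nat_lit 135) (nat_lit 5) (nat_lit 136) (nat_lit 5) (nat_lit 344) (nat_lit 324) (nat_lit 112))))))) (XT.nd (nat_lit 40092) (nat_lit 0) (nat_lit 0) (XT.nd (nat_lit 39546) (nat_lit 0) (nat_lit 3648) (XT.nd (nat_lit 39234) (nat_lit 0) (nat_lit 5092) (XT.nd (nat_lit 39078) (nat_lit 0) (nat_lit 5016) (XT.lf (nat_lit 0) (nat_lit 142843663408) (nat_lit 532) (nat_lit 9910928302) (nat_lit 76) (nat_lit 11484782547) (nat_lit 129) (nat_lit 5) (nat_lit 136) (nat_lit 5) (nat_lit 130) (nat_lit 5) (nat_lit 345) (nat_lit 324) (nat_lit 111)) (XT.nd (nat_lit 78) (nat_lit 0) (nat_lit 0) (XT.lf (nat_lit 0) (nat_lit 14098893066) (nat_lit 0) (nat_lit 14098893066) (nat_lit 1140) (nat_lit 20541420963) (nat_lit 195) (nat_lit 5) (nat_lit 195) (nat_lit 3) (nat_lit 210) (nat_lit 3) (nat_lit 325) (nat_lit 325)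 (nat_lit 130)) (XT.lf (nat_lit 76) (nat_lit 4016610609) (nat_lit 0) (nat_lit 54285101291) (nat_lit 1216) (nat_lit 41598762435) (nat_lit 196) (nat_lit 5) (nat_lit 195) (nat_lit 5) (nat_lit 211) (nat_lit 5) (nat_lit 326) (nat_lit 325) (nat_lit 129)))) (XT.nd (nat_lit 156) (nat_lit 0) (nat_lit 76) (XT.nd (nat_lit 78) (nat_lit 0) (nat_lit 0) (XT.lf (nat_lit 0) (nat_lit 61497777080) (nat_lit 1140) (nat_lit 20478297108) (nat_lit 1216) (nat_lit 20431725558) (nat_lit 196) (nat_lit 5) (nat_lit 211) (nat_lit 5) (nat_lit 212) (nat_lit 5) (nat_lit 327) (nat_lit 325) (nat_lit 128)) (XT.lf (nat_lit 76) (nat_lit 59306535627) (nat_lit 0) (nat_lit 6664456877) (nat_lit 1216) (nat_lit 39035979286) (nat_lit 197) (nat_lit 5) (nat_lit 196) (nat_lit 5) (nat_lit 212) (nat_lit 5) (nat_lit 328) (nat_lit 325) (nat_lit 127))) (XT.nd (nat_lit 78) (nat_lit 0) (nat_lit 76) (XT.lf (nat_lit 76) (nat_lit 35778375420) (nat_lit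 0) (nat_lit 36141759408) (nat_lit 1216) (nat_lit 35778400363) (nat_lit 198) (nat_lit 5) (nat_lit 197) (nat_lit 5) (nat_lit 213) (nat_lit 5) (nat_lit 329) (nat_lit 325) (nat_lit 126)) (XT.lf (nat_lit 76) (nat_lit 11514976154) (nat_lit 0) (nat_lit 67717181942) (nat_lit 1216) (nat_lit 31260556653) (nat_lit 199) (nat_lit 5) (nat_lit 198) (nat_lit 5) (nat_lit 214) (nat_lit 5) (nat_lit 330) (nat_lit 325) (nat_lit 125))))) (XT.nd (nat_lit 234) (nat_lit 1672) (nat_lit 0) (XT.nd (nat_lit 78) (nat_lit 0) (nat_lit 0) (XT.lf (nat_lit 0) (nat_lit 88128448459) (nat_lit 1140) (nat_lit 13258899118) (nat_lit 1216) (nat_lit 12002696398) (nat_lit 199) (nat_lit 5) (nat_lit 214) (nat_lit 5) (nat_lit 215) (nat_lit 5) (nat_lit 331) (nat_lit 325) (nat_lit 124)) (XT.nd (nat_lit 78) (nat_lit 0) (nat_lit 76) (XT.lf (nat_lit 76) (nat_lit 77575786839) (nat_lit 0) (nat_lit 21322413968) (nat_lit 1216) (nat_lit 17491180069)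 (nat_lit 200) (nat_lit 5) (nat_lit 199) (nat_lit 5) (nat_lit 215) (nat_lit 5) (nat_lit 332) (nat_lit 325) (nat_lit 123)) (XT.lf (nat_lit 76) (nat_lit 54146378990) (nat_lit 0) (nat_lit 57321019863) (nat_lit 1216) (nat_lit 8033457633) (nat_lit 201) (nat_lit 5) (nat_lit 200) (nat_lit 5) (nat_lit 216) (nat_lit 5) (nat_lit 333) (nat_lit 325) (nat_lit 122)))) (XT.nd (nat_lit 156) (nat_lit 608) (nat_lit 0) (XT.nd (nat_lit 78) (nat_lit 0) (nat_lit 0) (XT.lf (nat_lit 0) (nat_lit 3031572784) (nat_lit 1216) (nat_lit 92843170368) (nat_lit 1292) (nat_lit 26857472924) (nat_lit 185) (nat_lit 5) (nat_lit 201) (nat_lit 5) (nat_lit 202) (nat_lit 5) (nat_lit 334) (nat_lit 325) (nat_lit 121)) (XT.lf (nat_lit 76) (nat_lit 4578134298) (nat_lit 0) (nat_lit 11208627229) (nat_lit 1292) (nat_lit 110296904948) (nat_lit 186) (nat_lit 5) (nat_lit 185) (nat_lit 5) (nat_lit 202) (nat_lit 5) (nat_lit 335) (nat_lit 325)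 (nat_lit 120))) (XT.nd (nat_lit 78) (nat_lit 684) (nat_lit 0) (XT.lf (nat_lit 0) (nat_lit 30891258491) (nat_lit 1216) (nat_lit 21520044402) (nat_lit 76) (nat_lit 77140040546) (nat_lit 186) (nat_lit 5) (nat_lit 202) (nat_lit 5) (nat_lit 187) (nat_lit 5) (nat_lit 336) (nat_lit 325) (nat_lit 119)) (XT.lf (nat_lit 0) (nat_lit 48039669703) (nat_lit 760) (nat_lit 48513288554) (nat_lit 76) (nat_lit 36600785794) (nat_lit 177) (nat_lit 5) (nat_lit 187) (nat_lit 5) (nat_lit 178) (nat_lit 5) (nat_lit 337) (nat_lit 325) (nat_lit 118)))))) (XT.nd (nat_lit 546) (nat_lit 456) (nat_lit 0) (XT.nd (nat_lit 234) (nat_lit 1520) (nat_lit 0) (XT.nd (nat_lit 78) (nat_lit 1064) (nat_lit 0) (XT.lf (nat_lit 0) (nat_lit 60273640125) (nat_lit 608) (nat_lit 7103547716) (nat_lit 684) (nat_lit 69519126725) (nat_lit 169) (nat_lit 5) (nat_lit 177) (nat_lit 5) (nat_lit 178) (nat_lit 5) (nat_lit 338) (nat_lit 325) (nat_lit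 117)) (XT.nd (nat_lit 78) (nat_lit 532) (nat_lit 0) (XT.lf (nat_lit 0) (nat_lit 34536717634) (nat_lit 532) (nat_lit 54815342189) (nat_lit 608) (nat_lit 51423839886) (nat_lit 162) (nat_lit 5) (nat_lit 169) (nat_lit 5) (nat_lit 170) (nat_lit 5) (nat_lit 339) (nat_lit 325) (nat_lit 116)) (XT.lf (nat_lit 0) (nat_lit 7729238057) (nat_lit 532) (nat_lit 106009768502) (nat_lit 608) (nat_lit 31071058033) (nat_lit 155) (nat_lit 5) (nat_lit 162) (nat_lit 5) (nat_lit 163) (nat_lit 5) (nat_lit 340) (nat_lit 325) (nat_lit 115)))) (XT.nd (nat_lit 156) (nat_lit 988) (nat_lit 0) (XT.nd (nat_lit 78) (nat_lit 532) (nat_lit 0) (XT.lf (nat_lit 0) (nat_lit 129051508908) (nat_lit 532) (nat_lit 11934894422) (nat_lit 608) (nat_lit 8010301707) (nat_lit 155) (nat_lit 5) (nat_lit 162) (nat_lit 5) (nat_lit 163) (nat_lit 5) (nat_lit 341) (nat_lit 325) (nat_lit 114)) (XT.lf (nat_lit 0) (nat_lit 17742002331) (nat_lit 532)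 (nat_lit 49265256757) (nat_lit 76) (nat_lit 86325105096) (nat_lit 148) (nat_lit 5) (nat_lit 155) (nat_lit 5) (nat_lit 149) (nat_lit 5) (nat_lit 342) (nat_lit 325) (nat_lit 113))) (XT.nd (nat_lit 78) (nat_lit 456) (nat_lit 0) (XT.lf (nat_lit 0) (nat_lit 46008243175) (nat_lit 608) (nat_lit 80022645991) (nat_lit 76) (nat_lit 31809778568) (nat_lit 141) (nat_lit 5) (nat_lit 149) (nat_lit 5) (nat_lit 142) (nat_lit 5) (nat_lit 343) (nat_lit 325) (nat_lit 112)) (XT.lf (nat_lit 0) (nat_lit 50020152380) (nat_lit 456) (nat_lit 27336616324) (nat_lit 532) (nat_lit 85167548913) (nat_lit 135) (nat_lit 5) (nat_lit 141) (nat_lit 5) (nat_lit 142) (nat_lit 5) (nat_lit 344) (nat_lit 325) (nat_lit 111))))) (XT.nd (nat_lit 39312) (nat_lit 0) (nat_lit 5092) (XT.nd (nat_lit 39156) (nat_lit 0) (nat_lit 5016) (XT.lf (nat_lit 0) (nat_lit 20477588766) (nat_lit 456) (nat_lit 91556938840) (nat_lit 532) (nat_lit 55354768493)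 (nat_lit 129) (nat_lit 5) (nat_lit 135) (nat_lit 5) (nat_lit 136) (nat_lit 5) (nat_lit 345) (nat_lit 325) (nat_lit 110)) (XT.nd (nat_lit 78) (nat_lit 0) (nat_lit 0) (XT.lf (nat_lit 0) (nat_lit 14809157939) (nat_lit 0) (nat_lit 14809157939) (nat_lit 1140) (nat_lit 21557519856) (nat_lit 195) (nat_lit 5) (nat_lit 195) (nat_lit 3) (nat_lit 210) (nat_lit 3) (nat_lit 326) (nat_lit 326) (nat_lit 128)) (XT.lf (nat_lit 76) (nat_lit 4228520335) (nat_lit 0) (nat_lit 57008553756) (nat_lit 1216) (nat_lit 43657791854) (nat_lit 196) (nat_lit 5) (nat_lit 195) (nat_lit 5) (nat_lit 211) (nat_lit 5) (nat_lit 327) (nat_lit 326) (nat_lit 127)))) (XT.nd (nat_lit 156) (nat_lit 0) (nat_lit 76) (XT.nd (nat_lit 78) (nat_lit 0) (nat_lit 0) (XT.lf (nat_lit 0) (nat_lit 64591892776) (nat_lit 1140) (nat_lit 21490974140) (nat_lit 1216) (nat_lit 21444723335) (nat_lit 196) (nat_lit 5) (nat_lit 211) (nat_lit 5) (nat_lit 212)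 (nat_lit 5) (nat_lit 328) (nat_lit 326) (nat_lit 126)) (XT.lf (nat_lit 76) (nat_lit 62282778101) (nat_lit 0) (nat_lit 7005180235) (nat_lit 1216) (nat_lit 40968787961) (nat_lit 197) (nat_lit 5) (nat_lit 196) (nat_lit 5) (nat_lit 212) (nat_lit 5) (nat_lit 329) (nat_lit 326) (nat_lit 125))) (XT.nd (nat_lit 78) (nat_lit 0) (nat_lit 76) (XT.lf (nat_lit 76) (nat_lit 37578524647) (nat_lit 0) (nat_lit 37955195455) (nat_lit 1216) (nat_lit 37549193925) (nat_lit 198) (nat_lit 5) (nat_lit 197) (nat_lit 5) (nat_lit 213) (nat_lit 5) (nat_lit 330) (nat_lit 326) (nat_lit 124)) (XT.lf (nat_lit 76) (nat_lit 12102224989) (nat_lit 0) (nat_lit 71108334900) (nat_lit 1216) (nat_lit 32806267192) (nat_lit 199) (nat_lit 5) (nat_lit 198) (nat_lit 5) (nat_lit 214) (nat_lit 5) (nat_lit 331) (nat_lit 326) (nat_lit 123))))))))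
noncomputable def xc126 : XT := (XT.nd (nat_lit 41418) (nat_lit 0) (nat_lit 1064) (XT.nd (nat_lit 40326) (nat_lit 0) (nat_lit 1596) (XT.nd (nat_lit 546) (nat_lit 2736) (nat_lit 0) (XT.nd (nat_lit 234) (nat_lit 1672) (nat_lit 0) (XT.nd (nat_lit 78) (nat_lit 0) (nat_lit 0) (XT.lf (nat_lit 0) (nat_lit 92550816597) (nat_lit 1140) (nat_lit 13910344721) (nat_lit 1216) (nat_lit 12597887828) (nat_lit 199) (nat_lit 5) (nat_lit 214) (nat_lit 5) (nat_lit 215) (nat_lit 5) (nat_lit 332) (nat_lit 326) (nat_lit 122)) (XT.nd (nat_lit 78) (nat_lit 0) (nat_lit 76) (XT.lf (nat_lit 76) (nat_lit 81465745907) (nat_lit 0) (nat_lit 22392658706) (nat_lit 1216) (nat_lit 18349968726) (nat_lit 200) (nat_lit 5) (nat_lit 199) (nat_lit 5) (nat_lit 215) (nat_lit 5) (nat_lit 333) (nat_lit 326) (nat_lit 121)) (XT.lf (nat_lit 76) (nat_lit 56865048914) (nat_lit 0) (nat_lit 60190356731) (nat_lit 1216) (nat_lit 8420037639) (nat_lit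 201) (nat_lit 5) (nat_lit 200) (nat_lit 5) (nat_lit 216) (nat_lit 5) (nat_lit 334) (nat_lit 326) (nat_lit 120)))) (XT.nd (nat_lit 156) (nat_lit 608) (nat_lit 0) (XT.nd (nat_lit 78) (nat_lit 0) (nat_lit 0) (XT.lf (nat_lit 0) (nat_lit 3197326351) (nat_lit 1216) (nat_lit 97473531897) (nat_lit 1292) (nat_lit 28197527739) (nat_lit 185) (nat_lit 5) (nat_lit 201) (nat_lit 5) (nat_lit 202) (nat_lit 5) (nat_lit 335) (nat_lit 326) (nat_lit 119)) (XT.lf (nat_lit 76) (nat_lit 4818499844) (nat_lit 0) (nat_lit 11771209839) (nat_lit 1292) (nat_lit 115797716912) (nat_lit 186) (nat_lit 5) (nat_lit 185) (nat_lit 5) (nat_lit 202) (nat_lit 5) (nat_lit 336) (nat_lit 326) (nat_lit 118))) (XT.nd (nat_lit 78) (nat_lit 684) (nat_lit 0) (XT.lf (nat_lit 0) (nat_lit 32448763702) (nat_lit 1216) (nat_lit 22584710704) (nat_lit 76) (nat_lit 80995033744) (nat_lit 186) (nat_lit 5) (nat_lit 202) (nat_lit 5) (nat_lit 187) (nat_lit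 5) (nat_lit 337) (nat_lit 326) (nat_lit 117)) (XT.lf (nat_lit 0) (nat_lit 50454071362) (nat_lit 760) (nat_lit 50927541876) (nat_lit 76) (nat_lit 38429431955) (nat_lit 177) (nat_lit 5) (nat_lit 187) (nat_lit 5) (nat_lit 178) (nat_lit 5) (nat_lit 338) (nat_lit 326) (nat_lit 116))))) (XT.nd (nat_lit 234) (nat_lit 1064) (nat_lit 0) (XT.nd (nat_lit 78) (nat_lit 1064) (nat_lit 0) (XT.lf (nat_lit 0) (nat_lit 63298406140) (nat_lit 608) (nat_lit 7459574472) (nat_lit 684) (nat_lit 72982778810) (nat_lit 169) (nat_lit 5) (nat_lit 177) (nat_lit 5) (nat_lit 178) (nat_lit 5) (nat_lit 339) (nat_lit 326) (nat_lit 115)) (XT.nd (nat_lit 78) (nat_lit 532) (nat_lit 0) (XT.lf (nat_lit 0) (nat_lit 36274687976) (nat_lit 532) (nat_lit 57556439216) (nat_lit 608) (nat_lit 53983211312) (nat_lit 162) (nat_lit 5) (nat_lit 169) (nat_lit 5) (nat_lit 170) (nat_lit 5) (nat_lit 340) (nat_lit 326) (nat_lit 114)) (XT.lf (nat_lit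 0) (nat_lit 8126864314) (nat_lit 532) (nat_lit 111310115326) (nat_lit 608) (nat_lit 32613245823) (nat_lit 155) (nat_lit 5) (nat_lit 162) (nat_lit 5) (nat_lit 163) (nat_lit 5) (nat_lit 341) (nat_lit 326) (nat_lit 113)))) (XT.nd (nat_lit 156) (nat_lit 532) (nat_lit 0) (XT.nd (nat_lit 78) (nat_lit 532) (nat_lit 0) (XT.lf (nat_lit 0) (nat_lit 135514717071) (nat_lit 532) (nat_lit 12531504285) (nat_lit 608) (nat_lit 8399992877) (nat_lit 155) (nat_lit 5) (nat_lit 162) (nat_lit 5) (nat_lit 163) (nat_lit 5) (nat_lit 342) (nat_lit 326) (nat_lit 112)) (XT.lf (nat_lit 0) (nat_lit 18639314353) (nat_lit 532) (nat_lit 51717662694) (nat_lit 76) (nat_lit 90641688708) (nat_lit 148) (nat_lit 5) (nat_lit 155) (nat_lit 5) (nat_lit 149) (nat_lit 5) (nat_lit 343) (nat_lit 326) (nat_lit 111))) (XT.nd (nat_lit 39312) (nat_lit 0) (nat_lit 4104) (XT.lf (nat_lit 0) (nat_lit 48318489238) (nat_lit 608) (nat_lit 84012934907)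 (nat_lit 76) (nat_lit 33400972167) (nat_lit 141) (nat_lit 5) (nat_lit 149) (nat_lit 5) (nat_lit 142) (nat_lit 5) (nat_lit 344) (nat_lit 326) (nat_lit 110)) (XT.lf (nat_lit 0) (nat_lit 15554441433) (nat_lit 0) (nat_lit 15554441433) (nat_lit 1140) (nat_lit 22625443781) (nat_lit 195) (nat_lit 5) (nat_lit 195) (nat_lit 3) (nat_lit 210) (nat_lit 3) (nat_lit 327) (nat_lit 327) (nat_lit 126)))))) (XT.nd (nat_lit 546) (nat_lit 2508) (nat_lit 0) (XT.nd (nat_lit 234) (nat_lit 0) (nat_lit 152) (XT.nd (nat_lit 78) (nat_lit 0) (nat_lit 76) (XT.lf (nat_lit 76) (nat_lit 4449995509) (nat_lit 0) (nat_lit 59867323756) (nat_lit 1216) (nat_lit 45821716636) (nat_lit 196) (nat_lit 5) (nat_lit 195) (nat_lit 5) (nat_lit 211) (nat_lit 5) (nat_lit 328) (nat_lit 327) (nat_lit 125)) (XT.nd (nat_lit 78) (nat_lit 0) (nat_lit 0) (XT.lf (nat_lit 0) (nat_lit 67838926727) (nat_lit 1140) (nat_lit 22555329810) (nat_lit 1216)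 (nat_lit 22509169479) (nat_lit 196) (nat_lit 5) (nat_lit 211) (nat_lit 5) (nat_lit 212) (nat_lit 5) (nat_lit 329) (nat_lit 327) (nat_lit 124)) (XT.lf (nat_lit 76) (nat_lit 65406817862) (nat_lit 0) (nat_lit 7362242433) (nat_lit 1216) (nat_lit 43000002607) (nat_lit 197) (nat_lit 5) (nat_lit 196) (nat_lit 5) (nat_lit 212) (nat_lit 5) (nat_lit 330) (nat_lit 327) (nat_lit 123)))) (XT.nd (nat_lit 156) (nat_lit 0) (nat_lit 152) (XT.nd (nat_lit 78) (nat_lit 0) (nat_lit 76) (XT.lf (nat_lit 76) (nat_lit 39467637234) (nat_lit 0) (nat_lit 39858713119) (nat_lit 1216) (nat_lit 39410212391) (nat_lit 198) (nat_lit 5) (nat_lit 197) (nat_lit 5) (nat_lit 213) (nat_lit 5) (nat_lit 331) (nat_lit 327) (nat_lit 122)) (XT.lf (nat_lit 76) (nat_lit 12717767102) (nat_lit 0) (nat_lit 74668553334) (nat_lit 1216) (nat_lit 34430873255) (nat_lit 199) (nat_lit 5) (nat_lit 198) (nat_lit 5) (nat_lit 214) (nat_lit 5) (nat_lit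 332) (nat_lit 327) (nat_lit 121))) (XT.nd (nat_lit 78) (nat_lit 0) (nat_lit 0) (XT.lf (nat_lit 0) (nat_lit 97192820661) (nat_lit 1140) (nat_lit 14595431705) (nat_lit 1216) (nat_lit 13223298420) (nat_lit 199) (nat_lit 5) (nat_lit 214) (nat_lit 5) (nat_lit 215) (nat_lit 5) (nat_lit 333) (nat_lit 327) (nat_lit 120)) (XT.lf (nat_lit 76) (nat_lit 85549164473) (nat_lit 0) (nat_lit 23516032267) (nat_lit 1216) (nat_lit 19253162994) (nat_lit 200) (nat_lit 5) (nat_lit 199) (nat_lit 5) (nat_lit 215) (nat_lit 5) (nat_lit 334) (nat_lit 327) (nat_lit 119))))) (XT.nd (nat_lit 234) (nat_lit 1748) (nat_lit 0) (XT.nd (nat_lit 78) (nat_lit 1140) (nat_lit 0) (XT.lf (nat_lit 76) (nat_lit 59718597027) (nat_lit 0) (nat_lit 63202854953) (nat_lit 1216) (nat_lit 8827349838) (nat_lit 201) (nat_lit 5) (nat_lit 200) (nat_lit 5) (nat_lit 216) (nat_lit 5) (nat_lit 335) (nat_lit 327) (nat_lit 118)) (XT.nd (nat_lit 78) (nat_lit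 0) (nat_lit 0) (XT.lf (nat_lit 0) (nat_lit 3370049746) (nat_lit 1216) (nat_lit 102336508274) (nat_lit 1292) (nat_lit 29604847363) (nat_lit 185) (nat_lit 5) (nat_lit 201) (nat_lit 5) (nat_lit 202) (nat_lit 5) (nat_lit 336) (nat_lit 327) (nat_lit 117)) (XT.lf (nat_lit 76) (nat_lit 5069818335) (nat_lit 0) (nat_lit 12361721577) (nat_lit 1292) (nat_lit 121574874155) (nat_lit 186) (nat_lit 5) (nat_lit 185) (nat_lit 5) (nat_lit 202) (nat_lit 5) (nat_lit 337) (nat_lit 327) (nat_lit 116)))) (XT.nd (nat_lit 156) (nat_lit 1140) (nat_lit 0) (XT.nd (nat_lit 78) (nat_lit 684) (nat_lit 0) (XT.lf (nat_lit 0) (nat_lit 34082940923) (nat_lit 1216) (nat_lit 23703664227) (nat_lit 76) (nat_lit 85042963365) (nat_lit 186) (nat_lit 5) (nat_lit 202) (nat_lit 5) (nat_lit 187) (nat_lit 5) (nat_lit 338) (nat_lit 327) (nat_lit 115)) (XT.lf (nat_lit 0) (nat_lit 52988038580) (nat_lit 760) (nat_lit 53463568761) (nat_lit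 76) (nat_lit 40349639943) (nat_lit 177) (nat_lit 5) (nat_lit 187) (nat_lit 5) (nat_lit 178) (nat_lit 5) (nat_lit 339) (nat_lit 327) (nat_lit 114))) (XT.nd (nat_lit 78) (nat_lit 532) (nat_lit 0) (XT.lf (nat_lit 0) (nat_lit 66473379969) (nat_lit 608) (nat_lit 7833323599) (nat_lit 684) (nat_lit 76620757431) (nat_lit 169) (nat_lit 5) (nat_lit 177) (nat_lit 5) (nat_lit 178) (nat_lit 5) (nat_lit 340) (nat_lit 327) (nat_lit 113)) (XT.lf (nat_lit 0) (nat_lit 38098521658) (nat_lit 532) (nat_lit 60434560421) (nat_lit 608) (nat_lit 56671650274) (nat_lit 162) (nat_lit 5) (nat_lit 169) (nat_lit 5) (nat_lit 170) (nat_lit 5) (nat_lit 341) (nat_lit 327) (nat_lit 112))))))) (XT.nd (nat_lit 40482) (nat_lit 0) (nat_lit 0) (XT.nd (nat_lit 39936) (nat_lit 0) (nat_lit 2280) (XT.nd (nat_lit 39624) (nat_lit 0) (nat_lit 3040) (XT.nd (nat_lit 78) (nat_lit 0) (nat_lit 0) (XT.lf (nat_lit 0) (nat_lit 8543333928) (nat_lit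 532) (nat_lit 116875492656) (nat_lit 608) (nat_lit 34233599624) (nat_lit 155) (nat_lit 5) (nat_lit 162) (nat_lit 5) (nat_lit 163) (nat_lit 5) (nat_lit 342) (nat_lit 327) (nat_lit 111)) (XT.nd (nat_lit 39468) (nat_lit 0) (nat_lit 3040) (XT.lf (nat_lit 0) (nat_lit 142300097114) (nat_lit 532) (nat_lit 13157957179) (nat_lit 608) (nat_lit 8810174911) (nat_lit 155) (nat_lit 5) (nat_lit 162) (nat_lit 5) (nat_lit 163) (nat_lit 5) (nat_lit 343) (nat_lit 327) (nat_lit 110)) (XT.lf (nat_lit 0) (nat_lit 16336540464) (nat_lit 0) (nat_lit 16336540464) (nat_lit 1140) (nat_lit 23747689151) (nat_lit 195) (nat_lit 5) (nat_lit 195) (nat_lit 3) (nat_lit 210) (nat_lit 3) (nat_lit 328) (nat_lit 328) (nat_lit 124)))) (XT.nd (nat_lit 156) (nat_lit 0) (nat_lit 76) (XT.nd (nat_lit 78) (nat_lit 0) (nat_lit 76) (XT.lf (nat_lit 76) (nat_lit 4681610166) (nat_lit 0) (nat_lit 62868256668) (nat_lit 1216) (nat_lit 48095600826)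 (nat_lit 196) (nat_lit 5) (nat_lit 195) (nat_lit 5) (nat_lit 211) (nat_lit 5) (nat_lit 329) (nat_lit 328) (nat_lit 123)) (XT.lf (nat_lit 0) (nat_lit 71246691035) (nat_lit 1140) (nat_lit 23673850916) (nat_lit 1216) (nat_lit 23627562172) (nat_lit 196) (nat_lit 5) (nat_lit 211) (nat_lit 5) (nat_lit 212) (nat_lit 5) (nat_lit 330) (nat_lit 328) (nat_lit 122))) (XT.nd (nat_lit 78) (nat_lit 0) (nat_lit 76) (XT.lf (nat_lit 76) (nat_lit 68686139123) (nat_lit 0) (nat_lit 7736525246) (nat_lit 1216) (nat_lit 45134379380) (nat_lit 197) (nat_lit 5) (nat_lit 196) (nat_lit 5) (nat_lit 212) (nat_lit 5) (nat_lit 331) (nat_lit 328) (nat_lit 121)) (XT.lf (nat_lit 76) (nat_lit 41450258420) (nat_lit 0) (nat_lit 41856871353) (nat_lit 1216) (nat_lit 41365810331) (nat_lit 198) (nat_lit 5) (nat_lit 197) (nat_lit 5) (nat_lit 213) (nat_lit 5) (nat_lit 332) (nat_lit 328) (nat_lit 120))))) (XT.nd (nat_lit 234) (nat_lit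 988) (nat_lit 0) (XT.nd (nat_lit 78) (nat_lit 0) (nat_lit 76) (XT.lf (nat_lit 76) (nat_lit 13363116559) (nat_lit 0) (nat_lit 78406336273) (nat_lit 1216) (nat_lit 36138169937) (nat_lit 199) (nat_lit 5) (nat_lit 198) (nat_lit 5) (nat_lit 214) (nat_lit 5) (nat_lit 333) (nat_lit 328) (nat_lit 119)) (XT.nd (nat_lit 78) (nat_lit 0) (nat_lit 0) (XT.lf (nat_lit 0) (nat_lit 102065580273) (nat_lit 1140) (nat_lit 15315742745) (nat_lit 1216) (nat_lit 13880396402) (nat_lit 199) (nat_lit 5) (nat_lit 214) (nat_lit 5) (nat_lit 215) (nat_lit 5) (nat_lit 334) (nat_lit 328) (nat_lit 118)) (XT.lf (nat_lit 76) (nat_lit 89835812058) (nat_lit 0) (nat_lit 24695226738) (nat_lit 1216) (nat_lit 20202846841) (nat_lit 200) (nat_lit 5) (nat_lit 199) (nat_lit 5) (nat_lit 215) (nat_lit 5) (nat_lit 335) (nat_lit 328) (nat_lit 117)))) (XT.nd (nat_lit 156) (nat_lit 0) (nat_lit 0) (XT.nd (nat_lit 78) (nat_lit 1140) (nat_lit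 0) (XT.lf (nat_lit 76) (nat_lit 62713865352) (nat_lit 0) (nat_lit 66365700998) (nat_lit 1216) (nat_lit 9256300385) (nat_lit 201) (nat_lit 5) (nat_lit 200) (nat_lit 5) (nat_lit 216) (nat_lit 5) (nat_lit 336) (nat_lit 328) (nat_lit 116)) (XT.lf (nat_lit 0) (nat_lit 3550213981) (nat_lit 1216) (nat_lit 107443628274) (nat_lit 1292) (nat_lit 31082770671) (nat_lit 185) (nat_lit 5) (nat_lit 201) (nat_lit 5) (nat_lit 202) (nat_lit 5) (nat_lit 337) (nat_lit 328) (nat_lit 115))) (XT.nd (nat_lit 78) (nat_lit 0) (nat_lit 76) (XT.lf (nat_lit 76) (nat_lit 5332736461) (nat_lit 0) (nat_lit 12981577493) (nat_lit 1292) (nat_lit 127642072646) (nat_lit 186) (nat_lit 5) (nat_lit 185) (nat_lit 5) (nat_lit 202) (nat_lit 5) (nat_lit 338) (nat_lit 328) (nat_lit 114)) (XT.lf (nat_lit 0) (nat_lit 35797735621) (nat_lit 1216) (nat_lit 24879521350) (nat_lit 76) (nat_lit 89293458865) (nat_lit 186) (nat_lit 5) (nat_lit 202)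 (nat_lit 5) (nat_lit 187) (nat_lit 5) (nat_lit 339) (nat_lit 328) (nat_lit 113)))))) (XT.nd (nat_lit 40014) (nat_lit 0) (nat_lit 2280) (XT.nd (nat_lit 234) (nat_lit 532) (nat_lit 0) (XT.nd (nat_lit 78) (nat_lit 1140) (nat_lit 0) (XT.lf (nat_lit 0) (nat_lit 55647656971) (nat_lit 760) (nat_lit 56127359255) (nat_lit 76) (nat_lit 42365975810) (nat_lit 177) (nat_lit 5) (nat_lit 187) (nat_lit 5) (nat_lit 178) (nat_lit 5) (nat_lit 340) (nat_lit 328) (nat_lit 112)) (XT.nd (nat_lit 78) (nat_lit 532) (nat_lit 0) (XT.lf (nat_lit 0) (nat_lit 69806167808) (nat_lit 608) (nat_lit 8225688558) (nat_lit 684) (nat_lit 80441672565) (nat_lit 169) (nat_lit 5) (nat_lit 177) (nat_lit 5) (nat_lit 178) (nat_lit 5) (nat_lit 341) (nat_lit 328) (nat_lit 111)) (XT.lf (nat_lit 0) (nat_lit 40012608089) (nat_lit 532) (nat_lit 63456559866) (nat_lit 608) (nat_lit 59495507978) (nat_lit 162) (nat_lit 5) (nat_lit 169) (nat_lit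 5) (nat_lit 170) (nat_lit 5) (nat_lit 342) (nat_lit 328) (nat_lit 110)))) (XT.nd (nat_lit 39624) (nat_lit 0) (nat_lit 3040) (XT.nd (nat_lit 39546) (nat_lit 0) (nat_lit 3040) (XT.lf (nat_lit 0) (nat_lit 8979685566) (nat_lit 532) (nat_lit 122719150793) (nat_lit 608) (nat_lit 35935929500) (nat_lit 155) (nat_lit 5) (nat_lit 162) (nat_lit 5) (nat_lit 163) (nat_lit 5) (nat_lit 343) (nat_lit 328) (nat_lit 109)) (XT.lf (nat_lit 0) (nat_lit 17157337518) (nat_lit 0) (nat_lit 17157337518) (nat_lit 1140) (nat_lit 24926886018) (nat_lit 195) (nat_lit 5) (nat_lit 195) (nat_lit 3) (nat_lit 210) (nat_lit 3) (nat_lit 329) (nat_lit 329) (nat_lit 122))) (XT.nd (nat_lit 78) (nat_lit 0) (nat_lit 76) (XT.lf (nat_lit 76) (nat_lit 4923958140) (nat_lit 0) (nat_lit 66018532743) (nat_lit 1216) (nat_lit 50484778471) (nat_lit 196) (nat_lit 5) (nat_lit 195) (nat_lit 5) (nat_lit 211) (nat_lit 5) (nat_lit 330) (nat_lit 329)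 (nat_lit 121)) (XT.lf (nat_lit 0) (nat_lit 74823372952) (nat_lit 1140) (nat_lit 24849157626) (nat_lit 1216) (nat_lit 24802531409) (nat_lit 196) (nat_lit 5) (nat_lit 211) (nat_lit 5) (nat_lit 212) (nat_lit 5) (nat_lit 331) (nat_lit 329) (nat_lit 120))))) (XT.nd (nat_lit 234) (nat_lit 836) (nat_lit 0) (XT.nd (nat_lit 78) (nat_lit 0) (nat_lit 76) (XT.lf (nat_lit 76) (nat_lit 72128591537) (nat_lit 0) (nat_lit 8128948507) (nat_lit 1216) (nat_lit 47376927503) (nat_lit 197) (nat_lit 5) (nat_lit 196) (nat_lit 5) (nat_lit 212) (nat_lit 5) (nat_lit 332) (nat_lit 329) (nat_lit 119)) (XT.nd (nat_lit 78) (nat_lit 0) (nat_lit 76) (XT.lf (nat_lit 76) (nat_lit 43531151680) (nat_lit 0) (nat_lit 43954451953) (nat_lit 1216) (nat_lit 43420574607) (nat_lit 198) (nat_lit 5) (nat_lit 197) (nat_lit 5) (nat_lit 213) (nat_lit 5) (nat_lit 333) (nat_lit 329) (nat_lit 118)) (XT.lf (nat_lit 76) (nat_lit 14039853884) (nat_lit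 0) (nat_lit 82330603448) (nat_lit 1216) (nat_lit 37932156003) (nat_lit 199) (nat_lit 5) (nat_lit 198) (nat_lit 5) (nat_lit 214) (nat_lit 5) (nat_lit 334) (nat_lit 329) (nat_lit 117)))) (XT.nd (nat_lit 156) (nat_lit 1064) (nat_lit 0) (XT.nd (nat_lit 78) (nat_lit 0) (nat_lit 0) (XT.lf (nat_lit 0) (nat_lit 107180758225) (nat_lit 1140) (nat_lit 16072948888) (nat_lit 1216) (nat_lit 14570727388) (nat_lit 199) (nat_lit 5) (nat_lit 214) (nat_lit 5) (nat_lit 215) (nat_lit 5) (nat_lit 335) (nat_lit 329) (nat_lit 116)) (XT.lf (nat_lit 76) (nat_lit 94335937682) (nat_lit 0) (nat_lit 25933065497) (nat_lit 1216) (nat_lit 21201221108) (nat_lit 200) (nat_lit 5) (nat_lit 199) (nat_lit 5) (nat_lit 215) (nat_lit 5) (nat_lit 336) (nat_lit 329) (nat_lit 115))) (XT.nd (nat_lit 78) (nat_lit 1140) (nat_lit 0) (XT.lf (nat_lit 76) (nat_lit 65858028891) (nat_lit 0) (nat_lit 69686438019) (nat_lit 1216) (nat_lit 9707852868)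 (nat_lit 201) (nat_lit 5) (nat_lit 200) (nat_lit 5) (nat_lit 216) (nat_lit 5) (nat_lit 337) (nat_lit 329) (nat_lit 114)) (XT.lf (nat_lit 0) (nat_lit 3738302230) (nat_lit 1216) (nat_lit 112807006592) (nat_lit 1292) (nat_lit 32634805750) (nat_lit 185) (nat_lit 5) (nat_lit 201) (nat_lit 5) (nat_lit 202) (nat_lit 5) (nat_lit 338) (nat_lit 329) (nat_lit 113))))))))
noncomputable def xc127 : XT := (XT.nd (nat_lit 121368) (nat_lit 0) (nat_lit 1976) (XT.nd (nat_lit 40716) (nat_lit 0) (nat_lit 608) (XT.nd (nat_lit 40170) (nat_lit 0) (nat_lit 1216) (XT.nd (nat_lit 234) (nat_lit 608) (nat_lit 0) (XT.nd (nat_lit 78) (nat_lit 608) (nat_lit 0) (XT.lf (nat_lit 76) (nat_lit 5607924041) (nat_lit 0) (nat_lit 13632261663) (nat_lit 1292) (nat_lit 134013704426) (nat_lit 186) (nat_lit 5) (nat_lit 185) (nat_lit 5) (nat_lit 202) (nat_lit 5) (nat_lit 339) (nat_lit 329) (nat_lit 112)) (XT.nd (nat_lit 78) (nat_lit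 684) (nat_lit 0) (XT.lf (nat_lit 0) (nat_lit 37597280135) (nat_lit 1216) (nat_lit 26115038381) (nat_lit 76) (nat_lit 93756632789) (nat_lit 186) (nat_lit 5) (nat_lit 202) (nat_lit 5) (nat_lit 187) (nat_lit 5) (nat_lit 340) (nat_lit 329) (nat_lit 111)) (XT.lf (nat_lit 0) (nat_lit 58439306452) (nat_lit 760) (nat_lit 58925212075) (nat_lit 76) (nat_lit 44483235026) (nat_lit 177) (nat_lit 5) (nat_lit 187) (nat_lit 5) (nat_lit 178) (nat_lit 5) (nat_lit 341) (nat_lit 329) (nat_lit 110)))) (XT.nd (nat_lit 39780) (nat_lit 0) (nat_lit 1976) (XT.nd (nat_lit 39702) (nat_lit 0) (nat_lit 1976) (XT.lf (nat_lit 0) (nat_lit 73304747256) (nat_lit 608) (nat_lit 8637606799) (nat_lit 684) (nat_lit 84454574571) (nat_lit 169) (nat_lit 5) (nat_lit 177) (nat_lit 5) (nat_lit 178) (nat_lit 5) (nat_lit 342) (nat_lit 329) (nat_lit 109)) (XT.lf (nat_lit 0) (nat_lit 18018805328) (nat_lit 0) (nat_lit 18018805328) (nat_lit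 1140) (nat_lit 26165803933) (nat_lit 195) (nat_lit 5) (nat_lit 195) (nat_lit 3) (nat_lit 210) (nat_lit 3) (nat_lit 330) (nat_lit 330) (nat_lit 120))) (XT.nd (nat_lit 78) (nat_lit 0) (nat_lit 76) (XT.lf (nat_lit 76) (nat_lit 5177654883) (nat_lit 0) (nat_lit 69325684542) (nat_lit 1216) (nat_lit 52994865562) (nat_lit 196) (nat_lit 5) (nat_lit 195) (nat_lit 5) (nat_lit 211) (nat_lit 5) (nat_lit 331) (nat_lit 330) (nat_lit 119)) (XT.lf (nat_lit 0) (nat_lit 78577555083) (nat_lit 1140) (nat_lit 26084009306) (nat_lit 1216) (nat_lit 26036844944) (nat_lit 196) (nat_lit 5) (nat_lit 211) (nat_lit 5) (nat_lit 212) (nat_lit 5) (nat_lit 332) (nat_lit 330) (nat_lit 118))))) (XT.nd (nat_lit 234) (nat_lit 836) (nat_lit 0) (XT.nd (nat_lit 78) (nat_lit 0) (nat_lit 76) (XT.lf (nat_lit 76) (nat_lit 75742409285) (nat_lit 0) (nat_lit 8540472576) (nat_lit 1216) (nat_lit 49732920503) (nat_lit 197) (nat_lit 5) (nat_lit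 196) (nat_lit 5) (nat_lit 212) (nat_lit 5) (nat_lit 333) (nat_lit 330) (nat_lit 117)) (XT.nd (nat_lit 78) (nat_lit 0) (nat_lit 76) (XT.lf (nat_lit 76) (nat_lit 45715310479) (nat_lit 0) (nat_lit 46156471179) (nat_lit 1216) (nat_lit 45579334638) (nat_lit 198) (nat_lit 5) (nat_lit 197) (nat_lit 5) (nat_lit 213) (nat_lit 5) (nat_lit 334) (nat_lit 330) (nat_lit 116)) (XT.lf (nat_lit 76) (nat_lit 14749630249) (nat_lit 0) (nat_lit 86450716714) (nat_lit 1216) (nat_lit 39817042777) (nat_lit 199) (nat_lit 5) (nat_lit 198) (nat_lit 5) (nat_lit 214) (nat_lit 5) (nat_lit 335) (nat_lit 330) (nat_lit 115)))) (XT.nd (nat_lit 156) (nat_lit 1064) (nat_lit 0) (XT.nd (nat_lit 78) (nat_lit 0) (nat_lit 0) (XT.lf (nat_lit 0) (nat_lit 112550588824) (nat_lit 1140) (nat_lit 16868813118) (nat_lit 1216) (nat_lit 15295917877) (nat_lit 199) (nat_lit 5) (nat_lit 214) (nat_lit 5) (nat_lit 215) (nat_lit 5) (nat_lit 336)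 (nat_lit 330) (nat_lit 114)) (XT.lf (nat_lit 76) (nat_lit 99060294676) (nat_lit 0) (nat_lit 27232510085) (nat_lit 1216) (nat_lit 22250608173) (nat_lit 200) (nat_lit 5) (nat_lit 199) (nat_lit 5) (nat_lit 215) (nat_lit 5) (nat_lit 337) (nat_lit 330) (nat_lit 113))) (XT.nd (nat_lit 78) (nat_lit 1140) (nat_lit 0) (XT.lf (nat_lit 76) (nat_lit 69158613121) (nat_lit 0) (nat_lit 73172983929) (nat_lit 1216) (nat_lit 10183030059) (nat_lit 201) (nat_lit 5) (nat_lit 200) (nat_lit 5) (nat_lit 216) (nat_lit 5) (nat_lit 338) (nat_lit 330) (nat_lit 112)) (XT.lf (nat_lit 0) (nat_lit 3934811490) (nat_lit 1216) (nat_lit 118439372255) (nat_lit 1292) (nat_lit 34264638141) (nat_lit 185) (nat_lit 5) (nat_lit 201) (nat_lit 5) (nat_lit 202) (nat_lit 5) (nat_lit 339) (nat_lit 330) (nat_lit 111)))))) (XT.nd (nat_lit 40248) (nat_lit 0) (nat_lit 608) (XT.nd (nat_lit 39936) (nat_lit 0) (nat_lit 1368) (XT.nd (nat_lit 78)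 (nat_lit 608) (nat_lit 0) (XT.lf (nat_lit 76) (nat_lit 5896076031) (nat_lit 0) (nat_lit 14315330795) (nat_lit 1292) (nat_lit 140704891368) (nat_lit 186) (nat_lit 5) (nat_lit 185) (nat_lit 5) (nat_lit 202) (nat_lit 5) (nat_lit 340) (nat_lit 330) (nat_lit 110)) (XT.nd (nat_lit 78) (nat_lit 684) (nat_lit 0) (XT.lf (nat_lit 0) (nat_lit 39485903991) (nat_lit 1216) (nat_lit 27413117704) (nat_lit 76) (nat_lit 98443104775) (nat_lit 186) (nat_lit 5) (nat_lit 202) (nat_lit 5) (nat_lit 187) (nat_lit 5) (nat_lit 341) (nat_lit 330) (nat_lit 109)) (XT.lf (nat_lit 0) (nat_lit 61369676883) (nat_lit 760) (nat_lit 61863749194) (nat_lit 76) (nat_lit 46706453852) (nat_lit 177) (nat_lit 5) (nat_lit 187) (nat_lit 5) (nat_lit 178) (nat_lit 5) (nat_lit 342) (nat_lit 330) (nat_lit 108)))) (XT.nd (nat_lit 156) (nat_lit 0) (nat_lit 76) (XT.nd (nat_lit 78) (nat_lit 0) (nat_lit 0) (XT.lf (nat_lit 0) (nat_lit 18923011749)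 (nat_lit 0) (nat_lit 18923011749) (nat_lit 1140) (nat_lit 27467358179) (nat_lit 195) (nat_lit 5) (nat_lit 195) (nat_lit 3) (nat_lit 210) (nat_lit 3) (nat_lit 331) (nat_lit 331) (nat_lit 118)) (XT.lf (nat_lit 76) (nat_lit 5443339292) (nat_lit 0) (nat_lit 72797615175) (nat_lit 1216) (nat_lit 55631772710) (nat_lit 196) (nat_lit 5) (nat_lit 195) (nat_lit 5) (nat_lit 211) (nat_lit 5) (nat_lit 332) (nat_lit 331) (nat_lit 117))) (XT.nd (nat_lit 78) (nat_lit 0) (nat_lit 0) (XT.lf (nat_lit 0) (nat_lit 82518236451) (nat_lit 1140) (nat_lit 27381310723) (nat_lit 1216) (nat_lit 27333414597) (nat_lit 196) (nat_lit 5) (nat_lit 211) (nat_lit 5) (nat_lit 212) (nat_lit 5) (nat_lit 333) (nat_lit 331) (nat_lit 116)) (XT.lf (nat_lit 76) (nat_lit 79536231038) (nat_lit 0) (nat_lit 8972100869) (nat_lit 1216) (nat_lit 52207908138) (nat_lit 197) (nat_lit 5) (nat_lit 196) (nat_lit 5) (nat_lit 212) (nat_lit 5) (nat_lit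 334) (nat_lit 331) (nat_lit 115))))) (XT.nd (nat_lit 234) (nat_lit 912) (nat_lit 0) (XT.nd (nat_lit 78) (nat_lit 0) (nat_lit 76) (XT.lf (nat_lit 76) (nat_lit 48007970529) (nat_lit 0) (nat_lit 48468191906) (nat_lit 1216) (nat_lit 47847173298) (nat_lit 198) (nat_lit 5) (nat_lit 197) (nat_lit 5) (nat_lit 213) (nat_lit 5) (nat_lit 335) (nat_lit 331) (nat_lit 114)) (XT.nd (nat_lit 78) (nat_lit 0) (nat_lit 76) (XT.lf (nat_lit 76) (nat_lit 15494171781) (nat_lit 0) (nat_lit 90776502521) (nat_lit 1216) (nat_lit 41797263600) (nat_lit 199) (nat_lit 5) (nat_lit 198) (nat_lit 5) (nat_lit 214) (nat_lit 5) (nat_lit 336) (nat_lit 331) (nat_lit 113)) (XT.lf (nat_lit 0) (nat_lit 118187907551) (nat_lit 1140) (nat_lit 17705194169) (nat_lit 1216) (nat_lit 16057678959) (nat_lit 199) (nat_lit 5) (nat_lit 214) (nat_lit 5) (nat_lit 215) (nat_lit 5) (nat_lit 337) (nat_lit 331) (nat_lit 112)))) (XT.nd (nat_lit 156)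 (nat_lit 1064) (nat_lit 0) (XT.nd (nat_lit 78) (nat_lit 0) (nat_lit 76) (XT.lf (nat_lit 76) (nat_lit 104020166653) (nat_lit 0) (nat_lit 28596667391) (nat_lit 1216) (nat_lit 23353456957) (nat_lit 200) (nat_lit 5) (nat_lit 199) (nat_lit 5) (nat_lit 215) (nat_lit 5) (nat_lit 338) (nat_lit 331) (nat_lit 111)) (XT.lf (nat_lit 76) (nat_lit 72623512291) (nat_lit 0) (nat_lit 76833650368) (nat_lit 1216) (nat_lit 10682915846) (nat_lit 201) (nat_lit 5) (nat_lit 200) (nat_lit 5) (nat_lit 216) (nat_lit 5) (nat_lit 339) (nat_lit 331) (nat_lit 110))) (XT.nd (nat_lit 78) (nat_lit 0) (nat_lit 0) (XT.lf (nat_lit 0) (nat_lit 4140254241) (nat_lit 1216) (nat_lit 124354098539) (nat_lit 1292) (nat_lit 35976139531) (nat_lit 185) (nat_lit 5) (nat_lit 201) (nat_lit 5) (nat_lit 202) (nat_lit 5) (nat_lit 340) (nat_lit 331) (nat_lit 109)) (XT.lf (nat_lit 76) (nat_lit 6197914562) (nat_lit 0) (nat_lit 15032418015) (nat_lit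 1292) (nat_lit 147731520718) (nat_lit 186) (nat_lit 5) (nat_lit 185) (nat_lit 5) (nat_lit 202) (nat_lit 5) (nat_lit 341) (nat_lit 331) (nat_lit 108))))))) (XT.nd (nat_lit 41106) (nat_lit 0) (nat_lit 0) (XT.nd (nat_lit 546) (nat_lit 0) (nat_lit 0) (XT.nd (nat_lit 234) (nat_lit 0) (nat_lit 76) (XT.nd (nat_lit 78) (nat_lit 0) (nat_lit 0) (XT.lf (nat_lit 0) (nat_lit 19872124834) (nat_lit 0) (nat_lit 19872124834) (nat_lit 1140) (nat_lit 28834616381) (nat_lit 195) (nat_lit 5) (nat_lit 195) (nat_lit 3) (nat_lit 210) (nat_lit 3) (nat_lit 332) (nat_lit 332) (nat_lit 116)) (XT.nd (nat_lit 78) (nat_lit 0) (nat_lit 76) (XT.lf (nat_lit 76) (nat_lit 5721675567) (nat_lit 0) (nat_lit 76442617390) (nat_lit 1216) (nat_lit 58401718597) (nat_lit 196) (nat_lit 5) (nat_lit 195) (nat_lit 5) (nat_lit 211) (nat_lit 5) (nat_lit 333) (nat_lit 332) (nat_lit 115)) (XT.lf (nat_lit 0) (nat_lit 86654854499) (nat_lit 1140)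 (nat_lit 28744118619) (nat_lit 1216) (nat_lit 28695302929) (nat_lit 196) (nat_lit 5) (nat_lit 211) (nat_lit 5) (nat_lit 212) (nat_lit 5) (nat_lit 334) (nat_lit 332) (nat_lit 114)))) (XT.nd (nat_lit 156) (nat_lit 0) (nat_lit 152) (XT.nd (nat_lit 78) (nat_lit 0) (nat_lit 76) (XT.lf (nat_lit 76) (nat_lit 83519120856) (nat_lit 0) (nat_lit 9424882479) (nat_lit 1216) (nat_lit 54807729041) (nat_lit 197) (nat_lit 5) (nat_lit 196) (nat_lit 5) (nat_lit 212) (nat_lit 5) (nat_lit 335) (nat_lit 332) (nat_lit 113)) (XT.lf (nat_lit 76) (nat_lit 50414622593) (nat_lit 0) (nat_lit 50895136348) (nat_lit 1216) (nat_lit 50229438474) (nat_lit 198) (nat_lit 5) (nat_lit 197) (nat_lit 5) (nat_lit 213) (nat_lit 5) (nat_lit 336) (nat_lit 332) (nat_lit 112))) (XT.nd (nat_lit 78) (nat_lit 0) (nat_lit 76) (XT.lf (nat_lit 76) (nat_lit 16275284016) (nat_lit 0) (nat_lit 95318275468) (nat_lit 1216) (nat_lit 43877483863) (nat_lit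 199) (nat_lit 5) (nat_lit 198) (nat_lit 5) (nat_lit 214) (nat_lit 5) (nat_lit 337) (nat_lit 332) (nat_lit 111)) (XT.lf (nat_lit 0) (nat_lit 124106182100) (nat_lit 1140) (nat_lit 18584050608) (nat_lit 1216) (nat_lit 16857810242) (nat_lit 199) (nat_lit 5) (nat_lit 214) (nat_lit 5) (nat_lit 215) (nat_lit 5) (nat_lit 338) (nat_lit 332) (nat_lit 110))))) (XT.nd (nat_lit 40248) (nat_lit 0) (nat_lit 0) (XT.nd (nat_lit 78) (nat_lit 304) (nat_lit 0) (XT.lf (nat_lit 76) (nat_lit 109227394707) (nat_lit 0) (nat_lit 30028797181) (nat_lit 1216) (nat_lit 24512348287) (nat_lit 200) (nat_lit 5) (nat_lit 199) (nat_lit 5) (nat_lit 215) (nat_lit 5) (nat_lit 339) (nat_lit 332) (nat_lit 109)) (XT.nd (nat_lit 40092) (nat_lit 380) (nat_lit 0) (XT.lf (nat_lit 76) (nat_lit 76261008552) (nat_lit 0) (nat_lit 80677162585) (nat_lit 1216) (nat_lit 11208657361) (nat_lit 201) (nat_lit 5) (nat_lit 200) (nat_lit 5) (nat_lit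 216) (nat_lit 5) (nat_lit 340) (nat_lit 332) (nat_lit 108)) (XT.lf (nat_lit 0) (nat_lit 20868418149) (nat_lit 0) (nat_lit 20868418149) (nat_lit 1140) (nat_lit 30270805517) (nat_lit 195) (nat_lit 5) (nat_lit 195) (nat_lit 3) (nat_lit 210) (nat_lit 3) (nat_lit 333) (nat_lit 333) (nat_lit 114)))) (XT.nd (nat_lit 156) (nat_lit 0) (nat_lit 76) (XT.nd (nat_lit 78) (nat_lit 0) (nat_lit 76) (XT.lf (nat_lit 76) (nat_lit 6013355092) (nat_lit 0) (nat_lit 80269393572) (nat_lit 1216) (nat_lit 61311244211) (nat_lit 196) (nat_lit 5) (nat_lit 195) (nat_lit 5) (nat_lit 211) (nat_lit 5) (nat_lit 334) (nat_lit 333) (nat_lit 113)) (XT.lf (nat_lit 0) (nat_lit 90997308086) (nat_lit 1140) (nat_lit 30175648685) (nat_lit 1216) (nat_lit 30125730299) (nat_lit 196) (nat_lit 5) (nat_lit 211) (nat_lit 5) (nat_lit 212) (nat_lit 5) (nat_lit 335) (nat_lit 333) (nat_lit 112))) (XT.nd (nat_lit 78) (nat_lit 0) (nat_lit 76)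 (XT.lf (nat_lit 76) (nat_lit 87700590065) (nat_lit 0) (nat_lit 9899914872) (nat_lit 1216) (nat_lit 57538524107) (nat_lit 197) (nat_lit 5) (nat_lit 196) (nat_lit 5) (nat_lit 212) (nat_lit 5) (nat_lit 336) (nat_lit 333) (nat_lit 111)) (XT.lf (nat_lit 76) (nat_lit 52941025866) (nat_lit 0) (nat_lit 53443099375) (nat_lit 1216) (nat_lit 52731755306) (nat_lit 198) (nat_lit 5) (nat_lit 197) (nat_lit 5) (nat_lit 213) (nat_lit 5) (nat_lit 337) (nat_lit 333) (nat_lit 110)))))) (XT.nd (nat_lit 40638) (nat_lit 0) (nat_lit 0) (XT.nd (nat_lit 40326) (nat_lit 228) (nat_lit 0) (XT.nd (nat_lit 78) (nat_lit 0) (nat_lit 76) (XT.lf (nat_lit 76) (nat_lit 17094856512) (nat_lit 0) (nat_lit 100086863001) (nat_lit 1216) (nat_lit 46062611646) (nat_lit 199) (nat_lit 5) (nat_lit 198) (nat_lit 5) (nat_lit 214) (nat_lit 5) (nat_lit 338) (nat_lit 333) (nat_lit 109)) (XT.nd (nat_lit 78) (nat_lit 0) (nat_lit 0) (XT.lf (nat_lit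 0) (nat_lit 130319544875) (nat_lit 1140) (nat_lit 19507445184) (nat_lit 1216) (nat_lit 17698204007) (nat_lit 199) (nat_lit 5) (nat_lit 214) (nat_lit 5) (nat_lit 215) (nat_lit 5) (nat_lit 339) (nat_lit 333) (nat_lit 108)) (XT.lf (nat_lit 76) (nat_lit 114694405913) (nat_lit 0) (nat_lit 31532319960) (nat_lit 1216) (nat_lit 25730000605) (nat_lit 200) (nat_lit 5) (nat_lit 199) (nat_lit 5) (nat_lit 215) (nat_lit 5) (nat_lit 340) (nat_lit 333) (nat_lit 107)))) (XT.nd (nat_lit 156) (nat_lit 0) (nat_lit 76) (XT.nd (nat_lit 78) (nat_lit 0) (nat_lit 0) (XT.lf (nat_lit 0) (nat_lit 21914276311) (nat_lit 0) (nat_lit 21914276311) (nat_lit 1140) (nat_lit 31779319322) (nat_lit 195) (nat_lit 5) (nat_lit 195) (nat_lit 3) (nat_lit 210) (nat_lit 3) (nat_lit 334) (nat_lit 334) (nat_lit 112)) (XT.lf (nat_lit 76) (nat_lit 6319098354) (nat_lit 0) (nat_lit 84287076685) (nat_lit 1216) (nat_lit 64367227904) (nat_lit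 196) (nat_lit 5) (nat_lit 195) (nat_lit 5) (nat_lit 211) (nat_lit 5) (nat_lit 335) (nat_lit 334) (nat_lit 111))) (XT.nd (nat_lit 78) (nat_lit 0) (nat_lit 0) (XT.lf (nat_lit 0) (nat_lit 95555981528) (nat_lit 1140) (nat_lit 31679282943) (nat_lit 1216) (nat_lit 31628082323) (nat_lit 196) (nat_lit 5) (nat_lit 211) (nat_lit 5) (nat_lit 212) (nat_lit 5) (nat_lit 336) (nat_lit 334) (nat_lit 110)) (XT.lf (nat_lit 76) (nat_lit 92090620173) (nat_lit 0) (nat_lit 10398346688) (nat_lit 1216) (nat_lit 60406750642) (nat_lit 197) (nat_lit 5) (nat_lit 196) (nat_lit 5) (nat_lit 212) (nat_lit 5) (nat_lit 337) (nat_lit 334) (nat_lit 109))))) (XT.nd (nat_lit 40482) (nat_lit 0) (nat_lit 0) (XT.nd (nat_lit 78) (nat_lit 152) (nat_lit 0) (XT.lf (nat_lit 76) (nat_lit 55593221961) (nat_lit 0) (nat_lit 56118162470) (nat_lit 1216) (nat_lit 55360039133) (nat_lit 198) (nat_lit 5) (nat_lit 197) (nat_lit 5) (nat_lit 213)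 (nat_lit 5) (nat_lit 338) (nat_lit 334) (nat_lit 108)) (XT.nd (nat_lit 40326) (nat_lit 228) (nat_lit 0) (XT.lf (nat_lit 76) (nat_lit 17954867633) (nat_lit 0) (nat_lit 105093631330) (nat_lit 1216) (nat_lit 48357808976) (nat_lit 199) (nat_lit 5) (nat_lit 198) (nat_lit 5) (nat_lit 214) (nat_lit 5) (nat_lit 339) (nat_lit 334) (nat_lit 107)) (XT.lf (nat_lit 0) (nat_lit 23012200788) (nat_lit 0) (nat_lit 23012200788) (nat_lit 1140) (nat_lit 33363726131) (nat_lit 195) (nat_lit 5) (nat_lit 195) (nat_lit 3) (nat_lit 210) (nat_lit 3) (nat_lit 335) (nat_lit 335) (nat_lit 110)))) (XT.nd (nat_lit 156) (nat_lit 0) (nat_lit 0) (XT.nd (nat_lit 78) (nat_lit 0) (nat_lit 76) (XT.lf (nat_lit 76) (nat_lit 6639656906) (nat_lit 0) (nat_lit 88505252229) (nat_lit 1216) (nat_lit 67576901301) (nat_lit 196) (nat_lit 5) (nat_lit 195) (nat_lit 5) (nat_lit 211) (nat_lit 5) (nat_lit 336) (nat_lit 335) (nat_lit 109)) (XT.lf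 (nat_lit 0) (nat_lit 100341769754) (nat_lit 1140) (nat_lit 33258577543) (nat_lit 1216) (nat_lit 33205917740) (nat_lit 196) (nat_lit 5) (nat_lit 211) (nat_lit 5) (nat_lit 212) (nat_lit 5) (nat_lit 337) (nat_lit 335) (nat_lit 108))) (XT.nd (nat_lit 40560) (nat_lit 76) (nat_lit 0) (XT.lf (nat_lit 76) (nat_lit 96699686878) (nat_lit 0) (nat_lit 10921380641) (nat_lit 1216) (nat_lit 63419197317) (nat_lit 197) (nat_lit 5) (nat_lit 196) (nat_lit 5) (nat_lit 212) (nat_lit 5) (nat_lit 338) (nat_lit 335) (nat_lit 107)) (XT.lf (nat_lit 76) (nat_lit 6975815384) (nat_lit 0) (nat_lit 92933981244) (nat_lit 1216) (nat_lit 70947866096) (nat_lit 196) (nat_lit 5) (nat_lit 195) (nat_lit 5) (nat_lit 211) (nat_lit 5) (nat_lit 337) (nat_lit 336) (nat_lit 107))))))))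

set_option maxRecDepth 10000000 in
noncomputable def Tp : PT := (PT.nd (nat_lit 5415540) (PT.nd (nat_lit 5009004) (PT.nd (nat_lit 4603014) (PT.nd (nat_lit 4237584) pc0 pc1) (PT.nd (nat_lit 243438) pc2 pc3)) (PT.nd (nat_lit 243750) (PT.nd (nat_lit 122226) pc4 pc5) (PT.nd (nat_lit 81588) pc6 pc7))) (PT.nd (nat_lit 243828) (PT.nd (nat_lit 160680) (PT.nd (nat_lit 80574) pc8 pc9) (PT.nd (nat_lit 41652) pc10 pc11)) (PT.nd (nat_lit 162708) (PT.nd (nat_lit 79326) pc12 pc13) (PT.nd (nat_lit 122616) pc14 pc15))))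

set_option maxRecDepth 10000000 in
noncomputable def Tx : XT := (XT.nd (nat_lit 8481096) (nat_lit 0) (nat_lit 76) XT.nil (XT.nd (nat_lit 5199636) (nat_lit 0) (nat_lit 0) (XT.nd (nat_lit 2430792) (nat_lit 0) (nat_lit 456) (XT.nd (nat_lit 1663350) (nat_lit 0) (nat_lit 228) (XT.nd (nat_lit 1174290) (nat_lit 0) (nat_lit 152) (XT.nd (nat_lit 810342) (nat_lit 0) (nat_lit 152) (XT.nd (nat_lit 528372) (nat_lit 0) (nat_lit 0) (XT.nd (nat_lit 365274) (nat_lit 0) (nat_lit 0) (XT.nd (nat_lit 243438) (nat_lit 0) (nat_lit 0) xc0 xc1) (XT.nd (nat_lit 81822) (nat_lit 0) (nat_lit 0) xc2 xc3)) (XT.nd (nat_lit 160758) (nat_lit 0) (nat_lit 0) (XT.nd (nat_lit 80574) (nat_lit 0) (nat_lit 0) xc4 xc5) (XT.nd (nat_lit 41964) (nat_lit 0) (nat_lit 76) xc6 xc7))) (XT.nd (nat_lit 201786) (nat_lit 0) (nat_lit 0) (XT.nd (nat_lit 82914) (nat_lit 0) (nat_lit 0) (XT.nd (nat_lit 41496) (nat_lit 0) (nat_lit 0) xc8 xc9) (XT.nd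 (nat_lit 41184) (nat_lit 0) (nat_lit 0) xc10 xc11)) (XT.nd (nat_lit 81354) (nat_lit 0) (nat_lit 0) (XT.nd (nat_lit 40716) (nat_lit 0) (nat_lit 0) xc12 xc13) (XT.nd (nat_lit 40482) (nat_lit 0) (nat_lit 0) xc14 xc15)))) (XT.nd (nat_lit 247104) (nat_lit 0) (nat_lit 0) (XT.nd (nat_lit 124254) (nat_lit 0) (nat_lit 0) (XT.nd (nat_lit 44460) (nat_lit 0) (nat_lit 0) (XT.nd (nat_lit 4290) (nat_lit 0) (nat_lit 0) xc16 xc17) (XT.nd (nat_lit 39936) (nat_lit 0) (nat_lit 0) xc18 xc19)) (XT.nd (nat_lit 79170) (nat_lit 0) (nat_lit 0) (XT.nd (nat_lit 39624) (nat_lit 0) (nat_lit 0) xc20 xc21) (XT.nd (nat_lit 39312) (nat_lit 0) (nat_lit 76) xc22 xc23))) (XT.nd (nat_lit 121602) (nat_lit 0) (nat_lit 0) (XT.nd (nat_lit 78312) (nat_lit 0) (nat_lit 0) (XT.nd (nat_lit 39156) (nat_lit 0) (nat_lit 0) xc24 xc25) (XT.nd (nat_lit 38922) (nat_lit 0) (nat_lit 228) xc26 xc27)) (XT.nd (nat_lit 77454) (nat_lit 0) (nat_lit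 0) (XT.nd (nat_lit 38766) (nat_lit 0) (nat_lit 0) xc28 xc29) (XT.nd (nat_lit 4368) (nat_lit 76) (nat_lit 0) xc30 xc31))))) (XT.nd (nat_lit 402480) (nat_lit 0) (nat_lit 76) (XT.nd (nat_lit 203112) (nat_lit 0) (nat_lit 0) (XT.nd (nat_lit 118872) (nat_lit 0) (nat_lit 0) (XT.nd (nat_lit 42666) (nat_lit 0) (nat_lit 0) (XT.nd (nat_lit 38298) (nat_lit 0) (nat_lit 152) xc32 xc33) (XT.nd (nat_lit 38142) (nat_lit 0) (nat_lit 0) xc34 xc35)) (XT.nd (nat_lit 42198) (nat_lit 0) (nat_lit 0) (XT.nd (nat_lit 4290) (nat_lit 380) (nat_lit 0) xc36 xc37) (XT.nd (nat_lit 4290) (nat_lit 0) (nat_lit 0) xc38 xc39))) (XT.nd (nat_lit 83616) (nat_lit 0) (nat_lit 0) (XT.nd (nat_lit 41886) (nat_lit 0) (nat_lit 0) (XT.nd (nat_lit 37518) (nat_lit 0) (nat_lit 456) xc40 xc41) (XT.nd (nat_lit 37362) (nat_lit 0) (nat_lit 152) xc42 xc43)) (XT.nd (nat_lit 74334) (nat_lit 0) (nat_lit 76) (XT.nd (nat_lit 37206) (nat_lit 0) (nat_lit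 0) xc44 xc45) (XT.nd (nat_lit 4368) (nat_lit 1444) (nat_lit 0) xc46 xc47)))) (XT.nd (nat_lit 165204) (nat_lit 0) (nat_lit 76) (XT.nd (nat_lit 82446) (nat_lit 0) (nat_lit 76) (XT.nd (nat_lit 41184) (nat_lit 0) (nat_lit 76) (XT.nd (nat_lit 4290) (nat_lit 836) (nat_lit 0) xc48 xc49) (XT.nd (nat_lit 4290) (nat_lit 532) (nat_lit 0) xc50 xc51)) (XT.nd (nat_lit 41340) (nat_lit 0) (nat_lit 0) (XT.nd (nat_lit 4290) (nat_lit 304) (nat_lit 0) xc52 xc53) (XT.nd (nat_lit 4290) (nat_lit 76) (nat_lit 0) xc54 xc55))) (XT.nd (nat_lit 83070) (nat_lit 0) (nat_lit 0) (XT.nd (nat_lit 41496) (nat_lit 0) (nat_lit 0) (XT.nd (nat_lit 37128) (nat_lit 0) (nat_lit 1900) xc56 xc57) (XT.nd (nat_lit 37206) (nat_lit 0) (nat_lit 1064) xc58 xc59)) (XT.nd (nat_lit 41652) (nat_lit 0) (nat_lit 76) (XT.nd (nat_lit 37284) (nat_lit 0) (nat_lit 456) xc60 xc61) (XT.nd (nat_lit 37440) (nat_lit 0) (nat_lit 0) xc62 xc63)))))) (XT.nd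 (nat_lit 857610) (nat_lit 0) (nat_lit 988) (XT.nd (nat_lit 372216) (nat_lit 0) (nat_lit 228) (XT.nd (nat_lit 168324) (nat_lit 0) (nat_lit 152) (XT.nd (nat_lit 84006) (nat_lit 0) (nat_lit 76) (XT.nd (nat_lit 41964) (nat_lit 0) (nat_lit 0) (XT.nd (nat_lit 4290) (nat_lit 2128) (nat_lit 0) xc64 xc65) (XT.nd (nat_lit 4290) (nat_lit 760) (nat_lit 0) xc66 xc67)) (XT.nd (nat_lit 42120) (nat_lit 0) (nat_lit 0) (XT.nd (nat_lit 4290) (nat_lit 152) (nat_lit 0) xc68 xc69) (XT.nd (nat_lit 37830) (nat_lit 0) (nat_lit 912) xc70 xc71))) (XT.nd (nat_lit 118404) (nat_lit 0) (nat_lit 76) (XT.nd (nat_lit 75972) (nat_lit 0) (nat_lit 0) (XT.nd (nat_lit 37908) (nat_lit 0) (nat_lit 0) xc72 xc73) (XT.nd (nat_lit 4290) (nat_lit 1976) (nat_lit 0) xc74 xc75)) (XT.nd (nat_lit 42666) (nat_lit 0) (nat_lit 0) (XT.nd (nat_lit 4290) (nat_lit 304) (nat_lit 0) xc76 xc77) (XT.nd (nat_lit 38454) (nat_lit 0) (nat_lit 456) xc78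 xc79)))) (XT.nd (nat_lit 240942) (nat_lit 0) (nat_lit 304) (XT.nd (nat_lit 120042) (nat_lit 0) (nat_lit 152) (XT.nd (nat_lit 77064) (nat_lit 0) (nat_lit 76) (XT.nd (nat_lit 38454) (nat_lit 0) (nat_lit 76) xc80 xc81) (XT.nd (nat_lit 4290) (nat_lit 456) (nat_lit 0) xc82 xc83)) (XT.nd (nat_lit 43056) (nat_lit 0) (nat_lit 76) (XT.nd (nat_lit 38688) (nat_lit 0) (nat_lit 152) xc84 xc85) (XT.nd (nat_lit 38844) (nat_lit 0) (nat_lit 0) xc86 xc87))) (XT.nd (nat_lit 121680) (nat_lit 0) (nat_lit 152) (XT.nd (nat_lit 43368) (nat_lit 0) (nat_lit 0) (XT.nd (nat_lit 39000) (nat_lit 0) (nat_lit 760) xc88 xc89) (XT.nd (nat_lit 39078) (nat_lit 0) (nat_lit 76) xc90 xc91)) (XT.nd (nat_lit 43602) (nat_lit 0) (nat_lit 76) (XT.nd (nat_lit 39234) (nat_lit 0) (nat_lit 836) xc92 xc93) (XT.nd (nat_lit 39546) (nat_lit 0) (nat_lit 228) xc94 xc95))))) (XT.nd (nat_lit 609414) (nat_lit 0) (nat_lit 1672) (XT.nd (nat_lit 283920)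 (nat_lit 0) (nat_lit 684) (XT.nd (nat_lit 123552) (nat_lit 0) (nat_lit 304) (XT.nd (nat_lit 79404) (nat_lit 0) (nat_lit 76) (XT.nd (nat_lit 39624) (nat_lit 0) (nat_lit 76) xc96 xc97) (XT.nd (nat_lit 4290) (nat_lit 456) (nat_lit 0) xc98 xc99)) (XT.nd (nat_lit 80028) (nat_lit 0) (nat_lit 76) (XT.nd (nat_lit 39936) (nat_lit 0) (nat_lit 76) xc100 xc101) (XT.nd (nat_lit 40092) (nat_lit 0) (nat_lit 152) xc102 xc103))) (XT.nd (nat_lit 161928) (nat_lit 0) (nat_lit 456) (XT.nd (nat_lit 80808) (nat_lit 0) (nat_lit 152) (XT.nd (nat_lit 40326) (nat_lit 0) (nat_lit 0) xc104 xc105) (XT.nd (nat_lit 40482) (nat_lit 0) (nat_lit 152) xc106 xc107)) (XT.nd (nat_lit 81588) (nat_lit 0) (nat_lit 228) (XT.nd (nat_lit 40716) (nat_lit 0) (nat_lit 0) xc108 xc109) (XT.nd (nat_lit 40950) (nat_lit 0) (nat_lit 152) xc110 xc111)))) (XT.nd (nat_lit 407394) (nat_lit 0) (nat_lit 2280) (XT.nd (nat_lit 202332) (nat_lit 0) (nat_lit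 836) (XT.nd (nat_lit 82368) (nat_lit 0) (nat_lit 228) (XT.nd (nat_lit 41106) (nat_lit 0) (nat_lit 228) xc112 xc113) (XT.nd (nat_lit 41262) (nat_lit 0) (nat_lit 380) xc114 xc115)) (XT.nd (nat_lit 83382) (nat_lit 0) (nat_lit 456) (XT.nd (nat_lit 41574) (nat_lit 0) (nat_lit 456) xc116 xc117) (XT.nd (nat_lit 79560) (nat_lit 0) (nat_lit 760) xc118 xc119))) (XT.nd (nat_lit 284622) (nat_lit 0) (nat_lit 2356) (XT.nd (nat_lit 122538) (nat_lit 0) (nat_lit 912) (XT.nd (nat_lit 80106) (nat_lit 0) (nat_lit 608) xc120 xc121) (XT.nd (nat_lit 80808) (nat_lit 0) (nat_lit 684) xc122 xc123)) (XT.nd (nat_lit 202956) (nat_lit 0) (nat_lit 2888) (XT.nd (nat_lit 81666) (nat_lit 0) (nat_lit 1064) xc124 xc125) (XT.nd (nat_lit 122460) (nat_lit 0) (nat_lit 2128) xc126 xc127))))))) XT.nil))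

set_option maxRecDepth 10000000 in
noncomputable def Te : XT := XT.nil

set_option maxRecDepth 10000000 in
noncomputable def Tz : ZL := (ZL.cons (nat_lit 76) (nat_lit 3) (nat_lit 105160549325749285341) (ZL.cons (nat_lit 152) (nat_lit 6) (nat_lit 205664295431443903746) (ZL.cons (nat_lit 228) (nat_lit 6) (nat_lit 201252445586682827128) (ZL.cons (nat_lit 304) (nat_lit 3) (nat_lit 100509687784488651695) (ZL.cons (nat_lit 380) (nat_lit 6) (nat_lit 196620003249683696682) (ZL.cons (nat_lit 456) (nat_lit 6) (nat_lit 192455703777564765512) (ZL.cons (nat_lit 532) (nat_lit 3) (nat_lit 96116866166065466689) (ZL.cons (nat_lit 608) (nat_lit 6) (nat_lit 188083189331839887782) (ZL.cons (nat_lit 684) (nat_lit 6) (nat_lit 184158492003571771692) (ZL.cons (nat_lit 760) (nat_lit 3) (nat_lit 91973545313484061020) (ZL.cons (nat_lit 836) (nat_lit 6) (nat_lit 180037559808890249798) (ZL.cons (nat_lit 912) (nat_lit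 6) (nat_lit 176345288470896561830) (ZL.cons (nat_lit 988) (nat_lit 3) (nat_lit 88071976913256066796) (ZL.cons (nat_lit 1064) (nat_lit 6) (nat_lit 172468403566003189466) (ZL.cons (nat_lit 1140) (nat_lit 6) (nat_lit 169002157717219348504) (ZL.cons (nat_lit 1216) (nat_lit 3) (nat_lit 84405205218426613186) (ZL.cons (nat_lit 1292) (nat_lit 6) (nat_lit 165736963313853982514) (ZL.cons (nat_lit 1368) (nat_lit 6) (nat_lit 165362599575996315494) (ZL.cons (nat_lit 1444) (nat_lit 6) (nat_lit 162116761909954226092) (ZL.cons (nat_lit 1520) (nat_lit 3) (nat_lit 80967072726231340602) (ZL.cons (nat_lit 1596) (nat_lit 6) (nat_lit 159065169253807810334) (ZL.cons (nat_lit 1672) (nat_lit 6) (nat_lit 158708632360610032220) (ZL.cons (nat_lit 1748) (nat_lit 6) (nat_lit 155678380507362528902) (ZL.cons (nat_lit 1824) (nat_lit 3) (nat_lit 77752230035828147838) (ZL.cons (nat_lit 1900) (nat_lit 6) (nat_lit 152836175007355296240)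 (ZL.cons (nat_lit 1976) (nat_lit 6) (nat_lit 152496616061452650416) (ZL.cons (nat_lit 2052) (nat_lit 6) (nat_lit 149677938796641468720) (ZL.cons (nat_lit 2128) (nat_lit 3) (nat_lit 74756150143222528061) (ZL.cons (nat_lit 2204) (nat_lit 6) (nat_lit 147041717140877962052) (ZL.cons (nat_lit 2280) (nat_lit 6) (nat_lit 146718327668589727936) (ZL.cons (nat_lit 2356) (nat_lit 6) (nat_lit 144581674375934122070) (ZL.cons (nat_lit 2432) (nat_lit 6) (nat_lit 144108045892129867456) (ZL.cons (nat_lit 2508) (nat_lit 3) (nat_lit 71975147465019022969) (ZL.cons (nat_lit 2584) (nat_lit 6) (nat_lit 141675240000454855970) (ZL.cons (nat_lit 2660) (nat_lit 6) (nat_lit 141367250026847013954) (ZL.cons (nat_lit 2736) (nat_lit 6) (nat_lit 139414117598584514880) (ZL.cons (nat_lit 2812) (nat_lit 6) (nat_lit 138963042852104272392) (ZL.cons (nat_lit 2888) (nat_lit 3) (nat_lit 69406401920294125947) (ZL.cons (nat_lit 2964)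 (nat_lit 6) (nat_lit 137319295061752486226) (ZL.cons (nat_lit 3040) (nat_lit 6) (nat_lit 136731949103012814718) (ZL.cons (nat_lit 3116) (nat_lit 6) (nat_lit 136438625318624393748) (ZL.cons (nat_lit 3192) (nat_lit 6) (nat_lit 134668656651598613652) (ZL.cons (nat_lit 3268) (nat_lit 6) (nat_lit 134239061654950763662) (ZL.cons (nat_lit 3344) (nat_lit 3) (nat_lit 67047988441039181595) (ZL.cons (nat_lit 3420) (nat_lit 6) (nat_lit 132768252896786873480) (ZL.cons (nat_lit 3496) (nat_lit 6) (nat_lit 132208875793225281564) (ZL.cons (nat_lit 3572) (nat_lit 6) (nat_lit 131929519808093452072) (ZL.cons (nat_lit 3648) (nat_lit 6) (nat_lit 131026213067732804344) (ZL.cons (nat_lit 3724) (nat_lit 6) (nat_lit 130343233957586696308) (ZL.cons (nat_lit 3800) (nat_lit 6) (nat_lit 129934095865541124890) (ZL.cons (nat_lit 3876) (nat_lit 3) (nat_lit 64898912326640847935) (ZL.cons (nat_lit 3952) (nat_lit 6) (nat_lit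 128637694143664439834) (ZL.cons (nat_lit 4028) (nat_lit 6) (nat_lit 128104954045034352296) (ZL.cons (nat_lit 4104) (nat_lit 6) (nat_lit 127838900725861181350) (ZL.cons (nat_lit 4180) (nat_lit 6) (nat_lit 127088195542377744862) (ZL.cons (nat_lit 4256) (nat_lit 6) (nat_lit 126437739247000499118) (ZL.cons (nat_lit 4332) (nat_lit 6) (nat_lit 126048083921242812052) (ZL.cons (nat_lit 4408) (nat_lit 3) (nat_lit 62959150907164535063) (ZL.cons (nat_lit 4484) (nat_lit 6) (nat_lit 125691048871342595454) (ZL.cons (nat_lit 4560) (nat_lit 6) (nat_lit 124928481912396627606) (ZL.cons (nat_lit 4636) (nat_lit 6) (nat_lit 124421110389891782334) (ZL.cons (nat_lit 4712) (nat_lit 6) (nat_lit 124167726276393524288) (ZL.cons (nat_lit 4788) (nat_lit 6) (nat_lit 124442927590866050780) (ZL.cons (nat_lit 4864) (nat_lit 6) (nat_lit 123573588571378442832) (ZL.cons (nat_lit 4940) (nat_lit 6) (nat_lit 122954106385304875456)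 (ZL.cons (nat_lit 5016) (nat_lit 6) (nat_lit 122583006075059459204) (ZL.cons (nat_lit 5092) (nat_lit 3) (nat_lit 61229702034237471542) (ZL.cons (nat_lit 5168) (nat_lit 6) (nat_lit 122369833287419711020) (ZL.cons (nat_lit 5244) (nat_lit 6) (nat_lit 121643579040804503544) (ZL.cons (nat_lit 5320) (nat_lit 6) (nat_lit 121160368066990365188) (ZL.cons (nat_lit 5396) (nat_lit 6) (nat_lit 120919049863658690862) (ZL.cons (nat_lit 5472) (nat_lit 6) (nat_lit 121314349976511006620) (ZL.cons (nat_lit 5548) (nat_lit 6) (nat_lit 120486408053189475242) (ZL.cons (nat_lit 5624) (nat_lit 6) (nat_lit 119896425018833696786) (ZL.cons (nat_lit 5700) (nat_lit 6) (nat_lit 119542996151933300356) (ZL.cons (nat_lit 5776) (nat_lit 3) (nat_lit 59712639977593071075) (ZL.cons (nat_lit 5852) (nat_lit 6) (nat_lit 120404625583150166048) (ZL.cons (nat_lit 5928) (nat_lit 6) (nat_lit 119479838253441659524) (ZL.cons (nat_lit 6004)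 (nat_lit 6) (nat_lit 118788167542379557166) (ZL.cons (nat_lit 6080) (nat_lit 6) (nat_lit 118327966614937520636) (ZL.cons (nat_lit 6156) (nat_lit 6) (nat_lit 118098139754621640326) (ZL.cons (nat_lit 6308) (nat_lit 6) (nat_lit 119014131395104562392) (ZL.cons (nat_lit 6384) (nat_lit 6) (nat_lit 119638494096876806356) (ZL.cons (nat_lit 6460) (nat_lit 6) (nat_lit 118621473046799752072) (ZL.cons (nat_lit 6536) (nat_lit 6) (nat_lit 117832956929350674568) (ZL.cons (nat_lit 6612) (nat_lit 6) (nat_lit 117271068325202314136) (ZL.cons (nat_lit 6688) (nat_lit 6) (nat_lit 116934469404344793726) (ZL.cons (nat_lit 6764) (nat_lit 3) (nat_lit 58411179370388035811) (ZL.cons (nat_lit 6840) (nat_lit 6) (nat_lit 116493286487343670884) (ZL.cons (nat_lit 6916) (nat_lit 6) (nat_lit 116634380242911250604) (ZL.cons (nat_lit 6992) (nat_lit 6) (nat_lit 116916903691559666186) (ZL.cons (nat_lit 7068) (nat_lit 6) (nat_lit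 117341529508166651950) (ZL.cons (nat_lit 7144) (nat_lit 6) (nat_lit 117909268706581272150) (ZL.cons (nat_lit 7220) (nat_lit 6) (nat_lit 117028518868763646886) (ZL.cons (nat_lit 7296) (nat_lit 6) (nat_lit 116369784858228311308) (ZL.cons (nat_lit 7372) (nat_lit 6) (nat_lit 115931498260664466996) (ZL.cons (nat_lit 7448) (nat_lit 6) (nat_lit 115712615536554104792) (ZL.cons (nat_lit 7524) (nat_lit 3) (nat_lit 57606606454472465742) (ZL.cons (nat_lit 7600) (nat_lit 6) (nat_lit 115285480442284423536) (ZL.cons (nat_lit 7676) (nat_lit 6) (nat_lit 115502455107858469910) (ZL.cons (nat_lit 7752) (nat_lit 6) (nat_lit 115864653512013675478) (ZL.cons (nat_lit 7828) (nat_lit 6) (nat_lit 116372938031902790728) (ZL.cons (nat_lit 7904) (nat_lit 6) (nat_lit 115621970300998907390) (ZL.cons (nat_lit 7980) (nat_lit 6) (nat_lit 115086838297048087932) (ZL.cons (nat_lit 8056) (nat_lit 6) (nat_lit 114766267896231401826)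 (ZL.cons (nat_lit 8132) (nat_lit 3) (nat_lit 57329747917844880863) (ZL.cons (nat_lit 8208) (nat_lit 6) (nat_lit 114135188970799426062) (ZL.cons (nat_lit 8284) (nat_lit 6) (nat_lit 114283337414145384768) (ZL.cons (nat_lit 8360) (nat_lit 6) (nat_lit 114579987035226221128) (ZL.cons (nat_lit 8436) (nat_lit 6) (nat_lit 115025844142663556182) (ZL.cons (nat_lit 8512) (nat_lit 6) (nat_lit 114398478418344188964) (ZL.cons (nat_lit 8588) (nat_lit 6) (nat_lit 113981062611140527712) (ZL.cons (nat_lit 8664) (nat_lit 6) (nat_lit 113772602873892563710) (ZL.cons (nat_lit 8740) (nat_lit 3) (nat_lit 56590383519619218380) (ZL.cons (nat_lit 8816) (nat_lit 6) (nat_lit 113256647949244903414) (ZL.cons (nat_lit 8892) (nat_lit 6) (nat_lit 113484471348097652106) (ZL.cons (nat_lit 8968) (nat_lit 6) (nat_lit 113864779672460617952) (ZL.cons (nat_lit 9044) (nat_lit 6) (nat_lit 113355130144888408940) (ZL.cons (nat_lit 9120)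 (nat_lit 6) (nat_lit 113049825001253469792) (ZL.cons (nat_lit 9196) (nat_lit 3) (nat_lit 56474068662273572945) (ZL.cons (nat_lit 9272) (nat_lit 6) (nat_lit 112419942214431072318) (ZL.cons (nat_lit 9348) (nat_lit 6) (nat_lit 112575498079944328958) (ZL.cons (nat_lit 9424) (nat_lit 6) (nat_lit 112886980182079207136) (ZL.cons (nat_lit 9500) (nat_lit 6) (nat_lit 112489441318075720228) (ZL.cons (nat_lit 9576) (nat_lit 6) (nat_lit 112290908234982421180) (ZL.cons (nat_lit 9652) (nat_lit 3) (nat_lit 55885614026596214990) (ZL.cons (nat_lit 9728) (nat_lit 6) (nat_lit 111850903008699219966) (ZL.cons (nat_lit 9804) (nat_lit 6) (nat_lit 112090117577494606092) (ZL.cons (nat_lit 9880) (nat_lit 6) (nat_lit 111799350774032759284) (ZL.cons (nat_lit 9956) (nat_lit 3) (nat_lit 55851252683822892069) (ZL.cons (nat_lit 10032) (nat_lit 6) (nat_lit 111308960908002217728) (ZL.cons (nat_lit 10108) (nat_lit 6) (nat_lit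 111472294566791137200) (ZL.cons (nat_lit 10184) (nat_lit 6) (nat_lit 111283215440035614294) (ZL.cons (nat_lit 10260) (nat_lit 3) (nat_lit 55474190719759164689) (ZL.cons (nat_lit 10336) (nat_lit 6) (nat_lit 111032040142800458864) (ZL.cons (nat_lit 10412) (nat_lit 3) (nat_lit 55469903211215955552) (ZL.cons (nat_lit 10488) (nat_lit 6) (nat_lit 110768306080703545660) (ZL.cons (nat_lit 10564) (nat_lit 1) (nat_lit 18446744073709551617) ZL.nil))))))))))))))))))))))))))))))))))))))))))))))))))))))))))))))))))))))))))))))))))))))))))))))))))))))))))))))))))))))))))))))))))))))))))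

noncomputable def vl : XL := ⟨(nat_lit 0), (nat_lit 76), (nat_lit 168196514), (nat_lit 228), (nat_lit 234361332), (nat_lit 76), (nat_lit 168196514), (nat_lit 1), (nat_lit 5), (nat_lit 3), (nat_lit 4), (nat_lit 1), (nat_lit 4), (nat_lit 0), (nat_lit 0), (nat_lit 0)⟩

noncomputable def cp0 : Nat := (nat_lit 4652602000440197558354688249186744487732252443482486736220684340984162122286087471731447199811491072222948829010935111773661858550280011837839429329575399001884502278393934602082769002896373780957547482676489754025174250712680212142173814130999205113214147435676827290720860705760355991212509875144505805883056578324154035159475653353537231316336936357871712662686084538839071072415182996148873320117633494666577764492565552485647572115385449260366945535669238427195846987587559712553542014744064654441278766382027305133162706193517586977574706177926868518524099403534429327847674604188047261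7100733873634096317089603594001679718386703592317768743349574319099496297679784061791793158974377609988389191676113115598605261277627020032057871407355268919428918047632268987074544505066604479844556330325161083193045493708401575010895009883024595193858182003822292240257079487585216621952957773902728864443495614027363802282832873192438562070801669502513952345628868900338021208315977278922684522120242836232825607028848531219802918925271034836333031123192243098026490780278638814721250819290694504293457207022475191026511043870526317536802273221816039447709306191118658167694851273004638166035991809785147192491489009993297619005233655743681729278761495564956431512329700038625140494498869260813346236640070105852132014610922020125372377001978217326114033540030340860451293058648926418405106688389920385968690163566921990156699949969529746417059625558030496635675034694917148206338244643369063453336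1241372788923940194272853176426763672536883298830308669001334980587601768215157571975943344625057836071850977882878652280661551336349449794766908998003472304073532350710933906798069015492326615897795963143066441080212744752167911150786248492100407442903403516675702764860386778059723679149225221451322844882232918279786765273640265369481474824150820126102004013866210948753723322398464491171675764793701457176023341737544032093870582693342694887336849226255241475549426425732224420027195633519894664094158199887158243630287069248594420375064313430556036537391439419385250090151334964662412689112768507031525913588417255360707967833188662901818705576144155836309322475273824863518315022167632798369594867768393907105265789570523256022630656440759065567822792109002131768678857412778821901456869620856062364163258352556673271834137515476969986889433104828008516328456764870286528368559957422088929997454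2624490375532920619225143003555933874232006427981895944161210481427750588882183233194190113318150704721513523096570500830152948779716163016139974156439972288000046963359499541404077134475535970192627807344167051092783369730497851285476282591056849144754048362511439721369434617457147426734591991633605674112856658608665854140206392644426959071527429352313073184277449672558828547902891792396318230382128902932998324278276396674247750564445578172554256486545763050154004855294382225766728909575257972475453606893141113756165236292326062918812028746094801251957277396065487760530303479459930703830849448702250470310207336090826551971332273951680215619231982097678733742766709531895740073289782234867576673404415240698923958215173935358005104728724905382826692877010856114302525564638057868224950279023362048)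

noncomputable def cp1 : Nat := (nat_lit 2169423006732648458982898060965610333426792694164931446192888212484720023730400998249971386905155798110427337624245865206777656082991615988638253921995662269269145316179013449905645458135075997547348182879353443937957963636899189328729517587779323629540723745438721445097296876105203106263478541337305013176020001461665325445388505112924902840962102167181445117783820799227308666322881041825455981568039007696424949029056170618185038543301669190665293395846583539129745100898951720801243770240423155583959707086589854881536698414660948407491318831689922202537220285106796642897102284026872415327094299149802123614710402313980719064465131118322309415362208259113291603325859847586904035053858742795252644398502549024204709543932283113330400322836619936730485726108412573801652327229484436039941548148566098085008392443119699938774198340904708694415905103624804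8434143755900584246673969283447263865327539291260704025640178921956009891684696502498903424560528875469627388455411784658186485196929387354897945108885055267545371895701582330763852356723846283597864181910532728398624484553093125762084224969954335127568949624602870907002026766079064208641935339473445515733981387995147102561063956462739711409391572523184397647402759674891635962844102765853154500850351962978662079221979920638963981435031264768209555225131152053509396446121473716675707528243623528413073156014794178401558132101863760431597867454009448786970681738647194318095170560698377850341577133501146361635788255756939243075736981848930943383282767304223862498238341755507316069889210637740812966586333681311389999766639354121925935749277131233323277475223313948426505757089102048036466800057821109566577576409411079601397533620116584739224534110670548059346869458213517646670683779852684391118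1315683706905899568761718986337847698083987638683998640040230013487654460808093378268400350749199079326736135832516673729304392777621825353122200396297035250642664635061813208378688816675354729432484222284735153362490301927560260105314444899467343565420957378469024261863420743711804583971551022964763722656954661991008101381491709947267621988819820148380158206452969257592757277804845000943206061550384156456981153238153658401212640381029543565311646296158767562324471634847429742703457119968561068842549736406365552717878171043833176233008782567997970800232925316445680773494442842937744646452859976052335004709686447988891163301307477576285972218375011411446984273587342236393997944035308088054688817058355726124767166968145156502280866101922005230783952309347713206722038205748735544254294534326335519025545017618020739786752553574506203308621775989646867786266169506492041826596415774123356803114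7479827006298791772555779756570754225784088143256948300136823947172630228046373658990764892213996714661170863284050909726991354581876657310507336728182098171393203599754284102647947498249731985585705841185258533078553792969617363748090965008462865982360772316021230973580899531079123183172253663158211997527809453828265108003373417118044378773328303346149771394267942808521951527643865237315778571909781684070975451884484143853248734486491777261181444704933561605122720038500651386839737573065298375309305974139418584272913106399131603409060520819904110911335179116699426287809820809437333947946102424372518066455483330562882804353157144334996021666178553563608725605714055967705061277440220004474026309805351299389475464185127217849971754462574733893073767734928246115894447823755088766436618831001357463168292681675344347868282101561555124620578696923198404423817440626000898278335386501332207966090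6135590509058574277347528518106299856725385781839182229329860907557971702711794226809681828289474588352164906349308993678805448079951238195930823745202297473228565165960651477085121035615626468590467340743152895438018691457384141465630225971743273403357774590771113506901792226630586906402761016401251579854184485647385378365111398501997926720661236382998963253004213375472627659234874073977720019864392748104974228131295765296797599779293197567639300933440985115670613036566719461043793929736660299099679183204065267611491225721327579979630996823387886960842185828789426493582644696051049109844099153915956406378156358798539111157966434438080023948409033689245608420463340234584396534786785640804123135190576934678035972067813352316780116168204132124265041357077569451110174260859294514560884262937440437028904139697476513097711450392874998785849654192282497066785418954184516921687066155336450126648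7676418278641294812896369360266680812050404956310772578901278260281447592403865418758842279735681809411269941672113374381395176453195963725825651903521413887821751998190315963564807575970287639195519321107240778479477405875694468471674740457104260677235739570745483944012320836476034565575670727713590675564210377704865751149855562807608092556997300371733191041971849099948443385993440942718378759740123622934750237304380028913460704439878268510578000806740449185680296773088547337189583017773574129920059945025772372533709270215027407732407684369496827002337287798680471941446208002538693158212807816564894068888485067595195659019722029935122062428702713766787532729488384450075674555069379320418197551938002521144097713317018960815214822237475222231651191755939836858907210879522912673486846061501753583491892209854141717424913261447200767632224595145218521787664120219562300000932394056484099906852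9526395890305649276971518917093487628608381444958402428011934472927545422173284548008139161039841839742644104937989087298363860277299439382799642573910496906936664881794359831068811185674051840582946691036857332643310422596382912064103909287593136458255863441445946198889802854382424497288940574524752246489264799173430697758803487925604850778175266787748427252240019763624498531719427547264321469008707884351390378542863474353708230962897602984231194197676900939632794323566441036485642409257041345623136245614894190577696284652060949943021441724854982415372969111119181387378357065086606655684706117582498266236327920508149037532996163962170318863980474745753773654798606948776101196824981815422738400182890766822813281117907320749669475748009250420174440412862396968853023995560183071730276192004625154422423729428704597332821731940869500363603713679558068794501411395893945571127851614536476868025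65537297069224678139386611974475769885840133792597001840915742873315630177080226473956444667474140333584337302304749660852594462772408312055574975614977576784848176485420075489108024167774379611614286924007273541434845554965337367805698221290113970265631528816868444804272326815326199802437772157048601518629666958231467121090558829556145746169196473546849769679130992658760515806152048900416057317191030218652272834917692592112674798153045962189877264724333051095643149553312821005756804558620436620698703060515553398009877753738577376381669626297376945913832580483113170223020452830109885275614913011274596913861258977175745168201679983712840128367626588254070854020802893417668554801651100077613362312072972728779791561945237864477372340784557823252132536675511975627538308081516792618338392608558251198668310012817535307130908143775410416173091049235605346887639727591339936262886520708927550428402788471457417949626436540006971721879153994605886996065520639219565709637938678775383400685640813794117173094216192689174476284148500121964441647467872724407440994424309893073457875276668608622733051295172857509003132928)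

noncomputable def rc0 : Nat := (nat_lit 2169423006732648458982898060965610333426792694164931446192888212484720023730400998249971386905155798110427337624245865206777656082991615988638253921995662269269145316179013449905645458135075997547348182879353443937957963636899189328729517587779323629540723745438721445097296876105203106263478541337305013176020001461665325445388505112924902840962102167181445117783820799227308666322881041825455981568039007696424949029056170618185038543301669190665293395846583539129745100898951720801243770240423155583959707086589854881536698414660948407491318831689922202537220285106796642897102284026872415327094299149802123614710402313980719064465131118322309415362208259113291603325859847586904035053858742795252644398502549024204709543932283113330400322836619936730485726108412573801652327229484436039941548148566098085008392443119699938774198340904708694415905103624804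8434143755900584246673969283447263865327539291260704025640178921956009891684696502498903424560528875469627388455411784658186485196929387354897945108885055267545371895701582330763852356723846283597864181910532728398624484553093125762084224969954335127568949624602870907002026766079064208641935339473445515733981387995147102561063956462739711409391572523184397647402759674891635962844102765853154500850351962978662079221979920638963981435031264768209555225131152053509396446121473716675707528243623528413073156014794178401558132101863760431597867454009448786970681738647194318095170560698377850341577133501146361635788255756939243075736981848930943383282767304223862498238341755507316069889210637740812966586333681311389999766639354121925935749277131233323277475223313948426505757089102048036466800057821109566577576409411079601397533620116584739224534110670548059346869458213517646670683779852684391118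1315683706905899568761718986337847698083987638683998640040230013487654460808093378268400350749199079326736135832516673729304392777621825353122200396297035250642664635061813208378688816675354729432484222284735153362490301927560260105314444899467343565420957378469024261863420743711804583971551022964763722656954661991008101381491709947267621988819820148380158206452969257592757277804845000943206061550384156456981153238153658401212640381029543565311646296158767562324471634847429742703457119968561068842549736406365552717878171043833176233008782567997970800232925316445680773494442842937744646452859976052335004709686447988891163301307477576285972218375011411446984273587342236393997944035308088054688817058355726124767166968145156502280866101922005230783952309347713206722038205748735544254294534326335519025545017618020739786752553574506203308621775989646867786266169506492041826596415774123356803114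7479827006298791772555779756570754225784088143256948300136823947172630228046373658990764892213996714661170863284050909726991354581876657310507336728182098171393203599754284102647947498249731985585705841185258533078553792969617363748090965008462865982360772316021230973580899531079123183172253663158211997527809453828265108003373417118044378773328303346149771394267942808521951527643865237315778571909781684070975451884484143853248734486491777261181444704933561605122720038500651386839737573065298375309305974139418584272913106399131603409060520819904110911335179116699426287809820809437333947946102424372518066455483330562882804353157144334996021666178553563608725605714055967705061277440220004474026309805351299389475464185127217849971754462574733893073767734928246115894447823755088766436618831001357463168292681675344347868282101561555124620578696923198404423817440626000898278335386501332207966090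6135590509058574277347528518106299856725385781839182229329860907557971702711794226809681828289474588352164906349308993678805448079951238195930823745202297473228565165960651477085121035615626468590467340743152895438018691457384141465630225971743273403357774590771113506901792226630586906402761016401251579854184485647385378365111398501997926720661236382998963253004213375472627659234874073977720019864392748104974228131295765296797599779293197567639300933440985115670613036566719461043793929736660299099679183204065267611491225721327579979630996823387886960842185828789426493582644696051049109844099153915956406378156358798539111157966434438080023948409033689245608420463340234584396534786785640804123135190576934678035972067813352316780116168204132124265041357077569451110174260859294514560884262937440437028904139697476513097711450392874998785849654192282497066785418954184516921687066155336450126648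7676418278641294812896369360266680812050404956310772578901278260281447592403865418758842279735681809411269941672113374381395176453195963725825651903521413887821751998190315963564807575970287639195519321107240778479477405875694468471674740457104260677235739570745483944012320836476034565575670727713590675564210377704865751149855562807608092556997300371733191041971849099948443385993440942718378759740123622934750237304380028913460704439878268510578000806740449185680296773088547337189583017773574129920059945025772372533709270215027407732407684369496827002337287798680471941446208002538693158212807816564894068888485067595195659019722029935122062428702713766787532729488384450075674555069379320418197551938002521144097713317018960815214822237475222231651191755939836858907210879522912673486846061501753583491892209854141717424913261447200767632224595145218521787664120219562300000932394056484099906852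9526395890305649276971518917093487628608381444958402428011934472927545422173284548008139161039841839742644104937989087298363860277299439382799642573910496906936664881794359831068811185674051840582946691036857332643310422596382912064103909287593136458255863441445946198889802854382424497288940574524752246489264799173430697758803487925604850778175266787748427252240019763624498531719427547264321469008707884351390378542863474353708230962897602984231194197676900939632794323566441036485642409257041345623136245614894190577696284652060949943021441724854982415372969111119181387378357065086606655684706117582498266236327920508149037532996163962170318863980474745753773654798606948776101196824981815422738400182890766822813281117907320749669475748009250420174440412862396968853023995560183071730276192004625154422423729428704597332821731940869500363603713679558068794501411395893945571127851614536476868025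65537297069224678139386611974475769885840133792597001840915742873315630177080226473956444667474140333584337302304749660852594462772408312055574975614977576784848176485420075489108024167774379611614286924007273541434845554965337367805698221290113970265631528816868444804272326815326199802437772157048601518629666958231467121090558829556145746169196473546849769679130992658760515806152048900416057317191030218652272834917692592112674798153045962189877264724333051095643149553312821005756804558620436620698703060515553398009877753738577376381669626297376945913832580483113170223020452830109885275614913011274596913861258977175745168201679983712840128367626588254070854020802893417668554801651100077613362312072972728779791561945237864477372340784557823252132536675511975627538308081516792618338392608558251198668310012817535307130908143775410416173091049235605346887639727591339936262886520708927550428402788471457417949626436540006971721879153994605886996065520639219565709637938678775383400685640813794117173094216192689174476284148500121964441647467872724407440994424309893073457875276668608622733051295172857509003132928)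

end Vale.Agent.Lib.P154.PChain.BN.S5
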