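import Vale.Agent.Lib.P154.PChain.BN.R5_0

set_option linter.all false

namespace Vale.Agent.Lib.P154.PChain.BN.S6

open Vale.Agent.Lib.P154.Chain

noncomputable def pc0 : PT := (PT.nd (nat_lit 2938338) (PT.nd (nat_lit 2694822) (PT.nd (nat_lit 2613468) (PT.nd (nat_lit 2532348) (PT.nd (nat_lit 2491788) (PT.nd (nat_lit 2491710) PT.nil (PT.lf (nat_lit 76) (nat_lit 6) (nat_lit 1) (nat_lit 3) (nat_lit 164) (nat_lit 61) (nat_lit 165))) (PT.nd (nat_lit 40482) (PT.lf (nat_lit 76) (nat_lit 6) (nat_lit 1) (nat_lit 1) (nat_lit 165) (nat_lit 61) (nat_lit 164)) (PT.lf (nat_lit 152) (nat_lit 6) (nat_lit 2) (nat_lit 3) (nat_lit 163) (nat_lit 62) (nat_lit 165)))) (PT.nd (nat_lit 40560) (PT.nd (nat_lit 78) (PT.lf (nat_lit 228) (nat_lit 3) (nat_lit 3) (nat_lit 1) (nat_lit 164) (nat_lit 62) (nat_lit 164)) (PT.lf (nat_lit 152) (nat_lit 6) (nat_lit 2) (nat_lit 1) (nat_lit 165) (nat_lit 62) (nat_lit 163))) (PT.nd (nat_lit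 78) (PT.lf (nat_lit 304) (nat_lit 6) (nat_lit 4) (nat_lit 3) (nat_lit 163) (nat_lit 63) (nat_lit 164)) (PT.lf (nat_lit 304) (nat_lit 6) (nat_lit 4) (nat_lit 1) (nat_lit 164) (nat_lit 63) (nat_lit 163))))) (PT.nd (nat_lit 40638) (PT.nd (nat_lit 78) (PT.lf (nat_lit 380) (nat_lit 6) (nat_lit 5) (nat_lit 3) (nat_lit 162) (nat_lit 64) (nat_lit 164)) (PT.nd (nat_lit 78) (PT.lf (nat_lit 456) (nat_lit 3) (nat_lit 6) (nat_lit 1) (nat_lit 163) (nat_lit 64) (nat_lit 163)) (PT.lf (nat_lit 380) (nat_lit 6) (nat_lit 5) (nat_lit 1) (nat_lit 164) (nat_lit 64) (nat_lit 162)))) (PT.nd (nat_lit 40560) (PT.nd (nat_lit 78) (PT.lf (nat_lit 532) (nat_lit 6) (nat_lit 7) (nat_lit 3) (nat_lit 162) (nat_lit 65) (nat_lit 163)) (PT.lf (nat_lit 532) (nat_lit 6) (nat_lit 7) (nat_lit 1) (nat_lit 163) (nat_lit 65) (nat_lit 162))) (PT.nd (nat_lit 78) (PT.lf (nat_lit 608) (nat_lit 6) (nat_lit 8) (nat_lit 3) (nat_lit 161) (nat_lit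 66) (nat_lit 163)) (PT.lf (nat_lit 684) (nat_lit 3) (nat_lit 9) (nat_lit 1) (nat_lit 162) (nat_lit 66) (nat_lit 162)))))) (PT.nd (nat_lit 121758) (PT.nd (nat_lit 81042) (PT.nd (nat_lit 40482) (PT.lf (nat_lit 608) (nat_lit 6) (nat_lit 8) (nat_lit 1) (nat_lit 163) (nat_lit 66) (nat_lit 161)) (PT.nd (nat_lit 78) (PT.lf (nat_lit 760) (nat_lit 6) (nat_lit 10) (nat_lit 3) (nat_lit 161) (nat_lit 67) (nat_lit 162)) (PT.lf (nat_lit 760) (nat_lit 6) (nat_lit 10) (nat_lit 1) (nat_lit 162) (nat_lit 67) (nat_lit 161)))) (PT.nd (nat_lit 156) (PT.nd (nat_lit 78) (PT.lf (nat_lit 836) (nat_lit 6) (nat_lit 11) (nat_lit 3) (nat_lit 160) (nat_lit 68) (nat_lit 162)) (PT.lf (nat_lit 912) (nat_lit 3) (nat_lit 12) (nat_lit 1) (nat_lit 161) (nat_lit 68) (nat_lit 161))) (PT.nd (nat_lit 40482) (PT.lf (nat_lit 836) (nat_lit 6) (nat_lit 11) (nat_lit 1) (nat_lit 162) (nat_lit 68) (nat_lit 160)) (PT.lf (nat_lit 988) (nat_lit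 6) (nat_lit 13) (nat_lit 3) (nat_lit 160) (nat_lit 69) (nat_lit 161))))) (PT.nd (nat_lit 40638) (PT.nd (nat_lit 40482) (PT.lf (nat_lit 988) (nat_lit 6) (nat_lit 13) (nat_lit 1) (nat_lit 161) (nat_lit 69) (nat_lit 160)) (PT.nd (nat_lit 78) (PT.lf (nat_lit 1064) (nat_lit 6) (nat_lit 14) (nat_lit 3) (nat_lit 159) (nat_lit 70) (nat_lit 161)) (PT.lf (nat_lit 1140) (nat_lit 3) (nat_lit 15) (nat_lit 1) (nat_lit 160) (nat_lit 70) (nat_lit 160)))) (PT.nd (nat_lit 40560) (PT.nd (nat_lit 40482) (PT.lf (nat_lit 1064) (nat_lit 6) (nat_lit 14) (nat_lit 1) (nat_lit 161) (nat_lit 70) (nat_lit 159)) (PT.lf (nat_lit 1216) (nat_lit 6) (nat_lit 16) (nat_lit 3) (nat_lit 159) (nat_lit 71) (nat_lit 160))) (PT.nd (nat_lit 40482) (PT.lf (nat_lit 1216) (nat_lit 6) (nat_lit 16) (nat_lit 1) (nat_lit 160) (nat_lit 71) (nat_lit 159)) (PT.lf (nat_lit 1292) (nat_lit 6) (nat_lit 17) (nat_lit 3) (nat_lit 158) (nat_lit 72) (nat_lit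 160))))))) (PT.nd (nat_lit 162396) (PT.nd (nat_lit 81198) (PT.nd (nat_lit 40560) (PT.nd (nat_lit 78) (PT.lf (nat_lit 1368) (nat_lit 3) (nat_lit 18) (nat_lit 1) (nat_lit 159) (nat_lit 72) (nat_lit 159)) (PT.nd (nat_lit 40404) (PT.lf (nat_lit 1292) (nat_lit 6) (nat_lit 17) (nat_lit 1) (nat_lit 160) (nat_lit 72) (nat_lit 158)) (PT.lf (nat_lit 1444) (nat_lit 6) (nat_lit 19) (nat_lit 3) (nat_lit 157) (nat_lit 73) (nat_lit 160)))) (PT.nd (nat_lit 156) (PT.nd (nat_lit 78) (PT.lf (nat_lit 1520) (nat_lit 6) (nat_lit 20) (nat_lit 3) (nat_lit 158) (nat_lit 73) (nat_lit 159)) (PT.lf (nat_lit 1520) (nat_lit 6) (nat_lit 20) (nat_lit 1) (nat_lit 159) (nat_lit 73) (nat_lit 158))) (PT.nd (nat_lit 40404) (PT.lf (nat_lit 1444) (nat_lit 6) (nat_lit 19) (nat_lit 1) (nat_lit 160) (nat_lit 73) (nat_lit 157)) (PT.lf (nat_lit 1596) (nat_lit 6) (nat_lit 21) (nat_lit 3) (nat_lit 157) (nat_lit 74) (nat_lit 159))))) (PT.nd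 (nat_lit 40560) (PT.nd (nat_lit 78) (PT.lf (nat_lit 1672) (nat_lit 3) (nat_lit 22) (nat_lit 1) (nat_lit 158) (nat_lit 74) (nat_lit 158)) (PT.nd (nat_lit 40404) (PT.lf (nat_lit 1596) (nat_lit 6) (nat_lit 21) (nat_lit 1) (nat_lit 159) (nat_lit 74) (nat_lit 157)) (PT.lf (nat_lit 1748) (nat_lit 6) (nat_lit 23) (nat_lit 3) (nat_lit 156) (nat_lit 75) (nat_lit 159)))) (PT.nd (nat_lit 156) (PT.nd (nat_lit 78) (PT.lf (nat_lit 1824) (nat_lit 6) (nat_lit 24) (nat_lit 3) (nat_lit 157) (nat_lit 75) (nat_lit 158)) (PT.lf (nat_lit 1824) (nat_lit 6) (nat_lit 24) (nat_lit 1) (nat_lit 158) (nat_lit 75) (nat_lit 157))) (PT.nd (nat_lit 40404) (PT.lf (nat_lit 1748) (nat_lit 6) (nat_lit 23) (nat_lit 1) (nat_lit 159) (nat_lit 75) (nat_lit 156)) (PT.lf (nat_lit 1900) (nat_lit 6) (nat_lit 25) (nat_lit 3) (nat_lit 156) (nat_lit 76) (nat_lit 158)))))) (PT.nd (nat_lit 81198) (PT.nd (nat_lit 40560) (PT.nd (nat_lit 78) (PT.lf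 (nat_lit 1976) (nat_lit 3) (nat_lit 26) (nat_lit 1) (nat_lit 157) (nat_lit 76) (nat_lit 157)) (PT.nd (nat_lit 40404) (PT.lf (nat_lit 1900) (nat_lit 6) (nat_lit 25) (nat_lit 1) (nat_lit 158) (nat_lit 76) (nat_lit 156)) (PT.lf (nat_lit 2052) (nat_lit 6) (nat_lit 27) (nat_lit 3) (nat_lit 155) (nat_lit 77) (nat_lit 158)))) (PT.nd (nat_lit 156) (PT.nd (nat_lit 78) (PT.lf (nat_lit 2128) (nat_lit 6) (nat_lit 28) (nat_lit 3) (nat_lit 156) (nat_lit 77) (nat_lit 157)) (PT.lf (nat_lit 2128) (nat_lit 6) (nat_lit 28) (nat_lit 1) (nat_lit 157) (nat_lit 77) (nat_lit 156))) (PT.nd (nat_lit 40404) (PT.lf (nat_lit 2052) (nat_lit 6) (nat_lit 27) (nat_lit 1) (nat_lit 158) (nat_lit 77) (nat_lit 155)) (PT.lf (nat_lit 2204) (nat_lit 6) (nat_lit 29) (nat_lit 3) (nat_lit 155) (nat_lit 78) (nat_lit 157))))) (PT.nd (nat_lit 40560) (PT.nd (nat_lit 78) (PT.lf (nat_lit 2280) (nat_lit 3) (nat_lit 30) (nat_lit 1) (nat_lit 156)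 (nat_lit 78) (nat_lit 156)) (PT.nd (nat_lit 40404) (PT.lf (nat_lit 2204) (nat_lit 6) (nat_lit 29) (nat_lit 1) (nat_lit 157) (nat_lit 78) (nat_lit 155)) (PT.lf (nat_lit 2356) (nat_lit 6) (nat_lit 31) (nat_lit 3) (nat_lit 154) (nat_lit 79) (nat_lit 157)))) (PT.nd (nat_lit 156) (PT.nd (nat_lit 78) (PT.lf (nat_lit 2432) (nat_lit 6) (nat_lit 32) (nat_lit 3) (nat_lit 155) (nat_lit 79) (nat_lit 156)) (PT.lf (nat_lit 2432) (nat_lit 6) (nat_lit 32) (nat_lit 1) (nat_lit 156) (nat_lit 79) (nat_lit 155))) (PT.nd (nat_lit 40404) (PT.lf (nat_lit 2356) (nat_lit 6) (nat_lit 31) (nat_lit 1) (nat_lit 157) (nat_lit 79) (nat_lit 154)) (PT.lf (nat_lit 2508) (nat_lit 6) (nat_lit 33) (nat_lit 3) (nat_lit 154) (nat_lit 80) (nat_lit 156))))))))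
noncomputable def pc1 : PT := (PT.nd (nat_lit 243750) (PT.nd (nat_lit 121914) (PT.nd (nat_lit 81120) (PT.nd (nat_lit 40560) (PT.nd (nat_lit 78) (PT.lf (nat_lit 2584) (nat_lit 3) (nat_lit 34) (nat_lit 1) (nat_lit 155) (nat_lit 80) (nat_lit 155)) (PT.nd (nat_lit 40404) (PT.lf (nat_lit 2508) (nat_lit 6) (nat_lit 33) (nat_lit 1) (nat_lit 156) (nat_lit 80) (nat_lit 154)) (PT.lf (nat_lit 2660) (nat_lit 6) (nat_lit 35) (nat_lit 3) (nat_lit 153) (nat_lit 81) (nat_lit 156)))) (PT.nd (nat_lit 156) (PT.nd (nat_lit 78) (PT.lf (nat_lit 2736) (nat_lit 6) (nat_lit 36) (nat_lit 3) (nat_lit 154) (nat_lit 81) (nat_lit 155)) (PT.lf (nat_lit 2736) (nat_lit 6) (nat_lit 36) (nat_lit 1) (nat_lit 155) (nat_lit 81) (nat_lit 154))) (PT.nd (nat_lit 40326) (PT.lf (nat_lit 2660) (nat_lit 6) (nat_lit 35) (nat_lit 1) (nat_lit 156) (nat_lit 81) (nat_lit 153)) (PT.lf (nat_lit 2812) (nat_lit 6) (nat_lit 37) (nat_lit 3) (nat_lit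 152) (nat_lit 82) (nat_lit 156))))) (PT.nd (nat_lit 234) (PT.nd (nat_lit 78) (PT.lf (nat_lit 2888) (nat_lit 6) (nat_lit 38) (nat_lit 3) (nat_lit 153) (nat_lit 82) (nat_lit 155)) (PT.nd (nat_lit 78) (PT.lf (nat_lit 2964) (nat_lit 3) (nat_lit 39) (nat_lit 1) (nat_lit 154) (nat_lit 82) (nat_lit 154)) (PT.lf (nat_lit 2888) (nat_lit 6) (nat_lit 38) (nat_lit 1) (nat_lit 155) (nat_lit 82) (nat_lit 153)))) (PT.nd (nat_lit 40404) (PT.nd (nat_lit 40326) (PT.lf (nat_lit 2812) (nat_lit 6) (nat_lit 37) (nat_lit 1) (nat_lit 156) (nat_lit 82) (nat_lit 152)) (PT.lf (nat_lit 3040) (nat_lit 6) (nat_lit 40) (nat_lit 3) (nat_lit 152) (nat_lit 83) (nat_lit 155))) (PT.nd (nat_lit 78) (PT.lf (nat_lit 3116) (nat_lit 6) (nat_lit 41) (nat_lit 3) (nat_lit 153) (nat_lit 83) (nat_lit 154)) (PT.lf (nat_lit 3116) (nat_lit 6) (nat_lit 41) (nat_lit 1) (nat_lit 154) (nat_lit 83) (nat_lit 153)))))) (PT.nd (nat_lit 81042) (PT.nd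 (nat_lit 40482) (PT.nd (nat_lit 40326) (PT.lf (nat_lit 3040) (nat_lit 6) (nat_lit 40) (nat_lit 1) (nat_lit 155) (nat_lit 83) (nat_lit 152)) (PT.nd (nat_lit 78) (PT.lf (nat_lit 3192) (nat_lit 6) (nat_lit 42) (nat_lit 3) (nat_lit 151) (nat_lit 84) (nat_lit 155)) (PT.lf (nat_lit 3268) (nat_lit 6) (nat_lit 43) (nat_lit 3) (nat_lit 152) (nat_lit 84) (nat_lit 154)))) (PT.nd (nat_lit 156) (PT.nd (nat_lit 78) (PT.lf (nat_lit 3344) (nat_lit 3) (nat_lit 44) (nat_lit 1) (nat_lit 153) (nat_lit 84) (nat_lit 153)) (PT.lf (nat_lit 3268) (nat_lit 6) (nat_lit 43) (nat_lit 1) (nat_lit 154) (nat_lit 84) (nat_lit 152))) (PT.nd (nat_lit 40326) (PT.lf (nat_lit 3192) (nat_lit 6) (nat_lit 42) (nat_lit 1) (nat_lit 155) (nat_lit 84) (nat_lit 151)) (PT.lf (nat_lit 3420) (nat_lit 6) (nat_lit 45) (nat_lit 3) (nat_lit 151) (nat_lit 85) (nat_lit 154))))) (PT.nd (nat_lit 40482) (PT.nd (nat_lit 78) (PT.lf (nat_lit 3496) (nat_lit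 6) (nat_lit 46) (nat_lit 3) (nat_lit 152) (nat_lit 85) (nat_lit 153)) (PT.nd (nat_lit 78) (PT.lf (nat_lit 3496) (nat_lit 6) (nat_lit 46) (nat_lit 1) (nat_lit 153) (nat_lit 85) (nat_lit 152)) (PT.lf (nat_lit 3420) (nat_lit 6) (nat_lit 45) (nat_lit 1) (nat_lit 154) (nat_lit 85) (nat_lit 151)))) (PT.nd (nat_lit 156) (PT.nd (nat_lit 78) (PT.lf (nat_lit 3572) (nat_lit 6) (nat_lit 47) (nat_lit 3) (nat_lit 150) (nat_lit 86) (nat_lit 154)) (PT.lf (nat_lit 3648) (nat_lit 6) (nat_lit 48) (nat_lit 3) (nat_lit 151) (nat_lit 86) (nat_lit 153))) (PT.nd (nat_lit 78) (PT.lf (nat_lit 3724) (nat_lit 3) (nat_lit 49) (nat_lit 1) (nat_lit 152) (nat_lit 86) (nat_lit 152)) (PT.lf (nat_lit 3648) (nat_lit 6) (nat_lit 48) (nat_lit 1) (nat_lit 153) (nat_lit 86) (nat_lit 151))))))) (PT.nd (nat_lit 121602) (PT.nd (nat_lit 80886) (PT.nd (nat_lit 40404) (PT.nd (nat_lit 40248) (PT.lf (nat_lit 3572) (nat_lit 6) (nat_lit 47) (nat_lit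 1) (nat_lit 154) (nat_lit 86) (nat_lit 150)) (PT.nd (nat_lit 78) (PT.lf (nat_lit 3800) (nat_lit 6) (nat_lit 50) (nat_lit 3) (nat_lit 149) (nat_lit 87) (nat_lit 154)) (PT.lf (nat_lit 3876) (nat_lit 6) (nat_lit 51) (nat_lit 3) (nat_lit 150) (nat_lit 87) (nat_lit 153)))) (PT.nd (nat_lit 156) (PT.nd (nat_lit 78) (PT.lf (nat_lit 3952) (nat_lit 6) (nat_lit 52) (nat_lit 3) (nat_lit 151) (nat_lit 87) (nat_lit 152)) (PT.lf (nat_lit 3952) (nat_lit 6) (nat_lit 52) (nat_lit 1) (nat_lit 152) (nat_lit 87) (nat_lit 151))) (PT.nd (nat_lit 78) (PT.lf (nat_lit 3876) (nat_lit 6) (nat_lit 51) (nat_lit 1) (nat_lit 153) (nat_lit 87) (nat_lit 150)) (PT.lf (nat_lit 3800) (nat_lit 6) (nat_lit 50) (nat_lit 1) (nat_lit 154) (nat_lit 87) (nat_lit 149))))) (PT.nd (nat_lit 234) (PT.nd (nat_lit 78) (PT.lf (nat_lit 4028) (nat_lit 6) (nat_lit 53) (nat_lit 3) (nat_lit 149) (nat_lit 88) (nat_lit 153)) (PT.nd (nat_lit 78) (PT.lf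 (nat_lit 4104) (nat_lit 6) (nat_lit 54) (nat_lit 3) (nat_lit 150) (nat_lit 88) (nat_lit 152)) (PT.lf (nat_lit 4180) (nat_lit 3) (nat_lit 55) (nat_lit 1) (nat_lit 151) (nat_lit 88) (nat_lit 151)))) (PT.nd (nat_lit 40326) (PT.nd (nat_lit 78) (PT.lf (nat_lit 4104) (nat_lit 6) (nat_lit 54) (nat_lit 1) (nat_lit 152) (nat_lit 88) (nat_lit 150)) (PT.lf (nat_lit 4028) (nat_lit 6) (nat_lit 53) (nat_lit 1) (nat_lit 153) (nat_lit 88) (nat_lit 149))) (PT.nd (nat_lit 78) (PT.lf (nat_lit 4256) (nat_lit 6) (nat_lit 56) (nat_lit 3) (nat_lit 148) (nat_lit 89) (nat_lit 153)) (PT.lf (nat_lit 4332) (nat_lit 6) (nat_lit 57) (nat_lit 3) (nat_lit 149) (nat_lit 89) (nat_lit 152)))))) (PT.nd (nat_lit 40716) (PT.nd (nat_lit 234) (PT.nd (nat_lit 78) (PT.lf (nat_lit 4408) (nat_lit 6) (nat_lit 58) (nat_lit 3) (nat_lit 150) (nat_lit 89) (nat_lit 151)) (PT.nd (nat_lit 78) (PT.lf (nat_lit 4408) (nat_lit 6) (nat_lit 58) (nat_lit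 1) (nat_lit 151) (nat_lit 89) (nat_lit 150)) (PT.lf (nat_lit 4332) (nat_lit 6) (nat_lit 57) (nat_lit 1) (nat_lit 152) (nat_lit 89) (nat_lit 149)))) (PT.nd (nat_lit 40326) (PT.nd (nat_lit 40248) (PT.lf (nat_lit 4256) (nat_lit 6) (nat_lit 56) (nat_lit 1) (nat_lit 153) (nat_lit 89) (nat_lit 148)) (PT.lf (nat_lit 4484) (nat_lit 6) (nat_lit 59) (nat_lit 3) (nat_lit 148) (nat_lit 90) (nat_lit 152))) (PT.nd (nat_lit 78) (PT.lf (nat_lit 4560) (nat_lit 6) (nat_lit 60) (nat_lit 3) (nat_lit 149) (nat_lit 90) (nat_lit 151)) (PT.lf (nat_lit 4636) (nat_lit 3) (nat_lit 61) (nat_lit 1) (nat_lit 150) (nat_lit 90) (nat_lit 150))))) (PT.nd (nat_lit 40404) (PT.nd (nat_lit 78) (PT.lf (nat_lit 4560) (nat_lit 6) (nat_lit 60) (nat_lit 1) (nat_lit 151) (nat_lit 90) (nat_lit 149)) (PT.nd (nat_lit 40248) (PT.lf (nat_lit 4484) (nat_lit 6) (nat_lit 59) (nat_lit 1) (nat_lit 152) (nat_lit 90) (nat_lit 148)) (PT.lf (nat_lit 4712)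 (nat_lit 6) (nat_lit 62) (nat_lit 3) (nat_lit 147) (nat_lit 91) (nat_lit 152)))) (PT.nd (nat_lit 156) (PT.nd (nat_lit 78) (PT.lf (nat_lit 4788) (nat_lit 6) (nat_lit 63) (nat_lit 3) (nat_lit 148) (nat_lit 91) (nat_lit 151)) (PT.lf (nat_lit 4864) (nat_lit 6) (nat_lit 64) (nat_lit 3) (nat_lit 149) (nat_lit 91) (nat_lit 150))) (PT.nd (nat_lit 78) (PT.lf (nat_lit 4864) (nat_lit 6) (nat_lit 64) (nat_lit 1) (nat_lit 150) (nat_lit 91) (nat_lit 149)) (PT.lf (nat_lit 4788) (nat_lit 6) (nat_lit 63) (nat_lit 1) (nat_lit 151) (nat_lit 91) (nat_lit 148))))))))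
noncomputable def pc2 : PT := (PT.nd (nat_lit 162474) (PT.nd (nat_lit 121368) (PT.nd (nat_lit 40638) (PT.nd (nat_lit 40326) (PT.nd (nat_lit 40170) (PT.lf (nat_lit 4712) (nat_lit 6) (nat_lit 62) (nat_lit 1) (nat_lit 152) (nat_lit 91) (nat_lit 147)) (PT.nd (nat_lit 78) (PT.lf (nat_lit 4940) (nat_lit 6) (nat_lit 65) (nat_lit 3) (nat_lit 146) (nat_lit 92) (nat_lit 152)) (PT.lf (nat_lit 5016) (nat_lit 6) (nat_lit 66) (nat_lit 3) (nat_lit 147) (nat_lit 92) (nat_lit 151)))) (PT.nd (nat_lit 156) (PT.nd (nat_lit 78) (PT.lf (nat_lit 5092) (nat_lit 6) (nat_lit 67) (nat_lit 3) (nat_lit 148) (nat_lit 92) (nat_lit 150)) (PT.lf (nat_lit 5168) (nat_lit 3) (nat_lit 68) (nat_lit 1) (nat_lit 149) (nat_lit 92) (nat_lit 149))) (PT.nd (nat_lit 78) (PT.lf (nat_lit 5092) (nat_lit 6) (nat_lit 67) (nat_lit 1) (nat_lit 150) (nat_lit 92) (nat_lit 148)) (PT.lf (nat_lit 5016) (nat_lit 6) (nat_lit 66) (nat_lit 1) (nat_lit 151)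 (nat_lit 92) (nat_lit 147))))) (PT.nd (nat_lit 40326) (PT.nd (nat_lit 40170) (PT.lf (nat_lit 4940) (nat_lit 6) (nat_lit 65) (nat_lit 1) (nat_lit 152) (nat_lit 92) (nat_lit 146)) (PT.nd (nat_lit 78) (PT.lf (nat_lit 5244) (nat_lit 6) (nat_lit 69) (nat_lit 3) (nat_lit 146) (nat_lit 93) (nat_lit 151)) (PT.lf (nat_lit 5320) (nat_lit 6) (nat_lit 70) (nat_lit 3) (nat_lit 147) (nat_lit 93) (nat_lit 150)))) (PT.nd (nat_lit 156) (PT.nd (nat_lit 78) (PT.lf (nat_lit 5396) (nat_lit 6) (nat_lit 71) (nat_lit 3) (nat_lit 148) (nat_lit 93) (nat_lit 149)) (PT.lf (nat_lit 5396) (nat_lit 6) (nat_lit 71) (nat_lit 1) (nat_lit 149) (nat_lit 93) (nat_lit 148))) (PT.nd (nat_lit 78) (PT.lf (nat_lit 5320) (nat_lit 6) (nat_lit 70) (nat_lit 1) (nat_lit 150) (nat_lit 93) (nat_lit 147)) (PT.lf (nat_lit 5244) (nat_lit 6) (nat_lit 69) (nat_lit 1) (nat_lit 151) (nat_lit 93) (nat_lit 146)))))) (PT.nd (nat_lit 40560) (PT.nd (nat_lit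 234) (PT.nd (nat_lit 78) (PT.lf (nat_lit 5472) (nat_lit 6) (nat_lit 72) (nat_lit 3) (nat_lit 145) (nat_lit 94) (nat_lit 151)) (PT.nd (nat_lit 78) (PT.lf (nat_lit 5548) (nat_lit 6) (nat_lit 73) (nat_lit 3) (nat_lit 146) (nat_lit 94) (nat_lit 150)) (PT.lf (nat_lit 5624) (nat_lit 6) (nat_lit 74) (nat_lit 3) (nat_lit 147) (nat_lit 94) (nat_lit 149)))) (PT.nd (nat_lit 156) (PT.nd (nat_lit 78) (PT.lf (nat_lit 5700) (nat_lit 3) (nat_lit 75) (nat_lit 1) (nat_lit 148) (nat_lit 94) (nat_lit 148)) (PT.lf (nat_lit 5624) (nat_lit 6) (nat_lit 74) (nat_lit 1) (nat_lit 149) (nat_lit 94) (nat_lit 147))) (PT.nd (nat_lit 78) (PT.lf (nat_lit 5548) (nat_lit 6) (nat_lit 73) (nat_lit 1) (nat_lit 150) (nat_lit 94) (nat_lit 146)) (PT.lf (nat_lit 5472) (nat_lit 6) (nat_lit 72) (nat_lit 1) (nat_lit 151) (nat_lit 94) (nat_lit 145))))) (PT.nd (nat_lit 234) (PT.nd (nat_lit 78) (PT.lf (nat_lit 5776) (nat_lit 6) (nat_lit 76)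 (nat_lit 3) (nat_lit 144) (nat_lit 95) (nat_lit 151)) (PT.nd (nat_lit 78) (PT.lf (nat_lit 5852) (nat_lit 6) (nat_lit 77) (nat_lit 3) (nat_lit 145) (nat_lit 95) (nat_lit 150)) (PT.lf (nat_lit 5928) (nat_lit 6) (nat_lit 78) (nat_lit 3) (nat_lit 146) (nat_lit 95) (nat_lit 149)))) (PT.nd (nat_lit 156) (PT.nd (nat_lit 78) (PT.lf (nat_lit 6004) (nat_lit 6) (nat_lit 79) (nat_lit 3) (nat_lit 147) (nat_lit 95) (nat_lit 148)) (PT.lf (nat_lit 6004) (nat_lit 6) (nat_lit 79) (nat_lit 1) (nat_lit 148) (nat_lit 95) (nat_lit 147))) (PT.nd (nat_lit 78) (PT.lf (nat_lit 5928) (nat_lit 6) (nat_lit 78) (nat_lit 1) (nat_lit 149) (nat_lit 95) (nat_lit 146)) (PT.lf (nat_lit 5852) (nat_lit 6) (nat_lit 77) (nat_lit 1) (nat_lit 150) (nat_lit 95) (nat_lit 145))))))) (PT.nd (nat_lit 81120) (PT.nd (nat_lit 40560) (PT.nd (nat_lit 40248) (PT.nd (nat_lit 40092) (PT.lf (nat_lit 5776) (nat_lit 6) (nat_lit 76) (nat_lit 1) (nat_lit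 151) (nat_lit 95) (nat_lit 144)) (PT.nd (nat_lit 78) (PT.lf (nat_lit 6080) (nat_lit 6) (nat_lit 80) (nat_lit 3) (nat_lit 144) (nat_lit 96) (nat_lit 150)) (PT.lf (nat_lit 6156) (nat_lit 6) (nat_lit 81) (nat_lit 3) (nat_lit 145) (nat_lit 96) (nat_lit 149)))) (PT.nd (nat_lit 156) (PT.nd (nat_lit 78) (PT.lf (nat_lit 6232) (nat_lit 6) (nat_lit 82) (nat_lit 3) (nat_lit 146) (nat_lit 96) (nat_lit 148)) (PT.lf (nat_lit 6308) (nat_lit 3) (nat_lit 83) (nat_lit 1) (nat_lit 147) (nat_lit 96) (nat_lit 147))) (PT.nd (nat_lit 78) (PT.lf (nat_lit 6232) (nat_lit 6) (nat_lit 82) (nat_lit 1) (nat_lit 148) (nat_lit 96) (nat_lit 146)) (PT.lf (nat_lit 6156) (nat_lit 6) (nat_lit 81) (nat_lit 1) (nat_lit 149) (nat_lit 96) (nat_lit 145))))) (PT.nd (nat_lit 40248) (PT.nd (nat_lit 40092) (PT.lf (nat_lit 6080) (nat_lit 6) (nat_lit 80) (nat_lit 1) (nat_lit 150) (nat_lit 96) (nat_lit 144)) (PT.nd (nat_lit 78) (PT.lf (nat_lit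 6384) (nat_lit 6) (nat_lit 84) (nat_lit 3) (nat_lit 143) (nat_lit 97) (nat_lit 150)) (PT.lf (nat_lit 6460) (nat_lit 6) (nat_lit 85) (nat_lit 3) (nat_lit 144) (nat_lit 97) (nat_lit 149)))) (PT.nd (nat_lit 156) (PT.nd (nat_lit 78) (PT.lf (nat_lit 6536) (nat_lit 6) (nat_lit 86) (nat_lit 3) (nat_lit 145) (nat_lit 97) (nat_lit 148)) (PT.lf (nat_lit 6612) (nat_lit 6) (nat_lit 87) (nat_lit 3) (nat_lit 146) (nat_lit 97) (nat_lit 147))) (PT.nd (nat_lit 78) (PT.lf (nat_lit 6612) (nat_lit 6) (nat_lit 87) (nat_lit 1) (nat_lit 147) (nat_lit 97) (nat_lit 146)) (PT.lf (nat_lit 6536) (nat_lit 6) (nat_lit 86) (nat_lit 1) (nat_lit 148) (nat_lit 97) (nat_lit 145)))))) (PT.nd (nat_lit 40482) (PT.nd (nat_lit 40170) (PT.nd (nat_lit 78) (PT.lf (nat_lit 6460) (nat_lit 6) (nat_lit 85) (nat_lit 1) (nat_lit 149) (nat_lit 97) (nat_lit 144)) (PT.nd (nat_lit 40014) (PT.lf (nat_lit 6384) (nat_lit 6) (nat_lit 84) (nat_lit 1)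 (nat_lit 150) (nat_lit 97) (nat_lit 143)) (PT.lf (nat_lit 6688) (nat_lit 6) (nat_lit 88) (nat_lit 3) (nat_lit 142) (nat_lit 98) (nat_lit 150)))) (PT.nd (nat_lit 156) (PT.nd (nat_lit 78) (PT.lf (nat_lit 6764) (nat_lit 6) (nat_lit 89) (nat_lit 3) (nat_lit 143) (nat_lit 98) (nat_lit 149)) (PT.lf (nat_lit 6840) (nat_lit 6) (nat_lit 90) (nat_lit 3) (nat_lit 144) (nat_lit 98) (nat_lit 148))) (PT.nd (nat_lit 78) (PT.lf (nat_lit 6916) (nat_lit 6) (nat_lit 91) (nat_lit 3) (nat_lit 145) (nat_lit 98) (nat_lit 147)) (PT.lf (nat_lit 6992) (nat_lit 3) (nat_lit 92) (nat_lit 1) (nat_lit 146) (nat_lit 98) (nat_lit 146))))) (PT.nd (nat_lit 234) (PT.nd (nat_lit 78) (PT.lf (nat_lit 6916) (nat_lit 6) (nat_lit 91) (nat_lit 1) (nat_lit 147) (nat_lit 98) (nat_lit 145)) (PT.nd (nat_lit 78) (PT.lf (nat_lit 6840) (nat_lit 6) (nat_lit 90) (nat_lit 1) (nat_lit 148) (nat_lit 98) (nat_lit 144)) (PT.lf (nat_lit 6764) (nat_lit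 6) (nat_lit 89) (nat_lit 1) (nat_lit 149) (nat_lit 98) (nat_lit 143)))) (PT.nd (nat_lit 40092) (PT.nd (nat_lit 40014) (PT.lf (nat_lit 6688) (nat_lit 6) (nat_lit 88) (nat_lit 1) (nat_lit 150) (nat_lit 98) (nat_lit 142)) (PT.lf (nat_lit 7068) (nat_lit 6) (nat_lit 93) (nat_lit 3) (nat_lit 142) (nat_lit 99) (nat_lit 149))) (PT.nd (nat_lit 78) (PT.lf (nat_lit 7144) (nat_lit 6) (nat_lit 94) (nat_lit 3) (nat_lit 143) (nat_lit 99) (nat_lit 148)) (PT.lf (nat_lit 7220) (nat_lit 6) (nat_lit 95) (nat_lit 3) (nat_lit 144) (nat_lit 99) (nat_lit 147))))))))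
noncomputable def pc3 : PT := (PT.nd (nat_lit 121836) (PT.nd (nat_lit 80886) (PT.nd (nat_lit 40482) (PT.nd (nat_lit 234) (PT.nd (nat_lit 78) (PT.lf (nat_lit 7296) (nat_lit 6) (nat_lit 96) (nat_lit 3) (nat_lit 145) (nat_lit 99) (nat_lit 146)) (PT.nd (nat_lit 78) (PT.lf (nat_lit 7296) (nat_lit 6) (nat_lit 96) (nat_lit 1) (nat_lit 146) (nat_lit 99) (nat_lit 145)) (PT.lf (nat_lit 7220) (nat_lit 6) (nat_lit 95) (nat_lit 1) (nat_lit 147) (nat_lit 99) (nat_lit 144)))) (PT.nd (nat_lit 40092) (PT.nd (nat_lit 78) (PT.lf (nat_lit 7144) (nat_lit 6) (nat_lit 94) (nat_lit 1) (nat_lit 148) (nat_lit 99) (nat_lit 143)) (PT.lf (nat_lit 7068) (nat_lit 6) (nat_lit 93) (nat_lit 1) (nat_lit 149) (nat_lit 99) (nat_lit 142))) (PT.nd (nat_lit 78) (PT.lf (nat_lit 7372) (nat_lit 6) (nat_lit 97) (nat_lit 3) (nat_lit 141) (nat_lit 100) (nat_lit 149)) (PT.lf (nat_lit 7448) (nat_lit 6) (nat_lit 98) (nat_lit 3) (nat_lit 142)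 (nat_lit 100) (nat_lit 148))))) (PT.nd (nat_lit 234) (PT.nd (nat_lit 78) (PT.lf (nat_lit 7524) (nat_lit 6) (nat_lit 99) (nat_lit 3) (nat_lit 143) (nat_lit 100) (nat_lit 147)) (PT.nd (nat_lit 78) (PT.lf (nat_lit 7600) (nat_lit 6) (nat_lit 100) (nat_lit 3) (nat_lit 144) (nat_lit 100) (nat_lit 146)) (PT.lf (nat_lit 7676) (nat_lit 3) (nat_lit 101) (nat_lit 1) (nat_lit 145) (nat_lit 100) (nat_lit 145)))) (PT.nd (nat_lit 156) (PT.nd (nat_lit 78) (PT.lf (nat_lit 7600) (nat_lit 6) (nat_lit 100) (nat_lit 1) (nat_lit 146) (nat_lit 100) (nat_lit 144)) (PT.lf (nat_lit 7524) (nat_lit 6) (nat_lit 99) (nat_lit 1) (nat_lit 147) (nat_lit 100) (nat_lit 143))) (PT.nd (nat_lit 78) (PT.lf (nat_lit 7448) (nat_lit 6) (nat_lit 98) (nat_lit 1) (nat_lit 148) (nat_lit 100) (nat_lit 142)) (PT.lf (nat_lit 7372) (nat_lit 6) (nat_lit 97) (nat_lit 1) (nat_lit 149) (nat_lit 100) (nat_lit 141)))))) (PT.nd (nat_lit 546) (PT.nd (nat_lit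 234) (PT.nd (nat_lit 78) (PT.lf (nat_lit 7752) (nat_lit 6) (nat_lit 102) (nat_lit 3) (nat_lit 140) (nat_lit 101) (nat_lit 149)) (PT.nd (nat_lit 78) (PT.lf (nat_lit 7828) (nat_lit 6) (nat_lit 103) (nat_lit 3) (nat_lit 141) (nat_lit 101) (nat_lit 148)) (PT.lf (nat_lit 7904) (nat_lit 6) (nat_lit 104) (nat_lit 3) (nat_lit 142) (nat_lit 101) (nat_lit 147)))) (PT.nd (nat_lit 156) (PT.nd (nat_lit 78) (PT.lf (nat_lit 7980) (nat_lit 6) (nat_lit 105) (nat_lit 3) (nat_lit 143) (nat_lit 101) (nat_lit 146)) (PT.lf (nat_lit 8056) (nat_lit 6) (nat_lit 106) (nat_lit 3) (nat_lit 144) (nat_lit 101) (nat_lit 145))) (PT.nd (nat_lit 78) (PT.lf (nat_lit 8056) (nat_lit 6) (nat_lit 106) (nat_lit 1) (nat_lit 145) (nat_lit 101) (nat_lit 144)) (PT.lf (nat_lit 7980) (nat_lit 6) (nat_lit 105) (nat_lit 1) (nat_lit 146) (nat_lit 101) (nat_lit 143))))) (PT.nd (nat_lit 40092) (PT.nd (nat_lit 78) (PT.lf (nat_lit 7904) (nat_lit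 6) (nat_lit 104) (nat_lit 1) (nat_lit 147) (nat_lit 101) (nat_lit 142)) (PT.nd (nat_lit 78) (PT.lf (nat_lit 7828) (nat_lit 6) (nat_lit 103) (nat_lit 1) (nat_lit 148) (nat_lit 101) (nat_lit 141)) (PT.lf (nat_lit 7752) (nat_lit 6) (nat_lit 102) (nat_lit 1) (nat_lit 149) (nat_lit 101) (nat_lit 140)))) (PT.nd (nat_lit 156) (PT.nd (nat_lit 78) (PT.lf (nat_lit 8132) (nat_lit 6) (nat_lit 107) (nat_lit 3) (nat_lit 140) (nat_lit 102) (nat_lit 148)) (PT.lf (nat_lit 8208) (nat_lit 6) (nat_lit 108) (nat_lit 3) (nat_lit 141) (nat_lit 102) (nat_lit 147))) (PT.nd (nat_lit 78) (PT.lf (nat_lit 8284) (nat_lit 6) (nat_lit 109) (nat_lit 3) (nat_lit 142) (nat_lit 102) (nat_lit 146)) (PT.lf (nat_lit 8360) (nat_lit 6) (nat_lit 110) (nat_lit 3) (nat_lit 143) (nat_lit 102) (nat_lit 145))))))) (PT.nd (nat_lit 40950) (PT.nd (nat_lit 40404) (PT.nd (nat_lit 234) (PT.nd (nat_lit 78) (PT.lf (nat_lit 8436) (nat_lit 3) (nat_lit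 111) (nat_lit 1) (nat_lit 144) (nat_lit 102) (nat_lit 144)) (PT.nd (nat_lit 78) (PT.lf (nat_lit 8360) (nat_lit 6) (nat_lit 110) (nat_lit 1) (nat_lit 145) (nat_lit 102) (nat_lit 143)) (PT.lf (nat_lit 8284) (nat_lit 6) (nat_lit 109) (nat_lit 1) (nat_lit 146) (nat_lit 102) (nat_lit 142)))) (PT.nd (nat_lit 40014) (PT.nd (nat_lit 78) (PT.lf (nat_lit 8208) (nat_lit 6) (nat_lit 108) (nat_lit 1) (nat_lit 147) (nat_lit 102) (nat_lit 141)) (PT.lf (nat_lit 8132) (nat_lit 6) (nat_lit 107) (nat_lit 1) (nat_lit 148) (nat_lit 102) (nat_lit 140))) (PT.nd (nat_lit 78) (PT.lf (nat_lit 8512) (nat_lit 6) (nat_lit 112) (nat_lit 3) (nat_lit 139) (nat_lit 103) (nat_lit 148)) (PT.lf (nat_lit 8588) (nat_lit 6) (nat_lit 113) (nat_lit 3) (nat_lit 140) (nat_lit 103) (nat_lit 147))))) (PT.nd (nat_lit 234) (PT.nd (nat_lit 78) (PT.lf (nat_lit 8664) (nat_lit 6) (nat_lit 114) (nat_lit 3) (nat_lit 141) (nat_lit 103) (nat_lit 146))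 (PT.nd (nat_lit 78) (PT.lf (nat_lit 8740) (nat_lit 6) (nat_lit 115) (nat_lit 3) (nat_lit 142) (nat_lit 103) (nat_lit 145)) (PT.lf (nat_lit 8816) (nat_lit 6) (nat_lit 116) (nat_lit 3) (nat_lit 143) (nat_lit 103) (nat_lit 144)))) (PT.nd (nat_lit 156) (PT.nd (nat_lit 78) (PT.lf (nat_lit 8816) (nat_lit 6) (nat_lit 116) (nat_lit 1) (nat_lit 144) (nat_lit 103) (nat_lit 143)) (PT.lf (nat_lit 8740) (nat_lit 6) (nat_lit 115) (nat_lit 1) (nat_lit 145) (nat_lit 103) (nat_lit 142))) (PT.nd (nat_lit 78) (PT.lf (nat_lit 8664) (nat_lit 6) (nat_lit 114) (nat_lit 1) (nat_lit 146) (nat_lit 103) (nat_lit 141)) (PT.lf (nat_lit 8588) (nat_lit 6) (nat_lit 113) (nat_lit 1) (nat_lit 147) (nat_lit 103) (nat_lit 140)))))) (PT.nd (nat_lit 40326) (PT.nd (nat_lit 40014) (PT.nd (nat_lit 39858) (PT.lf (nat_lit 8512) (nat_lit 6) (nat_lit 112) (nat_lit 1) (nat_lit 148) (nat_lit 103) (nat_lit 139)) (PT.nd (nat_lit 78) (PT.lf (nat_lit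 8892) (nat_lit 6) (nat_lit 117) (nat_lit 3) (nat_lit 138) (nat_lit 104) (nat_lit 148)) (PT.lf (nat_lit 8968) (nat_lit 6) (nat_lit 118) (nat_lit 3) (nat_lit 139) (nat_lit 104) (nat_lit 147)))) (PT.nd (nat_lit 156) (PT.nd (nat_lit 78) (PT.lf (nat_lit 9044) (nat_lit 6) (nat_lit 119) (nat_lit 3) (nat_lit 140) (nat_lit 104) (nat_lit 146)) (PT.lf (nat_lit 9120) (nat_lit 6) (nat_lit 120) (nat_lit 3) (nat_lit 141) (nat_lit 104) (nat_lit 145))) (PT.nd (nat_lit 78) (PT.lf (nat_lit 9196) (nat_lit 6) (nat_lit 121) (nat_lit 3) (nat_lit 142) (nat_lit 104) (nat_lit 144)) (PT.lf (nat_lit 9272) (nat_lit 3) (nat_lit 122) (nat_lit 1) (nat_lit 143) (nat_lit 104) (nat_lit 143))))) (PT.nd (nat_lit 312) (PT.nd (nat_lit 156) (PT.nd (nat_lit 78) (PT.lf (nat_lit 9196) (nat_lit 6) (nat_lit 121) (nat_lit 1) (nat_lit 144) (nat_lit 104) (nat_lit 142)) (PT.lf (nat_lit 9120) (nat_lit 6) (nat_lit 120) (nat_lit 1) (nat_lit 145)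 (nat_lit 104) (nat_lit 141))) (PT.nd (nat_lit 78) (PT.lf (nat_lit 9044) (nat_lit 6) (nat_lit 119) (nat_lit 1) (nat_lit 146) (nat_lit 104) (nat_lit 140)) (PT.lf (nat_lit 8968) (nat_lit 6) (nat_lit 118) (nat_lit 1) (nat_lit 147) (nat_lit 104) (nat_lit 139)))) (PT.nd (nat_lit 39858) (PT.nd (nat_lit 39780) (PT.lf (nat_lit 8892) (nat_lit 6) (nat_lit 117) (nat_lit 1) (nat_lit 148) (nat_lit 104) (nat_lit 138)) (PT.lf (nat_lit 9348) (nat_lit 6) (nat_lit 123) (nat_lit 3) (nat_lit 137) (nat_lit 105) (nat_lit 148))) (PT.nd (nat_lit 78) (PT.lf (nat_lit 9424) (nat_lit 6) (nat_lit 124) (nat_lit 3) (nat_lit 138) (nat_lit 105) (nat_lit 147)) (PT.lf (nat_lit 9500) (nat_lit 6) (nat_lit 125) (nat_lit 3) (nat_lit 139) (nat_lit 105) (nat_lit 146))))))))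
noncomputable def pc4 : PT := (PT.nd (nat_lit 81588) (PT.nd (nat_lit 40794) (PT.nd (nat_lit 546) (PT.nd (nat_lit 234) (PT.nd (nat_lit 78) (PT.lf (nat_lit 9576) (nat_lit 6) (nat_lit 126) (nat_lit 3) (nat_lit 140) (nat_lit 105) (nat_lit 145)) (PT.nd (nat_lit 78) (PT.lf (nat_lit 9652) (nat_lit 6) (nat_lit 127) (nat_lit 3) (nat_lit 141) (nat_lit 105) (nat_lit 144)) (PT.lf (nat_lit 9728) (nat_lit 6) (nat_lit 128) (nat_lit 3) (nat_lit 142) (nat_lit 105) (nat_lit 143)))) (PT.nd (nat_lit 156) (PT.nd (nat_lit 78) (PT.lf (nat_lit 9728) (nat_lit 6) (nat_lit 128) (nat_lit 1) (nat_lit 143) (nat_lit 105) (nat_lit 142)) (PT.lf (nat_lit 9652) (nat_lit 6) (nat_lit 127) (nat_lit 1) (nat_lit 144) (nat_lit 105) (nat_lit 141))) (PT.nd (nat_lit 78) (PT.lf (nat_lit 9576) (nat_lit 6) (nat_lit 126) (nat_lit 1) (nat_lit 145) (nat_lit 105) (nat_lit 140)) (PT.lf (nat_lit 9500) (nat_lit 6) (nat_lit 125) (nat_lit 1) (nat_lit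 146) (nat_lit 105) (nat_lit 139))))) (PT.nd (nat_lit 39936) (PT.nd (nat_lit 78) (PT.lf (nat_lit 9424) (nat_lit 6) (nat_lit 124) (nat_lit 1) (nat_lit 147) (nat_lit 105) (nat_lit 138)) (PT.nd (nat_lit 39780) (PT.lf (nat_lit 9348) (nat_lit 6) (nat_lit 123) (nat_lit 1) (nat_lit 148) (nat_lit 105) (nat_lit 137)) (PT.lf (nat_lit 9804) (nat_lit 6) (nat_lit 129) (nat_lit 3) (nat_lit 137) (nat_lit 106) (nat_lit 147)))) (PT.nd (nat_lit 156) (PT.nd (nat_lit 78) (PT.lf (nat_lit 9880) (nat_lit 6) (nat_lit 130) (nat_lit 3) (nat_lit 138) (nat_lit 106) (nat_lit 146)) (PT.lf (nat_lit 9956) (nat_lit 6) (nat_lit 131) (nat_lit 3) (nat_lit 139) (nat_lit 106) (nat_lit 145))) (PT.nd (nat_lit 78) (PT.lf (nat_lit 10032) (nat_lit 6) (nat_lit 132) (nat_lit 3) (nat_lit 140) (nat_lit 106) (nat_lit 144)) (PT.lf (nat_lit 10108) (nat_lit 6) (nat_lit 133) (nat_lit 3) (nat_lit 141) (nat_lit 106) (nat_lit 143)))))) (PT.nd (nat_lit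 40248) (PT.nd (nat_lit 234) (PT.nd (nat_lit 78) (PT.lf (nat_lit 10184) (nat_lit 3) (nat_lit 134) (nat_lit 1) (nat_lit 142) (nat_lit 106) (nat_lit 142)) (PT.nd (nat_lit 78) (PT.lf (nat_lit 10108) (nat_lit 6) (nat_lit 133) (nat_lit 1) (nat_lit 143) (nat_lit 106) (nat_lit 141)) (PT.lf (nat_lit 10032) (nat_lit 6) (nat_lit 132) (nat_lit 1) (nat_lit 144) (nat_lit 106) (nat_lit 140)))) (PT.nd (nat_lit 156) (PT.nd (nat_lit 78) (PT.lf (nat_lit 9956) (nat_lit 6) (nat_lit 131) (nat_lit 1) (nat_lit 145) (nat_lit 106) (nat_lit 139)) (PT.lf (nat_lit 9880) (nat_lit 6) (nat_lit 130) (nat_lit 1) (nat_lit 146) (nat_lit 106) (nat_lit 138))) (PT.nd (nat_lit 39780) (PT.lf (nat_lit 9804) (nat_lit 6) (nat_lit 129) (nat_lit 1) (nat_lit 147) (nat_lit 106) (nat_lit 137)) (PT.lf (nat_lit 10260) (nat_lit 6) (nat_lit 135) (nat_lit 3) (nat_lit 136) (nat_lit 107) (nat_lit 147))))) (PT.nd (nat_lit 234) (PT.nd (nat_lit 78) (PT.lf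 (nat_lit 10336) (nat_lit 6) (nat_lit 136) (nat_lit 3) (nat_lit 137) (nat_lit 107) (nat_lit 146)) (PT.nd (nat_lit 78) (PT.lf (nat_lit 10412) (nat_lit 6) (nat_lit 137) (nat_lit 3) (nat_lit 138) (nat_lit 107) (nat_lit 145)) (PT.lf (nat_lit 10488) (nat_lit 6) (nat_lit 138) (nat_lit 3) (nat_lit 139) (nat_lit 107) (nat_lit 144)))) (PT.nd (nat_lit 156) (PT.nd (nat_lit 78) (PT.lf (nat_lit 10564) (nat_lit 6) (nat_lit 139) (nat_lit 3) (nat_lit 140) (nat_lit 107) (nat_lit 143)) (PT.lf (nat_lit 10640) (nat_lit 6) (nat_lit 140) (nat_lit 3) (nat_lit 141) (nat_lit 107) (nat_lit 142))) (PT.nd (nat_lit 78) (PT.lf (nat_lit 10640) (nat_lit 6) (nat_lit 140) (nat_lit 1) (nat_lit 142) (nat_lit 107) (nat_lit 141)) (PT.lf (nat_lit 10564) (nat_lit 6) (nat_lit 139) (nat_lit 1) (nat_lit 143) (nat_lit 107) (nat_lit 140))))))) (PT.nd (nat_lit 40716) (PT.nd (nat_lit 40170) (PT.nd (nat_lit 234) (PT.nd (nat_lit 78) (PT.lf (nat_lit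 10488) (nat_lit 6) (nat_lit 138) (nat_lit 1) (nat_lit 144) (nat_lit 107) (nat_lit 139)) (PT.nd (nat_lit 78) (PT.lf (nat_lit 10412) (nat_lit 6) (nat_lit 137) (nat_lit 1) (nat_lit 145) (nat_lit 107) (nat_lit 138)) (PT.lf (nat_lit 10336) (nat_lit 6) (nat_lit 136) (nat_lit 1) (nat_lit 146) (nat_lit 107) (nat_lit 137)))) (PT.nd (nat_lit 39780) (PT.nd (nat_lit 39702) (PT.lf (nat_lit 10260) (nat_lit 6) (nat_lit 135) (nat_lit 1) (nat_lit 147) (nat_lit 107) (nat_lit 136)) (PT.lf (nat_lit 10716) (nat_lit 6) (nat_lit 141) (nat_lit 3) (nat_lit 135) (nat_lit 108) (nat_lit 147))) (PT.nd (nat_lit 78) (PT.lf (nat_lit 10792) (nat_lit 6) (nat_lit 142) (nat_lit 3) (nat_lit 136) (nat_lit 108) (nat_lit 146)) (PT.lf (nat_lit 10868) (nat_lit 6) (nat_lit 143) (nat_lit 3) (nat_lit 137) (nat_lit 108) (nat_lit 145))))) (PT.nd (nat_lit 234) (PT.nd (nat_lit 78) (PT.lf (nat_lit 10944) (nat_lit 6) (nat_lit 144) (nat_lit 3) (nat_lit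 138) (nat_lit 108) (nat_lit 144)) (PT.nd (nat_lit 78) (PT.lf (nat_lit 11020) (nat_lit 6) (nat_lit 145) (nat_lit 3) (nat_lit 139) (nat_lit 108) (nat_lit 143)) (PT.lf (nat_lit 11096) (nat_lit 6) (nat_lit 146) (nat_lit 3) (nat_lit 140) (nat_lit 108) (nat_lit 142)))) (PT.nd (nat_lit 156) (PT.nd (nat_lit 78) (PT.lf (nat_lit 11172) (nat_lit 3) (nat_lit 147) (nat_lit 1) (nat_lit 141) (nat_lit 108) (nat_lit 141)) (PT.lf (nat_lit 11096) (nat_lit 6) (nat_lit 146) (nat_lit 1) (nat_lit 142) (nat_lit 108) (nat_lit 140))) (PT.nd (nat_lit 78) (PT.lf (nat_lit 11020) (nat_lit 6) (nat_lit 145) (nat_lit 1) (nat_lit 143) (nat_lit 108) (nat_lit 139)) (PT.lf (nat_lit 10944) (nat_lit 6) (nat_lit 144) (nat_lit 1) (nat_lit 144) (nat_lit 108) (nat_lit 138)))))) (PT.nd (nat_lit 40092) (PT.nd (nat_lit 39780) (PT.nd (nat_lit 78) (PT.lf (nat_lit 10868) (nat_lit 6) (nat_lit 143) (nat_lit 1) (nat_lit 145) (nat_lit 108) (nat_lit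 137)) (PT.nd (nat_lit 78) (PT.lf (nat_lit 10792) (nat_lit 6) (nat_lit 142) (nat_lit 1) (nat_lit 146) (nat_lit 108) (nat_lit 136)) (PT.lf (nat_lit 10716) (nat_lit 6) (nat_lit 141) (nat_lit 1) (nat_lit 147) (nat_lit 108) (nat_lit 135)))) (PT.nd (nat_lit 156) (PT.nd (nat_lit 78) (PT.lf (nat_lit 11248) (nat_lit 6) (nat_lit 148) (nat_lit 3) (nat_lit 134) (nat_lit 109) (nat_lit 147)) (PT.lf (nat_lit 11324) (nat_lit 6) (nat_lit 149) (nat_lit 3) (nat_lit 135) (nat_lit 109) (nat_lit 146))) (PT.nd (nat_lit 78) (PT.lf (nat_lit 11400) (nat_lit 6) (nat_lit 150) (nat_lit 3) (nat_lit 136) (nat_lit 109) (nat_lit 145)) (PT.lf (nat_lit 11476) (nat_lit 6) (nat_lit 151) (nat_lit 3) (nat_lit 137) (nat_lit 109) (nat_lit 144))))) (PT.nd (nat_lit 234) (PT.nd (nat_lit 78) (PT.lf (nat_lit 11552) (nat_lit 6) (nat_lit 152) (nat_lit 3) (nat_lit 138) (nat_lit 109) (nat_lit 143)) (PT.nd (nat_lit 78) (PT.lf (nat_lit 11628) (nat_lit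 6) (nat_lit 153) (nat_lit 3) (nat_lit 139) (nat_lit 109) (nat_lit 142)) (PT.lf (nat_lit 11704) (nat_lit 6) (nat_lit 154) (nat_lit 3) (nat_lit 140) (nat_lit 109) (nat_lit 141)))) (PT.nd (nat_lit 156) (PT.nd (nat_lit 78) (PT.lf (nat_lit 11704) (nat_lit 6) (nat_lit 154) (nat_lit 1) (nat_lit 141) (nat_lit 109) (nat_lit 140)) (PT.lf (nat_lit 11628) (nat_lit 6) (nat_lit 153) (nat_lit 1) (nat_lit 142) (nat_lit 109) (nat_lit 139))) (PT.nd (nat_lit 78) (PT.lf (nat_lit 11552) (nat_lit 6) (nat_lit 152) (nat_lit 1) (nat_lit 143) (nat_lit 109) (nat_lit 138)) (PT.lf (nat_lit 11476) (nat_lit 6) (nat_lit 151) (nat_lit 1) (nat_lit 144) (nat_lit 109) (nat_lit 137))))))))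
noncomputable def pc5 : PT := (PT.nd (nat_lit 81276) (PT.nd (nat_lit 40638) (PT.nd (nat_lit 40092) (PT.nd (nat_lit 39780) (PT.nd (nat_lit 78) (PT.lf (nat_lit 11400) (nat_lit 6) (nat_lit 150) (nat_lit 1) (nat_lit 145) (nat_lit 109) (nat_lit 136)) (PT.nd (nat_lit 78) (PT.lf (nat_lit 11324) (nat_lit 6) (nat_lit 149) (nat_lit 1) (nat_lit 146) (nat_lit 109) (nat_lit 135)) (PT.lf (nat_lit 11248) (nat_lit 6) (nat_lit 148) (nat_lit 1) (nat_lit 147) (nat_lit 109) (nat_lit 134)))) (PT.nd (nat_lit 156) (PT.nd (nat_lit 78) (PT.lf (nat_lit 11780) (nat_lit 6) (nat_lit 155) (nat_lit 3) (nat_lit 134) (nat_lit 110) (nat_lit 146)) (PT.lf (nat_lit 11856) (nat_lit 6) (nat_lit 156) (nat_lit 3) (nat_lit 135) (nat_lit 110) (nat_lit 145))) (PT.nd (nat_lit 78) (PT.lf (nat_lit 11932) (nat_lit 6) (nat_lit 157) (nat_lit 3) (nat_lit 136) (nat_lit 110) (nat_lit 144)) (PT.lf (nat_lit 12008) (nat_lit 6) (nat_lit 158) (nat_lit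 3) (nat_lit 137) (nat_lit 110) (nat_lit 143))))) (PT.nd (nat_lit 234) (PT.nd (nat_lit 78) (PT.lf (nat_lit 12084) (nat_lit 6) (nat_lit 159) (nat_lit 3) (nat_lit 138) (nat_lit 110) (nat_lit 142)) (PT.nd (nat_lit 78) (PT.lf (nat_lit 12160) (nat_lit 6) (nat_lit 160) (nat_lit 3) (nat_lit 139) (nat_lit 110) (nat_lit 141)) (PT.lf (nat_lit 12236) (nat_lit 3) (nat_lit 161) (nat_lit 1) (nat_lit 140) (nat_lit 110) (nat_lit 140)))) (PT.nd (nat_lit 156) (PT.nd (nat_lit 78) (PT.lf (nat_lit 12160) (nat_lit 6) (nat_lit 160) (nat_lit 1) (nat_lit 141) (nat_lit 110) (nat_lit 139)) (PT.lf (nat_lit 12084) (nat_lit 6) (nat_lit 159) (nat_lit 1) (nat_lit 142) (nat_lit 110) (nat_lit 138))) (PT.nd (nat_lit 78) (PT.lf (nat_lit 12008) (nat_lit 6) (nat_lit 158) (nat_lit 1) (nat_lit 143) (nat_lit 110) (nat_lit 137)) (PT.lf (nat_lit 11932) (nat_lit 6) (nat_lit 157) (nat_lit 1) (nat_lit 144) (nat_lit 110) (nat_lit 136)))))) (PT.nd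 (nat_lit 40092) (PT.nd (nat_lit 39780) (PT.nd (nat_lit 78) (PT.lf (nat_lit 11856) (nat_lit 6) (nat_lit 156) (nat_lit 1) (nat_lit 145) (nat_lit 110) (nat_lit 135)) (PT.nd (nat_lit 39624) (PT.lf (nat_lit 11780) (nat_lit 6) (nat_lit 155) (nat_lit 1) (nat_lit 146) (nat_lit 110) (nat_lit 134)) (PT.lf (nat_lit 12312) (nat_lit 6) (nat_lit 162) (nat_lit 3) (nat_lit 133) (nat_lit 111) (nat_lit 146)))) (PT.nd (nat_lit 156) (PT.nd (nat_lit 78) (PT.lf (nat_lit 12388) (nat_lit 6) (nat_lit 163) (nat_lit 3) (nat_lit 134) (nat_lit 111) (nat_lit 145)) (PT.lf (nat_lit 12464) (nat_lit 6) (nat_lit 164) (nat_lit 3) (nat_lit 135) (nat_lit 111) (nat_lit 144))) (PT.nd (nat_lit 78) (PT.lf (nat_lit 12540) (nat_lit 6) (nat_lit 165) (nat_lit 3) (nat_lit 136) (nat_lit 111) (nat_lit 143)) (PT.lf (nat_lit 12616) (nat_lit 6) (nat_lit 166) (nat_lit 3) (nat_lit 137) (nat_lit 111) (nat_lit 142))))) (PT.nd (nat_lit 234) (PT.nd (nat_lit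 78) (PT.lf (nat_lit 12692) (nat_lit 6) (nat_lit 167) (nat_lit 3) (nat_lit 138) (nat_lit 111) (nat_lit 141)) (PT.nd (nat_lit 78) (PT.lf (nat_lit 12768) (nat_lit 6) (nat_lit 168) (nat_lit 3) (nat_lit 139) (nat_lit 111) (nat_lit 140)) (PT.lf (nat_lit 12768) (nat_lit 6) (nat_lit 168) (nat_lit 1) (nat_lit 140) (nat_lit 111) (nat_lit 139)))) (PT.nd (nat_lit 156) (PT.nd (nat_lit 78) (PT.lf (nat_lit 12692) (nat_lit 6) (nat_lit 167) (nat_lit 1) (nat_lit 141) (nat_lit 111) (nat_lit 138)) (PT.lf (nat_lit 12616) (nat_lit 6) (nat_lit 166) (nat_lit 1) (nat_lit 142) (nat_lit 111) (nat_lit 137))) (PT.nd (nat_lit 78) (PT.lf (nat_lit 12540) (nat_lit 6) (nat_lit 165) (nat_lit 1) (nat_lit 143) (nat_lit 111) (nat_lit 136)) (PT.lf (nat_lit 12464) (nat_lit 6) (nat_lit 164) (nat_lit 1) (nat_lit 144) (nat_lit 111) (nat_lit 135))))))) (PT.nd (nat_lit 40560) (PT.nd (nat_lit 40014) (PT.nd (nat_lit 39702) (PT.nd (nat_lit 78)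 (PT.lf (nat_lit 12388) (nat_lit 6) (nat_lit 163) (nat_lit 1) (nat_lit 145) (nat_lit 111) (nat_lit 134)) (PT.nd (nat_lit 39546) (PT.lf (nat_lit 12312) (nat_lit 6) (nat_lit 162) (nat_lit 1) (nat_lit 146) (nat_lit 111) (nat_lit 133)) (PT.lf (nat_lit 12844) (nat_lit 6) (nat_lit 169) (nat_lit 3) (nat_lit 132) (nat_lit 112) (nat_lit 146)))) (PT.nd (nat_lit 156) (PT.nd (nat_lit 78) (PT.lf (nat_lit 12920) (nat_lit 6) (nat_lit 170) (nat_lit 3) (nat_lit 133) (nat_lit 112) (nat_lit 145)) (PT.lf (nat_lit 12996) (nat_lit 6) (nat_lit 171) (nat_lit 3) (nat_lit 134) (nat_lit 112) (nat_lit 144))) (PT.nd (nat_lit 78) (PT.lf (nat_lit 13072) (nat_lit 6) (nat_lit 172) (nat_lit 3) (nat_lit 135) (nat_lit 112) (nat_lit 143)) (PT.lf (nat_lit 13148) (nat_lit 6) (nat_lit 173) (nat_lit 3) (nat_lit 136) (nat_lit 112) (nat_lit 142))))) (PT.nd (nat_lit 234) (PT.nd (nat_lit 78) (PT.lf (nat_lit 13224) (nat_lit 6) (nat_lit 174)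 (nat_lit 3) (nat_lit 137) (nat_lit 112) (nat_lit 141)) (PT.nd (nat_lit 78) (PT.lf (nat_lit 13300) (nat_lit 6) (nat_lit 175) (nat_lit 3) (nat_lit 138) (nat_lit 112) (nat_lit 140)) (PT.lf (nat_lit 13376) (nat_lit 3) (nat_lit 176) (nat_lit 1) (nat_lit 139) (nat_lit 112) (nat_lit 139)))) (PT.nd (nat_lit 156) (PT.nd (nat_lit 78) (PT.lf (nat_lit 13300) (nat_lit 6) (nat_lit 175) (nat_lit 1) (nat_lit 140) (nat_lit 112) (nat_lit 138)) (PT.lf (nat_lit 13224) (nat_lit 6) (nat_lit 174) (nat_lit 1) (nat_lit 141) (nat_lit 112) (nat_lit 137))) (PT.nd (nat_lit 78) (PT.lf (nat_lit 13148) (nat_lit 6) (nat_lit 173) (nat_lit 1) (nat_lit 142) (nat_lit 112) (nat_lit 136)) (PT.lf (nat_lit 13072) (nat_lit 6) (nat_lit 172) (nat_lit 1) (nat_lit 143) (nat_lit 112) (nat_lit 135)))))) (PT.nd (nat_lit 39936) (PT.nd (nat_lit 39624) (PT.nd (nat_lit 78) (PT.lf (nat_lit 12996) (nat_lit 6) (nat_lit 171) (nat_lit 1) (nat_lit 144)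 (nat_lit 112) (nat_lit 134)) (PT.nd (nat_lit 78) (PT.lf (nat_lit 12920) (nat_lit 6) (nat_lit 170) (nat_lit 1) (nat_lit 145) (nat_lit 112) (nat_lit 133)) (PT.lf (nat_lit 12844) (nat_lit 6) (nat_lit 169) (nat_lit 1) (nat_lit 146) (nat_lit 112) (nat_lit 132)))) (PT.nd (nat_lit 156) (PT.nd (nat_lit 78) (PT.lf (nat_lit 13452) (nat_lit 6) (nat_lit 177) (nat_lit 3) (nat_lit 131) (nat_lit 113) (nat_lit 146)) (PT.lf (nat_lit 13528) (nat_lit 6) (nat_lit 178) (nat_lit 3) (nat_lit 132) (nat_lit 113) (nat_lit 145))) (PT.nd (nat_lit 78) (PT.lf (nat_lit 13604) (nat_lit 6) (nat_lit 179) (nat_lit 3) (nat_lit 133) (nat_lit 113) (nat_lit 144)) (PT.lf (nat_lit 13680) (nat_lit 6) (nat_lit 180) (nat_lit 3) (nat_lit 134) (nat_lit 113) (nat_lit 143))))) (PT.nd (nat_lit 312) (PT.nd (nat_lit 156) (PT.nd (nat_lit 78) (PT.lf (nat_lit 13756) (nat_lit 6) (nat_lit 181) (nat_lit 3) (nat_lit 135) (nat_lit 113) (nat_lit 142)) (PT.lf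 (nat_lit 13832) (nat_lit 6) (nat_lit 182) (nat_lit 3) (nat_lit 136) (nat_lit 113) (nat_lit 141))) (PT.nd (nat_lit 78) (PT.lf (nat_lit 13908) (nat_lit 6) (nat_lit 183) (nat_lit 3) (nat_lit 137) (nat_lit 113) (nat_lit 140)) (PT.lf (nat_lit 13984) (nat_lit 6) (nat_lit 184) (nat_lit 3) (nat_lit 138) (nat_lit 113) (nat_lit 139)))) (PT.nd (nat_lit 156) (PT.nd (nat_lit 78) (PT.lf (nat_lit 13984) (nat_lit 6) (nat_lit 184) (nat_lit 1) (nat_lit 139) (nat_lit 113) (nat_lit 138)) (PT.lf (nat_lit 13908) (nat_lit 6) (nat_lit 183) (nat_lit 1) (nat_lit 140) (nat_lit 113) (nat_lit 137))) (PT.nd (nat_lit 78) (PT.lf (nat_lit 13832) (nat_lit 6) (nat_lit 182) (nat_lit 1) (nat_lit 141) (nat_lit 113) (nat_lit 136)) (PT.lf (nat_lit 13756) (nat_lit 6) (nat_lit 181) (nat_lit 1) (nat_lit 142) (nat_lit 113) (nat_lit 135))))))))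
noncomputable def pc6 : PT := (PT.nd (nat_lit 80730) (PT.nd (nat_lit 40404) (PT.nd (nat_lit 39858) (PT.nd (nat_lit 234) (PT.nd (nat_lit 78) (PT.lf (nat_lit 13680) (nat_lit 6) (nat_lit 180) (nat_lit 1) (nat_lit 143) (nat_lit 113) (nat_lit 134)) (PT.nd (nat_lit 78) (PT.lf (nat_lit 13604) (nat_lit 6) (nat_lit 179) (nat_lit 1) (nat_lit 144) (nat_lit 113) (nat_lit 133)) (PT.lf (nat_lit 13528) (nat_lit 6) (nat_lit 178) (nat_lit 1) (nat_lit 145) (nat_lit 113) (nat_lit 132)))) (PT.nd (nat_lit 39468) (PT.nd (nat_lit 39390) (PT.lf (nat_lit 13452) (nat_lit 6) (nat_lit 177) (nat_lit 1) (nat_lit 146) (nat_lit 113) (nat_lit 131)) (PT.lf (nat_lit 14136) (nat_lit 6) (nat_lit 186) (nat_lit 3) (nat_lit 130) (nat_lit 114) (nat_lit 146))) (PT.nd (nat_lit 78) (PT.lf (nat_lit 14212) (nat_lit 6) (nat_lit 187) (nat_lit 3) (nat_lit 131) (nat_lit 114) (nat_lit 145)) (PT.lf (nat_lit 14288) (nat_lit 6) (nat_lit 188) (nat_lit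 3) (nat_lit 132) (nat_lit 114) (nat_lit 144))))) (PT.nd (nat_lit 234) (PT.nd (nat_lit 78) (PT.lf (nat_lit 14364) (nat_lit 6) (nat_lit 189) (nat_lit 3) (nat_lit 133) (nat_lit 114) (nat_lit 143)) (PT.nd (nat_lit 78) (PT.lf (nat_lit 14440) (nat_lit 6) (nat_lit 190) (nat_lit 3) (nat_lit 134) (nat_lit 114) (nat_lit 142)) (PT.lf (nat_lit 14516) (nat_lit 6) (nat_lit 191) (nat_lit 3) (nat_lit 135) (nat_lit 114) (nat_lit 141)))) (PT.nd (nat_lit 156) (PT.nd (nat_lit 78) (PT.lf (nat_lit 14592) (nat_lit 6) (nat_lit 192) (nat_lit 3) (nat_lit 136) (nat_lit 114) (nat_lit 140)) (PT.lf (nat_lit 14668) (nat_lit 6) (nat_lit 193) (nat_lit 3) (nat_lit 137) (nat_lit 114) (nat_lit 139))) (PT.nd (nat_lit 78) (PT.lf (nat_lit 14744) (nat_lit 3) (nat_lit 194) (nat_lit 1) (nat_lit 138) (nat_lit 114) (nat_lit 138)) (PT.lf (nat_lit 14668) (nat_lit 6) (nat_lit 193) (nat_lit 1) (nat_lit 139) (nat_lit 114) (nat_lit 137)))))) (PT.nd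 (nat_lit 39780) (PT.nd (nat_lit 234) (PT.nd (nat_lit 78) (PT.lf (nat_lit 14592) (nat_lit 6) (nat_lit 192) (nat_lit 1) (nat_lit 140) (nat_lit 114) (nat_lit 136)) (PT.nd (nat_lit 78) (PT.lf (nat_lit 14516) (nat_lit 6) (nat_lit 191) (nat_lit 1) (nat_lit 141) (nat_lit 114) (nat_lit 135)) (PT.lf (nat_lit 14440) (nat_lit 6) (nat_lit 190) (nat_lit 1) (nat_lit 142) (nat_lit 114) (nat_lit 134)))) (PT.nd (nat_lit 156) (PT.nd (nat_lit 78) (PT.lf (nat_lit 14364) (nat_lit 6) (nat_lit 189) (nat_lit 1) (nat_lit 143) (nat_lit 114) (nat_lit 133)) (PT.lf (nat_lit 14288) (nat_lit 6) (nat_lit 188) (nat_lit 1) (nat_lit 144) (nat_lit 114) (nat_lit 132))) (PT.nd (nat_lit 78) (PT.lf (nat_lit 14212) (nat_lit 6) (nat_lit 187) (nat_lit 1) (nat_lit 145) (nat_lit 114) (nat_lit 131)) (PT.lf (nat_lit 14136) (nat_lit 6) (nat_lit 186) (nat_lit 1) (nat_lit 146) (nat_lit 114) (nat_lit 130))))) (PT.nd (nat_lit 234) (PT.nd (nat_lit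 78) (PT.lf (nat_lit 14060) (nat_lit 6) (nat_lit 185) (nat_lit 3) (nat_lit 129) (nat_lit 115) (nat_lit 146)) (PT.nd (nat_lit 78) (PT.lf (nat_lit 15352) (nat_lit 6) (nat_lit 202) (nat_lit 3) (nat_lit 130) (nat_lit 115) (nat_lit 145)) (PT.lf (nat_lit 15428) (nat_lit 6) (nat_lit 203) (nat_lit 3) (nat_lit 131) (nat_lit 115) (nat_lit 144)))) (PT.nd (nat_lit 156) (PT.nd (nat_lit 78) (PT.lf (nat_lit 15504) (nat_lit 6) (nat_lit 204) (nat_lit 3) (nat_lit 132) (nat_lit 115) (nat_lit 143)) (PT.lf (nat_lit 15580) (nat_lit 6) (nat_lit 205) (nat_lit 3) (nat_lit 133) (nat_lit 115) (nat_lit 142))) (PT.nd (nat_lit 78) (PT.lf (nat_lit 15656) (nat_lit 6) (nat_lit 206) (nat_lit 3) (nat_lit 134) (nat_lit 115) (nat_lit 141)) (PT.lf (nat_lit 15732) (nat_lit 6) (nat_lit 207) (nat_lit 3) (nat_lit 135) (nat_lit 115) (nat_lit 140))))))) (PT.nd (nat_lit 40326) (PT.nd (nat_lit 546) (PT.nd (nat_lit 234) (PT.nd (nat_lit 78) (PT.lf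 (nat_lit 15808) (nat_lit 6) (nat_lit 208) (nat_lit 3) (nat_lit 136) (nat_lit 115) (nat_lit 139)) (PT.nd (nat_lit 78) (PT.lf (nat_lit 15884) (nat_lit 6) (nat_lit 209) (nat_lit 3) (nat_lit 137) (nat_lit 115) (nat_lit 138)) (PT.lf (nat_lit 15884) (nat_lit 6) (nat_lit 209) (nat_lit 1) (nat_lit 138) (nat_lit 115) (nat_lit 137)))) (PT.nd (nat_lit 156) (PT.nd (nat_lit 78) (PT.lf (nat_lit 15808) (nat_lit 6) (nat_lit 208) (nat_lit 1) (nat_lit 139) (nat_lit 115) (nat_lit 136)) (PT.lf (nat_lit 15732) (nat_lit 6) (nat_lit 207) (nat_lit 1) (nat_lit 140) (nat_lit 115) (nat_lit 135))) (PT.nd (nat_lit 78) (PT.lf (nat_lit 15656) (nat_lit 6) (nat_lit 206) (nat_lit 1) (nat_lit 141) (nat_lit 115) (nat_lit 134)) (PT.lf (nat_lit 15580) (nat_lit 6) (nat_lit 205) (nat_lit 1) (nat_lit 142) (nat_lit 115) (nat_lit 133))))) (PT.nd (nat_lit 234) (PT.nd (nat_lit 78) (PT.lf (nat_lit 15504) (nat_lit 6) (nat_lit 204) (nat_lit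 1) (nat_lit 143) (nat_lit 115) (nat_lit 132)) (PT.nd (nat_lit 78) (PT.lf (nat_lit 15428) (nat_lit 6) (nat_lit 203) (nat_lit 1) (nat_lit 144) (nat_lit 115) (nat_lit 131)) (PT.lf (nat_lit 15352) (nat_lit 6) (nat_lit 202) (nat_lit 1) (nat_lit 145) (nat_lit 115) (nat_lit 130)))) (PT.nd (nat_lit 39390) (PT.nd (nat_lit 39312) (PT.lf (nat_lit 14060) (nat_lit 6) (nat_lit 185) (nat_lit 1) (nat_lit 146) (nat_lit 115) (nat_lit 129)) (PT.lf (nat_lit 15276) (nat_lit 6) (nat_lit 201) (nat_lit 3) (nat_lit 129) (nat_lit 116) (nat_lit 145))) (PT.nd (nat_lit 78) (PT.lf (nat_lit 16492) (nat_lit 6) (nat_lit 217) (nat_lit 3) (nat_lit 130) (nat_lit 116) (nat_lit 144)) (PT.lf (nat_lit 16568) (nat_lit 6) (nat_lit 218) (nat_lit 3) (nat_lit 131) (nat_lit 116) (nat_lit 143)))))) (PT.nd (nat_lit 546) (PT.nd (nat_lit 234) (PT.nd (nat_lit 78) (PT.lf (nat_lit 16644) (nat_lit 6) (nat_lit 219) (nat_lit 3) (nat_lit 132) (nat_lit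 116) (nat_lit 142)) (PT.nd (nat_lit 78) (PT.lf (nat_lit 16720) (nat_lit 6) (nat_lit 220) (nat_lit 3) (nat_lit 133) (nat_lit 116) (nat_lit 141)) (PT.lf (nat_lit 16796) (nat_lit 6) (nat_lit 221) (nat_lit 3) (nat_lit 134) (nat_lit 116) (nat_lit 140)))) (PT.nd (nat_lit 156) (PT.nd (nat_lit 78) (PT.lf (nat_lit 16872) (nat_lit 6) (nat_lit 222) (nat_lit 3) (nat_lit 135) (nat_lit 116) (nat_lit 139)) (PT.lf (nat_lit 16948) (nat_lit 6) (nat_lit 223) (nat_lit 3) (nat_lit 136) (nat_lit 116) (nat_lit 138))) (PT.nd (nat_lit 78) (PT.lf (nat_lit 17024) (nat_lit 3) (nat_lit 224) (nat_lit 1) (nat_lit 137) (nat_lit 116) (nat_lit 137)) (PT.lf (nat_lit 16948) (nat_lit 6) (nat_lit 223) (nat_lit 1) (nat_lit 138) (nat_lit 116) (nat_lit 136))))) (PT.nd (nat_lit 234) (PT.nd (nat_lit 78) (PT.lf (nat_lit 16872) (nat_lit 6) (nat_lit 222) (nat_lit 1) (nat_lit 139) (nat_lit 116) (nat_lit 135)) (PT.nd (nat_lit 78) (PT.lf (nat_lit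 16796) (nat_lit 6) (nat_lit 221) (nat_lit 1) (nat_lit 140) (nat_lit 116) (nat_lit 134)) (PT.lf (nat_lit 16720) (nat_lit 6) (nat_lit 220) (nat_lit 1) (nat_lit 141) (nat_lit 116) (nat_lit 133)))) (PT.nd (nat_lit 156) (PT.nd (nat_lit 78) (PT.lf (nat_lit 16644) (nat_lit 6) (nat_lit 219) (nat_lit 1) (nat_lit 142) (nat_lit 116) (nat_lit 132)) (PT.lf (nat_lit 16568) (nat_lit 6) (nat_lit 218) (nat_lit 1) (nat_lit 143) (nat_lit 116) (nat_lit 131))) (PT.nd (nat_lit 78) (PT.lf (nat_lit 16492) (nat_lit 6) (nat_lit 217) (nat_lit 1) (nat_lit 144) (nat_lit 116) (nat_lit 130)) (PT.lf (nat_lit 15276) (nat_lit 6) (nat_lit 201) (nat_lit 1) (nat_lit 145) (nat_lit 116) (nat_lit 129))))))))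
noncomputable def pc7 : PT := (PT.nd (nat_lit 41340) (PT.nd (nat_lit 1092) (PT.nd (nat_lit 546) (PT.nd (nat_lit 234) (PT.nd (nat_lit 78) (PT.lf (nat_lit 15200) (nat_lit 6) (nat_lit 200) (nat_lit 3) (nat_lit 128) (nat_lit 117) (nat_lit 145)) (PT.nd (nat_lit 78) (PT.lf (nat_lit 16416) (nat_lit 6) (nat_lit 216) (nat_lit 3) (nat_lit 129) (nat_lit 117) (nat_lit 144)) (PT.lf (nat_lit 17556) (nat_lit 6) (nat_lit 231) (nat_lit 3) (nat_lit 130) (nat_lit 117) (nat_lit 143)))) (PT.nd (nat_lit 156) (PT.nd (nat_lit 78) (PT.lf (nat_lit 17632) (nat_lit 6) (nat_lit 232) (nat_lit 3) (nat_lit 131) (nat_lit 117) (nat_lit 142)) (PT.lf (nat_lit 17708) (nat_lit 6) (nat_lit 233) (nat_lit 3) (nat_lit 132) (nat_lit 117) (nat_lit 141))) (PT.nd (nat_lit 78) (PT.lf (nat_lit 17784) (nat_lit 6) (nat_lit 234) (nat_lit 3) (nat_lit 133) (nat_lit 117) (nat_lit 140)) (PT.lf (nat_lit 17860) (nat_lit 6) (nat_lit 235) (nat_lit 3) (nat_lit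 134) (nat_lit 117) (nat_lit 139))))) (PT.nd (nat_lit 234) (PT.nd (nat_lit 78) (PT.lf (nat_lit 17936) (nat_lit 6) (nat_lit 236) (nat_lit 3) (nat_lit 135) (nat_lit 117) (nat_lit 138)) (PT.nd (nat_lit 78) (PT.lf (nat_lit 18012) (nat_lit 6) (nat_lit 237) (nat_lit 3) (nat_lit 136) (nat_lit 117) (nat_lit 137)) (PT.lf (nat_lit 18012) (nat_lit 6) (nat_lit 237) (nat_lit 1) (nat_lit 137) (nat_lit 117) (nat_lit 136)))) (PT.nd (nat_lit 156) (PT.nd (nat_lit 78) (PT.lf (nat_lit 17936) (nat_lit 6) (nat_lit 236) (nat_lit 1) (nat_lit 138) (nat_lit 117) (nat_lit 135)) (PT.lf (nat_lit 17860) (nat_lit 6) (nat_lit 235) (nat_lit 1) (nat_lit 139) (nat_lit 117) (nat_lit 134))) (PT.nd (nat_lit 78) (PT.lf (nat_lit 17784) (nat_lit 6) (nat_lit 234) (nat_lit 1) (nat_lit 140) (nat_lit 117) (nat_lit 133)) (PT.lf (nat_lit 17708) (nat_lit 6) (nat_lit 233) (nat_lit 1) (nat_lit 141) (nat_lit 117) (nat_lit 132)))))) (PT.nd (nat_lit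 39702) (PT.nd (nat_lit 234) (PT.nd (nat_lit 78) (PT.lf (nat_lit 17632) (nat_lit 6) (nat_lit 232) (nat_lit 1) (nat_lit 142) (nat_lit 117) (nat_lit 131)) (PT.nd (nat_lit 78) (PT.lf (nat_lit 17556) (nat_lit 6) (nat_lit 231) (nat_lit 1) (nat_lit 143) (nat_lit 117) (nat_lit 130)) (PT.lf (nat_lit 16416) (nat_lit 6) (nat_lit 216) (nat_lit 1) (nat_lit 144) (nat_lit 117) (nat_lit 129)))) (PT.nd (nat_lit 39312) (PT.nd (nat_lit 39234) (PT.lf (nat_lit 15200) (nat_lit 6) (nat_lit 200) (nat_lit 1) (nat_lit 145) (nat_lit 117) (nat_lit 128)) (PT.lf (nat_lit 15124) (nat_lit 6) (nat_lit 199) (nat_lit 3) (nat_lit 127) (nat_lit 118) (nat_lit 145))) (PT.nd (nat_lit 78) (PT.lf (nat_lit 16340) (nat_lit 6) (nat_lit 215) (nat_lit 3) (nat_lit 128) (nat_lit 118) (nat_lit 144)) (PT.lf (nat_lit 17480) (nat_lit 6) (nat_lit 230) (nat_lit 3) (nat_lit 129) (nat_lit 118) (nat_lit 143))))) (PT.nd (nat_lit 234) (PT.nd (nat_lit 78)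 (PT.lf (nat_lit 18544) (nat_lit 6) (nat_lit 244) (nat_lit 3) (nat_lit 130) (nat_lit 118) (nat_lit 142)) (PT.nd (nat_lit 78) (PT.lf (nat_lit 18620) (nat_lit 6) (nat_lit 245) (nat_lit 3) (nat_lit 131) (nat_lit 118) (nat_lit 141)) (PT.lf (nat_lit 18696) (nat_lit 6) (nat_lit 246) (nat_lit 3) (nat_lit 132) (nat_lit 118) (nat_lit 140)))) (PT.nd (nat_lit 156) (PT.nd (nat_lit 78) (PT.lf (nat_lit 18772) (nat_lit 6) (nat_lit 247) (nat_lit 3) (nat_lit 133) (nat_lit 118) (nat_lit 139)) (PT.lf (nat_lit 18848) (nat_lit 6) (nat_lit 248) (nat_lit 3) (nat_lit 134) (nat_lit 118) (nat_lit 138))) (PT.nd (nat_lit 78) (PT.lf (nat_lit 18924) (nat_lit 6) (nat_lit 249) (nat_lit 3) (nat_lit 135) (nat_lit 118) (nat_lit 137)) (PT.lf (nat_lit 19000) (nat_lit 3) (nat_lit 250) (nat_lit 1) (nat_lit 136) (nat_lit 118) (nat_lit 136))))))) (PT.nd (nat_lit 40170) (PT.nd (nat_lit 546) (PT.nd (nat_lit 234) (PT.nd (nat_lit 78) (PT.lf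 (nat_lit 18924) (nat_lit 6) (nat_lit 249) (nat_lit 1) (nat_lit 137) (nat_lit 118) (nat_lit 135)) (PT.nd (nat_lit 78) (PT.lf (nat_lit 18848) (nat_lit 6) (nat_lit 248) (nat_lit 1) (nat_lit 138) (nat_lit 118) (nat_lit 134)) (PT.lf (nat_lit 18772) (nat_lit 6) (nat_lit 247) (nat_lit 1) (nat_lit 139) (nat_lit 118) (nat_lit 133)))) (PT.nd (nat_lit 156) (PT.nd (nat_lit 78) (PT.lf (nat_lit 18696) (nat_lit 6) (nat_lit 246) (nat_lit 1) (nat_lit 140) (nat_lit 118) (nat_lit 132)) (PT.lf (nat_lit 18620) (nat_lit 6) (nat_lit 245) (nat_lit 1) (nat_lit 141) (nat_lit 118) (nat_lit 131))) (PT.nd (nat_lit 78) (PT.lf (nat_lit 18544) (nat_lit 6) (nat_lit 244) (nat_lit 1) (nat_lit 142) (nat_lit 118) (nat_lit 130)) (PT.lf (nat_lit 17480) (nat_lit 6) (nat_lit 230) (nat_lit 1) (nat_lit 143) (nat_lit 118) (nat_lit 129))))) (PT.nd (nat_lit 39312) (PT.nd (nat_lit 78) (PT.lf (nat_lit 16340) (nat_lit 6) (nat_lit 215) (nat_lit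 1) (nat_lit 144) (nat_lit 118) (nat_lit 128)) (PT.nd (nat_lit 39156) (PT.lf (nat_lit 15124) (nat_lit 6) (nat_lit 199) (nat_lit 1) (nat_lit 145) (nat_lit 118) (nat_lit 127)) (PT.lf (nat_lit 15048) (nat_lit 6) (nat_lit 198) (nat_lit 3) (nat_lit 126) (nat_lit 119) (nat_lit 145)))) (PT.nd (nat_lit 156) (PT.nd (nat_lit 78) (PT.lf (nat_lit 16264) (nat_lit 6) (nat_lit 214) (nat_lit 3) (nat_lit 127) (nat_lit 119) (nat_lit 144)) (PT.lf (nat_lit 17404) (nat_lit 6) (nat_lit 229) (nat_lit 3) (nat_lit 128) (nat_lit 119) (nat_lit 143))) (PT.nd (nat_lit 78) (PT.lf (nat_lit 18468) (nat_lit 6) (nat_lit 243) (nat_lit 3) (nat_lit 129) (nat_lit 119) (nat_lit 142)) (PT.lf (nat_lit 19456) (nat_lit 6) (nat_lit 256) (nat_lit 3) (nat_lit 130) (nat_lit 119) (nat_lit 141)))))) (PT.nd (nat_lit 546) (PT.nd (nat_lit 234) (PT.nd (nat_lit 78) (PT.lf (nat_lit 19532) (nat_lit 6) (nat_lit 257) (nat_lit 3) (nat_lit 131) (nat_lit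 119) (nat_lit 140)) (PT.nd (nat_lit 78) (PT.lf (nat_lit 19608) (nat_lit 6) (nat_lit 258) (nat_lit 3) (nat_lit 132) (nat_lit 119) (nat_lit 139)) (PT.lf (nat_lit 19684) (nat_lit 6) (nat_lit 259) (nat_lit 3) (nat_lit 133) (nat_lit 119) (nat_lit 138)))) (PT.nd (nat_lit 156) (PT.nd (nat_lit 78) (PT.lf (nat_lit 19760) (nat_lit 6) (nat_lit 260) (nat_lit 3) (nat_lit 134) (nat_lit 119) (nat_lit 137)) (PT.lf (nat_lit 19836) (nat_lit 6) (nat_lit 261) (nat_lit 3) (nat_lit 135) (nat_lit 119) (nat_lit 136))) (PT.nd (nat_lit 78) (PT.lf (nat_lit 19836) (nat_lit 6) (nat_lit 261) (nat_lit 1) (nat_lit 136) (nat_lit 119) (nat_lit 135)) (PT.lf (nat_lit 19760) (nat_lit 6) (nat_lit 260) (nat_lit 1) (nat_lit 137) (nat_lit 119) (nat_lit 134))))) (PT.nd (nat_lit 312) (PT.nd (nat_lit 156) (PT.nd (nat_lit 78) (PT.lf (nat_lit 19684) (nat_lit 6) (nat_lit 259) (nat_lit 1) (nat_lit 138) (nat_lit 119) (nat_lit 133)) (PT.lf (nat_lit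 19608) (nat_lit 6) (nat_lit 258) (nat_lit 1) (nat_lit 139) (nat_lit 119) (nat_lit 132))) (PT.nd (nat_lit 78) (PT.lf (nat_lit 19532) (nat_lit 6) (nat_lit 257) (nat_lit 1) (nat_lit 140) (nat_lit 119) (nat_lit 131)) (PT.lf (nat_lit 19456) (nat_lit 6) (nat_lit 256) (nat_lit 1) (nat_lit 141) (nat_lit 119) (nat_lit 130)))) (PT.nd (nat_lit 156) (PT.nd (nat_lit 78) (PT.lf (nat_lit 18468) (nat_lit 6) (nat_lit 243) (nat_lit 1) (nat_lit 142) (nat_lit 119) (nat_lit 129)) (PT.lf (nat_lit 17404) (nat_lit 6) (nat_lit 229) (nat_lit 1) (nat_lit 143) (nat_lit 119) (nat_lit 128))) (PT.nd (nat_lit 78) (PT.lf (nat_lit 16264) (nat_lit 6) (nat_lit 214) (nat_lit 1) (nat_lit 144) (nat_lit 119) (nat_lit 127)) (PT.lf (nat_lit 15048) (nat_lit 6) (nat_lit 198) (nat_lit 1) (nat_lit 145) (nat_lit 119) (nat_lit 126))))))))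
noncomputable def pc8 : PT := (PT.nd (nat_lit 41106) (PT.nd (nat_lit 1092) (PT.nd (nat_lit 546) (PT.nd (nat_lit 234) (PT.nd (nat_lit 78) (PT.lf (nat_lit 14972) (nat_lit 6) (nat_lit 197) (nat_lit 3) (nat_lit 125) (nat_lit 120) (nat_lit 145)) (PT.nd (nat_lit 78) (PT.lf (nat_lit 16188) (nat_lit 6) (nat_lit 213) (nat_lit 3) (nat_lit 126) (nat_lit 120) (nat_lit 144)) (PT.lf (nat_lit 17328) (nat_lit 6) (nat_lit 228) (nat_lit 3) (nat_lit 127) (nat_lit 120) (nat_lit 143)))) (PT.nd (nat_lit 156) (PT.nd (nat_lit 78) (PT.lf (nat_lit 18392) (nat_lit 6) (nat_lit 242) (nat_lit 3) (nat_lit 128) (nat_lit 120) (nat_lit 142)) (PT.lf (nat_lit 19380) (nat_lit 6) (nat_lit 255) (nat_lit 3) (nat_lit 129) (nat_lit 120) (nat_lit 141))) (PT.nd (nat_lit 78) (PT.lf (nat_lit 20292) (nat_lit 6) (nat_lit 267) (nat_lit 3) (nat_lit 130) (nat_lit 120) (nat_lit 140)) (PT.lf (nat_lit 20368) (nat_lit 6) (nat_lit 268) (nat_lit 3) (nat_lit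 131) (nat_lit 120) (nat_lit 139))))) (PT.nd (nat_lit 234) (PT.nd (nat_lit 78) (PT.lf (nat_lit 20444) (nat_lit 6) (nat_lit 269) (nat_lit 3) (nat_lit 132) (nat_lit 120) (nat_lit 138)) (PT.nd (nat_lit 78) (PT.lf (nat_lit 20520) (nat_lit 6) (nat_lit 270) (nat_lit 3) (nat_lit 133) (nat_lit 120) (nat_lit 137)) (PT.lf (nat_lit 20596) (nat_lit 6) (nat_lit 271) (nat_lit 3) (nat_lit 134) (nat_lit 120) (nat_lit 136)))) (PT.nd (nat_lit 156) (PT.nd (nat_lit 78) (PT.lf (nat_lit 20672) (nat_lit 3) (nat_lit 272) (nat_lit 1) (nat_lit 135) (nat_lit 120) (nat_lit 135)) (PT.lf (nat_lit 20596) (nat_lit 6) (nat_lit 271) (nat_lit 1) (nat_lit 136) (nat_lit 120) (nat_lit 134))) (PT.nd (nat_lit 78) (PT.lf (nat_lit 20520) (nat_lit 6) (nat_lit 270) (nat_lit 1) (nat_lit 137) (nat_lit 120) (nat_lit 133)) (PT.lf (nat_lit 20444) (nat_lit 6) (nat_lit 269) (nat_lit 1) (nat_lit 138) (nat_lit 120) (nat_lit 132)))))) (PT.nd (nat_lit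 39468) (PT.nd (nat_lit 234) (PT.nd (nat_lit 78) (PT.lf (nat_lit 20368) (nat_lit 6) (nat_lit 268) (nat_lit 1) (nat_lit 139) (nat_lit 120) (nat_lit 131)) (PT.nd (nat_lit 78) (PT.lf (nat_lit 20292) (nat_lit 6) (nat_lit 267) (nat_lit 1) (nat_lit 140) (nat_lit 120) (nat_lit 130)) (PT.lf (nat_lit 19380) (nat_lit 6) (nat_lit 255) (nat_lit 1) (nat_lit 141) (nat_lit 120) (nat_lit 129)))) (PT.nd (nat_lit 156) (PT.nd (nat_lit 78) (PT.lf (nat_lit 18392) (nat_lit 6) (nat_lit 242) (nat_lit 1) (nat_lit 142) (nat_lit 120) (nat_lit 128)) (PT.lf (nat_lit 17328) (nat_lit 6) (nat_lit 228) (nat_lit 1) (nat_lit 143) (nat_lit 120) (nat_lit 127))) (PT.nd (nat_lit 78) (PT.lf (nat_lit 16188) (nat_lit 6) (nat_lit 213) (nat_lit 1) (nat_lit 144) (nat_lit 120) (nat_lit 126)) (PT.lf (nat_lit 14972) (nat_lit 6) (nat_lit 197) (nat_lit 1) (nat_lit 145) (nat_lit 120) (nat_lit 125))))) (PT.nd (nat_lit 234) (PT.nd (nat_lit 78) (PT.lf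 (nat_lit 14896) (nat_lit 6) (nat_lit 196) (nat_lit 3) (nat_lit 124) (nat_lit 121) (nat_lit 145)) (PT.nd (nat_lit 78) (PT.lf (nat_lit 16112) (nat_lit 6) (nat_lit 212) (nat_lit 3) (nat_lit 125) (nat_lit 121) (nat_lit 144)) (PT.lf (nat_lit 17252) (nat_lit 6) (nat_lit 227) (nat_lit 3) (nat_lit 126) (nat_lit 121) (nat_lit 143)))) (PT.nd (nat_lit 156) (PT.nd (nat_lit 78) (PT.lf (nat_lit 18316) (nat_lit 6) (nat_lit 241) (nat_lit 3) (nat_lit 127) (nat_lit 121) (nat_lit 142)) (PT.lf (nat_lit 19304) (nat_lit 6) (nat_lit 254) (nat_lit 3) (nat_lit 128) (nat_lit 121) (nat_lit 141))) (PT.nd (nat_lit 78) (PT.lf (nat_lit 20216) (nat_lit 6) (nat_lit 266) (nat_lit 3) (nat_lit 129) (nat_lit 121) (nat_lit 140)) (PT.lf (nat_lit 21052) (nat_lit 6) (nat_lit 277) (nat_lit 3) (nat_lit 130) (nat_lit 121) (nat_lit 139))))))) (PT.nd (nat_lit 1092) (PT.nd (nat_lit 546) (PT.nd (nat_lit 234) (PT.nd (nat_lit 78) (PT.lf (nat_lit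 21128) (nat_lit 6) (nat_lit 278) (nat_lit 3) (nat_lit 131) (nat_lit 121) (nat_lit 138)) (PT.nd (nat_lit 78) (PT.lf (nat_lit 21204) (nat_lit 6) (nat_lit 279) (nat_lit 3) (nat_lit 132) (nat_lit 121) (nat_lit 137)) (PT.lf (nat_lit 21280) (nat_lit 6) (nat_lit 280) (nat_lit 3) (nat_lit 133) (nat_lit 121) (nat_lit 136)))) (PT.nd (nat_lit 156) (PT.nd (nat_lit 78) (PT.lf (nat_lit 21356) (nat_lit 6) (nat_lit 281) (nat_lit 3) (nat_lit 134) (nat_lit 121) (nat_lit 135)) (PT.lf (nat_lit 21356) (nat_lit 6) (nat_lit 281) (nat_lit 1) (nat_lit 135) (nat_lit 121) (nat_lit 134))) (PT.nd (nat_lit 78) (PT.lf (nat_lit 21280) (nat_lit 6) (nat_lit 280) (nat_lit 1) (nat_lit 136) (nat_lit 121) (nat_lit 133)) (PT.lf (nat_lit 21204) (nat_lit 6) (nat_lit 279) (nat_lit 1) (nat_lit 137) (nat_lit 121) (nat_lit 132))))) (PT.nd (nat_lit 234) (PT.nd (nat_lit 78) (PT.lf (nat_lit 21128) (nat_lit 6) (nat_lit 278) (nat_lit 1) (nat_lit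 138) (nat_lit 121) (nat_lit 131)) (PT.nd (nat_lit 78) (PT.lf (nat_lit 21052) (nat_lit 6) (nat_lit 277) (nat_lit 1) (nat_lit 139) (nat_lit 121) (nat_lit 130)) (PT.lf (nat_lit 20216) (nat_lit 6) (nat_lit 266) (nat_lit 1) (nat_lit 140) (nat_lit 121) (nat_lit 129)))) (PT.nd (nat_lit 156) (PT.nd (nat_lit 78) (PT.lf (nat_lit 19304) (nat_lit 6) (nat_lit 254) (nat_lit 1) (nat_lit 141) (nat_lit 121) (nat_lit 128)) (PT.lf (nat_lit 18316) (nat_lit 6) (nat_lit 241) (nat_lit 1) (nat_lit 142) (nat_lit 121) (nat_lit 127))) (PT.nd (nat_lit 78) (PT.lf (nat_lit 17252) (nat_lit 6) (nat_lit 227) (nat_lit 1) (nat_lit 143) (nat_lit 121) (nat_lit 126)) (PT.lf (nat_lit 16112) (nat_lit 6) (nat_lit 212) (nat_lit 1) (nat_lit 144) (nat_lit 121) (nat_lit 125)))))) (PT.nd (nat_lit 39390) (PT.nd (nat_lit 39078) (PT.nd (nat_lit 38922) (PT.lf (nat_lit 14896) (nat_lit 6) (nat_lit 196) (nat_lit 1) (nat_lit 145) (nat_lit 121) (nat_lit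 124)) (PT.nd (nat_lit 78) (PT.lf (nat_lit 14820) (nat_lit 6) (nat_lit 195) (nat_lit 3) (nat_lit 123) (nat_lit 122) (nat_lit 145)) (PT.lf (nat_lit 16036) (nat_lit 6) (nat_lit 211) (nat_lit 3) (nat_lit 124) (nat_lit 122) (nat_lit 144)))) (PT.nd (nat_lit 156) (PT.nd (nat_lit 78) (PT.lf (nat_lit 17176) (nat_lit 6) (nat_lit 226) (nat_lit 3) (nat_lit 125) (nat_lit 122) (nat_lit 143)) (PT.lf (nat_lit 18240) (nat_lit 6) (nat_lit 240) (nat_lit 3) (nat_lit 126) (nat_lit 122) (nat_lit 142))) (PT.nd (nat_lit 78) (PT.lf (nat_lit 19228) (nat_lit 6) (nat_lit 253) (nat_lit 3) (nat_lit 127) (nat_lit 122) (nat_lit 141)) (PT.lf (nat_lit 20140) (nat_lit 6) (nat_lit 265) (nat_lit 3) (nat_lit 128) (nat_lit 122) (nat_lit 140))))) (PT.nd (nat_lit 234) (PT.nd (nat_lit 78) (PT.lf (nat_lit 20976) (nat_lit 6) (nat_lit 276) (nat_lit 3) (nat_lit 129) (nat_lit 122) (nat_lit 139)) (PT.nd (nat_lit 78) (PT.lf (nat_lit 21736) (nat_lit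 6) (nat_lit 286) (nat_lit 3) (nat_lit 130) (nat_lit 122) (nat_lit 138)) (PT.lf (nat_lit 21812) (nat_lit 6) (nat_lit 287) (nat_lit 3) (nat_lit 131) (nat_lit 122) (nat_lit 137)))) (PT.nd (nat_lit 156) (PT.nd (nat_lit 78) (PT.lf (nat_lit 21888) (nat_lit 6) (nat_lit 288) (nat_lit 3) (nat_lit 132) (nat_lit 122) (nat_lit 136)) (PT.lf (nat_lit 21964) (nat_lit 6) (nat_lit 289) (nat_lit 3) (nat_lit 133) (nat_lit 122) (nat_lit 135))) (PT.nd (nat_lit 78) (PT.lf (nat_lit 22040) (nat_lit 3) (nat_lit 290) (nat_lit 1) (nat_lit 134) (nat_lit 122) (nat_lit 134)) (PT.lf (nat_lit 21964) (nat_lit 6) (nat_lit 289) (nat_lit 1) (nat_lit 135) (nat_lit 122) (nat_lit 133))))))))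
noncomputable def pc9 : PT := (PT.nd (nat_lit 40950) (PT.nd (nat_lit 39858) (PT.nd (nat_lit 546) (PT.nd (nat_lit 234) (PT.nd (nat_lit 78) (PT.lf (nat_lit 21888) (nat_lit 6) (nat_lit 288) (nat_lit 1) (nat_lit 136) (nat_lit 122) (nat_lit 132)) (PT.nd (nat_lit 78) (PT.lf (nat_lit 21812) (nat_lit 6) (nat_lit 287) (nat_lit 1) (nat_lit 137) (nat_lit 122) (nat_lit 131)) (PT.lf (nat_lit 21736) (nat_lit 6) (nat_lit 286) (nat_lit 1) (nat_lit 138) (nat_lit 122) (nat_lit 130)))) (PT.nd (nat_lit 156) (PT.nd (nat_lit 78) (PT.lf (nat_lit 20976) (nat_lit 6) (nat_lit 276) (nat_lit 1) (nat_lit 139) (nat_lit 122) (nat_lit 129)) (PT.lf (nat_lit 20140) (nat_lit 6) (nat_lit 265) (nat_lit 1) (nat_lit 140) (nat_lit 122) (nat_lit 128))) (PT.nd (nat_lit 78) (PT.lf (nat_lit 19228) (nat_lit 6) (nat_lit 253) (nat_lit 1) (nat_lit 141) (nat_lit 122) (nat_lit 127)) (PT.lf (nat_lit 18240) (nat_lit 6) (nat_lit 240) (nat_lit 1)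 (nat_lit 142) (nat_lit 122) (nat_lit 126))))) (PT.nd (nat_lit 39000) (PT.nd (nat_lit 78) (PT.lf (nat_lit 17176) (nat_lit 6) (nat_lit 226) (nat_lit 1) (nat_lit 143) (nat_lit 122) (nat_lit 125)) (PT.nd (nat_lit 78) (PT.lf (nat_lit 16036) (nat_lit 6) (nat_lit 211) (nat_lit 1) (nat_lit 144) (nat_lit 122) (nat_lit 124)) (PT.lf (nat_lit 14820) (nat_lit 6) (nat_lit 195) (nat_lit 1) (nat_lit 145) (nat_lit 122) (nat_lit 123)))) (PT.nd (nat_lit 156) (PT.nd (nat_lit 78) (PT.lf (nat_lit 14820) (nat_lit 6) (nat_lit 195) (nat_lit 5) (nat_lit 122) (nat_lit 123) (nat_lit 145)) (PT.lf (nat_lit 15960) (nat_lit 3) (nat_lit 210) (nat_lit 3) (nat_lit 123) (nat_lit 123) (nat_lit 144))) (PT.nd (nat_lit 78) (PT.lf (nat_lit 17100) (nat_lit 6) (nat_lit 225) (nat_lit 3) (nat_lit 124) (nat_lit 123) (nat_lit 143)) (PT.lf (nat_lit 18164) (nat_lit 6) (nat_lit 239) (nat_lit 3) (nat_lit 125) (nat_lit 123) (nat_lit 142)))))) (PT.nd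 (nat_lit 546) (PT.nd (nat_lit 234) (PT.nd (nat_lit 78) (PT.lf (nat_lit 19152) (nat_lit 6) (nat_lit 252) (nat_lit 3) (nat_lit 126) (nat_lit 123) (nat_lit 141)) (PT.nd (nat_lit 78) (PT.lf (nat_lit 20064) (nat_lit 6) (nat_lit 264) (nat_lit 3) (nat_lit 127) (nat_lit 123) (nat_lit 140)) (PT.lf (nat_lit 20900) (nat_lit 6) (nat_lit 275) (nat_lit 3) (nat_lit 128) (nat_lit 123) (nat_lit 139)))) (PT.nd (nat_lit 156) (PT.nd (nat_lit 78) (PT.lf (nat_lit 21660) (nat_lit 6) (nat_lit 285) (nat_lit 3) (nat_lit 129) (nat_lit 123) (nat_lit 138)) (PT.lf (nat_lit 22344) (nat_lit 6) (nat_lit 294) (nat_lit 3) (nat_lit 130) (nat_lit 123) (nat_lit 137))) (PT.nd (nat_lit 78) (PT.lf (nat_lit 22420) (nat_lit 6) (nat_lit 295) (nat_lit 3) (nat_lit 131) (nat_lit 123) (nat_lit 136)) (PT.lf (nat_lit 22496) (nat_lit 6) (nat_lit 296) (nat_lit 3) (nat_lit 132) (nat_lit 123) (nat_lit 135))))) (PT.nd (nat_lit 234) (PT.nd (nat_lit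 78) (PT.lf (nat_lit 22572) (nat_lit 6) (nat_lit 297) (nat_lit 3) (nat_lit 133) (nat_lit 123) (nat_lit 134)) (PT.nd (nat_lit 78) (PT.lf (nat_lit 22572) (nat_lit 6) (nat_lit 297) (nat_lit 1) (nat_lit 134) (nat_lit 123) (nat_lit 133)) (PT.lf (nat_lit 22496) (nat_lit 6) (nat_lit 296) (nat_lit 1) (nat_lit 135) (nat_lit 123) (nat_lit 132)))) (PT.nd (nat_lit 156) (PT.nd (nat_lit 78) (PT.lf (nat_lit 22420) (nat_lit 6) (nat_lit 295) (nat_lit 1) (nat_lit 136) (nat_lit 123) (nat_lit 131)) (PT.lf (nat_lit 22344) (nat_lit 6) (nat_lit 294) (nat_lit 1) (nat_lit 137) (nat_lit 123) (nat_lit 130))) (PT.nd (nat_lit 78) (PT.lf (nat_lit 21660) (nat_lit 6) (nat_lit 285) (nat_lit 1) (nat_lit 138) (nat_lit 123) (nat_lit 129)) (PT.lf (nat_lit 20900) (nat_lit 6) (nat_lit 275) (nat_lit 1) (nat_lit 139) (nat_lit 123) (nat_lit 128))))))) (PT.nd (nat_lit 39780) (PT.nd (nat_lit 39234) (PT.nd (nat_lit 234) (PT.nd (nat_lit 78)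 (PT.lf (nat_lit 20064) (nat_lit 6) (nat_lit 264) (nat_lit 1) (nat_lit 140) (nat_lit 123) (nat_lit 127)) (PT.nd (nat_lit 78) (PT.lf (nat_lit 19152) (nat_lit 6) (nat_lit 252) (nat_lit 1) (nat_lit 141) (nat_lit 123) (nat_lit 126)) (PT.lf (nat_lit 18164) (nat_lit 6) (nat_lit 239) (nat_lit 1) (nat_lit 142) (nat_lit 123) (nat_lit 125)))) (PT.nd (nat_lit 156) (PT.nd (nat_lit 78) (PT.lf (nat_lit 17100) (nat_lit 6) (nat_lit 225) (nat_lit 1) (nat_lit 143) (nat_lit 123) (nat_lit 124)) (PT.lf (nat_lit 15960) (nat_lit 3) (nat_lit 210) (nat_lit 0) (nat_lit 144) (nat_lit 123) (nat_lit 123))) (PT.nd (nat_lit 38766) (PT.lf (nat_lit 14820) (nat_lit 6) (nat_lit 195) (nat_lit 0) (nat_lit 145) (nat_lit 123) (nat_lit 122)) (PT.lf (nat_lit 14896) (nat_lit 6) (nat_lit 196) (nat_lit 5) (nat_lit 121) (nat_lit 124) (nat_lit 145))))) (PT.nd (nat_lit 234) (PT.nd (nat_lit 78) (PT.lf (nat_lit 16036) (nat_lit 6) (nat_lit 211)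 (nat_lit 5) (nat_lit 122) (nat_lit 124) (nat_lit 144)) (PT.nd (nat_lit 78) (PT.lf (nat_lit 17100) (nat_lit 6) (nat_lit 225) (nat_lit 5) (nat_lit 123) (nat_lit 124) (nat_lit 143)) (PT.lf (nat_lit 18088) (nat_lit 3) (nat_lit 238) (nat_lit 3) (nat_lit 124) (nat_lit 124) (nat_lit 142)))) (PT.nd (nat_lit 156) (PT.nd (nat_lit 78) (PT.lf (nat_lit 19076) (nat_lit 6) (nat_lit 251) (nat_lit 3) (nat_lit 125) (nat_lit 124) (nat_lit 141)) (PT.lf (nat_lit 19988) (nat_lit 6) (nat_lit 263) (nat_lit 3) (nat_lit 126) (nat_lit 124) (nat_lit 140))) (PT.nd (nat_lit 78) (PT.lf (nat_lit 20824) (nat_lit 6) (nat_lit 274) (nat_lit 3) (nat_lit 127) (nat_lit 124) (nat_lit 139)) (PT.lf (nat_lit 21584) (nat_lit 6) (nat_lit 284) (nat_lit 3) (nat_lit 128) (nat_lit 124) (nat_lit 138)))))) (PT.nd (nat_lit 546) (PT.nd (nat_lit 234) (PT.nd (nat_lit 78) (PT.lf (nat_lit 22268) (nat_lit 6) (nat_lit 293) (nat_lit 3) (nat_lit 129) (nat_lit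 124) (nat_lit 137)) (PT.nd (nat_lit 78) (PT.lf (nat_lit 22876) (nat_lit 6) (nat_lit 301) (nat_lit 3) (nat_lit 130) (nat_lit 124) (nat_lit 136)) (PT.lf (nat_lit 22952) (nat_lit 6) (nat_lit 302) (nat_lit 3) (nat_lit 131) (nat_lit 124) (nat_lit 135)))) (PT.nd (nat_lit 156) (PT.nd (nat_lit 78) (PT.lf (nat_lit 23028) (nat_lit 6) (nat_lit 303) (nat_lit 3) (nat_lit 132) (nat_lit 124) (nat_lit 134)) (PT.lf (nat_lit 23104) (nat_lit 3) (nat_lit 304) (nat_lit 1) (nat_lit 133) (nat_lit 124) (nat_lit 133))) (PT.nd (nat_lit 78) (PT.lf (nat_lit 23028) (nat_lit 6) (nat_lit 303) (nat_lit 1) (nat_lit 134) (nat_lit 124) (nat_lit 132)) (PT.lf (nat_lit 22952) (nat_lit 6) (nat_lit 302) (nat_lit 1) (nat_lit 135) (nat_lit 124) (nat_lit 131))))) (PT.nd (nat_lit 234) (PT.nd (nat_lit 78) (PT.lf (nat_lit 22876) (nat_lit 6) (nat_lit 301) (nat_lit 1) (nat_lit 136) (nat_lit 124) (nat_lit 130)) (PT.nd (nat_lit 78) (PT.lf (nat_lit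 22268) (nat_lit 6) (nat_lit 293) (nat_lit 1) (nat_lit 137) (nat_lit 124) (nat_lit 129)) (PT.lf (nat_lit 21584) (nat_lit 6) (nat_lit 284) (nat_lit 1) (nat_lit 138) (nat_lit 124) (nat_lit 128)))) (PT.nd (nat_lit 156) (PT.nd (nat_lit 78) (PT.lf (nat_lit 20824) (nat_lit 6) (nat_lit 274) (nat_lit 1) (nat_lit 139) (nat_lit 124) (nat_lit 127)) (PT.lf (nat_lit 19988) (nat_lit 6) (nat_lit 263) (nat_lit 1) (nat_lit 140) (nat_lit 124) (nat_lit 126))) (PT.nd (nat_lit 78) (PT.lf (nat_lit 19076) (nat_lit 6) (nat_lit 251) (nat_lit 1) (nat_lit 141) (nat_lit 124) (nat_lit 125)) (PT.lf (nat_lit 18088) (nat_lit 3) (nat_lit 238) (nat_lit 0) (nat_lit 142) (nat_lit 124) (nat_lit 124))))))))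
noncomputable def pc10 : PT := (PT.nd (nat_lit 40794) (PT.nd (nat_lit 39702) (PT.nd (nat_lit 39156) (PT.nd (nat_lit 38844) (PT.nd (nat_lit 78) (PT.lf (nat_lit 17100) (nat_lit 6) (nat_lit 225) (nat_lit 0) (nat_lit 143) (nat_lit 124) (nat_lit 123)) (PT.nd (nat_lit 78) (PT.lf (nat_lit 16036) (nat_lit 6) (nat_lit 211) (nat_lit 0) (nat_lit 144) (nat_lit 124) (nat_lit 122)) (PT.lf (nat_lit 14896) (nat_lit 6) (nat_lit 196) (nat_lit 0) (nat_lit 145) (nat_lit 124) (nat_lit 121)))) (PT.nd (nat_lit 156) (PT.nd (nat_lit 78) (PT.lf (nat_lit 14972) (nat_lit 6) (nat_lit 197) (nat_lit 5) (nat_lit 120) (nat_lit 125) (nat_lit 145)) (PT.lf (nat_lit 16112) (nat_lit 6) (nat_lit 212) (nat_lit 5) (nat_lit 121) (nat_lit 125) (nat_lit 144))) (PT.nd (nat_lit 78) (PT.lf (nat_lit 17176) (nat_lit 6) (nat_lit 226) (nat_lit 5) (nat_lit 122) (nat_lit 125) (nat_lit 143)) (PT.lf (nat_lit 18164) (nat_lit 6) (nat_lit 239) (nat_lit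 5) (nat_lit 123) (nat_lit 125) (nat_lit 142))))) (PT.nd (nat_lit 234) (PT.nd (nat_lit 78) (PT.lf (nat_lit 19076) (nat_lit 6) (nat_lit 251) (nat_lit 5) (nat_lit 124) (nat_lit 125) (nat_lit 141)) (PT.nd (nat_lit 78) (PT.lf (nat_lit 19912) (nat_lit 3) (nat_lit 262) (nat_lit 3) (nat_lit 125) (nat_lit 125) (nat_lit 140)) (PT.lf (nat_lit 20748) (nat_lit 6) (nat_lit 273) (nat_lit 3) (nat_lit 126) (nat_lit 125) (nat_lit 139)))) (PT.nd (nat_lit 156) (PT.nd (nat_lit 78) (PT.lf (nat_lit 21508) (nat_lit 6) (nat_lit 283) (nat_lit 3) (nat_lit 127) (nat_lit 125) (nat_lit 138)) (PT.lf (nat_lit 22192) (nat_lit 6) (nat_lit 292) (nat_lit 3) (nat_lit 128) (nat_lit 125) (nat_lit 137))) (PT.nd (nat_lit 78) (PT.lf (nat_lit 22800) (nat_lit 6) (nat_lit 300) (nat_lit 3) (nat_lit 129) (nat_lit 125) (nat_lit 136)) (PT.lf (nat_lit 23332) (nat_lit 6) (nat_lit 307) (nat_lit 3) (nat_lit 130) (nat_lit 125) (nat_lit 135)))))) (PT.nd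 (nat_lit 546) (PT.nd (nat_lit 234) (PT.nd (nat_lit 78) (PT.lf (nat_lit 23408) (nat_lit 6) (nat_lit 308) (nat_lit 3) (nat_lit 131) (nat_lit 125) (nat_lit 134)) (PT.nd (nat_lit 78) (PT.lf (nat_lit 23484) (nat_lit 6) (nat_lit 309) (nat_lit 3) (nat_lit 132) (nat_lit 125) (nat_lit 133)) (PT.lf (nat_lit 23484) (nat_lit 6) (nat_lit 309) (nat_lit 1) (nat_lit 133) (nat_lit 125) (nat_lit 132)))) (PT.nd (nat_lit 156) (PT.nd (nat_lit 78) (PT.lf (nat_lit 23408) (nat_lit 6) (nat_lit 308) (nat_lit 1) (nat_lit 134) (nat_lit 125) (nat_lit 131)) (PT.lf (nat_lit 23332) (nat_lit 6) (nat_lit 307) (nat_lit 1) (nat_lit 135) (nat_lit 125) (nat_lit 130))) (PT.nd (nat_lit 78) (PT.lf (nat_lit 22800) (nat_lit 6) (nat_lit 300) (nat_lit 1) (nat_lit 136) (nat_lit 125) (nat_lit 129)) (PT.lf (nat_lit 22192) (nat_lit 6) (nat_lit 292) (nat_lit 1) (nat_lit 137) (nat_lit 125) (nat_lit 128))))) (PT.nd (nat_lit 234) (PT.nd (nat_lit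 78) (PT.lf (nat_lit 21508) (nat_lit 6) (nat_lit 283) (nat_lit 1) (nat_lit 138) (nat_lit 125) (nat_lit 127)) (PT.nd (nat_lit 78) (PT.lf (nat_lit 20748) (nat_lit 6) (nat_lit 273) (nat_lit 1) (nat_lit 139) (nat_lit 125) (nat_lit 126)) (PT.lf (nat_lit 19912) (nat_lit 3) (nat_lit 262) (nat_lit 0) (nat_lit 140) (nat_lit 125) (nat_lit 125)))) (PT.nd (nat_lit 156) (PT.nd (nat_lit 78) (PT.lf (nat_lit 19076) (nat_lit 6) (nat_lit 251) (nat_lit 0) (nat_lit 141) (nat_lit 125) (nat_lit 124)) (PT.lf (nat_lit 18164) (nat_lit 6) (nat_lit 239) (nat_lit 0) (nat_lit 142) (nat_lit 125) (nat_lit 123))) (PT.nd (nat_lit 78) (PT.lf (nat_lit 17176) (nat_lit 6) (nat_lit 226) (nat_lit 0) (nat_lit 143) (nat_lit 125) (nat_lit 122)) (PT.lf (nat_lit 16112) (nat_lit 6) (nat_lit 212) (nat_lit 0) (nat_lit 144) (nat_lit 125) (nat_lit 121))))))) (PT.nd (nat_lit 39624) (PT.nd (nat_lit 39078) (PT.nd (nat_lit 38766) (PT.nd (nat_lit 38610)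 (PT.lf (nat_lit 14972) (nat_lit 6) (nat_lit 197) (nat_lit 0) (nat_lit 145) (nat_lit 125) (nat_lit 120)) (PT.nd (nat_lit 78) (PT.lf (nat_lit 15048) (nat_lit 6) (nat_lit 198) (nat_lit 5) (nat_lit 119) (nat_lit 126) (nat_lit 145)) (PT.lf (nat_lit 16188) (nat_lit 6) (nat_lit 213) (nat_lit 5) (nat_lit 120) (nat_lit 126) (nat_lit 144)))) (PT.nd (nat_lit 156) (PT.nd (nat_lit 78) (PT.lf (nat_lit 17252) (nat_lit 6) (nat_lit 227) (nat_lit 5) (nat_lit 121) (nat_lit 126) (nat_lit 143)) (PT.lf (nat_lit 18240) (nat_lit 6) (nat_lit 240) (nat_lit 5) (nat_lit 122) (nat_lit 126) (nat_lit 142))) (PT.nd (nat_lit 78) (PT.lf (nat_lit 19152) (nat_lit 6) (nat_lit 252) (nat_lit 5) (nat_lit 123) (nat_lit 126) (nat_lit 141)) (PT.lf (nat_lit 19988) (nat_lit 6) (nat_lit 263) (nat_lit 5) (nat_lit 124) (nat_lit 126) (nat_lit 140))))) (PT.nd (nat_lit 234) (PT.nd (nat_lit 78) (PT.lf (nat_lit 20748) (nat_lit 6) (nat_lit 273) (nat_lit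 5) (nat_lit 125) (nat_lit 126) (nat_lit 139)) (PT.nd (nat_lit 78) (PT.lf (nat_lit 21432) (nat_lit 3) (nat_lit 282) (nat_lit 3) (nat_lit 126) (nat_lit 126) (nat_lit 138)) (PT.lf (nat_lit 22116) (nat_lit 6) (nat_lit 291) (nat_lit 3) (nat_lit 127) (nat_lit 126) (nat_lit 137)))) (PT.nd (nat_lit 156) (PT.nd (nat_lit 78) (PT.lf (nat_lit 22724) (nat_lit 6) (nat_lit 299) (nat_lit 3) (nat_lit 128) (nat_lit 126) (nat_lit 136)) (PT.lf (nat_lit 23256) (nat_lit 6) (nat_lit 306) (nat_lit 3) (nat_lit 129) (nat_lit 126) (nat_lit 135))) (PT.nd (nat_lit 78) (PT.lf (nat_lit 23712) (nat_lit 6) (nat_lit 312) (nat_lit 3) (nat_lit 130) (nat_lit 126) (nat_lit 134)) (PT.lf (nat_lit 23788) (nat_lit 6) (nat_lit 313) (nat_lit 3) (nat_lit 131) (nat_lit 126) (nat_lit 133)))))) (PT.nd (nat_lit 546) (PT.nd (nat_lit 234) (PT.nd (nat_lit 78) (PT.lf (nat_lit 23864) (nat_lit 3) (nat_lit 314) (nat_lit 1) (nat_lit 132) (nat_lit 126)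 (nat_lit 132)) (PT.nd (nat_lit 78) (PT.lf (nat_lit 23788) (nat_lit 6) (nat_lit 313) (nat_lit 1) (nat_lit 133) (nat_lit 126) (nat_lit 131)) (PT.lf (nat_lit 23712) (nat_lit 6) (nat_lit 312) (nat_lit 1) (nat_lit 134) (nat_lit 126) (nat_lit 130)))) (PT.nd (nat_lit 156) (PT.nd (nat_lit 78) (PT.lf (nat_lit 23256) (nat_lit 6) (nat_lit 306) (nat_lit 1) (nat_lit 135) (nat_lit 126) (nat_lit 129)) (PT.lf (nat_lit 22724) (nat_lit 6) (nat_lit 299) (nat_lit 1) (nat_lit 136) (nat_lit 126) (nat_lit 128))) (PT.nd (nat_lit 78) (PT.lf (nat_lit 22116) (nat_lit 6) (nat_lit 291) (nat_lit 1) (nat_lit 137) (nat_lit 126) (nat_lit 127)) (PT.lf (nat_lit 21432) (nat_lit 3) (nat_lit 282) (nat_lit 0) (nat_lit 138) (nat_lit 126) (nat_lit 126))))) (PT.nd (nat_lit 234) (PT.nd (nat_lit 78) (PT.lf (nat_lit 20748) (nat_lit 6) (nat_lit 273) (nat_lit 0) (nat_lit 139) (nat_lit 126) (nat_lit 125)) (PT.nd (nat_lit 78) (PT.lf (nat_lit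 19988) (nat_lit 6) (nat_lit 263) (nat_lit 0) (nat_lit 140) (nat_lit 126) (nat_lit 124)) (PT.lf (nat_lit 19152) (nat_lit 6) (nat_lit 252) (nat_lit 0) (nat_lit 141) (nat_lit 126) (nat_lit 123)))) (PT.nd (nat_lit 156) (PT.nd (nat_lit 78) (PT.lf (nat_lit 18240) (nat_lit 6) (nat_lit 240) (nat_lit 0) (nat_lit 142) (nat_lit 126) (nat_lit 122)) (PT.lf (nat_lit 17252) (nat_lit 6) (nat_lit 227) (nat_lit 0) (nat_lit 143) (nat_lit 126) (nat_lit 121))) (PT.nd (nat_lit 78) (PT.lf (nat_lit 16188) (nat_lit 6) (nat_lit 213) (nat_lit 0) (nat_lit 144) (nat_lit 126) (nat_lit 120)) (PT.lf (nat_lit 15048) (nat_lit 6) (nat_lit 198) (nat_lit 0) (nat_lit 145) (nat_lit 126) (nat_lit 119))))))))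
noncomputable def pc11 : PT := (PT.nd (nat_lit 40560) (PT.nd (nat_lit 1092) (PT.nd (nat_lit 546) (PT.nd (nat_lit 234) (PT.nd (nat_lit 78) (PT.lf (nat_lit 15124) (nat_lit 6) (nat_lit 199) (nat_lit 5) (nat_lit 118) (nat_lit 127) (nat_lit 145)) (PT.nd (nat_lit 78) (PT.lf (nat_lit 16264) (nat_lit 6) (nat_lit 214) (nat_lit 5) (nat_lit 119) (nat_lit 127) (nat_lit 144)) (PT.lf (nat_lit 17328) (nat_lit 6) (nat_lit 228) (nat_lit 5) (nat_lit 120) (nat_lit 127) (nat_lit 143)))) (PT.nd (nat_lit 156) (PT.nd (nat_lit 78) (PT.lf (nat_lit 18316) (nat_lit 6) (nat_lit 241) (nat_lit 5) (nat_lit 121) (nat_lit 127) (nat_lit 142)) (PT.lf (nat_lit 19228) (nat_lit 6) (nat_lit 253) (nat_lit 5) (nat_lit 122) (nat_lit 127) (nat_lit 141))) (PT.nd (nat_lit 78) (PT.lf (nat_lit 20064) (nat_lit 6) (nat_lit 264) (nat_lit 5) (nat_lit 123) (nat_lit 127) (nat_lit 140)) (PT.lf (nat_lit 20824) (nat_lit 6) (nat_lit 274) (nat_lit 5)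 (nat_lit 124) (nat_lit 127) (nat_lit 139))))) (PT.nd (nat_lit 234) (PT.nd (nat_lit 78) (PT.lf (nat_lit 21508) (nat_lit 6) (nat_lit 283) (nat_lit 5) (nat_lit 125) (nat_lit 127) (nat_lit 138)) (PT.nd (nat_lit 78) (PT.lf (nat_lit 22116) (nat_lit 6) (nat_lit 291) (nat_lit 5) (nat_lit 126) (nat_lit 127) (nat_lit 137)) (PT.lf (nat_lit 22648) (nat_lit 3) (nat_lit 298) (nat_lit 3) (nat_lit 127) (nat_lit 127) (nat_lit 136)))) (PT.nd (nat_lit 156) (PT.nd (nat_lit 78) (PT.lf (nat_lit 23180) (nat_lit 6) (nat_lit 305) (nat_lit 3) (nat_lit 128) (nat_lit 127) (nat_lit 135)) (PT.lf (nat_lit 23636) (nat_lit 6) (nat_lit 311) (nat_lit 3) (nat_lit 129) (nat_lit 127) (nat_lit 134))) (PT.nd (nat_lit 78) (PT.lf (nat_lit 24016) (nat_lit 6) (nat_lit 316) (nat_lit 3) (nat_lit 130) (nat_lit 127) (nat_lit 133)) (PT.lf (nat_lit 24092) (nat_lit 6) (nat_lit 317) (nat_lit 3) (nat_lit 131) (nat_lit 127) (nat_lit 132)))))) (PT.nd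 (nat_lit 546) (PT.nd (nat_lit 234) (PT.nd (nat_lit 78) (PT.lf (nat_lit 24092) (nat_lit 6) (nat_lit 317) (nat_lit 1) (nat_lit 132) (nat_lit 127) (nat_lit 131)) (PT.nd (nat_lit 78) (PT.lf (nat_lit 24016) (nat_lit 6) (nat_lit 316) (nat_lit 1) (nat_lit 133) (nat_lit 127) (nat_lit 130)) (PT.lf (nat_lit 23636) (nat_lit 6) (nat_lit 311) (nat_lit 1) (nat_lit 134) (nat_lit 127) (nat_lit 129)))) (PT.nd (nat_lit 156) (PT.nd (nat_lit 78) (PT.lf (nat_lit 23180) (nat_lit 6) (nat_lit 305) (nat_lit 1) (nat_lit 135) (nat_lit 127) (nat_lit 128)) (PT.lf (nat_lit 22648) (nat_lit 3) (nat_lit 298) (nat_lit 0) (nat_lit 136) (nat_lit 127) (nat_lit 127))) (PT.nd (nat_lit 78) (PT.lf (nat_lit 22116) (nat_lit 6) (nat_lit 291) (nat_lit 0) (nat_lit 137) (nat_lit 127) (nat_lit 126)) (PT.lf (nat_lit 21508) (nat_lit 6) (nat_lit 283) (nat_lit 0) (nat_lit 138) (nat_lit 127) (nat_lit 125))))) (PT.nd (nat_lit 234) (PT.nd (nat_lit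 78) (PT.lf (nat_lit 20824) (nat_lit 6) (nat_lit 274) (nat_lit 0) (nat_lit 139) (nat_lit 127) (nat_lit 124)) (PT.nd (nat_lit 78) (PT.lf (nat_lit 20064) (nat_lit 6) (nat_lit 264) (nat_lit 0) (nat_lit 140) (nat_lit 127) (nat_lit 123)) (PT.lf (nat_lit 19228) (nat_lit 6) (nat_lit 253) (nat_lit 0) (nat_lit 141) (nat_lit 127) (nat_lit 122)))) (PT.nd (nat_lit 156) (PT.nd (nat_lit 78) (PT.lf (nat_lit 18316) (nat_lit 6) (nat_lit 241) (nat_lit 0) (nat_lit 142) (nat_lit 127) (nat_lit 121)) (PT.lf (nat_lit 17328) (nat_lit 6) (nat_lit 228) (nat_lit 0) (nat_lit 143) (nat_lit 127) (nat_lit 120))) (PT.nd (nat_lit 78) (PT.lf (nat_lit 16264) (nat_lit 6) (nat_lit 214) (nat_lit 0) (nat_lit 144) (nat_lit 127) (nat_lit 119)) (PT.lf (nat_lit 15124) (nat_lit 6) (nat_lit 199) (nat_lit 0) (nat_lit 145) (nat_lit 127) (nat_lit 118))))))) (PT.nd (nat_lit 1092) (PT.nd (nat_lit 546) (PT.nd (nat_lit 234) (PT.nd (nat_lit 78) (PT.lf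 (nat_lit 15200) (nat_lit 6) (nat_lit 200) (nat_lit 5) (nat_lit 117) (nat_lit 128) (nat_lit 145)) (PT.nd (nat_lit 78) (PT.lf (nat_lit 16340) (nat_lit 6) (nat_lit 215) (nat_lit 5) (nat_lit 118) (nat_lit 128) (nat_lit 144)) (PT.lf (nat_lit 17404) (nat_lit 6) (nat_lit 229) (nat_lit 5) (nat_lit 119) (nat_lit 128) (nat_lit 143)))) (PT.nd (nat_lit 156) (PT.nd (nat_lit 78) (PT.lf (nat_lit 18392) (nat_lit 6) (nat_lit 242) (nat_lit 5) (nat_lit 120) (nat_lit 128) (nat_lit 142)) (PT.lf (nat_lit 19304) (nat_lit 6) (nat_lit 254) (nat_lit 5) (nat_lit 121) (nat_lit 128) (nat_lit 141))) (PT.nd (nat_lit 78) (PT.lf (nat_lit 20140) (nat_lit 6) (nat_lit 265) (nat_lit 5) (nat_lit 122) (nat_lit 128) (nat_lit 140)) (PT.lf (nat_lit 20900) (nat_lit 6) (nat_lit 275) (nat_lit 5) (nat_lit 123) (nat_lit 128) (nat_lit 139))))) (PT.nd (nat_lit 234) (PT.nd (nat_lit 78) (PT.lf (nat_lit 21584) (nat_lit 6) (nat_lit 284) (nat_lit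 5) (nat_lit 124) (nat_lit 128) (nat_lit 138)) (PT.nd (nat_lit 78) (PT.lf (nat_lit 22192) (nat_lit 6) (nat_lit 292) (nat_lit 5) (nat_lit 125) (nat_lit 128) (nat_lit 137)) (PT.lf (nat_lit 22724) (nat_lit 6) (nat_lit 299) (nat_lit 5) (nat_lit 126) (nat_lit 128) (nat_lit 136)))) (PT.nd (nat_lit 156) (PT.nd (nat_lit 78) (PT.lf (nat_lit 23180) (nat_lit 6) (nat_lit 305) (nat_lit 5) (nat_lit 127) (nat_lit 128) (nat_lit 135)) (PT.lf (nat_lit 23560) (nat_lit 3) (nat_lit 310) (nat_lit 3) (nat_lit 128) (nat_lit 128) (nat_lit 134))) (PT.nd (nat_lit 78) (PT.lf (nat_lit 23940) (nat_lit 6) (nat_lit 315) (nat_lit 3) (nat_lit 129) (nat_lit 128) (nat_lit 133)) (PT.lf (nat_lit 24244) (nat_lit 6) (nat_lit 319) (nat_lit 3) (nat_lit 130) (nat_lit 128) (nat_lit 132)))))) (PT.nd (nat_lit 546) (PT.nd (nat_lit 234) (PT.nd (nat_lit 78) (PT.lf (nat_lit 24320) (nat_lit 3) (nat_lit 320) (nat_lit 1) (nat_lit 131) (nat_lit 128)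 (nat_lit 131)) (PT.nd (nat_lit 78) (PT.lf (nat_lit 24244) (nat_lit 6) (nat_lit 319) (nat_lit 1) (nat_lit 132) (nat_lit 128) (nat_lit 130)) (PT.lf (nat_lit 23940) (nat_lit 6) (nat_lit 315) (nat_lit 1) (nat_lit 133) (nat_lit 128) (nat_lit 129)))) (PT.nd (nat_lit 156) (PT.nd (nat_lit 78) (PT.lf (nat_lit 23560) (nat_lit 3) (nat_lit 310) (nat_lit 0) (nat_lit 134) (nat_lit 128) (nat_lit 128)) (PT.lf (nat_lit 23180) (nat_lit 6) (nat_lit 305) (nat_lit 0) (nat_lit 135) (nat_lit 128) (nat_lit 127))) (PT.nd (nat_lit 78) (PT.lf (nat_lit 22724) (nat_lit 6) (nat_lit 299) (nat_lit 0) (nat_lit 136) (nat_lit 128) (nat_lit 126)) (PT.lf (nat_lit 22192) (nat_lit 6) (nat_lit 292) (nat_lit 0) (nat_lit 137) (nat_lit 128) (nat_lit 125))))) (PT.nd (nat_lit 312) (PT.nd (nat_lit 156) (PT.nd (nat_lit 78) (PT.lf (nat_lit 21584) (nat_lit 6) (nat_lit 284) (nat_lit 0) (nat_lit 138) (nat_lit 128) (nat_lit 124)) (PT.lf (nat_lit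 20900) (nat_lit 6) (nat_lit 275) (nat_lit 0) (nat_lit 139) (nat_lit 128) (nat_lit 123))) (PT.nd (nat_lit 78) (PT.lf (nat_lit 20140) (nat_lit 6) (nat_lit 265) (nat_lit 0) (nat_lit 140) (nat_lit 128) (nat_lit 122)) (PT.lf (nat_lit 19304) (nat_lit 6) (nat_lit 254) (nat_lit 0) (nat_lit 141) (nat_lit 128) (nat_lit 121)))) (PT.nd (nat_lit 156) (PT.nd (nat_lit 78) (PT.lf (nat_lit 18392) (nat_lit 6) (nat_lit 242) (nat_lit 0) (nat_lit 142) (nat_lit 128) (nat_lit 120)) (PT.lf (nat_lit 17404) (nat_lit 6) (nat_lit 229) (nat_lit 0) (nat_lit 143) (nat_lit 128) (nat_lit 119))) (PT.nd (nat_lit 78) (PT.lf (nat_lit 16340) (nat_lit 6) (nat_lit 215) (nat_lit 0) (nat_lit 144) (nat_lit 128) (nat_lit 118)) (PT.lf (nat_lit 15200) (nat_lit 6) (nat_lit 200) (nat_lit 0) (nat_lit 145) (nat_lit 128) (nat_lit 117))))))))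
noncomputable def pc12 : PT := (PT.nd (nat_lit 2184) (PT.nd (nat_lit 1092) (PT.nd (nat_lit 546) (PT.nd (nat_lit 234) (PT.nd (nat_lit 78) (PT.lf (nat_lit 14060) (nat_lit 6) (nat_lit 185) (nat_lit 5) (nat_lit 115) (nat_lit 129) (nat_lit 146)) (PT.nd (nat_lit 78) (PT.lf (nat_lit 15276) (nat_lit 6) (nat_lit 201) (nat_lit 5) (nat_lit 116) (nat_lit 129) (nat_lit 145)) (PT.lf (nat_lit 16416) (nat_lit 6) (nat_lit 216) (nat_lit 5) (nat_lit 117) (nat_lit 129) (nat_lit 144)))) (PT.nd (nat_lit 156) (PT.nd (nat_lit 78) (PT.lf (nat_lit 17480) (nat_lit 6) (nat_lit 230) (nat_lit 5) (nat_lit 118) (nat_lit 129) (nat_lit 143)) (PT.lf (nat_lit 18468) (nat_lit 6) (nat_lit 243) (nat_lit 5) (nat_lit 119) (nat_lit 129) (nat_lit 142))) (PT.nd (nat_lit 78) (PT.lf (nat_lit 19380) (nat_lit 6) (nat_lit 255) (nat_lit 5) (nat_lit 120) (nat_lit 129) (nat_lit 141)) (PT.lf (nat_lit 20216) (nat_lit 6) (nat_lit 266) (nat_lit 5) (nat_lit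 121) (nat_lit 129) (nat_lit 140))))) (PT.nd (nat_lit 234) (PT.nd (nat_lit 78) (PT.lf (nat_lit 20976) (nat_lit 6) (nat_lit 276) (nat_lit 5) (nat_lit 122) (nat_lit 129) (nat_lit 139)) (PT.nd (nat_lit 78) (PT.lf (nat_lit 21660) (nat_lit 6) (nat_lit 285) (nat_lit 5) (nat_lit 123) (nat_lit 129) (nat_lit 138)) (PT.lf (nat_lit 22268) (nat_lit 6) (nat_lit 293) (nat_lit 5) (nat_lit 124) (nat_lit 129) (nat_lit 137)))) (PT.nd (nat_lit 156) (PT.nd (nat_lit 78) (PT.lf (nat_lit 22800) (nat_lit 6) (nat_lit 300) (nat_lit 5) (nat_lit 125) (nat_lit 129) (nat_lit 136)) (PT.lf (nat_lit 23256) (nat_lit 6) (nat_lit 306) (nat_lit 5) (nat_lit 126) (nat_lit 129) (nat_lit 135))) (PT.nd (nat_lit 78) (PT.lf (nat_lit 23636) (nat_lit 6) (nat_lit 311) (nat_lit 5) (nat_lit 127) (nat_lit 129) (nat_lit 134)) (PT.lf (nat_lit 23940) (nat_lit 6) (nat_lit 315) (nat_lit 5) (nat_lit 128) (nat_lit 129) (nat_lit 133)))))) (PT.nd (nat_lit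 546) (PT.nd (nat_lit 234) (PT.nd (nat_lit 78) (PT.lf (nat_lit 24168) (nat_lit 3) (nat_lit 318) (nat_lit 3) (nat_lit 129) (nat_lit 129) (nat_lit 132)) (PT.nd (nat_lit 78) (PT.lf (nat_lit 24396) (nat_lit 6) (nat_lit 321) (nat_lit 3) (nat_lit 130) (nat_lit 129) (nat_lit 131)) (PT.lf (nat_lit 24396) (nat_lit 6) (nat_lit 321) (nat_lit 1) (nat_lit 131) (nat_lit 129) (nat_lit 130)))) (PT.nd (nat_lit 156) (PT.nd (nat_lit 78) (PT.lf (nat_lit 24168) (nat_lit 3) (nat_lit 318) (nat_lit 0) (nat_lit 132) (nat_lit 129) (nat_lit 129)) (PT.lf (nat_lit 23940) (nat_lit 6) (nat_lit 315) (nat_lit 0) (nat_lit 133) (nat_lit 129) (nat_lit 128))) (PT.nd (nat_lit 78) (PT.lf (nat_lit 23636) (nat_lit 6) (nat_lit 311) (nat_lit 0) (nat_lit 134) (nat_lit 129) (nat_lit 127)) (PT.lf (nat_lit 23256) (nat_lit 6) (nat_lit 306) (nat_lit 0) (nat_lit 135) (nat_lit 129) (nat_lit 126))))) (PT.nd (nat_lit 234) (PT.nd (nat_lit 78) (PT.lf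 (nat_lit 22800) (nat_lit 6) (nat_lit 300) (nat_lit 0) (nat_lit 136) (nat_lit 129) (nat_lit 125)) (PT.nd (nat_lit 78) (PT.lf (nat_lit 22268) (nat_lit 6) (nat_lit 293) (nat_lit 0) (nat_lit 137) (nat_lit 129) (nat_lit 124)) (PT.lf (nat_lit 21660) (nat_lit 6) (nat_lit 285) (nat_lit 0) (nat_lit 138) (nat_lit 129) (nat_lit 123)))) (PT.nd (nat_lit 156) (PT.nd (nat_lit 78) (PT.lf (nat_lit 20976) (nat_lit 6) (nat_lit 276) (nat_lit 0) (nat_lit 139) (nat_lit 129) (nat_lit 122)) (PT.lf (nat_lit 20216) (nat_lit 6) (nat_lit 266) (nat_lit 0) (nat_lit 140) (nat_lit 129) (nat_lit 121))) (PT.nd (nat_lit 78) (PT.lf (nat_lit 19380) (nat_lit 6) (nat_lit 255) (nat_lit 0) (nat_lit 141) (nat_lit 129) (nat_lit 120)) (PT.lf (nat_lit 18468) (nat_lit 6) (nat_lit 243) (nat_lit 0) (nat_lit 142) (nat_lit 129) (nat_lit 119))))))) (PT.nd (nat_lit 39156) (PT.nd (nat_lit 38610) (PT.nd (nat_lit 234) (PT.nd (nat_lit 78) (PT.lf (nat_lit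 17480) (nat_lit 6) (nat_lit 230) (nat_lit 0) (nat_lit 143) (nat_lit 129) (nat_lit 118)) (PT.nd (nat_lit 78) (PT.lf (nat_lit 16416) (nat_lit 6) (nat_lit 216) (nat_lit 0) (nat_lit 144) (nat_lit 129) (nat_lit 117)) (PT.lf (nat_lit 15276) (nat_lit 6) (nat_lit 201) (nat_lit 0) (nat_lit 145) (nat_lit 129) (nat_lit 116)))) (PT.nd (nat_lit 38220) (PT.nd (nat_lit 38142) (PT.lf (nat_lit 14060) (nat_lit 6) (nat_lit 185) (nat_lit 0) (nat_lit 146) (nat_lit 129) (nat_lit 115)) (PT.lf (nat_lit 14136) (nat_lit 6) (nat_lit 186) (nat_lit 5) (nat_lit 114) (nat_lit 130) (nat_lit 146))) (PT.nd (nat_lit 78) (PT.lf (nat_lit 15352) (nat_lit 6) (nat_lit 202) (nat_lit 5) (nat_lit 115) (nat_lit 130) (nat_lit 145)) (PT.lf (nat_lit 16492) (nat_lit 6) (nat_lit 217) (nat_lit 5) (nat_lit 116) (nat_lit 130) (nat_lit 144))))) (PT.nd (nat_lit 234) (PT.nd (nat_lit 78) (PT.lf (nat_lit 17556) (nat_lit 6) (nat_lit 231) (nat_lit 5) (nat_lit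 117) (nat_lit 130) (nat_lit 143)) (PT.nd (nat_lit 78) (PT.lf (nat_lit 18544) (nat_lit 6) (nat_lit 244) (nat_lit 5) (nat_lit 118) (nat_lit 130) (nat_lit 142)) (PT.lf (nat_lit 19456) (nat_lit 6) (nat_lit 256) (nat_lit 5) (nat_lit 119) (nat_lit 130) (nat_lit 141)))) (PT.nd (nat_lit 156) (PT.nd (nat_lit 78) (PT.lf (nat_lit 20292) (nat_lit 6) (nat_lit 267) (nat_lit 5) (nat_lit 120) (nat_lit 130) (nat_lit 140)) (PT.lf (nat_lit 21052) (nat_lit 6) (nat_lit 277) (nat_lit 5) (nat_lit 121) (nat_lit 130) (nat_lit 139))) (PT.nd (nat_lit 78) (PT.lf (nat_lit 21736) (nat_lit 6) (nat_lit 286) (nat_lit 5) (nat_lit 122) (nat_lit 130) (nat_lit 138)) (PT.lf (nat_lit 22344) (nat_lit 6) (nat_lit 294) (nat_lit 5) (nat_lit 123) (nat_lit 130) (nat_lit 137)))))) (PT.nd (nat_lit 546) (PT.nd (nat_lit 234) (PT.nd (nat_lit 78) (PT.lf (nat_lit 22876) (nat_lit 6) (nat_lit 301) (nat_lit 5) (nat_lit 124) (nat_lit 130) (nat_lit 136))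 (PT.nd (nat_lit 78) (PT.lf (nat_lit 23332) (nat_lit 6) (nat_lit 307) (nat_lit 5) (nat_lit 125) (nat_lit 130) (nat_lit 135)) (PT.lf (nat_lit 23712) (nat_lit 6) (nat_lit 312) (nat_lit 5) (nat_lit 126) (nat_lit 130) (nat_lit 134)))) (PT.nd (nat_lit 156) (PT.nd (nat_lit 78) (PT.lf (nat_lit 24016) (nat_lit 6) (nat_lit 316) (nat_lit 5) (nat_lit 127) (nat_lit 130) (nat_lit 133)) (PT.lf (nat_lit 24244) (nat_lit 6) (nat_lit 319) (nat_lit 5) (nat_lit 128) (nat_lit 130) (nat_lit 132))) (PT.nd (nat_lit 78) (PT.lf (nat_lit 24396) (nat_lit 6) (nat_lit 321) (nat_lit 5) (nat_lit 129) (nat_lit 130) (nat_lit 131)) (PT.lf (nat_lit 24472) (nat_lit 1) (nat_lit 322) (nat_lit 0) (nat_lit 130) (nat_lit 130) (nat_lit 130))))) (PT.nd (nat_lit 234) (PT.nd (nat_lit 78) (PT.lf (nat_lit 24396) (nat_lit 6) (nat_lit 321) (nat_lit 0) (nat_lit 131) (nat_lit 130) (nat_lit 129)) (PT.nd (nat_lit 78) (PT.lf (nat_lit 24244) (nat_lit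 6) (nat_lit 319) (nat_lit 0) (nat_lit 132) (nat_lit 130) (nat_lit 128)) (PT.lf (nat_lit 24016) (nat_lit 6) (nat_lit 316) (nat_lit 0) (nat_lit 133) (nat_lit 130) (nat_lit 127)))) (PT.nd (nat_lit 156) (PT.nd (nat_lit 78) (PT.lf (nat_lit 23712) (nat_lit 6) (nat_lit 312) (nat_lit 0) (nat_lit 134) (nat_lit 130) (nat_lit 126)) (PT.lf (nat_lit 23332) (nat_lit 6) (nat_lit 307) (nat_lit 0) (nat_lit 135) (nat_lit 130) (nat_lit 125))) (PT.nd (nat_lit 78) (PT.lf (nat_lit 22876) (nat_lit 6) (nat_lit 301) (nat_lit 0) (nat_lit 136) (nat_lit 130) (nat_lit 124)) (PT.lf (nat_lit 22344) (nat_lit 6) (nat_lit 294) (nat_lit 0) (nat_lit 137) (nat_lit 130) (nat_lit 123))))))))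
noncomputable def pc13 : PT := (PT.nd (nat_lit 40170) (PT.nd (nat_lit 39078) (PT.nd (nat_lit 546) (PT.nd (nat_lit 234) (PT.nd (nat_lit 78) (PT.lf (nat_lit 21736) (nat_lit 6) (nat_lit 286) (nat_lit 0) (nat_lit 138) (nat_lit 130) (nat_lit 122)) (PT.nd (nat_lit 78) (PT.lf (nat_lit 21052) (nat_lit 6) (nat_lit 277) (nat_lit 0) (nat_lit 139) (nat_lit 130) (nat_lit 121)) (PT.lf (nat_lit 20292) (nat_lit 6) (nat_lit 267) (nat_lit 0) (nat_lit 140) (nat_lit 130) (nat_lit 120)))) (PT.nd (nat_lit 156) (PT.nd (nat_lit 78) (PT.lf (nat_lit 19456) (nat_lit 6) (nat_lit 256) (nat_lit 0) (nat_lit 141) (nat_lit 130) (nat_lit 119)) (PT.lf (nat_lit 18544) (nat_lit 6) (nat_lit 244) (nat_lit 0) (nat_lit 142) (nat_lit 130) (nat_lit 118))) (PT.nd (nat_lit 78) (PT.lf (nat_lit 17556) (nat_lit 6) (nat_lit 231) (nat_lit 0) (nat_lit 143) (nat_lit 130) (nat_lit 117)) (PT.lf (nat_lit 16492) (nat_lit 6) (nat_lit 217) (nat_lit 0)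 (nat_lit 144) (nat_lit 130) (nat_lit 116))))) (PT.nd (nat_lit 38220) (PT.nd (nat_lit 78) (PT.lf (nat_lit 15352) (nat_lit 6) (nat_lit 202) (nat_lit 0) (nat_lit 145) (nat_lit 130) (nat_lit 115)) (PT.nd (nat_lit 38064) (PT.lf (nat_lit 14136) (nat_lit 6) (nat_lit 186) (nat_lit 0) (nat_lit 146) (nat_lit 130) (nat_lit 114)) (PT.lf (nat_lit 13452) (nat_lit 6) (nat_lit 177) (nat_lit 5) (nat_lit 113) (nat_lit 131) (nat_lit 146)))) (PT.nd (nat_lit 156) (PT.nd (nat_lit 78) (PT.lf (nat_lit 14212) (nat_lit 6) (nat_lit 187) (nat_lit 5) (nat_lit 114) (nat_lit 131) (nat_lit 145)) (PT.lf (nat_lit 15428) (nat_lit 6) (nat_lit 203) (nat_lit 5) (nat_lit 115) (nat_lit 131) (nat_lit 144))) (PT.nd (nat_lit 78) (PT.lf (nat_lit 16568) (nat_lit 6) (nat_lit 218) (nat_lit 5) (nat_lit 116) (nat_lit 131) (nat_lit 143)) (PT.lf (nat_lit 17632) (nat_lit 6) (nat_lit 232) (nat_lit 5) (nat_lit 117) (nat_lit 131) (nat_lit 142))))))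 (PT.nd (nat_lit 546) (PT.nd (nat_lit 234) (PT.nd (nat_lit 78) (PT.lf (nat_lit 18620) (nat_lit 6) (nat_lit 245) (nat_lit 5) (nat_lit 118) (nat_lit 131) (nat_lit 141)) (PT.nd (nat_lit 78) (PT.lf (nat_lit 19532) (nat_lit 6) (nat_lit 257) (nat_lit 5) (nat_lit 119) (nat_lit 131) (nat_lit 140)) (PT.lf (nat_lit 20368) (nat_lit 6) (nat_lit 268) (nat_lit 5) (nat_lit 120) (nat_lit 131) (nat_lit 139)))) (PT.nd (nat_lit 156) (PT.nd (nat_lit 78) (PT.lf (nat_lit 21128) (nat_lit 6) (nat_lit 278) (nat_lit 5) (nat_lit 121) (nat_lit 131) (nat_lit 138)) (PT.lf (nat_lit 21812) (nat_lit 6) (nat_lit 287) (nat_lit 5) (nat_lit 122) (nat_lit 131) (nat_lit 137))) (PT.nd (nat_lit 78) (PT.lf (nat_lit 22420) (nat_lit 6) (nat_lit 295) (nat_lit 5) (nat_lit 123) (nat_lit 131) (nat_lit 136)) (PT.lf (nat_lit 22952) (nat_lit 6) (nat_lit 302) (nat_lit 5) (nat_lit 124) (nat_lit 131) (nat_lit 135))))) (PT.nd (nat_lit 234) (PT.nd (nat_lit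 78) (PT.lf (nat_lit 23408) (nat_lit 6) (nat_lit 308) (nat_lit 5) (nat_lit 125) (nat_lit 131) (nat_lit 134)) (PT.nd (nat_lit 78) (PT.lf (nat_lit 23788) (nat_lit 6) (nat_lit 313) (nat_lit 5) (nat_lit 126) (nat_lit 131) (nat_lit 133)) (PT.lf (nat_lit 24092) (nat_lit 6) (nat_lit 317) (nat_lit 5) (nat_lit 127) (nat_lit 131) (nat_lit 132)))) (PT.nd (nat_lit 156) (PT.nd (nat_lit 78) (PT.lf (nat_lit 24320) (nat_lit 3) (nat_lit 320) (nat_lit 4) (nat_lit 128) (nat_lit 131) (nat_lit 131)) (PT.lf (nat_lit 24396) (nat_lit 6) (nat_lit 321) (nat_lit 4) (nat_lit 129) (nat_lit 131) (nat_lit 130))) (PT.nd (nat_lit 78) (PT.lf (nat_lit 24396) (nat_lit 6) (nat_lit 321) (nat_lit 2) (nat_lit 130) (nat_lit 131) (nat_lit 129)) (PT.lf (nat_lit 24320) (nat_lit 3) (nat_lit 320) (nat_lit 0) (nat_lit 131) (nat_lit 131) (nat_lit 128))))))) (PT.nd (nat_lit 1092) (PT.nd (nat_lit 546) (PT.nd (nat_lit 234) (PT.nd (nat_lit 78) (PT.lf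 (nat_lit 24092) (nat_lit 6) (nat_lit 317) (nat_lit 0) (nat_lit 132) (nat_lit 131) (nat_lit 127)) (PT.nd (nat_lit 78) (PT.lf (nat_lit 23788) (nat_lit 6) (nat_lit 313) (nat_lit 0) (nat_lit 133) (nat_lit 131) (nat_lit 126)) (PT.lf (nat_lit 23408) (nat_lit 6) (nat_lit 308) (nat_lit 0) (nat_lit 134) (nat_lit 131) (nat_lit 125)))) (PT.nd (nat_lit 156) (PT.nd (nat_lit 78) (PT.lf (nat_lit 22952) (nat_lit 6) (nat_lit 302) (nat_lit 0) (nat_lit 135) (nat_lit 131) (nat_lit 124)) (PT.lf (nat_lit 22420) (nat_lit 6) (nat_lit 295) (nat_lit 0) (nat_lit 136) (nat_lit 131) (nat_lit 123))) (PT.nd (nat_lit 78) (PT.lf (nat_lit 21812) (nat_lit 6) (nat_lit 287) (nat_lit 0) (nat_lit 137) (nat_lit 131) (nat_lit 122)) (PT.lf (nat_lit 21128) (nat_lit 6) (nat_lit 278) (nat_lit 0) (nat_lit 138) (nat_lit 131) (nat_lit 121))))) (PT.nd (nat_lit 234) (PT.nd (nat_lit 78) (PT.lf (nat_lit 20368) (nat_lit 6) (nat_lit 268) (nat_lit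 0) (nat_lit 139) (nat_lit 131) (nat_lit 120)) (PT.nd (nat_lit 78) (PT.lf (nat_lit 19532) (nat_lit 6) (nat_lit 257) (nat_lit 0) (nat_lit 140) (nat_lit 131) (nat_lit 119)) (PT.lf (nat_lit 18620) (nat_lit 6) (nat_lit 245) (nat_lit 0) (nat_lit 141) (nat_lit 131) (nat_lit 118)))) (PT.nd (nat_lit 156) (PT.nd (nat_lit 78) (PT.lf (nat_lit 17632) (nat_lit 6) (nat_lit 232) (nat_lit 0) (nat_lit 142) (nat_lit 131) (nat_lit 117)) (PT.lf (nat_lit 16568) (nat_lit 6) (nat_lit 218) (nat_lit 0) (nat_lit 143) (nat_lit 131) (nat_lit 116))) (PT.nd (nat_lit 78) (PT.lf (nat_lit 15428) (nat_lit 6) (nat_lit 203) (nat_lit 0) (nat_lit 144) (nat_lit 131) (nat_lit 115)) (PT.lf (nat_lit 14212) (nat_lit 6) (nat_lit 187) (nat_lit 0) (nat_lit 145) (nat_lit 131) (nat_lit 114)))))) (PT.nd (nat_lit 38454) (PT.nd (nat_lit 38142) (PT.nd (nat_lit 37986) (PT.lf (nat_lit 13452) (nat_lit 6) (nat_lit 177) (nat_lit 0) (nat_lit 146) (nat_lit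 131) (nat_lit 113)) (PT.nd (nat_lit 78) (PT.lf (nat_lit 12844) (nat_lit 6) (nat_lit 169) (nat_lit 5) (nat_lit 112) (nat_lit 132) (nat_lit 146)) (PT.lf (nat_lit 13528) (nat_lit 6) (nat_lit 178) (nat_lit 5) (nat_lit 113) (nat_lit 132) (nat_lit 145)))) (PT.nd (nat_lit 156) (PT.nd (nat_lit 78) (PT.lf (nat_lit 14288) (nat_lit 6) (nat_lit 188) (nat_lit 5) (nat_lit 114) (nat_lit 132) (nat_lit 144)) (PT.lf (nat_lit 15504) (nat_lit 6) (nat_lit 204) (nat_lit 5) (nat_lit 115) (nat_lit 132) (nat_lit 143))) (PT.nd (nat_lit 78) (PT.lf (nat_lit 16644) (nat_lit 6) (nat_lit 219) (nat_lit 5) (nat_lit 116) (nat_lit 132) (nat_lit 142)) (PT.lf (nat_lit 17708) (nat_lit 6) (nat_lit 233) (nat_lit 5) (nat_lit 117) (nat_lit 132) (nat_lit 141))))) (PT.nd (nat_lit 312) (PT.nd (nat_lit 156) (PT.nd (nat_lit 78) (PT.lf (nat_lit 18696) (nat_lit 6) (nat_lit 246) (nat_lit 5) (nat_lit 118) (nat_lit 132) (nat_lit 140)) (PT.lf (nat_lit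 19608) (nat_lit 6) (nat_lit 258) (nat_lit 5) (nat_lit 119) (nat_lit 132) (nat_lit 139))) (PT.nd (nat_lit 78) (PT.lf (nat_lit 20444) (nat_lit 6) (nat_lit 269) (nat_lit 5) (nat_lit 120) (nat_lit 132) (nat_lit 138)) (PT.lf (nat_lit 21204) (nat_lit 6) (nat_lit 279) (nat_lit 5) (nat_lit 121) (nat_lit 132) (nat_lit 137)))) (PT.nd (nat_lit 156) (PT.nd (nat_lit 78) (PT.lf (nat_lit 21888) (nat_lit 6) (nat_lit 288) (nat_lit 5) (nat_lit 122) (nat_lit 132) (nat_lit 136)) (PT.lf (nat_lit 22496) (nat_lit 6) (nat_lit 296) (nat_lit 5) (nat_lit 123) (nat_lit 132) (nat_lit 135))) (PT.nd (nat_lit 78) (PT.lf (nat_lit 23028) (nat_lit 6) (nat_lit 303) (nat_lit 5) (nat_lit 124) (nat_lit 132) (nat_lit 134)) (PT.lf (nat_lit 23484) (nat_lit 6) (nat_lit 309) (nat_lit 5) (nat_lit 125) (nat_lit 132) (nat_lit 133))))))))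
noncomputable def pc14 : PT := (PT.nd (nat_lit 40014) (PT.nd (nat_lit 1092) (PT.nd (nat_lit 546) (PT.nd (nat_lit 234) (PT.nd (nat_lit 78) (PT.lf (nat_lit 23864) (nat_lit 3) (nat_lit 314) (nat_lit 4) (nat_lit 126) (nat_lit 132) (nat_lit 132)) (PT.nd (nat_lit 78) (PT.lf (nat_lit 24092) (nat_lit 6) (nat_lit 317) (nat_lit 4) (nat_lit 127) (nat_lit 132) (nat_lit 131)) (PT.lf (nat_lit 24244) (nat_lit 6) (nat_lit 319) (nat_lit 4) (nat_lit 128) (nat_lit 132) (nat_lit 130)))) (PT.nd (nat_lit 156) (PT.nd (nat_lit 78) (PT.lf (nat_lit 24168) (nat_lit 3) (nat_lit 318) (nat_lit 2) (nat_lit 129) (nat_lit 132) (nat_lit 129)) (PT.lf (nat_lit 24244) (nat_lit 6) (nat_lit 319) (nat_lit 2) (nat_lit 130) (nat_lit 132) (nat_lit 128))) (PT.nd (nat_lit 78) (PT.lf (nat_lit 24092) (nat_lit 6) (nat_lit 317) (nat_lit 2) (nat_lit 131) (nat_lit 132) (nat_lit 127)) (PT.lf (nat_lit 23864) (nat_lit 3) (nat_lit 314) (nat_lit 0)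 (nat_lit 132) (nat_lit 132) (nat_lit 126))))) (PT.nd (nat_lit 234) (PT.nd (nat_lit 78) (PT.lf (nat_lit 23484) (nat_lit 6) (nat_lit 309) (nat_lit 0) (nat_lit 133) (nat_lit 132) (nat_lit 125)) (PT.nd (nat_lit 78) (PT.lf (nat_lit 23028) (nat_lit 6) (nat_lit 303) (nat_lit 0) (nat_lit 134) (nat_lit 132) (nat_lit 124)) (PT.lf (nat_lit 22496) (nat_lit 6) (nat_lit 296) (nat_lit 0) (nat_lit 135) (nat_lit 132) (nat_lit 123)))) (PT.nd (nat_lit 156) (PT.nd (nat_lit 78) (PT.lf (nat_lit 21888) (nat_lit 6) (nat_lit 288) (nat_lit 0) (nat_lit 136) (nat_lit 132) (nat_lit 122)) (PT.lf (nat_lit 21204) (nat_lit 6) (nat_lit 279) (nat_lit 0) (nat_lit 137) (nat_lit 132) (nat_lit 121))) (PT.nd (nat_lit 78) (PT.lf (nat_lit 20444) (nat_lit 6) (nat_lit 269) (nat_lit 0) (nat_lit 138) (nat_lit 132) (nat_lit 120)) (PT.lf (nat_lit 19608) (nat_lit 6) (nat_lit 258) (nat_lit 0) (nat_lit 139) (nat_lit 132) (nat_lit 119)))))) (PT.nd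 (nat_lit 38376) (PT.nd (nat_lit 234) (PT.nd (nat_lit 78) (PT.lf (nat_lit 18696) (nat_lit 6) (nat_lit 246) (nat_lit 0) (nat_lit 140) (nat_lit 132) (nat_lit 118)) (PT.nd (nat_lit 78) (PT.lf (nat_lit 17708) (nat_lit 6) (nat_lit 233) (nat_lit 0) (nat_lit 141) (nat_lit 132) (nat_lit 117)) (PT.lf (nat_lit 16644) (nat_lit 6) (nat_lit 219) (nat_lit 0) (nat_lit 142) (nat_lit 132) (nat_lit 116)))) (PT.nd (nat_lit 156) (PT.nd (nat_lit 78) (PT.lf (nat_lit 15504) (nat_lit 6) (nat_lit 204) (nat_lit 0) (nat_lit 143) (nat_lit 132) (nat_lit 115)) (PT.lf (nat_lit 14288) (nat_lit 6) (nat_lit 188) (nat_lit 0) (nat_lit 144) (nat_lit 132) (nat_lit 114))) (PT.nd (nat_lit 78) (PT.lf (nat_lit 13528) (nat_lit 6) (nat_lit 178) (nat_lit 0) (nat_lit 145) (nat_lit 132) (nat_lit 113)) (PT.lf (nat_lit 12844) (nat_lit 6) (nat_lit 169) (nat_lit 0) (nat_lit 146) (nat_lit 132) (nat_lit 112))))) (PT.nd (nat_lit 234) (PT.nd (nat_lit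 78) (PT.lf (nat_lit 12312) (nat_lit 6) (nat_lit 162) (nat_lit 5) (nat_lit 111) (nat_lit 133) (nat_lit 146)) (PT.nd (nat_lit 78) (PT.lf (nat_lit 12920) (nat_lit 6) (nat_lit 170) (nat_lit 5) (nat_lit 112) (nat_lit 133) (nat_lit 145)) (PT.lf (nat_lit 13604) (nat_lit 6) (nat_lit 179) (nat_lit 5) (nat_lit 113) (nat_lit 133) (nat_lit 144)))) (PT.nd (nat_lit 156) (PT.nd (nat_lit 78) (PT.lf (nat_lit 14364) (nat_lit 6) (nat_lit 189) (nat_lit 5) (nat_lit 114) (nat_lit 133) (nat_lit 143)) (PT.lf (nat_lit 15580) (nat_lit 6) (nat_lit 205) (nat_lit 5) (nat_lit 115) (nat_lit 133) (nat_lit 142))) (PT.nd (nat_lit 78) (PT.lf (nat_lit 16720) (nat_lit 6) (nat_lit 220) (nat_lit 5) (nat_lit 116) (nat_lit 133) (nat_lit 141)) (PT.lf (nat_lit 17784) (nat_lit 6) (nat_lit 234) (nat_lit 5) (nat_lit 117) (nat_lit 133) (nat_lit 140))))))) (PT.nd (nat_lit 1092) (PT.nd (nat_lit 546) (PT.nd (nat_lit 234) (PT.nd (nat_lit 78) (PT.lf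 (nat_lit 18772) (nat_lit 6) (nat_lit 247) (nat_lit 5) (nat_lit 118) (nat_lit 133) (nat_lit 139)) (PT.nd (nat_lit 78) (PT.lf (nat_lit 19684) (nat_lit 6) (nat_lit 259) (nat_lit 5) (nat_lit 119) (nat_lit 133) (nat_lit 138)) (PT.lf (nat_lit 20520) (nat_lit 6) (nat_lit 270) (nat_lit 5) (nat_lit 120) (nat_lit 133) (nat_lit 137)))) (PT.nd (nat_lit 156) (PT.nd (nat_lit 78) (PT.lf (nat_lit 21280) (nat_lit 6) (nat_lit 280) (nat_lit 5) (nat_lit 121) (nat_lit 133) (nat_lit 136)) (PT.lf (nat_lit 21964) (nat_lit 6) (nat_lit 289) (nat_lit 5) (nat_lit 122) (nat_lit 133) (nat_lit 135))) (PT.nd (nat_lit 78) (PT.lf (nat_lit 22572) (nat_lit 6) (nat_lit 297) (nat_lit 5) (nat_lit 123) (nat_lit 133) (nat_lit 134)) (PT.lf (nat_lit 23104) (nat_lit 3) (nat_lit 304) (nat_lit 4) (nat_lit 124) (nat_lit 133) (nat_lit 133))))) (PT.nd (nat_lit 234) (PT.nd (nat_lit 78) (PT.lf (nat_lit 23484) (nat_lit 6) (nat_lit 309) (nat_lit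 4) (nat_lit 125) (nat_lit 133) (nat_lit 132)) (PT.nd (nat_lit 78) (PT.lf (nat_lit 23788) (nat_lit 6) (nat_lit 313) (nat_lit 4) (nat_lit 126) (nat_lit 133) (nat_lit 131)) (PT.lf (nat_lit 24016) (nat_lit 6) (nat_lit 316) (nat_lit 4) (nat_lit 127) (nat_lit 133) (nat_lit 130)))) (PT.nd (nat_lit 156) (PT.nd (nat_lit 78) (PT.lf (nat_lit 23940) (nat_lit 6) (nat_lit 315) (nat_lit 4) (nat_lit 128) (nat_lit 133) (nat_lit 129)) (PT.lf (nat_lit 23940) (nat_lit 6) (nat_lit 315) (nat_lit 2) (nat_lit 129) (nat_lit 133) (nat_lit 128))) (PT.nd (nat_lit 78) (PT.lf (nat_lit 24016) (nat_lit 6) (nat_lit 316) (nat_lit 2) (nat_lit 130) (nat_lit 133) (nat_lit 127)) (PT.lf (nat_lit 23788) (nat_lit 6) (nat_lit 313) (nat_lit 2) (nat_lit 131) (nat_lit 133) (nat_lit 126)))))) (PT.nd (nat_lit 546) (PT.nd (nat_lit 234) (PT.nd (nat_lit 78) (PT.lf (nat_lit 23484) (nat_lit 6) (nat_lit 309) (nat_lit 2) (nat_lit 132) (nat_lit 133)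 (nat_lit 125)) (PT.nd (nat_lit 78) (PT.lf (nat_lit 23104) (nat_lit 3) (nat_lit 304) (nat_lit 0) (nat_lit 133) (nat_lit 133) (nat_lit 124)) (PT.lf (nat_lit 22572) (nat_lit 6) (nat_lit 297) (nat_lit 0) (nat_lit 134) (nat_lit 133) (nat_lit 123)))) (PT.nd (nat_lit 156) (PT.nd (nat_lit 78) (PT.lf (nat_lit 21964) (nat_lit 6) (nat_lit 289) (nat_lit 0) (nat_lit 135) (nat_lit 133) (nat_lit 122)) (PT.lf (nat_lit 21280) (nat_lit 6) (nat_lit 280) (nat_lit 0) (nat_lit 136) (nat_lit 133) (nat_lit 121))) (PT.nd (nat_lit 78) (PT.lf (nat_lit 20520) (nat_lit 6) (nat_lit 270) (nat_lit 0) (nat_lit 137) (nat_lit 133) (nat_lit 120)) (PT.lf (nat_lit 19684) (nat_lit 6) (nat_lit 259) (nat_lit 0) (nat_lit 138) (nat_lit 133) (nat_lit 119))))) (PT.nd (nat_lit 234) (PT.nd (nat_lit 78) (PT.lf (nat_lit 18772) (nat_lit 6) (nat_lit 247) (nat_lit 0) (nat_lit 139) (nat_lit 133) (nat_lit 118)) (PT.nd (nat_lit 78) (PT.lf (nat_lit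 17784) (nat_lit 6) (nat_lit 234) (nat_lit 0) (nat_lit 140) (nat_lit 133) (nat_lit 117)) (PT.lf (nat_lit 16720) (nat_lit 6) (nat_lit 220) (nat_lit 0) (nat_lit 141) (nat_lit 133) (nat_lit 116)))) (PT.nd (nat_lit 156) (PT.nd (nat_lit 78) (PT.lf (nat_lit 15580) (nat_lit 6) (nat_lit 205) (nat_lit 0) (nat_lit 142) (nat_lit 133) (nat_lit 115)) (PT.lf (nat_lit 14364) (nat_lit 6) (nat_lit 189) (nat_lit 0) (nat_lit 143) (nat_lit 133) (nat_lit 114))) (PT.nd (nat_lit 78) (PT.lf (nat_lit 13604) (nat_lit 6) (nat_lit 179) (nat_lit 0) (nat_lit 144) (nat_lit 133) (nat_lit 113)) (PT.lf (nat_lit 12920) (nat_lit 6) (nat_lit 170) (nat_lit 0) (nat_lit 145) (nat_lit 133) (nat_lit 112))))))))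
noncomputable def pc15 : PT := (PT.nd (nat_lit 39858) (PT.nd (nat_lit 38766) (PT.nd (nat_lit 38220) (PT.nd (nat_lit 37908) (PT.nd (nat_lit 37752) (PT.lf (nat_lit 12312) (nat_lit 6) (nat_lit 162) (nat_lit 0) (nat_lit 146) (nat_lit 133) (nat_lit 111)) (PT.nd (nat_lit 78) (PT.lf (nat_lit 11248) (nat_lit 6) (nat_lit 148) (nat_lit 5) (nat_lit 109) (nat_lit 134) (nat_lit 147)) (PT.lf (nat_lit 11780) (nat_lit 6) (nat_lit 155) (nat_lit 5) (nat_lit 110) (nat_lit 134) (nat_lit 146)))) (PT.nd (nat_lit 156) (PT.nd (nat_lit 78) (PT.lf (nat_lit 12388) (nat_lit 6) (nat_lit 163) (nat_lit 5) (nat_lit 111) (nat_lit 134) (nat_lit 145)) (PT.lf (nat_lit 12996) (nat_lit 6) (nat_lit 171) (nat_lit 5) (nat_lit 112) (nat_lit 134) (nat_lit 144))) (PT.nd (nat_lit 78) (PT.lf (nat_lit 13680) (nat_lit 6) (nat_lit 180) (nat_lit 5) (nat_lit 113) (nat_lit 134) (nat_lit 143)) (PT.lf (nat_lit 14440) (nat_lit 6) (nat_lit 190) (nat_lit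 5) (nat_lit 114) (nat_lit 134) (nat_lit 142))))) (PT.nd (nat_lit 234) (PT.nd (nat_lit 78) (PT.lf (nat_lit 15656) (nat_lit 6) (nat_lit 206) (nat_lit 5) (nat_lit 115) (nat_lit 134) (nat_lit 141)) (PT.nd (nat_lit 78) (PT.lf (nat_lit 16796) (nat_lit 6) (nat_lit 221) (nat_lit 5) (nat_lit 116) (nat_lit 134) (nat_lit 140)) (PT.lf (nat_lit 17860) (nat_lit 6) (nat_lit 235) (nat_lit 5) (nat_lit 117) (nat_lit 134) (nat_lit 139)))) (PT.nd (nat_lit 156) (PT.nd (nat_lit 78) (PT.lf (nat_lit 18848) (nat_lit 6) (nat_lit 248) (nat_lit 5) (nat_lit 118) (nat_lit 134) (nat_lit 138)) (PT.lf (nat_lit 19760) (nat_lit 6) (nat_lit 260) (nat_lit 5) (nat_lit 119) (nat_lit 134) (nat_lit 137))) (PT.nd (nat_lit 78) (PT.lf (nat_lit 20596) (nat_lit 6) (nat_lit 271) (nat_lit 5) (nat_lit 120) (nat_lit 134) (nat_lit 136)) (PT.lf (nat_lit 21356) (nat_lit 6) (nat_lit 281) (nat_lit 5) (nat_lit 121) (nat_lit 134) (nat_lit 135)))))) (PT.nd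 (nat_lit 546) (PT.nd (nat_lit 234) (PT.nd (nat_lit 78) (PT.lf (nat_lit 22040) (nat_lit 3) (nat_lit 290) (nat_lit 4) (nat_lit 122) (nat_lit 134) (nat_lit 134)) (PT.nd (nat_lit 78) (PT.lf (nat_lit 22572) (nat_lit 6) (nat_lit 297) (nat_lit 4) (nat_lit 123) (nat_lit 134) (nat_lit 133)) (PT.lf (nat_lit 23028) (nat_lit 6) (nat_lit 303) (nat_lit 4) (nat_lit 124) (nat_lit 134) (nat_lit 132)))) (PT.nd (nat_lit 156) (PT.nd (nat_lit 78) (PT.lf (nat_lit 23408) (nat_lit 6) (nat_lit 308) (nat_lit 4) (nat_lit 125) (nat_lit 134) (nat_lit 131)) (PT.lf (nat_lit 23712) (nat_lit 6) (nat_lit 312) (nat_lit 4) (nat_lit 126) (nat_lit 134) (nat_lit 130))) (PT.nd (nat_lit 78) (PT.lf (nat_lit 23636) (nat_lit 6) (nat_lit 311) (nat_lit 4) (nat_lit 127) (nat_lit 134) (nat_lit 129)) (PT.lf (nat_lit 23560) (nat_lit 3) (nat_lit 310) (nat_lit 2) (nat_lit 128) (nat_lit 134) (nat_lit 128))))) (PT.nd (nat_lit 234) (PT.nd (nat_lit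 78) (PT.lf (nat_lit 23636) (nat_lit 6) (nat_lit 311) (nat_lit 2) (nat_lit 129) (nat_lit 134) (nat_lit 127)) (PT.nd (nat_lit 78) (PT.lf (nat_lit 23712) (nat_lit 6) (nat_lit 312) (nat_lit 2) (nat_lit 130) (nat_lit 134) (nat_lit 126)) (PT.lf (nat_lit 23408) (nat_lit 6) (nat_lit 308) (nat_lit 2) (nat_lit 131) (nat_lit 134) (nat_lit 125)))) (PT.nd (nat_lit 156) (PT.nd (nat_lit 78) (PT.lf (nat_lit 23028) (nat_lit 6) (nat_lit 303) (nat_lit 2) (nat_lit 132) (nat_lit 134) (nat_lit 124)) (PT.lf (nat_lit 22572) (nat_lit 6) (nat_lit 297) (nat_lit 2) (nat_lit 133) (nat_lit 134) (nat_lit 123))) (PT.nd (nat_lit 78) (PT.lf (nat_lit 22040) (nat_lit 3) (nat_lit 290) (nat_lit 0) (nat_lit 134) (nat_lit 134) (nat_lit 122)) (PT.lf (nat_lit 21356) (nat_lit 6) (nat_lit 281) (nat_lit 0) (nat_lit 135) (nat_lit 134) (nat_lit 121))))))) (PT.nd (nat_lit 38610) (PT.nd (nat_lit 546) (PT.nd (nat_lit 234) (PT.nd (nat_lit 78) (PT.lf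 (nat_lit 20596) (nat_lit 6) (nat_lit 271) (nat_lit 0) (nat_lit 136) (nat_lit 134) (nat_lit 120)) (PT.nd (nat_lit 78) (PT.lf (nat_lit 19760) (nat_lit 6) (nat_lit 260) (nat_lit 0) (nat_lit 137) (nat_lit 134) (nat_lit 119)) (PT.lf (nat_lit 18848) (nat_lit 6) (nat_lit 248) (nat_lit 0) (nat_lit 138) (nat_lit 134) (nat_lit 118)))) (PT.nd (nat_lit 156) (PT.nd (nat_lit 78) (PT.lf (nat_lit 17860) (nat_lit 6) (nat_lit 235) (nat_lit 0) (nat_lit 139) (nat_lit 134) (nat_lit 117)) (PT.lf (nat_lit 16796) (nat_lit 6) (nat_lit 221) (nat_lit 0) (nat_lit 140) (nat_lit 134) (nat_lit 116))) (PT.nd (nat_lit 78) (PT.lf (nat_lit 15656) (nat_lit 6) (nat_lit 206) (nat_lit 0) (nat_lit 141) (nat_lit 134) (nat_lit 115)) (PT.lf (nat_lit 14440) (nat_lit 6) (nat_lit 190) (nat_lit 0) (nat_lit 142) (nat_lit 134) (nat_lit 114))))) (PT.nd (nat_lit 234) (PT.nd (nat_lit 78) (PT.lf (nat_lit 13680) (nat_lit 6) (nat_lit 180) (nat_lit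 0) (nat_lit 143) (nat_lit 134) (nat_lit 113)) (PT.nd (nat_lit 78) (PT.lf (nat_lit 12996) (nat_lit 6) (nat_lit 171) (nat_lit 0) (nat_lit 144) (nat_lit 134) (nat_lit 112)) (PT.lf (nat_lit 12388) (nat_lit 6) (nat_lit 163) (nat_lit 0) (nat_lit 145) (nat_lit 134) (nat_lit 111)))) (PT.nd (nat_lit 37674) (PT.nd (nat_lit 78) (PT.lf (nat_lit 11780) (nat_lit 6) (nat_lit 155) (nat_lit 0) (nat_lit 146) (nat_lit 134) (nat_lit 110)) (PT.lf (nat_lit 11248) (nat_lit 6) (nat_lit 148) (nat_lit 0) (nat_lit 147) (nat_lit 134) (nat_lit 109))) (PT.nd (nat_lit 78) (PT.lf (nat_lit 10716) (nat_lit 6) (nat_lit 141) (nat_lit 5) (nat_lit 108) (nat_lit 135) (nat_lit 147)) (PT.lf (nat_lit 11324) (nat_lit 6) (nat_lit 149) (nat_lit 5) (nat_lit 109) (nat_lit 135) (nat_lit 146)))))) (PT.nd (nat_lit 546) (PT.nd (nat_lit 234) (PT.nd (nat_lit 78) (PT.lf (nat_lit 11856) (nat_lit 6) (nat_lit 156) (nat_lit 5) (nat_lit 110) (nat_lit 135)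 (nat_lit 145)) (PT.nd (nat_lit 78) (PT.lf (nat_lit 12464) (nat_lit 6) (nat_lit 164) (nat_lit 5) (nat_lit 111) (nat_lit 135) (nat_lit 144)) (PT.lf (nat_lit 13072) (nat_lit 6) (nat_lit 172) (nat_lit 5) (nat_lit 112) (nat_lit 135) (nat_lit 143)))) (PT.nd (nat_lit 156) (PT.nd (nat_lit 78) (PT.lf (nat_lit 13756) (nat_lit 6) (nat_lit 181) (nat_lit 5) (nat_lit 113) (nat_lit 135) (nat_lit 142)) (PT.lf (nat_lit 14516) (nat_lit 6) (nat_lit 191) (nat_lit 5) (nat_lit 114) (nat_lit 135) (nat_lit 141))) (PT.nd (nat_lit 78) (PT.lf (nat_lit 15732) (nat_lit 6) (nat_lit 207) (nat_lit 5) (nat_lit 115) (nat_lit 135) (nat_lit 140)) (PT.lf (nat_lit 16872) (nat_lit 6) (nat_lit 222) (nat_lit 5) (nat_lit 116) (nat_lit 135) (nat_lit 139))))) (PT.nd (nat_lit 312) (PT.nd (nat_lit 156) (PT.nd (nat_lit 78) (PT.lf (nat_lit 17936) (nat_lit 6) (nat_lit 236) (nat_lit 5) (nat_lit 117) (nat_lit 135) (nat_lit 138)) (PT.lf (nat_lit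 18924) (nat_lit 6) (nat_lit 249) (nat_lit 5) (nat_lit 118) (nat_lit 135) (nat_lit 137))) (PT.nd (nat_lit 78) (PT.lf (nat_lit 19836) (nat_lit 6) (nat_lit 261) (nat_lit 5) (nat_lit 119) (nat_lit 135) (nat_lit 136)) (PT.lf (nat_lit 20672) (nat_lit 3) (nat_lit 272) (nat_lit 4) (nat_lit 120) (nat_lit 135) (nat_lit 135)))) (PT.nd (nat_lit 156) (PT.nd (nat_lit 78) (PT.lf (nat_lit 21356) (nat_lit 6) (nat_lit 281) (nat_lit 4) (nat_lit 121) (nat_lit 135) (nat_lit 134)) (PT.lf (nat_lit 21964) (nat_lit 6) (nat_lit 289) (nat_lit 4) (nat_lit 122) (nat_lit 135) (nat_lit 133))) (PT.nd (nat_lit 78) (PT.lf (nat_lit 22496) (nat_lit 6) (nat_lit 296) (nat_lit 4) (nat_lit 123) (nat_lit 135) (nat_lit 132)) (PT.lf (nat_lit 22952) (nat_lit 6) (nat_lit 302) (nat_lit 4) (nat_lit 124) (nat_lit 135) (nat_lit 131))))))))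
noncomputable def pc16 : PT := (PT.nd (nat_lit 39624) (PT.nd (nat_lit 1092) (PT.nd (nat_lit 546) (PT.nd (nat_lit 234) (PT.nd (nat_lit 78) (PT.lf (nat_lit 23332) (nat_lit 6) (nat_lit 307) (nat_lit 4) (nat_lit 125) (nat_lit 135) (nat_lit 130)) (PT.nd (nat_lit 78) (PT.lf (nat_lit 23256) (nat_lit 6) (nat_lit 306) (nat_lit 4) (nat_lit 126) (nat_lit 135) (nat_lit 129)) (PT.lf (nat_lit 23180) (nat_lit 6) (nat_lit 305) (nat_lit 4) (nat_lit 127) (nat_lit 135) (nat_lit 128)))) (PT.nd (nat_lit 156) (PT.nd (nat_lit 78) (PT.lf (nat_lit 23180) (nat_lit 6) (nat_lit 305) (nat_lit 2) (nat_lit 128) (nat_lit 135) (nat_lit 127)) (PT.lf (nat_lit 23256) (nat_lit 6) (nat_lit 306) (nat_lit 2) (nat_lit 129) (nat_lit 135) (nat_lit 126))) (PT.nd (nat_lit 78) (PT.lf (nat_lit 23332) (nat_lit 6) (nat_lit 307) (nat_lit 2) (nat_lit 130) (nat_lit 135) (nat_lit 125)) (PT.lf (nat_lit 22952) (nat_lit 6) (nat_lit 302) (nat_lit 2)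 (nat_lit 131) (nat_lit 135) (nat_lit 124))))) (PT.nd (nat_lit 234) (PT.nd (nat_lit 78) (PT.lf (nat_lit 22496) (nat_lit 6) (nat_lit 296) (nat_lit 2) (nat_lit 132) (nat_lit 135) (nat_lit 123)) (PT.nd (nat_lit 78) (PT.lf (nat_lit 21964) (nat_lit 6) (nat_lit 289) (nat_lit 2) (nat_lit 133) (nat_lit 135) (nat_lit 122)) (PT.lf (nat_lit 21356) (nat_lit 6) (nat_lit 281) (nat_lit 2) (nat_lit 134) (nat_lit 135) (nat_lit 121)))) (PT.nd (nat_lit 156) (PT.nd (nat_lit 78) (PT.lf (nat_lit 20672) (nat_lit 3) (nat_lit 272) (nat_lit 0) (nat_lit 135) (nat_lit 135) (nat_lit 120)) (PT.lf (nat_lit 19836) (nat_lit 6) (nat_lit 261) (nat_lit 0) (nat_lit 136) (nat_lit 135) (nat_lit 119))) (PT.nd (nat_lit 78) (PT.lf (nat_lit 18924) (nat_lit 6) (nat_lit 249) (nat_lit 0) (nat_lit 137) (nat_lit 135) (nat_lit 118)) (PT.lf (nat_lit 17936) (nat_lit 6) (nat_lit 236) (nat_lit 0) (nat_lit 138) (nat_lit 135) (nat_lit 117)))))) (PT.nd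 (nat_lit 546) (PT.nd (nat_lit 234) (PT.nd (nat_lit 78) (PT.lf (nat_lit 16872) (nat_lit 6) (nat_lit 222) (nat_lit 0) (nat_lit 139) (nat_lit 135) (nat_lit 116)) (PT.nd (nat_lit 78) (PT.lf (nat_lit 15732) (nat_lit 6) (nat_lit 207) (nat_lit 0) (nat_lit 140) (nat_lit 135) (nat_lit 115)) (PT.lf (nat_lit 14516) (nat_lit 6) (nat_lit 191) (nat_lit 0) (nat_lit 141) (nat_lit 135) (nat_lit 114)))) (PT.nd (nat_lit 156) (PT.nd (nat_lit 78) (PT.lf (nat_lit 13756) (nat_lit 6) (nat_lit 181) (nat_lit 0) (nat_lit 142) (nat_lit 135) (nat_lit 113)) (PT.lf (nat_lit 13072) (nat_lit 6) (nat_lit 172) (nat_lit 0) (nat_lit 143) (nat_lit 135) (nat_lit 112))) (PT.nd (nat_lit 78) (PT.lf (nat_lit 12464) (nat_lit 6) (nat_lit 164) (nat_lit 0) (nat_lit 144) (nat_lit 135) (nat_lit 111)) (PT.lf (nat_lit 11856) (nat_lit 6) (nat_lit 156) (nat_lit 0) (nat_lit 145) (nat_lit 135) (nat_lit 110))))) (PT.nd (nat_lit 37674) (PT.nd (nat_lit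 78) (PT.lf (nat_lit 11324) (nat_lit 6) (nat_lit 149) (nat_lit 0) (nat_lit 146) (nat_lit 135) (nat_lit 109)) (PT.nd (nat_lit 37518) (PT.lf (nat_lit 10716) (nat_lit 6) (nat_lit 141) (nat_lit 0) (nat_lit 147) (nat_lit 135) (nat_lit 108)) (PT.lf (nat_lit 10260) (nat_lit 6) (nat_lit 135) (nat_lit 5) (nat_lit 107) (nat_lit 136) (nat_lit 147)))) (PT.nd (nat_lit 156) (PT.nd (nat_lit 78) (PT.lf (nat_lit 10792) (nat_lit 6) (nat_lit 142) (nat_lit 5) (nat_lit 108) (nat_lit 136) (nat_lit 146)) (PT.lf (nat_lit 11400) (nat_lit 6) (nat_lit 150) (nat_lit 5) (nat_lit 109) (nat_lit 136) (nat_lit 145))) (PT.nd (nat_lit 78) (PT.lf (nat_lit 11932) (nat_lit 6) (nat_lit 157) (nat_lit 5) (nat_lit 110) (nat_lit 136) (nat_lit 144)) (PT.lf (nat_lit 12540) (nat_lit 6) (nat_lit 165) (nat_lit 5) (nat_lit 111) (nat_lit 136) (nat_lit 143))))))) (PT.nd (nat_lit 1092) (PT.nd (nat_lit 546) (PT.nd (nat_lit 234) (PT.nd (nat_lit 78)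 (PT.lf (nat_lit 13148) (nat_lit 6) (nat_lit 173) (nat_lit 5) (nat_lit 112) (nat_lit 136) (nat_lit 142)) (PT.nd (nat_lit 78) (PT.lf (nat_lit 13832) (nat_lit 6) (nat_lit 182) (nat_lit 5) (nat_lit 113) (nat_lit 136) (nat_lit 141)) (PT.lf (nat_lit 14592) (nat_lit 6) (nat_lit 192) (nat_lit 5) (nat_lit 114) (nat_lit 136) (nat_lit 140)))) (PT.nd (nat_lit 156) (PT.nd (nat_lit 78) (PT.lf (nat_lit 15808) (nat_lit 6) (nat_lit 208) (nat_lit 5) (nat_lit 115) (nat_lit 136) (nat_lit 139)) (PT.lf (nat_lit 16948) (nat_lit 6) (nat_lit 223) (nat_lit 5) (nat_lit 116) (nat_lit 136) (nat_lit 138))) (PT.nd (nat_lit 78) (PT.lf (nat_lit 18012) (nat_lit 6) (nat_lit 237) (nat_lit 5) (nat_lit 117) (nat_lit 136) (nat_lit 137)) (PT.lf (nat_lit 19000) (nat_lit 3) (nat_lit 250) (nat_lit 4) (nat_lit 118) (nat_lit 136) (nat_lit 136))))) (PT.nd (nat_lit 234) (PT.nd (nat_lit 78) (PT.lf (nat_lit 19836) (nat_lit 6) (nat_lit 261) (nat_lit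 4) (nat_lit 119) (nat_lit 136) (nat_lit 135)) (PT.nd (nat_lit 78) (PT.lf (nat_lit 20596) (nat_lit 6) (nat_lit 271) (nat_lit 4) (nat_lit 120) (nat_lit 136) (nat_lit 134)) (PT.lf (nat_lit 21280) (nat_lit 6) (nat_lit 280) (nat_lit 4) (nat_lit 121) (nat_lit 136) (nat_lit 133)))) (PT.nd (nat_lit 156) (PT.nd (nat_lit 78) (PT.lf (nat_lit 21888) (nat_lit 6) (nat_lit 288) (nat_lit 4) (nat_lit 122) (nat_lit 136) (nat_lit 132)) (PT.lf (nat_lit 22420) (nat_lit 6) (nat_lit 295) (nat_lit 4) (nat_lit 123) (nat_lit 136) (nat_lit 131))) (PT.nd (nat_lit 78) (PT.lf (nat_lit 22876) (nat_lit 6) (nat_lit 301) (nat_lit 4) (nat_lit 124) (nat_lit 136) (nat_lit 130)) (PT.lf (nat_lit 22800) (nat_lit 6) (nat_lit 300) (nat_lit 4) (nat_lit 125) (nat_lit 136) (nat_lit 129)))))) (PT.nd (nat_lit 546) (PT.nd (nat_lit 234) (PT.nd (nat_lit 78) (PT.lf (nat_lit 22724) (nat_lit 6) (nat_lit 299) (nat_lit 4) (nat_lit 126) (nat_lit 136)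 (nat_lit 128)) (PT.nd (nat_lit 78) (PT.lf (nat_lit 22648) (nat_lit 3) (nat_lit 298) (nat_lit 2) (nat_lit 127) (nat_lit 136) (nat_lit 127)) (PT.lf (nat_lit 22724) (nat_lit 6) (nat_lit 299) (nat_lit 2) (nat_lit 128) (nat_lit 136) (nat_lit 126)))) (PT.nd (nat_lit 156) (PT.nd (nat_lit 78) (PT.lf (nat_lit 22800) (nat_lit 6) (nat_lit 300) (nat_lit 2) (nat_lit 129) (nat_lit 136) (nat_lit 125)) (PT.lf (nat_lit 22876) (nat_lit 6) (nat_lit 301) (nat_lit 2) (nat_lit 130) (nat_lit 136) (nat_lit 124))) (PT.nd (nat_lit 78) (PT.lf (nat_lit 22420) (nat_lit 6) (nat_lit 295) (nat_lit 2) (nat_lit 131) (nat_lit 136) (nat_lit 123)) (PT.lf (nat_lit 21888) (nat_lit 6) (nat_lit 288) (nat_lit 2) (nat_lit 132) (nat_lit 136) (nat_lit 122))))) (PT.nd (nat_lit 234) (PT.nd (nat_lit 78) (PT.lf (nat_lit 21280) (nat_lit 6) (nat_lit 280) (nat_lit 2) (nat_lit 133) (nat_lit 136) (nat_lit 121)) (PT.nd (nat_lit 78) (PT.lf (nat_lit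 20596) (nat_lit 6) (nat_lit 271) (nat_lit 2) (nat_lit 134) (nat_lit 136) (nat_lit 120)) (PT.lf (nat_lit 19836) (nat_lit 6) (nat_lit 261) (nat_lit 2) (nat_lit 135) (nat_lit 136) (nat_lit 119)))) (PT.nd (nat_lit 156) (PT.nd (nat_lit 78) (PT.lf (nat_lit 19000) (nat_lit 3) (nat_lit 250) (nat_lit 0) (nat_lit 136) (nat_lit 136) (nat_lit 118)) (PT.lf (nat_lit 18012) (nat_lit 6) (nat_lit 237) (nat_lit 0) (nat_lit 137) (nat_lit 136) (nat_lit 117))) (PT.nd (nat_lit 78) (PT.lf (nat_lit 16948) (nat_lit 6) (nat_lit 223) (nat_lit 0) (nat_lit 138) (nat_lit 136) (nat_lit 116)) (PT.lf (nat_lit 15808) (nat_lit 6) (nat_lit 208) (nat_lit 0) (nat_lit 139) (nat_lit 136) (nat_lit 115))))))))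
noncomputable def pc17 : PT := (PT.nd (nat_lit 39468) (PT.nd (nat_lit 38376) (PT.nd (nat_lit 546) (PT.nd (nat_lit 234) (PT.nd (nat_lit 78) (PT.lf (nat_lit 14592) (nat_lit 6) (nat_lit 192) (nat_lit 0) (nat_lit 140) (nat_lit 136) (nat_lit 114)) (PT.nd (nat_lit 78) (PT.lf (nat_lit 13832) (nat_lit 6) (nat_lit 182) (nat_lit 0) (nat_lit 141) (nat_lit 136) (nat_lit 113)) (PT.lf (nat_lit 13148) (nat_lit 6) (nat_lit 173) (nat_lit 0) (nat_lit 142) (nat_lit 136) (nat_lit 112)))) (PT.nd (nat_lit 156) (PT.nd (nat_lit 78) (PT.lf (nat_lit 12540) (nat_lit 6) (nat_lit 165) (nat_lit 0) (nat_lit 143) (nat_lit 136) (nat_lit 111)) (PT.lf (nat_lit 11932) (nat_lit 6) (nat_lit 157) (nat_lit 0) (nat_lit 144) (nat_lit 136) (nat_lit 110))) (PT.nd (nat_lit 78) (PT.lf (nat_lit 11400) (nat_lit 6) (nat_lit 150) (nat_lit 0) (nat_lit 145) (nat_lit 136) (nat_lit 109)) (PT.lf (nat_lit 10792) (nat_lit 6) (nat_lit 142) (nat_lit 0)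 (nat_lit 146) (nat_lit 136) (nat_lit 108))))) (PT.nd (nat_lit 37518) (PT.nd (nat_lit 37362) (PT.lf (nat_lit 10260) (nat_lit 6) (nat_lit 135) (nat_lit 0) (nat_lit 147) (nat_lit 136) (nat_lit 107)) (PT.nd (nat_lit 78) (PT.lf (nat_lit 9348) (nat_lit 6) (nat_lit 123) (nat_lit 5) (nat_lit 105) (nat_lit 137) (nat_lit 148)) (PT.lf (nat_lit 9804) (nat_lit 6) (nat_lit 129) (nat_lit 5) (nat_lit 106) (nat_lit 137) (nat_lit 147)))) (PT.nd (nat_lit 156) (PT.nd (nat_lit 78) (PT.lf (nat_lit 10336) (nat_lit 6) (nat_lit 136) (nat_lit 5) (nat_lit 107) (nat_lit 137) (nat_lit 146)) (PT.lf (nat_lit 10868) (nat_lit 6) (nat_lit 143) (nat_lit 5) (nat_lit 108) (nat_lit 137) (nat_lit 145))) (PT.nd (nat_lit 78) (PT.lf (nat_lit 11476) (nat_lit 6) (nat_lit 151) (nat_lit 5) (nat_lit 109) (nat_lit 137) (nat_lit 144)) (PT.lf (nat_lit 12008) (nat_lit 6) (nat_lit 158) (nat_lit 5) (nat_lit 110) (nat_lit 137) (nat_lit 143)))))) (PT.nd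 (nat_lit 546) (PT.nd (nat_lit 234) (PT.nd (nat_lit 78) (PT.lf (nat_lit 12616) (nat_lit 6) (nat_lit 166) (nat_lit 5) (nat_lit 111) (nat_lit 137) (nat_lit 142)) (PT.nd (nat_lit 78) (PT.lf (nat_lit 13224) (nat_lit 6) (nat_lit 174) (nat_lit 5) (nat_lit 112) (nat_lit 137) (nat_lit 141)) (PT.lf (nat_lit 13908) (nat_lit 6) (nat_lit 183) (nat_lit 5) (nat_lit 113) (nat_lit 137) (nat_lit 140)))) (PT.nd (nat_lit 156) (PT.nd (nat_lit 78) (PT.lf (nat_lit 14668) (nat_lit 6) (nat_lit 193) (nat_lit 5) (nat_lit 114) (nat_lit 137) (nat_lit 139)) (PT.lf (nat_lit 15884) (nat_lit 6) (nat_lit 209) (nat_lit 5) (nat_lit 115) (nat_lit 137) (nat_lit 138))) (PT.nd (nat_lit 78) (PT.lf (nat_lit 17024) (nat_lit 3) (nat_lit 224) (nat_lit 4) (nat_lit 116) (nat_lit 137) (nat_lit 137)) (PT.lf (nat_lit 18012) (nat_lit 6) (nat_lit 237) (nat_lit 4) (nat_lit 117) (nat_lit 137) (nat_lit 136))))) (PT.nd (nat_lit 234) (PT.nd (nat_lit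 78) (PT.lf (nat_lit 18924) (nat_lit 6) (nat_lit 249) (nat_lit 4) (nat_lit 118) (nat_lit 137) (nat_lit 135)) (PT.nd (nat_lit 78) (PT.lf (nat_lit 19760) (nat_lit 6) (nat_lit 260) (nat_lit 4) (nat_lit 119) (nat_lit 137) (nat_lit 134)) (PT.lf (nat_lit 20520) (nat_lit 6) (nat_lit 270) (nat_lit 4) (nat_lit 120) (nat_lit 137) (nat_lit 133)))) (PT.nd (nat_lit 156) (PT.nd (nat_lit 78) (PT.lf (nat_lit 21204) (nat_lit 6) (nat_lit 279) (nat_lit 4) (nat_lit 121) (nat_lit 137) (nat_lit 132)) (PT.lf (nat_lit 21812) (nat_lit 6) (nat_lit 287) (nat_lit 4) (nat_lit 122) (nat_lit 137) (nat_lit 131))) (PT.nd (nat_lit 78) (PT.lf (nat_lit 22344) (nat_lit 6) (nat_lit 294) (nat_lit 4) (nat_lit 123) (nat_lit 137) (nat_lit 130)) (PT.lf (nat_lit 22268) (nat_lit 6) (nat_lit 293) (nat_lit 4) (nat_lit 124) (nat_lit 137) (nat_lit 129))))))) (PT.nd (nat_lit 1092) (PT.nd (nat_lit 546) (PT.nd (nat_lit 234) (PT.nd (nat_lit 78) (PT.lf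 (nat_lit 22192) (nat_lit 6) (nat_lit 292) (nat_lit 4) (nat_lit 125) (nat_lit 137) (nat_lit 128)) (PT.nd (nat_lit 78) (PT.lf (nat_lit 22116) (nat_lit 6) (nat_lit 291) (nat_lit 4) (nat_lit 126) (nat_lit 137) (nat_lit 127)) (PT.lf (nat_lit 22116) (nat_lit 6) (nat_lit 291) (nat_lit 2) (nat_lit 127) (nat_lit 137) (nat_lit 126)))) (PT.nd (nat_lit 156) (PT.nd (nat_lit 78) (PT.lf (nat_lit 22192) (nat_lit 6) (nat_lit 292) (nat_lit 2) (nat_lit 128) (nat_lit 137) (nat_lit 125)) (PT.lf (nat_lit 22268) (nat_lit 6) (nat_lit 293) (nat_lit 2) (nat_lit 129) (nat_lit 137) (nat_lit 124))) (PT.nd (nat_lit 78) (PT.lf (nat_lit 22344) (nat_lit 6) (nat_lit 294) (nat_lit 2) (nat_lit 130) (nat_lit 137) (nat_lit 123)) (PT.lf (nat_lit 21812) (nat_lit 6) (nat_lit 287) (nat_lit 2) (nat_lit 131) (nat_lit 137) (nat_lit 122))))) (PT.nd (nat_lit 234) (PT.nd (nat_lit 78) (PT.lf (nat_lit 21204) (nat_lit 6) (nat_lit 279) (nat_lit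 2) (nat_lit 132) (nat_lit 137) (nat_lit 121)) (PT.nd (nat_lit 78) (PT.lf (nat_lit 20520) (nat_lit 6) (nat_lit 270) (nat_lit 2) (nat_lit 133) (nat_lit 137) (nat_lit 120)) (PT.lf (nat_lit 19760) (nat_lit 6) (nat_lit 260) (nat_lit 2) (nat_lit 134) (nat_lit 137) (nat_lit 119)))) (PT.nd (nat_lit 156) (PT.nd (nat_lit 78) (PT.lf (nat_lit 18924) (nat_lit 6) (nat_lit 249) (nat_lit 2) (nat_lit 135) (nat_lit 137) (nat_lit 118)) (PT.lf (nat_lit 18012) (nat_lit 6) (nat_lit 237) (nat_lit 2) (nat_lit 136) (nat_lit 137) (nat_lit 117))) (PT.nd (nat_lit 78) (PT.lf (nat_lit 17024) (nat_lit 3) (nat_lit 224) (nat_lit 0) (nat_lit 137) (nat_lit 137) (nat_lit 116)) (PT.lf (nat_lit 15884) (nat_lit 6) (nat_lit 209) (nat_lit 0) (nat_lit 138) (nat_lit 137) (nat_lit 115)))))) (PT.nd (nat_lit 546) (PT.nd (nat_lit 234) (PT.nd (nat_lit 78) (PT.lf (nat_lit 14668) (nat_lit 6) (nat_lit 193) (nat_lit 0) (nat_lit 139) (nat_lit 137)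 (nat_lit 114)) (PT.nd (nat_lit 78) (PT.lf (nat_lit 13908) (nat_lit 6) (nat_lit 183) (nat_lit 0) (nat_lit 140) (nat_lit 137) (nat_lit 113)) (PT.lf (nat_lit 13224) (nat_lit 6) (nat_lit 174) (nat_lit 0) (nat_lit 141) (nat_lit 137) (nat_lit 112)))) (PT.nd (nat_lit 156) (PT.nd (nat_lit 78) (PT.lf (nat_lit 12616) (nat_lit 6) (nat_lit 166) (nat_lit 0) (nat_lit 142) (nat_lit 137) (nat_lit 111)) (PT.lf (nat_lit 12008) (nat_lit 6) (nat_lit 158) (nat_lit 0) (nat_lit 143) (nat_lit 137) (nat_lit 110))) (PT.nd (nat_lit 78) (PT.lf (nat_lit 11476) (nat_lit 6) (nat_lit 151) (nat_lit 0) (nat_lit 144) (nat_lit 137) (nat_lit 109)) (PT.lf (nat_lit 10868) (nat_lit 6) (nat_lit 143) (nat_lit 0) (nat_lit 145) (nat_lit 137) (nat_lit 108))))) (PT.nd (nat_lit 37362) (PT.nd (nat_lit 78) (PT.lf (nat_lit 10336) (nat_lit 6) (nat_lit 136) (nat_lit 0) (nat_lit 146) (nat_lit 137) (nat_lit 107)) (PT.nd (nat_lit 78) (PT.lf (nat_lit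 9804) (nat_lit 6) (nat_lit 129) (nat_lit 0) (nat_lit 147) (nat_lit 137) (nat_lit 106)) (PT.lf (nat_lit 9348) (nat_lit 6) (nat_lit 123) (nat_lit 0) (nat_lit 148) (nat_lit 137) (nat_lit 105)))) (PT.nd (nat_lit 156) (PT.nd (nat_lit 78) (PT.lf (nat_lit 8892) (nat_lit 6) (nat_lit 117) (nat_lit 5) (nat_lit 104) (nat_lit 138) (nat_lit 148)) (PT.lf (nat_lit 9424) (nat_lit 6) (nat_lit 124) (nat_lit 5) (nat_lit 105) (nat_lit 138) (nat_lit 147))) (PT.nd (nat_lit 78) (PT.lf (nat_lit 9880) (nat_lit 6) (nat_lit 130) (nat_lit 5) (nat_lit 106) (nat_lit 138) (nat_lit 146)) (PT.lf (nat_lit 10412) (nat_lit 6) (nat_lit 137) (nat_lit 5) (nat_lit 107) (nat_lit 138) (nat_lit 145))))))))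
noncomputable def pc18 : PT := (PT.nd (nat_lit 2184) (PT.nd (nat_lit 1092) (PT.nd (nat_lit 546) (PT.nd (nat_lit 234) (PT.nd (nat_lit 78) (PT.lf (nat_lit 10944) (nat_lit 6) (nat_lit 144) (nat_lit 5) (nat_lit 108) (nat_lit 138) (nat_lit 144)) (PT.nd (nat_lit 78) (PT.lf (nat_lit 11552) (nat_lit 6) (nat_lit 152) (nat_lit 5) (nat_lit 109) (nat_lit 138) (nat_lit 143)) (PT.lf (nat_lit 12084) (nat_lit 6) (nat_lit 159) (nat_lit 5) (nat_lit 110) (nat_lit 138) (nat_lit 142)))) (PT.nd (nat_lit 156) (PT.nd (nat_lit 78) (PT.lf (nat_lit 12692) (nat_lit 6) (nat_lit 167) (nat_lit 5) (nat_lit 111) (nat_lit 138) (nat_lit 141)) (PT.lf (nat_lit 13300) (nat_lit 6) (nat_lit 175) (nat_lit 5) (nat_lit 112) (nat_lit 138) (nat_lit 140))) (PT.nd (nat_lit 78) (PT.lf (nat_lit 13984) (nat_lit 6) (nat_lit 184) (nat_lit 5) (nat_lit 113) (nat_lit 138) (nat_lit 139)) (PT.lf (nat_lit 14744) (nat_lit 3) (nat_lit 194) (nat_lit 4) (nat_lit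 114) (nat_lit 138) (nat_lit 138))))) (PT.nd (nat_lit 234) (PT.nd (nat_lit 78) (PT.lf (nat_lit 15884) (nat_lit 6) (nat_lit 209) (nat_lit 4) (nat_lit 115) (nat_lit 138) (nat_lit 137)) (PT.nd (nat_lit 78) (PT.lf (nat_lit 16948) (nat_lit 6) (nat_lit 223) (nat_lit 4) (nat_lit 116) (nat_lit 138) (nat_lit 136)) (PT.lf (nat_lit 17936) (nat_lit 6) (nat_lit 236) (nat_lit 4) (nat_lit 117) (nat_lit 138) (nat_lit 135)))) (PT.nd (nat_lit 156) (PT.nd (nat_lit 78) (PT.lf (nat_lit 18848) (nat_lit 6) (nat_lit 248) (nat_lit 4) (nat_lit 118) (nat_lit 138) (nat_lit 134)) (PT.lf (nat_lit 19684) (nat_lit 6) (nat_lit 259) (nat_lit 4) (nat_lit 119) (nat_lit 138) (nat_lit 133))) (PT.nd (nat_lit 78) (PT.lf (nat_lit 20444) (nat_lit 6) (nat_lit 269) (nat_lit 4) (nat_lit 120) (nat_lit 138) (nat_lit 132)) (PT.lf (nat_lit 21128) (nat_lit 6) (nat_lit 278) (nat_lit 4) (nat_lit 121) (nat_lit 138) (nat_lit 131)))))) (PT.nd (nat_lit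 546) (PT.nd (nat_lit 234) (PT.nd (nat_lit 78) (PT.lf (nat_lit 21736) (nat_lit 6) (nat_lit 286) (nat_lit 4) (nat_lit 122) (nat_lit 138) (nat_lit 130)) (PT.nd (nat_lit 78) (PT.lf (nat_lit 21660) (nat_lit 6) (nat_lit 285) (nat_lit 4) (nat_lit 123) (nat_lit 138) (nat_lit 129)) (PT.lf (nat_lit 21584) (nat_lit 6) (nat_lit 284) (nat_lit 4) (nat_lit 124) (nat_lit 138) (nat_lit 128)))) (PT.nd (nat_lit 156) (PT.nd (nat_lit 78) (PT.lf (nat_lit 21508) (nat_lit 6) (nat_lit 283) (nat_lit 4) (nat_lit 125) (nat_lit 138) (nat_lit 127)) (PT.lf (nat_lit 21432) (nat_lit 3) (nat_lit 282) (nat_lit 2) (nat_lit 126) (nat_lit 138) (nat_lit 126))) (PT.nd (nat_lit 78) (PT.lf (nat_lit 21508) (nat_lit 6) (nat_lit 283) (nat_lit 2) (nat_lit 127) (nat_lit 138) (nat_lit 125)) (PT.lf (nat_lit 21584) (nat_lit 6) (nat_lit 284) (nat_lit 2) (nat_lit 128) (nat_lit 138) (nat_lit 124))))) (PT.nd (nat_lit 234) (PT.nd (nat_lit 78) (PT.lf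 (nat_lit 21660) (nat_lit 6) (nat_lit 285) (nat_lit 2) (nat_lit 129) (nat_lit 138) (nat_lit 123)) (PT.nd (nat_lit 78) (PT.lf (nat_lit 21736) (nat_lit 6) (nat_lit 286) (nat_lit 2) (nat_lit 130) (nat_lit 138) (nat_lit 122)) (PT.lf (nat_lit 21128) (nat_lit 6) (nat_lit 278) (nat_lit 2) (nat_lit 131) (nat_lit 138) (nat_lit 121)))) (PT.nd (nat_lit 156) (PT.nd (nat_lit 78) (PT.lf (nat_lit 20444) (nat_lit 6) (nat_lit 269) (nat_lit 2) (nat_lit 132) (nat_lit 138) (nat_lit 120)) (PT.lf (nat_lit 19684) (nat_lit 6) (nat_lit 259) (nat_lit 2) (nat_lit 133) (nat_lit 138) (nat_lit 119))) (PT.nd (nat_lit 78) (PT.lf (nat_lit 18848) (nat_lit 6) (nat_lit 248) (nat_lit 2) (nat_lit 134) (nat_lit 138) (nat_lit 118)) (PT.lf (nat_lit 17936) (nat_lit 6) (nat_lit 236) (nat_lit 2) (nat_lit 135) (nat_lit 138) (nat_lit 117))))))) (PT.nd (nat_lit 38142) (PT.nd (nat_lit 546) (PT.nd (nat_lit 234) (PT.nd (nat_lit 78) (PT.lf (nat_lit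 16948) (nat_lit 6) (nat_lit 223) (nat_lit 2) (nat_lit 136) (nat_lit 138) (nat_lit 116)) (PT.nd (nat_lit 78) (PT.lf (nat_lit 15884) (nat_lit 6) (nat_lit 209) (nat_lit 2) (nat_lit 137) (nat_lit 138) (nat_lit 115)) (PT.lf (nat_lit 14744) (nat_lit 3) (nat_lit 194) (nat_lit 0) (nat_lit 138) (nat_lit 138) (nat_lit 114)))) (PT.nd (nat_lit 156) (PT.nd (nat_lit 78) (PT.lf (nat_lit 13984) (nat_lit 6) (nat_lit 184) (nat_lit 0) (nat_lit 139) (nat_lit 138) (nat_lit 113)) (PT.lf (nat_lit 13300) (nat_lit 6) (nat_lit 175) (nat_lit 0) (nat_lit 140) (nat_lit 138) (nat_lit 112))) (PT.nd (nat_lit 78) (PT.lf (nat_lit 12692) (nat_lit 6) (nat_lit 167) (nat_lit 0) (nat_lit 141) (nat_lit 138) (nat_lit 111)) (PT.lf (nat_lit 12084) (nat_lit 6) (nat_lit 159) (nat_lit 0) (nat_lit 142) (nat_lit 138) (nat_lit 110))))) (PT.nd (nat_lit 234) (PT.nd (nat_lit 78) (PT.lf (nat_lit 11552) (nat_lit 6) (nat_lit 152) (nat_lit 0) (nat_lit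 143) (nat_lit 138) (nat_lit 109)) (PT.nd (nat_lit 78) (PT.lf (nat_lit 10944) (nat_lit 6) (nat_lit 144) (nat_lit 0) (nat_lit 144) (nat_lit 138) (nat_lit 108)) (PT.lf (nat_lit 10412) (nat_lit 6) (nat_lit 137) (nat_lit 0) (nat_lit 145) (nat_lit 138) (nat_lit 107)))) (PT.nd (nat_lit 156) (PT.nd (nat_lit 78) (PT.lf (nat_lit 9880) (nat_lit 6) (nat_lit 130) (nat_lit 0) (nat_lit 146) (nat_lit 138) (nat_lit 106)) (PT.lf (nat_lit 9424) (nat_lit 6) (nat_lit 124) (nat_lit 0) (nat_lit 147) (nat_lit 138) (nat_lit 105))) (PT.nd (nat_lit 37128) (PT.lf (nat_lit 8892) (nat_lit 6) (nat_lit 117) (nat_lit 0) (nat_lit 148) (nat_lit 138) (nat_lit 104)) (PT.lf (nat_lit 8512) (nat_lit 6) (nat_lit 112) (nat_lit 5) (nat_lit 103) (nat_lit 139) (nat_lit 148)))))) (PT.nd (nat_lit 546) (PT.nd (nat_lit 234) (PT.nd (nat_lit 78) (PT.lf (nat_lit 8968) (nat_lit 6) (nat_lit 118) (nat_lit 5) (nat_lit 104) (nat_lit 139) (nat_lit 147))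 (PT.nd (nat_lit 78) (PT.lf (nat_lit 9500) (nat_lit 6) (nat_lit 125) (nat_lit 5) (nat_lit 105) (nat_lit 139) (nat_lit 146)) (PT.lf (nat_lit 9956) (nat_lit 6) (nat_lit 131) (nat_lit 5) (nat_lit 106) (nat_lit 139) (nat_lit 145)))) (PT.nd (nat_lit 156) (PT.nd (nat_lit 78) (PT.lf (nat_lit 10488) (nat_lit 6) (nat_lit 138) (nat_lit 5) (nat_lit 107) (nat_lit 139) (nat_lit 144)) (PT.lf (nat_lit 11020) (nat_lit 6) (nat_lit 145) (nat_lit 5) (nat_lit 108) (nat_lit 139) (nat_lit 143))) (PT.nd (nat_lit 78) (PT.lf (nat_lit 11628) (nat_lit 6) (nat_lit 153) (nat_lit 5) (nat_lit 109) (nat_lit 139) (nat_lit 142)) (PT.lf (nat_lit 12160) (nat_lit 6) (nat_lit 160) (nat_lit 5) (nat_lit 110) (nat_lit 139) (nat_lit 141))))) (PT.nd (nat_lit 234) (PT.nd (nat_lit 78) (PT.lf (nat_lit 12768) (nat_lit 6) (nat_lit 168) (nat_lit 5) (nat_lit 111) (nat_lit 139) (nat_lit 140)) (PT.nd (nat_lit 78) (PT.lf (nat_lit 13376) (nat_lit 3)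 (nat_lit 176) (nat_lit 4) (nat_lit 112) (nat_lit 139) (nat_lit 139)) (PT.lf (nat_lit 13984) (nat_lit 6) (nat_lit 184) (nat_lit 4) (nat_lit 113) (nat_lit 139) (nat_lit 138)))) (PT.nd (nat_lit 156) (PT.nd (nat_lit 78) (PT.lf (nat_lit 14668) (nat_lit 6) (nat_lit 193) (nat_lit 4) (nat_lit 114) (nat_lit 139) (nat_lit 137)) (PT.lf (nat_lit 15808) (nat_lit 6) (nat_lit 208) (nat_lit 4) (nat_lit 115) (nat_lit 139) (nat_lit 136))) (PT.nd (nat_lit 78) (PT.lf (nat_lit 16872) (nat_lit 6) (nat_lit 222) (nat_lit 4) (nat_lit 116) (nat_lit 139) (nat_lit 135)) (PT.lf (nat_lit 17860) (nat_lit 6) (nat_lit 235) (nat_lit 4) (nat_lit 117) (nat_lit 139) (nat_lit 134))))))))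
noncomputable def pc19 : PT := (PT.nd (nat_lit 2184) (PT.nd (nat_lit 1092) (PT.nd (nat_lit 546) (PT.nd (nat_lit 234) (PT.nd (nat_lit 78) (PT.lf (nat_lit 18772) (nat_lit 6) (nat_lit 247) (nat_lit 4) (nat_lit 118) (nat_lit 139) (nat_lit 133)) (PT.nd (nat_lit 78) (PT.lf (nat_lit 19608) (nat_lit 6) (nat_lit 258) (nat_lit 4) (nat_lit 119) (nat_lit 139) (nat_lit 132)) (PT.lf (nat_lit 20368) (nat_lit 6) (nat_lit 268) (nat_lit 4) (nat_lit 120) (nat_lit 139) (nat_lit 131)))) (PT.nd (nat_lit 156) (PT.nd (nat_lit 78) (PT.lf (nat_lit 21052) (nat_lit 6) (nat_lit 277) (nat_lit 4) (nat_lit 121) (nat_lit 139) (nat_lit 130)) (PT.lf (nat_lit 20976) (nat_lit 6) (nat_lit 276) (nat_lit 4) (nat_lit 122) (nat_lit 139) (nat_lit 129))) (PT.nd (nat_lit 78) (PT.lf (nat_lit 20900) (nat_lit 6) (nat_lit 275) (nat_lit 4) (nat_lit 123) (nat_lit 139) (nat_lit 128)) (PT.lf (nat_lit 20824) (nat_lit 6) (nat_lit 274) (nat_lit 4) (nat_lit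 124) (nat_lit 139) (nat_lit 127))))) (PT.nd (nat_lit 234) (PT.nd (nat_lit 78) (PT.lf (nat_lit 20748) (nat_lit 6) (nat_lit 273) (nat_lit 4) (nat_lit 125) (nat_lit 139) (nat_lit 126)) (PT.nd (nat_lit 78) (PT.lf (nat_lit 20748) (nat_lit 6) (nat_lit 273) (nat_lit 2) (nat_lit 126) (nat_lit 139) (nat_lit 125)) (PT.lf (nat_lit 20824) (nat_lit 6) (nat_lit 274) (nat_lit 2) (nat_lit 127) (nat_lit 139) (nat_lit 124)))) (PT.nd (nat_lit 156) (PT.nd (nat_lit 78) (PT.lf (nat_lit 20900) (nat_lit 6) (nat_lit 275) (nat_lit 2) (nat_lit 128) (nat_lit 139) (nat_lit 123)) (PT.lf (nat_lit 20976) (nat_lit 6) (nat_lit 276) (nat_lit 2) (nat_lit 129) (nat_lit 139) (nat_lit 122))) (PT.nd (nat_lit 78) (PT.lf (nat_lit 21052) (nat_lit 6) (nat_lit 277) (nat_lit 2) (nat_lit 130) (nat_lit 139) (nat_lit 121)) (PT.lf (nat_lit 20368) (nat_lit 6) (nat_lit 268) (nat_lit 2) (nat_lit 131) (nat_lit 139) (nat_lit 120)))))) (PT.nd (nat_lit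 546) (PT.nd (nat_lit 234) (PT.nd (nat_lit 78) (PT.lf (nat_lit 19608) (nat_lit 6) (nat_lit 258) (nat_lit 2) (nat_lit 132) (nat_lit 139) (nat_lit 119)) (PT.nd (nat_lit 78) (PT.lf (nat_lit 18772) (nat_lit 6) (nat_lit 247) (nat_lit 2) (nat_lit 133) (nat_lit 139) (nat_lit 118)) (PT.lf (nat_lit 17860) (nat_lit 6) (nat_lit 235) (nat_lit 2) (nat_lit 134) (nat_lit 139) (nat_lit 117)))) (PT.nd (nat_lit 156) (PT.nd (nat_lit 78) (PT.lf (nat_lit 16872) (nat_lit 6) (nat_lit 222) (nat_lit 2) (nat_lit 135) (nat_lit 139) (nat_lit 116)) (PT.lf (nat_lit 15808) (nat_lit 6) (nat_lit 208) (nat_lit 2) (nat_lit 136) (nat_lit 139) (nat_lit 115))) (PT.nd (nat_lit 78) (PT.lf (nat_lit 14668) (nat_lit 6) (nat_lit 193) (nat_lit 2) (nat_lit 137) (nat_lit 139) (nat_lit 114)) (PT.lf (nat_lit 13984) (nat_lit 6) (nat_lit 184) (nat_lit 2) (nat_lit 138) (nat_lit 139) (nat_lit 113))))) (PT.nd (nat_lit 234) (PT.nd (nat_lit 78) (PT.lf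 (nat_lit 13376) (nat_lit 3) (nat_lit 176) (nat_lit 0) (nat_lit 139) (nat_lit 139) (nat_lit 112)) (PT.nd (nat_lit 78) (PT.lf (nat_lit 12768) (nat_lit 6) (nat_lit 168) (nat_lit 0) (nat_lit 140) (nat_lit 139) (nat_lit 111)) (PT.lf (nat_lit 12160) (nat_lit 6) (nat_lit 160) (nat_lit 0) (nat_lit 141) (nat_lit 139) (nat_lit 110)))) (PT.nd (nat_lit 156) (PT.nd (nat_lit 78) (PT.lf (nat_lit 11628) (nat_lit 6) (nat_lit 153) (nat_lit 0) (nat_lit 142) (nat_lit 139) (nat_lit 109)) (PT.lf (nat_lit 11020) (nat_lit 6) (nat_lit 145) (nat_lit 0) (nat_lit 143) (nat_lit 139) (nat_lit 108))) (PT.nd (nat_lit 78) (PT.lf (nat_lit 10488) (nat_lit 6) (nat_lit 138) (nat_lit 0) (nat_lit 144) (nat_lit 139) (nat_lit 107)) (PT.lf (nat_lit 9956) (nat_lit 6) (nat_lit 131) (nat_lit 0) (nat_lit 145) (nat_lit 139) (nat_lit 106))))))) (PT.nd (nat_lit 37986) (PT.nd (nat_lit 37440) (PT.nd (nat_lit 37128) (PT.nd (nat_lit 78) (PT.lf (nat_lit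 9500) (nat_lit 6) (nat_lit 125) (nat_lit 0) (nat_lit 146) (nat_lit 139) (nat_lit 105)) (PT.nd (nat_lit 78) (PT.lf (nat_lit 8968) (nat_lit 6) (nat_lit 118) (nat_lit 0) (nat_lit 147) (nat_lit 139) (nat_lit 104)) (PT.lf (nat_lit 8512) (nat_lit 6) (nat_lit 112) (nat_lit 0) (nat_lit 148) (nat_lit 139) (nat_lit 103)))) (PT.nd (nat_lit 156) (PT.nd (nat_lit 78) (PT.lf (nat_lit 7752) (nat_lit 6) (nat_lit 102) (nat_lit 5) (nat_lit 101) (nat_lit 140) (nat_lit 149)) (PT.lf (nat_lit 8132) (nat_lit 6) (nat_lit 107) (nat_lit 5) (nat_lit 102) (nat_lit 140) (nat_lit 148))) (PT.nd (nat_lit 78) (PT.lf (nat_lit 8588) (nat_lit 6) (nat_lit 113) (nat_lit 5) (nat_lit 103) (nat_lit 140) (nat_lit 147)) (PT.lf (nat_lit 9044) (nat_lit 6) (nat_lit 119) (nat_lit 5) (nat_lit 104) (nat_lit 140) (nat_lit 146))))) (PT.nd (nat_lit 234) (PT.nd (nat_lit 78) (PT.lf (nat_lit 9576) (nat_lit 6) (nat_lit 126) (nat_lit 5) (nat_lit 105)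 (nat_lit 140) (nat_lit 145)) (PT.nd (nat_lit 78) (PT.lf (nat_lit 10032) (nat_lit 6) (nat_lit 132) (nat_lit 5) (nat_lit 106) (nat_lit 140) (nat_lit 144)) (PT.lf (nat_lit 10564) (nat_lit 6) (nat_lit 139) (nat_lit 5) (nat_lit 107) (nat_lit 140) (nat_lit 143)))) (PT.nd (nat_lit 156) (PT.nd (nat_lit 78) (PT.lf (nat_lit 11096) (nat_lit 6) (nat_lit 146) (nat_lit 5) (nat_lit 108) (nat_lit 140) (nat_lit 142)) (PT.lf (nat_lit 11704) (nat_lit 6) (nat_lit 154) (nat_lit 5) (nat_lit 109) (nat_lit 140) (nat_lit 141))) (PT.nd (nat_lit 78) (PT.lf (nat_lit 12236) (nat_lit 3) (nat_lit 161) (nat_lit 4) (nat_lit 110) (nat_lit 140) (nat_lit 140)) (PT.lf (nat_lit 12768) (nat_lit 6) (nat_lit 168) (nat_lit 4) (nat_lit 111) (nat_lit 140) (nat_lit 139)))))) (PT.nd (nat_lit 546) (PT.nd (nat_lit 234) (PT.nd (nat_lit 78) (PT.lf (nat_lit 13300) (nat_lit 6) (nat_lit 175) (nat_lit 4) (nat_lit 112) (nat_lit 140) (nat_lit 138))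 (PT.nd (nat_lit 78) (PT.lf (nat_lit 13908) (nat_lit 6) (nat_lit 183) (nat_lit 4) (nat_lit 113) (nat_lit 140) (nat_lit 137)) (PT.lf (nat_lit 14592) (nat_lit 6) (nat_lit 192) (nat_lit 4) (nat_lit 114) (nat_lit 140) (nat_lit 136)))) (PT.nd (nat_lit 156) (PT.nd (nat_lit 78) (PT.lf (nat_lit 15732) (nat_lit 6) (nat_lit 207) (nat_lit 4) (nat_lit 115) (nat_lit 140) (nat_lit 135)) (PT.lf (nat_lit 16796) (nat_lit 6) (nat_lit 221) (nat_lit 4) (nat_lit 116) (nat_lit 140) (nat_lit 134))) (PT.nd (nat_lit 78) (PT.lf (nat_lit 17784) (nat_lit 6) (nat_lit 234) (nat_lit 4) (nat_lit 117) (nat_lit 140) (nat_lit 133)) (PT.lf (nat_lit 18696) (nat_lit 6) (nat_lit 246) (nat_lit 4) (nat_lit 118) (nat_lit 140) (nat_lit 132))))) (PT.nd (nat_lit 312) (PT.nd (nat_lit 156) (PT.nd (nat_lit 78) (PT.lf (nat_lit 19532) (nat_lit 6) (nat_lit 257) (nat_lit 4) (nat_lit 119) (nat_lit 140) (nat_lit 131)) (PT.lf (nat_lit 20292) (nat_lit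 6) (nat_lit 267) (nat_lit 4) (nat_lit 120) (nat_lit 140) (nat_lit 130))) (PT.nd (nat_lit 78) (PT.lf (nat_lit 20216) (nat_lit 6) (nat_lit 266) (nat_lit 4) (nat_lit 121) (nat_lit 140) (nat_lit 129)) (PT.lf (nat_lit 20140) (nat_lit 6) (nat_lit 265) (nat_lit 4) (nat_lit 122) (nat_lit 140) (nat_lit 128)))) (PT.nd (nat_lit 156) (PT.nd (nat_lit 78) (PT.lf (nat_lit 20064) (nat_lit 6) (nat_lit 264) (nat_lit 4) (nat_lit 123) (nat_lit 140) (nat_lit 127)) (PT.lf (nat_lit 19988) (nat_lit 6) (nat_lit 263) (nat_lit 4) (nat_lit 124) (nat_lit 140) (nat_lit 126))) (PT.nd (nat_lit 78) (PT.lf (nat_lit 19912) (nat_lit 3) (nat_lit 262) (nat_lit 2) (nat_lit 125) (nat_lit 140) (nat_lit 125)) (PT.lf (nat_lit 19988) (nat_lit 6) (nat_lit 263) (nat_lit 2) (nat_lit 126) (nat_lit 140) (nat_lit 124))))))))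
noncomputable def pc20 : PT := (PT.nd (nat_lit 38922) (PT.nd (nat_lit 1092) (PT.nd (nat_lit 546) (PT.nd (nat_lit 234) (PT.nd (nat_lit 78) (PT.lf (nat_lit 20064) (nat_lit 6) (nat_lit 264) (nat_lit 2) (nat_lit 127) (nat_lit 140) (nat_lit 123)) (PT.nd (nat_lit 78) (PT.lf (nat_lit 20140) (nat_lit 6) (nat_lit 265) (nat_lit 2) (nat_lit 128) (nat_lit 140) (nat_lit 122)) (PT.lf (nat_lit 20216) (nat_lit 6) (nat_lit 266) (nat_lit 2) (nat_lit 129) (nat_lit 140) (nat_lit 121)))) (PT.nd (nat_lit 156) (PT.nd (nat_lit 78) (PT.lf (nat_lit 20292) (nat_lit 6) (nat_lit 267) (nat_lit 2) (nat_lit 130) (nat_lit 140) (nat_lit 120)) (PT.lf (nat_lit 19532) (nat_lit 6) (nat_lit 257) (nat_lit 2) (nat_lit 131) (nat_lit 140) (nat_lit 119))) (PT.nd (nat_lit 78) (PT.lf (nat_lit 18696) (nat_lit 6) (nat_lit 246) (nat_lit 2) (nat_lit 132) (nat_lit 140) (nat_lit 118)) (PT.lf (nat_lit 17784) (nat_lit 6) (nat_lit 234) (nat_lit 2)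 (nat_lit 133) (nat_lit 140) (nat_lit 117))))) (PT.nd (nat_lit 234) (PT.nd (nat_lit 78) (PT.lf (nat_lit 16796) (nat_lit 6) (nat_lit 221) (nat_lit 2) (nat_lit 134) (nat_lit 140) (nat_lit 116)) (PT.nd (nat_lit 78) (PT.lf (nat_lit 15732) (nat_lit 6) (nat_lit 207) (nat_lit 2) (nat_lit 135) (nat_lit 140) (nat_lit 115)) (PT.lf (nat_lit 14592) (nat_lit 6) (nat_lit 192) (nat_lit 2) (nat_lit 136) (nat_lit 140) (nat_lit 114)))) (PT.nd (nat_lit 156) (PT.nd (nat_lit 78) (PT.lf (nat_lit 13908) (nat_lit 6) (nat_lit 183) (nat_lit 2) (nat_lit 137) (nat_lit 140) (nat_lit 113)) (PT.lf (nat_lit 13300) (nat_lit 6) (nat_lit 175) (nat_lit 2) (nat_lit 138) (nat_lit 140) (nat_lit 112))) (PT.nd (nat_lit 78) (PT.lf (nat_lit 12768) (nat_lit 6) (nat_lit 168) (nat_lit 2) (nat_lit 139) (nat_lit 140) (nat_lit 111)) (PT.lf (nat_lit 12236) (nat_lit 3) (nat_lit 161) (nat_lit 0) (nat_lit 140) (nat_lit 140) (nat_lit 110)))))) (PT.nd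 (nat_lit 546) (PT.nd (nat_lit 234) (PT.nd (nat_lit 78) (PT.lf (nat_lit 11704) (nat_lit 6) (nat_lit 154) (nat_lit 0) (nat_lit 141) (nat_lit 140) (nat_lit 109)) (PT.nd (nat_lit 78) (PT.lf (nat_lit 11096) (nat_lit 6) (nat_lit 146) (nat_lit 0) (nat_lit 142) (nat_lit 140) (nat_lit 108)) (PT.lf (nat_lit 10564) (nat_lit 6) (nat_lit 139) (nat_lit 0) (nat_lit 143) (nat_lit 140) (nat_lit 107)))) (PT.nd (nat_lit 156) (PT.nd (nat_lit 78) (PT.lf (nat_lit 10032) (nat_lit 6) (nat_lit 132) (nat_lit 0) (nat_lit 144) (nat_lit 140) (nat_lit 106)) (PT.lf (nat_lit 9576) (nat_lit 6) (nat_lit 126) (nat_lit 0) (nat_lit 145) (nat_lit 140) (nat_lit 105))) (PT.nd (nat_lit 78) (PT.lf (nat_lit 9044) (nat_lit 6) (nat_lit 119) (nat_lit 0) (nat_lit 146) (nat_lit 140) (nat_lit 104)) (PT.lf (nat_lit 8588) (nat_lit 6) (nat_lit 113) (nat_lit 0) (nat_lit 147) (nat_lit 140) (nat_lit 103))))) (PT.nd (nat_lit 36972) (PT.nd (nat_lit 78)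 (PT.lf (nat_lit 8132) (nat_lit 6) (nat_lit 107) (nat_lit 0) (nat_lit 148) (nat_lit 140) (nat_lit 102)) (PT.nd (nat_lit 36816) (PT.lf (nat_lit 7752) (nat_lit 6) (nat_lit 102) (nat_lit 0) (nat_lit 149) (nat_lit 140) (nat_lit 101)) (PT.lf (nat_lit 7372) (nat_lit 6) (nat_lit 97) (nat_lit 5) (nat_lit 100) (nat_lit 141) (nat_lit 149)))) (PT.nd (nat_lit 156) (PT.nd (nat_lit 78) (PT.lf (nat_lit 7828) (nat_lit 6) (nat_lit 103) (nat_lit 5) (nat_lit 101) (nat_lit 141) (nat_lit 148)) (PT.lf (nat_lit 8208) (nat_lit 6) (nat_lit 108) (nat_lit 5) (nat_lit 102) (nat_lit 141) (nat_lit 147))) (PT.nd (nat_lit 78) (PT.lf (nat_lit 8664) (nat_lit 6) (nat_lit 114) (nat_lit 5) (nat_lit 103) (nat_lit 141) (nat_lit 146)) (PT.lf (nat_lit 9120) (nat_lit 6) (nat_lit 120) (nat_lit 5) (nat_lit 104) (nat_lit 141) (nat_lit 145))))))) (PT.nd (nat_lit 1092) (PT.nd (nat_lit 546) (PT.nd (nat_lit 234) (PT.nd (nat_lit 78) (PT.lf (nat_lit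 9652) (nat_lit 6) (nat_lit 127) (nat_lit 5) (nat_lit 105) (nat_lit 141) (nat_lit 144)) (PT.nd (nat_lit 78) (PT.lf (nat_lit 10108) (nat_lit 6) (nat_lit 133) (nat_lit 5) (nat_lit 106) (nat_lit 141) (nat_lit 143)) (PT.lf (nat_lit 10640) (nat_lit 6) (nat_lit 140) (nat_lit 5) (nat_lit 107) (nat_lit 141) (nat_lit 142)))) (PT.nd (nat_lit 156) (PT.nd (nat_lit 78) (PT.lf (nat_lit 11172) (nat_lit 3) (nat_lit 147) (nat_lit 4) (nat_lit 108) (nat_lit 141) (nat_lit 141)) (PT.lf (nat_lit 11704) (nat_lit 6) (nat_lit 154) (nat_lit 4) (nat_lit 109) (nat_lit 141) (nat_lit 140))) (PT.nd (nat_lit 78) (PT.lf (nat_lit 12160) (nat_lit 6) (nat_lit 160) (nat_lit 4) (nat_lit 110) (nat_lit 141) (nat_lit 139)) (PT.lf (nat_lit 12692) (nat_lit 6) (nat_lit 167) (nat_lit 4) (nat_lit 111) (nat_lit 141) (nat_lit 138))))) (PT.nd (nat_lit 234) (PT.nd (nat_lit 78) (PT.lf (nat_lit 13224) (nat_lit 6) (nat_lit 174) (nat_lit 4) (nat_lit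 112) (nat_lit 141) (nat_lit 137)) (PT.nd (nat_lit 78) (PT.lf (nat_lit 13832) (nat_lit 6) (nat_lit 182) (nat_lit 4) (nat_lit 113) (nat_lit 141) (nat_lit 136)) (PT.lf (nat_lit 14516) (nat_lit 6) (nat_lit 191) (nat_lit 4) (nat_lit 114) (nat_lit 141) (nat_lit 135)))) (PT.nd (nat_lit 156) (PT.nd (nat_lit 78) (PT.lf (nat_lit 15656) (nat_lit 6) (nat_lit 206) (nat_lit 4) (nat_lit 115) (nat_lit 141) (nat_lit 134)) (PT.lf (nat_lit 16720) (nat_lit 6) (nat_lit 220) (nat_lit 4) (nat_lit 116) (nat_lit 141) (nat_lit 133))) (PT.nd (nat_lit 78) (PT.lf (nat_lit 17708) (nat_lit 6) (nat_lit 233) (nat_lit 4) (nat_lit 117) (nat_lit 141) (nat_lit 132)) (PT.lf (nat_lit 18620) (nat_lit 6) (nat_lit 245) (nat_lit 4) (nat_lit 118) (nat_lit 141) (nat_lit 131)))))) (PT.nd (nat_lit 546) (PT.nd (nat_lit 234) (PT.nd (nat_lit 78) (PT.lf (nat_lit 19456) (nat_lit 6) (nat_lit 256) (nat_lit 4) (nat_lit 119) (nat_lit 141) (nat_lit 130))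 (PT.nd (nat_lit 78) (PT.lf (nat_lit 19380) (nat_lit 6) (nat_lit 255) (nat_lit 4) (nat_lit 120) (nat_lit 141) (nat_lit 129)) (PT.lf (nat_lit 19304) (nat_lit 6) (nat_lit 254) (nat_lit 4) (nat_lit 121) (nat_lit 141) (nat_lit 128)))) (PT.nd (nat_lit 156) (PT.nd (nat_lit 78) (PT.lf (nat_lit 19228) (nat_lit 6) (nat_lit 253) (nat_lit 4) (nat_lit 122) (nat_lit 141) (nat_lit 127)) (PT.lf (nat_lit 19152) (nat_lit 6) (nat_lit 252) (nat_lit 4) (nat_lit 123) (nat_lit 141) (nat_lit 126))) (PT.nd (nat_lit 78) (PT.lf (nat_lit 19076) (nat_lit 6) (nat_lit 251) (nat_lit 4) (nat_lit 124) (nat_lit 141) (nat_lit 125)) (PT.lf (nat_lit 19076) (nat_lit 6) (nat_lit 251) (nat_lit 2) (nat_lit 125) (nat_lit 141) (nat_lit 124))))) (PT.nd (nat_lit 234) (PT.nd (nat_lit 78) (PT.lf (nat_lit 19152) (nat_lit 6) (nat_lit 252) (nat_lit 2) (nat_lit 126) (nat_lit 141) (nat_lit 123)) (PT.nd (nat_lit 78) (PT.lf (nat_lit 19228) (nat_lit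 6) (nat_lit 253) (nat_lit 2) (nat_lit 127) (nat_lit 141) (nat_lit 122)) (PT.lf (nat_lit 19304) (nat_lit 6) (nat_lit 254) (nat_lit 2) (nat_lit 128) (nat_lit 141) (nat_lit 121)))) (PT.nd (nat_lit 156) (PT.nd (nat_lit 78) (PT.lf (nat_lit 19380) (nat_lit 6) (nat_lit 255) (nat_lit 2) (nat_lit 129) (nat_lit 141) (nat_lit 120)) (PT.lf (nat_lit 19456) (nat_lit 6) (nat_lit 256) (nat_lit 2) (nat_lit 130) (nat_lit 141) (nat_lit 119))) (PT.nd (nat_lit 78) (PT.lf (nat_lit 18620) (nat_lit 6) (nat_lit 245) (nat_lit 2) (nat_lit 131) (nat_lit 141) (nat_lit 118)) (PT.lf (nat_lit 17708) (nat_lit 6) (nat_lit 233) (nat_lit 2) (nat_lit 132) (nat_lit 141) (nat_lit 117))))))))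
noncomputable def pc21 : PT := (PT.nd (nat_lit 38766) (PT.nd (nat_lit 1092) (PT.nd (nat_lit 546) (PT.nd (nat_lit 234) (PT.nd (nat_lit 78) (PT.lf (nat_lit 16720) (nat_lit 6) (nat_lit 220) (nat_lit 2) (nat_lit 133) (nat_lit 141) (nat_lit 116)) (PT.nd (nat_lit 78) (PT.lf (nat_lit 15656) (nat_lit 6) (nat_lit 206) (nat_lit 2) (nat_lit 134) (nat_lit 141) (nat_lit 115)) (PT.lf (nat_lit 14516) (nat_lit 6) (nat_lit 191) (nat_lit 2) (nat_lit 135) (nat_lit 141) (nat_lit 114)))) (PT.nd (nat_lit 156) (PT.nd (nat_lit 78) (PT.lf (nat_lit 13832) (nat_lit 6) (nat_lit 182) (nat_lit 2) (nat_lit 136) (nat_lit 141) (nat_lit 113)) (PT.lf (nat_lit 13224) (nat_lit 6) (nat_lit 174) (nat_lit 2) (nat_lit 137) (nat_lit 141) (nat_lit 112))) (PT.nd (nat_lit 78) (PT.lf (nat_lit 12692) (nat_lit 6) (nat_lit 167) (nat_lit 2) (nat_lit 138) (nat_lit 141) (nat_lit 111)) (PT.lf (nat_lit 12160) (nat_lit 6) (nat_lit 160) (nat_lit 2)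 (nat_lit 139) (nat_lit 141) (nat_lit 110))))) (PT.nd (nat_lit 234) (PT.nd (nat_lit 78) (PT.lf (nat_lit 11704) (nat_lit 6) (nat_lit 154) (nat_lit 2) (nat_lit 140) (nat_lit 141) (nat_lit 109)) (PT.nd (nat_lit 78) (PT.lf (nat_lit 11172) (nat_lit 3) (nat_lit 147) (nat_lit 0) (nat_lit 141) (nat_lit 141) (nat_lit 108)) (PT.lf (nat_lit 10640) (nat_lit 6) (nat_lit 140) (nat_lit 0) (nat_lit 142) (nat_lit 141) (nat_lit 107)))) (PT.nd (nat_lit 156) (PT.nd (nat_lit 78) (PT.lf (nat_lit 10108) (nat_lit 6) (nat_lit 133) (nat_lit 0) (nat_lit 143) (nat_lit 141) (nat_lit 106)) (PT.lf (nat_lit 9652) (nat_lit 6) (nat_lit 127) (nat_lit 0) (nat_lit 144) (nat_lit 141) (nat_lit 105))) (PT.nd (nat_lit 78) (PT.lf (nat_lit 9120) (nat_lit 6) (nat_lit 120) (nat_lit 0) (nat_lit 145) (nat_lit 141) (nat_lit 104)) (PT.lf (nat_lit 8664) (nat_lit 6) (nat_lit 114) (nat_lit 0) (nat_lit 146) (nat_lit 141) (nat_lit 103)))))) (PT.nd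 (nat_lit 37128) (PT.nd (nat_lit 36816) (PT.nd (nat_lit 78) (PT.lf (nat_lit 8208) (nat_lit 6) (nat_lit 108) (nat_lit 0) (nat_lit 147) (nat_lit 141) (nat_lit 102)) (PT.nd (nat_lit 78) (PT.lf (nat_lit 7828) (nat_lit 6) (nat_lit 103) (nat_lit 0) (nat_lit 148) (nat_lit 141) (nat_lit 101)) (PT.lf (nat_lit 7372) (nat_lit 6) (nat_lit 97) (nat_lit 0) (nat_lit 149) (nat_lit 141) (nat_lit 100)))) (PT.nd (nat_lit 156) (PT.nd (nat_lit 78) (PT.lf (nat_lit 6688) (nat_lit 6) (nat_lit 88) (nat_lit 5) (nat_lit 98) (nat_lit 142) (nat_lit 150)) (PT.lf (nat_lit 7068) (nat_lit 6) (nat_lit 93) (nat_lit 5) (nat_lit 99) (nat_lit 142) (nat_lit 149))) (PT.nd (nat_lit 78) (PT.lf (nat_lit 7448) (nat_lit 6) (nat_lit 98) (nat_lit 5) (nat_lit 100) (nat_lit 142) (nat_lit 148)) (PT.lf (nat_lit 7904) (nat_lit 6) (nat_lit 104) (nat_lit 5) (nat_lit 101) (nat_lit 142) (nat_lit 147))))) (PT.nd (nat_lit 234) (PT.nd (nat_lit 78) (PT.lf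 (nat_lit 8284) (nat_lit 6) (nat_lit 109) (nat_lit 5) (nat_lit 102) (nat_lit 142) (nat_lit 146)) (PT.nd (nat_lit 78) (PT.lf (nat_lit 8740) (nat_lit 6) (nat_lit 115) (nat_lit 5) (nat_lit 103) (nat_lit 142) (nat_lit 145)) (PT.lf (nat_lit 9196) (nat_lit 6) (nat_lit 121) (nat_lit 5) (nat_lit 104) (nat_lit 142) (nat_lit 144)))) (PT.nd (nat_lit 156) (PT.nd (nat_lit 78) (PT.lf (nat_lit 9728) (nat_lit 6) (nat_lit 128) (nat_lit 5) (nat_lit 105) (nat_lit 142) (nat_lit 143)) (PT.lf (nat_lit 10184) (nat_lit 3) (nat_lit 134) (nat_lit 4) (nat_lit 106) (nat_lit 142) (nat_lit 142))) (PT.nd (nat_lit 78) (PT.lf (nat_lit 10640) (nat_lit 6) (nat_lit 140) (nat_lit 4) (nat_lit 107) (nat_lit 142) (nat_lit 141)) (PT.lf (nat_lit 11096) (nat_lit 6) (nat_lit 146) (nat_lit 4) (nat_lit 108) (nat_lit 142) (nat_lit 140))))))) (PT.nd (nat_lit 1092) (PT.nd (nat_lit 546) (PT.nd (nat_lit 234) (PT.nd (nat_lit 78) (PT.lf (nat_lit 11628)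 (nat_lit 6) (nat_lit 153) (nat_lit 4) (nat_lit 109) (nat_lit 142) (nat_lit 139)) (PT.nd (nat_lit 78) (PT.lf (nat_lit 12084) (nat_lit 6) (nat_lit 159) (nat_lit 4) (nat_lit 110) (nat_lit 142) (nat_lit 138)) (PT.lf (nat_lit 12616) (nat_lit 6) (nat_lit 166) (nat_lit 4) (nat_lit 111) (nat_lit 142) (nat_lit 137)))) (PT.nd (nat_lit 156) (PT.nd (nat_lit 78) (PT.lf (nat_lit 13148) (nat_lit 6) (nat_lit 173) (nat_lit 4) (nat_lit 112) (nat_lit 142) (nat_lit 136)) (PT.lf (nat_lit 13756) (nat_lit 6) (nat_lit 181) (nat_lit 4) (nat_lit 113) (nat_lit 142) (nat_lit 135))) (PT.nd (nat_lit 78) (PT.lf (nat_lit 14440) (nat_lit 6) (nat_lit 190) (nat_lit 4) (nat_lit 114) (nat_lit 142) (nat_lit 134)) (PT.lf (nat_lit 15580) (nat_lit 6) (nat_lit 205) (nat_lit 4) (nat_lit 115) (nat_lit 142) (nat_lit 133))))) (PT.nd (nat_lit 234) (PT.nd (nat_lit 78) (PT.lf (nat_lit 16644) (nat_lit 6) (nat_lit 219) (nat_lit 4) (nat_lit 116)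 (nat_lit 142) (nat_lit 132)) (PT.nd (nat_lit 78) (PT.lf (nat_lit 17632) (nat_lit 6) (nat_lit 232) (nat_lit 4) (nat_lit 117) (nat_lit 142) (nat_lit 131)) (PT.lf (nat_lit 18544) (nat_lit 6) (nat_lit 244) (nat_lit 4) (nat_lit 118) (nat_lit 142) (nat_lit 130)))) (PT.nd (nat_lit 156) (PT.nd (nat_lit 78) (PT.lf (nat_lit 18468) (nat_lit 6) (nat_lit 243) (nat_lit 4) (nat_lit 119) (nat_lit 142) (nat_lit 129)) (PT.lf (nat_lit 18392) (nat_lit 6) (nat_lit 242) (nat_lit 4) (nat_lit 120) (nat_lit 142) (nat_lit 128))) (PT.nd (nat_lit 78) (PT.lf (nat_lit 18316) (nat_lit 6) (nat_lit 241) (nat_lit 4) (nat_lit 121) (nat_lit 142) (nat_lit 127)) (PT.lf (nat_lit 18240) (nat_lit 6) (nat_lit 240) (nat_lit 4) (nat_lit 122) (nat_lit 142) (nat_lit 126)))))) (PT.nd (nat_lit 546) (PT.nd (nat_lit 234) (PT.nd (nat_lit 78) (PT.lf (nat_lit 18164) (nat_lit 6) (nat_lit 239) (nat_lit 4) (nat_lit 123) (nat_lit 142) (nat_lit 125))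 (PT.nd (nat_lit 78) (PT.lf (nat_lit 18088) (nat_lit 3) (nat_lit 238) (nat_lit 2) (nat_lit 124) (nat_lit 142) (nat_lit 124)) (PT.lf (nat_lit 18164) (nat_lit 6) (nat_lit 239) (nat_lit 2) (nat_lit 125) (nat_lit 142) (nat_lit 123)))) (PT.nd (nat_lit 156) (PT.nd (nat_lit 78) (PT.lf (nat_lit 18240) (nat_lit 6) (nat_lit 240) (nat_lit 2) (nat_lit 126) (nat_lit 142) (nat_lit 122)) (PT.lf (nat_lit 18316) (nat_lit 6) (nat_lit 241) (nat_lit 2) (nat_lit 127) (nat_lit 142) (nat_lit 121))) (PT.nd (nat_lit 78) (PT.lf (nat_lit 18392) (nat_lit 6) (nat_lit 242) (nat_lit 2) (nat_lit 128) (nat_lit 142) (nat_lit 120)) (PT.lf (nat_lit 18468) (nat_lit 6) (nat_lit 243) (nat_lit 2) (nat_lit 129) (nat_lit 142) (nat_lit 119))))) (PT.nd (nat_lit 312) (PT.nd (nat_lit 156) (PT.nd (nat_lit 78) (PT.lf (nat_lit 18544) (nat_lit 6) (nat_lit 244) (nat_lit 2) (nat_lit 130) (nat_lit 142) (nat_lit 118)) (PT.lf (nat_lit 17632) (nat_lit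 6) (nat_lit 232) (nat_lit 2) (nat_lit 131) (nat_lit 142) (nat_lit 117))) (PT.nd (nat_lit 78) (PT.lf (nat_lit 16644) (nat_lit 6) (nat_lit 219) (nat_lit 2) (nat_lit 132) (nat_lit 142) (nat_lit 116)) (PT.lf (nat_lit 15580) (nat_lit 6) (nat_lit 205) (nat_lit 2) (nat_lit 133) (nat_lit 142) (nat_lit 115)))) (PT.nd (nat_lit 156) (PT.nd (nat_lit 78) (PT.lf (nat_lit 14440) (nat_lit 6) (nat_lit 190) (nat_lit 2) (nat_lit 134) (nat_lit 142) (nat_lit 114)) (PT.lf (nat_lit 13756) (nat_lit 6) (nat_lit 181) (nat_lit 2) (nat_lit 135) (nat_lit 142) (nat_lit 113))) (PT.nd (nat_lit 78) (PT.lf (nat_lit 13148) (nat_lit 6) (nat_lit 173) (nat_lit 2) (nat_lit 136) (nat_lit 142) (nat_lit 112)) (PT.lf (nat_lit 12616) (nat_lit 6) (nat_lit 166) (nat_lit 2) (nat_lit 137) (nat_lit 142) (nat_lit 111))))))))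
noncomputable def pc22 : PT := (PT.nd (nat_lit 38610) (PT.nd (nat_lit 37518) (PT.nd (nat_lit 546) (PT.nd (nat_lit 234) (PT.nd (nat_lit 78) (PT.lf (nat_lit 12084) (nat_lit 6) (nat_lit 159) (nat_lit 2) (nat_lit 138) (nat_lit 142) (nat_lit 110)) (PT.nd (nat_lit 78) (PT.lf (nat_lit 11628) (nat_lit 6) (nat_lit 153) (nat_lit 2) (nat_lit 139) (nat_lit 142) (nat_lit 109)) (PT.lf (nat_lit 11096) (nat_lit 6) (nat_lit 146) (nat_lit 2) (nat_lit 140) (nat_lit 142) (nat_lit 108)))) (PT.nd (nat_lit 156) (PT.nd (nat_lit 78) (PT.lf (nat_lit 10640) (nat_lit 6) (nat_lit 140) (nat_lit 2) (nat_lit 141) (nat_lit 142) (nat_lit 107)) (PT.lf (nat_lit 10184) (nat_lit 3) (nat_lit 134) (nat_lit 0) (nat_lit 142) (nat_lit 142) (nat_lit 106))) (PT.nd (nat_lit 78) (PT.lf (nat_lit 9728) (nat_lit 6) (nat_lit 128) (nat_lit 0) (nat_lit 143) (nat_lit 142) (nat_lit 105)) (PT.lf (nat_lit 9196) (nat_lit 6) (nat_lit 121) (nat_lit 0) (nat_lit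 144) (nat_lit 142) (nat_lit 104))))) (PT.nd (nat_lit 234) (PT.nd (nat_lit 78) (PT.lf (nat_lit 8740) (nat_lit 6) (nat_lit 115) (nat_lit 0) (nat_lit 145) (nat_lit 142) (nat_lit 103)) (PT.nd (nat_lit 78) (PT.lf (nat_lit 8284) (nat_lit 6) (nat_lit 109) (nat_lit 0) (nat_lit 146) (nat_lit 142) (nat_lit 102)) (PT.lf (nat_lit 7904) (nat_lit 6) (nat_lit 104) (nat_lit 0) (nat_lit 147) (nat_lit 142) (nat_lit 101)))) (PT.nd (nat_lit 156) (PT.nd (nat_lit 78) (PT.lf (nat_lit 7448) (nat_lit 6) (nat_lit 98) (nat_lit 0) (nat_lit 148) (nat_lit 142) (nat_lit 100)) (PT.lf (nat_lit 7068) (nat_lit 6) (nat_lit 93) (nat_lit 0) (nat_lit 149) (nat_lit 142) (nat_lit 99))) (PT.nd (nat_lit 36504) (PT.lf (nat_lit 6688) (nat_lit 6) (nat_lit 88) (nat_lit 0) (nat_lit 150) (nat_lit 142) (nat_lit 98)) (PT.lf (nat_lit 6384) (nat_lit 6) (nat_lit 84) (nat_lit 5) (nat_lit 97) (nat_lit 143) (nat_lit 150)))))) (PT.nd (nat_lit 546) (PT.nd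 (nat_lit 234) (PT.nd (nat_lit 78) (PT.lf (nat_lit 6764) (nat_lit 6) (nat_lit 89) (nat_lit 5) (nat_lit 98) (nat_lit 143) (nat_lit 149)) (PT.nd (nat_lit 78) (PT.lf (nat_lit 7144) (nat_lit 6) (nat_lit 94) (nat_lit 5) (nat_lit 99) (nat_lit 143) (nat_lit 148)) (PT.lf (nat_lit 7524) (nat_lit 6) (nat_lit 99) (nat_lit 5) (nat_lit 100) (nat_lit 143) (nat_lit 147)))) (PT.nd (nat_lit 156) (PT.nd (nat_lit 78) (PT.lf (nat_lit 7980) (nat_lit 6) (nat_lit 105) (nat_lit 5) (nat_lit 101) (nat_lit 143) (nat_lit 146)) (PT.lf (nat_lit 8360) (nat_lit 6) (nat_lit 110) (nat_lit 5) (nat_lit 102) (nat_lit 143) (nat_lit 145))) (PT.nd (nat_lit 78) (PT.lf (nat_lit 8816) (nat_lit 6) (nat_lit 116) (nat_lit 5) (nat_lit 103) (nat_lit 143) (nat_lit 144)) (PT.lf (nat_lit 9272) (nat_lit 3) (nat_lit 122) (nat_lit 4) (nat_lit 104) (nat_lit 143) (nat_lit 143))))) (PT.nd (nat_lit 234) (PT.nd (nat_lit 78) (PT.lf (nat_lit 9728) (nat_lit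 6) (nat_lit 128) (nat_lit 4) (nat_lit 105) (nat_lit 143) (nat_lit 142)) (PT.nd (nat_lit 78) (PT.lf (nat_lit 10108) (nat_lit 6) (nat_lit 133) (nat_lit 4) (nat_lit 106) (nat_lit 143) (nat_lit 141)) (PT.lf (nat_lit 10564) (nat_lit 6) (nat_lit 139) (nat_lit 4) (nat_lit 107) (nat_lit 143) (nat_lit 140)))) (PT.nd (nat_lit 156) (PT.nd (nat_lit 78) (PT.lf (nat_lit 11020) (nat_lit 6) (nat_lit 145) (nat_lit 4) (nat_lit 108) (nat_lit 143) (nat_lit 139)) (PT.lf (nat_lit 11552) (nat_lit 6) (nat_lit 152) (nat_lit 4) (nat_lit 109) (nat_lit 143) (nat_lit 138))) (PT.nd (nat_lit 78) (PT.lf (nat_lit 12008) (nat_lit 6) (nat_lit 158) (nat_lit 4) (nat_lit 110) (nat_lit 143) (nat_lit 137)) (PT.lf (nat_lit 12540) (nat_lit 6) (nat_lit 165) (nat_lit 4) (nat_lit 111) (nat_lit 143) (nat_lit 136))))))) (PT.nd (nat_lit 1092) (PT.nd (nat_lit 546) (PT.nd (nat_lit 234) (PT.nd (nat_lit 78) (PT.lf (nat_lit 13072) (nat_lit 6) (nat_lit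 172) (nat_lit 4) (nat_lit 112) (nat_lit 143) (nat_lit 135)) (PT.nd (nat_lit 78) (PT.lf (nat_lit 13680) (nat_lit 6) (nat_lit 180) (nat_lit 4) (nat_lit 113) (nat_lit 143) (nat_lit 134)) (PT.lf (nat_lit 14364) (nat_lit 6) (nat_lit 189) (nat_lit 4) (nat_lit 114) (nat_lit 143) (nat_lit 133)))) (PT.nd (nat_lit 156) (PT.nd (nat_lit 78) (PT.lf (nat_lit 15504) (nat_lit 6) (nat_lit 204) (nat_lit 4) (nat_lit 115) (nat_lit 143) (nat_lit 132)) (PT.lf (nat_lit 16568) (nat_lit 6) (nat_lit 218) (nat_lit 4) (nat_lit 116) (nat_lit 143) (nat_lit 131))) (PT.nd (nat_lit 78) (PT.lf (nat_lit 17556) (nat_lit 6) (nat_lit 231) (nat_lit 4) (nat_lit 117) (nat_lit 143) (nat_lit 130)) (PT.lf (nat_lit 17480) (nat_lit 6) (nat_lit 230) (nat_lit 4) (nat_lit 118) (nat_lit 143) (nat_lit 129))))) (PT.nd (nat_lit 234) (PT.nd (nat_lit 78) (PT.lf (nat_lit 17404) (nat_lit 6) (nat_lit 229) (nat_lit 4) (nat_lit 119) (nat_lit 143) (nat_lit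 128)) (PT.nd (nat_lit 78) (PT.lf (nat_lit 17328) (nat_lit 6) (nat_lit 228) (nat_lit 4) (nat_lit 120) (nat_lit 143) (nat_lit 127)) (PT.lf (nat_lit 17252) (nat_lit 6) (nat_lit 227) (nat_lit 4) (nat_lit 121) (nat_lit 143) (nat_lit 126)))) (PT.nd (nat_lit 156) (PT.nd (nat_lit 78) (PT.lf (nat_lit 17176) (nat_lit 6) (nat_lit 226) (nat_lit 4) (nat_lit 122) (nat_lit 143) (nat_lit 125)) (PT.lf (nat_lit 17100) (nat_lit 6) (nat_lit 225) (nat_lit 4) (nat_lit 123) (nat_lit 143) (nat_lit 124))) (PT.nd (nat_lit 78) (PT.lf (nat_lit 17100) (nat_lit 6) (nat_lit 225) (nat_lit 2) (nat_lit 124) (nat_lit 143) (nat_lit 123)) (PT.lf (nat_lit 17176) (nat_lit 6) (nat_lit 226) (nat_lit 2) (nat_lit 125) (nat_lit 143) (nat_lit 122)))))) (PT.nd (nat_lit 546) (PT.nd (nat_lit 234) (PT.nd (nat_lit 78) (PT.lf (nat_lit 17252) (nat_lit 6) (nat_lit 227) (nat_lit 2) (nat_lit 126) (nat_lit 143) (nat_lit 121)) (PT.nd (nat_lit 78) (PT.lf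 (nat_lit 17328) (nat_lit 6) (nat_lit 228) (nat_lit 2) (nat_lit 127) (nat_lit 143) (nat_lit 120)) (PT.lf (nat_lit 17404) (nat_lit 6) (nat_lit 229) (nat_lit 2) (nat_lit 128) (nat_lit 143) (nat_lit 119)))) (PT.nd (nat_lit 156) (PT.nd (nat_lit 78) (PT.lf (nat_lit 17480) (nat_lit 6) (nat_lit 230) (nat_lit 2) (nat_lit 129) (nat_lit 143) (nat_lit 118)) (PT.lf (nat_lit 17556) (nat_lit 6) (nat_lit 231) (nat_lit 2) (nat_lit 130) (nat_lit 143) (nat_lit 117))) (PT.nd (nat_lit 78) (PT.lf (nat_lit 16568) (nat_lit 6) (nat_lit 218) (nat_lit 2) (nat_lit 131) (nat_lit 143) (nat_lit 116)) (PT.lf (nat_lit 15504) (nat_lit 6) (nat_lit 204) (nat_lit 2) (nat_lit 132) (nat_lit 143) (nat_lit 115))))) (PT.nd (nat_lit 234) (PT.nd (nat_lit 78) (PT.lf (nat_lit 14364) (nat_lit 6) (nat_lit 189) (nat_lit 2) (nat_lit 133) (nat_lit 143) (nat_lit 114)) (PT.nd (nat_lit 78) (PT.lf (nat_lit 13680) (nat_lit 6) (nat_lit 180) (nat_lit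 2) (nat_lit 134) (nat_lit 143) (nat_lit 113)) (PT.lf (nat_lit 13072) (nat_lit 6) (nat_lit 172) (nat_lit 2) (nat_lit 135) (nat_lit 143) (nat_lit 112)))) (PT.nd (nat_lit 156) (PT.nd (nat_lit 78) (PT.lf (nat_lit 12540) (nat_lit 6) (nat_lit 165) (nat_lit 2) (nat_lit 136) (nat_lit 143) (nat_lit 111)) (PT.lf (nat_lit 12008) (nat_lit 6) (nat_lit 158) (nat_lit 2) (nat_lit 137) (nat_lit 143) (nat_lit 110))) (PT.nd (nat_lit 78) (PT.lf (nat_lit 11552) (nat_lit 6) (nat_lit 152) (nat_lit 2) (nat_lit 138) (nat_lit 143) (nat_lit 109)) (PT.lf (nat_lit 11020) (nat_lit 6) (nat_lit 145) (nat_lit 2) (nat_lit 139) (nat_lit 143) (nat_lit 108))))))))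
noncomputable def pc23 : PT := (PT.nd (nat_lit 38454) (PT.nd (nat_lit 37362) (PT.nd (nat_lit 546) (PT.nd (nat_lit 234) (PT.nd (nat_lit 78) (PT.lf (nat_lit 10564) (nat_lit 6) (nat_lit 139) (nat_lit 2) (nat_lit 140) (nat_lit 143) (nat_lit 107)) (PT.nd (nat_lit 78) (PT.lf (nat_lit 10108) (nat_lit 6) (nat_lit 133) (nat_lit 2) (nat_lit 141) (nat_lit 143) (nat_lit 106)) (PT.lf (nat_lit 9728) (nat_lit 6) (nat_lit 128) (nat_lit 2) (nat_lit 142) (nat_lit 143) (nat_lit 105)))) (PT.nd (nat_lit 156) (PT.nd (nat_lit 78) (PT.lf (nat_lit 9272) (nat_lit 3) (nat_lit 122) (nat_lit 0) (nat_lit 143) (nat_lit 143) (nat_lit 104)) (PT.lf (nat_lit 8816) (nat_lit 6) (nat_lit 116) (nat_lit 0) (nat_lit 144) (nat_lit 143) (nat_lit 103))) (PT.nd (nat_lit 78) (PT.lf (nat_lit 8360) (nat_lit 6) (nat_lit 110) (nat_lit 0) (nat_lit 145) (nat_lit 143) (nat_lit 102)) (PT.lf (nat_lit 7980) (nat_lit 6) (nat_lit 105) (nat_lit 0) (nat_lit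 146) (nat_lit 143) (nat_lit 101))))) (PT.nd (nat_lit 234) (PT.nd (nat_lit 78) (PT.lf (nat_lit 7524) (nat_lit 6) (nat_lit 99) (nat_lit 0) (nat_lit 147) (nat_lit 143) (nat_lit 100)) (PT.nd (nat_lit 78) (PT.lf (nat_lit 7144) (nat_lit 6) (nat_lit 94) (nat_lit 0) (nat_lit 148) (nat_lit 143) (nat_lit 99)) (PT.lf (nat_lit 6764) (nat_lit 6) (nat_lit 89) (nat_lit 0) (nat_lit 149) (nat_lit 143) (nat_lit 98)))) (PT.nd (nat_lit 36426) (PT.nd (nat_lit 36348) (PT.lf (nat_lit 6384) (nat_lit 6) (nat_lit 84) (nat_lit 0) (nat_lit 150) (nat_lit 143) (nat_lit 97)) (PT.lf (nat_lit 5776) (nat_lit 6) (nat_lit 76) (nat_lit 5) (nat_lit 95) (nat_lit 144) (nat_lit 151))) (PT.nd (nat_lit 78) (PT.lf (nat_lit 6080) (nat_lit 6) (nat_lit 80) (nat_lit 5) (nat_lit 96) (nat_lit 144) (nat_lit 150)) (PT.lf (nat_lit 6460) (nat_lit 6) (nat_lit 85) (nat_lit 5) (nat_lit 97) (nat_lit 144) (nat_lit 149)))))) (PT.nd (nat_lit 546) (PT.nd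 (nat_lit 234) (PT.nd (nat_lit 78) (PT.lf (nat_lit 6840) (nat_lit 6) (nat_lit 90) (nat_lit 5) (nat_lit 98) (nat_lit 144) (nat_lit 148)) (PT.nd (nat_lit 78) (PT.lf (nat_lit 7220) (nat_lit 6) (nat_lit 95) (nat_lit 5) (nat_lit 99) (nat_lit 144) (nat_lit 147)) (PT.lf (nat_lit 7600) (nat_lit 6) (nat_lit 100) (nat_lit 5) (nat_lit 100) (nat_lit 144) (nat_lit 146)))) (PT.nd (nat_lit 156) (PT.nd (nat_lit 78) (PT.lf (nat_lit 8056) (nat_lit 6) (nat_lit 106) (nat_lit 5) (nat_lit 101) (nat_lit 144) (nat_lit 145)) (PT.lf (nat_lit 8436) (nat_lit 3) (nat_lit 111) (nat_lit 4) (nat_lit 102) (nat_lit 144) (nat_lit 144))) (PT.nd (nat_lit 78) (PT.lf (nat_lit 8816) (nat_lit 6) (nat_lit 116) (nat_lit 4) (nat_lit 103) (nat_lit 144) (nat_lit 143)) (PT.lf (nat_lit 9196) (nat_lit 6) (nat_lit 121) (nat_lit 4) (nat_lit 104) (nat_lit 144) (nat_lit 142))))) (PT.nd (nat_lit 234) (PT.nd (nat_lit 78) (PT.lf (nat_lit 9652) (nat_lit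 6) (nat_lit 127) (nat_lit 4) (nat_lit 105) (nat_lit 144) (nat_lit 141)) (PT.nd (nat_lit 78) (PT.lf (nat_lit 10032) (nat_lit 6) (nat_lit 132) (nat_lit 4) (nat_lit 106) (nat_lit 144) (nat_lit 140)) (PT.lf (nat_lit 10488) (nat_lit 6) (nat_lit 138) (nat_lit 4) (nat_lit 107) (nat_lit 144) (nat_lit 139)))) (PT.nd (nat_lit 156) (PT.nd (nat_lit 78) (PT.lf (nat_lit 10944) (nat_lit 6) (nat_lit 144) (nat_lit 4) (nat_lit 108) (nat_lit 144) (nat_lit 138)) (PT.lf (nat_lit 11476) (nat_lit 6) (nat_lit 151) (nat_lit 4) (nat_lit 109) (nat_lit 144) (nat_lit 137))) (PT.nd (nat_lit 78) (PT.lf (nat_lit 11932) (nat_lit 6) (nat_lit 157) (nat_lit 4) (nat_lit 110) (nat_lit 144) (nat_lit 136)) (PT.lf (nat_lit 12464) (nat_lit 6) (nat_lit 164) (nat_lit 4) (nat_lit 111) (nat_lit 144) (nat_lit 135))))))) (PT.nd (nat_lit 1092) (PT.nd (nat_lit 546) (PT.nd (nat_lit 234) (PT.nd (nat_lit 78) (PT.lf (nat_lit 12996) (nat_lit 6) (nat_lit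 171) (nat_lit 4) (nat_lit 112) (nat_lit 144) (nat_lit 134)) (PT.nd (nat_lit 78) (PT.lf (nat_lit 13604) (nat_lit 6) (nat_lit 179) (nat_lit 4) (nat_lit 113) (nat_lit 144) (nat_lit 133)) (PT.lf (nat_lit 14288) (nat_lit 6) (nat_lit 188) (nat_lit 4) (nat_lit 114) (nat_lit 144) (nat_lit 132)))) (PT.nd (nat_lit 156) (PT.nd (nat_lit 78) (PT.lf (nat_lit 15428) (nat_lit 6) (nat_lit 203) (nat_lit 4) (nat_lit 115) (nat_lit 144) (nat_lit 131)) (PT.lf (nat_lit 16492) (nat_lit 6) (nat_lit 217) (nat_lit 4) (nat_lit 116) (nat_lit 144) (nat_lit 130))) (PT.nd (nat_lit 78) (PT.lf (nat_lit 16416) (nat_lit 6) (nat_lit 216) (nat_lit 4) (nat_lit 117) (nat_lit 144) (nat_lit 129)) (PT.lf (nat_lit 16340) (nat_lit 6) (nat_lit 215) (nat_lit 4) (nat_lit 118) (nat_lit 144) (nat_lit 128))))) (PT.nd (nat_lit 234) (PT.nd (nat_lit 78) (PT.lf (nat_lit 16264) (nat_lit 6) (nat_lit 214) (nat_lit 4) (nat_lit 119) (nat_lit 144) (nat_lit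 127)) (PT.nd (nat_lit 78) (PT.lf (nat_lit 16188) (nat_lit 6) (nat_lit 213) (nat_lit 4) (nat_lit 120) (nat_lit 144) (nat_lit 126)) (PT.lf (nat_lit 16112) (nat_lit 6) (nat_lit 212) (nat_lit 4) (nat_lit 121) (nat_lit 144) (nat_lit 125)))) (PT.nd (nat_lit 156) (PT.nd (nat_lit 78) (PT.lf (nat_lit 16036) (nat_lit 6) (nat_lit 211) (nat_lit 4) (nat_lit 122) (nat_lit 144) (nat_lit 124)) (PT.lf (nat_lit 15960) (nat_lit 3) (nat_lit 210) (nat_lit 2) (nat_lit 123) (nat_lit 144) (nat_lit 123))) (PT.nd (nat_lit 78) (PT.lf (nat_lit 16036) (nat_lit 6) (nat_lit 211) (nat_lit 2) (nat_lit 124) (nat_lit 144) (nat_lit 122)) (PT.lf (nat_lit 16112) (nat_lit 6) (nat_lit 212) (nat_lit 2) (nat_lit 125) (nat_lit 144) (nat_lit 121)))))) (PT.nd (nat_lit 546) (PT.nd (nat_lit 234) (PT.nd (nat_lit 78) (PT.lf (nat_lit 16188) (nat_lit 6) (nat_lit 213) (nat_lit 2) (nat_lit 126) (nat_lit 144) (nat_lit 120)) (PT.nd (nat_lit 78) (PT.lf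 (nat_lit 16264) (nat_lit 6) (nat_lit 214) (nat_lit 2) (nat_lit 127) (nat_lit 144) (nat_lit 119)) (PT.lf (nat_lit 16340) (nat_lit 6) (nat_lit 215) (nat_lit 2) (nat_lit 128) (nat_lit 144) (nat_lit 118)))) (PT.nd (nat_lit 156) (PT.nd (nat_lit 78) (PT.lf (nat_lit 16416) (nat_lit 6) (nat_lit 216) (nat_lit 2) (nat_lit 129) (nat_lit 144) (nat_lit 117)) (PT.lf (nat_lit 16492) (nat_lit 6) (nat_lit 217) (nat_lit 2) (nat_lit 130) (nat_lit 144) (nat_lit 116))) (PT.nd (nat_lit 78) (PT.lf (nat_lit 15428) (nat_lit 6) (nat_lit 203) (nat_lit 2) (nat_lit 131) (nat_lit 144) (nat_lit 115)) (PT.lf (nat_lit 14288) (nat_lit 6) (nat_lit 188) (nat_lit 2) (nat_lit 132) (nat_lit 144) (nat_lit 114))))) (PT.nd (nat_lit 312) (PT.nd (nat_lit 156) (PT.nd (nat_lit 78) (PT.lf (nat_lit 13604) (nat_lit 6) (nat_lit 179) (nat_lit 2) (nat_lit 133) (nat_lit 144) (nat_lit 113)) (PT.lf (nat_lit 12996) (nat_lit 6) (nat_lit 171) (nat_lit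 2) (nat_lit 134) (nat_lit 144) (nat_lit 112))) (PT.nd (nat_lit 78) (PT.lf (nat_lit 12464) (nat_lit 6) (nat_lit 164) (nat_lit 2) (nat_lit 135) (nat_lit 144) (nat_lit 111)) (PT.lf (nat_lit 11932) (nat_lit 6) (nat_lit 157) (nat_lit 2) (nat_lit 136) (nat_lit 144) (nat_lit 110)))) (PT.nd (nat_lit 156) (PT.nd (nat_lit 78) (PT.lf (nat_lit 11476) (nat_lit 6) (nat_lit 151) (nat_lit 2) (nat_lit 137) (nat_lit 144) (nat_lit 109)) (PT.lf (nat_lit 10944) (nat_lit 6) (nat_lit 144) (nat_lit 2) (nat_lit 138) (nat_lit 144) (nat_lit 108))) (PT.nd (nat_lit 78) (PT.lf (nat_lit 10488) (nat_lit 6) (nat_lit 138) (nat_lit 2) (nat_lit 139) (nat_lit 144) (nat_lit 107)) (PT.lf (nat_lit 10032) (nat_lit 6) (nat_lit 132) (nat_lit 2) (nat_lit 140) (nat_lit 144) (nat_lit 106))))))))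
noncomputable def pc24 : PT := (PT.nd (nat_lit 38298) (PT.nd (nat_lit 37206) (PT.nd (nat_lit 546) (PT.nd (nat_lit 234) (PT.nd (nat_lit 78) (PT.lf (nat_lit 9652) (nat_lit 6) (nat_lit 127) (nat_lit 2) (nat_lit 141) (nat_lit 144) (nat_lit 105)) (PT.nd (nat_lit 78) (PT.lf (nat_lit 9196) (nat_lit 6) (nat_lit 121) (nat_lit 2) (nat_lit 142) (nat_lit 144) (nat_lit 104)) (PT.lf (nat_lit 8816) (nat_lit 6) (nat_lit 116) (nat_lit 2) (nat_lit 143) (nat_lit 144) (nat_lit 103)))) (PT.nd (nat_lit 156) (PT.nd (nat_lit 78) (PT.lf (nat_lit 8436) (nat_lit 3) (nat_lit 111) (nat_lit 0) (nat_lit 144) (nat_lit 144) (nat_lit 102)) (PT.lf (nat_lit 8056) (nat_lit 6) (nat_lit 106) (nat_lit 0) (nat_lit 145) (nat_lit 144) (nat_lit 101))) (PT.nd (nat_lit 78) (PT.lf (nat_lit 7600) (nat_lit 6) (nat_lit 100) (nat_lit 0) (nat_lit 146) (nat_lit 144) (nat_lit 100)) (PT.lf (nat_lit 7220) (nat_lit 6) (nat_lit 95) (nat_lit 0) (nat_lit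 147) (nat_lit 144) (nat_lit 99))))) (PT.nd (nat_lit 234) (PT.nd (nat_lit 78) (PT.lf (nat_lit 6840) (nat_lit 6) (nat_lit 90) (nat_lit 0) (nat_lit 148) (nat_lit 144) (nat_lit 98)) (PT.nd (nat_lit 78) (PT.lf (nat_lit 6460) (nat_lit 6) (nat_lit 85) (nat_lit 0) (nat_lit 149) (nat_lit 144) (nat_lit 97)) (PT.lf (nat_lit 6080) (nat_lit 6) (nat_lit 80) (nat_lit 0) (nat_lit 150) (nat_lit 144) (nat_lit 96)))) (PT.nd (nat_lit 36270) (PT.nd (nat_lit 36192) (PT.lf (nat_lit 5776) (nat_lit 6) (nat_lit 76) (nat_lit 0) (nat_lit 151) (nat_lit 144) (nat_lit 95)) (PT.lf (nat_lit 5472) (nat_lit 6) (nat_lit 72) (nat_lit 5) (nat_lit 94) (nat_lit 145) (nat_lit 151))) (PT.nd (nat_lit 78) (PT.lf (nat_lit 5852) (nat_lit 6) (nat_lit 77) (nat_lit 5) (nat_lit 95) (nat_lit 145) (nat_lit 150)) (PT.lf (nat_lit 6156) (nat_lit 6) (nat_lit 81) (nat_lit 5) (nat_lit 96) (nat_lit 145) (nat_lit 149)))))) (PT.nd (nat_lit 546) (PT.nd (nat_lit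 234) (PT.nd (nat_lit 78) (PT.lf (nat_lit 6536) (nat_lit 6) (nat_lit 86) (nat_lit 5) (nat_lit 97) (nat_lit 145) (nat_lit 148)) (PT.nd (nat_lit 78) (PT.lf (nat_lit 6916) (nat_lit 6) (nat_lit 91) (nat_lit 5) (nat_lit 98) (nat_lit 145) (nat_lit 147)) (PT.lf (nat_lit 7296) (nat_lit 6) (nat_lit 96) (nat_lit 5) (nat_lit 99) (nat_lit 145) (nat_lit 146)))) (PT.nd (nat_lit 156) (PT.nd (nat_lit 78) (PT.lf (nat_lit 7676) (nat_lit 3) (nat_lit 101) (nat_lit 4) (nat_lit 100) (nat_lit 145) (nat_lit 145)) (PT.lf (nat_lit 8056) (nat_lit 6) (nat_lit 106) (nat_lit 4) (nat_lit 101) (nat_lit 145) (nat_lit 144))) (PT.nd (nat_lit 78) (PT.lf (nat_lit 8360) (nat_lit 6) (nat_lit 110) (nat_lit 4) (nat_lit 102) (nat_lit 145) (nat_lit 143)) (PT.lf (nat_lit 8740) (nat_lit 6) (nat_lit 115) (nat_lit 4) (nat_lit 103) (nat_lit 145) (nat_lit 142))))) (PT.nd (nat_lit 234) (PT.nd (nat_lit 78) (PT.lf (nat_lit 9120) (nat_lit 6) (nat_lit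 120) (nat_lit 4) (nat_lit 104) (nat_lit 145) (nat_lit 141)) (PT.nd (nat_lit 78) (PT.lf (nat_lit 9576) (nat_lit 6) (nat_lit 126) (nat_lit 4) (nat_lit 105) (nat_lit 145) (nat_lit 140)) (PT.lf (nat_lit 9956) (nat_lit 6) (nat_lit 131) (nat_lit 4) (nat_lit 106) (nat_lit 145) (nat_lit 139)))) (PT.nd (nat_lit 156) (PT.nd (nat_lit 78) (PT.lf (nat_lit 10412) (nat_lit 6) (nat_lit 137) (nat_lit 4) (nat_lit 107) (nat_lit 145) (nat_lit 138)) (PT.lf (nat_lit 10868) (nat_lit 6) (nat_lit 143) (nat_lit 4) (nat_lit 108) (nat_lit 145) (nat_lit 137))) (PT.nd (nat_lit 78) (PT.lf (nat_lit 11400) (nat_lit 6) (nat_lit 150) (nat_lit 4) (nat_lit 109) (nat_lit 145) (nat_lit 136)) (PT.lf (nat_lit 11856) (nat_lit 6) (nat_lit 156) (nat_lit 4) (nat_lit 110) (nat_lit 145) (nat_lit 135))))))) (PT.nd (nat_lit 1092) (PT.nd (nat_lit 546) (PT.nd (nat_lit 234) (PT.nd (nat_lit 78) (PT.lf (nat_lit 12388) (nat_lit 6) (nat_lit 163) (nat_lit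 4) (nat_lit 111) (nat_lit 145) (nat_lit 134)) (PT.nd (nat_lit 78) (PT.lf (nat_lit 12920) (nat_lit 6) (nat_lit 170) (nat_lit 4) (nat_lit 112) (nat_lit 145) (nat_lit 133)) (PT.lf (nat_lit 13528) (nat_lit 6) (nat_lit 178) (nat_lit 4) (nat_lit 113) (nat_lit 145) (nat_lit 132)))) (PT.nd (nat_lit 156) (PT.nd (nat_lit 78) (PT.lf (nat_lit 14212) (nat_lit 6) (nat_lit 187) (nat_lit 4) (nat_lit 114) (nat_lit 145) (nat_lit 131)) (PT.lf (nat_lit 15352) (nat_lit 6) (nat_lit 202) (nat_lit 4) (nat_lit 115) (nat_lit 145) (nat_lit 130))) (PT.nd (nat_lit 78) (PT.lf (nat_lit 15276) (nat_lit 6) (nat_lit 201) (nat_lit 4) (nat_lit 116) (nat_lit 145) (nat_lit 129)) (PT.lf (nat_lit 15200) (nat_lit 6) (nat_lit 200) (nat_lit 4) (nat_lit 117) (nat_lit 145) (nat_lit 128))))) (PT.nd (nat_lit 234) (PT.nd (nat_lit 78) (PT.lf (nat_lit 15124) (nat_lit 6) (nat_lit 199) (nat_lit 4) (nat_lit 118) (nat_lit 145) (nat_lit 127)) (PT.nd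 (nat_lit 78) (PT.lf (nat_lit 15048) (nat_lit 6) (nat_lit 198) (nat_lit 4) (nat_lit 119) (nat_lit 145) (nat_lit 126)) (PT.lf (nat_lit 14972) (nat_lit 6) (nat_lit 197) (nat_lit 4) (nat_lit 120) (nat_lit 145) (nat_lit 125)))) (PT.nd (nat_lit 156) (PT.nd (nat_lit 78) (PT.lf (nat_lit 14896) (nat_lit 6) (nat_lit 196) (nat_lit 4) (nat_lit 121) (nat_lit 145) (nat_lit 124)) (PT.lf (nat_lit 14820) (nat_lit 6) (nat_lit 195) (nat_lit 4) (nat_lit 122) (nat_lit 145) (nat_lit 123))) (PT.nd (nat_lit 78) (PT.lf (nat_lit 14820) (nat_lit 6) (nat_lit 195) (nat_lit 2) (nat_lit 123) (nat_lit 145) (nat_lit 122)) (PT.lf (nat_lit 14896) (nat_lit 6) (nat_lit 196) (nat_lit 2) (nat_lit 124) (nat_lit 145) (nat_lit 121)))))) (PT.nd (nat_lit 546) (PT.nd (nat_lit 234) (PT.nd (nat_lit 78) (PT.lf (nat_lit 14972) (nat_lit 6) (nat_lit 197) (nat_lit 2) (nat_lit 125) (nat_lit 145) (nat_lit 120)) (PT.nd (nat_lit 78) (PT.lf (nat_lit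 15048) (nat_lit 6) (nat_lit 198) (nat_lit 2) (nat_lit 126) (nat_lit 145) (nat_lit 119)) (PT.lf (nat_lit 15124) (nat_lit 6) (nat_lit 199) (nat_lit 2) (nat_lit 127) (nat_lit 145) (nat_lit 118)))) (PT.nd (nat_lit 156) (PT.nd (nat_lit 78) (PT.lf (nat_lit 15200) (nat_lit 6) (nat_lit 200) (nat_lit 2) (nat_lit 128) (nat_lit 145) (nat_lit 117)) (PT.lf (nat_lit 15276) (nat_lit 6) (nat_lit 201) (nat_lit 2) (nat_lit 129) (nat_lit 145) (nat_lit 116))) (PT.nd (nat_lit 78) (PT.lf (nat_lit 15352) (nat_lit 6) (nat_lit 202) (nat_lit 2) (nat_lit 130) (nat_lit 145) (nat_lit 115)) (PT.lf (nat_lit 14212) (nat_lit 6) (nat_lit 187) (nat_lit 2) (nat_lit 131) (nat_lit 145) (nat_lit 114))))) (PT.nd (nat_lit 234) (PT.nd (nat_lit 78) (PT.lf (nat_lit 13528) (nat_lit 6) (nat_lit 178) (nat_lit 2) (nat_lit 132) (nat_lit 145) (nat_lit 113)) (PT.nd (nat_lit 78) (PT.lf (nat_lit 12920) (nat_lit 6) (nat_lit 170) (nat_lit 2) (nat_lit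 133) (nat_lit 145) (nat_lit 112)) (PT.lf (nat_lit 12388) (nat_lit 6) (nat_lit 163) (nat_lit 2) (nat_lit 134) (nat_lit 145) (nat_lit 111)))) (PT.nd (nat_lit 156) (PT.nd (nat_lit 78) (PT.lf (nat_lit 11856) (nat_lit 6) (nat_lit 156) (nat_lit 2) (nat_lit 135) (nat_lit 145) (nat_lit 110)) (PT.lf (nat_lit 11400) (nat_lit 6) (nat_lit 150) (nat_lit 2) (nat_lit 136) (nat_lit 145) (nat_lit 109))) (PT.nd (nat_lit 78) (PT.lf (nat_lit 10868) (nat_lit 6) (nat_lit 143) (nat_lit 2) (nat_lit 137) (nat_lit 145) (nat_lit 108)) (PT.lf (nat_lit 10412) (nat_lit 6) (nat_lit 137) (nat_lit 2) (nat_lit 138) (nat_lit 145) (nat_lit 107))))))))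
noncomputable def pc25 : PT := (PT.nd (nat_lit 38142) (PT.nd (nat_lit 37050) (PT.nd (nat_lit 546) (PT.nd (nat_lit 234) (PT.nd (nat_lit 78) (PT.lf (nat_lit 9956) (nat_lit 6) (nat_lit 131) (nat_lit 2) (nat_lit 139) (nat_lit 145) (nat_lit 106)) (PT.nd (nat_lit 78) (PT.lf (nat_lit 9576) (nat_lit 6) (nat_lit 126) (nat_lit 2) (nat_lit 140) (nat_lit 145) (nat_lit 105)) (PT.lf (nat_lit 9120) (nat_lit 6) (nat_lit 120) (nat_lit 2) (nat_lit 141) (nat_lit 145) (nat_lit 104)))) (PT.nd (nat_lit 156) (PT.nd (nat_lit 78) (PT.lf (nat_lit 8740) (nat_lit 6) (nat_lit 115) (nat_lit 2) (nat_lit 142) (nat_lit 145) (nat_lit 103)) (PT.lf (nat_lit 8360) (nat_lit 6) (nat_lit 110) (nat_lit 2) (nat_lit 143) (nat_lit 145) (nat_lit 102))) (PT.nd (nat_lit 78) (PT.lf (nat_lit 8056) (nat_lit 6) (nat_lit 106) (nat_lit 2) (nat_lit 144) (nat_lit 145) (nat_lit 101)) (PT.lf (nat_lit 7676) (nat_lit 3) (nat_lit 101) (nat_lit 0) (nat_lit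 145) (nat_lit 145) (nat_lit 100))))) (PT.nd (nat_lit 234) (PT.nd (nat_lit 78) (PT.lf (nat_lit 7296) (nat_lit 6) (nat_lit 96) (nat_lit 0) (nat_lit 146) (nat_lit 145) (nat_lit 99)) (PT.nd (nat_lit 78) (PT.lf (nat_lit 6916) (nat_lit 6) (nat_lit 91) (nat_lit 0) (nat_lit 147) (nat_lit 145) (nat_lit 98)) (PT.lf (nat_lit 6536) (nat_lit 6) (nat_lit 86) (nat_lit 0) (nat_lit 148) (nat_lit 145) (nat_lit 97)))) (PT.nd (nat_lit 156) (PT.nd (nat_lit 78) (PT.lf (nat_lit 6156) (nat_lit 6) (nat_lit 81) (nat_lit 0) (nat_lit 149) (nat_lit 145) (nat_lit 96)) (PT.lf (nat_lit 5852) (nat_lit 6) (nat_lit 77) (nat_lit 0) (nat_lit 150) (nat_lit 145) (nat_lit 95))) (PT.nd (nat_lit 36036) (PT.lf (nat_lit 5472) (nat_lit 6) (nat_lit 72) (nat_lit 0) (nat_lit 151) (nat_lit 145) (nat_lit 94)) (PT.lf (nat_lit 4940) (nat_lit 6) (nat_lit 65) (nat_lit 5) (nat_lit 92) (nat_lit 146) (nat_lit 152)))))) (PT.nd (nat_lit 546) (PT.nd (nat_lit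 234) (PT.nd (nat_lit 78) (PT.lf (nat_lit 5244) (nat_lit 6) (nat_lit 69) (nat_lit 5) (nat_lit 93) (nat_lit 146) (nat_lit 151)) (PT.nd (nat_lit 78) (PT.lf (nat_lit 5548) (nat_lit 6) (nat_lit 73) (nat_lit 5) (nat_lit 94) (nat_lit 146) (nat_lit 150)) (PT.lf (nat_lit 5928) (nat_lit 6) (nat_lit 78) (nat_lit 5) (nat_lit 95) (nat_lit 146) (nat_lit 149)))) (PT.nd (nat_lit 156) (PT.nd (nat_lit 78) (PT.lf (nat_lit 6232) (nat_lit 6) (nat_lit 82) (nat_lit 5) (nat_lit 96) (nat_lit 146) (nat_lit 148)) (PT.lf (nat_lit 6612) (nat_lit 6) (nat_lit 87) (nat_lit 5) (nat_lit 97) (nat_lit 146) (nat_lit 147))) (PT.nd (nat_lit 78) (PT.lf (nat_lit 6992) (nat_lit 3) (nat_lit 92) (nat_lit 4) (nat_lit 98) (nat_lit 146) (nat_lit 146)) (PT.lf (nat_lit 7296) (nat_lit 6) (nat_lit 96) (nat_lit 4) (nat_lit 99) (nat_lit 146) (nat_lit 145))))) (PT.nd (nat_lit 234) (PT.nd (nat_lit 78) (PT.lf (nat_lit 7600) (nat_lit 6) (nat_lit 100)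 (nat_lit 4) (nat_lit 100) (nat_lit 146) (nat_lit 144)) (PT.nd (nat_lit 78) (PT.lf (nat_lit 7980) (nat_lit 6) (nat_lit 105) (nat_lit 4) (nat_lit 101) (nat_lit 146) (nat_lit 143)) (PT.lf (nat_lit 8284) (nat_lit 6) (nat_lit 109) (nat_lit 4) (nat_lit 102) (nat_lit 146) (nat_lit 142)))) (PT.nd (nat_lit 156) (PT.nd (nat_lit 78) (PT.lf (nat_lit 8664) (nat_lit 6) (nat_lit 114) (nat_lit 4) (nat_lit 103) (nat_lit 146) (nat_lit 141)) (PT.lf (nat_lit 9044) (nat_lit 6) (nat_lit 119) (nat_lit 4) (nat_lit 104) (nat_lit 146) (nat_lit 140))) (PT.nd (nat_lit 78) (PT.lf (nat_lit 9500) (nat_lit 6) (nat_lit 125) (nat_lit 4) (nat_lit 105) (nat_lit 146) (nat_lit 139)) (PT.lf (nat_lit 9880) (nat_lit 6) (nat_lit 130) (nat_lit 4) (nat_lit 106) (nat_lit 146) (nat_lit 138))))))) (PT.nd (nat_lit 2106) (PT.nd (nat_lit 546) (PT.nd (nat_lit 234) (PT.nd (nat_lit 78) (PT.lf (nat_lit 10336) (nat_lit 6) (nat_lit 136) (nat_lit 4)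 (nat_lit 107) (nat_lit 146) (nat_lit 137)) (PT.nd (nat_lit 78) (PT.lf (nat_lit 10792) (nat_lit 6) (nat_lit 142) (nat_lit 4) (nat_lit 108) (nat_lit 146) (nat_lit 136)) (PT.lf (nat_lit 11324) (nat_lit 6) (nat_lit 149) (nat_lit 4) (nat_lit 109) (nat_lit 146) (nat_lit 135)))) (PT.nd (nat_lit 156) (PT.nd (nat_lit 78) (PT.lf (nat_lit 11780) (nat_lit 6) (nat_lit 155) (nat_lit 4) (nat_lit 110) (nat_lit 146) (nat_lit 134)) (PT.lf (nat_lit 12312) (nat_lit 6) (nat_lit 162) (nat_lit 4) (nat_lit 111) (nat_lit 146) (nat_lit 133))) (PT.nd (nat_lit 78) (PT.lf (nat_lit 12844) (nat_lit 6) (nat_lit 169) (nat_lit 4) (nat_lit 112) (nat_lit 146) (nat_lit 132)) (PT.lf (nat_lit 13452) (nat_lit 6) (nat_lit 177) (nat_lit 4) (nat_lit 113) (nat_lit 146) (nat_lit 131))))) (PT.nd (nat_lit 1248) (PT.nd (nat_lit 78) (PT.lf (nat_lit 14136) (nat_lit 6) (nat_lit 186) (nat_lit 4) (nat_lit 114) (nat_lit 146) (nat_lit 130)) (PT.nd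 (nat_lit 1092) (PT.lf (nat_lit 14060) (nat_lit 6) (nat_lit 185) (nat_lit 4) (nat_lit 115) (nat_lit 146) (nat_lit 129)) (PT.lf (nat_lit 14060) (nat_lit 6) (nat_lit 185) (nat_lit 2) (nat_lit 129) (nat_lit 146) (nat_lit 115)))) (PT.nd (nat_lit 156) (PT.nd (nat_lit 78) (PT.lf (nat_lit 14136) (nat_lit 6) (nat_lit 186) (nat_lit 2) (nat_lit 130) (nat_lit 146) (nat_lit 114)) (PT.lf (nat_lit 13452) (nat_lit 6) (nat_lit 177) (nat_lit 2) (nat_lit 131) (nat_lit 146) (nat_lit 113))) (PT.nd (nat_lit 78) (PT.lf (nat_lit 12844) (nat_lit 6) (nat_lit 169) (nat_lit 2) (nat_lit 132) (nat_lit 146) (nat_lit 112)) (PT.lf (nat_lit 12312) (nat_lit 6) (nat_lit 162) (nat_lit 2) (nat_lit 133) (nat_lit 146) (nat_lit 111)))))) (PT.nd (nat_lit 546) (PT.nd (nat_lit 234) (PT.nd (nat_lit 78) (PT.lf (nat_lit 11780) (nat_lit 6) (nat_lit 155) (nat_lit 2) (nat_lit 134) (nat_lit 146) (nat_lit 110)) (PT.nd (nat_lit 78) (PT.lf (nat_lit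 11324) (nat_lit 6) (nat_lit 149) (nat_lit 2) (nat_lit 135) (nat_lit 146) (nat_lit 109)) (PT.lf (nat_lit 10792) (nat_lit 6) (nat_lit 142) (nat_lit 2) (nat_lit 136) (nat_lit 146) (nat_lit 108)))) (PT.nd (nat_lit 156) (PT.nd (nat_lit 78) (PT.lf (nat_lit 10336) (nat_lit 6) (nat_lit 136) (nat_lit 2) (nat_lit 137) (nat_lit 146) (nat_lit 107)) (PT.lf (nat_lit 9880) (nat_lit 6) (nat_lit 130) (nat_lit 2) (nat_lit 138) (nat_lit 146) (nat_lit 106))) (PT.nd (nat_lit 78) (PT.lf (nat_lit 9500) (nat_lit 6) (nat_lit 125) (nat_lit 2) (nat_lit 139) (nat_lit 146) (nat_lit 105)) (PT.lf (nat_lit 9044) (nat_lit 6) (nat_lit 119) (nat_lit 2) (nat_lit 140) (nat_lit 146) (nat_lit 104))))) (PT.nd (nat_lit 234) (PT.nd (nat_lit 78) (PT.lf (nat_lit 8664) (nat_lit 6) (nat_lit 114) (nat_lit 2) (nat_lit 141) (nat_lit 146) (nat_lit 103)) (PT.nd (nat_lit 78) (PT.lf (nat_lit 8284) (nat_lit 6) (nat_lit 109) (nat_lit 2) (nat_lit 142)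 (nat_lit 146) (nat_lit 102)) (PT.lf (nat_lit 7980) (nat_lit 6) (nat_lit 105) (nat_lit 2) (nat_lit 143) (nat_lit 146) (nat_lit 101)))) (PT.nd (nat_lit 156) (PT.nd (nat_lit 78) (PT.lf (nat_lit 7600) (nat_lit 6) (nat_lit 100) (nat_lit 2) (nat_lit 144) (nat_lit 146) (nat_lit 100)) (PT.lf (nat_lit 7296) (nat_lit 6) (nat_lit 96) (nat_lit 2) (nat_lit 145) (nat_lit 146) (nat_lit 99))) (PT.nd (nat_lit 78) (PT.lf (nat_lit 6992) (nat_lit 3) (nat_lit 92) (nat_lit 0) (nat_lit 146) (nat_lit 146) (nat_lit 98)) (PT.lf (nat_lit 6612) (nat_lit 6) (nat_lit 87) (nat_lit 0) (nat_lit 147) (nat_lit 146) (nat_lit 97))))))))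
noncomputable def pc26 : PT := (PT.nd (nat_lit 39858) (PT.nd (nat_lit 36894) (PT.nd (nat_lit 36348) (PT.nd (nat_lit 234) (PT.nd (nat_lit 78) (PT.lf (nat_lit 6232) (nat_lit 6) (nat_lit 82) (nat_lit 0) (nat_lit 148) (nat_lit 146) (nat_lit 96)) (PT.nd (nat_lit 78) (PT.lf (nat_lit 5928) (nat_lit 6) (nat_lit 78) (nat_lit 0) (nat_lit 149) (nat_lit 146) (nat_lit 95)) (PT.lf (nat_lit 5548) (nat_lit 6) (nat_lit 73) (nat_lit 0) (nat_lit 150) (nat_lit 146) (nat_lit 94)))) (PT.nd (nat_lit 35958) (PT.nd (nat_lit 78) (PT.lf (nat_lit 5244) (nat_lit 6) (nat_lit 69) (nat_lit 0) (nat_lit 151) (nat_lit 146) (nat_lit 93)) (PT.lf (nat_lit 4940) (nat_lit 6) (nat_lit 65) (nat_lit 0) (nat_lit 152) (nat_lit 146) (nat_lit 92))) (PT.nd (nat_lit 78) (PT.lf (nat_lit 4712) (nat_lit 6) (nat_lit 62) (nat_lit 5) (nat_lit 91) (nat_lit 147) (nat_lit 152)) (PT.lf (nat_lit 5016) (nat_lit 6) (nat_lit 66) (nat_lit 5) (nat_lit 92) (nat_lit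 147) (nat_lit 151))))) (PT.nd (nat_lit 234) (PT.nd (nat_lit 78) (PT.lf (nat_lit 5320) (nat_lit 6) (nat_lit 70) (nat_lit 5) (nat_lit 93) (nat_lit 147) (nat_lit 150)) (PT.nd (nat_lit 78) (PT.lf (nat_lit 5624) (nat_lit 6) (nat_lit 74) (nat_lit 5) (nat_lit 94) (nat_lit 147) (nat_lit 149)) (PT.lf (nat_lit 6004) (nat_lit 6) (nat_lit 79) (nat_lit 5) (nat_lit 95) (nat_lit 147) (nat_lit 148)))) (PT.nd (nat_lit 156) (PT.nd (nat_lit 78) (PT.lf (nat_lit 6308) (nat_lit 3) (nat_lit 83) (nat_lit 4) (nat_lit 96) (nat_lit 147) (nat_lit 147)) (PT.lf (nat_lit 6612) (nat_lit 6) (nat_lit 87) (nat_lit 4) (nat_lit 97) (nat_lit 147) (nat_lit 146))) (PT.nd (nat_lit 78) (PT.lf (nat_lit 6916) (nat_lit 6) (nat_lit 91) (nat_lit 4) (nat_lit 98) (nat_lit 147) (nat_lit 145)) (PT.lf (nat_lit 7220) (nat_lit 6) (nat_lit 95) (nat_lit 4) (nat_lit 99) (nat_lit 147) (nat_lit 144)))))) (PT.nd (nat_lit 546) (PT.nd (nat_lit 234) (PT.nd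 (nat_lit 78) (PT.lf (nat_lit 7524) (nat_lit 6) (nat_lit 99) (nat_lit 4) (nat_lit 100) (nat_lit 147) (nat_lit 143)) (PT.nd (nat_lit 78) (PT.lf (nat_lit 7904) (nat_lit 6) (nat_lit 104) (nat_lit 4) (nat_lit 101) (nat_lit 147) (nat_lit 142)) (PT.lf (nat_lit 8208) (nat_lit 6) (nat_lit 108) (nat_lit 4) (nat_lit 102) (nat_lit 147) (nat_lit 141)))) (PT.nd (nat_lit 156) (PT.nd (nat_lit 78) (PT.lf (nat_lit 8588) (nat_lit 6) (nat_lit 113) (nat_lit 4) (nat_lit 103) (nat_lit 147) (nat_lit 140)) (PT.lf (nat_lit 8968) (nat_lit 6) (nat_lit 118) (nat_lit 4) (nat_lit 104) (nat_lit 147) (nat_lit 139))) (PT.nd (nat_lit 78) (PT.lf (nat_lit 9424) (nat_lit 6) (nat_lit 124) (nat_lit 4) (nat_lit 105) (nat_lit 147) (nat_lit 138)) (PT.lf (nat_lit 9804) (nat_lit 6) (nat_lit 129) (nat_lit 4) (nat_lit 106) (nat_lit 147) (nat_lit 137))))) (PT.nd (nat_lit 2106) (PT.nd (nat_lit 78) (PT.lf (nat_lit 10260) (nat_lit 6) (nat_lit 135)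 (nat_lit 4) (nat_lit 107) (nat_lit 147) (nat_lit 136)) (PT.nd (nat_lit 78) (PT.lf (nat_lit 10716) (nat_lit 6) (nat_lit 141) (nat_lit 4) (nat_lit 108) (nat_lit 147) (nat_lit 135)) (PT.lf (nat_lit 11248) (nat_lit 6) (nat_lit 148) (nat_lit 4) (nat_lit 109) (nat_lit 147) (nat_lit 134)))) (PT.nd (nat_lit 156) (PT.nd (nat_lit 78) (PT.lf (nat_lit 11248) (nat_lit 6) (nat_lit 148) (nat_lit 2) (nat_lit 134) (nat_lit 147) (nat_lit 109)) (PT.lf (nat_lit 10716) (nat_lit 6) (nat_lit 141) (nat_lit 2) (nat_lit 135) (nat_lit 147) (nat_lit 108))) (PT.nd (nat_lit 78) (PT.lf (nat_lit 10260) (nat_lit 6) (nat_lit 135) (nat_lit 2) (nat_lit 136) (nat_lit 147) (nat_lit 107)) (PT.lf (nat_lit 9804) (nat_lit 6) (nat_lit 129) (nat_lit 2) (nat_lit 137) (nat_lit 147) (nat_lit 106))))))) (PT.nd (nat_lit 1092) (PT.nd (nat_lit 546) (PT.nd (nat_lit 234) (PT.nd (nat_lit 78) (PT.lf (nat_lit 9424) (nat_lit 6) (nat_lit 124) (nat_lit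 2) (nat_lit 138) (nat_lit 147) (nat_lit 105)) (PT.nd (nat_lit 78) (PT.lf (nat_lit 8968) (nat_lit 6) (nat_lit 118) (nat_lit 2) (nat_lit 139) (nat_lit 147) (nat_lit 104)) (PT.lf (nat_lit 8588) (nat_lit 6) (nat_lit 113) (nat_lit 2) (nat_lit 140) (nat_lit 147) (nat_lit 103)))) (PT.nd (nat_lit 156) (PT.nd (nat_lit 78) (PT.lf (nat_lit 8208) (nat_lit 6) (nat_lit 108) (nat_lit 2) (nat_lit 141) (nat_lit 147) (nat_lit 102)) (PT.lf (nat_lit 7904) (nat_lit 6) (nat_lit 104) (nat_lit 2) (nat_lit 142) (nat_lit 147) (nat_lit 101))) (PT.nd (nat_lit 78) (PT.lf (nat_lit 7524) (nat_lit 6) (nat_lit 99) (nat_lit 2) (nat_lit 143) (nat_lit 147) (nat_lit 100)) (PT.lf (nat_lit 7220) (nat_lit 6) (nat_lit 95) (nat_lit 2) (nat_lit 144) (nat_lit 147) (nat_lit 99))))) (PT.nd (nat_lit 234) (PT.nd (nat_lit 78) (PT.lf (nat_lit 6916) (nat_lit 6) (nat_lit 91) (nat_lit 2) (nat_lit 145) (nat_lit 147) (nat_lit 98)) (PT.nd (nat_lit 78)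 (PT.lf (nat_lit 6612) (nat_lit 6) (nat_lit 87) (nat_lit 2) (nat_lit 146) (nat_lit 147) (nat_lit 97)) (PT.lf (nat_lit 6308) (nat_lit 3) (nat_lit 83) (nat_lit 0) (nat_lit 147) (nat_lit 147) (nat_lit 96)))) (PT.nd (nat_lit 156) (PT.nd (nat_lit 78) (PT.lf (nat_lit 6004) (nat_lit 6) (nat_lit 79) (nat_lit 0) (nat_lit 148) (nat_lit 147) (nat_lit 95)) (PT.lf (nat_lit 5624) (nat_lit 6) (nat_lit 74) (nat_lit 0) (nat_lit 149) (nat_lit 147) (nat_lit 94))) (PT.nd (nat_lit 78) (PT.lf (nat_lit 5320) (nat_lit 6) (nat_lit 70) (nat_lit 0) (nat_lit 150) (nat_lit 147) (nat_lit 93)) (PT.lf (nat_lit 5016) (nat_lit 6) (nat_lit 66) (nat_lit 0) (nat_lit 151) (nat_lit 147) (nat_lit 92)))))) (PT.nd (nat_lit 36192) (PT.nd (nat_lit 35880) (PT.nd (nat_lit 35724) (PT.lf (nat_lit 4712) (nat_lit 6) (nat_lit 62) (nat_lit 0) (nat_lit 152) (nat_lit 147) (nat_lit 91)) (PT.nd (nat_lit 78) (PT.lf (nat_lit 4256) (nat_lit 6) (nat_lit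 56) (nat_lit 5) (nat_lit 89) (nat_lit 148) (nat_lit 153)) (PT.lf (nat_lit 4484) (nat_lit 6) (nat_lit 59) (nat_lit 5) (nat_lit 90) (nat_lit 148) (nat_lit 152)))) (PT.nd (nat_lit 156) (PT.nd (nat_lit 78) (PT.lf (nat_lit 4788) (nat_lit 6) (nat_lit 63) (nat_lit 5) (nat_lit 91) (nat_lit 148) (nat_lit 151)) (PT.lf (nat_lit 5092) (nat_lit 6) (nat_lit 67) (nat_lit 5) (nat_lit 92) (nat_lit 148) (nat_lit 150))) (PT.nd (nat_lit 78) (PT.lf (nat_lit 5396) (nat_lit 6) (nat_lit 71) (nat_lit 5) (nat_lit 93) (nat_lit 148) (nat_lit 149)) (PT.lf (nat_lit 5700) (nat_lit 3) (nat_lit 75) (nat_lit 4) (nat_lit 94) (nat_lit 148) (nat_lit 148))))) (PT.nd (nat_lit 234) (PT.nd (nat_lit 78) (PT.lf (nat_lit 6004) (nat_lit 6) (nat_lit 79) (nat_lit 4) (nat_lit 95) (nat_lit 148) (nat_lit 147)) (PT.nd (nat_lit 78) (PT.lf (nat_lit 6232) (nat_lit 6) (nat_lit 82) (nat_lit 4) (nat_lit 96) (nat_lit 148) (nat_lit 146)) (PT.lf (nat_lit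 6536) (nat_lit 6) (nat_lit 86) (nat_lit 4) (nat_lit 97) (nat_lit 148) (nat_lit 145)))) (PT.nd (nat_lit 156) (PT.nd (nat_lit 78) (PT.lf (nat_lit 6840) (nat_lit 6) (nat_lit 90) (nat_lit 4) (nat_lit 98) (nat_lit 148) (nat_lit 144)) (PT.lf (nat_lit 7144) (nat_lit 6) (nat_lit 94) (nat_lit 4) (nat_lit 99) (nat_lit 148) (nat_lit 143))) (PT.nd (nat_lit 78) (PT.lf (nat_lit 7448) (nat_lit 6) (nat_lit 98) (nat_lit 4) (nat_lit 100) (nat_lit 148) (nat_lit 142)) (PT.lf (nat_lit 7828) (nat_lit 6) (nat_lit 103) (nat_lit 4) (nat_lit 101) (nat_lit 148) (nat_lit 141))))))))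
noncomputable def pc27 : PT := (PT.nd (nat_lit 40014) (PT.nd (nat_lit 3510) (PT.nd (nat_lit 2964) (PT.nd (nat_lit 234) (PT.nd (nat_lit 78) (PT.lf (nat_lit 8132) (nat_lit 6) (nat_lit 107) (nat_lit 4) (nat_lit 102) (nat_lit 148) (nat_lit 140)) (PT.nd (nat_lit 78) (PT.lf (nat_lit 8512) (nat_lit 6) (nat_lit 112) (nat_lit 4) (nat_lit 103) (nat_lit 148) (nat_lit 139)) (PT.lf (nat_lit 8892) (nat_lit 6) (nat_lit 117) (nat_lit 4) (nat_lit 104) (nat_lit 148) (nat_lit 138)))) (PT.nd (nat_lit 2574) (PT.nd (nat_lit 2496) (PT.lf (nat_lit 9348) (nat_lit 6) (nat_lit 123) (nat_lit 4) (nat_lit 105) (nat_lit 148) (nat_lit 137)) (PT.lf (nat_lit 9348) (nat_lit 6) (nat_lit 123) (nat_lit 2) (nat_lit 137) (nat_lit 148) (nat_lit 105))) (PT.nd (nat_lit 78) (PT.lf (nat_lit 8892) (nat_lit 6) (nat_lit 117) (nat_lit 2) (nat_lit 138) (nat_lit 148) (nat_lit 104)) (PT.lf (nat_lit 8512) (nat_lit 6) (nat_lit 112) (nat_lit 2) (nat_lit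 139) (nat_lit 148) (nat_lit 103))))) (PT.nd (nat_lit 234) (PT.nd (nat_lit 78) (PT.lf (nat_lit 8132) (nat_lit 6) (nat_lit 107) (nat_lit 2) (nat_lit 140) (nat_lit 148) (nat_lit 102)) (PT.nd (nat_lit 78) (PT.lf (nat_lit 7828) (nat_lit 6) (nat_lit 103) (nat_lit 2) (nat_lit 141) (nat_lit 148) (nat_lit 101)) (PT.lf (nat_lit 7448) (nat_lit 6) (nat_lit 98) (nat_lit 2) (nat_lit 142) (nat_lit 148) (nat_lit 100)))) (PT.nd (nat_lit 156) (PT.nd (nat_lit 78) (PT.lf (nat_lit 7144) (nat_lit 6) (nat_lit 94) (nat_lit 2) (nat_lit 143) (nat_lit 148) (nat_lit 99)) (PT.lf (nat_lit 6840) (nat_lit 6) (nat_lit 90) (nat_lit 2) (nat_lit 144) (nat_lit 148) (nat_lit 98))) (PT.nd (nat_lit 78) (PT.lf (nat_lit 6536) (nat_lit 6) (nat_lit 86) (nat_lit 2) (nat_lit 145) (nat_lit 148) (nat_lit 97)) (PT.lf (nat_lit 6232) (nat_lit 6) (nat_lit 82) (nat_lit 2) (nat_lit 146) (nat_lit 148) (nat_lit 96)))))) (PT.nd (nat_lit 35958) (PT.nd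 (nat_lit 234) (PT.nd (nat_lit 78) (PT.lf (nat_lit 6004) (nat_lit 6) (nat_lit 79) (nat_lit 2) (nat_lit 147) (nat_lit 148) (nat_lit 95)) (PT.nd (nat_lit 78) (PT.lf (nat_lit 5700) (nat_lit 3) (nat_lit 75) (nat_lit 0) (nat_lit 148) (nat_lit 148) (nat_lit 94)) (PT.lf (nat_lit 5396) (nat_lit 6) (nat_lit 71) (nat_lit 0) (nat_lit 149) (nat_lit 148) (nat_lit 93)))) (PT.nd (nat_lit 156) (PT.nd (nat_lit 78) (PT.lf (nat_lit 5092) (nat_lit 6) (nat_lit 67) (nat_lit 0) (nat_lit 150) (nat_lit 148) (nat_lit 92)) (PT.lf (nat_lit 4788) (nat_lit 6) (nat_lit 63) (nat_lit 0) (nat_lit 151) (nat_lit 148) (nat_lit 91))) (PT.nd (nat_lit 78) (PT.lf (nat_lit 4484) (nat_lit 6) (nat_lit 59) (nat_lit 0) (nat_lit 152) (nat_lit 148) (nat_lit 90)) (PT.lf (nat_lit 4256) (nat_lit 6) (nat_lit 56) (nat_lit 0) (nat_lit 153) (nat_lit 148) (nat_lit 89))))) (PT.nd (nat_lit 234) (PT.nd (nat_lit 78) (PT.lf (nat_lit 3800) (nat_lit 6) (nat_lit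 50) (nat_lit 5) (nat_lit 87) (nat_lit 149) (nat_lit 154)) (PT.nd (nat_lit 78) (PT.lf (nat_lit 4028) (nat_lit 6) (nat_lit 53) (nat_lit 5) (nat_lit 88) (nat_lit 149) (nat_lit 153)) (PT.lf (nat_lit 4332) (nat_lit 6) (nat_lit 57) (nat_lit 5) (nat_lit 89) (nat_lit 149) (nat_lit 152)))) (PT.nd (nat_lit 156) (PT.nd (nat_lit 78) (PT.lf (nat_lit 4560) (nat_lit 6) (nat_lit 60) (nat_lit 5) (nat_lit 90) (nat_lit 149) (nat_lit 151)) (PT.lf (nat_lit 4864) (nat_lit 6) (nat_lit 64) (nat_lit 5) (nat_lit 91) (nat_lit 149) (nat_lit 150))) (PT.nd (nat_lit 78) (PT.lf (nat_lit 5168) (nat_lit 3) (nat_lit 68) (nat_lit 4) (nat_lit 92) (nat_lit 149) (nat_lit 149)) (PT.lf (nat_lit 5396) (nat_lit 6) (nat_lit 71) (nat_lit 4) (nat_lit 93) (nat_lit 149) (nat_lit 148))))))) (PT.nd (nat_lit 4056) (PT.nd (nat_lit 546) (PT.nd (nat_lit 234) (PT.nd (nat_lit 78) (PT.lf (nat_lit 5624) (nat_lit 6) (nat_lit 74) (nat_lit 4) (nat_lit 94)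 (nat_lit 149) (nat_lit 147)) (PT.nd (nat_lit 78) (PT.lf (nat_lit 5928) (nat_lit 6) (nat_lit 78) (nat_lit 4) (nat_lit 95) (nat_lit 149) (nat_lit 146)) (PT.lf (nat_lit 6156) (nat_lit 6) (nat_lit 81) (nat_lit 4) (nat_lit 96) (nat_lit 149) (nat_lit 145)))) (PT.nd (nat_lit 156) (PT.nd (nat_lit 78) (PT.lf (nat_lit 6460) (nat_lit 6) (nat_lit 85) (nat_lit 4) (nat_lit 97) (nat_lit 149) (nat_lit 144)) (PT.lf (nat_lit 6764) (nat_lit 6) (nat_lit 89) (nat_lit 4) (nat_lit 98) (nat_lit 149) (nat_lit 143))) (PT.nd (nat_lit 78) (PT.lf (nat_lit 7068) (nat_lit 6) (nat_lit 93) (nat_lit 4) (nat_lit 99) (nat_lit 149) (nat_lit 142)) (PT.lf (nat_lit 7372) (nat_lit 6) (nat_lit 97) (nat_lit 4) (nat_lit 100) (nat_lit 149) (nat_lit 141))))) (PT.nd (nat_lit 3198) (PT.nd (nat_lit 3042) (PT.lf (nat_lit 7752) (nat_lit 6) (nat_lit 102) (nat_lit 4) (nat_lit 101) (nat_lit 149) (nat_lit 140)) (PT.nd (nat_lit 78) (PT.lf (nat_lit 7752)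 (nat_lit 6) (nat_lit 102) (nat_lit 2) (nat_lit 140) (nat_lit 149) (nat_lit 101)) (PT.lf (nat_lit 7372) (nat_lit 6) (nat_lit 97) (nat_lit 2) (nat_lit 141) (nat_lit 149) (nat_lit 100)))) (PT.nd (nat_lit 156) (PT.nd (nat_lit 78) (PT.lf (nat_lit 7068) (nat_lit 6) (nat_lit 93) (nat_lit 2) (nat_lit 142) (nat_lit 149) (nat_lit 99)) (PT.lf (nat_lit 6764) (nat_lit 6) (nat_lit 89) (nat_lit 2) (nat_lit 143) (nat_lit 149) (nat_lit 98))) (PT.nd (nat_lit 78) (PT.lf (nat_lit 6460) (nat_lit 6) (nat_lit 85) (nat_lit 2) (nat_lit 144) (nat_lit 149) (nat_lit 97)) (PT.lf (nat_lit 6156) (nat_lit 6) (nat_lit 81) (nat_lit 2) (nat_lit 145) (nat_lit 149) (nat_lit 96)))))) (PT.nd (nat_lit 546) (PT.nd (nat_lit 234) (PT.nd (nat_lit 78) (PT.lf (nat_lit 5928) (nat_lit 6) (nat_lit 78) (nat_lit 2) (nat_lit 146) (nat_lit 149) (nat_lit 95)) (PT.nd (nat_lit 78) (PT.lf (nat_lit 5624) (nat_lit 6) (nat_lit 74) (nat_lit 2) (nat_lit 147)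 (nat_lit 149) (nat_lit 94)) (PT.lf (nat_lit 5396) (nat_lit 6) (nat_lit 71) (nat_lit 2) (nat_lit 148) (nat_lit 149) (nat_lit 93)))) (PT.nd (nat_lit 156) (PT.nd (nat_lit 78) (PT.lf (nat_lit 5168) (nat_lit 3) (nat_lit 68) (nat_lit 0) (nat_lit 149) (nat_lit 149) (nat_lit 92)) (PT.lf (nat_lit 4864) (nat_lit 6) (nat_lit 64) (nat_lit 0) (nat_lit 150) (nat_lit 149) (nat_lit 91))) (PT.nd (nat_lit 78) (PT.lf (nat_lit 4560) (nat_lit 6) (nat_lit 60) (nat_lit 0) (nat_lit 151) (nat_lit 149) (nat_lit 90)) (PT.lf (nat_lit 4332) (nat_lit 6) (nat_lit 57) (nat_lit 0) (nat_lit 152) (nat_lit 149) (nat_lit 89))))) (PT.nd (nat_lit 35568) (PT.nd (nat_lit 35412) (PT.nd (nat_lit 78) (PT.lf (nat_lit 4028) (nat_lit 6) (nat_lit 53) (nat_lit 0) (nat_lit 153) (nat_lit 149) (nat_lit 88)) (PT.lf (nat_lit 3800) (nat_lit 6) (nat_lit 50) (nat_lit 0) (nat_lit 154) (nat_lit 149) (nat_lit 87))) (PT.nd (nat_lit 78) (PT.lf (nat_lit 3572)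 (nat_lit 6) (nat_lit 47) (nat_lit 5) (nat_lit 86) (nat_lit 150) (nat_lit 154)) (PT.lf (nat_lit 3876) (nat_lit 6) (nat_lit 51) (nat_lit 5) (nat_lit 87) (nat_lit 150) (nat_lit 153)))) (PT.nd (nat_lit 156) (PT.nd (nat_lit 78) (PT.lf (nat_lit 4104) (nat_lit 6) (nat_lit 54) (nat_lit 5) (nat_lit 88) (nat_lit 150) (nat_lit 152)) (PT.lf (nat_lit 4408) (nat_lit 6) (nat_lit 58) (nat_lit 5) (nat_lit 89) (nat_lit 150) (nat_lit 151))) (PT.nd (nat_lit 78) (PT.lf (nat_lit 4636) (nat_lit 3) (nat_lit 61) (nat_lit 4) (nat_lit 90) (nat_lit 150) (nat_lit 150)) (PT.lf (nat_lit 4864) (nat_lit 6) (nat_lit 64) (nat_lit 4) (nat_lit 91) (nat_lit 150) (nat_lit 149))))))))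
noncomputable def pc28 : PT := (PT.nd (nat_lit 40638) (PT.nd (nat_lit 4446) (PT.nd (nat_lit 3900) (PT.nd (nat_lit 234) (PT.nd (nat_lit 78) (PT.lf (nat_lit 5092) (nat_lit 6) (nat_lit 67) (nat_lit 4) (nat_lit 92) (nat_lit 150) (nat_lit 148)) (PT.nd (nat_lit 78) (PT.lf (nat_lit 5320) (nat_lit 6) (nat_lit 70) (nat_lit 4) (nat_lit 93) (nat_lit 150) (nat_lit 147)) (PT.lf (nat_lit 5548) (nat_lit 6) (nat_lit 73) (nat_lit 4) (nat_lit 94) (nat_lit 150) (nat_lit 146)))) (PT.nd (nat_lit 156) (PT.nd (nat_lit 78) (PT.lf (nat_lit 5852) (nat_lit 6) (nat_lit 77) (nat_lit 4) (nat_lit 95) (nat_lit 150) (nat_lit 145)) (PT.lf (nat_lit 6080) (nat_lit 6) (nat_lit 80) (nat_lit 4) (nat_lit 96) (nat_lit 150) (nat_lit 144))) (PT.nd (nat_lit 78) (PT.lf (nat_lit 6384) (nat_lit 6) (nat_lit 84) (nat_lit 4) (nat_lit 97) (nat_lit 150) (nat_lit 143)) (PT.lf (nat_lit 6688) (nat_lit 6) (nat_lit 88) (nat_lit 4) (nat_lit 98) (nat_lit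 150) (nat_lit 142))))) (PT.nd (nat_lit 234) (PT.nd (nat_lit 78) (PT.lf (nat_lit 6688) (nat_lit 6) (nat_lit 88) (nat_lit 2) (nat_lit 142) (nat_lit 150) (nat_lit 98)) (PT.nd (nat_lit 78) (PT.lf (nat_lit 6384) (nat_lit 6) (nat_lit 84) (nat_lit 2) (nat_lit 143) (nat_lit 150) (nat_lit 97)) (PT.lf (nat_lit 6080) (nat_lit 6) (nat_lit 80) (nat_lit 2) (nat_lit 144) (nat_lit 150) (nat_lit 96)))) (PT.nd (nat_lit 156) (PT.nd (nat_lit 78) (PT.lf (nat_lit 5852) (nat_lit 6) (nat_lit 77) (nat_lit 2) (nat_lit 145) (nat_lit 150) (nat_lit 95)) (PT.lf (nat_lit 5548) (nat_lit 6) (nat_lit 73) (nat_lit 2) (nat_lit 146) (nat_lit 150) (nat_lit 94))) (PT.nd (nat_lit 78) (PT.lf (nat_lit 5320) (nat_lit 6) (nat_lit 70) (nat_lit 2) (nat_lit 147) (nat_lit 150) (nat_lit 93)) (PT.lf (nat_lit 5092) (nat_lit 6) (nat_lit 67) (nat_lit 2) (nat_lit 148) (nat_lit 150) (nat_lit 92)))))) (PT.nd (nat_lit 35646) (PT.nd (nat_lit 234) (PT.nd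 (nat_lit 78) (PT.lf (nat_lit 4864) (nat_lit 6) (nat_lit 64) (nat_lit 2) (nat_lit 149) (nat_lit 150) (nat_lit 91)) (PT.nd (nat_lit 78) (PT.lf (nat_lit 4636) (nat_lit 3) (nat_lit 61) (nat_lit 0) (nat_lit 150) (nat_lit 150) (nat_lit 90)) (PT.lf (nat_lit 4408) (nat_lit 6) (nat_lit 58) (nat_lit 0) (nat_lit 151) (nat_lit 150) (nat_lit 89)))) (PT.nd (nat_lit 156) (PT.nd (nat_lit 78) (PT.lf (nat_lit 4104) (nat_lit 6) (nat_lit 54) (nat_lit 0) (nat_lit 152) (nat_lit 150) (nat_lit 88)) (PT.lf (nat_lit 3876) (nat_lit 6) (nat_lit 51) (nat_lit 0) (nat_lit 153) (nat_lit 150) (nat_lit 87))) (PT.nd (nat_lit 35178) (PT.lf (nat_lit 3572) (nat_lit 6) (nat_lit 47) (nat_lit 0) (nat_lit 154) (nat_lit 150) (nat_lit 86)) (PT.lf (nat_lit 3192) (nat_lit 6) (nat_lit 42) (nat_lit 5) (nat_lit 84) (nat_lit 151) (nat_lit 155))))) (PT.nd (nat_lit 234) (PT.nd (nat_lit 78) (PT.lf (nat_lit 3420) (nat_lit 6) (nat_lit 45) (nat_lit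 5) (nat_lit 85) (nat_lit 151) (nat_lit 154)) (PT.nd (nat_lit 78) (PT.lf (nat_lit 3648) (nat_lit 6) (nat_lit 48) (nat_lit 5) (nat_lit 86) (nat_lit 151) (nat_lit 153)) (PT.lf (nat_lit 3952) (nat_lit 6) (nat_lit 52) (nat_lit 5) (nat_lit 87) (nat_lit 151) (nat_lit 152)))) (PT.nd (nat_lit 156) (PT.nd (nat_lit 78) (PT.lf (nat_lit 4180) (nat_lit 3) (nat_lit 55) (nat_lit 4) (nat_lit 88) (nat_lit 151) (nat_lit 151)) (PT.lf (nat_lit 4408) (nat_lit 6) (nat_lit 58) (nat_lit 4) (nat_lit 89) (nat_lit 151) (nat_lit 150))) (PT.nd (nat_lit 78) (PT.lf (nat_lit 4560) (nat_lit 6) (nat_lit 60) (nat_lit 4) (nat_lit 90) (nat_lit 151) (nat_lit 149)) (PT.lf (nat_lit 4788) (nat_lit 6) (nat_lit 63) (nat_lit 4) (nat_lit 91) (nat_lit 151) (nat_lit 148))))))) (PT.nd (nat_lit 4836) (PT.nd (nat_lit 4290) (PT.nd (nat_lit 234) (PT.nd (nat_lit 78) (PT.lf (nat_lit 5016) (nat_lit 6) (nat_lit 66) (nat_lit 4) (nat_lit 92) (nat_lit 151)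 (nat_lit 147)) (PT.nd (nat_lit 78) (PT.lf (nat_lit 5244) (nat_lit 6) (nat_lit 69) (nat_lit 4) (nat_lit 93) (nat_lit 151) (nat_lit 146)) (PT.lf (nat_lit 5472) (nat_lit 6) (nat_lit 72) (nat_lit 4) (nat_lit 94) (nat_lit 151) (nat_lit 145)))) (PT.nd (nat_lit 3900) (PT.nd (nat_lit 3822) (PT.lf (nat_lit 5776) (nat_lit 6) (nat_lit 76) (nat_lit 4) (nat_lit 95) (nat_lit 151) (nat_lit 144)) (PT.lf (nat_lit 5776) (nat_lit 6) (nat_lit 76) (nat_lit 2) (nat_lit 144) (nat_lit 151) (nat_lit 95))) (PT.nd (nat_lit 78) (PT.lf (nat_lit 5472) (nat_lit 6) (nat_lit 72) (nat_lit 2) (nat_lit 145) (nat_lit 151) (nat_lit 94)) (PT.lf (nat_lit 5244) (nat_lit 6) (nat_lit 69) (nat_lit 2) (nat_lit 146) (nat_lit 151) (nat_lit 93))))) (PT.nd (nat_lit 234) (PT.nd (nat_lit 78) (PT.lf (nat_lit 5016) (nat_lit 6) (nat_lit 66) (nat_lit 2) (nat_lit 147) (nat_lit 151) (nat_lit 92)) (PT.nd (nat_lit 78) (PT.lf (nat_lit 4788) (nat_lit 6)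 (nat_lit 63) (nat_lit 2) (nat_lit 148) (nat_lit 151) (nat_lit 91)) (PT.lf (nat_lit 4560) (nat_lit 6) (nat_lit 60) (nat_lit 2) (nat_lit 149) (nat_lit 151) (nat_lit 90)))) (PT.nd (nat_lit 156) (PT.nd (nat_lit 78) (PT.lf (nat_lit 4408) (nat_lit 6) (nat_lit 58) (nat_lit 2) (nat_lit 150) (nat_lit 151) (nat_lit 89)) (PT.lf (nat_lit 4180) (nat_lit 3) (nat_lit 55) (nat_lit 0) (nat_lit 151) (nat_lit 151) (nat_lit 88))) (PT.nd (nat_lit 78) (PT.lf (nat_lit 3952) (nat_lit 6) (nat_lit 52) (nat_lit 0) (nat_lit 152) (nat_lit 151) (nat_lit 87)) (PT.lf (nat_lit 3648) (nat_lit 6) (nat_lit 48) (nat_lit 0) (nat_lit 153) (nat_lit 151) (nat_lit 86)))))) (PT.nd (nat_lit 35412) (PT.nd (nat_lit 35100) (PT.nd (nat_lit 78) (PT.lf (nat_lit 3420) (nat_lit 6) (nat_lit 45) (nat_lit 0) (nat_lit 154) (nat_lit 151) (nat_lit 85)) (PT.nd (nat_lit 34944) (PT.lf (nat_lit 3192) (nat_lit 6) (nat_lit 42) (nat_lit 0) (nat_lit 155) (nat_lit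 151) (nat_lit 84)) (PT.lf (nat_lit 2812) (nat_lit 6) (nat_lit 37) (nat_lit 5) (nat_lit 82) (nat_lit 152) (nat_lit 156)))) (PT.nd (nat_lit 156) (PT.nd (nat_lit 78) (PT.lf (nat_lit 3040) (nat_lit 6) (nat_lit 40) (nat_lit 5) (nat_lit 83) (nat_lit 152) (nat_lit 155)) (PT.lf (nat_lit 3268) (nat_lit 6) (nat_lit 43) (nat_lit 5) (nat_lit 84) (nat_lit 152) (nat_lit 154))) (PT.nd (nat_lit 78) (PT.lf (nat_lit 3496) (nat_lit 6) (nat_lit 46) (nat_lit 5) (nat_lit 85) (nat_lit 152) (nat_lit 153)) (PT.lf (nat_lit 3724) (nat_lit 3) (nat_lit 49) (nat_lit 4) (nat_lit 86) (nat_lit 152) (nat_lit 152))))) (PT.nd (nat_lit 234) (PT.nd (nat_lit 78) (PT.lf (nat_lit 3952) (nat_lit 6) (nat_lit 52) (nat_lit 4) (nat_lit 87) (nat_lit 152) (nat_lit 151)) (PT.nd (nat_lit 78) (PT.lf (nat_lit 4104) (nat_lit 6) (nat_lit 54) (nat_lit 4) (nat_lit 88) (nat_lit 152) (nat_lit 150)) (PT.lf (nat_lit 4332) (nat_lit 6) (nat_lit 57) (nat_lit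 4) (nat_lit 89) (nat_lit 152) (nat_lit 149)))) (PT.nd (nat_lit 156) (PT.nd (nat_lit 78) (PT.lf (nat_lit 4484) (nat_lit 6) (nat_lit 59) (nat_lit 4) (nat_lit 90) (nat_lit 152) (nat_lit 148)) (PT.lf (nat_lit 4712) (nat_lit 6) (nat_lit 62) (nat_lit 4) (nat_lit 91) (nat_lit 152) (nat_lit 147))) (PT.nd (nat_lit 4212) (PT.lf (nat_lit 4940) (nat_lit 6) (nat_lit 65) (nat_lit 4) (nat_lit 92) (nat_lit 152) (nat_lit 146)) (PT.lf (nat_lit 4940) (nat_lit 6) (nat_lit 65) (nat_lit 2) (nat_lit 146) (nat_lit 152) (nat_lit 92))))))))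
noncomputable def pc29 : PT := (PT.nd (nat_lit 75972) (PT.nd (nat_lit 35802) (PT.nd (nat_lit 546) (PT.nd (nat_lit 234) (PT.nd (nat_lit 78) (PT.lf (nat_lit 4712) (nat_lit 6) (nat_lit 62) (nat_lit 2) (nat_lit 147) (nat_lit 152) (nat_lit 91)) (PT.nd (nat_lit 78) (PT.lf (nat_lit 4484) (nat_lit 6) (nat_lit 59) (nat_lit 2) (nat_lit 148) (nat_lit 152) (nat_lit 90)) (PT.lf (nat_lit 4332) (nat_lit 6) (nat_lit 57) (nat_lit 2) (nat_lit 149) (nat_lit 152) (nat_lit 89)))) (PT.nd (nat_lit 156) (PT.nd (nat_lit 78) (PT.lf (nat_lit 4104) (nat_lit 6) (nat_lit 54) (nat_lit 2) (nat_lit 150) (nat_lit 152) (nat_lit 88)) (PT.lf (nat_lit 3952) (nat_lit 6) (nat_lit 52) (nat_lit 2) (nat_lit 151) (nat_lit 152) (nat_lit 87))) (PT.nd (nat_lit 78) (PT.lf (nat_lit 3724) (nat_lit 3) (nat_lit 49) (nat_lit 0) (nat_lit 152) (nat_lit 152) (nat_lit 86)) (PT.lf (nat_lit 3496) (nat_lit 6) (nat_lit 46) (nat_lit 0) (nat_lit 153) (nat_lit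 152) (nat_lit 85))))) (PT.nd (nat_lit 34944) (PT.nd (nat_lit 78) (PT.lf (nat_lit 3268) (nat_lit 6) (nat_lit 43) (nat_lit 0) (nat_lit 154) (nat_lit 152) (nat_lit 84)) (PT.nd (nat_lit 78) (PT.lf (nat_lit 3040) (nat_lit 6) (nat_lit 40) (nat_lit 0) (nat_lit 155) (nat_lit 152) (nat_lit 83)) (PT.lf (nat_lit 2812) (nat_lit 6) (nat_lit 37) (nat_lit 0) (nat_lit 156) (nat_lit 152) (nat_lit 82)))) (PT.nd (nat_lit 156) (PT.nd (nat_lit 78) (PT.lf (nat_lit 2660) (nat_lit 6) (nat_lit 35) (nat_lit 5) (nat_lit 81) (nat_lit 153) (nat_lit 156)) (PT.lf (nat_lit 2888) (nat_lit 6) (nat_lit 38) (nat_lit 5) (nat_lit 82) (nat_lit 153) (nat_lit 155))) (PT.nd (nat_lit 78) (PT.lf (nat_lit 3116) (nat_lit 6) (nat_lit 41) (nat_lit 5) (nat_lit 83) (nat_lit 153) (nat_lit 154)) (PT.lf (nat_lit 3344) (nat_lit 3) (nat_lit 44) (nat_lit 4) (nat_lit 84) (nat_lit 153) (nat_lit 153)))))) (PT.nd (nat_lit 5070) (PT.nd (nat_lit 234) (PT.nd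 (nat_lit 78) (PT.lf (nat_lit 3496) (nat_lit 6) (nat_lit 46) (nat_lit 4) (nat_lit 85) (nat_lit 153) (nat_lit 152)) (PT.nd (nat_lit 78) (PT.lf (nat_lit 3648) (nat_lit 6) (nat_lit 48) (nat_lit 4) (nat_lit 86) (nat_lit 153) (nat_lit 151)) (PT.lf (nat_lit 3876) (nat_lit 6) (nat_lit 51) (nat_lit 4) (nat_lit 87) (nat_lit 153) (nat_lit 150)))) (PT.nd (nat_lit 4680) (PT.nd (nat_lit 78) (PT.lf (nat_lit 4028) (nat_lit 6) (nat_lit 53) (nat_lit 4) (nat_lit 88) (nat_lit 153) (nat_lit 149)) (PT.lf (nat_lit 4256) (nat_lit 6) (nat_lit 56) (nat_lit 4) (nat_lit 89) (nat_lit 153) (nat_lit 148))) (PT.nd (nat_lit 78) (PT.lf (nat_lit 4256) (nat_lit 6) (nat_lit 56) (nat_lit 2) (nat_lit 148) (nat_lit 153) (nat_lit 89)) (PT.lf (nat_lit 4028) (nat_lit 6) (nat_lit 53) (nat_lit 2) (nat_lit 149) (nat_lit 153) (nat_lit 88))))) (PT.nd (nat_lit 234) (PT.nd (nat_lit 78) (PT.lf (nat_lit 3876) (nat_lit 6) (nat_lit 51) (nat_lit 2)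 (nat_lit 150) (nat_lit 153) (nat_lit 87)) (PT.nd (nat_lit 78) (PT.lf (nat_lit 3648) (nat_lit 6) (nat_lit 48) (nat_lit 2) (nat_lit 151) (nat_lit 153) (nat_lit 86)) (PT.lf (nat_lit 3496) (nat_lit 6) (nat_lit 46) (nat_lit 2) (nat_lit 152) (nat_lit 153) (nat_lit 85)))) (PT.nd (nat_lit 156) (PT.nd (nat_lit 78) (PT.lf (nat_lit 3344) (nat_lit 3) (nat_lit 44) (nat_lit 0) (nat_lit 153) (nat_lit 153) (nat_lit 84)) (PT.lf (nat_lit 3116) (nat_lit 6) (nat_lit 41) (nat_lit 0) (nat_lit 154) (nat_lit 153) (nat_lit 83))) (PT.nd (nat_lit 78) (PT.lf (nat_lit 2888) (nat_lit 6) (nat_lit 38) (nat_lit 0) (nat_lit 155) (nat_lit 153) (nat_lit 82)) (PT.lf (nat_lit 2660) (nat_lit 6) (nat_lit 35) (nat_lit 0) (nat_lit 156) (nat_lit 153) (nat_lit 81))))))) (PT.nd (nat_lit 5850) (PT.nd (nat_lit 546) (PT.nd (nat_lit 234) (PT.nd (nat_lit 78) (PT.lf (nat_lit 2356) (nat_lit 6) (nat_lit 31) (nat_lit 5) (nat_lit 79) (nat_lit 154)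 (nat_lit 157)) (PT.nd (nat_lit 78) (PT.lf (nat_lit 2508) (nat_lit 6) (nat_lit 33) (nat_lit 5) (nat_lit 80) (nat_lit 154) (nat_lit 156)) (PT.lf (nat_lit 2736) (nat_lit 6) (nat_lit 36) (nat_lit 5) (nat_lit 81) (nat_lit 154) (nat_lit 155)))) (PT.nd (nat_lit 156) (PT.nd (nat_lit 78) (PT.lf (nat_lit 2964) (nat_lit 3) (nat_lit 39) (nat_lit 4) (nat_lit 82) (nat_lit 154) (nat_lit 154)) (PT.lf (nat_lit 3116) (nat_lit 6) (nat_lit 41) (nat_lit 4) (nat_lit 83) (nat_lit 154) (nat_lit 153))) (PT.nd (nat_lit 78) (PT.lf (nat_lit 3268) (nat_lit 6) (nat_lit 43) (nat_lit 4) (nat_lit 84) (nat_lit 154) (nat_lit 152)) (PT.lf (nat_lit 3420) (nat_lit 6) (nat_lit 45) (nat_lit 4) (nat_lit 85) (nat_lit 154) (nat_lit 151))))) (PT.nd (nat_lit 4992) (PT.nd (nat_lit 78) (PT.lf (nat_lit 3572) (nat_lit 6) (nat_lit 47) (nat_lit 4) (nat_lit 86) (nat_lit 154) (nat_lit 150)) (PT.nd (nat_lit 4836) (PT.lf (nat_lit 3800) (nat_lit 6)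 (nat_lit 50) (nat_lit 4) (nat_lit 87) (nat_lit 154) (nat_lit 149)) (PT.lf (nat_lit 3800) (nat_lit 6) (nat_lit 50) (nat_lit 2) (nat_lit 149) (nat_lit 154) (nat_lit 87)))) (PT.nd (nat_lit 156) (PT.nd (nat_lit 78) (PT.lf (nat_lit 3572) (nat_lit 6) (nat_lit 47) (nat_lit 2) (nat_lit 150) (nat_lit 154) (nat_lit 86)) (PT.lf (nat_lit 3420) (nat_lit 6) (nat_lit 45) (nat_lit 2) (nat_lit 151) (nat_lit 154) (nat_lit 85))) (PT.nd (nat_lit 78) (PT.lf (nat_lit 3268) (nat_lit 6) (nat_lit 43) (nat_lit 2) (nat_lit 152) (nat_lit 154) (nat_lit 84)) (PT.lf (nat_lit 3116) (nat_lit 6) (nat_lit 41) (nat_lit 2) (nat_lit 153) (nat_lit 154) (nat_lit 83)))))) (PT.nd (nat_lit 34866) (PT.nd (nat_lit 234) (PT.nd (nat_lit 78) (PT.lf (nat_lit 2964) (nat_lit 3) (nat_lit 39) (nat_lit 0) (nat_lit 154) (nat_lit 154) (nat_lit 82)) (PT.nd (nat_lit 78) (PT.lf (nat_lit 2736) (nat_lit 6) (nat_lit 36) (nat_lit 0) (nat_lit 155) (nat_lit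 154) (nat_lit 81)) (PT.lf (nat_lit 2508) (nat_lit 6) (nat_lit 33) (nat_lit 0) (nat_lit 156) (nat_lit 154) (nat_lit 80)))) (PT.nd (nat_lit 34476) (PT.nd (nat_lit 34398) (PT.lf (nat_lit 2356) (nat_lit 6) (nat_lit 31) (nat_lit 0) (nat_lit 157) (nat_lit 154) (nat_lit 79)) (PT.lf (nat_lit 2052) (nat_lit 6) (nat_lit 27) (nat_lit 5) (nat_lit 77) (nat_lit 155) (nat_lit 158))) (PT.nd (nat_lit 78) (PT.lf (nat_lit 2204) (nat_lit 6) (nat_lit 29) (nat_lit 5) (nat_lit 78) (nat_lit 155) (nat_lit 157)) (PT.lf (nat_lit 2432) (nat_lit 6) (nat_lit 32) (nat_lit 5) (nat_lit 79) (nat_lit 155) (nat_lit 156))))) (PT.nd (nat_lit 312) (PT.nd (nat_lit 156) (PT.nd (nat_lit 78) (PT.lf (nat_lit 2584) (nat_lit 3) (nat_lit 34) (nat_lit 4) (nat_lit 80) (nat_lit 155) (nat_lit 155)) (PT.lf (nat_lit 2736) (nat_lit 6) (nat_lit 36) (nat_lit 4) (nat_lit 81) (nat_lit 155) (nat_lit 154))) (PT.nd (nat_lit 78) (PT.lf (nat_lit 2888) (nat_lit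 6) (nat_lit 38) (nat_lit 4) (nat_lit 82) (nat_lit 155) (nat_lit 153)) (PT.lf (nat_lit 3040) (nat_lit 6) (nat_lit 40) (nat_lit 4) (nat_lit 83) (nat_lit 155) (nat_lit 152)))) (PT.nd (nat_lit 5304) (PT.nd (nat_lit 5226) (PT.lf (nat_lit 3192) (nat_lit 6) (nat_lit 42) (nat_lit 4) (nat_lit 84) (nat_lit 155) (nat_lit 151)) (PT.lf (nat_lit 3192) (nat_lit 6) (nat_lit 42) (nat_lit 2) (nat_lit 151) (nat_lit 155) (nat_lit 84))) (PT.nd (nat_lit 78) (PT.lf (nat_lit 3040) (nat_lit 6) (nat_lit 40) (nat_lit 2) (nat_lit 152) (nat_lit 155) (nat_lit 83)) (PT.lf (nat_lit 2888) (nat_lit 6) (nat_lit 38) (nat_lit 2) (nat_lit 153) (nat_lit 155) (nat_lit 82))))))))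
noncomputable def pc30 : PT := (PT.nd (nat_lit 81276) (PT.nd (nat_lit 40560) (PT.nd (nat_lit 34632) (PT.nd (nat_lit 234) (PT.nd (nat_lit 78) (PT.lf (nat_lit 2736) (nat_lit 6) (nat_lit 36) (nat_lit 2) (nat_lit 154) (nat_lit 155) (nat_lit 81)) (PT.nd (nat_lit 78) (PT.lf (nat_lit 2584) (nat_lit 3) (nat_lit 34) (nat_lit 0) (nat_lit 155) (nat_lit 155) (nat_lit 80)) (PT.lf (nat_lit 2432) (nat_lit 6) (nat_lit 32) (nat_lit 0) (nat_lit 156) (nat_lit 155) (nat_lit 79)))) (PT.nd (nat_lit 34242) (PT.nd (nat_lit 78) (PT.lf (nat_lit 2204) (nat_lit 6) (nat_lit 29) (nat_lit 0) (nat_lit 157) (nat_lit 155) (nat_lit 78)) (PT.lf (nat_lit 2052) (nat_lit 6) (nat_lit 27) (nat_lit 0) (nat_lit 158) (nat_lit 155) (nat_lit 77))) (PT.nd (nat_lit 78) (PT.lf (nat_lit 1748) (nat_lit 6) (nat_lit 23) (nat_lit 5) (nat_lit 75) (nat_lit 156) (nat_lit 159)) (PT.lf (nat_lit 1900) (nat_lit 6) (nat_lit 25) (nat_lit 5) (nat_lit 76) (nat_lit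 156) (nat_lit 158))))) (PT.nd (nat_lit 234) (PT.nd (nat_lit 78) (PT.lf (nat_lit 2128) (nat_lit 6) (nat_lit 28) (nat_lit 5) (nat_lit 77) (nat_lit 156) (nat_lit 157)) (PT.nd (nat_lit 78) (PT.lf (nat_lit 2280) (nat_lit 3) (nat_lit 30) (nat_lit 4) (nat_lit 78) (nat_lit 156) (nat_lit 156)) (PT.lf (nat_lit 2432) (nat_lit 6) (nat_lit 32) (nat_lit 4) (nat_lit 79) (nat_lit 156) (nat_lit 155)))) (PT.nd (nat_lit 156) (PT.nd (nat_lit 78) (PT.lf (nat_lit 2508) (nat_lit 6) (nat_lit 33) (nat_lit 4) (nat_lit 80) (nat_lit 156) (nat_lit 154)) (PT.lf (nat_lit 2660) (nat_lit 6) (nat_lit 35) (nat_lit 4) (nat_lit 81) (nat_lit 156) (nat_lit 153))) (PT.nd (nat_lit 5460) (PT.lf (nat_lit 2812) (nat_lit 6) (nat_lit 37) (nat_lit 4) (nat_lit 82) (nat_lit 156) (nat_lit 152)) (PT.lf (nat_lit 2812) (nat_lit 6) (nat_lit 37) (nat_lit 2) (nat_lit 152) (nat_lit 156) (nat_lit 82)))))) (PT.nd (nat_lit 34398) (PT.nd (nat_lit 234) (PT.nd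 (nat_lit 78) (PT.lf (nat_lit 2660) (nat_lit 6) (nat_lit 35) (nat_lit 2) (nat_lit 153) (nat_lit 156) (nat_lit 81)) (PT.nd (nat_lit 78) (PT.lf (nat_lit 2508) (nat_lit 6) (nat_lit 33) (nat_lit 2) (nat_lit 154) (nat_lit 156) (nat_lit 80)) (PT.lf (nat_lit 2432) (nat_lit 6) (nat_lit 32) (nat_lit 2) (nat_lit 155) (nat_lit 156) (nat_lit 79)))) (PT.nd (nat_lit 156) (PT.nd (nat_lit 78) (PT.lf (nat_lit 2280) (nat_lit 3) (nat_lit 30) (nat_lit 0) (nat_lit 156) (nat_lit 156) (nat_lit 78)) (PT.lf (nat_lit 2128) (nat_lit 6) (nat_lit 28) (nat_lit 0) (nat_lit 157) (nat_lit 156) (nat_lit 77))) (PT.nd (nat_lit 78) (PT.lf (nat_lit 1900) (nat_lit 6) (nat_lit 25) (nat_lit 0) (nat_lit 158) (nat_lit 156) (nat_lit 76)) (PT.lf (nat_lit 1748) (nat_lit 6) (nat_lit 23) (nat_lit 0) (nat_lit 159) (nat_lit 156) (nat_lit 75))))) (PT.nd (nat_lit 234) (PT.nd (nat_lit 78) (PT.lf (nat_lit 1444) (nat_lit 6) (nat_lit 19) (nat_lit 5)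 (nat_lit 73) (nat_lit 157) (nat_lit 160)) (PT.nd (nat_lit 78) (PT.lf (nat_lit 1596) (nat_lit 6) (nat_lit 21) (nat_lit 5) (nat_lit 74) (nat_lit 157) (nat_lit 159)) (PT.lf (nat_lit 1824) (nat_lit 6) (nat_lit 24) (nat_lit 5) (nat_lit 75) (nat_lit 157) (nat_lit 158)))) (PT.nd (nat_lit 156) (PT.nd (nat_lit 78) (PT.lf (nat_lit 1976) (nat_lit 3) (nat_lit 26) (nat_lit 4) (nat_lit 76) (nat_lit 157) (nat_lit 157)) (PT.lf (nat_lit 2128) (nat_lit 6) (nat_lit 28) (nat_lit 4) (nat_lit 77) (nat_lit 157) (nat_lit 156))) (PT.nd (nat_lit 78) (PT.lf (nat_lit 2204) (nat_lit 6) (nat_lit 29) (nat_lit 4) (nat_lit 78) (nat_lit 157) (nat_lit 155)) (PT.lf (nat_lit 2356) (nat_lit 6) (nat_lit 31) (nat_lit 4) (nat_lit 79) (nat_lit 157) (nat_lit 154))))))) (PT.nd (nat_lit 40794) (PT.nd (nat_lit 34242) (PT.nd (nat_lit 234) (PT.nd (nat_lit 78) (PT.lf (nat_lit 2356) (nat_lit 6) (nat_lit 31) (nat_lit 2) (nat_lit 154) (nat_lit 157)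 (nat_lit 79)) (PT.nd (nat_lit 78) (PT.lf (nat_lit 2204) (nat_lit 6) (nat_lit 29) (nat_lit 2) (nat_lit 155) (nat_lit 157) (nat_lit 78)) (PT.lf (nat_lit 2128) (nat_lit 6) (nat_lit 28) (nat_lit 2) (nat_lit 156) (nat_lit 157) (nat_lit 77)))) (PT.nd (nat_lit 156) (PT.nd (nat_lit 78) (PT.lf (nat_lit 1976) (nat_lit 3) (nat_lit 26) (nat_lit 0) (nat_lit 157) (nat_lit 157) (nat_lit 76)) (PT.lf (nat_lit 1824) (nat_lit 6) (nat_lit 24) (nat_lit 0) (nat_lit 158) (nat_lit 157) (nat_lit 75))) (PT.nd (nat_lit 78) (PT.lf (nat_lit 1596) (nat_lit 6) (nat_lit 21) (nat_lit 0) (nat_lit 159) (nat_lit 157) (nat_lit 74)) (PT.lf (nat_lit 1444) (nat_lit 6) (nat_lit 19) (nat_lit 0) (nat_lit 160) (nat_lit 157) (nat_lit 73))))) (PT.nd (nat_lit 234) (PT.nd (nat_lit 78) (PT.lf (nat_lit 1292) (nat_lit 6) (nat_lit 17) (nat_lit 5) (nat_lit 72) (nat_lit 158) (nat_lit 160)) (PT.nd (nat_lit 78) (PT.lf (nat_lit 1520) (nat_lit 6) (nat_lit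 20) (nat_lit 5) (nat_lit 73) (nat_lit 158) (nat_lit 159)) (PT.lf (nat_lit 1672) (nat_lit 3) (nat_lit 22) (nat_lit 4) (nat_lit 74) (nat_lit 158) (nat_lit 158)))) (PT.nd (nat_lit 156) (PT.nd (nat_lit 78) (PT.lf (nat_lit 1824) (nat_lit 6) (nat_lit 24) (nat_lit 4) (nat_lit 75) (nat_lit 158) (nat_lit 157)) (PT.lf (nat_lit 1900) (nat_lit 6) (nat_lit 25) (nat_lit 4) (nat_lit 76) (nat_lit 158) (nat_lit 156))) (PT.nd (nat_lit 6084) (PT.lf (nat_lit 2052) (nat_lit 6) (nat_lit 27) (nat_lit 4) (nat_lit 77) (nat_lit 158) (nat_lit 155)) (PT.lf (nat_lit 2052) (nat_lit 6) (nat_lit 27) (nat_lit 2) (nat_lit 155) (nat_lit 158) (nat_lit 77)))))) (PT.nd (nat_lit 34086) (PT.nd (nat_lit 234) (PT.nd (nat_lit 78) (PT.lf (nat_lit 1900) (nat_lit 6) (nat_lit 25) (nat_lit 2) (nat_lit 156) (nat_lit 158) (nat_lit 76)) (PT.nd (nat_lit 78) (PT.lf (nat_lit 1824) (nat_lit 6) (nat_lit 24) (nat_lit 2) (nat_lit 157) (nat_lit 158) (nat_lit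 75)) (PT.lf (nat_lit 1672) (nat_lit 3) (nat_lit 22) (nat_lit 0) (nat_lit 158) (nat_lit 158) (nat_lit 74)))) (PT.nd (nat_lit 33696) (PT.nd (nat_lit 78) (PT.lf (nat_lit 1520) (nat_lit 6) (nat_lit 20) (nat_lit 0) (nat_lit 159) (nat_lit 158) (nat_lit 73)) (PT.lf (nat_lit 1292) (nat_lit 6) (nat_lit 17) (nat_lit 0) (nat_lit 160) (nat_lit 158) (nat_lit 72))) (PT.nd (nat_lit 78) (PT.lf (nat_lit 1064) (nat_lit 6) (nat_lit 14) (nat_lit 5) (nat_lit 70) (nat_lit 159) (nat_lit 161)) (PT.lf (nat_lit 1216) (nat_lit 6) (nat_lit 16) (nat_lit 5) (nat_lit 71) (nat_lit 159) (nat_lit 160))))) (PT.nd (nat_lit 234) (PT.nd (nat_lit 78) (PT.lf (nat_lit 1368) (nat_lit 3) (nat_lit 18) (nat_lit 4) (nat_lit 72) (nat_lit 159) (nat_lit 159)) (PT.nd (nat_lit 78) (PT.lf (nat_lit 1520) (nat_lit 6) (nat_lit 20) (nat_lit 4) (nat_lit 73) (nat_lit 159) (nat_lit 158)) (PT.lf (nat_lit 1596) (nat_lit 6) (nat_lit 21) (nat_lit 4) (nat_lit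 74) (nat_lit 159) (nat_lit 157)))) (PT.nd (nat_lit 6396) (PT.nd (nat_lit 6318) (PT.lf (nat_lit 1748) (nat_lit 6) (nat_lit 23) (nat_lit 4) (nat_lit 75) (nat_lit 159) (nat_lit 156)) (PT.lf (nat_lit 1748) (nat_lit 6) (nat_lit 23) (nat_lit 2) (nat_lit 156) (nat_lit 159) (nat_lit 75))) (PT.nd (nat_lit 78) (PT.lf (nat_lit 1596) (nat_lit 6) (nat_lit 21) (nat_lit 2) (nat_lit 157) (nat_lit 159) (nat_lit 74)) (PT.lf (nat_lit 1520) (nat_lit 6) (nat_lit 20) (nat_lit 2) (nat_lit 158) (nat_lit 159) (nat_lit 73))))))))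
noncomputable def pc31 : PT := (PT.nd (nat_lit 114738) (PT.nd (nat_lit 40872) (PT.nd (nat_lit 33852) (PT.nd (nat_lit 33540) (PT.nd (nat_lit 78) (PT.lf (nat_lit 1368) (nat_lit 3) (nat_lit 18) (nat_lit 0) (nat_lit 159) (nat_lit 159) (nat_lit 72)) (PT.nd (nat_lit 78) (PT.lf (nat_lit 1216) (nat_lit 6) (nat_lit 16) (nat_lit 0) (nat_lit 160) (nat_lit 159) (nat_lit 71)) (PT.lf (nat_lit 1064) (nat_lit 6) (nat_lit 14) (nat_lit 0) (nat_lit 161) (nat_lit 159) (nat_lit 70)))) (PT.nd (nat_lit 156) (PT.nd (nat_lit 78) (PT.lf (nat_lit 836) (nat_lit 6) (nat_lit 11) (nat_lit 5) (nat_lit 68) (nat_lit 160) (nat_lit 162)) (PT.lf (nat_lit 988) (nat_lit 6) (nat_lit 13) (nat_lit 5) (nat_lit 69) (nat_lit 160) (nat_lit 161))) (PT.nd (nat_lit 78) (PT.lf (nat_lit 1140) (nat_lit 3) (nat_lit 15) (nat_lit 4) (nat_lit 70) (nat_lit 160) (nat_lit 160)) (PT.lf (nat_lit 1216) (nat_lit 6) (nat_lit 16) (nat_lit 4) (nat_lit 71) (nat_lit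 160) (nat_lit 159))))) (PT.nd (nat_lit 6708) (PT.nd (nat_lit 78) (PT.lf (nat_lit 1292) (nat_lit 6) (nat_lit 17) (nat_lit 4) (nat_lit 72) (nat_lit 160) (nat_lit 158)) (PT.nd (nat_lit 6552) (PT.lf (nat_lit 1444) (nat_lit 6) (nat_lit 19) (nat_lit 4) (nat_lit 73) (nat_lit 160) (nat_lit 157)) (PT.lf (nat_lit 1444) (nat_lit 6) (nat_lit 19) (nat_lit 2) (nat_lit 157) (nat_lit 160) (nat_lit 73)))) (PT.nd (nat_lit 156) (PT.nd (nat_lit 78) (PT.lf (nat_lit 1292) (nat_lit 6) (nat_lit 17) (nat_lit 2) (nat_lit 158) (nat_lit 160) (nat_lit 72)) (PT.lf (nat_lit 1216) (nat_lit 6) (nat_lit 16) (nat_lit 2) (nat_lit 159) (nat_lit 160) (nat_lit 71))) (PT.nd (nat_lit 78) (PT.lf (nat_lit 1140) (nat_lit 3) (nat_lit 15) (nat_lit 0) (nat_lit 160) (nat_lit 160) (nat_lit 70)) (PT.lf (nat_lit 988) (nat_lit 6) (nat_lit 13) (nat_lit 0) (nat_lit 161) (nat_lit 160) (nat_lit 69)))))) (PT.nd (nat_lit 40482) (PT.nd (nat_lit 33306)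 (PT.nd (nat_lit 33150) (PT.lf (nat_lit 836) (nat_lit 6) (nat_lit 11) (nat_lit 0) (nat_lit 162) (nat_lit 160) (nat_lit 68)) (PT.nd (nat_lit 78) (PT.lf (nat_lit 608) (nat_lit 6) (nat_lit 8) (nat_lit 5) (nat_lit 66) (nat_lit 161) (nat_lit 163)) (PT.lf (nat_lit 760) (nat_lit 6) (nat_lit 10) (nat_lit 5) (nat_lit 67) (nat_lit 161) (nat_lit 162)))) (PT.nd (nat_lit 156) (PT.nd (nat_lit 78) (PT.lf (nat_lit 912) (nat_lit 3) (nat_lit 12) (nat_lit 4) (nat_lit 68) (nat_lit 161) (nat_lit 161)) (PT.lf (nat_lit 988) (nat_lit 6) (nat_lit 13) (nat_lit 4) (nat_lit 69) (nat_lit 161) (nat_lit 160))) (PT.nd (nat_lit 6942) (PT.lf (nat_lit 1064) (nat_lit 6) (nat_lit 14) (nat_lit 4) (nat_lit 70) (nat_lit 161) (nat_lit 159)) (PT.lf (nat_lit 1064) (nat_lit 6) (nat_lit 14) (nat_lit 2) (nat_lit 159) (nat_lit 161) (nat_lit 70))))) (PT.nd (nat_lit 234) (PT.nd (nat_lit 78) (PT.lf (nat_lit 988) (nat_lit 6) (nat_lit 13) (nat_lit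 2) (nat_lit 160) (nat_lit 161) (nat_lit 69)) (PT.nd (nat_lit 78) (PT.lf (nat_lit 912) (nat_lit 3) (nat_lit 12) (nat_lit 0) (nat_lit 161) (nat_lit 161) (nat_lit 68)) (PT.lf (nat_lit 760) (nat_lit 6) (nat_lit 10) (nat_lit 0) (nat_lit 162) (nat_lit 161) (nat_lit 67)))) (PT.nd (nat_lit 32994) (PT.nd (nat_lit 32916) (PT.lf (nat_lit 608) (nat_lit 6) (nat_lit 8) (nat_lit 0) (nat_lit 163) (nat_lit 161) (nat_lit 66)) (PT.lf (nat_lit 380) (nat_lit 6) (nat_lit 5) (nat_lit 5) (nat_lit 64) (nat_lit 162) (nat_lit 164))) (PT.nd (nat_lit 78) (PT.lf (nat_lit 532) (nat_lit 6) (nat_lit 7) (nat_lit 5) (nat_lit 65) (nat_lit 162) (nat_lit 163)) (PT.lf (nat_lit 684) (nat_lit 3) (nat_lit 9) (nat_lit 4) (nat_lit 66) (nat_lit 162) (nat_lit 162))))))) (PT.nd (nat_lit 48126) (PT.nd (nat_lit 40248) (PT.nd (nat_lit 7332) (PT.nd (nat_lit 78) (PT.lf (nat_lit 760) (nat_lit 6) (nat_lit 10) (nat_lit 4) (nat_lit 67) (nat_lit 162)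 (nat_lit 161)) (PT.nd (nat_lit 7176) (PT.lf (nat_lit 836) (nat_lit 6) (nat_lit 11) (nat_lit 4) (nat_lit 68) (nat_lit 162) (nat_lit 160)) (PT.lf (nat_lit 836) (nat_lit 6) (nat_lit 11) (nat_lit 2) (nat_lit 160) (nat_lit 162) (nat_lit 68)))) (PT.nd (nat_lit 156) (PT.nd (nat_lit 78) (PT.lf (nat_lit 760) (nat_lit 6) (nat_lit 10) (nat_lit 2) (nat_lit 161) (nat_lit 162) (nat_lit 67)) (PT.lf (nat_lit 684) (nat_lit 3) (nat_lit 9) (nat_lit 0) (nat_lit 162) (nat_lit 162) (nat_lit 66))) (PT.nd (nat_lit 78) (PT.lf (nat_lit 532) (nat_lit 6) (nat_lit 7) (nat_lit 0) (nat_lit 163) (nat_lit 162) (nat_lit 65)) (PT.lf (nat_lit 380) (nat_lit 6) (nat_lit 5) (nat_lit 0) (nat_lit 164) (nat_lit 162) (nat_lit 64))))) (PT.nd (nat_lit 234) (PT.nd (nat_lit 78) (PT.lf (nat_lit 152) (nat_lit 6) (nat_lit 2) (nat_lit 5) (nat_lit 62) (nat_lit 163) (nat_lit 165)) (PT.nd (nat_lit 78) (PT.lf (nat_lit 304) (nat_lit 6) (nat_lit 4) (nat_lit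 5) (nat_lit 63) (nat_lit 163) (nat_lit 164)) (PT.lf (nat_lit 456) (nat_lit 3) (nat_lit 6) (nat_lit 4) (nat_lit 64) (nat_lit 163) (nat_lit 163)))) (PT.nd (nat_lit 7488) (PT.nd (nat_lit 78) (PT.lf (nat_lit 532) (nat_lit 6) (nat_lit 7) (nat_lit 4) (nat_lit 65) (nat_lit 163) (nat_lit 162)) (PT.lf (nat_lit 608) (nat_lit 6) (nat_lit 8) (nat_lit 4) (nat_lit 66) (nat_lit 163) (nat_lit 161))) (PT.nd (nat_lit 78) (PT.lf (nat_lit 608) (nat_lit 6) (nat_lit 8) (nat_lit 2) (nat_lit 161) (nat_lit 163) (nat_lit 66)) (PT.lf (nat_lit 532) (nat_lit 6) (nat_lit 7) (nat_lit 2) (nat_lit 162) (nat_lit 163) (nat_lit 65)))))) (PT.nd (nat_lit 40560) (PT.nd (nat_lit 32682) (PT.nd (nat_lit 78) (PT.lf (nat_lit 456) (nat_lit 3) (nat_lit 6) (nat_lit 0) (nat_lit 163) (nat_lit 163) (nat_lit 64)) (PT.nd (nat_lit 78) (PT.lf (nat_lit 304) (nat_lit 6) (nat_lit 4) (nat_lit 0) (nat_lit 164) (nat_lit 163) (nat_lit 63)) (PT.lf (nat_lit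 152) (nat_lit 6) (nat_lit 2) (nat_lit 0) (nat_lit 165) (nat_lit 163) (nat_lit 62)))) (PT.nd (nat_lit 156) (PT.nd (nat_lit 78) (PT.lf (nat_lit 76) (nat_lit 6) (nat_lit 1) (nat_lit 5) (nat_lit 61) (nat_lit 164) (nat_lit 165)) (PT.lf (nat_lit 228) (nat_lit 3) (nat_lit 3) (nat_lit 4) (nat_lit 62) (nat_lit 164) (nat_lit 164))) (PT.nd (nat_lit 78) (PT.lf (nat_lit 304) (nat_lit 6) (nat_lit 4) (nat_lit 4) (nat_lit 63) (nat_lit 164) (nat_lit 163)) (PT.lf (nat_lit 380) (nat_lit 6) (nat_lit 5) (nat_lit 4) (nat_lit 64) (nat_lit 164) (nat_lit 162))))) (PT.nd (nat_lit 32760) (PT.nd (nat_lit 156) (PT.nd (nat_lit 78) (PT.lf (nat_lit 380) (nat_lit 6) (nat_lit 5) (nat_lit 2) (nat_lit 162) (nat_lit 164) (nat_lit 64)) (PT.lf (nat_lit 304) (nat_lit 6) (nat_lit 4) (nat_lit 2) (nat_lit 163) (nat_lit 164) (nat_lit 63))) (PT.nd (nat_lit 78) (PT.lf (nat_lit 228) (nat_lit 3) (nat_lit 3) (nat_lit 0) (nat_lit 164) (nat_lit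 164) (nat_lit 62)) (PT.lf (nat_lit 76) (nat_lit 6) (nat_lit 1) (nat_lit 0) (nat_lit 165) (nat_lit 164) (nat_lit 61)))) (PT.nd (nat_lit 7956) (PT.nd (nat_lit 78) (PT.lf (nat_lit 76) (nat_lit 6) (nat_lit 1) (nat_lit 4) (nat_lit 61) (nat_lit 165) (nat_lit 164)) (PT.lf (nat_lit 152) (nat_lit 6) (nat_lit 2) (nat_lit 4) (nat_lit 62) (nat_lit 165) (nat_lit 163))) (PT.nd (nat_lit 78) (PT.lf (nat_lit 152) (nat_lit 6) (nat_lit 2) (nat_lit 2) (nat_lit 163) (nat_lit 165) (nat_lit 62)) (PT.lf (nat_lit 76) (nat_lit 6) (nat_lit 1) (nat_lit 2) (nat_lit 164) (nat_lit 165) (nat_lit 61))))))))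
noncomputable def xc0 : XT := (XT.nd (nat_lit 202332) (nat_lit 0) (nat_lit 0) (XT.nd (nat_lit 121524) (nat_lit 0) (nat_lit 0) (XT.nd (nat_lit 80964) (nat_lit 0) (nat_lit 0) (XT.nd (nat_lit 40560) (nat_lit 0) (nat_lit 0) (XT.nd (nat_lit 40404) (nat_lit 0) (nat_lit 0) (XT.lf (nat_lit 0) (nat_lit 61130416223) (nat_lit 76) (nat_lit 22899463552) (nat_lit 76) (nat_lit 22783476542) (nat_lit 3) (nat_lit 4) (nat_lit 4) (nat_lit 5) (nat_lit 4) (nat_lit 4) (nat_lit 413) (nat_lit 184) (nat_lit 183)) (XT.nd (nat_lit 78) (nat_lit 0) (nat_lit 0) (XT.lf (nat_lit 0) (nat_lit 21120727356) (nat_lit 76) (nat_lit 13931746234) (nat_lit 76) (nat_lit 13931746234) (nat_lit 3) (nat_lit 4) (nat_lit 4) (nat_lit 5) (nat_lit 4) (nat_lit 4) (nat_lit 410) (nat_lit 185) (nat_lit 185)) (XT.lf (nat_lit 0) (nat_lit 48414867745) (nat_lit 76) (nat_lit 26266821043) (nat_lit 76) (nat_lit 26147354422) (nat_lit 3) (nat_lit 4) (nat_lit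 4) (nat_lit 5) (nat_lit 4) (nat_lit 4) (nat_lit 411) (nat_lit 185) (nat_lit 184)))) (XT.nd (nat_lit 78) (nat_lit 0) (nat_lit 0) (XT.lf (nat_lit 0) (nat_lit 54678684729) (nat_lit 76) (nat_lit 24666874802) (nat_lit 76) (nat_lit 24431421170) (nat_lit 3) (nat_lit 4) (nat_lit 4) (nat_lit 5) (nat_lit 4) (nat_lit 4) (nat_lit 412) (nat_lit 185) (nat_lit 183)) (XT.nd (nat_lit 40248) (nat_lit 0) (nat_lit 0) (XT.lf (nat_lit 0) (nat_lit 61038378905) (nat_lit 76) (nat_lit 23062255734) (nat_lit 76) (nat_lit 22714193354) (nat_lit 3) (nat_lit 4) (nat_lit 4) (nat_lit 5) (nat_lit 4) (nat_lit 4) (nat_lit 413) (nat_lit 185) (nat_lit 182)) (XT.lf (nat_lit 0) (nat_lit 15096940252) (nat_lit 76) (nat_lit 15576159386) (nat_lit 76) (nat_lit 15576159386) (nat_lit 3) (nat_lit 4) (nat_lit 4) (nat_lit 5) (nat_lit 4) (nat_lit 4) (nat_lit 408) (nat_lit 186) (nat_lit 186))))) (XT.nd (nat_lit 234) (nat_lit 0) (nat_lit 0) (XT.nd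 (nat_lit 78) (nat_lit 0) (nat_lit 0) (XT.lf (nat_lit 0) (nat_lit 36153051391) (nat_lit 76) (nat_lit 29581334849) (nat_lit 76) (nat_lit 29458284230) (nat_lit 3) (nat_lit 4) (nat_lit 4) (nat_lit 5) (nat_lit 4) (nat_lit 4) (nat_lit 409) (nat_lit 186) (nat_lit 185)) (XT.nd (nat_lit 78) (nat_lit 0) (nat_lit 0) (XT.lf (nat_lit 0) (nat_lit 42193355013) (nat_lit 76) (nat_lit 28009185496) (nat_lit 76) (nat_lit 27766668256) (nat_lit 3) (nat_lit 4) (nat_lit 4) (nat_lit 5) (nat_lit 4) (nat_lit 4) (nat_lit 410) (nat_lit 186) (nat_lit 184)) (XT.lf (nat_lit 0) (nat_lit 48320069307) (nat_lit 76) (nat_lit 26434496990) (nat_lit 76) (nat_lit 26075992739) (nat_lit 3) (nat_lit 4) (nat_lit 4) (nat_lit 5) (nat_lit 4) (nat_lit 4) (nat_lit 411) (nat_lit 186) (nat_lit 183)))) (XT.nd (nat_lit 40170) (nat_lit 0) (nat_lit 0) (XT.nd (nat_lit 78) (nat_lit 0) (nat_lit 0) (XT.lf (nat_lit 0) (nat_lit 54538547711) (nat_lit 76) (nat_lit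 24855893390) (nat_lit 76) (nat_lit 24384780390) (nat_lit 3) (nat_lit 4) (nat_lit 4) (nat_lit 5) (nat_lit 4) (nat_lit 4) (nat_lit 412) (nat_lit 186) (nat_lit 182)) (XT.lf (nat_lit 0) (nat_lit 60854223848) (nat_lit 76) (nat_lit 23271995333) (nat_lit 76) (nat_lit 22691553452) (nat_lit 3) (nat_lit 4) (nat_lit 4) (nat_lit 5) (nat_lit 4) (nat_lit 4) (nat_lit 413) (nat_lit 186) (nat_lit 181))) (XT.nd (nat_lit 78) (nat_lit 0) (nat_lit 0) (XT.lf (nat_lit 0) (nat_lit 9274602041) (nat_lit 76) (nat_lit 17199501067) (nat_lit 76) (nat_lit 17199501067) (nat_lit 3) (nat_lit 4) (nat_lit 4) (nat_lit 5) (nat_lit 4) (nat_lit 4) (nat_lit 406) (nat_lit 187) (nat_lit 187)) (XT.lf (nat_lit 0) (nat_lit 24310635311) (nat_lit 76) (nat_lit 32850252108) (nat_lit 76) (nat_lit 32723509970) (nat_lit 3) (nat_lit 4) (nat_lit 4) (nat_lit 5) (nat_lit 4) (nat_lit 4) (nat_lit 407) (nat_lit 187) (nat_lit 186)))))) (XT.nd (nat_lit 40482)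 (nat_lit 0) (nat_lit 0) (XT.nd (nat_lit 234) (nat_lit 0) (nat_lit 0) (XT.nd (nat_lit 78) (nat_lit 0) (nat_lit 0) (XT.lf (nat_lit 0) (nat_lit 30144337813) (nat_lit 76) (nat_lit 31302382591) (nat_lit 76) (nat_lit 31052589833) (nat_lit 3) (nat_lit 4) (nat_lit 4) (nat_lit 5) (nat_lit 4) (nat_lit 4) (nat_lit 408) (nat_lit 187) (nat_lit 185)) (XT.nd (nat_lit 78) (nat_lit 0) (nat_lit 0) (XT.lf (nat_lit 0) (nat_lit 36055409000) (nat_lit 76) (nat_lit 29754041075) (nat_lit 76) (nat_lit 29384781696) (nat_lit 3) (nat_lit 4) (nat_lit 4) (nat_lit 5) (nat_lit 4) (nat_lit 4) (nat_lit 409) (nat_lit 187) (nat_lit 184)) (XT.lf (nat_lit 0) (nat_lit 42049013885) (nat_lit 76) (nat_lit 28203874642) (nat_lit 76) (nat_lit 27718628253) (nat_lit 3) (nat_lit 4) (nat_lit 4) (nat_lit 5) (nat_lit 4) (nat_lit 4) (nat_lit 410) (nat_lit 187) (nat_lit 183)))) (XT.nd (nat_lit 40092) (nat_lit 0) (nat_lit 0) (XT.nd (nat_lit 78) (nat_lit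 0) (nat_lit 0) (XT.lf (nat_lit 0) (nat_lit 48130389598) (nat_lit 76) (nat_lit 26650528777) (nat_lit 76) (nat_lit 26052673639) (nat_lit 3) (nat_lit 4) (nat_lit 4) (nat_lit 5) (nat_lit 4) (nat_lit 4) (nat_lit 411) (nat_lit 187) (nat_lit 182)) (XT.lf (nat_lit 0) (nat_lit 54304849963) (nat_lit 76) (nat_lit 25092646187) (nat_lit 76) (nat_lit 24385462168) (nat_lit 3) (nat_lit 4) (nat_lit 4) (nat_lit 5) (nat_lit 4) (nat_lit 4) (nat_lit 412) (nat_lit 187) (nat_lit 181))) (XT.nd (nat_lit 78) (nat_lit 0) (nat_lit 0) (XT.lf (nat_lit 0) (nat_lit 3637818500) (nat_lit 76) (nat_lit 18805180603) (nat_lit 76) (nat_lit 18805180603) (nat_lit 3) (nat_lit 4) (nat_lit 4) (nat_lit 5) (nat_lit 4) (nat_lit 4) (nat_lit 404) (nat_lit 188) (nat_lit 188)) (XT.lf (nat_lit 0) (nat_lit 12855009869) (nat_lit 76) (nat_lit 36080530350) (nat_lit 76) (nat_lit 35949985947) (nat_lit 3) (nat_lit 4) (nat_lit 4) (nat_lit 5) (nat_lit 4)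 (nat_lit 4) (nat_lit 405) (nat_lit 188) (nat_lit 187))))) (XT.nd (nat_lit 234) (nat_lit 0) (nat_lit 0) (XT.nd (nat_lit 78) (nat_lit 0) (nat_lit 0) (XT.lf (nat_lit 0) (nat_lit 18498175111) (nat_lit 76) (nat_lit 34553567867) (nat_lit 76) (nat_lit 34296281327) (nat_lit 3) (nat_lit 4) (nat_lit 4) (nat_lit 5) (nat_lit 4) (nat_lit 4) (nat_lit 406) (nat_lit 188) (nat_lit 186)) (XT.nd (nat_lit 78) (nat_lit 0) (nat_lit 0) (XT.lf (nat_lit 0) (nat_lit 24210063648) (nat_lit 76) (nat_lit 33028139520) (nat_lit 76) (nat_lit 32647802360) (nat_lit 3) (nat_lit 4) (nat_lit 4) (nat_lit 5) (nat_lit 4) (nat_lit 4) (nat_lit 407) (nat_lit 188) (nat_lit 185)) (XT.lf (nat_lit 0) (nat_lit 29995666451) (nat_lit 76) (nat_lit 31502912411) (nat_lit 76) (nat_lit 31003108629) (nat_lit 3) (nat_lit 4) (nat_lit 4) (nat_lit 5) (nat_lit 4) (nat_lit 4) (nat_lit 408) (nat_lit 188) (nat_lit 184)))) (XT.nd (nat_lit 156) (nat_lit 0) (nat_lit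 0) (XT.nd (nat_lit 78) (nat_lit 0) (nat_lit 0) (XT.lf (nat_lit 0) (nat_lit 35860038900) (nat_lit 76) (nat_lit 29976553816) (nat_lit 76) (nat_lit 29360763024) (nat_lit 3) (nat_lit 4) (nat_lit 4) (nat_lit 5) (nat_lit 4) (nat_lit 4) (nat_lit 409) (nat_lit 188) (nat_lit 183)) (XT.lf (nat_lit 0) (nat_lit 41808305204) (nat_lit 76) (nat_lit 28447730023) (nat_lit 76) (nat_lit 27719330483) (nat_lit 3) (nat_lit 4) (nat_lit 4) (nat_lit 5) (nat_lit 4) (nat_lit 4) (nat_lit 410) (nat_lit 188) (nat_lit 182))) (XT.nd (nat_lit 78) (nat_lit 0) (nat_lit 0) (XT.lf (nat_lit 0) (nat_lit 47845662878) (nat_lit 76) (nat_lit 26915105169) (nat_lit 76) (nat_lit 26077376747) (nat_lit 3) (nat_lit 4) (nat_lit 4) (nat_lit 5) (nat_lit 4) (nat_lit 4) (nat_lit 411) (nat_lit 188) (nat_lit 181)) (XT.lf (nat_lit 0) (nat_lit 53977387283) (nat_lit 76) (nat_lit 25377340065) (nat_lit 76) (nat_lit 24433467097) (nat_lit 3) (nat_lit 4) (nat_lit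 4) (nat_lit 5) (nat_lit 4) (nat_lit 4) (nat_lit 412) (nat_lit 188) (nat_lit 180))))))) (XT.nd (nat_lit 40716) (nat_lit 0) (nat_lit 0) (XT.nd (nat_lit 546) (nat_lit 0) (nat_lit 0) (XT.nd (nat_lit 234) (nat_lit 0) (nat_lit 0) (XT.nd (nat_lit 78) (nat_lit 76) (nat_lit 0) (XT.lf (nat_lit 0) (nat_lit 18585532366) (nat_lit 152) (nat_lit 1792841057) (nat_lit 0) (nat_lit 18585532366) (nat_lit 4) (nat_lit 5) (nat_lit 6) (nat_lit 4) (nat_lit 4) (nat_lit 4) (nat_lit 402) (nat_lit 189) (nat_lit 189)) (XT.nd (nat_lit 78) (nat_lit 0) (nat_lit 0) (XT.lf (nat_lit 0) (nat_lit 1755181324) (nat_lit 76) (nat_lit 39278857919) (nat_lit 76) (nat_lit 39144397184) (nat_lit 3) (nat_lit 4) (nat_lit 4) (nat_lit 5) (nat_lit 4) (nat_lit 4) (nat_lit 403) (nat_lit 189) (nat_lit 188)) (XT.lf (nat_lit 0) (nat_lit 7223077159) (nat_lit 76) (nat_lit 37769563912) (nat_lit 76) (nat_lit 37504558775) (nat_lit 3) (nat_lit 4) (nat_lit 4)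 (nat_lit 5) (nat_lit 4) (nat_lit 4) (nat_lit 404) (nat_lit 189) (nat_lit 187)))) (XT.nd (nat_lit 156) (nat_lit 0) (nat_lit 0) (XT.nd (nat_lit 78) (nat_lit 0) (nat_lit 0) (XT.lf (nat_lit 0) (nat_lit 12751421056) (nat_lit 76) (nat_lit 36263754385) (nat_lit 76) (nat_lit 35872007110) (nat_lit 3) (nat_lit 4) (nat_lit 4) (nat_lit 5) (nat_lit 4) (nat_lit 4) (nat_lit 405) (nat_lit 189) (nat_lit 186)) (XT.lf (nat_lit 0) (nat_lit 18345043608) (nat_lit 76) (nat_lit 34760113582) (nat_lit 76) (nat_lit 34245315687) (nat_lit 3) (nat_lit 4) (nat_lit 4) (nat_lit 5) (nat_lit 4) (nat_lit 4) (nat_lit 406) (nat_lit 189) (nat_lit 185))) (XT.nd (nat_lit 78) (nat_lit 0) (nat_lit 0) (XT.lf (nat_lit 0) (nat_lit 24008832445) (nat_lit 76) (nat_lit 33257327643) (nat_lit 76) (nat_lit 32623063127) (nat_lit 3) (nat_lit 4) (nat_lit 4) (nat_lit 5) (nat_lit 4) (nat_lit 4) (nat_lit 407) (nat_lit 189) (nat_lit 184)) (XT.lf (nat_lit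 0) (nat_lit 29747736510) (nat_lit 76) (nat_lit 31754083453) (nat_lit 76) (nat_lit 31003831927) (nat_lit 3) (nat_lit 4) (nat_lit 4) (nat_lit 5) (nat_lit 4) (nat_lit 4) (nat_lit 408) (nat_lit 189) (nat_lit 183))))) (XT.nd (nat_lit 234) (nat_lit 0) (nat_lit 0) (XT.nd (nat_lit 78) (nat_lit 0) (nat_lit 0) (XT.lf (nat_lit 0) (nat_lit 35566770379) (nat_lit 76) (nat_lit 30249067499) (nat_lit 76) (nat_lit 29386207224) (nat_lit 3) (nat_lit 4) (nat_lit 4) (nat_lit 5) (nat_lit 4) (nat_lit 4) (nat_lit 409) (nat_lit 189) (nat_lit 182)) (XT.nd (nat_lit 78) (nat_lit 0) (nat_lit 0) (XT.lf (nat_lit 0) (nat_lit 41471018644) (nat_lit 76) (nat_lit 28740964717) (nat_lit 76) (nat_lit 27768775561) (nat_lit 3) (nat_lit 4) (nat_lit 4) (nat_lit 5) (nat_lit 4) (nat_lit 4) (nat_lit 410) (nat_lit 189) (nat_lit 181)) (XT.lf (nat_lit 0) (nat_lit 47465640357) (nat_lit 76) (nat_lit 27228457348) (nat_lit 76) (nat_lit 26150123646)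 (nat_lit 3) (nat_lit 4) (nat_lit 4) (nat_lit 5) (nat_lit 4) (nat_lit 4) (nat_lit 411) (nat_lit 189) (nat_lit 180)))) (XT.nd (nat_lit 39780) (nat_lit 0) (nat_lit 76) (XT.nd (nat_lit 39702) (nat_lit 0) (nat_lit 76) (XT.lf (nat_lit 0) (nat_lit 53555873538) (nat_lit 76) (nat_lit 25710223784) (nat_lit 76) (nat_lit 24528837126) (nat_lit 3) (nat_lit 4) (nat_lit 4) (nat_lit 5) (nat_lit 4) (nat_lit 4) (nat_lit 412) (nat_lit 189) (nat_lit 179)) (XT.lf (nat_lit 0) (nat_lit 14906376021) (nat_lit 152) (nat_lit 6999494196) (nat_lit 0) (nat_lit 14906376021) (nat_lit 4) (nat_lit 5) (nat_lit 6) (nat_lit 4) (nat_lit 4) (nat_lit 4) (nat_lit 400) (nat_lit 190) (nat_lit 190))) (XT.nd (nat_lit 78) (nat_lit 0) (nat_lit 0) (XT.lf (nat_lit 0) (nat_lit 33520034417) (nat_lit 152) (nat_lit 8842348530) (nat_lit 0) (nat_lit 33381539860) (nat_lit 4) (nat_lit 5) (nat_lit 6) (nat_lit 4) (nat_lit 4) (nat_lit 4) (nat_lit 401) (nat_lit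 190) (nat_lit 189)) (XT.lf (nat_lit 0) (nat_lit 37281427277) (nat_lit 152) (nat_lit 3638762350) (nat_lit 0) (nat_lit 37008471986) (nat_lit 4) (nat_lit 5) (nat_lit 6) (nat_lit 4) (nat_lit 4) (nat_lit 4) (nat_lit 402) (nat_lit 190) (nat_lit 188)))))) (XT.nd (nat_lit 546) (nat_lit 0) (nat_lit 0) (XT.nd (nat_lit 234) (nat_lit 0) (nat_lit 0) (XT.nd (nat_lit 78) (nat_lit 0) (nat_lit 0) (XT.lf (nat_lit 0) (nat_lit 1648484848) (nat_lit 76) (nat_lit 39467578675) (nat_lit 76) (nat_lit 39064078981) (nat_lit 3) (nat_lit 4) (nat_lit 4) (nat_lit 5) (nat_lit 4) (nat_lit 4) (nat_lit 403) (nat_lit 190) (nat_lit 187)) (XT.nd (nat_lit 78) (nat_lit 0) (nat_lit 0) (XT.lf (nat_lit 0) (nat_lit 7065351711) (nat_lit 76) (nat_lit 37982305998) (nat_lit 76) (nat_lit 37452064166) (nat_lit 3) (nat_lit 4) (nat_lit 4) (nat_lit 5) (nat_lit 4) (nat_lit 4) (nat_lit 404) (nat_lit 190) (nat_lit 186)) (XT.lf (nat_lit 0) (nat_lit 12544152917)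 (nat_lit 76) (nat_lit 36499818151) (nat_lit 76) (nat_lit 35846525700) (nat_lit 3) (nat_lit 4) (nat_lit 4) (nat_lit 5) (nat_lit 4) (nat_lit 4) (nat_lit 405) (nat_lit 190) (nat_lit 185)))) (XT.nd (nat_lit 156) (nat_lit 0) (nat_lit 0) (XT.nd (nat_lit 78) (nat_lit 0) (nat_lit 0) (XT.lf (nat_lit 0) (nat_lit 18089675769) (nat_lit 76) (nat_lit 35018819756) (nat_lit 76) (nat_lit 34246060684) (nat_lit 3) (nat_lit 4) (nat_lit 4) (nat_lit 5) (nat_lit 4) (nat_lit 4) (nat_lit 406) (nat_lit 190) (nat_lit 184)) (XT.lf (nat_lit 0) (nat_lit 23706765868) (nat_lit 76) (nat_lit 33538016737) (nat_lit 76) (nat_lit 32649270654) (nat_lit 3) (nat_lit 4) (nat_lit 4) (nat_lit 5) (nat_lit 4) (nat_lit 4) (nat_lit 407) (nat_lit 190) (nat_lit 183))) (XT.nd (nat_lit 78) (nat_lit 0) (nat_lit 0) (XT.lf (nat_lit 0) (nat_lit 29400331353) (nat_lit 76) (nat_lit 32056115188) (nat_lit 76) (nat_lit 31054760357) (nat_lit 3) (nat_lit 4)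 (nat_lit 4) (nat_lit 5) (nat_lit 4) (nat_lit 4) (nat_lit 408) (nat_lit 190) (nat_lit 182)) (XT.lf (nat_lit 0) (nat_lit 35175347182) (nat_lit 76) (nat_lit 30571820244) (nat_lit 76) (nat_lit 29461136531) (nat_lit 3) (nat_lit 4) (nat_lit 4) (nat_lit 5) (nat_lit 4) (nat_lit 4) (nat_lit 409) (nat_lit 190) (nat_lit 181))))) (XT.nd (nat_lit 39702) (nat_lit 0) (nat_lit 76) (XT.nd (nat_lit 78) (nat_lit 0) (nat_lit 0) (XT.lf (nat_lit 0) (nat_lit 41036859487) (nat_lit 76) (nat_lit 29083834948) (nat_lit 76) (nat_lit 27867006690) (nat_lit 3) (nat_lit 4) (nat_lit 4) (nat_lit 5) (nat_lit 4) (nat_lit 4) (nat_lit 410) (nat_lit 190) (nat_lit 180)) (XT.nd (nat_lit 78) (nat_lit 0) (nat_lit 0) (XT.lf (nat_lit 0) (nat_lit 46989989977) (nat_lit 76) (nat_lit 27590859119) (nat_lit 76) (nat_lit 26270977904) (nat_lit 3) (nat_lit 4) (nat_lit 4) (nat_lit 5) (nat_lit 4) (nat_lit 4) (nat_lit 411) (nat_lit 190) (nat_lit 179))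 (XT.lf (nat_lit 0) (nat_lit 53039940416) (nat_lit 76) (nat_lit 26091588215) (nat_lit 76) (nat_lit 24671655586) (nat_lit 3) (nat_lit 4) (nat_lit 4) (nat_lit 5) (nat_lit 4) (nat_lit 4) (nat_lit 412) (nat_lit 190) (nat_lit 178)))) (XT.nd (nat_lit 156) (nat_lit 0) (nat_lit 0) (XT.nd (nat_lit 78) (nat_lit 0) (nat_lit 0) (XT.lf (nat_lit 0) (nat_lit 11360050178) (nat_lit 152) (nat_lit 12066551232) (nat_lit 0) (nat_lit 11360050178) (nat_lit 4) (nat_lit 5) (nat_lit 6) (nat_lit 4) (nat_lit 4) (nat_lit 4) (nat_lit 398) (nat_lit 191) (nat_lit 191)) (XT.lf (nat_lit 0) (nat_lit 26298990175) (nat_lit 152) (nat_lit 19113187738) (nat_lit 0) (nat_lit 26156340782) (nat_lit 4) (nat_lit 5) (nat_lit 6) (nat_lit 4) (nat_lit 4) (nat_lit 4) (nat_lit 399) (nat_lit 191) (nat_lit 190))) (XT.nd (nat_lit 78) (nat_lit 0) (nat_lit 0) (XT.lf (nat_lit 0) (nat_lit 29926425463) (nat_lit 152) (nat_lit 14053661035) (nat_lit 0) (nat_lit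 29645281513) (nat_lit 4) (nat_lit 5) (nat_lit 6) (nat_lit 4) (nat_lit 4) (nat_lit 4) (nat_lit 400) (nat_lit 191) (nat_lit 189)) (XT.lf (nat_lit 0) (nat_lit 33605575825) (nat_lit 152) (nat_lit 8950101408) (nat_lit 0) (nat_lit 33189971141) (nat_lit 4) (nat_lit 5) (nat_lit 6) (nat_lit 4) (nat_lit 4) (nat_lit 4) (nat_lit 401) (nat_lit 191) (nat_lit 188))))))))
noncomputable def xc1 : XT := (XT.nd (nat_lit 80652) (nat_lit 0) (nat_lit 0) (XT.nd (nat_lit 40404) (nat_lit 0) (nat_lit 0) (XT.nd (nat_lit 546) (nat_lit 0) (nat_lit 0) (XT.nd (nat_lit 234) (nat_lit 0) (nat_lit 0) (XT.nd (nat_lit 78) (nat_lit 76) (nat_lit 0) (XT.lf (nat_lit 0) (nat_lit 37339656052) (nat_lit 152) (nat_lit 3798049436) (nat_lit 0) (nat_lit 36793506966) (nat_lit 4) (nat_lit 5) (nat_lit 6) (nat_lit 4) (nat_lit 4) (nat_lit 4) (nat_lit 402) (nat_lit 191) (nat_lit 187)) (XT.nd (nat_lit 78) (nat_lit 0) (nat_lit 0) (XT.lf (nat_lit 0) (nat_lit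 1434998664) (nat_lit 76) (nat_lit 39710724354) (nat_lit 76) (nat_lit 39037833129) (nat_lit 3) (nat_lit 4) (nat_lit 4) (nat_lit 5) (nat_lit 4) (nat_lit 4) (nat_lit 403) (nat_lit 191) (nat_lit 186)) (XT.lf (nat_lit 0) (nat_lit 6802322836) (nat_lit 76) (nat_lit 38248773357) (nat_lit 76) (nat_lit 37452831512) (nat_lit 3) (nat_lit 4) (nat_lit 4) (nat_lit 5) (nat_lit 4) (nat_lit 4) (nat_lit 404) (nat_lit 191) (nat_lit 185)))) (XT.nd (nat_lit 156) (nat_lit 0) (nat_lit 0) (XT.nd (nat_lit 78) (nat_lit 0) (nat_lit 0) (XT.lf (nat_lit 0) (nat_lit 12233024343) (nat_lit 76) (nat_lit 36788927917) (nat_lit 76) (nat_lit 35873519452) (nat_lit 3) (nat_lit 4) (nat_lit 4) (nat_lit 5) (nat_lit 4) (nat_lit 4) (nat_lit 405) (nat_lit 191) (nat_lit 184)) (XT.lf (nat_lit 0) (nat_lit 17731848457) (nat_lit 76) (nat_lit 35329912443) (nat_lit 76) (nat_lit 34298516966) (nat_lit 3) (nat_lit 4) (nat_lit 4) (nat_lit 5) (nat_lit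 4) (nat_lit 4) (nat_lit 406) (nat_lit 191) (nat_lit 183))) (XT.nd (nat_lit 78) (nat_lit 0) (nat_lit 0) (XT.lf (nat_lit 0) (nat_lit 23303599976) (nat_lit 76) (nat_lit 33870452064) (nat_lit 76) (nat_lit 32726447840) (nat_lit 3) (nat_lit 4) (nat_lit 4) (nat_lit 5) (nat_lit 4) (nat_lit 4) (nat_lit 407) (nat_lit 191) (nat_lit 182)) (XT.lf (nat_lit 0) (nat_lit 28953147421) (nat_lit 76) (nat_lit 32409271526) (nat_lit 76) (nat_lit 31155938420) (nat_lit 3) (nat_lit 4) (nat_lit 4) (nat_lit 5) (nat_lit 4) (nat_lit 4) (nat_lit 408) (nat_lit 191) (nat_lit 181))))) (XT.nd (nat_lit 234) (nat_lit 0) (nat_lit 0) (XT.nd (nat_lit 78) (nat_lit 0) (nat_lit 0) (XT.lf (nat_lit 0) (nat_lit 34685427290) (nat_lit 76) (nat_lit 30945094068) (nat_lit 76) (nat_lit 29585616416) (nat_lit 3) (nat_lit 4) (nat_lit 4) (nat_lit 5) (nat_lit 4) (nat_lit 4) (nat_lit 409) (nat_lit 191) (nat_lit 180)) (XT.nd (nat_lit 78) (nat_lit 0) (nat_lit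 0) (XT.lf (nat_lit 0) (nat_lit 40505448371) (nat_lit 76) (nat_lit 29476640312) (nat_lit 76) (nat_lit 28014109704) (nat_lit 3) (nat_lit 4) (nat_lit 4) (nat_lit 5) (nat_lit 4) (nat_lit 4) (nat_lit 410) (nat_lit 191) (nat_lit 179)) (XT.lf (nat_lit 0) (nat_lit 46418296120) (nat_lit 76) (nat_lit 28002627143) (nat_lit 76) (nat_lit 26440045120) (nat_lit 3) (nat_lit 4) (nat_lit 4) (nat_lit 5) (nat_lit 4) (nat_lit 4) (nat_lit 411) (nat_lit 191) (nat_lit 178)))) (XT.nd (nat_lit 39468) (nat_lit 0) (nat_lit 76) (XT.nd (nat_lit 39390) (nat_lit 0) (nat_lit 76) (XT.lf (nat_lit 0) (nat_lit 52429137102) (nat_lit 76) (nat_lit 26521766588) (nat_lit 76) (nat_lit 24862047270) (nat_lit 3) (nat_lit 4) (nat_lit 4) (nat_lit 5) (nat_lit 4) (nat_lit 4) (nat_lit 412) (nat_lit 191) (nat_lit 177)) (XT.lf (nat_lit 0) (nat_lit 7936578780) (nat_lit 152) (nat_lit 17006804164) (nat_lit 0) (nat_lit 7936578780) (nat_lit 4) (nat_lit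 5) (nat_lit 6) (nat_lit 4) (nat_lit 4) (nat_lit 4) (nat_lit 396) (nat_lit 192) (nat_lit 192))) (XT.nd (nat_lit 78) (nat_lit 0) (nat_lit 0) (XT.lf (nat_lit 0) (nat_lit 19333557699) (nat_lit 152) (nat_lit 29117791544) (nat_lit 0) (nat_lit 19186628824) (nat_lit 4) (nat_lit 5) (nat_lit 6) (nat_lit 4) (nat_lit 4) (nat_lit 4) (nat_lit 397) (nat_lit 192) (nat_lit 191)) (XT.lf (nat_lit 0) (nat_lit 22837183980) (nat_lit 152) (nat_lit 24189415285) (nat_lit 0) (nat_lit 22547605712) (nat_lit 4) (nat_lit 5) (nat_lit 6) (nat_lit 4) (nat_lit 4) (nat_lit 4) (nat_lit 398) (nat_lit 192) (nat_lit 190)))))) (XT.nd (nat_lit 546) (nat_lit 0) (nat_lit 0) (XT.nd (nat_lit 234) (nat_lit 76) (nat_lit 0) (XT.nd (nat_lit 78) (nat_lit 0) (nat_lit 0) (XT.lf (nat_lit 0) (nat_lit 26387097826) (nat_lit 152) (nat_lit 19224173202) (nat_lit 0) (nat_lit 25959025001) (nat_lit 4) (nat_lit 5) (nat_lit 6) (nat_lit 4) (nat_lit 4) (nat_lit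 4) (nat_lit 399) (nat_lit 192) (nat_lit 189)) (XT.nd (nat_lit 78) (nat_lit 0) (nat_lit 0) (XT.lf (nat_lit 0) (nat_lit 29986401101) (nat_lit 152) (nat_lit 14217726734) (nat_lit 0) (nat_lit 29423867542) (nat_lit 4) (nat_lit 5) (nat_lit 6) (nat_lit 4) (nat_lit 4) (nat_lit 4) (nat_lit 400) (nat_lit 192) (nat_lit 188)) (XT.lf (nat_lit 0) (nat_lit 33638238830) (nat_lit 152) (nat_lit 9165701316) (nat_lit 0) (nat_lit 32945160869) (nat_lit 4) (nat_lit 5) (nat_lit 6) (nat_lit 4) (nat_lit 4) (nat_lit 4) (nat_lit 401) (nat_lit 192) (nat_lit 187)))) (XT.nd (nat_lit 156) (nat_lit 0) (nat_lit 0) (XT.nd (nat_lit 78) (nat_lit 76) (nat_lit 0) (XT.lf (nat_lit 0) (nat_lit 37345801938) (nat_lit 152) (nat_lit 4063682557) (nat_lit 0) (nat_lit 36525981838) (nat_lit 4) (nat_lit 5) (nat_lit 6) (nat_lit 4) (nat_lit 4) (nat_lit 4) (nat_lit 402) (nat_lit 192) (nat_lit 186)) (XT.lf (nat_lit 0) (nat_lit 1114536233) (nat_lit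 76) (nat_lit 40008507414) (nat_lit 76) (nat_lit 39065636694) (nat_lit 3) (nat_lit 4) (nat_lit 4) (nat_lit 5) (nat_lit 4) (nat_lit 4) (nat_lit 403) (nat_lit 192) (nat_lit 185))) (XT.nd (nat_lit 78) (nat_lit 0) (nat_lit 0) (XT.lf (nat_lit 0) (nat_lit 6433760705) (nat_lit 76) (nat_lit 38569198824) (nat_lit 76) (nat_lit 37506861484) (nat_lit 3) (nat_lit 4) (nat_lit 4) (nat_lit 5) (nat_lit 4) (nat_lit 4) (nat_lit 404) (nat_lit 192) (nat_lit 184)) (XT.lf (nat_lit 0) (nat_lit 11817763473) (nat_lit 76) (nat_lit 37131336305) (nat_lit 76) (nat_lit 35953011954) (nat_lit 3) (nat_lit 4) (nat_lit 4) (nat_lit 5) (nat_lit 4) (nat_lit 4) (nat_lit 405) (nat_lit 192) (nat_lit 183))))) (XT.nd (nat_lit 234) (nat_lit 0) (nat_lit 0) (XT.nd (nat_lit 78) (nat_lit 0) (nat_lit 0) (XT.lf (nat_lit 0) (nat_lit 17271249007) (nat_lit 76) (nat_lit 35693663471) (nat_lit 76) (nat_lit 34402730371) (nat_lit 3) (nat_lit 4) (nat_lit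 4) (nat_lit 5) (nat_lit 4) (nat_lit 4) (nat_lit 406) (nat_lit 192) (nat_lit 182)) (XT.nd (nat_lit 78) (nat_lit 0) (nat_lit 0) (XT.lf (nat_lit 0) (nat_lit 22798982487) (nat_lit 76) (nat_lit 34254924103) (nat_lit 76) (nat_lit 32854662122) (nat_lit 3) (nat_lit 4) (nat_lit 4) (nat_lit 5) (nat_lit 4) (nat_lit 4) (nat_lit 407) (nat_lit 192) (nat_lit 181)) (XT.lf (nat_lit 0) (nat_lit 28405793972) (nat_lit 76) (nat_lit 32813861051) (nat_lit 76) (nat_lit 31307454524) (nat_lit 3) (nat_lit 4) (nat_lit 4) (nat_lit 5) (nat_lit 4) (nat_lit 4) (nat_lit 408) (nat_lit 192) (nat_lit 180)))) (XT.nd (nat_lit 156) (nat_lit 0) (nat_lit 0) (XT.nd (nat_lit 78) (nat_lit 0) (nat_lit 0) (XT.lf (nat_lit 0) (nat_lit 34096582617) (nat_lit 76) (nat_lit 31369215132) (nat_lit 76) (nat_lit 29759755649) (nat_lit 3) (nat_lit 4) (nat_lit 4) (nat_lit 5) (nat_lit 4) (nat_lit 4) (nat_lit 409) (nat_lit 192) (nat_lit 179)) (XT.lf (nat_lit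 0) (nat_lit 39876320957) (nat_lit 76) (nat_lit 29919724036) (nat_lit 76) (nat_lit 28210213139) (nat_lit 3) (nat_lit 4) (nat_lit 4) (nat_lit 5) (nat_lit 4) (nat_lit 4) (nat_lit 410) (nat_lit 192) (nat_lit 178))) (XT.nd (nat_lit 78) (nat_lit 0) (nat_lit 0) (XT.lf (nat_lit 0) (nat_lit 45750059248) (nat_lit 76) (nat_lit 28464121217) (nat_lit 76) (nat_lit 26657473024) (nat_lit 3) (nat_lit 4) (nat_lit 4) (nat_lit 5) (nat_lit 4) (nat_lit 4) (nat_lit 411) (nat_lit 192) (nat_lit 177)) (XT.lf (nat_lit 0) (nat_lit 51722929883) (nat_lit 76) (nat_lit 27001134788) (nat_lit 76) (nat_lit 25100178541) (nat_lit 3) (nat_lit 4) (nat_lit 4) (nat_lit 5) (nat_lit 4) (nat_lit 4) (nat_lit 412) (nat_lit 192) (nat_lit 176))))))) (XT.nd (nat_lit 1092) (nat_lit 0) (nat_lit 0) (XT.nd (nat_lit 546) (nat_lit 76) (nat_lit 0) (XT.nd (nat_lit 234) (nat_lit 0) (nat_lit 0) (XT.nd (nat_lit 78) (nat_lit 0) (nat_lit 0) (XT.lf (nat_lit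 0) (nat_lit 4626487904) (nat_lit 152) (nat_lit 21832454038) (nat_lit 0) (nat_lit 4626487904) (nat_lit 4) (nat_lit 5) (nat_lit 6) (nat_lit 4) (nat_lit 4) (nat_lit 4) (nat_lit 394) (nat_lit 193) (nat_lit 193)) (XT.nd (nat_lit 78) (nat_lit 0) (nat_lit 0) (XT.lf (nat_lit 0) (nat_lit 12604296656) (nat_lit 152) (nat_lit 38881143534) (nat_lit 0) (nat_lit 12452959915) (nat_lit 4) (nat_lit 5) (nat_lit 6) (nat_lit 4) (nat_lit 4) (nat_lit 4) (nat_lit 395) (nat_lit 193) (nat_lit 192)) (XT.lf (nat_lit 0) (nat_lit 15993753692) (nat_lit 152) (nat_lit 34071610534) (nat_lit 0) (nat_lit 15695488076) (nat_lit 4) (nat_lit 5) (nat_lit 6) (nat_lit 4) (nat_lit 4) (nat_lit 4) (nat_lit 396) (nat_lit 193) (nat_lit 191)))) (XT.nd (nat_lit 156) (nat_lit 0) (nat_lit 0) (XT.nd (nat_lit 78) (nat_lit 0) (nat_lit 0) (XT.lf (nat_lit 0) (nat_lit 19424308579) (nat_lit 152) (nat_lit 29232106572) (nat_lit 0) (nat_lit 18983393570) (nat_lit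 4) (nat_lit 5) (nat_lit 6) (nat_lit 4) (nat_lit 4) (nat_lit 4) (nat_lit 397) (nat_lit 193) (nat_lit 190)) (XT.lf (nat_lit 0) (nat_lit 22898958888) (nat_lit 152) (nat_lit 24358402955) (nat_lit 0) (nat_lit 22319549322) (nat_lit 4) (nat_lit 5) (nat_lit 6) (nat_lit 4) (nat_lit 4) (nat_lit 4) (nat_lit 398) (nat_lit 193) (nat_lit 189))) (XT.nd (nat_lit 78) (nat_lit 0) (nat_lit 0) (XT.lf (nat_lit 0) (nat_lit 26420740721) (nat_lit 152) (nat_lit 19446241107) (nat_lit 0) (nat_lit 25706870421) (nat_lit 4) (nat_lit 5) (nat_lit 6) (nat_lit 4) (nat_lit 4) (nat_lit 4) (nat_lit 399) (nat_lit 193) (nat_lit 188)) (XT.lf (nat_lit 0) (nat_lit 29992731363) (nat_lit 152) (nat_lit 14491328848) (nat_lit 0) (nat_lit 29148316661) (nat_lit 4) (nat_lit 5) (nat_lit 6) (nat_lit 4) (nat_lit 4) (nat_lit 4) (nat_lit 400) (nat_lit 193) (nat_lit 187))))) (XT.nd (nat_lit 234) (nat_lit 0) (nat_lit 0) (XT.nd (nat_lit 78) (nat_lit 76)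 (nat_lit 0) (XT.lf (nat_lit 0) (nat_lit 33618051973) (nat_lit 152) (nat_lit 9489336643) (nat_lit 0) (nat_lit 32646895132) (nat_lit 4) (nat_lit 5) (nat_lit 6) (nat_lit 4) (nat_lit 4) (nat_lit 4) (nat_lit 401) (nat_lit 193) (nat_lit 186)) (XT.nd (nat_lit 78) (nat_lit 76) (nat_lit 0) (XT.lf (nat_lit 0) (nat_lit 37299870304) (nat_lit 152) (nat_lit 4435893819) (nat_lit 0) (nat_lit 36205662843) (nat_lit 4) (nat_lit 5) (nat_lit 6) (nat_lit 4) (nat_lit 4) (nat_lit 4) (nat_lit 402) (nat_lit 193) (nat_lit 185)) (XT.lf (nat_lit 0) (nat_lit 686817537) (nat_lit 76) (nat_lit 40361188053) (nat_lit 76) (nat_lit 39147513971) (nat_lit 3) (nat_lit 4) (nat_lit 4) (nat_lit 5) (nat_lit 4) (nat_lit 4) (nat_lit 403) (nat_lit 193) (nat_lit 184)))) (XT.nd (nat_lit 156) (nat_lit 0) (nat_lit 0) (XT.nd (nat_lit 78) (nat_lit 0) (nat_lit 0) (XT.lf (nat_lit 0) (nat_lit 5959343272) (nat_lit 76) (nat_lit 38943862383) (nat_lit 76)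 (nat_lit 37614201291) (nat_lit 3) (nat_lit 4) (nat_lit 4) (nat_lit 5) (nat_lit 4) (nat_lit 4) (nat_lit 404) (nat_lit 193) (nat_lit 183)) (XT.lf (nat_lit 0) (nat_lit 11298007460) (nat_lit 76) (nat_lit 37527342505) (nat_lit 76) (nat_lit 36085072664) (nat_lit 3) (nat_lit 4) (nat_lit 4) (nat_lit 5) (nat_lit 4) (nat_lit 4) (nat_lit 405) (nat_lit 193) (nat_lit 182))) (XT.nd (nat_lit 78) (nat_lit 0) (nat_lit 0) (XT.lf (nat_lit 0) (nat_lit 16707474955) (nat_lit 76) (nat_lit 36110390681) (nat_lit 76) (nat_lit 34558791959) (nat_lit 3) (nat_lit 4) (nat_lit 4) (nat_lit 5) (nat_lit 4) (nat_lit 4) (nat_lit 406) (nat_lit 193) (nat_lit 181)) (XT.lf (nat_lit 0) (nat_lit 22192472474) (nat_lit 76) (nat_lit 34691768799) (nat_lit 76) (nat_lit 33034025531) (nat_lit 3) (nat_lit 4) (nat_lit 4) (nat_lit 5) (nat_lit 4) (nat_lit 4) (nat_lit 407) (nat_lit 193) (nat_lit 180)))))) (XT.nd (nat_lit 39546) (nat_lit 0) (nat_lit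 76) (XT.nd (nat_lit 234) (nat_lit 0) (nat_lit 0) (XT.nd (nat_lit 78) (nat_lit 0) (nat_lit 0) (XT.lf (nat_lit 0) (nat_lit 27757792735) (nat_lit 76) (nat_lit 33270237287) (nat_lit 76) (nat_lit 31509441062) (nat_lit 3) (nat_lit 4) (nat_lit 4) (nat_lit 5) (nat_lit 4) (nat_lit 4) (nat_lit 408) (nat_lit 193) (nat_lit 179)) (XT.nd (nat_lit 78) (nat_lit 0) (nat_lit 0) (XT.lf (nat_lit 0) (nat_lit 33408298640) (nat_lit 76) (nat_lit 31844554028) (nat_lit 76) (nat_lit 29983706389) (nat_lit 3) (nat_lit 4) (nat_lit 4) (nat_lit 5) (nat_lit 4) (nat_lit 4) (nat_lit 409) (nat_lit 193) (nat_lit 178)) (XT.lf (nat_lit 0) (nat_lit 39148927522) (nat_lit 76) (nat_lit 30413473282) (nat_lit 76) (nat_lit 28455488347) (nat_lit 3) (nat_lit 4) (nat_lit 4) (nat_lit 5) (nat_lit 4) (nat_lit 4) (nat_lit 410) (nat_lit 193) (nat_lit 177)))) (XT.nd (nat_lit 39156) (nat_lit 0) (nat_lit 76) (XT.nd (nat_lit 78) (nat_lit 0) (nat_lit 0)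 (XT.lf (nat_lit 0) (nat_lit 44984695465) (nat_lit 76) (nat_lit 28975744588) (nat_lit 76) (nat_lit 26923451600) (nat_lit 3) (nat_lit 4) (nat_lit 4) (nat_lit 5) (nat_lit 4) (nat_lit 4) (nat_lit 411) (nat_lit 193) (nat_lit 176)) (XT.lf (nat_lit 0) (nat_lit 50920701685) (nat_lit 76) (nat_lit 27530111679) (nat_lit 76) (nat_lit 25386257473) (nat_lit 3) (nat_lit 4) (nat_lit 4) (nat_lit 5) (nat_lit 4) (nat_lit 4) (nat_lit 412) (nat_lit 193) (nat_lit 175))) (XT.nd (nat_lit 78) (nat_lit 0) (nat_lit 0) (XT.lf (nat_lit 0) (nat_lit 1420774821) (nat_lit 152) (nat_lit 26555149168) (nat_lit 0) (nat_lit 1420774821) (nat_lit 4) (nat_lit 5) (nat_lit 6) (nat_lit 4) (nat_lit 4) (nat_lit 4) (nat_lit 392) (nat_lit 194) (nat_lit 194)) (XT.lf (nat_lit 0) (nat_lit 6092739653) (nat_lit 152) (nat_lit 48427084148) (nat_lit 0) (nat_lit 5936862810) (nat_lit 4) (nat_lit 5) (nat_lit 6) (nat_lit 4) (nat_lit 4) (nat_lit 4) (nat_lit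 393) (nat_lit 194) (nat_lit 193))))) (XT.nd (nat_lit 234) (nat_lit 0) (nat_lit 0) (XT.nd (nat_lit 78) (nat_lit 0) (nat_lit 0) (XT.lf (nat_lit 0) (nat_lit 9377189824) (nat_lit 152) (nat_lit 43724650348) (nat_lit 0) (nat_lit 9069976239) (nat_lit 4) (nat_lit 5) (nat_lit 6) (nat_lit 4) (nat_lit 4) (nat_lit 4) (nat_lit 394) (nat_lit 194) (nat_lit 192)) (XT.nd (nat_lit 78) (nat_lit 0) (nat_lit 0) (XT.lf (nat_lit 0) (nat_lit 12697770062) (nat_lit 152) (nat_lit 38998888012) (nat_lit 0) (nat_lit 12243627603) (nat_lit 4) (nat_lit 5) (nat_lit 6) (nat_lit 4) (nat_lit 4) (nat_lit 4) (nat_lit 395) (nat_lit 194) (nat_lit 191)) (XT.lf (nat_lit 0) (nat_lit 16057381847) (nat_lit 152) (nat_lit 34245667834) (nat_lit 0) (nat_lit 15460589994) (nat_lit 4) (nat_lit 5) (nat_lit 6) (nat_lit 4) (nat_lit 4) (nat_lit 4) (nat_lit 396) (nat_lit 194) (nat_lit 190)))) (XT.nd (nat_lit 156) (nat_lit 0) (nat_lit 0) (XT.nd (nat_lit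 78) (nat_lit 0) (nat_lit 0) (XT.lf (nat_lit 0) (nat_lit 19458960761) (nat_lit 152) (nat_lit 29460836515) (nat_lit 0) (nat_lit 18723674352) (nat_lit 4) (nat_lit 5) (nat_lit 6) (nat_lit 4) (nat_lit 4) (nat_lit 4) (nat_lit 397) (nat_lit 194) (nat_lit 189)) (XT.lf (nat_lit 0) (nat_lit 22905479058) (nat_lit 152) (nat_lit 24640213133) (nat_lit 0) (nat_lit 22035731914) (nat_lit 4) (nat_lit 5) (nat_lit 6) (nat_lit 4) (nat_lit 4) (nat_lit 4) (nat_lit 398) (nat_lit 194) (nat_lit 188))) (XT.nd (nat_lit 78) (nat_lit 0) (nat_lit 0) (XT.lf (nat_lit 0) (nat_lit 26399948257) (nat_lit 152) (nat_lit 19779585494) (nat_lit 0) (nat_lit 25399656711) (nat_lit 4) (nat_lit 5) (nat_lit 6) (nat_lit 4) (nat_lit 4) (nat_lit 4) (nat_lit 399) (nat_lit 194) (nat_lit 187)) (XT.lf (nat_lit 0) (nat_lit 29945421780) (nat_lit 152) (nat_lit 14874706447) (nat_lit 0) (nat_lit 28818388096) (nat_lit 4) (nat_lit 5) (nat_lit 6) (nat_lit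 4) (nat_lit 4) (nat_lit 4) (nat_lit 400) (nat_lit 194) (nat_lit 186))))))))
noncomputable def xc2 : XT := (XT.nd (nat_lit 40950) (nat_lit 0) (nat_lit 0) (XT.nd (nat_lit 39858) (nat_lit 0) (nat_lit 0) (XT.nd (nat_lit 468) (nat_lit 0) (nat_lit 0) (XT.nd (nat_lit 234) (nat_lit 0) (nat_lit 0) (XT.nd (nat_lit 78) (nat_lit 76) (nat_lit 0) (XT.lf (nat_lit 0) (nat_lit 33544997613) (nat_lit 152) (nat_lit 9921290177) (nat_lit 0) (nat_lit 32294913309) (nat_lit 4) (nat_lit 5) (nat_lit 6) (nat_lit 4) (nat_lit 4) (nat_lit 4) (nat_lit 401) (nat_lit 194) (nat_lit 185)) (XT.nd (nat_lit 78) (nat_lit 76) (nat_lit 0) (XT.lf (nat_lit 0) (nat_lit 37201821016) (nat_lit 152) (nat_lit 4915008454) (nat_lit 0) (nat_lit 35832270091) (nat_lit 4) (nat_lit 5) (nat_lit 6) (nat_lit 4) (nat_lit 4) (nat_lit 4) (nat_lit 402) (nat_lit 194) (nat_lit 184)) (XT.lf (nat_lit 0) (nat_lit 151468844) (nat_lit 76) (nat_lit 40769074438) (nat_lit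 76) (nat_lit 39283536503) (nat_lit 3) (nat_lit 4) (nat_lit 4) (nat_lit 5) (nat_lit 4) (nat_lit 4) (nat_lit 403) (nat_lit 194) (nat_lit 183)))) (XT.nd (nat_lit 78) (nat_lit 0) (nat_lit 0) (XT.lf (nat_lit 0) (nat_lit 5378655998) (nat_lit 76) (nat_lit 39373091410) (nat_lit 76) (nat_lit 37774944726) (nat_lit 3) (nat_lit 4) (nat_lit 4) (nat_lit 5) (nat_lit 4) (nat_lit 4) (nat_lit 404) (nat_lit 194) (nat_lit 182)) (XT.nd (nat_lit 78) (nat_lit 0) (nat_lit 0) (XT.lf (nat_lit 0) (nat_lit 10673302147) (nat_lit 76) (nat_lit 37977292542) (nat_lit 76) (nat_lit 36269816976) (nat_lit 3) (nat_lit 4) (nat_lit 4) (nat_lit 5) (nat_lit 4) (nat_lit 4) (nat_lit 405) (nat_lit 194) (nat_lit 181)) (XT.lf (nat_lit 0) (nat_lit 16040033681) (nat_lit 76) (nat_lit 36580458204) (nat_lit 76) (nat_lit 34766838093) (nat_lit 3) (nat_lit 4) (nat_lit 4) (nat_lit 5) (nat_lit 4) (nat_lit 4) (nat_lit 406) (nat_lit 194) (nat_lit 180)))))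 (XT.nd (nat_lit 234) (nat_lit 0) (nat_lit 0) (XT.nd (nat_lit 78) (nat_lit 0) (nat_lit 0) (XT.lf (nat_lit 0) (nat_lit 21483539977) (nat_lit 76) (nat_lit 35181367862) (nat_lit 76) (nat_lit 33264694794) (nat_lit 3) (nat_lit 4) (nat_lit 4) (nat_lit 5) (nat_lit 4) (nat_lit 4) (nat_lit 407) (nat_lit 194) (nat_lit 179)) (XT.nd (nat_lit 78) (nat_lit 0) (nat_lit 0) (XT.lf (nat_lit 0) (nat_lit 27008577497) (nat_lit 76) (nat_lit 33778799009) (nat_lit 76) (nat_lit 31762074527) (nat_lit 3) (nat_lit 4) (nat_lit 4) (nat_lit 5) (nat_lit 4) (nat_lit 4) (nat_lit 408) (nat_lit 194) (nat_lit 178)) (XT.lf (nat_lit 0) (nat_lit 32619973943) (nat_lit 76) (nat_lit 32371526101) (nat_lit 76) (nat_lit 30257664323) (nat_lit 3) (nat_lit 4) (nat_lit 4) (nat_lit 5) (nat_lit 4) (nat_lit 4) (nat_lit 409) (nat_lit 194) (nat_lit 177)))) (XT.nd (nat_lit 156) (nat_lit 0) (nat_lit 0) (XT.nd (nat_lit 78) (nat_lit 0) (nat_lit 0) (XT.lf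 (nat_lit 0) (nat_lit 38322632478) (nat_lit 76) (nat_lit 30958319480) (nat_lit 76) (nat_lit 28750149648) (nat_lit 3) (nat_lit 4) (nat_lit 4) (nat_lit 5) (nat_lit 4) (nat_lit 4) (nat_lit 410) (nat_lit 194) (nat_lit 176)) (XT.lf (nat_lit 0) (nat_lit 44121536007) (nat_lit 76) (nat_lit 29537944306) (nat_lit 76) (nat_lit 27238213257) (nat_lit 3) (nat_lit 4) (nat_lit 4) (nat_lit 5) (nat_lit 4) (nat_lit 4) (nat_lit 411) (nat_lit 194) (nat_lit 175))) (XT.nd (nat_lit 38922) (nat_lit 0) (nat_lit 228) (XT.lf (nat_lit 0) (nat_lit 50021751532) (nat_lit 76) (nat_lit 28109159475) (nat_lit 76) (nat_lit 25720534040) (nat_lit 3) (nat_lit 4) (nat_lit 4) (nat_lit 5) (nat_lit 4) (nat_lit 4) (nat_lit 412) (nat_lit 194) (nat_lit 174)) (XT.lf (nat_lit 0) (nat_lit 24460698146) (nat_lit 76) (nat_lit 1672561216) (nat_lit 76) (nat_lit 1672561216) (nat_lit 6) (nat_lit 4) (nat_lit 7) (nat_lit 5) (nat_lit 7) (nat_lit 4) (nat_lit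 390) (nat_lit 195) (nat_lit 195)))))) (XT.nd (nat_lit 546) (nat_lit 76) (nat_lit 0) (XT.nd (nat_lit 234) (nat_lit 0) (nat_lit 0) (XT.nd (nat_lit 78) (nat_lit 152) (nat_lit 0) (XT.lf (nat_lit 0) (nat_lit 56588122207) (nat_lit 76) (nat_lit 378698521) (nat_lit 76) (nat_lit 213328778) (nat_lit 6) (nat_lit 4) (nat_lit 7) (nat_lit 5) (nat_lit 7) (nat_lit 4) (nat_lit 391) (nat_lit 195) (nat_lit 194)) (XT.nd (nat_lit 78) (nat_lit 0) (nat_lit 0) (XT.lf (nat_lit 0) (nat_lit 2969490079) (nat_lit 152) (nat_lit 53171832877) (nat_lit 0) (nat_lit 2653060087) (nat_lit 4) (nat_lit 5) (nat_lit 6) (nat_lit 4) (nat_lit 4) (nat_lit 4) (nat_lit 392) (nat_lit 195) (nat_lit 193)) (XT.lf (nat_lit 0) (nat_lit 6189017262) (nat_lit 152) (nat_lit 48548360961) (nat_lit 0) (nat_lit 5721250528) (nat_lit 4) (nat_lit 5) (nat_lit 6) (nat_lit 4) (nat_lit 4) (nat_lit 4) (nat_lit 393) (nat_lit 195) (nat_lit 192)))) (XT.nd (nat_lit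 156) (nat_lit 0) (nat_lit 0) (XT.nd (nat_lit 78) (nat_lit 0) (nat_lit 0) (XT.lf (nat_lit 0) (nat_lit 9442726823) (nat_lit 152) (nat_lit 43903929367) (nat_lit 0) (nat_lit 8828031215) (nat_lit 4) (nat_lit 5) (nat_lit 6) (nat_lit 4) (nat_lit 4) (nat_lit 4) (nat_lit 394) (nat_lit 195) (nat_lit 191)) (XT.lf (nat_lit 0) (nat_lit 12733461810) (nat_lit 152) (nat_lit 39234479853) (nat_lit 0) (nat_lit 11976116808) (nat_lit 4) (nat_lit 5) (nat_lit 6) (nat_lit 4) (nat_lit 4) (nat_lit 4) (nat_lit 395) (nat_lit 195) (nat_lit 190))) (XT.nd (nat_lit 78) (nat_lit 0) (nat_lit 0) (XT.lf (nat_lit 0) (nat_lit 16064097622) (nat_lit 152) (nat_lit 34535932317) (nat_lit 0) (nat_lit 15168258064) (nat_lit 4) (nat_lit 5) (nat_lit 6) (nat_lit 4) (nat_lit 4) (nat_lit 4) (nat_lit 396) (nat_lit 195) (nat_lit 189)) (XT.lf (nat_lit 0) (nat_lit 19437544524) (nat_lit 152) (nat_lit 29804181233) (nat_lit 0) (nat_lit 18407244231) (nat_lit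 4) (nat_lit 5) (nat_lit 6) (nat_lit 4) (nat_lit 4) (nat_lit 4) (nat_lit 397) (nat_lit 195) (nat_lit 188))))) (XT.nd (nat_lit 234) (nat_lit 76) (nat_lit 0) (XT.nd (nat_lit 78) (nat_lit 0) (nat_lit 0) (XT.lf (nat_lit 0) (nat_lit 22856750187) (nat_lit 152) (nat_lit 25035092060) (nat_lit 0) (nat_lit 21695905492) (nat_lit 4) (nat_lit 5) (nat_lit 6) (nat_lit 4) (nat_lit 4) (nat_lit 4) (nat_lit 398) (nat_lit 195) (nat_lit 187)) (XT.nd (nat_lit 78) (nat_lit 0) (nat_lit 0) (XT.lf (nat_lit 0) (nat_lit 26324702267) (nat_lit 152) (nat_lit 20224497634) (nat_lit 0) (nat_lit 25037115434) (nat_lit 4) (nat_lit 5) (nat_lit 6) (nat_lit 4) (nat_lit 4) (nat_lit 4) (nat_lit 399) (nat_lit 195) (nat_lit 186)) (XT.lf (nat_lit 0) (nat_lit 29844431014) (nat_lit 152) (nat_lit 15368194522) (nat_lit 0) (nat_lit 28433793561) (nat_lit 4) (nat_lit 5) (nat_lit 6) (nat_lit 4) (nat_lit 4) (nat_lit 4) (nat_lit 400) (nat_lit 195) (nat_lit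 185)))) (XT.nd (nat_lit 156) (nat_lit 76) (nat_lit 0) (XT.nd (nat_lit 78) (nat_lit 0) (nat_lit 0) (XT.lf (nat_lit 0) (nat_lit 33419011918) (nat_lit 152) (nat_lit 10461939353) (nat_lit 0) (nat_lit 31888907844) (nat_lit 4) (nat_lit 5) (nat_lit 6) (nat_lit 4) (nat_lit 4) (nat_lit 4) (nat_lit 401) (nat_lit 195) (nat_lit 184)) (XT.lf (nat_lit 0) (nat_lit 37051568400) (nat_lit 152) (nat_lit 5501445107) (nat_lit 0) (nat_lit 35405477315) (nat_lit 4) (nat_lit 5) (nat_lit 6) (nat_lit 4) (nat_lit 4) (nat_lit 4) (nat_lit 402) (nat_lit 195) (nat_lit 183))) (XT.nd (nat_lit 78) (nat_lit 76) (nat_lit 0) (XT.lf (nat_lit 0) (nat_lit 40745274538) (nat_lit 152) (nat_lit 482377372) (nat_lit 0) (nat_lit 38986574705) (nat_lit 4) (nat_lit 5) (nat_lit 6) (nat_lit 4) (nat_lit 4) (nat_lit 4) (nat_lit 403) (nat_lit 195) (nat_lit 182)) (XT.lf (nat_lit 0) (nat_lit 4691191486) (nat_lit 76) (nat_lit 39857260959) (nat_lit 76)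 (nat_lit 37989232244) (nat_lit 3) (nat_lit 4) (nat_lit 4) (nat_lit 5) (nat_lit 4) (nat_lit 4) (nat_lit 404) (nat_lit 195) (nat_lit 181))))))) (XT.nd (nat_lit 39780) (nat_lit 0) (nat_lit 0) (XT.nd (nat_lit 546) (nat_lit 0) (nat_lit 0) (XT.nd (nat_lit 234) (nat_lit 0) (nat_lit 0) (XT.nd (nat_lit 78) (nat_lit 0) (nat_lit 0) (XT.lf (nat_lit 0) (nat_lit 9943101675) (nat_lit 76) (nat_lit 38481579577) (nat_lit 76) (nat_lit 36507406316) (nat_lit 3) (nat_lit 4) (nat_lit 4) (nat_lit 5) (nat_lit 4) (nat_lit 4) (nat_lit 405) (nat_lit 195) (nat_lit 180)) (XT.nd (nat_lit 78) (nat_lit 0) (nat_lit 0) (XT.lf (nat_lit 0) (nat_lit 15268341985) (nat_lit 76) (nat_lit 37104276779) (nat_lit 76) (nat_lit 35027050562) (nat_lit 3) (nat_lit 4) (nat_lit 4) (nat_lit 5) (nat_lit 4) (nat_lit 4) (nat_lit 406) (nat_lit 195) (nat_lit 179)) (XT.lf (nat_lit 0) (nat_lit 20671565540) (nat_lit 76) (nat_lit 35724149096) (nat_lit 76)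 (nat_lit 33546871465) (nat_lit 3) (nat_lit 4) (nat_lit 4) (nat_lit 5) (nat_lit 4) (nat_lit 4) (nat_lit 407) (nat_lit 195) (nat_lit 178)))) (XT.nd (nat_lit 156) (nat_lit 0) (nat_lit 0) (XT.nd (nat_lit 78) (nat_lit 0) (nat_lit 0) (XT.lf (nat_lit 0) (nat_lit 26157493602) (nat_lit 76) (nat_lit 34339990593) (nat_lit 76) (nat_lit 32065575667) (nat_lit 3) (nat_lit 4) (nat_lit 4) (nat_lit 5) (nat_lit 4) (nat_lit 4) (nat_lit 408) (nat_lit 195) (nat_lit 177)) (XT.lf (nat_lit 0) (nat_lit 31730919701) (nat_lit 76) (nat_lit 32950591810) (nat_lit 76) (nat_lit 30581868830) (nat_lit 3) (nat_lit 4) (nat_lit 4) (nat_lit 5) (nat_lit 4) (nat_lit 4) (nat_lit 409) (nat_lit 195) (nat_lit 176))) (XT.nd (nat_lit 78) (nat_lit 0) (nat_lit 0) (XT.lf (nat_lit 0) (nat_lit 37396713821) (nat_lit 76) (nat_lit 31554738709) (nat_lit 76) (nat_lit 29094454512) (nat_lit 3) (nat_lit 4) (nat_lit 4) (nat_lit 5) (nat_lit 4) (nat_lit 4)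 (nat_lit 410) (nat_lit 195) (nat_lit 175)) (XT.lf (nat_lit 0) (nat_lit 43159826655) (nat_lit 76) (nat_lit 30151211613) (nat_lit 76) (nat_lit 27602033030) (nat_lit 3) (nat_lit 4) (nat_lit 4) (nat_lit 5) (nat_lit 4) (nat_lit 4) (nat_lit 411) (nat_lit 195) (nat_lit 174))))) (XT.nd (nat_lit 38922) (nat_lit 0) (nat_lit 76) (XT.nd (nat_lit 38766) (nat_lit 0) (nat_lit 228) (XT.lf (nat_lit 0) (nat_lit 49025293935) (nat_lit 76) (nat_lit 28738784139) (nat_lit 76) (nat_lit 26103300327) (nat_lit 3) (nat_lit 4) (nat_lit 4) (nat_lit 5) (nat_lit 4) (nat_lit 4) (nat_lit 412) (nat_lit 195) (nat_lit 173)) (XT.nd (nat_lit 78) (nat_lit 0) (nat_lit 0) (XT.lf (nat_lit 0) (nat_lit 16977250494) (nat_lit 76) (nat_lit 4665156982) (nat_lit 76) (nat_lit 4665156982) (nat_lit 6) (nat_lit 4) (nat_lit 7) (nat_lit 5) (nat_lit 7) (nat_lit 4) (nat_lit 388) (nat_lit 196) (nat_lit 196)) (XT.lf (nat_lit 0) (nat_lit 41358192563) (nat_lit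 76) (nat_lit 6451442472) (nat_lit 76) (nat_lit 6281111637) (nat_lit 6) (nat_lit 4) (nat_lit 7) (nat_lit 5) (nat_lit 7) (nat_lit 4) (nat_lit 389) (nat_lit 196) (nat_lit 195)))) (XT.nd (nat_lit 156) (nat_lit 152) (nat_lit 0) (XT.nd (nat_lit 78) (nat_lit 0) (nat_lit 0) (XT.lf (nat_lit 0) (nat_lit 48860620959) (nat_lit 76) (nat_lit 3543849804) (nat_lit 76) (nat_lit 3208149226) (nat_lit 6) (nat_lit 4) (nat_lit 7) (nat_lit 5) (nat_lit 7) (nat_lit 4) (nat_lit 390) (nat_lit 196) (nat_lit 194)) (XT.lf (nat_lit 0) (nat_lit 56468341695) (nat_lit 76) (nat_lit 604995346) (nat_lit 76) (nat_lit 108741619) (nat_lit 6) (nat_lit 4) (nat_lit 7) (nat_lit 5) (nat_lit 7) (nat_lit 4) (nat_lit 391) (nat_lit 196) (nat_lit 193))) (XT.nd (nat_lit 78) (nat_lit 0) (nat_lit 0) (XT.lf (nat_lit 0) (nat_lit 3036993188) (nat_lit 152) (nat_lit 53356490266) (nat_lit 0) (nat_lit 2403856712) (nat_lit 4) (nat_lit 5) (nat_lit 6) (nat_lit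 4) (nat_lit 4) (nat_lit 4) (nat_lit 392) (nat_lit 196) (nat_lit 192)) (XT.lf (nat_lit 0) (nat_lit 6225779762) (nat_lit 152) (nat_lit 48791020557) (nat_lit 0) (nat_lit 5445714410) (nat_lit 4) (nat_lit 5) (nat_lit 6) (nat_lit 4) (nat_lit 4) (nat_lit 4) (nat_lit 393) (nat_lit 196) (nat_lit 191)))))) (XT.nd (nat_lit 546) (nat_lit 76) (nat_lit 0) (XT.nd (nat_lit 234) (nat_lit 0) (nat_lit 0) (XT.nd (nat_lit 78) (nat_lit 0) (nat_lit 0) (XT.lf (nat_lit 0) (nat_lit 9449644071) (nat_lit 152) (nat_lit 44202901785) (nat_lit 0) (nat_lit 8526929326) (nat_lit 4) (nat_lit 5) (nat_lit 6) (nat_lit 4) (nat_lit 4) (nat_lit 4) (nat_lit 394) (nat_lit 196) (nat_lit 190)) (XT.nd (nat_lit 78) (nat_lit 0) (nat_lit 0) (XT.lf (nat_lit 0) (nat_lit 12711403086) (nat_lit 152) (nat_lit 39588124913) (nat_lit 0) (nat_lit 11650193784) (nat_lit 4) (nat_lit 5) (nat_lit 6) (nat_lit 4) (nat_lit 4) (nat_lit 4) (nat_lit 395) (nat_lit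 196) (nat_lit 189)) (XT.lf (nat_lit 0) (nat_lit 16013906886) (nat_lit 152) (nat_lit 34942657612) (nat_lit 0) (nat_lit 14818236850) (nat_lit 4) (nat_lit 5) (nat_lit 6) (nat_lit 4) (nat_lit 4) (nat_lit 4) (nat_lit 396) (nat_lit 196) (nat_lit 188)))) (XT.nd (nat_lit 156) (nat_lit 0) (nat_lit 0) (XT.nd (nat_lit 78) (nat_lit 0) (nat_lit 0) (XT.lf (nat_lit 0) (nat_lit 19360041154) (nat_lit 152) (nat_lit 30262440737) (nat_lit 0) (nat_lit 18033826716) (nat_lit 4) (nat_lit 5) (nat_lit 6) (nat_lit 4) (nat_lit 4) (nat_lit 4) (nat_lit 397) (nat_lit 196) (nat_lit 187)) (XT.lf (nat_lit 0) (nat_lit 22752729698) (nat_lit 152) (nat_lit 25543384777) (nat_lit 0) (nat_lit 21299773121) (nat_lit 4) (nat_lit 5) (nat_lit 6) (nat_lit 4) (nat_lit 4) (nat_lit 4) (nat_lit 398) (nat_lit 196) (nat_lit 186))) (XT.nd (nat_lit 78) (nat_lit 0) (nat_lit 0) (XT.lf (nat_lit 0) (nat_lit 26194937001) (nat_lit 152) (nat_lit 20781366285)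 (nat_lit 0) (nat_lit 24618929805) (nat_lit 4) (nat_lit 5) (nat_lit 6) (nat_lit 4) (nat_lit 4) (nat_lit 4) (nat_lit 399) (nat_lit 196) (nat_lit 185)) (XT.lf (nat_lit 0) (nat_lit 29689670820) (nat_lit 152) (nat_lit 15972224274) (nat_lit 0) (nat_lit 27994197002) (nat_lit 4) (nat_lit 5) (nat_lit 6) (nat_lit 4) (nat_lit 4) (nat_lit 4) (nat_lit 400) (nat_lit 196) (nat_lit 184))))) (XT.nd (nat_lit 234) (nat_lit 76) (nat_lit 0) (XT.nd (nat_lit 78) (nat_lit 0) (nat_lit 0) (XT.lf (nat_lit 0) (nat_lit 33239984803) (nat_lit 152) (nat_lit 11111756582) (nat_lit 0) (nat_lit 31428523975) (nat_lit 4) (nat_lit 5) (nat_lit 6) (nat_lit 4) (nat_lit 4) (nat_lit 4) (nat_lit 401) (nat_lit 196) (nat_lit 183)) (XT.nd (nat_lit 78) (nat_lit 0) (nat_lit 0) (XT.lf (nat_lit 0) (nat_lit 36848981167) (nat_lit 152) (nat_lit 6195716198) (nat_lit 0) (nat_lit 34924911591) (nat_lit 4) (nat_lit 5) (nat_lit 6) (nat_lit 4) (nat_lit 4)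 (nat_lit 4) (nat_lit 402) (nat_lit 196) (nat_lit 182)) (XT.lf (nat_lit 0) (nat_lit 40519813405) (nat_lit 152) (nat_lit 1219807552) (nat_lit 0) (nat_lit 38486414947) (nat_lit 4) (nat_lit 5) (nat_lit 6) (nat_lit 4) (nat_lit 4) (nat_lit 4) (nat_lit 403) (nat_lit 196) (nat_lit 181)))) (XT.nd (nat_lit 156) (nat_lit 0) (nat_lit 0) (XT.nd (nat_lit 78) (nat_lit 0) (nat_lit 0) (XT.lf (nat_lit 0) (nat_lit 3896349039) (nat_lit 76) (nat_lit 40396794090) (nat_lit 76) (nat_lit 38257251087) (nat_lit 3) (nat_lit 4) (nat_lit 4) (nat_lit 5) (nat_lit 4) (nat_lit 4) (nat_lit 404) (nat_lit 196) (nat_lit 180)) (XT.lf (nat_lit 0) (nat_lit 9106768004) (nat_lit 76) (nat_lit 39040644248) (nat_lit 76) (nat_lit 36798048288) (nat_lit 3) (nat_lit 4) (nat_lit 4) (nat_lit 5) (nat_lit 4) (nat_lit 4) (nat_lit 405) (nat_lit 196) (nat_lit 179))) (XT.nd (nat_lit 78) (nat_lit 0) (nat_lit 0) (XT.lf (nat_lit 0) (nat_lit 14391725573)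 (nat_lit 76) (nat_lit 37682304110) (nat_lit 76) (nat_lit 35339656736) (nat_lit 3) (nat_lit 4) (nat_lit 4) (nat_lit 5) (nat_lit 4) (nat_lit 4) (nat_lit 406) (nat_lit 196) (nat_lit 178)) (XT.lf (nat_lit 0) (nat_lit 19755839670) (nat_lit 76) (nat_lit 36320586777) (nat_lit 76) (nat_lit 33880802108) (nat_lit 3) (nat_lit 4) (nat_lit 4) (nat_lit 5) (nat_lit 4) (nat_lit 4) (nat_lit 407) (nat_lit 196) (nat_lit 177))))))))
noncomputable def xc3 : XT := (XT.nd (nat_lit 40716) (nat_lit 0) (nat_lit 0) (XT.nd (nat_lit 39624) (nat_lit 0) (nat_lit 0) (XT.nd (nat_lit 39078) (nat_lit 0) (nat_lit 76) (XT.nd (nat_lit 234) (nat_lit 0) (nat_lit 0) (XT.nd (nat_lit 78) (nat_lit 0) (nat_lit 0) (XT.lf (nat_lit 0) (nat_lit 25203797385) (nat_lit 76) (nat_lit 34954302400) (nat_lit 76) (nat_lit 32420209676) (nat_lit 3) (nat_lit 4) (nat_lit 4) (nat_lit 5) (nat_lit 4) (nat_lit 4) (nat_lit 408) (nat_lit 196) (nat_lit 176)) (XT.nd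 (nat_lit 78) (nat_lit 0) (nat_lit 0) (XT.lf (nat_lit 0) (nat_lit 30740359069) (nat_lit 76) (nat_lit 33582257137) (nat_lit 76) (nat_lit 30956603196) (nat_lit 3) (nat_lit 4) (nat_lit 4) (nat_lit 5) (nat_lit 4) (nat_lit 4) (nat_lit 409) (nat_lit 196) (nat_lit 175)) (XT.lf (nat_lit 0) (nat_lit 36370362495) (nat_lit 76) (nat_lit 32203252114) (nat_lit 76) (nat_lit 29488703787) (nat_lit 3) (nat_lit 4) (nat_lit 4) (nat_lit 5) (nat_lit 4) (nat_lit 4) (nat_lit 410) (nat_lit 196) (nat_lit 174)))) (XT.nd (nat_lit 38688) (nat_lit 0) (nat_lit 228) (XT.nd (nat_lit 78) (nat_lit 0) (nat_lit 0) (XT.lf (nat_lit 0) (nat_lit 42098727083) (nat_lit 76) (nat_lit 30816082375) (nat_lit 76) (nat_lit 28015228819) (nat_lit 3) (nat_lit 4) (nat_lit 4) (nat_lit 5) (nat_lit 4) (nat_lit 4) (nat_lit 411) (nat_lit 196) (nat_lit 173)) (XT.lf (nat_lit 0) (nat_lit 47930458201) (nat_lit 76) (nat_lit 29419535830) (nat_lit 76) (nat_lit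 26534890790) (nat_lit 3) (nat_lit 4) (nat_lit 4) (nat_lit 5) (nat_lit 4) (nat_lit 4) (nat_lit 412) (nat_lit 196) (nat_lit 172))) (XT.nd (nat_lit 78) (nat_lit 0) (nat_lit 0) (XT.lf (nat_lit 0) (nat_lit 9741004245) (nat_lit 76) (nat_lit 7578623738) (nat_lit 76) (nat_lit 7578623738) (nat_lit 6) (nat_lit 4) (nat_lit 7) (nat_lit 5) (nat_lit 7) (nat_lit 4) (nat_lit 386) (nat_lit 197) (nat_lit 197)) (XT.lf (nat_lit 0) (nat_lit 26643076987) (nat_lit 76) (nat_lit 12358420562) (nat_lit 76) (nat_lit 12182979801) (nat_lit 6) (nat_lit 4) (nat_lit 7) (nat_lit 5) (nat_lit 7) (nat_lit 4) (nat_lit 387) (nat_lit 197) (nat_lit 196))))) (XT.nd (nat_lit 234) (nat_lit 152) (nat_lit 0) (XT.nd (nat_lit 78) (nat_lit 0) (nat_lit 0) (XT.lf (nat_lit 0) (nat_lit 33891902394) (nat_lit 76) (nat_lit 9535003158) (nat_lit 76) (nat_lit 9189231562) (nat_lit 6) (nat_lit 4) (nat_lit 7) (nat_lit 5) (nat_lit 7) (nat_lit 4) (nat_lit 388)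 (nat_lit 197) (nat_lit 195)) (XT.nd (nat_lit 78) (nat_lit 0) (nat_lit 0) (XT.lf (nat_lit 0) (nat_lit 41234818636) (nat_lit 76) (nat_lit 6684528202) (nat_lit 76) (nat_lit 6173386863) (nat_lit 6) (nat_lit 4) (nat_lit 7) (nat_lit 5) (nat_lit 7) (nat_lit 4) (nat_lit 389) (nat_lit 197) (nat_lit 194)) (XT.lf (nat_lit 0) (nat_lit 48678241854) (nat_lit 76) (nat_lit 3804504988) (nat_lit 76) (nat_lit 3132810500) (nat_lit 6) (nat_lit 4) (nat_lit 7) (nat_lit 5) (nat_lit 7) (nat_lit 4) (nat_lit 390) (nat_lit 197) (nat_lit 193)))) (XT.nd (nat_lit 156) (nat_lit 0) (nat_lit 0) (XT.nd (nat_lit 78) (nat_lit 152) (nat_lit 0) (XT.lf (nat_lit 0) (nat_lit 56228676009) (nat_lit 76) (nat_lit 892416989) (nat_lit 76) (nat_lit 64845657) (nat_lit 6) (nat_lit 4) (nat_lit 7) (nat_lit 5) (nat_lit 7) (nat_lit 4) (nat_lit 391) (nat_lit 197) (nat_lit 192)) (XT.lf (nat_lit 0) (nat_lit 3044117954) (nat_lit 152) (nat_lit 53664431856)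 (nat_lit 0) (nat_lit 2093721767) (nat_lit 4) (nat_lit 5) (nat_lit 6) (nat_lit 4) (nat_lit 4) (nat_lit 4) (nat_lit 392) (nat_lit 197) (nat_lit 191))) (XT.nd (nat_lit 78) (nat_lit 0) (nat_lit 0) (XT.lf (nat_lit 0) (nat_lit 6203059276) (nat_lit 152) (nat_lit 49155274969) (nat_lit 0) (nat_lit 5110013695) (nat_lit 4) (nat_lit 5) (nat_lit 6) (nat_lit 4) (nat_lit 4) (nat_lit 4) (nat_lit 393) (nat_lit 197) (nat_lit 190)) (XT.lf (nat_lit 0) (nat_lit 9397947613) (nat_lit 152) (nat_lit 44621828839) (nat_lit 0) (nat_lit 8166407476) (nat_lit 4) (nat_lit 5) (nat_lit 6) (nat_lit 4) (nat_lit 4) (nat_lit 4) (nat_lit 394) (nat_lit 197) (nat_lit 189)))))) (XT.nd (nat_lit 546) (nat_lit 76) (nat_lit 0) (XT.nd (nat_lit 234) (nat_lit 0) (nat_lit 0) (XT.nd (nat_lit 78) (nat_lit 0) (nat_lit 0) (XT.lf (nat_lit 0) (nat_lit 12631574615) (nat_lit 152) (nat_lit 40060132202) (nat_lit 0) (nat_lit 11265573743) (nat_lit 4) (nat_lit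 5) (nat_lit 6) (nat_lit 4) (nat_lit 4) (nat_lit 4) (nat_lit 395) (nat_lit 197) (nat_lit 188)) (XT.nd (nat_lit 78) (nat_lit 0) (nat_lit 0) (XT.lf (nat_lit 0) (nat_lit 15906765781) (nat_lit 152) (nat_lit 35466199110) (nat_lit 0) (nat_lit 14410220508) (nat_lit 4) (nat_lit 5) (nat_lit 6) (nat_lit 4) (nat_lit 4) (nat_lit 4) (nat_lit 396) (nat_lit 197) (nat_lit 187)) (XT.lf (nat_lit 0) (nat_lit 19226382930) (nat_lit 152) (nat_lit 30836015447) (nat_lit 0) (nat_lit 17603095518) (nat_lit 4) (nat_lit 5) (nat_lit 6) (nat_lit 4) (nat_lit 4) (nat_lit 4) (nat_lit 397) (nat_lit 197) (nat_lit 186)))) (XT.nd (nat_lit 156) (nat_lit 0) (nat_lit 0) (XT.nd (nat_lit 78) (nat_lit 0) (nat_lit 0) (XT.lf (nat_lit 0) (nat_lit 22593326697) (nat_lit 152) (nat_lit 26165535422) (nat_lit 0) (nat_lit 20846988666) (nat_lit 4) (nat_lit 5) (nat_lit 6) (nat_lit 4) (nat_lit 4) (nat_lit 4) (nat_lit 398) (nat_lit 197) (nat_lit 185))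 (XT.lf (nat_lit 0) (nat_lit 26010539073) (nat_lit 152) (nat_lit 21450678032) (nat_lit 0) (nat_lit 24144734420) (nat_lit 4) (nat_lit 5) (nat_lit 6) (nat_lit 4) (nat_lit 4) (nat_lit 4) (nat_lit 399) (nat_lit 197) (nat_lit 184))) (XT.nd (nat_lit 78) (nat_lit 0) (nat_lit 0) (XT.lf (nat_lit 0) (nat_lit 29481005970) (nat_lit 152) (nat_lit 16687323498) (nat_lit 0) (nat_lit 27499214307) (nat_lit 4) (nat_lit 5) (nat_lit 6) (nat_lit 4) (nat_lit 4) (nat_lit 4) (nat_lit 400) (nat_lit 197) (nat_lit 183)) (XT.lf (nat_lit 0) (nat_lit 33007759836) (nat_lit 152) (nat_lit 11871309668) (nat_lit 0) (nat_lit 30913359424) (nat_lit 4) (nat_lit 5) (nat_lit 6) (nat_lit 4) (nat_lit 4) (nat_lit 4) (nat_lit 401) (nat_lit 197) (nat_lit 182))))) (XT.nd (nat_lit 234) (nat_lit 0) (nat_lit 0) (XT.nd (nat_lit 78) (nat_lit 76) (nat_lit 0) (XT.lf (nat_lit 0) (nat_lit 36593882300) (nat_lit 152) (nat_lit 6998428372) (nat_lit 0) (nat_lit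 34390153007) (nat_lit 4) (nat_lit 5) (nat_lit 6) (nat_lit 4) (nat_lit 4) (nat_lit 4) (nat_lit 402) (nat_lit 197) (nat_lit 181)) (XT.nd (nat_lit 78) (nat_lit 76) (nat_lit 0) (XT.lf (nat_lit 0) (nat_lit 40242506867) (nat_lit 152) (nat_lit 2064421754) (nat_lit 0) (nat_lit 37932633029) (nat_lit 4) (nat_lit 5) (nat_lit 6) (nat_lit 4) (nat_lit 4) (nat_lit 4) (nat_lit 403) (nat_lit 197) (nat_lit 180)) (XT.lf (nat_lit 0) (nat_lit 2993434135) (nat_lit 76) (nat_lit 40992162242) (nat_lit 76) (nat_lit 38579235446) (nat_lit 3) (nat_lit 4) (nat_lit 4) (nat_lit 5) (nat_lit 4) (nat_lit 4) (nat_lit 404) (nat_lit 197) (nat_lit 179)))) (XT.nd (nat_lit 156) (nat_lit 0) (nat_lit 0) (XT.nd (nat_lit 78) (nat_lit 0) (nat_lit 0) (XT.lf (nat_lit 0) (nat_lit 8163570358) (nat_lit 76) (nat_lit 39654975059) (nat_lit 76) (nat_lit 37141996849) (nat_lit 3) (nat_lit 4) (nat_lit 4) (nat_lit 5) (nat_lit 4) (nat_lit 4) (nat_lit 405)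 (nat_lit 197) (nat_lit 178)) (XT.lf (nat_lit 0) (nat_lit 13409418470) (nat_lit 76) (nat_lit 38315045271) (nat_lit 76) (nat_lit 35704929765) (nat_lit 3) (nat_lit 4) (nat_lit 4) (nat_lit 5) (nat_lit 4) (nat_lit 4) (nat_lit 406) (nat_lit 197) (nat_lit 177))) (XT.nd (nat_lit 78) (nat_lit 0) (nat_lit 0) (XT.lf (nat_lit 0) (nat_lit 18735562219) (nat_lit 76) (nat_lit 36971202064) (nat_lit 76) (nat_lit 34266778505) (nat_lit 3) (nat_lit 4) (nat_lit 4) (nat_lit 5) (nat_lit 4) (nat_lit 4) (nat_lit 407) (nat_lit 197) (nat_lit 176)) (XT.lf (nat_lit 0) (nat_lit 24146655519) (nat_lit 76) (nat_lit 35622271206) (nat_lit 76) (nat_lit 32826286430) (nat_lit 3) (nat_lit 4) (nat_lit 4) (nat_lit 5) (nat_lit 4) (nat_lit 4) (nat_lit 408) (nat_lit 197) (nat_lit 175))))))) (XT.nd (nat_lit 39468) (nat_lit 0) (nat_lit 0) (XT.nd (nat_lit 38922) (nat_lit 0) (nat_lit 76) (XT.nd (nat_lit 234) (nat_lit 0) (nat_lit 0) (XT.nd (nat_lit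 78) (nat_lit 0) (nat_lit 0) (XT.lf (nat_lit 0) (nat_lit 29647426510) (nat_lit 76) (nat_lit 34267074021) (nat_lit 76) (nat_lit 31382194859) (nat_lit 3) (nat_lit 4) (nat_lit 4) (nat_lit 5) (nat_lit 4) (nat_lit 4) (nat_lit 409) (nat_lit 197) (nat_lit 174)) (XT.nd (nat_lit 78) (nat_lit 0) (nat_lit 0) (XT.lf (nat_lit 0) (nat_lit 35242681689) (nat_lit 76) (nat_lit 32904426355) (nat_lit 76) (nat_lit 29933241964) (nat_lit 3) (nat_lit 4) (nat_lit 4) (nat_lit 5) (nat_lit 4) (nat_lit 4) (nat_lit 410) (nat_lit 197) (nat_lit 173)) (XT.lf (nat_lit 0) (nat_lit 40937310115) (nat_lit 76) (nat_lit 31533137545) (nat_lit 76) (nat_lit 28478161670) (nat_lit 3) (nat_lit 4) (nat_lit 4) (nat_lit 5) (nat_lit 4) (nat_lit 4) (nat_lit 411) (nat_lit 197) (nat_lit 172)))) (XT.nd (nat_lit 38532) (nat_lit 0) (nat_lit 228) (XT.nd (nat_lit 38454) (nat_lit 0) (nat_lit 228) (XT.lf (nat_lit 0) (nat_lit 46736287678) (nat_lit 76) (nat_lit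 30152009378) (nat_lit 76) (nat_lit 27015682547) (nat_lit 3) (nat_lit 4) (nat_lit 4) (nat_lit 5) (nat_lit 4) (nat_lit 4) (nat_lit 412) (nat_lit 197) (nat_lit 171)) (XT.lf (nat_lit 0) (nat_lit 2732297654) (nat_lit 76) (nat_lit 10420283559) (nat_lit 76) (nat_lit 10420283559) (nat_lit 6) (nat_lit 4) (nat_lit 7) (nat_lit 5) (nat_lit 7) (nat_lit 4) (nat_lit 384) (nat_lit 198) (nat_lit 198))) (XT.nd (nat_lit 78) (nat_lit 0) (nat_lit 0) (XT.lf (nat_lit 0) (nat_lit 12402439658) (nat_lit 76) (nat_lit 18114633462) (nat_lit 76) (nat_lit 17933929479) (nat_lit 6) (nat_lit 4) (nat_lit 7) (nat_lit 5) (nat_lit 7) (nat_lit 4) (nat_lit 385) (nat_lit 198) (nat_lit 197)) (XT.lf (nat_lit 0) (nat_lit 19417531938) (nat_lit 76) (nat_lit 15368077345) (nat_lit 76) (nat_lit 15011932601) (nat_lit 6) (nat_lit 4) (nat_lit 7) (nat_lit 5) (nat_lit 7) (nat_lit 4) (nat_lit 386) (nat_lit 198) (nat_lit 196))))) (XT.nd (nat_lit 234)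 (nat_lit 152) (nat_lit 0) (XT.nd (nat_lit 78) (nat_lit 0) (nat_lit 0) (XT.lf (nat_lit 0) (nat_lit 26516001842) (nat_lit 76) (nat_lit 12598498864) (nat_lit 76) (nat_lit 12072023284) (nat_lit 6) (nat_lit 4) (nat_lit 7) (nat_lit 5) (nat_lit 7) (nat_lit 4) (nat_lit 387) (nat_lit 198) (nat_lit 195)) (XT.nd (nat_lit 78) (nat_lit 0) (nat_lit 0) (XT.lf (nat_lit 0) (nat_lit 33704051915) (nat_lit 76) (nat_lit 9803477997) (nat_lit 76) (nat_lit 9111632674) (nat_lit 6) (nat_lit 4) (nat_lit 7) (nat_lit 5) (nat_lit 7) (nat_lit 4) (nat_lit 388) (nat_lit 198) (nat_lit 194)) (XT.lf (nat_lit 0) (nat_lit 40987962979) (nat_lit 76) (nat_lit 6980572494) (nat_lit 76) (nat_lit 6128174023) (nat_lit 6) (nat_lit 4) (nat_lit 7) (nat_lit 5) (nat_lit 7) (nat_lit 4) (nat_lit 389) (nat_lit 198) (nat_lit 193)))) (XT.nd (nat_lit 156) (nat_lit 152) (nat_lit 0) (XT.nd (nat_lit 78) (nat_lit 0) (nat_lit 0) (XT.lf (nat_lit 0) (nat_lit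 48374099616) (nat_lit 76) (nat_lit 4127315739) (nat_lit 76) (nat_lit 3119040424) (nat_lit 6) (nat_lit 4) (nat_lit 7) (nat_lit 5) (nat_lit 7) (nat_lit 4) (nat_lit 390) (nat_lit 198) (nat_lit 192)) (XT.lf (nat_lit 0) (nat_lit 55868915732) (nat_lit 76) (nat_lit 1241214594) (nat_lit 76) (nat_lit 81602538) (nat_lit 6) (nat_lit 4) (nat_lit 7) (nat_lit 5) (nat_lit 7) (nat_lit 4) (nat_lit 391) (nat_lit 198) (nat_lit 191))) (XT.nd (nat_lit 78) (nat_lit 0) (nat_lit 0) (XT.lf (nat_lit 0) (nat_lit 2990870602) (nat_lit 152) (nat_lit 54095926722) (nat_lit 0) (nat_lit 1722384261) (nat_lit 4) (nat_lit 5) (nat_lit 6) (nat_lit 4) (nat_lit 4) (nat_lit 4) (nat_lit 392) (nat_lit 198) (nat_lit 190)) (XT.lf (nat_lit 0) (nat_lit 6120835951) (nat_lit 152) (nat_lit 49641442477) (nat_lit 0) (nat_lit 4713855053) (nat_lit 4) (nat_lit 5) (nat_lit 6) (nat_lit 4) (nat_lit 4) (nat_lit 4) (nat_lit 393) (nat_lit 198) (nat_lit 189))))))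 (XT.nd (nat_lit 546) (nat_lit 76) (nat_lit 0) (XT.nd (nat_lit 234) (nat_lit 0) (nat_lit 0) (XT.nd (nat_lit 78) (nat_lit 0) (nat_lit 0) (XT.lf (nat_lit 0) (nat_lit 9287592275) (nat_lit 152) (nat_lit 45161076582) (nat_lit 0) (nat_lit 7746150643) (nat_lit 4) (nat_lit 5) (nat_lit 6) (nat_lit 4) (nat_lit 4) (nat_lit 4) (nat_lit 394) (nat_lit 198) (nat_lit 188)) (XT.nd (nat_lit 78) (nat_lit 0) (nat_lit 0) (XT.lf (nat_lit 0) (nat_lit 12493906644) (nat_lit 152) (nat_lit 40650914154) (nat_lit 0) (nat_lit 10821920610) (nat_lit 4) (nat_lit 5) (nat_lit 6) (nat_lit 4) (nat_lit 4) (nat_lit 4) (nat_lit 395) (nat_lit 198) (nat_lit 187)) (XT.lf (nat_lit 0) (nat_lit 15742580691) (nat_lit 152) (nat_lit 36107014275) (nat_lit 0) (nat_lit 13943852519) (nat_lit 4) (nat_lit 5) (nat_lit 6) (nat_lit 4) (nat_lit 4) (nat_lit 4) (nat_lit 396) (nat_lit 198) (nat_lit 186)))) (XT.nd (nat_lit 156) (nat_lit 0) (nat_lit 0) (XT.nd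 (nat_lit 78) (nat_lit 0) (nat_lit 0) (XT.lf (nat_lit 0) (nat_lit 19036453063) (nat_lit 152) (nat_lit 31525406547) (nat_lit 0) (nat_lit 17114674271) (nat_lit 4) (nat_lit 5) (nat_lit 6) (nat_lit 4) (nat_lit 4) (nat_lit 4) (nat_lit 397) (nat_lit 198) (nat_lit 185)) (XT.lf (nat_lit 0) (nat_lit 22378401902) (nat_lit 152) (nat_lit 26902087623) (nat_lit 0) (nat_lit 20337156489) (nat_lit 4) (nat_lit 5) (nat_lit 6) (nat_lit 4) (nat_lit 4) (nat_lit 4) (nat_lit 398) (nat_lit 198) (nat_lit 184))) (XT.nd (nat_lit 78) (nat_lit 0) (nat_lit 0) (XT.lf (nat_lit 0) (nat_lit 25771347357) (nat_lit 152) (nat_lit 22233017710) (nat_lit 0) (nat_lit 23614114933) (nat_lit 4) (nat_lit 5) (nat_lit 6) (nat_lit 4) (nat_lit 4) (nat_lit 4) (nat_lit 399) (nat_lit 198) (nat_lit 183)) (XT.lf (nat_lit 0) (nat_lit 29218254137) (nat_lit 152) (nat_lit 17514117038) (nat_lit 0) (nat_lit 26948412964) (nat_lit 4) (nat_lit 5) (nat_lit 6)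 (nat_lit 4) (nat_lit 4) (nat_lit 4) (nat_lit 400) (nat_lit 198) (nat_lit 182))))) (XT.nd (nat_lit 234) (nat_lit 76) (nat_lit 0) (XT.nd (nat_lit 78) (nat_lit 0) (nat_lit 0) (XT.lf (nat_lit 0) (nat_lit 32722134102) (nat_lit 152) (nat_lit 12741262296) (nat_lit 0) (nat_lit 30342964048) (nat_lit 4) (nat_lit 5) (nat_lit 6) (nat_lit 4) (nat_lit 4) (nat_lit 4) (nat_lit 401) (nat_lit 198) (nat_lit 181)) (XT.nd (nat_lit 78) (nat_lit 0) (nat_lit 0) (XT.lf (nat_lit 0) (nat_lit 36286048896) (nat_lit 152) (nat_lit 7910283028) (nat_lit 0) (nat_lit 33800734297) (nat_lit 4) (nat_lit 5) (nat_lit 6) (nat_lit 4) (nat_lit 4) (nat_lit 4) (nat_lit 402) (nat_lit 198) (nat_lit 180)) (XT.lf (nat_lit 0) (nat_lit 39913112619) (nat_lit 152) (nat_lit 3016957990) (nat_lit 0) (nat_lit 37324745062) (nat_lit 4) (nat_lit 5) (nat_lit 6) (nat_lit 4) (nat_lit 4) (nat_lit 4) (nat_lit 403) (nat_lit 198) (nat_lit 179)))) (XT.nd (nat_lit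 156) (nat_lit 0) (nat_lit 0) (XT.nd (nat_lit 78) (nat_lit 0) (nat_lit 0) (XT.lf (nat_lit 0) (nat_lit 1981657818) (nat_lit 76) (nat_lit 41643885637) (nat_lit 76) (nat_lit 38955466667) (nat_lit 3) (nat_lit 4) (nat_lit 4) (nat_lit 5) (nat_lit 4) (nat_lit 4) (nat_lit 404) (nat_lit 198) (nat_lit 178)) (XT.lf (nat_lit 0) (nat_lit 7112684584) (nat_lit 76) (nat_lit 40325108804) (nat_lit 76) (nat_lit 37539552538) (nat_lit 3) (nat_lit 4) (nat_lit 4) (nat_lit 5) (nat_lit 4) (nat_lit 4) (nat_lit 405) (nat_lit 198) (nat_lit 177))) (XT.nd (nat_lit 78) (nat_lit 0) (nat_lit 0) (XT.lf (nat_lit 0) (nat_lit 12320562348) (nat_lit 76) (nat_lit 39003053141) (nat_lit 76) (nat_lit 36123188822) (nat_lit 3) (nat_lit 4) (nat_lit 4) (nat_lit 5) (nat_lit 4) (nat_lit 4) (nat_lit 406) (nat_lit 198) (nat_lit 176)) (XT.lf (nat_lit 0) (nat_lit 17609841683) (nat_lit 76) (nat_lit 37676563455) (nat_lit 76) (nat_lit 34705137918) (nat_lit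 3) (nat_lit 4) (nat_lit 4) (nat_lit 5) (nat_lit 4) (nat_lit 4) (nat_lit 407) (nat_lit 198) (nat_lit 175))))))))
noncomputable def xc4 : XT := (XT.nd (nat_lit 40326) (nat_lit 0) (nat_lit 0) (XT.nd (nat_lit 39234) (nat_lit 0) (nat_lit 76) (XT.nd (nat_lit 38688) (nat_lit 0) (nat_lit 228) (XT.nd (nat_lit 234) (nat_lit 0) (nat_lit 0) (XT.nd (nat_lit 78) (nat_lit 0) (nat_lit 0) (XT.lf (nat_lit 0) (nat_lit 22985144289) (nat_lit 76) (nat_lit 36344480675) (nat_lit 76) (nat_lit 33284160752) (nat_lit 3) (nat_lit 4) (nat_lit 4) (nat_lit 5) (nat_lit 4) (nat_lit 4) (nat_lit 408) (nat_lit 198) (nat_lit 174)) (XT.nd (nat_lit 78) (nat_lit 0) (nat_lit 0) (XT.lf (nat_lit 0) (nat_lit 28451167033) (nat_lit 76) (nat_lit 35005640847) (nat_lit 76) (nat_lit 31859015695) (nat_lit 3) (nat_lit 4) (nat_lit 4) (nat_lit 5) (nat_lit 4) (nat_lit 4) (nat_lit 409) (nat_lit 198) (nat_lit 173)) (XT.lf (nat_lit 0) (nat_lit 34012686050)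 (nat_lit 76) (nat_lit 33658874110) (nat_lit 76) (nat_lit 30428457474) (nat_lit 3) (nat_lit 4) (nat_lit 4) (nat_lit 5) (nat_lit 4) (nat_lit 4) (nat_lit 410) (nat_lit 198) (nat_lit 172)))) (XT.nd (nat_lit 78) (nat_lit 0) (nat_lit 0) (XT.lf (nat_lit 0) (nat_lit 39674560922) (nat_lit 76) (nat_lit 32303003678) (nat_lit 76) (nat_lit 28991236086) (nat_lit 3) (nat_lit 4) (nat_lit 4) (nat_lit 5) (nat_lit 4) (nat_lit 4) (nat_lit 411) (nat_lit 198) (nat_lit 171)) (XT.nd (nat_lit 38298) (nat_lit 0) (nat_lit 304) (XT.lf (nat_lit 0) (nat_lit 45441738916) (nat_lit 76) (nat_lit 30936844809) (nat_lit 76) (nat_lit 27546095707) (nat_lit 3) (nat_lit 4) (nat_lit 4) (nat_lit 5) (nat_lit 4) (nat_lit 4) (nat_lit 412) (nat_lit 198) (nat_lit 170)) (XT.lf (nat_lit 0) (nat_lit 9168655035) (nat_lit 152) (nat_lit 3988193625) (nat_lit 0) (nat_lit 9168655035) (nat_lit 7) (nat_lit 5) (nat_lit 9) (nat_lit 4) (nat_lit 7) (nat_lit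 4) (nat_lit 382) (nat_lit 199) (nat_lit 199))))) (XT.nd (nat_lit 234) (nat_lit 0) (nat_lit 0) (XT.nd (nat_lit 78) (nat_lit 76) (nat_lit 0) (XT.lf (nat_lit 0) (nat_lit 22345799486) (nat_lit 152) (nat_lit 1374703997) (nat_lit 0) (nat_lit 22159674384) (nat_lit 7) (nat_lit 5) (nat_lit 9) (nat_lit 4) (nat_lit 7) (nat_lit 4) (nat_lit 383) (nat_lit 199) (nat_lit 198)) (XT.nd (nat_lit 78) (nat_lit 0) (nat_lit 0) (XT.lf (nat_lit 0) (nat_lit 5398184461) (nat_lit 76) (nat_lit 21057721883) (nat_lit 76) (nat_lit 20690892797) (nat_lit 6) (nat_lit 4) (nat_lit 7) (nat_lit 5) (nat_lit 7) (nat_lit 4) (nat_lit 384) (nat_lit 199) (nat_lit 197)) (XT.lf (nat_lit 0) (nat_lit 12271552259) (nat_lit 76) (nat_lit 18361914114) (nat_lit 76) (nat_lit 17819644267) (nat_lit 6) (nat_lit 4) (nat_lit 7) (nat_lit 5) (nat_lit 7) (nat_lit 4) (nat_lit 385) (nat_lit 199) (nat_lit 196)))) (XT.nd (nat_lit 156) (nat_lit 0) (nat_lit 0) (XT.nd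 (nat_lit 78) (nat_lit 0) (nat_lit 0) (XT.lf (nat_lit 0) (nat_lit 19224045945) (nat_lit 76) (nat_lit 15644606429) (nat_lit 76) (nat_lit 14932005747) (nat_lit 6) (nat_lit 4) (nat_lit 7) (nat_lit 5) (nat_lit 7) (nat_lit 4) (nat_lit 386) (nat_lit 199) (nat_lit 195)) (XT.lf (nat_lit 0) (nat_lit 26261740515) (nat_lit 76) (nat_lit 12903424484) (nat_lit 76) (nat_lit 12025454059) (nat_lit 6) (nat_lit 4) (nat_lit 7) (nat_lit 5) (nat_lit 7) (nat_lit 4) (nat_lit 387) (nat_lit 199) (nat_lit 194))) (XT.nd (nat_lit 78) (nat_lit 0) (nat_lit 0) (XT.lf (nat_lit 0) (nat_lit 33390785411) (nat_lit 76) (nat_lit 10135973071) (nat_lit 76) (nat_lit 9097449497) (nat_lit 6) (nat_lit 4) (nat_lit 7) (nat_lit 5) (nat_lit 7) (nat_lit 4) (nat_lit 388) (nat_lit 199) (nat_lit 193)) (XT.lf (nat_lit 0) (nat_lit 40617409894) (nat_lit 76) (nat_lit 7339834028) (nat_lit 76) (nat_lit 6145433610) (nat_lit 6) (nat_lit 4) (nat_lit 7) (nat_lit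 5) (nat_lit 7) (nat_lit 4) (nat_lit 389) (nat_lit 199) (nat_lit 192)))))) (XT.nd (nat_lit 546) (nat_lit 0) (nat_lit 0) (XT.nd (nat_lit 234) (nat_lit 0) (nat_lit 0) (XT.nd (nat_lit 78) (nat_lit 152) (nat_lit 0) (XT.lf (nat_lit 0) (nat_lit 47947928491) (nat_lit 76) (nat_lit 4512564126) (nat_lit 76) (nat_lit 3166826967) (nat_lit 6) (nat_lit 4) (nat_lit 7) (nat_lit 5) (nat_lit 7) (nat_lit 4) (nat_lit 390) (nat_lit 199) (nat_lit 191)) (XT.nd (nat_lit 78) (nat_lit 152) (nat_lit 0) (XT.lf (nat_lit 0) (nat_lit 55388746510) (nat_lit 76) (nat_lit 1651692936) (nat_lit 76) (nat_lit 159026902) (nat_lit 6) (nat_lit 4) (nat_lit 7) (nat_lit 5) (nat_lit 7) (nat_lit 4) (nat_lit 391) (nat_lit 199) (nat_lit 190)) (XT.lf (nat_lit 0) (nat_lit 2877204604) (nat_lit 152) (nat_lit 54651351897) (nat_lit 0) (nat_lit 1289519723) (nat_lit 4) (nat_lit 5) (nat_lit 6) (nat_lit 4) (nat_lit 4) (nat_lit 4) (nat_lit 392) (nat_lit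 199) (nat_lit 189)))) (XT.nd (nat_lit 156) (nat_lit 0) (nat_lit 0) (XT.nd (nat_lit 78) (nat_lit 0) (nat_lit 0) (XT.lf (nat_lit 0) (nat_lit 5979037941) (nat_lit 152) (nat_lit 50249947887) (nat_lit 0) (nat_lit 4256892326) (nat_lit 4) (nat_lit 5) (nat_lit 6) (nat_lit 4) (nat_lit 4) (nat_lit 4) (nat_lit 393) (nat_lit 199) (nat_lit 188)) (XT.lf (nat_lit 0) (nat_lit 9118481632) (nat_lit 152) (nat_lit 45821116201) (nat_lit 0) (nat_lit 7265791615) (nat_lit 4) (nat_lit 5) (nat_lit 6) (nat_lit 4) (nat_lit 4) (nat_lit 4) (nat_lit 394) (nat_lit 199) (nat_lit 187))) (XT.nd (nat_lit 78) (nat_lit 0) (nat_lit 0) (XT.lf (nat_lit 0) (nat_lit 12298278881) (nat_lit 152) (nat_lit 41360986986) (nat_lit 0) (nat_lit 10318846725) (nat_lit 4) (nat_lit 5) (nat_lit 6) (nat_lit 4) (nat_lit 4) (nat_lit 4) (nat_lit 395) (nat_lit 199) (nat_lit 186)) (XT.lf (nat_lit 0) (nat_lit 15521208152) (nat_lit 152) (nat_lit 36865663042)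 (nat_lit 0) (nat_lit 13418725376) (nat_lit 4) (nat_lit 5) (nat_lit 6) (nat_lit 4) (nat_lit 4) (nat_lit 4) (nat_lit 396) (nat_lit 199) (nat_lit 185))))) (XT.nd (nat_lit 234) (nat_lit 0) (nat_lit 0) (XT.nd (nat_lit 78) (nat_lit 0) (nat_lit 0) (XT.lf (nat_lit 0) (nat_lit 18790085596) (nat_lit 152) (nat_lit 32331216415) (nat_lit 0) (nat_lit 16568136199) (nat_lit 4) (nat_lit 5) (nat_lit 6) (nat_lit 4) (nat_lit 4) (nat_lit 4) (nat_lit 397) (nat_lit 199) (nat_lit 184)) (XT.nd (nat_lit 78) (nat_lit 0) (nat_lit 0) (XT.lf (nat_lit 0) (nat_lit 22107767514) (nat_lit 152) (nat_lit 27753684968) (nat_lit 0) (nat_lit 19769831106) (nat_lit 4) (nat_lit 5) (nat_lit 6) (nat_lit 4) (nat_lit 4) (nat_lit 4) (nat_lit 398) (nat_lit 199) (nat_lit 183)) (XT.lf (nat_lit 0) (nat_lit 25477152851) (nat_lit 152) (nat_lit 23129068916) (nat_lit 0) (nat_lit 23026607695) (nat_lit 4) (nat_lit 5) (nat_lit 6) (nat_lit 4) (nat_lit 4)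 (nat_lit 4) (nat_lit 399) (nat_lit 199) (nat_lit 182)))) (XT.nd (nat_lit 156) (nat_lit 0) (nat_lit 0) (XT.nd (nat_lit 78) (nat_lit 0) (nat_lit 0) (XT.lf (nat_lit 0) (nat_lit 28901185730) (nat_lit 152) (nat_lit 18453327333) (nat_lit 0) (nat_lit 26341311693) (nat_lit 4) (nat_lit 5) (nat_lit 6) (nat_lit 4) (nat_lit 4) (nat_lit 4) (nat_lit 400) (nat_lit 199) (nat_lit 181)) (XT.lf (nat_lit 0) (nat_lit 32382858026) (nat_lit 152) (nat_lit 13722374619) (nat_lit 0) (nat_lit 29716839443) (nat_lit 4) (nat_lit 5) (nat_lit 6) (nat_lit 4) (nat_lit 4) (nat_lit 4) (nat_lit 401) (nat_lit 199) (nat_lit 180))) (XT.nd (nat_lit 78) (nat_lit 0) (nat_lit 0) (XT.lf (nat_lit 0) (nat_lit 35925211975) (nat_lit 152) (nat_lit 8932076932) (nat_lit 0) (nat_lit 33156140435) (nat_lit 4) (nat_lit 5) (nat_lit 6) (nat_lit 4) (nat_lit 4) (nat_lit 4) (nat_lit 402) (nat_lit 199) (nat_lit 179)) (XT.lf (nat_lit 0) (nat_lit 39531342838)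 (nat_lit 152) (nat_lit 4078248574) (nat_lit 0) (nat_lit 36662219884) (nat_lit 4) (nat_lit 5) (nat_lit 6) (nat_lit 4) (nat_lit 4) (nat_lit 4) (nat_lit 403) (nat_lit 199) (nat_lit 178))))))) (XT.nd (nat_lit 39156) (nat_lit 0) (nat_lit 76) (XT.nd (nat_lit 546) (nat_lit 0) (nat_lit 0) (XT.nd (nat_lit 234) (nat_lit 0) (nat_lit 0) (XT.nd (nat_lit 78) (nat_lit 0) (nat_lit 0) (XT.lf (nat_lit 0) (nat_lit 860136013) (nat_lit 76) (nat_lit 42352533744) (nat_lit 76) (nat_lit 39386273495) (nat_lit 3) (nat_lit 4) (nat_lit 4) (nat_lit 5) (nat_lit 4) (nat_lit 4) (nat_lit 404) (nat_lit 199) (nat_lit 177)) (XT.nd (nat_lit 78) (nat_lit 0) (nat_lit 0) (XT.lf (nat_lit 0) (nat_lit 5953192432) (nat_lit 76) (nat_lit 41051631037) (nat_lit 76) (nat_lit 37991062734) (nat_lit 3) (nat_lit 4) (nat_lit 4) (nat_lit 5) (nat_lit 4) (nat_lit 4) (nat_lit 405) (nat_lit 199) (nat_lit 176)) (XT.lf (nat_lit 0) (nat_lit 11124205781) (nat_lit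 76) (nat_lit 39746928894) (nat_lit 76) (nat_lit 36594799374) (nat_lit 3) (nat_lit 4) (nat_lit 4) (nat_lit 5) (nat_lit 4) (nat_lit 4) (nat_lit 406) (nat_lit 199) (nat_lit 175)))) (XT.nd (nat_lit 156) (nat_lit 0) (nat_lit 0) (XT.nd (nat_lit 78) (nat_lit 0) (nat_lit 0) (XT.lf (nat_lit 0) (nat_lit 16377694422) (nat_lit 76) (nat_lit 38437287285) (nat_lit 76) (nat_lit 35196263379) (nat_lit 3) (nat_lit 4) (nat_lit 4) (nat_lit 5) (nat_lit 4) (nat_lit 4) (nat_lit 407) (nat_lit 199) (nat_lit 174)) (XT.lf (nat_lit 0) (nat_lit 21718248782) (nat_lit 76) (nat_lit 37121561862) (nat_lit 76) (nat_lit 33794232727) (nat_lit 3) (nat_lit 4) (nat_lit 4) (nat_lit 5) (nat_lit 4) (nat_lit 4) (nat_lit 408) (nat_lit 199) (nat_lit 173))) (XT.nd (nat_lit 78) (nat_lit 0) (nat_lit 0) (XT.lf (nat_lit 0) (nat_lit 27150535363) (nat_lit 76) (nat_lit 35798602963) (nat_lit 76) (nat_lit 32387482344) (nat_lit 3) (nat_lit 4) (nat_lit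 4) (nat_lit 5) (nat_lit 4) (nat_lit 4) (nat_lit 409) (nat_lit 199) (nat_lit 172)) (XT.lf (nat_lit 0) (nat_lit 32679300826) (nat_lit 76) (nat_lit 34467254604) (nat_lit 76) (nat_lit 30974783029) (nat_lit 3) (nat_lit 4) (nat_lit 4) (nat_lit 5) (nat_lit 4) (nat_lit 4) (nat_lit 410) (nat_lit 199) (nat_lit 171))))) (XT.nd (nat_lit 38298) (nat_lit 0) (nat_lit 228) (XT.nd (nat_lit 78) (nat_lit 0) (nat_lit 0) (XT.lf (nat_lit 0) (nat_lit 38309376129) (nat_lit 76) (nat_lit 33126353471) (nat_lit 76) (nat_lit 29554900385) (nat_lit 3) (nat_lit 4) (nat_lit 4) (nat_lit 5) (nat_lit 4) (nat_lit 4) (nat_lit 411) (nat_lit 199) (nat_lit 170)) (XT.nd (nat_lit 38142) (nat_lit 0) (nat_lit 304) (XT.lf (nat_lit 0) (nat_lit 44045680756) (nat_lit 76) (nat_lit 31774727902) (nat_lit 76) (nat_lit 28126593739) (nat_lit 3) (nat_lit 4) (nat_lit 4) (nat_lit 5) (nat_lit 4) (nat_lit 4) (nat_lit 412) (nat_lit 199) (nat_lit 169)) (XT.lf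 (nat_lit 0) (nat_lit 5342054621) (nat_lit 152) (nat_lit 10468046552) (nat_lit 0) (nat_lit 5342054621) (nat_lit 7) (nat_lit 5) (nat_lit 9) (nat_lit 4) (nat_lit 7) (nat_lit 4) (nat_lit 380) (nat_lit 200) (nat_lit 200)))) (XT.nd (nat_lit 156) (nat_lit 76) (nat_lit 0) (XT.nd (nat_lit 78) (nat_lit 0) (nat_lit 0) (XT.lf (nat_lit 0) (nat_lit 14566753737) (nat_lit 152) (nat_lit 14517971781) (nat_lit 0) (nat_lit 14375044881) (nat_lit 7) (nat_lit 5) (nat_lit 9) (nat_lit 4) (nat_lit 7) (nat_lit 4) (nat_lit 381) (nat_lit 200) (nat_lit 199)) (XT.lf (nat_lit 0) (nat_lit 18493233838) (nat_lit 152) (nat_lit 8043455631) (nat_lit 0) (nat_lit 18115399879) (nat_lit 7) (nat_lit 5) (nat_lit 9) (nat_lit 4) (nat_lit 7) (nat_lit 4) (nat_lit 382) (nat_lit 200) (nat_lit 198))) (XT.nd (nat_lit 78) (nat_lit 76) (nat_lit 0) (XT.lf (nat_lit 0) (nat_lit 22466980451) (nat_lit 152) (nat_lit 1506887311) (nat_lit 0) (nat_lit 21908442508)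 (nat_lit 7) (nat_lit 5) (nat_lit 9) (nat_lit 4) (nat_lit 7) (nat_lit 4) (nat_lit 383) (nat_lit 200) (nat_lit 197)) (XT.lf (nat_lit 0) (nat_lit 5198893888) (nat_lit 76) (nat_lit 21342546840) (nat_lit 76) (nat_lit 20608568137) (nat_lit 6) (nat_lit 4) (nat_lit 7) (nat_lit 5) (nat_lit 7) (nat_lit 4) (nat_lit 384) (nat_lit 200) (nat_lit 196)))))) (XT.nd (nat_lit 546) (nat_lit 152) (nat_lit 0) (XT.nd (nat_lit 234) (nat_lit 0) (nat_lit 0) (XT.nd (nat_lit 78) (nat_lit 0) (nat_lit 0) (XT.lf (nat_lit 0) (nat_lit 12009663092) (nat_lit 76) (nat_lit 18675987503) (nat_lit 76) (nat_lit 17771677965) (nat_lit 6) (nat_lit 4) (nat_lit 7) (nat_lit 5) (nat_lit 7) (nat_lit 4) (nat_lit 385) (nat_lit 200) (nat_lit 195)) (XT.nd (nat_lit 78) (nat_lit 0) (nat_lit 0) (XT.lf (nat_lit 0) (nat_lit 18901381445) (nat_lit 76) (nat_lit 15987076356) (nat_lit 76) (nat_lit 14917397074) (nat_lit 6) (nat_lit 4) (nat_lit 7) (nat_lit 5)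 (nat_lit 7) (nat_lit 4) (nat_lit 386) (nat_lit 200) (nat_lit 194)) (XT.lf (nat_lit 0) (nat_lit 25880070837) (nat_lit 76) (nat_lit 13273463864) (nat_lit 76) (nat_lit 12043231433) (nat_lit 6) (nat_lit 4) (nat_lit 7) (nat_lit 5) (nat_lit 7) (nat_lit 4) (nat_lit 387) (nat_lit 200) (nat_lit 193)))) (XT.nd (nat_lit 156) (nat_lit 0) (nat_lit 0) (XT.nd (nat_lit 78) (nat_lit 0) (nat_lit 0) (XT.lf (nat_lit 0) (nat_lit 32951829152) (nat_lit 76) (nat_lit 10532778910) (nat_lit 76) (nat_lit 9146669636) (nat_lit 6) (nat_lit 4) (nat_lit 7) (nat_lit 5) (nat_lit 7) (nat_lit 4) (nat_lit 388) (nat_lit 200) (nat_lit 192)) (XT.lf (nat_lit 0) (nat_lit 40122835595) (nat_lit 76) (nat_lit 7762626720) (nat_lit 76) (nat_lit 6225180705) (nat_lit 6) (nat_lit 4) (nat_lit 7) (nat_lit 5) (nat_lit 7) (nat_lit 4) (nat_lit 389) (nat_lit 200) (nat_lit 191))) (XT.nd (nat_lit 78) (nat_lit 0) (nat_lit 0) (XT.lf (nat_lit 0) (nat_lit 47399356096)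 (nat_lit 76) (nat_lit 4960586774) (nat_lit 76) (nat_lit 3276211884) (nat_lit 6) (nat_lit 4) (nat_lit 7) (nat_lit 5) (nat_lit 7) (nat_lit 4) (nat_lit 390) (nat_lit 200) (nat_lit 190)) (XT.lf (nat_lit 0) (nat_lit 54787748778) (nat_lit 76) (nat_lit 2124210686) (nat_lit 76) (nat_lit 297186403) (nat_lit 6) (nat_lit 4) (nat_lit 7) (nat_lit 5) (nat_lit 7) (nat_lit 4) (nat_lit 391) (nat_lit 200) (nat_lit 189))))) (XT.nd (nat_lit 234) (nat_lit 0) (nat_lit 0) (XT.nd (nat_lit 78) (nat_lit 0) (nat_lit 0) (XT.lf (nat_lit 0) (nat_lit 2703020642) (nat_lit 152) (nat_lit 55331192705) (nat_lit 0) (nat_lit 794749924) (nat_lit 4) (nat_lit 5) (nat_lit 6) (nat_lit 4) (nat_lit 4) (nat_lit 4) (nat_lit 392) (nat_lit 200) (nat_lit 188)) (XT.nd (nat_lit 78) (nat_lit 0) (nat_lit 0) (XT.lf (nat_lit 0) (nat_lit 5777541345) (nat_lit 152) (nat_lit 50981322904) (nat_lit 0) (nat_lit 3738726225) (nat_lit 4) (nat_lit 5) (nat_lit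 6) (nat_lit 4) (nat_lit 4) (nat_lit 4) (nat_lit 393) (nat_lit 200) (nat_lit 187)) (XT.lf (nat_lit 0) (nat_lit 8890467917) (nat_lit 152) (nat_lit 46602524431) (nat_lit 0) (nat_lit 6724910658) (nat_lit 4) (nat_lit 5) (nat_lit 6) (nat_lit 4) (nat_lit 4) (nat_lit 4) (nat_lit 394) (nat_lit 200) (nat_lit 186)))) (XT.nd (nat_lit 156) (nat_lit 0) (nat_lit 0) (XT.nd (nat_lit 78) (nat_lit 0) (nat_lit 0) (XT.lf (nat_lit 0) (nat_lit 12044520390) (nat_lit 152) (nat_lit 42190971150) (nat_lit 0) (nat_lit 9755912511) (nat_lit 4) (nat_lit 5) (nat_lit 6) (nat_lit 4) (nat_lit 4) (nat_lit 4) (nat_lit 395) (nat_lit 200) (nat_lit 185)) (XT.lf (nat_lit 0) (nat_lit 15242454732) (nat_lit 152) (nat_lit 37742808307) (nat_lit 0) (nat_lit 12834380233) (nat_lit 4) (nat_lit 5) (nat_lit 6) (nat_lit 4) (nat_lit 4) (nat_lit 4) (nat_lit 396) (nat_lit 200) (nat_lit 184))) (XT.nd (nat_lit 78) (nat_lit 0) (nat_lit 0) (XT.lf (nat_lit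 0) (nat_lit 18487065255) (nat_lit 152) (nat_lit 33254149158) (nat_lit 0) (nat_lit 15963003745) (nat_lit 4) (nat_lit 5) (nat_lit 6) (nat_lit 4) (nat_lit 4) (nat_lit 4) (nat_lit 397) (nat_lit 200) (nat_lit 183)) (XT.lf (nat_lit 0) (nat_lit 21781187056) (nat_lit 152) (nat_lit 28721071572) (nat_lit 0) (nat_lit 19144516797) (nat_lit 4) (nat_lit 5) (nat_lit 6) (nat_lit 4) (nat_lit 4) (nat_lit 4) (nat_lit 398) (nat_lit 200) (nat_lit 182))))))))
noncomputable def xc5 : XT := (XT.nd (nat_lit 40092) (nat_lit 0) (nat_lit 0) (XT.nd (nat_lit 39000) (nat_lit 0) (nat_lit 228) (XT.nd (nat_lit 546) (nat_lit 0) (nat_lit 0) (XT.nd (nat_lit 234) (nat_lit 76) (nat_lit 0) (XT.nd (nat_lit 78) (nat_lit 0) (nat_lit 0) (XT.lf (nat_lit 0) (nat_lit 25127698492) (nat_lit 152) (nat_lit 24139614609) (nat_lit 0) (nat_lit 22381699352) (nat_lit 4) (nat_lit 5) (nat_lit 6) (nat_lit 4) (nat_lit 4) (nat_lit 4) (nat_lit 399) (nat_lit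 200) (nat_lit 181)) (XT.nd (nat_lit 78) (nat_lit 0) (nat_lit 0) (XT.lf (nat_lit 0) (nat_lit 28529523702) (nat_lit 152) (nat_lit 19505775054) (nat_lit 0) (nat_lit 25677380016) (nat_lit 4) (nat_lit 5) (nat_lit 6) (nat_lit 4) (nat_lit 4) (nat_lit 4) (nat_lit 400) (nat_lit 200) (nat_lit 180)) (XT.lf (nat_lit 0) (nat_lit 31989635152) (nat_lit 152) (nat_lit 14815503920) (nat_lit 0) (nat_lit 29034438510) (nat_lit 4) (nat_lit 5) (nat_lit 6) (nat_lit 4) (nat_lit 4) (nat_lit 4) (nat_lit 401) (nat_lit 200) (nat_lit 179)))) (XT.nd (nat_lit 156) (nat_lit 76) (nat_lit 0) (XT.nd (nat_lit 78) (nat_lit 0) (nat_lit 0) (XT.lf (nat_lit 0) (nat_lit 35511056242) (nat_lit 152) (nat_lit 10064702913) (nat_lit 0) (nat_lit 32455808185) (nat_lit 4) (nat_lit 5) (nat_lit 6) (nat_lit 4) (nat_lit 4) (nat_lit 4) (nat_lit 402) (nat_lit 200) (nat_lit 178)) (XT.lf (nat_lit 0) (nat_lit 39096863941) (nat_lit 152) (nat_lit 5249220847)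 (nat_lit 0) (nat_lit 35944478589) (nat_lit 4) (nat_lit 5) (nat_lit 6) (nat_lit 4) (nat_lit 4) (nat_lit 4) (nat_lit 403) (nat_lit 200) (nat_lit 177))) (XT.nd (nat_lit 78) (nat_lit 76) (nat_lit 0) (XT.lf (nat_lit 0) (nat_lit 42750191480) (nat_lit 152) (nat_lit 364850019) (nat_lit 0) (nat_lit 39503498074) (nat_lit 4) (nat_lit 5) (nat_lit 6) (nat_lit 4) (nat_lit 4) (nat_lit 4) (nat_lit 404) (nat_lit 200) (nat_lit 176)) (XT.lf (nat_lit 0) (nat_lit 4684080753) (nat_lit 76) (nat_lit 41835176582) (nat_lit 76) (nat_lit 38496921959) (nat_lit 3) (nat_lit 4) (nat_lit 4) (nat_lit 5) (nat_lit 4) (nat_lit 4) (nat_lit 405) (nat_lit 200) (nat_lit 175))))) (XT.nd (nat_lit 234) (nat_lit 0) (nat_lit 0) (XT.nd (nat_lit 78) (nat_lit 0) (nat_lit 0) (XT.lf (nat_lit 0) (nat_lit 9819303408) (nat_lit 76) (nat_lit 40547322517) (nat_lit 76) (nat_lit 37120173508) (nat_lit 3) (nat_lit 4) (nat_lit 4) (nat_lit 5) (nat_lit 4) (nat_lit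 4) (nat_lit 406) (nat_lit 200) (nat_lit 174)) (XT.nd (nat_lit 78) (nat_lit 0) (nat_lit 0) (XT.lf (nat_lit 0) (nat_lit 15038043803) (nat_lit 76) (nat_lit 39254038265) (nat_lit 76) (nat_lit 35740584027) (nat_lit 3) (nat_lit 4) (nat_lit 4) (nat_lit 5) (nat_lit 4) (nat_lit 4) (nat_lit 407) (nat_lit 200) (nat_lit 173)) (XT.lf (nat_lit 0) (nat_lit 20344862000) (nat_lit 76) (nat_lit 37954193771) (nat_lit 76) (nat_lit 34356948049) (nat_lit 3) (nat_lit 4) (nat_lit 4) (nat_lit 5) (nat_lit 4) (nat_lit 4) (nat_lit 408) (nat_lit 200) (nat_lit 172)))) (XT.nd (nat_lit 156) (nat_lit 0) (nat_lit 0) (XT.nd (nat_lit 78) (nat_lit 0) (nat_lit 0) (XT.lf (nat_lit 0) (nat_lit 25744395027) (nat_lit 76) (nat_lit 36646653250) (nat_lit 76) (nat_lit 32968056572) (nat_lit 3) (nat_lit 4) (nat_lit 4) (nat_lit 5) (nat_lit 4) (nat_lit 4) (nat_lit 409) (nat_lit 200) (nat_lit 171)) (XT.lf (nat_lit 0) (nat_lit 31241360921) (nat_lit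 76) (nat_lit 35330274190) (nat_lit 76) (nat_lit 31572696002) (nat_lit 3) (nat_lit 4) (nat_lit 4) (nat_lit 5) (nat_lit 4) (nat_lit 4) (nat_lit 410) (nat_lit 200) (nat_lit 170))) (XT.nd (nat_lit 78) (nat_lit 0) (nat_lit 0) (XT.lf (nat_lit 0) (nat_lit 36840562858) (nat_lit 76) (nat_lit 34003906357) (nat_lit 76) (nat_lit 30169647090) (nat_lit 3) (nat_lit 4) (nat_lit 4) (nat_lit 5) (nat_lit 4) (nat_lit 4) (nat_lit 411) (nat_lit 200) (nat_lit 169)) (XT.lf (nat_lit 0) (nat_lit 42546893342) (nat_lit 76) (nat_lit 32666390788) (nat_lit 76) (nat_lit 28757683873) (nat_lit 3) (nat_lit 4) (nat_lit 4) (nat_lit 5) (nat_lit 4) (nat_lit 4) (nat_lit 412) (nat_lit 200) (nat_lit 168)))))) (XT.nd (nat_lit 546) (nat_lit 0) (nat_lit 0) (XT.nd (nat_lit 234) (nat_lit 76) (nat_lit 0) (XT.nd (nat_lit 78) (nat_lit 0) (nat_lit 0) (XT.lf (nat_lit 0) (nat_lit 1636108261) (nat_lit 152) (nat_lit 16777193160) (nat_lit 0) (nat_lit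 1636108261) (nat_lit 7) (nat_lit 5) (nat_lit 9) (nat_lit 4) (nat_lit 7) (nat_lit 4) (nat_lit 378) (nat_lit 201) (nat_lit 201)) (XT.nd (nat_lit 78) (nat_lit 0) (nat_lit 0) (XT.lf (nat_lit 0) (nat_lit 7039367873) (nat_lit 152) (nat_lit 27303427670) (nat_lit 0) (nat_lit 6841907752) (nat_lit 7) (nat_lit 5) (nat_lit 9) (nat_lit 4) (nat_lit 7) (nat_lit 4) (nat_lit 379) (nat_lit 201) (nat_lit 200)) (XT.lf (nat_lit 0) (nat_lit 10844710723) (nat_lit 152) (nat_lit 21005173538) (nat_lit 0) (nat_lit 10455541746) (nat_lit 7) (nat_lit 5) (nat_lit 9) (nat_lit 4) (nat_lit 7) (nat_lit 4) (nat_lit 380) (nat_lit 201) (nat_lit 199)))) (XT.nd (nat_lit 156) (nat_lit 76) (nat_lit 0) (XT.nd (nat_lit 78) (nat_lit 0) (nat_lit 0) (XT.lf (nat_lit 0) (nat_lit 14691570130) (nat_lit 152) (nat_lit 14654120595) (nat_lit 0) (nat_lit 14116276050) (nat_lit 7) (nat_lit 5) (nat_lit 9) (nat_lit 4) (nat_lit 7) (nat_lit 4) (nat_lit 381)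 (nat_lit 201) (nat_lit 198)) (XT.lf (nat_lit 0) (nat_lit 18583307428) (nat_lit 152) (nat_lit 8244719378) (nat_lit 0) (nat_lit 17827309364) (nat_lit 7) (nat_lit 5) (nat_lit 9) (nat_lit 4) (nat_lit 7) (nat_lit 4) (nat_lit 382) (nat_lit 201) (nat_lit 197))) (XT.nd (nat_lit 78) (nat_lit 76) (nat_lit 0) (XT.lf (nat_lit 0) (nat_lit 22523323163) (nat_lit 152) (nat_lit 1771369439) (nat_lit 0) (nat_lit 21591884338) (nat_lit 7) (nat_lit 5) (nat_lit 9) (nat_lit 4) (nat_lit 7) (nat_lit 4) (nat_lit 383) (nat_lit 201) (nat_lit 196)) (XT.lf (nat_lit 0) (nat_lit 4866549453) (nat_lit 76) (nat_lit 21695290864) (nat_lit 76) (nat_lit 20593521204) (nat_lit 6) (nat_lit 4) (nat_lit 7) (nat_lit 5) (nat_lit 7) (nat_lit 4) (nat_lit 384) (nat_lit 201) (nat_lit 195))))) (XT.nd (nat_lit 234) (nat_lit 0) (nat_lit 0) (XT.nd (nat_lit 78) (nat_lit 0) (nat_lit 0) (XT.lf (nat_lit 0) (nat_lit 11616543324) (nat_lit 76) (nat_lit 19057128064)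 (nat_lit 76) (nat_lit 17789988660) (nat_lit 6) (nat_lit 4) (nat_lit 7) (nat_lit 5) (nat_lit 7) (nat_lit 4) (nat_lit 385) (nat_lit 201) (nat_lit 194)) (XT.nd (nat_lit 78) (nat_lit 0) (nat_lit 0) (XT.lf (nat_lit 0) (nat_lit 18449256499) (nat_lit 76) (nat_lit 16395786369) (nat_lit 76) (nat_lit 14968093817) (nat_lit 6) (nat_lit 4) (nat_lit 7) (nat_lit 5) (nat_lit 7) (nat_lit 4) (nat_lit 386) (nat_lit 201) (nat_lit 193)) (XT.lf (nat_lit 0) (nat_lit 25370659310) (nat_lit 76) (nat_lit 13708940337) (nat_lit 76) (nat_lit 12125370941) (nat_lit 6) (nat_lit 4) (nat_lit 7) (nat_lit 5) (nat_lit 7) (nat_lit 4) (nat_lit 387) (nat_lit 201) (nat_lit 192)))) (XT.nd (nat_lit 156) (nat_lit 0) (nat_lit 0) (XT.nd (nat_lit 78) (nat_lit 0) (nat_lit 0) (XT.lf (nat_lit 0) (nat_lit 32386799585) (nat_lit 76) (nat_lit 10994242237) (nat_lit 76) (nat_lit 9259336100) (nat_lit 6) (nat_lit 4) (nat_lit 7) (nat_lit 5) (nat_lit 7)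 (nat_lit 4) (nat_lit 388) (nat_lit 201) (nat_lit 191)) (XT.lf (nat_lit 0) (nat_lit 39503807931) (nat_lit 76) (nat_lit 8249320002) (nat_lit 76) (nat_lit 6367484990) (nat_lit 6) (nat_lit 4) (nat_lit 7) (nat_lit 5) (nat_lit 7) (nat_lit 4) (nat_lit 389) (nat_lit 201) (nat_lit 190))) (XT.nd (nat_lit 78) (nat_lit 0) (nat_lit 0) (XT.lf (nat_lit 0) (nat_lit 46727903095) (nat_lit 76) (nat_lit 5471775158) (nat_lit 76) (nat_lit 3447290753) (nat_lit 6) (nat_lit 4) (nat_lit 7) (nat_lit 5) (nat_lit 7) (nat_lit 4) (nat_lit 390) (nat_lit 201) (nat_lit 189)) (XT.lf (nat_lit 0) (nat_lit 54065397392) (nat_lit 76) (nat_lit 2659180723) (nat_lit 76) (nat_lit 496201761) (nat_lit 6) (nat_lit 4) (nat_lit 7) (nat_lit 5) (nat_lit 7) (nat_lit 4) (nat_lit 391) (nat_lit 201) (nat_lit 188))))))) (XT.nd (nat_lit 1092) (nat_lit 0) (nat_lit 0) (XT.nd (nat_lit 546) (nat_lit 76) (nat_lit 0) (XT.nd (nat_lit 234) (nat_lit 0) (nat_lit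 0) (XT.nd (nat_lit 78) (nat_lit 0) (nat_lit 0) (XT.lf (nat_lit 0) (nat_lit 2468166515) (nat_lit 152) (nat_lit 56136043182) (nat_lit 0) (nat_lit 237642539) (nat_lit 4) (nat_lit 5) (nat_lit 6) (nat_lit 4) (nat_lit 4) (nat_lit 4) (nat_lit 392) (nat_lit 201) (nat_lit 187)) (XT.nd (nat_lit 78) (nat_lit 0) (nat_lit 0) (XT.lf (nat_lit 0) (nat_lit 5516170099) (nat_lit 152) (nat_lit 51836206594) (nat_lit 0) (nat_lit 3158903984) (nat_lit 4) (nat_lit 5) (nat_lit 6) (nat_lit 4) (nat_lit 4) (nat_lit 4) (nat_lit 393) (nat_lit 201) (nat_lit 186)) (XT.lf (nat_lit 0) (nat_lit 8603351895) (nat_lit 152) (nat_lit 47505984055) (nat_lit 0) (nat_lit 6123035160) (nat_lit 4) (nat_lit 5) (nat_lit 6) (nat_lit 4) (nat_lit 4) (nat_lit 4) (nat_lit 394) (nat_lit 201) (nat_lit 185)))) (XT.nd (nat_lit 156) (nat_lit 0) (nat_lit 0) (XT.nd (nat_lit 78) (nat_lit 0) (nat_lit 0) (XT.lf (nat_lit 0) (nat_lit 11732409439) (nat_lit 152)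 (nat_lit 43141591875) (nat_lit 0) (nat_lit 9132626083) (nat_lit 4) (nat_lit 5) (nat_lit 6) (nat_lit 4) (nat_lit 4) (nat_lit 4) (nat_lit 395) (nat_lit 201) (nat_lit 184)) (XT.lf (nat_lit 0) (nat_lit 14906076860) (nat_lit 152) (nat_lit 38739216510) (nat_lit 0) (nat_lit 12190306494) (nat_lit 4) (nat_lit 5) (nat_lit 6) (nat_lit 4) (nat_lit 4) (nat_lit 4) (nat_lit 396) (nat_lit 201) (nat_lit 183))) (XT.nd (nat_lit 78) (nat_lit 0) (nat_lit 0) (XT.lf (nat_lit 0) (nat_lit 18127127266) (nat_lit 152) (nat_lit 34295011222) (nat_lit 0) (nat_lit 15298748151) (nat_lit 4) (nat_lit 5) (nat_lit 6) (nat_lit 4) (nat_lit 4) (nat_lit 4) (nat_lit 397) (nat_lit 201) (nat_lit 182)) (XT.lf (nat_lit 0) (nat_lit 21398375166) (nat_lit 152) (nat_lit 29805092725) (nat_lit 0) (nat_lit 18460667170) (nat_lit 4) (nat_lit 5) (nat_lit 6) (nat_lit 4) (nat_lit 4) (nat_lit 4) (nat_lit 398) (nat_lit 201) (nat_lit 181))))) (XT.nd (nat_lit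 234) (nat_lit 76) (nat_lit 0) (XT.nd (nat_lit 78) (nat_lit 0) (nat_lit 0) (XT.lf (nat_lit 0) (nat_lit 24722678932) (nat_lit 152) (nat_lit 25265537790) (nat_lit 0) (nat_lit 21678826391) (nat_lit 4) (nat_lit 5) (nat_lit 6) (nat_lit 4) (nat_lit 4) (nat_lit 4) (nat_lit 399) (nat_lit 201) (nat_lit 180)) (XT.nd (nat_lit 78) (nat_lit 0) (nat_lit 0) (XT.lf (nat_lit 0) (nat_lit 28102943297) (nat_lit 152) (nat_lit 20672379815) (nat_lit 0) (nat_lit 24956037798) (nat_lit 4) (nat_lit 5) (nat_lit 6) (nat_lit 4) (nat_lit 4) (nat_lit 4) (nat_lit 400) (nat_lit 201) (nat_lit 179)) (XT.lf (nat_lit 0) (nat_lit 31542121888) (nat_lit 152) (nat_lit 16021605361) (nat_lit 0) (nat_lit 28295164975) (nat_lit 4) (nat_lit 5) (nat_lit 6) (nat_lit 4) (nat_lit 4) (nat_lit 4) (nat_lit 401) (nat_lit 201) (nat_lit 178)))) (XT.nd (nat_lit 156) (nat_lit 76) (nat_lit 0) (XT.nd (nat_lit 78) (nat_lit 0) (nat_lit 0) (XT.lf (nat_lit 0)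 (nat_lit 35043219814) (nat_lit 152) (nat_lit 11309150645) (nat_lit 0) (nat_lit 31699125606) (nat_lit 4) (nat_lit 5) (nat_lit 6) (nat_lit 4) (nat_lit 4) (nat_lit 4) (nat_lit 402) (nat_lit 201) (nat_lit 177)) (XT.lf (nat_lit 0) (nat_lit 38609296286) (nat_lit 152) (nat_lit 6530897988) (nat_lit 0) (nat_lit 35170894024) (nat_lit 4) (nat_lit 5) (nat_lit 6) (nat_lit 4) (nat_lit 4) (nat_lit 4) (nat_lit 403) (nat_lit 201) (nat_lit 176))) (XT.nd (nat_lit 78) (nat_lit 76) (nat_lit 0) (XT.lf (nat_lit 0) (nat_lit 42243467293) (nat_lit 152) (nat_lit 1682672217) (nat_lit 0) (nat_lit 38713503814) (nat_lit 4) (nat_lit 5) (nat_lit 6) (nat_lit 4) (nat_lit 4) (nat_lit 4) (nat_lit 404) (nat_lit 201) (nat_lit 175)) (XT.lf (nat_lit 0) (nat_lit 3304240615) (nat_lit 76) (nat_lit 42676430091) (nat_lit 76) (nat_lit 39057572226) (nat_lit 3) (nat_lit 4) (nat_lit 4) (nat_lit 5) (nat_lit 4) (nat_lit 4) (nat_lit 405) (nat_lit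 201) (nat_lit 174)))))) (XT.nd (nat_lit 38298) (nat_lit 0) (nat_lit 304) (XT.nd (nat_lit 234) (nat_lit 0) (nat_lit 0) (XT.nd (nat_lit 78) (nat_lit 0) (nat_lit 0) (XT.lf (nat_lit 0) (nat_lit 8404715024) (nat_lit 76) (nat_lit 41404933384) (nat_lit 76) (nat_lit 37699770290) (nat_lit 3) (nat_lit 4) (nat_lit 4) (nat_lit 5) (nat_lit 4) (nat_lit 4) (nat_lit 406) (nat_lit 201) (nat_lit 173)) (XT.nd (nat_lit 78) (nat_lit 0) (nat_lit 0) (XT.lf (nat_lit 0) (nat_lit 13589719256) (nat_lit 76) (nat_lit 40127530061) (nat_lit 76) (nat_lit 36338575482) (nat_lit 3) (nat_lit 4) (nat_lit 4) (nat_lit 5) (nat_lit 4) (nat_lit 4) (nat_lit 407) (nat_lit 201) (nat_lit 172)) (XT.lf (nat_lit 0) (nat_lit 18863783899) (nat_lit 76) (nat_lit 38843103945) (nat_lit 76) (nat_lit 34972798411) (nat_lit 3) (nat_lit 4) (nat_lit 4) (nat_lit 5) (nat_lit 4) (nat_lit 4) (nat_lit 408) (nat_lit 201) (nat_lit 171)))) (XT.nd (nat_lit 156) (nat_lit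 0) (nat_lit 0) (XT.nd (nat_lit 78) (nat_lit 0) (nat_lit 0) (XT.lf (nat_lit 0) (nat_lit 24231517357) (nat_lit 76) (nat_lit 37550532723) (nat_lit 76) (nat_lit 33601245678) (nat_lit 3) (nat_lit 4) (nat_lit 4) (nat_lit 5) (nat_lit 4) (nat_lit 4) (nat_lit 409) (nat_lit 201) (nat_lit 170)) (XT.lf (nat_lit 0) (nat_lit 29697609885) (nat_lit 76) (nat_lit 36248686962) (nat_lit 76) (nat_lit 32222718840) (nat_lit 3) (nat_lit 4) (nat_lit 4) (nat_lit 5) (nat_lit 4) (nat_lit 4) (nat_lit 410) (nat_lit 201) (nat_lit 169))) (XT.nd (nat_lit 78) (nat_lit 0) (nat_lit 0) (XT.lf (nat_lit 0) (nat_lit 35266837678) (nat_lit 76) (nat_lit 34936429129) (nat_lit 76) (nat_lit 30836013358) (nat_lit 3) (nat_lit 4) (nat_lit 4) (nat_lit 5) (nat_lit 4) (nat_lit 4) (nat_lit 411) (nat_lit 201) (nat_lit 168)) (XT.lf (nat_lit 0) (nat_lit 40944067053) (nat_lit 76) (nat_lit 33612612589) (nat_lit 76) (nat_lit 29439917548) (nat_lit 3) (nat_lit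 4) (nat_lit 4) (nat_lit 5) (nat_lit 4) (nat_lit 4) (nat_lit 412) (nat_lit 201) (nat_lit 167))))) (XT.nd (nat_lit 234) (nat_lit 0) (nat_lit 0) (XT.nd (nat_lit 78) (nat_lit 152) (nat_lit 0) (XT.lf (nat_lit 0) (nat_lit 15131291375) (nat_lit 76) (nat_lit 1939873663) (nat_lit 76) (nat_lit 1939873663) (nat_lit 9) (nat_lit 4) (nat_lit 10) (nat_lit 5) (nat_lit 10) (nat_lit 4) (nat_lit 376) (nat_lit 202) (nat_lit 202)) (XT.nd (nat_lit 78) (nat_lit 152) (nat_lit 0) (XT.lf (nat_lit 0) (nat_lit 38336750191) (nat_lit 76) (nat_lit 459572603) (nat_lit 76) (nat_lit 250087160) (nat_lit 9) (nat_lit 4) (nat_lit 10) (nat_lit 5) (nat_lit 10) (nat_lit 4) (nat_lit 377) (nat_lit 202) (nat_lit 201)) (XT.lf (nat_lit 0) (nat_lit 3437636049) (nat_lit 152) (nat_lit 33625539166) (nat_lit 0) (nat_lit 3036792002) (nat_lit 7) (nat_lit 5) (nat_lit 9) (nat_lit 4) (nat_lit 7) (nat_lit 4) (nat_lit 378) (nat_lit 202) (nat_lit 200))))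 (XT.nd (nat_lit 156) (nat_lit 0) (nat_lit 0) (XT.nd (nat_lit 78) (nat_lit 0) (nat_lit 0) (XT.lf (nat_lit 0) (nat_lit 7167928758) (nat_lit 152) (nat_lit 27443660948) (nat_lit 0) (nat_lit 6575375855) (nat_lit 7) (nat_lit 5) (nat_lit 9) (nat_lit 4) (nat_lit 7) (nat_lit 4) (nat_lit 379) (nat_lit 202) (nat_lit 199)) (XT.lf (nat_lit 0) (nat_lit 10937486520) (nat_lit 152) (nat_lit 21212475197) (nat_lit 0) (nat_lit 10158808514) (nat_lit 7) (nat_lit 5) (nat_lit 9) (nat_lit 4) (nat_lit 7) (nat_lit 4) (nat_lit 380) (nat_lit 202) (nat_lit 198))) (XT.nd (nat_lit 78) (nat_lit 0) (nat_lit 0) (XT.lf (nat_lit 0) (nat_lit 14749603123) (nat_lit 152) (nat_lit 14926537187) (nat_lit 0) (nat_lit 13790221134) (nat_lit 7) (nat_lit 5) (nat_lit 9) (nat_lit 4) (nat_lit 7) (nat_lit 4) (nat_lit 381) (nat_lit 202) (nat_lit 197)) (XT.lf (nat_lit 0) (nat_lit 18607609543) (nat_lit 152) (nat_lit 8580354352) (nat_lit 0) (nat_lit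 17472786793) (nat_lit 7) (nat_lit 5) (nat_lit 9) (nat_lit 4) (nat_lit 7) (nat_lit 4) (nat_lit 382) (nat_lit 202) (nat_lit 196))))))))
noncomputable def xc6 : XT := (XT.nd (nat_lit 2106) (nat_lit 0) (nat_lit 0) (XT.nd (nat_lit 1014) (nat_lit 76) (nat_lit 0) (XT.nd (nat_lit 468) (nat_lit 152) (nat_lit 0) (XT.nd (nat_lit 234) (nat_lit 0) (nat_lit 0) (XT.nd (nat_lit 78) (nat_lit 76) (nat_lit 0) (XT.lf (nat_lit 0) (nat_lit 22514876853) (nat_lit 152) (nat_lit 2168381483) (nat_lit 0) (nat_lit 21209723268) (nat_lit 7) (nat_lit 5) (nat_lit 9) (nat_lit 4) (nat_lit 7) (nat_lit 4) (nat_lit 383) (nat_lit 202) (nat_lit 195)) (XT.nd (nat_lit 78) (nat_lit 0) (nat_lit 0) (XT.lf (nat_lit 0) (nat_lit 4400860758) (nat_lit 76) (nat_lit 22116262178) (nat_lit 76) (nat_lit 20645738849) (nat_lit 6) (nat_lit 4) (nat_lit 7) (nat_lit 5) (nat_lit 7) (nat_lit 4) (nat_lit 384) (nat_lit 202) (nat_lit 194)) (XT.lf (nat_lit 0)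 (nat_lit 11091849451) (nat_lit 76) (nat_lit 19505668831) (nat_lit 76) (nat_lit 17874592354) (nat_lit 6) (nat_lit 4) (nat_lit 7) (nat_lit 5) (nat_lit 7) (nat_lit 4) (nat_lit 385) (nat_lit 202) (nat_lit 193)))) (XT.nd (nat_lit 78) (nat_lit 0) (nat_lit 0) (XT.lf (nat_lit 0) (nat_lit 17867276045) (nat_lit 76) (nat_lit 16871093596) (nat_lit 76) (nat_lit 15084140275) (nat_lit 6) (nat_lit 4) (nat_lit 7) (nat_lit 5) (nat_lit 7) (nat_lit 4) (nat_lit 386) (nat_lit 202) (nat_lit 192)) (XT.nd (nat_lit 78) (nat_lit 0) (nat_lit 0) (XT.lf (nat_lit 0) (nat_lit 24733060816) (nat_lit 76) (nat_lit 14210234418) (nat_lit 76) (nat_lit 12271944355) (nat_lit 6) (nat_lit 4) (nat_lit 7) (nat_lit 5) (nat_lit 7) (nat_lit 4) (nat_lit 387) (nat_lit 202) (nat_lit 191)) (XT.lf (nat_lit 0) (nat_lit 31695202994) (nat_lit 76) (nat_lit 11520766272) (nat_lit 76) (nat_lit 9435547335) (nat_lit 6) (nat_lit 4) (nat_lit 7) (nat_lit 5)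 (nat_lit 7) (nat_lit 4) (nat_lit 388) (nat_lit 202) (nat_lit 190))))) (XT.nd (nat_lit 234) (nat_lit 152) (nat_lit 0) (XT.nd (nat_lit 78) (nat_lit 0) (nat_lit 0) (XT.lf (nat_lit 0) (nat_lit 38759786004) (nat_lit 76) (nat_lit 8800339140) (nat_lit 76) (nat_lit 6572470809) (nat_lit 6) (nat_lit 4) (nat_lit 7) (nat_lit 5) (nat_lit 7) (nat_lit 4) (nat_lit 389) (nat_lit 202) (nat_lit 189)) (XT.nd (nat_lit 78) (nat_lit 0) (nat_lit 0) (XT.lf (nat_lit 0) (nat_lit 45932982783) (nat_lit 76) (nat_lit 6046575948) (nat_lit 76) (nat_lit 3680213061) (nat_lit 6) (nat_lit 4) (nat_lit 7) (nat_lit 5) (nat_lit 7) (nat_lit 4) (nat_lit 390) (nat_lit 202) (nat_lit 188)) (XT.lf (nat_lit 0) (nat_lit 53221061172) (nat_lit 76) (nat_lit 3257070496) (nat_lit 76) (nat_lit 756246874) (nat_lit 6) (nat_lit 4) (nat_lit 7) (nat_lit 5) (nat_lit 7) (nat_lit 4) (nat_lit 391) (nat_lit 202) (nat_lit 187)))) (XT.nd (nat_lit 156) (nat_lit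 0) (nat_lit 0) (XT.nd (nat_lit 78) (nat_lit 0) (nat_lit 0) (XT.lf (nat_lit 0) (nat_lit 1786287416) (nat_lit 76) (nat_lit 389897529) (nat_lit 152) (nat_lit 56680456999) (nat_lit 4) (nat_lit 5) (nat_lit 5) (nat_lit 5) (nat_lit 6) (nat_lit 4) (nat_lit 392) (nat_lit 202) (nat_lit 186)) (XT.lf (nat_lit 0) (nat_lit 5194695820) (nat_lit 152) (nat_lit 52815345941) (nat_lit 0) (nat_lit 2516918963) (nat_lit 4) (nat_lit 5) (nat_lit 6) (nat_lit 4) (nat_lit 4) (nat_lit 4) (nat_lit 393) (nat_lit 202) (nat_lit 185))) (XT.nd (nat_lit 78) (nat_lit 0) (nat_lit 0) (XT.lf (nat_lit 0) (nat_lit 8256882686) (nat_lit 152) (nat_lit 48532284503) (nat_lit 0) (nat_lit 5459639209) (nat_lit 4) (nat_lit 5) (nat_lit 6) (nat_lit 4) (nat_lit 4) (nat_lit 4) (nat_lit 394) (nat_lit 202) (nat_lit 184)) (XT.lf (nat_lit 0) (nat_lit 11361673310) (nat_lit 152) (nat_lit 44213679801) (nat_lit 0) (nat_lit 8448442822) (nat_lit 4) (nat_lit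 5) (nat_lit 6) (nat_lit 4) (nat_lit 4) (nat_lit 4) (nat_lit 395) (nat_lit 202) (nat_lit 183)))))) (XT.nd (nat_lit 546) (nat_lit 76) (nat_lit 0) (XT.nd (nat_lit 234) (nat_lit 0) (nat_lit 0) (XT.nd (nat_lit 78) (nat_lit 0) (nat_lit 0) (XT.lf (nat_lit 0) (nat_lit 14511780614) (nat_lit 152) (nat_lit 39855758297) (nat_lit 0) (nat_lit 11485941378) (nat_lit 4) (nat_lit 5) (nat_lit 6) (nat_lit 4) (nat_lit 4) (nat_lit 4) (nat_lit 396) (nat_lit 202) (nat_lit 182)) (XT.nd (nat_lit 78) (nat_lit 0) (nat_lit 0) (XT.lf (nat_lit 0) (nat_lit 17709957119) (nat_lit 152) (nat_lit 35454712097) (nat_lit 0) (nat_lit 14574789001) (nat_lit 4) (nat_lit 5) (nat_lit 6) (nat_lit 4) (nat_lit 4) (nat_lit 4) (nat_lit 397) (nat_lit 202) (nat_lit 181)) (XT.lf (nat_lit 0) (nat_lit 20958997349) (nat_lit 152) (nat_lit 31006695628) (nat_lit 0) (nat_lit 17717684685) (nat_lit 4) (nat_lit 5) (nat_lit 6) (nat_lit 4) (nat_lit 4) (nat_lit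 4) (nat_lit 398) (nat_lit 202) (nat_lit 180)))) (XT.nd (nat_lit 156) (nat_lit 0) (nat_lit 0) (XT.nd (nat_lit 78) (nat_lit 0) (nat_lit 0) (XT.lf (nat_lit 0) (nat_lit 24261740271) (nat_lit 152) (nat_lit 26507822274) (nat_lit 0) (nat_lit 20917374650) (nat_lit 4) (nat_lit 5) (nat_lit 6) (nat_lit 4) (nat_lit 4) (nat_lit 4) (nat_lit 399) (nat_lit 202) (nat_lit 179)) (XT.lf (nat_lit 0) (nat_lit 27621071776) (nat_lit 152) (nat_lit 21954160979) (nat_lit 0) (nat_lit 24176654741) (nat_lit 4) (nat_lit 5) (nat_lit 6) (nat_lit 4) (nat_lit 4) (nat_lit 4) (nat_lit 400) (nat_lit 202) (nat_lit 178))) (XT.nd (nat_lit 78) (nat_lit 0) (nat_lit 0) (XT.lf (nat_lit 0) (nat_lit 31039927203) (nat_lit 152) (nat_lit 17341732816) (nat_lit 0) (nat_lit 27498372873) (nat_lit 4) (nat_lit 5) (nat_lit 6) (nat_lit 4) (nat_lit 4) (nat_lit 4) (nat_lit 401) (nat_lit 202) (nat_lit 177)) (XT.lf (nat_lit 0) (nat_lit 34521293901) (nat_lit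 152) (nat_lit 12666507509) (nat_lit 0) (nat_lit 30885431517) (nat_lit 4) (nat_lit 5) (nat_lit 6) (nat_lit 4) (nat_lit 4) (nat_lit 4) (nat_lit 402) (nat_lit 202) (nat_lit 176))))) (XT.nd (nat_lit 234) (nat_lit 0) (nat_lit 0) (XT.nd (nat_lit 78) (nat_lit 76) (nat_lit 0) (XT.lf (nat_lit 0) (nat_lit 38068213842) (nat_lit 152) (nat_lit 7924399910) (nat_lit 0) (nat_lit 34340790241) (nat_lit 4) (nat_lit 5) (nat_lit 6) (nat_lit 4) (nat_lit 4) (nat_lit 4) (nat_lit 403) (nat_lit 202) (nat_lit 175)) (XT.nd (nat_lit 78) (nat_lit 76) (nat_lit 0) (XT.lf (nat_lit 0) (nat_lit 41683786275) (nat_lit 152) (nat_lit 3111266428) (nat_lit 0) (nat_lit 37867468288) (nat_lit 4) (nat_lit 5) (nat_lit 6) (nat_lit 4) (nat_lit 4) (nat_lit 4) (nat_lit 404) (nat_lit 202) (nat_lit 174)) (XT.lf (nat_lit 0) (nat_lit 1812466332) (nat_lit 76) (nat_lit 43576126641) (nat_lit 76) (nat_lit 39673503425) (nat_lit 3) (nat_lit 4) (nat_lit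 4) (nat_lit 5) (nat_lit 4) (nat_lit 4) (nat_lit 405) (nat_lit 202) (nat_lit 173)))) (XT.nd (nat_lit 156) (nat_lit 0) (nat_lit 0) (XT.nd (nat_lit 78) (nat_lit 0) (nat_lit 0) (XT.lf (nat_lit 0) (nat_lit 6879204579) (nat_lit 76) (nat_lit 42320510862) (nat_lit 76) (nat_lit 38334096162) (nat_lit 3) (nat_lit 4) (nat_lit 4) (nat_lit 5) (nat_lit 4) (nat_lit 4) (nat_lit 406) (nat_lit 202) (nat_lit 172)) (XT.lf (nat_lit 0) (nat_lit 12031455256) (nat_lit 76) (nat_lit 41058525917) (nat_lit 76) (nat_lit 36990760261) (nat_lit 3) (nat_lit 4) (nat_lit 4) (nat_lit 5) (nat_lit 4) (nat_lit 4) (nat_lit 407) (nat_lit 202) (nat_lit 171))) (XT.nd (nat_lit 78) (nat_lit 0) (nat_lit 0) (XT.lf (nat_lit 0) (nat_lit 17273720331) (nat_lit 76) (nat_lit 39789069100) (nat_lit 76) (nat_lit 35642321934) (nat_lit 3) (nat_lit 4) (nat_lit 4) (nat_lit 5) (nat_lit 4) (nat_lit 4) (nat_lit 408) (nat_lit 202) (nat_lit 170)) (XT.lf (nat_lit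 0) (nat_lit 22610580422) (nat_lit 76) (nat_lit 38511031178) (nat_lit 76) (nat_lit 34287602934) (nat_lit 3) (nat_lit 4) (nat_lit 4) (nat_lit 5) (nat_lit 4) (nat_lit 4) (nat_lit 409) (nat_lit 202) (nat_lit 169))))))) (XT.nd (nat_lit 38688) (nat_lit 0) (nat_lit 76) (XT.nd (nat_lit 38142) (nat_lit 0) (nat_lit 228) (XT.nd (nat_lit 37830) (nat_lit 0) (nat_lit 456) (XT.nd (nat_lit 78) (nat_lit 0) (nat_lit 0) (XT.lf (nat_lit 0) (nat_lit 28046698807) (nat_lit 76) (nat_lit 37223295417) (nat_lit 76) (nat_lit 32925419525) (nat_lit 3) (nat_lit 4) (nat_lit 4) (nat_lit 5) (nat_lit 4) (nat_lit 4) (nat_lit 410) (nat_lit 202) (nat_lit 168)) (XT.nd (nat_lit 78) (nat_lit 0) (nat_lit 0) (XT.lf (nat_lit 0) (nat_lit 33586825491) (nat_lit 76) (nat_lit 35924736613) (nat_lit 76) (nat_lit 31554581450) (nat_lit 3) (nat_lit 4) (nat_lit 4) (nat_lit 5) (nat_lit 4) (nat_lit 4) (nat_lit 411) (nat_lit 202) (nat_lit 167)) (XT.lf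 (nat_lit 0) (nat_lit 39235801362) (nat_lit 76) (nat_lit 34614220101) (nat_lit 76) (nat_lit 30173890889) (nat_lit 3) (nat_lit 4) (nat_lit 4) (nat_lit 5) (nat_lit 4) (nat_lit 4) (nat_lit 412) (nat_lit 202) (nat_lit 166)))) (XT.nd (nat_lit 156) (nat_lit 0) (nat_lit 0) (XT.nd (nat_lit 78) (nat_lit 0) (nat_lit 0) (XT.lf (nat_lit 0) (nat_lit 7234872538) (nat_lit 76) (nat_lit 5399468390) (nat_lit 76) (nat_lit 5399468390) (nat_lit 9) (nat_lit 4) (nat_lit 10) (nat_lit 5) (nat_lit 10) (nat_lit 4) (nat_lit 374) (nat_lit 203) (nat_lit 203)) (XT.lf (nat_lit 0) (nat_lit 22285116086) (nat_lit 76) (nat_lit 7480240727) (nat_lit 76) (nat_lit 7264470721) (nat_lit 9) (nat_lit 4) (nat_lit 10) (nat_lit 5) (nat_lit 10) (nat_lit 4) (nat_lit 375) (nat_lit 203) (nat_lit 202))) (XT.nd (nat_lit 78) (nat_lit 0) (nat_lit 0) (XT.lf (nat_lit 0) (nat_lit 30192325005) (nat_lit 76) (nat_lit 4128074167) (nat_lit 76) (nat_lit 3702818717)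 (nat_lit 9) (nat_lit 4) (nat_lit 10) (nat_lit 5) (nat_lit 10) (nat_lit 4) (nat_lit 376) (nat_lit 203) (nat_lit 201)) (XT.lf (nat_lit 0) (nat_lit 38198281044) (nat_lit 76) (nat_lit 739508021) (nat_lit 76) (nat_lit 110868646) (nat_lit 9) (nat_lit 4) (nat_lit 10) (nat_lit 5) (nat_lit 10) (nat_lit 4) (nat_lit 377) (nat_lit 203) (nat_lit 200))))) (XT.nd (nat_lit 234) (nat_lit 76) (nat_lit 0) (XT.nd (nat_lit 78) (nat_lit 0) (nat_lit 0) (XT.lf (nat_lit 0) (nat_lit 3533195120) (nat_lit 152) (nat_lit 33839059875) (nat_lit 0) (nat_lit 2731156774) (nat_lit 7) (nat_lit 5) (nat_lit 9) (nat_lit 4) (nat_lit 7) (nat_lit 4) (nat_lit 378) (nat_lit 203) (nat_lit 199)) (XT.nd (nat_lit 78) (nat_lit 0) (nat_lit 0) (XT.lf (nat_lit 0) (nat_lit 7227702741) (nat_lit 152) (nat_lit 27724250038) (nat_lit 0) (nat_lit 6239539292) (nat_lit 7) (nat_lit 5) (nat_lit 9) (nat_lit 4) (nat_lit 7) (nat_lit 4) (nat_lit 379) (nat_lit 203)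 (nat_lit 198)) (XT.lf (nat_lit 0) (nat_lit 10962517699) (nat_lit 152) (nat_lit 21558179220) (nat_lit 0) (nat_lit 9793650267) (nat_lit 7) (nat_lit 5) (nat_lit 9) (nat_lit 4) (nat_lit 7) (nat_lit 4) (nat_lit 380) (nat_lit 203) (nat_lit 197)))) (XT.nd (nat_lit 156) (nat_lit 76) (nat_lit 0) (XT.nd (nat_lit 78) (nat_lit 0) (nat_lit 0) (XT.lf (nat_lit 0) (nat_lit 14740903425) (nat_lit 152) (nat_lit 15335459592) (nat_lit 0) (nat_lit 13396595232) (nat_lit 7) (nat_lit 5) (nat_lit 9) (nat_lit 4) (nat_lit 7) (nat_lit 4) (nat_lit 381) (nat_lit 203) (nat_lit 196)) (XT.lf (nat_lit 0) (nat_lit 18566161420) (nat_lit 152) (nat_lit 9050653826) (nat_lit 0) (nat_lit 17051522392) (nat_lit 7) (nat_lit 5) (nat_lit 9) (nat_lit 4) (nat_lit 7) (nat_lit 4) (nat_lit 382) (nat_lit 203) (nat_lit 195))) (XT.nd (nat_lit 78) (nat_lit 76) (nat_lit 0) (XT.lf (nat_lit 0) (nat_lit 22441634143) (nat_lit 152) (nat_lit 2698270345) (nat_lit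 0) (nat_lit 20761625371) (nat_lit 7) (nat_lit 5) (nat_lit 9) (nat_lit 4) (nat_lit 7) (nat_lit 4) (nat_lit 383) (nat_lit 203) (nat_lit 194)) (XT.lf (nat_lit 0) (nat_lit 3801420891) (nat_lit 76) (nat_lit 22605828622) (nat_lit 76) (nat_lit 20765266701) (nat_lit 6) (nat_lit 4) (nat_lit 7) (nat_lit 5) (nat_lit 7) (nat_lit 4) (nat_lit 384) (nat_lit 203) (nat_lit 193)))))) (XT.nd (nat_lit 546) (nat_lit 152) (nat_lit 0) (XT.nd (nat_lit 234) (nat_lit 0) (nat_lit 0) (XT.nd (nat_lit 78) (nat_lit 0) (nat_lit 0) (XT.lf (nat_lit 0) (nat_lit 10435123002) (nat_lit 76) (nat_lit 20022001734) (nat_lit 76) (nat_lit 18025562970) (nat_lit 6) (nat_lit 4) (nat_lit 7) (nat_lit 5) (nat_lit 7) (nat_lit 4) (nat_lit 385) (nat_lit 203) (nat_lit 192)) (XT.nd (nat_lit 78) (nat_lit 0) (nat_lit 0) (XT.lf (nat_lit 0) (nat_lit 17154931556) (nat_lit 76) (nat_lit 17413413353) (nat_lit 76) (nat_lit 15265637848) (nat_lit 6) (nat_lit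 4) (nat_lit 7) (nat_lit 5) (nat_lit 7) (nat_lit 4) (nat_lit 386) (nat_lit 203) (nat_lit 191)) (XT.lf (nat_lit 0) (nat_lit 23966718231) (nat_lit 76) (nat_lit 14777784129) (nat_lit 76) (nat_lit 12483079749) (nat_lit 6) (nat_lit 4) (nat_lit 7) (nat_lit 5) (nat_lit 7) (nat_lit 4) (nat_lit 387) (nat_lit 203) (nat_lit 190)))) (XT.nd (nat_lit 156) (nat_lit 0) (nat_lit 0) (XT.nd (nat_lit 78) (nat_lit 0) (nat_lit 0) (XT.lf (nat_lit 0) (nat_lit 30876435073) (nat_lit 76) (nat_lit 12112811086) (nat_lit 76) (nat_lit 9675457313) (nat_lit 6) (nat_lit 4) (nat_lit 7) (nat_lit 5) (nat_lit 7) (nat_lit 4) (nat_lit 388) (nat_lit 203) (nat_lit 189)) (XT.lf (nat_lit 0) (nat_lit 37890119698) (nat_lit 76) (nat_lit 9416165606) (nat_lit 76) (nat_lit 6840317276) (nat_lit 6) (nat_lit 4) (nat_lit 7) (nat_lit 5) (nat_lit 7) (nat_lit 4) (nat_lit 389) (nat_lit 203) (nat_lit 188))) (XT.nd (nat_lit 78) (nat_lit 0) (nat_lit 0) (XT.lf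 (nat_lit 0) (nat_lit 45013900569) (nat_lit 76) (nat_lit 6685491397) (nat_lit 76) (nat_lit 3975182333) (nat_lit 6) (nat_lit 4) (nat_lit 7) (nat_lit 5) (nat_lit 7) (nat_lit 4) (nat_lit 390) (nat_lit 203) (nat_lit 187)) (XT.lf (nat_lit 0) (nat_lit 52254002348) (nat_lit 76) (nat_lit 3918402433) (nat_lit 76) (nat_lit 1077548967) (nat_lit 6) (nat_lit 4) (nat_lit 7) (nat_lit 5) (nat_lit 7) (nat_lit 4) (nat_lit 391) (nat_lit 203) (nat_lit 186))))) (XT.nd (nat_lit 234) (nat_lit 0) (nat_lit 0) (XT.nd (nat_lit 78) (nat_lit 0) (nat_lit 0) (XT.lf (nat_lit 0) (nat_lit 739226334) (nat_lit 76) (nat_lit 1086794325) (nat_lit 152) (nat_lit 57047348663) (nat_lit 4) (nat_lit 5) (nat_lit 5) (nat_lit 5) (nat_lit 6) (nat_lit 4) (nat_lit 392) (nat_lit 203) (nat_lit 185)) (XT.nd (nat_lit 78) (nat_lit 0) (nat_lit 0) (XT.lf (nat_lit 0) (nat_lit 4812837607) (nat_lit 152) (nat_lit 53919596504) (nat_lit 0) (nat_lit 1812210204)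 (nat_lit 4) (nat_lit 5) (nat_lit 6) (nat_lit 4) (nat_lit 4) (nat_lit 4) (nat_lit 393) (nat_lit 203) (nat_lit 184)) (XT.lf (nat_lit 0) (nat_lit 7850757553) (nat_lit 152) (nat_lit 49682322544) (nat_lit 0) (nat_lit 4734143139) (nat_lit 4) (nat_lit 5) (nat_lit 6) (nat_lit 4) (nat_lit 4) (nat_lit 4) (nat_lit 394) (nat_lit 203) (nat_lit 183)))) (XT.nd (nat_lit 156) (nat_lit 0) (nat_lit 0) (XT.nd (nat_lit 78) (nat_lit 0) (nat_lit 0) (XT.lf (nat_lit 0) (nat_lit 10931988059) (nat_lit 152) (nat_lit 45408171703) (nat_lit 0) (nat_lit 7702764897) (nat_lit 4) (nat_lit 5) (nat_lit 6) (nat_lit 4) (nat_lit 4) (nat_lit 4) (nat_lit 395) (nat_lit 203) (nat_lit 182)) (XT.lf (nat_lit 0) (nat_lit 14059221462) (nat_lit 152) (nat_lit 41093409287) (nat_lit 0) (nat_lit 10720669419) (nat_lit 4) (nat_lit 5) (nat_lit 6) (nat_lit 4) (nat_lit 4) (nat_lit 4) (nat_lit 396) (nat_lit 203) (nat_lit 181))) (XT.nd (nat_lit 78) (nat_lit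 0) (nat_lit 0) (XT.lf (nat_lit 0) (nat_lit 17235190297) (nat_lit 152) (nat_lit 36734265116) (nat_lit 0) (nat_lit 13790493708) (nat_lit 4) (nat_lit 5) (nat_lit 6) (nat_lit 4) (nat_lit 4) (nat_lit 4) (nat_lit 397) (nat_lit 203) (nat_lit 180)) (XT.lf (nat_lit 0) (nat_lit 20462669682) (nat_lit 152) (nat_lit 32326930227) (nat_lit 0) (nat_lit 16914920137) (nat_lit 4) (nat_lit 5) (nat_lit 6) (nat_lit 4) (nat_lit 4) (nat_lit 4) (nat_lit 398) (nat_lit 203) (nat_lit 179))))))))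
noncomputable def xc7 : XT := (XT.nd (nat_lit 39624) (nat_lit 0) (nat_lit 0) (XT.nd (nat_lit 38532) (nat_lit 0) (nat_lit 228) (XT.nd (nat_lit 546) (nat_lit 0) (nat_lit 0) (XT.nd (nat_lit 234) (nat_lit 76) (nat_lit 0) (XT.nd (nat_lit 78) (nat_lit 0) (nat_lit 0) (XT.lf (nat_lit 0) (nat_lit 23744479745) (nat_lit 152) (nat_lit 27867553553) (nat_lit 0) (nat_lit 20096678785) (nat_lit 4) (nat_lit 5) (nat_lit 6) (nat_lit 4) (nat_lit 4) (nat_lit 4) (nat_lit 399) (nat_lit 203) (nat_lit 178)) (XT.nd (nat_lit 78) (nat_lit 0) (nat_lit 0) (XT.lf (nat_lit 0) (nat_lit 27083488086) (nat_lit 152) (nat_lit 23352238549) (nat_lit 0) (nat_lit 23338549831) (nat_lit 4) (nat_lit 5) (nat_lit 6) (nat_lit 4) (nat_lit 4) (nat_lit 4) (nat_lit 400) (nat_lit 203) (nat_lit 177)) (XT.lf (nat_lit 0) (nat_lit 30482612286) (nat_lit 152) (nat_lit 18777039796) (nat_lit 0) (nat_lit 26643365976) (nat_lit 4) (nat_lit 5) (nat_lit 6) (nat_lit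 4) (nat_lit 4) (nat_lit 4) (nat_lit 401) (nat_lit 203) (nat_lit 176)))) (XT.nd (nat_lit 156) (nat_lit 76) (nat_lit 0) (XT.nd (nat_lit 78) (nat_lit 0) (nat_lit 0) (XT.lf (nat_lit 0) (nat_lit 33944822452) (nat_lit 152) (nat_lit 14137959546) (nat_lit 0) (nat_lit 30014014926) (nat_lit 4) (nat_lit 5) (nat_lit 6) (nat_lit 4) (nat_lit 4) (nat_lit 4) (nat_lit 402) (nat_lit 203) (nat_lit 175)) (XT.lf (nat_lit 0) (nat_lit 37473143819) (nat_lit 152) (nat_lit 9430944235) (nat_lit 0) (nat_lit 33453441907) (nat_lit 4) (nat_lit 5) (nat_lit 6) (nat_lit 4) (nat_lit 4) (nat_lit 4) (nat_lit 403) (nat_lit 203) (nat_lit 174))) (XT.nd (nat_lit 78) (nat_lit 76) (nat_lit 0) (XT.lf (nat_lit 0) (nat_lit 41070659384) (nat_lit 152) (nat_lit 4651880936) (nat_lit 0) (nat_lit 36964652243) (nat_lit 4) (nat_lit 5) (nat_lit 6) (nat_lit 4) (nat_lit 4) (nat_lit 4) (nat_lit 404) (nat_lit 203) (nat_lit 173)) (XT.lf (nat_lit 0) (nat_lit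 207454412) (nat_lit 76) (nat_lit 44535052373) (nat_lit 76) (nat_lit 40345253748) (nat_lit 3) (nat_lit 4) (nat_lit 4) (nat_lit 5) (nat_lit 4) (nat_lit 4) (nat_lit 405) (nat_lit 203) (nat_lit 172))))) (XT.nd (nat_lit 234) (nat_lit 0) (nat_lit 0) (XT.nd (nat_lit 78) (nat_lit 0) (nat_lit 0) (XT.lf (nat_lit 0) (nat_lit 5241439104) (nat_lit 76) (nat_lit 43294854972) (nat_lit 76) (nat_lit 39023705391) (nat_lit 3) (nat_lit 4) (nat_lit 4) (nat_lit 5) (nat_lit 4) (nat_lit 4) (nat_lit 406) (nat_lit 203) (nat_lit 171)) (XT.nd (nat_lit 78) (nat_lit 0) (nat_lit 0) (XT.lf (nat_lit 0) (nat_lit 10361890213) (nat_lit 76) (nat_lit 42047839326) (nat_lit 76) (nat_lit 37697708235) (nat_lit 3) (nat_lit 4) (nat_lit 4) (nat_lit 5) (nat_lit 4) (nat_lit 4) (nat_lit 407) (nat_lit 203) (nat_lit 170)) (XT.lf (nat_lit 0) (nat_lit 15573281921) (nat_lit 76) (nat_lit 40792915809) (nat_lit 76) (nat_lit 36366103640) (nat_lit 3) (nat_lit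 4) (nat_lit 4) (nat_lit 5) (nat_lit 4) (nat_lit 4) (nat_lit 408) (nat_lit 203) (nat_lit 169)))) (XT.nd (nat_lit 156) (nat_lit 0) (nat_lit 0) (XT.nd (nat_lit 78) (nat_lit 0) (nat_lit 0) (XT.lf (nat_lit 0) (nat_lit 20880167870) (nat_lit 76) (nat_lit 39528987886) (nat_lit 76) (nat_lit 35027728069) (nat_lit 3) (nat_lit 4) (nat_lit 4) (nat_lit 5) (nat_lit 4) (nat_lit 4) (nat_lit 409) (nat_lit 203) (nat_lit 168)) (XT.lf (nat_lit 0) (nat_lit 26287185145) (nat_lit 76) (nat_lit 38254951155) (nat_lit 76) (nat_lit 33681412067) (nat_lit 3) (nat_lit 4) (nat_lit 4) (nat_lit 5) (nat_lit 4) (nat_lit 4) (nat_lit 410) (nat_lit 203) (nat_lit 167))) (XT.nd (nat_lit 78) (nat_lit 0) (nat_lit 0) (XT.lf (nat_lit 0) (nat_lit 31799058324) (nat_lit 76) (nat_lit 36969692379) (nat_lit 76) (nat_lit 32325979241) (nat_lit 3) (nat_lit 4) (nat_lit 4) (nat_lit 5) (nat_lit 4) (nat_lit 4) (nat_lit 411) (nat_lit 203) (nat_lit 166))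 (XT.lf (nat_lit 0) (nat_lit 37420603608) (nat_lit 76) (nat_lit 35672088516) (nat_lit 76) (nat_lit 30960245234) (nat_lit 3) (nat_lit 4) (nat_lit 4) (nat_lit 5) (nat_lit 4) (nat_lit 4) (nat_lit 412) (nat_lit 203) (nat_lit 165)))))) (XT.nd (nat_lit 546) (nat_lit 76) (nat_lit 0) (XT.nd (nat_lit 234) (nat_lit 152) (nat_lit 0) (XT.nd (nat_lit 78) (nat_lit 76) (nat_lit 0) (XT.lf (nat_lit 0) (nat_lit 8352531181) (nat_lit 152) (nat_lit 410916141) (nat_lit 0) (nat_lit 8352531181) (nat_lit 10) (nat_lit 5) (nat_lit 12) (nat_lit 4) (nat_lit 10) (nat_lit 4) (nat_lit 372) (nat_lit 204) (nat_lit 204)) (XT.nd (nat_lit 78) (nat_lit 0) (nat_lit 0) (XT.lf (nat_lit 0) (nat_lit 6739383009) (nat_lit 76) (nat_lit 14309305265) (nat_lit 76) (nat_lit 14087062159) (nat_lit 9) (nat_lit 4) (nat_lit 10) (nat_lit 5) (nat_lit 10) (nat_lit 4) (nat_lit 373) (nat_lit 204) (nat_lit 203)) (XT.lf (nat_lit 0) (nat_lit 14397379599) (nat_lit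 76) (nat_lit 11054713427) (nat_lit 76) (nat_lit 10616700314) (nat_lit 9) (nat_lit 4) (nat_lit 10) (nat_lit 5) (nat_lit 10) (nat_lit 4) (nat_lit 374) (nat_lit 204) (nat_lit 202)))) (XT.nd (nat_lit 156) (nat_lit 152) (nat_lit 0) (XT.nd (nat_lit 78) (nat_lit 0) (nat_lit 0) (XT.lf (nat_lit 0) (nat_lit 22142492864) (nat_lit 76) (nat_lit 7768574208) (nat_lit 76) (nat_lit 7121075652) (nat_lit 9) (nat_lit 4) (nat_lit 10) (nat_lit 5) (nat_lit 10) (nat_lit 4) (nat_lit 375) (nat_lit 204) (nat_lit 201)) (XT.lf (nat_lit 0) (nat_lit 29981490381) (nat_lit 76) (nat_lit 4448016225) (nat_lit 76) (nat_lit 3597133744) (nat_lit 9) (nat_lit 4) (nat_lit 10) (nat_lit 5) (nat_lit 10) (nat_lit 4) (nat_lit 376) (nat_lit 204) (nat_lit 200))) (XT.nd (nat_lit 78) (nat_lit 152) (nat_lit 0) (XT.lf (nat_lit 0) (nat_lit 37921221757) (nat_lit 76) (nat_lit 1090138019) (nat_lit 76) (nat_lit 41795416) (nat_lit 9) (nat_lit 4) (nat_lit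 10) (nat_lit 5) (nat_lit 10) (nat_lit 4) (nat_lit 377) (nat_lit 204) (nat_lit 199)) (XT.lf (nat_lit 0) (nat_lit 3558977234) (nat_lit 152) (nat_lit 34195135019) (nat_lit 0) (nat_lit 2355043779) (nat_lit 7) (nat_lit 5) (nat_lit 9) (nat_lit 4) (nat_lit 7) (nat_lit 4) (nat_lit 378) (nat_lit 204) (nat_lit 198))))) (XT.nd (nat_lit 234) (nat_lit 76) (nat_lit 0) (XT.nd (nat_lit 78) (nat_lit 0) (nat_lit 0) (XT.lf (nat_lit 0) (nat_lit 7218742052) (nat_lit 152) (nat_lit 28145440115) (nat_lit 0) (nat_lit 5834104613) (nat_lit 7) (nat_lit 5) (nat_lit 9) (nat_lit 4) (nat_lit 7) (nat_lit 4) (nat_lit 379) (nat_lit 204) (nat_lit 197)) (XT.nd (nat_lit 78) (nat_lit 0) (nat_lit 0) (XT.lf (nat_lit 0) (nat_lit 10919826133) (nat_lit 152) (nat_lit 22042587678) (nat_lit 0) (nat_lit 9359747933) (nat_lit 7) (nat_lit 5) (nat_lit 9) (nat_lit 4) (nat_lit 7) (nat_lit 4) (nat_lit 380) (nat_lit 204) (nat_lit 196)) (XT.lf (nat_lit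 0) (nat_lit 14665463433) (nat_lit 152) (nat_lit 15881245120) (nat_lit 0) (nat_lit 12935054398) (nat_lit 7) (nat_lit 5) (nat_lit 9) (nat_lit 4) (nat_lit 7) (nat_lit 4) (nat_lit 381) (nat_lit 204) (nat_lit 195)))) (XT.nd (nat_lit 156) (nat_lit 76) (nat_lit 0) (XT.nd (nat_lit 78) (nat_lit 0) (nat_lit 0) (XT.lf (nat_lit 0) (nat_lit 18458926841) (nat_lit 152) (nat_lit 9656028742) (nat_lit 0) (nat_lit 16563148063) (nat_lit 7) (nat_lit 5) (nat_lit 9) (nat_lit 4) (nat_lit 7) (nat_lit 4) (nat_lit 382) (nat_lit 204) (nat_lit 194)) (XT.lf (nat_lit 0) (nat_lit 22303531033) (nat_lit 152) (nat_lit 3361499036) (nat_lit 0) (nat_lit 20247199106) (nat_lit 7) (nat_lit 5) (nat_lit 9) (nat_lit 4) (nat_lit 7) (nat_lit 4) (nat_lit 383) (nat_lit 204) (nat_lit 193))) (XT.nd (nat_lit 78) (nat_lit 0) (nat_lit 0) (XT.lf (nat_lit 0) (nat_lit 3067706068) (nat_lit 76) (nat_lit 23164417971) (nat_lit 76) (nat_lit 20952209201)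 (nat_lit 6) (nat_lit 4) (nat_lit 7) (nat_lit 5) (nat_lit 7) (nat_lit 4) (nat_lit 384) (nat_lit 204) (nat_lit 192)) (XT.lf (nat_lit 0) (nat_lit 9645790140) (nat_lit 76) (nat_lit 20606577937) (nat_lit 76) (nat_lit 18243032426) (nat_lit 6) (nat_lit 4) (nat_lit 7) (nat_lit 5) (nat_lit 7) (nat_lit 4) (nat_lit 385) (nat_lit 204) (nat_lit 191))))))) (XT.nd (nat_lit 1092) (nat_lit 76) (nat_lit 0) (XT.nd (nat_lit 546) (nat_lit 76) (nat_lit 0) (XT.nd (nat_lit 234) (nat_lit 76) (nat_lit 0) (XT.nd (nat_lit 78) (nat_lit 0) (nat_lit 0) (XT.lf (nat_lit 0) (nat_lit 16311600597) (nat_lit 76) (nat_lit 18023219511) (nat_lit 76) (nat_lit 15512745125) (nat_lit 6) (nat_lit 4) (nat_lit 7) (nat_lit 5) (nat_lit 7) (nat_lit 4) (nat_lit 386) (nat_lit 204) (nat_lit 190)) (XT.nd (nat_lit 78) (nat_lit 0) (nat_lit 0) (XT.lf (nat_lit 0) (nat_lit 23070961935) (nat_lit 76) (nat_lit 15412085390) (nat_lit 76) (nat_lit 12758961610)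 (nat_lit 6) (nat_lit 4) (nat_lit 7) (nat_lit 5) (nat_lit 7) (nat_lit 4) (nat_lit 387) (nat_lit 204) (nat_lit 189)) (XT.lf (nat_lit 0) (nat_lit 29929780392) (nat_lit 76) (nat_lit 12770893999) (nat_lit 76) (nat_lit 9979275663) (nat_lit 6) (nat_lit 4) (nat_lit 7) (nat_lit 5) (nat_lit 7) (nat_lit 4) (nat_lit 388) (nat_lit 204) (nat_lit 188)))) (XT.nd (nat_lit 156) (nat_lit 76) (nat_lit 0) (XT.nd (nat_lit 78) (nat_lit 0) (nat_lit 0) (XT.lf (nat_lit 0) (nat_lit 36894049109) (nat_lit 76) (nat_lit 10097337502) (nat_lit 76) (nat_lit 7171258431) (nat_lit 6) (nat_lit 4) (nat_lit 7) (nat_lit 5) (nat_lit 7) (nat_lit 4) (nat_lit 389) (nat_lit 204) (nat_lit 187)) (XT.lf (nat_lit 0) (nat_lit 43969853370) (nat_lit 76) (nat_lit 7389079781) (nat_lit 76) (nat_lit 4332456308) (nat_lit 6) (nat_lit 4) (nat_lit 7) (nat_lit 5) (nat_lit 7) (nat_lit 4) (nat_lit 390) (nat_lit 204) (nat_lit 186))) (XT.nd (nat_lit 78) (nat_lit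 76) (nat_lit 0) (XT.lf (nat_lit 0) (nat_lit 51163375917) (nat_lit 76) (nat_lit 4643754398) (nat_lit 76) (nat_lit 1460388787) (nat_lit 6) (nat_lit 4) (nat_lit 7) (nat_lit 5) (nat_lit 7) (nat_lit 4) (nat_lit 391) (nat_lit 204) (nat_lit 185)) (XT.lf (nat_lit 0) (nat_lit 1419208670) (nat_lit 152) (nat_lit 425422630) (nat_lit 76) (nat_lit 57047362458) (nat_lit 5) (nat_lit 5) (nat_lit 7) (nat_lit 5) (nat_lit 6) (nat_lit 4) (nat_lit 392) (nat_lit 204) (nat_lit 184))))) (XT.nd (nat_lit 234) (nat_lit 0) (nat_lit 0) (XT.nd (nat_lit 78) (nat_lit 0) (nat_lit 0) (XT.lf (nat_lit 0) (nat_lit 4370261798) (nat_lit 152) (nat_lit 55149923163) (nat_lit 0) (nat_lit 1044161942) (nat_lit 4) (nat_lit 5) (nat_lit 6) (nat_lit 4) (nat_lit 4) (nat_lit 4) (nat_lit 393) (nat_lit 204) (nat_lit 183)) (XT.nd (nat_lit 78) (nat_lit 0) (nat_lit 0) (XT.lf (nat_lit 0) (nat_lit 7384621627) (nat_lit 152) (nat_lit 50957103064) (nat_lit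 0) (nat_lit 3945913022) (nat_lit 4) (nat_lit 5) (nat_lit 6) (nat_lit 4) (nat_lit 4) (nat_lit 4) (nat_lit 394) (nat_lit 204) (nat_lit 182)) (XT.lf (nat_lit 0) (nat_lit 10442978232) (nat_lit 152) (nat_lit 46726111312) (nat_lit 0) (nat_lit 6894940746) (nat_lit 4) (nat_lit 5) (nat_lit 6) (nat_lit 4) (nat_lit 4) (nat_lit 4) (nat_lit 395) (nat_lit 204) (nat_lit 181)))) (XT.nd (nat_lit 156) (nat_lit 0) (nat_lit 0) (XT.nd (nat_lit 78) (nat_lit 0) (nat_lit 0) (XT.lf (nat_lit 0) (nat_lit 13548003966) (nat_lit 152) (nat_lit 42453250924) (nat_lit 0) (nat_lit 9893821934) (nat_lit 4) (nat_lit 5) (nat_lit 6) (nat_lit 4) (nat_lit 4) (nat_lit 4) (nat_lit 396) (nat_lit 204) (nat_lit 180)) (XT.lf (nat_lit 0) (nat_lit 16702411956) (nat_lit 152) (nat_lit 38134788333) (nat_lit 0) (nat_lit 12945176967) (nat_lit 4) (nat_lit 5) (nat_lit 6) (nat_lit 4) (nat_lit 4) (nat_lit 4) (nat_lit 397) (nat_lit 204) (nat_lit 179)))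 (XT.nd (nat_lit 78) (nat_lit 0) (nat_lit 0) (XT.lf (nat_lit 0) (nat_lit 19908958482) (nat_lit 152) (nat_lit 33766950125) (nat_lit 0) (nat_lit 16051672079) (nat_lit 4) (nat_lit 5) (nat_lit 6) (nat_lit 4) (nat_lit 4) (nat_lit 4) (nat_lit 398) (nat_lit 204) (nat_lit 178)) (XT.lf (nat_lit 0) (nat_lit 23170445380) (nat_lit 152) (nat_lit 29345919741) (nat_lit 0) (nat_lit 19216021682) (nat_lit 4) (nat_lit 5) (nat_lit 6) (nat_lit 4) (nat_lit 4) (nat_lit 4) (nat_lit 399) (nat_lit 204) (nat_lit 177)))))) (XT.nd (nat_lit 546) (nat_lit 0) (nat_lit 0) (XT.nd (nat_lit 234) (nat_lit 76) (nat_lit 0) (XT.nd (nat_lit 78) (nat_lit 0) (nat_lit 0) (XT.lf (nat_lit 0) (nat_lit 26489722494) (nat_lit 152) (nat_lit 24867834147) (nat_lit 0) (nat_lit 22440990741) (nat_lit 4) (nat_lit 5) (nat_lit 6) (nat_lit 4) (nat_lit 4) (nat_lit 4) (nat_lit 400) (nat_lit 204) (nat_lit 176)) (XT.nd (nat_lit 78) (nat_lit 0) (nat_lit 0) (XT.lf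 (nat_lit 0) (nat_lit 29869690162) (nat_lit 152) (nat_lit 20328780451) (nat_lit 0) (nat_lit 25729397192) (nat_lit 4) (nat_lit 5) (nat_lit 6) (nat_lit 4) (nat_lit 4) (nat_lit 4) (nat_lit 401) (nat_lit 204) (nat_lit 175)) (XT.lf (nat_lit 0) (nat_lit 33313301755) (nat_lit 152) (nat_lit 15724792490) (nat_lit 0) (nat_lit 29084114399) (nat_lit 4) (nat_lit 5) (nat_lit 6) (nat_lit 4) (nat_lit 4) (nat_lit 4) (nat_lit 402) (nat_lit 204) (nat_lit 174)))) (XT.nd (nat_lit 156) (nat_lit 76) (nat_lit 0) (XT.nd (nat_lit 78) (nat_lit 0) (nat_lit 0) (XT.lf (nat_lit 0) (nat_lit 36823566253) (nat_lit 152) (nat_lit 11051847362) (nat_lit 0) (nat_lit 32508073669) (nat_lit 4) (nat_lit 5) (nat_lit 6) (nat_lit 4) (nat_lit 4) (nat_lit 4) (nat_lit 403) (nat_lit 204) (nat_lit 173)) (XT.lf (nat_lit 0) (nat_lit 40403550878) (nat_lit 152) (nat_lit 6305861911) (nat_lit 0) (nat_lit 36004266809) (nat_lit 4) (nat_lit 5) (nat_lit 6)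 (nat_lit 4) (nat_lit 4) (nat_lit 4) (nat_lit 404) (nat_lit 204) (nat_lit 172))) (XT.nd (nat_lit 78) (nat_lit 76) (nat_lit 0) (XT.lf (nat_lit 0) (nat_lit 44056383771) (nat_lit 152) (nat_lit 1482689159) (nat_lit 0) (nat_lit 39575748747) (nat_lit 4) (nat_lit 5) (nat_lit 6) (nat_lit 4) (nat_lit 4) (nat_lit 4) (nat_lit 405) (nat_lit 204) (nat_lit 171)) (XT.lf (nat_lit 0) (nat_lit 3489987542) (nat_lit 76) (nat_lit 44328817082) (nat_lit 76) (nat_lit 39769200548) (nat_lit 3) (nat_lit 4) (nat_lit 4) (nat_lit 5) (nat_lit 4) (nat_lit 4) (nat_lit 406) (nat_lit 204) (nat_lit 170))))) (XT.nd (nat_lit 234) (nat_lit 0) (nat_lit 0) (XT.nd (nat_lit 78) (nat_lit 0) (nat_lit 0) (XT.lf (nat_lit 0) (nat_lit 8579565284) (nat_lit 76) (nat_lit 43096334736) (nat_lit 76) (nat_lit 38460037124) (nat_lit 3) (nat_lit 4) (nat_lit 4) (nat_lit 5) (nat_lit 4) (nat_lit 4) (nat_lit 407) (nat_lit 204) (nat_lit 169)) (XT.nd (nat_lit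 78) (nat_lit 0) (nat_lit 0) (XT.lf (nat_lit 0) (nat_lit 13760982849) (nat_lit 76) (nat_lit 41855521219) (nat_lit 76) (nat_lit 37144775958) (nat_lit 3) (nat_lit 4) (nat_lit 4) (nat_lit 5) (nat_lit 4) (nat_lit 4) (nat_lit 408) (nat_lit 204) (nat_lit 168)) (XT.lf (nat_lit 0) (nat_lit 19038767688) (nat_lit 76) (nat_lit 40605292325) (nat_lit 76) (nat_lit 35822267794) (nat_lit 3) (nat_lit 4) (nat_lit 4) (nat_lit 5) (nat_lit 4) (nat_lit 4) (nat_lit 409) (nat_lit 204) (nat_lit 167)))) (XT.nd (nat_lit 156) (nat_lit 0) (nat_lit 0) (XT.nd (nat_lit 78) (nat_lit 0) (nat_lit 0) (XT.lf (nat_lit 0) (nat_lit 24417531459) (nat_lit 76) (nat_lit 39344555622) (nat_lit 76) (nat_lit 34491357041) (nat_lit 3) (nat_lit 4) (nat_lit 4) (nat_lit 5) (nat_lit 4) (nat_lit 4) (nat_lit 410) (nat_lit 204) (nat_lit 166)) (XT.lf (nat_lit 0) (nat_lit 29901974052) (nat_lit 76) (nat_lit 38072209494) (nat_lit 76) (nat_lit 33150880769)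 (nat_lit 3) (nat_lit 4) (nat_lit 4) (nat_lit 5) (nat_lit 4) (nat_lit 4) (nat_lit 411) (nat_lit 204) (nat_lit 165))) (XT.nd (nat_lit 37362) (nat_lit 0) (nat_lit 532) (XT.lf (nat_lit 0) (nat_lit 35496887698) (nat_lit 76) (nat_lit 36787142184) (nat_lit 76) (nat_lit 31799667687) (nat_lit 3) (nat_lit 4) (nat_lit 4) (nat_lit 5) (nat_lit 4) (nat_lit 4) (nat_lit 412) (nat_lit 204) (nat_lit 164)) (XT.lf (nat_lit 0) (nat_lit 4277338831) (nat_lit 152) (nat_lit 7697653166) (nat_lit 0) (nat_lit 4277338831) (nat_lit 10) (nat_lit 5) (nat_lit 12) (nat_lit 4) (nat_lit 10) (nat_lit 4) (nat_lit 370) (nat_lit 205) (nat_lit 205))))))))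
noncomputable def xc8 : XT := (XT.nd (nat_lit 2106) (nat_lit 76) (nat_lit 0) (XT.nd (nat_lit 1014) (nat_lit 228) (nat_lit 0) (XT.nd (nat_lit 468) (nat_lit 152) (nat_lit 0) (XT.nd (nat_lit 234) (nat_lit 0) (nat_lit 0) (XT.nd (nat_lit 78) (nat_lit 76) (nat_lit 0) (XT.lf (nat_lit 0) (nat_lit 12702339691) (nat_lit 152) (nat_lit 8179174078) (nat_lit 0) (nat_lit 12473429292) (nat_lit 10) (nat_lit 5) (nat_lit 12) (nat_lit 4) (nat_lit 10) (nat_lit 4) (nat_lit 371) (nat_lit 205) (nat_lit 204)) (XT.nd (nat_lit 78) (nat_lit 76) (nat_lit 0) (XT.lf (nat_lit 0) (nat_lit 16894692357) (nat_lit 152) (nat_lit 894914250) (nat_lit 0) (nat_lit 16443538851) (nat_lit 10) (nat_lit 5) (nat_lit 12) (nat_lit 4) (nat_lit 10) (nat_lit 4) (nat_lit 372) (nat_lit 205) (nat_lit 203)) (XT.lf (nat_lit 0) (nat_lit 6592481091) (nat_lit 76) (nat_lit 14606288751) (nat_lit 76) (nat_lit 13939365238) (nat_lit 9) (nat_lit 4) (nat_lit 10)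 (nat_lit 5) (nat_lit 10) (nat_lit 4) (nat_lit 373) (nat_lit 205) (nat_lit 202)))) (XT.nd (nat_lit 78) (nat_lit 0) (nat_lit 0) (XT.lf (nat_lit 0) (nat_lit 14180219936) (nat_lit 76) (nat_lit 11384253747) (nat_lit 76) (nat_lit 10507844791) (nat_lit 9) (nat_lit 4) (nat_lit 10) (nat_lit 5) (nat_lit 10) (nat_lit 4) (nat_lit 374) (nat_lit 205) (nat_lit 201)) (XT.nd (nat_lit 78) (nat_lit 0) (nat_lit 0) (XT.lf (nat_lit 0) (nat_lit 21857121799) (nat_lit 76) (nat_lit 8129723106) (nat_lit 76) (nat_lit 7049930225) (nat_lit 9) (nat_lit 4) (nat_lit 10) (nat_lit 5) (nat_lit 10) (nat_lit 4) (nat_lit 375) (nat_lit 205) (nat_lit 200)) (XT.lf (nat_lit 0) (nat_lit 29629894652) (nat_lit 76) (nat_lit 4839853062) (nat_lit 76) (nat_lit 3562600059) (nat_lit 9) (nat_lit 4) (nat_lit 10) (nat_lit 5) (nat_lit 10) (nat_lit 4) (nat_lit 376) (nat_lit 205) (nat_lit 199))))) (XT.nd (nat_lit 234) (nat_lit 0) (nat_lit 0) (XT.nd (nat_lit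 78) (nat_lit 152) (nat_lit 0) (XT.lf (nat_lit 0) (nat_lit 37505330239) (nat_lit 76) (nat_lit 1511768971) (nat_lit 76) (nat_lit 42807112) (nat_lit 9) (nat_lit 4) (nat_lit 10) (nat_lit 5) (nat_lit 10) (nat_lit 4) (nat_lit 377) (nat_lit 205) (nat_lit 198)) (XT.nd (nat_lit 78) (nat_lit 0) (nat_lit 0) (XT.lf (nat_lit 0) (nat_lit 3515004921) (nat_lit 152) (nat_lit 34694075731) (nat_lit 0) (nat_lit 1908124375) (nat_lit 7) (nat_lit 5) (nat_lit 9) (nat_lit 4) (nat_lit 7) (nat_lit 4) (nat_lit 378) (nat_lit 205) (nat_lit 197)) (XT.lf (nat_lit 0) (nat_lit 7141038861) (nat_lit 152) (nat_lit 28707599209) (nat_lit 0) (nat_lit 5358717555) (nat_lit 7) (nat_lit 5) (nat_lit 9) (nat_lit 4) (nat_lit 7) (nat_lit 4) (nat_lit 379) (nat_lit 205) (nat_lit 196)))) (XT.nd (nat_lit 156) (nat_lit 0) (nat_lit 0) (XT.nd (nat_lit 78) (nat_lit 0) (nat_lit 0) (XT.lf (nat_lit 0) (nat_lit 10809374517) (nat_lit 152) (nat_lit 22666123842)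 (nat_lit 0) (nat_lit 8856722375) (nat_lit 7) (nat_lit 5) (nat_lit 9) (nat_lit 4) (nat_lit 7) (nat_lit 4) (nat_lit 380) (nat_lit 205) (nat_lit 195)) (XT.lf (nat_lit 0) (nat_lit 14523217230) (nat_lit 152) (nat_lit 16564370671) (nat_lit 0) (nat_lit 12405195345) (nat_lit 7) (nat_lit 5) (nat_lit 9) (nat_lit 4) (nat_lit 7) (nat_lit 4) (nat_lit 381) (nat_lit 205) (nat_lit 194))) (XT.nd (nat_lit 78) (nat_lit 0) (nat_lit 0) (XT.lf (nat_lit 0) (nat_lit 18285812107) (nat_lit 152) (nat_lit 10397008068) (nat_lit 0) (nat_lit 16007237073) (nat_lit 7) (nat_lit 5) (nat_lit 9) (nat_lit 4) (nat_lit 7) (nat_lit 4) (nat_lit 382) (nat_lit 205) (nat_lit 193)) (XT.lf (nat_lit 0) (nat_lit 22100446851) (nat_lit 152) (nat_lit 4158647075) (nat_lit 0) (nat_lit 19665994974) (nat_lit 7) (nat_lit 5) (nat_lit 9) (nat_lit 4) (nat_lit 7) (nat_lit 4) (nat_lit 383) (nat_lit 205) (nat_lit 192)))))) (XT.nd (nat_lit 546) (nat_lit 152)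 (nat_lit 0) (XT.nd (nat_lit 234) (nat_lit 0) (nat_lit 0) (XT.nd (nat_lit 78) (nat_lit 0) (nat_lit 0) (XT.lf (nat_lit 0) (nat_lit 2199075180) (nat_lit 76) (nat_lit 23792518314) (nat_lit 76) (nat_lit 21206729696) (nat_lit 6) (nat_lit 4) (nat_lit 7) (nat_lit 5) (nat_lit 7) (nat_lit 4) (nat_lit 384) (nat_lit 205) (nat_lit 191)) (XT.nd (nat_lit 78) (nat_lit 0) (nat_lit 0) (XT.lf (nat_lit 0) (nat_lit 8723161155) (nat_lit 76) (nat_lit 21259908235) (nat_lit 76) (nat_lit 18527190742) (nat_lit 6) (nat_lit 4) (nat_lit 7) (nat_lit 5) (nat_lit 7) (nat_lit 4) (nat_lit 385) (nat_lit 205) (nat_lit 190)) (XT.lf (nat_lit 0) (nat_lit 15336546276) (nat_lit 76) (nat_lit 18701044911) (nat_lit 76) (nat_lit 15825678025) (nat_lit 6) (nat_lit 4) (nat_lit 7) (nat_lit 5) (nat_lit 7) (nat_lit 4) (nat_lit 386) (nat_lit 205) (nat_lit 189)))) (XT.nd (nat_lit 156) (nat_lit 0) (nat_lit 0) (XT.nd (nat_lit 78) (nat_lit 0) (nat_lit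 0) (XT.lf (nat_lit 0) (nat_lit 22045009229) (nat_lit 76) (nat_lit 16113692442) (nat_lit 76) (nat_lit 13099830999) (nat_lit 6) (nat_lit 4) (nat_lit 7) (nat_lit 5) (nat_lit 7) (nat_lit 4) (nat_lit 387) (nat_lit 205) (nat_lit 188)) (XT.lf (nat_lit 0) (nat_lit 28854411777) (nat_lit 76) (nat_lit 13495590035) (nat_lit 76) (nat_lit 10347267857) (nat_lit 6) (nat_lit 4) (nat_lit 7) (nat_lit 5) (nat_lit 7) (nat_lit 4) (nat_lit 388) (nat_lit 205) (nat_lit 187))) (XT.nd (nat_lit 78) (nat_lit 0) (nat_lit 0) (XT.lf (nat_lit 0) (nat_lit 35770703885) (nat_lit 76) (nat_lit 10844450026) (nat_lit 76) (nat_lit 7565583446) (nat_lit 6) (nat_lit 4) (nat_lit 7) (nat_lit 5) (nat_lit 7) (nat_lit 4) (nat_lit 389) (nat_lit 205) (nat_lit 186)) (XT.lf (nat_lit 0) (nat_lit 42799928914) (nat_lit 76) (nat_lit 8157955886) (nat_lit 76) (nat_lit 4752347168) (nat_lit 6) (nat_lit 4) (nat_lit 7) (nat_lit 5) (nat_lit 7) (nat_lit 4) (nat_lit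 390) (nat_lit 205) (nat_lit 185))))) (XT.nd (nat_lit 234) (nat_lit 0) (nat_lit 0) (XT.nd (nat_lit 78) (nat_lit 152) (nat_lit 0) (XT.lf (nat_lit 0) (nat_lit 49948228905) (nat_lit 76) (nat_lit 5433760194) (nat_lit 76) (nat_lit 1905100856) (nat_lit 6) (nat_lit 4) (nat_lit 7) (nat_lit 5) (nat_lit 7) (nat_lit 4) (nat_lit 391) (nat_lit 205) (nat_lit 184)) (XT.nd (nat_lit 78) (nat_lit 76) (nat_lit 0) (XT.lf (nat_lit 0) (nat_lit 959546518) (nat_lit 152) (nat_lit 1700246526) (nat_lit 76) (nat_lit 56252613889) (nat_lit 5) (nat_lit 5) (nat_lit 7) (nat_lit 5) (nat_lit 6) (nat_lit 4) (nat_lit 392) (nat_lit 205) (nat_lit 183)) (XT.lf (nat_lit 0) (nat_lit 3866581677) (nat_lit 152) (nat_lit 56507400960) (nat_lit 0) (nat_lit 212103066) (nat_lit 4) (nat_lit 5) (nat_lit 6) (nat_lit 4) (nat_lit 4) (nat_lit 4) (nat_lit 393) (nat_lit 205) (nat_lit 182)))) (XT.nd (nat_lit 156) (nat_lit 0) (nat_lit 0) (XT.nd (nat_lit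 78) (nat_lit 0) (nat_lit 0) (XT.lf (nat_lit 0) (nat_lit 6858067605) (nat_lit 152) (nat_lit 52357739950) (nat_lit 0) (nat_lit 3094260112) (nat_lit 4) (nat_lit 5) (nat_lit 6) (nat_lit 4) (nat_lit 4) (nat_lit 4) (nat_lit 394) (nat_lit 205) (nat_lit 181)) (XT.lf (nat_lit 0) (nat_lit 9894216540) (nat_lit 152) (nat_lit 48168650226) (nat_lit 0) (nat_lit 6024264502) (nat_lit 4) (nat_lit 5) (nat_lit 6) (nat_lit 4) (nat_lit 4) (nat_lit 4) (nat_lit 395) (nat_lit 205) (nat_lit 180))) (XT.nd (nat_lit 78) (nat_lit 0) (nat_lit 0) (XT.lf (nat_lit 0) (nat_lit 12977681429) (nat_lit 152) (nat_lit 43936471419) (nat_lit 0) (nat_lit 9004676434) (nat_lit 4) (nat_lit 5) (nat_lit 6) (nat_lit 4) (nat_lit 4) (nat_lit 4) (nat_lit 396) (nat_lit 205) (nat_lit 179)) (XT.lf (nat_lit 0) (nat_lit 16111156560) (nat_lit 152) (nat_lit 39657505508) (nat_lit 0) (nat_lit 12038100151) (nat_lit 4) (nat_lit 5) (nat_lit 6) (nat_lit 4) (nat_lit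 4) (nat_lit 4) (nat_lit 397) (nat_lit 205) (nat_lit 178))))))) (XT.nd (nat_lit 1092) (nat_lit 0) (nat_lit 0) (XT.nd (nat_lit 546) (nat_lit 76) (nat_lit 0) (XT.nd (nat_lit 234) (nat_lit 0) (nat_lit 0) (XT.nd (nat_lit 78) (nat_lit 0) (nat_lit 0) (XT.lf (nat_lit 0) (nat_lit 19297379922) (nat_lit 152) (nat_lit 35328013590) (nat_lit 0) (nat_lit 15127186217) (nat_lit 4) (nat_lit 5) (nat_lit 6) (nat_lit 4) (nat_lit 4) (nat_lit 4) (nat_lit 398) (nat_lit 205) (nat_lit 177)) (XT.nd (nat_lit 78) (nat_lit 0) (nat_lit 0) (XT.lf (nat_lit 0) (nat_lit 22539135593) (nat_lit 152) (nat_lit 30944212616) (nat_lit 0) (nat_lit 18274633834) (nat_lit 4) (nat_lit 5) (nat_lit 6) (nat_lit 4) (nat_lit 4) (nat_lit 4) (nat_lit 399) (nat_lit 205) (nat_lit 176)) (XT.lf (nat_lit 0) (nat_lit 25839256175) (nat_lit 152) (nat_lit 26502272079) (nat_lit 0) (nat_lit 21483193199) (nat_lit 4) (nat_lit 5) (nat_lit 6) (nat_lit 4) (nat_lit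 4) (nat_lit 4) (nat_lit 400) (nat_lit 205) (nat_lit 175)))) (XT.nd (nat_lit 156) (nat_lit 0) (nat_lit 0) (XT.nd (nat_lit 78) (nat_lit 0) (nat_lit 0) (XT.lf (nat_lit 0) (nat_lit 29200625269) (nat_lit 152) (nat_lit 21998310671) (nat_lit 0) (nat_lit 24755667907) (nat_lit 4) (nat_lit 5) (nat_lit 6) (nat_lit 4) (nat_lit 4) (nat_lit 4) (nat_lit 401) (nat_lit 205) (nat_lit 174)) (XT.lf (nat_lit 0) (nat_lit 32626179993) (nat_lit 152) (nat_lit 17428392894) (nat_lit 0) (nat_lit 28094917403) (nat_lit 4) (nat_lit 5) (nat_lit 6) (nat_lit 4) (nat_lit 4) (nat_lit 4) (nat_lit 402) (nat_lit 205) (nat_lit 173))) (XT.nd (nat_lit 78) (nat_lit 0) (nat_lit 0) (XT.lf (nat_lit 0) (nat_lit 36118913552) (nat_lit 152) (nat_lit 12788525613) (nat_lit 0) (nat_lit 31503859477) (nat_lit 4) (nat_lit 5) (nat_lit 6) (nat_lit 4) (nat_lit 4) (nat_lit 4) (nat_lit 403) (nat_lit 205) (nat_lit 172)) (XT.lf (nat_lit 0) (nat_lit 39681877846)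 (nat_lit 152) (nat_lit 8074654578) (nat_lit 0) (nat_lit 34985472816) (nat_lit 4) (nat_lit 5) (nat_lit 6) (nat_lit 4) (nat_lit 4) (nat_lit 4) (nat_lit 404) (nat_lit 205) (nat_lit 171))))) (XT.nd (nat_lit 234) (nat_lit 0) (nat_lit 0) (XT.nd (nat_lit 78) (nat_lit 76) (nat_lit 0) (XT.lf (nat_lit 0) (nat_lit 43318186148) (nat_lit 152) (nat_lit 3282660870) (nat_lit 0) (nat_lit 38542799607) (nat_lit 4) (nat_lit 5) (nat_lit 6) (nat_lit 4) (nat_lit 4) (nat_lit 4) (nat_lit 405) (nat_lit 205) (nat_lit 170)) (XT.nd (nat_lit 78) (nat_lit 0) (nat_lit 0) (XT.lf (nat_lit 0) (nat_lit 1623319498) (nat_lit 76) (nat_lit 45423300654) (nat_lit 76) (nat_lit 40571233036) (nat_lit 3) (nat_lit 4) (nat_lit 4) (nat_lit 5) (nat_lit 4) (nat_lit 4) (nat_lit 406) (nat_lit 205) (nat_lit 169)) (XT.lf (nat_lit 0) (nat_lit 6682923097) (nat_lit 76) (nat_lit 44204928308) (nat_lit 76) (nat_lit 39278413041) (nat_lit 3) (nat_lit 4) (nat_lit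 4) (nat_lit 5) (nat_lit 4) (nat_lit 4) (nat_lit 407) (nat_lit 205) (nat_lit 168)))) (XT.nd (nat_lit 156) (nat_lit 0) (nat_lit 0) (XT.nd (nat_lit 78) (nat_lit 0) (nat_lit 0) (XT.lf (nat_lit 0) (nat_lit 11835239552) (nat_lit 76) (nat_lit 42977813820) (nat_lit 76) (nat_lit 37979019282) (nat_lit 3) (nat_lit 4) (nat_lit 4) (nat_lit 5) (nat_lit 4) (nat_lit 4) (nat_lit 408) (nat_lit 205) (nat_lit 167)) (XT.lf (nat_lit 0) (nat_lit 17084770887) (nat_lit 76) (nat_lit 41740884954) (nat_lit 76) (nat_lit 36671916368) (nat_lit 3) (nat_lit 4) (nat_lit 4) (nat_lit 5) (nat_lit 4) (nat_lit 4) (nat_lit 409) (nat_lit 205) (nat_lit 166))) (XT.nd (nat_lit 78) (nat_lit 0) (nat_lit 0) (XT.lf (nat_lit 0) (nat_lit 22436104071) (nat_lit 76) (nat_lit 40493060900) (nat_lit 76) (nat_lit 35355962168) (nat_lit 3) (nat_lit 4) (nat_lit 4) (nat_lit 5) (nat_lit 4) (nat_lit 4) (nat_lit 410) (nat_lit 205) (nat_lit 165)) (XT.lf (nat_lit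 0) (nat_lit 27893915027) (nat_lit 76) (nat_lit 39233251324) (nat_lit 76) (nat_lit 34030006821) (nat_lit 3) (nat_lit 4) (nat_lit 4) (nat_lit 5) (nat_lit 4) (nat_lit 4) (nat_lit 411) (nat_lit 205) (nat_lit 164)))))) (XT.nd (nat_lit 37674) (nat_lit 0) (nat_lit 304) (XT.nd (nat_lit 37362) (nat_lit 0) (nat_lit 456) (XT.nd (nat_lit 37206) (nat_lit 0) (nat_lit 532) (XT.lf (nat_lit 0) (nat_lit 33462972714) (nat_lit 76) (nat_lit 37960355424) (nat_lit 76) (nat_lit 32692891725) (nat_lit 3) (nat_lit 4) (nat_lit 4) (nat_lit 5) (nat_lit 4) (nat_lit 4) (nat_lit 412) (nat_lit 205) (nat_lit 163)) (XT.nd (nat_lit 78) (nat_lit 0) (nat_lit 0) (XT.lf (nat_lit 0) (nat_lit 328207507) (nat_lit 152) (nat_lit 14785411434) (nat_lit 0) (nat_lit 328207507) (nat_lit 10) (nat_lit 5) (nat_lit 12) (nat_lit 4) (nat_lit 10) (nat_lit 4) (nat_lit 368) (nat_lit 206) (nat_lit 206)) (XT.lf (nat_lit 0) (nat_lit 4683859814) (nat_lit 152)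 (nat_lit 22549616369) (nat_lit 0) (nat_lit 4448082102) (nat_lit 10) (nat_lit 5) (nat_lit 12) (nat_lit 4) (nat_lit 10) (nat_lit 4) (nat_lit 369) (nat_lit 206) (nat_lit 205)))) (XT.nd (nat_lit 156) (nat_lit 76) (nat_lit 0) (XT.nd (nat_lit 78) (nat_lit 0) (nat_lit 0) (XT.lf (nat_lit 0) (nat_lit 8749996557) (nat_lit 152) (nat_lit 15470580757) (nat_lit 0) (nat_lit 8285308446) (nat_lit 10) (nat_lit 5) (nat_lit 12) (nat_lit 4) (nat_lit 10) (nat_lit 4) (nat_lit 370) (nat_lit 206) (nat_lit 204)) (XT.lf (nat_lit 0) (nat_lit 12858378180) (nat_lit 152) (nat_lit 8327530471) (nat_lit 0) (nat_lit 12171446962) (nat_lit 10) (nat_lit 5) (nat_lit 12) (nat_lit 4) (nat_lit 10) (nat_lit 4) (nat_lit 371) (nat_lit 206) (nat_lit 203))) (XT.nd (nat_lit 78) (nat_lit 76) (nat_lit 0) (XT.lf (nat_lit 0) (nat_lit 17012594529) (nat_lit 152) (nat_lit 1114224008) (nat_lit 0) (nat_lit 16109893305) (nat_lit 10) (nat_lit 5) (nat_lit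 12) (nat_lit 4) (nat_lit 10) (nat_lit 4) (nat_lit 372) (nat_lit 206) (nat_lit 202)) (XT.lf (nat_lit 0) (nat_lit 6298548893) (nat_lit 76) (nat_lit 14978272115) (nat_lit 76) (nat_lit 13866085447) (nat_lit 9) (nat_lit 4) (nat_lit 10) (nat_lit 5) (nat_lit 10) (nat_lit 4) (nat_lit 373) (nat_lit 206) (nat_lit 201))))) (XT.nd (nat_lit 234) (nat_lit 152) (nat_lit 0) (XT.nd (nat_lit 78) (nat_lit 0) (nat_lit 0) (XT.lf (nat_lit 0) (nat_lit 13818076336) (nat_lit 76) (nat_lit 11787845689) (nat_lit 76) (nat_lit 10472275096) (nat_lit 9) (nat_lit 4) (nat_lit 10) (nat_lit 5) (nat_lit 10) (nat_lit 4) (nat_lit 374) (nat_lit 206) (nat_lit 200)) (XT.nd (nat_lit 78) (nat_lit 0) (nat_lit 0) (XT.lf (nat_lit 0) (nat_lit 21428753536) (nat_lit 76) (nat_lit 8564002987) (nat_lit 76) (nat_lit 7050972272) (nat_lit 9) (nat_lit 4) (nat_lit 10) (nat_lit 5) (nat_lit 10) (nat_lit 4) (nat_lit 375) (nat_lit 206) (nat_lit 199)) (XT.lf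 (nat_lit 0) (nat_lit 29137230600) (nat_lit 76) (nat_lit 5303927058) (nat_lit 76) (nat_lit 3599187487) (nat_lit 9) (nat_lit 4) (nat_lit 10) (nat_lit 5) (nat_lit 10) (nat_lit 4) (nat_lit 376) (nat_lit 206) (nat_lit 198)))) (XT.nd (nat_lit 156) (nat_lit 0) (nat_lit 0) (XT.nd (nat_lit 78) (nat_lit 152) (nat_lit 0) (XT.lf (nat_lit 0) (nat_lit 36950243091) (nat_lit 76) (nat_lit 2004769293) (nat_lit 76) (nat_lit 113904620) (nat_lit 9) (nat_lit 4) (nat_lit 10) (nat_lit 5) (nat_lit 10) (nat_lit 4) (nat_lit 377) (nat_lit 206) (nat_lit 197)) (XT.lf (nat_lit 0) (nat_lit 3401239756) (nat_lit 152) (nat_lit 35336317979) (nat_lit 0) (nat_lit 1390008050) (nat_lit 7) (nat_lit 5) (nat_lit 9) (nat_lit 4) (nat_lit 7) (nat_lit 4) (nat_lit 378) (nat_lit 206) (nat_lit 196))) (XT.nd (nat_lit 78) (nat_lit 0) (nat_lit 0) (XT.lf (nat_lit 0) (nat_lit 6994525271) (nat_lit 152) (nat_lit 29411218527) (nat_lit 0) (nat_lit 4812962730)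 (nat_lit 7) (nat_lit 5) (nat_lit 9) (nat_lit 4) (nat_lit 7) (nat_lit 4) (nat_lit 379) (nat_lit 206) (nat_lit 195)) (XT.lf (nat_lit 0) (nat_lit 10631066340) (nat_lit 152) (nat_lit 23429332547) (nat_lit 0) (nat_lit 8284134056) (nat_lit 7) (nat_lit 5) (nat_lit 9) (nat_lit 4) (nat_lit 7) (nat_lit 4) (nat_lit 380) (nat_lit 206) (nat_lit 194))))))))
noncomputable def xc9 : XT := (XT.nd (nat_lit 2184) (nat_lit 0) (nat_lit 0) (XT.nd (nat_lit 1092) (nat_lit 76) (nat_lit 0) (XT.nd (nat_lit 546) (nat_lit 152) (nat_lit 0) (XT.nd (nat_lit 234) (nat_lit 76) (nat_lit 0) (XT.nd (nat_lit 78) (nat_lit 0) (nat_lit 0) (XT.lf (nat_lit 0) (nat_lit 14314040523) (nat_lit 152) (nat_lit 17385433152) (nat_lit 0) (nat_lit 11806555089) (nat_lit 7) (nat_lit 5) (nat_lit 9) (nat_lit 4) (nat_lit 7) (nat_lit 4) (nat_lit 381) (nat_lit 206) (nat_lit 193)) (XT.nd (nat_lit 78) (nat_lit 0) (nat_lit 0) (XT.lf (nat_lit 0) (nat_lit 18046665952)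 (nat_lit 152) (nat_lit 11274239262) (nat_lit 0) (nat_lit 15383303675) (nat_lit 7) (nat_lit 5) (nat_lit 9) (nat_lit 4) (nat_lit 7) (nat_lit 4) (nat_lit 382) (nat_lit 206) (nat_lit 192)) (XT.lf (nat_lit 0) (nat_lit 21832204144) (nat_lit 152) (nat_lit 5090411000) (nat_lit 0) (nat_lit 19017505126) (nat_lit 7) (nat_lit 5) (nat_lit 9) (nat_lit 4) (nat_lit 7) (nat_lit 4) (nat_lit 383) (nat_lit 206) (nat_lit 191)))) (XT.nd (nat_lit 156) (nat_lit 0) (nat_lit 0) (XT.nd (nat_lit 78) (nat_lit 0) (nat_lit 0) (XT.lf (nat_lit 0) (nat_lit 1194769229) (nat_lit 76) (nat_lit 24490678476) (nat_lit 76) (nat_lit 21529050583) (nat_lit 6) (nat_lit 4) (nat_lit 7) (nat_lit 5) (nat_lit 7) (nat_lit 4) (nat_lit 384) (nat_lit 206) (nat_lit 190)) (XT.lf (nat_lit 0) (nat_lit 7666429867) (nat_lit 76) (nat_lit 21982563500) (nat_lit 76) (nat_lit 18878286213) (nat_lit 6) (nat_lit 4) (nat_lit 7) (nat_lit 5) (nat_lit 7) (nat_lit 4)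 (nat_lit 385) (nat_lit 206) (nat_lit 189))) (XT.nd (nat_lit 78) (nat_lit 0) (nat_lit 0) (XT.lf (nat_lit 0) (nat_lit 14228916603) (nat_lit 76) (nat_lit 19447481828) (nat_lit 76) (nat_lit 16204709985) (nat_lit 6) (nat_lit 4) (nat_lit 7) (nat_lit 5) (nat_lit 7) (nat_lit 4) (nat_lit 386) (nat_lit 206) (nat_lit 188)) (XT.lf (nat_lit 0) (nat_lit 20887963648) (nat_lit 76) (nat_lit 16883218342) (nat_lit 76) (nat_lit 13505985765) (nat_lit 6) (nat_lit 4) (nat_lit 7) (nat_lit 5) (nat_lit 7) (nat_lit 4) (nat_lit 387) (nat_lit 206) (nat_lit 187))))) (XT.nd (nat_lit 234) (nat_lit 152) (nat_lit 0) (XT.nd (nat_lit 78) (nat_lit 0) (nat_lit 0) (XT.lf (nat_lit 0) (nat_lit 27649389587) (nat_lit 76) (nat_lit 14287532423) (nat_lit 76) (nat_lit 10779755443) (nat_lit 6) (nat_lit 4) (nat_lit 7) (nat_lit 5) (nat_lit 7) (nat_lit 4) (nat_lit 388) (nat_lit 206) (nat_lit 186)) (XT.nd (nat_lit 78) (nat_lit 0) (nat_lit 0) (XT.lf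 (nat_lit 0) (nat_lit 34519102463) (nat_lit 76) (nat_lit 11658155995) (nat_lit 76) (nat_lit 8023636877) (nat_lit 6) (nat_lit 4) (nat_lit 7) (nat_lit 5) (nat_lit 7) (nat_lit 4) (nat_lit 389) (nat_lit 206) (nat_lit 185)) (XT.lf (nat_lit 0) (nat_lit 41503104936) (nat_lit 76) (nat_lit 8992791545) (nat_lit 76) (nat_lit 5235221808) (nat_lit 6) (nat_lit 4) (nat_lit 7) (nat_lit 5) (nat_lit 7) (nat_lit 4) (nat_lit 390) (nat_lit 206) (nat_lit 184)))) (XT.nd (nat_lit 156) (nat_lit 76) (nat_lit 0) (XT.nd (nat_lit 78) (nat_lit 76) (nat_lit 0) (XT.lf (nat_lit 0) (nat_lit 48607499533) (nat_lit 76) (nat_lit 6289110115) (nat_lit 76) (nat_lit 2412073757) (nat_lit 6) (nat_lit 4) (nat_lit 7) (nat_lit 5) (nat_lit 7) (nat_lit 4) (nat_lit 391) (nat_lit 206) (nat_lit 183)) (XT.lf (nat_lit 0) (nat_lit 439526662) (nat_lit 152) (nat_lit 3100784243) (nat_lit 76) (nat_lit 55394528957) (nat_lit 5) (nat_lit 5) (nat_lit 7) (nat_lit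 5) (nat_lit 6) (nat_lit 4) (nat_lit 392) (nat_lit 206) (nat_lit 182))) (XT.nd (nat_lit 78) (nat_lit 0) (nat_lit 0) (XT.lf (nat_lit 0) (nat_lit 2609749608) (nat_lit 76) (nat_lit 698320207) (nat_lit 152) (nat_lit 57301608516) (nat_lit 4) (nat_lit 5) (nat_lit 5) (nat_lit 5) (nat_lit 6) (nat_lit 4) (nat_lit 393) (nat_lit 206) (nat_lit 181)) (XT.lf (nat_lit 0) (nat_lit 6270635392) (nat_lit 152) (nat_lit 53885457059) (nat_lit 0) (nat_lit 2178440247) (nat_lit 4) (nat_lit 5) (nat_lit 6) (nat_lit 4) (nat_lit 4) (nat_lit 4) (nat_lit 394) (nat_lit 206) (nat_lit 180)))))) (XT.nd (nat_lit 546) (nat_lit 76) (nat_lit 0) (XT.nd (nat_lit 234) (nat_lit 0) (nat_lit 0) (XT.nd (nat_lit 78) (nat_lit 0) (nat_lit 0) (XT.lf (nat_lit 0) (nat_lit 9285223483) (nat_lit 152) (nat_lit 49737048916) (nat_lit 0) (nat_lit 5089975381) (nat_lit 4) (nat_lit 5) (nat_lit 6) (nat_lit 4) (nat_lit 4) (nat_lit 4) (nat_lit 395) (nat_lit 206)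 (nat_lit 179)) (XT.nd (nat_lit 78) (nat_lit 0) (nat_lit 0) (XT.lf (nat_lit 0) (nat_lit 12347755512) (nat_lit 152) (nat_lit 45544366788) (nat_lit 0) (nat_lit 8052455996) (nat_lit 4) (nat_lit 5) (nat_lit 6) (nat_lit 4) (nat_lit 4) (nat_lit 4) (nat_lit 396) (nat_lit 206) (nat_lit 178)) (XT.lf (nat_lit 0) (nat_lit 15460907479) (nat_lit 152) (nat_lit 41303747168) (nat_lit 0) (nat_lit 11068470668) (nat_lit 4) (nat_lit 5) (nat_lit 6) (nat_lit 4) (nat_lit 4) (nat_lit 4) (nat_lit 397) (nat_lit 206) (nat_lit 177)))) (XT.nd (nat_lit 156) (nat_lit 0) (nat_lit 0) (XT.nd (nat_lit 78) (nat_lit 0) (nat_lit 0) (XT.lf (nat_lit 0) (nat_lit 18627399613) (nat_lit 152) (nat_lit 37011484660) (nat_lit 0) (nat_lit 14140654748) (nat_lit 4) (nat_lit 5) (nat_lit 6) (nat_lit 4) (nat_lit 4) (nat_lit 4) (nat_lit 398) (nat_lit 206) (nat_lit 176)) (XT.lf (nat_lit 0) (nat_lit 21849998753) (nat_lit 152) (nat_lit 32663828743) (nat_lit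 0) (nat_lit 17271692670) (nat_lit 4) (nat_lit 5) (nat_lit 6) (nat_lit 4) (nat_lit 4) (nat_lit 4) (nat_lit 399) (nat_lit 206) (nat_lit 175))) (XT.nd (nat_lit 78) (nat_lit 0) (nat_lit 0) (XT.lf (nat_lit 0) (nat_lit 25131520761) (nat_lit 152) (nat_lit 28256980495) (nat_lit 0) (nat_lit 20464320293) (nat_lit 4) (nat_lit 5) (nat_lit 6) (nat_lit 4) (nat_lit 4) (nat_lit 4) (nat_lit 400) (nat_lit 206) (nat_lit 174)) (XT.lf (nat_lit 0) (nat_lit 28474832987) (nat_lit 152) (nat_lit 23787089271) (nat_lit 0) (nat_lit 23721327290) (nat_lit 4) (nat_lit 5) (nat_lit 6) (nat_lit 4) (nat_lit 4) (nat_lit 4) (nat_lit 401) (nat_lit 206) (nat_lit 173))))) (XT.nd (nat_lit 234) (nat_lit 76) (nat_lit 0) (XT.nd (nat_lit 78) (nat_lit 0) (nat_lit 0) (XT.lf (nat_lit 0) (nat_lit 31882856771) (nat_lit 152) (nat_lit 19250249340) (nat_lit 0) (nat_lit 27045559590) (nat_lit 4) (nat_lit 5) (nat_lit 6) (nat_lit 4) (nat_lit 4) (nat_lit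 4) (nat_lit 402) (nat_lit 206) (nat_lit 172)) (XT.nd (nat_lit 78) (nat_lit 0) (nat_lit 0) (XT.lf (nat_lit 0) (nat_lit 35358569999) (nat_lit 152) (nat_lit 14642496475) (nat_lit 0) (nat_lit 30439921862) (nat_lit 4) (nat_lit 5) (nat_lit 6) (nat_lit 4) (nat_lit 4) (nat_lit 4) (nat_lit 403) (nat_lit 206) (nat_lit 171)) (XT.lf (nat_lit 0) (nat_lit 38905009702) (nat_lit 152) (nat_lit 9959804484) (nat_lit 0) (nat_lit 33907380055) (nat_lit 4) (nat_lit 5) (nat_lit 6) (nat_lit 4) (nat_lit 4) (nat_lit 4) (nat_lit 404) (nat_lit 206) (nat_lit 170)))) (XT.nd (nat_lit 156) (nat_lit 76) (nat_lit 0) (XT.nd (nat_lit 78) (nat_lit 0) (nat_lit 0) (XT.lf (nat_lit 0) (nat_lit 42525274710) (nat_lit 152) (nat_lit 5198081693) (nat_lit 0) (nat_lit 37450963984) (nat_lit 4) (nat_lit 5) (nat_lit 6) (nat_lit 4) (nat_lit 4) (nat_lit 4) (nat_lit 405) (nat_lit 206) (nat_lit 169)) (XT.lf (nat_lit 0) (nat_lit 46222528361) (nat_lit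 152) (nat_lit 353167374) (nat_lit 0) (nat_lit 41073769987) (nat_lit 4) (nat_lit 5) (nat_lit 6) (nat_lit 4) (nat_lit 4) (nat_lit 4) (nat_lit 406) (nat_lit 206) (nat_lit 168))) (XT.nd (nat_lit 78) (nat_lit 0) (nat_lit 0) (XT.lf (nat_lit 0) (nat_lit 4670306392) (nat_lit 76) (nat_lit 45374588716) (nat_lit 76) (nat_lit 40153551071) (nat_lit 3) (nat_lit 4) (nat_lit 4) (nat_lit 5) (nat_lit 4) (nat_lit 4) (nat_lit 407) (nat_lit 206) (nat_lit 167)) (XT.lf (nat_lit 0) (nat_lit 9794369343) (nat_lit 76) (nat_lit 44160774256) (nat_lit 76) (nat_lit 38869562563) (nat_lit 3) (nat_lit 4) (nat_lit 4) (nat_lit 5) (nat_lit 4) (nat_lit 4) (nat_lit 408) (nat_lit 206) (nat_lit 166))))))) (XT.nd (nat_lit 38064) (nat_lit 0) (nat_lit 228) (XT.nd (nat_lit 37518) (nat_lit 0) (nat_lit 456) (XT.nd (nat_lit 234) (nat_lit 0) (nat_lit 0) (XT.nd (nat_lit 78) (nat_lit 0) (nat_lit 0) (XT.lf (nat_lit 0) (nat_lit 15016470091) (nat_lit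 76) (nat_lit 42936758039) (nat_lit 76) (nat_lit 37577416201) (nat_lit 3) (nat_lit 4) (nat_lit 4) (nat_lit 5) (nat_lit 4) (nat_lit 4) (nat_lit 409) (nat_lit 206) (nat_lit 165)) (XT.nd (nat_lit 78) (nat_lit 0) (nat_lit 0) (XT.lf (nat_lit 0) (nat_lit 20341171638) (nat_lit 76) (nat_lit 41701470537) (nat_lit 76) (nat_lit 36275982927) (nat_lit 3) (nat_lit 4) (nat_lit 4) (nat_lit 5) (nat_lit 4) (nat_lit 4) (nat_lit 410) (nat_lit 206) (nat_lit 164)) (XT.lf (nat_lit 0) (nat_lit 25773126634) (nat_lit 76) (nat_lit 40453832371) (nat_lit 76) (nat_lit 34964125566) (nat_lit 3) (nat_lit 4) (nat_lit 4) (nat_lit 5) (nat_lit 4) (nat_lit 4) (nat_lit 411) (nat_lit 206) (nat_lit 163)))) (XT.nd (nat_lit 37128) (nat_lit 0) (nat_lit 532) (XT.nd (nat_lit 37050) (nat_lit 0) (nat_lit 684) (XT.lf (nat_lit 0) (nat_lit 31317081449) (nat_lit 76) (nat_lit 39192753373) (nat_lit 76) (nat_lit 33640697834) (nat_lit 3) (nat_lit 4)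 (nat_lit 4) (nat_lit 5) (nat_lit 4) (nat_lit 4) (nat_lit 412) (nat_lit 206) (nat_lit 162)) (XT.lf (nat_lit 0) (nat_lit 7735519190) (nat_lit 76) (nat_lit 3470969328) (nat_lit 76) (nat_lit 3470969328) (nat_lit 12) (nat_lit 4) (nat_lit 13) (nat_lit 5) (nat_lit 13) (nat_lit 4) (nat_lit 366) (nat_lit 207) (nat_lit 207))) (XT.nd (nat_lit 78) (nat_lit 152) (nat_lit 0) (XT.lf (nat_lit 0) (nat_lit 23741910968) (nat_lit 76) (nat_lit 3307985699) (nat_lit 76) (nat_lit 3057849124) (nat_lit 12) (nat_lit 4) (nat_lit 13) (nat_lit 5) (nat_lit 13) (nat_lit 4) (nat_lit 367) (nat_lit 207) (nat_lit 206)) (XT.lf (nat_lit 0) (nat_lit 857593475) (nat_lit 152) (nat_lit 29648355528) (nat_lit 0) (nat_lit 378964720) (nat_lit 10) (nat_lit 5) (nat_lit 12) (nat_lit 4) (nat_lit 10) (nat_lit 4) (nat_lit 368) (nat_lit 207) (nat_lit 205))))) (XT.nd (nat_lit 234) (nat_lit 76) (nat_lit 0) (XT.nd (nat_lit 78) (nat_lit 0) (nat_lit 0)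 (XT.lf (nat_lit 0) (nat_lit 4844579457) (nat_lit 152) (nat_lit 22702423453) (nat_lit 0) (nat_lit 4137040302) (nat_lit 10) (nat_lit 5) (nat_lit 12) (nat_lit 4) (nat_lit 10) (nat_lit 4) (nat_lit 369) (nat_lit 207) (nat_lit 204)) (XT.nd (nat_lit 78) (nat_lit 0) (nat_lit 0) (XT.lf (nat_lit 0) (nat_lit 8871435795) (nat_lit 152) (nat_lit 15696469809) (nat_lit 0) (nat_lit 7941653534) (nat_lit 10) (nat_lit 5) (nat_lit 12) (nat_lit 4) (nat_lit 10) (nat_lit 4) (nat_lit 370) (nat_lit 207) (nat_lit 203)) (XT.lf (nat_lit 0) (nat_lit 12941681101) (nat_lit 152) (nat_lit 8624372888) (nat_lit 0) (nat_lit 11796128834) (nat_lit 10) (nat_lit 5) (nat_lit 12) (nat_lit 4) (nat_lit 10) (nat_lit 4) (nat_lit 371) (nat_lit 207) (nat_lit 202)))) (XT.nd (nat_lit 156) (nat_lit 0) (nat_lit 0) (XT.nd (nat_lit 78) (nat_lit 76) (nat_lit 0) (XT.lf (nat_lit 0) (nat_lit 17058871901) (nat_lit 152) (nat_lit 1479953189) (nat_lit 0) (nat_lit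 15703834190) (nat_lit 10) (nat_lit 5) (nat_lit 12) (nat_lit 4) (nat_lit 10) (nat_lit 4) (nat_lit 372) (nat_lit 207) (nat_lit 201)) (XT.lf (nat_lit 0) (nat_lit 5857329582) (nat_lit 76) (nat_lit 15425580392) (nat_lit 76) (nat_lit 13867158756) (nat_lit 9) (nat_lit 4) (nat_lit 10) (nat_lit 5) (nat_lit 10) (nat_lit 4) (nat_lit 373) (nat_lit 207) (nat_lit 200))) (XT.nd (nat_lit 78) (nat_lit 0) (nat_lit 0) (XT.lf (nat_lit 0) (nat_lit 13310632362) (nat_lit 76) (nat_lit 12265841905) (nat_lit 76) (nat_lit 10509960148) (nat_lit 9) (nat_lit 4) (nat_lit 10) (nat_lit 5) (nat_lit 10) (nat_lit 4) (nat_lit 374) (nat_lit 207) (nat_lit 199)) (XT.lf (nat_lit 0) (nat_lit 20857013773) (nat_lit 76) (nat_lit 9071793319) (nat_lit 76) (nat_lit 7124202705) (nat_lit 9) (nat_lit 4) (nat_lit 10) (nat_lit 5) (nat_lit 10) (nat_lit 4) (nat_lit 375) (nat_lit 207) (nat_lit 198)))))) (XT.nd (nat_lit 546) (nat_lit 76) (nat_lit 0)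 (XT.nd (nat_lit 234) (nat_lit 0) (nat_lit 0) (XT.nd (nat_lit 78) (nat_lit 152) (nat_lit 0) (XT.lf (nat_lit 0) (nat_lit 28503067741) (nat_lit 76) (nat_lit 5840643716) (nat_lit 76) (nat_lit 3706927999) (nat_lit 9) (nat_lit 4) (nat_lit 10) (nat_lit 5) (nat_lit 10) (nat_lit 4) (nat_lit 376) (nat_lit 207) (nat_lit 197)) (XT.nd (nat_lit 78) (nat_lit 152) (nat_lit 0) (XT.lf (nat_lit 0) (nat_lit 36255475284) (nat_lit 76) (nat_lit 2569569763) (nat_lit 76) (nat_lit 255150063) (nat_lit 9) (nat_lit 4) (nat_lit 10) (nat_lit 5) (nat_lit 10) (nat_lit 4) (nat_lit 377) (nat_lit 207) (nat_lit 196)) (XT.lf (nat_lit 0) (nat_lit 3217582334) (nat_lit 152) (nat_lit 36122422946) (nat_lit 0) (nat_lit 800242081) (nat_lit 7) (nat_lit 5) (nat_lit 9) (nat_lit 4) (nat_lit 7) (nat_lit 4) (nat_lit 378) (nat_lit 207) (nat_lit 195)))) (XT.nd (nat_lit 156) (nat_lit 0) (nat_lit 0) (XT.nd (nat_lit 78) (nat_lit 0) (nat_lit 0) (XT.lf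 (nat_lit 0) (nat_lit 6779073262) (nat_lit 152) (nat_lit 30256912881) (nat_lit 0) (nat_lit 4196363266) (nat_lit 7) (nat_lit 5) (nat_lit 9) (nat_lit 4) (nat_lit 7) (nat_lit 4) (nat_lit 379) (nat_lit 207) (nat_lit 194)) (XT.lf (nat_lit 0) (nat_lit 10384745800) (nat_lit 152) (nat_lit 24332880677) (nat_lit 0) (nat_lit 7641482655) (nat_lit 7) (nat_lit 5) (nat_lit 9) (nat_lit 4) (nat_lit 7) (nat_lit 4) (nat_lit 380) (nat_lit 207) (nat_lit 193))) (XT.nd (nat_lit 78) (nat_lit 0) (nat_lit 0) (XT.lf (nat_lit 0) (nat_lit 14037750535) (nat_lit 152) (nat_lit 18345149995) (nat_lit 0) (nat_lit 11138610546) (nat_lit 7) (nat_lit 5) (nat_lit 9) (nat_lit 4) (nat_lit 7) (nat_lit 4) (nat_lit 381) (nat_lit 207) (nat_lit 192)) (XT.lf (nat_lit 0) (nat_lit 17741279412) (nat_lit 152) (nat_lit 12288488836) (nat_lit 0) (nat_lit 14690802683) (nat_lit 7) (nat_lit 5) (nat_lit 9) (nat_lit 4) (nat_lit 7) (nat_lit 4) (nat_lit 382)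 (nat_lit 207) (nat_lit 191))))) (XT.nd (nat_lit 234) (nat_lit 0) (nat_lit 0) (XT.nd (nat_lit 78) (nat_lit 76) (nat_lit 0) (XT.lf (nat_lit 0) (nat_lit 21498568526) (nat_lit 152) (nat_lit 6157604974) (nat_lit 0) (nat_lit 18301162922) (nat_lit 7) (nat_lit 5) (nat_lit 9) (nat_lit 4) (nat_lit 7) (nat_lit 4) (nat_lit 383) (nat_lit 207) (nat_lit 190)) (XT.nd (nat_lit 78) (nat_lit 0) (nat_lit 0) (XT.lf (nat_lit 0) (nat_lit 53910666) (nat_lit 76) (nat_lit 25259508501) (nat_lit 76) (nat_lit 21919453503) (nat_lit 6) (nat_lit 4) (nat_lit 7) (nat_lit 5) (nat_lit 7) (nat_lit 4) (nat_lit 384) (nat_lit 207) (nat_lit 189)) (XT.lf (nat_lit 0) (nat_lit 6474672919) (nat_lit 76) (nat_lit 22775175176) (nat_lit 76) (nat_lit 19296625622) (nat_lit 6) (nat_lit 4) (nat_lit 7) (nat_lit 5) (nat_lit 7) (nat_lit 4) (nat_lit 385) (nat_lit 207) (nat_lit 188)))) (XT.nd (nat_lit 156) (nat_lit 0) (nat_lit 0) (XT.nd (nat_lit 78) (nat_lit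 0) (nat_lit 0) (XT.lf (nat_lit 0) (nat_lit 12987743748) (nat_lit 76) (nat_lit 20263182488) (nat_lit 76) (nat_lit 16650172199) (nat_lit 6) (nat_lit 4) (nat_lit 7) (nat_lit 5) (nat_lit 7) (nat_lit 4) (nat_lit 386) (nat_lit 207) (nat_lit 187)) (XT.lf (nat_lit 0) (nat_lit 19598814183) (nat_lit 76) (nat_lit 17721335490) (nat_lit 76) (nat_lit 13977780799) (nat_lit 6) (nat_lit 4) (nat_lit 7) (nat_lit 5) (nat_lit 7) (nat_lit 4) (nat_lit 387) (nat_lit 207) (nat_lit 186))) (XT.nd (nat_lit 78) (nat_lit 0) (nat_lit 0) (XT.lf (nat_lit 0) (nat_lit 26313660890) (nat_lit 76) (nat_lit 15147413152) (nat_lit 76) (nat_lit 11277116322) (nat_lit 6) (nat_lit 4) (nat_lit 7) (nat_lit 5) (nat_lit 7) (nat_lit 4) (nat_lit 388) (nat_lit 207) (nat_lit 185)) (XT.lf (nat_lit 0) (nat_lit 33138151209) (nat_lit 76) (nat_lit 12539166414) (nat_lit 76) (nat_lit 8545818965) (nat_lit 6) (nat_lit 4) (nat_lit 7) (nat_lit 5) (nat_lit 7)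 (nat_lit 4) (nat_lit 389) (nat_lit 207) (nat_lit 184))))))))
noncomputable def xc10 : XT := (XT.nd (nat_lit 38922) (nat_lit 0) (nat_lit 76) (XT.nd (nat_lit 1014) (nat_lit 76) (nat_lit 0) (XT.nd (nat_lit 468) (nat_lit 0) (nat_lit 0) (XT.nd (nat_lit 234) (nat_lit 152) (nat_lit 0) (XT.nd (nat_lit 78) (nat_lit 0) (nat_lit 0) (XT.lf (nat_lit 0) (nat_lit 40078248288) (nat_lit 76) (nat_lit 9894316227) (nat_lit 76) (nat_lit 5781502157) (nat_lit 6) (nat_lit 4) (nat_lit 7) (nat_lit 5) (nat_lit 7) (nat_lit 4) (nat_lit 390) (nat_lit 207) (nat_lit 183)) (XT.nd (nat_lit 78) (nat_lit 0) (nat_lit 0) (XT.lf (nat_lit 0) (nat_lit 47140016289) (nat_lit 76) (nat_lit 7210551556) (nat_lit 76) (nat_lit 2981750475) (nat_lit 6) (nat_lit 4) (nat_lit 7) (nat_lit 5) (nat_lit 7) (nat_lit 4) (nat_lit 391) (nat_lit 207) (nat_lit 182)) (XT.lf (nat_lit 0) (nat_lit 54329625689) (nat_lit 76) (nat_lit 4485527364) (nat_lit 76) (nat_lit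 144117535) (nat_lit 6) (nat_lit 4) (nat_lit 7) (nat_lit 5) (nat_lit 7) (nat_lit 4) (nat_lit 392) (nat_lit 207) (nat_lit 181)))) (XT.nd (nat_lit 78) (nat_lit 0) (nat_lit 0) (XT.lf (nat_lit 0) (nat_lit 1010451441) (nat_lit 76) (nat_lit 1679790012) (nat_lit 152) (nat_lit 57945023848) (nat_lit 4) (nat_lit 5) (nat_lit 5) (nat_lit 5) (nat_lit 6) (nat_lit 4) (nat_lit 393) (nat_lit 207) (nat_lit 180)) (XT.nd (nat_lit 78) (nat_lit 0) (nat_lit 0) (XT.lf (nat_lit 0) (nat_lit 5621811698) (nat_lit 152) (nat_lit 55541589290) (nat_lit 0) (nat_lit 1197653197) (nat_lit 4) (nat_lit 5) (nat_lit 6) (nat_lit 4) (nat_lit 4) (nat_lit 4) (nat_lit 394) (nat_lit 207) (nat_lit 179)) (XT.lf (nat_lit 0) (nat_lit 8615466929) (nat_lit 152) (nat_lit 51432677827) (nat_lit 0) (nat_lit 4091257014) (nat_lit 4) (nat_lit 5) (nat_lit 6) (nat_lit 4) (nat_lit 4) (nat_lit 4) (nat_lit 395) (nat_lit 207) (nat_lit 178))))) (XT.nd (nat_lit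 234) (nat_lit 0) (nat_lit 0) (XT.nd (nat_lit 78) (nat_lit 0) (nat_lit 0) (XT.lf (nat_lit 0) (nat_lit 11657675794) (nat_lit 152) (nat_lit 47278341990) (nat_lit 0) (nat_lit 7036328583) (nat_lit 4) (nat_lit 5) (nat_lit 6) (nat_lit 4) (nat_lit 4) (nat_lit 4) (nat_lit 396) (nat_lit 207) (nat_lit 177)) (XT.nd (nat_lit 78) (nat_lit 0) (nat_lit 0) (XT.lf (nat_lit 0) (nat_lit 14751096534) (nat_lit 152) (nat_lit 43074951780) (nat_lit 0) (nat_lit 10035441269) (nat_lit 4) (nat_lit 5) (nat_lit 6) (nat_lit 4) (nat_lit 4) (nat_lit 4) (nat_lit 397) (nat_lit 207) (nat_lit 176)) (XT.lf (nat_lit 0) (nat_lit 17898432137) (nat_lit 152) (nat_lit 38818834329) (nat_lit 0) (nat_lit 13091215655) (nat_lit 4) (nat_lit 5) (nat_lit 6) (nat_lit 4) (nat_lit 4) (nat_lit 4) (nat_lit 398) (nat_lit 207) (nat_lit 175)))) (XT.nd (nat_lit 156) (nat_lit 0) (nat_lit 0) (XT.nd (nat_lit 78) (nat_lit 0) (nat_lit 0) (XT.lf (nat_lit 0) (nat_lit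 21102432702) (nat_lit 152) (nat_lit 34506270700) (nat_lit 0) (nat_lit 16206321834) (nat_lit 4) (nat_lit 5) (nat_lit 6) (nat_lit 4) (nat_lit 4) (nat_lit 4) (nat_lit 399) (nat_lit 207) (nat_lit 174)) (XT.lf (nat_lit 0) (nat_lit 24365897842) (nat_lit 152) (nat_lit 30133492635) (nat_lit 0) (nat_lit 19383481745) (nat_lit 4) (nat_lit 5) (nat_lit 6) (nat_lit 4) (nat_lit 4) (nat_lit 4) (nat_lit 400) (nat_lit 207) (nat_lit 173))) (XT.nd (nat_lit 78) (nat_lit 0) (nat_lit 0) (XT.lf (nat_lit 0) (nat_lit 27691679128) (nat_lit 152) (nat_lit 25696679258) (nat_lit 0) (nat_lit 22625471547) (nat_lit 4) (nat_lit 5) (nat_lit 6) (nat_lit 4) (nat_lit 4) (nat_lit 4) (nat_lit 401) (nat_lit 207) (nat_lit 172)) (XT.lf (nat_lit 0) (nat_lit 31082682582) (nat_lit 152) (nat_lit 21191953744) (nat_lit 0) (nat_lit 25935124046) (nat_lit 4) (nat_lit 5) (nat_lit 6) (nat_lit 4) (nat_lit 4) (nat_lit 4) (nat_lit 402) (nat_lit 207) (nat_lit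 171)))))) (XT.nd (nat_lit 546) (nat_lit 0) (nat_lit 0) (XT.nd (nat_lit 234) (nat_lit 76) (nat_lit 0) (XT.nd (nat_lit 78) (nat_lit 0) (nat_lit 0) (XT.lf (nat_lit 0) (nat_lit 34541871218) (nat_lit 152) (nat_lit 16615379923) (nat_lit 0) (nat_lit 29315331171) (nat_lit 4) (nat_lit 5) (nat_lit 6) (nat_lit 4) (nat_lit 4) (nat_lit 4) (nat_lit 403) (nat_lit 207) (nat_lit 170)) (XT.nd (nat_lit 78) (nat_lit 0) (nat_lit 0) (XT.lf (nat_lit 0) (nat_lit 38072267627) (nat_lit 152) (nat_lit 11962958847) (nat_lit 0) (nat_lit 32769046502) (nat_lit 4) (nat_lit 5) (nat_lit 6) (nat_lit 4) (nat_lit 4) (nat_lit 4) (nat_lit 404) (nat_lit 207) (nat_lit 169)) (XT.lf (nat_lit 0) (nat_lit 41676956622) (nat_lit 152) (nat_lit 7230625296) (nat_lit 0) (nat_lit 36299287848) (nat_lit 4) (nat_lit 5) (nat_lit 6) (nat_lit 4) (nat_lit 4) (nat_lit 4) (nat_lit 405) (nat_lit 207) (nat_lit 168)))) (XT.nd (nat_lit 156) (nat_lit 0) (nat_lit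 0) (XT.nd (nat_lit 78) (nat_lit 76) (nat_lit 0) (XT.lf (nat_lit 0) (nat_lit 45359087931) (nat_lit 152) (nat_lit 2414244219) (nat_lit 0) (nat_lit 39909139887) (nat_lit 4) (nat_lit 5) (nat_lit 6) (nat_lit 4) (nat_lit 4) (nat_lit 4) (nat_lit 406) (nat_lit 207) (nat_lit 167)) (XT.lf (nat_lit 0) (nat_lit 2539956572) (nat_lit 76) (nat_lit 46606337993) (nat_lit 76) (nat_lit 41086215900) (nat_lit 3) (nat_lit 4) (nat_lit 4) (nat_lit 5) (nat_lit 4) (nat_lit 4) (nat_lit 407) (nat_lit 207) (nat_lit 166))) (XT.nd (nat_lit 78) (nat_lit 0) (nat_lit 0) (XT.lf (nat_lit 0) (nat_lit 7636588937) (nat_lit 76) (nat_lit 45405436182) (nat_lit 76) (nat_lit 39817183944) (nat_lit 3) (nat_lit 4) (nat_lit 4) (nat_lit 5) (nat_lit 4) (nat_lit 4) (nat_lit 408) (nat_lit 207) (nat_lit 165)) (XT.lf (nat_lit 0) (nat_lit 12832058047) (nat_lit 76) (nat_lit 44193956517) (nat_lit 76) (nat_lit 38539558508) (nat_lit 3) (nat_lit 4) (nat_lit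 4) (nat_lit 5) (nat_lit 4) (nat_lit 4) (nat_lit 409) (nat_lit 207) (nat_lit 164))))) (XT.nd (nat_lit 37050) (nat_lit 0) (nat_lit 684) (XT.nd (nat_lit 78) (nat_lit 0) (nat_lit 0) (XT.lf (nat_lit 0) (nat_lit 18130903635) (nat_lit 76) (nat_lit 42970840425) (nat_lit 76) (nat_lit 37252223220) (nat_lit 3) (nat_lit 4) (nat_lit 4) (nat_lit 5) (nat_lit 4) (nat_lit 4) (nat_lit 410) (nat_lit 207) (nat_lit 163)) (XT.nd (nat_lit 78) (nat_lit 0) (nat_lit 0) (XT.lf (nat_lit 0) (nat_lit 23537755758) (nat_lit 76) (nat_lit 41735019162) (nat_lit 76) (nat_lit 35954053223) (nat_lit 3) (nat_lit 4) (nat_lit 4) (nat_lit 5) (nat_lit 4) (nat_lit 4) (nat_lit 411) (nat_lit 207) (nat_lit 162)) (XT.lf (nat_lit 0) (nat_lit 29057338852) (nat_lit 76) (nat_lit 40485412885) (nat_lit 76) (nat_lit 34643914195) (nat_lit 3) (nat_lit 4) (nat_lit 4) (nat_lit 5) (nat_lit 4) (nat_lit 4) (nat_lit 412) (nat_lit 207) (nat_lit 161)))) (XT.nd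 (nat_lit 156) (nat_lit 0) (nat_lit 0) (XT.nd (nat_lit 78) (nat_lit 76) (nat_lit 0) (XT.lf (nat_lit 0) (nat_lit 6801418517) (nat_lit 152) (nat_lit 357317240) (nat_lit 0) (nat_lit 6801418517) (nat_lit 13) (nat_lit 5) (nat_lit 15) (nat_lit 4) (nat_lit 13) (nat_lit 4) (nat_lit 364) (nat_lit 208) (nat_lit 208)) (XT.lf (nat_lit 0) (nat_lit 7290220856) (nat_lit 76) (nat_lit 10796951111) (nat_lit 76) (nat_lit 10539310440) (nat_lit 12) (nat_lit 4) (nat_lit 13) (nat_lit 5) (nat_lit 13) (nat_lit 4) (nat_lit 365) (nat_lit 208) (nat_lit 207))) (XT.nd (nat_lit 78) (nat_lit 0) (nat_lit 0) (XT.lf (nat_lit 0) (nat_lit 15394501699) (nat_lit 76) (nat_lit 7234722175) (nat_lit 76) (nat_lit 6726944929) (nat_lit 12) (nat_lit 4) (nat_lit 13) (nat_lit 5) (nat_lit 13) (nat_lit 4) (nat_lit 366) (nat_lit 208) (nat_lit 206)) (XT.lf (nat_lit 0) (nat_lit 23591066830) (nat_lit 76) (nat_lit 3634888487) (nat_lit 76) (nat_lit 2884260198)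 (nat_lit 12) (nat_lit 4) (nat_lit 13) (nat_lit 5) (nat_lit 13) (nat_lit 4) (nat_lit 367) (nat_lit 208) (nat_lit 205))))))) (XT.nd (nat_lit 1092) (nat_lit 228) (nat_lit 0) (XT.nd (nat_lit 546) (nat_lit 152) (nat_lit 0) (XT.nd (nat_lit 234) (nat_lit 76) (nat_lit 0) (XT.nd (nat_lit 78) (nat_lit 0) (nat_lit 0) (XT.lf (nat_lit 0) (nat_lit 982675890) (nat_lit 152) (nat_lit 29881021251) (nat_lit 0) (nat_lit 25000161) (nat_lit 10) (nat_lit 5) (nat_lit 12) (nat_lit 4) (nat_lit 10) (nat_lit 4) (nat_lit 368) (nat_lit 208) (nat_lit 204)) (XT.nd (nat_lit 78) (nat_lit 0) (nat_lit 0) (XT.lf (nat_lit 0) (nat_lit 4930381466) (nat_lit 152) (nat_lit 23008171143) (nat_lit 0) (nat_lit 3750462630) (nat_lit 10) (nat_lit 5) (nat_lit 12) (nat_lit 4) (nat_lit 10) (nat_lit 4) (nat_lit 369) (nat_lit 208) (nat_lit 203)) (XT.lf (nat_lit 0) (nat_lit 8919101488) (nat_lit 152) (nat_lit 16073170865) (nat_lit 0) (nat_lit 7523412646)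 (nat_lit 10) (nat_lit 5) (nat_lit 12) (nat_lit 4) (nat_lit 10) (nat_lit 4) (nat_lit 370) (nat_lit 208) (nat_lit 202)))) (XT.nd (nat_lit 156) (nat_lit 76) (nat_lit 0) (XT.nd (nat_lit 78) (nat_lit 0) (nat_lit 0) (XT.lf (nat_lit 0) (nat_lit 12952321245) (nat_lit 152) (nat_lit 9069960707) (nat_lit 0) (nat_lit 11347146959) (nat_lit 10) (nat_lit 5) (nat_lit 12) (nat_lit 4) (nat_lit 10) (nat_lit 4) (nat_lit 371) (nat_lit 208) (nat_lit 201)) (XT.lf (nat_lit 0) (nat_lit 17033564909) (nat_lit 152) (nat_lit 1992421360) (nat_lit 0) (nat_lit 15225006698) (nat_lit 10) (nat_lit 5) (nat_lit 12) (nat_lit 4) (nat_lit 10) (nat_lit 4) (nat_lit 372) (nat_lit 208) (nat_lit 200))) (XT.nd (nat_lit 78) (nat_lit 0) (nat_lit 0) (XT.lf (nat_lit 0) (nat_lit 5268437627) (nat_lit 76) (nat_lit 15948604434) (nat_lit 76) (nat_lit 13942586102) (nat_lit 9) (nat_lit 4) (nat_lit 10) (nat_lit 5) (nat_lit 10) (nat_lit 4) (nat_lit 373)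 (nat_lit 208) (nat_lit 199)) (XT.lf (nat_lit 0) (nat_lit 12657444617) (nat_lit 76) (nat_lit 12818660063) (nat_lit 76) (nat_lit 10620932875) (nat_lit 9) (nat_lit 4) (nat_lit 10) (nat_lit 5) (nat_lit 10) (nat_lit 4) (nat_lit 374) (nat_lit 208) (nat_lit 198))))) (XT.nd (nat_lit 234) (nat_lit 152) (nat_lit 0) (XT.nd (nat_lit 78) (nat_lit 0) (nat_lit 0) (XT.lf (nat_lit 0) (nat_lit 20141402932) (nat_lit 76) (nat_lit 9653537802) (nat_lit 76) (nat_lit 7269685511) (nat_lit 9) (nat_lit 4) (nat_lit 10) (nat_lit 5) (nat_lit 10) (nat_lit 4) (nat_lit 375) (nat_lit 208) (nat_lit 197)) (XT.nd (nat_lit 78) (nat_lit 0) (nat_lit 0) (XT.lf (nat_lit 0) (nat_lit 27726851953) (nat_lit 76) (nat_lit 6450472011) (nat_lit 76) (nat_lit 3885915737) (nat_lit 9) (nat_lit 4) (nat_lit 10) (nat_lit 5) (nat_lit 10) (nat_lit 4) (nat_lit 376) (nat_lit 208) (nat_lit 196)) (XT.lf (nat_lit 0) (nat_lit 35420419741) (nat_lit 76) (nat_lit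 3206663895) (nat_lit 76) (nat_lit 466666860) (nat_lit 9) (nat_lit 4) (nat_lit 10) (nat_lit 5) (nat_lit 10) (nat_lit 4) (nat_lit 377) (nat_lit 208) (nat_lit 195)))) (XT.nd (nat_lit 156) (nat_lit 0) (nat_lit 0) (XT.nd (nat_lit 78) (nat_lit 0) (nat_lit 0) (XT.lf (nat_lit 0) (nat_lit 2963872178) (nat_lit 152) (nat_lit 37053077520) (nat_lit 0) (nat_lit 138311139) (nat_lit 7) (nat_lit 5) (nat_lit 9) (nat_lit 4) (nat_lit 7) (nat_lit 4) (nat_lit 378) (nat_lit 208) (nat_lit 194)) (XT.lf (nat_lit 0) (nat_lit 6494494575) (nat_lit 152) (nat_lit 31245421230) (nat_lit 0) (nat_lit 3508380387) (nat_lit 7) (nat_lit 5) (nat_lit 9) (nat_lit 4) (nat_lit 7) (nat_lit 4) (nat_lit 379) (nat_lit 208) (nat_lit 193))) (XT.nd (nat_lit 78) (nat_lit 0) (nat_lit 0) (XT.lf (nat_lit 0) (nat_lit 10070197665) (nat_lit 152) (nat_lit 25377557739) (nat_lit 0) (nat_lit 6928206633) (nat_lit 7) (nat_lit 5) (nat_lit 9) (nat_lit 4) (nat_lit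 7) (nat_lit 4) (nat_lit 380) (nat_lit 208) (nat_lit 192)) (XT.lf (nat_lit 0) (nat_lit 13694105848) (nat_lit 152) (nat_lit 19444359787) (nat_lit 0) (nat_lit 10400778075) (nat_lit 7) (nat_lit 5) (nat_lit 9) (nat_lit 4) (nat_lit 7) (nat_lit 4) (nat_lit 381) (nat_lit 208) (nat_lit 191)))))) (XT.nd (nat_lit 546) (nat_lit 152) (nat_lit 0) (XT.nd (nat_lit 234) (nat_lit 76) (nat_lit 0) (XT.nd (nat_lit 78) (nat_lit 0) (nat_lit 0) (XT.lf (nat_lit 0) (nat_lit 17369385647) (nat_lit 152) (nat_lit 13440643028) (nat_lit 0) (nat_lit 13929128999) (nat_lit 7) (nat_lit 5) (nat_lit 9) (nat_lit 4) (nat_lit 7) (nat_lit 4) (nat_lit 382) (nat_lit 208) (nat_lit 190)) (XT.nd (nat_lit 78) (nat_lit 0) (nat_lit 0) (XT.lf (nat_lit 0) (nat_lit 21099248471) (nat_lit 152) (nat_lit 7361161495) (nat_lit 0) (nat_lit 17516342430) (nat_lit 7) (nat_lit 5) (nat_lit 9) (nat_lit 4) (nat_lit 7) (nat_lit 4) (nat_lit 383) (nat_lit 208) (nat_lit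 189)) (XT.lf (nat_lit 0) (nat_lit 24886953423) (nat_lit 152) (nat_lit 1200603020) (nat_lit 0) (nat_lit 21165552825) (nat_lit 7) (nat_lit 5) (nat_lit 9) (nat_lit 4) (nat_lit 7) (nat_lit 4) (nat_lit 384) (nat_lit 208) (nat_lit 188)))) (XT.nd (nat_lit 156) (nat_lit 0) (nat_lit 0) (XT.nd (nat_lit 78) (nat_lit 0) (nat_lit 0) (XT.lf (nat_lit 0) (nat_lit 5146848970) (nat_lit 76) (nat_lit 23638435839) (nat_lit 76) (nat_lit 19782574507) (nat_lit 6) (nat_lit 4) (nat_lit 7) (nat_lit 5) (nat_lit 7) (nat_lit 4) (nat_lit 385) (nat_lit 208) (nat_lit 187)) (XT.lf (nat_lit 0) (nat_lit 11611943189) (nat_lit 76) (nat_lit 21148859639) (nat_lit 76) (nat_lit 17162453904) (nat_lit 6) (nat_lit 4) (nat_lit 7) (nat_lit 5) (nat_lit 7) (nat_lit 4) (nat_lit 386) (nat_lit 208) (nat_lit 186))) (XT.nd (nat_lit 78) (nat_lit 0) (nat_lit 0) (XT.lf (nat_lit 0) (nat_lit 18176434392) (nat_lit 76) (nat_lit 18628776222) (nat_lit 76)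 (nat_lit 14515628349) (nat_lit 6) (nat_lit 4) (nat_lit 7) (nat_lit 5) (nat_lit 7) (nat_lit 4) (nat_lit 387) (nat_lit 208) (nat_lit 185)) (XT.lf (nat_lit 0) (nat_lit 24846058542) (nat_lit 76) (nat_lit 16075983573) (nat_lit 76) (nat_lit 11839785081) (nat_lit 6) (nat_lit 4) (nat_lit 7) (nat_lit 5) (nat_lit 7) (nat_lit 4) (nat_lit 388) (nat_lit 208) (nat_lit 184))))) (XT.nd (nat_lit 234) (nat_lit 152) (nat_lit 0) (XT.nd (nat_lit 78) (nat_lit 0) (nat_lit 0) (XT.lf (nat_lit 0) (nat_lit 31626643468) (nat_lit 76) (nat_lit 13488251098) (nat_lit 76) (nat_lit 9132585985) (nat_lit 6) (nat_lit 4) (nat_lit 7) (nat_lit 5) (nat_lit 7) (nat_lit 4) (nat_lit 389) (nat_lit 208) (nat_lit 183)) (XT.nd (nat_lit 78) (nat_lit 0) (nat_lit 0) (XT.lf (nat_lit 0) (nat_lit 38524113950) (nat_lit 76) (nat_lit 10863317671) (nat_lit 76) (nat_lit 6391665547) (nat_lit 6) (nat_lit 4) (nat_lit 7) (nat_lit 5) (nat_lit 7) (nat_lit 4)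 (nat_lit 390) (nat_lit 208) (nat_lit 182)) (XT.lf (nat_lit 0) (nat_lit 45544496906) (nat_lit 76) (nat_lit 8198889660) (nat_lit 76) (nat_lit 3614628787) (nat_lit 6) (nat_lit 4) (nat_lit 7) (nat_lit 5) (nat_lit 7) (nat_lit 4) (nat_lit 391) (nat_lit 208) (nat_lit 181)))) (XT.nd (nat_lit 156) (nat_lit 76) (nat_lit 0) (XT.nd (nat_lit 78) (nat_lit 76) (nat_lit 0) (XT.lf (nat_lit 0) (nat_lit 52693926651) (nat_lit 76) (nat_lit 5492638924) (nat_lit 76) (nat_lit 799049170) (nat_lit 6) (nat_lit 4) (nat_lit 7) (nat_lit 5) (nat_lit 7) (nat_lit 4) (nat_lit 392) (nat_lit 208) (nat_lit 180)) (XT.lf (nat_lit 0) (nat_lit 2017383630) (nat_lit 152) (nat_lit 704445529) (nat_lit 76) (nat_lit 57940895010) (nat_lit 5) (nat_lit 5) (nat_lit 7) (nat_lit 5) (nat_lit 6) (nat_lit 4) (nat_lit 393) (nat_lit 208) (nat_lit 179))) (XT.nd (nat_lit 78) (nat_lit 0) (nat_lit 0) (XT.lf (nat_lit 0) (nat_lit 4911029589) (nat_lit 152) (nat_lit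 57327583748) (nat_lit 0) (nat_lit 151041961) (nat_lit 4) (nat_lit 5) (nat_lit 6) (nat_lit 4) (nat_lit 4) (nat_lit 4) (nat_lit 394) (nat_lit 208) (nat_lit 178)) (XT.lf (nat_lit 0) (nat_lit 7884361656) (nat_lit 152) (nat_lit 53257018576) (nat_lit 0) (nat_lit 3027236733) (nat_lit 4) (nat_lit 5) (nat_lit 6) (nat_lit 4) (nat_lit 4) (nat_lit 4) (nat_lit 395) (nat_lit 208) (nat_lit 177))))))))
noncomputable def xc11 : XT := (XT.nd (nat_lit 38844) (nat_lit 0) (nat_lit 76) (XT.nd (nat_lit 1092) (nat_lit 0) (nat_lit 0) (XT.nd (nat_lit 546) (nat_lit 76) (nat_lit 0) (XT.nd (nat_lit 234) (nat_lit 0) (nat_lit 0) (XT.nd (nat_lit 78) (nat_lit 0) (nat_lit 0) (XT.lf (nat_lit 0) (nat_lit 10906839294) (nat_lit 152) (nat_lit 49139912149) (nat_lit 0) (nat_lit 5955406317) (nat_lit 4) (nat_lit 5) (nat_lit 6) (nat_lit 4) (nat_lit 4) (nat_lit 4) (nat_lit 396) (nat_lit 208) (nat_lit 176)) (XT.nd (nat_lit 78) (nat_lit 0)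 (nat_lit 0) (XT.lf (nat_lit 0) (nat_lit 13981103502) (nat_lit 152) (nat_lit 44972666995) (nat_lit 0) (nat_lit 8938109308) (nat_lit 4) (nat_lit 5) (nat_lit 6) (nat_lit 4) (nat_lit 4) (nat_lit 4) (nat_lit 397) (nat_lit 208) (nat_lit 175)) (XT.lf (nat_lit 0) (nat_lit 17109840530) (nat_lit 152) (nat_lit 40751641833) (nat_lit 0) (nat_lit 11977951951) (nat_lit 4) (nat_lit 5) (nat_lit 6) (nat_lit 4) (nat_lit 4) (nat_lit 4) (nat_lit 398) (nat_lit 208) (nat_lit 174)))) (XT.nd (nat_lit 156) (nat_lit 0) (nat_lit 0) (XT.nd (nat_lit 78) (nat_lit 0) (nat_lit 0) (XT.lf (nat_lit 0) (nat_lit 20295784228) (nat_lit 152) (nat_lit 36473148388) (nat_lit 0) (nat_lit 15077590419) (nat_lit 4) (nat_lit 5) (nat_lit 6) (nat_lit 4) (nat_lit 4) (nat_lit 4) (nat_lit 399) (nat_lit 208) (nat_lit 173)) (XT.lf (nat_lit 0) (nat_lit 23541718427) (nat_lit 152) (nat_lit 32133448170) (nat_lit 0) (nat_lit 18239733135) (nat_lit 4) (nat_lit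 5) (nat_lit 6) (nat_lit 4) (nat_lit 4) (nat_lit 4) (nat_lit 400) (nat_lit 208) (nat_lit 172))) (XT.nd (nat_lit 78) (nat_lit 0) (nat_lit 0) (XT.lf (nat_lit 0) (nat_lit 26850479383) (nat_lit 152) (nat_lit 27728749209) (nat_lit 0) (nat_lit 21467143135) (nat_lit 4) (nat_lit 5) (nat_lit 6) (nat_lit 4) (nat_lit 4) (nat_lit 4) (nat_lit 401) (nat_lit 208) (nat_lit 171)) (XT.lf (nat_lit 0) (nat_lit 30224958246) (nat_lit 152) (nat_lit 23255202738) (nat_lit 0) (nat_lit 24762640487) (nat_lit 4) (nat_lit 5) (nat_lit 6) (nat_lit 4) (nat_lit 4) (nat_lit 4) (nat_lit 402) (nat_lit 208) (nat_lit 170))))) (XT.nd (nat_lit 234) (nat_lit 76) (nat_lit 0) (XT.nd (nat_lit 78) (nat_lit 0) (nat_lit 0) (XT.lf (nat_lit 0) (nat_lit 33668103588) (nat_lit 152) (nat_lit 18708899834) (nat_lit 0) (nat_lit 28129104751) (nat_lit 4) (nat_lit 5) (nat_lit 6) (nat_lit 4) (nat_lit 4) (nat_lit 4) (nat_lit 403) (nat_lit 208) (nat_lit 169))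 (XT.nd (nat_lit 78) (nat_lit 0) (nat_lit 0) (XT.lf (nat_lit 0) (nat_lit 37182923984) (nat_lit 152) (nat_lit 14085867998) (nat_lit 0) (nat_lit 31569477498) (nat_lit 4) (nat_lit 5) (nat_lit 6) (nat_lit 4) (nat_lit 4) (nat_lit 4) (nat_lit 404) (nat_lit 208) (nat_lit 168)) (XT.lf (nat_lit 0) (nat_lit 40772490636) (nat_lit 152) (nat_lit 9382067688) (nat_lit 0) (nat_lit 35086764880) (nat_lit 4) (nat_lit 5) (nat_lit 6) (nat_lit 4) (nat_lit 4) (nat_lit 4) (nat_lit 405) (nat_lit 208) (nat_lit 167)))) (XT.nd (nat_lit 156) (nat_lit 0) (nat_lit 0) (XT.nd (nat_lit 78) (nat_lit 76) (nat_lit 0) (XT.lf (nat_lit 0) (nat_lit 44439940058) (nat_lit 152) (nat_lit 4593388788) (nat_lit 0) (nat_lit 38684040253) (nat_lit 4) (nat_lit 5) (nat_lit 6) (nat_lit 4) (nat_lit 4) (nat_lit 4) (nat_lit 406) (nat_lit 208) (nat_lit 166)) (XT.lf (nat_lit 0) (nat_lit 290012167) (nat_lit 76) (nat_lit 47901252426) (nat_lit 76) (nat_lit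 42077222476) (nat_lit 3) (nat_lit 4) (nat_lit 4) (nat_lit 5) (nat_lit 4) (nat_lit 4) (nat_lit 407) (nat_lit 208) (nat_lit 165))) (XT.nd (nat_lit 78) (nat_lit 0) (nat_lit 0) (XT.lf (nat_lit 0) (nat_lit 5360012893) (nat_lit 76) (nat_lit 46712887167) (nat_lit 76) (nat_lit 40822711446) (nat_lit 3) (nat_lit 4) (nat_lit 4) (nat_lit 5) (nat_lit 4) (nat_lit 4) (nat_lit 408) (nat_lit 208) (nat_lit 164)) (XT.lf (nat_lit 0) (nat_lit 10529626045) (nat_lit 76) (nat_lit 45513578912) (nat_lit 76) (nat_lit 39559183995) (nat_lit 3) (nat_lit 4) (nat_lit 4) (nat_lit 5) (nat_lit 4) (nat_lit 4) (nat_lit 409) (nat_lit 208) (nat_lit 163)))))) (XT.nd (nat_lit 37206) (nat_lit 0) (nat_lit 532) (XT.nd (nat_lit 36894) (nat_lit 0) (nat_lit 684) (XT.nd (nat_lit 78) (nat_lit 0) (nat_lit 0) (XT.lf (nat_lit 0) (nat_lit 15803368760) (nat_lit 76) (nat_lit 44302279722) (nat_lit 76) (nat_lit 38285536072) (nat_lit 3) (nat_lit 4) (nat_lit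 4) (nat_lit 5) (nat_lit 4) (nat_lit 4) (nat_lit 410) (nat_lit 208) (nat_lit 162)) (XT.nd (nat_lit 78) (nat_lit 0) (nat_lit 0) (XT.lf (nat_lit 0) (nat_lit 21185849163) (nat_lit 76) (nat_lit 43077931180) (nat_lit 76) (nat_lit 37000654779) (nat_lit 3) (nat_lit 4) (nat_lit 4) (nat_lit 5) (nat_lit 4) (nat_lit 4) (nat_lit 411) (nat_lit 208) (nat_lit 161)) (XT.lf (nat_lit 0) (nat_lit 26681770391) (nat_lit 76) (nat_lit 41839463468) (nat_lit 76) (nat_lit 35703417405) (nat_lit 3) (nat_lit 4) (nat_lit 4) (nat_lit 5) (nat_lit 4) (nat_lit 4) (nat_lit 412) (nat_lit 208) (nat_lit 160)))) (XT.nd (nat_lit 156) (nat_lit 76) (nat_lit 0) (XT.nd (nat_lit 78) (nat_lit 0) (nat_lit 0) (XT.lf (nat_lit 0) (nat_lit 2608557164) (nat_lit 152) (nat_lit 8068504031) (nat_lit 0) (nat_lit 2608557164) (nat_lit 13) (nat_lit 5) (nat_lit 15) (nat_lit 4) (nat_lit 13) (nat_lit 4) (nat_lit 362) (nat_lit 209) (nat_lit 209)) (XT.lf (nat_lit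 0) (nat_lit 9499984670) (nat_lit 152) (nat_lit 8500561321) (nat_lit 0) (nat_lit 9234614778) (nat_lit 13) (nat_lit 5) (nat_lit 15) (nat_lit 4) (nat_lit 13) (nat_lit 4) (nat_lit 363) (nat_lit 209) (nat_lit 208))) (XT.nd (nat_lit 78) (nat_lit 76) (nat_lit 0) (XT.lf (nat_lit 0) (nat_lit 13826329068) (nat_lit 152) (nat_lit 791928951) (nat_lit 0) (nat_lit 13303318504) (nat_lit 13) (nat_lit 5) (nat_lit 15) (nat_lit 4) (nat_lit 13) (nat_lit 4) (nat_lit 364) (nat_lit 209) (nat_lit 207)) (XT.lf (nat_lit 0) (nat_lit 7134851395) (nat_lit 76) (nat_lit 11133660984) (nat_lit 76) (nat_lit 10360513846) (nat_lit 12) (nat_lit 4) (nat_lit 13) (nat_lit 5) (nat_lit 13) (nat_lit 4) (nat_lit 365) (nat_lit 209) (nat_lit 206))))) (XT.nd (nat_lit 234) (nat_lit 0) (nat_lit 0) (XT.nd (nat_lit 78) (nat_lit 152) (nat_lit 0) (XT.lf (nat_lit 0) (nat_lit 15164824780) (nat_lit 76) (nat_lit 7605551317) (nat_lit 76) (nat_lit 6589553136)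 (nat_lit 12) (nat_lit 4) (nat_lit 13) (nat_lit 5) (nat_lit 13) (nat_lit 4) (nat_lit 366) (nat_lit 209) (nat_lit 205)) (XT.nd (nat_lit 78) (nat_lit 152) (nat_lit 0) (XT.lf (nat_lit 0) (nat_lit 23289246749) (nat_lit 76) (nat_lit 4038843133) (nat_lit 76) (nat_lit 2787067241) (nat_lit 12) (nat_lit 4) (nat_lit 13) (nat_lit 5) (nat_lit 13) (nat_lit 4) (nat_lit 367) (nat_lit 209) (nat_lit 204)) (XT.lf (nat_lit 0) (nat_lit 621885937) (nat_lit 76) (nat_lit 413863929) (nat_lit 152) (nat_lit 29859137723) (nat_lit 10) (nat_lit 5) (nat_lit 11) (nat_lit 5) (nat_lit 12) (nat_lit 4) (nat_lit 368) (nat_lit 209) (nat_lit 203)))) (XT.nd (nat_lit 156) (nat_lit 0) (nat_lit 0) (XT.nd (nat_lit 78) (nat_lit 0) (nat_lit 0) (XT.lf (nat_lit 0) (nat_lit 4941340814) (nat_lit 152) (nat_lit 23467126597) (nat_lit 0) (nat_lit 3288011300) (nat_lit 10) (nat_lit 5) (nat_lit 12) (nat_lit 4) (nat_lit 10) (nat_lit 4) (nat_lit 369) (nat_lit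 209) (nat_lit 202)) (XT.lf (nat_lit 0) (nat_lit 8893035286) (nat_lit 152) (nat_lit 16601013081) (nat_lit 0) (nat_lit 7030220329) (nat_lit 10) (nat_lit 5) (nat_lit 12) (nat_lit 4) (nat_lit 10) (nat_lit 4) (nat_lit 370) (nat_lit 209) (nat_lit 201))) (XT.nd (nat_lit 78) (nat_lit 0) (nat_lit 0) (XT.lf (nat_lit 0) (nat_lit 12890307907) (nat_lit 152) (nat_lit 9664683276) (nat_lit 0) (nat_lit 10824109025) (nat_lit 10) (nat_lit 5) (nat_lit 12) (nat_lit 4) (nat_lit 10) (nat_lit 4) (nat_lit 371) (nat_lit 209) (nat_lit 200)) (XT.lf (nat_lit 0) (nat_lit 16936651440) (nat_lit 152) (nat_lit 2652076310) (nat_lit 0) (nat_lit 14672992436) (nat_lit 10) (nat_lit 5) (nat_lit 12) (nat_lit 4) (nat_lit 10) (nat_lit 4) (nat_lit 372) (nat_lit 209) (nat_lit 199))))))) (XT.nd (nat_lit 1092) (nat_lit 152) (nat_lit 0) (XT.nd (nat_lit 546) (nat_lit 76) (nat_lit 0) (XT.nd (nat_lit 234) (nat_lit 152) (nat_lit 0) (XT.nd (nat_lit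 78) (nat_lit 0) (nat_lit 0) (XT.lf (nat_lit 0) (nat_lit 4531358461) (nat_lit 76) (nat_lit 16547801253) (nat_lit 76) (nat_lit 14092433393) (nat_lit 9) (nat_lit 4) (nat_lit 10) (nat_lit 5) (nat_lit 10) (nat_lit 4) (nat_lit 373) (nat_lit 209) (nat_lit 198)) (XT.nd (nat_lit 78) (nat_lit 0) (nat_lit 0) (XT.lf (nat_lit 0) (nat_lit 11857942355) (nat_lit 76) (nat_lit 13446783207) (nat_lit 76) (nat_lit 10805290245) (nat_lit 9) (nat_lit 4) (nat_lit 10) (nat_lit 5) (nat_lit 10) (nat_lit 4) (nat_lit 374) (nat_lit 209) (nat_lit 197)) (XT.lf (nat_lit 0) (nat_lit 19281295722) (nat_lit 76) (nat_lit 10309744758) (nat_lit 76) (nat_lit 7487547812) (nat_lit 9) (nat_lit 4) (nat_lit 10) (nat_lit 5) (nat_lit 10) (nat_lit 4) (nat_lit 375) (nat_lit 209) (nat_lit 196)))) (XT.nd (nat_lit 156) (nat_lit 152) (nat_lit 0) (XT.nd (nat_lit 78) (nat_lit 0) (nat_lit 0) (XT.lf (nat_lit 0) (nat_lit 26807904987) (nat_lit 76) (nat_lit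 7133944804) (nat_lit 76) (nat_lit 4136307097) (nat_lit 9) (nat_lit 4) (nat_lit 10) (nat_lit 5) (nat_lit 10) (nat_lit 4) (nat_lit 376) (nat_lit 209) (nat_lit 195)) (XT.lf (nat_lit 0) (nat_lit 34444346800) (nat_lit 76) (nat_lit 3916608373) (nat_lit 76) (nat_lit 748639831) (nat_lit 9) (nat_lit 4) (nat_lit 10) (nat_lit 5) (nat_lit 10) (nat_lit 4) (nat_lit 377) (nat_lit 209) (nat_lit 194))) (XT.nd (nat_lit 78) (nat_lit 0) (nat_lit 0) (XT.lf (nat_lit 0) (nat_lit 2037502336) (nat_lit 76) (nat_lit 608231959) (nat_lit 152) (nat_lit 37526709631) (nat_lit 7) (nat_lit 5) (nat_lit 8) (nat_lit 5) (nat_lit 9) (nat_lit 4) (nat_lit 378) (nat_lit 209) (nat_lit 193)) (XT.lf (nat_lit 0) (nat_lit 6140540548) (nat_lit 152) (nat_lit 32377607316) (nat_lit 0) (nat_lit 2748412942) (nat_lit 7) (nat_lit 5) (nat_lit 9) (nat_lit 4) (nat_lit 7) (nat_lit 4) (nat_lit 379) (nat_lit 209) (nat_lit 192))))) (XT.nd (nat_lit 234) (nat_lit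 76) (nat_lit 0) (XT.nd (nat_lit 78) (nat_lit 0) (nat_lit 0) (XT.lf (nat_lit 0) (nat_lit 9687147086) (nat_lit 152) (nat_lit 26564276556) (nat_lit 0) (nat_lit 6143682739) (nat_lit 7) (nat_lit 5) (nat_lit 9) (nat_lit 4) (nat_lit 7) (nat_lit 4) (nat_lit 380) (nat_lit 209) (nat_lit 191)) (XT.nd (nat_lit 78) (nat_lit 0) (nat_lit 0) (XT.lf (nat_lit 0) (nat_lit 13282806191) (nat_lit 152) (nat_lit 20684023005) (nat_lit 0) (nat_lit 9592412969) (nat_lit 7) (nat_lit 5) (nat_lit 9) (nat_lit 4) (nat_lit 7) (nat_lit 4) (nat_lit 381) (nat_lit 209) (nat_lit 190)) (XT.lf (nat_lit 0) (nat_lit 16930659700) (nat_lit 152) (nat_lit 14731708575) (nat_lit 0) (nat_lit 13097617084) (nat_lit 7) (nat_lit 5) (nat_lit 9) (nat_lit 4) (nat_lit 7) (nat_lit 4) (nat_lit 382) (nat_lit 209) (nat_lit 189)))) (XT.nd (nat_lit 156) (nat_lit 76) (nat_lit 0) (XT.nd (nat_lit 78) (nat_lit 0) (nat_lit 0) (XT.lf (nat_lit 0) (nat_lit 20633895057)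 (nat_lit 152) (nat_lit 8702132216) (nat_lit 0) (nat_lit 16662357885) (nat_lit 7) (nat_lit 5) (nat_lit 9) (nat_lit 4) (nat_lit 7) (nat_lit 4) (nat_lit 383) (nat_lit 209) (nat_lit 188)) (XT.lf (nat_lit 0) (nat_lit 24395748100) (nat_lit 152) (nat_lit 2590025367) (nat_lit 0) (nat_lit 20289750194) (nat_lit 7) (nat_lit 5) (nat_lit 9) (nat_lit 4) (nat_lit 7) (nat_lit 4) (nat_lit 384) (nat_lit 209) (nat_lit 187))) (XT.nd (nat_lit 78) (nat_lit 0) (nat_lit 0) (XT.lf (nat_lit 0) (nat_lit 3681797785) (nat_lit 76) (nat_lit 24573099792) (nat_lit 76) (nat_lit 20336557484) (nat_lit 6) (nat_lit 4) (nat_lit 7) (nat_lit 5) (nat_lit 7) (nat_lit 4) (nat_lit 385) (nat_lit 209) (nat_lit 186)) (XT.lf (nat_lit 0) (nat_lit 10100312771) (nat_lit 76) (nat_lit 22105287173) (nat_lit 76) (nat_lit 17742002726) (nat_lit 6) (nat_lit 4) (nat_lit 7) (nat_lit 5) (nat_lit 7) (nat_lit 4) (nat_lit 386) (nat_lit 209) (nat_lit 185))))))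 (XT.nd (nat_lit 546) (nat_lit 76) (nat_lit 0) (XT.nd (nat_lit 234) (nat_lit 76) (nat_lit 0) (XT.nd (nat_lit 78) (nat_lit 0) (nat_lit 0) (XT.lf (nat_lit 0) (nat_lit 16619581418) (nat_lit 76) (nat_lit 19606333447) (nat_lit 76) (nat_lit 15119998380) (nat_lit 6) (nat_lit 4) (nat_lit 7) (nat_lit 5) (nat_lit 7) (nat_lit 4) (nat_lit 387) (nat_lit 209) (nat_lit 184)) (XT.nd (nat_lit 78) (nat_lit 0) (nat_lit 0) (XT.lf (nat_lit 0) (nat_lit 23245300175) (nat_lit 76) (nat_lit 17074055061) (nat_lit 76) (nat_lit 12468253373) (nat_lit 6) (nat_lit 4) (nat_lit 7) (nat_lit 5) (nat_lit 7) (nat_lit 4) (nat_lit 388) (nat_lit 209) (nat_lit 183)) (XT.lf (nat_lit 0) (nat_lit 29983258504) (nat_lit 76) (nat_lit 14506239345) (nat_lit 76) (nat_lit 9784450646) (nat_lit 6) (nat_lit 4) (nat_lit 7) (nat_lit 5) (nat_lit 7) (nat_lit 4) (nat_lit 389) (nat_lit 209) (nat_lit 182)))) (XT.nd (nat_lit 156) (nat_lit 76) (nat_lit 0) (XT.nd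 (nat_lit 78) (nat_lit 0) (nat_lit 0) (XT.lf (nat_lit 0) (nat_lit 36839343942) (nat_lit 76) (nat_lit 11900642577) (nat_lit 76) (nat_lit 7066245130) (nat_lit 6) (nat_lit 4) (nat_lit 7) (nat_lit 5) (nat_lit 7) (nat_lit 4) (nat_lit 390) (nat_lit 209) (nat_lit 181)) (XT.lf (nat_lit 0) (nat_lit 43819547243) (nat_lit 76) (nat_lit 9254988022) (nat_lit 76) (nat_lit 4311261693) (nat_lit 6) (nat_lit 4) (nat_lit 7) (nat_lit 5) (nat_lit 7) (nat_lit 4) (nat_lit 391) (nat_lit 209) (nat_lit 180))) (XT.nd (nat_lit 78) (nat_lit 76) (nat_lit 0) (XT.lf (nat_lit 0) (nat_lit 50929967613) (nat_lit 76) (nat_lit 6566963943) (nat_lit 76) (nat_lit 1517093069) (nat_lit 6) (nat_lit 4) (nat_lit 7) (nat_lit 5) (nat_lit 7) (nat_lit 4) (nat_lit 392) (nat_lit 209) (nat_lit 179)) (XT.lf (nat_lit 0) (nat_lit 1292969619) (nat_lit 152) (nat_lit 2528195503) (nat_lit 76) (nat_lit 56870791966) (nat_lit 5) (nat_lit 5) (nat_lit 7) (nat_lit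 5) (nat_lit 6) (nat_lit 4) (nat_lit 393) (nat_lit 209) (nat_lit 178))))) (XT.nd (nat_lit 234) (nat_lit 0) (nat_lit 0) (XT.nd (nat_lit 78) (nat_lit 0) (nat_lit 0) (XT.lf (nat_lit 0) (nat_lit 3165642597) (nat_lit 76) (nat_lit 981459787) (nat_lit 152) (nat_lit 58272975615) (nat_lit 4) (nat_lit 5) (nat_lit 5) (nat_lit 5) (nat_lit 6) (nat_lit 4) (nat_lit 394) (nat_lit 209) (nat_lit 177)) (XT.nd (nat_lit 78) (nat_lit 0) (nat_lit 0) (XT.lf (nat_lit 0) (nat_lit 7091268833) (nat_lit 152) (nat_lit 55211665248) (nat_lit 0) (nat_lit 1896984813) (nat_lit 4) (nat_lit 5) (nat_lit 6) (nat_lit 4) (nat_lit 4) (nat_lit 4) (nat_lit 395) (nat_lit 209) (nat_lit 176)) (XT.lf (nat_lit 0) (nat_lit 10094589939) (nat_lit 152) (nat_lit 51130703879) (nat_lit 0) (nat_lit 4808744702) (nat_lit 4) (nat_lit 5) (nat_lit 6) (nat_lit 4) (nat_lit 4) (nat_lit 4) (nat_lit 396) (nat_lit 209) (nat_lit 175)))) (XT.nd (nat_lit 156) (nat_lit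 0) (nat_lit 0) (XT.nd (nat_lit 78) (nat_lit 0) (nat_lit 0) (XT.lf (nat_lit 0) (nat_lit 13150255573) (nat_lit 152) (nat_lit 46998551014) (nat_lit 0) (nat_lit 7775515950) (nat_lit 4) (nat_lit 5) (nat_lit 6) (nat_lit 4) (nat_lit 4) (nat_lit 4) (nat_lit 397) (nat_lit 209) (nat_lit 174)) (XT.lf (nat_lit 0) (nat_lit 16260935734) (nat_lit 152) (nat_lit 42811596035) (nat_lit 0) (nat_lit 10799890882) (nat_lit 4) (nat_lit 5) (nat_lit 6) (nat_lit 4) (nat_lit 4) (nat_lit 4) (nat_lit 398) (nat_lit 209) (nat_lit 173))) (XT.nd (nat_lit 78) (nat_lit 0) (nat_lit 0) (XT.lf (nat_lit 0) (nat_lit 19429348491) (nat_lit 152) (nat_lit 38566180437) (nat_lit 0) (nat_lit 13884512155) (nat_lit 4) (nat_lit 5) (nat_lit 6) (nat_lit 4) (nat_lit 4) (nat_lit 4) (nat_lit 399) (nat_lit 209) (nat_lit 172)) (XT.lf (nat_lit 0) (nat_lit 22658262361) (nat_lit 152) (nat_lit 34258594635) (nat_lit 0) (nat_lit 17032075069) (nat_lit 4) (nat_lit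 5) (nat_lit 6) (nat_lit 4) (nat_lit 4) (nat_lit 4) (nat_lit 400) (nat_lit 209) (nat_lit 171))))))))
noncomputable def xc12 : XT := (XT.nd (nat_lit 38610) (nat_lit 0) (nat_lit 76) (XT.nd (nat_lit 37518) (nat_lit 0) (nat_lit 456) (XT.nd (nat_lit 468) (nat_lit 76) (nat_lit 0) (XT.nd (nat_lit 234) (nat_lit 0) (nat_lit 0) (XT.nd (nat_lit 78) (nat_lit 0) (nat_lit 0) (XT.lf (nat_lit 0) (nat_lit 25950498724) (nat_lit 152) (nat_lit 29885074717) (nat_lit 0) (nat_lit 20245329922) (nat_lit 4) (nat_lit 5) (nat_lit 6) (nat_lit 4) (nat_lit 4) (nat_lit 4) (nat_lit 401) (nat_lit 209) (nat_lit 170)) (XT.nd (nat_lit 78) (nat_lit 0) (nat_lit 0) (XT.lf (nat_lit 0) (nat_lit 29308934293) (nat_lit 152) (nat_lit 25441799163) (nat_lit 0) (nat_lit 23527084413) (nat_lit 4) (nat_lit 5) (nat_lit 6) (nat_lit 4) (nat_lit 4) (nat_lit 4) (nat_lit 402) (nat_lit 209) (nat_lit 169)) (XT.lf (nat_lit 0) (nat_lit 32736503622) (nat_lit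 152) (nat_lit 20924885498) (nat_lit 0) (nat_lit 26880206093) (nat_lit 4) (nat_lit 5) (nat_lit 6) (nat_lit 4) (nat_lit 4) (nat_lit 4) (nat_lit 403) (nat_lit 209) (nat_lit 168)))) (XT.nd (nat_lit 78) (nat_lit 0) (nat_lit 0) (XT.lf (nat_lit 0) (nat_lit 36236201675) (nat_lit 152) (nat_lit 16330386904) (nat_lit 0) (nat_lit 30307624876) (nat_lit 4) (nat_lit 5) (nat_lit 6) (nat_lit 4) (nat_lit 4) (nat_lit 4) (nat_lit 404) (nat_lit 209) (nat_lit 167)) (XT.nd (nat_lit 78) (nat_lit 0) (nat_lit 0) (XT.lf (nat_lit 0) (nat_lit 39811086441) (nat_lit 152) (nat_lit 11654288771) (nat_lit 0) (nat_lit 33812335593) (nat_lit 4) (nat_lit 5) (nat_lit 6) (nat_lit 4) (nat_lit 4) (nat_lit 4) (nat_lit 405) (nat_lit 209) (nat_lit 166)) (XT.lf (nat_lit 0) (nat_lit 43464281605) (nat_lit 152) (nat_lit 6892505188) (nat_lit 0) (nat_lit 37397400612) (nat_lit 4) (nat_lit 5) (nat_lit 6) (nat_lit 4) (nat_lit 4) (nat_lit 4) (nat_lit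 406) (nat_lit 209) (nat_lit 165))))) (XT.nd (nat_lit 234) (nat_lit 0) (nat_lit 0) (XT.nd (nat_lit 78) (nat_lit 76) (nat_lit 0) (XT.lf (nat_lit 0) (nat_lit 47198979280) (nat_lit 152) (nat_lit 2040875373) (nat_lit 0) (nat_lit 41065952515) (nat_lit 4) (nat_lit 5) (nat_lit 6) (nat_lit 4) (nat_lit 4) (nat_lit 4) (nat_lit 407) (nat_lit 209) (nat_lit 164)) (XT.nd (nat_lit 78) (nat_lit 0) (nat_lit 0) (XT.lf (nat_lit 0) (nat_lit 2962651972) (nat_lit 76) (nat_lit 48084269643) (nat_lit 76) (nat_lit 41887023683) (nat_lit 3) (nat_lit 4) (nat_lit 4) (nat_lit 5) (nat_lit 4) (nat_lit 4) (nat_lit 408) (nat_lit 209) (nat_lit 163)) (XT.lf (nat_lit 0) (nat_lit 8107162252) (nat_lit 76) (nat_lit 46896778291) (nat_lit 76) (nat_lit 40637183598) (nat_lit 3) (nat_lit 4) (nat_lit 4) (nat_lit 5) (nat_lit 4) (nat_lit 4) (nat_lit 409) (nat_lit 209) (nat_lit 162)))) (XT.nd (nat_lit 156) (nat_lit 0) (nat_lit 0) (XT.nd (nat_lit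 78) (nat_lit 0) (nat_lit 0) (XT.lf (nat_lit 0) (nat_lit 13356533246) (nat_lit 76) (nat_lit 45696951822) (nat_lit 76) (nat_lit 39376824378) (nat_lit 3) (nat_lit 4) (nat_lit 4) (nat_lit 5) (nat_lit 4) (nat_lit 4) (nat_lit 410) (nat_lit 209) (nat_lit 161)) (XT.lf (nat_lit 0) (nat_lit 18715351783) (nat_lit 76) (nat_lit 44483741845) (nat_lit 76) (nat_lit 38104844739) (nat_lit 3) (nat_lit 4) (nat_lit 4) (nat_lit 5) (nat_lit 4) (nat_lit 4) (nat_lit 411) (nat_lit 209) (nat_lit 160))) (XT.nd (nat_lit 36582) (nat_lit 0) (nat_lit 912) (XT.lf (nat_lit 0) (nat_lit 24188300327) (nat_lit 76) (nat_lit 43256088272) (nat_lit 76) (nat_lit 36820133243) (nat_lit 3) (nat_lit 4) (nat_lit 4) (nat_lit 5) (nat_lit 4) (nat_lit 4) (nat_lit 412) (nat_lit 209) (nat_lit 159)) (XT.lf (nat_lit 0) (nat_lit 9765121266) (nat_lit 76) (nat_lit 1443398682) (nat_lit 76) (nat_lit 1443398682) (nat_lit 15) (nat_lit 4) (nat_lit 16) (nat_lit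 5) (nat_lit 16) (nat_lit 4) (nat_lit 360) (nat_lit 210) (nat_lit 210)))))) (XT.nd (nat_lit 546) (nat_lit 228) (nat_lit 0) (XT.nd (nat_lit 234) (nat_lit 76) (nat_lit 0) (XT.nd (nat_lit 78) (nat_lit 0) (nat_lit 0) (XT.lf (nat_lit 0) (nat_lit 1247306717) (nat_lit 152) (nat_lit 23707941797) (nat_lit 0) (nat_lit 973975728) (nat_lit 13) (nat_lit 5) (nat_lit 15) (nat_lit 4) (nat_lit 13) (nat_lit 4) (nat_lit 361) (nat_lit 210) (nat_lit 209)) (XT.nd (nat_lit 78) (nat_lit 0) (nat_lit 0) (XT.lf (nat_lit 0) (nat_lit 5447311122) (nat_lit 152) (nat_lit 16216621365) (nat_lit 0) (nat_lit 4908610241) (nat_lit 13) (nat_lit 5) (nat_lit 15) (nat_lit 4) (nat_lit 13) (nat_lit 4) (nat_lit 362) (nat_lit 210) (nat_lit 208)) (XT.lf (nat_lit 0) (nat_lit 9688303604) (nat_lit 152) (nat_lit 8657469094) (nat_lit 0) (nat_lit 8891962052) (nat_lit 13) (nat_lit 5) (nat_lit 15) (nat_lit 4) (nat_lit 13) (nat_lit 4) (nat_lit 363) (nat_lit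 210) (nat_lit 207)))) (XT.nd (nat_lit 156) (nat_lit 0) (nat_lit 0) (XT.nd (nat_lit 78) (nat_lit 76) (nat_lit 0) (XT.lf (nat_lit 0) (nat_lit 13973989886) (nat_lit 152) (nat_lit 1023879899) (nat_lit 0) (nat_lit 12927511760) (nat_lit 13) (nat_lit 5) (nat_lit 15) (nat_lit 4) (nat_lit 13) (nat_lit 4) (nat_lit 364) (nat_lit 210) (nat_lit 206)) (XT.lf (nat_lit 0) (nat_lit 6823976711) (nat_lit 76) (nat_lit 11549734269) (nat_lit 76) (nat_lit 10260405099) (nat_lit 12) (nat_lit 4) (nat_lit 13) (nat_lit 5) (nat_lit 13) (nat_lit 4) (nat_lit 365) (nat_lit 210) (nat_lit 205))) (XT.nd (nat_lit 78) (nat_lit 0) (nat_lit 0) (XT.lf (nat_lit 0) (nat_lit 14781806935) (nat_lit 76) (nat_lit 8054750106) (nat_lit 76) (nat_lit 6529643225) (nat_lit 12) (nat_lit 4) (nat_lit 13) (nat_lit 5) (nat_lit 13) (nat_lit 4) (nat_lit 366) (nat_lit 210) (nat_lit 204)) (XT.lf (nat_lit 0) (nat_lit 22836186998) (nat_lit 76) (nat_lit 4520202607)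 (nat_lit 76) (nat_lit 2766185326) (nat_lit 12) (nat_lit 4) (nat_lit 13) (nat_lit 5) (nat_lit 13) (nat_lit 4) (nat_lit 367) (nat_lit 210) (nat_lit 203))))) (XT.nd (nat_lit 234) (nat_lit 76) (nat_lit 0) (XT.nd (nat_lit 78) (nat_lit 0) (nat_lit 0) (XT.lf (nat_lit 0) (nat_lit 81919980) (nat_lit 76) (nat_lit 931961974) (nat_lit 152) (nat_lit 29889697436) (nat_lit 10) (nat_lit 5) (nat_lit 11) (nat_lit 5) (nat_lit 12) (nat_lit 4) (nat_lit 368) (nat_lit 210) (nat_lit 202)) (XT.nd (nat_lit 78) (nat_lit 0) (nat_lit 0) (XT.lf (nat_lit 0) (nat_lit 4877467076) (nat_lit 152) (nat_lit 24079690843) (nat_lit 0) (nat_lit 2749282227) (nat_lit 10) (nat_lit 5) (nat_lit 12) (nat_lit 4) (nat_lit 10) (nat_lit 4) (nat_lit 369) (nat_lit 210) (nat_lit 201)) (XT.lf (nat_lit 0) (nat_lit 8793214413) (nat_lit 152) (nat_lit 17280457680) (nat_lit 0) (nat_lit 6461645639) (nat_lit 10) (nat_lit 5) (nat_lit 12) (nat_lit 4) (nat_lit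 10) (nat_lit 4) (nat_lit 370) (nat_lit 210) (nat_lit 200)))) (XT.nd (nat_lit 156) (nat_lit 76) (nat_lit 0) (XT.nd (nat_lit 78) (nat_lit 0) (nat_lit 0) (XT.lf (nat_lit 0) (nat_lit 12755586902) (nat_lit 152) (nat_lit 10409060256) (nat_lit 0) (nat_lit 10226558007) (nat_lit 10) (nat_lit 5) (nat_lit 12) (nat_lit 4) (nat_lit 10) (nat_lit 4) (nat_lit 371) (nat_lit 210) (nat_lit 199)) (XT.lf (nat_lit 0) (nat_lit 16768046812) (nat_lit 152) (nat_lit 3459494437) (nat_lit 0) (nat_lit 14047309061) (nat_lit 10) (nat_lit 5) (nat_lit 12) (nat_lit 4) (nat_lit 10) (nat_lit 4) (nat_lit 372) (nat_lit 210) (nat_lit 198))) (XT.nd (nat_lit 78) (nat_lit 0) (nat_lit 0) (XT.lf (nat_lit 0) (nat_lit 3645448034) (nat_lit 76) (nat_lit 17223694417) (nat_lit 76) (nat_lit 14316831562) (nat_lit 9) (nat_lit 4) (nat_lit 10) (nat_lit 5) (nat_lit 10) (nat_lit 4) (nat_lit 373) (nat_lit 210) (nat_lit 197)) (XT.lf (nat_lit 0) (nat_lit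 10911426981) (nat_lit 76) (nat_lit 14150760183) (nat_lit 76) (nat_lit 11063193345) (nat_lit 9) (nat_lit 4) (nat_lit 10) (nat_lit 5) (nat_lit 10) (nat_lit 4) (nat_lit 374) (nat_lit 210) (nat_lit 196))))))) (XT.nd (nat_lit 1092) (nat_lit 152) (nat_lit 0) (XT.nd (nat_lit 546) (nat_lit 76) (nat_lit 0) (XT.nd (nat_lit 234) (nat_lit 152) (nat_lit 0) (XT.nd (nat_lit 78) (nat_lit 0) (nat_lit 0) (XT.lf (nat_lit 0) (nat_lit 18275940593) (nat_lit 76) (nat_lit 11040987571) (nat_lit 76) (nat_lit 7777979972) (nat_lit 9) (nat_lit 4) (nat_lit 10) (nat_lit 5) (nat_lit 10) (nat_lit 4) (nat_lit 375) (nat_lit 210) (nat_lit 195)) (XT.nd (nat_lit 78) (nat_lit 0) (nat_lit 0) (XT.lf (nat_lit 0) (nat_lit 25745423883) (nat_lit 76) (nat_lit 7891659302) (nat_lit 76) (nat_lit 4458320868) (nat_lit 9) (nat_lit 4) (nat_lit 10) (nat_lit 5) (nat_lit 10) (nat_lit 4) (nat_lit 376) (nat_lit 210) (nat_lit 194)) (XT.lf (nat_lit 0) (nat_lit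 33326403582) (nat_lit 76) (nat_lit 4700023537) (nat_lit 76) (nat_lit 1101315360) (nat_lit 9) (nat_lit 4) (nat_lit 10) (nat_lit 5) (nat_lit 10) (nat_lit 4) (nat_lit 377) (nat_lit 210) (nat_lit 193)))) (XT.nd (nat_lit 156) (nat_lit 0) (nat_lit 0) (XT.nd (nat_lit 78) (nat_lit 0) (nat_lit 0) (XT.lf (nat_lit 0) (nat_lit 826740812) (nat_lit 76) (nat_lit 1432373541) (nat_lit 152) (nat_lit 37932810585) (nat_lit 7) (nat_lit 5) (nat_lit 8) (nat_lit 5) (nat_lit 9) (nat_lit 4) (nat_lit 378) (nat_lit 210) (nat_lit 192)) (XT.lf (nat_lit 0) (nat_lit 5716901901) (nat_lit 152) (nat_lit 33654460430) (nat_lit 0) (nat_lit 1915796882) (nat_lit 7) (nat_lit 5) (nat_lit 9) (nat_lit 4) (nat_lit 7) (nat_lit 4) (nat_lit 379) (nat_lit 210) (nat_lit 191))) (XT.nd (nat_lit 78) (nat_lit 0) (nat_lit 0) (XT.lf (nat_lit 0) (nat_lit 9235259360) (nat_lit 152) (nat_lit 27894074070) (nat_lit 0) (nat_lit 5287225466) (nat_lit 7) (nat_lit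 5) (nat_lit 9) (nat_lit 4) (nat_lit 7) (nat_lit 4) (nat_lit 380) (nat_lit 210) (nat_lit 190)) (XT.lf (nat_lit 0) (nat_lit 12803492175) (nat_lit 152) (nat_lit 22065222847) (nat_lit 0) (nat_lit 8712808888) (nat_lit 7) (nat_lit 5) (nat_lit 9) (nat_lit 4) (nat_lit 7) (nat_lit 4) (nat_lit 381) (nat_lit 210) (nat_lit 189))))) (XT.nd (nat_lit 234) (nat_lit 76) (nat_lit 0) (XT.nd (nat_lit 78) (nat_lit 0) (nat_lit 0) (XT.lf (nat_lit 0) (nat_lit 16424718217) (nat_lit 152) (nat_lit 16162813592) (nat_lit 0) (nat_lit 12195540374) (nat_lit 7) (nat_lit 5) (nat_lit 9) (nat_lit 4) (nat_lit 7) (nat_lit 4) (nat_lit 382) (nat_lit 210) (nat_lit 188)) (XT.nd (nat_lit 78) (nat_lit 0) (nat_lit 0) (XT.lf (nat_lit 0) (nat_lit 20102101666) (nat_lit 152) (nat_lit 10181688859) (nat_lit 0) (nat_lit 15738463088) (nat_lit 7) (nat_lit 5) (nat_lit 9) (nat_lit 4) (nat_lit 7) (nat_lit 4) (nat_lit 383) (nat_lit 210) (nat_lit 187))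 (XT.lf (nat_lit 0) (nat_lit 23838855769) (nat_lit 152) (nat_lit 4116622422) (nat_lit 0) (nat_lit 19344672788) (nat_lit 7) (nat_lit 5) (nat_lit 9) (nat_lit 4) (nat_lit 7) (nat_lit 4) (nat_lit 384) (nat_lit 210) (nat_lit 186)))) (XT.nd (nat_lit 156) (nat_lit 0) (nat_lit 0) (XT.nd (nat_lit 78) (nat_lit 0) (nat_lit 0) (XT.lf (nat_lit 0) (nat_lit 2078239222) (nat_lit 76) (nat_lit 25579983734) (nat_lit 76) (nat_lit 20959058615) (nat_lit 6) (nat_lit 4) (nat_lit 7) (nat_lit 5) (nat_lit 7) (nat_lit 4) (nat_lit 385) (nat_lit 210) (nat_lit 185)) (XT.lf (nat_lit 0) (nat_lit 8451531652) (nat_lit 76) (nat_lit 23133300805) (nat_lit 76) (nat_lit 18389325067) (nat_lit 6) (nat_lit 4) (nat_lit 7) (nat_lit 5) (nat_lit 7) (nat_lit 4) (nat_lit 386) (nat_lit 210) (nat_lit 184))) (XT.nd (nat_lit 78) (nat_lit 0) (nat_lit 0) (XT.lf (nat_lit 0) (nat_lit 14926894906) (nat_lit 76) (nat_lit 20654861341) (nat_lit 76) (nat_lit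 15791418981) (nat_lit 6) (nat_lit 4) (nat_lit 7) (nat_lit 5) (nat_lit 7) (nat_lit 4) (nat_lit 387) (nat_lit 210) (nat_lit 183)) (XT.lf (nat_lit 0) (nat_lit 21509987066) (nat_lit 76) (nat_lit 18142499714) (nat_lit 76) (nat_lit 13163070344) (nat_lit 6) (nat_lit 4) (nat_lit 7) (nat_lit 5) (nat_lit 7) (nat_lit 4) (nat_lit 388) (nat_lit 210) (nat_lit 182)))))) (XT.nd (nat_lit 546) (nat_lit 0) (nat_lit 0) (XT.nd (nat_lit 234) (nat_lit 152) (nat_lit 0) (XT.nd (nat_lit 78) (nat_lit 0) (nat_lit 0) (XT.lf (nat_lit 0) (nat_lit 28206560350) (nat_lit 76) (nat_lit 15594020658) (nat_lit 76) (nat_lit 10501982540) (nat_lit 6) (nat_lit 4) (nat_lit 7) (nat_lit 5) (nat_lit 7) (nat_lit 4) (nat_lit 389) (nat_lit 210) (nat_lit 181)) (XT.nd (nat_lit 78) (nat_lit 0) (nat_lit 0) (XT.lf (nat_lit 0) (nat_lit 35022466133) (nat_lit 76) (nat_lit 13007197346) (nat_lit 76) (nat_lit 7805830346) (nat_lit 6) (nat_lit 4) (nat_lit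 7) (nat_lit 5) (nat_lit 7) (nat_lit 4) (nat_lit 390) (nat_lit 210) (nat_lit 180)) (XT.lf (nat_lit 0) (nat_lit 41963660060) (nat_lit 76) (nat_lit 10379769448) (nat_lit 76) (nat_lit 5072257902) (nat_lit 6) (nat_lit 4) (nat_lit 7) (nat_lit 5) (nat_lit 7) (nat_lit 4) (nat_lit 391) (nat_lit 210) (nat_lit 179)))) (XT.nd (nat_lit 156) (nat_lit 76) (nat_lit 0) (XT.nd (nat_lit 78) (nat_lit 76) (nat_lit 0) (XT.lf (nat_lit 0) (nat_lit 49036207252) (nat_lit 76) (nat_lit 7709441151) (nat_lit 76) (nat_lit 2298876649) (nat_lit 6) (nat_lit 4) (nat_lit 7) (nat_lit 5) (nat_lit 7) (nat_lit 4) (nat_lit 392) (nat_lit 210) (nat_lit 178)) (XT.lf (nat_lit 0) (nat_lit 506653360) (nat_lit 152) (nat_lit 4482109595) (nat_lit 76) (nat_lit 55734518039) (nat_lit 5) (nat_lit 5) (nat_lit 7) (nat_lit 5) (nat_lit 6) (nat_lit 4) (nat_lit 393) (nat_lit 210) (nat_lit 177))) (XT.nd (nat_lit 78) (nat_lit 0) (nat_lit 0) (XT.lf (nat_lit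 0) (nat_lit 1136037893) (nat_lit 76) (nat_lit 2186026690) (nat_lit 152) (nat_lit 59130503228) (nat_lit 4) (nat_lit 5) (nat_lit 5) (nat_lit 5) (nat_lit 6) (nat_lit 4) (nat_lit 394) (nat_lit 210) (nat_lit 176)) (XT.lf (nat_lit 0) (nat_lit 6235495466) (nat_lit 152) (nat_lit 57298325787) (nat_lit 0) (nat_lit 699513655) (nat_lit 4) (nat_lit 5) (nat_lit 6) (nat_lit 4) (nat_lit 4) (nat_lit 4) (nat_lit 395) (nat_lit 210) (nat_lit 175))))) (XT.nd (nat_lit 234) (nat_lit 0) (nat_lit 0) (XT.nd (nat_lit 78) (nat_lit 0) (nat_lit 0) (XT.lf (nat_lit 0) (nat_lit 9220217998) (nat_lit 152) (nat_lit 53252456706) (nat_lit 0) (nat_lit 3595341801) (nat_lit 4) (nat_lit 5) (nat_lit 6) (nat_lit 4) (nat_lit 4) (nat_lit 4) (nat_lit 396) (nat_lit 210) (nat_lit 174)) (XT.nd (nat_lit 78) (nat_lit 0) (nat_lit 0) (XT.lf (nat_lit 0) (nat_lit 12257826764) (nat_lit 152) (nat_lit 49154374024) (nat_lit 0) (nat_lit 6546645338) (nat_lit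 4) (nat_lit 5) (nat_lit 6) (nat_lit 4) (nat_lit 4) (nat_lit 4) (nat_lit 397) (nat_lit 210) (nat_lit 173)) (XT.lf (nat_lit 0) (nat_lit 15350975985) (nat_lit 152) (nat_lit 45000496893) (nat_lit 0) (nat_lit 9556003074) (nat_lit 4) (nat_lit 5) (nat_lit 6) (nat_lit 4) (nat_lit 4) (nat_lit 4) (nat_lit 398) (nat_lit 210) (nat_lit 172)))) (XT.nd (nat_lit 156) (nat_lit 0) (nat_lit 0) (XT.nd (nat_lit 78) (nat_lit 0) (nat_lit 0) (XT.lf (nat_lit 0) (nat_lit 18502368412) (nat_lit 152) (nat_lit 40787195711) (nat_lit 0) (nat_lit 12626044546) (nat_lit 4) (nat_lit 5) (nat_lit 6) (nat_lit 4) (nat_lit 4) (nat_lit 4) (nat_lit 399) (nat_lit 210) (nat_lit 171)) (XT.lf (nat_lit 0) (nat_lit 21714757689) (nat_lit 152) (nat_lit 36510788952) (nat_lit 0) (nat_lit 15759452313) (nat_lit 4) (nat_lit 5) (nat_lit 6) (nat_lit 4) (nat_lit 4) (nat_lit 4) (nat_lit 400) (nat_lit 210) (nat_lit 170))) (XT.nd (nat_lit 78) (nat_lit 0)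 (nat_lit 0) (XT.lf (nat_lit 0) (nat_lit 24990950759) (nat_lit 152) (nat_lit 32167539951) (nat_lit 0) (nat_lit 18958964305) (nat_lit 4) (nat_lit 5) (nat_lit 6) (nat_lit 4) (nat_lit 4) (nat_lit 4) (nat_lit 401) (nat_lit 210) (nat_lit 169)) (XT.lf (nat_lit 0) (nat_lit 28333810315) (nat_lit 152) (nat_lit 27753653636) (nat_lit 0) (nat_lit 22227376212) (nat_lit 4) (nat_lit 5) (nat_lit 6) (nat_lit 4) (nat_lit 4) (nat_lit 4) (nat_lit 402) (nat_lit 210) (nat_lit 168))))))))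
noncomputable def xc13 : XT := (XT.nd (nat_lit 38532) (nat_lit 0) (nat_lit 76) (XT.nd (nat_lit 37440) (nat_lit 0) (nat_lit 456) (XT.nd (nat_lit 546) (nat_lit 0) (nat_lit 0) (XT.nd (nat_lit 234) (nat_lit 76) (nat_lit 0) (XT.nd (nat_lit 78) (nat_lit 0) (nat_lit 0) (XT.lf (nat_lit 0) (nat_lit 31746257301) (nat_lit 152) (nat_lit 23265273213) (nat_lit 0) (nat_lit 25567543928) (nat_lit 4) (nat_lit 5) (nat_lit 6) (nat_lit 4) (nat_lit 4) (nat_lit 4) (nat_lit 403) (nat_lit 210) (nat_lit 167)) (XT.nd (nat_lit 78) (nat_lit 0) (nat_lit 0) (XT.lf (nat_lit 0) (nat_lit 35231273468) (nat_lit 152) (nat_lit 18698476796) (nat_lit 0) (nat_lit 28982386046) (nat_lit 4) (nat_lit 5) (nat_lit 6) (nat_lit 4) (nat_lit 4) (nat_lit 4) (nat_lit 404) (nat_lit 210) (nat_lit 166)) (XT.lf (nat_lit 0) (nat_lit 38791903976) (nat_lit 152) (nat_lit 14049273980) (nat_lit 0) (nat_lit 32474886409) (nat_lit 4) (nat_lit 5) (nat_lit 6) (nat_lit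 4) (nat_lit 4) (nat_lit 4) (nat_lit 405) (nat_lit 210) (nat_lit 165)))) (XT.nd (nat_lit 156) (nat_lit 76) (nat_lit 0) (XT.nd (nat_lit 78) (nat_lit 0) (nat_lit 0) (XT.lf (nat_lit 0) (nat_lit 42431260054) (nat_lit 152) (nat_lit 9313602355) (nat_lit 0) (nat_lit 36048096715) (nat_lit 4) (nat_lit 5) (nat_lit 6) (nat_lit 4) (nat_lit 4) (nat_lit 4) (nat_lit 406) (nat_lit 210) (nat_lit 164)) (XT.lf (nat_lit 0) (nat_lit 46152521723) (nat_lit 152) (nat_lit 4487323956) (nat_lit 0) (nat_lit 39705139188) (nat_lit 4) (nat_lit 5) (nat_lit 6) (nat_lit 4) (nat_lit 4) (nat_lit 4) (nat_lit 407) (nat_lit 210) (nat_lit 163))) (XT.nd (nat_lit 78) (nat_lit 0) (nat_lit 0) (XT.lf (nat_lit 0) (nat_lit 442411392) (nat_lit 76) (nat_lit 49520781906) (nat_lit 76) (nat_lit 43011050638) (nat_lit 3) (nat_lit 4) (nat_lit 4) (nat_lit 5) (nat_lit 4) (nat_lit 4) (nat_lit 408) (nat_lit 210) (nat_lit 162)) (XT.lf (nat_lit 0) (nat_lit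 5562549951) (nat_lit 76) (nat_lit 48344763275) (nat_lit 76) (nat_lit 41774499256) (nat_lit 3) (nat_lit 4) (nat_lit 4) (nat_lit 5) (nat_lit 4) (nat_lit 4) (nat_lit 409) (nat_lit 210) (nat_lit 161))))) (XT.nd (nat_lit 36582) (nat_lit 0) (nat_lit 760) (XT.nd (nat_lit 78) (nat_lit 0) (nat_lit 0) (XT.lf (nat_lit 0) (nat_lit 10788259079) (nat_lit 76) (nat_lit 47156075371) (nat_lit 76) (nat_lit 40527041690) (nat_lit 3) (nat_lit 4) (nat_lit 4) (nat_lit 5) (nat_lit 4) (nat_lit 4) (nat_lit 410) (nat_lit 210) (nat_lit 160)) (XT.nd (nat_lit 78) (nat_lit 0) (nat_lit 0) (XT.lf (nat_lit 0) (nat_lit 16124104932) (nat_lit 76) (nat_lit 45953679533) (nat_lit 76) (nat_lit 39267587929) (nat_lit 3) (nat_lit 4) (nat_lit 4) (nat_lit 5) (nat_lit 4) (nat_lit 4) (nat_lit 411) (nat_lit 210) (nat_lit 159)) (XT.lf (nat_lit 0) (nat_lit 21574749899) (nat_lit 76) (nat_lit 44736525125) (nat_lit 76) (nat_lit 37995037479) (nat_lit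 3) (nat_lit 4) (nat_lit 4) (nat_lit 5) (nat_lit 4) (nat_lit 4) (nat_lit 412) (nat_lit 210) (nat_lit 158)))) (XT.nd (nat_lit 156) (nat_lit 152) (nat_lit 0) (XT.nd (nat_lit 78) (nat_lit 0) (nat_lit 0) (XT.lf (nat_lit 0) (nat_lit 1345542430) (nat_lit 76) (nat_lit 5354992893) (nat_lit 76) (nat_lit 5354992893) (nat_lit 15) (nat_lit 4) (nat_lit 16) (nat_lit 5) (nat_lit 16) (nat_lit 4) (nat_lit 358) (nat_lit 211) (nat_lit 211)) (XT.lf (nat_lit 0) (nat_lit 11026100632) (nat_lit 76) (nat_lit 6980925298) (nat_lit 76) (nat_lit 6690948453) (nat_lit 15) (nat_lit 4) (nat_lit 16) (nat_lit 5) (nat_lit 16) (nat_lit 4) (nat_lit 359) (nat_lit 211) (nat_lit 210))) (XT.nd (nat_lit 78) (nat_lit 152) (nat_lit 0) (XT.lf (nat_lit 0) (nat_lit 19451675206) (nat_lit 76) (nat_lit 3212484127) (nat_lit 76) (nat_lit 2640976363) (nat_lit 15) (nat_lit 4) (nat_lit 16) (nat_lit 5) (nat_lit 16) (nat_lit 4) (nat_lit 360) (nat_lit 211)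 (nat_lit 209)) (XT.lf (nat_lit 0) (nat_lit 1441275219) (nat_lit 152) (nat_lit 23869556804) (nat_lit 0) (nat_lit 621043420) (nat_lit 13) (nat_lit 5) (nat_lit 15) (nat_lit 4) (nat_lit 13) (nat_lit 4) (nat_lit 361) (nat_lit 211) (nat_lit 208)))))) (XT.nd (nat_lit 546) (nat_lit 152) (nat_lit 0) (XT.nd (nat_lit 234) (nat_lit 152) (nat_lit 0) (XT.nd (nat_lit 78) (nat_lit 0) (nat_lit 0) (XT.lf (nat_lit 0) (nat_lit 5599401764) (nat_lit 152) (nat_lit 16455530842) (nat_lit 0) (nat_lit 4521529294) (nat_lit 13) (nat_lit 5) (nat_lit 15) (nat_lit 4) (nat_lit 13) (nat_lit 4) (nat_lit 362) (nat_lit 211) (nat_lit 207)) (XT.nd (nat_lit 78) (nat_lit 0) (nat_lit 0) (XT.lf (nat_lit 0) (nat_lit 9799736131) (nat_lit 152) (nat_lit 8971421745) (nat_lit 0) (nat_lit 8471727086) (nat_lit 13) (nat_lit 5) (nat_lit 15) (nat_lit 4) (nat_lit 13) (nat_lit 4) (nat_lit 363) (nat_lit 211) (nat_lit 206)) (XT.lf (nat_lit 0) (nat_lit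 14045948514) (nat_lit 152) (nat_lit 1410690000) (nat_lit 0) (nat_lit 12475088426) (nat_lit 13) (nat_lit 5) (nat_lit 15) (nat_lit 4) (nat_lit 13) (nat_lit 4) (nat_lit 364) (nat_lit 211) (nat_lit 205)))) (XT.nd (nat_lit 156) (nat_lit 76) (nat_lit 0) (XT.nd (nat_lit 78) (nat_lit 0) (nat_lit 0) (XT.lf (nat_lit 0) (nat_lit 6357325168) (nat_lit 76) (nat_lit 12045534527) (nat_lit 76) (nat_lit 10238896727) (nat_lit 12) (nat_lit 4) (nat_lit 13) (nat_lit 5) (nat_lit 13) (nat_lit 4) (nat_lit 365) (nat_lit 211) (nat_lit 204)) (XT.lf (nat_lit 0) (nat_lit 14245113486) (nat_lit 76) (nat_lit 8582711048) (nat_lit 76) (nat_lit 6547162848) (nat_lit 12) (nat_lit 4) (nat_lit 13) (nat_lit 5) (nat_lit 13) (nat_lit 4) (nat_lit 366) (nat_lit 211) (nat_lit 203))) (XT.nd (nat_lit 78) (nat_lit 76) (nat_lit 0) (XT.lf (nat_lit 0) (nat_lit 22231491700) (nat_lit 76) (nat_lit 5079387513) (nat_lit 76) (nat_lit 2821596207) (nat_lit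 12) (nat_lit 4) (nat_lit 13) (nat_lit 5) (nat_lit 13) (nat_lit 4) (nat_lit 367) (nat_lit 211) (nat_lit 202)) (XT.lf (nat_lit 0) (nat_lit 922695104) (nat_lit 152) (nat_lit 600490250) (nat_lit 76) (nat_lit 29391425682) (nat_lit 11) (nat_lit 5) (nat_lit 13) (nat_lit 5) (nat_lit 12) (nat_lit 4) (nat_lit 368) (nat_lit 211) (nat_lit 201))))) (XT.nd (nat_lit 234) (nat_lit 76) (nat_lit 0) (XT.nd (nat_lit 78) (nat_lit 0) (nat_lit 0) (XT.lf (nat_lit 0) (nat_lit 4738704441) (nat_lit 152) (nat_lit 24846399132) (nat_lit 0) (nat_lit 2133804679) (nat_lit 10) (nat_lit 5) (nat_lit 12) (nat_lit 4) (nat_lit 10) (nat_lit 4) (nat_lit 369) (nat_lit 211) (nat_lit 200)) (XT.nd (nat_lit 78) (nat_lit 0) (nat_lit 0) (XT.lf (nat_lit 0) (nat_lit 8619551646) (nat_lit 152) (nat_lit 18112098350) (nat_lit 0) (nat_lit 5817191762) (nat_lit 10) (nat_lit 5) (nat_lit 12) (nat_lit 4) (nat_lit 10) (nat_lit 4) (nat_lit 370) (nat_lit 211)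 (nat_lit 199)) (XT.lf (nat_lit 0) (nat_lit 12548040513) (nat_lit 152) (nat_lit 11303742072) (nat_lit 0) (nat_lit 9553971773) (nat_lit 10) (nat_lit 5) (nat_lit 12) (nat_lit 4) (nat_lit 10) (nat_lit 4) (nat_lit 371) (nat_lit 211) (nat_lit 198)))) (XT.nd (nat_lit 156) (nat_lit 0) (nat_lit 0) (XT.nd (nat_lit 78) (nat_lit 76) (nat_lit 0) (XT.lf (nat_lit 0) (nat_lit 16527603702) (nat_lit 152) (nat_lit 4415381250) (nat_lit 0) (nat_lit 13347409859) (nat_lit 10) (nat_lit 5) (nat_lit 12) (nat_lit 4) (nat_lit 10) (nat_lit 4) (nat_lit 372) (nat_lit 211) (nat_lit 197)) (XT.lf (nat_lit 0) (nat_lit 2609932251) (nat_lit 76) (nat_lit 17976874514) (nat_lit 76) (nat_lit 14615976687) (nat_lit 9) (nat_lit 4) (nat_lit 10) (nat_lit 5) (nat_lit 10) (nat_lit 4) (nat_lit 373) (nat_lit 211) (nat_lit 196))) (XT.nd (nat_lit 78) (nat_lit 0) (nat_lit 0) (XT.lf (nat_lit 0) (nat_lit 9817071443) (nat_lit 76) (nat_lit 14931206117)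 (nat_lit 76) (nat_lit 11394867530) (nat_lit 9) (nat_lit 4) (nat_lit 10) (nat_lit 5) (nat_lit 10) (nat_lit 4) (nat_lit 374) (nat_lit 211) (nat_lit 195)) (XT.lf (nat_lit 0) (nat_lit 17124459079) (nat_lit 76) (nat_lit 11847905190) (nat_lit 76) (nat_lit 8141235767) (nat_lit 9) (nat_lit 4) (nat_lit 10) (nat_lit 5) (nat_lit 10) (nat_lit 4) (nat_lit 375) (nat_lit 211) (nat_lit 194))))))) (XT.nd (nat_lit 1092) (nat_lit 152) (nat_lit 0) (XT.nd (nat_lit 546) (nat_lit 76) (nat_lit 0) (XT.nd (nat_lit 234) (nat_lit 76) (nat_lit 0) (XT.nd (nat_lit 78) (nat_lit 76) (nat_lit 0) (XT.lf (nat_lit 0) (nat_lit 24538480256) (nat_lit 76) (nat_lit 8724277587) (nat_lit 76) (nat_lit 4852238421) (nat_lit 9) (nat_lit 4) (nat_lit 10) (nat_lit 5) (nat_lit 10) (nat_lit 4) (nat_lit 376) (nat_lit 211) (nat_lit 193)) (XT.nd (nat_lit 78) (nat_lit 76) (nat_lit 0) (XT.lf (nat_lit 0) (nat_lit 32065613245) (nat_lit 76) (nat_lit 5557593925)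 (nat_lit 76) (nat_lit 1525001611) (nat_lit 9) (nat_lit 4) (nat_lit 10) (nat_lit 5) (nat_lit 10) (nat_lit 4) (nat_lit 377) (nat_lit 211) (nat_lit 192)) (XT.lf (nat_lit 0) (nat_lit 1807410937) (nat_lit 152) (nat_lit 519424955) (nat_lit 76) (nat_lit 37886772908) (nat_lit 8) (nat_lit 5) (nat_lit 10) (nat_lit 5) (nat_lit 9) (nat_lit 4) (nat_lit 378) (nat_lit 211) (nat_lit 191)))) (XT.nd (nat_lit 156) (nat_lit 0) (nat_lit 0) (XT.nd (nat_lit 78) (nat_lit 0) (nat_lit 0) (XT.lf (nat_lit 0) (nat_lit 5223208464) (nat_lit 152) (nat_lit 35077096268) (nat_lit 0) (nat_lit 1009804678) (nat_lit 7) (nat_lit 5) (nat_lit 9) (nat_lit 4) (nat_lit 7) (nat_lit 4) (nat_lit 379) (nat_lit 211) (nat_lit 190)) (XT.lf (nat_lit 0) (nat_lit 8714139634) (nat_lit 152) (nat_lit 29368112237) (nat_lit 0) (nat_lit 4358086455) (nat_lit 7) (nat_lit 5) (nat_lit 9) (nat_lit 4) (nat_lit 7) (nat_lit 4) (nat_lit 380) (nat_lit 211) (nat_lit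 189))) (XT.nd (nat_lit 78) (nat_lit 0) (nat_lit 0) (XT.lf (nat_lit 0) (nat_lit 12255744982) (nat_lit 152) (nat_lit 23589166189) (nat_lit 0) (nat_lit 7761197247) (nat_lit 7) (nat_lit 5) (nat_lit 9) (nat_lit 4) (nat_lit 7) (nat_lit 4) (nat_lit 381) (nat_lit 211) (nat_lit 188)) (XT.lf (nat_lit 0) (nat_lit 15851119116) (nat_lit 152) (nat_lit 17735208559) (nat_lit 0) (nat_lit 11222110646) (nat_lit 7) (nat_lit 5) (nat_lit 9) (nat_lit 4) (nat_lit 7) (nat_lit 4) (nat_lit 382) (nat_lit 211) (nat_lit 187))))) (XT.nd (nat_lit 234) (nat_lit 0) (nat_lit 0) (XT.nd (nat_lit 78) (nat_lit 76) (nat_lit 0) (XT.lf (nat_lit 0) (nat_lit 19503403624) (nat_lit 152) (nat_lit 11801124239) (nat_lit 0) (nat_lit 14743850751) (nat_lit 7) (nat_lit 5) (nat_lit 9) (nat_lit 4) (nat_lit 7) (nat_lit 4) (nat_lit 383) (nat_lit 211) (nat_lit 186)) (XT.nd (nat_lit 78) (nat_lit 76) (nat_lit 0) (XT.lf (nat_lit 0) (nat_lit 23215789823)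 (nat_lit 152) (nat_lit 5781728106) (nat_lit 0) (nat_lit 18329494812) (nat_lit 7) (nat_lit 5) (nat_lit 9) (nat_lit 4) (nat_lit 7) (nat_lit 4) (nat_lit 384) (nat_lit 211) (nat_lit 185)) (XT.lf (nat_lit 0) (nat_lit 334772114) (nat_lit 76) (nat_lit 26659967465) (nat_lit 76) (nat_lit 21650621835) (nat_lit 6) (nat_lit 4) (nat_lit 7) (nat_lit 5) (nat_lit 7) (nat_lit 4) (nat_lit 385) (nat_lit 211) (nat_lit 184)))) (XT.nd (nat_lit 156) (nat_lit 0) (nat_lit 0) (XT.nd (nat_lit 78) (nat_lit 0) (nat_lit 0) (XT.lf (nat_lit 0) (nat_lit 6664159150) (nat_lit 76) (nat_lit 24233798798) (nat_lit 76) (nat_lit 19104986547) (nat_lit 6) (nat_lit 4) (nat_lit 7) (nat_lit 5) (nat_lit 7) (nat_lit 4) (nat_lit 386) (nat_lit 211) (nat_lit 183)) (XT.lf (nat_lit 0) (nat_lit 13096895807) (nat_lit 76) (nat_lit 21775276093) (nat_lit 76) (nat_lit 16530476831) (nat_lit 6) (nat_lit 4) (nat_lit 7) (nat_lit 5) (nat_lit 7) (nat_lit 4)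 (nat_lit 387) (nat_lit 211) (nat_lit 182))) (XT.nd (nat_lit 78) (nat_lit 0) (nat_lit 0) (XT.lf (nat_lit 0) (nat_lit 19638602923) (nat_lit 76) (nat_lit 19282251127) (nat_lit 76) (nat_lit 13924843116) (nat_lit 6) (nat_lit 4) (nat_lit 7) (nat_lit 5) (nat_lit 7) (nat_lit 4) (nat_lit 388) (nat_lit 211) (nat_lit 181)) (XT.lf (nat_lit 0) (nat_lit 26294996552) (nat_lit 76) (nat_lit 16752545527) (nat_lit 76) (nat_lit 11285808635) (nat_lit 6) (nat_lit 4) (nat_lit 7) (nat_lit 5) (nat_lit 7) (nat_lit 4) (nat_lit 389) (nat_lit 211) (nat_lit 180)))))) (XT.nd (nat_lit 546) (nat_lit 0) (nat_lit 0) (XT.nd (nat_lit 234) (nat_lit 152) (nat_lit 0) (XT.nd (nat_lit 78) (nat_lit 0) (nat_lit 0) (XT.lf (nat_lit 0) (nat_lit 33071892960) (nat_lit 76) (nat_lit 14183948871) (nat_lit 76) (nat_lit 8611067434) (nat_lit 6) (nat_lit 4) (nat_lit 7) (nat_lit 5) (nat_lit 7) (nat_lit 4) (nat_lit 390) (nat_lit 211) (nat_lit 179)) (XT.nd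 (nat_lit 78) (nat_lit 0) (nat_lit 0) (XT.lf (nat_lit 0) (nat_lit 39975213709) (nat_lit 76) (nat_lit 11574216756) (nat_lit 76) (nat_lit 5898282361) (nat_lit 6) (nat_lit 4) (nat_lit 7) (nat_lit 5) (nat_lit 7) (nat_lit 4) (nat_lit 391) (nat_lit 211) (nat_lit 178)) (XT.lf (nat_lit 0) (nat_lit 47010990825) (nat_lit 76) (nat_lit 8921068831) (nat_lit 76) (nat_lit 3145083023) (nat_lit 6) (nat_lit 4) (nat_lit 7) (nat_lit 5) (nat_lit 7) (nat_lit 4) (nat_lit 392) (nat_lit 211) (nat_lit 177)))) (XT.nd (nat_lit 156) (nat_lit 76) (nat_lit 0) (XT.nd (nat_lit 78) (nat_lit 76) (nat_lit 0) (XT.lf (nat_lit 0) (nat_lit 54185372074) (nat_lit 76) (nat_lit 6222186813) (nat_lit 76) (nat_lit 349063709) (nat_lit 6) (nat_lit 4) (nat_lit 7) (nat_lit 5) (nat_lit 7) (nat_lit 4) (nat_lit 393) (nat_lit 211) (nat_lit 176)) (XT.lf (nat_lit 0) (nat_lit 2443586538) (nat_lit 152) (nat_lit 1006950483) (nat_lit 76) (nat_lit 59036364363)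 (nat_lit 5) (nat_lit 5) (nat_lit 7) (nat_lit 5) (nat_lit 6) (nat_lit 4) (nat_lit 394) (nat_lit 211) (nat_lit 175))) (XT.nd (nat_lit 78) (nat_lit 0) (nat_lit 0) (XT.lf (nat_lit 0) (nat_lit 4744352975) (nat_lit 76) (nat_lit 577492024) (nat_lit 152) (nat_lit 58946882670) (nat_lit 4) (nat_lit 5) (nat_lit 5) (nat_lit 5) (nat_lit 6) (nat_lit 4) (nat_lit 395) (nat_lit 211) (nat_lit 174)) (XT.lf (nat_lit 0) (nat_lit 8282959457) (nat_lit 152) (nat_lit 55507024590) (nat_lit 0) (nat_lit 2314137359) (nat_lit 4) (nat_lit 5) (nat_lit 6) (nat_lit 4) (nat_lit 4) (nat_lit 4) (nat_lit 396) (nat_lit 211) (nat_lit 173))))) (XT.nd (nat_lit 234) (nat_lit 0) (nat_lit 0) (XT.nd (nat_lit 78) (nat_lit 0) (nat_lit 0) (XT.lf (nat_lit 0) (nat_lit 11303037283) (nat_lit 152) (nat_lit 51442019756) (nat_lit 0) (nat_lit 5250423701) (nat_lit 4) (nat_lit 5) (nat_lit 6) (nat_lit 4) (nat_lit 4) (nat_lit 4) (nat_lit 397) (nat_lit 211)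 (nat_lit 172)) (XT.nd (nat_lit 78) (nat_lit 0) (nat_lit 0) (XT.lf (nat_lit 0) (nat_lit 14379166173) (nat_lit 152) (nat_lit 47320257040) (nat_lit 0) (nat_lit 8245201635) (nat_lit 4) (nat_lit 5) (nat_lit 6) (nat_lit 4) (nat_lit 4) (nat_lit 4) (nat_lit 398) (nat_lit 211) (nat_lit 171)) (XT.lf (nat_lit 0) (nat_lit 17514034008) (nat_lit 152) (nat_lit 43138134902) (nat_lit 0) (nat_lit 11301087960) (nat_lit 4) (nat_lit 5) (nat_lit 6) (nat_lit 4) (nat_lit 4) (nat_lit 4) (nat_lit 399) (nat_lit 211) (nat_lit 170)))) (XT.nd (nat_lit 156) (nat_lit 0) (nat_lit 0) (XT.nd (nat_lit 78) (nat_lit 0) (nat_lit 0) (XT.lf (nat_lit 0) (nat_lit 20710379992) (nat_lit 152) (nat_lit 38891999060) (nat_lit 0) (nat_lit 14420752866) (nat_lit 4) (nat_lit 5) (nat_lit 6) (nat_lit 4) (nat_lit 4) (nat_lit 4) (nat_lit 400) (nat_lit 211) (nat_lit 169)) (XT.lf (nat_lit 0) (nat_lit 23970997049) (nat_lit 152) (nat_lit 34578139298) (nat_lit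 0) (nat_lit 17606922274) (nat_lit 4) (nat_lit 5) (nat_lit 6) (nat_lit 4) (nat_lit 4) (nat_lit 4) (nat_lit 401) (nat_lit 211) (nat_lit 168))) (XT.nd (nat_lit 78) (nat_lit 0) (nat_lit 0) (XT.lf (nat_lit 0) (nat_lit 27298734262) (nat_lit 152) (nat_lit 30192786225) (nat_lit 0) (nat_lit 20862380217) (nat_lit 4) (nat_lit 5) (nat_lit 6) (nat_lit 4) (nat_lit 4) (nat_lit 4) (nat_lit 402) (nat_lit 211) (nat_lit 167)) (XT.lf (nat_lit 0) (nat_lit 30696499362) (nat_lit 152) (nat_lit 25732107978) (nat_lit 0) (nat_lit 24189971268) (nat_lit 4) (nat_lit 5) (nat_lit 6) (nat_lit 4) (nat_lit 4) (nat_lit 4) (nat_lit 403) (nat_lit 211) (nat_lit 166))))))))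
noncomputable def xc14 : XT := (XT.nd (nat_lit 38376) (nat_lit 0) (nat_lit 76) (XT.nd (nat_lit 37284) (nat_lit 0) (nat_lit 456) (XT.nd (nat_lit 468) (nat_lit 0) (nat_lit 0) (XT.nd (nat_lit 234) (nat_lit 76) (nat_lit 0) (XT.nd (nat_lit 78) (nat_lit 0) (nat_lit 0) (XT.lf (nat_lit 0) (nat_lit 34167261271) (nat_lit 152) (nat_lit 21192206878) (nat_lit 0) (nat_lit 27592603032) (nat_lit 4) (nat_lit 5) (nat_lit 6) (nat_lit 4) (nat_lit 4) (nat_lit 4) (nat_lit 404) (nat_lit 211) (nat_lit 165)) (XT.nd (nat_lit 78) (nat_lit 0) (nat_lit 0) (XT.lf (nat_lit 0) (nat_lit 37714052692) (nat_lit 152) (nat_lit 16569116021) (nat_lit 0) (nat_lit 31073248682) (nat_lit 4) (nat_lit 5) (nat_lit 6) (nat_lit 4) (nat_lit 4) (nat_lit 4) (nat_lit 405) (nat_lit 211) (nat_lit 164)) (XT.lf (nat_lit 0) (nat_lit 41339972764) (nat_lit 152) (nat_lit 11858795812) (nat_lit 0) (nat_lit 34634949558) (nat_lit 4) (nat_lit 5) (nat_lit 6) (nat_lit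 4) (nat_lit 4) (nat_lit 4) (nat_lit 406) (nat_lit 211) (nat_lit 163)))) (XT.nd (nat_lit 78) (nat_lit 76) (nat_lit 0) (XT.lf (nat_lit 0) (nat_lit 45048189767) (nat_lit 152) (nat_lit 7057130438) (nat_lit 0) (nat_lit 38280817828) (nat_lit 4) (nat_lit 5) (nat_lit 6) (nat_lit 4) (nat_lit 4) (nat_lit 4) (nat_lit 407) (nat_lit 211) (nat_lit 162)) (XT.nd (nat_lit 78) (nat_lit 76) (nat_lit 0) (XT.lf (nat_lit 0) (nat_lit 48841943891) (nat_lit 152) (nat_lit 2159924270) (nat_lit 0) (nat_lit 42014039200) (nat_lit 4) (nat_lit 5) (nat_lit 6) (nat_lit 4) (nat_lit 4) (nat_lit 4) (nat_lit 408) (nat_lit 211) (nat_lit 161)) (XT.lf (nat_lit 0) (nat_lit 2893565694) (nat_lit 76) (nat_lit 49858799094) (nat_lit 76) (nat_lit 42972124742) (nat_lit 3) (nat_lit 4) (nat_lit 4) (nat_lit 5) (nat_lit 4) (nat_lit 4) (nat_lit 409) (nat_lit 211) (nat_lit 160))))) (XT.nd (nat_lit 36504) (nat_lit 0) (nat_lit 912) (XT.nd (nat_lit 78)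 (nat_lit 0) (nat_lit 0) (XT.lf (nat_lit 0) (nat_lit 8096302139) (nat_lit 76) (nat_lit 48680925330) (nat_lit 76) (nat_lit 41737193054) (nat_lit 3) (nat_lit 4) (nat_lit 4) (nat_lit 5) (nat_lit 4) (nat_lit 4) (nat_lit 410) (nat_lit 211) (nat_lit 159)) (XT.nd (nat_lit 36348) (nat_lit 0) (nat_lit 988) (XT.lf (nat_lit 0) (nat_lit 13409844414) (nat_lit 76) (nat_lit 47489028657) (nat_lit 76) (nat_lit 40489900340) (nat_lit 3) (nat_lit 4) (nat_lit 4) (nat_lit 5) (nat_lit 4) (nat_lit 4) (nat_lit 411) (nat_lit 211) (nat_lit 158)) (XT.lf (nat_lit 0) (nat_lit 2401010752) (nat_lit 152) (nat_lit 6693279381) (nat_lit 0) (nat_lit 2401010752) (nat_lit 16) (nat_lit 5) (nat_lit 18) (nat_lit 4) (nat_lit 16) (nat_lit 4) (nat_lit 356) (nat_lit 212) (nat_lit 212)))) (XT.nd (nat_lit 156) (nat_lit 0) (nat_lit 0) (XT.nd (nat_lit 78) (nat_lit 76) (nat_lit 0) (XT.lf (nat_lit 0) (nat_lit 9194397432) (nat_lit 152) (nat_lit 5452146723)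 (nat_lit 0) (nat_lit 8895721281) (nat_lit 16) (nat_lit 5) (nat_lit 18) (nat_lit 4) (nat_lit 16) (nat_lit 4) (nat_lit 357) (nat_lit 212) (nat_lit 211)) (XT.lf (nat_lit 0) (nat_lit 2610160514) (nat_lit 76) (nat_lit 11045443153) (nat_lit 76) (nat_lit 10456790156) (nat_lit 15) (nat_lit 4) (nat_lit 16) (nat_lit 5) (nat_lit 16) (nat_lit 4) (nat_lit 358) (nat_lit 212) (nat_lit 210))) (XT.nd (nat_lit 78) (nat_lit 0) (nat_lit 0) (XT.lf (nat_lit 0) (nat_lit 10866608961) (nat_lit 76) (nat_lit 7352092582) (nat_lit 76) (nat_lit 6481908667) (nat_lit 15) (nat_lit 4) (nat_lit 16) (nat_lit 5) (nat_lit 16) (nat_lit 4) (nat_lit 359) (nat_lit 212) (nat_lit 209)) (XT.lf (nat_lit 0) (nat_lit 19215904578) (nat_lit 76) (nat_lit 3618321233) (nat_lit 76) (nat_lit 2474806329) (nat_lit 15) (nat_lit 4) (nat_lit 16) (nat_lit 5) (nat_lit 16) (nat_lit 4) (nat_lit 360) (nat_lit 212) (nat_lit 208)))))) (XT.nd (nat_lit 546) (nat_lit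 228) (nat_lit 0) (XT.nd (nat_lit 234) (nat_lit 76) (nat_lit 0) (XT.nd (nat_lit 78) (nat_lit 0) (nat_lit 0) (XT.lf (nat_lit 0) (nat_lit 1556050722) (nat_lit 152) (nat_lit 24192928034) (nat_lit 0) (nat_lit 188201406) (nat_lit 13) (nat_lit 5) (nat_lit 15) (nat_lit 4) (nat_lit 13) (nat_lit 4) (nat_lit 361) (nat_lit 212) (nat_lit 207)) (XT.nd (nat_lit 78) (nat_lit 0) (nat_lit 0) (XT.lf (nat_lit 0) (nat_lit 5673519151) (nat_lit 152) (nat_lit 16853945246) (nat_lit 0) (nat_lit 4055533261) (nat_lit 13) (nat_lit 5) (nat_lit 15) (nat_lit 4) (nat_lit 13) (nat_lit 4) (nat_lit 362) (nat_lit 212) (nat_lit 206)) (XT.lf (nat_lit 0) (nat_lit 9834379619) (nat_lit 152) (nat_lit 9442693600) (nat_lit 0) (nat_lit 7973542686) (nat_lit 13) (nat_lit 5) (nat_lit 15) (nat_lit 4) (nat_lit 13) (nat_lit 4) (nat_lit 363) (nat_lit 212) (nat_lit 205)))) (XT.nd (nat_lit 156) (nat_lit 0) (nat_lit 0) (XT.nd (nat_lit 78) (nat_lit 76)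 (nat_lit 0) (XT.lf (nat_lit 0) (nat_lit 14042267829) (nat_lit 152) (nat_lit 1952697245) (nat_lit 0) (nat_lit 11945653183) (nat_lit 13) (nat_lit 5) (nat_lit 15) (nat_lit 4) (nat_lit 13) (nat_lit 4) (nat_lit 364) (nat_lit 212) (nat_lit 204)) (XT.lf (nat_lit 0) (nat_lit 5734489011) (nat_lit 76) (nat_lit 12621494980) (nat_lit 76) (nat_lit 10295969935) (nat_lit 12) (nat_lit 4) (nat_lit 13) (nat_lit 5) (nat_lit 13) (nat_lit 4) (nat_lit 365) (nat_lit 212) (nat_lit 203))) (XT.nd (nat_lit 78) (nat_lit 0) (nat_lit 0) (XT.lf (nat_lit 0) (nat_lit 13554275480) (nat_lit 76) (nat_lit 9189895466) (nat_lit 76) (nat_lit 6642127314) (nat_lit 12) (nat_lit 4) (nat_lit 13) (nat_lit 5) (nat_lit 13) (nat_lit 4) (nat_lit 366) (nat_lit 212) (nat_lit 202)) (XT.lf (nat_lit 0) (nat_lit 21474632481) (nat_lit 76) (nat_lit 5716886460) (nat_lit 76) (nat_lit 2953348302) (nat_lit 12) (nat_lit 4) (nat_lit 13) (nat_lit 5) (nat_lit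 13) (nat_lit 4) (nat_lit 367) (nat_lit 212) (nat_lit 201))))) (XT.nd (nat_lit 234) (nat_lit 76) (nat_lit 0) (XT.nd (nat_lit 78) (nat_lit 76) (nat_lit 0) (XT.lf (nat_lit 0) (nat_lit 758494772) (nat_lit 152) (nat_lit 1433279212) (nat_lit 76) (nat_lit 28736326630) (nat_lit 11) (nat_lit 5) (nat_lit 13) (nat_lit 5) (nat_lit 12) (nat_lit 4) (nat_lit 368) (nat_lit 212) (nat_lit 200)) (XT.nd (nat_lit 78) (nat_lit 0) (nat_lit 0) (XT.lf (nat_lit 0) (nat_lit 4524931660) (nat_lit 152) (nat_lit 25767921403) (nat_lit 0) (nat_lit 1441040858) (nat_lit 10) (nat_lit 5) (nat_lit 12) (nat_lit 4) (nat_lit 10) (nat_lit 4) (nat_lit 369) (nat_lit 212) (nat_lit 199)) (XT.lf (nat_lit 0) (nat_lit 8371895242) (nat_lit 152) (nat_lit 19096661768) (nat_lit 0) (nat_lit 5096295584) (nat_lit 10) (nat_lit 5) (nat_lit 12) (nat_lit 4) (nat_lit 10) (nat_lit 4) (nat_lit 370) (nat_lit 212) (nat_lit 198)))) (XT.nd (nat_lit 156) (nat_lit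 76) (nat_lit 0) (XT.nd (nat_lit 78) (nat_lit 0) (nat_lit 0) (XT.lf (nat_lit 0) (nat_lit 12267487388) (nat_lit 152) (nat_lit 12349510487) (nat_lit 0) (nat_lit 8805762627) (nat_lit 10) (nat_lit 5) (nat_lit 12) (nat_lit 4) (nat_lit 10) (nat_lit 4) (nat_lit 371) (nat_lit 212) (nat_lit 197)) (XT.lf (nat_lit 0) (nat_lit 16215112012) (nat_lit 152) (nat_lit 5520571991) (nat_lit 0) (nat_lit 12572683267) (nat_lit 10) (nat_lit 5) (nat_lit 12) (nat_lit 4) (nat_lit 10) (nat_lit 4) (nat_lit 372) (nat_lit 212) (nat_lit 196))) (XT.nd (nat_lit 78) (nat_lit 0) (nat_lit 0) (XT.lf (nat_lit 0) (nat_lit 1423906292) (nat_lit 76) (nat_lit 18807999662) (nat_lit 76) (nat_lit 14990130156) (nat_lit 9) (nat_lit 4) (nat_lit 10) (nat_lit 5) (nat_lit 10) (nat_lit 4) (nat_lit 373) (nat_lit 212) (nat_lit 195)) (XT.lf (nat_lit 0) (nat_lit 8573919508) (nat_lit 76) (nat_lit 15788802950) (nat_lit 76) (nat_lit 11800602610) (nat_lit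 9) (nat_lit 4) (nat_lit 10) (nat_lit 5) (nat_lit 10) (nat_lit 4) (nat_lit 374) (nat_lit 212) (nat_lit 194))))))) (XT.nd (nat_lit 1092) (nat_lit 152) (nat_lit 0) (XT.nd (nat_lit 546) (nat_lit 76) (nat_lit 0) (XT.nd (nat_lit 234) (nat_lit 152) (nat_lit 0) (XT.nd (nat_lit 78) (nat_lit 0) (nat_lit 0) (XT.lf (nat_lit 0) (nat_lit 15825845031) (nat_lit 76) (nat_lit 12731202690) (nat_lit 76) (nat_lit 8577632606) (nat_lit 9) (nat_lit 4) (nat_lit 10) (nat_lit 5) (nat_lit 10) (nat_lit 4) (nat_lit 375) (nat_lit 212) (nat_lit 193)) (XT.nd (nat_lit 78) (nat_lit 0) (nat_lit 0) (XT.lf (nat_lit 0) (nat_lit 23186019497) (nat_lit 76) (nat_lit 9632527190) (nat_lit 76) (nat_lit 5318403957) (nat_lit 9) (nat_lit 4) (nat_lit 10) (nat_lit 5) (nat_lit 10) (nat_lit 4) (nat_lit 376) (nat_lit 212) (nat_lit 192)) (XT.lf (nat_lit 0) (nat_lit 30660874126) (nat_lit 76) (nat_lit 6490068870) (nat_lit 76) (nat_lit 2020068794) (nat_lit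 9) (nat_lit 4) (nat_lit 10) (nat_lit 5) (nat_lit 10) (nat_lit 4) (nat_lit 377) (nat_lit 212) (nat_lit 191)))) (XT.nd (nat_lit 156) (nat_lit 0) (nat_lit 0) (XT.nd (nat_lit 78) (nat_lit 76) (nat_lit 0) (XT.lf (nat_lit 0) (nat_lit 1294491994) (nat_lit 152) (nat_lit 1993518069) (nat_lit 76) (nat_lit 36949376518) (nat_lit 8) (nat_lit 5) (nat_lit 10) (nat_lit 5) (nat_lit 9) (nat_lit 4) (nat_lit 378) (nat_lit 212) (nat_lit 190)) (XT.lf (nat_lit 0) (nat_lit 4659028856) (nat_lit 152) (nat_lit 36646757910) (nat_lit 0) (nat_lit 29644688) (nat_lit 7) (nat_lit 5) (nat_lit 9) (nat_lit 4) (nat_lit 7) (nat_lit 4) (nat_lit 379) (nat_lit 212) (nat_lit 189))) (XT.nd (nat_lit 78) (nat_lit 0) (nat_lit 0) (XT.lf (nat_lit 0) (nat_lit 8123332559) (nat_lit 152) (nat_lit 30987679053) (nat_lit 0) (nat_lit 3355453835) (nat_lit 7) (nat_lit 5) (nat_lit 9) (nat_lit 4) (nat_lit 7) (nat_lit 4) (nat_lit 380) (nat_lit 212) (nat_lit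 188)) (XT.lf (nat_lit 0) (nat_lit 11639085998) (nat_lit 152) (nat_lit 25257184630) (nat_lit 0) (nat_lit 6736746540) (nat_lit 7) (nat_lit 5) (nat_lit 9) (nat_lit 4) (nat_lit 7) (nat_lit 4) (nat_lit 381) (nat_lit 212) (nat_lit 187))))) (XT.nd (nat_lit 234) (nat_lit 76) (nat_lit 0) (XT.nd (nat_lit 78) (nat_lit 0) (nat_lit 0) (XT.lf (nat_lit 0) (nat_lit 15209361191) (nat_lit 152) (nat_lit 19450267414) (nat_lit 0) (nat_lit 10176477330) (nat_lit 7) (nat_lit 5) (nat_lit 9) (nat_lit 4) (nat_lit 7) (nat_lit 4) (nat_lit 382) (nat_lit 212) (nat_lit 186)) (XT.nd (nat_lit 78) (nat_lit 0) (nat_lit 0) (XT.lf (nat_lit 0) (nat_lit 18837277796) (nat_lit 152) (nat_lit 13561853398) (nat_lit 0) (nat_lit 13677651797) (nat_lit 7) (nat_lit 5) (nat_lit 9) (nat_lit 4) (nat_lit 7) (nat_lit 4) (nat_lit 383) (nat_lit 212) (nat_lit 185)) (XT.lf (nat_lit 0) (nat_lit 22526005836) (nat_lit 152) (nat_lit 7586797366) (nat_lit 0)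 (nat_lit 17243329217) (nat_lit 7) (nat_lit 5) (nat_lit 9) (nat_lit 4) (nat_lit 7) (nat_lit 4) (nat_lit 384) (nat_lit 212) (nat_lit 184)))) (XT.nd (nat_lit 156) (nat_lit 0) (nat_lit 0) (XT.nd (nat_lit 78) (nat_lit 76) (nat_lit 0) (XT.lf (nat_lit 0) (nat_lit 26278768472) (nat_lit 152) (nat_lit 1519878396) (nat_lit 0) (nat_lit 20876625232) (nat_lit 7) (nat_lit 5) (nat_lit 9) (nat_lit 4) (nat_lit 7) (nat_lit 4) (nat_lit 385) (nat_lit 212) (nat_lit 183)) (XT.lf (nat_lit 0) (nat_lit 4736633483) (nat_lit 76) (nat_lit 25407742753) (nat_lit 76) (nat_lit 19889612502) (nat_lit 6) (nat_lit 4) (nat_lit 7) (nat_lit 5) (nat_lit 7) (nat_lit 4) (nat_lit 386) (nat_lit 212) (nat_lit 182))) (XT.nd (nat_lit 78) (nat_lit 0) (nat_lit 0) (XT.lf (nat_lit 0) (nat_lit 11127985095) (nat_lit 76) (nat_lit 22968556708) (nat_lit 76) (nat_lit 17337817709) (nat_lit 6) (nat_lit 4) (nat_lit 7) (nat_lit 5) (nat_lit 7) (nat_lit 4)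 (nat_lit 387) (nat_lit 212) (nat_lit 181)) (XT.lf (nat_lit 0) (nat_lit 17629512555) (nat_lit 76) (nat_lit 20494305197) (nat_lit 76) (nat_lit 14754237317) (nat_lit 6) (nat_lit 4) (nat_lit 7) (nat_lit 5) (nat_lit 7) (nat_lit 4) (nat_lit 388) (nat_lit 212) (nat_lit 180)))))) (XT.nd (nat_lit 546) (nat_lit 0) (nat_lit 0) (XT.nd (nat_lit 234) (nat_lit 152) (nat_lit 0) (XT.nd (nat_lit 78) (nat_lit 0) (nat_lit 0) (XT.lf (nat_lit 0) (nat_lit 24246896810) (nat_lit 76) (nat_lit 17982826254) (nat_lit 76) (nat_lit 12136613828) (nat_lit 6) (nat_lit 4) (nat_lit 7) (nat_lit 5) (nat_lit 7) (nat_lit 4) (nat_lit 389) (nat_lit 212) (nat_lit 179)) (XT.nd (nat_lit 78) (nat_lit 0) (nat_lit 0) (XT.lf (nat_lit 0) (nat_lit 30985920040) (nat_lit 76) (nat_lit 15431925381) (nat_lit 76) (nat_lit 9482659999) (nat_lit 6) (nat_lit 4) (nat_lit 7) (nat_lit 5) (nat_lit 7) (nat_lit 4) (nat_lit 390) (nat_lit 212) (nat_lit 178)) (XT.lf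 (nat_lit 0) (nat_lit 37852470712) (nat_lit 76) (nat_lit 12839373637) (nat_lit 76) (nat_lit 6790056840) (nat_lit 6) (nat_lit 4) (nat_lit 7) (nat_lit 5) (nat_lit 7) (nat_lit 4) (nat_lit 391) (nat_lit 212) (nat_lit 177)))) (XT.nd (nat_lit 156) (nat_lit 152) (nat_lit 0) (XT.nd (nat_lit 78) (nat_lit 0) (nat_lit 0) (XT.lf (nat_lit 0) (nat_lit 44852548725) (nat_lit 76) (nat_lit 10202905685) (nat_lit 76) (nat_lit 4056451593) (nat_lit 6) (nat_lit 4) (nat_lit 7) (nat_lit 5) (nat_lit 7) (nat_lit 4) (nat_lit 392) (nat_lit 212) (nat_lit 176)) (XT.lf (nat_lit 0) (nat_lit 51992270651) (nat_lit 76) (nat_lit 7520217815) (nat_lit 76) (nat_lit 1279455669) (nat_lit 6) (nat_lit 4) (nat_lit 7) (nat_lit 5) (nat_lit 7) (nat_lit 4) (nat_lit 393) (nat_lit 212) (nat_lit 175))) (XT.nd (nat_lit 78) (nat_lit 76) (nat_lit 0) (XT.lf (nat_lit 0) (nat_lit 1513240969) (nat_lit 152) (nat_lit 3260444195) (nat_lit 76) (nat_lit 57749353347)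 (nat_lit 5) (nat_lit 5) (nat_lit 7) (nat_lit 5) (nat_lit 6) (nat_lit 4) (nat_lit 394) (nat_lit 212) (nat_lit 174)) (XT.lf (nat_lit 0) (nat_lit 2412329547) (nat_lit 76) (nat_lit 1939171584) (nat_lit 152) (nat_lit 59954567511) (nat_lit 4) (nat_lit 5) (nat_lit 5) (nat_lit 5) (nat_lit 6) (nat_lit 4) (nat_lit 395) (nat_lit 212) (nat_lit 173))))) (XT.nd (nat_lit 234) (nat_lit 0) (nat_lit 0) (XT.nd (nat_lit 78) (nat_lit 0) (nat_lit 0) (XT.lf (nat_lit 0) (nat_lit 7281995351) (nat_lit 152) (nat_lit 57896377542) (nat_lit 0) (nat_lit 964011877) (nat_lit 4) (nat_lit 5) (nat_lit 6) (nat_lit 4) (nat_lit 4) (nat_lit 4) (nat_lit 396) (nat_lit 212) (nat_lit 172)) (XT.nd (nat_lit 78) (nat_lit 0) (nat_lit 0) (XT.lf (nat_lit 0) (nat_lit 10285052847) (nat_lit 152) (nat_lit 53863487123) (nat_lit 0) (nat_lit 3885718417) (nat_lit 4) (nat_lit 5) (nat_lit 6) (nat_lit 4) (nat_lit 4) (nat_lit 4) (nat_lit 397) (nat_lit 212)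 (nat_lit 171)) (XT.lf (nat_lit 0) (nat_lit 13344657145) (nat_lit 152) (nat_lit 49772903451) (nat_lit 0) (nat_lit 6866341205) (nat_lit 4) (nat_lit 5) (nat_lit 6) (nat_lit 4) (nat_lit 4) (nat_lit 4) (nat_lit 398) (nat_lit 212) (nat_lit 170)))) (XT.nd (nat_lit 156) (nat_lit 0) (nat_lit 0) (XT.nd (nat_lit 78) (nat_lit 0) (nat_lit 0) (XT.lf (nat_lit 0) (nat_lit 16463481686) (nat_lit 152) (nat_lit 45621052229) (nat_lit 0) (nat_lit 9908484668) (nat_lit 4) (nat_lit 5) (nat_lit 6) (nat_lit 4) (nat_lit 4) (nat_lit 4) (nat_lit 399) (nat_lit 212) (nat_lit 169)) (XT.lf (nat_lit 0) (nat_lit 19644251657) (nat_lit 152) (nat_lit 41404305626) (nat_lit 0) (nat_lit 13014806991) (nat_lit 4) (nat_lit 5) (nat_lit 6) (nat_lit 4) (nat_lit 4) (nat_lit 4) (nat_lit 400) (nat_lit 212) (nat_lit 168))) (XT.nd (nat_lit 78) (nat_lit 0) (nat_lit 0) (XT.lf (nat_lit 0) (nat_lit 22889746372) (nat_lit 152) (nat_lit 37118979107) (nat_lit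 0) (nat_lit 16188022435) (nat_lit 4) (nat_lit 5) (nat_lit 6) (nat_lit 4) (nat_lit 4) (nat_lit 4) (nat_lit 401) (nat_lit 212) (nat_lit 167)) (XT.lf (nat_lit 0) (nat_lit 26202801698) (nat_lit 152) (nat_lit 32761328210) (nat_lit 0) (nat_lit 19430903712) (nat_lit 4) (nat_lit 5) (nat_lit 6) (nat_lit 4) (nat_lit 4) (nat_lit 4) (nat_lit 402) (nat_lit 212) (nat_lit 166))))))))
noncomputable def xc15 : XT := (XT.nd (nat_lit 38298) (nat_lit 0) (nat_lit 76) (XT.nd (nat_lit 37206) (nat_lit 0) (nat_lit 532) (XT.nd (nat_lit 546) (nat_lit 0) (nat_lit 0) (XT.nd (nat_lit 234) (nat_lit 76) (nat_lit 0) (XT.nd (nat_lit 78) (nat_lit 0) (nat_lit 0) (XT.lf (nat_lit 0) (nat_lit 29586312540) (nat_lit 152) (nat_lit 28327545281) (nat_lit 0) (nat_lit 22746284409) (nat_lit 4) (nat_lit 5) (nat_lit 6) (nat_lit 4) (nat_lit 4) (nat_lit 4) (nat_lit 403) (nat_lit 212) (nat_lit 165)) (XT.nd (nat_lit 78) (nat_lit 0) (nat_lit 0) (XT.lf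 (nat_lit 0) (nat_lit 33043235362) (nat_lit 152) (nat_lit 23813756139) (nat_lit 0) (nat_lit 26137061460) (nat_lit 4) (nat_lit 5) (nat_lit 6) (nat_lit 4) (nat_lit 4) (nat_lit 4) (nat_lit 404) (nat_lit 212) (nat_lit 164)) (XT.lf (nat_lit 0) (nat_lit 36576590778) (nat_lit 152) (nat_lit 19216016698) (nat_lit 0) (nat_lit 29606197680) (nat_lit 4) (nat_lit 5) (nat_lit 6) (nat_lit 4) (nat_lit 4) (nat_lit 4) (nat_lit 405) (nat_lit 212) (nat_lit 163)))) (XT.nd (nat_lit 156) (nat_lit 76) (nat_lit 0) (XT.nd (nat_lit 78) (nat_lit 0) (nat_lit 0) (XT.lf (nat_lit 0) (nat_lit 40189466185) (nat_lit 152) (nat_lit 14530309514) (nat_lit 0) (nat_lit 33156724353) (nat_lit 4) (nat_lit 5) (nat_lit 6) (nat_lit 4) (nat_lit 4) (nat_lit 4) (nat_lit 406) (nat_lit 212) (nat_lit 162)) (XT.lf (nat_lit 0) (nat_lit 43885018464) (nat_lit 152) (nat_lit 9752540281) (nat_lit 0) (nat_lit 36791743882) (nat_lit 4) (nat_lit 5) (nat_lit 6)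 (nat_lit 4) (nat_lit 4) (nat_lit 4) (nat_lit 407) (nat_lit 212) (nat_lit 161))) (XT.nd (nat_lit 78) (nat_lit 76) (nat_lit 0) (XT.lf (nat_lit 0) (nat_lit 47666476739) (nat_lit 152) (nat_lit 4878534249) (nat_lit 0) (nat_lit 40514432495) (nat_lit 4) (nat_lit 5) (nat_lit 6) (nat_lit 4) (nat_lit 4) (nat_lit 4) (nat_lit 408) (nat_lit 212) (nat_lit 160)) (XT.lf (nat_lit 0) (nat_lit 97877361) (nat_lit 76) (nat_lit 51440208692) (nat_lit 76) (nat_lit 44231106525) (nat_lit 3) (nat_lit 4) (nat_lit 4) (nat_lit 5) (nat_lit 4) (nat_lit 4) (nat_lit 409) (nat_lit 212) (nat_lit 159))))) (XT.nd (nat_lit 36348) (nat_lit 0) (nat_lit 912) (XT.nd (nat_lit 78) (nat_lit 0) (nat_lit 0) (XT.lf (nat_lit 0) (nat_lit 5278310228) (nat_lit 76) (nat_lit 50272834093) (nat_lit 76) (nat_lit 43008335883) (nat_lit 3) (nat_lit 4) (nat_lit 4) (nat_lit 5) (nat_lit 4) (nat_lit 4) (nat_lit 410) (nat_lit 212) (nat_lit 158)) (XT.nd (nat_lit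 36192) (nat_lit 0) (nat_lit 1140) (XT.lf (nat_lit 0) (nat_lit 10570198545) (nat_lit 76) (nat_lit 49091130784) (nat_lit 76) (nat_lit 41772850009) (nat_lit 3) (nat_lit 4) (nat_lit 4) (nat_lit 5) (nat_lit 4) (nat_lit 4) (nat_lit 411) (nat_lit 212) (nat_lit 157)) (XT.lf (nat_lit 0) (nat_lit 7490031641) (nat_lit 152) (nat_lit 1739371162) (nat_lit 152) (nat_lit 1739371162) (nat_lit 18) (nat_lit 4) (nat_lit 20) (nat_lit 5) (nat_lit 20) (nat_lit 4) (nat_lit 354) (nat_lit 213) (nat_lit 213)))) (XT.nd (nat_lit 156) (nat_lit 76) (nat_lit 0) (XT.nd (nat_lit 78) (nat_lit 0) (nat_lit 0) (XT.lf (nat_lit 0) (nat_lit 757183862) (nat_lit 152) (nat_lit 21250942219) (nat_lit 0) (nat_lit 449547426) (nat_lit 16) (nat_lit 5) (nat_lit 18) (nat_lit 4) (nat_lit 16) (nat_lit 4) (nat_lit 355) (nat_lit 213) (nat_lit 212)) (XT.lf (nat_lit 0) (nat_lit 5064991746) (nat_lit 152) (nat_lit 13468284339) (nat_lit 0) (nat_lit 4458679160)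 (nat_lit 16) (nat_lit 5) (nat_lit 18) (nat_lit 4) (nat_lit 16) (nat_lit 4) (nat_lit 356) (nat_lit 213) (nat_lit 211))) (XT.nd (nat_lit 78) (nat_lit 76) (nat_lit 0) (XT.lf (nat_lit 0) (nat_lit 9414002438) (nat_lit 152) (nat_lit 5613217519) (nat_lit 0) (nat_lit 8517713005) (nat_lit 16) (nat_lit 5) (nat_lit 18) (nat_lit 4) (nat_lit 16) (nat_lit 4) (nat_lit 357) (nat_lit 213) (nat_lit 210)) (XT.lf (nat_lit 0) (nat_lit 2367316767) (nat_lit 76) (nat_lit 11463455372) (nat_lit 76) (nat_lit 10285635021) (nat_lit 15) (nat_lit 4) (nat_lit 16) (nat_lit 5) (nat_lit 16) (nat_lit 4) (nat_lit 358) (nat_lit 213) (nat_lit 209)))))) (XT.nd (nat_lit 546) (nat_lit 152) (nat_lit 0) (XT.nd (nat_lit 234) (nat_lit 76) (nat_lit 0) (XT.nd (nat_lit 78) (nat_lit 152) (nat_lit 0) (XT.lf (nat_lit 0) (nat_lit 10547486257) (nat_lit 76) (nat_lit 7804774623) (nat_lit 76) (nat_lit 6353623284) (nat_lit 15) (nat_lit 4) (nat_lit 16)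 (nat_lit 5) (nat_lit 16) (nat_lit 4) (nat_lit 359) (nat_lit 213) (nat_lit 208)) (XT.nd (nat_lit 78) (nat_lit 152) (nat_lit 0) (XT.lf (nat_lit 0) (nat_lit 18822724635) (nat_lit 76) (nat_lit 4104663297) (nat_lit 76) (nat_lit 2388142066) (nat_lit 15) (nat_lit 4) (nat_lit 16) (nat_lit 5) (nat_lit 16) (nat_lit 4) (nat_lit 360) (nat_lit 213) (nat_lit 207)) (XT.lf (nat_lit 0) (nat_lit 1263523846) (nat_lit 76) (nat_lit 331395241) (nat_lit 152) (nat_lit 24350128378) (nat_lit 13) (nat_lit 5) (nat_lit 14) (nat_lit 5) (nat_lit 15) (nat_lit 4) (nat_lit 361) (nat_lit 213) (nat_lit 206)))) (XT.nd (nat_lit 156) (nat_lit 76) (nat_lit 0) (XT.nd (nat_lit 78) (nat_lit 0) (nat_lit 0) (XT.lf (nat_lit 0) (nat_lit 5669728045) (nat_lit 152) (nat_lit 17412212709) (nat_lit 0) (nat_lit 3510214960) (nat_lit 13) (nat_lit 5) (nat_lit 15) (nat_lit 4) (nat_lit 13) (nat_lit 4) (nat_lit 362) (nat_lit 213) (nat_lit 205)) (XT.lf (nat_lit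 0) (nat_lit 9792264339) (nat_lit 152) (nat_lit 10071696452) (nat_lit 0) (nat_lit 7396973543) (nat_lit 13) (nat_lit 5) (nat_lit 15) (nat_lit 4) (nat_lit 13) (nat_lit 4) (nat_lit 363) (nat_lit 213) (nat_lit 204))) (XT.nd (nat_lit 78) (nat_lit 76) (nat_lit 0) (XT.lf (nat_lit 0) (nat_lit 13962944613) (nat_lit 152) (nat_lit 2650375232) (nat_lit 0) (nat_lit 11338743417) (nat_lit 13) (nat_lit 5) (nat_lit 15) (nat_lit 4) (nat_lit 13) (nat_lit 4) (nat_lit 364) (nat_lit 213) (nat_lit 203)) (XT.lf (nat_lit 0) (nat_lit 4954924015) (nat_lit 76) (nat_lit 13278118895) (nat_lit 76) (nat_lit 10431674593) (nat_lit 12) (nat_lit 4) (nat_lit 13) (nat_lit 5) (nat_lit 13) (nat_lit 4) (nat_lit 365) (nat_lit 213) (nat_lit 202))))) (XT.nd (nat_lit 234) (nat_lit 76) (nat_lit 0) (XT.nd (nat_lit 78) (nat_lit 76) (nat_lit 0) (XT.lf (nat_lit 0) (nat_lit 12708689271) (nat_lit 76) (nat_lit 9876833910) (nat_lit 76) (nat_lit 6814619601)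 (nat_lit 12) (nat_lit 4) (nat_lit 13) (nat_lit 5) (nat_lit 13) (nat_lit 4) (nat_lit 366) (nat_lit 213) (nat_lit 201)) (XT.nd (nat_lit 78) (nat_lit 76) (nat_lit 0) (XT.lf (nat_lit 0) (nat_lit 20564948006) (nat_lit 76) (nat_lit 6433256486) (nat_lit 76) (nat_lit 3161556734) (nat_lit 12) (nat_lit 4) (nat_lit 13) (nat_lit 5) (nat_lit 13) (nat_lit 4) (nat_lit 367) (nat_lit 213) (nat_lit 200)) (XT.lf (nat_lit 0) (nat_lit 520350019) (nat_lit 152) (nat_lit 2418773137) (nat_lit 76) (nat_lit 28004960379) (nat_lit 11) (nat_lit 5) (nat_lit 13) (nat_lit 5) (nat_lit 12) (nat_lit 4) (nat_lit 368) (nat_lit 213) (nat_lit 199)))) (XT.nd (nat_lit 156) (nat_lit 0) (nat_lit 0) (XT.nd (nat_lit 78) (nat_lit 0) (nat_lit 0) (XT.lf (nat_lit 0) (nat_lit 4235961941) (nat_lit 152) (nat_lit 26845062870) (nat_lit 0) (nat_lit 670385437) (nat_lit 10) (nat_lit 5) (nat_lit 12) (nat_lit 4) (nat_lit 10) (nat_lit 4) (nat_lit 369) (nat_lit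 213) (nat_lit 198)) (XT.lf (nat_lit 0) (nat_lit 8050028802) (nat_lit 152) (nat_lit 20235008232) (nat_lit 0) (nat_lit 4298327195) (nat_lit 10) (nat_lit 5) (nat_lit 12) (nat_lit 4) (nat_lit 10) (nat_lit 4) (nat_lit 370) (nat_lit 213) (nat_lit 197))) (XT.nd (nat_lit 78) (nat_lit 0) (nat_lit 0) (XT.lf (nat_lit 0) (nat_lit 11913682383) (nat_lit 152) (nat_lit 13547279278) (nat_lit 0) (nat_lit 7981276793) (nat_lit 10) (nat_lit 5) (nat_lit 12) (nat_lit 4) (nat_lit 10) (nat_lit 4) (nat_lit 371) (nat_lit 213) (nat_lit 196)) (XT.lf (nat_lit 0) (nat_lit 15830298693) (nat_lit 152) (nat_lit 6776032362) (nat_lit 0) (nat_lit 11722452342) (nat_lit 10) (nat_lit 5) (nat_lit 12) (nat_lit 4) (nat_lit 10) (nat_lit 4) (nat_lit 372) (nat_lit 213) (nat_lit 195))))))) (XT.nd (nat_lit 1092) (nat_lit 152) (nat_lit 0) (XT.nd (nat_lit 546) (nat_lit 76) (nat_lit 0) (XT.nd (nat_lit 234) (nat_lit 152) (nat_lit 0) (XT.nd (nat_lit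 78) (nat_lit 0) (nat_lit 0) (XT.lf (nat_lit 0) (nat_lit 86333823) (nat_lit 76) (nat_lit 19717796086) (nat_lit 76) (nat_lit 15439618900) (nat_lit 9) (nat_lit 4) (nat_lit 10) (nat_lit 5) (nat_lit 10) (nat_lit 4) (nat_lit 373) (nat_lit 213) (nat_lit 194)) (XT.nd (nat_lit 78) (nat_lit 0) (nat_lit 0) (XT.lf (nat_lit 0) (nat_lit 7180884926) (nat_lit 76) (nat_lit 16724300041) (nat_lit 76) (nat_lit 12280753111) (nat_lit 9) (nat_lit 4) (nat_lit 10) (nat_lit 5) (nat_lit 10) (nat_lit 4) (nat_lit 374) (nat_lit 213) (nat_lit 193)) (XT.lf (nat_lit 0) (nat_lit 14378963739) (nat_lit 76) (nat_lit 13691651883) (nat_lit 76) (nat_lit 9087551804) (nat_lit 9) (nat_lit 4) (nat_lit 10) (nat_lit 5) (nat_lit 10) (nat_lit 4) (nat_lit 375) (nat_lit 213) (nat_lit 192)))) (XT.nd (nat_lit 156) (nat_lit 152) (nat_lit 0) (XT.nd (nat_lit 78) (nat_lit 0) (nat_lit 0) (XT.lf (nat_lit 0) (nat_lit 21686859845) (nat_lit 76) (nat_lit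 10617201726) (nat_lit 76) (nat_lit 5857224804) (nat_lit 9) (nat_lit 4) (nat_lit 10) (nat_lit 5) (nat_lit 10) (nat_lit 4) (nat_lit 376) (nat_lit 213) (nat_lit 191)) (XT.lf (nat_lit 0) (nat_lit 29110958783) (nat_lit 76) (nat_lit 7498263156) (nat_lit 76) (nat_lit 2586949493) (nat_lit 9) (nat_lit 4) (nat_lit 10) (nat_lit 5) (nat_lit 10) (nat_lit 4) (nat_lit 377) (nat_lit 213) (nat_lit 190))) (XT.nd (nat_lit 78) (nat_lit 76) (nat_lit 0) (XT.lf (nat_lit 0) (nat_lit 711962205) (nat_lit 152) (nat_lit 3612959262) (nat_lit 76) (nat_lit 35938596005) (nat_lit 8) (nat_lit 5) (nat_lit 10) (nat_lit 5) (nat_lit 9) (nat_lit 4) (nat_lit 378) (nat_lit 213) (nat_lit 189)) (XT.lf (nat_lit 0) (nat_lit 2987974625) (nat_lit 76) (nat_lit 1045949787) (nat_lit 152) (nat_lit 37328921427) (nat_lit 7) (nat_lit 5) (nat_lit 8) (nat_lit 5) (nat_lit 9) (nat_lit 4) (nat_lit 379) (nat_lit 213) (nat_lit 188))))) (XT.nd (nat_lit 234)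 (nat_lit 76) (nat_lit 0) (XT.nd (nat_lit 78) (nat_lit 0) (nat_lit 0) (XT.lf (nat_lit 0) (nat_lit 7462321897) (nat_lit 152) (nat_lit 32754189673) (nat_lit 0) (nat_lit 2278451520) (nat_lit 7) (nat_lit 5) (nat_lit 9) (nat_lit 4) (nat_lit 7) (nat_lit 4) (nat_lit 380) (nat_lit 213) (nat_lit 187)) (XT.nd (nat_lit 78) (nat_lit 0) (nat_lit 0) (XT.lf (nat_lit 0) (nat_lit 10952976395) (nat_lit 152) (nat_lit 27070735664) (nat_lit 0) (nat_lit 5638561616) (nat_lit 7) (nat_lit 5) (nat_lit 9) (nat_lit 4) (nat_lit 7) (nat_lit 4) (nat_lit 381) (nat_lit 213) (nat_lit 186)) (XT.lf (nat_lit 0) (nat_lit 14498883685) (nat_lit 152) (nat_lit 21309488751) (nat_lit 0) (nat_lit 9057726768) (nat_lit 7) (nat_lit 5) (nat_lit 9) (nat_lit 4) (nat_lit 7) (nat_lit 4) (nat_lit 382) (nat_lit 213) (nat_lit 185)))) (XT.nd (nat_lit 156) (nat_lit 76) (nat_lit 0) (XT.nd (nat_lit 78) (nat_lit 0) (nat_lit 0) (XT.lf (nat_lit 0) (nat_lit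 18103142130) (nat_lit 152) (nat_lit 15465414836) (nat_lit 0) (nat_lit 12538934593) (nat_lit 7) (nat_lit 5) (nat_lit 9) (nat_lit 4) (nat_lit 7) (nat_lit 4) (nat_lit 383) (nat_lit 213) (nat_lit 184)) (XT.lf (nat_lit 0) (nat_lit 21768901084) (nat_lit 152) (nat_lit 9533407446) (nat_lit 0) (nat_lit 16085226926) (nat_lit 7) (nat_lit 5) (nat_lit 9) (nat_lit 4) (nat_lit 7) (nat_lit 4) (nat_lit 384) (nat_lit 213) (nat_lit 183))) (XT.nd (nat_lit 78) (nat_lit 76) (nat_lit 0) (XT.lf (nat_lit 0) (nat_lit 25499363637) (nat_lit 152) (nat_lit 3508283274) (nat_lit 0) (nat_lit 19699702468) (nat_lit 7) (nat_lit 5) (nat_lit 9) (nat_lit 4) (nat_lit 7) (nat_lit 4) (nat_lit 385) (nat_lit 213) (nat_lit 182)) (XT.lf (nat_lit 0) (nat_lit 2667270404) (nat_lit 76) (nat_lit 26656158446) (nat_lit 76) (nat_lit 20743888529) (nat_lit 6) (nat_lit 4) (nat_lit 7) (nat_lit 5) (nat_lit 7) (nat_lit 4) (nat_lit 386) (nat_lit 213) (nat_lit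 181)))))) (XT.nd (nat_lit 546) (nat_lit 152) (nat_lit 0) (XT.nd (nat_lit 234) (nat_lit 0) (nat_lit 0) (XT.nd (nat_lit 78) (nat_lit 0) (nat_lit 0) (XT.lf (nat_lit 0) (nat_lit 9018442361) (nat_lit 76) (nat_lit 24235745857) (nat_lit 76) (nat_lit 18214147058) (nat_lit 6) (nat_lit 4) (nat_lit 7) (nat_lit 5) (nat_lit 7) (nat_lit 4) (nat_lit 387) (nat_lit 213) (nat_lit 180)) (XT.nd (nat_lit 78) (nat_lit 0) (nat_lit 0) (XT.lf (nat_lit 0) (nat_lit 15480960447) (nat_lit 76) (nat_lit 21779721002) (nat_lit 76) (nat_lit 15651977658) (nat_lit 6) (nat_lit 4) (nat_lit 7) (nat_lit 5) (nat_lit 7) (nat_lit 4) (nat_lit 388) (nat_lit 213) (nat_lit 179)) (XT.lf (nat_lit 0) (nat_lit 22060471524) (nat_lit 76) (nat_lit 19285937842) (nat_lit 76) (nat_lit 13055141541) (nat_lit 6) (nat_lit 4) (nat_lit 7) (nat_lit 5) (nat_lit 7) (nat_lit 4) (nat_lit 389) (nat_lit 213) (nat_lit 178)))) (XT.nd (nat_lit 156) (nat_lit 0) (nat_lit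 0) (XT.nd (nat_lit 78) (nat_lit 0) (nat_lit 0) (XT.lf (nat_lit 0) (nat_lit 28762724678) (nat_lit 76) (nat_lit 16752217341) (nat_lit 76) (nat_lit 10421369626) (nat_lit 6) (nat_lit 4) (nat_lit 7) (nat_lit 5) (nat_lit 7) (nat_lit 4) (nat_lit 390) (nat_lit 213) (nat_lit 177)) (XT.lf (nat_lit 0) (nat_lit 35593576246) (nat_lit 76) (nat_lit 14176345570) (nat_lit 76) (nat_lit 7748360559) (nat_lit 6) (nat_lit 4) (nat_lit 7) (nat_lit 5) (nat_lit 7) (nat_lit 4) (nat_lit 391) (nat_lit 213) (nat_lit 176))) (XT.nd (nat_lit 78) (nat_lit 0) (nat_lit 0) (XT.lf (nat_lit 0) (nat_lit 42558994936) (nat_lit 76) (nat_lit 11556071766) (nat_lit 76) (nat_lit 5033778701) (nat_lit 6) (nat_lit 4) (nat_lit 7) (nat_lit 5) (nat_lit 7) (nat_lit 4) (nat_lit 392) (nat_lit 213) (nat_lit 175)) (XT.lf (nat_lit 0) (nat_lit 49665067033) (nat_lit 76) (nat_lit 8889106370) (nat_lit 76) (nat_lit 2275252088) (nat_lit 6) (nat_lit 4) (nat_lit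 7) (nat_lit 5) (nat_lit 7) (nat_lit 4) (nat_lit 393) (nat_lit 213) (nat_lit 174))))) (XT.nd (nat_lit 234) (nat_lit 0) (nat_lit 0) (XT.nd (nat_lit 78) (nat_lit 76) (nat_lit 0) (XT.lf (nat_lit 0) (nat_lit 519294661) (nat_lit 152) (nat_lit 5648580504) (nat_lit 76) (nat_lit 56393463209) (nat_lit 5) (nat_lit 5) (nat_lit 7) (nat_lit 5) (nat_lit 6) (nat_lit 4) (nat_lit 394) (nat_lit 213) (nat_lit 173)) (XT.nd (nat_lit 78) (nat_lit 76) (nat_lit 0) (XT.lf (nat_lit 0) (nat_lit 3317296653) (nat_lit 152) (nat_lit 54941689) (nat_lit 76) (nat_lit 60973341692) (nat_lit 5) (nat_lit 5) (nat_lit 7) (nat_lit 5) (nat_lit 6) (nat_lit 4) (nat_lit 395) (nat_lit 213) (nat_lit 172)) (XT.lf (nat_lit 0) (nat_lit 5755629816) (nat_lit 76) (nat_lit 465293925) (nat_lit 152) (nat_lit 59961782109) (nat_lit 4) (nat_lit 5) (nat_lit 5) (nat_lit 5) (nat_lit 6) (nat_lit 4) (nat_lit 396) (nat_lit 213) (nat_lit 171)))) (XT.nd (nat_lit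 156) (nat_lit 0) (nat_lit 0) (XT.nd (nat_lit 78) (nat_lit 0) (nat_lit 0) (XT.lf (nat_lit 0) (nat_lit 9202983956) (nat_lit 152) (nat_lit 56420891970) (nat_lit 0) (nat_lit 2451337027) (nat_lit 4) (nat_lit 5) (nat_lit 6) (nat_lit 4) (nat_lit 4) (nat_lit 4) (nat_lit 397) (nat_lit 213) (nat_lit 170)) (XT.lf (nat_lit 0) (nat_lit 12246544960) (nat_lit 152) (nat_lit 52360579214) (nat_lit 0) (nat_lit 5418216954) (nat_lit 4) (nat_lit 5) (nat_lit 6) (nat_lit 4) (nat_lit 4) (nat_lit 4) (nat_lit 398) (nat_lit 213) (nat_lit 169))) (XT.nd (nat_lit 78) (nat_lit 0) (nat_lit 0) (XT.lf (nat_lit 0) (nat_lit 15349793488) (nat_lit 152) (nat_lit 48238117232) (nat_lit 0) (nat_lit 8447017833) (nat_lit 4) (nat_lit 5) (nat_lit 6) (nat_lit 4) (nat_lit 4) (nat_lit 4) (nat_lit 399) (nat_lit 213) (nat_lit 168)) (XT.lf (nat_lit 0) (nat_lit 18515441117) (nat_lit 152) (nat_lit 44049903871) (nat_lit 0) (nat_lit 11540386191) (nat_lit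 4) (nat_lit 5) (nat_lit 6) (nat_lit 4) (nat_lit 4) (nat_lit 4) (nat_lit 400) (nat_lit 213) (nat_lit 167))))))))
noncomputable def xc16 : XT := (XT.nd (nat_lit 38064) (nat_lit 0) (nat_lit 152) (XT.nd (nat_lit 36972) (nat_lit 0) (nat_lit 684) (XT.nd (nat_lit 468) (nat_lit 76) (nat_lit 0) (XT.nd (nat_lit 234) (nat_lit 0) (nat_lit 0) (XT.nd (nat_lit 78) (nat_lit 0) (nat_lit 0) (XT.lf (nat_lit 0) (nat_lit 21746253945) (nat_lit 152) (nat_lit 39792279528) (nat_lit 0) (nat_lit 14701024970) (nat_lit 4) (nat_lit 5) (nat_lit 6) (nat_lit 4) (nat_lit 4) (nat_lit 4) (nat_lit 401) (nat_lit 213) (nat_lit 166)) (XT.nd (nat_lit 78) (nat_lit 0) (nat_lit 0) (XT.lf (nat_lit 0) (nat_lit 25045055013) (nat_lit 152) (nat_lit 35461523949) (nat_lit 0) (nat_lit 17931695894) (nat_lit 4) (nat_lit 5) (nat_lit 6) (nat_lit 4) (nat_lit 4) (nat_lit 4) (nat_lit 402) (nat_lit 213) (nat_lit 165)) (XT.lf (nat_lit 0) (nat_lit 28414726769)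 (nat_lit 152) (nat_lit 31053852978) (nat_lit 0) (nat_lit 21235221878) (nat_lit 4) (nat_lit 5) (nat_lit 6) (nat_lit 4) (nat_lit 4) (nat_lit 4) (nat_lit 403) (nat_lit 213) (nat_lit 164)))) (XT.nd (nat_lit 78) (nat_lit 0) (nat_lit 0) (XT.lf (nat_lit 0) (nat_lit 31858213585) (nat_lit 152) (nat_lit 26565415252) (nat_lit 0) (nat_lit 24614489499) (nat_lit 4) (nat_lit 5) (nat_lit 6) (nat_lit 4) (nat_lit 4) (nat_lit 4) (nat_lit 404) (nat_lit 213) (nat_lit 163)) (XT.nd (nat_lit 78) (nat_lit 0) (nat_lit 0) (XT.lf (nat_lit 0) (nat_lit 35378524335) (nat_lit 152) (nat_lit 21992288836) (nat_lit 0) (nat_lit 28072451516) (nat_lit 4) (nat_lit 5) (nat_lit 6) (nat_lit 4) (nat_lit 4) (nat_lit 4) (nat_lit 405) (nat_lit 213) (nat_lit 162)) (XT.lf (nat_lit 0) (nat_lit 38978735018) (nat_lit 152) (nat_lit 17330477793) (nat_lit 0) (nat_lit 31612129447) (nat_lit 4) (nat_lit 5) (nat_lit 6) (nat_lit 4) (nat_lit 4) (nat_lit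 4) (nat_lit 406) (nat_lit 213) (nat_lit 161))))) (XT.nd (nat_lit 234) (nat_lit 76) (nat_lit 0) (XT.nd (nat_lit 78) (nat_lit 0) (nat_lit 0) (XT.lf (nat_lit 0) (nat_lit 42661991449) (nat_lit 152) (nat_lit 12575908697) (nat_lit 0) (nat_lit 35236616216) (nat_lit 4) (nat_lit 5) (nat_lit 6) (nat_lit 4) (nat_lit 4) (nat_lit 4) (nat_lit 407) (nat_lit 213) (nat_lit 160)) (XT.nd (nat_lit 78) (nat_lit 0) (nat_lit 0) (XT.lf (nat_lit 0) (nat_lit 46431512006) (nat_lit 152) (nat_lit 7724427070) (nat_lit 0) (nat_lit 38949078851) (nat_lit 4) (nat_lit 5) (nat_lit 6) (nat_lit 4) (nat_lit 4) (nat_lit 4) (nat_lit 408) (nat_lit 213) (nat_lit 159)) (XT.lf (nat_lit 0) (nat_lit 50290590447) (nat_lit 152) (nat_lit 2771793753) (nat_lit 0) (nat_lit 42752761249) (nat_lit 4) (nat_lit 5) (nat_lit 6) (nat_lit 4) (nat_lit 4) (nat_lit 4) (nat_lit 409) (nat_lit 213) (nat_lit 158)))) (XT.nd (nat_lit 36114) (nat_lit 0) (nat_lit 1140)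 (XT.nd (nat_lit 78) (nat_lit 0) (nat_lit 0) (XT.lf (nat_lit 0) (nat_lit 2331821024) (nat_lit 76) (nat_lit 51933192647) (nat_lit 76) (nat_lit 44341580884) (nat_lit 3) (nat_lit 4) (nat_lit 4) (nat_lit 5) (nat_lit 4) (nat_lit 4) (nat_lit 410) (nat_lit 213) (nat_lit 157)) (XT.lf (nat_lit 0) (nat_lit 7602686080) (nat_lit 76) (nat_lit 50761385809) (nat_lit 76) (nat_lit 43117557963) (nat_lit 3) (nat_lit 4) (nat_lit 4) (nat_lit 5) (nat_lit 4) (nat_lit 4) (nat_lit 411) (nat_lit 213) (nat_lit 156))) (XT.nd (nat_lit 78) (nat_lit 152) (nat_lit 0) (XT.lf (nat_lit 0) (nat_lit 4744127785) (nat_lit 152) (nat_lit 985224509) (nat_lit 0) (nat_lit 4744127785) (nat_lit 20) (nat_lit 5) (nat_lit 22) (nat_lit 4) (nat_lit 20) (nat_lit 4) (nat_lit 352) (nat_lit 214) (nat_lit 214)) (XT.lf (nat_lit 0) (nat_lit 6400567911) (nat_lit 152) (nat_lit 7680174539) (nat_lit 152) (nat_lit 7353803044) (nat_lit 18) (nat_lit 4) (nat_lit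 20) (nat_lit 5) (nat_lit 20) (nat_lit 4) (nat_lit 353) (nat_lit 214) (nat_lit 213)))))) (XT.nd (nat_lit 546) (nat_lit 228) (nat_lit 0) (XT.nd (nat_lit 234) (nat_lit 76) (nat_lit 0) (XT.nd (nat_lit 78) (nat_lit 152) (nat_lit 0) (XT.lf (nat_lit 0) (nat_lit 14899437710) (nat_lit 152) (nat_lit 3841346669) (nat_lit 152) (nat_lit 3198109646) (nat_lit 18) (nat_lit 4) (nat_lit 20) (nat_lit 5) (nat_lit 20) (nat_lit 4) (nat_lit 354) (nat_lit 214) (nat_lit 212)) (XT.nd (nat_lit 78) (nat_lit 0) (nat_lit 0) (XT.lf (nat_lit 0) (nat_lit 983377018) (nat_lit 152) (nat_lit 21416845140) (nat_lit 0) (nat_lit 60198903) (nat_lit 16) (nat_lit 5) (nat_lit 18) (nat_lit 4) (nat_lit 16) (nat_lit 4) (nat_lit 355) (nat_lit 214) (nat_lit 211)) (XT.lf (nat_lit 0) (nat_lit 5247819667) (nat_lit 152) (nat_lit 13713532479) (nat_lit 0) (nat_lit 4034664705) (nat_lit 16) (nat_lit 5) (nat_lit 18) (nat_lit 4) (nat_lit 16) (nat_lit 4)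 (nat_lit 356) (nat_lit 214) (nat_lit 210)))) (XT.nd (nat_lit 156) (nat_lit 0) (nat_lit 0) (XT.nd (nat_lit 78) (nat_lit 76) (nat_lit 0) (XT.lf (nat_lit 0) (nat_lit 9554728187) (nat_lit 152) (nat_lit 5935499853) (nat_lit 0) (nat_lit 8060042308) (nat_lit 16) (nat_lit 5) (nat_lit 18) (nat_lit 4) (nat_lit 16) (nat_lit 4) (nat_lit 357) (nat_lit 214) (nat_lit 209)) (XT.lf (nat_lit 0) (nat_lit 1962341426) (nat_lit 76) (nat_lit 11964387698) (nat_lit 76) (nat_lit 10196370829) (nat_lit 15) (nat_lit 4) (nat_lit 16) (nat_lit 5) (nat_lit 16) (nat_lit 4) (nat_lit 358) (nat_lit 214) (nat_lit 208))) (XT.nd (nat_lit 78) (nat_lit 0) (nat_lit 0) (XT.lf (nat_lit 0) (nat_lit 10068453676) (nat_lit 76) (nat_lit 8339366971) (nat_lit 76) (nat_lit 6305980211) (nat_lit 15) (nat_lit 4) (nat_lit 16) (nat_lit 5) (nat_lit 16) (nat_lit 4) (nat_lit 359) (nat_lit 214) (nat_lit 207)) (XT.lf (nat_lit 0) (nat_lit 18271791821) (nat_lit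 76) (nat_lit 4671935277) (nat_lit 76) (nat_lit 2380907846) (nat_lit 15) (nat_lit 4) (nat_lit 16) (nat_lit 5) (nat_lit 16) (nat_lit 4) (nat_lit 360) (nat_lit 214) (nat_lit 206))))) (XT.nd (nat_lit 234) (nat_lit 76) (nat_lit 0) (XT.nd (nat_lit 78) (nat_lit 0) (nat_lit 0) (XT.lf (nat_lit 0) (nat_lit 620282007) (nat_lit 76) (nat_lit 937080560) (nat_lit 152) (nat_lit 24398138213) (nat_lit 13) (nat_lit 5) (nat_lit 14) (nat_lit 5) (nat_lit 15) (nat_lit 4) (nat_lit 361) (nat_lit 214) (nat_lit 205)) (XT.nd (nat_lit 78) (nat_lit 0) (nat_lit 0) (XT.lf (nat_lit 0) (nat_lit 5588025133) (nat_lit 152) (nat_lit 18130821035) (nat_lit 0) (nat_lit 2885097901) (nat_lit 13) (nat_lit 5) (nat_lit 15) (nat_lit 4) (nat_lit 13) (nat_lit 4) (nat_lit 362) (nat_lit 214) (nat_lit 204)) (XT.lf (nat_lit 0) (nat_lit 9673353492) (nat_lit 152) (nat_lit 10858979913) (nat_lit 0) (nat_lit 6741515860) (nat_lit 13) (nat_lit 5) (nat_lit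 15) (nat_lit 4) (nat_lit 13) (nat_lit 4) (nat_lit 363) (nat_lit 214) (nat_lit 203)))) (XT.nd (nat_lit 156) (nat_lit 0) (nat_lit 0) (XT.nd (nat_lit 78) (nat_lit 76) (nat_lit 0) (XT.lf (nat_lit 0) (nat_lit 13807909556) (nat_lit 152) (nat_lit 3504333581) (nat_lit 0) (nat_lit 10653828818) (nat_lit 13) (nat_lit 5) (nat_lit 15) (nat_lit 4) (nat_lit 13) (nat_lit 4) (nat_lit 364) (nat_lit 214) (nat_lit 202)) (XT.lf (nat_lit 0) (nat_lit 4017949006) (nat_lit 76) (nat_lit 14015980022) (nat_lit 76) (nat_lit 10646129278) (nat_lit 12) (nat_lit 4) (nat_lit 13) (nat_lit 5) (nat_lit 13) (nat_lit 4) (nat_lit 365) (nat_lit 214) (nat_lit 201))) (XT.nd (nat_lit 78) (nat_lit 0) (nat_lit 0) (XT.lf (nat_lit 0) (nat_lit 11707615997) (nat_lit 76) (nat_lit 10644126619) (nat_lit 76) (nat_lit 7064790431) (nat_lit 12) (nat_lit 4) (nat_lit 13) (nat_lit 5) (nat_lit 13) (nat_lit 4) (nat_lit 366) (nat_lit 214) (nat_lit 200)) (XT.lf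 (nat_lit 0) (nat_lit 19501643407) (nat_lit 76) (nat_lit 7229123545) (nat_lit 76) (nat_lit 3446403432) (nat_lit 12) (nat_lit 4) (nat_lit 13) (nat_lit 5) (nat_lit 13) (nat_lit 4) (nat_lit 367) (nat_lit 214) (nat_lit 199))))))) (XT.nd (nat_lit 1092) (nat_lit 152) (nat_lit 0) (XT.nd (nat_lit 546) (nat_lit 152) (nat_lit 0) (XT.nd (nat_lit 234) (nat_lit 76) (nat_lit 0) (XT.nd (nat_lit 78) (nat_lit 76) (nat_lit 0) (XT.lf (nat_lit 0) (nat_lit 208052757) (nat_lit 152) (nat_lit 3557833137) (nat_lit 76) (nat_lit 27196687869) (nat_lit 11) (nat_lit 5) (nat_lit 13) (nat_lit 5) (nat_lit 12) (nat_lit 4) (nat_lit 368) (nat_lit 214) (nat_lit 198)) (XT.nd (nat_lit 78) (nat_lit 0) (nat_lit 0) (XT.lf (nat_lit 0) (nat_lit 3690901933) (nat_lit 76) (nat_lit 182394137) (nat_lit 152) (nat_lit 27898123870) (nat_lit 10) (nat_lit 5) (nat_lit 11) (nat_lit 5) (nat_lit 12) (nat_lit 4) (nat_lit 369) (nat_lit 214) (nat_lit 197))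 (XT.lf (nat_lit 0) (nat_lit 7653671083) (nat_lit 152) (nat_lit 21528132413) (nat_lit 0) (nat_lit 3422589341) (nat_lit 10) (nat_lit 5) (nat_lit 12) (nat_lit 4) (nat_lit 10) (nat_lit 4) (nat_lit 370) (nat_lit 214) (nat_lit 196)))) (XT.nd (nat_lit 156) (nat_lit 76) (nat_lit 0) (XT.nd (nat_lit 78) (nat_lit 0) (nat_lit 0) (XT.lf (nat_lit 0) (nat_lit 11486316349) (nat_lit 152) (nat_lit 14898095038) (nat_lit 0) (nat_lit 7079793847) (nat_lit 10) (nat_lit 5) (nat_lit 12) (nat_lit 4) (nat_lit 10) (nat_lit 4) (nat_lit 371) (nat_lit 214) (nat_lit 195)) (XT.lf (nat_lit 0) (nat_lit 15372827499) (nat_lit 152) (nat_lit 8182859365) (nat_lit 0) (nat_lit 10795974161) (nat_lit 10) (nat_lit 5) (nat_lit 12) (nat_lit 4) (nat_lit 10) (nat_lit 4) (nat_lit 372) (nat_lit 214) (nat_lit 194))) (XT.nd (nat_lit 78) (nat_lit 76) (nat_lit 0) (XT.lf (nat_lit 0) (nat_lit 19316600512) (nat_lit 152) (nat_lit 1376557710) (nat_lit 0)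 (nat_lit 14574377431) (nat_lit 10) (nat_lit 5) (nat_lit 12) (nat_lit 4) (nat_lit 10) (nat_lit 4) (nat_lit 373) (nat_lit 214) (nat_lit 193)) (XT.lf (nat_lit 0) (nat_lit 5636750484) (nat_lit 76) (nat_lit 17738514813) (nat_lit 76) (nat_lit 12835738583) (nat_lit 9) (nat_lit 4) (nat_lit 10) (nat_lit 5) (nat_lit 10) (nat_lit 4) (nat_lit 374) (nat_lit 214) (nat_lit 192))))) (XT.nd (nat_lit 234) (nat_lit 152) (nat_lit 0) (XT.nd (nat_lit 78) (nat_lit 0) (nat_lit 0) (XT.lf (nat_lit 0) (nat_lit 12782550936) (nat_lit 76) (nat_lit 14730091998) (nat_lit 76) (nat_lit 9671438924) (nat_lit 9) (nat_lit 4) (nat_lit 10) (nat_lit 5) (nat_lit 10) (nat_lit 4) (nat_lit 375) (nat_lit 214) (nat_lit 191)) (XT.nd (nat_lit 78) (nat_lit 0) (nat_lit 0) (XT.lf (nat_lit 0) (nat_lit 20039691352) (nat_lit 76) (nat_lit 11679161590) (nat_lit 76) (nat_lit 6469171776) (nat_lit 9) (nat_lit 4) (nat_lit 10) (nat_lit 5) (nat_lit 10) (nat_lit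 4) (nat_lit 376) (nat_lit 214) (nat_lit 190)) (XT.lf (nat_lit 0) (nat_lit 27414512922) (nat_lit 76) (nat_lit 8583057730) (nat_lit 76) (nat_lit 3226139041) (nat_lit 9) (nat_lit 4) (nat_lit 10) (nat_lit 5) (nat_lit 10) (nat_lit 4) (nat_lit 377) (nat_lit 214) (nat_lit 189)))) (XT.nd (nat_lit 156) (nat_lit 0) (nat_lit 0) (XT.nd (nat_lit 78) (nat_lit 76) (nat_lit 0) (XT.lf (nat_lit 0) (nat_lit 59312563) (nat_lit 152) (nat_lit 5379163579) (nat_lit 76) (nat_lit 34853548162) (nat_lit 8) (nat_lit 5) (nat_lit 10) (nat_lit 5) (nat_lit 9) (nat_lit 4) (nat_lit 378) (nat_lit 214) (nat_lit 188)) (XT.lf (nat_lit 0) (nat_lit 1138729063) (nat_lit 76) (nat_lit 2199591972) (nat_lit 152) (nat_lit 38054326320) (nat_lit 7) (nat_lit 5) (nat_lit 8) (nat_lit 5) (nat_lit 9) (nat_lit 4) (nat_lit 379) (nat_lit 214) (nat_lit 187))) (XT.nd (nat_lit 78) (nat_lit 0) (nat_lit 0) (XT.lf (nat_lit 0) (nat_lit 6730530065) (nat_lit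 152) (nat_lit 34669187651) (nat_lit 0) (nat_lit 1126138440) (nat_lit 7) (nat_lit 5) (nat_lit 9) (nat_lit 4) (nat_lit 7) (nat_lit 4) (nat_lit 380) (nat_lit 214) (nat_lit 186)) (XT.lf (nat_lit 0) (nat_lit 10196816660) (nat_lit 152) (nat_lit 29031403945) (nat_lit 0) (nat_lit 4465682897) (nat_lit 7) (nat_lit 5) (nat_lit 9) (nat_lit 4) (nat_lit 7) (nat_lit 4) (nat_lit 381) (nat_lit 214) (nat_lit 185)))))) (XT.nd (nat_lit 546) (nat_lit 76) (nat_lit 0) (XT.nd (nat_lit 234) (nat_lit 76) (nat_lit 0) (XT.nd (nat_lit 78) (nat_lit 0) (nat_lit 0) (XT.lf (nat_lit 0) (nat_lit 13719065791) (nat_lit 152) (nat_lit 23314497134) (nat_lit 0) (nat_lit 7864881408) (nat_lit 7) (nat_lit 5) (nat_lit 9) (nat_lit 4) (nat_lit 7) (nat_lit 4) (nat_lit 382) (nat_lit 214) (nat_lit 184)) (XT.nd (nat_lit 78) (nat_lit 0) (nat_lit 0) (XT.lf (nat_lit 0) (nat_lit 17300355150) (nat_lit 152) (nat_lit 17513471860) (nat_lit 0) (nat_lit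 11326704146) (nat_lit 7) (nat_lit 5) (nat_lit 9) (nat_lit 4) (nat_lit 7) (nat_lit 4) (nat_lit 383) (nat_lit 214) (nat_lit 183)) (XT.lf (nat_lit 0) (nat_lit 20943814020) (nat_lit 152) (nat_lit 11623259268) (nat_lit 0) (nat_lit 14854176006) (nat_lit 7) (nat_lit 5) (nat_lit 9) (nat_lit 4) (nat_lit 7) (nat_lit 4) (nat_lit 384) (nat_lit 214) (nat_lit 182)))) (XT.nd (nat_lit 156) (nat_lit 0) (nat_lit 0) (XT.nd (nat_lit 78) (nat_lit 76) (nat_lit 0) (XT.lf (nat_lit 0) (nat_lit 24652626006) (nat_lit 152) (nat_lit 5638712569) (nat_lit 0) (nat_lit 18450379244) (nat_lit 7) (nat_lit 5) (nat_lit 9) (nat_lit 4) (nat_lit 7) (nat_lit 4) (nat_lit 385) (nat_lit 214) (nat_lit 181)) (XT.lf (nat_lit 0) (nat_lit 454261733) (nat_lit 76) (nat_lit 27980136725) (nat_lit 76) (nat_lit 21668561081) (nat_lit 6) (nat_lit 4) (nat_lit 7) (nat_lit 5) (nat_lit 7) (nat_lit 4) (nat_lit 386) (nat_lit 214) (nat_lit 180))) (XT.nd (nat_lit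 78) (nat_lit 0) (nat_lit 0) (XT.lf (nat_lit 0) (nat_lit 6766424316) (nat_lit 76) (nat_lit 25577950792) (nat_lit 76) (nat_lit 19160230603) (nat_lit 6) (nat_lit 4) (nat_lit 7) (nat_lit 5) (nat_lit 7) (nat_lit 4) (nat_lit 387) (nat_lit 214) (nat_lit 179)) (XT.lf (nat_lit 0) (nat_lit 13191069224) (nat_lit 76) (nat_lit 23139621721) (nat_lit 76) (nat_lit 16618848575) (nat_lit 6) (nat_lit 4) (nat_lit 7) (nat_lit 5) (nat_lit 7) (nat_lit 4) (nat_lit 388) (nat_lit 214) (nat_lit 178))))) (XT.nd (nat_lit 234) (nat_lit 76) (nat_lit 0) (XT.nd (nat_lit 78) (nat_lit 0) (nat_lit 0) (XT.lf (nat_lit 0) (nat_lit 19733810224) (nat_lit 76) (nat_lit 20663018932) (nat_lit 76) (nat_lit 14042194371) (nat_lit 6) (nat_lit 4) (nat_lit 7) (nat_lit 5) (nat_lit 7) (nat_lit 4) (nat_lit 389) (nat_lit 214) (nat_lit 177)) (XT.nd (nat_lit 78) (nat_lit 0) (nat_lit 0) (XT.lf (nat_lit 0) (nat_lit 26400364275) (nat_lit 76) (nat_lit 18145978404)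 (nat_lit 76) (nat_lit 11428016548) (nat_lit 6) (nat_lit 4) (nat_lit 7) (nat_lit 5) (nat_lit 7) (nat_lit 4) (nat_lit 390) (nat_lit 214) (nat_lit 176)) (XT.lf (nat_lit 0) (nat_lit 33196556520) (nat_lit 76) (nat_lit 15586300781) (nat_lit 76) (nat_lit 8774030871) (nat_lit 6) (nat_lit 4) (nat_lit 7) (nat_lit 5) (nat_lit 7) (nat_lit 4) (nat_lit 391) (nat_lit 214) (nat_lit 175)))) (XT.nd (nat_lit 156) (nat_lit 76) (nat_lit 0) (XT.nd (nat_lit 78) (nat_lit 0) (nat_lit 0) (XT.lf (nat_lit 0) (nat_lit 40128325380) (nat_lit 76) (nat_lit 12981749451) (nat_lit 76) (nat_lit 6077918323) (nat_lit 6) (nat_lit 4) (nat_lit 7) (nat_lit 5) (nat_lit 7) (nat_lit 4) (nat_lit 392) (nat_lit 214) (nat_lit 174)) (XT.lf (nat_lit 0) (nat_lit 47201727741) (nat_lit 76) (nat_lit 10330048592) (nat_lit 76) (nat_lit 3337323079) (nat_lit 6) (nat_lit 4) (nat_lit 7) (nat_lit 5) (nat_lit 7) (nat_lit 4) (nat_lit 393) (nat_lit 214) (nat_lit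 173))) (XT.nd (nat_lit 78) (nat_lit 76) (nat_lit 0) (XT.lf (nat_lit 0) (nat_lit 54422944246) (nat_lit 76) (nat_lit 7628881186) (nat_lit 76) (nat_lit 549850444) (nat_lit 6) (nat_lit 4) (nat_lit 7) (nat_lit 5) (nat_lit 7) (nat_lit 4) (nat_lit 394) (nat_lit 214) (nat_lit 172)) (XT.lf (nat_lit 0) (nat_lit 2242308894) (nat_lit 152) (nat_lit 2610935169) (nat_lit 76) (nat_lit 59533332877) (nat_lit 5) (nat_lit 5) (nat_lit 7) (nat_lit 5) (nat_lit 6) (nat_lit 4) (nat_lit 395) (nat_lit 214) (nat_lit 171))))))))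
noncomputable def xc17 : XT := (XT.nd (nat_lit 37986) (nat_lit 0) (nat_lit 228) (XT.nd (nat_lit 1092) (nat_lit 76) (nat_lit 0) (XT.nd (nat_lit 546) (nat_lit 0) (nat_lit 0) (XT.nd (nat_lit 234) (nat_lit 0) (nat_lit 0) (XT.nd (nat_lit 78) (nat_lit 0) (nat_lit 0) (XT.lf (nat_lit 0) (nat_lit 3117944375) (nat_lit 76) (nat_lit 1986547032) (nat_lit 152) (nat_lit 61120458254) (nat_lit 4) (nat_lit 5) (nat_lit 5) (nat_lit 5) (nat_lit 6) (nat_lit 4) (nat_lit 396) (nat_lit 214) (nat_lit 170)) (XT.nd (nat_lit 78) (nat_lit 0) (nat_lit 0) (XT.lf (nat_lit 0) (nat_lit 8055885112) (nat_lit 152) (nat_lit 59116468923) (nat_lit 0) (nat_lit 946026187) (nat_lit 4) (nat_lit 5) (nat_lit 6) (nat_lit 4) (nat_lit 4) (nat_lit 4) (nat_lit 397) (nat_lit 214) (nat_lit 169)) (XT.lf (nat_lit 0) (nat_lit 11083870103) (nat_lit 152) (nat_lit 55085545406) (nat_lit 0) (nat_lit 3899563530) (nat_lit 4) (nat_lit 5) (nat_lit 6) (nat_lit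 4) (nat_lit 4) (nat_lit 4) (nat_lit 398) (nat_lit 214) (nat_lit 168)))) (XT.nd (nat_lit 156) (nat_lit 0) (nat_lit 0) (XT.nd (nat_lit 78) (nat_lit 0) (nat_lit 0) (XT.lf (nat_lit 0) (nat_lit 14171996289) (nat_lit 152) (nat_lit 50991616666) (nat_lit 0) (nat_lit 6915410445) (nat_lit 4) (nat_lit 5) (nat_lit 6) (nat_lit 4) (nat_lit 4) (nat_lit 4) (nat_lit 399) (nat_lit 214) (nat_lit 167)) (XT.lf (nat_lit 0) (nat_lit 17322962031) (nat_lit 152) (nat_lit 46831105482) (nat_lit 0) (nat_lit 9996202138) (nat_lit 4) (nat_lit 5) (nat_lit 6) (nat_lit 4) (nat_lit 4) (nat_lit 4) (nat_lit 400) (nat_lit 214) (nat_lit 166))) (XT.nd (nat_lit 78) (nat_lit 0) (nat_lit 0) (XT.lf (nat_lit 0) (nat_lit 20539520600) (nat_lit 152) (nat_lit 42600376456) (nat_lit 0) (nat_lit 13144630563) (nat_lit 4) (nat_lit 5) (nat_lit 6) (nat_lit 4) (nat_lit 4) (nat_lit 4) (nat_lit 401) (nat_lit 214) (nat_lit 165)) (XT.lf (nat_lit 0) (nat_lit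 23824482582) (nat_lit 152) (nat_lit 38295732835) (nat_lit 0) (nat_lit 16363446774) (nat_lit 4) (nat_lit 5) (nat_lit 6) (nat_lit 4) (nat_lit 4) (nat_lit 4) (nat_lit 402) (nat_lit 214) (nat_lit 164))))) (XT.nd (nat_lit 234) (nat_lit 0) (nat_lit 0) (XT.nd (nat_lit 78) (nat_lit 0) (nat_lit 0) (XT.lf (nat_lit 0) (nat_lit 27180718333) (nat_lit 152) (nat_lit 33913413280) (nat_lit 0) (nat_lit 19655463328) (nat_lit 4) (nat_lit 5) (nat_lit 6) (nat_lit 4) (nat_lit 4) (nat_lit 4) (nat_lit 403) (nat_lit 214) (nat_lit 163)) (XT.nd (nat_lit 78) (nat_lit 0) (nat_lit 0) (XT.lf (nat_lit 0) (nat_lit 30611160484) (nat_lit 152) (nat_lit 29449588580) (nat_lit 0) (nat_lit 23023556746) (nat_lit 4) (nat_lit 5) (nat_lit 6) (nat_lit 4) (nat_lit 4) (nat_lit 4) (nat_lit 404) (nat_lit 214) (nat_lit 162)) (XT.lf (nat_lit 0) (nat_lit 34118806510) (nat_lit 152) (nat_lit 24900358305) (nat_lit 0) (nat_lit 26470670020) (nat_lit 4)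 (nat_lit 5) (nat_lit 6) (nat_lit 4) (nat_lit 4) (nat_lit 4) (nat_lit 405) (nat_lit 214) (nat_lit 161)))) (XT.nd (nat_lit 156) (nat_lit 0) (nat_lit 0) (XT.nd (nat_lit 78) (nat_lit 0) (nat_lit 0) (XT.lf (nat_lit 0) (nat_lit 37706721344) (nat_lit 152) (nat_lit 20261747399) (nat_lit 0) (nat_lit 29999815193) (nat_lit 4) (nat_lit 5) (nat_lit 6) (nat_lit 4) (nat_lit 4) (nat_lit 4) (nat_lit 406) (nat_lit 214) (nat_lit 160)) (XT.lf (nat_lit 0) (nat_lit 41378040057) (nat_lit 152) (nat_lit 15529702708) (nat_lit 0) (nat_lit 33614075983) (nat_lit 4) (nat_lit 5) (nat_lit 6) (nat_lit 4) (nat_lit 4) (nat_lit 4) (nat_lit 407) (nat_lit 214) (nat_lit 159))) (XT.nd (nat_lit 78) (nat_lit 0) (nat_lit 0) (XT.lf (nat_lit 0) (nat_lit 45135970598) (nat_lit 152) (nat_lit 10700089435) (nat_lit 0) (nat_lit 37316610482) (nat_lit 4) (nat_lit 5) (nat_lit 6) (nat_lit 4) (nat_lit 4) (nat_lit 4) (nat_lit 408) (nat_lit 214) (nat_lit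 158)) (XT.lf (nat_lit 0) (nat_lit 48983796596) (nat_lit 152) (nat_lit 5768687529) (nat_lit 0) (nat_lit 41110653915) (nat_lit 4) (nat_lit 5) (nat_lit 6) (nat_lit 4) (nat_lit 4) (nat_lit 4) (nat_lit 409) (nat_lit 214) (nat_lit 157)))))) (XT.nd (nat_lit 36348) (nat_lit 0) (nat_lit 836) (XT.nd (nat_lit 36036) (nat_lit 0) (nat_lit 1140) (XT.nd (nat_lit 78) (nat_lit 76) (nat_lit 0) (XT.lf (nat_lit 0) (nat_lit 52924880228) (nat_lit 152) (nat_lit 731187999) (nat_lit 0) (nat_lit 44999521464) (nat_lit 4) (nat_lit 5) (nat_lit 6) (nat_lit 4) (nat_lit 4) (nat_lit 4) (nat_lit 410) (nat_lit 214) (nat_lit 156)) (XT.nd (nat_lit 35880) (nat_lit 0) (nat_lit 1292) (XT.lf (nat_lit 0) (nat_lit 4504714049) (nat_lit 76) (nat_lit 52501253178) (nat_lit 76) (nat_lit 44525199188) (nat_lit 3) (nat_lit 4) (nat_lit 4) (nat_lit 5) (nat_lit 4) (nat_lit 4) (nat_lit 411) (nat_lit 214) (nat_lit 155)) (XT.lf (nat_lit 0) (nat_lit 467563529)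 (nat_lit 152) (nat_lit 9073424737) (nat_lit 0) (nat_lit 467563529) (nat_lit 20) (nat_lit 5) (nat_lit 22) (nat_lit 4) (nat_lit 20) (nat_lit 4) (nat_lit 350) (nat_lit 215) (nat_lit 215)))) (XT.nd (nat_lit 156) (nat_lit 152) (nat_lit 0) (XT.nd (nat_lit 78) (nat_lit 0) (nat_lit 0) (XT.lf (nat_lit 0) (nat_lit 5336883300) (nat_lit 152) (nat_lit 10136865722) (nat_lit 0) (nat_lit 5000720660) (nat_lit 20) (nat_lit 5) (nat_lit 22) (nat_lit 4) (nat_lit 20) (nat_lit 4) (nat_lit 351) (nat_lit 215) (nat_lit 214)) (XT.lf (nat_lit 0) (nat_lit 9779491977) (nat_lit 152) (nat_lit 2051872865) (nat_lit 0) (nat_lit 9116957843) (nat_lit 20) (nat_lit 5) (nat_lit 22) (nat_lit 4) (nat_lit 20) (nat_lit 4) (nat_lit 352) (nat_lit 215) (nat_lit 213))) (XT.nd (nat_lit 78) (nat_lit 0) (nat_lit 0) (XT.lf (nat_lit 0) (nat_lit 6236897998) (nat_lit 152) (nat_lit 8089889863) (nat_lit 152) (nat_lit 7110490200) (nat_lit 18) (nat_lit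 4) (nat_lit 20) (nat_lit 5) (nat_lit 20) (nat_lit 4) (nat_lit 353) (nat_lit 215) (nat_lit 212)) (XT.lf (nat_lit 0) (nat_lit 14657490542) (nat_lit 152) (nat_lit 4286239516) (nat_lit 152) (nat_lit 2999203418) (nat_lit 18) (nat_lit 4) (nat_lit 20) (nat_lit 5) (nat_lit 20) (nat_lit 4) (nat_lit 354) (nat_lit 215) (nat_lit 211))))) (XT.nd (nat_lit 234) (nat_lit 152) (nat_lit 0) (XT.nd (nat_lit 78) (nat_lit 0) (nat_lit 0) (XT.lf (nat_lit 0) (nat_lit 712970291) (nat_lit 76) (nat_lit 419385640) (nat_lit 152) (nat_lit 21333441695) (nat_lit 16) (nat_lit 5) (nat_lit 17) (nat_lit 5) (nat_lit 18) (nat_lit 4) (nat_lit 355) (nat_lit 215) (nat_lit 210)) (XT.nd (nat_lit 78) (nat_lit 0) (nat_lit 0) (XT.lf (nat_lit 0) (nat_lit 5350665017) (nat_lit 152) (nat_lit 14122517478) (nat_lit 0) (nat_lit 3529607643) (nat_lit 16) (nat_lit 5) (nat_lit 18) (nat_lit 4) (nat_lit 16) (nat_lit 4) (nat_lit 356) (nat_lit 215) (nat_lit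 209)) (XT.lf (nat_lit 0) (nat_lit 9616697643) (nat_lit 152) (nat_lit 6419275331) (nat_lit 0) (nat_lit 7522309280) (nat_lit 16) (nat_lit 5) (nat_lit 18) (nat_lit 4) (nat_lit 16) (nat_lit 4) (nat_lit 357) (nat_lit 215) (nat_lit 208)))) (XT.nd (nat_lit 156) (nat_lit 76) (nat_lit 0) (XT.nd (nat_lit 78) (nat_lit 0) (nat_lit 0) (XT.lf (nat_lit 0) (nat_lit 1394880628) (nat_lit 76) (nat_lit 12548677837) (nat_lit 76) (nat_lit 10188919583) (nat_lit 15) (nat_lit 4) (nat_lit 16) (nat_lit 5) (nat_lit 16) (nat_lit 4) (nat_lit 358) (nat_lit 215) (nat_lit 207)) (XT.lf (nat_lit 0) (nat_lit 9429092645) (nat_lit 76) (nat_lit 8956336744) (nat_lit 76) (nat_lit 6338937817) (nat_lit 15) (nat_lit 4) (nat_lit 16) (nat_lit 5) (nat_lit 16) (nat_lit 4) (nat_lit 359) (nat_lit 215) (nat_lit 206))) (XT.nd (nat_lit 78) (nat_lit 76) (nat_lit 0) (XT.lf (nat_lit 0) (nat_lit 17562624739) (nat_lit 76) (nat_lit 5320632849) (nat_lit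 76) (nat_lit 2453097348) (nat_lit 15) (nat_lit 4) (nat_lit 16) (nat_lit 5) (nat_lit 16) (nat_lit 4) (nat_lit 360) (nat_lit 215) (nat_lit 205)) (XT.lf (nat_lit 0) (nat_lit 1443273250) (nat_lit 152) (nat_lit 180541844) (nat_lit 76) (nat_lit 24344736399) (nat_lit 14) (nat_lit 5) (nat_lit 16) (nat_lit 5) (nat_lit 15) (nat_lit 4) (nat_lit 361) (nat_lit 215) (nat_lit 204))))))) (XT.nd (nat_lit 1092) (nat_lit 228) (nat_lit 0) (XT.nd (nat_lit 546) (nat_lit 228) (nat_lit 0) (XT.nd (nat_lit 234) (nat_lit 76) (nat_lit 0) (XT.nd (nat_lit 78) (nat_lit 0) (nat_lit 0) (XT.lf (nat_lit 0) (nat_lit 5428339025) (nat_lit 152) (nat_lit 19010398135) (nat_lit 0) (nat_lit 2179635864) (nat_lit 13) (nat_lit 5) (nat_lit 15) (nat_lit 4) (nat_lit 13) (nat_lit 4) (nat_lit 362) (nat_lit 215) (nat_lit 203)) (XT.nd (nat_lit 78) (nat_lit 0) (nat_lit 0) (XT.lf (nat_lit 0) (nat_lit 9477543174) (nat_lit 152) (nat_lit 11805231902)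 (nat_lit 0) (nat_lit 6006596907) (nat_lit 13) (nat_lit 5) (nat_lit 15) (nat_lit 4) (nat_lit 13) (nat_lit 4) (nat_lit 363) (nat_lit 215) (nat_lit 202)) (XT.lf (nat_lit 0) (nat_lit 13577027190) (nat_lit 152) (nat_lit 4515318472) (nat_lit 0) (nat_lit 9890310917) (nat_lit 13) (nat_lit 5) (nat_lit 15) (nat_lit 4) (nat_lit 13) (nat_lit 4) (nat_lit 364) (nat_lit 215) (nat_lit 201)))) (XT.nd (nat_lit 156) (nat_lit 0) (nat_lit 0) (XT.nd (nat_lit 78) (nat_lit 0) (nat_lit 0) (XT.lf (nat_lit 0) (nat_lit 2922745269) (nat_lit 76) (nat_lit 14835723093) (nat_lit 76) (nat_lit 10939521377) (nat_lit 12) (nat_lit 4) (nat_lit 13) (nat_lit 5) (nat_lit 13) (nat_lit 4) (nat_lit 365) (nat_lit 215) (nat_lit 200)) (XT.lf (nat_lit 0) (nat_lit 10550180935) (nat_lit 76) (nat_lit 11492444041) (nat_lit 76) (nat_lit 7392858399) (nat_lit 12) (nat_lit 4) (nat_lit 13) (nat_lit 5) (nat_lit 13) (nat_lit 4) (nat_lit 366) (nat_lit 215)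 (nat_lit 199))) (XT.nd (nat_lit 78) (nat_lit 0) (nat_lit 0) (XT.lf (nat_lit 0) (nat_lit 18283789582) (nat_lit 76) (nat_lit 8105183056) (nat_lit 76) (nat_lit 3808137292) (nat_lit 12) (nat_lit 4) (nat_lit 13) (nat_lit 5) (nat_lit 13) (nat_lit 4) (nat_lit 367) (nat_lit 215) (nat_lit 198)) (XT.lf (nat_lit 0) (nat_lit 26130328734) (nat_lit 76) (nat_lit 4670980396) (nat_lit 76) (nat_lit 182225776) (nat_lit 12) (nat_lit 4) (nat_lit 13) (nat_lit 5) (nat_lit 13) (nat_lit 4) (nat_lit 368) (nat_lit 215) (nat_lit 197))))) (XT.nd (nat_lit 234) (nat_lit 76) (nat_lit 0) (XT.nd (nat_lit 78) (nat_lit 0) (nat_lit 0) (XT.lf (nat_lit 0) (nat_lit 2312811177) (nat_lit 76) (nat_lit 1129401088) (nat_lit 152) (nat_lit 28351560364) (nat_lit 10) (nat_lit 5) (nat_lit 11) (nat_lit 5) (nat_lit 12) (nat_lit 4) (nat_lit 369) (nat_lit 215) (nat_lit 196)) (XT.nd (nat_lit 78) (nat_lit 0) (nat_lit 0) (XT.lf (nat_lit 0) (nat_lit 7182475753)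 (nat_lit 152) (nat_lit 22977164226) (nat_lit 0) (nat_lit 2468316815) (nat_lit 10) (nat_lit 5) (nat_lit 12) (nat_lit 4) (nat_lit 10) (nat_lit 4) (nat_lit 370) (nat_lit 215) (nat_lit 195)) (XT.lf (nat_lit 0) (nat_lit 10985015859) (nat_lit 152) (nat_lit 16403138094) (nat_lit 0) (nat_lit 6100526086) (nat_lit 10) (nat_lit 5) (nat_lit 12) (nat_lit 4) (nat_lit 10) (nat_lit 4) (nat_lit 371) (nat_lit 215) (nat_lit 194)))) (XT.nd (nat_lit 156) (nat_lit 76) (nat_lit 0) (XT.nd (nat_lit 78) (nat_lit 0) (nat_lit 0) (XT.lf (nat_lit 0) (nat_lit 14842298698) (nat_lit 152) (nat_lit 9742282267) (nat_lit 0) (nat_lit 9792439181) (nat_lit 10) (nat_lit 5) (nat_lit 12) (nat_lit 4) (nat_lit 10) (nat_lit 4) (nat_lit 372) (nat_lit 215) (nat_lit 193)) (XT.lf (nat_lit 0) (nat_lit 18757694710) (nat_lit 152) (nat_lit 2988776580) (nat_lit 0) (nat_lit 13547282045) (nat_lit 10) (nat_lit 5) (nat_lit 12) (nat_lit 4) (nat_lit 10)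 (nat_lit 4) (nat_lit 373) (nat_lit 215) (nat_lit 192))) (XT.nd (nat_lit 78) (nat_lit 0) (nat_lit 0) (XT.lf (nat_lit 0) (nat_lit 3940166937) (nat_lit 76) (nat_lit 18832333474) (nat_lit 76) (nat_lit 13466043965) (nat_lit 9) (nat_lit 4) (nat_lit 10) (nat_lit 5) (nat_lit 10) (nat_lit 4) (nat_lit 374) (nat_lit 215) (nat_lit 191)) (XT.lf (nat_lit 0) (nat_lit 11035211699) (nat_lit 76) (nat_lit 15847430408) (nat_lit 76) (nat_lit 10329804158) (nat_lit 9) (nat_lit 4) (nat_lit 10) (nat_lit 5) (nat_lit 10) (nat_lit 4) (nat_lit 375) (nat_lit 215) (nat_lit 190)))))) (XT.nd (nat_lit 546) (nat_lit 76) (nat_lit 0) (XT.nd (nat_lit 234) (nat_lit 152) (nat_lit 0) (XT.nd (nat_lit 78) (nat_lit 0) (nat_lit 0) (XT.lf (nat_lit 0) (nat_lit 18243074747) (nat_lit 76) (nat_lit 12819334710) (nat_lit 76) (nat_lit 7154779585) (nat_lit 9) (nat_lit 4) (nat_lit 10) (nat_lit 5) (nat_lit 10) (nat_lit 4) (nat_lit 376) (nat_lit 215)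 (nat_lit 189)) (XT.nd (nat_lit 78) (nat_lit 0) (nat_lit 0) (XT.lf (nat_lit 0) (nat_lit 25570054212) (nat_lit 76) (nat_lit 9745400470) (nat_lit 76) (nat_lit 3938195951) (nat_lit 9) (nat_lit 4) (nat_lit 10) (nat_lit 5) (nat_lit 10) (nat_lit 4) (nat_lit 377) (nat_lit 215) (nat_lit 188)) (XT.lf (nat_lit 0) (nat_lit 33022552309) (nat_lit 76) (nat_lit 6622941725) (nat_lit 76) (nat_lit 677242651) (nat_lit 9) (nat_lit 4) (nat_lit 10) (nat_lit 5) (nat_lit 10) (nat_lit 4) (nat_lit 378) (nat_lit 215) (nat_lit 187)))) (XT.nd (nat_lit 156) (nat_lit 0) (nat_lit 0) (XT.nd (nat_lit 78) (nat_lit 76) (nat_lit 0) (XT.lf (nat_lit 0) (nat_lit 2579590779) (nat_lit 152) (nat_lit 843590527) (nat_lit 76) (nat_lit 38001441343) (nat_lit 8) (nat_lit 5) (nat_lit 10) (nat_lit 5) (nat_lit 9) (nat_lit 4) (nat_lit 379) (nat_lit 215) (nat_lit 186)) (XT.lf (nat_lit 0) (nat_lit 5823790384) (nat_lit 76) (nat_lit 104532076) (nat_lit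 152) (nat_lit 36630819035) (nat_lit 7) (nat_lit 5) (nat_lit 8) (nat_lit 5) (nat_lit 9) (nat_lit 4) (nat_lit 380) (nat_lit 215) (nat_lit 185))) (XT.nd (nat_lit 78) (nat_lit 0) (nat_lit 0) (XT.lf (nat_lit 0) (nat_lit 9369946071) (nat_lit 152) (nat_lit 31140902680) (nat_lit 0) (nat_lit 3217085537) (nat_lit 7) (nat_lit 5) (nat_lit 9) (nat_lit 4) (nat_lit 7) (nat_lit 4) (nat_lit 381) (nat_lit 215) (nat_lit 184)) (XT.lf (nat_lit 0) (nat_lit 12869226115) (nat_lit 152) (nat_lit 25467044510) (nat_lit 0) (nat_lit 6596898960) (nat_lit 7) (nat_lit 5) (nat_lit 9) (nat_lit 4) (nat_lit 7) (nat_lit 4) (nat_lit 382) (nat_lit 215) (nat_lit 183))))) (XT.nd (nat_lit 234) (nat_lit 76) (nat_lit 0) (XT.nd (nat_lit 78) (nat_lit 0) (nat_lit 0) (XT.lf (nat_lit 0) (nat_lit 16428215391) (nat_lit 152) (nat_lit 19707814034) (nat_lit 0) (nat_lit 10039901225) (nat_lit 7) (nat_lit 5) (nat_lit 9) (nat_lit 4) (nat_lit 7) (nat_lit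 4) (nat_lit 383) (nat_lit 215) (nat_lit 182)) (XT.nd (nat_lit 78) (nat_lit 0) (nat_lit 0) (XT.lf (nat_lit 0) (nat_lit 20050023694) (nat_lit 152) (nat_lit 13858178916) (nat_lit 0) (nat_lit 13549100780) (nat_lit 7) (nat_lit 5) (nat_lit 9) (nat_lit 4) (nat_lit 7) (nat_lit 4) (nat_lit 384) (nat_lit 215) (nat_lit 181)) (XT.lf (nat_lit 0) (nat_lit 23737815712) (nat_lit 152) (nat_lit 7913027822) (nat_lit 0) (nat_lit 17127563917) (nat_lit 7) (nat_lit 5) (nat_lit 9) (nat_lit 4) (nat_lit 7) (nat_lit 4) (nat_lit 385) (nat_lit 215) (nat_lit 180)))) (XT.nd (nat_lit 156) (nat_lit 0) (nat_lit 0) (XT.nd (nat_lit 78) (nat_lit 76) (nat_lit 0) (XT.lf (nat_lit 0) (nat_lit 27494813788) (nat_lit 152) (nat_lit 1867165962) (nat_lit 0) (nat_lit 20778417447) (nat_lit 7) (nat_lit 5) (nat_lit 9) (nat_lit 4) (nat_lit 7) (nat_lit 4) (nat_lit 386) (nat_lit 215) (nat_lit 179)) (XT.lf (nat_lit 0) (nat_lit 4369963177) (nat_lit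 76) (nat_lit 26996344316) (nat_lit 76) (nat_lit 20176895018) (nat_lit 6) (nat_lit 4) (nat_lit 7) (nat_lit 5) (nat_lit 7) (nat_lit 4) (nat_lit 387) (nat_lit 215) (nat_lit 178))) (XT.nd (nat_lit 78) (nat_lit 0) (nat_lit 0) (XT.lf (nat_lit 0) (nat_lit 10757838009) (nat_lit 76) (nat_lit 24575195616) (nat_lit 76) (nat_lit 17655694904) (nat_lit 6) (nat_lit 4) (nat_lit 7) (nat_lit 5) (nat_lit 7) (nat_lit 4) (nat_lit 388) (nat_lit 215) (nat_lit 177)) (XT.lf (nat_lit 0) (nat_lit 17264879906) (nat_lit 76) (nat_lit 22115272800) (nat_lit 76) (nat_lit 15098634792) (nat_lit 6) (nat_lit 4) (nat_lit 7) (nat_lit 5) (nat_lit 7) (nat_lit 4) (nat_lit 389) (nat_lit 215) (nat_lit 176))))))))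
noncomputable def xc18 : XT := (XT.nd (nat_lit 37752) (nat_lit 0) (nat_lit 304) (XT.nd (nat_lit 1014) (nat_lit 76) (nat_lit 0) (XT.nd (nat_lit 468) (nat_lit 76) (nat_lit 0) (XT.nd (nat_lit 234) (nat_lit 76) (nat_lit 0) (XT.nd (nat_lit 78) (nat_lit 0) (nat_lit 0) (XT.lf (nat_lit 0) (nat_lit 23896774633) (nat_lit 76) (nat_lit 19614426420) (nat_lit 76) (nat_lit 12503480358) (nat_lit 6) (nat_lit 4) (nat_lit 7) (nat_lit 5) (nat_lit 7) (nat_lit 4) (nat_lit 390) (nat_lit 215) (nat_lit 175)) (XT.nd (nat_lit 78) (nat_lit 0) (nat_lit 0) (XT.lf (nat_lit 0) (nat_lit 30659317049) (nat_lit 76) (nat_lit 17070471270) (nat_lit 76) (nat_lit 9867963992) (nat_lit 6) (nat_lit 4) (nat_lit 7) (nat_lit 5) (nat_lit 7) (nat_lit 4) (nat_lit 391) (nat_lit 215) (nat_lit 174)) (XT.lf (nat_lit 0) (nat_lit 37558416173) (nat_lit 76) (nat_lit 14481184478) (nat_lit 76) (nat_lit 7189782814) (nat_lit 6) (nat_lit 4) (nat_lit 7) (nat_lit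 5) (nat_lit 7) (nat_lit 4) (nat_lit 392) (nat_lit 215) (nat_lit 173)))) (XT.nd (nat_lit 78) (nat_lit 76) (nat_lit 0) (XT.lf (nat_lit 0) (nat_lit 44600100343) (nat_lit 76) (nat_lit 11844303559) (nat_lit 76) (nat_lit 4466596666) (nat_lit 6) (nat_lit 4) (nat_lit 7) (nat_lit 5) (nat_lit 7) (nat_lit 4) (nat_lit 393) (nat_lit 215) (nat_lit 172)) (XT.nd (nat_lit 78) (nat_lit 76) (nat_lit 0) (XT.lf (nat_lit 0) (nat_lit 51790522488) (nat_lit 76) (nat_lit 9157524443) (nat_lit 76) (nat_lit 1696026066) (nat_lit 6) (nat_lit 4) (nat_lit 7) (nat_lit 5) (nat_lit 7) (nat_lit 4) (nat_lit 394) (nat_lit 215) (nat_lit 171)) (XT.lf (nat_lit 0) (nat_lit 1102409757) (nat_lit 152) (nat_lit 5304957525) (nat_lit 76) (nat_lit 58022423565) (nat_lit 5) (nat_lit 5) (nat_lit 7) (nat_lit 5) (nat_lit 6) (nat_lit 4) (nat_lit 395) (nat_lit 215) (nat_lit 170))))) (XT.nd (nat_lit 234) (nat_lit 0) (nat_lit 0) (XT.nd (nat_lit 78) (nat_lit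 0) (nat_lit 0) (XT.lf (nat_lit 0) (nat_lit 340380762) (nat_lit 76) (nat_lit 3581890964) (nat_lit 152) (nat_lit 62347164921) (nat_lit 4) (nat_lit 5) (nat_lit 5) (nat_lit 5) (nat_lit 6) (nat_lit 4) (nat_lit 396) (nat_lit 215) (nat_lit 169)) (XT.nd (nat_lit 78) (nat_lit 0) (nat_lit 0) (XT.lf (nat_lit 0) (nat_lit 6204847365) (nat_lit 76) (nat_lit 644098096) (nat_lit 152) (nat_lit 61314666708) (nat_lit 4) (nat_lit 5) (nat_lit 5) (nat_lit 5) (nat_lit 6) (nat_lit 4) (nat_lit 397) (nat_lit 215) (nat_lit 168)) (XT.lf (nat_lit 0) (nat_lit 9855616645) (nat_lit 152) (nat_lit 57950183065) (nat_lit 0) (nat_lit 2309053955) (nat_lit 4) (nat_lit 5) (nat_lit 6) (nat_lit 4) (nat_lit 4) (nat_lit 4) (nat_lit 398) (nat_lit 215) (nat_lit 167)))) (XT.nd (nat_lit 156) (nat_lit 0) (nat_lit 0) (XT.nd (nat_lit 78) (nat_lit 0) (nat_lit 0) (XT.lf (nat_lit 0) (nat_lit 12929060944) (nat_lit 152) (nat_lit 53883956501) (nat_lit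 0) (nat_lit 5312324206) (nat_lit 4) (nat_lit 5) (nat_lit 6) (nat_lit 4) (nat_lit 4) (nat_lit 4) (nat_lit 399) (nat_lit 215) (nat_lit 166)) (XT.lf (nat_lit 0) (nat_lit 16065772428) (nat_lit 152) (nat_lit 49750340635) (nat_lit 0) (nat_lit 8380905544) (nat_lit 4) (nat_lit 5) (nat_lit 6) (nat_lit 4) (nat_lit 4) (nat_lit 4) (nat_lit 400) (nat_lit 215) (nat_lit 165))) (XT.nd (nat_lit 78) (nat_lit 0) (nat_lit 0) (XT.lf (nat_lit 0) (nat_lit 19268491911) (nat_lit 152) (nat_lit 45545723567) (nat_lit 0) (nat_lit 11517479257) (nat_lit 4) (nat_lit 5) (nat_lit 6) (nat_lit 4) (nat_lit 4) (nat_lit 4) (nat_lit 401) (nat_lit 215) (nat_lit 164)) (XT.lf (nat_lit 0) (nat_lit 22540017888) (nat_lit 152) (nat_lit 41266431363) (nat_lit 0) (nat_lit 14724786037) (nat_lit 4) (nat_lit 5) (nat_lit 6) (nat_lit 4) (nat_lit 4) (nat_lit 4) (nat_lit 402) (nat_lit 215) (nat_lit 163)))))) (XT.nd (nat_lit 546) (nat_lit 76) (nat_lit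 0) (XT.nd (nat_lit 234) (nat_lit 0) (nat_lit 0) (XT.nd (nat_lit 78) (nat_lit 0) (nat_lit 0) (XT.lf (nat_lit 0) (nat_lit 25883208972) (nat_lit 152) (nat_lit 36908724833) (nat_lit 0) (nat_lit 18005628388) (nat_lit 4) (nat_lit 5) (nat_lit 6) (nat_lit 4) (nat_lit 4) (nat_lit 4) (nat_lit 403) (nat_lit 215) (nat_lit 162)) (XT.nd (nat_lit 78) (nat_lit 0) (nat_lit 0) (XT.lf (nat_lit 0) (nat_lit 29300986399) (nat_lit 152) (nat_lit 32468796273) (nat_lit 0) (nat_lit 21362873064) (nat_lit 4) (nat_lit 5) (nat_lit 6) (nat_lit 4) (nat_lit 4) (nat_lit 4) (nat_lit 404) (nat_lit 215) (nat_lit 161)) (XT.lf (nat_lit 0) (nat_lit 32796336576) (nat_lit 152) (nat_lit 27942766135) (nat_lit 0) (nat_lit 24799453580) (nat_lit 4) (nat_lit 5) (nat_lit 6) (nat_lit 4) (nat_lit 4) (nat_lit 4) (nat_lit 405) (nat_lit 215) (nat_lit 160)))) (XT.nd (nat_lit 156) (nat_lit 0) (nat_lit 0) (XT.nd (nat_lit 78) (nat_lit 0) (nat_lit 0) (XT.lf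 (nat_lit 0) (nat_lit 36372313693) (nat_lit 152) (nat_lit 23326679634) (nat_lit 0) (nat_lit 28318372774) (nat_lit 4) (nat_lit 5) (nat_lit 6) (nat_lit 4) (nat_lit 4) (nat_lit 4) (nat_lit 406) (nat_lit 215) (nat_lit 159)) (XT.lf (nat_lit 0) (nat_lit 40032042390) (nat_lit 152) (nat_lit 18616503297) (nat_lit 0) (nat_lit 31922705428) (nat_lit 4) (nat_lit 5) (nat_lit 6) (nat_lit 4) (nat_lit 4) (nat_lit 4) (nat_lit 407) (nat_lit 215) (nat_lit 158))) (XT.nd (nat_lit 78) (nat_lit 0) (nat_lit 0) (XT.lf (nat_lit 0) (nat_lit 43778720488) (nat_lit 152) (nat_lit 13808121436) (nat_lit 0) (nat_lit 35615600961) (nat_lit 4) (nat_lit 5) (nat_lit 6) (nat_lit 4) (nat_lit 4) (nat_lit 4) (nat_lit 408) (nat_lit 215) (nat_lit 157)) (XT.lf (nat_lit 0) (nat_lit 47615621784) (nat_lit 152) (nat_lit 8897332551) (nat_lit 0) (nat_lit 39400286174) (nat_lit 4) (nat_lit 5) (nat_lit 6) (nat_lit 4) (nat_lit 4) (nat_lit 4) (nat_lit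 409) (nat_lit 215) (nat_lit 156))))) (XT.nd (nat_lit 35880) (nat_lit 0) (nat_lit 1292) (XT.nd (nat_lit 78) (nat_lit 76) (nat_lit 0) (XT.lf (nat_lit 0) (nat_lit 51546098909) (nat_lit 152) (nat_lit 3879845663) (nat_lit 0) (nat_lit 43280068073) (nat_lit 4) (nat_lit 5) (nat_lit 6) (nat_lit 4) (nat_lit 4) (nat_lit 4) (nat_lit 410) (nat_lit 215) (nat_lit 155)) (XT.nd (nat_lit 35724) (nat_lit 0) (nat_lit 1444) (XT.lf (nat_lit 0) (nat_lit 1273575484) (nat_lit 76) (nat_lit 54312253164) (nat_lit 76) (nat_lit 45997003662) (nat_lit 3) (nat_lit 4) (nat_lit 4) (nat_lit 5) (nat_lit 4) (nat_lit 4) (nat_lit 411) (nat_lit 215) (nat_lit 154)) (XT.lf (nat_lit 0) (nat_lit 2275087832) (nat_lit 152) (nat_lit 3647521328) (nat_lit 152) (nat_lit 3647521328) (nat_lit 22) (nat_lit 4) (nat_lit 24) (nat_lit 5) (nat_lit 24) (nat_lit 4) (nat_lit 348) (nat_lit 216) (nat_lit 216)))) (XT.nd (nat_lit 156) (nat_lit 0) (nat_lit 0)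 (XT.nd (nat_lit 78) (nat_lit 152) (nat_lit 0) (XT.lf (nat_lit 0) (nat_lit 13122903948) (nat_lit 152) (nat_lit 3402890192) (nat_lit 152) (nat_lit 3046255247) (nat_lit 22) (nat_lit 4) (nat_lit 24) (nat_lit 5) (nat_lit 24) (nat_lit 4) (nat_lit 349) (nat_lit 216) (nat_lit 215)) (XT.lf (nat_lit 0) (nat_lit 1235100558) (nat_lit 152) (nat_lit 18230716035) (nat_lit 0) (nat_lit 552690399) (nat_lit 20) (nat_lit 5) (nat_lit 22) (nat_lit 4) (nat_lit 20) (nat_lit 4) (nat_lit 350) (nat_lit 216) (nat_lit 214))) (XT.nd (nat_lit 78) (nat_lit 0) (nat_lit 0) (XT.lf (nat_lit 0) (nat_lit 5591930567) (nat_lit 152) (nat_lit 10302156129) (nat_lit 0) (nat_lit 4583148914) (nat_lit 20) (nat_lit 5) (nat_lit 22) (nat_lit 4) (nat_lit 20) (nat_lit 4) (nat_lit 351) (nat_lit 216) (nat_lit 213)) (XT.lf (nat_lit 0) (nat_lit 9990921544) (nat_lit 152) (nat_lit 2296215549) (nat_lit 0) (nat_lit 8665274362) (nat_lit 20) (nat_lit 5) (nat_lit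 22) (nat_lit 4) (nat_lit 20) (nat_lit 4) (nat_lit 352) (nat_lit 216) (nat_lit 212))))))) (XT.nd (nat_lit 1092) (nat_lit 380) (nat_lit 0) (XT.nd (nat_lit 546) (nat_lit 228) (nat_lit 0) (XT.nd (nat_lit 234) (nat_lit 76) (nat_lit 0) (XT.nd (nat_lit 78) (nat_lit 152) (nat_lit 0) (XT.lf (nat_lit 0) (nat_lit 5909415160) (nat_lit 152) (nat_lit 8583307019) (nat_lit 152) (nat_lit 6950023402) (nat_lit 18) (nat_lit 4) (nat_lit 20) (nat_lit 5) (nat_lit 20) (nat_lit 4) (nat_lit 353) (nat_lit 216) (nat_lit 211)) (XT.nd (nat_lit 78) (nat_lit 152) (nat_lit 0) (XT.lf (nat_lit 0) (nat_lit 14254010369) (nat_lit 152) (nat_lit 4813809608) (nat_lit 152) (nat_lit 2881849840) (nat_lit 18) (nat_lit 4) (nat_lit 20) (nat_lit 5) (nat_lit 20) (nat_lit 4) (nat_lit 354) (nat_lit 216) (nat_lit 210)) (XT.lf (nat_lit 0) (nat_lit 217340862) (nat_lit 76) (nat_lit 984273657) (nat_lit 152) (nat_lit 21272272469) (nat_lit 16) (nat_lit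 5) (nat_lit 17) (nat_lit 5) (nat_lit 18) (nat_lit 4) (nat_lit 355) (nat_lit 216) (nat_lit 209)))) (XT.nd (nat_lit 156) (nat_lit 76) (nat_lit 0) (XT.nd (nat_lit 78) (nat_lit 0) (nat_lit 0) (XT.lf (nat_lit 0) (nat_lit 5373617662) (nat_lit 152) (nat_lit 14695596700) (nat_lit 0) (nat_lit 2943066660) (nat_lit 16) (nat_lit 5) (nat_lit 18) (nat_lit 4) (nat_lit 16) (nat_lit 4) (nat_lit 356) (nat_lit 216) (nat_lit 208)) (XT.lf (nat_lit 0) (nat_lit 9599964954) (nat_lit 152) (nat_lit 7064966670) (nat_lit 0) (nat_lit 6904044060) (nat_lit 16) (nat_lit 5) (nat_lit 18) (nat_lit 4) (nat_lit 16) (nat_lit 4) (nat_lit 357) (nat_lit 216) (nat_lit 207))) (XT.nd (nat_lit 78) (nat_lit 0) (nat_lit 0) (XT.lf (nat_lit 0) (nat_lit 664438533) (nat_lit 76) (nat_lit 13216836336) (nat_lit 76) (nat_lit 10263274771) (nat_lit 15) (nat_lit 4) (nat_lit 16) (nat_lit 5) (nat_lit 16) (nat_lit 4) (nat_lit 358) (nat_lit 216) (nat_lit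 206)) (XT.lf (nat_lit 0) (nat_lit 8628844499) (nat_lit 76) (nat_lit 9656223042) (nat_lit 76) (nat_lit 6452524902) (nat_lit 15) (nat_lit 4) (nat_lit 16) (nat_lit 5) (nat_lit 16) (nat_lit 4) (nat_lit 359) (nat_lit 216) (nat_lit 205))))) (XT.nd (nat_lit 234) (nat_lit 76) (nat_lit 0) (XT.nd (nat_lit 78) (nat_lit 152) (nat_lit 0) (XT.lf (nat_lit 0) (nat_lit 16694603728) (nat_lit 76) (nat_lit 6051322835) (nat_lit 76) (nat_lit 2604773652) (nat_lit 15) (nat_lit 4) (nat_lit 16) (nat_lit 5) (nat_lit 16) (nat_lit 4) (nat_lit 360) (nat_lit 216) (nat_lit 204)) (XT.nd (nat_lit 78) (nat_lit 76) (nat_lit 0) (XT.lf (nat_lit 0) (nat_lit 1258298482) (nat_lit 152) (nat_lit 1127980975) (nat_lit 76) (nat_lit 23597759140) (nat_lit 14) (nat_lit 5) (nat_lit 16) (nat_lit 5) (nat_lit 15) (nat_lit 4) (nat_lit 361) (nat_lit 216) (nat_lit 203)) (XT.lf (nat_lit 0) (nat_lit 5190530188) (nat_lit 152) (nat_lit 20051712572) (nat_lit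 0) (nat_lit 1393212426) (nat_lit 13) (nat_lit 5) (nat_lit 15) (nat_lit 4) (nat_lit 13) (nat_lit 4) (nat_lit 362) (nat_lit 216) (nat_lit 202)))) (XT.nd (nat_lit 156) (nat_lit 76) (nat_lit 0) (XT.nd (nat_lit 78) (nat_lit 0) (nat_lit 0) (XT.lf (nat_lit 0) (nat_lit 9204662289) (nat_lit 152) (nat_lit 12911279240) (nat_lit 0) (nat_lit 5191574521) (nat_lit 13) (nat_lit 5) (nat_lit 15) (nat_lit 4) (nat_lit 13) (nat_lit 4) (nat_lit 363) (nat_lit 216) (nat_lit 201)) (XT.lf (nat_lit 0) (nat_lit 13270095774) (nat_lit 152) (nat_lit 5684213287) (nat_lit 0) (nat_lit 9047522563) (nat_lit 13) (nat_lit 5) (nat_lit 15) (nat_lit 4) (nat_lit 13) (nat_lit 4) (nat_lit 364) (nat_lit 216) (nat_lit 200))) (XT.nd (nat_lit 78) (nat_lit 0) (nat_lit 0) (XT.lf (nat_lit 0) (nat_lit 1668355829) (nat_lit 76) (nat_lit 15738064389) (nat_lit 76) (nat_lit 11312107253) (nat_lit 12) (nat_lit 4) (nat_lit 13) (nat_lit 5) (nat_lit 13) (nat_lit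 4) (nat_lit 365) (nat_lit 216) (nat_lit 199)) (XT.lf (nat_lit 0) (nat_lit 9235372732) (nat_lit 76) (nat_lit 12422527425) (nat_lit 76) (nat_lit 7799110167) (nat_lit 12) (nat_lit 4) (nat_lit 13) (nat_lit 5) (nat_lit 13) (nat_lit 4) (nat_lit 366) (nat_lit 216) (nat_lit 198)))))) (XT.nd (nat_lit 546) (nat_lit 228) (nat_lit 0) (XT.nd (nat_lit 234) (nat_lit 0) (nat_lit 0) (XT.nd (nat_lit 78) (nat_lit 152) (nat_lit 0) (XT.lf (nat_lit 0) (nat_lit 16910322387) (nat_lit 76) (nat_lit 9062200506) (nat_lit 76) (nat_lit 4247074392) (nat_lit 12) (nat_lit 4) (nat_lit 13) (nat_lit 5) (nat_lit 13) (nat_lit 4) (nat_lit 367) (nat_lit 216) (nat_lit 197)) (XT.nd (nat_lit 78) (nat_lit 152) (nat_lit 0) (XT.lf (nat_lit 0) (nat_lit 24699911060) (nat_lit 76) (nat_lit 5654147426) (nat_lit 76) (nat_lit 652896208) (nat_lit 12) (nat_lit 4) (nat_lit 13) (nat_lit 5) (nat_lit 13) (nat_lit 4) (nat_lit 368) (nat_lit 216) (nat_lit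 196)) (XT.lf (nat_lit 0) (nat_lit 777640534) (nat_lit 76) (nat_lit 2158120911) (nat_lit 152) (nat_lit 28882923572) (nat_lit 10) (nat_lit 5) (nat_lit 11) (nat_lit 5) (nat_lit 12) (nat_lit 4) (nat_lit 369) (nat_lit 216) (nat_lit 195)))) (XT.nd (nat_lit 156) (nat_lit 0) (nat_lit 0) (XT.nd (nat_lit 78) (nat_lit 0) (nat_lit 0) (XT.lf (nat_lit 0) (nat_lit 6636031088) (nat_lit 152) (nat_lit 24583369815) (nat_lit 0) (nat_lit 1434675786) (nat_lit 10) (nat_lit 5) (nat_lit 12) (nat_lit 4) (nat_lit 10) (nat_lit 4) (nat_lit 370) (nat_lit 216) (nat_lit 194)) (XT.lf (nat_lit 0) (nat_lit 10409342884) (nat_lit 152) (nat_lit 18063723530) (nat_lit 0) (nat_lit 5042617838) (nat_lit 10) (nat_lit 5) (nat_lit 12) (nat_lit 4) (nat_lit 10) (nat_lit 4) (nat_lit 371) (nat_lit 216) (nat_lit 193))) (XT.nd (nat_lit 78) (nat_lit 0) (nat_lit 0) (XT.lf (nat_lit 0) (nat_lit 14238248722) (nat_lit 152) (nat_lit 11455663671) (nat_lit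 0) (nat_lit 8710970527) (nat_lit 10) (nat_lit 5) (nat_lit 12) (nat_lit 4) (nat_lit 10) (nat_lit 4) (nat_lit 372) (nat_lit 216) (nat_lit 192)) (XT.lf (nat_lit 0) (nat_lit 18126094248) (nat_lit 152) (nat_lit 4753416205) (nat_lit 0) (nat_lit 12442939210) (nat_lit 10) (nat_lit 5) (nat_lit 12) (nat_lit 4) (nat_lit 10) (nat_lit 4) (nat_lit 373) (nat_lit 216) (nat_lit 191))))) (XT.nd (nat_lit 234) (nat_lit 152) (nat_lit 0) (XT.nd (nat_lit 78) (nat_lit 0) (nat_lit 0) (XT.lf (nat_lit 0) (nat_lit 2089651833) (nat_lit 76) (nat_lit 20006711787) (nat_lit 76) (nat_lit 14172220008) (nat_lit 9) (nat_lit 4) (nat_lit 10) (nat_lit 5) (nat_lit 10) (nat_lit 4) (nat_lit 374) (nat_lit 216) (nat_lit 190)) (XT.nd (nat_lit 78) (nat_lit 0) (nat_lit 0) (XT.lf (nat_lit 0) (nat_lit 9135419227) (nat_lit 76) (nat_lit 17044643430) (nat_lit 76) (nat_lit 11063222776) (nat_lit 9) (nat_lit 4) (nat_lit 10) (nat_lit 5) (nat_lit 10)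 (nat_lit 4) (nat_lit 375) (nat_lit 216) (nat_lit 189)) (XT.lf (nat_lit 0) (nat_lit 16295440169) (nat_lit 76) (nat_lit 14038717352) (nat_lit 76) (nat_lit 7914647305) (nat_lit 9) (nat_lit 4) (nat_lit 10) (nat_lit 5) (nat_lit 10) (nat_lit 4) (nat_lit 376) (nat_lit 216) (nat_lit 188)))) (XT.nd (nat_lit 156) (nat_lit 152) (nat_lit 0) (XT.nd (nat_lit 78) (nat_lit 0) (nat_lit 0) (XT.lf (nat_lit 0) (nat_lit 23575970988) (nat_lit 76) (nat_lit 10986307015) (nat_lit 76) (nat_lit 4723742411) (nat_lit 9) (nat_lit 4) (nat_lit 10) (nat_lit 5) (nat_lit 10) (nat_lit 4) (nat_lit 377) (nat_lit 216) (nat_lit 187)) (XT.lf (nat_lit 0) (nat_lit 30983373313) (nat_lit 76) (nat_lit 7884745264) (nat_lit 76) (nat_lit 1487719926) (nat_lit 9) (nat_lit 4) (nat_lit 10) (nat_lit 5) (nat_lit 10) (nat_lit 4) (nat_lit 378) (nat_lit 216) (nat_lit 186))) (XT.nd (nat_lit 78) (nat_lit 76) (nat_lit 0) (XT.lf (nat_lit 0) (nat_lit 1761196479)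 (nat_lit 152) (nat_lit 2952340886) (nat_lit 76) (nat_lit 36745138520) (nat_lit 8) (nat_lit 5) (nat_lit 10) (nat_lit 5) (nat_lit 9) (nat_lit 4) (nat_lit 379) (nat_lit 216) (nat_lit 185)) (XT.lf (nat_lit 0) (nat_lit 3629245336) (nat_lit 76) (nat_lit 1436546395) (nat_lit 152) (nat_lit 37528732650) (nat_lit 7) (nat_lit 5) (nat_lit 8) (nat_lit 5) (nat_lit 9) (nat_lit 4) (nat_lit 380) (nat_lit 216) (nat_lit 184))))))))
noncomputable def xc19 : XT := (XT.nd (nat_lit 2184) (nat_lit 0) (nat_lit 0) (XT.nd (nat_lit 1092) (nat_lit 152) (nat_lit 0) (XT.nd (nat_lit 546) (nat_lit 0) (nat_lit 0) (XT.nd (nat_lit 234) (nat_lit 76) (nat_lit 0) (XT.nd (nat_lit 78) (nat_lit 0) (nat_lit 0) (XT.lf (nat_lit 0) (nat_lit 8471642118) (nat_lit 152) (nat_lit 33401075120) (nat_lit 0) (nat_lit 1891678528) (nat_lit 7) (nat_lit 5) (nat_lit 9) (nat_lit 4) (nat_lit 7) (nat_lit 4) (nat_lit 381) (nat_lit 216) (nat_lit 183)) (XT.nd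 (nat_lit 78) (nat_lit 0) (nat_lit 0) (XT.lf (nat_lit 0) (nat_lit 11948622079) (nat_lit 152) (nat_lit 27769011747) (nat_lit 0) (nat_lit 5252671478) (nat_lit 7) (nat_lit 5) (nat_lit 9) (nat_lit 4) (nat_lit 7) (nat_lit 4) (nat_lit 382) (nat_lit 216) (nat_lit 182)) (XT.lf (nat_lit 0) (nat_lit 15485960788) (nat_lit 152) (nat_lit 22050358745) (nat_lit 0) (nat_lit 8677401438) (nat_lit 7) (nat_lit 5) (nat_lit 9) (nat_lit 4) (nat_lit 7) (nat_lit 4) (nat_lit 383) (nat_lit 216) (nat_lit 181)))) (XT.nd (nat_lit 156) (nat_lit 76) (nat_lit 0) (XT.nd (nat_lit 78) (nat_lit 0) (nat_lit 0) (XT.lf (nat_lit 0) (nat_lit 19086749123) (nat_lit 152) (nat_lit 16240119232) (nat_lit 0) (nat_lit 12168860892) (nat_lit 7) (nat_lit 5) (nat_lit 9) (nat_lit 4) (nat_lit 7) (nat_lit 4) (nat_lit 384) (nat_lit 216) (nat_lit 180)) (XT.lf (nat_lit 0) (nat_lit 22754133406) (nat_lit 152) (nat_lit 10333216299) (nat_lit 0) (nat_lit 15730100629)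 (nat_lit 7) (nat_lit 5) (nat_lit 9) (nat_lit 4) (nat_lit 7) (nat_lit 4) (nat_lit 385) (nat_lit 216) (nat_lit 179))) (XT.nd (nat_lit 78) (nat_lit 76) (nat_lit 0) (XT.lf (nat_lit 0) (nat_lit 26491318146) (nat_lit 152) (nat_lit 4324488575) (nat_lit 0) (nat_lit 19364232412) (nat_lit 7) (nat_lit 5) (nat_lit 9) (nat_lit 4) (nat_lit 7) (nat_lit 4) (nat_lit 386) (nat_lit 216) (nat_lit 178)) (XT.lf (nat_lit 0) (nat_lit 1826964949) (nat_lit 76) (nat_lit 28492165799) (nat_lit 76) (nat_lit 21265028651) (nat_lit 6) (nat_lit 4) (nat_lit 7) (nat_lit 5) (nat_lit 7) (nat_lit 4) (nat_lit 387) (nat_lit 216) (nat_lit 177))))) (XT.nd (nat_lit 234) (nat_lit 0) (nat_lit 0) (XT.nd (nat_lit 78) (nat_lit 0) (nat_lit 0) (XT.lf (nat_lit 0) (nat_lit 8179140678) (nat_lit 76) (nat_lit 26087697072) (nat_lit 76) (nat_lit 18763422629) (nat_lit 6) (nat_lit 4) (nat_lit 7) (nat_lit 5) (nat_lit 7) (nat_lit 4) (nat_lit 388) (nat_lit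 216) (nat_lit 176)) (XT.nd (nat_lit 78) (nat_lit 0) (nat_lit 0) (XT.lf (nat_lit 0) (nat_lit 14651523251) (nat_lit 76) (nat_lit 23643968404) (nat_lit 76) (nat_lit 16225385907) (nat_lit 6) (nat_lit 4) (nat_lit 7) (nat_lit 5) (nat_lit 7) (nat_lit 4) (nat_lit 389) (nat_lit 216) (nat_lit 175)) (XT.lf (nat_lit 0) (nat_lit 21249768149) (nat_lit 76) (nat_lit 21158844498) (nat_lit 76) (nat_lit 13648700783) (nat_lit 6) (nat_lit 4) (nat_lit 7) (nat_lit 5) (nat_lit 7) (nat_lit 4) (nat_lit 390) (nat_lit 216) (nat_lit 174)))) (XT.nd (nat_lit 156) (nat_lit 0) (nat_lit 0) (XT.nd (nat_lit 78) (nat_lit 0) (nat_lit 0) (XT.lf (nat_lit 0) (nat_lit 27979640829) (nat_lit 76) (nat_lit 18630153886) (nat_lit 76) (nat_lit 11031115786) (nat_lit 6) (nat_lit 4) (nat_lit 7) (nat_lit 5) (nat_lit 7) (nat_lit 4) (nat_lit 391) (nat_lit 216) (nat_lit 173)) (XT.lf (nat_lit 0) (nat_lit 34847021763) (nat_lit 76) (nat_lit 16055687033)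 (nat_lit 76) (nat_lit 8370343704) (nat_lit 6) (nat_lit 4) (nat_lit 7) (nat_lit 5) (nat_lit 7) (nat_lit 4) (nat_lit 392) (nat_lit 216) (nat_lit 172))) (XT.nd (nat_lit 78) (nat_lit 0) (nat_lit 0) (XT.lf (nat_lit 0) (nat_lit 41857911573) (nat_lit 76) (nat_lit 13433194405) (nat_lit 76) (nat_lit 5664059592) (nat_lit 6) (nat_lit 4) (nat_lit 7) (nat_lit 5) (nat_lit 7) (nat_lit 4) (nat_lit 393) (nat_lit 216) (nat_lit 171)) (XT.lf (nat_lit 0) (nat_lit 49018436280) (nat_lit 76) (nat_lit 10760384504) (nat_lit 76) (nat_lit 2909898735) (nat_lit 6) (nat_lit 4) (nat_lit 7) (nat_lit 5) (nat_lit 7) (nat_lit 4) (nat_lit 394) (nat_lit 216) (nat_lit 170)))))) (XT.nd (nat_lit 546) (nat_lit 0) (nat_lit 0) (XT.nd (nat_lit 234) (nat_lit 0) (nat_lit 0) (XT.nd (nat_lit 78) (nat_lit 152) (nat_lit 0) (XT.lf (nat_lit 0) (nat_lit 56334852654) (nat_lit 76) (nat_lit 8034921864) (nat_lit 76) (nat_lit 105454585) (nat_lit 6) (nat_lit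 4) (nat_lit 7) (nat_lit 5) (nat_lit 7) (nat_lit 4) (nat_lit 395) (nat_lit 216) (nat_lit 169)) (XT.nd (nat_lit 78) (nat_lit 76) (nat_lit 0) (XT.lf (nat_lit 0) (nat_lit 2698027309) (nat_lit 152) (nat_lit 2529152918) (nat_lit 76) (nat_lit 61088281585) (nat_lit 5) (nat_lit 5) (nat_lit 7) (nat_lit 5) (nat_lit 6) (nat_lit 4) (nat_lit 396) (nat_lit 216) (nat_lit 168)) (XT.lf (nat_lit 0) (nat_lit 3256771464) (nat_lit 76) (nat_lit 2328138619) (nat_lit 152) (nat_lit 62625924244) (nat_lit 4) (nat_lit 5) (nat_lit 5) (nat_lit 5) (nat_lit 6) (nat_lit 4) (nat_lit 397) (nat_lit 216) (nat_lit 167)))) (XT.nd (nat_lit 156) (nat_lit 0) (nat_lit 0) (XT.nd (nat_lit 78) (nat_lit 0) (nat_lit 0) (XT.lf (nat_lit 0) (nat_lit 8560711354) (nat_lit 152) (nat_lit 60956995273) (nat_lit 0) (nat_lit 645298464) (nat_lit 4) (nat_lit 5) (nat_lit 6) (nat_lit 4) (nat_lit 4) (nat_lit 4) (nat_lit 398) (nat_lit 216) (nat_lit 166)) (XT.lf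 (nat_lit 0) (nat_lit 11619901394) (nat_lit 152) (nat_lit 56917664026) (nat_lit 0) (nat_lit 3636358360) (nat_lit 4) (nat_lit 5) (nat_lit 6) (nat_lit 4) (nat_lit 4) (nat_lit 4) (nat_lit 399) (nat_lit 216) (nat_lit 165))) (XT.nd (nat_lit 78) (nat_lit 0) (nat_lit 0) (XT.lf (nat_lit 0) (nat_lit 14742773792) (nat_lit 152) (nat_lit 52810160118) (nat_lit 0) (nat_lit 6693084986) (nat_lit 4) (nat_lit 5) (nat_lit 6) (nat_lit 4) (nat_lit 4) (nat_lit 4) (nat_lit 400) (nat_lit 216) (nat_lit 164)) (XT.lf (nat_lit 0) (nat_lit 17932057270) (nat_lit 152) (nat_lit 48630894467) (nat_lit 0) (nat_lit 9818149268) (nat_lit 4) (nat_lit 5) (nat_lit 6) (nat_lit 4) (nat_lit 4) (nat_lit 4) (nat_lit 401) (nat_lit 216) (nat_lit 163))))) (XT.nd (nat_lit 234) (nat_lit 0) (nat_lit 0) (XT.nd (nat_lit 78) (nat_lit 0) (nat_lit 0) (XT.lf (nat_lit 0) (nat_lit 21190538581) (nat_lit 152) (nat_lit 44376215287) (nat_lit 0) (nat_lit 13014281846)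 (nat_lit 4) (nat_lit 5) (nat_lit 6) (nat_lit 4) (nat_lit 4) (nat_lit 4) (nat_lit 402) (nat_lit 216) (nat_lit 162)) (XT.nd (nat_lit 78) (nat_lit 0) (nat_lit 0) (XT.lf (nat_lit 0) (nat_lit 24521064941) (nat_lit 152) (nat_lit 40042404898) (nat_lit 0) (nat_lit 16284275455) (nat_lit 4) (nat_lit 5) (nat_lit 6) (nat_lit 4) (nat_lit 4) (nat_lit 4) (nat_lit 403) (nat_lit 216) (nat_lit 161)) (XT.lf (nat_lit 0) (nat_lit 27926546519) (nat_lit 152) (nat_lit 35625676476) (nat_lit 0) (nat_lit 19630987372) (nat_lit 4) (nat_lit 5) (nat_lit 6) (nat_lit 4) (nat_lit 4) (nat_lit 4) (nat_lit 404) (nat_lit 216) (nat_lit 160)))) (XT.nd (nat_lit 156) (nat_lit 0) (nat_lit 0) (XT.nd (nat_lit 78) (nat_lit 0) (nat_lit 0) (XT.lf (nat_lit 0) (nat_lit 31409958980) (nat_lit 152) (nat_lit 31122170742) (nat_lit 0) (nat_lit 23057341909) (nat_lit 4) (nat_lit 5) (nat_lit 6) (nat_lit 4) (nat_lit 4) (nat_lit 4) (nat_lit 405) (nat_lit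 216) (nat_lit 159)) (XT.lf (nat_lit 0) (nat_lit 34974346080) (nat_lit 152) (nat_lit 26527952595) (nat_lit 0) (nat_lit 26566332967) (nat_lit 4) (nat_lit 5) (nat_lit 6) (nat_lit 4) (nat_lit 4) (nat_lit 4) (nat_lit 406) (nat_lit 216) (nat_lit 158))) (XT.nd (nat_lit 78) (nat_lit 0) (nat_lit 0) (XT.lf (nat_lit 0) (nat_lit 38622822334) (nat_lit 152) (nat_lit 21839007670) (nat_lit 0) (nat_lit 30161026655) (nat_lit 4) (nat_lit 5) (nat_lit 6) (nat_lit 4) (nat_lit 4) (nat_lit 4) (nat_lit 407) (nat_lit 216) (nat_lit 157)) (XT.lf (nat_lit 0) (nat_lit 42358575730) (nat_lit 152) (nat_lit 17051238830) (nat_lit 0) (nat_lit 33844563968) (nat_lit 4) (nat_lit 5) (nat_lit 6) (nat_lit 4) (nat_lit 4) (nat_lit 4) (nat_lit 408) (nat_lit 216) (nat_lit 156))))))) (XT.nd (nat_lit 36582) (nat_lit 0) (nat_lit 456) (XT.nd (nat_lit 36036) (nat_lit 0) (nat_lit 912) (XT.nd (nat_lit 35724) (nat_lit 0) (nat_lit 1368) (XT.nd (nat_lit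 78) (nat_lit 0) (nat_lit 0) (XT.lf (nat_lit 0) (nat_lit 46184870518) (nat_lit 152) (nat_lit 12160462587) (nat_lit 0) (nat_lit 37620163531) (nat_lit 4) (nat_lit 5) (nat_lit 6) (nat_lit 4) (nat_lit 4) (nat_lit 4) (nat_lit 409) (nat_lit 216) (nat_lit 155)) (XT.nd (nat_lit 78) (nat_lit 0) (nat_lit 0) (XT.lf (nat_lit 0) (nat_lit 50105050064) (nat_lit 152) (nat_lit 7162405449) (nat_lit 0) (nat_lit 41491124410) (nat_lit 4) (nat_lit 5) (nat_lit 6) (nat_lit 4) (nat_lit 4) (nat_lit 4) (nat_lit 410) (nat_lit 216) (nat_lit 154)) (XT.lf (nat_lit 0) (nat_lit 54122539766) (nat_lit 152) (nat_lit 2052700180) (nat_lit 0) (nat_lit 45460829000) (nat_lit 4) (nat_lit 5) (nat_lit 6) (nat_lit 4) (nat_lit 4) (nat_lit 4) (nat_lit 411) (nat_lit 216) (nat_lit 153)))) (XT.nd (nat_lit 156) (nat_lit 152) (nat_lit 0) (XT.nd (nat_lit 78) (nat_lit 0) (nat_lit 0) (XT.lf (nat_lit 0) (nat_lit 1574766093) (nat_lit 152) (nat_lit 6009133819)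 (nat_lit 0) (nat_lit 1574766093) (nat_lit 24) (nat_lit 5) (nat_lit 26) (nat_lit 4) (nat_lit 24) (nat_lit 4) (nat_lit 346) (nat_lit 217) (nat_lit 217)) (XT.lf (nat_lit 0) (nat_lit 7615467039) (nat_lit 152) (nat_lit 3859065694) (nat_lit 0) (nat_lit 7248133046) (nat_lit 24) (nat_lit 5) (nat_lit 26) (nat_lit 4) (nat_lit 24) (nat_lit 4) (nat_lit 347) (nat_lit 217) (nat_lit 216))) (XT.nd (nat_lit 78) (nat_lit 0) (nat_lit 0) (XT.lf (nat_lit 0) (nat_lit 4467467595) (nat_lit 152) (nat_lit 7699079294) (nat_lit 152) (nat_lit 6975110357) (nat_lit 22) (nat_lit 4) (nat_lit 24) (nat_lit 5) (nat_lit 24) (nat_lit 4) (nat_lit 348) (nat_lit 217) (nat_lit 215)) (XT.lf (nat_lit 0) (nat_lit 12959896783) (nat_lit 152) (nat_lit 3842560464) (nat_lit 152) (nat_lit 2772344009) (nat_lit 22) (nat_lit 4) (nat_lit 24) (nat_lit 5) (nat_lit 24) (nat_lit 4) (nat_lit 349) (nat_lit 217) (nat_lit 214))))) (XT.nd (nat_lit 234) (nat_lit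 304) (nat_lit 0) (XT.nd (nat_lit 78) (nat_lit 0) (nat_lit 0) (XT.lf (nat_lit 0) (nat_lit 1452873011) (nat_lit 152) (nat_lit 18482389000) (nat_lit 0) (nat_lit 87456414) (nat_lit 20) (nat_lit 5) (nat_lit 22) (nat_lit 4) (nat_lit 20) (nat_lit 4) (nat_lit 350) (nat_lit 217) (nat_lit 213)) (XT.nd (nat_lit 78) (nat_lit 0) (nat_lit 0) (XT.lf (nat_lit 0) (nat_lit 5766085319) (nat_lit 152) (nat_lit 10632881371) (nat_lit 0) (nat_lit 4083803194) (nat_lit 20) (nat_lit 5) (nat_lit 22) (nat_lit 4) (nat_lit 20) (nat_lit 4) (nat_lit 351) (nat_lit 217) (nat_lit 212)) (XT.lf (nat_lit 0) (nat_lit 10122729013) (nat_lit 152) (nat_lit 2703690576) (nat_lit 0) (nat_lit 8132810452) (nat_lit 20) (nat_lit 5) (nat_lit 22) (nat_lit 4) (nat_lit 20) (nat_lit 4) (nat_lit 352) (nat_lit 217) (nat_lit 211)))) (XT.nd (nat_lit 156) (nat_lit 152) (nat_lit 0) (XT.nd (nat_lit 78) (nat_lit 0) (nat_lit 0) (XT.lf (nat_lit 0) (nat_lit 5417833247)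 (nat_lit 152) (nat_lit 9160857149) (nat_lit 152) (nat_lit 6872262437) (nat_lit 18) (nat_lit 4) (nat_lit 20) (nat_lit 5) (nat_lit 20) (nat_lit 4) (nat_lit 353) (nat_lit 217) (nat_lit 210)) (XT.lf (nat_lit 0) (nat_lit 13688644635) (nat_lit 152) (nat_lit 5424517928) (nat_lit 152) (nat_lit 2845946370) (nat_lit 18) (nat_lit 4) (nat_lit 20) (nat_lit 5) (nat_lit 20) (nat_lit 4) (nat_lit 354) (nat_lit 217) (nat_lit 209))) (XT.nd (nat_lit 78) (nat_lit 76) (nat_lit 0) (XT.lf (nat_lit 0) (nat_lit 1194882826) (nat_lit 228) (nat_lit 434490338) (nat_lit 76) (nat_lit 20855212968) (nat_lit 17) (nat_lit 5) (nat_lit 20) (nat_lit 5) (nat_lit 18) (nat_lit 4) (nat_lit 355) (nat_lit 217) (nat_lit 208)) (XT.lf (nat_lit 0) (nat_lit 5316697659) (nat_lit 152) (nat_lit 15433270895) (nat_lit 0) (nat_lit 2274529246) (nat_lit 16) (nat_lit 5) (nat_lit 18) (nat_lit 4) (nat_lit 16) (nat_lit 4) (nat_lit 356) (nat_lit 217) (nat_lit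 207)))))) (XT.nd (nat_lit 546) (nat_lit 228) (nat_lit 0) (XT.nd (nat_lit 234) (nat_lit 152) (nat_lit 0) (XT.nd (nat_lit 78) (nat_lit 76) (nat_lit 0) (XT.lf (nat_lit 0) (nat_lit 9504515500) (nat_lit 152) (nat_lit 7873138065) (nat_lit 0) (nat_lit 6204706416) (nat_lit 16) (nat_lit 5) (nat_lit 18) (nat_lit 4) (nat_lit 16) (nat_lit 4) (nat_lit 357) (nat_lit 217) (nat_lit 206)) (XT.nd (nat_lit 78) (nat_lit 76) (nat_lit 0) (XT.lf (nat_lit 0) (nat_lit 13742031192) (nat_lit 152) (nat_lit 225142334) (nat_lit 0) (nat_lit 10192085533) (nat_lit 16) (nat_lit 5) (nat_lit 18) (nat_lit 4) (nat_lit 16) (nat_lit 4) (nat_lit 358) (nat_lit 217) (nat_lit 205)) (XT.lf (nat_lit 0) (nat_lit 7667009992) (nat_lit 76) (nat_lit 10439637416) (nat_lit 76) (nat_lit 6646840714) (nat_lit 15) (nat_lit 4) (nat_lit 16) (nat_lit 5) (nat_lit 16) (nat_lit 4) (nat_lit 359) (nat_lit 217) (nat_lit 204)))) (XT.nd (nat_lit 156) (nat_lit 76)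 (nat_lit 0) (XT.nd (nat_lit 78) (nat_lit 76) (nat_lit 0) (XT.lf (nat_lit 0) (nat_lit 15666970323) (nat_lit 76) (nat_lit 6864643703) (nat_lit 76) (nat_lit 2836069290) (nat_lit 15) (nat_lit 4) (nat_lit 16) (nat_lit 5) (nat_lit 16) (nat_lit 4) (nat_lit 360) (nat_lit 217) (nat_lit 203)) (XT.lf (nat_lit 0) (nat_lit 996314105) (nat_lit 152) (nat_lit 2234967179) (nat_lit 76) (nat_lit 22770873215) (nat_lit 14) (nat_lit 5) (nat_lit 16) (nat_lit 5) (nat_lit 15) (nat_lit 4) (nat_lit 361) (nat_lit 217) (nat_lit 202))) (XT.nd (nat_lit 78) (nat_lit 0) (nat_lit 0) (XT.lf (nat_lit 0) (nat_lit 4874390829) (nat_lit 152) (nat_lit 21255674232) (nat_lit 0) (nat_lit 525140421) (nat_lit 13) (nat_lit 5) (nat_lit 15) (nat_lit 4) (nat_lit 13) (nat_lit 4) (nat_lit 362) (nat_lit 217) (nat_lit 201)) (XT.lf (nat_lit 0) (nat_lit 8854472398) (nat_lit 152) (nat_lit 14178088378) (nat_lit 0) (nat_lit 4295736548) (nat_lit 13) (nat_lit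 5) (nat_lit 15) (nat_lit 4) (nat_lit 13) (nat_lit 4) (nat_lit 363) (nat_lit 217) (nat_lit 200))))) (XT.nd (nat_lit 234) (nat_lit 152) (nat_lit 0) (XT.nd (nat_lit 78) (nat_lit 76) (nat_lit 0) (XT.lf (nat_lit 0) (nat_lit 12886847114) (nat_lit 152) (nat_lit 7012039393) (nat_lit 0) (nat_lit 8124727338) (nat_lit 13) (nat_lit 5) (nat_lit 15) (nat_lit 4) (nat_lit 13) (nat_lit 4) (nat_lit 364) (nat_lit 217) (nat_lit 199)) (XT.nd (nat_lit 78) (nat_lit 0) (nat_lit 0) (XT.lf (nat_lit 0) (nat_lit 253684618) (nat_lit 76) (nat_lit 16723792363) (nat_lit 76) (nat_lit 11764212465) (nat_lit 12) (nat_lit 4) (nat_lit 13) (nat_lit 5) (nat_lit 13) (nat_lit 4) (nat_lit 365) (nat_lit 217) (nat_lit 198)) (XT.lf (nat_lit 0) (nat_lit 7762042529) (nat_lit 76) (nat_lit 13435189465) (nat_lit 76) (nat_lit 8283900712) (nat_lit 12) (nat_lit 4) (nat_lit 13) (nat_lit 5) (nat_lit 13) (nat_lit 4) (nat_lit 366) (nat_lit 217) (nat_lit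 197)))) (XT.nd (nat_lit 156) (nat_lit 152) (nat_lit 0) (XT.nd (nat_lit 78) (nat_lit 0) (nat_lit 0) (XT.lf (nat_lit 0) (nat_lit 15380041705) (nat_lit 76) (nat_lit 10101012126) (nat_lit 76) (nat_lit 4763598269) (nat_lit 12) (nat_lit 4) (nat_lit 13) (nat_lit 5) (nat_lit 13) (nat_lit 4) (nat_lit 367) (nat_lit 217) (nat_lit 196)) (XT.lf (nat_lit 0) (nat_lit 23114338651) (nat_lit 76) (nat_lit 6718346986) (nat_lit 76) (nat_lit 1200229146) (nat_lit 12) (nat_lit 4) (nat_lit 13) (nat_lit 5) (nat_lit 13) (nat_lit 4) (nat_lit 368) (nat_lit 217) (nat_lit 195))) (XT.nd (nat_lit 78) (nat_lit 76) (nat_lit 0) (XT.lf (nat_lit 0) (nat_lit 2362305765) (nat_lit 152) (nat_lit 898077897) (nat_lit 76) (nat_lit 28585531070) (nat_lit 11) (nat_lit 5) (nat_lit 13) (nat_lit 5) (nat_lit 12) (nat_lit 4) (nat_lit 369) (nat_lit 217) (nat_lit 194)) (XT.lf (nat_lit 0) (nat_lit 6013859613) (nat_lit 152) (nat_lit 26348152662) (nat_lit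 0) (nat_lit 320763073) (nat_lit 10) (nat_lit 5) (nat_lit 12) (nat_lit 4) (nat_lit 10) (nat_lit 4) (nat_lit 370) (nat_lit 217) (nat_lit 193))))))))
noncomputable def xc20 : XT := (XT.nd (nat_lit 2106) (nat_lit 0) (nat_lit 0) (XT.nd (nat_lit 1014) (nat_lit 228) (nat_lit 0) (XT.nd (nat_lit 468) (nat_lit 152) (nat_lit 0) (XT.nd (nat_lit 234) (nat_lit 76) (nat_lit 0) (XT.nd (nat_lit 78) (nat_lit 0) (nat_lit 0) (XT.lf (nat_lit 0) (nat_lit 9758794408) (nat_lit 152) (nat_lit 19881302344) (nat_lit 0) (nat_lit 3905144719) (nat_lit 10) (nat_lit 5) (nat_lit 12) (nat_lit 4) (nat_lit 10) (nat_lit 4) (nat_lit 371) (nat_lit 217) (nat_lit 192)) (XT.nd (nat_lit 78) (nat_lit 0) (nat_lit 0) (XT.lf (nat_lit 0) (nat_lit 13560149759) (nat_lit 152) (nat_lit 13324500706) (nat_lit 0) (nat_lit 7550623227) (nat_lit 10) (nat_lit 5) (nat_lit 12) (nat_lit 4) (nat_lit 10) (nat_lit 4) (nat_lit 372) (nat_lit 217) (nat_lit 191))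 (XT.lf (nat_lit 0) (nat_lit 17421247240) (nat_lit 152) (nat_lit 6672018504) (nat_lit 0) (nat_lit 11260383967) (nat_lit 10) (nat_lit 5) (nat_lit 12) (nat_lit 4) (nat_lit 10) (nat_lit 4) (nat_lit 373) (nat_lit 217) (nat_lit 190)))) (XT.nd (nat_lit 78) (nat_lit 0) (nat_lit 0) (XT.lf (nat_lit 0) (nat_lit 83588218) (nat_lit 76) (nat_lit 21262675908) (nat_lit 76) (nat_lit 14954883760) (nat_lit 9) (nat_lit 4) (nat_lit 10) (nat_lit 5) (nat_lit 10) (nat_lit 4) (nat_lit 374) (nat_lit 217) (nat_lit 189)) (XT.nd (nat_lit 78) (nat_lit 0) (nat_lit 0) (XT.lf (nat_lit 0) (nat_lit 7081513507) (nat_lit 76) (nat_lit 18322777172) (nat_lit 76) (nat_lit 11872335630) (nat_lit 9) (nat_lit 4) (nat_lit 10) (nat_lit 5) (nat_lit 10) (nat_lit 4) (nat_lit 375) (nat_lit 217) (nat_lit 188)) (XT.lf (nat_lit 0) (nat_lit 14195085803) (nat_lit 76) (nat_lit 15338374997) (nat_lit 76) (nat_lit 8749438899) (nat_lit 9) (nat_lit 4) (nat_lit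 10) (nat_lit 5) (nat_lit 10) (nat_lit 4) (nat_lit 376) (nat_lit 217) (nat_lit 187))))) (XT.nd (nat_lit 234) (nat_lit 76) (nat_lit 0) (XT.nd (nat_lit 78) (nat_lit 76) (nat_lit 0) (XT.lf (nat_lit 0) (nat_lit 21430520849) (nat_lit 76) (nat_lit 12306861653) (nat_lit 76) (nat_lit 5583464820) (nat_lit 9) (nat_lit 4) (nat_lit 10) (nat_lit 5) (nat_lit 10) (nat_lit 4) (nat_lit 377) (nat_lit 217) (nat_lit 186)) (XT.nd (nat_lit 78) (nat_lit 76) (nat_lit 0) (XT.lf (nat_lit 0) (nat_lit 28794140870) (nat_lit 76) (nat_lit 9225588245) (nat_lit 76) (nat_lit 2371647010) (nat_lit 9) (nat_lit 4) (nat_lit 10) (nat_lit 5) (nat_lit 10) (nat_lit 4) (nat_lit 378) (nat_lit 217) (nat_lit 185)) (XT.lf (nat_lit 0) (nat_lit 871476876) (nat_lit 152) (nat_lit 5211585314) (nat_lit 76) (nat_lit 35412103013) (nat_lit 8) (nat_lit 5) (nat_lit 10) (nat_lit 5) (nat_lit 9) (nat_lit 4) (nat_lit 379) (nat_lit 217) (nat_lit 184)))) (XT.nd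 (nat_lit 156) (nat_lit 0) (nat_lit 0) (XT.nd (nat_lit 78) (nat_lit 0) (nat_lit 0) (XT.lf (nat_lit 0) (nat_lit 1282487588) (nat_lit 76) (nat_lit 2848656047) (nat_lit 152) (nat_lit 38501223314) (nat_lit 7) (nat_lit 5) (nat_lit 8) (nat_lit 5) (nat_lit 9) (nat_lit 4) (nat_lit 380) (nat_lit 217) (nat_lit 183)) (XT.lf (nat_lit 0) (nat_lit 7501119877) (nat_lit 152) (nat_lit 35813896172) (nat_lit 0) (nat_lit 488303747) (nat_lit 7) (nat_lit 5) (nat_lit 9) (nat_lit 4) (nat_lit 7) (nat_lit 4) (nat_lit 381) (nat_lit 217) (nat_lit 182))) (XT.nd (nat_lit 78) (nat_lit 0) (nat_lit 0) (XT.lf (nat_lit 0) (nat_lit 10956449271) (nat_lit 152) (nat_lit 30222410273) (nat_lit 0) (nat_lit 3831024393) (nat_lit 7) (nat_lit 5) (nat_lit 9) (nat_lit 4) (nat_lit 7) (nat_lit 4) (nat_lit 382) (nat_lit 217) (nat_lit 181)) (XT.lf (nat_lit 0) (nat_lit 14472768012) (nat_lit 152) (nat_lit 24543152876) (nat_lit 0) (nat_lit 7238014252)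 (nat_lit 7) (nat_lit 5) (nat_lit 9) (nat_lit 4) (nat_lit 7) (nat_lit 4) (nat_lit 383) (nat_lit 217) (nat_lit 180)))))) (XT.nd (nat_lit 546) (nat_lit 152) (nat_lit 0) (XT.nd (nat_lit 234) (nat_lit 76) (nat_lit 0) (XT.nd (nat_lit 78) (nat_lit 0) (nat_lit 0) (XT.lf (nat_lit 0) (nat_lit 18053148612) (nat_lit 152) (nat_lit 18771161524) (nat_lit 0) (nat_lit 10712250307) (nat_lit 7) (nat_lit 5) (nat_lit 9) (nat_lit 4) (nat_lit 7) (nat_lit 4) (nat_lit 384) (nat_lit 217) (nat_lit 179)) (XT.nd (nat_lit 78) (nat_lit 0) (nat_lit 0) (XT.lf (nat_lit 0) (nat_lit 21700719559) (nat_lit 152) (nat_lit 12901392727) (nat_lit 0) (nat_lit 14256768297) (nat_lit 7) (nat_lit 5) (nat_lit 9) (nat_lit 4) (nat_lit 7) (nat_lit 4) (nat_lit 385) (nat_lit 217) (nat_lit 178)) (XT.lf (nat_lit 0) (nat_lit 25418668051) (nat_lit 152) (nat_lit 6928717563) (nat_lit 0) (nat_lit 17874665375) (nat_lit 7) (nat_lit 5) (nat_lit 9) (nat_lit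 4) (nat_lit 7) (nat_lit 4) (nat_lit 386) (nat_lit 217) (nat_lit 177)))) (XT.nd (nat_lit 156) (nat_lit 0) (nat_lit 0) (XT.nd (nat_lit 78) (nat_lit 76) (nat_lit 0) (XT.lf (nat_lit 0) (nat_lit 29210242781) (nat_lit 152) (nat_lit 847917189) (nat_lit 0) (nat_lit 21569102809) (nat_lit 7) (nat_lit 5) (nat_lit 9) (nat_lit 4) (nat_lit 7) (nat_lit 4) (nat_lit 387) (nat_lit 217) (nat_lit 176)) (XT.lf (nat_lit 0) (nat_lit 5452724000) (nat_lit 76) (nat_lit 27678447692) (nat_lit 76) (nat_lit 19942999667) (nat_lit 6) (nat_lit 4) (nat_lit 7) (nat_lit 5) (nat_lit 7) (nat_lit 4) (nat_lit 388) (nat_lit 217) (nat_lit 175))) (XT.nd (nat_lit 78) (nat_lit 0) (nat_lit 0) (XT.lf (nat_lit 0) (nat_lit 11891456745) (nat_lit 76) (nat_lit 25250441498) (nat_lit 76) (nat_lit 17423432255) (nat_lit 6) (nat_lit 4) (nat_lit 7) (nat_lit 5) (nat_lit 7) (nat_lit 4) (nat_lit 389) (nat_lit 217) (nat_lit 174)) (XT.lf (nat_lit 0) (nat_lit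 18457031906) (nat_lit 76) (nat_lit 22780582130) (nat_lit 76) (nat_lit 14864678501) (nat_lit 6) (nat_lit 4) (nat_lit 7) (nat_lit 5) (nat_lit 7) (nat_lit 4) (nat_lit 390) (nat_lit 217) (nat_lit 173))))) (XT.nd (nat_lit 234) (nat_lit 152) (nat_lit 0) (XT.nd (nat_lit 78) (nat_lit 0) (nat_lit 0) (XT.lf (nat_lit 0) (nat_lit 25155186396) (nat_lit 76) (nat_lit 20266711458) (nat_lit 76) (nat_lit 12264502600) (nat_lit 6) (nat_lit 4) (nat_lit 7) (nat_lit 5) (nat_lit 7) (nat_lit 4) (nat_lit 391) (nat_lit 217) (nat_lit 172)) (XT.nd (nat_lit 78) (nat_lit 0) (nat_lit 0) (XT.lf (nat_lit 0) (nat_lit 31991772969) (nat_lit 76) (nat_lit 17706632896) (nat_lit 76) (nat_lit 9620632554) (nat_lit 6) (nat_lit 4) (nat_lit 7) (nat_lit 5) (nat_lit 7) (nat_lit 4) (nat_lit 392) (nat_lit 217) (nat_lit 171)) (XT.lf (nat_lit 0) (nat_lit 38972765342) (nat_lit 76) (nat_lit 15098109482) (nat_lit 76) (nat_lit 6930758185) (nat_lit 6)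 (nat_lit 4) (nat_lit 7) (nat_lit 5) (nat_lit 7) (nat_lit 4) (nat_lit 393) (nat_lit 217) (nat_lit 170)))) (XT.nd (nat_lit 156) (nat_lit 152) (nat_lit 0) (XT.nd (nat_lit 78) (nat_lit 0) (nat_lit 0) (XT.lf (nat_lit 0) (nat_lit 46104263412) (nat_lit 76) (nat_lit 12438861925) (nat_lit 76) (nat_lit 4192529117) (nat_lit 6) (nat_lit 4) (nat_lit 7) (nat_lit 5) (nat_lit 7) (nat_lit 4) (nat_lit 394) (nat_lit 217) (nat_lit 169)) (XT.lf (nat_lit 0) (nat_lit 53392498584) (nat_lit 76) (nat_lit 9726566609) (nat_lit 76) (nat_lit 1403552723) (nat_lit 6) (nat_lit 4) (nat_lit 7) (nat_lit 5) (nat_lit 7) (nat_lit 4) (nat_lit 395) (nat_lit 217) (nat_lit 168))) (XT.nd (nat_lit 78) (nat_lit 76) (nat_lit 0) (XT.lf (nat_lit 0) (nat_lit 1410535542) (nat_lit 152) (nat_lit 5534074383) (nat_lit 76) (nat_lit 59419060034) (nat_lit 5) (nat_lit 5) (nat_lit 7) (nat_lit 5) (nat_lit 6) (nat_lit 4) (nat_lit 396) (nat_lit 217) (nat_lit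 167)) (XT.lf (nat_lit 0) (nat_lit 164660619) (nat_lit 76) (nat_lit 4088739096) (nat_lit 152) (nat_lit 64006966486) (nat_lit 4) (nat_lit 5) (nat_lit 5) (nat_lit 5) (nat_lit 6) (nat_lit 4) (nat_lit 397) (nat_lit 217) (nat_lit 166))))))) (XT.nd (nat_lit 36426) (nat_lit 0) (nat_lit 912) (XT.nd (nat_lit 546) (nat_lit 0) (nat_lit 0) (XT.nd (nat_lit 234) (nat_lit 0) (nat_lit 0) (XT.nd (nat_lit 78) (nat_lit 0) (nat_lit 0) (XT.lf (nat_lit 0) (nat_lit 6093827309) (nat_lit 76) (nat_lit 1114912672) (nat_lit 152) (nat_lit 63004413891) (nat_lit 4) (nat_lit 5) (nat_lit 5) (nat_lit 5) (nat_lit 6) (nat_lit 4) (nat_lit 398) (nat_lit 217) (nat_lit 165)) (XT.nd (nat_lit 78) (nat_lit 0) (nat_lit 0) (XT.lf (nat_lit 0) (nat_lit 10243373714) (nat_lit 152) (nat_lit 60095390052) (nat_lit 0) (nat_lit 1886048472) (nat_lit 4) (nat_lit 5) (nat_lit 6) (nat_lit 4) (nat_lit 4) (nat_lit 4) (nat_lit 399) (nat_lit 217) (nat_lit 164))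 (XT.lf (nat_lit 0) (nat_lit 13352810106) (nat_lit 152) (nat_lit 56013237560) (nat_lit 0) (nat_lit 4931265669) (nat_lit 4) (nat_lit 5) (nat_lit 6) (nat_lit 4) (nat_lit 4) (nat_lit 4) (nat_lit 400) (nat_lit 217) (nat_lit 163)))) (XT.nd (nat_lit 156) (nat_lit 0) (nat_lit 0) (XT.nd (nat_lit 78) (nat_lit 0) (nat_lit 0) (XT.lf (nat_lit 0) (nat_lit 16529048918) (nat_lit 152) (nat_lit 51858584934) (nat_lit 0) (nat_lit 8045155747) (nat_lit 4) (nat_lit 5) (nat_lit 6) (nat_lit 4) (nat_lit 4) (nat_lit 4) (nat_lit 401) (nat_lit 217) (nat_lit 162)) (XT.lf (nat_lit 0) (nat_lit 19774865504) (nat_lit 152) (nat_lit 47627801895) (nat_lit 0) (nat_lit 11230439583) (nat_lit 4) (nat_lit 5) (nat_lit 6) (nat_lit 4) (nat_lit 4) (nat_lit 4) (nat_lit 402) (nat_lit 217) (nat_lit 161))) (XT.nd (nat_lit 78) (nat_lit 0) (nat_lit 0) (XT.lf (nat_lit 0) (nat_lit 23093096016) (nat_lit 152) (nat_lit 43317191644) (nat_lit 0) (nat_lit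 14489900433) (nat_lit 4) (nat_lit 5) (nat_lit 6) (nat_lit 4) (nat_lit 4) (nat_lit 4) (nat_lit 403) (nat_lit 217) (nat_lit 160)) (XT.lf (nat_lit 0) (nat_lit 26486639878) (nat_lit 152) (nat_lit 38922987626) (nat_lit 0) (nat_lit 17826386371) (nat_lit 4) (nat_lit 5) (nat_lit 6) (nat_lit 4) (nat_lit 4) (nat_lit 4) (nat_lit 404) (nat_lit 217) (nat_lit 159))))) (XT.nd (nat_lit 234) (nat_lit 0) (nat_lit 0) (XT.nd (nat_lit 78) (nat_lit 0) (nat_lit 0) (XT.lf (nat_lit 0) (nat_lit 29958462321) (nat_lit 152) (nat_lit 34441350246) (nat_lit 0) (nat_lit 21242812773) (nat_lit 4) (nat_lit 5) (nat_lit 6) (nat_lit 4) (nat_lit 4) (nat_lit 4) (nat_lit 405) (nat_lit 217) (nat_lit 158)) (XT.nd (nat_lit 78) (nat_lit 0) (nat_lit 0) (XT.lf (nat_lit 0) (nat_lit 33511596979) (nat_lit 152) (nat_lit 29868363511) (nat_lit 0) (nat_lit 24742164865) (nat_lit 4) (nat_lit 5) (nat_lit 6) (nat_lit 4) (nat_lit 4) (nat_lit 4) (nat_lit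 406) (nat_lit 217) (nat_lit 157)) (XT.lf (nat_lit 0) (nat_lit 37149148530) (nat_lit 152) (nat_lit 25200031607) (nat_lit 0) (nat_lit 28327500333) (nat_lit 4) (nat_lit 5) (nat_lit 6) (nat_lit 4) (nat_lit 4) (nat_lit 4) (nat_lit 407) (nat_lit 217) (nat_lit 156)))) (XT.nd (nat_lit 156) (nat_lit 0) (nat_lit 0) (XT.nd (nat_lit 78) (nat_lit 0) (nat_lit 0) (XT.lf (nat_lit 0) (nat_lit 40874295419) (nat_lit 152) (nat_lit 20432275408) (nat_lit 0) (nat_lit 32001951996) (nat_lit 4) (nat_lit 5) (nat_lit 6) (nat_lit 4) (nat_lit 4) (nat_lit 4) (nat_lit 408) (nat_lit 217) (nat_lit 155)) (XT.lf (nat_lit 0) (nat_lit 44690292628) (nat_lit 152) (nat_lit 15560928915) (nat_lit 0) (nat_lit 35768730539) (nat_lit 4) (nat_lit 5) (nat_lit 6) (nat_lit 4) (nat_lit 4) (nat_lit 4) (nat_lit 409) (nat_lit 217) (nat_lit 154))) (XT.nd (nat_lit 78) (nat_lit 0) (nat_lit 0) (XT.lf (nat_lit 0) (nat_lit 48600474523) (nat_lit 152) (nat_lit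 10581735611) (nat_lit 0) (nat_lit 39631127321) (nat_lit 4) (nat_lit 5) (nat_lit 6) (nat_lit 4) (nat_lit 4) (nat_lit 4) (nat_lit 410) (nat_lit 217) (nat_lit 153)) (XT.lf (nat_lit 0) (nat_lit 52608257769) (nat_lit 152) (nat_lit 5490344745) (nat_lit 0) (nat_lit 43592517254) (nat_lit 4) (nat_lit 5) (nat_lit 6) (nat_lit 4) (nat_lit 4) (nat_lit 4) (nat_lit 411) (nat_lit 217) (nat_lit 152)))))) (XT.nd (nat_lit 546) (nat_lit 304) (nat_lit 0) (XT.nd (nat_lit 234) (nat_lit 304) (nat_lit 0) (XT.nd (nat_lit 78) (nat_lit 152) (nat_lit 0) (XT.lf (nat_lit 0) (nat_lit 3577709896) (nat_lit 152) (nat_lit 2596785520) (nat_lit 152) (nat_lit 2596785520) (nat_lit 26) (nat_lit 4) (nat_lit 28) (nat_lit 5) (nat_lit 28) (nat_lit 4) (nat_lit 344) (nat_lit 218) (nat_lit 218)) (XT.nd (nat_lit 78) (nat_lit 152) (nat_lit 0) (XT.lf (nat_lit 0) (nat_lit 15768825235) (nat_lit 152) (nat_lit 1273103527) (nat_lit 152) (nat_lit 883398894)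 (nat_lit 26) (nat_lit 4) (nat_lit 28) (nat_lit 5) (nat_lit 28) (nat_lit 4) (nat_lit 345) (nat_lit 218) (nat_lit 217)) (XT.lf (nat_lit 0) (nat_lit 3481319503) (nat_lit 152) (nat_lit 12101794600) (nat_lit 0) (nat_lit 2735631499) (nat_lit 24) (nat_lit 5) (nat_lit 26) (nat_lit 4) (nat_lit 24) (nat_lit 4) (nat_lit 346) (nat_lit 218) (nat_lit 216)))) (XT.nd (nat_lit 156) (nat_lit 152) (nat_lit 0) (XT.nd (nat_lit 78) (nat_lit 152) (nat_lit 0) (XT.lf (nat_lit 0) (nat_lit 7902043972) (nat_lit 152) (nat_lit 4023686791) (nat_lit 0) (nat_lit 6799721023) (nat_lit 24) (nat_lit 5) (nat_lit 26) (nat_lit 4) (nat_lit 24) (nat_lit 4) (nat_lit 347) (nat_lit 218) (nat_lit 215)) (XT.lf (nat_lit 0) (nat_lit 4219271120) (nat_lit 152) (nat_lit 8187573310) (nat_lit 152) (nat_lit 6739002842) (nat_lit 22) (nat_lit 4) (nat_lit 24) (nat_lit 5) (nat_lit 24) (nat_lit 4) (nat_lit 348) (nat_lit 218) (nat_lit 214))) (XT.nd (nat_lit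 78) (nat_lit 152) (nat_lit 0) (XT.lf (nat_lit 0) (nat_lit 12633740020) (nat_lit 152) (nat_lit 4365650243) (nat_lit 152) (nat_lit 2580917136) (nat_lit 22) (nat_lit 4) (nat_lit 24) (nat_lit 5) (nat_lit 24) (nat_lit 4) (nat_lit 349) (nat_lit 218) (nat_lit 213)) (XT.lf (nat_lit 0) (nat_lit 1122998283) (nat_lit 76) (nat_lit 470155847) (nat_lit 152) (nat_lit 18436451855) (nat_lit 20) (nat_lit 5) (nat_lit 21) (nat_lit 5) (nat_lit 22) (nat_lit 4) (nat_lit 350) (nat_lit 218) (nat_lit 212))))) (XT.nd (nat_lit 234) (nat_lit 152) (nat_lit 0) (XT.nd (nat_lit 78) (nat_lit 152) (nat_lit 0) (XT.lf (nat_lit 0) (nat_lit 5859499730) (nat_lit 152) (nat_lit 11129330432) (nat_lit 0) (nat_lit 3502247176) (nat_lit 20) (nat_lit 5) (nat_lit 22) (nat_lit 4) (nat_lit 20) (nat_lit 4) (nat_lit 351) (nat_lit 218) (nat_lit 211)) (XT.nd (nat_lit 78) (nat_lit 152) (nat_lit 0) (XT.lf (nat_lit 0) (nat_lit 10175029558) (nat_lit 152)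 (nat_lit 3274653990) (nat_lit 0) (nat_lit 7519100853) (nat_lit 20) (nat_lit 5) (nat_lit 22) (nat_lit 4) (nat_lit 20) (nat_lit 4) (nat_lit 352) (nat_lit 218) (nat_lit 210)) (XT.lf (nat_lit 0) (nat_lit 4761722721) (nat_lit 152) (nat_lit 9823044908) (nat_lit 152) (nat_lit 6877139358) (nat_lit 18) (nat_lit 4) (nat_lit 20) (nat_lit 5) (nat_lit 20) (nat_lit 4) (nat_lit 353) (nat_lit 218) (nat_lit 209)))) (XT.nd (nat_lit 156) (nat_lit 76) (nat_lit 0) (XT.nd (nat_lit 78) (nat_lit 76) (nat_lit 0) (XT.lf (nat_lit 0) (nat_lit 12960899332) (nat_lit 152) (nat_lit 6118898105) (nat_lit 152) (nat_lit 2891461636) (nat_lit 18) (nat_lit 4) (nat_lit 20) (nat_lit 5) (nat_lit 20) (nat_lit 4) (nat_lit 354) (nat_lit 218) (nat_lit 208)) (XT.lf (nat_lit 0) (nat_lit 1111570926) (nat_lit 228) (nat_lit 1244278475) (nat_lit 76) (nat_lit 20142072524) (nat_lit 17) (nat_lit 5) (nat_lit 20) (nat_lit 5) (nat_lit 18) (nat_lit 4)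 (nat_lit 355) (nat_lit 218) (nat_lit 207))) (XT.nd (nat_lit 78) (nat_lit 0) (nat_lit 0) (XT.lf (nat_lit 0) (nat_lit 5179855270) (nat_lit 152) (nat_lit 16336184632) (nat_lit 0) (nat_lit 1523411242) (nat_lit 16) (nat_lit 5) (nat_lit 18) (nat_lit 4) (nat_lit 16) (nat_lit 4) (nat_lit 356) (nat_lit 218) (nat_lit 206)) (XT.lf (nat_lit 0) (nat_lit 9330265878) (nat_lit 152) (nat_lit 8844495685) (nat_lit 0) (nat_lit 5423685275) (nat_lit 16) (nat_lit 5) (nat_lit 18) (nat_lit 4) (nat_lit 16) (nat_lit 4) (nat_lit 357) (nat_lit 218) (nat_lit 205))))))))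
noncomputable def xc21 : XT := (XT.nd (nat_lit 2184) (nat_lit 228) (nat_lit 0) (XT.nd (nat_lit 1092) (nat_lit 228) (nat_lit 0) (XT.nd (nat_lit 546) (nat_lit 228) (nat_lit 0) (XT.nd (nat_lit 234) (nat_lit 152) (nat_lit 0) (XT.nd (nat_lit 78) (nat_lit 76) (nat_lit 0) (XT.lf (nat_lit 0) (nat_lit 13531463867) (nat_lit 152) (nat_lit 1262950327) (nat_lit 0) (nat_lit 9382032221) (nat_lit 16) (nat_lit 5) (nat_lit 18) (nat_lit 4) (nat_lit 16) (nat_lit 4) (nat_lit 358) (nat_lit 218) (nat_lit 204)) (XT.nd (nat_lit 78) (nat_lit 0) (nat_lit 0) (XT.lf (nat_lit 0) (nat_lit 6542748687) (nat_lit 76) (nat_lit 11307264403) (nat_lit 76) (nat_lit 6922055046) (nat_lit 15) (nat_lit 4) (nat_lit 16) (nat_lit 5) (nat_lit 16) (nat_lit 4) (nat_lit 359) (nat_lit 218) (nat_lit 203)) (XT.lf (nat_lit 0) (nat_lit 14478826592) (nat_lit 76) (nat_lit 7761306121) (nat_lit 76) (nat_lit 3147186364) (nat_lit 15) (nat_lit 4) (nat_lit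 16) (nat_lit 5) (nat_lit 16) (nat_lit 4) (nat_lit 360) (nat_lit 218) (nat_lit 202)))) (XT.nd (nat_lit 156) (nat_lit 0) (nat_lit 0) (XT.nd (nat_lit 78) (nat_lit 76) (nat_lit 0) (XT.lf (nat_lit 0) (nat_lit 657091200) (nat_lit 152) (nat_lit 3502467726) (nat_lit 76) (nat_lit 21863356103) (nat_lit 14) (nat_lit 5) (nat_lit 16) (nat_lit 5) (nat_lit 15) (nat_lit 4) (nat_lit 361) (nat_lit 218) (nat_lit 201)) (XT.lf (nat_lit 0) (nat_lit 4050010963) (nat_lit 76) (nat_lit 433803732) (nat_lit 152) (nat_lit 22193701375) (nat_lit 13) (nat_lit 5) (nat_lit 14) (nat_lit 5) (nat_lit 15) (nat_lit 4) (nat_lit 362) (nat_lit 218) (nat_lit 200))) (XT.nd (nat_lit 78) (nat_lit 0) (nat_lit 0) (XT.lf (nat_lit 0) (nat_lit 8426667510) (nat_lit 152) (nat_lit 15606766234) (nat_lit 0) (nat_lit 3318300215) (nat_lit 13) (nat_lit 5) (nat_lit 15) (nat_lit 4) (nat_lit 13) (nat_lit 4) (nat_lit 363) (nat_lit 218) (nat_lit 199)) (XT.lf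 (nat_lit 0) (nat_lit 12426946333) (nat_lit 152) (nat_lit 8499957024) (nat_lit 0) (nat_lit 7121118917) (nat_lit 13) (nat_lit 5) (nat_lit 15) (nat_lit 4) (nat_lit 13) (nat_lit 4) (nat_lit 364) (nat_lit 218) (nat_lit 198))))) (XT.nd (nat_lit 234) (nat_lit 152) (nat_lit 0) (XT.nd (nat_lit 78) (nat_lit 76) (nat_lit 0) (XT.lf (nat_lit 0) (nat_lit 16483976569) (nat_lit 152) (nat_lit 1296697657) (nat_lit 0) (nat_lit 10986440297) (nat_lit 13) (nat_lit 5) (nat_lit 15) (nat_lit 4) (nat_lit 13) (nat_lit 4) (nat_lit 365) (nat_lit 218) (nat_lit 197)) (XT.nd (nat_lit 78) (nat_lit 0) (nat_lit 0) (XT.lf (nat_lit 0) (nat_lit 6128902947) (nat_lit 76) (nat_lit 14531315012) (nat_lit 76) (nat_lit 8847653637) (nat_lit 12) (nat_lit 4) (nat_lit 13) (nat_lit 5) (nat_lit 13) (nat_lit 4) (nat_lit 366) (nat_lit 218) (nat_lit 196)) (XT.lf (nat_lit 0) (nat_lit 13691610397) (nat_lit 76) (nat_lit 11222525613) (nat_lit 76) (nat_lit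 5358160255) (nat_lit 12) (nat_lit 4) (nat_lit 13) (nat_lit 5) (nat_lit 13) (nat_lit 4) (nat_lit 367) (nat_lit 218) (nat_lit 195)))) (XT.nd (nat_lit 156) (nat_lit 76) (nat_lit 0) (XT.nd (nat_lit 78) (nat_lit 76) (nat_lit 0) (XT.lf (nat_lit 0) (nat_lit 21372226056) (nat_lit 76) (nat_lit 7864508959) (nat_lit 76) (nat_lit 1824702840) (nat_lit 12) (nat_lit 4) (nat_lit 13) (nat_lit 5) (nat_lit 13) (nat_lit 4) (nat_lit 368) (nat_lit 218) (nat_lit 194)) (XT.lf (nat_lit 0) (nat_lit 1721543992) (nat_lit 152) (nat_lit 2715402650) (nat_lit 76) (nat_lit 27438532930) (nat_lit 11) (nat_lit 5) (nat_lit 13) (nat_lit 5) (nat_lit 12) (nat_lit 4) (nat_lit 369) (nat_lit 218) (nat_lit 193))) (XT.nd (nat_lit 78) (nat_lit 0) (nat_lit 0) (XT.lf (nat_lit 0) (nat_lit 4432193364) (nat_lit 76) (nat_lit 891796814) (nat_lit 152) (nat_lit 27389830490) (nat_lit 10) (nat_lit 5) (nat_lit 11) (nat_lit 5) (nat_lit 12) (nat_lit 4)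 (nat_lit 370) (nat_lit 218) (nat_lit 192)) (XT.lf (nat_lit 0) (nat_lit 9032801990) (nat_lit 152) (nat_lit 21857462712) (nat_lit 0) (nat_lit 2687112818) (nat_lit 10) (nat_lit 5) (nat_lit 12) (nat_lit 4) (nat_lit 10) (nat_lit 4) (nat_lit 371) (nat_lit 218) (nat_lit 191)))))) (XT.nd (nat_lit 546) (nat_lit 152) (nat_lit 0) (XT.nd (nat_lit 234) (nat_lit 76) (nat_lit 0) (XT.nd (nat_lit 78) (nat_lit 0) (nat_lit 0) (XT.lf (nat_lit 0) (nat_lit 12807409297) (nat_lit 152) (nat_lit 15350426337) (nat_lit 0) (nat_lit 6310383384) (nat_lit 10) (nat_lit 5) (nat_lit 12) (nat_lit 4) (nat_lit 10) (nat_lit 4) (nat_lit 372) (nat_lit 218) (nat_lit 190)) (XT.nd (nat_lit 78) (nat_lit 0) (nat_lit 0) (XT.lf (nat_lit 0) (nat_lit 16642537803) (nat_lit 152) (nat_lit 8746259924) (nat_lit 0) (nat_lit 9998583015) (nat_lit 10) (nat_lit 5) (nat_lit 12) (nat_lit 4) (nat_lit 10) (nat_lit 4) (nat_lit 373) (nat_lit 218) (nat_lit 189))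 (XT.lf (nat_lit 0) (nat_lit 20541538590) (nat_lit 152) (nat_lit 2039192842) (nat_lit 0) (nat_lit 13754934409) (nat_lit 10) (nat_lit 5) (nat_lit 12) (nat_lit 4) (nat_lit 10) (nat_lit 4) (nat_lit 374) (nat_lit 218) (nat_lit 188)))) (XT.nd (nat_lit 156) (nat_lit 0) (nat_lit 0) (XT.nd (nat_lit 78) (nat_lit 0) (nat_lit 0) (XT.lf (nat_lit 0) (nat_lit 4871699864) (nat_lit 76) (nat_lit 19682948449) (nat_lit 76) (nat_lit 12757849711) (nat_lit 9) (nat_lit 4) (nat_lit 10) (nat_lit 5) (nat_lit 10) (nat_lit 4) (nat_lit 375) (nat_lit 218) (nat_lit 187)) (XT.lf (nat_lit 0) (nat_lit 11940176387) (nat_lit 76) (nat_lit 16719443267) (nat_lit 76) (nat_lit 9659883795) (nat_lit 9) (nat_lit 4) (nat_lit 10) (nat_lit 5) (nat_lit 10) (nat_lit 4) (nat_lit 376) (nat_lit 218) (nat_lit 186))) (XT.nd (nat_lit 78) (nat_lit 0) (nat_lit 0) (XT.lf (nat_lit 0) (nat_lit 19131829129) (nat_lit 76) (nat_lit 13708218266) (nat_lit 76)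 (nat_lit 6518114392) (nat_lit 9) (nat_lit 4) (nat_lit 10) (nat_lit 5) (nat_lit 10) (nat_lit 4) (nat_lit 377) (nat_lit 218) (nat_lit 185)) (XT.lf (nat_lit 0) (nat_lit 26452942059) (nat_lit 76) (nat_lit 10646642279) (nat_lit 76) (nat_lit 3329796266) (nat_lit 9) (nat_lit 4) (nat_lit 10) (nat_lit 5) (nat_lit 10) (nat_lit 4) (nat_lit 378) (nat_lit 218) (nat_lit 184))))) (XT.nd (nat_lit 234) (nat_lit 0) (nat_lit 0) (XT.nd (nat_lit 78) (nat_lit 152) (nat_lit 0) (XT.lf (nat_lit 0) (nat_lit 33909912266) (nat_lit 76) (nat_lit 7532040141) (nat_lit 76) (nat_lit 92143509) (nat_lit 9) (nat_lit 4) (nat_lit 10) (nat_lit 5) (nat_lit 10) (nat_lit 4) (nat_lit 379) (nat_lit 218) (nat_lit 183)) (XT.nd (nat_lit 78) (nat_lit 76) (nat_lit 0) (XT.lf (nat_lit 0) (nat_lit 3135274780) (nat_lit 152) (nat_lit 1194755448) (nat_lit 76) (nat_lit 38342320639) (nat_lit 8) (nat_lit 5) (nat_lit 10) (nat_lit 5) (nat_lit 9) (nat_lit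 4) (nat_lit 380) (nat_lit 218) (nat_lit 182)) (XT.lf (nat_lit 0) (nat_lit 5453226137) (nat_lit 76) (nat_lit 1014052877) (nat_lit 152) (nat_lit 37377168946) (nat_lit 7) (nat_lit 5) (nat_lit 8) (nat_lit 5) (nat_lit 9) (nat_lit 4) (nat_lit 381) (nat_lit 218) (nat_lit 181)))) (XT.nd (nat_lit 156) (nat_lit 0) (nat_lit 0) (XT.nd (nat_lit 78) (nat_lit 0) (nat_lit 0) (XT.lf (nat_lit 0) (nat_lit 9891840745) (nat_lit 152) (nat_lit 32829383834) (nat_lit 0) (nat_lit 2330715490) (nat_lit 7) (nat_lit 5) (nat_lit 9) (nat_lit 4) (nat_lit 7) (nat_lit 4) (nat_lit 382) (nat_lit 218) (nat_lit 180)) (XT.lf (nat_lit 0) (nat_lit 13387751750) (nat_lit 152) (nat_lit 27188374597) (nat_lit 0) (nat_lit 5720481950) (nat_lit 7) (nat_lit 5) (nat_lit 9) (nat_lit 4) (nat_lit 7) (nat_lit 4) (nat_lit 383) (nat_lit 218) (nat_lit 179))) (XT.nd (nat_lit 78) (nat_lit 0) (nat_lit 0) (XT.lf (nat_lit 0) (nat_lit 16948319015) (nat_lit 152)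 (nat_lit 21453517381) (nat_lit 0) (nat_lit 9177996258) (nat_lit 7) (nat_lit 5) (nat_lit 9) (nat_lit 4) (nat_lit 7) (nat_lit 4) (nat_lit 384) (nat_lit 218) (nat_lit 178)) (XT.lf (nat_lit 0) (nat_lit 20576653714) (nat_lit 152) (nat_lit 15619801145) (nat_lit 0) (nat_lit 12706279543) (nat_lit 7) (nat_lit 5) (nat_lit 9) (nat_lit 4) (nat_lit 7) (nat_lit 4) (nat_lit 385) (nat_lit 218) (nat_lit 177))))))) (XT.nd (nat_lit 1092) (nat_lit 0) (nat_lit 0) (XT.nd (nat_lit 546) (nat_lit 152) (nat_lit 0) (XT.nd (nat_lit 234) (nat_lit 0) (nat_lit 0) (XT.nd (nat_lit 78) (nat_lit 76) (nat_lit 0) (XT.lf (nat_lit 0) (nat_lit 24275926237) (nat_lit 152) (nat_lit 9682128466) (nat_lit 0) (nat_lit 16308414770) (nat_lit 7) (nat_lit 5) (nat_lit 9) (nat_lit 4) (nat_lit 7) (nat_lit 4) (nat_lit 386) (nat_lit 218) (nat_lit 176)) (XT.nd (nat_lit 78) (nat_lit 76) (nat_lit 0) (XT.lf (nat_lit 0) (nat_lit 28049368957) (nat_lit 152)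 (nat_lit 3635311087) (nat_lit 0) (nat_lit 19987549437) (nat_lit 7) (nat_lit 5) (nat_lit 9) (nat_lit 4) (nat_lit 7) (nat_lit 4) (nat_lit 387) (nat_lit 218) (nat_lit 175)) (XT.lf (nat_lit 0) (nat_lit 2576205670) (nat_lit 76) (nat_lit 29348837453) (nat_lit 76) (nat_lit 21195456716) (nat_lit 6) (nat_lit 4) (nat_lit 7) (nat_lit 5) (nat_lit 7) (nat_lit 4) (nat_lit 388) (nat_lit 218) (nat_lit 174)))) (XT.nd (nat_lit 156) (nat_lit 0) (nat_lit 0) (XT.nd (nat_lit 78) (nat_lit 0) (nat_lit 0) (XT.lf (nat_lit 0) (nat_lit 8982268678) (nat_lit 76) (nat_lit 26936095797) (nat_lit 76) (nat_lit 18693820673) (nat_lit 6) (nat_lit 4) (nat_lit 7) (nat_lit 5) (nat_lit 7) (nat_lit 4) (nat_lit 389) (nat_lit 218) (nat_lit 173)) (XT.lf (nat_lit 0) (nat_lit 15516125649) (nat_lit 76) (nat_lit 24481056368) (nat_lit 76) (nat_lit 16152476016) (nat_lit 6) (nat_lit 4) (nat_lit 7) (nat_lit 5) (nat_lit 7) (nat_lit 4) (nat_lit 390)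 (nat_lit 218) (nat_lit 172))) (XT.nd (nat_lit 78) (nat_lit 0) (nat_lit 0) (XT.lf (nat_lit 0) (nat_lit 22183485778) (nat_lit 76) (nat_lit 21981573987) (nat_lit 76) (nat_lit 13569202150) (nat_lit 6) (nat_lit 4) (nat_lit 7) (nat_lit 5) (nat_lit 7) (nat_lit 4) (nat_lit 391) (nat_lit 218) (nat_lit 171)) (XT.lf (nat_lit 0) (nat_lit 28990174914) (nat_lit 76) (nat_lit 19435464639) (nat_lit 76) (nat_lit 10941741847) (nat_lit 6) (nat_lit 4) (nat_lit 7) (nat_lit 5) (nat_lit 7) (nat_lit 4) (nat_lit 392) (nat_lit 218) (nat_lit 170))))) (XT.nd (nat_lit 234) (nat_lit 152) (nat_lit 0) (XT.nd (nat_lit 78) (nat_lit 0) (nat_lit 0) (XT.lf (nat_lit 0) (nat_lit 35942140649) (nat_lit 76) (nat_lit 16840503570) (nat_lit 76) (nat_lit 8267799267) (nat_lit 6) (nat_lit 4) (nat_lit 7) (nat_lit 5) (nat_lit 7) (nat_lit 4) (nat_lit 393) (nat_lit 218) (nat_lit 169)) (XT.nd (nat_lit 78) (nat_lit 0) (nat_lit 0) (XT.lf (nat_lit 0)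 (nat_lit 43045457517) (nat_lit 76) (nat_lit 14194423337) (nat_lit 76) (nat_lit 5545037956) (nat_lit 6) (nat_lit 4) (nat_lit 7) (nat_lit 5) (nat_lit 7) (nat_lit 4) (nat_lit 394) (nat_lit 218) (nat_lit 168)) (XT.lf (nat_lit 0) (nat_lit 50306332300) (nat_lit 76) (nat_lit 11494911832) (nat_lit 76) (nat_lit 2771078802) (nat_lit 6) (nat_lit 4) (nat_lit 7) (nat_lit 5) (nat_lit 7) (nat_lit 4) (nat_lit 395) (nat_lit 218) (nat_lit 167)))) (XT.nd (nat_lit 156) (nat_lit 76) (nat_lit 0) (XT.nd (nat_lit 78) (nat_lit 0) (nat_lit 0) (XT.lf (nat_lit 0) (nat_lit 55399483) (nat_lit 152) (nat_lit 8683651347) (nat_lit 76) (nat_lit 57675150540) (nat_lit 5) (nat_lit 5) (nat_lit 7) (nat_lit 5) (nat_lit 6) (nat_lit 4) (nat_lit 396) (nat_lit 218) (nat_lit 166)) (XT.lf (nat_lit 0) (nat_lit 2882801869) (nat_lit 152) (nat_lit 3014198552) (nat_lit 76) (nat_lit 62414364121) (nat_lit 5) (nat_lit 5) (nat_lit 7) (nat_lit 5) (nat_lit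 6) (nat_lit 4) (nat_lit 397) (nat_lit 218) (nat_lit 165))) (XT.nd (nat_lit 78) (nat_lit 0) (nat_lit 0) (XT.lf (nat_lit 0) (nat_lit 2829166167) (nat_lit 76) (nat_lit 2965702138) (nat_lit 152) (nat_lit 64470585111) (nat_lit 4) (nat_lit 5) (nat_lit 5) (nat_lit 5) (nat_lit 6) (nat_lit 4) (nat_lit 398) (nat_lit 218) (nat_lit 164)) (XT.lf (nat_lit 0) (nat_lit 8798275111) (nat_lit 152) (nat_lit 63419911234) (nat_lit 0) (nat_lit 59865145) (nat_lit 4) (nat_lit 5) (nat_lit 6) (nat_lit 4) (nat_lit 4) (nat_lit 4) (nat_lit 399) (nat_lit 218) (nat_lit 163)))))) (XT.nd (nat_lit 546) (nat_lit 0) (nat_lit 0) (XT.nd (nat_lit 234) (nat_lit 0) (nat_lit 0) (XT.nd (nat_lit 78) (nat_lit 0) (nat_lit 0) (XT.lf (nat_lit 0) (nat_lit 11894666837) (nat_lit 152) (nat_lit 59362371767) (nat_lit 0) (nat_lit 3093908138) (nat_lit 4) (nat_lit 5) (nat_lit 6) (nat_lit 4) (nat_lit 4) (nat_lit 4) (nat_lit 400) (nat_lit 218) (nat_lit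 162)) (XT.nd (nat_lit 78) (nat_lit 0) (nat_lit 0) (XT.lf (nat_lit 0) (nat_lit 15058240925) (nat_lit 152) (nat_lit 55231615282) (nat_lit 0) (nat_lit 6196949475) (nat_lit 4) (nat_lit 5) (nat_lit 6) (nat_lit 4) (nat_lit 4) (nat_lit 4) (nat_lit 401) (nat_lit 218) (nat_lit 161)) (XT.lf (nat_lit 0) (nat_lit 18291761663) (nat_lit 152) (nat_lit 51024032380) (nat_lit 0) (nat_lit 9371700552) (nat_lit 4) (nat_lit 5) (nat_lit 6) (nat_lit 4) (nat_lit 4) (nat_lit 4) (nat_lit 402) (nat_lit 218) (nat_lit 160)))) (XT.nd (nat_lit 156) (nat_lit 0) (nat_lit 0) (XT.nd (nat_lit 78) (nat_lit 0) (nat_lit 0) (XT.lf (nat_lit 0) (nat_lit 21598054458) (nat_lit 152) (nat_lit 46735946533) (nat_lit 0) (nat_lit 12620935423) (nat_lit 4) (nat_lit 5) (nat_lit 6) (nat_lit 4) (nat_lit 4) (nat_lit 4) (nat_lit 403) (nat_lit 218) (nat_lit 159)) (XT.lf (nat_lit 0) (nat_lit 24980008303) (nat_lit 152) (nat_lit 42363610869) (nat_lit 0) (nat_lit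 15947493226) (nat_lit 4) (nat_lit 5) (nat_lit 6) (nat_lit 4) (nat_lit 4) (nat_lit 4) (nat_lit 404) (nat_lit 218) (nat_lit 158))) (XT.nd (nat_lit 78) (nat_lit 0) (nat_lit 0) (XT.lf (nat_lit 0) (nat_lit 28440578304) (nat_lit 152) (nat_lit 37903204901) (nat_lit 0) (nat_lit 19354280661) (nat_lit 4) (nat_lit 5) (nat_lit 6) (nat_lit 4) (nat_lit 4) (nat_lit 4) (nat_lit 405) (nat_lit 218) (nat_lit 157)) (XT.lf (nat_lit 0) (nat_lit 31982788259) (nat_lit 152) (nat_lit 33350831187) (nat_lit 0) (nat_lit 22844274533) (nat_lit 4) (nat_lit 5) (nat_lit 6) (nat_lit 4) (nat_lit 4) (nat_lit 4) (nat_lit 406) (nat_lit 218) (nat_lit 156))))) (XT.nd (nat_lit 234) (nat_lit 0) (nat_lit 0) (XT.nd (nat_lit 78) (nat_lit 0) (nat_lit 0) (XT.lf (nat_lit 0) (nat_lit 35609733303) (nat_lit 152) (nat_lit 28702511925) (nat_lit 0) (nat_lit 26420524351) (nat_lit 4) (nat_lit 5) (nat_lit 6) (nat_lit 4) (nat_lit 4) (nat_lit 4) (nat_lit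 407) (nat_lit 218) (nat_lit 155)) (XT.nd (nat_lit 78) (nat_lit 0) (nat_lit 0) (XT.lf (nat_lit 0) (nat_lit 39324582612) (nat_lit 152) (nat_lit 23954185476) (nat_lit 0) (nat_lit 30086154994) (nat_lit 4) (nat_lit 5) (nat_lit 6) (nat_lit 4) (nat_lit 4) (nat_lit 4) (nat_lit 408) (nat_lit 218) (nat_lit 154)) (XT.lf (nat_lit 0) (nat_lit 43130582171) (nat_lit 152) (nat_lit 19101702817) (nat_lit 0) (nat_lit 33844369441) (nat_lit 4) (nat_lit 5) (nat_lit 6) (nat_lit 4) (nat_lit 4) (nat_lit 4) (nat_lit 409) (nat_lit 218) (nat_lit 153)))) (XT.nd (nat_lit 35334) (nat_lit 0) (nat_lit 1824) (XT.nd (nat_lit 78) (nat_lit 0) (nat_lit 0) (XT.lf (nat_lit 0) (nat_lit 47031057610) (nat_lit 152) (nat_lit 14140823915) (nat_lit 0) (nat_lit 37698451566) (nat_lit 4) (nat_lit 5) (nat_lit 6) (nat_lit 4) (nat_lit 4) (nat_lit 4) (nat_lit 410) (nat_lit 218) (nat_lit 152)) (XT.lf (nat_lit 0) (nat_lit 51029417112) (nat_lit 152)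 (nat_lit 9067214022) (nat_lit 0) (nat_lit 41651769016) (nat_lit 4) (nat_lit 5) (nat_lit 6) (nat_lit 4) (nat_lit 4) (nat_lit 4) (nat_lit 411) (nat_lit 218) (nat_lit 151))) (XT.nd (nat_lit 78) (nat_lit 0) (nat_lit 0) (XT.lf (nat_lit 0) (nat_lit 1818950180) (nat_lit 152) (nat_lit 4769208571) (nat_lit 0) (nat_lit 1818950180) (nat_lit 28) (nat_lit 5) (nat_lit 30) (nat_lit 4) (nat_lit 28) (nat_lit 4) (nat_lit 342) (nat_lit 219) (nat_lit 219)) (XT.lf (nat_lit 0) (nat_lit 8116023752) (nat_lit 152) (nat_lit 1342670939) (nat_lit 0) (nat_lit 7714627980) (nat_lit 28) (nat_lit 5) (nat_lit 30) (nat_lit 4) (nat_lit 28) (nat_lit 4) (nat_lit 343) (nat_lit 219) (nat_lit 218))))))))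
noncomputable def xc22 : XT := (XT.nd (nat_lit 2106) (nat_lit 380) (nat_lit 0) (XT.nd (nat_lit 1014) (nat_lit 456) (nat_lit 0) (XT.nd (nat_lit 468) (nat_lit 456) (nat_lit 0) (XT.nd (nat_lit 234) (nat_lit 152) (nat_lit 0) (XT.nd (nat_lit 78) (nat_lit 152) (nat_lit 0) (XT.lf (nat_lit 0) (nat_lit 7073079176) (nat_lit 152) (nat_lit 5630995037) (nat_lit 152) (nat_lit 4839894633) (nat_lit 26) (nat_lit 4) (nat_lit 28) (nat_lit 5) (nat_lit 28) (nat_lit 4) (nat_lit 344) (nat_lit 219) (nat_lit 217)) (XT.nd (nat_lit 78) (nat_lit 152) (nat_lit 0) (XT.lf (nat_lit 0) (nat_lit 15606542273) (nat_lit 152) (nat_lit 1745506381) (nat_lit 152) (nat_lit 576051965) (nat_lit 26) (nat_lit 4) (nat_lit 28) (nat_lit 5) (nat_lit 28) (nat_lit 4) (nat_lit 345) (nat_lit 219) (nat_lit 216)) (XT.lf (nat_lit 0) (nat_lit 3731283361) (nat_lit 152) (nat_lit 12352448466) (nat_lit 0) (nat_lit 2239255780) (nat_lit 24) (nat_lit 5) (nat_lit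 26) (nat_lit 4) (nat_lit 24) (nat_lit 4) (nat_lit 346) (nat_lit 219) (nat_lit 215)))) (XT.nd (nat_lit 78) (nat_lit 152) (nat_lit 0) (XT.lf (nat_lit 0) (nat_lit 8108114254) (nat_lit 152) (nat_lit 4353072829) (nat_lit 0) (nat_lit 6269839154) (nat_lit 24) (nat_lit 5) (nat_lit 26) (nat_lit 4) (nat_lit 24) (nat_lit 4) (nat_lit 347) (nat_lit 219) (nat_lit 214)) (XT.nd (nat_lit 78) (nat_lit 0) (nat_lit 0) (XT.lf (nat_lit 0) (nat_lit 3805369367) (nat_lit 152) (nat_lit 8760951545) (nat_lit 152) (nat_lit 6586513806) (nat_lit 22) (nat_lit 4) (nat_lit 24) (nat_lit 5) (nat_lit 24) (nat_lit 4) (nat_lit 348) (nat_lit 219) (nat_lit 213)) (XT.lf (nat_lit 0) (nat_lit 12144148668) (nat_lit 152) (nat_lit 4972616598) (nat_lit 152) (nat_lit 2471807363) (nat_lit 22) (nat_lit 4) (nat_lit 24) (nat_lit 5) (nat_lit 24) (nat_lit 4) (nat_lit 349) (nat_lit 219) (nat_lit 212))))) (XT.nd (nat_lit 234) (nat_lit 304) (nat_lit 0)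 (XT.nd (nat_lit 78) (nat_lit 0) (nat_lit 0) (XT.lf (nat_lit 0) (nat_lit 538363775) (nat_lit 76) (nat_lit 1114857179) (nat_lit 152) (nat_lit 18386040103) (nat_lit 20) (nat_lit 5) (nat_lit 21) (nat_lit 5) (nat_lit 22) (nat_lit 4) (nat_lit 350) (nat_lit 219) (nat_lit 211)) (XT.nd (nat_lit 78) (nat_lit 0) (nat_lit 0) (XT.lf (nat_lit 0) (nat_lit 5872255424) (nat_lit 152) (nat_lit 11791937102) (nat_lit 0) (nat_lit 2837972707) (nat_lit 20) (nat_lit 5) (nat_lit 22) (nat_lit 4) (nat_lit 20) (nat_lit 4) (nat_lit 351) (nat_lit 219) (nat_lit 210)) (XT.lf (nat_lit 0) (nat_lit 10147868876) (nat_lit 152) (nat_lit 4009604692) (nat_lit 0) (nat_lit 6823609313) (nat_lit 20) (nat_lit 5) (nat_lit 22) (nat_lit 4) (nat_lit 20) (nat_lit 4) (nat_lit 352) (nat_lit 219) (nat_lit 209)))) (XT.nd (nat_lit 156) (nat_lit 152) (nat_lit 0) (XT.nd (nat_lit 78) (nat_lit 0) (nat_lit 0) (XT.lf (nat_lit 0) (nat_lit 3940510281) (nat_lit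 152) (nat_lit 10570448908) (nat_lit 152) (nat_lit 6964658427) (nat_lit 18) (nat_lit 4) (nat_lit 20) (nat_lit 5) (nat_lit 20) (nat_lit 4) (nat_lit 353) (nat_lit 219) (nat_lit 208)) (XT.lf (nat_lit 0) (nat_lit 12070138565) (nat_lit 152) (nat_lit 6897556878) (nat_lit 152) (nat_lit 3018435409) (nat_lit 18) (nat_lit 4) (nat_lit 20) (nat_lit 5) (nat_lit 20) (nat_lit 4) (nat_lit 354) (nat_lit 219) (nat_lit 207))) (XT.nd (nat_lit 78) (nat_lit 76) (nat_lit 0) (XT.lf (nat_lit 0) (nat_lit 949516811) (nat_lit 228) (nat_lit 2216972234) (nat_lit 76) (nat_lit 19347479653) (nat_lit 17) (nat_lit 5) (nat_lit 20) (nat_lit 5) (nat_lit 18) (nat_lit 4) (nat_lit 355) (nat_lit 219) (nat_lit 206)) (XT.lf (nat_lit 0) (nat_lit 4962970925) (nat_lit 152) (nat_lit 17405126864) (nat_lit 0) (nat_lit 689056330) (nat_lit 16) (nat_lit 5) (nat_lit 18) (nat_lit 4) (nat_lit 16) (nat_lit 4) (nat_lit 356) (nat_lit 219) (nat_lit 205))))))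 (XT.nd (nat_lit 546) (nat_lit 228) (nat_lit 0) (XT.nd (nat_lit 234) (nat_lit 152) (nat_lit 0) (XT.nd (nat_lit 78) (nat_lit 76) (nat_lit 0) (XT.lf (nat_lit 0) (nat_lit 9077063830) (nat_lit 152) (nat_lit 9979888291) (nat_lit 0) (nat_lit 4560298192) (nat_lit 16) (nat_lit 5) (nat_lit 18) (nat_lit 4) (nat_lit 16) (nat_lit 4) (nat_lit 357) (nat_lit 219) (nat_lit 204)) (XT.nd (nat_lit 78) (nat_lit 76) (nat_lit 0) (XT.lf (nat_lit 0) (nat_lit 13243001914) (nat_lit 152) (nat_lit 2462857857) (nat_lit 0) (nat_lit 8490458564) (nat_lit 16) (nat_lit 5) (nat_lit 18) (nat_lit 4) (nat_lit 16) (nat_lit 4) (nat_lit 358) (nat_lit 219) (nat_lit 203)) (XT.lf (nat_lit 0) (nat_lit 5255078219) (nat_lit 76) (nat_lit 12259862124) (nat_lit 76) (nat_lit 7278408375) (nat_lit 15) (nat_lit 4) (nat_lit 16) (nat_lit 5) (nat_lit 16) (nat_lit 4) (nat_lit 359) (nat_lit 219) (nat_lit 202)))) (XT.nd (nat_lit 156) (nat_lit 76) (nat_lit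 0) (XT.nd (nat_lit 78) (nat_lit 76) (nat_lit 0) (XT.lf (nat_lit 0) (nat_lit 13129134351) (nat_lit 76) (nat_lit 8742093581) (nat_lit 76) (nat_lit 3538396724) (nat_lit 15) (nat_lit 4) (nat_lit 16) (nat_lit 5) (nat_lit 16) (nat_lit 4) (nat_lit 360) (nat_lit 219) (nat_lit 201)) (XT.lf (nat_lit 0) (nat_lit 240333359) (nat_lit 152) (nat_lit 4931590142) (nat_lit 76) (nat_lit 20874414827) (nat_lit 14) (nat_lit 5) (nat_lit 16) (nat_lit 5) (nat_lit 15) (nat_lit 4) (nat_lit 361) (nat_lit 219) (nat_lit 200))) (XT.nd (nat_lit 78) (nat_lit 0) (nat_lit 0) (XT.lf (nat_lit 0) (nat_lit 2532157974) (nat_lit 76) (nat_lit 1488093395) (nat_lit 152) (nat_lit 22682101350) (nat_lit 13) (nat_lit 5) (nat_lit 14) (nat_lit 5) (nat_lit 15) (nat_lit 4) (nat_lit 362) (nat_lit 219) (nat_lit 199)) (XT.lf (nat_lit 0) (nat_lit 7920873814) (nat_lit 152) (nat_lit 17198561170) (nat_lit 0) (nat_lit 2258411453) (nat_lit 13) (nat_lit 5)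 (nat_lit 15) (nat_lit 4) (nat_lit 13) (nat_lit 4) (nat_lit 363) (nat_lit 219) (nat_lit 198))))) (XT.nd (nat_lit 234) (nat_lit 152) (nat_lit 0) (XT.nd (nat_lit 78) (nat_lit 76) (nat_lit 0) (XT.lf (nat_lit 0) (nat_lit 11889991577) (nat_lit 152) (nat_lit 10149266304) (nat_lit 0) (nat_lit 6035820360) (nat_lit 13) (nat_lit 5) (nat_lit 15) (nat_lit 4) (nat_lit 13) (nat_lit 4) (nat_lit 364) (nat_lit 219) (nat_lit 197)) (XT.nd (nat_lit 78) (nat_lit 76) (nat_lit 0) (XT.lf (nat_lit 0) (nat_lit 15916768356) (nat_lit 152) (nat_lit 3001846107) (nat_lit 0) (nat_lit 9876472037) (nat_lit 13) (nat_lit 5) (nat_lit 15) (nat_lit 4) (nat_lit 13) (nat_lit 4) (nat_lit 365) (nat_lit 219) (nat_lit 196)) (XT.lf (nat_lit 0) (nat_lit 4334526974) (nat_lit 76) (nat_lit 15711861845) (nat_lit 76) (nat_lit 9490861542) (nat_lit 12) (nat_lit 4) (nat_lit 13) (nat_lit 5) (nat_lit 13) (nat_lit 4) (nat_lit 366) (nat_lit 219) (nat_lit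 195)))) (XT.nd (nat_lit 156) (nat_lit 152) (nat_lit 0) (XT.nd (nat_lit 78) (nat_lit 0) (nat_lit 0) (XT.lf (nat_lit 0) (nat_lit 11843553136) (nat_lit 76) (nat_lit 12427720932) (nat_lit 76) (nat_lit 6031279869) (nat_lit 12) (nat_lit 4) (nat_lit 13) (nat_lit 5) (nat_lit 13) (nat_lit 4) (nat_lit 367) (nat_lit 219) (nat_lit 194)) (XT.lf (nat_lit 0) (nat_lit 19472051039) (nat_lit 76) (nat_lit 9093634848) (nat_lit 76) (nat_lit 2526862949) (nat_lit 12) (nat_lit 4) (nat_lit 13) (nat_lit 5) (nat_lit 13) (nat_lit 4) (nat_lit 368) (nat_lit 219) (nat_lit 193))) (XT.nd (nat_lit 78) (nat_lit 76) (nat_lit 0) (XT.lf (nat_lit 0) (nat_lit 1005441081) (nat_lit 152) (nat_lit 4691096247) (nat_lit 76) (nat_lit 26211092297) (nat_lit 11) (nat_lit 5) (nat_lit 13) (nat_lit 5) (nat_lit 12) (nat_lit 4) (nat_lit 369) (nat_lit 219) (nat_lit 192)) (XT.lf (nat_lit 0) (nat_lit 2366523939) (nat_lit 76) (nat_lit 2194667553) (nat_lit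 152) (nat_lit 28186187142) (nat_lit 10) (nat_lit 5) (nat_lit 11) (nat_lit 5) (nat_lit 12) (nat_lit 4) (nat_lit 370) (nat_lit 219) (nat_lit 191))))))) (XT.nd (nat_lit 1092) (nat_lit 152) (nat_lit 0) (XT.nd (nat_lit 546) (nat_lit 152) (nat_lit 0) (XT.nd (nat_lit 234) (nat_lit 76) (nat_lit 0) (XT.nd (nat_lit 78) (nat_lit 0) (nat_lit 0) (XT.lf (nat_lit 0) (nat_lit 8230731269) (nat_lit 152) (nat_lit 23993931375) (nat_lit 0) (nat_lit 1387457838) (nat_lit 10) (nat_lit 5) (nat_lit 12) (nat_lit 4) (nat_lit 10) (nat_lit 4) (nat_lit 371) (nat_lit 219) (nat_lit 190)) (XT.nd (nat_lit 78) (nat_lit 0) (nat_lit 0) (XT.lf (nat_lit 0) (nat_lit 11979369600) (nat_lit 152) (nat_lit 17535210790) (nat_lit 0) (nat_lit 4989167294) (nat_lit 10) (nat_lit 5) (nat_lit 12) (nat_lit 4) (nat_lit 10) (nat_lit 4) (nat_lit 372) (nat_lit 219) (nat_lit 189)) (XT.lf (nat_lit 0) (nat_lit 15789285508) (nat_lit 152) (nat_lit 10977952910)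 (nat_lit 0) (nat_lit 8656433809) (nat_lit 10) (nat_lit 5) (nat_lit 12) (nat_lit 4) (nat_lit 10) (nat_lit 4) (nat_lit 373) (nat_lit 219) (nat_lit 188)))) (XT.nd (nat_lit 156) (nat_lit 0) (nat_lit 0) (XT.nd (nat_lit 78) (nat_lit 76) (nat_lit 0) (XT.lf (nat_lit 0) (nat_lit 19663808046) (nat_lit 152) (nat_lit 4316428094) (nat_lit 0) (nat_lit 12392461790) (nat_lit 10) (nat_lit 5) (nat_lit 12) (nat_lit 4) (nat_lit 10) (nat_lit 4) (nat_lit 374) (nat_lit 219) (nat_lit 187)) (XT.lf (nat_lit 0) (nat_lit 2504047392) (nat_lit 76) (nat_lit 21126345761) (nat_lit 76) (nat_lit 13720538770) (nat_lit 9) (nat_lit 4) (nat_lit 10) (nat_lit 5) (nat_lit 10) (nat_lit 4) (nat_lit 375) (nat_lit 219) (nat_lit 186))) (XT.nd (nat_lit 78) (nat_lit 0) (nat_lit 0) (XT.lf (nat_lit 0) (nat_lit 9528741612) (nat_lit 76) (nat_lit 18183128922) (nat_lit 76) (nat_lit 10646777529) (nat_lit 9) (nat_lit 4) (nat_lit 10) (nat_lit 5) (nat_lit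 10) (nat_lit 4) (nat_lit 376) (nat_lit 219) (nat_lit 185)) (XT.lf (nat_lit 0) (nat_lit 16677887263) (nat_lit 76) (nat_lit 15191601341) (nat_lit 76) (nat_lit 7528507810) (nat_lit 9) (nat_lit 4) (nat_lit 10) (nat_lit 5) (nat_lit 10) (nat_lit 4) (nat_lit 377) (nat_lit 219) (nat_lit 184))))) (XT.nd (nat_lit 234) (nat_lit 76) (nat_lit 0) (XT.nd (nat_lit 78) (nat_lit 76) (nat_lit 0) (XT.lf (nat_lit 0) (nat_lit 23957731173) (nat_lit 76) (nat_lit 12149149063) (nat_lit 76) (nat_lit 4363004912) (nat_lit 9) (nat_lit 4) (nat_lit 10) (nat_lit 5) (nat_lit 10) (nat_lit 4) (nat_lit 378) (nat_lit 219) (nat_lit 183)) (XT.nd (nat_lit 78) (nat_lit 76) (nat_lit 0) (XT.lf (nat_lit 0) (nat_lit 31374634369) (nat_lit 76) (nat_lit 9053113633) (nat_lit 76) (nat_lit 1147502861) (nat_lit 9) (nat_lit 4) (nat_lit 10) (nat_lit 5) (nat_lit 10) (nat_lit 4) (nat_lit 379) (nat_lit 219) (nat_lit 182)) (XT.lf (nat_lit 0) (nat_lit 2079423400)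 (nat_lit 152) (nat_lit 3800368279) (nat_lit 76) (nat_lit 36834656142) (nat_lit 8) (nat_lit 5) (nat_lit 10) (nat_lit 5) (nat_lit 9) (nat_lit 4) (nat_lit 380) (nat_lit 219) (nat_lit 181)))) (XT.nd (nat_lit 156) (nat_lit 0) (nat_lit 0) (XT.nd (nat_lit 78) (nat_lit 0) (nat_lit 0) (XT.lf (nat_lit 0) (nat_lit 2756817293) (nat_lit 76) (nat_lit 2608219073) (nat_lit 152) (nat_lit 38522905224) (nat_lit 7) (nat_lit 5) (nat_lit 8) (nat_lit 5) (nat_lit 9) (nat_lit 4) (nat_lit 381) (nat_lit 219) (nat_lit 180)) (XT.lf (nat_lit 0) (nat_lit 8753866259) (nat_lit 152) (nat_lit 35592210367) (nat_lit 0) (nat_lit 750433820) (nat_lit 7) (nat_lit 5) (nat_lit 9) (nat_lit 4) (nat_lit 7) (nat_lit 4) (nat_lit 382) (nat_lit 219) (nat_lit 179))) (XT.nd (nat_lit 78) (nat_lit 0) (nat_lit 0) (XT.lf (nat_lit 0) (nat_lit 12229963929) (nat_lit 152) (nat_lit 29988335267) (nat_lit 0) (nat_lit 4123478533) (nat_lit 7) (nat_lit 5) (nat_lit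 9) (nat_lit 4) (nat_lit 7) (nat_lit 4) (nat_lit 383) (nat_lit 219) (nat_lit 178)) (XT.lf (nat_lit 0) (nat_lit 15771294946) (nat_lit 152) (nat_lit 24289530611) (nat_lit 0) (nat_lit 7564758135) (nat_lit 7) (nat_lit 5) (nat_lit 9) (nat_lit 4) (nat_lit 7) (nat_lit 4) (nat_lit 384) (nat_lit 219) (nat_lit 177)))))) (XT.nd (nat_lit 546) (nat_lit 76) (nat_lit 0) (XT.nd (nat_lit 234) (nat_lit 76) (nat_lit 0) (XT.nd (nat_lit 78) (nat_lit 0) (nat_lit 0) (XT.lf (nat_lit 0) (nat_lit 19380953676) (nat_lit 152) (nat_lit 18490816859) (nat_lit 0) (nat_lit 11077279570) (nat_lit 7) (nat_lit 5) (nat_lit 9) (nat_lit 4) (nat_lit 7) (nat_lit 4) (nat_lit 385) (nat_lit 219) (nat_lit 176)) (XT.nd (nat_lit 78) (nat_lit 0) (nat_lit 0) (XT.lf (nat_lit 0) (nat_lit 23062094190) (nat_lit 152) (nat_lit 12587127175) (nat_lit 0) (nat_lit 14664112030) (nat_lit 7) (nat_lit 5) (nat_lit 9) (nat_lit 4) (nat_lit 7) (nat_lit 4) (nat_lit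 386) (nat_lit 219) (nat_lit 175)) (XT.lf (nat_lit 0) (nat_lit 26817933018) (nat_lit 152) (nat_lit 6573302996) (nat_lit 0) (nat_lit 18328389641) (nat_lit 7) (nat_lit 5) (nat_lit 9) (nat_lit 4) (nat_lit 7) (nat_lit 4) (nat_lit 387) (nat_lit 219) (nat_lit 174)))) (XT.nd (nat_lit 156) (nat_lit 0) (nat_lit 0) (XT.nd (nat_lit 78) (nat_lit 76) (nat_lit 0) (XT.lf (nat_lit 0) (nat_lit 30651751962) (nat_lit 152) (nat_lit 444089523) (nat_lit 0) (nat_lit 22073314199) (nat_lit 7) (nat_lit 5) (nat_lit 9) (nat_lit 4) (nat_lit 7) (nat_lit 4) (nat_lit 388) (nat_lit 219) (nat_lit 173)) (XT.lf (nat_lit 0) (nat_lit 5921417041) (nat_lit 76) (nat_lit 28702404202) (nat_lit 76) (nat_lit 20037661210) (nat_lit 6) (nat_lit 4) (nat_lit 7) (nat_lit 5) (nat_lit 7) (nat_lit 4) (nat_lit 389) (nat_lit 219) (nat_lit 172))) (XT.nd (nat_lit 78) (nat_lit 0) (nat_lit 0) (XT.lf (nat_lit 0) (nat_lit 12424479652) (nat_lit 76) (nat_lit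 26261753064) (nat_lit 76) (nat_lit 17513218588) (nat_lit 6) (nat_lit 4) (nat_lit 7) (nat_lit 5) (nat_lit 7) (nat_lit 4) (nat_lit 390) (nat_lit 219) (nat_lit 171)) (XT.lf (nat_lit 0) (nat_lit 19061942345) (nat_lit 76) (nat_lit 23776239897) (nat_lit 76) (nat_lit 14946354465) (nat_lit 6) (nat_lit 4) (nat_lit 7) (nat_lit 5) (nat_lit 7) (nat_lit 4) (nat_lit 391) (nat_lit 219) (nat_lit 170))))) (XT.nd (nat_lit 234) (nat_lit 76) (nat_lit 0) (XT.nd (nat_lit 78) (nat_lit 0) (nat_lit 0) (XT.lf (nat_lit 0) (nat_lit 25839604843) (nat_lit 76) (nat_lit 21243692894) (nat_lit 76) (nat_lit 12334825952) (nat_lit 6) (nat_lit 4) (nat_lit 7) (nat_lit 5) (nat_lit 7) (nat_lit 4) (nat_lit 392) (nat_lit 219) (nat_lit 169)) (XT.nd (nat_lit 78) (nat_lit 0) (nat_lit 0) (XT.lf (nat_lit 0) (nat_lit 32763389377) (nat_lit 76) (nat_lit 18661899149) (nat_lit 76) (nat_lit 9676351129) (nat_lit 6) (nat_lit 4) (nat_lit 7) (nat_lit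 5) (nat_lit 7) (nat_lit 4) (nat_lit 393) (nat_lit 219) (nat_lit 168)) (XT.lf (nat_lit 0) (nat_lit 39839345855) (nat_lit 76) (nat_lit 16028602726) (nat_lit 76) (nat_lit 6968607057) (nat_lit 6) (nat_lit 4) (nat_lit 7) (nat_lit 5) (nat_lit 7) (nat_lit 4) (nat_lit 394) (nat_lit 219) (nat_lit 167)))) (XT.nd (nat_lit 156) (nat_lit 76) (nat_lit 0) (XT.nd (nat_lit 78) (nat_lit 0) (nat_lit 0) (XT.lf (nat_lit 0) (nat_lit 47073657151) (nat_lit 76) (nat_lit 13341502687) (nat_lit 76) (nat_lit 4209227748) (nat_lit 6) (nat_lit 4) (nat_lit 7) (nat_lit 5) (nat_lit 7) (nat_lit 4) (nat_lit 395) (nat_lit 219) (nat_lit 166)) (XT.lf (nat_lit 0) (nat_lit 54472644510) (nat_lit 76) (nat_lit 10598251079) (nat_lit 76) (nat_lit 1395802091) (nat_lit 6) (nat_lit 4) (nat_lit 7) (nat_lit 5) (nat_lit 7) (nat_lit 4) (nat_lit 396) (nat_lit 219) (nat_lit 165))) (XT.nd (nat_lit 78) (nat_lit 0) (nat_lit 0) (XT.lf (nat_lit 0) (nat_lit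 1445362692) (nat_lit 152) (nat_lit 6336492866) (nat_lit 76) (nat_lit 60582815043) (nat_lit 5) (nat_lit 5) (nat_lit 7) (nat_lit 5) (nat_lit 6) (nat_lit 4) (nat_lit 397) (nat_lit 219) (nat_lit 164)) (XT.lf (nat_lit 0) (nat_lit 4317151192) (nat_lit 152) (nat_lit 572907983) (nat_lit 76) (nat_lit 65429911537) (nat_lit 5) (nat_lit 5) (nat_lit 7) (nat_lit 5) (nat_lit 6) (nat_lit 4) (nat_lit 398) (nat_lit 219) (nat_lit 163))))))))
noncomputable def xc23 : XT := (XT.nd (nat_lit 37206) (nat_lit 0) (nat_lit 228) (XT.nd (nat_lit 36114) (nat_lit 0) (nat_lit 1064) (XT.nd (nat_lit 546) (nat_lit 0) (nat_lit 0) (XT.nd (nat_lit 234) (nat_lit 0) (nat_lit 0) (XT.nd (nat_lit 78) (nat_lit 0) (nat_lit 0) (XT.lf (nat_lit 0) (nat_lit 5420936928) (nat_lit 76) (nat_lit 1880482297) (nat_lit 152) (nat_lit 65031726541) (nat_lit 4) (nat_lit 5) (nat_lit 5) (nat_lit 5) (nat_lit 6) (nat_lit 4) (nat_lit 399) (nat_lit 219) (nat_lit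 162)) (XT.nd (nat_lit 78) (nat_lit 0) (nat_lit 0) (XT.lf (nat_lit 0) (nat_lit 10367069881) (nat_lit 152) (nat_lit 62860489166) (nat_lit 0) (nat_lit 1179406936) (nat_lit 4) (nat_lit 5) (nat_lit 6) (nat_lit 4) (nat_lit 4) (nat_lit 4) (nat_lit 400) (nat_lit 219) (nat_lit 161)) (XT.lf (nat_lit 0) (nat_lit 13518348121) (nat_lit 152) (nat_lit 58752932817) (nat_lit 0) (nat_lit 4271915514) (nat_lit 4) (nat_lit 5) (nat_lit 6) (nat_lit 4) (nat_lit 4) (nat_lit 4) (nat_lit 401) (nat_lit 219) (nat_lit 160)))) (XT.nd (nat_lit 156) (nat_lit 0) (nat_lit 0) (XT.nd (nat_lit 78) (nat_lit 0) (nat_lit 0) (XT.lf (nat_lit 0) (nat_lit 16739931142) (nat_lit 152) (nat_lit 54567874320) (nat_lit 0) (nat_lit 7436440612) (nat_lit 4) (nat_lit 5) (nat_lit 6) (nat_lit 4) (nat_lit 4) (nat_lit 4) (nat_lit 402) (nat_lit 219) (nat_lit 159)) (XT.lf (nat_lit 0) (nat_lit 20034633920) (nat_lit 152) (nat_lit 50301656827) (nat_lit 0) (nat_lit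 10675747348) (nat_lit 4) (nat_lit 5) (nat_lit 6) (nat_lit 4) (nat_lit 4) (nat_lit 4) (nat_lit 403) (nat_lit 219) (nat_lit 158))) (XT.nd (nat_lit 78) (nat_lit 0) (nat_lit 0) (XT.lf (nat_lit 0) (nat_lit 23405335321) (nat_lit 152) (nat_lit 45950552575) (nat_lit 0) (nat_lit 13992666184) (nat_lit 4) (nat_lit 5) (nat_lit 6) (nat_lit 4) (nat_lit 4) (nat_lit 4) (nat_lit 404) (nat_lit 219) (nat_lit 157)) (XT.lf (nat_lit 0) (nat_lit 26854980620) (nat_lit 152) (nat_lit 41510759629) (nat_lit 0) (nat_lit 17390095399) (nat_lit 4) (nat_lit 5) (nat_lit 6) (nat_lit 4) (nat_lit 4) (nat_lit 4) (nat_lit 405) (nat_lit 219) (nat_lit 156))))) (XT.nd (nat_lit 234) (nat_lit 0) (nat_lit 0) (XT.nd (nat_lit 78) (nat_lit 0) (nat_lit 0) (XT.lf (nat_lit 0) (nat_lit 30386584068) (nat_lit 152) (nat_lit 36978398557) (nat_lit 0) (nat_lit 20871003621) (nat_lit 4) (nat_lit 5) (nat_lit 6) (nat_lit 4) (nat_lit 4) (nat_lit 4) (nat_lit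 406) (nat_lit 219) (nat_lit 155)) (XT.nd (nat_lit 78) (nat_lit 0) (nat_lit 0) (XT.lf (nat_lit 0) (nat_lit 34003231533) (nat_lit 152) (nat_lit 32349509044) (nat_lit 0) (nat_lit 24438432420) (nat_lit 4) (nat_lit 5) (nat_lit 6) (nat_lit 4) (nat_lit 4) (nat_lit 4) (nat_lit 407) (nat_lit 219) (nat_lit 154)) (XT.lf (nat_lit 0) (nat_lit 37708083192) (nat_lit 152) (nat_lit 27620046429) (nat_lit 0) (nat_lit 28095498967) (nat_lit 4) (nat_lit 5) (nat_lit 6) (nat_lit 4) (nat_lit 4) (nat_lit 4) (nat_lit 408) (nat_lit 219) (nat_lit 153)))) (XT.nd (nat_lit 156) (nat_lit 0) (nat_lit 0) (XT.nd (nat_lit 78) (nat_lit 0) (nat_lit 0) (XT.lf (nat_lit 0) (nat_lit 41504376294) (nat_lit 152) (nat_lit 22785878173) (nat_lit 0) (nat_lit 31845398756) (nat_lit 4) (nat_lit 5) (nat_lit 6) (nat_lit 4) (nat_lit 4) (nat_lit 4) (nat_lit 409) (nat_lit 219) (nat_lit 152)) (XT.lf (nat_lit 0) (nat_lit 45395427989) (nat_lit 152) (nat_lit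 17842780244) (nat_lit 0) (nat_lit 35691408399) (nat_lit 4) (nat_lit 5) (nat_lit 6) (nat_lit 4) (nat_lit 4) (nat_lit 4) (nat_lit 410) (nat_lit 219) (nat_lit 151))) (XT.nd (nat_lit 35100) (nat_lit 0) (nat_lit 1976) (XT.lf (nat_lit 0) (nat_lit 49384638225) (nat_lit 152) (nat_lit 12786433431) (nat_lit 0) (nat_lit 39636888487) (nat_lit 4) (nat_lit 5) (nat_lit 6) (nat_lit 4) (nat_lit 4) (nat_lit 4) (nat_lit 411) (nat_lit 219) (nat_lit 150)) (XT.lf (nat_lit 0) (nat_lit 3364377283) (nat_lit 152) (nat_lit 2349945816) (nat_lit 152) (nat_lit 2349945816) (nat_lit 30) (nat_lit 4) (nat_lit 32) (nat_lit 5) (nat_lit 32) (nat_lit 4) (nat_lit 340) (nat_lit 220) (nat_lit 220)))))) (XT.nd (nat_lit 546) (nat_lit 456) (nat_lit 0) (XT.nd (nat_lit 234) (nat_lit 304) (nat_lit 0) (XT.nd (nat_lit 78) (nat_lit 152) (nat_lit 0) (XT.lf (nat_lit 0) (nat_lit 15288404463) (nat_lit 152) (nat_lit 802563160) (nat_lit 152) (nat_lit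 376722386) (nat_lit 30) (nat_lit 4) (nat_lit 32) (nat_lit 5) (nat_lit 32) (nat_lit 4) (nat_lit 341) (nat_lit 220) (nat_lit 219)) (XT.nd (nat_lit 78) (nat_lit 0) (nat_lit 0) (XT.lf (nat_lit 0) (nat_lit 4004451496) (nat_lit 152) (nat_lit 9621573013) (nat_lit 0) (nat_lit 3189618080) (nat_lit 28) (nat_lit 5) (nat_lit 30) (nat_lit 4) (nat_lit 28) (nat_lit 4) (nat_lit 342) (nat_lit 220) (nat_lit 218)) (XT.lf (nat_lit 0) (nat_lit 8437054003) (nat_lit 152) (nat_lit 1506560663) (nat_lit 0) (nat_lit 7232515954) (nat_lit 28) (nat_lit 5) (nat_lit 30) (nat_lit 4) (nat_lit 28) (nat_lit 4) (nat_lit 343) (nat_lit 220) (nat_lit 217)))) (XT.nd (nat_lit 156) (nat_lit 152) (nat_lit 0) (XT.nd (nat_lit 78) (nat_lit 0) (nat_lit 0) (XT.lf (nat_lit 0) (nat_lit 6825985380) (nat_lit 152) (nat_lit 6152548835) (nat_lit 152) (nat_lit 4569656774) (nat_lit 26) (nat_lit 4) (nat_lit 28) (nat_lit 5) (nat_lit 28) (nat_lit 4) (nat_lit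 344) (nat_lit 220) (nat_lit 216)) (XT.lf (nat_lit 0) (nat_lit 15281834548) (nat_lit 152) (nat_lit 2301020237) (nat_lit 152) (nat_lit 350794183) (nat_lit 26) (nat_lit 4) (nat_lit 28) (nat_lit 5) (nat_lit 28) (nat_lit 4) (nat_lit 345) (nat_lit 220) (nat_lit 215))) (XT.nd (nat_lit 78) (nat_lit 0) (nat_lit 0) (XT.lf (nat_lit 0) (nat_lit 3899642175) (nat_lit 152) (nat_lit 12770448256) (nat_lit 0) (nat_lit 1659971303) (nat_lit 24) (nat_lit 5) (nat_lit 26) (nat_lit 4) (nat_lit 24) (nat_lit 4) (nat_lit 346) (nat_lit 220) (nat_lit 214)) (XT.lf (nat_lit 0) (nat_lit 8233857945) (nat_lit 152) (nat_lit 4847511620) (nat_lit 0) (nat_lit 5658024434) (nat_lit 24) (nat_lit 5) (nat_lit 26) (nat_lit 4) (nat_lit 24) (nat_lit 4) (nat_lit 347) (nat_lit 220) (nat_lit 213))))) (XT.nd (nat_lit 234) (nat_lit 228) (nat_lit 0) (XT.nd (nat_lit 78) (nat_lit 76) (nat_lit 0) (XT.lf (nat_lit 0) (nat_lit 3225400675) (nat_lit 152)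 (nat_lit 9419715009) (nat_lit 152) (nat_lit 6517510003) (nat_lit 22) (nat_lit 4) (nat_lit 24) (nat_lit 5) (nat_lit 24) (nat_lit 4) (nat_lit 348) (nat_lit 220) (nat_lit 212)) (XT.nd (nat_lit 78) (nat_lit 76) (nat_lit 0) (XT.lf (nat_lit 0) (nat_lit 11490694928) (nat_lit 152) (nat_lit 5663989886) (nat_lit 152) (nat_lit 2444919351) (nat_lit 22) (nat_lit 4) (nat_lit 24) (nat_lit 5) (nat_lit 24) (nat_lit 4) (nat_lit 349) (nat_lit 220) (nat_lit 211)) (XT.lf (nat_lit 0) (nat_lit 1634317980) (nat_lit 228) (nat_lit 209041470) (nat_lit 76) (nat_lit 18208296868) (nat_lit 21) (nat_lit 5) (nat_lit 24) (nat_lit 5) (nat_lit 22) (nat_lit 4) (nat_lit 350) (nat_lit 220) (nat_lit 210)))) (XT.nd (nat_lit 156) (nat_lit 152) (nat_lit 0) (XT.nd (nat_lit 78) (nat_lit 0) (nat_lit 0) (XT.lf (nat_lit 0) (nat_lit 5804363547) (nat_lit 152) (nat_lit 12621280358) (nat_lit 0) (nat_lit 2090399352) (nat_lit 20) (nat_lit 5) (nat_lit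 22) (nat_lit 4) (nat_lit 20) (nat_lit 4) (nat_lit 351) (nat_lit 220) (nat_lit 209)) (XT.lf (nat_lit 0) (nat_lit 10041223237) (nat_lit 152) (nat_lit 4909184873) (nat_lit 0) (nat_lit 6045728123) (nat_lit 20) (nat_lit 5) (nat_lit 22) (nat_lit 4) (nat_lit 20) (nat_lit 4) (nat_lit 352) (nat_lit 220) (nat_lit 208))) (XT.nd (nat_lit 78) (nat_lit 0) (nat_lit 0) (XT.lf (nat_lit 0) (nat_lit 2953478364) (nat_lit 152) (nat_lit 11403722219) (nat_lit 152) (nat_lit 7134896116) (nat_lit 18) (nat_lit 4) (nat_lit 20) (nat_lit 5) (nat_lit 20) (nat_lit 4) (nat_lit 353) (nat_lit 220) (nat_lit 207)) (XT.lf (nat_lit 0) (nat_lit 11015584000) (nat_lit 152) (nat_lit 7761174630) (nat_lit 152) (nat_lit 3226978636) (nat_lit 18) (nat_lit 4) (nat_lit 20) (nat_lit 5) (nat_lit 20) (nat_lit 4) (nat_lit 354) (nat_lit 220) (nat_lit 206))))))) (XT.nd (nat_lit 1092) (nat_lit 380) (nat_lit 0) (XT.nd (nat_lit 546) (nat_lit 228) (nat_lit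 0) (XT.nd (nat_lit 234) (nat_lit 76) (nat_lit 0) (XT.nd (nat_lit 78) (nat_lit 76) (nat_lit 0) (XT.lf (nat_lit 0) (nat_lit 708578878) (nat_lit 228) (nat_lit 3353421541) (nat_lit 76) (nat_lit 18470740053) (nat_lit 17) (nat_lit 5) (nat_lit 20) (nat_lit 5) (nat_lit 18) (nat_lit 4) (nat_lit 355) (nat_lit 220) (nat_lit 205)) (XT.nd (nat_lit 78) (nat_lit 0) (nat_lit 0) (XT.lf (nat_lit 0) (nat_lit 4434275455) (nat_lit 76) (nat_lit 233827350) (nat_lit 152) (nat_lit 18409451962) (nat_lit 16) (nat_lit 5) (nat_lit 17) (nat_lit 5) (nat_lit 18) (nat_lit 4) (nat_lit 356) (nat_lit 220) (nat_lit 204)) (XT.lf (nat_lit 0) (nat_lit 8744688113) (nat_lit 152) (nat_lit 11280307972) (nat_lit 0) (nat_lit 3613790751) (nat_lit 16) (nat_lit 5) (nat_lit 18) (nat_lit 4) (nat_lit 16) (nat_lit 4) (nat_lit 357) (nat_lit 220) (nat_lit 203)))) (XT.nd (nat_lit 156) (nat_lit 0) (nat_lit 0) (XT.nd (nat_lit 78) (nat_lit 76) (nat_lit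 0) (XT.lf (nat_lit 0) (nat_lit 12876393279) (nat_lit 152) (nat_lit 3825913387) (nat_lit 0) (nat_lit 7516585517) (nat_lit 16) (nat_lit 5) (nat_lit 18) (nat_lit 4) (nat_lit 16) (nat_lit 4) (nat_lit 358) (nat_lit 220) (nat_lit 202)) (XT.lf (nat_lit 0) (nat_lit 3802873439) (nat_lit 76) (nat_lit 13298262946) (nat_lit 76) (nat_lit 7716212078) (nat_lit 15) (nat_lit 4) (nat_lit 16) (nat_lit 5) (nat_lit 16) (nat_lit 4) (nat_lit 359) (nat_lit 220) (nat_lit 201))) (XT.nd (nat_lit 78) (nat_lit 0) (nat_lit 0) (XT.lf (nat_lit 0) (nat_lit 11616714258) (nat_lit 76) (nat_lit 9807863081) (nat_lit 76) (nat_lit 4010042206) (nat_lit 15) (nat_lit 4) (nat_lit 16) (nat_lit 5) (nat_lit 16) (nat_lit 4) (nat_lit 360) (nat_lit 220) (nat_lit 200)) (XT.lf (nat_lit 0) (nat_lit 19546293521) (nat_lit 76) (nat_lit 6266691430) (nat_lit 76) (nat_lit 259385111) (nat_lit 15) (nat_lit 4) (nat_lit 16) (nat_lit 5) (nat_lit 16) (nat_lit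 4) (nat_lit 361) (nat_lit 220) (nat_lit 199))))) (XT.nd (nat_lit 234) (nat_lit 76) (nat_lit 0) (XT.nd (nat_lit 78) (nat_lit 0) (nat_lit 0) (XT.lf (nat_lit 0) (nat_lit 849948892) (nat_lit 76) (nat_lit 2628198464) (nat_lit 152) (nat_lit 23251744226) (nat_lit 13) (nat_lit 5) (nat_lit 14) (nat_lit 5) (nat_lit 15) (nat_lit 4) (nat_lit 362) (nat_lit 220) (nat_lit 198)) (XT.nd (nat_lit 78) (nat_lit 0) (nat_lit 0) (XT.lf (nat_lit 0) (nat_lit 7336649354) (nat_lit 152) (nat_lit 18954864073) (nat_lit 0) (nat_lit 1115144145) (nat_lit 13) (nat_lit 5) (nat_lit 15) (nat_lit 4) (nat_lit 13) (nat_lit 4) (nat_lit 363) (nat_lit 220) (nat_lit 197)) (XT.lf (nat_lit 0) (nat_lit 11275513661) (nat_lit 152) (nat_lit 11961408376) (nat_lit 0) (nat_lit 4867883349) (nat_lit 13) (nat_lit 5) (nat_lit 15) (nat_lit 4) (nat_lit 13) (nat_lit 4) (nat_lit 364) (nat_lit 220) (nat_lit 196)))) (XT.nd (nat_lit 156) (nat_lit 0) (nat_lit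 0) (XT.nd (nat_lit 78) (nat_lit 76) (nat_lit 0) (XT.lf (nat_lit 0) (nat_lit 15272918152) (nat_lit 152) (nat_lit 4868200965) (nat_lit 0) (nat_lit 8684583857) (nat_lit 13) (nat_lit 5) (nat_lit 15) (nat_lit 4) (nat_lit 13) (nat_lit 4) (nat_lit 365) (nat_lit 220) (nat_lit 195)) (XT.lf (nat_lit 0) (nat_lit 2377346707) (nat_lit 76) (nat_lit 16977861510) (nat_lit 76) (nat_lit 10214086454) (nat_lit 12) (nat_lit 4) (nat_lit 13) (nat_lit 5) (nat_lit 13) (nat_lit 4) (nat_lit 366) (nat_lit 220) (nat_lit 194))) (XT.nd (nat_lit 78) (nat_lit 0) (nat_lit 0) (XT.lf (nat_lit 0) (nat_lit 9834255113) (nat_lit 76) (nat_lit 13717651166) (nat_lit 76) (nat_lit 6783545275) (nat_lit 12) (nat_lit 4) (nat_lit 13) (nat_lit 5) (nat_lit 13) (nat_lit 4) (nat_lit 367) (nat_lit 220) (nat_lit 193)) (XT.lf (nat_lit 0) (nat_lit 17412153254) (nat_lit 76) (nat_lit 10406798644) (nat_lit 76) (nat_lit 3307323009) (nat_lit 12) (nat_lit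 4) (nat_lit 13) (nat_lit 5) (nat_lit 13) (nat_lit 4) (nat_lit 368) (nat_lit 220) (nat_lit 192)))))) (XT.nd (nat_lit 546) (nat_lit 228) (nat_lit 0) (XT.nd (nat_lit 234) (nat_lit 0) (nat_lit 0) (XT.nd (nat_lit 78) (nat_lit 76) (nat_lit 0) (XT.lf (nat_lit 0) (nat_lit 213371311) (nat_lit 152) (nat_lit 6826885021) (nat_lit 76) (nat_lit 24902136651) (nat_lit 11) (nat_lit 5) (nat_lit 13) (nat_lit 5) (nat_lit 12) (nat_lit 4) (nat_lit 369) (nat_lit 220) (nat_lit 191)) (XT.nd (nat_lit 78) (nat_lit 0) (nat_lit 0) (XT.lf (nat_lit 0) (nat_lit 139048537) (nat_lit 76) (nat_lit 3582603760) (nat_lit 152) (nat_lit 29061920612) (nat_lit 10) (nat_lit 5) (nat_lit 11) (nat_lit 5) (nat_lit 12) (nat_lit 4) (nat_lit 370) (nat_lit 220) (nat_lit 190)) (XT.lf (nat_lit 0) (nat_lit 7351881406) (nat_lit 152) (nat_lit 26292575150) (nat_lit 0) (nat_lit 5044156) (nat_lit 10) (nat_lit 5) (nat_lit 12) (nat_lit 4) (nat_lit 10) (nat_lit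 4) (nat_lit 371) (nat_lit 220) (nat_lit 189)))) (XT.nd (nat_lit 156) (nat_lit 0) (nat_lit 0) (XT.nd (nat_lit 78) (nat_lit 0) (nat_lit 0) (XT.lf (nat_lit 0) (nat_lit 11075307140) (nat_lit 152) (nat_lit 19880763099) (nat_lit 0) (nat_lit 3585820496) (nat_lit 10) (nat_lit 5) (nat_lit 12) (nat_lit 4) (nat_lit 10) (nat_lit 4) (nat_lit 372) (nat_lit 220) (nat_lit 188)) (XT.lf (nat_lit 0) (nat_lit 14860744798) (nat_lit 152) (nat_lit 13369047485) (nat_lit 0) (nat_lit 7232763598) (nat_lit 10) (nat_lit 5) (nat_lit 12) (nat_lit 4) (nat_lit 10) (nat_lit 4) (nat_lit 373) (nat_lit 220) (nat_lit 187))) (XT.nd (nat_lit 78) (nat_lit 0) (nat_lit 0) (XT.lf (nat_lit 0) (nat_lit 18711502044) (nat_lit 152) (nat_lit 6751738461) (nat_lit 0) (nat_lit 10949060109) (nat_lit 10) (nat_lit 5) (nat_lit 12) (nat_lit 4) (nat_lit 10) (nat_lit 4) (nat_lit 374) (nat_lit 220) (nat_lit 186)) (XT.lf (nat_lit 0) (nat_lit 22630943618)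 (nat_lit 152) (nat_lit 23053911) (nat_lit 0) (nat_lit 14737957281) (nat_lit 10) (nat_lit 5) (nat_lit 12) (nat_lit 4) (nat_lit 10) (nat_lit 4) (nat_lit 375) (nat_lit 220) (nat_lit 185))))) (XT.nd (nat_lit 234) (nat_lit 152) (nat_lit 0) (XT.nd (nat_lit 78) (nat_lit 0) (nat_lit 0) (XT.lf (nat_lit 0) (nat_lit 6958674399) (nat_lit 76) (nat_lit 19730710910) (nat_lit 76) (nat_lit 11710982434) (nat_lit 9) (nat_lit 4) (nat_lit 10) (nat_lit 5) (nat_lit 10) (nat_lit 4) (nat_lit 376) (nat_lit 220) (nat_lit 184)) (XT.nd (nat_lit 78) (nat_lit 0) (nat_lit 0) (XT.lf (nat_lit 0) (nat_lit 14066551030) (nat_lit 76) (nat_lit 16758307038) (nat_lit 76) (nat_lit 8615527943) (nat_lit 9) (nat_lit 4) (nat_lit 10) (nat_lit 5) (nat_lit 10) (nat_lit 4) (nat_lit 377) (nat_lit 220) (nat_lit 183)) (XT.lf (nat_lit 0) (nat_lit 21306327929) (nat_lit 76) (nat_lit 13734421468) (nat_lit 76) (nat_lit 5472175752) (nat_lit 9) (nat_lit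 4) (nat_lit 10) (nat_lit 5) (nat_lit 10) (nat_lit 4) (nat_lit 378) (nat_lit 220) (nat_lit 182)))) (XT.nd (nat_lit 156) (nat_lit 76) (nat_lit 0) (XT.nd (nat_lit 78) (nat_lit 76) (nat_lit 0) (XT.lf (nat_lit 0) (nat_lit 28684331116) (nat_lit 76) (nat_lit 10656411968) (nat_lit 76) (nat_lit 2278179241) (nat_lit 9) (nat_lit 4) (nat_lit 10) (nat_lit 5) (nat_lit 10) (nat_lit 4) (nat_lit 379) (nat_lit 220) (nat_lit 181)) (XT.lf (nat_lit 0) (nat_lit 950338851) (nat_lit 152) (nat_lit 6561653605) (nat_lit 76) (nat_lit 35247071978) (nat_lit 8) (nat_lit 5) (nat_lit 10) (nat_lit 5) (nat_lit 9) (nat_lit 4) (nat_lit 380) (nat_lit 220) (nat_lit 180))) (XT.nd (nat_lit 78) (nat_lit 76) (nat_lit 0) (XT.lf (nat_lit 0) (nat_lit 4189576129) (nat_lit 152) (nat_lit 95330812) (nat_lit 76) (nat_lit 39649047326) (nat_lit 8) (nat_lit 5) (nat_lit 10) (nat_lit 5) (nat_lit 9) (nat_lit 4) (nat_lit 381) (nat_lit 220) (nat_lit 179))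 (XT.lf (nat_lit 0) (nat_lit 6621128674) (nat_lit 76) (nat_lit 929336141) (nat_lit 152) (nat_lit 37592901199) (nat_lit 7) (nat_lit 5) (nat_lit 8) (nat_lit 5) (nat_lit 9) (nat_lit 4) (nat_lit 382) (nat_lit 220) (nat_lit 178))))))))
noncomputable def xc24 : XT := (XT.nd (nat_lit 2106) (nat_lit 0) (nat_lit 0) (XT.nd (nat_lit 1014) (nat_lit 152) (nat_lit 0) (XT.nd (nat_lit 468) (nat_lit 76) (nat_lit 0) (XT.nd (nat_lit 234) (nat_lit 0) (nat_lit 0) (XT.nd (nat_lit 78) (nat_lit 0) (nat_lit 0) (XT.lf (nat_lit 0) (nat_lit 10998392890) (nat_lit 152) (nat_lit 32945481453) (nat_lit 0) (nat_lit 2445608561) (nat_lit 7) (nat_lit 5) (nat_lit 9) (nat_lit 4) (nat_lit 7) (nat_lit 4) (nat_lit 383) (nat_lit 220) (nat_lit 177)) (XT.nd (nat_lit 78) (nat_lit 0) (nat_lit 0) (XT.lf (nat_lit 0) (nat_lit 14521047938) (nat_lit 152) (nat_lit 27281679282) (nat_lit 0) (nat_lit 5871126313) (nat_lit 7) (nat_lit 5) (nat_lit 9) (nat_lit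 4) (nat_lit 7) (nat_lit 4) (nat_lit 384) (nat_lit 220) (nat_lit 176)) (XT.lf (nat_lit 0) (nat_lit 18112574659) (nat_lit 152) (nat_lit 21516948525) (nat_lit 0) (nat_lit 9368344980) (nat_lit 7) (nat_lit 5) (nat_lit 9) (nat_lit 4) (nat_lit 7) (nat_lit 4) (nat_lit 385) (nat_lit 220) (nat_lit 175)))) (XT.nd (nat_lit 78) (nat_lit 0) (nat_lit 0) (XT.lf (nat_lit 0) (nat_lit 21776111281) (nat_lit 152) (nat_lit 15646252041) (nat_lit 0) (nat_lit 12940320385) (nat_lit 7) (nat_lit 5) (nat_lit 9) (nat_lit 4) (nat_lit 7) (nat_lit 4) (nat_lit 386) (nat_lit 220) (nat_lit 174)) (XT.nd (nat_lit 78) (nat_lit 0) (nat_lit 0) (XT.lf (nat_lit 0) (nat_lit 25514858952) (nat_lit 152) (nat_lit 9664460094) (nat_lit 0) (nat_lit 16590173670) (nat_lit 7) (nat_lit 5) (nat_lit 9) (nat_lit 4) (nat_lit 7) (nat_lit 4) (nat_lit 387) (nat_lit 220) (nat_lit 173)) (XT.lf (nat_lit 0) (nat_lit 29332084539) (nat_lit 152) (nat_lit 3566345875)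 (nat_lit 0) (nat_lit 20321094029) (nat_lit 7) (nat_lit 5) (nat_lit 9) (nat_lit 4) (nat_lit 7) (nat_lit 4) (nat_lit 388) (nat_lit 220) (nat_lit 172))))) (XT.nd (nat_lit 234) (nat_lit 0) (nat_lit 0) (XT.nd (nat_lit 78) (nat_lit 0) (nat_lit 0) (XT.lf (nat_lit 0) (nat_lit 2706227305) (nat_lit 76) (nat_lit 30550910090) (nat_lit 76) (nat_lit 21456128095) (nat_lit 6) (nat_lit 4) (nat_lit 7) (nat_lit 5) (nat_lit 7) (nat_lit 4) (nat_lit 389) (nat_lit 220) (nat_lit 171)) (XT.nd (nat_lit 78) (nat_lit 0) (nat_lit 0) (XT.lf (nat_lit 0) (nat_lit 9179392479) (nat_lit 76) (nat_lit 28124228166) (nat_lit 76) (nat_lit 18948095216) (nat_lit 6) (nat_lit 4) (nat_lit 7) (nat_lit 5) (nat_lit 7) (nat_lit 4) (nat_lit 390) (nat_lit 220) (nat_lit 170)) (XT.lf (nat_lit 0) (nat_lit 15787828534) (nat_lit 76) (nat_lit 25652277343) (nat_lit 76) (nat_lit 16397162883) (nat_lit 6) (nat_lit 4) (nat_lit 7) (nat_lit 5) (nat_lit 7) (nat_lit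 4) (nat_lit 391) (nat_lit 220) (nat_lit 169)))) (XT.nd (nat_lit 156) (nat_lit 0) (nat_lit 0) (XT.nd (nat_lit 78) (nat_lit 0) (nat_lit 0) (XT.lf (nat_lit 0) (nat_lit 22537309830) (nat_lit 76) (nat_lit 23132897664) (nat_lit 76) (nat_lit 13801102126) (nat_lit 6) (nat_lit 4) (nat_lit 7) (nat_lit 5) (nat_lit 7) (nat_lit 4) (nat_lit 392) (nat_lit 220) (nat_lit 168)) (XT.lf (nat_lit 0) (nat_lit 29433733974) (nat_lit 76) (nat_lit 20563887729) (nat_lit 76) (nat_lit 11157644542) (nat_lit 6) (nat_lit 4) (nat_lit 7) (nat_lit 5) (nat_lit 7) (nat_lit 4) (nat_lit 393) (nat_lit 220) (nat_lit 167))) (XT.nd (nat_lit 78) (nat_lit 0) (nat_lit 0) (XT.lf (nat_lit 0) (nat_lit 36483126966) (nat_lit 76) (nat_lit 17943002773) (nat_lit 76) (nat_lit 8464480315) (nat_lit 6) (nat_lit 4) (nat_lit 7) (nat_lit 5) (nat_lit 7) (nat_lit 4) (nat_lit 394) (nat_lit 220) (nat_lit 166)) (XT.lf (nat_lit 0) (nat_lit 43691648472) (nat_lit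 76) (nat_lit 15267952700) (nat_lit 76) (nat_lit 5719256194) (nat_lit 6) (nat_lit 4) (nat_lit 7) (nat_lit 5) (nat_lit 7) (nat_lit 4) (nat_lit 395) (nat_lit 220) (nat_lit 165)))))) (XT.nd (nat_lit 546) (nat_lit 0) (nat_lit 0) (XT.nd (nat_lit 234) (nat_lit 76) (nat_lit 0) (XT.nd (nat_lit 78) (nat_lit 76) (nat_lit 0) (XT.lf (nat_lit 0) (nat_lit 51065597197) (nat_lit 76) (nat_lit 12536400090) (nat_lit 76) (nat_lit 2919573439) (nat_lit 6) (nat_lit 4) (nat_lit 7) (nat_lit 5) (nat_lit 7) (nat_lit 4) (nat_lit 396) (nat_lit 220) (nat_lit 164)) (XT.nd (nat_lit 78) (nat_lit 76) (nat_lit 0) (XT.lf (nat_lit 0) (nat_lit 58611416400) (nat_lit 76) (nat_lit 9745958148) (nat_lit 76) (nat_lit 62985726) (nat_lit 6) (nat_lit 4) (nat_lit 7) (nat_lit 5) (nat_lit 7) (nat_lit 4) (nat_lit 397) (nat_lit 220) (nat_lit 163)) (XT.lf (nat_lit 0) (nat_lit 2797330628) (nat_lit 152) (nat_lit 4068610442) (nat_lit 76) (nat_lit 63510121331)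 (nat_lit 5) (nat_lit 5) (nat_lit 7) (nat_lit 5) (nat_lit 6) (nat_lit 4) (nat_lit 398) (nat_lit 220) (nat_lit 162)))) (XT.nd (nat_lit 156) (nat_lit 0) (nat_lit 0) (XT.nd (nat_lit 78) (nat_lit 0) (nat_lit 0) (XT.lf (nat_lit 0) (nat_lit 1832040119) (nat_lit 76) (nat_lit 3902728585) (nat_lit 152) (nat_lit 66655876383) (nat_lit 4) (nat_lit 5) (nat_lit 5) (nat_lit 5) (nat_lit 6) (nat_lit 4) (nat_lit 399) (nat_lit 220) (nat_lit 161)) (XT.lf (nat_lit 0) (nat_lit 7946554739) (nat_lit 76) (nat_lit 830109222) (nat_lit 152) (nat_lit 65688516659) (nat_lit 4) (nat_lit 5) (nat_lit 5) (nat_lit 5) (nat_lit 6) (nat_lit 4) (nat_lit 400) (nat_lit 220) (nat_lit 160))) (XT.nd (nat_lit 78) (nat_lit 0) (nat_lit 0) (XT.lf (nat_lit 0) (nat_lit 11908024966) (nat_lit 152) (nat_lit 62425614421) (nat_lit 0) (nat_lit 2268371797) (nat_lit 4) (nat_lit 5) (nat_lit 6) (nat_lit 4) (nat_lit 4) (nat_lit 4) (nat_lit 401) (nat_lit 220)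 (nat_lit 159)) (XT.lf (nat_lit 0) (nat_lit 15118017971) (nat_lit 152) (nat_lit 58262424278) (nat_lit 0) (nat_lit 5422968759) (nat_lit 4) (nat_lit 5) (nat_lit 6) (nat_lit 4) (nat_lit 4) (nat_lit 4) (nat_lit 402) (nat_lit 220) (nat_lit 158))))) (XT.nd (nat_lit 234) (nat_lit 0) (nat_lit 0) (XT.nd (nat_lit 78) (nat_lit 0) (nat_lit 0) (XT.lf (nat_lit 0) (nat_lit 18401468305) (nat_lit 152) (nat_lit 54017438197) (nat_lit 0) (nat_lit 8652636529) (nat_lit 4) (nat_lit 5) (nat_lit 6) (nat_lit 4) (nat_lit 4) (nat_lit 4) (nat_lit 403) (nat_lit 220) (nat_lit 157)) (XT.nd (nat_lit 78) (nat_lit 0) (nat_lit 0) (XT.lf (nat_lit 0) (nat_lit 21761245005) (nat_lit 152) (nat_lit 49686946966) (nat_lit 0) (nat_lit 11960197145) (nat_lit 4) (nat_lit 5) (nat_lit 6) (nat_lit 4) (nat_lit 4) (nat_lit 4) (nat_lit 404) (nat_lit 220) (nat_lit 156)) (XT.lf (nat_lit 0) (nat_lit 25200283796) (nat_lit 152) (nat_lit 45267166661) (nat_lit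 0) (nat_lit 15348540710) (nat_lit 4) (nat_lit 5) (nat_lit 6) (nat_lit 4) (nat_lit 4) (nat_lit 4) (nat_lit 405) (nat_lit 220) (nat_lit 155)))) (XT.nd (nat_lit 156) (nat_lit 0) (nat_lit 0) (XT.nd (nat_lit 78) (nat_lit 0) (nat_lit 0) (XT.lf (nat_lit 0) (nat_lit 28721589664) (nat_lit 152) (nat_lit 40754235338) (nat_lit 0) (nat_lit 18820627913) (nat_lit 4) (nat_lit 5) (nat_lit 6) (nat_lit 4) (nat_lit 4) (nat_lit 4) (nat_lit 406) (nat_lit 220) (nat_lit 154)) (XT.lf (nat_lit 0) (nat_lit 32328239479) (nat_lit 152) (nat_lit 36144209660) (nat_lit 0) (nat_lit 22379492615) (nat_lit 4) (nat_lit 5) (nat_lit 6) (nat_lit 4) (nat_lit 4) (nat_lit 4) (nat_lit 407) (nat_lit 220) (nat_lit 153))) (XT.nd (nat_lit 78) (nat_lit 0) (nat_lit 0) (XT.lf (nat_lit 0) (nat_lit 36023384682) (nat_lit 152) (nat_lit 31433061447) (nat_lit 0) (nat_lit 26028244504) (nat_lit 4) (nat_lit 5) (nat_lit 6) (nat_lit 4) (nat_lit 4) (nat_lit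 4) (nat_lit 408) (nat_lit 220) (nat_lit 152)) (XT.lf (nat_lit 0) (nat_lit 39810254040) (nat_lit 152) (nat_lit 26616674164) (nat_lit 0) (nat_lit 29770071811) (nat_lit 4) (nat_lit 5) (nat_lit 6) (nat_lit 4) (nat_lit 4) (nat_lit 4) (nat_lit 409) (nat_lit 220) (nat_lit 151))))))) (XT.nd (nat_lit 35958) (nat_lit 0) (nat_lit 684) (XT.nd (nat_lit 35412) (nat_lit 0) (nat_lit 1368) (XT.nd (nat_lit 35100) (nat_lit 0) (nat_lit 1824) (XT.nd (nat_lit 78) (nat_lit 0) (nat_lit 0) (XT.lf (nat_lit 0) (nat_lit 43692156469) (nat_lit 152) (nat_lit 21690839316) (nat_lit 0) (nat_lit 33608244092) (nat_lit 4) (nat_lit 5) (nat_lit 6) (nat_lit 4) (nat_lit 4) (nat_lit 4) (nat_lit 410) (nat_lit 220) (nat_lit 150)) (XT.nd (nat_lit 34944) (nat_lit 0) (nat_lit 2128) (XT.lf (nat_lit 0) (nat_lit 47672483922) (nat_lit 152) (nat_lit 16651252776) (nat_lit 0) (nat_lit 37546115092) (nat_lit 4) (nat_lit 5) (nat_lit 6) (nat_lit 4) (nat_lit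 4) (nat_lit 4) (nat_lit 411) (nat_lit 220) (nat_lit 149)) (XT.lf (nat_lit 0) (nat_lit 1407407552) (nat_lit 152) (nat_lit 4926990615) (nat_lit 0) (nat_lit 1407407552) (nat_lit 32) (nat_lit 5) (nat_lit 34) (nat_lit 4) (nat_lit 32) (nat_lit 4) (nat_lit 338) (nat_lit 221) (nat_lit 221)))) (XT.nd (nat_lit 156) (nat_lit 152) (nat_lit 0) (XT.nd (nat_lit 78) (nat_lit 152) (nat_lit 0) (XT.lf (nat_lit 0) (nat_lit 7265555088) (nat_lit 152) (nat_lit 1709063038) (nat_lit 0) (nat_lit 6826939091) (nat_lit 32) (nat_lit 5) (nat_lit 34) (nat_lit 4) (nat_lit 32) (nat_lit 4) (nat_lit 339) (nat_lit 221) (nat_lit 220)) (XT.lf (nat_lit 0) (nat_lit 6646815475) (nat_lit 152) (nat_lit 5173798896) (nat_lit 152) (nat_lit 4309342125) (nat_lit 30) (nat_lit 4) (nat_lit 32) (nat_lit 5) (nat_lit 32) (nat_lit 4) (nat_lit 340) (nat_lit 221) (nat_lit 219))) (XT.nd (nat_lit 78) (nat_lit 152) (nat_lit 0) (XT.lf (nat_lit 0) (nat_lit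 15126912856) (nat_lit 152) (nat_lit 1310733791) (nat_lit 152) (nat_lit 32839374) (nat_lit 30) (nat_lit 4) (nat_lit 32) (nat_lit 5) (nat_lit 32) (nat_lit 4) (nat_lit 341) (nat_lit 221) (nat_lit 218)) (XT.lf (nat_lit 0) (nat_lit 4289591771) (nat_lit 152) (nat_lit 9871113283) (nat_lit 0) (nat_lit 2659212948) (nat_lit 28) (nat_lit 5) (nat_lit 30) (nat_lit 4) (nat_lit 28) (nat_lit 4) (nat_lit 342) (nat_lit 221) (nat_lit 217))))) (XT.nd (nat_lit 234) (nat_lit 304) (nat_lit 0) (XT.nd (nat_lit 78) (nat_lit 152) (nat_lit 0) (XT.lf (nat_lit 0) (nat_lit 8677999245) (nat_lit 152) (nat_lit 1834483316) (nat_lit 0) (nat_lit 6669266410) (nat_lit 28) (nat_lit 5) (nat_lit 30) (nat_lit 4) (nat_lit 28) (nat_lit 4) (nat_lit 343) (nat_lit 221) (nat_lit 216)) (XT.nd (nat_lit 78) (nat_lit 0) (nat_lit 0) (XT.lf (nat_lit 0) (nat_lit 6413922496) (nat_lit 152) (nat_lit 6758688163) (nat_lit 152) (nat_lit 4382621335) (nat_lit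 26) (nat_lit 4) (nat_lit 28) (nat_lit 5) (nat_lit 28) (nat_lit 4) (nat_lit 344) (nat_lit 221) (nat_lit 215)) (XT.lf (nat_lit 0) (nat_lit 14794418336) (nat_lit 152) (nat_lit 2940130493) (nat_lit 152) (nat_lit 207428721) (nat_lit 26) (nat_lit 4) (nat_lit 28) (nat_lit 5) (nat_lit 28) (nat_lit 4) (nat_lit 345) (nat_lit 221) (nat_lit 214)))) (XT.nd (nat_lit 156) (nat_lit 152) (nat_lit 0) (XT.nd (nat_lit 78) (nat_lit 0) (nat_lit 0) (XT.lf (nat_lit 0) (nat_lit 3986543055) (nat_lit 152) (nat_lit 13356159212) (nat_lit 0) (nat_lit 997271899) (nat_lit 24) (nat_lit 5) (nat_lit 26) (nat_lit 4) (nat_lit 24) (nat_lit 4) (nat_lit 346) (nat_lit 221) (nat_lit 213)) (XT.lf (nat_lit 0) (nat_lit 8279384919) (nat_lit 152) (nat_lit 5507435199) (nat_lit 0) (nat_lit 4963742269) (nat_lit 24) (nat_lit 5) (nat_lit 26) (nat_lit 4) (nat_lit 24) (nat_lit 4) (nat_lit 347) (nat_lit 221) (nat_lit 212))) (XT.nd (nat_lit 78) (nat_lit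 0) (nat_lit 0) (XT.lf (nat_lit 0) (nat_lit 2478858275) (nat_lit 152) (nat_lit 10164439321) (nat_lit 152) (nat_lit 6531931141) (nat_lit 22) (nat_lit 4) (nat_lit 24) (nat_lit 5) (nat_lit 24) (nat_lit 4) (nat_lit 348) (nat_lit 221) (nat_lit 211)) (XT.lf (nat_lit 0) (nat_lit 10672807822) (nat_lit 152) (nat_lit 6440374221) (nat_lit 152) (nat_lit 2500229606) (nat_lit 22) (nat_lit 4) (nat_lit 24) (nat_lit 5) (nat_lit 24) (nat_lit 4) (nat_lit 349) (nat_lit 221) (nat_lit 210)))))) (XT.nd (nat_lit 546) (nat_lit 228) (nat_lit 0) (XT.nd (nat_lit 234) (nat_lit 304) (nat_lit 0) (XT.nd (nat_lit 78) (nat_lit 76) (nat_lit 0) (XT.lf (nat_lit 0) (nat_lit 1541163510) (nat_lit 228) (nat_lit 1110258839) (nat_lit 76) (nat_lit 17415238203) (nat_lit 21) (nat_lit 5) (nat_lit 24) (nat_lit 5) (nat_lit 22) (nat_lit 4) (nat_lit 350) (nat_lit 221) (nat_lit 209)) (XT.nd (nat_lit 78) (nat_lit 0) (nat_lit 0) (XT.lf (nat_lit 0)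 (nat_lit 5655764776) (nat_lit 152) (nat_lit 13618084869) (nat_lit 0) (nat_lit 1258873891) (nat_lit 20) (nat_lit 5) (nat_lit 22) (nat_lit 4) (nat_lit 20) (nat_lit 4) (nat_lit 351) (nat_lit 221) (nat_lit 208)) (XT.lf (nat_lit 0) (nat_lit 9854999453) (nat_lit 152) (nat_lit 5974180572) (nat_lit 0) (nat_lit 5184777579) (nat_lit 20) (nat_lit 5) (nat_lit 22) (nat_lit 4) (nat_lit 20) (nat_lit 4) (nat_lit 352) (nat_lit 221) (nat_lit 207)))) (XT.nd (nat_lit 156) (nat_lit 152) (nat_lit 0) (XT.nd (nat_lit 78) (nat_lit 0) (nat_lit 0) (XT.lf (nat_lit 0) (nat_lit 1799764514) (nat_lit 152) (nat_lit 12323592944) (nat_lit 152) (nat_lit 7388001178) (nat_lit 18) (nat_lit 4) (nat_lit 20) (nat_lit 5) (nat_lit 20) (nat_lit 4) (nat_lit 353) (nat_lit 221) (nat_lit 206)) (XT.lf (nat_lit 0) (nat_lit 9796314181) (nat_lit 152) (nat_lit 8710505978) (nat_lit 152) (nat_lit 3517273540) (nat_lit 18) (nat_lit 4) (nat_lit 20) (nat_lit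 5) (nat_lit 20) (nat_lit 4) (nat_lit 354) (nat_lit 221) (nat_lit 205))) (XT.nd (nat_lit 78) (nat_lit 76) (nat_lit 0) (XT.lf (nat_lit 0) (nat_lit 388546601) (nat_lit 228) (nat_lit 4654619410) (nat_lit 76) (nat_lit 17511087638) (nat_lit 17) (nat_lit 5) (nat_lit 20) (nat_lit 5) (nat_lit 18) (nat_lit 4) (nat_lit 355) (nat_lit 221) (nat_lit 204)) (XT.lf (nat_lit 0) (nat_lit 3043450088) (nat_lit 76) (nat_lit 1256880031) (nat_lit 152) (nat_lit 18800180685) (nat_lit 16) (nat_lit 5) (nat_lit 17) (nat_lit 5) (nat_lit 18) (nat_lit 4) (nat_lit 356) (nat_lit 221) (nat_lit 203))))) (XT.nd (nat_lit 234) (nat_lit 152) (nat_lit 0) (XT.nd (nat_lit 78) (nat_lit 76) (nat_lit 0) (XT.lf (nat_lit 0) (nat_lit 8332848301) (nat_lit 152) (nat_lit 12746891017) (nat_lit 0) (nat_lit 2583335906) (nat_lit 16) (nat_lit 5) (nat_lit 18) (nat_lit 4) (nat_lit 16) (nat_lit 4) (nat_lit 357) (nat_lit 221) (nat_lit 202)) (XT.nd (nat_lit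 78) (nat_lit 76) (nat_lit 0) (XT.lf (nat_lit 0) (nat_lit 12431317625) (nat_lit 152) (nat_lit 5353307937) (nat_lit 0) (nat_lit 6459562123) (nat_lit 16) (nat_lit 5) (nat_lit 18) (nat_lit 4) (nat_lit 16) (nat_lit 4) (nat_lit 358) (nat_lit 221) (nat_lit 201)) (XT.lf (nat_lit 0) (nat_lit 2184865430) (nat_lit 76) (nat_lit 14423374209) (nat_lit 76) (nat_lit 8235848702) (nat_lit 15) (nat_lit 4) (nat_lit 16) (nat_lit 5) (nat_lit 16) (nat_lit 4) (nat_lit 359) (nat_lit 221) (nat_lit 200)))) (XT.nd (nat_lit 156) (nat_lit 152) (nat_lit 0) (XT.nd (nat_lit 78) (nat_lit 0) (nat_lit 0) (XT.lf (nat_lit 0) (nat_lit 9940244781) (nat_lit 76) (nat_lit 10959545876) (nat_lit 76) (nat_lit 4562534925) (nat_lit 15) (nat_lit 4) (nat_lit 16) (nat_lit 5) (nat_lit 16) (nat_lit 4) (nat_lit 360) (nat_lit 221) (nat_lit 199)) (XT.lf (nat_lit 0) (nat_lit 17813065335) (nat_lit 76) (nat_lit 7444171829) (nat_lit 76) (nat_lit 843776953)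 (nat_lit 15) (nat_lit 4) (nat_lit 16) (nat_lit 5) (nat_lit 16) (nat_lit 4) (nat_lit 361) (nat_lit 221) (nat_lit 198))) (XT.nd (nat_lit 78) (nat_lit 76) (nat_lit 0) (XT.lf (nat_lit 0) (nat_lit 2866623193) (nat_lit 152) (nat_lit 978609916) (nat_lit 76) (nat_lit 22914635791) (nat_lit 14) (nat_lit 5) (nat_lit 16) (nat_lit 5) (nat_lit 15) (nat_lit 4) (nat_lit 362) (nat_lit 221) (nat_lit 197)) (XT.lf (nat_lit 0) (nat_lit 6559846928) (nat_lit 76) (nat_lit 114739663) (nat_lit 152) (nat_lit 20763572861) (nat_lit 13) (nat_lit 5) (nat_lit 14) (nat_lit 5) (nat_lit 15) (nat_lit 4) (nat_lit 363) (nat_lit 221) (nat_lit 196))))))))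
noncomputable def xc25 : XT := (XT.nd (nat_lit 2184) (nat_lit 152) (nat_lit 0) (XT.nd (nat_lit 1092) (nat_lit 228) (nat_lit 0) (XT.nd (nat_lit 546) (nat_lit 152) (nat_lit 0) (XT.nd (nat_lit 234) (nat_lit 76) (nat_lit 0) (XT.nd (nat_lit 78) (nat_lit 76) (nat_lit 0) (XT.lf (nat_lit 0) (nat_lit 10582975663) (nat_lit 152) (nat_lit 13937966666) (nat_lit 0) (nat_lit 3616287355) (nat_lit 13) (nat_lit 5) (nat_lit 15) (nat_lit 4) (nat_lit 13) (nat_lit 4) (nat_lit 364) (nat_lit 221) (nat_lit 195)) (XT.nd (nat_lit 78) (nat_lit 76) (nat_lit 0) (XT.lf (nat_lit 0) (nat_lit 14551863370) (nat_lit 152) (nat_lit 6897393027) (nat_lit 0) (nat_lit 7409734302) (nat_lit 13) (nat_lit 5) (nat_lit 15) (nat_lit 4) (nat_lit 13) (nat_lit 4) (nat_lit 365) (nat_lit 221) (nat_lit 194)) (XT.lf (nat_lit 0) (nat_lit 255651988) (nat_lit 76) (nat_lit 18330420220) (nat_lit 76) (nat_lit 11017960316) (nat_lit 12) (nat_lit 4) (nat_lit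 13) (nat_lit 5) (nat_lit 13) (nat_lit 4) (nat_lit 366) (nat_lit 221) (nat_lit 193)))) (XT.nd (nat_lit 156) (nat_lit 76) (nat_lit 0) (XT.nd (nat_lit 78) (nat_lit 0) (nat_lit 0) (XT.lf (nat_lit 0) (nat_lit 7661960632) (nat_lit 76) (nat_lit 15093443439) (nat_lit 76) (nat_lit 7615613792) (nat_lit 12) (nat_lit 4) (nat_lit 13) (nat_lit 5) (nat_lit 13) (nat_lit 4) (nat_lit 367) (nat_lit 221) (nat_lit 192)) (XT.lf (nat_lit 0) (nat_lit 15190732790) (nat_lit 76) (nat_lit 11805147773) (nat_lit 76) (nat_lit 4166764977) (nat_lit 12) (nat_lit 4) (nat_lit 13) (nat_lit 5) (nat_lit 13) (nat_lit 4) (nat_lit 368) (nat_lit 221) (nat_lit 191))) (XT.nd (nat_lit 78) (nat_lit 76) (nat_lit 0) (XT.lf (nat_lit 0) (nat_lit 22848547001) (nat_lit 76) (nat_lit 8462659954) (nat_lit 76) (nat_lit 668400315) (nat_lit 12) (nat_lit 4) (nat_lit 13) (nat_lit 5) (nat_lit 13) (nat_lit 4) (nat_lit 369) (nat_lit 221) (nat_lit 190)) (XT.lf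 (nat_lit 0) (nat_lit 2826288338) (nat_lit 152) (nat_lit 2208231053) (nat_lit 76) (nat_lit 27787266249) (nat_lit 11) (nat_lit 5) (nat_lit 13) (nat_lit 5) (nat_lit 12) (nat_lit 4) (nat_lit 370) (nat_lit 221) (nat_lit 189))))) (XT.nd (nat_lit 234) (nat_lit 76) (nat_lit 0) (XT.nd (nat_lit 78) (nat_lit 0) (nat_lit 0) (XT.lf (nat_lit 0) (nat_lit 4919391683) (nat_lit 76) (nat_lit 1490419616) (nat_lit 152) (nat_lit 27279309771) (nat_lit 10) (nat_lit 5) (nat_lit 11) (nat_lit 5) (nat_lit 12) (nat_lit 4) (nat_lit 371) (nat_lit 221) (nat_lit 188)) (XT.nd (nat_lit 78) (nat_lit 0) (nat_lit 0) (XT.lf (nat_lit 0) (nat_lit 10094431958) (nat_lit 152) (nat_lit 22389132777) (nat_lit 0) (nat_lit 2099116765) (nat_lit 10) (nat_lit 5) (nat_lit 12) (nat_lit 4) (nat_lit 10) (nat_lit 4) (nat_lit 372) (nat_lit 221) (nat_lit 187)) (XT.lf (nat_lit 0) (nat_lit 13856104324) (nat_lit 152) (nat_lit 15921632955) (nat_lit 0) (nat_lit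 5726328397) (nat_lit 10) (nat_lit 5) (nat_lit 12) (nat_lit 4) (nat_lit 10) (nat_lit 4) (nat_lit 373) (nat_lit 221) (nat_lit 186)))) (XT.nd (nat_lit 156) (nat_lit 76) (nat_lit 0) (XT.nd (nat_lit 78) (nat_lit 0) (nat_lit 0) (XT.lf (nat_lit 0) (nat_lit 17683788472) (nat_lit 152) (nat_lit 9347251884) (nat_lit 0) (nat_lit 9423468142) (nat_lit 10) (nat_lit 5) (nat_lit 12) (nat_lit 4) (nat_lit 10) (nat_lit 4) (nat_lit 374) (nat_lit 221) (nat_lit 185)) (XT.lf (nat_lit 0) (nat_lit 21580828979) (nat_lit 152) (nat_lit 2660244958) (nat_lit 0) (nat_lit 13193766512) (nat_lit 10) (nat_lit 5) (nat_lit 12) (nat_lit 4) (nat_lit 10) (nat_lit 4) (nat_lit 375) (nat_lit 221) (nat_lit 184))) (XT.nd (nat_lit 78) (nat_lit 0) (nat_lit 0) (XT.lf (nat_lit 0) (nat_lit 4227729058) (nat_lit 76) (nat_lit 21363541487) (nat_lit 76) (nat_lit 12853428399) (nat_lit 9) (nat_lit 4) (nat_lit 10) (nat_lit 5) (nat_lit 10) (nat_lit 4) (nat_lit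 376) (nat_lit 221) (nat_lit 183)) (XT.lf (nat_lit 0) (nat_lit 11295538679) (nat_lit 76) (nat_lit 18409704323) (nat_lit 76) (nat_lit 9780124615) (nat_lit 9) (nat_lit 4) (nat_lit 10) (nat_lit 5) (nat_lit 10) (nat_lit 4) (nat_lit 377) (nat_lit 221) (nat_lit 182)))))) (XT.nd (nat_lit 546) (nat_lit 76) (nat_lit 0) (XT.nd (nat_lit 234) (nat_lit 152) (nat_lit 0) (XT.nd (nat_lit 78) (nat_lit 0) (nat_lit 0) (XT.lf (nat_lit 0) (nat_lit 18496415569) (nat_lit 76) (nat_lit 15403844683) (nat_lit 76) (nat_lit 6658277963) (nat_lit 9) (nat_lit 4) (nat_lit 10) (nat_lit 5) (nat_lit 10) (nat_lit 4) (nat_lit 378) (nat_lit 221) (nat_lit 181)) (XT.nd (nat_lit 78) (nat_lit 0) (nat_lit 0) (XT.lf (nat_lit 0) (nat_lit 25836651756) (nat_lit 76) (nat_lit 12343336086) (nat_lit 76) (nat_lit 3485160618) (nat_lit 9) (nat_lit 4) (nat_lit 10) (nat_lit 5) (nat_lit 10) (nat_lit 4) (nat_lit 379) (nat_lit 221) (nat_lit 180)) (XT.lf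 (nat_lit 0) (nat_lit 33322661038) (nat_lit 76) (nat_lit 9225504302) (nat_lit 76) (nat_lit 257999953) (nat_lit 9) (nat_lit 4) (nat_lit 10) (nat_lit 5) (nat_lit 10) (nat_lit 4) (nat_lit 380) (nat_lit 221) (nat_lit 179)))) (XT.nd (nat_lit 156) (nat_lit 0) (nat_lit 0) (XT.nd (nat_lit 78) (nat_lit 76) (nat_lit 0) (XT.lf (nat_lit 0) (nat_lit 2966975257) (nat_lit 152) (nat_lit 3050689122) (nat_lit 76) (nat_lit 37964048700) (nat_lit 8) (nat_lit 5) (nat_lit 10) (nat_lit 5) (nat_lit 9) (nat_lit 4) (nat_lit 381) (nat_lit 221) (nat_lit 178)) (XT.lf (nat_lit 0) (nat_lit 3571318047) (nat_lit 76) (nat_lit 2708494710) (nat_lit 152) (nat_lit 38912758122) (nat_lit 7) (nat_lit 5) (nat_lit 8) (nat_lit 5) (nat_lit 9) (nat_lit 4) (nat_lit 382) (nat_lit 221) (nat_lit 177))) (XT.nd (nat_lit 78) (nat_lit 0) (nat_lit 0) (XT.lf (nat_lit 0) (nat_lit 9691962503) (nat_lit 152) (nat_lit 36062397069) (nat_lit 0) (nat_lit 685405934)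 (nat_lit 7) (nat_lit 5) (nat_lit 9) (nat_lit 4) (nat_lit 7) (nat_lit 4) (nat_lit 383) (nat_lit 221) (nat_lit 176)) (XT.lf (nat_lit 0) (nat_lit 13196485541) (nat_lit 152) (nat_lit 30432577893) (nat_lit 0) (nat_lit 4095620919) (nat_lit 7) (nat_lit 5) (nat_lit 9) (nat_lit 4) (nat_lit 7) (nat_lit 4) (nat_lit 384) (nat_lit 221) (nat_lit 175))))) (XT.nd (nat_lit 234) (nat_lit 76) (nat_lit 0) (XT.nd (nat_lit 78) (nat_lit 0) (nat_lit 0) (XT.lf (nat_lit 0) (nat_lit 16770408370) (nat_lit 152) (nat_lit 24700840336) (nat_lit 0) (nat_lit 7577982530) (nat_lit 7) (nat_lit 5) (nat_lit 9) (nat_lit 4) (nat_lit 7) (nat_lit 4) (nat_lit 385) (nat_lit 221) (nat_lit 174)) (XT.nd (nat_lit 78) (nat_lit 0) (nat_lit 0) (XT.lf (nat_lit 0) (nat_lit 20416853835) (nat_lit 152) (nat_lit 18862176084) (nat_lit 0) (nat_lit 11135533609) (nat_lit 7) (nat_lit 5) (nat_lit 9) (nat_lit 4) (nat_lit 7) (nat_lit 4) (nat_lit 386) (nat_lit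 221) (nat_lit 173)) (XT.lf (nat_lit 0) (nat_lit 24139008149) (nat_lit 152) (nat_lit 12911483392) (nat_lit 0) (nat_lit 14771382695) (nat_lit 7) (nat_lit 5) (nat_lit 9) (nat_lit 4) (nat_lit 7) (nat_lit 4) (nat_lit 387) (nat_lit 221) (nat_lit 172)))) (XT.nd (nat_lit 156) (nat_lit 76) (nat_lit 0) (XT.nd (nat_lit 78) (nat_lit 0) (nat_lit 0) (XT.lf (nat_lit 0) (nat_lit 27940123682) (nat_lit 152) (nat_lit 6843562624) (nat_lit 0) (nat_lit 18488706743) (nat_lit 7) (nat_lit 5) (nat_lit 9) (nat_lit 4) (nat_lit 7) (nat_lit 4) (nat_lit 388) (nat_lit 221) (nat_lit 171)) (XT.lf (nat_lit 0) (nat_lit 31823521796) (nat_lit 152) (nat_lit 653111715) (nat_lit 0) (nat_lit 22290753901) (nat_lit 7) (nat_lit 5) (nat_lit 9) (nat_lit 4) (nat_lit 7) (nat_lit 4) (nat_lit 389) (nat_lit 221) (nat_lit 170))) (XT.nd (nat_lit 78) (nat_lit 0) (nat_lit 0) (XT.lf (nat_lit 0) (nat_lit 5778028616) (nat_lit 76) (nat_lit 30070109080)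 (nat_lit 76) (nat_lit 20458359675) (nat_lit 6) (nat_lit 4) (nat_lit 7) (nat_lit 5) (nat_lit 7) (nat_lit 4) (nat_lit 390) (nat_lit 221) (nat_lit 169)) (XT.lf (nat_lit 0) (nat_lit 12358283469) (nat_lit 76) (nat_lit 27611325581) (nat_lit 76) (nat_lit 17922895098) (nat_lit 6) (nat_lit 4) (nat_lit 7) (nat_lit 5) (nat_lit 7) (nat_lit 4) (nat_lit 391) (nat_lit 221) (nat_lit 168))))))) (XT.nd (nat_lit 1092) (nat_lit 0) (nat_lit 0) (XT.nd (nat_lit 546) (nat_lit 76) (nat_lit 0) (XT.nd (nat_lit 234) (nat_lit 76) (nat_lit 0) (XT.nd (nat_lit 78) (nat_lit 0) (nat_lit 0) (XT.lf (nat_lit 0) (nat_lit 19080404375) (nat_lit 76) (nat_lit 25104729712) (nat_lit 76) (nat_lit 15341851581) (nat_lit 6) (nat_lit 4) (nat_lit 7) (nat_lit 5) (nat_lit 7) (nat_lit 4) (nat_lit 392) (nat_lit 221) (nat_lit 167)) (XT.nd (nat_lit 78) (nat_lit 0) (nat_lit 0) (XT.lf (nat_lit 0) (nat_lit 25950265034) (nat_lit 76) (nat_lit 22548131244)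 (nat_lit 76) (nat_lit 12712973842) (nat_lit 6) (nat_lit 4) (nat_lit 7) (nat_lit 5) (nat_lit 7) (nat_lit 4) (nat_lit 393) (nat_lit 221) (nat_lit 166)) (XT.lf (nat_lit 0) (nat_lit 32973868234) (nat_lit 76) (nat_lit 19939296254) (nat_lit 76) (nat_lit 10033964803) (nat_lit 6) (nat_lit 4) (nat_lit 7) (nat_lit 5) (nat_lit 7) (nat_lit 4) (nat_lit 394) (nat_lit 221) (nat_lit 165)))) (XT.nd (nat_lit 156) (nat_lit 76) (nat_lit 0) (XT.nd (nat_lit 78) (nat_lit 0) (nat_lit 0) (XT.lf (nat_lit 0) (nat_lit 40157351107) (nat_lit 76) (nat_lit 17275945179) (nat_lit 76) (nat_lit 7302483583) (nat_lit 6) (nat_lit 4) (nat_lit 7) (nat_lit 5) (nat_lit 7) (nat_lit 4) (nat_lit 395) (nat_lit 221) (nat_lit 164)) (XT.lf (nat_lit 0) (nat_lit 47506990480) (nat_lit 76) (nat_lit 14555750818) (nat_lit 76) (nat_lit 4516143451) (nat_lit 6) (nat_lit 4) (nat_lit 7) (nat_lit 5) (nat_lit 7) (nat_lit 4) (nat_lit 396) (nat_lit 221) (nat_lit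 163))) (XT.nd (nat_lit 78) (nat_lit 76) (nat_lit 0) (XT.lf (nat_lit 0) (nat_lit 55029208370) (nat_lit 76) (nat_lit 11776336303) (nat_lit 76) (nat_lit 1672509741) (nat_lit 6) (nat_lit 4) (nat_lit 7) (nat_lit 5) (nat_lit 7) (nat_lit 4) (nat_lit 397) (nat_lit 221) (nat_lit 162)) (XT.lf (nat_lit 0) (nat_lit 1206882939) (nat_lit 152) (nat_lit 7716202929) (nat_lit 76) (nat_lit 61511507497) (nat_lit 5) (nat_lit 5) (nat_lit 7) (nat_lit 5) (nat_lit 6) (nat_lit 4) (nat_lit 398) (nat_lit 221) (nat_lit 161))))) (XT.nd (nat_lit 234) (nat_lit 0) (nat_lit 0) (XT.nd (nat_lit 78) (nat_lit 76) (nat_lit 0) (XT.lf (nat_lit 0) (nat_lit 4114738204) (nat_lit 152) (nat_lit 1873789492) (nat_lit 76) (nat_lit 66461538494) (nat_lit 5) (nat_lit 5) (nat_lit 7) (nat_lit 5) (nat_lit 6) (nat_lit 4) (nat_lit 399) (nat_lit 221) (nat_lit 160)) (XT.nd (nat_lit 78) (nat_lit 0) (nat_lit 0) (XT.lf (nat_lit 0) (nat_lit 4181166083) (nat_lit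 76) (nat_lit 2945259430) (nat_lit 152) (nat_lit 67399085026) (nat_lit 4) (nat_lit 5) (nat_lit 5) (nat_lit 5) (nat_lit 6) (nat_lit 4) (nat_lit 400) (nat_lit 221) (nat_lit 159)) (XT.lf (nat_lit 0) (nat_lit 10225864383) (nat_lit 152) (nat_lit 66252869231) (nat_lit 0) (nat_lit 184567653) (nat_lit 4) (nat_lit 5) (nat_lit 6) (nat_lit 4) (nat_lit 4) (nat_lit 4) (nat_lit 401) (nat_lit 221) (nat_lit 158)))) (XT.nd (nat_lit 156) (nat_lit 0) (nat_lit 0) (XT.nd (nat_lit 78) (nat_lit 0) (nat_lit 0) (XT.lf (nat_lit 0) (nat_lit 13424604944) (nat_lit 152) (nat_lit 62110910500) (nat_lit 0) (nat_lit 3329525649) (nat_lit 4) (nat_lit 5) (nat_lit 6) (nat_lit 4) (nat_lit 4) (nat_lit 4) (nat_lit 402) (nat_lit 221) (nat_lit 157)) (XT.lf (nat_lit 0) (nat_lit 16697130577) (nat_lit 152) (nat_lit 57886537440) (nat_lit 0) (nat_lit 6549835199) (nat_lit 4) (nat_lit 5) (nat_lit 6) (nat_lit 4) (nat_lit 4) (nat_lit 4) (nat_lit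 403) (nat_lit 221) (nat_lit 156))) (XT.nd (nat_lit 78) (nat_lit 0) (nat_lit 0) (XT.lf (nat_lit 0) (nat_lit 20046300770) (nat_lit 152) (nat_lit 53576058851) (nat_lit 0) (nat_lit 9848310165) (nat_lit 4) (nat_lit 5) (nat_lit 6) (nat_lit 4) (nat_lit 4) (nat_lit 4) (nat_lit 404) (nat_lit 221) (nat_lit 155)) (XT.lf (nat_lit 0) (nat_lit 23475041981) (nat_lit 152) (nat_lit 49175708296) (nat_lit 0) (nat_lit 13227832711) (nat_lit 4) (nat_lit 5) (nat_lit 6) (nat_lit 4) (nat_lit 4) (nat_lit 4) (nat_lit 405) (nat_lit 221) (nat_lit 154)))))) (XT.nd (nat_lit 35256) (nat_lit 0) (nat_lit 1824) (XT.nd (nat_lit 234) (nat_lit 0) (nat_lit 0) (XT.nd (nat_lit 78) (nat_lit 0) (nat_lit 0) (XT.lf (nat_lit 0) (nat_lit 26986350200) (nat_lit 152) (nat_lit 44681640807) (nat_lit 0) (nat_lit 16691355816) (nat_lit 4) (nat_lit 5) (nat_lit 6) (nat_lit 4) (nat_lit 4) (nat_lit 4) (nat_lit 406) (nat_lit 221) (nat_lit 153)) (XT.nd (nat_lit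 78) (nat_lit 0) (nat_lit 0) (XT.lf (nat_lit 0) (nat_lit 30583293558) (nat_lit 152) (nat_lit 40089929531) (nat_lit 0) (nat_lit 20241905862) (nat_lit 4) (nat_lit 5) (nat_lit 6) (nat_lit 4) (nat_lit 4) (nat_lit 4) (nat_lit 407) (nat_lit 221) (nat_lit 152)) (XT.lf (nat_lit 0) (nat_lit 34269015016) (nat_lit 152) (nat_lit 35396562292) (nat_lit 0) (nat_lit 23882585268) (nat_lit 4) (nat_lit 5) (nat_lit 6) (nat_lit 4) (nat_lit 4) (nat_lit 4) (nat_lit 408) (nat_lit 221) (nat_lit 151)))) (XT.nd (nat_lit 156) (nat_lit 0) (nat_lit 0) (XT.nd (nat_lit 78) (nat_lit 0) (nat_lit 0) (XT.lf (nat_lit 0) (nat_lit 38046735109) (nat_lit 152) (nat_lit 30597438089) (nat_lit 0) (nat_lit 27616575213) (nat_lit 4) (nat_lit 5) (nat_lit 6) (nat_lit 4) (nat_lit 4) (nat_lit 4) (nat_lit 409) (nat_lit 221) (nat_lit 150)) (XT.lf (nat_lit 0) (nat_lit 41919754755) (nat_lit 152) (nat_lit 25688363514) (nat_lit 0) (nat_lit 31447138406)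 (nat_lit 4) (nat_lit 5) (nat_lit 6) (nat_lit 4) (nat_lit 4) (nat_lit 4) (nat_lit 410) (nat_lit 221) (nat_lit 149))) (XT.nd (nat_lit 34788) (nat_lit 0) (nat_lit 2280) (XT.lf (nat_lit 0) (nat_lit 45891458147) (nat_lit 152) (nat_lit 20665049082) (nat_lit 0) (nat_lit 35377621940) (nat_lit 4) (nat_lit 5) (nat_lit 6) (nat_lit 4) (nat_lit 4) (nat_lit 4) (nat_lit 411) (nat_lit 221) (nat_lit 148)) (XT.lf (nat_lit 0) (nat_lit 2011195148) (nat_lit 152) (nat_lit 2713376513) (nat_lit 152) (nat_lit 2713376513) (nat_lit 34) (nat_lit 4) (nat_lit 36) (nat_lit 5) (nat_lit 36) (nat_lit 4) (nat_lit 336) (nat_lit 222) (nat_lit 222))))) (XT.nd (nat_lit 234) (nat_lit 304) (nat_lit 0) (XT.nd (nat_lit 78) (nat_lit 152) (nat_lit 0) (XT.lf (nat_lit 0) (nat_lit 12456095987) (nat_lit 152) (nat_lit 1592698757) (nat_lit 152) (nat_lit 1127371045) (nat_lit 34) (nat_lit 4) (nat_lit 36) (nat_lit 5) (nat_lit 36) (nat_lit 4) (nat_lit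 337) (nat_lit 222) (nat_lit 221)) (XT.nd (nat_lit 78) (nat_lit 0) (nat_lit 0) (XT.lf (nat_lit 0) (nat_lit 3219353601) (nat_lit 152) (nat_lit 9936731599) (nat_lit 0) (nat_lit 2328963126) (nat_lit 32) (nat_lit 5) (nat_lit 34) (nat_lit 4) (nat_lit 32) (nat_lit 4) (nat_lit 338) (nat_lit 222) (nat_lit 220)) (XT.lf (nat_lit 0) (nat_lit 7624233409) (nat_lit 152) (nat_lit 1872153571) (nat_lit 0) (nat_lit 6308002161) (nat_lit 32) (nat_lit 5) (nat_lit 34) (nat_lit 4) (nat_lit 32) (nat_lit 4) (nat_lit 339) (nat_lit 222) (nat_lit 219)))) (XT.nd (nat_lit 156) (nat_lit 76) (nat_lit 0) (XT.nd (nat_lit 78) (nat_lit 76) (nat_lit 0) (XT.lf (nat_lit 0) (nat_lit 6400926606) (nat_lit 152) (nat_lit 5731478011) (nat_lit 152) (nat_lit 4001809118) (nat_lit 30) (nat_lit 4) (nat_lit 32) (nat_lit 5) (nat_lit 32) (nat_lit 4) (nat_lit 340) (nat_lit 222) (nat_lit 218)) (XT.lf (nat_lit 0) (nat_lit 224910201) (nat_lit 228) (nat_lit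 1674496956) (nat_lit 76) (nat_lit 14576607182) (nat_lit 29) (nat_lit 5) (nat_lit 32) (nat_lit 5) (nat_lit 30) (nat_lit 4) (nat_lit 341) (nat_lit 222) (nat_lit 217))) (XT.nd (nat_lit 78) (nat_lit 0) (nat_lit 0) (XT.lf (nat_lit 0) (nat_lit 4493570339) (nat_lit 152) (nat_lit 10287255997) (nat_lit 0) (nat_lit 2046221506) (nat_lit 28) (nat_lit 5) (nat_lit 30) (nat_lit 4) (nat_lit 28) (nat_lit 4) (nat_lit 342) (nat_lit 222) (nat_lit 216)) (XT.lf (nat_lit 0) (nat_lit 8839070014) (nat_lit 152) (nat_lit 2326725431) (nat_lit 0) (nat_lit 6024387189) (nat_lit 28) (nat_lit 5) (nat_lit 30) (nat_lit 4) (nat_lit 28) (nat_lit 4) (nat_lit 343) (nat_lit 222) (nat_lit 215))))))))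
noncomputable def xc26 : XT := (XT.nd (nat_lit 2106) (nat_lit 380) (nat_lit 0) (XT.nd (nat_lit 1014) (nat_lit 380) (nat_lit 0) (XT.nd (nat_lit 468) (nat_lit 456) (nat_lit 0) (XT.nd (nat_lit 234) (nat_lit 152) (nat_lit 0) (XT.nd (nat_lit 78) (nat_lit 152) (nat_lit 0) (XT.lf (nat_lit 0) (nat_lit 5836530469) (nat_lit 152) (nat_lit 7449942656) (nat_lit 152) (nat_lit 4278624887) (nat_lit 26) (nat_lit 4) (nat_lit 28) (nat_lit 5) (nat_lit 28) (nat_lit 4) (nat_lit 344) (nat_lit 222) (nat_lit 214)) (XT.nd (nat_lit 78) (nat_lit 152) (nat_lit 0) (XT.lf (nat_lit 0) (nat_lit 14143867738) (nat_lit 152) (nat_lit 3663395597) (nat_lit 152) (nat_lit 145830309) (nat_lit 26) (nat_lit 4) (nat_lit 28) (nat_lit 5) (nat_lit 28) (nat_lit 4) (nat_lit 345) (nat_lit 222) (nat_lit 213)) (XT.lf (nat_lit 0) (nat_lit 3992061932) (nat_lit 152) (nat_lit 14110093121) (nat_lit 0) (nat_lit 250578508) (nat_lit 24) (nat_lit 5) (nat_lit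 26) (nat_lit 4) (nat_lit 24) (nat_lit 4) (nat_lit 346) (nat_lit 222) (nat_lit 212)))) (XT.nd (nat_lit 78) (nat_lit 152) (nat_lit 0) (XT.lf (nat_lit 0) (nat_lit 8244734957) (nat_lit 152) (nat_lit 6333420198) (nat_lit 0) (nat_lit 4186386003) (nat_lit 24) (nat_lit 5) (nat_lit 26) (nat_lit 4) (nat_lit 24) (nat_lit 4) (nat_lit 347) (nat_lit 222) (nat_lit 211)) (XT.nd (nat_lit 78) (nat_lit 0) (nat_lit 0) (XT.lf (nat_lit 0) (nat_lit 1565089848) (nat_lit 152) (nat_lit 10995775209) (nat_lit 152) (nat_lit 6629789820) (nat_lit 22) (nat_lit 4) (nat_lit 24) (nat_lit 5) (nat_lit 24) (nat_lit 4) (nat_lit 348) (nat_lit 222) (nat_lit 210)) (XT.lf (nat_lit 0) (nat_lit 9689772690) (nat_lit 152) (nat_lit 7302447997) (nat_lit 152) (nat_lit 2637786457) (nat_lit 22) (nat_lit 4) (nat_lit 24) (nat_lit 5) (nat_lit 24) (nat_lit 4) (nat_lit 349) (nat_lit 222) (nat_lit 209))))) (XT.nd (nat_lit 234) (nat_lit 304) (nat_lit 0)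 (XT.nd (nat_lit 78) (nat_lit 76) (nat_lit 0) (XT.lf (nat_lit 0) (nat_lit 1368501066) (nat_lit 228) (nat_lit 2176581220) (nat_lit 76) (nat_lit 16539359838) (nat_lit 21) (nat_lit 5) (nat_lit 24) (nat_lit 5) (nat_lit 22) (nat_lit 4) (nat_lit 350) (nat_lit 222) (nat_lit 208)) (XT.nd (nat_lit 78) (nat_lit 0) (nat_lit 0) (XT.lf (nat_lit 0) (nat_lit 5426329267) (nat_lit 152) (nat_lit 14783221628) (nat_lit 0) (nat_lit 342669748) (nat_lit 20) (nat_lit 5) (nat_lit 22) (nat_lit 4) (nat_lit 20) (nat_lit 4) (nat_lit 351) (nat_lit 222) (nat_lit 207)) (XT.lf (nat_lit 0) (nat_lit 9589034806) (nat_lit 152) (nat_lit 7205522369) (nat_lit 0) (nat_lit 4240005396) (nat_lit 20) (nat_lit 5) (nat_lit 22) (nat_lit 4) (nat_lit 20) (nat_lit 4) (nat_lit 352) (nat_lit 222) (nat_lit 206)))) (XT.nd (nat_lit 156) (nat_lit 152) (nat_lit 0) (XT.nd (nat_lit 78) (nat_lit 0) (nat_lit 0) (XT.lf (nat_lit 0) (nat_lit 478360632) (nat_lit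 152) (nat_lit 13330864854) (nat_lit 152) (nat_lit 7724194772) (nat_lit 18) (nat_lit 4) (nat_lit 20) (nat_lit 5) (nat_lit 20) (nat_lit 4) (nat_lit 353) (nat_lit 222) (nat_lit 205)) (XT.lf (nat_lit 0) (nat_lit 8411263728) (nat_lit 152) (nat_lit 9746380433) (nat_lit 152) (nat_lit 3889573777) (nat_lit 18) (nat_lit 4) (nat_lit 20) (nat_lit 5) (nat_lit 20) (nat_lit 4) (nat_lit 354) (nat_lit 222) (nat_lit 204))) (XT.nd (nat_lit 78) (nat_lit 152) (nat_lit 0) (XT.lf (nat_lit 0) (nat_lit 16456714557) (nat_lit 152) (nat_lit 6110733488) (nat_lit 152) (nat_lit 11075789) (nat_lit 18) (nat_lit 4) (nat_lit 20) (nat_lit 5) (nat_lit 20) (nat_lit 4) (nat_lit 355) (nat_lit 222) (nat_lit 203)) (XT.lf (nat_lit 0) (nat_lit 1485293989) (nat_lit 76) (nat_lit 2367282070) (nat_lit 152) (nat_lit 19273668896) (nat_lit 16) (nat_lit 5) (nat_lit 17) (nat_lit 5) (nat_lit 18) (nat_lit 4) (nat_lit 356) (nat_lit 222) (nat_lit 202))))))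 (XT.nd (nat_lit 546) (nat_lit 152) (nat_lit 0) (XT.nd (nat_lit 234) (nat_lit 152) (nat_lit 0) (XT.nd (nat_lit 78) (nat_lit 76) (nat_lit 0) (XT.lf (nat_lit 0) (nat_lit 7841184534) (nat_lit 152) (nat_lit 14380918907) (nat_lit 0) (nat_lit 1468033261) (nat_lit 16) (nat_lit 5) (nat_lit 18) (nat_lit 4) (nat_lit 16) (nat_lit 4) (nat_lit 357) (nat_lit 222) (nat_lit 201)) (XT.nd (nat_lit 78) (nat_lit 76) (nat_lit 0) (XT.lf (nat_lit 0) (nat_lit 11907386049) (nat_lit 152) (nat_lit 7046376122) (nat_lit 0) (nat_lit 5318464770) (nat_lit 16) (nat_lit 5) (nat_lit 18) (nat_lit 4) (nat_lit 16) (nat_lit 4) (nat_lit 358) (nat_lit 222) (nat_lit 200)) (XT.lf (nat_lit 0) (nat_lit 399640399) (nat_lit 76) (nat_lit 15636179021) (nat_lit 76) (nat_lit 8837772298) (nat_lit 15) (nat_lit 4) (nat_lit 16) (nat_lit 5) (nat_lit 16) (nat_lit 4) (nat_lit 359) (nat_lit 222) (nat_lit 199)))) (XT.nd (nat_lit 156) (nat_lit 152) (nat_lit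 0) (XT.nd (nat_lit 78) (nat_lit 0) (nat_lit 0) (XT.lf (nat_lit 0) (nat_lit 8098261042) (nat_lit 76) (nat_lit 12198148292) (nat_lit 76) (nat_lit 5196357644) (nat_lit 15) (nat_lit 4) (nat_lit 16) (nat_lit 5) (nat_lit 16) (nat_lit 4) (nat_lit 360) (nat_lit 222) (nat_lit 198)) (XT.lf (nat_lit 0) (nat_lit 15915976055) (nat_lit 76) (nat_lit 8707820462) (nat_lit 76) (nat_lit 1508569692) (nat_lit 15) (nat_lit 4) (nat_lit 16) (nat_lit 5) (nat_lit 16) (nat_lit 4) (nat_lit 361) (nat_lit 222) (nat_lit 197))) (XT.nd (nat_lit 78) (nat_lit 76) (nat_lit 0) (XT.lf (nat_lit 0) (nat_lit 2185321707) (nat_lit 152) (nat_lit 2954756559) (nat_lit 76) (nat_lit 21652227281) (nat_lit 14) (nat_lit 5) (nat_lit 16) (nat_lit 5) (nat_lit 15) (nat_lit 4) (nat_lit 362) (nat_lit 222) (nat_lit 196)) (XT.lf (nat_lit 0) (nat_lit 4490805775) (nat_lit 76) (nat_lit 1453967871) (nat_lit 152) (nat_lit 21527285958) (nat_lit 13) (nat_lit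 5) (nat_lit 14) (nat_lit 5) (nat_lit 15) (nat_lit 4) (nat_lit 363) (nat_lit 222) (nat_lit 195))))) (XT.nd (nat_lit 234) (nat_lit 152) (nat_lit 0) (XT.nd (nat_lit 78) (nat_lit 0) (nat_lit 0) (XT.lf (nat_lit 0) (nat_lit 9811772453) (nat_lit 152) (nat_lit 16080668263) (nat_lit 0) (nat_lit 2279938752) (nat_lit 13) (nat_lit 5) (nat_lit 15) (nat_lit 4) (nat_lit 13) (nat_lit 4) (nat_lit 364) (nat_lit 222) (nat_lit 194)) (XT.nd (nat_lit 78) (nat_lit 0) (nat_lit 0) (XT.lf (nat_lit 0) (nat_lit 13752973961) (nat_lit 152) (nat_lit 9091195375) (nat_lit 0) (nat_lit 6050809425) (nat_lit 13) (nat_lit 5) (nat_lit 15) (nat_lit 4) (nat_lit 13) (nat_lit 4) (nat_lit 365) (nat_lit 222) (nat_lit 193)) (XT.lf (nat_lit 0) (nat_lit 17757845512) (nat_lit 152) (nat_lit 1992751428) (nat_lit 0) (nat_lit 9890311232) (nat_lit 13) (nat_lit 5) (nat_lit 15) (nat_lit 4) (nat_lit 13) (nat_lit 4) (nat_lit 366) (nat_lit 222) (nat_lit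 192)))) (XT.nd (nat_lit 156) (nat_lit 76) (nat_lit 0) (XT.nd (nat_lit 78) (nat_lit 0) (nat_lit 0) (XT.lf (nat_lit 0) (nat_lit 5324771571) (nat_lit 76) (nat_lit 16556299898) (nat_lit 76) (nat_lit 8528212470) (nat_lit 12) (nat_lit 4) (nat_lit 13) (nat_lit 5) (nat_lit 13) (nat_lit 4) (nat_lit 367) (nat_lit 222) (nat_lit 191)) (XT.lf (nat_lit 0) (nat_lit 12805848600) (nat_lit 76) (nat_lit 13289904093) (nat_lit 76) (nat_lit 5105939821) (nat_lit 12) (nat_lit 4) (nat_lit 13) (nat_lit 5) (nat_lit 13) (nat_lit 4) (nat_lit 368) (nat_lit 222) (nat_lit 190))) (XT.nd (nat_lit 78) (nat_lit 76) (nat_lit 0) (XT.lf (nat_lit 0) (nat_lit 20417356860) (nat_lit 76) (nat_lit 9968678275) (nat_lit 76) (nat_lit 1633377262) (nat_lit 12) (nat_lit 4) (nat_lit 13) (nat_lit 5) (nat_lit 13) (nat_lit 4) (nat_lit 369) (nat_lit 222) (nat_lit 189)) (XT.lf (nat_lit 0) (nat_lit 1855579809) (nat_lit 152) (nat_lit 4715402875) (nat_lit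 76) (nat_lit 26291629657) (nat_lit 11) (nat_lit 5) (nat_lit 13) (nat_lit 5) (nat_lit 12) (nat_lit 4) (nat_lit 370) (nat_lit 222) (nat_lit 188))))))) (XT.nd (nat_lit 1092) (nat_lit 76) (nat_lit 0) (XT.nd (nat_lit 546) (nat_lit 152) (nat_lit 0) (XT.nd (nat_lit 234) (nat_lit 76) (nat_lit 0) (XT.nd (nat_lit 78) (nat_lit 0) (nat_lit 0) (XT.lf (nat_lit 0) (nat_lit 2317315336) (nat_lit 76) (nat_lit 3072928317) (nat_lit 152) (nat_lit 28341176146) (nat_lit 10) (nat_lit 5) (nat_lit 11) (nat_lit 5) (nat_lit 12) (nat_lit 4) (nat_lit 371) (nat_lit 222) (nat_lit 187)) (XT.nd (nat_lit 78) (nat_lit 0) (nat_lit 0) (XT.lf (nat_lit 0) (nat_lit 9035886979) (nat_lit 152) (nat_lit 25062511603) (nat_lit 0) (nat_lit 527757039) (nat_lit 10) (nat_lit 5) (nat_lit 12) (nat_lit 4) (nat_lit 10) (nat_lit 4) (nat_lit 372) (nat_lit 222) (nat_lit 186)) (XT.lf (nat_lit 0) (nat_lit 12774486247) (nat_lit 152) (nat_lit 18637939734)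 (nat_lit 0) (nat_lit 4135811905) (nat_lit 10) (nat_lit 5) (nat_lit 12) (nat_lit 4) (nat_lit 10) (nat_lit 4) (nat_lit 373) (nat_lit 222) (nat_lit 185)))) (XT.nd (nat_lit 156) (nat_lit 76) (nat_lit 0) (XT.nd (nat_lit 78) (nat_lit 0) (nat_lit 0) (XT.lf (nat_lit 0) (nat_lit 16579769328) (nat_lit 152) (nat_lit 12105236287) (nat_lit 0) (nat_lit 7814352848) (nat_lit 10) (nat_lit 5) (nat_lit 12) (nat_lit 4) (nat_lit 10) (nat_lit 4) (nat_lit 374) (nat_lit 222) (nat_lit 184)) (XT.lf (nat_lit 0) (nat_lit 20455061227) (nat_lit 152) (nat_lit 5458693075) (nat_lit 0) (nat_lit 11566594128) (nat_lit 10) (nat_lit 5) (nat_lit 12) (nat_lit 4) (nat_lit 10) (nat_lit 4) (nat_lit 375) (nat_lit 222) (nat_lit 183))) (XT.nd (nat_lit 78) (nat_lit 0) (nat_lit 0) (XT.lf (nat_lit 0) (nat_lit 1333519327) (nat_lit 76) (nat_lit 23083047398) (nat_lit 76) (nat_lit 14075113677) (nat_lit 9) (nat_lit 4) (nat_lit 10) (nat_lit 5) (nat_lit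 10) (nat_lit 4) (nat_lit 376) (nat_lit 222) (nat_lit 182)) (XT.lf (nat_lit 0) (nat_lit 8362428938) (nat_lit 76) (nat_lit 20147236165) (nat_lit 76) (nat_lit 11023315433) (nat_lit 9) (nat_lit 4) (nat_lit 10) (nat_lit 5) (nat_lit 10) (nat_lit 4) (nat_lit 377) (nat_lit 222) (nat_lit 181))))) (XT.nd (nat_lit 234) (nat_lit 152) (nat_lit 0) (XT.nd (nat_lit 78) (nat_lit 0) (nat_lit 0) (XT.lf (nat_lit 0) (nat_lit 15525538828) (nat_lit 76) (nat_lit 17158877427) (nat_lit 76) (nat_lit 7922347947) (nat_lit 9) (nat_lit 4) (nat_lit 10) (nat_lit 5) (nat_lit 10) (nat_lit 4) (nat_lit 378) (nat_lit 222) (nat_lit 180)) (XT.nd (nat_lit 78) (nat_lit 0) (nat_lit 0) (XT.lf (nat_lit 0) (nat_lit 22829108024) (nat_lit 76) (nat_lit 14115359998) (nat_lit 76) (nat_lit 4769501636) (nat_lit 9) (nat_lit 4) (nat_lit 10) (nat_lit 5) (nat_lit 10) (nat_lit 4) (nat_lit 379) (nat_lit 222) (nat_lit 179)) (XT.lf (nat_lit 0) (nat_lit 30279518287)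 (nat_lit 76) (nat_lit 11014024493) (nat_lit 76) (nat_lit 1562021586) (nat_lit 9) (nat_lit 4) (nat_lit 10) (nat_lit 5) (nat_lit 10) (nat_lit 4) (nat_lit 380) (nat_lit 222) (nat_lit 178)))) (XT.nd (nat_lit 156) (nat_lit 0) (nat_lit 0) (XT.nd (nat_lit 78) (nat_lit 76) (nat_lit 0) (XT.lf (nat_lit 0) (nat_lit 1669665242) (nat_lit 152) (nat_lit 6165635421) (nat_lit 76) (nat_lit 36196754096) (nat_lit 8) (nat_lit 5) (nat_lit 10) (nat_lit 5) (nat_lit 9) (nat_lit 4) (nat_lit 381) (nat_lit 222) (nat_lit 177)) (XT.lf (nat_lit 0) (nat_lit 359781226) (nat_lit 76) (nat_lit 4573661386) (nat_lit 152) (nat_lit 40310946139) (nat_lit 7) (nat_lit 5) (nat_lit 8) (nat_lit 5) (nat_lit 9) (nat_lit 4) (nat_lit 382) (nat_lit 222) (nat_lit 176))) (XT.nd (nat_lit 78) (nat_lit 0) (nat_lit 0) (XT.lf (nat_lit 0) (nat_lit 7139163568) (nat_lit 76) (nat_lit 1181727141) (nat_lit 152) (nat_lit 38171437977) (nat_lit 7) (nat_lit 5)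 (nat_lit 8) (nat_lit 5) (nat_lit 9) (nat_lit 4) (nat_lit 383) (nat_lit 222) (nat_lit 175)) (XT.lf (nat_lit 0) (nat_lit 11796450372) (nat_lit 152) (nat_lit 33744979658) (nat_lit 0) (nat_lit 2236690540) (nat_lit 7) (nat_lit 5) (nat_lit 9) (nat_lit 4) (nat_lit 7) (nat_lit 4) (nat_lit 384) (nat_lit 222) (nat_lit 174)))))) (XT.nd (nat_lit 546) (nat_lit 0) (nat_lit 0) (XT.nd (nat_lit 234) (nat_lit 76) (nat_lit 0) (XT.nd (nat_lit 78) (nat_lit 0) (nat_lit 0) (XT.lf (nat_lit 0) (nat_lit 15353282044) (nat_lit 152) (nat_lit 28045274333) (nat_lit 0) (nat_lit 5704627826) (nat_lit 7) (nat_lit 5) (nat_lit 9) (nat_lit 4) (nat_lit 7) (nat_lit 4) (nat_lit 385) (nat_lit 222) (nat_lit 173)) (XT.nd (nat_lit 78) (nat_lit 0) (nat_lit 0) (XT.lf (nat_lit 0) (nat_lit 18983134152) (nat_lit 152) (nat_lit 22237709336) (nat_lit 0) (nat_lit 9248174705) (nat_lit 7) (nat_lit 5) (nat_lit 9) (nat_lit 4) (nat_lit 7) (nat_lit 4) (nat_lit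 386) (nat_lit 222) (nat_lit 172)) (XT.lf (nat_lit 0) (nat_lit 22689178412) (nat_lit 152) (nat_lit 16317210095) (nat_lit 0) (nat_lit 12870427480) (nat_lit 7) (nat_lit 5) (nat_lit 9) (nat_lit 4) (nat_lit 7) (nat_lit 4) (nat_lit 387) (nat_lit 222) (nat_lit 171)))) (XT.nd (nat_lit 156) (nat_lit 76) (nat_lit 0) (XT.nd (nat_lit 78) (nat_lit 0) (nat_lit 0) (XT.lf (nat_lit 0) (nat_lit 26474653114) (nat_lit 152) (nat_lit 10278603357) (nat_lit 0) (nat_lit 16574551227) (nat_lit 7) (nat_lit 5) (nat_lit 9) (nat_lit 4) (nat_lit 7) (nat_lit 4) (nat_lit 388) (nat_lit 222) (nat_lit 170)) (XT.lf (nat_lit 0) (nat_lit 30342865956) (nat_lit 152) (nat_lit 4116612672) (nat_lit 0) (nat_lit 20363782558) (nat_lit 7) (nat_lit 5) (nat_lit 9) (nat_lit 4) (nat_lit 7) (nat_lit 4) (nat_lit 389) (nat_lit 222) (nat_lit 169))) (XT.nd (nat_lit 78) (nat_lit 0) (nat_lit 0) (XT.lf (nat_lit 0) (nat_lit 2217415998) (nat_lit 76) (nat_lit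 32101096089) (nat_lit 76) (nat_lit 22045331614) (nat_lit 6) (nat_lit 4) (nat_lit 7) (nat_lit 5) (nat_lit 7) (nat_lit 4) (nat_lit 390) (nat_lit 222) (nat_lit 168)) (XT.lf (nat_lit 0) (nat_lit 8770310460) (nat_lit 76) (nat_lit 29655096401) (nat_lit 76) (nat_lit 19524884277) (nat_lit 6) (nat_lit 4) (nat_lit 7) (nat_lit 5) (nat_lit 7) (nat_lit 4) (nat_lit 391) (nat_lit 222) (nat_lit 167))))) (XT.nd (nat_lit 234) (nat_lit 0) (nat_lit 0) (XT.nd (nat_lit 78) (nat_lit 0) (nat_lit 0) (XT.lf (nat_lit 0) (nat_lit 15465867881) (nat_lit 76) (nat_lit 27160911998) (nat_lit 76) (nat_lit 16958420604) (nat_lit 6) (nat_lit 4) (nat_lit 7) (nat_lit 5) (nat_lit 7) (nat_lit 4) (nat_lit 392) (nat_lit 222) (nat_lit 166)) (XT.nd (nat_lit 78) (nat_lit 0) (nat_lit 0) (XT.lf (nat_lit 0) (nat_lit 22309938748) (nat_lit 76) (nat_lit 24616363496) (nat_lit 76) (nat_lit 14343698053) (nat_lit 6) (nat_lit 4) (nat_lit 7) (nat_lit 5)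 (nat_lit 7) (nat_lit 4) (nat_lit 393) (nat_lit 222) (nat_lit 165)) (XT.lf (nat_lit 0) (nat_lit 29308503316) (nat_lit 76) (nat_lit 22019227504) (nat_lit 76) (nat_lit 11678431916) (nat_lit 6) (nat_lit 4) (nat_lit 7) (nat_lit 5) (nat_lit 7) (nat_lit 4) (nat_lit 394) (nat_lit 222) (nat_lit 164)))) (XT.nd (nat_lit 156) (nat_lit 0) (nat_lit 0) (XT.nd (nat_lit 78) (nat_lit 0) (nat_lit 0) (XT.lf (nat_lit 0) (nat_lit 36467676836) (nat_lit 76) (nat_lit 19367234678) (nat_lit 76) (nat_lit 8960293319) (nat_lit 6) (nat_lit 4) (nat_lit 7) (nat_lit 5) (nat_lit 7) (nat_lit 4) (nat_lit 395) (nat_lit 222) (nat_lit 163)) (XT.lf (nat_lit 0) (nat_lit 43793714897) (nat_lit 76) (nat_lit 16658067745) (nat_lit 76) (nat_lit 6186907190) (nat_lit 6) (nat_lit 4) (nat_lit 7) (nat_lit 5) (nat_lit 7) (nat_lit 4) (nat_lit 396) (nat_lit 222) (nat_lit 162))) (XT.nd (nat_lit 78) (nat_lit 0) (nat_lit 0) (XT.lf (nat_lit 0) (nat_lit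 51293018891) (nat_lit 76) (nat_lit 13889359469) (nat_lit 76) (nat_lit 3355850181) (nat_lit 6) (nat_lit 4) (nat_lit 7) (nat_lit 5) (nat_lit 7) (nat_lit 4) (nat_lit 397) (nat_lit 222) (nat_lit 161)) (XT.lf (nat_lit 0) (nat_lit 58972141608) (nat_lit 76) (nat_lit 11058690593) (nat_lit 76) (nat_lit 464648553) (nat_lit 6) (nat_lit 4) (nat_lit 7) (nat_lit 5) (nat_lit 7) (nat_lit 4) (nat_lit 398) (nat_lit 222) (nat_lit 160))))))))
noncomputable def xc27 : XT := (XT.nd (nat_lit 36738) (nat_lit 0) (nat_lit 456) (XT.nd (nat_lit 35646) (nat_lit 0) (nat_lit 1368) (XT.nd (nat_lit 546) (nat_lit 0) (nat_lit 0) (XT.nd (nat_lit 234) (nat_lit 0) (nat_lit 0) (XT.nd (nat_lit 78) (nat_lit 76) (nat_lit 0) (XT.lf (nat_lit 0) (nat_lit 2440650259) (nat_lit 152) (nat_lit 5698291674) (nat_lit 76) (nat_lit 64372496920) (nat_lit 5) (nat_lit 5) (nat_lit 7) (nat_lit 5) (nat_lit 6) (nat_lit 4) (nat_lit 399) (nat_lit 222) (nat_lit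 159)) (XT.nd (nat_lit 78) (nat_lit 0) (nat_lit 0) (XT.lf (nat_lit 0) (nat_lit 258930402) (nat_lit 76) (nat_lit 5144419364) (nat_lit 152) (nat_lit 69185005571) (nat_lit 4) (nat_lit 5) (nat_lit 5) (nat_lit 5) (nat_lit 6) (nat_lit 4) (nat_lit 400) (nat_lit 222) (nat_lit 158)) (XT.lf (nat_lit 0) (nat_lit 6469071383) (nat_lit 76) (nat_lit 2020749823) (nat_lit 152) (nat_lit 68236716312) (nat_lit 4) (nat_lit 5) (nat_lit 5) (nat_lit 5) (nat_lit 6) (nat_lit 4) (nat_lit 401) (nat_lit 222) (nat_lit 157)))) (XT.nd (nat_lit 156) (nat_lit 0) (nat_lit 0) (XT.nd (nat_lit 78) (nat_lit 0) (nat_lit 0) (XT.lf (nat_lit 0) (nat_lit 11658212382) (nat_lit 152) (nat_lit 66116695742) (nat_lit 0) (nat_lit 1154282060) (nat_lit 4) (nat_lit 5) (nat_lit 6) (nat_lit 4) (nat_lit 4) (nat_lit 4) (nat_lit 402) (nat_lit 222) (nat_lit 156)) (XT.lf (nat_lit 0) (nat_lit 14920131508) (nat_lit 152) (nat_lit 61912335324) (nat_lit 0) (nat_lit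 4365505959) (nat_lit 4) (nat_lit 5) (nat_lit 6) (nat_lit 4) (nat_lit 4) (nat_lit 4) (nat_lit 403) (nat_lit 222) (nat_lit 155))) (XT.nd (nat_lit 78) (nat_lit 0) (nat_lit 0) (XT.lf (nat_lit 0) (nat_lit 18259004121) (nat_lit 152) (nat_lit 57621286484) (nat_lit 0) (nat_lit 7655159906) (nat_lit 4) (nat_lit 5) (nat_lit 6) (nat_lit 4) (nat_lit 4) (nat_lit 4) (nat_lit 404) (nat_lit 222) (nat_lit 154)) (XT.lf (nat_lit 0) (nat_lit 21677747682) (nat_lit 152) (nat_lit 53239799763) (nat_lit 0) (nat_lit 11026118355) (nat_lit 4) (nat_lit 5) (nat_lit 6) (nat_lit 4) (nat_lit 4) (nat_lit 4) (nat_lit 405) (nat_lit 222) (nat_lit 153))))) (XT.nd (nat_lit 234) (nat_lit 0) (nat_lit 0) (XT.nd (nat_lit 78) (nat_lit 0) (nat_lit 0) (XT.lf (nat_lit 0) (nat_lit 25179349444) (nat_lit 152) (nat_lit 48764046677) (nat_lit 0) (nat_lit 14481326804) (nat_lit 4) (nat_lit 5) (nat_lit 6) (nat_lit 4) (nat_lit 4) (nat_lit 4) (nat_lit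 406) (nat_lit 222) (nat_lit 152)) (XT.nd (nat_lit 78) (nat_lit 0) (nat_lit 0) (XT.lf (nat_lit 0) (nat_lit 28766869058) (nat_lit 152) (nat_lit 44190116374) (nat_lit 0) (nat_lit 18023804366) (nat_lit 4) (nat_lit 5) (nat_lit 6) (nat_lit 4) (nat_lit 4) (nat_lit 4) (nat_lit 407) (nat_lit 222) (nat_lit 151)) (XT.lf (nat_lit 0) (nat_lit 32443441251) (nat_lit 152) (nat_lit 39514012215) (nat_lit 0) (nat_lit 21656646411) (nat_lit 4) (nat_lit 5) (nat_lit 6) (nat_lit 4) (nat_lit 4) (nat_lit 4) (nat_lit 408) (nat_lit 222) (nat_lit 150)))) (XT.nd (nat_lit 156) (nat_lit 0) (nat_lit 0) (XT.nd (nat_lit 78) (nat_lit 0) (nat_lit 0) (XT.lf (nat_lit 0) (nat_lit 36212278560) (nat_lit 152) (nat_lit 34731648285) (nat_lit 0) (nat_lit 25383027267) (nat_lit 4) (nat_lit 5) (nat_lit 6) (nat_lit 4) (nat_lit 4) (nat_lit 4) (nat_lit 409) (nat_lit 222) (nat_lit 149)) (XT.lf (nat_lit 0) (nat_lit 40076674146) (nat_lit 152) (nat_lit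 29838845819) (nat_lit 0) (nat_lit 29206202995) (nat_lit 4) (nat_lit 5) (nat_lit 6) (nat_lit 4) (nat_lit 4) (nat_lit 4) (nat_lit 410) (nat_lit 222) (nat_lit 148))) (XT.nd (nat_lit 34632) (nat_lit 0) (nat_lit 2432) (XT.lf (nat_lit 0) (nat_lit 44040004664) (nat_lit 152) (nat_lit 24831329552) (nat_lit 0) (nat_lit 33129514233) (nat_lit 4) (nat_lit 5) (nat_lit 6) (nat_lit 4) (nat_lit 4) (nat_lit 4) (nat_lit 411) (nat_lit 222) (nat_lit 147)) (XT.lf (nat_lit 0) (nat_lit 508894360) (nat_lit 228) (nat_lit 6134572765) (nat_lit 0) (nat_lit 508894360) (nat_lit 36) (nat_lit 5) (nat_lit 39) (nat_lit 4) (nat_lit 36) (nat_lit 4) (nat_lit 334) (nat_lit 223) (nat_lit 223)))))) (XT.nd (nat_lit 546) (nat_lit 532) (nat_lit 0) (XT.nd (nat_lit 234) (nat_lit 380) (nat_lit 0) (XT.nd (nat_lit 78) (nat_lit 152) (nat_lit 0) (XT.lf (nat_lit 0) (nat_lit 5411677550) (nat_lit 228) (nat_lit 4241878648) (nat_lit 0) (nat_lit 4932390007)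 (nat_lit 36) (nat_lit 5) (nat_lit 39) (nat_lit 4) (nat_lit 36) (nat_lit 4) (nat_lit 335) (nat_lit 223) (nat_lit 222)) (XT.nd (nat_lit 78) (nat_lit 0) (nat_lit 0) (XT.lf (nat_lit 0) (nat_lit 3940889963) (nat_lit 152) (nat_lit 5940526542) (nat_lit 152) (nat_lit 4995911288) (nat_lit 34) (nat_lit 4) (nat_lit 36) (nat_lit 5) (nat_lit 36) (nat_lit 4) (nat_lit 336) (nat_lit 223) (nat_lit 221)) (XT.lf (nat_lit 0) (nat_lit 12295469116) (nat_lit 152) (nat_lit 2139953801) (nat_lit 152) (nat_lit 743564069) (nat_lit 34) (nat_lit 4) (nat_lit 36) (nat_lit 5) (nat_lit 36) (nat_lit 4) (nat_lit 337) (nat_lit 223) (nat_lit 220)))) (XT.nd (nat_lit 156) (nat_lit 228) (nat_lit 0) (XT.nd (nat_lit 78) (nat_lit 0) (nat_lit 0) (XT.lf (nat_lit 0) (nat_lit 3542932097) (nat_lit 152) (nat_lit 10185055012) (nat_lit 0) (nat_lit 1761373136) (nat_lit 32) (nat_lit 5) (nat_lit 34) (nat_lit 4) (nat_lit 32) (nat_lit 4) (nat_lit 338)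 (nat_lit 223) (nat_lit 219)) (XT.lf (nat_lit 0) (nat_lit 7903287463) (nat_lit 152) (nat_lit 2198477143) (nat_lit 0) (nat_lit 5708290858) (nat_lit 32) (nat_lit 5) (nat_lit 34) (nat_lit 4) (nat_lit 32) (nat_lit 4) (nat_lit 339) (nat_lit 223) (nat_lit 218))) (XT.nd (nat_lit 78) (nat_lit 76) (nat_lit 0) (XT.lf (nat_lit 0) (nat_lit 5990873103) (nat_lit 152) (nat_lit 6373416269) (nat_lit 152) (nat_lit 3777023893) (nat_lit 30) (nat_lit 4) (nat_lit 32) (nat_lit 5) (nat_lit 32) (nat_lit 4) (nat_lit 340) (nat_lit 223) (nat_lit 217)) (XT.lf (nat_lit 0) (nat_lit 402179766) (nat_lit 228) (nat_lit 2169672082) (nat_lit 76) (nat_lit 13912508163) (nat_lit 29) (nat_lit 5) (nat_lit 32) (nat_lit 5) (nat_lit 30) (nat_lit 4) (nat_lit 341) (nat_lit 223) (nat_lit 216))))) (XT.nd (nat_lit 234) (nat_lit 304) (nat_lit 0) (XT.nd (nat_lit 78) (nat_lit 152) (nat_lit 0) (XT.lf (nat_lit 0) (nat_lit 4616565432) (nat_lit 152) (nat_lit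 10870364777) (nat_lit 0) (nat_lit 1350108129) (nat_lit 28) (nat_lit 5) (nat_lit 30) (nat_lit 4) (nat_lit 28) (nat_lit 4) (nat_lit 342) (nat_lit 223) (nat_lit 215)) (XT.nd (nat_lit 78) (nat_lit 152) (nat_lit 0) (XT.lf (nat_lit 0) (nat_lit 8920407050) (nat_lit 152) (nat_lit 2983717124) (nat_lit 0) (nat_lit 5297314804) (nat_lit 28) (nat_lit 5) (nat_lit 30) (nat_lit 4) (nat_lit 28) (nat_lit 4) (nat_lit 343) (nat_lit 223) (nat_lit 214)) (XT.lf (nat_lit 0) (nat_lit 5093304782) (nat_lit 152) (nat_lit 8226916324) (nat_lit 152) (nat_lit 4257576559) (nat_lit 26) (nat_lit 4) (nat_lit 28) (nat_lit 5) (nat_lit 28) (nat_lit 4) (nat_lit 344) (nat_lit 223) (nat_lit 213)))) (XT.nd (nat_lit 156) (nat_lit 152) (nat_lit 0) (XT.nd (nat_lit 78) (nat_lit 152) (nat_lit 0) (XT.lf (nat_lit 0) (nat_lit 13329614313) (nat_lit 152) (nat_lit 4471447528) (nat_lit 152) (nat_lit 165945123) (nat_lit 26) (nat_lit 4) (nat_lit 28)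 (nat_lit 5) (nat_lit 28) (nat_lit 4) (nat_lit 345) (nat_lit 223) (nat_lit 212)) (XT.lf (nat_lit 0) (nat_lit 3329577761) (nat_lit 76) (nat_lit 592319608) (nat_lit 152) (nat_lit 14446282890) (nat_lit 24) (nat_lit 5) (nat_lit 25) (nat_lit 5) (nat_lit 26) (nat_lit 4) (nat_lit 346) (nat_lit 223) (nat_lit 211))) (XT.nd (nat_lit 78) (nat_lit 152) (nat_lit 0) (XT.lf (nat_lit 0) (nat_lit 8129877781) (nat_lit 152) (nat_lit 7326188351) (nat_lit 0) (nat_lit 3325276394) (nat_lit 24) (nat_lit 5) (nat_lit 26) (nat_lit 4) (nat_lit 24) (nat_lit 4) (nat_lit 347) (nat_lit 223) (nat_lit 210)) (XT.lf (nat_lit 0) (nat_lit 483296957) (nat_lit 152) (nat_lit 11914449086) (nat_lit 152) (nat_lit 6811171548) (nat_lit 22) (nat_lit 4) (nat_lit 24) (nat_lit 5) (nat_lit 24) (nat_lit 4) (nat_lit 348) (nat_lit 223) (nat_lit 209))))))) (XT.nd (nat_lit 1092) (nat_lit 304) (nat_lit 0) (XT.nd (nat_lit 546) (nat_lit 304) (nat_lit 0)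 (XT.nd (nat_lit 234) (nat_lit 152) (nat_lit 0) (XT.nd (nat_lit 78) (nat_lit 152) (nat_lit 0) (XT.lf (nat_lit 0) (nat_lit 8540730570) (nat_lit 152) (nat_lit 8250964482) (nat_lit 152) (nat_lit 2857710099) (nat_lit 22) (nat_lit 4) (nat_lit 24) (nat_lit 5) (nat_lit 24) (nat_lit 4) (nat_lit 349) (nat_lit 223) (nat_lit 208)) (XT.nd (nat_lit 78) (nat_lit 76) (nat_lit 0) (XT.lf (nat_lit 0) (nat_lit 1116179779) (nat_lit 228) (nat_lit 3408940349) (nat_lit 76) (nat_lit 15579896442) (nat_lit 21) (nat_lit 5) (nat_lit 24) (nat_lit 5) (nat_lit 22) (nat_lit 4) (nat_lit 350) (nat_lit 223) (nat_lit 207)) (XT.lf (nat_lit 0) (nat_lit 4450188155) (nat_lit 76) (nat_lit 672129305) (nat_lit 152) (nat_lit 15452040329) (nat_lit 20) (nat_lit 5) (nat_lit 21) (nat_lit 5) (nat_lit 22) (nat_lit 4) (nat_lit 351) (nat_lit 223) (nat_lit 206)))) (XT.nd (nat_lit 156) (nat_lit 152) (nat_lit 0) (XT.nd (nat_lit 78) (nat_lit 0) (nat_lit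 0) (XT.lf (nat_lit 0) (nat_lit 9243096899) (nat_lit 152) (nat_lit 8604286194) (nat_lit 0) (nat_lit 3210586043) (nat_lit 20) (nat_lit 5) (nat_lit 22) (nat_lit 4) (nat_lit 20) (nat_lit 4) (nat_lit 352) (nat_lit 223) (nat_lit 205)) (XT.lf (nat_lit 0) (nat_lit 13424257068) (nat_lit 152) (nat_lit 992142328) (nat_lit 0) (nat_lit 7141609638) (nat_lit 20) (nat_lit 5) (nat_lit 22) (nat_lit 4) (nat_lit 20) (nat_lit 4) (nat_lit 353) (nat_lit 223) (nat_lit 204))) (XT.nd (nat_lit 78) (nat_lit 0) (nat_lit 0) (XT.lf (nat_lit 0) (nat_lit 6859222401) (nat_lit 152) (nat_lit 10869703131) (nat_lit 152) (nat_lit 4344204657) (nat_lit 18) (nat_lit 4) (nat_lit 20) (nat_lit 5) (nat_lit 20) (nat_lit 4) (nat_lit 354) (nat_lit 223) (nat_lit 203)) (XT.lf (nat_lit 0) (nat_lit 14844680232) (nat_lit 152) (nat_lit 7261016828) (nat_lit 152) (nat_lit 499740643) (nat_lit 18) (nat_lit 4) (nat_lit 20) (nat_lit 5) (nat_lit 20) (nat_lit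 4) (nat_lit 355) (nat_lit 223) (nat_lit 202))))) (XT.nd (nat_lit 234) (nat_lit 152) (nat_lit 0) (XT.nd (nat_lit 78) (nat_lit 76) (nat_lit 0) (XT.lf (nat_lit 0) (nat_lit 3326771350) (nat_lit 228) (nat_lit 236840742) (nat_lit 76) (nat_lit 19591097952) (nat_lit 17) (nat_lit 5) (nat_lit 20) (nat_lit 5) (nat_lit 18) (nat_lit 4) (nat_lit 356) (nat_lit 223) (nat_lit 201)) (XT.nd (nat_lit 78) (nat_lit 0) (nat_lit 0) (XT.lf (nat_lit 0) (nat_lit 7269267204) (nat_lit 152) (nat_lit 16183819433) (nat_lit 0) (nat_lit 266908279) (nat_lit 16) (nat_lit 5) (nat_lit 18) (nat_lit 4) (nat_lit 16) (nat_lit 4) (nat_lit 357) (nat_lit 223) (nat_lit 200)) (XT.lf (nat_lit 0) (nat_lit 11304140749) (nat_lit 152) (nat_lit 8906597323) (nat_lit 0) (nat_lit 4092296382) (nat_lit 16) (nat_lit 5) (nat_lit 18) (nat_lit 4) (nat_lit 16) (nat_lit 4) (nat_lit 358) (nat_lit 223) (nat_lit 199)))) (XT.nd (nat_lit 156) (nat_lit 76) (nat_lit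 0) (XT.nd (nat_lit 78) (nat_lit 76) (nat_lit 0) (XT.lf (nat_lit 0) (nat_lit 15398317028) (nat_lit 152) (nat_lit 1524030366) (nat_lit 0) (nat_lit 7983088735) (nat_lit 16) (nat_lit 5) (nat_lit 18) (nat_lit 4) (nat_lit 16) (nat_lit 4) (nat_lit 359) (nat_lit 223) (nat_lit 198)) (XT.lf (nat_lit 0) (nat_lit 6089153542) (nat_lit 76) (nat_lit 13524752601) (nat_lit 76) (nat_lit 5912064187) (nat_lit 15) (nat_lit 4) (nat_lit 16) (nat_lit 5) (nat_lit 16) (nat_lit 4) (nat_lit 360) (nat_lit 223) (nat_lit 197))) (XT.nd (nat_lit 78) (nat_lit 76) (nat_lit 0) (XT.lf (nat_lit 0) (nat_lit 13853368030) (nat_lit 76) (nat_lit 10058741487) (nat_lit 76) (nat_lit 2254344217) (nat_lit 15) (nat_lit 4) (nat_lit 16) (nat_lit 5) (nat_lit 16) (nat_lit 4) (nat_lit 361) (nat_lit 223) (nat_lit 196)) (XT.lf (nat_lit 0) (nat_lit 1425477359) (nat_lit 152) (nat_lit 5096803333) (nat_lit 76) (nat_lit 20305194283) (nat_lit 14) (nat_lit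 5) (nat_lit 16) (nat_lit 5) (nat_lit 15) (nat_lit 4) (nat_lit 362) (nat_lit 223) (nat_lit 195)))))) (XT.nd (nat_lit 546) (nat_lit 152) (nat_lit 0) (XT.nd (nat_lit 234) (nat_lit 76) (nat_lit 0) (XT.nd (nat_lit 78) (nat_lit 0) (nat_lit 0) (XT.lf (nat_lit 0) (nat_lit 2254122910) (nat_lit 76) (nat_lit 2881517122) (nat_lit 152) (nat_lit 22373075601) (nat_lit 13) (nat_lit 5) (nat_lit 14) (nat_lit 5) (nat_lit 15) (nat_lit 4) (nat_lit 363) (nat_lit 223) (nat_lit 194)) (XT.nd (nat_lit 78) (nat_lit 0) (nat_lit 0) (XT.lf (nat_lit 0) (nat_lit 8961230163) (nat_lit 152) (nat_lit 18391385431) (nat_lit 0) (nat_lit 857669855) (nat_lit 13) (nat_lit 5) (nat_lit 15) (nat_lit 4) (nat_lit 13) (nat_lit 4) (nat_lit 364) (nat_lit 223) (nat_lit 193)) (XT.lf (nat_lit 0) (nat_lit 12875551867) (nat_lit 152) (nat_lit 11451524921) (nat_lit 0) (nat_lit 4606621816) (nat_lit 13) (nat_lit 5) (nat_lit 15) (nat_lit 4) (nat_lit 13)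 (nat_lit 4) (nat_lit 365) (nat_lit 223) (nat_lit 192)))) (XT.nd (nat_lit 156) (nat_lit 0) (nat_lit 0) (XT.nd (nat_lit 78) (nat_lit 76) (nat_lit 0) (XT.lf (nat_lit 0) (nat_lit 16854326521) (nat_lit 152) (nat_lit 4401248333) (nat_lit 0) (nat_lit 8424843321) (nat_lit 13) (nat_lit 5) (nat_lit 15) (nat_lit 4) (nat_lit 13) (nat_lit 4) (nat_lit 366) (nat_lit 223) (nat_lit 191)) (XT.lf (nat_lit 0) (nat_lit 2820645726) (nat_lit 76) (nat_lit 18107498768) (nat_lit 76) (nat_lit 9522138725) (nat_lit 12) (nat_lit 4) (nat_lit 13) (nat_lit 5) (nat_lit 13) (nat_lit 4) (nat_lit 367) (nat_lit 223) (nat_lit 190))) (XT.nd (nat_lit 78) (nat_lit 0) (nat_lit 0) (XT.lf (nat_lit 0) (nat_lit 10255416805) (nat_lit 76) (nat_lit 14862364964) (nat_lit 76) (nat_lit 6125668179) (nat_lit 12) (nat_lit 4) (nat_lit 13) (nat_lit 5) (nat_lit 13) (nat_lit 4) (nat_lit 368) (nat_lit 223) (nat_lit 189)) (XT.lf (nat_lit 0) (nat_lit 17821967831)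 (nat_lit 76) (nat_lit 11561781865) (nat_lit 76) (nat_lit 2678156205) (nat_lit 12) (nat_lit 4) (nat_lit 13) (nat_lit 5) (nat_lit 13) (nat_lit 4) (nat_lit 369) (nat_lit 223) (nat_lit 188))))) (XT.nd (nat_lit 234) (nat_lit 0) (nat_lit 0) (XT.nd (nat_lit 78) (nat_lit 76) (nat_lit 0) (XT.lf (nat_lit 0) (nat_lit 807341898) (nat_lit 152) (nat_lit 7387370998) (nat_lit 76) (nat_lit 24711415886) (nat_lit 11) (nat_lit 5) (nat_lit 13) (nat_lit 5) (nat_lit 12) (nat_lit 4) (nat_lit 370) (nat_lit 223) (nat_lit 187)) (XT.nd (nat_lit 78) (nat_lit 76) (nat_lit 0) (XT.lf (nat_lit 0) (nat_lit 4296578478) (nat_lit 152) (nat_lit 442715298) (nat_lit 76) (nat_lit 29037011355) (nat_lit 11) (nat_lit 5) (nat_lit 13) (nat_lit 5) (nat_lit 12) (nat_lit 4) (nat_lit 371) (nat_lit 223) (nat_lit 186)) (XT.lf (nat_lit 0) (nat_lit 6757708482) (nat_lit 76) (nat_lit 1152113599) (nat_lit 152) (nat_lit 26762196760) (nat_lit 10) (nat_lit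 5) (nat_lit 11) (nat_lit 5) (nat_lit 12) (nat_lit 4) (nat_lit 372) (nat_lit 223) (nat_lit 185)))) (XT.nd (nat_lit 156) (nat_lit 0) (nat_lit 0) (XT.nd (nat_lit 78) (nat_lit 0) (nat_lit 0) (XT.lf (nat_lit 0) (nat_lit 11614945462) (nat_lit 152) (nat_lit 21520341294) (nat_lit 0) (nat_lit 2459824349) (nat_lit 10) (nat_lit 5) (nat_lit 12) (nat_lit 4) (nat_lit 10) (nat_lit 4) (nat_lit 373) (nat_lit 223) (nat_lit 184)) (XT.lf (nat_lit 0) (nat_lit 15398479935) (nat_lit 152) (nat_lit 15028101561) (nat_lit 0) (nat_lit 6120308203) (nat_lit 10) (nat_lit 5) (nat_lit 12) (nat_lit 4) (nat_lit 10) (nat_lit 4) (nat_lit 374) (nat_lit 223) (nat_lit 183))) (XT.nd (nat_lit 78) (nat_lit 0) (nat_lit 0) (XT.lf (nat_lit 0) (nat_lit 19252656681) (nat_lit 152) (nat_lit 8420843507) (nat_lit 0) (nat_lit 9855018327) (nat_lit 10) (nat_lit 5) (nat_lit 12) (nat_lit 4) (nat_lit 10) (nat_lit 4) (nat_lit 375) (nat_lit 223) (nat_lit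 182)) (XT.lf (nat_lit 0) (nat_lit 23180843426) (nat_lit 152) (nat_lit 1692793800) (nat_lit 0) (nat_lit 13667218062) (nat_lit 10) (nat_lit 5) (nat_lit 12) (nat_lit 4) (nat_lit 10) (nat_lit 4) (nat_lit 376) (nat_lit 223) (nat_lit 181))))))))
noncomputable def xc28 : XT := (XT.nd (nat_lit 2106) (nat_lit 0) (nat_lit 0) (XT.nd (nat_lit 1014) (nat_lit 228) (nat_lit 0) (XT.nd (nat_lit 468) (nat_lit 76) (nat_lit 0) (XT.nd (nat_lit 234) (nat_lit 76) (nat_lit 0) (XT.nd (nat_lit 78) (nat_lit 0) (nat_lit 0) (XT.lf (nat_lit 0) (nat_lit 5264658895) (nat_lit 76) (nat_lit 21972420794) (nat_lit 76) (nat_lit 12346186682) (nat_lit 9) (nat_lit 4) (nat_lit 10) (nat_lit 5) (nat_lit 10) (nat_lit 4) (nat_lit 377) (nat_lit 223) (nat_lit 180)) (XT.nd (nat_lit 78) (nat_lit 0) (nat_lit 0) (XT.lf (nat_lit 0) (nat_lit 12391101795) (nat_lit 76) (nat_lit 19001053224) (nat_lit 76) (nat_lit 9265490230) (nat_lit 9) (nat_lit 4) (nat_lit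 10) (nat_lit 5) (nat_lit 10) (nat_lit 4) (nat_lit 378) (nat_lit 223) (nat_lit 179)) (XT.lf (nat_lit 0) (nat_lit 19659071972) (nat_lit 76) (nat_lit 15974032075) (nat_lit 76) (nat_lit 6132324535) (nat_lit 9) (nat_lit 4) (nat_lit 10) (nat_lit 5) (nat_lit 10) (nat_lit 4) (nat_lit 379) (nat_lit 223) (nat_lit 178)))) (XT.nd (nat_lit 78) (nat_lit 76) (nat_lit 0) (XT.lf (nat_lit 0) (nat_lit 27074920080) (nat_lit 76) (nat_lit 12888712376) (nat_lit 76) (nat_lit 2943951879) (nat_lit 9) (nat_lit 4) (nat_lit 10) (nat_lit 5) (nat_lit 10) (nat_lit 4) (nat_lit 380) (nat_lit 223) (nat_lit 177)) (XT.nd (nat_lit 78) (nat_lit 0) (nat_lit 0) (XT.lf (nat_lit 0) (nat_lit 296512513) (nat_lit 152) (nat_lit 9442891508) (nat_lit 76) (nat_lit 34345619278) (nat_lit 8) (nat_lit 5) (nat_lit 10) (nat_lit 5) (nat_lit 9) (nat_lit 4) (nat_lit 381) (nat_lit 223) (nat_lit 176)) (XT.lf (nat_lit 0) (nat_lit 3539172346) (nat_lit 152)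 (nat_lit 2957429343) (nat_lit 76) (nat_lit 38801393387) (nat_lit 8) (nat_lit 5) (nat_lit 10) (nat_lit 5) (nat_lit 9) (nat_lit 4) (nat_lit 382) (nat_lit 223) (nat_lit 175))))) (XT.nd (nat_lit 234) (nat_lit 0) (nat_lit 0) (XT.nd (nat_lit 78) (nat_lit 0) (nat_lit 0) (XT.lf (nat_lit 0) (nat_lit 3730483380) (nat_lit 76) (nat_lit 3149684422) (nat_lit 152) (nat_lit 39667164923) (nat_lit 7) (nat_lit 5) (nat_lit 8) (nat_lit 5) (nat_lit 9) (nat_lit 4) (nat_lit 383) (nat_lit 223) (nat_lit 174)) (XT.nd (nat_lit 78) (nat_lit 0) (nat_lit 0) (XT.lf (nat_lit 0) (nat_lit 10319719099) (nat_lit 152) (nat_lit 37221778907) (nat_lit 0) (nat_lit 292710868) (nat_lit 7) (nat_lit 5) (nat_lit 9) (nat_lit 4) (nat_lit 7) (nat_lit 4) (nat_lit 384) (nat_lit 223) (nat_lit 173)) (XT.lf (nat_lit 0) (nat_lit 13859957414) (nat_lit 152) (nat_lit 31553172837) (nat_lit 0) (nat_lit 3746643955) (nat_lit 7) (nat_lit 5) (nat_lit 9) (nat_lit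 4) (nat_lit 7) (nat_lit 4) (nat_lit 385) (nat_lit 223) (nat_lit 172)))) (XT.nd (nat_lit 156) (nat_lit 0) (nat_lit 0) (XT.nd (nat_lit 78) (nat_lit 0) (nat_lit 0) (XT.lf (nat_lit 0) (nat_lit 17473699467) (nat_lit 152) (nat_lit 25775801291) (nat_lit 0) (nat_lit 7276594523) (nat_lit 7) (nat_lit 5) (nat_lit 9) (nat_lit 4) (nat_lit 7) (nat_lit 4) (nat_lit 386) (nat_lit 223) (nat_lit 171)) (XT.lf (nat_lit 0) (nat_lit 21164102897) (nat_lit 152) (nat_lit 19884616080) (nat_lit 0) (nat_lit 10885646997) (nat_lit 7) (nat_lit 5) (nat_lit 9) (nat_lit 4) (nat_lit 7) (nat_lit 4) (nat_lit 387) (nat_lit 223) (nat_lit 170))) (XT.nd (nat_lit 78) (nat_lit 0) (nat_lit 0) (XT.lf (nat_lit 0) (nat_lit 24934392327) (nat_lit 152) (nat_lit 13874469566) (nat_lit 0) (nat_lit 14576954918) (nat_lit 7) (nat_lit 5) (nat_lit 9) (nat_lit 4) (nat_lit 7) (nat_lit 4) (nat_lit 388) (nat_lit 223) (nat_lit 169)) (XT.lf (nat_lit 0) (nat_lit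 28787862186) (nat_lit 152) (nat_lit 7740110166) (nat_lit 0) (nat_lit 18353743699) (nat_lit 7) (nat_lit 5) (nat_lit 9) (nat_lit 4) (nat_lit 7) (nat_lit 4) (nat_lit 389) (nat_lit 223) (nat_lit 168)))))) (XT.nd (nat_lit 546) (nat_lit 152) (nat_lit 0) (XT.nd (nat_lit 234) (nat_lit 0) (nat_lit 0) (XT.nd (nat_lit 78) (nat_lit 76) (nat_lit 0) (XT.lf (nat_lit 0) (nat_lit 32727879584) (nat_lit 152) (nat_lit 1476177758) (nat_lit 0) (nat_lit 22219313448) (nat_lit 7) (nat_lit 5) (nat_lit 9) (nat_lit 4) (nat_lit 7) (nat_lit 4) (nat_lit 390) (nat_lit 223) (nat_lit 167)) (XT.nd (nat_lit 78) (nat_lit 0) (nat_lit 0) (XT.lf (nat_lit 0) (nat_lit 5020774386) (nat_lit 76) (nat_lit 31785375621) (nat_lit 76) (nat_lit 21204530215) (nat_lit 6) (nat_lit 4) (nat_lit 7) (nat_lit 5) (nat_lit 7) (nat_lit 4) (nat_lit 391) (nat_lit 223) (nat_lit 166)) (XT.lf (nat_lit 0) (nat_lit 11690542015) (nat_lit 76) (nat_lit 29303241186)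 (nat_lit 76) (nat_lit 18652221730) (nat_lit 6) (nat_lit 4) (nat_lit 7) (nat_lit 5) (nat_lit 7) (nat_lit 4) (nat_lit 392) (nat_lit 223) (nat_lit 165)))) (XT.nd (nat_lit 156) (nat_lit 0) (nat_lit 0) (XT.nd (nat_lit 78) (nat_lit 0) (nat_lit 0) (XT.lf (nat_lit 0) (nat_lit 18509574249) (nat_lit 76) (nat_lit 26770391681) (nat_lit 76) (nat_lit 16051242081) (nat_lit 6) (nat_lit 4) (nat_lit 7) (nat_lit 5) (nat_lit 7) (nat_lit 4) (nat_lit 393) (nat_lit 223) (nat_lit 164)) (XT.lf (nat_lit 0) (nat_lit 25483829465) (nat_lit 76) (nat_lit 24184613938) (nat_lit 76) (nat_lit 13399318566) (nat_lit 6) (nat_lit 4) (nat_lit 7) (nat_lit 5) (nat_lit 7) (nat_lit 4) (nat_lit 394) (nat_lit 223) (nat_lit 163))) (XT.nd (nat_lit 78) (nat_lit 0) (nat_lit 0) (XT.lf (nat_lit 0) (nat_lit 32619401672) (nat_lit 76) (nat_lit 21543648539) (nat_lit 76) (nat_lit 10694133972) (nat_lit 6) (nat_lit 4) (nat_lit 7) (nat_lit 5) (nat_lit 7)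 (nat_lit 4) (nat_lit 395) (nat_lit 223) (nat_lit 162)) (XT.lf (nat_lit 0) (nat_lit 39922525837) (nat_lit 76) (nat_lit 18845187845) (nat_lit 76) (nat_lit 7933324544) (nat_lit 6) (nat_lit 4) (nat_lit 7) (nat_lit 5) (nat_lit 7) (nat_lit 4) (nat_lit 396) (nat_lit 223) (nat_lit 161))))) (XT.nd (nat_lit 234) (nat_lit 76) (nat_lit 0) (XT.nd (nat_lit 78) (nat_lit 76) (nat_lit 0) (XT.lf (nat_lit 0) (nat_lit 47399583330) (nat_lit 76) (nat_lit 16086873978) (nat_lit 76) (nat_lit 5114477926) (nat_lit 6) (nat_lit 4) (nat_lit 7) (nat_lit 5) (nat_lit 7) (nat_lit 4) (nat_lit 397) (nat_lit 223) (nat_lit 160)) (XT.nd (nat_lit 78) (nat_lit 76) (nat_lit 0) (XT.lf (nat_lit 0) (nat_lit 55057107503) (nat_lit 76) (nat_lit 13266296759) (nat_lit 76) (nat_lit 2235131046) (nat_lit 6) (nat_lit 4) (nat_lit 7) (nat_lit 5) (nat_lit 7) (nat_lit 4) (nat_lit 398) (nat_lit 223) (nat_lit 159)) (XT.lf (nat_lit 0) (nat_lit 693431384)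 (nat_lit 152) (nat_lit 9680557925) (nat_lit 76) (nat_lit 62201355713) (nat_lit 5) (nat_lit 5) (nat_lit 7) (nat_lit 5) (nat_lit 6) (nat_lit 4) (nat_lit 399) (nat_lit 223) (nat_lit 158)))) (XT.nd (nat_lit 156) (nat_lit 0) (nat_lit 0) (XT.nd (nat_lit 78) (nat_lit 76) (nat_lit 0) (XT.lf (nat_lit 0) (nat_lit 3642685707) (nat_lit 152) (nat_lit 3748967691) (nat_lit 76) (nat_lit 67261013892) (nat_lit 5) (nat_lit 5) (nat_lit 7) (nat_lit 5) (nat_lit 6) (nat_lit 4) (nat_lit 400) (nat_lit 223) (nat_lit 157)) (XT.lf (nat_lit 0) (nat_lit 2366184059) (nat_lit 76) (nat_lit 4315385548) (nat_lit 152) (nat_lit 70110709850) (nat_lit 4) (nat_lit 5) (nat_lit 5) (nat_lit 5) (nat_lit 6) (nat_lit 4) (nat_lit 401) (nat_lit 223) (nat_lit 156))) (XT.nd (nat_lit 78) (nat_lit 0) (nat_lit 0) (XT.lf (nat_lit 0) (nat_lit 8701479200) (nat_lit 76) (nat_lit 1126647660) (nat_lit 152) (nat_lit 69167462570) (nat_lit 4) (nat_lit 5) (nat_lit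 5) (nat_lit 5) (nat_lit 6) (nat_lit 4) (nat_lit 402) (nat_lit 223) (nat_lit 155)) (XT.lf (nat_lit 0) (nat_lit 13068918380) (nat_lit 152) (nat_lit 66098349535) (nat_lit 0) (nat_lit 2097740173) (nat_lit 4) (nat_lit 5) (nat_lit 6) (nat_lit 4) (nat_lit 4) (nat_lit 4) (nat_lit 403) (nat_lit 223) (nat_lit 154))))))) (XT.nd (nat_lit 35490) (nat_lit 0) (nat_lit 1216) (XT.nd (nat_lit 546) (nat_lit 0) (nat_lit 0) (XT.nd (nat_lit 234) (nat_lit 0) (nat_lit 0) (XT.nd (nat_lit 78) (nat_lit 0) (nat_lit 0) (XT.lf (nat_lit 0) (nat_lit 16397793343) (nat_lit 152) (nat_lit 61826164530) (nat_lit 0) (nat_lit 5378830023) (nat_lit 4) (nat_lit 5) (nat_lit 6) (nat_lit 4) (nat_lit 4) (nat_lit 4) (nat_lit 404) (nat_lit 223) (nat_lit 153)) (XT.nd (nat_lit 78) (nat_lit 0) (nat_lit 0) (XT.lf (nat_lit 0) (nat_lit 19806830448) (nat_lit 152) (nat_lit 57462992211) (nat_lit 0) (nat_lit 8741473815) (nat_lit 4) (nat_lit 5) (nat_lit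 6) (nat_lit 4) (nat_lit 4) (nat_lit 4) (nat_lit 405) (nat_lit 223) (nat_lit 152)) (XT.lf (nat_lit 0) (nat_lit 23299008466) (nat_lit 152) (nat_lit 53005020098) (nat_lit 0) (nat_lit 12188609781) (nat_lit 4) (nat_lit 5) (nat_lit 6) (nat_lit 4) (nat_lit 4) (nat_lit 4) (nat_lit 406) (nat_lit 223) (nat_lit 151)))) (XT.nd (nat_lit 156) (nat_lit 0) (nat_lit 0) (XT.nd (nat_lit 78) (nat_lit 0) (nat_lit 0) (XT.lf (nat_lit 0) (nat_lit 26877378814) (nat_lit 152) (nat_lit 48448352876) (nat_lit 0) (nat_lit 15723249982) (nat_lit 4) (nat_lit 5) (nat_lit 6) (nat_lit 4) (nat_lit 4) (nat_lit 4) (nat_lit 407) (nat_lit 223) (nat_lit 150)) (XT.lf (nat_lit 0) (nat_lit 30545068224) (nat_lit 152) (nat_lit 43789008990) (nat_lit 0) (nat_lit 19348482938) (nat_lit 4) (nat_lit 5) (nat_lit 6) (nat_lit 4) (nat_lit 4) (nat_lit 4) (nat_lit 408) (nat_lit 223) (nat_lit 149))) (XT.nd (nat_lit 78) (nat_lit 0) (nat_lit 0) (XT.lf (nat_lit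 0) (nat_lit 34305281472) (nat_lit 152) (nat_lit 39022917169) (nat_lit 0) (nat_lit 23067476329) (nat_lit 4) (nat_lit 5) (nat_lit 6) (nat_lit 4) (nat_lit 4) (nat_lit 4) (nat_lit 409) (nat_lit 223) (nat_lit 148)) (XT.lf (nat_lit 0) (nat_lit 38161304183) (nat_lit 152) (nat_lit 34145912867) (nat_lit 0) (nat_lit 26883479760) (nat_lit 4) (nat_lit 5) (nat_lit 6) (nat_lit 4) (nat_lit 4) (nat_lit 4) (nat_lit 410) (nat_lit 223) (nat_lit 147))))) (XT.nd (nat_lit 34632) (nat_lit 0) (nat_lit 2280) (XT.nd (nat_lit 34476) (nat_lit 0) (nat_lit 2660) (XT.lf (nat_lit 0) (nat_lit 42116505696) (nat_lit 152) (nat_lit 29153734623) (nat_lit 0) (nat_lit 30799827604) (nat_lit 4) (nat_lit 5) (nat_lit 6) (nat_lit 4) (nat_lit 4) (nat_lit 4) (nat_lit 411) (nat_lit 223) (nat_lit 146)) (XT.nd (nat_lit 78) (nat_lit 152) (nat_lit 0) (XT.lf (nat_lit 0) (nat_lit 3355001979) (nat_lit 228) (nat_lit 172659983) (nat_lit 0) (nat_lit 3355001979)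 (nat_lit 41) (nat_lit 5) (nat_lit 44) (nat_lit 4) (nat_lit 41) (nat_lit 4) (nat_lit 332) (nat_lit 224) (nat_lit 224)) (XT.lf (nat_lit 0) (nat_lit 7901372580) (nat_lit 152) (nat_lit 3319032046) (nat_lit 152) (nat_lit 2810555892) (nat_lit 39) (nat_lit 4) (nat_lit 41) (nat_lit 5) (nat_lit 41) (nat_lit 4) (nat_lit 333) (nat_lit 224) (nat_lit 223)))) (XT.nd (nat_lit 156) (nat_lit 152) (nat_lit 0) (XT.nd (nat_lit 78) (nat_lit 0) (nat_lit 0) (XT.lf (nat_lit 0) (nat_lit 1463837033) (nat_lit 228) (nat_lit 12351452798) (nat_lit 0) (nat_lit 490883321) (nat_lit 36) (nat_lit 5) (nat_lit 39) (nat_lit 4) (nat_lit 36) (nat_lit 4) (nat_lit 334) (nat_lit 224) (nat_lit 222)) (XT.lf (nat_lit 0) (nat_lit 5811494935) (nat_lit 228) (nat_lit 4404095883) (nat_lit 0) (nat_lit 4373213511) (nat_lit 36) (nat_lit 5) (nat_lit 39) (nat_lit 4) (nat_lit 36) (nat_lit 4) (nat_lit 335) (nat_lit 224) (nat_lit 221))) (XT.nd (nat_lit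 78) (nat_lit 0) (nat_lit 0) (XT.lf (nat_lit 0) (nat_lit 3696317750) (nat_lit 152) (nat_lit 6537680766) (nat_lit 152) (nat_lit 4647624865) (nat_lit 34) (nat_lit 4) (nat_lit 36) (nat_lit 5) (nat_lit 36) (nat_lit 4) (nat_lit 336) (nat_lit 224) (nat_lit 220)) (XT.lf (nat_lit 0) (nat_lit 11974075022) (nat_lit 152) (nat_lit 2769614363) (nat_lit 152) (nat_lit 440942464) (nat_lit 34) (nat_lit 4) (nat_lit 36) (nat_lit 5) (nat_lit 36) (nat_lit 4) (nat_lit 337) (nat_lit 224) (nat_lit 219)))))) (XT.nd (nat_lit 546) (nat_lit 456) (nat_lit 0) (XT.nd (nat_lit 234) (nat_lit 304) (nat_lit 0) (XT.nd (nat_lit 78) (nat_lit 152) (nat_lit 0) (XT.lf (nat_lit 0) (nat_lit 3785833330) (nat_lit 152) (nat_lit 10599168450) (nat_lit 0) (nat_lit 1111549182) (nat_lit 32) (nat_lit 5) (nat_lit 34) (nat_lit 4) (nat_lit 32) (nat_lit 4) (nat_lit 338) (nat_lit 224) (nat_lit 218)) (XT.nd (nat_lit 78) (nat_lit 152) (nat_lit 0) (XT.lf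 (nat_lit 0) (nat_lit 8102961084) (nat_lit 152) (nat_lit 2688318892) (nat_lit 0) (nat_lit 5027281164) (nat_lit 32) (nat_lit 5) (nat_lit 34) (nat_lit 4) (nat_lit 32) (nat_lit 4) (nat_lit 339) (nat_lit 224) (nat_lit 217)) (XT.lf (nat_lit 0) (nat_lit 5416296668) (nat_lit 152) (nat_lit 7100174588) (nat_lit 152) (nat_lit 3634790035) (nat_lit 30) (nat_lit 4) (nat_lit 32) (nat_lit 5) (nat_lit 32) (nat_lit 4) (nat_lit 340) (nat_lit 224) (nat_lit 216)))) (XT.nd (nat_lit 156) (nat_lit 152) (nat_lit 0) (XT.nd (nat_lit 78) (nat_lit 76) (nat_lit 0) (XT.lf (nat_lit 0) (nat_lit 499765032) (nat_lit 228) (nat_lit 2829215549) (nat_lit 76) (nat_lit 13166559222) (nat_lit 29) (nat_lit 5) (nat_lit 32) (nat_lit 5) (nat_lit 30) (nat_lit 4) (nat_lit 341) (nat_lit 224) (nat_lit 215)) (XT.lf (nat_lit 0) (nat_lit 4658684522) (nat_lit 152) (nat_lit 11620949134) (nat_lit 0) (nat_lit 570264564) (nat_lit 28) (nat_lit 5) (nat_lit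 30) (nat_lit 4) (nat_lit 28) (nat_lit 4) (nat_lit 342) (nat_lit 224) (nat_lit 214))) (XT.nd (nat_lit 78) (nat_lit 152) (nat_lit 0) (XT.lf (nat_lit 0) (nat_lit 8922081426) (nat_lit 152) (nat_lit 3806032465) (nat_lit 0) (nat_lit 4487413949) (nat_lit 28) (nat_lit 5) (nat_lit 30) (nat_lit 4) (nat_lit 28) (nat_lit 4) (nat_lit 343) (nat_lit 224) (nat_lit 213)) (XT.lf (nat_lit 0) (nat_lit 4183596015) (nat_lit 152) (nat_lit 9090288075) (nat_lit 152) (nat_lit 4319457959) (nat_lit 26) (nat_lit 4) (nat_lit 28) (nat_lit 5) (nat_lit 28) (nat_lit 4) (nat_lit 344) (nat_lit 224) (nat_lit 212))))) (XT.nd (nat_lit 234) (nat_lit 304) (nat_lit 0) (XT.nd (nat_lit 78) (nat_lit 152) (nat_lit 0) (XT.lf (nat_lit 0) (nat_lit 12350946576) (nat_lit 152) (nat_lit 5364992349) (nat_lit 152) (nat_lit 267790738) (nat_lit 26) (nat_lit 4) (nat_lit 28) (nat_lit 5) (nat_lit 28) (nat_lit 4) (nat_lit 345) (nat_lit 224) (nat_lit 211))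 (XT.nd (nat_lit 78) (nat_lit 0) (nat_lit 0) (XT.lf (nat_lit 0) (nat_lit 2246306317) (nat_lit 76) (nat_lit 1527276666) (nat_lit 152) (nat_lit 14612816923) (nat_lit 24) (nat_lit 5) (nat_lit 25) (nat_lit 5) (nat_lit 26) (nat_lit 4) (nat_lit 346) (nat_lit 224) (nat_lit 210)) (XT.lf (nat_lit 0) (nat_lit 7934713032) (nat_lit 152) (nat_lit 8486607125) (nat_lit 0) (nat_lit 2379661017) (nat_lit 24) (nat_lit 5) (nat_lit 26) (nat_lit 4) (nat_lit 24) (nat_lit 4) (nat_lit 347) (nat_lit 224) (nat_lit 209)))) (XT.nd (nat_lit 156) (nat_lit 152) (nat_lit 0) (XT.nd (nat_lit 78) (nat_lit 152) (nat_lit 0) (XT.lf (nat_lit 0) (nat_lit 12161175369) (nat_lit 152) (nat_lit 752489635) (nat_lit 0) (nat_lit 6316146508) (nat_lit 24) (nat_lit 5) (nat_lit 26) (nat_lit 4) (nat_lit 24) (nat_lit 4) (nat_lit 348) (nat_lit 224) (nat_lit 208)) (XT.lf (nat_lit 0) (nat_lit 7224677444) (nat_lit 152) (nat_lit 9286752477) (nat_lit 152)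 (nat_lit 3160192698) (nat_lit 22) (nat_lit 4) (nat_lit 24) (nat_lit 5) (nat_lit 24) (nat_lit 4) (nat_lit 349) (nat_lit 224) (nat_lit 207))) (XT.nd (nat_lit 78) (nat_lit 76) (nat_lit 0) (XT.lf (nat_lit 0) (nat_lit 783979172) (nat_lit 228) (nat_lit 4808413046) (nat_lit 76) (nat_lit 14536009651) (nat_lit 21) (nat_lit 5) (nat_lit 24) (nat_lit 5) (nat_lit 22) (nat_lit 4) (nat_lit 350) (nat_lit 224) (nat_lit 206)) (XT.lf (nat_lit 0) (nat_lit 2959381983) (nat_lit 76) (nat_lit 1781821288) (nat_lit 152) (nat_lit 15858018859) (nat_lit 20) (nat_lit 5) (nat_lit 21) (nat_lit 5) (nat_lit 22) (nat_lit 4) (nat_lit 351) (nat_lit 224) (nat_lit 205))))))))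
noncomputable def xc29 : XT := (XT.nd (nat_lit 2184) (nat_lit 380) (nat_lit 0) (XT.nd (nat_lit 1092) (nat_lit 304) (nat_lit 0) (XT.nd (nat_lit 546) (nat_lit 228) (nat_lit 0) (XT.nd (nat_lit 234) (nat_lit 152) (nat_lit 0) (XT.nd (nat_lit 78) (nat_lit 152) (nat_lit 0) (XT.lf (nat_lit 0) (nat_lit 8816883456) (nat_lit 152) (nat_lit 10171694266) (nat_lit 0) (nat_lit 2095620028) (nat_lit 20) (nat_lit 5) (nat_lit 22) (nat_lit 4) (nat_lit 20) (nat_lit 4) (nat_lit 352) (nat_lit 224) (nat_lit 204)) (XT.nd (nat_lit 78) (nat_lit 152) (nat_lit 0) (XT.lf (nat_lit 0) (nat_lit 12964614290) (nat_lit 152) (nat_lit 2620137389) (nat_lit 0) (nat_lit 6000499818) (nat_lit 20) (nat_lit 5) (nat_lit 22) (nat_lit 4) (nat_lit 20) (nat_lit 4) (nat_lit 353) (nat_lit 224) (nat_lit 203)) (XT.lf (nat_lit 0) (nat_lit 5138834048) (nat_lit 152) (nat_lit 12081455614) (nat_lit 152) (nat_lit 4881563431) (nat_lit 18) (nat_lit 4) (nat_lit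 20) (nat_lit 5) (nat_lit 20) (nat_lit 4) (nat_lit 354) (nat_lit 224) (nat_lit 202)))) (XT.nd (nat_lit 156) (nat_lit 76) (nat_lit 0) (XT.nd (nat_lit 78) (nat_lit 76) (nat_lit 0) (XT.lf (nat_lit 0) (nat_lit 13066046250) (nat_lit 152) (nat_lit 8498944693) (nat_lit 152) (nat_lit 1070142110) (nat_lit 18) (nat_lit 4) (nat_lit 20) (nat_lit 5) (nat_lit 20) (nat_lit 4) (nat_lit 355) (nat_lit 224) (nat_lit 201)) (XT.lf (nat_lit 0) (nat_lit 2736046188) (nat_lit 228) (nat_lit 2096871927) (nat_lit 76) (nat_lit 18352605144) (nat_lit 17) (nat_lit 5) (nat_lit 20) (nat_lit 5) (nat_lit 18) (nat_lit 4) (nat_lit 356) (nat_lit 224) (nat_lit 200))) (XT.nd (nat_lit 78) (nat_lit 0) (nat_lit 0) (XT.lf (nat_lit 0) (nat_lit 5585197017) (nat_lit 76) (nat_lit 1041410230) (nat_lit 152) (nat_lit 17125768388) (nat_lit 16) (nat_lit 5) (nat_lit 17) (nat_lit 5) (nat_lit 18) (nat_lit 4) (nat_lit 357) (nat_lit 224) (nat_lit 199))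 (XT.lf (nat_lit 0) (nat_lit 10621054617) (nat_lit 152) (nat_lit 10935596977) (nat_lit 0) (nat_lit 2779985550) (nat_lit 16) (nat_lit 5) (nat_lit 18) (nat_lit 4) (nat_lit 16) (nat_lit 4) (nat_lit 358) (nat_lit 224) (nat_lit 198))))) (XT.nd (nat_lit 234) (nat_lit 152) (nat_lit 0) (XT.nd (nat_lit 78) (nat_lit 76) (nat_lit 0) (XT.lf (nat_lit 0) (nat_lit 14685701279) (nat_lit 152) (nat_lit 3607060253) (nat_lit 0) (nat_lit 6647172091) (nat_lit 16) (nat_lit 5) (nat_lit 18) (nat_lit 4) (nat_lit 16) (nat_lit 4) (nat_lit 359) (nat_lit 224) (nat_lit 197)) (XT.nd (nat_lit 78) (nat_lit 0) (nat_lit 0) (XT.lf (nat_lit 0) (nat_lit 3911166750) (nat_lit 76) (nat_lit 14940517973) (nat_lit 76) (nat_lit 6710279929) (nat_lit 15) (nat_lit 4) (nat_lit 16) (nat_lit 5) (nat_lit 16) (nat_lit 4) (nat_lit 360) (nat_lit 224) (nat_lit 196)) (XT.lf (nat_lit 0) (nat_lit 11623438980) (nat_lit 76) (nat_lit 11498115322) (nat_lit 76)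 (nat_lit 3081752174) (nat_lit 15) (nat_lit 4) (nat_lit 16) (nat_lit 5) (nat_lit 16) (nat_lit 4) (nat_lit 361) (nat_lit 224) (nat_lit 195)))) (XT.nd (nat_lit 156) (nat_lit 76) (nat_lit 0) (XT.nd (nat_lit 78) (nat_lit 0) (nat_lit 0) (XT.lf (nat_lit 0) (nat_lit 586426208) (nat_lit 152) (nat_lit 7406621926) (nat_lit 76) (nat_lit 18872359779) (nat_lit 14) (nat_lit 5) (nat_lit 16) (nat_lit 5) (nat_lit 15) (nat_lit 4) (nat_lit 362) (nat_lit 224) (nat_lit 194)) (XT.lf (nat_lit 0) (nat_lit 4247941356) (nat_lit 152) (nat_lit 149186937) (nat_lit 76) (nat_lit 23150987396) (nat_lit 14) (nat_lit 5) (nat_lit 16) (nat_lit 5) (nat_lit 15) (nat_lit 4) (nat_lit 363) (nat_lit 224) (nat_lit 193))) (XT.nd (nat_lit 78) (nat_lit 0) (nat_lit 0) (XT.lf (nat_lit 0) (nat_lit 7372261989) (nat_lit 76) (nat_lit 664733437) (nat_lit 152) (nat_lit 20213793630) (nat_lit 13) (nat_lit 5) (nat_lit 14) (nat_lit 5) (nat_lit 15) (nat_lit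 4) (nat_lit 364) (nat_lit 224) (nat_lit 192)) (XT.lf (nat_lit 0) (nat_lit 11918830409) (nat_lit 152) (nat_lit 13980444091) (nat_lit 0) (nat_lit 3075909564) (nat_lit 13) (nat_lit 5) (nat_lit 15) (nat_lit 4) (nat_lit 13) (nat_lit 4) (nat_lit 365) (nat_lit 224) (nat_lit 191)))))) (XT.nd (nat_lit 546) (nat_lit 76) (nat_lit 0) (XT.nd (nat_lit 234) (nat_lit 152) (nat_lit 0) (XT.nd (nat_lit 78) (nat_lit 76) (nat_lit 0) (XT.lf (nat_lit 0) (nat_lit 15872268269) (nat_lit 152) (nat_lit 6976931928) (nat_lit 0) (nat_lit 6873470580) (nat_lit 13) (nat_lit 5) (nat_lit 15) (nat_lit 4) (nat_lit 13) (nat_lit 4) (nat_lit 366) (nat_lit 224) (nat_lit 190)) (XT.nd (nat_lit 78) (nat_lit 0) (nat_lit 0) (XT.lf (nat_lit 0) (nat_lit 147395027) (nat_lit 76) (nat_lit 19748395466) (nat_lit 76) (nat_lit 10598261037) (nat_lit 12) (nat_lit 4) (nat_lit 13) (nat_lit 5) (nat_lit 13) (nat_lit 4) (nat_lit 367) (nat_lit 224) (nat_lit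 189)) (XT.lf (nat_lit 0) (nat_lit 7537208871) (nat_lit 76) (nat_lit 16523904381) (nat_lit 76) (nat_lit 7226841076) (nat_lit 12) (nat_lit 4) (nat_lit 13) (nat_lit 5) (nat_lit 13) (nat_lit 4) (nat_lit 368) (nat_lit 224) (nat_lit 188)))) (XT.nd (nat_lit 156) (nat_lit 152) (nat_lit 0) (XT.nd (nat_lit 78) (nat_lit 0) (nat_lit 0) (XT.lf (nat_lit 0) (nat_lit 15060112098) (nat_lit 76) (nat_lit 13243362757) (nat_lit 76) (nat_lit 3803650059) (nat_lit 12) (nat_lit 4) (nat_lit 13) (nat_lit 5) (nat_lit 13) (nat_lit 4) (nat_lit 369) (nat_lit 224) (nat_lit 187)) (XT.lf (nat_lit 0) (nat_lit 22722678118) (nat_lit 76) (nat_lit 9903904101) (nat_lit 76) (nat_lit 325696847) (nat_lit 12) (nat_lit 4) (nat_lit 13) (nat_lit 5) (nat_lit 13) (nat_lit 4) (nat_lit 370) (nat_lit 224) (nat_lit 186))) (XT.nd (nat_lit 78) (nat_lit 76) (nat_lit 0) (XT.lf (nat_lit 0) (nat_lit 3147417762) (nat_lit 152) (nat_lit 3323409931) (nat_lit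 76) (nat_lit 27352401866) (nat_lit 11) (nat_lit 5) (nat_lit 13) (nat_lit 5) (nat_lit 12) (nat_lit 4) (nat_lit 371) (nat_lit 224) (nat_lit 185)) (XT.lf (nat_lit 0) (nat_lit 3778494697) (nat_lit 76) (nat_lit 2931705838) (nat_lit 152) (nat_lit 28010262281) (nat_lit 10) (nat_lit 5) (nat_lit 11) (nat_lit 5) (nat_lit 12) (nat_lit 4) (nat_lit 372) (nat_lit 224) (nat_lit 184))))) (XT.nd (nat_lit 234) (nat_lit 76) (nat_lit 0) (XT.nd (nat_lit 78) (nat_lit 0) (nat_lit 0) (XT.lf (nat_lit 0) (nat_lit 10376468779) (nat_lit 152) (nat_lit 24571356239) (nat_lit 0) (nat_lit 696901275) (nat_lit 10) (nat_lit 5) (nat_lit 12) (nat_lit 4) (nat_lit 10) (nat_lit 4) (nat_lit 373) (nat_lit 224) (nat_lit 183)) (XT.nd (nat_lit 78) (nat_lit 0) (nat_lit 0) (XT.lf (nat_lit 0) (nat_lit 14138888099) (nat_lit 152) (nat_lit 18118401664) (nat_lit 0) (nat_lit 4339853974) (nat_lit 10) (nat_lit 5) (nat_lit 12) (nat_lit 4) (nat_lit 10)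 (nat_lit 4) (nat_lit 374) (nat_lit 224) (nat_lit 182)) (XT.lf (nat_lit 0) (nat_lit 17972564695) (nat_lit 152) (nat_lit 11549284540) (nat_lit 0) (nat_lit 8057543560) (nat_lit 10) (nat_lit 5) (nat_lit 12) (nat_lit 4) (nat_lit 10) (nat_lit 4) (nat_lit 375) (nat_lit 224) (nat_lit 181)))) (XT.nd (nat_lit 156) (nat_lit 0) (nat_lit 0) (XT.nd (nat_lit 78) (nat_lit 76) (nat_lit 0) (XT.lf (nat_lit 0) (nat_lit 21880848383) (nat_lit 152) (nat_lit 4858264863) (nat_lit 0) (nat_lit 11853218499) (nat_lit 10) (nat_lit 5) (nat_lit 12) (nat_lit 4) (nat_lit 10) (nat_lit 4) (nat_lit 376) (nat_lit 224) (nat_lit 180)) (XT.lf (nat_lit 0) (nat_lit 1999521760) (nat_lit 76) (nat_lit 23886853033) (nat_lit 76) (nat_lit 13749894267) (nat_lit 9) (nat_lit 4) (nat_lit 10) (nat_lit 5) (nat_lit 10) (nat_lit 4) (nat_lit 377) (nat_lit 224) (nat_lit 179))) (XT.nd (nat_lit 78) (nat_lit 0) (nat_lit 0) (XT.lf (nat_lit 0) (nat_lit 9090365641)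 (nat_lit 76) (nat_lit 20931981743) (nat_lit 76) (nat_lit 10688878432) (nat_lit 9) (nat_lit 4) (nat_lit 10) (nat_lit 5) (nat_lit 10) (nat_lit 4) (nat_lit 378) (nat_lit 224) (nat_lit 178)) (XT.lf (nat_lit 0) (nat_lit 16323773663) (nat_lit 76) (nat_lit 17920976399) (nat_lit 76) (nat_lit 7574820131) (nat_lit 9) (nat_lit 4) (nat_lit 10) (nat_lit 5) (nat_lit 10) (nat_lit 4) (nat_lit 379) (nat_lit 224) (nat_lit 177))))))) (XT.nd (nat_lit 1092) (nat_lit 152) (nat_lit 0) (XT.nd (nat_lit 546) (nat_lit 76) (nat_lit 0) (XT.nd (nat_lit 234) (nat_lit 76) (nat_lit 0) (XT.nd (nat_lit 78) (nat_lit 76) (nat_lit 0) (XT.lf (nat_lit 0) (nat_lit 23706066281) (nat_lit 76) (nat_lit 14851206025) (nat_lit 76) (nat_lit 4404998343) (nat_lit 9) (nat_lit 4) (nat_lit 10) (nat_lit 5) (nat_lit 10) (nat_lit 4) (nat_lit 380) (nat_lit 224) (nat_lit 176)) (XT.nd (nat_lit 78) (nat_lit 76) (nat_lit 0) (XT.lf (nat_lit 0) (nat_lit 31243694042)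 (nat_lit 76) (nat_lit 11719988298) (nat_lit 76) (nat_lit 1176643321) (nat_lit 9) (nat_lit 4) (nat_lit 10) (nat_lit 5) (nat_lit 10) (nat_lit 4) (nat_lit 381) (nat_lit 224) (nat_lit 175)) (XT.lf (nat_lit 0) (nat_lit 2071832302) (nat_lit 152) (nat_lit 6431833456) (nat_lit 76) (nat_lit 36850489475) (nat_lit 8) (nat_lit 5) (nat_lit 10) (nat_lit 5) (nat_lit 9) (nat_lit 4) (nat_lit 382) (nat_lit 224) (nat_lit 174)))) (XT.nd (nat_lit 156) (nat_lit 0) (nat_lit 0) (XT.nd (nat_lit 78) (nat_lit 0) (nat_lit 0) (XT.lf (nat_lit 0) (nat_lit 155270672) (nat_lit 76) (nat_lit 5206544559) (nat_lit 152) (nat_lit 41243212042) (nat_lit 7) (nat_lit 5) (nat_lit 8) (nat_lit 5) (nat_lit 9) (nat_lit 4) (nat_lit 383) (nat_lit 224) (nat_lit 173)) (XT.lf (nat_lit 0) (nat_lit 7009434094) (nat_lit 76) (nat_lit 1772606658) (nat_lit 152) (nat_lit 39110446342) (nat_lit 7) (nat_lit 5) (nat_lit 8) (nat_lit 5) (nat_lit 9) (nat_lit 4)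 (nat_lit 384) (nat_lit 224) (nat_lit 172))) (XT.nd (nat_lit 78) (nat_lit 0) (nat_lit 0) (XT.lf (nat_lit 0) (nat_lit 12289129633) (nat_lit 152) (nat_lit 35227601002) (nat_lit 0) (nat_lit 1702320057) (nat_lit 7) (nat_lit 5) (nat_lit 9) (nat_lit 4) (nat_lit 7) (nat_lit 4) (nat_lit 385) (nat_lit 224) (nat_lit 171)) (XT.lf (nat_lit 0) (nat_lit 15887230856) (nat_lit 152) (nat_lit 29479543486) (nat_lit 0) (nat_lit 5219070324) (nat_lit 7) (nat_lit 5) (nat_lit 9) (nat_lit 4) (nat_lit 7) (nat_lit 4) (nat_lit 386) (nat_lit 224) (nat_lit 170))))) (XT.nd (nat_lit 234) (nat_lit 76) (nat_lit 0) (XT.nd (nat_lit 78) (nat_lit 0) (nat_lit 0) (XT.lf (nat_lit 0) (nat_lit 19562449014) (nat_lit 152) (nat_lit 23616818498) (nat_lit 0) (nat_lit 8815306972) (nat_lit 7) (nat_lit 5) (nat_lit 9) (nat_lit 4) (nat_lit 7) (nat_lit 4) (nat_lit 387) (nat_lit 224) (nat_lit 169)) (XT.nd (nat_lit 78) (nat_lit 0) (nat_lit 0) (XT.lf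 (nat_lit 0) (nat_lit 23317995462) (nat_lit 152) (nat_lit 17634303270) (nat_lit 0) (nat_lit 12494172342) (nat_lit 7) (nat_lit 5) (nat_lit 9) (nat_lit 4) (nat_lit 7) (nat_lit 4) (nat_lit 388) (nat_lit 224) (nat_lit 168)) (XT.lf (nat_lit 0) (nat_lit 27157151746) (nat_lit 152) (nat_lit 11526770360) (nat_lit 0) (nat_lit 16258880977) (nat_lit 7) (nat_lit 5) (nat_lit 9) (nat_lit 4) (nat_lit 7) (nat_lit 4) (nat_lit 389) (nat_lit 224) (nat_lit 167)))) (XT.nd (nat_lit 156) (nat_lit 0) (nat_lit 0) (XT.nd (nat_lit 78) (nat_lit 76) (nat_lit 0) (XT.lf (nat_lit 0) (nat_lit 31083272469) (nat_lit 152) (nat_lit 5288883088) (nat_lit 0) (nat_lit 20112722429) (nat_lit 7) (nat_lit 5) (nat_lit 9) (nat_lit 4) (nat_lit 7) (nat_lit 4) (nat_lit 390) (nat_lit 224) (nat_lit 166)) (XT.lf (nat_lit 0) (nat_lit 1106398952) (nat_lit 76) (nat_lit 34004024651) (nat_lit 76) (nat_lit 22963300563) (nat_lit 6) (nat_lit 4) (nat_lit 7)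 (nat_lit 5) (nat_lit 7) (nat_lit 4) (nat_lit 391) (nat_lit 224) (nat_lit 165))) (XT.nd (nat_lit 78) (nat_lit 0) (nat_lit 0) (XT.lf (nat_lit 0) (nat_lit 7751127949) (nat_lit 76) (nat_lit 31533589213) (nat_lit 76) (nat_lit 20424734980) (nat_lit 6) (nat_lit 4) (nat_lit 7) (nat_lit 5) (nat_lit 7) (nat_lit 4) (nat_lit 392) (nat_lit 224) (nat_lit 164)) (XT.lf (nat_lit 0) (nat_lit 14545850830) (nat_lit 76) (nat_lit 29012097958) (nat_lit 76) (nat_lit 17837097954) (nat_lit 6) (nat_lit 4) (nat_lit 7) (nat_lit 5) (nat_lit 7) (nat_lit 4) (nat_lit 393) (nat_lit 224) (nat_lit 163)))))) (XT.nd (nat_lit 546) (nat_lit 76) (nat_lit 0) (XT.nd (nat_lit 234) (nat_lit 76) (nat_lit 0) (XT.nd (nat_lit 78) (nat_lit 0) (nat_lit 0) (XT.lf (nat_lit 0) (nat_lit 21496504734) (nat_lit 76) (nat_lit 26437347642) (nat_lit 76) (nat_lit 15198128442) (nat_lit 6) (nat_lit 4) (nat_lit 7) (nat_lit 5) (nat_lit 7) (nat_lit 4) (nat_lit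 394) (nat_lit 224) (nat_lit 162)) (XT.nd (nat_lit 78) (nat_lit 0) (nat_lit 0) (XT.lf (nat_lit 0) (nat_lit 28609163045) (nat_lit 76) (nat_lit 23807088483) (nat_lit 76) (nat_lit 12505520549) (nat_lit 6) (nat_lit 4) (nat_lit 7) (nat_lit 5) (nat_lit 7) (nat_lit 4) (nat_lit 395) (nat_lit 224) (nat_lit 161)) (XT.lf (nat_lit 0) (nat_lit 35890040709) (nat_lit 76) (nat_lit 21119022196) (nat_lit 76) (nat_lit 9756921512) (nat_lit 6) (nat_lit 4) (nat_lit 7) (nat_lit 5) (nat_lit 7) (nat_lit 4) (nat_lit 396) (nat_lit 224) (nat_lit 160)))) (XT.nd (nat_lit 156) (nat_lit 76) (nat_lit 0) (XT.nd (nat_lit 78) (nat_lit 0) (nat_lit 0) (XT.lf (nat_lit 0) (nat_lit 43345499658) (nat_lit 76) (nat_lit 18370799986) (nat_lit 76) (nat_lit 6949929640) (nat_lit 6) (nat_lit 4) (nat_lit 7) (nat_lit 5) (nat_lit 7) (nat_lit 4) (nat_lit 397) (nat_lit 224) (nat_lit 159)) (XT.lf (nat_lit 0) (nat_lit 50982054369) (nat_lit 76) (nat_lit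 15560020494) (nat_lit 76) (nat_lit 4082092224) (nat_lit 6) (nat_lit 4) (nat_lit 7) (nat_lit 5) (nat_lit 7) (nat_lit 4) (nat_lit 398) (nat_lit 224) (nat_lit 158))) (XT.nd (nat_lit 78) (nat_lit 76) (nat_lit 0) (XT.lf (nat_lit 0) (nat_lit 58806377562) (nat_lit 76) (nat_lit 12684227697) (nat_lit 76) (nat_lit 1150903386) (nat_lit 6) (nat_lit 4) (nat_lit 7) (nat_lit 5) (nat_lit 7) (nat_lit 4) (nat_lit 399) (nat_lit 224) (nat_lit 157)) (XT.lf (nat_lit 0) (nat_lit 1810172132) (nat_lit 152) (nat_lit 7912457447) (nat_lit 76) (nat_lit 64996854700) (nat_lit 5) (nat_lit 5) (nat_lit 7) (nat_lit 5) (nat_lit 6) (nat_lit 4) (nat_lit 400) (nat_lit 224) (nat_lit 156))))) (XT.nd (nat_lit 234) (nat_lit 0) (nat_lit 0) (XT.nd (nat_lit 78) (nat_lit 76) (nat_lit 0) (XT.lf (nat_lit 0) (nat_lit 4815983567) (nat_lit 152) (nat_lit 1862876318) (nat_lit 76) (nat_lit 70181231024) (nat_lit 5) (nat_lit 5) (nat_lit 7) (nat_lit 5)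 (nat_lit 6) (nat_lit 4) (nat_lit 401) (nat_lit 224) (nat_lit 155)) (XT.nd (nat_lit 78) (nat_lit 0) (nat_lit 0) (XT.lf (nat_lit 0) (nat_lit 4416136256) (nat_lit 76) (nat_lit 3517929971) (nat_lit 152) (nat_lit 71130191115) (nat_lit 4) (nat_lit 5) (nat_lit 5) (nat_lit 5) (nat_lit 6) (nat_lit 4) (nat_lit 402) (nat_lit 224) (nat_lit 154)) (XT.lf (nat_lit 0) (nat_lit 10883850445) (nat_lit 76) (nat_lit 260527533) (nat_lit 152) (nat_lit 70190214573) (nat_lit 4) (nat_lit 5) (nat_lit 5) (nat_lit 5) (nat_lit 6) (nat_lit 4) (nat_lit 403) (nat_lit 224) (nat_lit 153)))) (XT.nd (nat_lit 156) (nat_lit 0) (nat_lit 0) (XT.nd (nat_lit 78) (nat_lit 0) (nat_lit 0) (XT.lf (nat_lit 0) (nat_lit 14461042135) (nat_lit 152) (nat_lit 66194367154) (nat_lit 0) (nat_lit 3017331489) (nat_lit 4) (nat_lit 5) (nat_lit 6) (nat_lit 4) (nat_lit 4) (nat_lit 4) (nat_lit 404) (nat_lit 224) (nat_lit 152)) (XT.lf (nat_lit 0) (nat_lit 17860655496)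 (nat_lit 152) (nat_lit 61848975808) (nat_lit 0) (nat_lit 6371902799) (nat_lit 4) (nat_lit 5) (nat_lit 6) (nat_lit 4) (nat_lit 4) (nat_lit 4) (nat_lit 405) (nat_lit 224) (nat_lit 151))) (XT.nd (nat_lit 78) (nat_lit 0) (nat_lit 0) (XT.lf (nat_lit 0) (nat_lit 21343684247) (nat_lit 152) (nat_lit 57408266776) (nat_lit 0) (nat_lit 9811201403) (nat_lit 4) (nat_lit 5) (nat_lit 6) (nat_lit 4) (nat_lit 4) (nat_lit 4) (nat_lit 406) (nat_lit 224) (nat_lit 150)) (XT.lf (nat_lit 0) (nat_lit 24913171813) (nat_lit 152) (nat_lit 52868359826) (nat_lit 0) (nat_lit 13338232515) (nat_lit 4) (nat_lit 5) (nat_lit 6) (nat_lit 4) (nat_lit 4) (nat_lit 4) (nat_lit 407) (nat_lit 224) (nat_lit 149))))))))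
noncomputable def xc30 : XT := (XT.nd (nat_lit 36426) (nat_lit 0) (nat_lit 380) (XT.nd (nat_lit 35334) (nat_lit 0) (nat_lit 1216) (XT.nd (nat_lit 34788) (nat_lit 0) (nat_lit 2128) (XT.nd (nat_lit 234) (nat_lit 0) (nat_lit 0) (XT.nd (nat_lit 78) (nat_lit 0) (nat_lit 0) (XT.lf (nat_lit 0) (nat_lit 28572237162) (nat_lit 152) (nat_lit 48225288049) (nat_lit 0) (nat_lit 16956078006) (nat_lit 4) (nat_lit 5) (nat_lit 6) (nat_lit 4) (nat_lit 4) (nat_lit 4) (nat_lit 408) (nat_lit 224) (nat_lit 148)) (XT.nd (nat_lit 78) (nat_lit 0) (nat_lit 0) (XT.lf (nat_lit 0) (nat_lit 32324077536) (nat_lit 152) (nat_lit 43474994392) (nat_lit 0) (nat_lit 20667899101) (nat_lit 4) (nat_lit 5) (nat_lit 6) (nat_lit 4) (nat_lit 4) (nat_lit 4) (nat_lit 409) (nat_lit 224) (nat_lit 147)) (XT.lf (nat_lit 0) (nat_lit 36171971243) (nat_lit 152) (nat_lit 38613328114) (nat_lit 0) (nat_lit 24476939138) (nat_lit 4) (nat_lit 5) (nat_lit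 6) (nat_lit 4) (nat_lit 4) (nat_lit 4) (nat_lit 410) (nat_lit 224) (nat_lit 146)))) (XT.nd (nat_lit 34398) (nat_lit 0) (nat_lit 2812) (XT.nd (nat_lit 34320) (nat_lit 0) (nat_lit 3040) (XT.lf (nat_lit 0) (nat_lit 40119280519) (nat_lit 152) (nat_lit 33636041156) (nat_lit 0) (nat_lit 28386526404) (nat_lit 4) (nat_lit 5) (nat_lit 6) (nat_lit 4) (nat_lit 4) (nat_lit 4) (nat_lit 411) (nat_lit 224) (nat_lit 145)) (XT.lf (nat_lit 0) (nat_lit 5164227943) (nat_lit 152) (nat_lit 732365705) (nat_lit 152) (nat_lit 732365705) (nat_lit 44) (nat_lit 4) (nat_lit 46) (nat_lit 5) (nat_lit 46) (nat_lit 4) (nat_lit 330) (nat_lit 225) (nat_lit 225))) (XT.nd (nat_lit 78) (nat_lit 0) (nat_lit 0) (XT.lf (nat_lit 0) (nat_lit 2836531442) (nat_lit 228) (nat_lit 8358690129) (nat_lit 0) (nat_lit 2312801003) (nat_lit 41) (nat_lit 5) (nat_lit 44) (nat_lit 4) (nat_lit 41) (nat_lit 4) (nat_lit 331) (nat_lit 225) (nat_lit 224))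 (XT.lf (nat_lit 0) (nat_lit 7187098337) (nat_lit 228) (nat_lit 424759847) (nat_lit 0) (nat_lit 6154891744) (nat_lit 41) (nat_lit 5) (nat_lit 44) (nat_lit 4) (nat_lit 41) (nat_lit 4) (nat_lit 332) (nat_lit 225) (nat_lit 223))))) (XT.nd (nat_lit 234) (nat_lit 304) (nat_lit 0) (XT.nd (nat_lit 78) (nat_lit 228) (nat_lit 0) (XT.lf (nat_lit 0) (nat_lit 7741690630) (nat_lit 152) (nat_lit 3908995686) (nat_lit 152) (nat_lit 2383122923) (nat_lit 39) (nat_lit 4) (nat_lit 41) (nat_lit 5) (nat_lit 41) (nat_lit 4) (nat_lit 333) (nat_lit 225) (nat_lit 222)) (XT.nd (nat_lit 78) (nat_lit 0) (nat_lit 0) (XT.lf (nat_lit 0) (nat_lit 1710893545) (nat_lit 152) (nat_lit 119674853) (nat_lit 228) (nat_lit 12479922052) (nat_lit 36) (nat_lit 5) (nat_lit 38) (nat_lit 5) (nat_lit 39) (nat_lit 4) (nat_lit 334) (nat_lit 225) (nat_lit 221)) (XT.lf (nat_lit 0) (nat_lit 6132191516) (nat_lit 228) (nat_lit 4728672097) (nat_lit 0)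 (nat_lit 3733659461) (nat_lit 36) (nat_lit 5) (nat_lit 39) (nat_lit 4) (nat_lit 36) (nat_lit 4) (nat_lit 335) (nat_lit 225) (nat_lit 220)))) (XT.nd (nat_lit 156) (nat_lit 152) (nat_lit 0) (XT.nd (nat_lit 78) (nat_lit 0) (nat_lit 0) (XT.lf (nat_lit 0) (nat_lit 3288459952) (nat_lit 152) (nat_lit 7218737482) (nat_lit 152) (nat_lit 4381589429) (nat_lit 34) (nat_lit 4) (nat_lit 36) (nat_lit 5) (nat_lit 36) (nat_lit 4) (nat_lit 336) (nat_lit 225) (nat_lit 219)) (XT.lf (nat_lit 0) (nat_lit 11491632875) (nat_lit 152) (nat_lit 3482230630) (nat_lit 152) (nat_lit 219241803) (nat_lit 34) (nat_lit 4) (nat_lit 36) (nat_lit 5) (nat_lit 36) (nat_lit 4) (nat_lit 337) (nat_lit 225) (nat_lit 218))) (XT.nd (nat_lit 78) (nat_lit 0) (nat_lit 0) (XT.lf (nat_lit 0) (nat_lit 3948269545) (nat_lit 152) (nat_lit 11179433761) (nat_lit 0) (nat_lit 378923457) (nat_lit 32) (nat_lit 5) (nat_lit 34) (nat_lit 4) (nat_lit 32) (nat_lit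 4) (nat_lit 338) (nat_lit 225) (nat_lit 217)) (XT.lf (nat_lit 0) (nat_lit 8223428742) (nat_lit 152) (nat_lit 3342106833) (nat_lit 0) (nat_lit 4264378021) (nat_lit 32) (nat_lit 5) (nat_lit 34) (nat_lit 4) (nat_lit 32) (nat_lit 4) (nat_lit 339) (nat_lit 225) (nat_lit 216)))))) (XT.nd (nat_lit 546) (nat_lit 304) (nat_lit 0) (XT.nd (nat_lit 234) (nat_lit 304) (nat_lit 0) (XT.nd (nat_lit 78) (nat_lit 152) (nat_lit 0) (XT.lf (nat_lit 0) (nat_lit 4676695243) (nat_lit 152) (nat_lit 7912387998) (nat_lit 152) (nat_lit 3574983264) (nat_lit 30) (nat_lit 4) (nat_lit 32) (nat_lit 5) (nat_lit 32) (nat_lit 4) (nat_lit 340) (nat_lit 225) (nat_lit 215)) (XT.nd (nat_lit 78) (nat_lit 76) (nat_lit 0) (XT.lf (nat_lit 0) (nat_lit 517751265) (nat_lit 228) (nat_lit 3653703656) (nat_lit 76) (nat_lit 12338108558) (nat_lit 29) (nat_lit 5) (nat_lit 32) (nat_lit 5) (nat_lit 30) (nat_lit 4) (nat_lit 341) (nat_lit 225) (nat_lit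 214)) (XT.lf (nat_lit 0) (nat_lit 4323005079) (nat_lit 76) (nat_lit 299841595) (nat_lit 152) (nat_lit 12242705584) (nat_lit 28) (nat_lit 5) (nat_lit 29) (nat_lit 5) (nat_lit 30) (nat_lit 4) (nat_lit 342) (nat_lit 225) (nat_lit 213)))) (XT.nd (nat_lit 156) (nat_lit 152) (nat_lit 0) (XT.nd (nat_lit 78) (nat_lit 152) (nat_lit 0) (XT.lf (nat_lit 0) (nat_lit 8844094602) (nat_lit 152) (nat_lit 4794389981) (nat_lit 0) (nat_lit 3593976943) (nat_lit 28) (nat_lit 5) (nat_lit 30) (nat_lit 4) (nat_lit 28) (nat_lit 4) (nat_lit 343) (nat_lit 225) (nat_lit 212)) (XT.lf (nat_lit 0) (nat_lit 3106609277) (nat_lit 152) (nat_lit 10040812312) (nat_lit 152) (nat_lit 4464323158) (nat_lit 26) (nat_lit 4) (nat_lit 28) (nat_lit 5) (nat_lit 28) (nat_lit 4) (nat_lit 344) (nat_lit 225) (nat_lit 211))) (XT.nd (nat_lit 78) (nat_lit 152) (nat_lit 0) (XT.lf (nat_lit 0) (nat_lit 11207009381) (nat_lit 152) (nat_lit 6344810829) (nat_lit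 152) (nat_lit 451456147) (nat_lit 26) (nat_lit 4) (nat_lit 28) (nat_lit 5) (nat_lit 28) (nat_lit 4) (nat_lit 345) (nat_lit 225) (nat_lit 210)) (XT.lf (nat_lit 0) (nat_lit 994409914) (nat_lit 76) (nat_lit 2550122613) (nat_lit 152) (nat_lit 14862949597) (nat_lit 24) (nat_lit 5) (nat_lit 25) (nat_lit 5) (nat_lit 26) (nat_lit 4) (nat_lit 346) (nat_lit 225) (nat_lit 209))))) (XT.nd (nat_lit 234) (nat_lit 152) (nat_lit 0) (XT.nd (nat_lit 78) (nat_lit 152) (nat_lit 0) (XT.lf (nat_lit 0) (nat_lit 7659070176) (nat_lit 152) (nat_lit 9815690480) (nat_lit 0) (nat_lit 1348713604) (nat_lit 24) (nat_lit 5) (nat_lit 26) (nat_lit 4) (nat_lit 24) (nat_lit 4) (nat_lit 347) (nat_lit 225) (nat_lit 208)) (XT.nd (nat_lit 78) (nat_lit 152) (nat_lit 0) (XT.lf (nat_lit 0) (nat_lit 11849843019) (nat_lit 152) (nat_lit 2145589450) (nat_lit 0) (nat_lit 5257955528) (nat_lit 24) (nat_lit 5) (nat_lit 26) (nat_lit 4) (nat_lit 24)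 (nat_lit 4) (nat_lit 348) (nat_lit 225) (nat_lit 207)) (XT.lf (nat_lit 0) (nat_lit 5740463364) (nat_lit 152) (nat_lit 10410717039) (nat_lit 152) (nat_lit 3545498560) (nat_lit 22) (nat_lit 4) (nat_lit 24) (nat_lit 5) (nat_lit 24) (nat_lit 4) (nat_lit 349) (nat_lit 225) (nat_lit 206)))) (XT.nd (nat_lit 156) (nat_lit 0) (nat_lit 0) (XT.nd (nat_lit 78) (nat_lit 76) (nat_lit 0) (XT.lf (nat_lit 0) (nat_lit 371608974) (nat_lit 228) (nat_lit 6376222152) (nat_lit 76) (nat_lit 13406787328) (nat_lit 21) (nat_lit 5) (nat_lit 24) (nat_lit 5) (nat_lit 22) (nat_lit 4) (nat_lit 350) (nat_lit 225) (nat_lit 205)) (XT.lf (nat_lit 0) (nat_lit 1298738147) (nat_lit 76) (nat_lit 2980556034) (nat_lit 152) (nat_lit 16347641998) (nat_lit 20) (nat_lit 5) (nat_lit 21) (nat_lit 5) (nat_lit 22) (nat_lit 4) (nat_lit 351) (nat_lit 225) (nat_lit 204))) (XT.nd (nat_lit 78) (nat_lit 0) (nat_lit 0) (XT.lf (nat_lit 0) (nat_lit 8310022059)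 (nat_lit 152) (nat_lit 11909116167) (nat_lit 0) (nat_lit 894133110) (nat_lit 20) (nat_lit 5) (nat_lit 22) (nat_lit 4) (nat_lit 20) (nat_lit 4) (nat_lit 352) (nat_lit 225) (nat_lit 203)) (XT.lf (nat_lit 0) (nat_lit 12425297226) (nat_lit 152) (nat_lit 4416381609) (nat_lit 0) (nat_lit 4773630565) (nat_lit 20) (nat_lit 5) (nat_lit 22) (nat_lit 4) (nat_lit 20) (nat_lit 4) (nat_lit 353) (nat_lit 225) (nat_lit 202))))))) (XT.nd (nat_lit 1092) (nat_lit 304) (nat_lit 0) (XT.nd (nat_lit 546) (nat_lit 152) (nat_lit 0) (XT.nd (nat_lit 234) (nat_lit 152) (nat_lit 0) (XT.nd (nat_lit 78) (nat_lit 76) (nat_lit 0) (XT.lf (nat_lit 0) (nat_lit 3248595417) (nat_lit 152) (nat_lit 13382696695) (nat_lit 152) (nat_lit 5502119635) (nat_lit 18) (nat_lit 4) (nat_lit 20) (nat_lit 5) (nat_lit 20) (nat_lit 4) (nat_lit 354) (nat_lit 225) (nat_lit 201)) (XT.nd (nat_lit 78) (nat_lit 76) (nat_lit 0) (XT.lf (nat_lit 0) (nat_lit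 11119258464) (nat_lit 152) (nat_lit 9825598766) (nat_lit 152) (nat_lit 1722778599) (nat_lit 18) (nat_lit 4) (nat_lit 20) (nat_lit 5) (nat_lit 20) (nat_lit 4) (nat_lit 355) (nat_lit 225) (nat_lit 200)) (XT.lf (nat_lit 0) (nat_lit 2065606848) (nat_lit 228) (nat_lit 4125408269) (nat_lit 76) (nat_lit 17028124729) (nat_lit 17) (nat_lit 5) (nat_lit 20) (nat_lit 5) (nat_lit 18) (nat_lit 4) (nat_lit 356) (nat_lit 225) (nat_lit 199)))) (XT.nd (nat_lit 156) (nat_lit 76) (nat_lit 0) (XT.nd (nat_lit 78) (nat_lit 0) (nat_lit 0) (XT.lf (nat_lit 0) (nat_lit 3461313810) (nat_lit 76) (nat_lit 2444789355) (nat_lit 152) (nat_lit 17881400185) (nat_lit 16) (nat_lit 5) (nat_lit 17) (nat_lit 5) (nat_lit 18) (nat_lit 4) (nat_lit 357) (nat_lit 225) (nat_lit 198)) (XT.lf (nat_lit 0) (nat_lit 9857530780) (nat_lit 152) (nat_lit 13135147994) (nat_lit 0) (nat_lit 1380385594) (nat_lit 16) (nat_lit 5) (nat_lit 18) (nat_lit 4)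 (nat_lit 16) (nat_lit 4) (nat_lit 358) (nat_lit 225) (nat_lit 197))) (XT.nd (nat_lit 78) (nat_lit 76) (nat_lit 0) (XT.lf (nat_lit 0) (nat_lit 13893507913) (nat_lit 152) (nat_lit 5859067808) (nat_lit 0) (nat_lit 5224653871) (nat_lit 16) (nat_lit 5) (nat_lit 18) (nat_lit 4) (nat_lit 16) (nat_lit 4) (nat_lit 359) (nat_lit 225) (nat_lit 196)) (XT.lf (nat_lit 0) (nat_lit 1562397571) (nat_lit 76) (nat_lit 16446681485) (nat_lit 76) (nat_lit 7591702340) (nat_lit 15) (nat_lit 4) (nat_lit 16) (nat_lit 5) (nat_lit 16) (nat_lit 4) (nat_lit 360) (nat_lit 225) (nat_lit 195))))) (XT.nd (nat_lit 234) (nat_lit 76) (nat_lit 0) (XT.nd (nat_lit 78) (nat_lit 76) (nat_lit 0) (XT.lf (nat_lit 0) (nat_lit 9224240424) (nat_lit 76) (nat_lit 13027199670) (nat_lit 76) (nat_lit 3991516542) (nat_lit 15) (nat_lit 4) (nat_lit 16) (nat_lit 5) (nat_lit 16) (nat_lit 4) (nat_lit 361) (nat_lit 225) (nat_lit 194)) (XT.nd (nat_lit 78)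 (nat_lit 76) (nat_lit 0) (XT.lf (nat_lit 0) (nat_lit 17016548627) (nat_lit 76) (nat_lit 9550307479) (nat_lit 76) (nat_lit 339183590) (nat_lit 15) (nat_lit 4) (nat_lit 16) (nat_lit 5) (nat_lit 16) (nat_lit 4) (nat_lit 362) (nat_lit 225) (nat_lit 193)) (XT.lf (nat_lit 0) (nat_lit 3302756544) (nat_lit 152) (nat_lit 2676858938) (nat_lit 76) (nat_lit 21610023082) (nat_lit 14) (nat_lit 5) (nat_lit 16) (nat_lit 5) (nat_lit 15) (nat_lit 4) (nat_lit 363) (nat_lit 225) (nat_lit 192)))) (XT.nd (nat_lit 156) (nat_lit 0) (nat_lit 0) (XT.nd (nat_lit 78) (nat_lit 0) (nat_lit 0) (XT.lf (nat_lit 0) (nat_lit 4746692270) (nat_lit 76) (nat_lit 2294448979) (nat_lit 152) (nat_lit 21252698013) (nat_lit 13) (nat_lit 5) (nat_lit 14) (nat_lit 5) (nat_lit 15) (nat_lit 4) (nat_lit 364) (nat_lit 225) (nat_lit 191)) (XT.lf (nat_lit 0) (nat_lit 10881973615) (nat_lit 152) (nat_lit 16680162620) (nat_lit 0) (nat_lit 1457335153)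 (nat_lit 13) (nat_lit 5) (nat_lit 15) (nat_lit 4) (nat_lit 13) (nat_lit 4) (nat_lit 365) (nat_lit 225) (nat_lit 190))) (XT.nd (nat_lit 78) (nat_lit 0) (nat_lit 0) (XT.lf (nat_lit 0) (nat_lit 14810812647) (nat_lit 152) (nat_lit 9722052811) (nat_lit 0) (nat_lit 5234837443) (nat_lit 13) (nat_lit 5) (nat_lit 15) (nat_lit 4) (nat_lit 13) (nat_lit 4) (nat_lit 366) (nat_lit 225) (nat_lit 189)) (XT.lf (nat_lit 0) (nat_lit 18809035662) (nat_lit 152) (nat_lit 2644682019) (nat_lit 0) (nat_lit 9086131583) (nat_lit 13) (nat_lit 5) (nat_lit 15) (nat_lit 4) (nat_lit 13) (nat_lit 4) (nat_lit 367) (nat_lit 225) (nat_lit 188)))))) (XT.nd (nat_lit 546) (nat_lit 76) (nat_lit 0) (XT.nd (nat_lit 234) (nat_lit 152) (nat_lit 0) (XT.nd (nat_lit 78) (nat_lit 0) (nat_lit 0) (XT.lf (nat_lit 0) (nat_lit 4648849667) (nat_lit 76) (nat_lit 18275974174) (nat_lit 76) (nat_lit 8410420702) (nat_lit 12) (nat_lit 4) (nat_lit 13) (nat_lit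 5) (nat_lit 13) (nat_lit 4) (nat_lit 368) (nat_lit 225) (nat_lit 187)) (XT.nd (nat_lit 78) (nat_lit 0) (nat_lit 0) (XT.lf (nat_lit 0) (nat_lit 12129376389) (nat_lit 76) (nat_lit 15014890293) (nat_lit 76) (nat_lit 5010842264) (nat_lit 12) (nat_lit 4) (nat_lit 13) (nat_lit 5) (nat_lit 13) (nat_lit 4) (nat_lit 369) (nat_lit 225) (nat_lit 186)) (XT.lf (nat_lit 0) (nat_lit 19750800172) (nat_lit 76) (nat_lit 11694322649) (nat_lit 76) (nat_lit 1555813887) (nat_lit 12) (nat_lit 4) (nat_lit 13) (nat_lit 5) (nat_lit 13) (nat_lit 4) (nat_lit 370) (nat_lit 225) (nat_lit 185)))) (XT.nd (nat_lit 156) (nat_lit 0) (nat_lit 0) (XT.nd (nat_lit 78) (nat_lit 76) (nat_lit 0) (XT.lf (nat_lit 0) (nat_lit 1919481932) (nat_lit 152) (nat_lit 6372504841) (nat_lit 76) (nat_lit 25580915574) (nat_lit 11) (nat_lit 5) (nat_lit 13) (nat_lit 5) (nat_lit 12) (nat_lit 4) (nat_lit 371) (nat_lit 225) (nat_lit 184)) (XT.lf (nat_lit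 0) (nat_lit 628728780) (nat_lit 76) (nat_lit 4802071260) (nat_lit 152) (nat_lit 29340885062) (nat_lit 10) (nat_lit 5) (nat_lit 11) (nat_lit 5) (nat_lit 12) (nat_lit 4) (nat_lit 372) (nat_lit 225) (nat_lit 183))) (XT.nd (nat_lit 78) (nat_lit 0) (nat_lit 0) (XT.lf (nat_lit 0) (nat_lit 7891818136) (nat_lit 76) (nat_lit 1177474503) (nat_lit 152) (nat_lit 26627494605) (nat_lit 10) (nat_lit 5) (nat_lit 11) (nat_lit 5) (nat_lit 12) (nat_lit 4) (nat_lit 373) (nat_lit 225) (nat_lit 182)) (XT.lf (nat_lit 0) (nat_lit 12799893205) (nat_lit 152) (nat_lit 21378836859) (nat_lit 0) (nat_lit 2471434424) (nat_lit 10) (nat_lit 5) (nat_lit 12) (nat_lit 4) (nat_lit 10) (nat_lit 4) (nat_lit 374) (nat_lit 225) (nat_lit 181))))) (XT.nd (nat_lit 234) (nat_lit 76) (nat_lit 0) (XT.nd (nat_lit 78) (nat_lit 0) (nat_lit 0) (XT.lf (nat_lit 0) (nat_lit 16613666744) (nat_lit 152) (nat_lit 14846749765) (nat_lit 0) (nat_lit 6172599215)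 (nat_lit 10) (nat_lit 5) (nat_lit 12) (nat_lit 4) (nat_lit 10) (nat_lit 4) (nat_lit 375) (nat_lit 225) (nat_lit 180)) (XT.nd (nat_lit 78) (nat_lit 0) (nat_lit 0) (XT.lf (nat_lit 0) (nat_lit 20502627075) (nat_lit 152) (nat_lit 8191681573) (nat_lit 0) (nat_lit 9952230665) (nat_lit 10) (nat_lit 5) (nat_lit 12) (nat_lit 4) (nat_lit 10) (nat_lit 4) (nat_lit 376) (nat_lit 225) (nat_lit 179)) (XT.lf (nat_lit 0) (nat_lit 24470172319) (nat_lit 152) (nat_lit 1407817174) (nat_lit 0) (nat_lit 13813631363) (nat_lit 10) (nat_lit 5) (nat_lit 12) (nat_lit 4) (nat_lit 10) (nat_lit 4) (nat_lit 377) (nat_lit 225) (nat_lit 178)))) (XT.nd (nat_lit 156) (nat_lit 0) (nat_lit 0) (XT.nd (nat_lit 78) (nat_lit 0) (nat_lit 0) (XT.lf (nat_lit 0) (nat_lit 5620446228) (nat_lit 76) (nat_lit 22953350202) (nat_lit 76) (nat_lit 12193756289) (nat_lit 9) (nat_lit 4) (nat_lit 10) (nat_lit 5) (nat_lit 10) (nat_lit 4) (nat_lit 378) (nat_lit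 225) (nat_lit 177)) (XT.lf (nat_lit 0) (nat_lit 12820298760) (nat_lit 76) (nat_lit 19957894183) (nat_lit 76) (nat_lit 9098248856) (nat_lit 9) (nat_lit 4) (nat_lit 10) (nat_lit 5) (nat_lit 10) (nat_lit 4) (nat_lit 379) (nat_lit 225) (nat_lit 176))) (XT.nd (nat_lit 78) (nat_lit 0) (nat_lit 0) (XT.lf (nat_lit 0) (nat_lit 20170013233) (nat_lit 76) (nat_lit 16903220242) (nat_lit 76) (nat_lit 5946437620) (nat_lit 9) (nat_lit 4) (nat_lit 10) (nat_lit 5) (nat_lit 10) (nat_lit 4) (nat_lit 380) (nat_lit 225) (nat_lit 175)) (XT.lf (nat_lit 0) (nat_lit 27676011726) (nat_lit 76) (nat_lit 13786659246) (nat_lit 76) (nat_lit 2735568570) (nat_lit 9) (nat_lit 4) (nat_lit 10) (nat_lit 5) (nat_lit 10) (nat_lit 4) (nat_lit 381) (nat_lit 225) (nat_lit 174))))))))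
noncomputable def xc31 : XT := (XT.nd (nat_lit 2184) (nat_lit 0) (nat_lit 0) (XT.nd (nat_lit 1092) (nat_lit 152) (nat_lit 0) (XT.nd (nat_lit 546) (nat_lit 76) (nat_lit 0) (XT.nd (nat_lit 234) (nat_lit 0) (nat_lit 0) (XT.nd (nat_lit 78) (nat_lit 76) (nat_lit 0) (XT.lf (nat_lit 0) (nat_lit 526681904) (nat_lit 152) (nat_lit 10073487628) (nat_lit 76) (nat_lit 34812852520) (nat_lit 8) (nat_lit 5) (nat_lit 10) (nat_lit 5) (nat_lit 9) (nat_lit 4) (nat_lit 382) (nat_lit 225) (nat_lit 173)) (XT.nd (nat_lit 78) (nat_lit 76) (nat_lit 0) (XT.lf (nat_lit 0) (nat_lit 3799011698) (nat_lit 152) (nat_lit 3519552531) (nat_lit 76) (nat_lit 39345863353) (nat_lit 8) (nat_lit 5) (nat_lit 10) (nat_lit 5) (nat_lit 9) (nat_lit 4) (nat_lit 383) (nat_lit 225) (nat_lit 172)) (XT.lf (nat_lit 0) (nat_lit 3234721231) (nat_lit 76) (nat_lit 3934033812) (nat_lit 152) (nat_lit 40784650609) (nat_lit 7) (nat_lit 5) (nat_lit 8) (nat_lit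 5) (nat_lit 9) (nat_lit 4) (nat_lit 384) (nat_lit 225) (nat_lit 171)))) (XT.nd (nat_lit 156) (nat_lit 0) (nat_lit 0) (XT.nd (nat_lit 78) (nat_lit 0) (nat_lit 0) (XT.lf (nat_lit 0) (nat_lit 10204952495) (nat_lit 76) (nat_lit 438690602) (nat_lit 152) (nat_lit 38637295853) (nat_lit 7) (nat_lit 5) (nat_lit 8) (nat_lit 5) (nat_lit 9) (nat_lit 4) (nat_lit 385) (nat_lit 225) (nat_lit 170)) (XT.lf (nat_lit 0) (nat_lit 14222342086) (nat_lit 152) (nat_lit 33352172201) (nat_lit 0) (nat_lit 3073804272) (nat_lit 7) (nat_lit 5) (nat_lit 9) (nat_lit 4) (nat_lit 7) (nat_lit 4) (nat_lit 386) (nat_lit 225) (nat_lit 169))) (XT.nd (nat_lit 78) (nat_lit 0) (nat_lit 0) (XT.lf (nat_lit 0) (nat_lit 17882817261) (nat_lit 152) (nat_lit 27517078498) (nat_lit 0) (nat_lit 6657598369) (nat_lit 7) (nat_lit 5) (nat_lit 9) (nat_lit 4) (nat_lit 7) (nat_lit 4) (nat_lit 387) (nat_lit 225) (nat_lit 168)) (XT.lf (nat_lit 0) (nat_lit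 21624050134) (nat_lit 152) (nat_lit 21561389760) (nat_lit 0) (nat_lit 10324383593) (nat_lit 7) (nat_lit 5) (nat_lit 9) (nat_lit 4) (nat_lit 7) (nat_lit 4) (nat_lit 388) (nat_lit 225) (nat_lit 167))))) (XT.nd (nat_lit 234) (nat_lit 76) (nat_lit 0) (XT.nd (nat_lit 78) (nat_lit 0) (nat_lit 0) (XT.lf (nat_lit 0) (nat_lit 25449309743) (nat_lit 152) (nat_lit 15479901986) (nat_lit 0) (nat_lit 14077363932) (nat_lit 7) (nat_lit 5) (nat_lit 9) (nat_lit 4) (nat_lit 7) (nat_lit 4) (nat_lit 389) (nat_lit 225) (nat_lit 166)) (XT.nd (nat_lit 78) (nat_lit 0) (nat_lit 0) (XT.lf (nat_lit 0) (nat_lit 29361938548) (nat_lit 152) (nat_lit 9267301255) (nat_lit 0) (nat_lit 17919818688) (nat_lit 7) (nat_lit 5) (nat_lit 9) (nat_lit 4) (nat_lit 7) (nat_lit 4) (nat_lit 390) (nat_lit 225) (nat_lit 165)) (XT.lf (nat_lit 0) (nat_lit 33365355351) (nat_lit 152) (nat_lit 2918159080) (nat_lit 0) (nat_lit 21855105346) (nat_lit 7)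 (nat_lit 5) (nat_lit 9) (nat_lit 4) (nat_lit 7) (nat_lit 4) (nat_lit 391) (nat_lit 225) (nat_lit 164)))) (XT.nd (nat_lit 156) (nat_lit 0) (nat_lit 0) (XT.nd (nat_lit 78) (nat_lit 0) (nat_lit 0) (XT.lf (nat_lit 0) (nat_lit 3644183475) (nat_lit 76) (nat_lit 33853904928) (nat_lit 76) (nat_lit 22277509152) (nat_lit 6) (nat_lit 4) (nat_lit 7) (nat_lit 5) (nat_lit 7) (nat_lit 4) (nat_lit 392) (nat_lit 225) (nat_lit 163)) (XT.lf (nat_lit 0) (nat_lit 10415305044) (nat_lit 76) (nat_lit 31343441100) (nat_lit 76) (nat_lit 19702826128) (nat_lit 6) (nat_lit 4) (nat_lit 7) (nat_lit 5) (nat_lit 7) (nat_lit 4) (nat_lit 393) (nat_lit 225) (nat_lit 162))) (XT.nd (nat_lit 78) (nat_lit 0) (nat_lit 0) (XT.lf (nat_lit 0) (nat_lit 17343045051) (nat_lit 76) (nat_lit 28779397023) (nat_lit 76) (nat_lit 17076433318) (nat_lit 6) (nat_lit 4) (nat_lit 7) (nat_lit 5) (nat_lit 7) (nat_lit 4) (nat_lit 394) (nat_lit 225) (nat_lit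 161)) (XT.lf (nat_lit 0) (nat_lit 24433456862) (nat_lit 76) (nat_lit 26159532272) (nat_lit 76) (nat_lit 14396035815) (nat_lit 6) (nat_lit 4) (nat_lit 7) (nat_lit 5) (nat_lit 7) (nat_lit 4) (nat_lit 395) (nat_lit 225) (nat_lit 160)))))) (XT.nd (nat_lit 546) (nat_lit 76) (nat_lit 0) (XT.nd (nat_lit 234) (nat_lit 76) (nat_lit 0) (XT.nd (nat_lit 78) (nat_lit 0) (nat_lit 0) (XT.lf (nat_lit 0) (nat_lit 31692735981) (nat_lit 76) (nat_lit 23481557643) (nat_lit 76) (nat_lit 11659291525) (nat_lit 6) (nat_lit 4) (nat_lit 7) (nat_lit 5) (nat_lit 7) (nat_lit 4) (nat_lit 396) (nat_lit 225) (nat_lit 159)) (XT.nd (nat_lit 78) (nat_lit 0) (nat_lit 0) (XT.lf (nat_lit 0) (nat_lit 39127225469) (nat_lit 76) (nat_lit 20743133159) (nat_lit 76) (nat_lit 8863809118) (nat_lit 6) (nat_lit 4) (nat_lit 7) (nat_lit 5) (nat_lit 7) (nat_lit 4) (nat_lit 397) (nat_lit 225) (nat_lit 158)) (XT.lf (nat_lit 0) (nat_lit 46743421481)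 (nat_lit 76) (nat_lit 17941866021) (nat_lit 76) (nat_lit 6007145938) (nat_lit 6) (nat_lit 4) (nat_lit 7) (nat_lit 5) (nat_lit 7) (nat_lit 4) (nat_lit 398) (nat_lit 225) (nat_lit 157)))) (XT.nd (nat_lit 156) (nat_lit 76) (nat_lit 0) (XT.nd (nat_lit 78) (nat_lit 0) (nat_lit 0) (XT.lf (nat_lit 0) (nat_lit 54547978946) (nat_lit 76) (nat_lit 15075308521) (nat_lit 76) (nat_lit 3086805873) (nat_lit 6) (nat_lit 4) (nat_lit 7) (nat_lit 5) (nat_lit 7) (nat_lit 4) (nat_lit 399) (nat_lit 225) (nat_lit 156)) (XT.lf (nat_lit 0) (nat_lit 62547717379) (nat_lit 76) (nat_lit 12140955900) (nat_lit 76) (nat_lit 100237169) (nat_lit 6) (nat_lit 4) (nat_lit 7) (nat_lit 5) (nat_lit 7) (nat_lit 4) (nat_lit 400) (nat_lit 225) (nat_lit 155))) (XT.nd (nat_lit 78) (nat_lit 0) (nat_lit 0) (XT.lf (nat_lit 0) (nat_lit 2897503790) (nat_lit 152) (nat_lit 6209481263) (nat_lit 76) (nat_lit 67822863948) (nat_lit 5) (nat_lit 5) (nat_lit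 7) (nat_lit 5) (nat_lit 6) (nat_lit 4) (nat_lit 401) (nat_lit 225) (nat_lit 154)) (XT.lf (nat_lit 0) (nat_lit 5963401417) (nat_lit 152) (nat_lit 34927746) (nat_lit 76) (nat_lit 73137253980) (nat_lit 5) (nat_lit 5) (nat_lit 7) (nat_lit 5) (nat_lit 6) (nat_lit 4) (nat_lit 402) (nat_lit 225) (nat_lit 153))))) (XT.nd (nat_lit 234) (nat_lit 0) (nat_lit 0) (XT.nd (nat_lit 78) (nat_lit 0) (nat_lit 0) (XT.lf (nat_lit 0) (nat_lit 6413986236) (nat_lit 76) (nat_lit 2749759562) (nat_lit 152) (nat_lit 72242473670) (nat_lit 4) (nat_lit 5) (nat_lit 5) (nat_lit 5) (nat_lit 6) (nat_lit 4) (nat_lit 403) (nat_lit 225) (nat_lit 152)) (XT.nd (nat_lit 78) (nat_lit 0) (nat_lit 0) (XT.lf (nat_lit 0) (nat_lit 12447058190) (nat_lit 152) (nat_lit 70729711232) (nat_lit 0) (nat_lit 568600860) (nat_lit 4) (nat_lit 5) (nat_lit 6) (nat_lit 4) (nat_lit 4) (nat_lit 4) (nat_lit 404) (nat_lit 225) (nat_lit 151)) (XT.lf (nat_lit 0)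 (nat_lit 15837522285) (nat_lit 152) (nat_lit 66401582967) (nat_lit 0) (nat_lit 3915334808) (nat_lit 4) (nat_lit 5) (nat_lit 6) (nat_lit 4) (nat_lit 4) (nat_lit 4) (nat_lit 405) (nat_lit 225) (nat_lit 150)))) (XT.nd (nat_lit 156) (nat_lit 0) (nat_lit 0) (XT.nd (nat_lit 78) (nat_lit 0) (nat_lit 0) (XT.lf (nat_lit 0) (nat_lit 19311668254) (nat_lit 152) (nat_lit 61977634207) (nat_lit 0) (nat_lit 7347024323) (nat_lit 4) (nat_lit 5) (nat_lit 6) (nat_lit 4) (nat_lit 4) (nat_lit 4) (nat_lit 406) (nat_lit 225) (nat_lit 149)) (XT.lf (nat_lit 0) (nat_lit 22872531759) (nat_lit 152) (nat_lit 57453999366) (nat_lit 0) (nat_lit 10866667970) (nat_lit 4) (nat_lit 5) (nat_lit 6) (nat_lit 4) (nat_lit 4) (nat_lit 4) (nat_lit 407) (nat_lit 225) (nat_lit 148))) (XT.nd (nat_lit 78) (nat_lit 0) (nat_lit 0) (XT.lf (nat_lit 0) (nat_lit 26523224233) (nat_lit 152) (nat_lit 52826725753) (nat_lit 0) (nat_lit 14477341165) (nat_lit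 4) (nat_lit 5) (nat_lit 6) (nat_lit 4) (nat_lit 4) (nat_lit 4) (nat_lit 408) (nat_lit 225) (nat_lit 147)) (XT.lf (nat_lit 0) (nat_lit 30266935603) (nat_lit 152) (nat_lit 48091770120) (nat_lit 0) (nat_lit 18182198865) (nat_lit 4) (nat_lit 5) (nat_lit 6) (nat_lit 4) (nat_lit 4) (nat_lit 4) (nat_lit 409) (nat_lit 225) (nat_lit 146))))))) (XT.nd (nat_lit 35178) (nat_lit 0) (nat_lit 1216) (XT.nd (nat_lit 34632) (nat_lit 0) (nat_lit 2128) (XT.nd (nat_lit 34320) (nat_lit 0) (nat_lit 2812) (XT.nd (nat_lit 78) (nat_lit 0) (nat_lit 0) (XT.lf (nat_lit 0) (nat_lit 34106937072) (nat_lit 152) (nat_lit 43244995127) (nat_lit 0) (nat_lit 21984478325) (nat_lit 4) (nat_lit 5) (nat_lit 6) (nat_lit 4) (nat_lit 4) (nat_lit 4) (nat_lit 410) (nat_lit 225) (nat_lit 145)) (XT.nd (nat_lit 34164) (nat_lit 0) (nat_lit 3192) (XT.lf (nat_lit 0) (nat_lit 38046583982) (nat_lit 152) (nat_lit 38282165727) (nat_lit 0) (nat_lit 25887501925)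 (nat_lit 4) (nat_lit 5) (nat_lit 6) (nat_lit 4) (nat_lit 4) (nat_lit 4) (nat_lit 411) (nat_lit 225) (nat_lit 144)) (XT.lf (nat_lit 0) (nat_lit 1748627579) (nat_lit 228) (nat_lit 2892178010) (nat_lit 0) (nat_lit 1748627579) (nat_lit 46) (nat_lit 5) (nat_lit 49) (nat_lit 4) (nat_lit 46) (nat_lit 4) (nat_lit 328) (nat_lit 226) (nat_lit 226)))) (XT.nd (nat_lit 156) (nat_lit 228) (nat_lit 0) (XT.nd (nat_lit 78) (nat_lit 0) (nat_lit 0) (XT.lf (nat_lit 0) (nat_lit 2134232782) (nat_lit 152) (nat_lit 5718194619) (nat_lit 152) (nat_lit 5162568996) (nat_lit 44) (nat_lit 4) (nat_lit 46) (nat_lit 5) (nat_lit 46) (nat_lit 4) (nat_lit 329) (nat_lit 226) (nat_lit 225)) (XT.lf (nat_lit 0) (nat_lit 10250303468) (nat_lit 152) (nat_lit 2052050669) (nat_lit 152) (nat_lit 956982695) (nat_lit 44) (nat_lit 4) (nat_lit 46) (nat_lit 5) (nat_lit 46) (nat_lit 4) (nat_lit 330) (nat_lit 226) (nat_lit 224))) (XT.nd (nat_lit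 78) (nat_lit 0) (nat_lit 0) (XT.lf (nat_lit 0) (nat_lit 3281302591) (nat_lit 228) (nat_lit 8519953088) (nat_lit 0) (nat_lit 1709653646) (nat_lit 41) (nat_lit 5) (nat_lit 44) (nat_lit 4) (nat_lit 41) (nat_lit 4) (nat_lit 331) (nat_lit 226) (nat_lit 223)) (XT.lf (nat_lit 0) (nat_lit 7586591758) (nat_lit 228) (nat_lit 663148905) (nat_lit 0) (nat_lit 5521276643) (nat_lit 41) (nat_lit 5) (nat_lit 44) (nat_lit 4) (nat_lit 41) (nat_lit 4) (nat_lit 332) (nat_lit 226) (nat_lit 222))))) (XT.nd (nat_lit 234) (nat_lit 304) (nat_lit 0) (XT.nd (nat_lit 78) (nat_lit 228) (nat_lit 0) (XT.lf (nat_lit 0) (nat_lit 7422187202) (nat_lit 152) (nat_lit 4580962312) (nat_lit 152) (nat_lit 2036359655) (nat_lit 39) (nat_lit 4) (nat_lit 41) (nat_lit 5) (nat_lit 41) (nat_lit 4) (nat_lit 333) (nat_lit 226) (nat_lit 221)) (XT.nd (nat_lit 78) (nat_lit 0) (nat_lit 0) (XT.lf (nat_lit 0) (nat_lit 1299286421) (nat_lit 152) (nat_lit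 823480470) (nat_lit 228) (nat_lit 12194777839) (nat_lit 36) (nat_lit 5) (nat_lit 38) (nat_lit 5) (nat_lit 39) (nat_lit 4) (nat_lit 334) (nat_lit 226) (nat_lit 220)) (XT.lf (nat_lit 0) (nat_lit 6374047514) (nat_lit 228) (nat_lit 5215890899) (nat_lit 0) (nat_lit 3013169023) (nat_lit 36) (nat_lit 5) (nat_lit 39) (nat_lit 4) (nat_lit 36) (nat_lit 4) (nat_lit 335) (nat_lit 226) (nat_lit 219)))) (XT.nd (nat_lit 156) (nat_lit 152) (nat_lit 0) (XT.nd (nat_lit 78) (nat_lit 0) (nat_lit 0) (XT.lf (nat_lit 0) (nat_lit 2716960190) (nat_lit 152) (nat_lit 7984291788) (nat_lit 152) (nat_lit 4197572523) (nat_lit 34) (nat_lit 4) (nat_lit 36) (nat_lit 5) (nat_lit 36) (nat_lit 4) (nat_lit 336) (nat_lit 226) (nat_lit 218)) (XT.lf (nat_lit 0) (nat_lit 10847721122) (nat_lit 152) (nat_lit 4278425277) (nat_lit 152) (nat_lit 78268367) (nat_lit 34) (nat_lit 4) (nat_lit 36) (nat_lit 5) (nat_lit 36) (nat_lit 4) (nat_lit 337)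 (nat_lit 226) (nat_lit 217))) (XT.nd (nat_lit 78) (nat_lit 0) (nat_lit 0) (XT.lf (nat_lit 0) (nat_lit 3588824179) (nat_lit 76) (nat_lit 445844225) (nat_lit 152) (nat_lit 11484799474) (nat_lit 32) (nat_lit 5) (nat_lit 33) (nat_lit 5) (nat_lit 34) (nat_lit 4) (nat_lit 338) (nat_lit 226) (nat_lit 216)) (XT.lf (nat_lit 0) (nat_lit 8264795702) (nat_lit 152) (nat_lit 4160412239) (nat_lit 0) (nat_lit 3418914814) (nat_lit 32) (nat_lit 5) (nat_lit 34) (nat_lit 4) (nat_lit 32) (nat_lit 4) (nat_lit 339) (nat_lit 226) (nat_lit 215)))))) (XT.nd (nat_lit 546) (nat_lit 380) (nat_lit 0) (XT.nd (nat_lit 234) (nat_lit 228) (nat_lit 0) (XT.nd (nat_lit 78) (nat_lit 152) (nat_lit 0) (XT.lf (nat_lit 0) (nat_lit 3771422576) (nat_lit 152) (nat_lit 8810766200) (nat_lit 152) (nat_lit 3597551320) (nat_lit 30) (nat_lit 4) (nat_lit 32) (nat_lit 5) (nat_lit 32) (nat_lit 4) (nat_lit 340) (nat_lit 226) (nat_lit 214)) (XT.nd (nat_lit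 78) (nat_lit 76) (nat_lit 0) (XT.lf (nat_lit 0) (nat_lit 456154183) (nat_lit 228) (nat_lit 4643856831) (nat_lit 76) (nat_lit 11426432284) (nat_lit 29) (nat_lit 5) (nat_lit 32) (nat_lit 5) (nat_lit 30) (nat_lit 4) (nat_lit 341) (nat_lit 226) (nat_lit 213)) (XT.lf (nat_lit 0) (nat_lit 3244402686) (nat_lit 76) (nat_lit 1268158904) (nat_lit 152) (nat_lit 12371346307) (nat_lit 28) (nat_lit 5) (nat_lit 29) (nat_lit 5) (nat_lit 30) (nat_lit 4) (nat_lit 342) (nat_lit 226) (nat_lit 212)))) (XT.nd (nat_lit 156) (nat_lit 76) (nat_lit 0) (XT.nd (nat_lit 78) (nat_lit 152) (nat_lit 0) (XT.lf (nat_lit 0) (nat_lit 8686378437) (nat_lit 152) (nat_lit 5949653286) (nat_lit 0) (nat_lit 2616223114) (nat_lit 28) (nat_lit 5) (nat_lit 30) (nat_lit 4) (nat_lit 28) (nat_lit 4) (nat_lit 343) (nat_lit 226) (nat_lit 211)) (XT.lf (nat_lit 0) (nat_lit 1861403510) (nat_lit 152) (nat_lit 11079319590) (nat_lit 152) (nat_lit 4692298738)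 (nat_lit 26) (nat_lit 4) (nat_lit 28) (nat_lit 5) (nat_lit 28) (nat_lit 4) (nat_lit 344) (nat_lit 226) (nat_lit 210))) (XT.nd (nat_lit 78) (nat_lit 76) (nat_lit 0) (XT.lf (nat_lit 0) (nat_lit 9896803172) (nat_lit 152) (nat_lit 7411759120) (nat_lit 152) (nat_lit 717101833) (nat_lit 26) (nat_lit 4) (nat_lit 28) (nat_lit 5) (nat_lit 28) (nat_lit 4) (nat_lit 345) (nat_lit 226) (nat_lit 209)) (XT.lf (nat_lit 0) (nat_lit 3238652421) (nat_lit 228) (nat_lit 418869023) (nat_lit 76) (nat_lit 14773800694) (nat_lit 25) (nat_lit 5) (nat_lit 28) (nat_lit 5) (nat_lit 26) (nat_lit 4) (nat_lit 346) (nat_lit 226) (nat_lit 208))))) (XT.nd (nat_lit 234) (nat_lit 152) (nat_lit 0) (XT.nd (nat_lit 78) (nat_lit 152) (nat_lit 0) (XT.lf (nat_lit 0) (nat_lit 7302708361) (nat_lit 152) (nat_lit 11314599749) (nat_lit 0) (nat_lit 231533328) (nat_lit 24) (nat_lit 5) (nat_lit 26) (nat_lit 4) (nat_lit 24) (nat_lit 4) (nat_lit 347)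 (nat_lit 226) (nat_lit 207)) (XT.nd (nat_lit 78) (nat_lit 152) (nat_lit 0) (XT.lf (nat_lit 0) (nat_lit 11458831210) (nat_lit 152) (nat_lit 3706650622) (nat_lit 0) (nat_lit 4114325188) (nat_lit 24) (nat_lit 5) (nat_lit 26) (nat_lit 4) (nat_lit 24) (nat_lit 4) (nat_lit 348) (nat_lit 226) (nat_lit 206)) (XT.lf (nat_lit 0) (nat_lit 4086791443) (nat_lit 152) (nat_lit 11623840274) (nat_lit 152) (nat_lit 4013964360) (nat_lit 22) (nat_lit 4) (nat_lit 24) (nat_lit 5) (nat_lit 24) (nat_lit 4) (nat_lit 349) (nat_lit 226) (nat_lit 205)))) (XT.nd (nat_lit 156) (nat_lit 76) (nat_lit 0) (XT.nd (nat_lit 78) (nat_lit 76) (nat_lit 0) (XT.lf (nat_lit 0) (nat_lit 12068726835) (nat_lit 152) (nat_lit 7991221654) (nat_lit 152) (nat_lit 123705069) (nat_lit 22) (nat_lit 4) (nat_lit 24) (nat_lit 5) (nat_lit 24) (nat_lit 4) (nat_lit 350) (nat_lit 226) (nat_lit 204)) (XT.lf (nat_lit 0) (nat_lit 3741311970) (nat_lit 228) (nat_lit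 522789858) (nat_lit 76) (nat_lit 16393268559) (nat_lit 21) (nat_lit 5) (nat_lit 24) (nat_lit 5) (nat_lit 22) (nat_lit 4) (nat_lit 351) (nat_lit 226) (nat_lit 203))) (XT.nd (nat_lit 78) (nat_lit 0) (nat_lit 0) (XT.lf (nat_lit 0) (nat_lit 7323157298) (nat_lit 76) (nat_lit 402784327) (nat_lit 152) (nat_lit 13419157514) (nat_lit 20) (nat_lit 5) (nat_lit 21) (nat_lit 5) (nat_lit 22) (nat_lit 4) (nat_lit 352) (nat_lit 226) (nat_lit 202)) (XT.lf (nat_lit 0) (nat_lit 11805834628) (nat_lit 152) (nat_lit 6382444521) (nat_lit 0) (nat_lit 3459929857) (nat_lit 20) (nat_lit 5) (nat_lit 22) (nat_lit 4) (nat_lit 20) (nat_lit 4) (nat_lit 353) (nat_lit 226) (nat_lit 201))))))))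
noncomputable def xc32 : XT := (XT.nd (nat_lit 2106) (nat_lit 380) (nat_lit 0) (XT.nd (nat_lit 1014) (nat_lit 304) (nat_lit 0) (XT.nd (nat_lit 468) (nat_lit 228) (nat_lit 0) (XT.nd (nat_lit 234) (nat_lit 76) (nat_lit 0) (XT.nd (nat_lit 78) (nat_lit 76) (nat_lit 0) (XT.lf (nat_lit 0) (nat_lit 1186854843) (nat_lit 152) (nat_lit 14774563382) (nat_lit 152) (nat_lit 6206415504) (nat_lit 18) (nat_lit 4) (nat_lit 20) (nat_lit 5) (nat_lit 20) (nat_lit 4) (nat_lit 354) (nat_lit 226) (nat_lit 200)) (XT.nd (nat_lit 78) (nat_lit 76) (nat_lit 0) (XT.lf (nat_lit 0) (nat_lit 9002615799) (nat_lit 152) (nat_lit 11242138260) (nat_lit 152) (nat_lit 2458220375) (nat_lit 18) (nat_lit 4) (nat_lit 20) (nat_lit 5) (nat_lit 20) (nat_lit 4) (nat_lit 355) (nat_lit 226) (nat_lit 199)) (XT.lf (nat_lit 0) (nat_lit 1314867512) (nat_lit 228) (nat_lit 6324222277) (nat_lit 76) (nat_lit 15616499393) (nat_lit 17) (nat_lit 5) (nat_lit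 20) (nat_lit 5) (nat_lit 18) (nat_lit 4) (nat_lit 356) (nat_lit 226) (nat_lit 198)))) (XT.nd (nat_lit 78) (nat_lit 0) (nat_lit 0) (XT.lf (nat_lit 0) (nat_lit 1165365292) (nat_lit 76) (nat_lit 3939143350) (nat_lit 152) (nat_lit 18720978616) (nat_lit 16) (nat_lit 5) (nat_lit 17) (nat_lit 5) (nat_lit 18) (nat_lit 4) (nat_lit 357) (nat_lit 226) (nat_lit 197)) (XT.nd (nat_lit 78) (nat_lit 0) (nat_lit 0) (XT.lf (nat_lit 0) (nat_lit 8904087821) (nat_lit 76) (nat_lit 109870403) (nat_lit 152) (nat_lit 15398358052) (nat_lit 16) (nat_lit 5) (nat_lit 17) (nat_lit 5) (nat_lit 18) (nat_lit 4) (nat_lit 358) (nat_lit 226) (nat_lit 196)) (XT.lf (nat_lit 0) (nat_lit 13021044721) (nat_lit 152) (nat_lit 8282020805) (nat_lit 0) (nat_lit 3714291099) (nat_lit 16) (nat_lit 5) (nat_lit 18) (nat_lit 4) (nat_lit 16) (nat_lit 4) (nat_lit 359) (nat_lit 226) (nat_lit 195))))) (XT.nd (nat_lit 234) (nat_lit 152) (nat_lit 0) (XT.nd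 (nat_lit 78) (nat_lit 76) (nat_lit 0) (XT.lf (nat_lit 0) (nat_lit 17094573361) (nat_lit 152) (nat_lit 940488747) (nat_lit 0) (nat_lit 7607115756) (nat_lit 16) (nat_lit 5) (nat_lit 18) (nat_lit 4) (nat_lit 16) (nat_lit 4) (nat_lit 360) (nat_lit 226) (nat_lit 194)) (XT.nd (nat_lit 78) (nat_lit 0) (nat_lit 0) (XT.lf (nat_lit 0) (nat_lit 6653675975) (nat_lit 76) (nat_lit 14647330626) (nat_lit 76) (nat_lit 4984432260) (nat_lit 15) (nat_lit 4) (nat_lit 16) (nat_lit 5) (nat_lit 16) (nat_lit 4) (nat_lit 361) (nat_lit 226) (nat_lit 193)) (XT.lf (nat_lit 0) (nat_lit 14398449654) (nat_lit 76) (nat_lit 11192043522) (nat_lit 76) (nat_lit 1358814320) (nat_lit 15) (nat_lit 4) (nat_lit 16) (nat_lit 5) (nat_lit 16) (nat_lit 4) (nat_lit 362) (nat_lit 226) (nat_lit 192)))) (XT.nd (nat_lit 156) (nat_lit 0) (nat_lit 0) (XT.nd (nat_lit 78) (nat_lit 76) (nat_lit 0) (XT.lf (nat_lit 0) (nat_lit 2277591699) (nat_lit 152)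 (nat_lit 5375087794) (nat_lit 76) (nat_lit 19981291085) (nat_lit 14) (nat_lit 5) (nat_lit 16) (nat_lit 5) (nat_lit 15) (nat_lit 4) (nat_lit 363) (nat_lit 226) (nat_lit 191)) (XT.lf (nat_lit 0) (nat_lit 1948557456) (nat_lit 76) (nat_lit 4015831484) (nat_lit 152) (nat_lit 22375337000) (nat_lit 13) (nat_lit 5) (nat_lit 14) (nat_lit 5) (nat_lit 15) (nat_lit 4) (nat_lit 364) (nat_lit 226) (nat_lit 190))) (XT.nd (nat_lit 78) (nat_lit 0) (nat_lit 0) (XT.lf (nat_lit 0) (nat_lit 9511030074) (nat_lit 76) (nat_lit 255501458) (nat_lit 152) (nat_lit 19299994062) (nat_lit 13) (nat_lit 5) (nat_lit 14) (nat_lit 5) (nat_lit 15) (nat_lit 4) (nat_lit 365) (nat_lit 226) (nat_lit 189)) (XT.lf (nat_lit 0) (nat_lit 13669032169) (nat_lit 152) (nat_lit 12639009631) (nat_lit 0) (nat_lit 3507512093) (nat_lit 13) (nat_lit 5) (nat_lit 15) (nat_lit 4) (nat_lit 13) (nat_lit 4) (nat_lit 366) (nat_lit 226) (nat_lit 188)))))) (XT.nd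 (nat_lit 546) (nat_lit 76) (nat_lit 0) (XT.nd (nat_lit 234) (nat_lit 152) (nat_lit 0) (XT.nd (nat_lit 78) (nat_lit 76) (nat_lit 0) (XT.lf (nat_lit 0) (nat_lit 17644068429) (nat_lit 152) (nat_lit 5604434913) (nat_lit 0) (nat_lit 7339898960) (nat_lit 13) (nat_lit 5) (nat_lit 15) (nat_lit 4) (nat_lit 13) (nat_lit 4) (nat_lit 367) (nat_lit 226) (nat_lit 187)) (XT.nd (nat_lit 78) (nat_lit 0) (nat_lit 0) (XT.lf (nat_lit 0) (nat_lit 1587815382) (nat_lit 76) (nat_lit 20120105279) (nat_lit 76) (nat_lit 9677441253) (nat_lit 12) (nat_lit 4) (nat_lit 13) (nat_lit 5) (nat_lit 13) (nat_lit 4) (nat_lit 368) (nat_lit 226) (nat_lit 186)) (XT.lf (nat_lit 0) (nat_lit 9027199868) (nat_lit 76) (nat_lit 16877912409) (nat_lit 76) (nat_lit 6300787649) (nat_lit 12) (nat_lit 4) (nat_lit 13) (nat_lit 5) (nat_lit 13) (nat_lit 4) (nat_lit 369) (nat_lit 226) (nat_lit 185)))) (XT.nd (nat_lit 156) (nat_lit 76) (nat_lit 0) (XT.nd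 (nat_lit 78) (nat_lit 76) (nat_lit 0) (XT.lf (nat_lit 0) (nat_lit 16608679730) (nat_lit 76) (nat_lit 13575685555) (nat_lit 76) (nat_lit 2868016392) (nat_lit 12) (nat_lit 4) (nat_lit 13) (nat_lit 5) (nat_lit 13) (nat_lit 4) (nat_lit 370) (nat_lit 226) (nat_lit 184)) (XT.lf (nat_lit 0) (nat_lit 611698035) (nat_lit 152) (nat_lit 9592664288) (nat_lit 76) (nat_lit 23721004578) (nat_lit 11) (nat_lit 5) (nat_lit 13) (nat_lit 5) (nat_lit 12) (nat_lit 4) (nat_lit 371) (nat_lit 226) (nat_lit 183))) (XT.nd (nat_lit 78) (nat_lit 76) (nat_lit 0) (XT.lf (nat_lit 0) (nat_lit 4096402333) (nat_lit 152) (nat_lit 2641765184) (nat_lit 76) (nat_lit 28086785949) (nat_lit 11) (nat_lit 5) (nat_lit 13) (nat_lit 5) (nat_lit 12) (nat_lit 4) (nat_lit 372) (nat_lit 226) (nat_lit 182)) (XT.lf (nat_lit 0) (nat_lit 4531055302) (nat_lit 76) (nat_lit 3157606689) (nat_lit 152) (nat_lit 28062785843) (nat_lit 10) (nat_lit 5) (nat_lit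 11) (nat_lit 5) (nat_lit 12) (nat_lit 4) (nat_lit 373) (nat_lit 226) (nat_lit 181))))) (XT.nd (nat_lit 234) (nat_lit 76) (nat_lit 0) (XT.nd (nat_lit 78) (nat_lit 0) (nat_lit 0) (XT.lf (nat_lit 0) (nat_lit 11380325257) (nat_lit 152) (nat_lit 24812256070) (nat_lit 0) (nat_lit 513416954) (nat_lit 10) (nat_lit 5) (nat_lit 12) (nat_lit 4) (nat_lit 10) (nat_lit 4) (nat_lit 374) (nat_lit 226) (nat_lit 180)) (XT.nd (nat_lit 78) (nat_lit 0) (nat_lit 0) (XT.lf (nat_lit 0) (nat_lit 15174775440) (nat_lit 152) (nat_lit 18316120461) (nat_lit 0) (nat_lit 4198538255) (nat_lit 10) (nat_lit 5) (nat_lit 12) (nat_lit 4) (nat_lit 10) (nat_lit 4) (nat_lit 375) (nat_lit 226) (nat_lit 179)) (XT.lf (nat_lit 0) (nat_lit 19044975231) (nat_lit 152) (nat_lit 11695956623) (nat_lit 0) (nat_lit 7962593500) (nat_lit 10) (nat_lit 5) (nat_lit 12) (nat_lit 4) (nat_lit 10) (nat_lit 4) (nat_lit 376) (nat_lit 226) (nat_lit 178)))) (XT.nd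 (nat_lit 156) (nat_lit 0) (nat_lit 0) (XT.nd (nat_lit 78) (nat_lit 76) (nat_lit 0) (XT.lf (nat_lit 0) (nat_lit 22994306358) (nat_lit 152) (nat_lit 4945979947) (nat_lit 0) (nat_lit 11808871671) (nat_lit 10) (nat_lit 5) (nat_lit 12) (nat_lit 4) (nat_lit 10) (nat_lit 4) (nat_lit 377) (nat_lit 226) (nat_lit 177)) (XT.lf (nat_lit 0) (nat_lit 1978311588) (nat_lit 76) (nat_lit 25066924845) (nat_lit 76) (nat_lit 13781438744) (nat_lit 9) (nat_lit 4) (nat_lit 10) (nat_lit 5) (nat_lit 10) (nat_lit 4) (nat_lit 378) (nat_lit 226) (nat_lit 176))) (XT.nd (nat_lit 78) (nat_lit 0) (nat_lit 0) (XT.lf (nat_lit 0) (nat_lit 9145585974) (nat_lit 76) (nat_lit 22086565259) (nat_lit 76) (nat_lit 10703941863) (nat_lit 9) (nat_lit 4) (nat_lit 10) (nat_lit 5) (nat_lit 10) (nat_lit 4) (nat_lit 379) (nat_lit 226) (nat_lit 175)) (XT.lf (nat_lit 0) (nat_lit 16463671179) (nat_lit 76) (nat_lit 19046548049) (nat_lit 76) (nat_lit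 7569616599) (nat_lit 9) (nat_lit 4) (nat_lit 10) (nat_lit 5) (nat_lit 10) (nat_lit 4) (nat_lit 380) (nat_lit 226) (nat_lit 174))))))) (XT.nd (nat_lit 1092) (nat_lit 152) (nat_lit 0) (XT.nd (nat_lit 546) (nat_lit 76) (nat_lit 0) (XT.nd (nat_lit 234) (nat_lit 76) (nat_lit 0) (XT.nd (nat_lit 78) (nat_lit 76) (nat_lit 0) (XT.lf (nat_lit 0) (nat_lit 23938961645) (nat_lit 76) (nat_lit 15944216888) (nat_lit 76) (nat_lit 4375724221) (nat_lit 9) (nat_lit 4) (nat_lit 10) (nat_lit 5) (nat_lit 10) (nat_lit 4) (nat_lit 381) (nat_lit 226) (nat_lit 173)) (XT.nd (nat_lit 78) (nat_lit 76) (nat_lit 0) (XT.lf (nat_lit 0) (nat_lit 31577989180) (nat_lit 76) (nat_lit 12776861003) (nat_lit 76) (nat_lit 1119473950) (nat_lit 9) (nat_lit 4) (nat_lit 10) (nat_lit 5) (nat_lit 10) (nat_lit 4) (nat_lit 382) (nat_lit 226) (nat_lit 172)) (XT.lf (nat_lit 0) (nat_lit 2159010930) (nat_lit 152) (nat_lit 7360900093) (nat_lit 76) (nat_lit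 37206615954) (nat_lit 8) (nat_lit 5) (nat_lit 10) (nat_lit 5) (nat_lit 9) (nat_lit 4) (nat_lit 383) (nat_lit 226) (nat_lit 171)))) (XT.nd (nat_lit 156) (nat_lit 0) (nat_lit 0) (XT.nd (nat_lit 78) (nat_lit 76) (nat_lit 0) (XT.lf (nat_lit 0) (nat_lit 5482427262) (nat_lit 152) (nat_lit 698156424) (nat_lit 76) (nat_lit 41836314845) (nat_lit 8) (nat_lit 5) (nat_lit 10) (nat_lit 5) (nat_lit 9) (nat_lit 4) (nat_lit 384) (nat_lit 226) (nat_lit 170)) (XT.lf (nat_lit 0) (nat_lit 6230049643) (nat_lit 76) (nat_lit 2705361374) (nat_lit 152) (nat_lit 40409681507) (nat_lit 7) (nat_lit 5) (nat_lit 8) (nat_lit 5) (nat_lit 9) (nat_lit 4) (nat_lit 385) (nat_lit 226) (nat_lit 169))) (XT.nd (nat_lit 78) (nat_lit 0) (nat_lit 0) (XT.lf (nat_lit 0) (nat_lit 12477578397) (nat_lit 152) (nat_lit 37397071285) (nat_lit 0) (nat_lit 838921861) (nat_lit 7) (nat_lit 5) (nat_lit 9) (nat_lit 4) (nat_lit 7) (nat_lit 4) (nat_lit 386)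 (nat_lit 226) (nat_lit 168)) (XT.lf (nat_lit 0) (nat_lit 16123739997) (nat_lit 152) (nat_lit 31588804073) (nat_lit 0) (nat_lit 4410635812) (nat_lit 7) (nat_lit 5) (nat_lit 9) (nat_lit 4) (nat_lit 7) (nat_lit 4) (nat_lit 387) (nat_lit 226) (nat_lit 167))))) (XT.nd (nat_lit 234) (nat_lit 76) (nat_lit 0) (XT.nd (nat_lit 78) (nat_lit 0) (nat_lit 0) (XT.lf (nat_lit 0) (nat_lit 19851076196) (nat_lit 152) (nat_lit 25659160471) (nat_lit 0) (nat_lit 8065692740) (nat_lit 7) (nat_lit 5) (nat_lit 9) (nat_lit 4) (nat_lit 7) (nat_lit 4) (nat_lit 388) (nat_lit 226) (nat_lit 166)) (XT.nd (nat_lit 78) (nat_lit 0) (nat_lit 0) (XT.lf (nat_lit 0) (nat_lit 23662843887) (nat_lit 152) (nat_lit 19602959237) (nat_lit 0) (nat_lit 11807286383) (nat_lit 7) (nat_lit 5) (nat_lit 9) (nat_lit 4) (nat_lit 7) (nat_lit 4) (nat_lit 389) (nat_lit 226) (nat_lit 165)) (XT.lf (nat_lit 0) (nat_lit 27562373743) (nat_lit 152) (nat_lit 13414908545)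 (nat_lit 0) (nat_lit 15638686094) (nat_lit 7) (nat_lit 5) (nat_lit 9) (nat_lit 4) (nat_lit 7) (nat_lit 4) (nat_lit 390) (nat_lit 226) (nat_lit 164)))) (XT.nd (nat_lit 156) (nat_lit 76) (nat_lit 0) (XT.nd (nat_lit 78) (nat_lit 0) (nat_lit 0) (XT.lf (nat_lit 0) (nat_lit 31553073120) (nat_lit 152) (nat_lit 7089601359) (nat_lit 0) (nat_lit 19563239699) (nat_lit 7) (nat_lit 5) (nat_lit 9) (nat_lit 4) (nat_lit 7) (nat_lit 4) (nat_lit 391) (nat_lit 226) (nat_lit 163)) (XT.lf (nat_lit 0) (nat_lit 35638429036) (nat_lit 152) (nat_lit 621510714) (nat_lit 0) (nat_lit 23584376420) (nat_lit 7) (nat_lit 5) (nat_lit 9) (nat_lit 4) (nat_lit 7) (nat_lit 4) (nat_lit 392) (nat_lit 226) (nat_lit 162))) (XT.nd (nat_lit 78) (nat_lit 0) (nat_lit 0) (XT.lf (nat_lit 0) (nat_lit 6114327676) (nat_lit 76) (nat_lit 33766458202) (nat_lit 76) (nat_lit 21650056852) (nat_lit 6) (nat_lit 4) (nat_lit 7) (nat_lit 5) (nat_lit 7) (nat_lit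 4) (nat_lit 393) (nat_lit 226) (nat_lit 161)) (XT.lf (nat_lit 0) (nat_lit 13019821182) (nat_lit 76) (nat_lit 31212808533) (nat_lit 76) (nat_lit 19035874432) (nat_lit 6) (nat_lit 4) (nat_lit 7) (nat_lit 5) (nat_lit 7) (nat_lit 4) (nat_lit 394) (nat_lit 226) (nat_lit 160)))))) (XT.nd (nat_lit 546) (nat_lit 76) (nat_lit 0) (XT.nd (nat_lit 234) (nat_lit 76) (nat_lit 0) (XT.nd (nat_lit 78) (nat_lit 0) (nat_lit 0) (XT.lf (nat_lit 0) (nat_lit 20088634448) (nat_lit 76) (nat_lit 28603035439) (nat_lit 76) (nat_lit 16367331677) (nat_lit 6) (nat_lit 4) (nat_lit 7) (nat_lit 5) (nat_lit 7) (nat_lit 4) (nat_lit 395) (nat_lit 226) (nat_lit 159)) (XT.nd (nat_lit 78) (nat_lit 0) (nat_lit 0) (XT.lf (nat_lit 0) (nat_lit 27326944107) (nat_lit 76) (nat_lit 25934858537) (nat_lit 76) (nat_lit 13642096851) (nat_lit 6) (nat_lit 4) (nat_lit 7) (nat_lit 5) (nat_lit 7) (nat_lit 4) (nat_lit 396) (nat_lit 226) (nat_lit 158))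 (XT.lf (nat_lit 0) (nat_lit 34741074895) (nat_lit 76) (nat_lit 23205946408) (nat_lit 76) (nat_lit 10857788680) (nat_lit 6) (nat_lit 4) (nat_lit 7) (nat_lit 5) (nat_lit 7) (nat_lit 4) (nat_lit 397) (nat_lit 226) (nat_lit 157)))) (XT.nd (nat_lit 156) (nat_lit 76) (nat_lit 0) (XT.nd (nat_lit 78) (nat_lit 0) (nat_lit 0) (XT.lf (nat_lit 0) (nat_lit 42337505179) (nat_lit 76) (nat_lit 20413914567) (nat_lit 76) (nat_lit 8011974273) (nat_lit 6) (nat_lit 4) (nat_lit 7) (nat_lit 5) (nat_lit 7) (nat_lit 4) (nat_lit 398) (nat_lit 226) (nat_lit 156)) (XT.lf (nat_lit 0) (nat_lit 50122872616) (nat_lit 76) (nat_lit 17556323374) (nat_lit 76) (nat_lit 5102166998) (nat_lit 6) (nat_lit 4) (nat_lit 7) (nat_lit 5) (nat_lit 7) (nat_lit 4) (nat_lit 399) (nat_lit 226) (nat_lit 155))) (XT.nd (nat_lit 78) (nat_lit 76) (nat_lit 0) (XT.lf (nat_lit 0) (nat_lit 58103979956) (nat_lit 76) (nat_lit 14630675905) (nat_lit 76) (nat_lit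 2125824303) (nat_lit 6) (nat_lit 4) (nat_lit 7) (nat_lit 5) (nat_lit 7) (nat_lit 4) (nat_lit 400) (nat_lit 226) (nat_lit 154)) (XT.lf (nat_lit 0) (nat_lit 901708726) (nat_lit 152) (nat_lit 10723601553) (nat_lit 76) (nat_lit 65376986763) (nat_lit 5) (nat_lit 5) (nat_lit 7) (nat_lit 5) (nat_lit 6) (nat_lit 4) (nat_lit 401) (nat_lit 226) (nat_lit 153))))) (XT.nd (nat_lit 234) (nat_lit 0) (nat_lit 0) (XT.nd (nat_lit 78) (nat_lit 76) (nat_lit 0) (XT.lf (nat_lit 0) (nat_lit 3958155450) (nat_lit 152) (nat_lit 4566799816) (nat_lit 76) (nat_lit 70683361541) (nat_lit 5) (nat_lit 5) (nat_lit 7) (nat_lit 5) (nat_lit 6) (nat_lit 4) (nat_lit 402) (nat_lit 226) (nat_lit 152)) (XT.nd (nat_lit 78) (nat_lit 0) (nat_lit 0) (XT.lf (nat_lit 0) (nat_lit 1774343283) (nat_lit 76) (nat_lit 5330381828) (nat_lit 152) (nat_lit 74375843297) (nat_lit 4) (nat_lit 5) (nat_lit 5) (nat_lit 5) (nat_lit 6) (nat_lit 4) (nat_lit 403)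 (nat_lit 226) (nat_lit 151)) (XT.lf (nat_lit 0) (nat_lit 8364692082) (nat_lit 76) (nat_lit 2008698473) (nat_lit 152) (nat_lit 73446770051) (nat_lit 4) (nat_lit 5) (nat_lit 5) (nat_lit 5) (nat_lit 6) (nat_lit 4) (nat_lit 404) (nat_lit 226) (nat_lit 150)))) (XT.nd (nat_lit 156) (nat_lit 0) (nat_lit 0) (XT.nd (nat_lit 78) (nat_lit 0) (nat_lit 0) (XT.lf (nat_lit 0) (nat_lit 13735663029) (nat_lit 152) (nat_lit 71124791693) (nat_lit 0) (nat_lit 1369623327) (nat_lit 4) (nat_lit 5) (nat_lit 6) (nat_lit 4) (nat_lit 4) (nat_lit 4) (nat_lit 405) (nat_lit 226) (nat_lit 149)) (XT.lf (nat_lit 0) (nat_lit 17201184937) (nat_lit 152) (nat_lit 66717115043) (nat_lit 0) (nat_lit 4793925377) (nat_lit 4) (nat_lit 5) (nat_lit 6) (nat_lit 4) (nat_lit 4) (nat_lit 4) (nat_lit 406) (nat_lit 226) (nat_lit 148))) (XT.nd (nat_lit 78) (nat_lit 0) (nat_lit 0) (XT.lf (nat_lit 0) (nat_lit 20753675568) (nat_lit 152) (nat_lit 62209278366)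 (nat_lit 0) (nat_lit 8306396728) (nat_lit 4) (nat_lit 5) (nat_lit 6) (nat_lit 4) (nat_lit 4) (nat_lit 4) (nat_lit 407) (nat_lit 226) (nat_lit 147)) (XT.lf (nat_lit 0) (nat_lit 24396239038) (nat_lit 152) (nat_lit 57597342777) (nat_lit 0) (nat_lit 11910106528) (nat_lit 4) (nat_lit 5) (nat_lit 6) (nat_lit 4) (nat_lit 4) (nat_lit 4) (nat_lit 408) (nat_lit 226) (nat_lit 146))))))))
noncomputable def xc33 : XT := (XT.nd (nat_lit 36114) (nat_lit 0) (nat_lit 456) (XT.nd (nat_lit 35022) (nat_lit 0) (nat_lit 1368) (XT.nd (nat_lit 34476) (nat_lit 0) (nat_lit 2280) (XT.nd (nat_lit 34164) (nat_lit 0) (nat_lit 3040) (XT.nd (nat_lit 78) (nat_lit 0) (nat_lit 0) (XT.lf (nat_lit 0) (nat_lit 28132058170) (nat_lit 152) (nat_lit 52877278429) (nat_lit 0) (nat_lit 15608203652) (nat_lit 4) (nat_lit 5) (nat_lit 6) (nat_lit 4) (nat_lit 4) (nat_lit 4) (nat_lit 409) (nat_lit 226) (nat_lit 145)) (XT.nd (nat_lit 78) (nat_lit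 0) (nat_lit 0) (XT.lf (nat_lit 0) (nat_lit 31964397273) (nat_lit 152) (nat_lit 48044960994) (nat_lit 0) (nat_lit 19403919445) (nat_lit 4) (nat_lit 5) (nat_lit 6) (nat_lit 4) (nat_lit 4) (nat_lit 4) (nat_lit 410) (nat_lit 226) (nat_lit 144)) (XT.lf (nat_lit 0) (nat_lit 35896604992) (nat_lit 152) (nat_lit 43096168058) (nat_lit 0) (nat_lit 23300570552) (nat_lit 4) (nat_lit 5) (nat_lit 6) (nat_lit 4) (nat_lit 4) (nat_lit 4) (nat_lit 411) (nat_lit 226) (nat_lit 143)))) (XT.nd (nat_lit 156) (nat_lit 380) (nat_lit 0) (XT.nd (nat_lit 78) (nat_lit 0) (nat_lit 0) (XT.lf (nat_lit 0) (nat_lit 1752898155) (nat_lit 228) (nat_lit 2205480310) (nat_lit 228) (nat_lit 2205480310) (nat_lit 49) (nat_lit 4) (nat_lit 52) (nat_lit 5) (nat_lit 52) (nat_lit 4) (nat_lit 326) (nat_lit 227) (nat_lit 227)) (XT.lf (nat_lit 0) (nat_lit 11525824799) (nat_lit 228) (nat_lit 807443745) (nat_lit 228) (nat_lit 217980522) (nat_lit 49)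 (nat_lit 4) (nat_lit 52) (nat_lit 5) (nat_lit 52) (nat_lit 4) (nat_lit 327) (nat_lit 227) (nat_lit 226))) (XT.nd (nat_lit 78) (nat_lit 152) (nat_lit 0) (XT.lf (nat_lit 0) (nat_lit 4022470791) (nat_lit 228) (nat_lit 5863282226) (nat_lit 0) (nat_lit 2894550777) (nat_lit 46) (nat_lit 5) (nat_lit 49) (nat_lit 4) (nat_lit 46) (nat_lit 4) (nat_lit 328) (nat_lit 227) (nat_lit 225)) (XT.lf (nat_lit 0) (nat_lit 1975583372) (nat_lit 152) (nat_lit 6354827093) (nat_lit 152) (nat_lit 4687464727) (nat_lit 44) (nat_lit 4) (nat_lit 46) (nat_lit 5) (nat_lit 46) (nat_lit 4) (nat_lit 329) (nat_lit 227) (nat_lit 224))))) (XT.nd (nat_lit 234) (nat_lit 532) (nat_lit 0) (XT.nd (nat_lit 78) (nat_lit 228) (nat_lit 0) (XT.lf (nat_lit 0) (nat_lit 10015777923) (nat_lit 152) (nat_lit 2719453664) (nat_lit 152) (nat_lit 528360859) (nat_lit 44) (nat_lit 4) (nat_lit 46) (nat_lit 5) (nat_lit 46) (nat_lit 4) (nat_lit 330) (nat_lit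 227) (nat_lit 223)) (XT.nd (nat_lit 78) (nat_lit 0) (nat_lit 0) (XT.lf (nat_lit 0) (nat_lit 3647503086) (nat_lit 228) (nat_lit 8842619916) (nat_lit 0) (nat_lit 1026562349) (nat_lit 41) (nat_lit 5) (nat_lit 44) (nat_lit 4) (nat_lit 41) (nat_lit 4) (nat_lit 331) (nat_lit 227) (nat_lit 222)) (XT.lf (nat_lit 0) (nat_lit 7908833293) (nat_lit 228) (nat_lit 1060695440) (nat_lit 0) (nat_lit 4808605013) (nat_lit 41) (nat_lit 5) (nat_lit 44) (nat_lit 4) (nat_lit 41) (nat_lit 4) (nat_lit 332) (nat_lit 227) (nat_lit 221)))) (XT.nd (nat_lit 156) (nat_lit 152) (nat_lit 0) (XT.nd (nat_lit 78) (nat_lit 228) (nat_lit 0) (XT.lf (nat_lit 0) (nat_lit 6942583119) (nat_lit 152) (nat_lit 5335519081) (nat_lit 152) (nat_lit 1769963090) (nat_lit 39) (nat_lit 4) (nat_lit 41) (nat_lit 5) (nat_lit 41) (nat_lit 4) (nat_lit 333) (nat_lit 227) (nat_lit 220)) (XT.lf (nat_lit 0) (nat_lit 724496284) (nat_lit 152) (nat_lit 1611378963)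 (nat_lit 228) (nat_lit 11991611284) (nat_lit 36) (nat_lit 5) (nat_lit 38) (nat_lit 5) (nat_lit 39) (nat_lit 4) (nat_lit 334) (nat_lit 227) (nat_lit 219))) (XT.nd (nat_lit 78) (nat_lit 152) (nat_lit 0) (XT.lf (nat_lit 0) (nat_lit 6537274260) (nat_lit 228) (nat_lit 5866178016) (nat_lit 0) (nat_lit 2211112642) (nat_lit 36) (nat_lit 5) (nat_lit 39) (nat_lit 4) (nat_lit 36) (nat_lit 4) (nat_lit 335) (nat_lit 227) (nat_lit 218)) (XT.lf (nat_lit 0) (nat_lit 1981319095) (nat_lit 152) (nat_lit 8835012616) (nat_lit 152) (nat_lit 4095413354) (nat_lit 34) (nat_lit 4) (nat_lit 36) (nat_lit 5) (nat_lit 36) (nat_lit 4) (nat_lit 336) (nat_lit 227) (nat_lit 217)))))) (XT.nd (nat_lit 546) (nat_lit 456) (nat_lit 0) (XT.nd (nat_lit 234) (nat_lit 304) (nat_lit 0) (XT.nd (nat_lit 78) (nat_lit 152) (nat_lit 0) (XT.lf (nat_lit 0) (nat_lit 10041777124) (nat_lit 152) (nat_lit 5158894009) (nat_lit 152) (nat_lit 17898974)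 (nat_lit 34) (nat_lit 4) (nat_lit 36) (nat_lit 5) (nat_lit 36) (nat_lit 4) (nat_lit 337) (nat_lit 227) (nat_lit 216)) (XT.nd (nat_lit 78) (nat_lit 0) (nat_lit 0) (XT.lf (nat_lit 0) (nat_lit 2681372837) (nat_lit 76) (nat_lit 1363983075) (nat_lit 152) (nat_lit 11489722099) (nat_lit 32) (nat_lit 5) (nat_lit 33) (nat_lit 5) (nat_lit 34) (nat_lit 4) (nat_lit 338) (nat_lit 227) (nat_lit 215)) (XT.lf (nat_lit 0) (nat_lit 8227098108) (nat_lit 152) (nat_lit 5143950134) (nat_lit 0) (nat_lit 2490152789) (nat_lit 32) (nat_lit 5) (nat_lit 34) (nat_lit 4) (nat_lit 32) (nat_lit 4) (nat_lit 339) (nat_lit 227) (nat_lit 214)))) (XT.nd (nat_lit 156) (nat_lit 76) (nat_lit 0) (XT.nd (nat_lit 78) (nat_lit 76) (nat_lit 0) (XT.lf (nat_lit 0) (nat_lit 2699687650) (nat_lit 152) (nat_lit 9796094186) (nat_lit 152) (nat_lit 3702513922) (nat_lit 30) (nat_lit 4) (nat_lit 32) (nat_lit 5) (nat_lit 32) (nat_lit 4) (nat_lit 340)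 (nat_lit 227) (nat_lit 213)) (XT.lf (nat_lit 0) (nat_lit 314919963) (nat_lit 228) (nat_lit 5800540255) (nat_lit 76) (nat_lit 10430733788) (nat_lit 29) (nat_lit 5) (nat_lit 32) (nat_lit 5) (nat_lit 30) (nat_lit 4) (nat_lit 341) (nat_lit 227) (nat_lit 212))) (XT.nd (nat_lit 78) (nat_lit 0) (nat_lit 0) (XT.lf (nat_lit 0) (nat_lit 1997957996) (nat_lit 76) (nat_lit 2324184081) (nat_lit 152) (nat_lit 12583006826) (nat_lit 28) (nat_lit 5) (nat_lit 29) (nat_lit 5) (nat_lit 30) (nat_lit 4) (nat_lit 342) (nat_lit 227) (nat_lit 211)) (XT.lf (nat_lit 0) (nat_lit 8448795120) (nat_lit 152) (nat_lit 7272831834) (nat_lit 0) (nat_lit 1553298114) (nat_lit 28) (nat_lit 5) (nat_lit 30) (nat_lit 4) (nat_lit 28) (nat_lit 4) (nat_lit 343) (nat_lit 227) (nat_lit 210))))) (XT.nd (nat_lit 234) (nat_lit 228) (nat_lit 0) (XT.nd (nat_lit 78) (nat_lit 76) (nat_lit 0) (XT.lf (nat_lit 0) (nat_lit 446890672) (nat_lit 152) (nat_lit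 12206717342) (nat_lit 152) (nat_lit 5003583900) (nat_lit 26) (nat_lit 4) (nat_lit 28) (nat_lit 5) (nat_lit 28) (nat_lit 4) (nat_lit 344) (nat_lit 227) (nat_lit 209)) (XT.nd (nat_lit 78) (nat_lit 76) (nat_lit 0) (XT.lf (nat_lit 0) (nat_lit 8419183108) (nat_lit 152) (nat_lit 8566769506) (nat_lit 152) (nat_lit 1064959914) (nat_lit 26) (nat_lit 4) (nat_lit 28) (nat_lit 5) (nat_lit 28) (nat_lit 4) (nat_lit 345) (nat_lit 227) (nat_lit 208)) (XT.lf (nat_lit 0) (nat_lit 2862767499) (nat_lit 228) (nat_lit 1980368414) (nat_lit 76) (nat_lit 13614592101) (nat_lit 25) (nat_lit 5) (nat_lit 28) (nat_lit 5) (nat_lit 26) (nat_lit 4) (nat_lit 346) (nat_lit 227) (nat_lit 207)))) (XT.nd (nat_lit 156) (nat_lit 152) (nat_lit 0) (XT.nd (nat_lit 78) (nat_lit 0) (nat_lit 0) (XT.lf (nat_lit 0) (nat_lit 5882636279) (nat_lit 76) (nat_lit 992217728) (nat_lit 152) (nat_lit 12001964735) (nat_lit 24) (nat_lit 5) (nat_lit 25)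 (nat_lit 5) (nat_lit 26) (nat_lit 4) (nat_lit 347) (nat_lit 227) (nat_lit 206)) (XT.lf (nat_lit 0) (nat_lit 10987798281) (nat_lit 152) (nat_lit 5437037186) (nat_lit 0) (nat_lit 2884256198) (nat_lit 24) (nat_lit 5) (nat_lit 26) (nat_lit 4) (nat_lit 24) (nat_lit 4) (nat_lit 348) (nat_lit 227) (nat_lit 205))) (XT.nd (nat_lit 78) (nat_lit 0) (nat_lit 0) (XT.lf (nat_lit 0) (nat_lit 2262216725) (nat_lit 152) (nat_lit 12927182191) (nat_lit 152) (nat_lit 4565999437) (nat_lit 22) (nat_lit 4) (nat_lit 24) (nat_lit 5) (nat_lit 24) (nat_lit 4) (nat_lit 349) (nat_lit 227) (nat_lit 204)) (XT.lf (nat_lit 0) (nat_lit 10186142341) (nat_lit 152) (nat_lit 9320306069) (nat_lit 152) (nat_lit 708986740) (nat_lit 22) (nat_lit 4) (nat_lit 24) (nat_lit 5) (nat_lit 24) (nat_lit 4) (nat_lit 350) (nat_lit 227) (nat_lit 203))))))) (XT.nd (nat_lit 1092) (nat_lit 304) (nat_lit 0) (XT.nd (nat_lit 546) (nat_lit 228) (nat_lit 0)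 (XT.nd (nat_lit 234) (nat_lit 228) (nat_lit 0) (XT.nd (nat_lit 78) (nat_lit 76) (nat_lit 0) (XT.lf (nat_lit 0) (nat_lit 3135802872) (nat_lit 228) (nat_lit 2488490541) (nat_lit 76) (nat_lit 15065987448) (nat_lit 21) (nat_lit 5) (nat_lit 24) (nat_lit 5) (nat_lit 22) (nat_lit 4) (nat_lit 351) (nat_lit 227) (nat_lit 202)) (XT.nd (nat_lit 78) (nat_lit 0) (nat_lit 0) (XT.lf (nat_lit 0) (nat_lit 5261933073) (nat_lit 76) (nat_lit 1807959122) (nat_lit 152) (nat_lit 14109643966) (nat_lit 20) (nat_lit 5) (nat_lit 21) (nat_lit 5) (nat_lit 22) (nat_lit 4) (nat_lit 352) (nat_lit 227) (nat_lit 201)) (XT.lf (nat_lit 0) (nat_lit 11105685220) (nat_lit 152) (nat_lit 8520044044) (nat_lit 0) (nat_lit 2058249799) (nat_lit 20) (nat_lit 5) (nat_lit 22) (nat_lit 4) (nat_lit 20) (nat_lit 4) (nat_lit 353) (nat_lit 227) (nat_lit 200)))) (XT.nd (nat_lit 156) (nat_lit 76) (nat_lit 0) (XT.nd (nat_lit 78) (nat_lit 152) (nat_lit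 0) (XT.lf (nat_lit 0) (nat_lit 15220158511) (nat_lit 152) (nat_lit 1027735246) (nat_lit 0) (nat_lit 5956953083) (nat_lit 20) (nat_lit 5) (nat_lit 22) (nat_lit 4) (nat_lit 20) (nat_lit 4) (nat_lit 354) (nat_lit 227) (nat_lit 199)) (XT.lf (nat_lit 0) (nat_lit 6714268760) (nat_lit 152) (nat_lit 12749800928) (nat_lit 152) (nat_lit 3277110057) (nat_lit 18) (nat_lit 4) (nat_lit 20) (nat_lit 5) (nat_lit 20) (nat_lit 4) (nat_lit 355) (nat_lit 227) (nat_lit 198))) (XT.nd (nat_lit 78) (nat_lit 0) (nat_lit 0) (XT.lf (nat_lit 0) (nat_lit 483172193) (nat_lit 228) (nat_lit 8695235243) (nat_lit 76) (nat_lit 14116495678) (nat_lit 17) (nat_lit 5) (nat_lit 20) (nat_lit 5) (nat_lit 18) (nat_lit 4) (nat_lit 356) (nat_lit 227) (nat_lit 197)) (XT.lf (nat_lit 0) (nat_lit 4233664396) (nat_lit 228) (nat_lit 1279196192) (nat_lit 76) (nat_lit 18353123728) (nat_lit 17) (nat_lit 5) (nat_lit 20) (nat_lit 5) (nat_lit 18) (nat_lit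 4) (nat_lit 357) (nat_lit 227) (nat_lit 196))))) (XT.nd (nat_lit 234) (nat_lit 152) (nat_lit 0) (XT.nd (nat_lit 78) (nat_lit 0) (nat_lit 0) (XT.lf (nat_lit 0) (nat_lit 6383757898) (nat_lit 76) (nat_lit 1719198589) (nat_lit 152) (nat_lit 16351069977) (nat_lit 16) (nat_lit 5) (nat_lit 17) (nat_lit 5) (nat_lit 18) (nat_lit 4) (nat_lit 358) (nat_lit 227) (nat_lit 195)) (XT.nd (nat_lit 78) (nat_lit 0) (nat_lit 0) (XT.lf (nat_lit 0) (nat_lit 12067549356) (nat_lit 152) (nat_lit 10878036387) (nat_lit 0) (nat_lit 2114764039) (nat_lit 16) (nat_lit 5) (nat_lit 18) (nat_lit 4) (nat_lit 16) (nat_lit 4) (nat_lit 359) (nat_lit 227) (nat_lit 194)) (XT.lf (nat_lit 0) (nat_lit 16114841316) (nat_lit 152) (nat_lit 3584509492) (nat_lit 0) (nat_lit 5986615238) (nat_lit 16) (nat_lit 5) (nat_lit 18) (nat_lit 4) (nat_lit 16) (nat_lit 4) (nat_lit 360) (nat_lit 227) (nat_lit 193)))) (XT.nd (nat_lit 156) (nat_lit 76) (nat_lit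 0) (XT.nd (nat_lit 78) (nat_lit 0) (nat_lit 0) (XT.lf (nat_lit 0) (nat_lit 3909499509) (nat_lit 76) (nat_lit 16359923838) (nat_lit 76) (nat_lit 6061366925) (nat_lit 15) (nat_lit 4) (nat_lit 16) (nat_lit 5) (nat_lit 16) (nat_lit 4) (nat_lit 361) (nat_lit 227) (nat_lit 192)) (XT.lf (nat_lit 0) (nat_lit 11608123164) (nat_lit 76) (nat_lit 12925612546) (nat_lit 76) (nat_lit 2461685890) (nat_lit 15) (nat_lit 4) (nat_lit 16) (nat_lit 5) (nat_lit 16) (nat_lit 4) (nat_lit 362) (nat_lit 227) (nat_lit 191))) (XT.nd (nat_lit 78) (nat_lit 0) (nat_lit 0) (XT.lf (nat_lit 0) (nat_lit 1171551045) (nat_lit 152) (nat_lit 8246231181) (nat_lit 76) (nat_lit 18263368243) (nat_lit 14) (nat_lit 5) (nat_lit 16) (nat_lit 5) (nat_lit 15) (nat_lit 4) (nat_lit 363) (nat_lit 227) (nat_lit 190)) (XT.lf (nat_lit 0) (nat_lit 4815646609) (nat_lit 152) (nat_lit 1004594031) (nat_lit 76) (nat_lit 22567953077) (nat_lit 14) (nat_lit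 5) (nat_lit 16) (nat_lit 5) (nat_lit 15) (nat_lit 4) (nat_lit 364) (nat_lit 227) (nat_lit 189)))))) (XT.nd (nat_lit 546) (nat_lit 152) (nat_lit 0) (XT.nd (nat_lit 234) (nat_lit 76) (nat_lit 0) (XT.nd (nat_lit 78) (nat_lit 0) (nat_lit 0) (XT.lf (nat_lit 0) (nat_lit 6494331691) (nat_lit 76) (nat_lit 2089917116) (nat_lit 152) (nat_lit 20531757410) (nat_lit 13) (nat_lit 5) (nat_lit 14) (nat_lit 5) (nat_lit 15) (nat_lit 4) (nat_lit 365) (nat_lit 227) (nat_lit 188)) (XT.nd (nat_lit 78) (nat_lit 0) (nat_lit 0) (XT.lf (nat_lit 0) (nat_lit 12445929164) (nat_lit 152) (nat_lit 15730351186) (nat_lit 0) (nat_lit 1689985218) (nat_lit 13) (nat_lit 5) (nat_lit 15) (nat_lit 4) (nat_lit 13) (nat_lit 4) (nat_lit 366) (nat_lit 227) (nat_lit 187)) (XT.lf (nat_lit 0) (nat_lit 16398454011) (nat_lit 152) (nat_lit 8737326054) (nat_lit 0) (nat_lit 5504015508) (nat_lit 13) (nat_lit 5) (nat_lit 15) (nat_lit 4) (nat_lit 13)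 (nat_lit 4) (nat_lit 367) (nat_lit 227) (nat_lit 186)))) (XT.nd (nat_lit 156) (nat_lit 0) (nat_lit 0) (XT.nd (nat_lit 78) (nat_lit 76) (nat_lit 0) (XT.lf (nat_lit 0) (nat_lit 20425187450) (nat_lit 152) (nat_lit 1616399159) (nat_lit 0) (nat_lit 9396288213) (nat_lit 13) (nat_lit 5) (nat_lit 15) (nat_lit 4) (nat_lit 13) (nat_lit 4) (nat_lit 368) (nat_lit 227) (nat_lit 185)) (XT.lf (nat_lit 0) (nat_lit 5750871893) (nat_lit 76) (nat_lit 18834056991) (nat_lit 76) (nat_lit 7674613351) (nat_lit 12) (nat_lit 4) (nat_lit 13) (nat_lit 5) (nat_lit 13) (nat_lit 4) (nat_lit 369) (nat_lit 227) (nat_lit 184))) (XT.nd (nat_lit 78) (nat_lit 0) (nat_lit 0) (XT.lf (nat_lit 0) (nat_lit 13293571251) (nat_lit 76) (nat_lit 15549636727) (nat_lit 76) (nat_lit 4263450949) (nat_lit 12) (nat_lit 4) (nat_lit 13) (nat_lit 5) (nat_lit 13) (nat_lit 4) (nat_lit 370) (nat_lit 227) (nat_lit 183)) (XT.lf (nat_lit 0) (nat_lit 20986120110)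 (nat_lit 76) (nat_lit 12201778399) (nat_lit 76) (nat_lit 792542001) (nat_lit 12) (nat_lit 4) (nat_lit 13) (nat_lit 5) (nat_lit 13) (nat_lit 4) (nat_lit 371) (nat_lit 227) (nat_lit 182))))) (XT.nd (nat_lit 234) (nat_lit 0) (nat_lit 0) (XT.nd (nat_lit 78) (nat_lit 76) (nat_lit 0) (XT.lf (nat_lit 0) (nat_lit 2687656687) (nat_lit 152) (nat_lit 6072759942) (nat_lit 76) (nat_lit 26120443364) (nat_lit 11) (nat_lit 5) (nat_lit 13) (nat_lit 5) (nat_lit 12) (nat_lit 4) (nat_lit 372) (nat_lit 227) (nat_lit 181)) (XT.nd (nat_lit 78) (nat_lit 0) (nat_lit 0) (XT.lf (nat_lit 0) (nat_lit 995182300) (nat_lit 76) (nat_lit 5231355792) (nat_lit 152) (nat_lit 29582422701) (nat_lit 10) (nat_lit 5) (nat_lit 11) (nat_lit 5) (nat_lit 12) (nat_lit 4) (nat_lit 373) (nat_lit 227) (nat_lit 180)) (XT.lf (nat_lit 0) (nat_lit 8327524861) (nat_lit 76) (nat_lit 1566476931) (nat_lit 152) (nat_lit 26870240375) (nat_lit 10) (nat_lit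 5) (nat_lit 11) (nat_lit 5) (nat_lit 12) (nat_lit 4) (nat_lit 374) (nat_lit 227) (nat_lit 179)))) (XT.nd (nat_lit 156) (nat_lit 0) (nat_lit 0) (XT.nd (nat_lit 78) (nat_lit 0) (nat_lit 0) (XT.lf (nat_lit 0) (nat_lit 13654633499) (nat_lit 152) (nat_lit 21960428117) (nat_lit 0) (nat_lit 2133635772) (nat_lit 10) (nat_lit 5) (nat_lit 12) (nat_lit 4) (nat_lit 10) (nat_lit 4) (nat_lit 375) (nat_lit 227) (nat_lit 178)) (XT.lf (nat_lit 0) (nat_lit 17506619173) (nat_lit 152) (nat_lit 15374152002) (nat_lit 0) (nat_lit 5882568489) (nat_lit 10) (nat_lit 5) (nat_lit 12) (nat_lit 4) (nat_lit 10) (nat_lit 4) (nat_lit 376) (nat_lit 227) (nat_lit 177))) (XT.nd (nat_lit 78) (nat_lit 0) (nat_lit 0) (XT.lf (nat_lit 0) (nat_lit 21438266692) (nat_lit 152) (nat_lit 8657076028) (nat_lit 0) (nat_lit 9714164593) (nat_lit 10) (nat_lit 5) (nat_lit 12) (nat_lit 4) (nat_lit 10) (nat_lit 4) (nat_lit 377) (nat_lit 227) (nat_lit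 176)) (XT.lf (nat_lit 0) (nat_lit 25453011475) (nat_lit 152) (nat_lit 1803330905) (nat_lit 0) (nat_lit 13631772081) (nat_lit 10) (nat_lit 5) (nat_lit 12) (nat_lit 4) (nat_lit 10) (nat_lit 4) (nat_lit 378) (nat_lit 227) (nat_lit 175))))))))
noncomputable def xc34 : XT := (XT.nd (nat_lit 2106) (nat_lit 0) (nat_lit 0) (XT.nd (nat_lit 1014) (nat_lit 228) (nat_lit 0) (XT.nd (nat_lit 468) (nat_lit 76) (nat_lit 0) (XT.nd (nat_lit 234) (nat_lit 76) (nat_lit 0) (XT.nd (nat_lit 78) (nat_lit 0) (nat_lit 0) (XT.lf (nat_lit 0) (nat_lit 5296424392) (nat_lit 76) (nat_lit 24308849631) (nat_lit 76) (nat_lit 12393302183) (nat_lit 9) (nat_lit 4) (nat_lit 10) (nat_lit 5) (nat_lit 10) (nat_lit 4) (nat_lit 379) (nat_lit 227) (nat_lit 174)) (XT.nd (nat_lit 78) (nat_lit 0) (nat_lit 0) (XT.lf (nat_lit 0) (nat_lit 12583801569) (nat_lit 76) (nat_lit 21283062256) (nat_lit 76) (nat_lit 9275953591) (nat_lit 9) (nat_lit 4) (nat_lit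 10) (nat_lit 5) (nat_lit 10) (nat_lit 4) (nat_lit 380) (nat_lit 227) (nat_lit 173)) (XT.lf (nat_lit 0) (nat_lit 20029278417) (nat_lit 76) (nat_lit 18194546470) (nat_lit 76) (nat_lit 6098543419) (nat_lit 9) (nat_lit 4) (nat_lit 10) (nat_lit 5) (nat_lit 10) (nat_lit 4) (nat_lit 381) (nat_lit 227) (nat_lit 172)))) (XT.nd (nat_lit 78) (nat_lit 76) (nat_lit 0) (XT.lf (nat_lit 0) (nat_lit 27639360691) (nat_lit 76) (nat_lit 15040603570) (nat_lit 76) (nat_lit 2858295290) (nat_lit 9) (nat_lit 4) (nat_lit 10) (nat_lit 5) (nat_lit 10) (nat_lit 4) (nat_lit 382) (nat_lit 227) (nat_lit 171)) (XT.nd (nat_lit 78) (nat_lit 0) (nat_lit 0) (XT.lf (nat_lit 0) (nat_lit 438887362) (nat_lit 152) (nat_lit 11375158418) (nat_lit 76) (nat_lit 34977378714) (nat_lit 8) (nat_lit 5) (nat_lit 10) (nat_lit 5) (nat_lit 9) (nat_lit 4) (nat_lit 383) (nat_lit 227) (nat_lit 170)) (XT.lf (nat_lit 0) (nat_lit 3747514474) (nat_lit 152)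 (nat_lit 4739996335) (nat_lit 76) (nat_lit 39594732481) (nat_lit 8) (nat_lit 5) (nat_lit 10) (nat_lit 5) (nat_lit 9) (nat_lit 4) (nat_lit 384) (nat_lit 227) (nat_lit 169))))) (XT.nd (nat_lit 234) (nat_lit 0) (nat_lit 0) (XT.nd (nat_lit 78) (nat_lit 0) (nat_lit 0) (XT.lf (nat_lit 0) (nat_lit 2080458015) (nat_lit 76) (nat_lit 5065793337) (nat_lit 152) (nat_lit 42265816802) (nat_lit 7) (nat_lit 5) (nat_lit 8) (nat_lit 5) (nat_lit 9) (nat_lit 4) (nat_lit 385) (nat_lit 227) (nat_lit 168)) (XT.nd (nat_lit 78) (nat_lit 0) (nat_lit 0) (XT.lf (nat_lit 0) (nat_lit 9148864389) (nat_lit 76) (nat_lit 1517134476) (nat_lit 152) (nat_lit 40115224266) (nat_lit 7) (nat_lit 5) (nat_lit 8) (nat_lit 5) (nat_lit 9) (nat_lit 4) (nat_lit 386) (nat_lit 227) (nat_lit 167)) (XT.lf (nat_lit 0) (nat_lit 14283680166) (nat_lit 152) (nat_lit 35835553042) (nat_lit 0) (nat_lit 2072455936) (nat_lit 7) (nat_lit 5) (nat_lit 9) (nat_lit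 4) (nat_lit 7) (nat_lit 4) (nat_lit 387) (nat_lit 227) (nat_lit 166)))) (XT.nd (nat_lit 156) (nat_lit 0) (nat_lit 0) (XT.nd (nat_lit 78) (nat_lit 0) (nat_lit 0) (XT.lf (nat_lit 0) (nat_lit 17997524447) (nat_lit 152) (nat_lit 29931195980) (nat_lit 0) (nat_lit 5716126168) (nat_lit 7) (nat_lit 5) (nat_lit 9) (nat_lit 4) (nat_lit 7) (nat_lit 4) (nat_lit 388) (nat_lit 227) (nat_lit 165)) (XT.lf (nat_lit 0) (nat_lit 21796193189) (nat_lit 152) (nat_lit 23899544784) (nat_lit 0) (nat_lit 9446664766) (nat_lit 7) (nat_lit 5) (nat_lit 9) (nat_lit 4) (nat_lit 7) (nat_lit 4) (nat_lit 389) (nat_lit 227) (nat_lit 164))) (XT.nd (nat_lit 78) (nat_lit 0) (nat_lit 0) (XT.lf (nat_lit 0) (nat_lit 25683005619) (nat_lit 152) (nat_lit 17735329081) (nat_lit 0) (nat_lit 13267331425) (nat_lit 7) (nat_lit 5) (nat_lit 9) (nat_lit 4) (nat_lit 7) (nat_lit 4) (nat_lit 390) (nat_lit 227) (nat_lit 163)) (XT.lf (nat_lit 0) (nat_lit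 29661357981) (nat_lit 152) (nat_lit 11433162662) (nat_lit 0) (nat_lit 17181464590) (nat_lit 7) (nat_lit 5) (nat_lit 9) (nat_lit 4) (nat_lit 7) (nat_lit 4) (nat_lit 391) (nat_lit 227) (nat_lit 162)))))) (XT.nd (nat_lit 546) (nat_lit 152) (nat_lit 0) (XT.nd (nat_lit 234) (nat_lit 0) (nat_lit 0) (XT.nd (nat_lit 78) (nat_lit 76) (nat_lit 0) (XT.lf (nat_lit 0) (nat_lit 33734726503) (nat_lit 152) (nat_lit 4987538780) (nat_lit 0) (nat_lit 21192484379) (nat_lit 7) (nat_lit 5) (nat_lit 9) (nat_lit 4) (nat_lit 7) (nat_lit 4) (nat_lit 392) (nat_lit 227) (nat_lit 161)) (XT.nd (nat_lit 78) (nat_lit 0) (nat_lit 0) (XT.lf (nat_lit 0) (nat_lit 1639160589) (nat_lit 76) (nat_lit 36283266465) (nat_lit 76) (nat_lit 23680491590) (nat_lit 6) (nat_lit 4) (nat_lit 7) (nat_lit 5) (nat_lit 7) (nat_lit 4) (nat_lit 393) (nat_lit 227) (nat_lit 160)) (XT.lf (nat_lit 0) (nat_lit 8523055551) (nat_lit 76) (nat_lit 33739708454)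 (nat_lit 76) (nat_lit 21078163917) (nat_lit 6) (nat_lit 4) (nat_lit 7) (nat_lit 5) (nat_lit 7) (nat_lit 4) (nat_lit 394) (nat_lit 227) (nat_lit 159)))) (XT.nd (nat_lit 156) (nat_lit 0) (nat_lit 0) (XT.nd (nat_lit 78) (nat_lit 0) (nat_lit 0) (XT.lf (nat_lit 0) (nat_lit 15570899357) (nat_lit 76) (nat_lit 31139733086) (nat_lit 76) (nat_lit 18421130626) (nat_lit 6) (nat_lit 4) (nat_lit 7) (nat_lit 5) (nat_lit 7) (nat_lit 4) (nat_lit 395) (nat_lit 227) (nat_lit 158)) (XT.lf (nat_lit 0) (nat_lit 22788850316) (nat_lit 76) (nat_lit 28481068538) (nat_lit 76) (nat_lit 15707070036) (nat_lit 6) (nat_lit 4) (nat_lit 7) (nat_lit 5) (nat_lit 7) (nat_lit 4) (nat_lit 396) (nat_lit 227) (nat_lit 157))) (XT.nd (nat_lit 78) (nat_lit 0) (nat_lit 0) (XT.lf (nat_lit 0) (nat_lit 30183215376) (nat_lit 76) (nat_lit 25761391706) (nat_lit 76) (nat_lit 12933610638) (nat_lit 6) (nat_lit 4) (nat_lit 7) (nat_lit 5) (nat_lit 7)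 (nat_lit 4) (nat_lit 397) (nat_lit 227) (nat_lit 156)) (XT.lf (nat_lit 0) (nat_lit 37760455633) (nat_lit 76) (nat_lit 22978326172) (nat_lit 76) (nat_lit 10098329022) (nat_lit 6) (nat_lit 4) (nat_lit 7) (nat_lit 5) (nat_lit 7) (nat_lit 4) (nat_lit 398) (nat_lit 227) (nat_lit 155))))) (XT.nd (nat_lit 234) (nat_lit 152) (nat_lit 0) (XT.nd (nat_lit 78) (nat_lit 0) (nat_lit 0) (XT.lf (nat_lit 0) (nat_lit 45527191976) (nat_lit 76) (nat_lit 20129440132) (nat_lit 76) (nat_lit 7198747755) (nat_lit 6) (nat_lit 4) (nat_lit 7) (nat_lit 5) (nat_lit 7) (nat_lit 4) (nat_lit 399) (nat_lit 227) (nat_lit 154)) (XT.nd (nat_lit 78) (nat_lit 0) (nat_lit 0) (XT.lf (nat_lit 0) (nat_lit 53490210874) (nat_lit 76) (nat_lit 17212244268) (nat_lit 76) (nat_lit 4232333225) (nat_lit 6) (nat_lit 4) (nat_lit 7) (nat_lit 5) (nat_lit 7) (nat_lit 4) (nat_lit 400) (nat_lit 227) (nat_lit 153)) (XT.lf (nat_lit 0) (nat_lit 61656470305)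 (nat_lit 76) (nat_lit 14224189573) (nat_lit 76) (nat_lit 1196493418) (nat_lit 6) (nat_lit 4) (nat_lit 7) (nat_lit 5) (nat_lit 7) (nat_lit 4) (nat_lit 401) (nat_lit 227) (nat_lit 152)))) (XT.nd (nat_lit 156) (nat_lit 76) (nat_lit 0) (XT.nd (nat_lit 78) (nat_lit 0) (nat_lit 0) (XT.lf (nat_lit 0) (nat_lit 1874125567) (nat_lit 152) (nat_lit 9269614566) (nat_lit 76) (nat_lit 68140055274) (nat_lit 5) (nat_lit 5) (nat_lit 7) (nat_lit 5) (nat_lit 6) (nat_lit 4) (nat_lit 402) (nat_lit 227) (nat_lit 151)) (XT.lf (nat_lit 0) (nat_lit 4994730773) (nat_lit 152) (nat_lit 2979828049) (nat_lit 76) (nat_lit 73582269094) (nat_lit 5) (nat_lit 5) (nat_lit 7) (nat_lit 5) (nat_lit 6) (nat_lit 4) (nat_lit 403) (nat_lit 227) (nat_lit 150))) (XT.nd (nat_lit 78) (nat_lit 0) (nat_lit 0) (XT.lf (nat_lit 0) (nat_lit 3534647619) (nat_lit 76) (nat_lit 4690726413) (nat_lit 152) (nat_lit 75672188665) (nat_lit 4) (nat_lit 5) (nat_lit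 5) (nat_lit 5) (nat_lit 6) (nat_lit 4) (nat_lit 404) (nat_lit 227) (nat_lit 149)) (XT.lf (nat_lit 0) (nat_lit 10272986279) (nat_lit 76) (nat_lit 1292680912) (nat_lit 152) (nat_lit 74742474190) (nat_lit 4) (nat_lit 5) (nat_lit 5) (nat_lit 5) (nat_lit 6) (nat_lit 4) (nat_lit 405) (nat_lit 227) (nat_lit 148))))))) (XT.nd (nat_lit 34866) (nat_lit 0) (nat_lit 1672) (XT.nd (nat_lit 34320) (nat_lit 0) (nat_lit 2812) (XT.nd (nat_lit 234) (nat_lit 0) (nat_lit 0) (XT.nd (nat_lit 78) (nat_lit 0) (nat_lit 0) (XT.lf (nat_lit 0) (nat_lit 15010390186) (nat_lit 152) (nat_lit 71630850577) (nat_lit 0) (nat_lit 2149673701) (nat_lit 4) (nat_lit 5) (nat_lit 6) (nat_lit 4) (nat_lit 4) (nat_lit 4) (nat_lit 406) (nat_lit 227) (nat_lit 147)) (XT.nd (nat_lit 78) (nat_lit 0) (nat_lit 0) (XT.lf (nat_lit 0) (nat_lit 18554751812) (nat_lit 152) (nat_lit 67138351924) (nat_lit 0) (nat_lit 5655181658) (nat_lit 4) (nat_lit 5) (nat_lit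 6) (nat_lit 4) (nat_lit 4) (nat_lit 4) (nat_lit 407) (nat_lit 227) (nat_lit 146)) (XT.lf (nat_lit 0) (nat_lit 22189423045) (nat_lit 152) (nat_lit 62541307620) (nat_lit 0) (nat_lit 9252130881) (nat_lit 4) (nat_lit 5) (nat_lit 6) (nat_lit 4) (nat_lit 4) (nat_lit 4) (nat_lit 408) (nat_lit 227) (nat_lit 145)))) (XT.nd (nat_lit 156) (nat_lit 0) (nat_lit 0) (XT.nd (nat_lit 78) (nat_lit 0) (nat_lit 0) (XT.lf (nat_lit 0) (nat_lit 25917579811) (nat_lit 152) (nat_lit 57835700830) (nat_lit 0) (nat_lit 12943664338) (nat_lit 4) (nat_lit 5) (nat_lit 6) (nat_lit 4) (nat_lit 4) (nat_lit 4) (nat_lit 409) (nat_lit 227) (nat_lit 144)) (XT.lf (nat_lit 0) (nat_lit 29742479723) (nat_lit 152) (nat_lit 53017419859) (nat_lit 0) (nat_lit 16733007638) (nat_lit 4) (nat_lit 5) (nat_lit 6) (nat_lit 4) (nat_lit 4) (nat_lit 4) (nat_lit 410) (nat_lit 227) (nat_lit 143))) (XT.nd (nat_lit 33852) (nat_lit 0) (nat_lit 3876) (XT.lf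 (nat_lit 0) (nat_lit 33667464927) (nat_lit 152) (nat_lit 48082254559) (nat_lit 0) (nat_lit 20623471860) (nat_lit 4) (nat_lit 5) (nat_lit 6) (nat_lit 4) (nat_lit 4) (nat_lit 4) (nat_lit 411) (nat_lit 227) (nat_lit 142)) (XT.lf (nat_lit 0) (nat_lit 5913409915) (nat_lit 228) (nat_lit 19153500) (nat_lit 228) (nat_lit 19153500) (nat_lit 55) (nat_lit 4) (nat_lit 58) (nat_lit 5) (nat_lit 58) (nat_lit 4) (nat_lit 324) (nat_lit 228) (nat_lit 228))))) (XT.nd (nat_lit 234) (nat_lit 532) (nat_lit 0) (XT.nd (nat_lit 78) (nat_lit 304) (nat_lit 0) (XT.lf (nat_lit 0) (nat_lit 4186167407) (nat_lit 228) (nat_lit 4347057280) (nat_lit 0) (nat_lit 3579020287) (nat_lit 52) (nat_lit 5) (nat_lit 55) (nat_lit 4) (nat_lit 52) (nat_lit 4) (nat_lit 325) (nat_lit 228) (nat_lit 227)) (XT.nd (nat_lit 78) (nat_lit 76) (nat_lit 0) (XT.lf (nat_lit 0) (nat_lit 3428199698) (nat_lit 228) (nat_lit 5048781257) (nat_lit 228) (nat_lit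 3852170914) (nat_lit 49) (nat_lit 4) (nat_lit 52) (nat_lit 5) (nat_lit 52) (nat_lit 4) (nat_lit 326) (nat_lit 228) (nat_lit 226)) (XT.lf (nat_lit 0) (nat_lit 288125969) (nat_lit 304) (nat_lit 1184009016) (nat_lit 76) (nat_lit 11081856190) (nat_lit 48) (nat_lit 5) (nat_lit 52) (nat_lit 5) (nat_lit 49) (nat_lit 4) (nat_lit 327) (nat_lit 228) (nat_lit 225)))) (XT.nd (nat_lit 156) (nat_lit 228) (nat_lit 0) (XT.nd (nat_lit 78) (nat_lit 152) (nat_lit 0) (XT.lf (nat_lit 0) (nat_lit 4470656600) (nat_lit 228) (nat_lit 6100129806) (nat_lit 0) (nat_lit 2213831011) (nat_lit 46) (nat_lit 5) (nat_lit 49) (nat_lit 4) (nat_lit 46) (nat_lit 4) (nat_lit 328) (nat_lit 228) (nat_lit 224)) (XT.lf (nat_lit 0) (nat_lit 1658145926) (nat_lit 152) (nat_lit 7073022699) (nat_lit 152) (nat_lit 4292466671) (nat_lit 44) (nat_lit 4) (nat_lit 46) (nat_lit 5) (nat_lit 46) (nat_lit 4) (nat_lit 329) (nat_lit 228) (nat_lit 223)))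 (XT.nd (nat_lit 78) (nat_lit 228) (nat_lit 0) (XT.lf (nat_lit 0) (nat_lit 9624674327) (nat_lit 152) (nat_lit 3467523563) (nat_lit 152) (nat_lit 178491381) (nat_lit 44) (nat_lit 4) (nat_lit 46) (nat_lit 5) (nat_lit 46) (nat_lit 4) (nat_lit 330) (nat_lit 228) (nat_lit 222)) (XT.lf (nat_lit 0) (nat_lit 3935452907) (nat_lit 228) (nat_lit 9326972555) (nat_lit 0) (nat_lit 262930236) (nat_lit 41) (nat_lit 5) (nat_lit 44) (nat_lit 4) (nat_lit 41) (nat_lit 4) (nat_lit 331) (nat_lit 228) (nat_lit 221)))))) (XT.nd (nat_lit 546) (nat_lit 456) (nat_lit 0) (XT.nd (nat_lit 234) (nat_lit 456) (nat_lit 0) (XT.nd (nat_lit 78) (nat_lit 228) (nat_lit 0) (XT.lf (nat_lit 0) (nat_lit 8154104513) (nat_lit 228) (nat_lit 1617746824) (nat_lit 0) (nat_lit 4016254130) (nat_lit 41) (nat_lit 5) (nat_lit 44) (nat_lit 4) (nat_lit 41) (nat_lit 4) (nat_lit 332) (nat_lit 228) (nat_lit 220)) (XT.nd (nat_lit 78) (nat_lit 76) (nat_lit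 0) (XT.lf (nat_lit 0) (nat_lit 6302459308) (nat_lit 152) (nat_lit 6173325314) (nat_lit 152) (nat_lit 1583700454) (nat_lit 39) (nat_lit 4) (nat_lit 41) (nat_lit 5) (nat_lit 41) (nat_lit 4) (nat_lit 333) (nat_lit 228) (nat_lit 219)) (XT.lf (nat_lit 0) (nat_lit 2470214055) (nat_lit 228) (nat_lit 13706324) (nat_lit 76) (nat_lit 11856400131) (nat_lit 38) (nat_lit 5) (nat_lit 41) (nat_lit 5) (nat_lit 39) (nat_lit 4) (nat_lit 334) (nat_lit 228) (nat_lit 218)))) (XT.nd (nat_lit 156) (nat_lit 152) (nat_lit 0) (XT.nd (nat_lit 78) (nat_lit 152) (nat_lit 0) (XT.lf (nat_lit 0) (nat_lit 6622014378) (nat_lit 228) (nat_lit 6680101658) (nat_lit 0) (nat_lit 1326789493) (nat_lit 36) (nat_lit 5) (nat_lit 39) (nat_lit 4) (nat_lit 36) (nat_lit 4) (nat_lit 335) (nat_lit 228) (nat_lit 217)) (XT.lf (nat_lit 0) (nat_lit 1080893873) (nat_lit 152) (nat_lit 9771643313) (nat_lit 152) (nat_lit 4075022657) (nat_lit 34) (nat_lit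 4) (nat_lit 36) (nat_lit 5) (nat_lit 36) (nat_lit 4) (nat_lit 336) (nat_lit 228) (nat_lit 216))) (XT.nd (nat_lit 78) (nat_lit 152) (nat_lit 0) (XT.lf (nat_lit 0) (nat_lit 9073096656) (nat_lit 152) (nat_lit 6124406166) (nat_lit 152) (nat_lit 38080877) (nat_lit 34) (nat_lit 4) (nat_lit 36) (nat_lit 5) (nat_lit 36) (nat_lit 4) (nat_lit 337) (nat_lit 228) (nat_lit 215)) (XT.lf (nat_lit 0) (nat_lit 1607872443) (nat_lit 76) (nat_lit 2368754031) (nat_lit 152) (nat_lit 11576955779) (nat_lit 32) (nat_lit 5) (nat_lit 33) (nat_lit 5) (nat_lit 34) (nat_lit 4) (nat_lit 338) (nat_lit 228) (nat_lit 214))))) (XT.nd (nat_lit 234) (nat_lit 228) (nat_lit 0) (XT.nd (nat_lit 78) (nat_lit 228) (nat_lit 0) (XT.lf (nat_lit 0) (nat_lit 8110303022) (nat_lit 152) (nat_lit 6293579919) (nat_lit 0) (nat_lit 1477280407) (nat_lit 32) (nat_lit 5) (nat_lit 34) (nat_lit 4) (nat_lit 32) (nat_lit 4) (nat_lit 339) (nat_lit 228) (nat_lit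 213)) (XT.nd (nat_lit 78) (nat_lit 76) (nat_lit 0) (XT.lf (nat_lit 0) (nat_lit 1460553999) (nat_lit 152) (nat_lit 10869232921) (nat_lit 152) (nat_lit 3889962787) (nat_lit 30) (nat_lit 4) (nat_lit 32) (nat_lit 5) (nat_lit 32) (nat_lit 4) (nat_lit 340) (nat_lit 228) (nat_lit 212)) (XT.lf (nat_lit 0) (nat_lit 93925197) (nat_lit 228) (nat_lit 7124764623) (nat_lit 76) (nat_lit 9350143042) (nat_lit 29) (nat_lit 5) (nat_lit 32) (nat_lit 5) (nat_lit 30) (nat_lit 4) (nat_lit 341) (nat_lit 228) (nat_lit 211)))) (XT.nd (nat_lit 156) (nat_lit 152) (nat_lit 0) (XT.nd (nat_lit 78) (nat_lit 0) (nat_lit 0) (XT.lf (nat_lit 0) (nat_lit 582581881) (nat_lit 76) (nat_lit 3468839867) (nat_lit 152) (nat_lit 12877872088) (nat_lit 28) (nat_lit 5) (nat_lit 29) (nat_lit 5) (nat_lit 30) (nat_lit 4) (nat_lit 342) (nat_lit 228) (nat_lit 210)) (XT.lf (nat_lit 0) (nat_lit 8131137053) (nat_lit 152) (nat_lit 8765081800) (nat_lit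 0) (nat_lit 404273173) (nat_lit 28) (nat_lit 5) (nat_lit 30) (nat_lit 4) (nat_lit 28) (nat_lit 4) (nat_lit 343) (nat_lit 228) (nat_lit 209))) (XT.nd (nat_lit 78) (nat_lit 152) (nat_lit 0) (XT.lf (nat_lit 0) (nat_lit 12296766194) (nat_lit 152) (nat_lit 1115955517) (nat_lit 0) (nat_lit 4271226162) (nat_lit 28) (nat_lit 5) (nat_lit 30) (nat_lit 4) (nat_lit 28) (nat_lit 4) (nat_lit 344) (nat_lit 228) (nat_lit 208)) (XT.lf (nat_lit 0) (nat_lit 6772858064) (nat_lit 152) (nat_lit 9810851221) (nat_lit 152) (nat_lit 1495334343) (nat_lit 26) (nat_lit 4) (nat_lit 28) (nat_lit 5) (nat_lit 28) (nat_lit 4) (nat_lit 345) (nat_lit 228) (nat_lit 207))))))))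
noncomputable def xc35 : XT := (XT.nd (nat_lit 2184) (nat_lit 380) (nat_lit 0) (XT.nd (nat_lit 1092) (nat_lit 380) (nat_lit 0) (XT.nd (nat_lit 546) (nat_lit 304) (nat_lit 0) (XT.nd (nat_lit 234) (nat_lit 304) (nat_lit 0) (XT.nd (nat_lit 78) (nat_lit 76) (nat_lit 0) (XT.lf (nat_lit 0) (nat_lit 2406990443) (nat_lit 228) (nat_lit 3710857194) (nat_lit 76) (nat_lit 12369161955) (nat_lit 25) (nat_lit 5) (nat_lit 28) (nat_lit 5) (nat_lit 26) (nat_lit 4) (nat_lit 346) (nat_lit 228) (nat_lit 206)) (XT.nd (nat_lit 78) (nat_lit 0) (nat_lit 0) (XT.lf (nat_lit 0) (nat_lit 4058127618) (nat_lit 76) (nat_lit 2310594747) (nat_lit 152) (nat_lit 12538900577) (nat_lit 24) (nat_lit 5) (nat_lit 25) (nat_lit 5) (nat_lit 26) (nat_lit 4) (nat_lit 347) (nat_lit 228) (nat_lit 205)) (XT.lf (nat_lit 0) (nat_lit 10436332649) (nat_lit 152) (nat_lit 7338261130) (nat_lit 0) (nat_lit 1566673741) (nat_lit 24) (nat_lit 5) (nat_lit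 26) (nat_lit 4) (nat_lit 24) (nat_lit 4) (nat_lit 348) (nat_lit 228) (nat_lit 204)))) (XT.nd (nat_lit 156) (nat_lit 152) (nat_lit 0) (XT.nd (nat_lit 78) (nat_lit 0) (nat_lit 0) (XT.lf (nat_lit 0) (nat_lit 265144921) (nat_lit 152) (nat_lit 14321881634) (nat_lit 152) (nat_lit 5202086151) (nat_lit 22) (nat_lit 4) (nat_lit 24) (nat_lit 5) (nat_lit 24) (nat_lit 4) (nat_lit 349) (nat_lit 228) (nat_lit 203)) (XT.lf (nat_lit 0) (nat_lit 8132750368) (nat_lit 152) (nat_lit 10739998227) (nat_lit 152) (nat_lit 1377351700) (nat_lit 22) (nat_lit 4) (nat_lit 24) (nat_lit 5) (nat_lit 24) (nat_lit 4) (nat_lit 350) (nat_lit 228) (nat_lit 202))) (XT.nd (nat_lit 78) (nat_lit 76) (nat_lit 0) (XT.lf (nat_lit 0) (nat_lit 2449753535) (nat_lit 228) (nat_lit 4625424561) (nat_lit 76) (nat_lit 13650892787) (nat_lit 21) (nat_lit 5) (nat_lit 24) (nat_lit 5) (nat_lit 22) (nat_lit 4) (nat_lit 351) (nat_lit 228) (nat_lit 201))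 (XT.lf (nat_lit 0) (nat_lit 3027710415) (nat_lit 76) (nat_lit 3304824093) (nat_lit 152) (nat_lit 14884340962) (nat_lit 20) (nat_lit 5) (nat_lit 21) (nat_lit 5) (nat_lit 22) (nat_lit 4) (nat_lit 352) (nat_lit 228) (nat_lit 200))))) (XT.nd (nat_lit 234) (nat_lit 152) (nat_lit 0) (XT.nd (nat_lit 78) (nat_lit 152) (nat_lit 0) (XT.lf (nat_lit 0) (nat_lit 10324237219) (nat_lit 152) (nat_lit 10831047985) (nat_lit 0) (nat_lit 567365623) (nat_lit 20) (nat_lit 5) (nat_lit 22) (nat_lit 4) (nat_lit 20) (nat_lit 4) (nat_lit 353) (nat_lit 228) (nat_lit 199)) (XT.nd (nat_lit 78) (nat_lit 152) (nat_lit 0) (XT.lf (nat_lit 0) (nat_lit 14409874071) (nat_lit 152) (nat_lit 3391002054) (nat_lit 0) (nat_lit 4443517032) (nat_lit 20) (nat_lit 5) (nat_lit 22) (nat_lit 4) (nat_lit 20) (nat_lit 4) (nat_lit 354) (nat_lit 228) (nat_lit 198)) (XT.lf (nat_lit 0) (nat_lit 4252217821) (nat_lit 152) (nat_lit 14349904145) (nat_lit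 152) (nat_lit 4180163180) (nat_lit 18) (nat_lit 4) (nat_lit 20) (nat_lit 5) (nat_lit 20) (nat_lit 4) (nat_lit 355) (nat_lit 228) (nat_lit 197)))) (XT.nd (nat_lit 156) (nat_lit 76) (nat_lit 0) (XT.nd (nat_lit 78) (nat_lit 76) (nat_lit 0) (XT.lf (nat_lit 0) (nat_lit 12092252833) (nat_lit 152) (nat_lit 10805968859) (nat_lit 152) (nat_lit 438767772) (nat_lit 18) (nat_lit 4) (nat_lit 20) (nat_lit 5) (nat_lit 20) (nat_lit 4) (nat_lit 356) (nat_lit 228) (nat_lit 196)) (XT.lf (nat_lit 0) (nat_lit 3293153629) (nat_lit 228) (nat_lit 3873808074) (nat_lit 76) (nat_lit 16742057882) (nat_lit 17) (nat_lit 5) (nat_lit 20) (nat_lit 5) (nat_lit 18) (nat_lit 4) (nat_lit 357) (nat_lit 228) (nat_lit 195))) (XT.nd (nat_lit 78) (nat_lit 0) (nat_lit 0) (XT.lf (nat_lit 0) (nat_lit 3688663564) (nat_lit 76) (nat_lit 3421532795) (nat_lit 152) (nat_lit 17388441017) (nat_lit 16) (nat_lit 5) (nat_lit 17) (nat_lit 5) (nat_lit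 18) (nat_lit 4) (nat_lit 358) (nat_lit 228) (nat_lit 194)) (XT.lf (nat_lit 0) (nat_lit 11032188668) (nat_lit 152) (nat_lit 13649382918) (nat_lit 0) (nat_lit 424675048) (nat_lit 16) (nat_lit 5) (nat_lit 18) (nat_lit 4) (nat_lit 16) (nat_lit 4) (nat_lit 359) (nat_lit 228) (nat_lit 193)))))) (XT.nd (nat_lit 546) (nat_lit 152) (nat_lit 0) (XT.nd (nat_lit 234) (nat_lit 152) (nat_lit 0) (XT.nd (nat_lit 78) (nat_lit 76) (nat_lit 0) (XT.lf (nat_lit 0) (nat_lit 15054008122) (nat_lit 152) (nat_lit 6402462976) (nat_lit 0) (nat_lit 4276163666) (nat_lit 16) (nat_lit 5) (nat_lit 18) (nat_lit 4) (nat_lit 16) (nat_lit 4) (nat_lit 360) (nat_lit 228) (nat_lit 192)) (XT.nd (nat_lit 78) (nat_lit 0) (nat_lit 0) (XT.lf (nat_lit 0) (nat_lit 989313202) (nat_lit 76) (nat_lit 18166475747) (nat_lit 76) (nat_lit 7223261547) (nat_lit 15) (nat_lit 4) (nat_lit 16) (nat_lit 5) (nat_lit 16) (nat_lit 4) (nat_lit 361) (nat_lit 228)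 (nat_lit 191)) (XT.lf (nat_lit 0) (nat_lit 8643131009) (nat_lit 76) (nat_lit 14752529322) (nat_lit 76) (nat_lit 3648761974) (nat_lit 15) (nat_lit 4) (nat_lit 16) (nat_lit 5) (nat_lit 16) (nat_lit 4) (nat_lit 362) (nat_lit 228) (nat_lit 190)))) (XT.nd (nat_lit 156) (nat_lit 76) (nat_lit 0) (XT.nd (nat_lit 78) (nat_lit 76) (nat_lit 0) (XT.lf (nat_lit 0) (nat_lit 16438256679) (nat_lit 76) (nat_lit 11276301086) (nat_lit 76) (nat_lit 16656895) (nat_lit 15) (nat_lit 4) (nat_lit 16) (nat_lit 5) (nat_lit 16) (nat_lit 4) (nat_lit 363) (nat_lit 228) (nat_lit 189)) (XT.lf (nat_lit 0) (nat_lit 3604490935) (nat_lit 152) (nat_lit 4093864333) (nat_lit 76) (nat_lit 20740612260) (nat_lit 14) (nat_lit 5) (nat_lit 16) (nat_lit 5) (nat_lit 15) (nat_lit 4) (nat_lit 364) (nat_lit 228) (nat_lit 188))) (XT.nd (nat_lit 78) (nat_lit 0) (nat_lit 0) (XT.lf (nat_lit 0) (nat_lit 3301293898) (nat_lit 76) (nat_lit 4018510883)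 (nat_lit 152) (nat_lit 21848580342) (nat_lit 13) (nat_lit 5) (nat_lit 14) (nat_lit 5) (nat_lit 15) (nat_lit 4) (nat_lit 365) (nat_lit 228) (nat_lit 187)) (XT.lf (nat_lit 0) (nat_lit 10918888771) (nat_lit 76) (nat_lit 223696436) (nat_lit 152) (nat_lit 18777232518) (nat_lit 13) (nat_lit 5) (nat_lit 14) (nat_lit 5) (nat_lit 15) (nat_lit 4) (nat_lit 366) (nat_lit 228) (nat_lit 186))))) (XT.nd (nat_lit 234) (nat_lit 76) (nat_lit 0) (XT.nd (nat_lit 78) (nat_lit 76) (nat_lit 0) (XT.lf (nat_lit 0) (nat_lit 15071104007) (nat_lit 152) (nat_lit 12046092920) (nat_lit 0) (nat_lit 3576877058) (nat_lit 13) (nat_lit 5) (nat_lit 15) (nat_lit 4) (nat_lit 13) (nat_lit 4) (nat_lit 367) (nat_lit 228) (nat_lit 185)) (XT.nd (nat_lit 78) (nat_lit 76) (nat_lit 0) (XT.lf (nat_lit 0) (nat_lit 19076618280) (nat_lit 152) (nat_lit 4964330494) (nat_lit 0) (nat_lit 7451846929) (nat_lit 13) (nat_lit 5) (nat_lit 15) (nat_lit 4)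 (nat_lit 13) (nat_lit 4) (nat_lit 368) (nat_lit 228) (nat_lit 184)) (XT.lf (nat_lit 0) (nat_lit 2297529655) (nat_lit 76) (nat_lit 20885033289) (nat_lit 76) (nat_lit 9133519799) (nat_lit 12) (nat_lit 4) (nat_lit 13) (nat_lit 5) (nat_lit 13) (nat_lit 4) (nat_lit 369) (nat_lit 228) (nat_lit 183)))) (XT.nd (nat_lit 156) (nat_lit 76) (nat_lit 0) (XT.nd (nat_lit 78) (nat_lit 0) (nat_lit 0) (XT.lf (nat_lit 0) (nat_lit 9802578038) (nat_lit 76) (nat_lit 17617900977) (nat_lit 76) (nat_lit 5743336868) (nat_lit 12) (nat_lit 4) (nat_lit 13) (nat_lit 5) (nat_lit 13) (nat_lit 4) (nat_lit 370) (nat_lit 228) (nat_lit 182)) (XT.lf (nat_lit 0) (nat_lit 17458572552) (nat_lit 76) (nat_lit 14286827069) (nat_lit 76) (nat_lit 2292796338) (nat_lit 12) (nat_lit 4) (nat_lit 13) (nat_lit 5) (nat_lit 13) (nat_lit 4) (nat_lit 371) (nat_lit 228) (nat_lit 181))) (XT.nd (nat_lit 78) (nat_lit 0) (nat_lit 0) (XT.lf (nat_lit 0) (nat_lit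 1197288437) (nat_lit 152) (nat_lit 9679522212) (nat_lit 76) (nat_lit 24062824198) (nat_lit 11) (nat_lit 5) (nat_lit 13) (nat_lit 5) (nat_lit 12) (nat_lit 4) (nat_lit 372) (nat_lit 228) (nat_lit 180)) (XT.lf (nat_lit 0) (nat_lit 4707778999) (nat_lit 152) (nat_lit 2665835119) (nat_lit 76) (nat_lit 28494978192) (nat_lit 11) (nat_lit 5) (nat_lit 13) (nat_lit 5) (nat_lit 12) (nat_lit 4) (nat_lit 373) (nat_lit 228) (nat_lit 179))))))) (XT.nd (nat_lit 1092) (nat_lit 76) (nat_lit 0) (XT.nd (nat_lit 546) (nat_lit 152) (nat_lit 0) (XT.nd (nat_lit 234) (nat_lit 76) (nat_lit 0) (XT.nd (nat_lit 78) (nat_lit 0) (nat_lit 0) (XT.lf (nat_lit 0) (nat_lit 4578958060) (nat_lit 76) (nat_lit 3751541166) (nat_lit 152) (nat_lit 28494721555) (nat_lit 10) (nat_lit 5) (nat_lit 11) (nat_lit 5) (nat_lit 12) (nat_lit 4) (nat_lit 374) (nat_lit 228) (nat_lit 178)) (XT.nd (nat_lit 78) (nat_lit 0) (nat_lit 0) (XT.lf (nat_lit 0)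 (nat_lit 12027758656) (nat_lit 76) (nat_lit 24388423) (nat_lit 152) (nat_lit 25758703093) (nat_lit 10) (nat_lit 5) (nat_lit 11) (nat_lit 5) (nat_lit 12) (nat_lit 4) (nat_lit 375) (nat_lit 228) (nat_lit 177)) (XT.lf (nat_lit 0) (nat_lit 15886214708) (nat_lit 152) (nat_lit 19229481667) (nat_lit 0) (nat_lit 3710338133) (nat_lit 10) (nat_lit 5) (nat_lit 12) (nat_lit 4) (nat_lit 10) (nat_lit 4) (nat_lit 376) (nat_lit 228) (nat_lit 176)))) (XT.nd (nat_lit 156) (nat_lit 76) (nat_lit 0) (XT.nd (nat_lit 78) (nat_lit 0) (nat_lit 0) (XT.lf (nat_lit 0) (nat_lit 19800693675) (nat_lit 152) (nat_lit 12544348122) (nat_lit 0) (nat_lit 7527679803) (nat_lit 10) (nat_lit 5) (nat_lit 12) (nat_lit 4) (nat_lit 10) (nat_lit 4) (nat_lit 377) (nat_lit 228) (nat_lit 175)) (XT.lf (nat_lit 0) (nat_lit 23798769960) (nat_lit 152) (nat_lit 5721615066) (nat_lit 0) (nat_lit 11431448035) (nat_lit 10) (nat_lit 5) (nat_lit 12) (nat_lit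 4) (nat_lit 10) (nat_lit 4) (nat_lit 378) (nat_lit 228) (nat_lit 174))) (XT.nd (nat_lit 78) (nat_lit 0) (nat_lit 0) (XT.lf (nat_lit 0) (nat_lit 1269450666) (nat_lit 76) (nat_lit 26626689100) (nat_lit 76) (nat_lit 14167805958) (nat_lit 9) (nat_lit 4) (nat_lit 10) (nat_lit 5) (nat_lit 10) (nat_lit 4) (nat_lit 379) (nat_lit 228) (nat_lit 173)) (XT.lf (nat_lit 0) (nat_lit 8527014226) (nat_lit 76) (nat_lit 23614717100) (nat_lit 76) (nat_lit 11066939572) (nat_lit 9) (nat_lit 4) (nat_lit 10) (nat_lit 5) (nat_lit 10) (nat_lit 4) (nat_lit 380) (nat_lit 228) (nat_lit 172))))) (XT.nd (nat_lit 234) (nat_lit 152) (nat_lit 0) (XT.nd (nat_lit 78) (nat_lit 0) (nat_lit 0) (XT.lf (nat_lit 0) (nat_lit 15943545813) (nat_lit 76) (nat_lit 20539614298) (nat_lit 76) (nat_lit 7905531541) (nat_lit 9) (nat_lit 4) (nat_lit 10) (nat_lit 5) (nat_lit 10) (nat_lit 4) (nat_lit 381) (nat_lit 228) (nat_lit 171)) (XT.nd (nat_lit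 78) (nat_lit 0) (nat_lit 0) (XT.lf (nat_lit 0) (nat_lit 23525525892) (nat_lit 76) (nat_lit 17398693713) (nat_lit 76) (nat_lit 4680819472) (nat_lit 9) (nat_lit 4) (nat_lit 10) (nat_lit 5) (nat_lit 10) (nat_lit 4) (nat_lit 382) (nat_lit 228) (nat_lit 170)) (XT.lf (nat_lit 0) (nat_lit 31279579495) (nat_lit 76) (nat_lit 14189210851) (nat_lit 76) (nat_lit 1389985654) (nat_lit 9) (nat_lit 4) (nat_lit 10) (nat_lit 5) (nat_lit 10) (nat_lit 4) (nat_lit 383) (nat_lit 228) (nat_lit 169)))) (XT.nd (nat_lit 156) (nat_lit 76) (nat_lit 0) (XT.nd (nat_lit 78) (nat_lit 0) (nat_lit 0) (XT.lf (nat_lit 0) (nat_lit 1931406620) (nat_lit 152) (nat_lit 8957451268) (nat_lit 76) (nat_lit 37261571967) (nat_lit 8) (nat_lit 5) (nat_lit 10) (nat_lit 5) (nat_lit 9) (nat_lit 4) (nat_lit 384) (nat_lit 228) (nat_lit 168)) (XT.lf (nat_lit 0) (nat_lit 5296204605) (nat_lit 152) (nat_lit 2203592436) (nat_lit 76) (nat_lit 41981479206)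 (nat_lit 8) (nat_lit 5) (nat_lit 10) (nat_lit 5) (nat_lit 9) (nat_lit 4) (nat_lit 385) (nat_lit 228) (nat_lit 167))) (XT.nd (nat_lit 78) (nat_lit 0) (nat_lit 0) (XT.lf (nat_lit 0) (nat_lit 4795214723) (nat_lit 76) (nat_lit 3985351856) (nat_lit 152) (nat_lit 42070929475) (nat_lit 7) (nat_lit 5) (nat_lit 8) (nat_lit 5) (nat_lit 9) (nat_lit 4) (nat_lit 386) (nat_lit 228) (nat_lit 166)) (XT.lf (nat_lit 0) (nat_lit 11998420581) (nat_lit 76) (nat_lit 366128820) (nat_lit 152) (nat_lit 39898426790) (nat_lit 7) (nat_lit 5) (nat_lit 8) (nat_lit 5) (nat_lit 9) (nat_lit 4) (nat_lit 387) (nat_lit 228) (nat_lit 165)))))) (XT.nd (nat_lit 546) (nat_lit 0) (nat_lit 0) (XT.nd (nat_lit 234) (nat_lit 76) (nat_lit 0) (XT.nd (nat_lit 78) (nat_lit 0) (nat_lit 0) (XT.lf (nat_lit 0) (nat_lit 16061775279) (nat_lit 152) (nat_lit 34381229132) (nat_lit 0) (nat_lit 3273630858) (nat_lit 7) (nat_lit 5) (nat_lit 9) (nat_lit 4)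 (nat_lit 7) (nat_lit 4) (nat_lit 388) (nat_lit 228) (nat_lit 164)) (XT.nd (nat_lit 78) (nat_lit 0) (nat_lit 0) (XT.lf (nat_lit 0) (nat_lit 19847726596) (nat_lit 152) (nat_lit 28373412926) (nat_lit 0) (nat_lit 6993436404) (nat_lit 7) (nat_lit 5) (nat_lit 9) (nat_lit 4) (nat_lit 7) (nat_lit 4) (nat_lit 389) (nat_lit 228) (nat_lit 163)) (XT.lf (nat_lit 0) (nat_lit 23722192010) (nat_lit 152) (nat_lit 22232337989) (nat_lit 0) (nat_lit 10803682622) (nat_lit 7) (nat_lit 5) (nat_lit 9) (nat_lit 4) (nat_lit 7) (nat_lit 4) (nat_lit 390) (nat_lit 228) (nat_lit 162)))) (XT.nd (nat_lit 156) (nat_lit 76) (nat_lit 0) (XT.nd (nat_lit 78) (nat_lit 0) (nat_lit 0) (XT.lf (nat_lit 0) (nat_lit 27688556977) (nat_lit 152) (nat_lit 15952638334) (nat_lit 0) (nat_lit 14707698856) (nat_lit 7) (nat_lit 5) (nat_lit 9) (nat_lit 4) (nat_lit 7) (nat_lit 4) (nat_lit 391) (nat_lit 228) (nat_lit 161)) (XT.lf (nat_lit 0) (nat_lit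 31750287253) (nat_lit 152) (nat_lit 9528826843) (nat_lit 0) (nat_lit 18708896381) (nat_lit 7) (nat_lit 5) (nat_lit 9) (nat_lit 4) (nat_lit 7) (nat_lit 4) (nat_lit 392) (nat_lit 228) (nat_lit 160))) (XT.nd (nat_lit 78) (nat_lit 76) (nat_lit 0) (XT.lf (nat_lit 0) (nat_lit 35910931922) (nat_lit 152) (nat_lit 2955290479) (nat_lit 0) (nat_lit 22810771389) (nat_lit 7) (nat_lit 5) (nat_lit 9) (nat_lit 4) (nat_lit 7) (nat_lit 4) (nat_lit 393) (nat_lit 228) (nat_lit 159)) (XT.lf (nat_lit 0) (nat_lit 3848818946) (nat_lit 76) (nat_lit 36362304756) (nat_lit 76) (nat_lit 23205086298) (nat_lit 6) (nat_lit 4) (nat_lit 7) (nat_lit 5) (nat_lit 7) (nat_lit 4) (nat_lit 394) (nat_lit 228) (nat_lit 158))))) (XT.nd (nat_lit 234) (nat_lit 0) (nat_lit 0) (XT.nd (nat_lit 78) (nat_lit 0) (nat_lit 0) (XT.lf (nat_lit 0) (nat_lit 10876304052) (nat_lit 76) (nat_lit 33771841743) (nat_lit 76) (nat_lit 20559227243) (nat_lit 6)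 (nat_lit 4) (nat_lit 7) (nat_lit 5) (nat_lit 7) (nat_lit 4) (nat_lit 395) (nat_lit 228) (nat_lit 157)) (XT.nd (nat_lit 78) (nat_lit 0) (nat_lit 0) (XT.lf (nat_lit 0) (nat_lit 18074489283) (nat_lit 76) (nat_lit 31122412492) (nat_lit 76) (nat_lit 17856015427) (nat_lit 6) (nat_lit 4) (nat_lit 7) (nat_lit 5) (nat_lit 7) (nat_lit 4) (nat_lit 396) (nat_lit 228) (nat_lit 156)) (XT.lf (nat_lit 0) (nat_lit 25449664316) (nat_lit 76) (nat_lit 28411701966) (nat_lit 76) (nat_lit 15093088819) (nat_lit 6) (nat_lit 4) (nat_lit 7) (nat_lit 5) (nat_lit 7) (nat_lit 4) (nat_lit 397) (nat_lit 228) (nat_lit 155)))) (XT.nd (nat_lit 156) (nat_lit 0) (nat_lit 0) (XT.nd (nat_lit 78) (nat_lit 0) (nat_lit 0) (XT.lf (nat_lit 0) (nat_lit 33008273478) (nat_lit 76) (nat_lit 25637341585) (nat_lit 76) (nat_lit 12268033211) (nat_lit 6) (nat_lit 4) (nat_lit 7) (nat_lit 5) (nat_lit 7) (nat_lit 4) (nat_lit 398) (nat_lit 228) (nat_lit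 154)) (XT.lf (nat_lit 0) (nat_lit 40756921381) (nat_lit 76) (nat_lit 22796907149) (nat_lit 76) (nat_lit 9378380110) (nat_lit 6) (nat_lit 4) (nat_lit 7) (nat_lit 5) (nat_lit 7) (nat_lit 4) (nat_lit 399) (nat_lit 228) (nat_lit 153))) (XT.nd (nat_lit 78) (nat_lit 0) (nat_lit 0) (XT.lf (nat_lit 0) (nat_lit 48702378686) (nat_lit 76) (nat_lit 19887916726) (nat_lit 76) (nat_lit 6421604574) (nat_lit 6) (nat_lit 4) (nat_lit 7) (nat_lit 5) (nat_lit 7) (nat_lit 4) (nat_lit 400) (nat_lit 228) (nat_lit 152)) (XT.lf (nat_lit 0) (nat_lit 56851588026) (nat_lit 76) (nat_lit 16907828480) (nat_lit 76) (nat_lit 3395123014) (nat_lit 6) (nat_lit 4) (nat_lit 7) (nat_lit 5) (nat_lit 7) (nat_lit 4) (nat_lit 401) (nat_lit 228) (nat_lit 151))))))))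
noncomputable def xc36 : XT := (XT.nd (nat_lit 35724) (nat_lit 0) (nat_lit 684) (XT.nd (nat_lit 34632) (nat_lit 0) (nat_lit 2128) (XT.nd (nat_lit 468) (nat_lit 0) (nat_lit 0) (XT.nd (nat_lit 234) (nat_lit 76) (nat_lit 0) (XT.nd (nat_lit 78) (nat_lit 76) (nat_lit 0) (XT.lf (nat_lit 0) (nat_lit 65211670071) (nat_lit 76) (nat_lit 13854038449) (nat_lit 76) (nat_lit 296290931) (nat_lit 6) (nat_lit 4) (nat_lit 7) (nat_lit 5) (nat_lit 7) (nat_lit 4) (nat_lit 402) (nat_lit 228) (nat_lit 150)) (XT.nd (nat_lit 78) (nat_lit 0) (nat_lit 0) (XT.lf (nat_lit 0) (nat_lit 2821447062) (nat_lit 152) (nat_lit 7873940128) (nat_lit 76) (nat_lit 70939991599) (nat_lit 5) (nat_lit 5) (nat_lit 7) (nat_lit 5) (nat_lit 6) (nat_lit 4) (nat_lit 403) (nat_lit 228) (nat_lit 149)) (XT.lf (nat_lit 0) (nat_lit 6009716121) (nat_lit 152) (nat_lit 1444210391) (nat_lit 76) (nat_lit 76523460145) (nat_lit 5) (nat_lit 5) (nat_lit 7) (nat_lit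 5) (nat_lit 6) (nat_lit 4) (nat_lit 404) (nat_lit 228) (nat_lit 148)))) (XT.nd (nat_lit 78) (nat_lit 0) (nat_lit 0) (XT.lf (nat_lit 0) (nat_lit 5249768052) (nat_lit 76) (nat_lit 4077779744) (nat_lit 152) (nat_lit 77061093196) (nat_lit 4) (nat_lit 5) (nat_lit 5) (nat_lit 5) (nat_lit 6) (nat_lit 4) (nat_lit 405) (nat_lit 228) (nat_lit 147)) (XT.nd (nat_lit 78) (nat_lit 0) (nat_lit 0) (XT.lf (nat_lit 0) (nat_lit 12143390435) (nat_lit 76) (nat_lit 599744387) (nat_lit 152) (nat_lit 76129155087) (nat_lit 4) (nat_lit 5) (nat_lit 5) (nat_lit 5) (nat_lit 6) (nat_lit 4) (nat_lit 406) (nat_lit 228) (nat_lit 146)) (XT.lf (nat_lit 0) (nat_lit 16273839102) (nat_lit 152) (nat_lit 72245526997) (nat_lit 0) (nat_lit 2910706164) (nat_lit 4) (nat_lit 5) (nat_lit 6) (nat_lit 4) (nat_lit 4) (nat_lit 4) (nat_lit 407) (nat_lit 228) (nat_lit 145))))) (XT.nd (nat_lit 234) (nat_lit 0) (nat_lit 0) (XT.nd (nat_lit 78) (nat_lit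 0) (nat_lit 0) (XT.lf (nat_lit 0) (nat_lit 19900847968) (nat_lit 152) (nat_lit 67662940252) (nat_lit 0) (nat_lit 6501091721) (nat_lit 4) (nat_lit 5) (nat_lit 6) (nat_lit 4) (nat_lit 4) (nat_lit 4) (nat_lit 408) (nat_lit 228) (nat_lit 144)) (XT.nd (nat_lit 78) (nat_lit 0) (nat_lit 0) (XT.lf (nat_lit 0) (nat_lit 23621565544) (nat_lit 152) (nat_lit 62971369926) (nat_lit 0) (nat_lit 10186252685) (nat_lit 4) (nat_lit 5) (nat_lit 6) (nat_lit 4) (nat_lit 4) (nat_lit 4) (nat_lit 409) (nat_lit 228) (nat_lit 143)) (XT.lf (nat_lit 0) (nat_lit 27439242941) (nat_lit 152) (nat_lit 58166716591) (nat_lit 0) (nat_lit 13969409100) (nat_lit 4) (nat_lit 5) (nat_lit 6) (nat_lit 4) (nat_lit 4) (nat_lit 4) (nat_lit 410) (nat_lit 228) (nat_lit 142)))) (XT.nd (nat_lit 33774) (nat_lit 0) (nat_lit 3800) (XT.nd (nat_lit 33696) (nat_lit 0) (nat_lit 4104) (XT.lf (nat_lit 0) (nat_lit 31357215994) (nat_lit 152) (nat_lit 53244782004)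 (nat_lit 0) (nat_lit 17853866636) (nat_lit 4) (nat_lit 5) (nat_lit 6) (nat_lit 4) (nat_lit 4) (nat_lit 4) (nat_lit 411) (nat_lit 228) (nat_lit 141)) (XT.lf (nat_lit 0) (nat_lit 1942376276) (nat_lit 228) (nat_lit 1865774977) (nat_lit 0) (nat_lit 1942376276) (nat_lit 58) (nat_lit 5) (nat_lit 61) (nat_lit 4) (nat_lit 58) (nat_lit 4) (nat_lit 322) (nat_lit 229) (nat_lit 229))) (XT.nd (nat_lit 78) (nat_lit 76) (nat_lit 0) (XT.lf (nat_lit 0) (nat_lit 3932916026) (nat_lit 228) (nat_lit 4205159576) (nat_lit 228) (nat_lit 3561037196) (nat_lit 55) (nat_lit 4) (nat_lit 58) (nat_lit 5) (nat_lit 58) (nat_lit 4) (nat_lit 323) (nat_lit 229) (nat_lit 228)) (XT.lf (nat_lit 0) (nat_lit 547461117) (nat_lit 304) (nat_lit 158137843) (nat_lit 76) (nat_lit 11199083565) (nat_lit 54) (nat_lit 5) (nat_lit 58) (nat_lit 5) (nat_lit 55) (nat_lit 4) (nat_lit 324) (nat_lit 229) (nat_lit 227)))))) (XT.nd (nat_lit 546) (nat_lit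 684) (nat_lit 0) (XT.nd (nat_lit 234) (nat_lit 532) (nat_lit 0) (XT.nd (nat_lit 78) (nat_lit 304) (nat_lit 0) (XT.lf (nat_lit 0) (nat_lit 4717789240) (nat_lit 228) (nat_lit 4501504602) (nat_lit 0) (nat_lit 2895817364) (nat_lit 52) (nat_lit 5) (nat_lit 55) (nat_lit 4) (nat_lit 52) (nat_lit 4) (nat_lit 325) (nat_lit 229) (nat_lit 226)) (XT.nd (nat_lit 78) (nat_lit 76) (nat_lit 0) (XT.lf (nat_lit 0) (nat_lit 3195342054) (nat_lit 228) (nat_lit 5766190138) (nat_lit 228) (nat_lit 3371923871) (nat_lit 49) (nat_lit 4) (nat_lit 52) (nat_lit 5) (nat_lit 52) (nat_lit 4) (nat_lit 326) (nat_lit 229) (nat_lit 225)) (XT.lf (nat_lit 0) (nat_lit 714309622) (nat_lit 304) (nat_lit 1499843355) (nat_lit 76) (nat_lit 10345369023) (nat_lit 48) (nat_lit 5) (nat_lit 52) (nat_lit 5) (nat_lit 49) (nat_lit 4) (nat_lit 327) (nat_lit 229) (nat_lit 224)))) (XT.nd (nat_lit 156) (nat_lit 228) (nat_lit 0) (XT.nd (nat_lit 78) (nat_lit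 152) (nat_lit 0) (XT.lf (nat_lit 0) (nat_lit 4842204204) (nat_lit 228) (nat_lit 6495105715) (nat_lit 0) (nat_lit 1454501057) (nat_lit 46) (nat_lit 5) (nat_lit 49) (nat_lit 4) (nat_lit 46) (nat_lit 4) (nat_lit 328) (nat_lit 229) (nat_lit 223)) (XT.lf (nat_lit 0) (nat_lit 1181643072) (nat_lit 152) (nat_lit 7873408987) (nat_lit 152) (nat_lit 3977229685) (nat_lit 44) (nat_lit 4) (nat_lit 46) (nat_lit 5) (nat_lit 46) (nat_lit 4) (nat_lit 329) (nat_lit 229) (nat_lit 222))) (XT.nd (nat_lit 78) (nat_lit 152) (nat_lit 0) (XT.lf (nat_lit 0) (nat_lit 91118025) (nat_lit 228) (nat_lit 4204875879) (nat_lit 76) (nat_lit 8984612800) (nat_lit 43) (nat_lit 5) (nat_lit 46) (nat_lit 5) (nat_lit 44) (nat_lit 4) (nat_lit 330) (nat_lit 229) (nat_lit 221)) (XT.lf (nat_lit 0) (nat_lit 3557617569) (nat_lit 152) (nat_lit 593491092) (nat_lit 228) (nat_lit 9385648132) (nat_lit 41) (nat_lit 5) (nat_lit 43) (nat_lit 5) (nat_lit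 44) (nat_lit 4) (nat_lit 331) (nat_lit 229) (nat_lit 220))))) (XT.nd (nat_lit 234) (nat_lit 456) (nat_lit 0) (XT.nd (nat_lit 78) (nat_lit 228) (nat_lit 0) (XT.lf (nat_lit 0) (nat_lit 8322619732) (nat_lit 228) (nat_lit 2334789800) (nat_lit 0) (nat_lit 3143531648) (nat_lit 41) (nat_lit 5) (nat_lit 44) (nat_lit 4) (nat_lit 41) (nat_lit 4) (nat_lit 332) (nat_lit 229) (nat_lit 219)) (XT.nd (nat_lit 78) (nat_lit 76) (nat_lit 0) (XT.lf (nat_lit 0) (nat_lit 5501256439) (nat_lit 152) (nat_lit 7095113075) (nat_lit 152) (nat_lit 1477408994) (nat_lit 39) (nat_lit 4) (nat_lit 41) (nat_lit 5) (nat_lit 41) (nat_lit 4) (nat_lit 333) (nat_lit 229) (nat_lit 218)) (XT.lf (nat_lit 0) (nat_lit 2534310151) (nat_lit 228) (nat_lit 898895247) (nat_lit 76) (nat_lit 10922600201) (nat_lit 38) (nat_lit 5) (nat_lit 41) (nat_lit 5) (nat_lit 39) (nat_lit 4) (nat_lit 334) (nat_lit 229) (nat_lit 217)))) (XT.nd (nat_lit 156) (nat_lit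 152) (nat_lit 0) (XT.nd (nat_lit 78) (nat_lit 152) (nat_lit 0) (XT.lf (nat_lit 0) (nat_lit 6628341914) (nat_lit 228) (nat_lit 7658373022) (nat_lit 0) (nat_lit 359426866) (nat_lit 36) (nat_lit 5) (nat_lit 39) (nat_lit 4) (nat_lit 36) (nat_lit 4) (nat_lit 335) (nat_lit 229) (nat_lit 216)) (XT.lf (nat_lit 0) (nat_lit 14897745) (nat_lit 152) (nat_lit 10795002295) (nat_lit 152) (nat_lit 4136382615) (nat_lit 34) (nat_lit 4) (nat_lit 36) (nat_lit 5) (nat_lit 36) (nat_lit 4) (nat_lit 336) (nat_lit 229) (nat_lit 215))) (XT.nd (nat_lit 78) (nat_lit 152) (nat_lit 0) (XT.lf (nat_lit 0) (nat_lit 7940833299) (nat_lit 152) (nat_lit 7175805401) (nat_lit 152) (nat_lit 138831708) (nat_lit 34) (nat_lit 4) (nat_lit 36) (nat_lit 5) (nat_lit 36) (nat_lit 4) (nat_lit 337) (nat_lit 229) (nat_lit 214)) (XT.lf (nat_lit 0) (nat_lit 367384987) (nat_lit 76) (nat_lit 3461035048) (nat_lit 152) (nat_lit 11746576736) (nat_lit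 32) (nat_lit 5) (nat_lit 33) (nat_lit 5) (nat_lit 34) (nat_lit 4) (nat_lit 338) (nat_lit 229) (nat_lit 213))))))) (XT.nd (nat_lit 1092) (nat_lit 532) (nat_lit 0) (XT.nd (nat_lit 546) (nat_lit 456) (nat_lit 0) (XT.nd (nat_lit 234) (nat_lit 304) (nat_lit 0) (XT.nd (nat_lit 78) (nat_lit 152) (nat_lit 0) (XT.lf (nat_lit 0) (nat_lit 7914308390) (nat_lit 152) (nat_lit 7610306126) (nat_lit 0) (nat_lit 379412633) (nat_lit 32) (nat_lit 5) (nat_lit 34) (nat_lit 4) (nat_lit 32) (nat_lit 4) (nat_lit 339) (nat_lit 229) (nat_lit 212)) (XT.nd (nat_lit 78) (nat_lit 0) (nat_lit 0) (XT.lf (nat_lit 0) (nat_lit 52938884) (nat_lit 152) (nat_lit 12031120100) (nat_lit 152) (nat_lit 4160061704) (nat_lit 30) (nat_lit 4) (nat_lit 32) (nat_lit 5) (nat_lit 32) (nat_lit 4) (nat_lit 340) (nat_lit 229) (nat_lit 211)) (XT.lf (nat_lit 0) (nat_lit 7974602095) (nat_lit 152) (nat_lit 8408573277) (nat_lit 152) (nat_lit 211143386)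 (nat_lit 30) (nat_lit 4) (nat_lit 32) (nat_lit 5) (nat_lit 32) (nat_lit 4) (nat_lit 341) (nat_lit 229) (nat_lit 210)))) (XT.nd (nat_lit 156) (nat_lit 152) (nat_lit 0) (XT.nd (nat_lit 78) (nat_lit 76) (nat_lit 0) (XT.lf (nat_lit 0) (nat_lit 3709805139) (nat_lit 228) (nat_lit 983390985) (nat_lit 76) (nat_lit 12262878435) (nat_lit 29) (nat_lit 5) (nat_lit 32) (nat_lit 5) (nat_lit 30) (nat_lit 4) (nat_lit 342) (nat_lit 229) (nat_lit 209)) (XT.lf (nat_lit 0) (nat_lit 6892870849) (nat_lit 76) (nat_lit 848411271) (nat_lit 152) (nat_lit 9587451269) (nat_lit 28) (nat_lit 5) (nat_lit 29) (nat_lit 5) (nat_lit 30) (nat_lit 4) (nat_lit 343) (nat_lit 229) (nat_lit 208))) (XT.nd (nat_lit 78) (nat_lit 152) (nat_lit 0) (XT.lf (nat_lit 0) (nat_lit 11864884001) (nat_lit 152) (nat_lit 2838654378) (nat_lit 0) (nat_lit 3009924771) (nat_lit 28) (nat_lit 5) (nat_lit 30) (nat_lit 4) (nat_lit 28) (nat_lit 4) (nat_lit 344)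 (nat_lit 229) (nat_lit 207)) (XT.lf (nat_lit 0) (nat_lit 4956389505) (nat_lit 152) (nat_lit 11145091325) (nat_lit 152) (nat_lit 2008601177) (nat_lit 26) (nat_lit 4) (nat_lit 28) (nat_lit 5) (nat_lit 28) (nat_lit 4) (nat_lit 345) (nat_lit 229) (nat_lit 206))))) (XT.nd (nat_lit 234) (nat_lit 304) (nat_lit 0) (XT.nd (nat_lit 78) (nat_lit 76) (nat_lit 0) (XT.lf (nat_lit 0) (nat_lit 1870923002) (nat_lit 228) (nat_lit 5611847441) (nat_lit 76) (nat_lit 11036422016) (nat_lit 25) (nat_lit 5) (nat_lit 28) (nat_lit 5) (nat_lit 26) (nat_lit 4) (nat_lit 346) (nat_lit 229) (nat_lit 205)) (XT.nd (nat_lit 78) (nat_lit 0) (nat_lit 0) (XT.lf (nat_lit 0) (nat_lit 2061459510) (nat_lit 76) (nat_lit 3720141739) (nat_lit 152) (nat_lit 13159747804) (nat_lit 24) (nat_lit 5) (nat_lit 25) (nat_lit 5) (nat_lit 26) (nat_lit 4) (nat_lit 347) (nat_lit 229) (nat_lit 204)) (XT.lf (nat_lit 0) (nat_lit 9803952453) (nat_lit 152)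 (nat_lit 9411983717) (nat_lit 0) (nat_lit 160426531) (nat_lit 24) (nat_lit 5) (nat_lit 26) (nat_lit 4) (nat_lit 24) (nat_lit 4) (nat_lit 348) (nat_lit 229) (nat_lit 203)))) (XT.nd (nat_lit 156) (nat_lit 152) (nat_lit 0) (XT.nd (nat_lit 78) (nat_lit 152) (nat_lit 0) (XT.lf (nat_lit 0) (nat_lit 13921311553) (nat_lit 152) (nat_lit 1868972759) (nat_lit 0) (nat_lit 4034934588) (nat_lit 24) (nat_lit 5) (nat_lit 26) (nat_lit 4) (nat_lit 24) (nat_lit 4) (nat_lit 349) (nat_lit 229) (nat_lit 202)) (XT.lf (nat_lit 0) (nat_lit 5906756687) (nat_lit 152) (nat_lit 12251538636) (nat_lit 152) (nat_lit 2129383959) (nat_lit 22) (nat_lit 4) (nat_lit 24) (nat_lit 5) (nat_lit 24) (nat_lit 4) (nat_lit 350) (nat_lit 229) (nat_lit 201))) (XT.nd (nat_lit 78) (nat_lit 76) (nat_lit 0) (XT.lf (nat_lit 0) (nat_lit 1682564499) (nat_lit 228) (nat_lit 6935459142) (nat_lit 76) (nat_lit 12146748086) (nat_lit 21) (nat_lit 5) (nat_lit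 24) (nat_lit 5) (nat_lit 22) (nat_lit 4) (nat_lit 351) (nat_lit 229) (nat_lit 200)) (XT.lf (nat_lit 0) (nat_lit 618537090) (nat_lit 76) (nat_lit 4894687182) (nat_lit 152) (nat_lit 15743925423) (nat_lit 20) (nat_lit 5) (nat_lit 21) (nat_lit 5) (nat_lit 22) (nat_lit 4) (nat_lit 352) (nat_lit 229) (nat_lit 199)))))) (XT.nd (nat_lit 546) (nat_lit 228) (nat_lit 0) (XT.nd (nat_lit 234) (nat_lit 152) (nat_lit 0) (XT.nd (nat_lit 78) (nat_lit 152) (nat_lit 0) (XT.lf (nat_lit 0) (nat_lit 8436542754) (nat_lit 76) (nat_lit 1034206479) (nat_lit 152) (nat_lit 12293210612) (nat_lit 20) (nat_lit 5) (nat_lit 21) (nat_lit 5) (nat_lit 22) (nat_lit 4) (nat_lit 353) (nat_lit 229) (nat_lit 198)) (XT.nd (nat_lit 78) (nat_lit 152) (nat_lit 0) (XT.lf (nat_lit 0) (nat_lit 13518448117) (nat_lit 152) (nat_lit 5928170384) (nat_lit 0) (nat_lit 2840230998) (nat_lit 20) (nat_lit 5) (nat_lit 22) (nat_lit 4) (nat_lit 20) (nat_lit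 4) (nat_lit 354) (nat_lit 229) (nat_lit 197)) (XT.lf (nat_lit 0) (nat_lit 1614311675) (nat_lit 152) (nat_lit 16043846060) (nat_lit 152) (nat_lit 5168168818) (nat_lit 18) (nat_lit 4) (nat_lit 20) (nat_lit 5) (nat_lit 20) (nat_lit 4) (nat_lit 355) (nat_lit 229) (nat_lit 196)))) (XT.nd (nat_lit 156) (nat_lit 76) (nat_lit 0) (XT.nd (nat_lit 78) (nat_lit 76) (nat_lit 0) (XT.lf (nat_lit 0) (nat_lit 9405566890) (nat_lit 152) (nat_lit 12521832243) (nat_lit 152) (nat_lit 1454446146) (nat_lit 18) (nat_lit 4) (nat_lit 20) (nat_lit 5) (nat_lit 20) (nat_lit 4) (nat_lit 356) (nat_lit 229) (nat_lit 195)) (XT.lf (nat_lit 0) (nat_lit 2270952332) (nat_lit 228) (nat_lit 6643477965) (nat_lit 76) (nat_lit 15040536439) (nat_lit 17) (nat_lit 5) (nat_lit 20) (nat_lit 5) (nat_lit 18) (nat_lit 4) (nat_lit 357) (nat_lit 229) (nat_lit 194))) (XT.nd (nat_lit 78) (nat_lit 0) (nat_lit 0) (XT.lf (nat_lit 0) (nat_lit 816449881)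 (nat_lit 76) (nat_lit 5218360495) (nat_lit 152) (nat_lit 18511377613) (nat_lit 16) (nat_lit 5) (nat_lit 17) (nat_lit 5) (nat_lit 18) (nat_lit 4) (nat_lit 358) (nat_lit 229) (nat_lit 193)) (XT.lf (nat_lit 0) (nat_lit 8542897710) (nat_lit 76) (nat_lit 1384468621) (nat_lit 152) (nat_lit 15227321699) (nat_lit 16) (nat_lit 5) (nat_lit 17) (nat_lit 5) (nat_lit 18) (nat_lit 4) (nat_lit 359) (nat_lit 229) (nat_lit 192))))) (XT.nd (nat_lit 234) (nat_lit 152) (nat_lit 0) (XT.nd (nat_lit 78) (nat_lit 76) (nat_lit 0) (XT.lf (nat_lit 0) (nat_lit 13911146838) (nat_lit 152) (nat_lit 9396811490) (nat_lit 0) (nat_lit 2474266469) (nat_lit 16) (nat_lit 5) (nat_lit 18) (nat_lit 4) (nat_lit 16) (nat_lit 4) (nat_lit 360) (nat_lit 229) (nat_lit 191)) (XT.nd (nat_lit 78) (nat_lit 76) (nat_lit 0) (XT.lf (nat_lit 0) (nat_lit 17979407501) (nat_lit 152) (nat_lit 2068271899) (nat_lit 0) (nat_lit 6381973984) (nat_lit 16) (nat_lit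 5) (nat_lit 18) (nat_lit 4) (nat_lit 16) (nat_lit 4) (nat_lit 361) (nat_lit 229) (nat_lit 190)) (XT.lf (nat_lit 0) (nat_lit 5500882417) (nat_lit 76) (nat_lit 16674390182) (nat_lit 76) (nat_lit 4921079822) (nat_lit 15) (nat_lit 4) (nat_lit 16) (nat_lit 5) (nat_lit 16) (nat_lit 4) (nat_lit 362) (nat_lit 229) (nat_lit 189)))) (XT.nd (nat_lit 156) (nat_lit 76) (nat_lit 0) (XT.nd (nat_lit 78) (nat_lit 76) (nat_lit 0) (XT.lf (nat_lit 0) (nat_lit 13253774278) (nat_lit 76) (nat_lit 13217357787) (nat_lit 76) (nat_lit 1312710685) (nat_lit 15) (nat_lit 4) (nat_lit 16) (nat_lit 5) (nat_lit 16) (nat_lit 4) (nat_lit 363) (nat_lit 229) (nat_lit 188)) (XT.lf (nat_lit 0) (nat_lit 2311132901) (nat_lit 152) (nat_lit 7359976186) (nat_lit 76) (nat_lit 18821544576) (nat_lit 14) (nat_lit 5) (nat_lit 16) (nat_lit 5) (nat_lit 15) (nat_lit 4) (nat_lit 364) (nat_lit 229) (nat_lit 187))) (XT.nd (nat_lit 78) (nat_lit 76) (nat_lit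 0) (XT.lf (nat_lit 0) (nat_lit 5972775874) (nat_lit 152) (nat_lit 69490345) (nat_lit 76) (nat_lit 23181421418) (nat_lit 14) (nat_lit 5) (nat_lit 16) (nat_lit 5) (nat_lit 15) (nat_lit 4) (nat_lit 365) (nat_lit 229) (nat_lit 186)) (XT.lf (nat_lit 0) (nat_lit 7506863908) (nat_lit 76) (nat_lit 2266330099) (nat_lit 152) (nat_lit 20202603175) (nat_lit 13) (nat_lit 5) (nat_lit 14) (nat_lit 5) (nat_lit 15) (nat_lit 4) (nat_lit 366) (nat_lit 229) (nat_lit 185))))))))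
noncomputable def xc37 : XT := (XT.nd (nat_lit 2184) (nat_lit 228) (nat_lit 0) (XT.nd (nat_lit 1092) (nat_lit 152) (nat_lit 0) (XT.nd (nat_lit 546) (nat_lit 152) (nat_lit 0) (XT.nd (nat_lit 234) (nat_lit 152) (nat_lit 0) (XT.nd (nat_lit 78) (nat_lit 0) (nat_lit 0) (XT.lf (nat_lit 0) (nat_lit 13660858596) (nat_lit 152) (nat_lit 15533626665) (nat_lit 0) (nat_lit 1556799702) (nat_lit 13) (nat_lit 5) (nat_lit 15) (nat_lit 4) (nat_lit 13) (nat_lit 4) (nat_lit 367) (nat_lit 229) (nat_lit 184)) (XT.nd (nat_lit 78) (nat_lit 0) (nat_lit 0) (XT.lf (nat_lit 0) (nat_lit 17645771737) (nat_lit 152) (nat_lit 8489887997) (nat_lit 0) (nat_lit 5414970705) (nat_lit 13) (nat_lit 5) (nat_lit 15) (nat_lit 4) (nat_lit 13) (nat_lit 4) (nat_lit 368) (nat_lit 229) (nat_lit 183)) (XT.lf (nat_lit 0) (nat_lit 21709630042) (nat_lit 152) (nat_lit 1309777195) (nat_lit 0) (nat_lit 9355778390) (nat_lit 13) (nat_lit 5) (nat_lit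 15) (nat_lit 4) (nat_lit 13) (nat_lit 4) (nat_lit 369) (nat_lit 229) (nat_lit 182)))) (XT.nd (nat_lit 156) (nat_lit 76) (nat_lit 0) (XT.nd (nat_lit 78) (nat_lit 0) (nat_lit 0) (XT.lf (nat_lit 0) (nat_lit 6132649708) (nat_lit 76) (nat_lit 19782285527) (nat_lit 76) (nat_lit 7308967254) (nat_lit 12) (nat_lit 4) (nat_lit 13) (nat_lit 5) (nat_lit 13) (nat_lit 4) (nat_lit 370) (nat_lit 229) (nat_lit 181)) (XT.lf (nat_lit 0) (nat_lit 13753154566) (nat_lit 76) (nat_lit 16467507171) (nat_lit 76) (nat_lit 3878201888) (nat_lit 12) (nat_lit 4) (nat_lit 13) (nat_lit 5) (nat_lit 13) (nat_lit 4) (nat_lit 371) (nat_lit 229) (nat_lit 180))) (XT.nd (nat_lit 78) (nat_lit 76) (nat_lit 0) (XT.lf (nat_lit 0) (nat_lit 21532328939) (nat_lit 76) (nat_lit 13085401944) (nat_lit 76) (nat_lit 383487912) (nat_lit 12) (nat_lit 4) (nat_lit 13) (nat_lit 5) (nat_lit 13) (nat_lit 4) (nat_lit 372) (nat_lit 229) (nat_lit 179)) (XT.lf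 (nat_lit 0) (nat_lit 3116209625) (nat_lit 152) (nat_lit 6485337373) (nat_lit 76) (nat_lit 26329292931) (nat_lit 11) (nat_lit 5) (nat_lit 13) (nat_lit 5) (nat_lit 12) (nat_lit 4) (nat_lit 373) (nat_lit 229) (nat_lit 178))))) (XT.nd (nat_lit 234) (nat_lit 76) (nat_lit 0) (XT.nd (nat_lit 78) (nat_lit 0) (nat_lit 0) (XT.lf (nat_lit 0) (nat_lit 649950869) (nat_lit 76) (nat_lit 6033467026) (nat_lit 152) (nat_lit 30205720517) (nat_lit 10) (nat_lit 5) (nat_lit 11) (nat_lit 5) (nat_lit 12) (nat_lit 4) (nat_lit 374) (nat_lit 229) (nat_lit 177)) (XT.nd (nat_lit 78) (nat_lit 0) (nat_lit 0) (XT.lf (nat_lit 0) (nat_lit 8066237530) (nat_lit 76) (nat_lit 2321288551) (nat_lit 152) (nat_lit 27487772431) (nat_lit 10) (nat_lit 5) (nat_lit 11) (nat_lit 5) (nat_lit 12) (nat_lit 4) (nat_lit 375) (nat_lit 229) (nat_lit 176)) (XT.lf (nat_lit 0) (nat_lit 14182345949) (nat_lit 152) (nat_lit 23265314352) (nat_lit 0) (nat_lit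 1444004366) (nat_lit 10) (nat_lit 5) (nat_lit 12) (nat_lit 4) (nat_lit 10) (nat_lit 4) (nat_lit 376) (nat_lit 229) (nat_lit 175)))) (XT.nd (nat_lit 156) (nat_lit 76) (nat_lit 0) (XT.nd (nat_lit 78) (nat_lit 0) (nat_lit 0) (XT.lf (nat_lit 0) (nat_lit 18080156418) (nat_lit 152) (nat_lit 16611192874) (nat_lit 0) (nat_lit 5247506781) (nat_lit 10) (nat_lit 5) (nat_lit 12) (nat_lit 4) (nat_lit 10) (nat_lit 4) (nat_lit 377) (nat_lit 229) (nat_lit 174)) (XT.lf (nat_lit 0) (nat_lit 22062049697) (nat_lit 152) (nat_lit 9818568621) (nat_lit 0) (nat_lit 9137838843) (nat_lit 10) (nat_lit 5) (nat_lit 12) (nat_lit 4) (nat_lit 10) (nat_lit 4) (nat_lit 378) (nat_lit 229) (nat_lit 173))) (XT.nd (nat_lit 78) (nat_lit 76) (nat_lit 0) (XT.lf (nat_lit 0) (nat_lit 26131505110) (nat_lit 152) (nat_lit 2881506290) (nat_lit 0) (nat_lit 13118399870) (nat_lit 10) (nat_lit 5) (nat_lit 12) (nat_lit 4) (nat_lit 10) (nat_lit 4)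 (nat_lit 379) (nat_lit 229) (nat_lit 172)) (XT.lf (nat_lit 0) (nat_lit 4289764383) (nat_lit 76) (nat_lit 26043549948) (nat_lit 76) (nat_lit 12944139479) (nat_lit 9) (nat_lit 4) (nat_lit 10) (nat_lit 5) (nat_lit 10) (nat_lit 4) (nat_lit 380) (nat_lit 229) (nat_lit 171)))))) (XT.nd (nat_lit 546) (nat_lit 0) (nat_lit 0) (XT.nd (nat_lit 234) (nat_lit 152) (nat_lit 0) (XT.nd (nat_lit 78) (nat_lit 0) (nat_lit 0) (XT.lf (nat_lit 0) (nat_lit 11678193775) (nat_lit 76) (nat_lit 22981469462) (nat_lit 76) (nat_lit 9798267509) (nat_lit 9) (nat_lit 4) (nat_lit 10) (nat_lit 5) (nat_lit 10) (nat_lit 4) (nat_lit 381) (nat_lit 229) (nat_lit 170)) (XT.nd (nat_lit 78) (nat_lit 0) (nat_lit 0) (XT.lf (nat_lit 0) (nat_lit 19232890170) (nat_lit 76) (nat_lit 19853191901) (nat_lit 76) (nat_lit 6588638993) (nat_lit 9) (nat_lit 4) (nat_lit 10) (nat_lit 5) (nat_lit 10) (nat_lit 4) (nat_lit 382) (nat_lit 229) (nat_lit 169))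 (XT.lf (nat_lit 0) (nat_lit 26960454759) (nat_lit 76) (nat_lit 16655983820) (nat_lit 76) (nat_lit 3312449401) (nat_lit 9) (nat_lit 4) (nat_lit 10) (nat_lit 5) (nat_lit 10) (nat_lit 4) (nat_lit 383) (nat_lit 229) (nat_lit 168)))) (XT.nd (nat_lit 156) (nat_lit 76) (nat_lit 0) (XT.nd (nat_lit 78) (nat_lit 0) (nat_lit 0) (XT.lf (nat_lit 0) (nat_lit 32516808) (nat_lit 152) (nat_lit 13354206376) (nat_lit 76) (nat_lit 34834794619) (nat_lit 8) (nat_lit 5) (nat_lit 10) (nat_lit 5) (nat_lit 9) (nat_lit 4) (nat_lit 384) (nat_lit 229) (nat_lit 167)) (XT.lf (nat_lit 0) (nat_lit 3383780562) (nat_lit 152) (nat_lit 6625588602) (nat_lit 76) (nat_lit 39543404320) (nat_lit 8) (nat_lit 5) (nat_lit 10) (nat_lit 5) (nat_lit 9) (nat_lit 4) (nat_lit 385) (nat_lit 229) (nat_lit 166))) (XT.nd (nat_lit 78) (nat_lit 0) (nat_lit 0) (XT.lf (nat_lit 0) (nat_lit 260218566) (nat_lit 76) (nat_lit 6551190784) (nat_lit 152) (nat_lit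 44113289108) (nat_lit 7) (nat_lit 5) (nat_lit 8) (nat_lit 5) (nat_lit 9) (nat_lit 4) (nat_lit 386) (nat_lit 229) (nat_lit 165)) (XT.lf (nat_lit 0) (nat_lit 7439158796) (nat_lit 76) (nat_lit 2943242809) (nat_lit 152) (nat_lit 41954169782) (nat_lit 7) (nat_lit 5) (nat_lit 8) (nat_lit 5) (nat_lit 9) (nat_lit 4) (nat_lit 387) (nat_lit 229) (nat_lit 164))))) (XT.nd (nat_lit 234) (nat_lit 0) (nat_lit 0) (XT.nd (nat_lit 78) (nat_lit 0) (nat_lit 0) (XT.lf (nat_lit 0) (nat_lit 14042137261) (nat_lit 152) (nat_lit 39013148308) (nat_lit 0) (nat_lit 736072592) (nat_lit 7) (nat_lit 5) (nat_lit 9) (nat_lit 4) (nat_lit 7) (nat_lit 4) (nat_lit 388) (nat_lit 229) (nat_lit 163)) (XT.nd (nat_lit 78) (nat_lit 0) (nat_lit 0) (XT.lf (nat_lit 0) (nat_lit 17815741562) (nat_lit 152) (nat_lit 33028472868) (nat_lit 0) (nat_lit 4445457697) (nat_lit 7) (nat_lit 5) (nat_lit 9) (nat_lit 4) (nat_lit 7) (nat_lit 4) (nat_lit 389)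 (nat_lit 229) (nat_lit 162)) (XT.lf (nat_lit 0) (nat_lit 21678219583) (nat_lit 152) (nat_lit 26909864694) (nat_lit 0) (nat_lit 8245586984) (nat_lit 7) (nat_lit 5) (nat_lit 9) (nat_lit 4) (nat_lit 7) (nat_lit 4) (nat_lit 390) (nat_lit 229) (nat_lit 161)))) (XT.nd (nat_lit 156) (nat_lit 0) (nat_lit 0) (XT.nd (nat_lit 78) (nat_lit 0) (nat_lit 0) (XT.lf (nat_lit 0) (nat_lit 25632946304) (nat_lit 152) (nat_lit 20651977430) (nat_lit 0) (nat_lit 12139780954) (nat_lit 7) (nat_lit 5) (nat_lit 9) (nat_lit 4) (nat_lit 7) (nat_lit 4) (nat_lit 391) (nat_lit 229) (nat_lit 160)) (XT.lf (nat_lit 0) (nat_lit 29683377311) (nat_lit 152) (nat_lit 14249343019) (nat_lit 0) (nat_lit 16131442300) (nat_lit 7) (nat_lit 5) (nat_lit 9) (nat_lit 4) (nat_lit 7) (nat_lit 4) (nat_lit 392) (nat_lit 229) (nat_lit 159))) (XT.nd (nat_lit 78) (nat_lit 0) (nat_lit 0) (XT.lf (nat_lit 0) (nat_lit 33833051817) (nat_lit 152) (nat_lit 7696366925)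 (nat_lit 0) (nat_lit 20224058882) (nat_lit 7) (nat_lit 5) (nat_lit 9) (nat_lit 4) (nat_lit 7) (nat_lit 4) (nat_lit 393) (nat_lit 229) (nat_lit 158)) (XT.lf (nat_lit 0) (nat_lit 38085595750) (nat_lit 152) (nat_lit 987323248) (nat_lit 0) (nat_lit 24421206773) (nat_lit 7) (nat_lit 5) (nat_lit 9) (nat_lit 4) (nat_lit 7) (nat_lit 4) (nat_lit 394) (nat_lit 229) (nat_lit 157))))))) (XT.nd (nat_lit 1092) (nat_lit 0) (nat_lit 0) (XT.nd (nat_lit 546) (nat_lit 152) (nat_lit 0) (XT.nd (nat_lit 234) (nat_lit 0) (nat_lit 0) (XT.nd (nat_lit 78) (nat_lit 0) (nat_lit 0) (XT.lf (nat_lit 0) (nat_lit 6000746460) (nat_lit 76) (nat_lit 36501661311) (nat_lit 76) (nat_lit 22783489769) (nat_lit 6) (nat_lit 4) (nat_lit 7) (nat_lit 5) (nat_lit 7) (nat_lit 4) (nat_lit 395) (nat_lit 229) (nat_lit 156)) (XT.nd (nat_lit 78) (nat_lit 0) (nat_lit 0) (XT.lf (nat_lit 0) (nat_lit 13179741664) (nat_lit 76) (nat_lit 33861198367) (nat_lit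 76) (nat_lit 20090810742) (nat_lit 6) (nat_lit 4) (nat_lit 7) (nat_lit 5) (nat_lit 7) (nat_lit 4) (nat_lit 396) (nat_lit 229) (nat_lit 155)) (XT.lf (nat_lit 0) (nat_lit 20536285603) (nat_lit 76) (nat_lit 31159192995) (nat_lit 76) (nat_lit 17338110144) (nat_lit 6) (nat_lit 4) (nat_lit 7) (nat_lit 5) (nat_lit 7) (nat_lit 4) (nat_lit 397) (nat_lit 229) (nat_lit 154)))) (XT.nd (nat_lit 156) (nat_lit 0) (nat_lit 0) (XT.nd (nat_lit 78) (nat_lit 0) (nat_lit 0) (XT.lf (nat_lit 0) (nat_lit 28076806325) (nat_lit 76) (nat_lit 28393284218) (nat_lit 76) (nat_lit 14522982701) (nat_lit 6) (nat_lit 4) (nat_lit 7) (nat_lit 5) (nat_lit 7) (nat_lit 4) (nat_lit 398) (nat_lit 229) (nat_lit 153)) (XT.lf (nat_lit 0) (nat_lit 35807892634) (nat_lit 76) (nat_lit 25561055223) (nat_lit 76) (nat_lit 11642968594) (nat_lit 6) (nat_lit 4) (nat_lit 7) (nat_lit 5) (nat_lit 7) (nat_lit 4) (nat_lit 399) (nat_lit 229) (nat_lit 152)))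 (XT.nd (nat_lit 78) (nat_lit 0) (nat_lit 0) (XT.lf (nat_lit 0) (nat_lit 43736299848) (nat_lit 76) (nat_lit 22660031248) (nat_lit 76) (nat_lit 8695551305) (nat_lit 6) (nat_lit 4) (nat_lit 7) (nat_lit 5) (nat_lit 7) (nat_lit 4) (nat_lit 400) (nat_lit 229) (nat_lit 151)) (XT.lf (nat_lit 0) (nat_lit 51868955703) (nat_lit 76) (nat_lit 19687677417) (nat_lit 76) (nat_lit 5678155422) (nat_lit 6) (nat_lit 4) (nat_lit 7) (nat_lit 5) (nat_lit 7) (nat_lit 4) (nat_lit 401) (nat_lit 229) (nat_lit 150))))) (XT.nd (nat_lit 234) (nat_lit 76) (nat_lit 0) (XT.nd (nat_lit 78) (nat_lit 76) (nat_lit 0) (XT.lf (nat_lit 0) (nat_lit 60212966401) (nat_lit 76) (nat_lit 16641396527) (nat_lit 76) (nat_lit 2588144385) (nat_lit 6) (nat_lit 4) (nat_lit 7) (nat_lit 5) (nat_lit 7) (nat_lit 4) (nat_lit 402) (nat_lit 229) (nat_lit 149)) (XT.nd (nat_lit 78) (nat_lit 0) (nat_lit 0) (XT.lf (nat_lit 0) (nat_lit 565918919) (nat_lit 152)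 (nat_lit 12946893189) (nat_lit 76) (nat_lit 68203989236) (nat_lit 5) (nat_lit 5) (nat_lit 7) (nat_lit 5) (nat_lit 6) (nat_lit 4) (nat_lit 403) (nat_lit 229) (nat_lit 148)) (XT.lf (nat_lit 0) (nat_lit 3746035546) (nat_lit 152) (nat_lit 6532476293) (nat_lit 76) (nat_lit 73780543753) (nat_lit 5) (nat_lit 5) (nat_lit 7) (nat_lit 5) (nat_lit 6) (nat_lit 4) (nat_lit 404) (nat_lit 229) (nat_lit 147)))) (XT.nd (nat_lit 156) (nat_lit 0) (nat_lit 0) (XT.nd (nat_lit 78) (nat_lit 0) (nat_lit 0) (XT.lf (nat_lit 0) (nat_lit 45072967) (nat_lit 76) (nat_lit 6960848560) (nat_lit 152) (nat_lit 79466128528) (nat_lit 4) (nat_lit 5) (nat_lit 5) (nat_lit 5) (nat_lit 6) (nat_lit 4) (nat_lit 405) (nat_lit 229) (nat_lit 146)) (XT.lf (nat_lit 0) (nat_lit 6923974266) (nat_lit 76) (nat_lit 3489708328) (nat_lit 152) (nat_lit 78542252858) (nat_lit 4) (nat_lit 5) (nat_lit 5) (nat_lit 5) (nat_lit 6) (nat_lit 4) (nat_lit 406)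 (nat_lit 229) (nat_lit 145))) (XT.nd (nat_lit 78) (nat_lit 0) (nat_lit 0) (XT.lf (nat_lit 0) (nat_lit 13908944406) (nat_lit 152) (nat_lit 77535266166) (nat_lit 0) (nat_lit 70572162) (nat_lit 4) (nat_lit 5) (nat_lit 6) (nat_lit 4) (nat_lit 4) (nat_lit 4) (nat_lit 407) (nat_lit 229) (nat_lit 144)) (XT.lf (nat_lit 0) (nat_lit 17528514082) (nat_lit 152) (nat_lit 72966715885) (nat_lit 0) (nat_lit 3654585226) (nat_lit 4) (nat_lit 5) (nat_lit 6) (nat_lit 4) (nat_lit 4) (nat_lit 4) (nat_lit 408) (nat_lit 229) (nat_lit 143)))))) (XT.nd (nat_lit 34008) (nat_lit 0) (nat_lit 2964) (XT.nd (nat_lit 33696) (nat_lit 0) (nat_lit 3876) (XT.nd (nat_lit 78) (nat_lit 0) (nat_lit 0) (XT.lf (nat_lit 0) (nat_lit 21242009143) (nat_lit 152) (nat_lit 68288773195) (nat_lit 0) (nat_lit 7333559304) (nat_lit 4) (nat_lit 5) (nat_lit 6) (nat_lit 4) (nat_lit 4) (nat_lit 4) (nat_lit 409) (nat_lit 229) (nat_lit 142)) (XT.nd (nat_lit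 78) (nat_lit 0) (nat_lit 0) (XT.lf (nat_lit 0) (nat_lit 25052674389) (nat_lit 152) (nat_lit 63497350573) (nat_lit 0) (nat_lit 11110709034) (nat_lit 4) (nat_lit 5) (nat_lit 6) (nat_lit 4) (nat_lit 4) (nat_lit 4) (nat_lit 410) (nat_lit 229) (nat_lit 141)) (XT.lf (nat_lit 0) (nat_lit 28963839529) (nat_lit 152) (nat_lit 58588261340) (nat_lit 0) (nat_lit 14989334838) (nat_lit 4) (nat_lit 5) (nat_lit 6) (nat_lit 4) (nat_lit 4) (nat_lit 4) (nat_lit 411) (nat_lit 229) (nat_lit 140)))) (XT.nd (nat_lit 156) (nat_lit 228) (nat_lit 0) (XT.nd (nat_lit 78) (nat_lit 228) (nat_lit 0) (XT.lf (nat_lit 0) (nat_lit 1851882404) (nat_lit 228) (nat_lit 1854695801) (nat_lit 228) (nat_lit 1854695801) (nat_lit 61) (nat_lit 4) (nat_lit 64) (nat_lit 5) (nat_lit 64) (nat_lit 4) (nat_lit 320) (nat_lit 230) (nat_lit 230)) (XT.lf (nat_lit 0) (nat_lit 60409148) (nat_lit 152) (nat_lit 305974388) (nat_lit 228) (nat_lit 10944011046)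 (nat_lit 58) (nat_lit 5) (nat_lit 60) (nat_lit 5) (nat_lit 61) (nat_lit 4) (nat_lit 321) (nat_lit 230) (nat_lit 229))) (XT.nd (nat_lit 78) (nat_lit 228) (nat_lit 0) (XT.lf (nat_lit 0) (nat_lit 4501508203) (nat_lit 228) (nat_lit 3807036886) (nat_lit 0) (nat_lit 3193939773) (nat_lit 58) (nat_lit 5) (nat_lit 61) (nat_lit 4) (nat_lit 58) (nat_lit 4) (nat_lit 322) (nat_lit 230) (nat_lit 228)) (XT.lf (nat_lit 0) (nat_lit 3781179891) (nat_lit 228) (nat_lit 4926862293) (nat_lit 228) (nat_lit 2993932330) (nat_lit 55) (nat_lit 4) (nat_lit 58) (nat_lit 5) (nat_lit 58) (nat_lit 4) (nat_lit 323) (nat_lit 230) (nat_lit 227))))) (XT.nd (nat_lit 234) (nat_lit 456) (nat_lit 0) (XT.nd (nat_lit 78) (nat_lit 380) (nat_lit 0) (XT.lf (nat_lit 0) (nat_lit 1058322423) (nat_lit 304) (nat_lit 391682562) (nat_lit 76) (nat_lit 10458757655) (nat_lit 54) (nat_lit 5) (nat_lit 58) (nat_lit 5) (nat_lit 55) (nat_lit 4) (nat_lit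 324) (nat_lit 230) (nat_lit 226)) (XT.nd (nat_lit 78) (nat_lit 228) (nat_lit 0) (XT.lf (nat_lit 0) (nat_lit 5174350311) (nat_lit 228) (nat_lit 4810534198) (nat_lit 0) (nat_lit 2135961664) (nat_lit 52) (nat_lit 5) (nat_lit 55) (nat_lit 4) (nat_lit 52) (nat_lit 4) (nat_lit 325) (nat_lit 230) (nat_lit 225)) (XT.lf (nat_lit 0) (nat_lit 2807019912) (nat_lit 228) (nat_lit 6563814129) (nat_lit 228) (nat_lit 2969799859) (nat_lit 49) (nat_lit 4) (nat_lit 52) (nat_lit 5) (nat_lit 52) (nat_lit 4) (nat_lit 326) (nat_lit 230) (nat_lit 224)))) (XT.nd (nat_lit 156) (nat_lit 228) (nat_lit 0) (XT.nd (nat_lit 78) (nat_lit 152) (nat_lit 0) (XT.lf (nat_lit 0) (nat_lit 1065196416) (nat_lit 304) (nat_lit 1971107895) (nat_lit 76) (nat_lit 9531604924) (nat_lit 48) (nat_lit 5) (nat_lit 52) (nat_lit 5) (nat_lit 49) (nat_lit 4) (nat_lit 327) (nat_lit 230) (nat_lit 223)) (XT.lf (nat_lit 0) (nat_lit 5137438257) (nat_lit 228)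 (nat_lit 7048555077) (nat_lit 0) (nat_lit 615897422) (nat_lit 46) (nat_lit 5) (nat_lit 49) (nat_lit 4) (nat_lit 46) (nat_lit 4) (nat_lit 328) (nat_lit 230) (nat_lit 222))) (XT.nd (nat_lit 78) (nat_lit 76) (nat_lit 0) (XT.lf (nat_lit 0) (nat_lit 545658448) (nat_lit 152) (nat_lit 8756685323) (nat_lit 152) (nat_lit 3741478318) (nat_lit 44) (nat_lit 4) (nat_lit 46) (nat_lit 5) (nat_lit 46) (nat_lit 4) (nat_lit 329) (nat_lit 230) (nat_lit 221)) (XT.lf (nat_lit 0) (nat_lit 280561091) (nat_lit 228) (nat_lit 4924955532) (nat_lit 76) (nat_lit 8087834695) (nat_lit 43) (nat_lit 5) (nat_lit 46) (nat_lit 5) (nat_lit 44) (nat_lit 4) (nat_lit 330) (nat_lit 230) (nat_lit 220))))))))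
noncomputable def xc38 : XT := (XT.nd (nat_lit 2106) (nat_lit 684) (nat_lit 0) (XT.nd (nat_lit 1014) (nat_lit 836) (nat_lit 0) (XT.nd (nat_lit 468) (nat_lit 608) (nat_lit 0) (XT.nd (nat_lit 234) (nat_lit 228) (nat_lit 0) (XT.nd (nat_lit 78) (nat_lit 152) (nat_lit 0) (XT.lf (nat_lit 0) (nat_lit 2753607526) (nat_lit 152) (nat_lit 1538722417) (nat_lit 228) (nat_lit 9258638520) (nat_lit 41) (nat_lit 5) (nat_lit 43) (nat_lit 5) (nat_lit 44) (nat_lit 4) (nat_lit 331) (nat_lit 230) (nat_lit 219)) (XT.nd (nat_lit 78) (nat_lit 152) (nat_lit 0) (XT.lf (nat_lit 0) (nat_lit 8414526196) (nat_lit 228) (nat_lit 3212450910) (nat_lit 0) (nat_lit 2189674996) (nat_lit 41) (nat_lit 5) (nat_lit 44) (nat_lit 4) (nat_lit 41) (nat_lit 4) (nat_lit 332) (nat_lit 230) (nat_lit 218)) (XT.lf (nat_lit 0) (nat_lit 4538274431) (nat_lit 152) (nat_lit 8101687809) (nat_lit 152) (nat_lit 1450995834) (nat_lit 39) (nat_lit 4) (nat_lit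 41) (nat_lit 5) (nat_lit 41) (nat_lit 4) (nat_lit 333) (nat_lit 230) (nat_lit 217)))) (XT.nd (nat_lit 78) (nat_lit 152) (nat_lit 0) (XT.lf (nat_lit 0) (nat_lit 2521255240) (nat_lit 228) (nat_lit 1945981481) (nat_lit 76) (nat_lit 9906927535) (nat_lit 38) (nat_lit 5) (nat_lit 41) (nat_lit 5) (nat_lit 39) (nat_lit 4) (nat_lit 334) (nat_lit 230) (nat_lit 216)) (XT.nd (nat_lit 78) (nat_lit 0) (nat_lit 0) (XT.lf (nat_lit 0) (nat_lit 5857455859) (nat_lit 152) (nat_lit 705589091) (nat_lit 228) (nat_lit 8103040369) (nat_lit 36) (nat_lit 5) (nat_lit 38) (nat_lit 5) (nat_lit 39) (nat_lit 4) (nat_lit 335) (nat_lit 230) (nat_lit 215)) (XT.lf (nat_lit 0) (nat_lit 10700087341) (nat_lit 228) (nat_lit 1193840965) (nat_lit 0) (nat_lit 3073650425) (nat_lit 36) (nat_lit 5) (nat_lit 39) (nat_lit 4) (nat_lit 36) (nat_lit 4) (nat_lit 336) (nat_lit 230) (nat_lit 214))))) (XT.nd (nat_lit 234) (nat_lit 304) (nat_lit 0)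 (XT.nd (nat_lit 78) (nat_lit 152) (nat_lit 0) (XT.lf (nat_lit 0) (nat_lit 6643997696) (nat_lit 152) (nat_lit 8314010411) (nat_lit 152) (nat_lit 320239502) (nat_lit 34) (nat_lit 4) (nat_lit 36) (nat_lit 5) (nat_lit 36) (nat_lit 4) (nat_lit 337) (nat_lit 230) (nat_lit 213)) (XT.nd (nat_lit 78) (nat_lit 76) (nat_lit 0) (XT.lf (nat_lit 0) (nat_lit 3610615489) (nat_lit 228) (nat_lit 1020856409) (nat_lit 76) (nat_lit 10967568127) (nat_lit 33) (nat_lit 5) (nat_lit 36) (nat_lit 5) (nat_lit 34) (nat_lit 4) (nat_lit 338) (nat_lit 230) (nat_lit 212)) (XT.lf (nat_lit 0) (nat_lit 6826410158) (nat_lit 76) (nat_lit 820419166) (nat_lit 152) (nat_lit 8282746495) (nat_lit 32) (nat_lit 5) (nat_lit 33) (nat_lit 5) (nat_lit 34) (nat_lit 4) (nat_lit 339) (nat_lit 230) (nat_lit 211)))) (XT.nd (nat_lit 156) (nat_lit 152) (nat_lit 0) (XT.nd (nat_lit 78) (nat_lit 152) (nat_lit 0) (XT.lf (nat_lit 0) (nat_lit 11773036662)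 (nat_lit 152) (nat_lit 1494641355) (nat_lit 0) (nat_lit 3003312380) (nat_lit 32) (nat_lit 5) (nat_lit 34) (nat_lit 4) (nat_lit 32) (nat_lit 4) (nat_lit 340) (nat_lit 230) (nat_lit 210)) (XT.lf (nat_lit 0) (nat_lit 6336305183) (nat_lit 152) (nat_lit 9686484158) (nat_lit 152) (nat_lit 599894346) (nat_lit 30) (nat_lit 4) (nat_lit 32) (nat_lit 5) (nat_lit 32) (nat_lit 4) (nat_lit 341) (nat_lit 230) (nat_lit 209))) (XT.nd (nat_lit 78) (nat_lit 76) (nat_lit 0) (XT.lf (nat_lit 0) (nat_lit 3294593450) (nat_lit 228) (nat_lit 2706201541) (nat_lit 76) (nat_lit 10984791493) (nat_lit 29) (nat_lit 5) (nat_lit 32) (nat_lit 5) (nat_lit 30) (nat_lit 4) (nat_lit 342) (nat_lit 230) (nat_lit 208)) (XT.lf (nat_lit 0) (nat_lit 5076474473) (nat_lit 76) (nat_lit 2199080635) (nat_lit 152) (nat_lit 10084218761) (nat_lit 28) (nat_lit 5) (nat_lit 29) (nat_lit 5) (nat_lit 30) (nat_lit 4) (nat_lit 343) (nat_lit 230) (nat_lit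 207)))))) (XT.nd (nat_lit 546) (nat_lit 380) (nat_lit 0) (XT.nd (nat_lit 234) (nat_lit 228) (nat_lit 0) (XT.nd (nat_lit 78) (nat_lit 228) (nat_lit 0) (XT.lf (nat_lit 0) (nat_lit 11353288274) (nat_lit 152) (nat_lit 4731431628) (nat_lit 0) (nat_lit 1661172503) (nat_lit 28) (nat_lit 5) (nat_lit 30) (nat_lit 4) (nat_lit 28) (nat_lit 4) (nat_lit 344) (nat_lit 230) (nat_lit 206)) (XT.nd (nat_lit 78) (nat_lit 76) (nat_lit 0) (XT.lf (nat_lit 0) (nat_lit 2968190224) (nat_lit 152) (nat_lit 12570655659) (nat_lit 152) (nat_lit 2605208900) (nat_lit 26) (nat_lit 4) (nat_lit 28) (nat_lit 5) (nat_lit 28) (nat_lit 4) (nat_lit 345) (nat_lit 230) (nat_lit 205)) (XT.lf (nat_lit 0) (nat_lit 1254096766) (nat_lit 228) (nat_lit 7685000215) (nat_lit 76) (nat_lit 9615207753) (nat_lit 25) (nat_lit 5) (nat_lit 28) (nat_lit 5) (nat_lit 26) (nat_lit 4) (nat_lit 346) (nat_lit 230) (nat_lit 204)))) (XT.nd (nat_lit 156) (nat_lit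 152) (nat_lit 0) (XT.nd (nat_lit 78) (nat_lit 76) (nat_lit 0) (XT.lf (nat_lit 0) (nat_lit 5114026501) (nat_lit 228) (nat_lit 106983523) (nat_lit 76) (nat_lit 13756985056) (nat_lit 25) (nat_lit 5) (nat_lit 28) (nat_lit 5) (nat_lit 26) (nat_lit 4) (nat_lit 347) (nat_lit 230) (nat_lit 203)) (XT.lf (nat_lit 0) (nat_lit 7740902840) (nat_lit 76) (nat_lit 1362297522) (nat_lit 152) (nat_lit 10310814653) (nat_lit 24) (nat_lit 5) (nat_lit 25) (nat_lit 5) (nat_lit 26) (nat_lit 4) (nat_lit 348) (nat_lit 230) (nat_lit 202))) (XT.nd (nat_lit 78) (nat_lit 152) (nat_lit 0) (XT.lf (nat_lit 0) (nat_lit 13177574836) (nat_lit 152) (nat_lit 4170618758) (nat_lit 0) (nat_lit 2515977807) (nat_lit 24) (nat_lit 5) (nat_lit 26) (nat_lit 4) (nat_lit 24) (nat_lit 4) (nat_lit 349) (nat_lit 230) (nat_lit 201)) (XT.lf (nat_lit 0) (nat_lit 3506216258) (nat_lit 152) (nat_lit 13856248061) (nat_lit 152) (nat_lit 2965740632) (nat_lit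 22) (nat_lit 4) (nat_lit 24) (nat_lit 5) (nat_lit 24) (nat_lit 4) (nat_lit 350) (nat_lit 230) (nat_lit 200))))) (XT.nd (nat_lit 234) (nat_lit 228) (nat_lit 0) (XT.nd (nat_lit 78) (nat_lit 76) (nat_lit 0) (XT.lf (nat_lit 0) (nat_lit 833565405) (nat_lit 228) (nat_lit 9420612762) (nat_lit 76) (nat_lit 10552239043) (nat_lit 21) (nat_lit 5) (nat_lit 24) (nat_lit 5) (nat_lit 22) (nat_lit 4) (nat_lit 351) (nat_lit 230) (nat_lit 199)) (XT.nd (nat_lit 78) (nat_lit 76) (nat_lit 0) (XT.lf (nat_lit 0) (nat_lit 4630160244) (nat_lit 228) (nat_lit 1929295244) (nat_lit 76) (nat_lit 14740371097) (nat_lit 21) (nat_lit 5) (nat_lit 24) (nat_lit 5) (nat_lit 22) (nat_lit 4) (nat_lit 352) (nat_lit 230) (nat_lit 198)) (XT.lf (nat_lit 0) (nat_lit 5800200996) (nat_lit 76) (nat_lit 2740787664) (nat_lit 152) (nat_lit 13267058157) (nat_lit 20) (nat_lit 5) (nat_lit 21) (nat_lit 5) (nat_lit 22) (nat_lit 4) (nat_lit 353) (nat_lit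 230) (nat_lit 197)))) (XT.nd (nat_lit 156) (nat_lit 228) (nat_lit 0) (XT.nd (nat_lit 78) (nat_lit 0) (nat_lit 0) (XT.lf (nat_lit 0) (nat_lit 12545101733) (nat_lit 152) (nat_lit 8641457178) (nat_lit 0) (nat_lit 1145694053) (nat_lit 20) (nat_lit 5) (nat_lit 22) (nat_lit 4) (nat_lit 20) (nat_lit 4) (nat_lit 354) (nat_lit 230) (nat_lit 196)) (XT.lf (nat_lit 0) (nat_lit 16642904173) (nat_lit 152) (nat_lit 1178304081) (nat_lit 0) (nat_lit 5051787637) (nat_lit 20) (nat_lit 5) (nat_lit 22) (nat_lit 4) (nat_lit 20) (nat_lit 4) (nat_lit 355) (nat_lit 230) (nat_lit 195))) (XT.nd (nat_lit 78) (nat_lit 76) (nat_lit 0) (XT.lf (nat_lit 0) (nat_lit 6542141544) (nat_lit 152) (nat_lit 14332375979) (nat_lit 152) (nat_lit 2555134341) (nat_lit 18) (nat_lit 4) (nat_lit 20) (nat_lit 5) (nat_lit 20) (nat_lit 4) (nat_lit 356) (nat_lit 230) (nat_lit 194)) (XT.lf (nat_lit 0) (nat_lit 1166167318) (nat_lit 228) (nat_lit 9590625964)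 (nat_lit 76) (nat_lit 13247072631) (nat_lit 17) (nat_lit 5) (nat_lit 20) (nat_lit 5) (nat_lit 18) (nat_lit 4) (nat_lit 357) (nat_lit 230) (nat_lit 193))))))) (XT.nd (nat_lit 1092) (nat_lit 304) (nat_lit 0) (XT.nd (nat_lit 546) (nat_lit 152) (nat_lit 0) (XT.nd (nat_lit 234) (nat_lit 152) (nat_lit 0) (XT.nd (nat_lit 78) (nat_lit 76) (nat_lit 0) (XT.lf (nat_lit 0) (nat_lit 4897346846) (nat_lit 228) (nat_lit 2191772284) (nat_lit 76) (nat_lit 17506956085) (nat_lit 17) (nat_lit 5) (nat_lit 20) (nat_lit 5) (nat_lit 18) (nat_lit 4) (nat_lit 358) (nat_lit 230) (nat_lit 192)) (XT.nd (nat_lit 78) (nat_lit 0) (nat_lit 0) (XT.lf (nat_lit 0) (nat_lit 5446355261) (nat_lit 76) (nat_lit 3297522807) (nat_lit 152) (nat_lit 16462085399) (nat_lit 16) (nat_lit 5) (nat_lit 17) (nat_lit 5) (nat_lit 18) (nat_lit 4) (nat_lit 359) (nat_lit 230) (nat_lit 191)) (XT.lf (nat_lit 0) (nat_lit 12685258847) (nat_lit 152) (nat_lit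 12570171454) (nat_lit 0) (nat_lit 579349176) (nat_lit 16) (nat_lit 5) (nat_lit 18) (nat_lit 4) (nat_lit 16) (nat_lit 4) (nat_lit 360) (nat_lit 230) (nat_lit 190)))) (XT.nd (nat_lit 156) (nat_lit 76) (nat_lit 0) (XT.nd (nat_lit 78) (nat_lit 76) (nat_lit 0) (XT.lf (nat_lit 0) (nat_lit 16730208559) (nat_lit 152) (nat_lit 5284283829) (nat_lit 0) (nat_lit 4468422044) (nat_lit 16) (nat_lit 5) (nat_lit 18) (nat_lit 4) (nat_lit 16) (nat_lit 4) (nat_lit 361) (nat_lit 230) (nat_lit 189)) (XT.lf (nat_lit 0) (nat_lit 2178631736) (nat_lit 76) (nat_lit 18692874424) (nat_lit 76) (nat_lit 6279751168) (nat_lit 15) (nat_lit 4) (nat_lit 16) (nat_lit 5) (nat_lit 16) (nat_lit 4) (nat_lit 362) (nat_lit 230) (nat_lit 188))) (XT.nd (nat_lit 78) (nat_lit 76) (nat_lit 0) (XT.lf (nat_lit 0) (nat_lit 9890519899) (nat_lit 76) (nat_lit 15254478767) (nat_lit 76) (nat_lit 2694426636) (nat_lit 15) (nat_lit 4) (nat_lit 16) (nat_lit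 5) (nat_lit 16) (nat_lit 4) (nat_lit 363) (nat_lit 230) (nat_lit 187)) (XT.lf (nat_lit 0) (nat_lit 934442389) (nat_lit 152) (nat_lit 10805783473) (nat_lit 76) (nat_lit 16809073168) (nat_lit 14) (nat_lit 5) (nat_lit 16) (nat_lit 5) (nat_lit 15) (nat_lit 4) (nat_lit 364) (nat_lit 230) (nat_lit 186))))) (XT.nd (nat_lit 234) (nat_lit 76) (nat_lit 0) (XT.nd (nat_lit 78) (nat_lit 76) (nat_lit 0) (XT.lf (nat_lit 0) (nat_lit 4574787481) (nat_lit 152) (nat_lit 3554377493) (nat_lit 76) (nat_lit 21151813039) (nat_lit 14) (nat_lit 5) (nat_lit 16) (nat_lit 5) (nat_lit 15) (nat_lit 4) (nat_lit 365) (nat_lit 230) (nat_lit 185)) (XT.nd (nat_lit 78) (nat_lit 0) (nat_lit 0) (XT.lf (nat_lit 0) (nat_lit 3913923949) (nat_lit 76) (nat_lit 4406066575) (nat_lit 152) (nat_lit 21714759383) (nat_lit 13) (nat_lit 5) (nat_lit 14) (nat_lit 5) (nat_lit 15) (nat_lit 4) (nat_lit 366) (nat_lit 230) (nat_lit 184)) (XT.lf (nat_lit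 0) (nat_lit 11602869329) (nat_lit 76) (nat_lit 569086605) (nat_lit 152) (nat_lit 18639358453) (nat_lit 13) (nat_lit 5) (nat_lit 14) (nat_lit 5) (nat_lit 15) (nat_lit 4) (nat_lit 367) (nat_lit 230) (nat_lit 183)))) (XT.nd (nat_lit 156) (nat_lit 76) (nat_lit 0) (XT.nd (nat_lit 78) (nat_lit 0) (nat_lit 0) (XT.lf (nat_lit 0) (nat_lit 16131397568) (nat_lit 152) (nat_lit 12196152251) (nat_lit 0) (nat_lit 3283879746) (nat_lit 13) (nat_lit 5) (nat_lit 15) (nat_lit 4) (nat_lit 13) (nat_lit 4) (nat_lit 368) (nat_lit 230) (nat_lit 182)) (XT.lf (nat_lit 0) (nat_lit 20175837330) (nat_lit 152) (nat_lit 5051882487) (nat_lit 0) (nat_lit 7208852888) (nat_lit 13) (nat_lit 5) (nat_lit 15) (nat_lit 4) (nat_lit 13) (nat_lit 4) (nat_lit 369) (nat_lit 230) (nat_lit 181))) (XT.nd (nat_lit 78) (nat_lit 0) (nat_lit 0) (XT.lf (nat_lit 0) (nat_lit 2280579527) (nat_lit 76) (nat_lit 22044681586) (nat_lit 76) (nat_lit 8961710133)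 (nat_lit 12) (nat_lit 4) (nat_lit 13) (nat_lit 5) (nat_lit 13) (nat_lit 4) (nat_lit 370) (nat_lit 230) (nat_lit 180)) (XT.lf (nat_lit 0) (nat_lit 9866628410) (nat_lit 76) (nat_lit 18745724156) (nat_lit 76) (nat_lit 5550143955) (nat_lit 12) (nat_lit 4) (nat_lit 13) (nat_lit 5) (nat_lit 13) (nat_lit 4) (nat_lit 371) (nat_lit 230) (nat_lit 179)))))) (XT.nd (nat_lit 546) (nat_lit 152) (nat_lit 0) (XT.nd (nat_lit 234) (nat_lit 76) (nat_lit 0) (XT.nd (nat_lit 78) (nat_lit 76) (nat_lit 0) (XT.lf (nat_lit 0) (nat_lit 17612350379) (nat_lit 76) (nat_lit 15378979050) (nat_lit 76) (nat_lit 2074069967) (nat_lit 12) (nat_lit 4) (nat_lit 13) (nat_lit 5) (nat_lit 13) (nat_lit 4) (nat_lit 372) (nat_lit 230) (nat_lit 178)) (XT.nd (nat_lit 78) (nat_lit 0) (nat_lit 0) (XT.lf (nat_lit 0) (nat_lit 1440872979) (nat_lit 152) (nat_lit 10486081480) (nat_lit 76) (nat_lit 24069090570) (nat_lit 11) (nat_lit 5) (nat_lit 13)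 (nat_lit 5) (nat_lit 12) (nat_lit 4) (nat_lit 373) (nat_lit 230) (nat_lit 177)) (XT.lf (nat_lit 0) (nat_lit 4984606401) (nat_lit 152) (nat_lit 3395355591) (nat_lit 76) (nat_lit 28575090285) (nat_lit 11) (nat_lit 5) (nat_lit 13) (nat_lit 5) (nat_lit 12) (nat_lit 4) (nat_lit 374) (nat_lit 230) (nat_lit 176)))) (XT.nd (nat_lit 156) (nat_lit 0) (nat_lit 0) (XT.nd (nat_lit 78) (nat_lit 0) (nat_lit 0) (XT.lf (nat_lit 0) (nat_lit 3921789908) (nat_lit 76) (nat_lit 4716608075) (nat_lit 152) (nat_lit 29304328278) (nat_lit 10) (nat_lit 5) (nat_lit 11) (nat_lit 5) (nat_lit 12) (nat_lit 4) (nat_lit 375) (nat_lit 230) (nat_lit 175)) (XT.lf (nat_lit 0) (nat_lit 11465836804) (nat_lit 76) (nat_lit 936691323) (nat_lit 152) (nat_lit 26557489241) (nat_lit 10) (nat_lit 5) (nat_lit 11) (nat_lit 5) (nat_lit 12) (nat_lit 4) (nat_lit 376) (nat_lit 230) (nat_lit 174))) (XT.nd (nat_lit 78) (nat_lit 0) (nat_lit 0) (XT.lf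 (nat_lit 0) (nat_lit 16275151539) (nat_lit 152) (nat_lit 20861163838) (nat_lit 0) (nat_lit 2871653142) (nat_lit 10) (nat_lit 5) (nat_lit 12) (nat_lit 4) (nat_lit 10) (nat_lit 4) (nat_lit 377) (nat_lit 230) (nat_lit 173)) (XT.lf (nat_lit 0) (nat_lit 20241333161) (nat_lit 152) (nat_lit 14097771432) (nat_lit 0) (nat_lit 6748940378) (nat_lit 10) (nat_lit 5) (nat_lit 12) (nat_lit 4) (nat_lit 10) (nat_lit 4) (nat_lit 378) (nat_lit 230) (nat_lit 172))))) (XT.nd (nat_lit 234) (nat_lit 76) (nat_lit 0) (XT.nd (nat_lit 78) (nat_lit 76) (nat_lit 0) (XT.lf (nat_lit 0) (nat_lit 24295534538) (nat_lit 152) (nat_lit 7189089535) (nat_lit 0) (nat_lit 10716836526) (nat_lit 10) (nat_lit 5) (nat_lit 12) (nat_lit 4) (nat_lit 10) (nat_lit 4) (nat_lit 379) (nat_lit 230) (nat_lit 171)) (XT.nd (nat_lit 78) (nat_lit 76) (nat_lit 0) (XT.lf (nat_lit 0) (nat_lit 28441298175) (nat_lit 152) (nat_lit 129081436) (nat_lit 0) (nat_lit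 14778808680) (nat_lit 10) (nat_lit 5) (nat_lit 12) (nat_lit 4) (nat_lit 10) (nat_lit 4) (nat_lit 380) (nat_lit 230) (nat_lit 170)) (XT.lf (nat_lit 0) (nat_lit 7229495297) (nat_lit 76) (nat_lit 25522245620) (nat_lit 76) (nat_lit 11778405168) (nat_lit 9) (nat_lit 4) (nat_lit 10) (nat_lit 5) (nat_lit 10) (nat_lit 4) (nat_lit 381) (nat_lit 230) (nat_lit 169)))) (XT.nd (nat_lit 156) (nat_lit 76) (nat_lit 0) (XT.nd (nat_lit 78) (nat_lit 0) (nat_lit 0) (XT.lf (nat_lit 0) (nat_lit 14757702679) (nat_lit 76) (nat_lit 22406242841) (nat_lit 76) (nat_lit 8583420879) (nat_lit 9) (nat_lit 4) (nat_lit 10) (nat_lit 5) (nat_lit 10) (nat_lit 4) (nat_lit 382) (nat_lit 230) (nat_lit 168)) (XT.lf (nat_lit 0) (nat_lit 22459549779) (nat_lit 76) (nat_lit 19220952022) (nat_lit 76) (nat_lit 5321448982) (nat_lit 9) (nat_lit 4) (nat_lit 10) (nat_lit 5) (nat_lit 10) (nat_lit 4) (nat_lit 383) (nat_lit 230) (nat_lit 167))) (XT.nd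 (nat_lit 78) (nat_lit 76) (nat_lit 0) (XT.lf (nat_lit 0) (nat_lit 30341766366) (nat_lit 76) (nat_lit 15963589901) (nat_lit 76) (nat_lit 1989639213) (nat_lit 9) (nat_lit 4) (nat_lit 10) (nat_lit 5) (nat_lit 10) (nat_lit 4) (nat_lit 384) (nat_lit 230) (nat_lit 166)) (XT.lf (nat_lit 0) (nat_lit 1387309539) (nat_lit 152) (nat_lit 11229991593) (nat_lit 76) (nat_lit 37009921170) (nat_lit 8) (nat_lit 5) (nat_lit 10) (nat_lit 5) (nat_lit 9) (nat_lit 4) (nat_lit 385) (nat_lit 230) (nat_lit 165))))))))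
noncomputable def xc39 : XT := (XT.nd (nat_lit 35490) (nat_lit 0) (nat_lit 1596) (XT.nd (nat_lit 1092) (nat_lit 152) (nat_lit 0) (XT.nd (nat_lit 546) (nat_lit 76) (nat_lit 0) (XT.nd (nat_lit 234) (nat_lit 0) (nat_lit 0) (XT.nd (nat_lit 78) (nat_lit 76) (nat_lit 0) (XT.lf (nat_lit 0) (nat_lit 4799679637) (nat_lit 152) (nat_lit 4373054343) (nat_lit 76) (nat_lit 41826874132) (nat_lit 8) (nat_lit 5) (nat_lit 10) (nat_lit 5) (nat_lit 9) (nat_lit 4) (nat_lit 386) (nat_lit 230) (nat_lit 164)) (XT.nd (nat_lit 78) (nat_lit 0) (nat_lit 0) (XT.lf (nat_lit 0) (nat_lit 2695294668) (nat_lit 76) (nat_lit 5619891942) (nat_lit 152) (nat_lit 44097961978) (nat_lit 7) (nat_lit 5) (nat_lit 8) (nat_lit 5) (nat_lit 9) (nat_lit 4) (nat_lit 387) (nat_lit 230) (nat_lit 163)) (XT.lf (nat_lit 0) (nat_lit 10018905934) (nat_lit 76) (nat_lit 1936555079) (nat_lit 152) (nat_lit 41913061086) (nat_lit 7) (nat_lit 5) (nat_lit 8)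 (nat_lit 5) (nat_lit 9) (nat_lit 4) (nat_lit 388) (nat_lit 230) (nat_lit 162)))) (XT.nd (nat_lit 156) (nat_lit 0) (nat_lit 0) (XT.nd (nat_lit 78) (nat_lit 0) (nat_lit 0) (XT.lf (nat_lit 0) (nat_lit 15698462568) (nat_lit 152) (nat_lit 37868792137) (nat_lit 0) (nat_lit 1800502258) (nat_lit 7) (nat_lit 5) (nat_lit 9) (nat_lit 4) (nat_lit 7) (nat_lit 4) (nat_lit 389) (nat_lit 230) (nat_lit 161)) (XT.lf (nat_lit 0) (nat_lit 19549302342) (nat_lit 152) (nat_lit 31771996355) (nat_lit 0) (nat_lit 5590809281) (nat_lit 7) (nat_lit 5) (nat_lit 9) (nat_lit 4) (nat_lit 7) (nat_lit 4) (nat_lit 390) (nat_lit 230) (nat_lit 160))) (XT.nd (nat_lit 78) (nat_lit 0) (nat_lit 0) (XT.lf (nat_lit 0) (nat_lit 23492729795) (nat_lit 152) (nat_lit 25535286170) (nat_lit 0) (nat_lit 9475467072) (nat_lit 7) (nat_lit 5) (nat_lit 9) (nat_lit 4) (nat_lit 7) (nat_lit 4) (nat_lit 391) (nat_lit 230) (nat_lit 159)) (XT.lf (nat_lit 0)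 (nat_lit 27532190639) (nat_lit 152) (nat_lit 19153212029) (nat_lit 0) (nat_lit 13457869993) (nat_lit 7) (nat_lit 5) (nat_lit 9) (nat_lit 4) (nat_lit 7) (nat_lit 4) (nat_lit 392) (nat_lit 230) (nat_lit 158))))) (XT.nd (nat_lit 234) (nat_lit 0) (nat_lit 0) (XT.nd (nat_lit 78) (nat_lit 76) (nat_lit 0) (XT.lf (nat_lit 0) (nat_lit 31671214500) (nat_lit 152) (nat_lit 12620197364) (nat_lit 0) (nat_lit 17541497812) (nat_lit 7) (nat_lit 5) (nat_lit 9) (nat_lit 4) (nat_lit 7) (nat_lit 4) (nat_lit 393) (nat_lit 230) (nat_lit 157)) (XT.nd (nat_lit 78) (nat_lit 76) (nat_lit 0) (XT.lf (nat_lit 0) (nat_lit 35913418002) (nat_lit 152) (nat_lit 5930533714) (nat_lit 0) (nat_lit 21729918749) (nat_lit 7) (nat_lit 5) (nat_lit 9) (nat_lit 4) (nat_lit 7) (nat_lit 4) (nat_lit 394) (nat_lit 230) (nat_lit 156)) (XT.lf (nat_lit 0) (nat_lit 939966386) (nat_lit 76) (nat_lit 39331577070) (nat_lit 76) (nat_lit 25095861734) (nat_lit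 6) (nat_lit 4) (nat_lit 7) (nat_lit 5) (nat_lit 7) (nat_lit 4) (nat_lit 395) (nat_lit 230) (nat_lit 155)))) (XT.nd (nat_lit 156) (nat_lit 0) (nat_lit 0) (XT.nd (nat_lit 78) (nat_lit 0) (nat_lit 0) (XT.lf (nat_lit 0) (nat_lit 8100330495) (nat_lit 76) (nat_lit 36699819279) (nat_lit 76) (nat_lit 22413408716) (nat_lit 6) (nat_lit 4) (nat_lit 7) (nat_lit 5) (nat_lit 7) (nat_lit 4) (nat_lit 396) (nat_lit 230) (nat_lit 154)) (XT.lf (nat_lit 0) (nat_lit 15438785993) (nat_lit 76) (nat_lit 34006265511) (nat_lit 76) (nat_lit 19670636282) (nat_lit 6) (nat_lit 4) (nat_lit 7) (nat_lit 5) (nat_lit 7) (nat_lit 4) (nat_lit 397) (nat_lit 230) (nat_lit 153))) (XT.nd (nat_lit 78) (nat_lit 0) (nat_lit 0) (XT.lf (nat_lit 0) (nat_lit 22961745122) (nat_lit 76) (nat_lit 31248562175) (nat_lit 76) (nat_lit 16865147834) (nat_lit 6) (nat_lit 4) (nat_lit 7) (nat_lit 5) (nat_lit 7) (nat_lit 4) (nat_lit 398) (nat_lit 230) (nat_lit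 152)) (XT.lf (nat_lit 0) (nat_lit 30675781340) (nat_lit 76) (nat_lit 28424299628) (nat_lit 76) (nat_lit 13994491974) (nat_lit 6) (nat_lit 4) (nat_lit 7) (nat_lit 5) (nat_lit 7) (nat_lit 4) (nat_lit 399) (nat_lit 230) (nat_lit 151)))))) (XT.nd (nat_lit 546) (nat_lit 0) (nat_lit 0) (XT.nd (nat_lit 234) (nat_lit 152) (nat_lit 0) (XT.nd (nat_lit 78) (nat_lit 0) (nat_lit 0) (XT.lf (nat_lit 0) (nat_lit 38587635069) (nat_lit 76) (nat_lit 25531010068) (nat_lit 76) (nat_lit 11056160362) (nat_lit 6) (nat_lit 4) (nat_lit 7) (nat_lit 5) (nat_lit 7) (nat_lit 4) (nat_lit 400) (nat_lit 230) (nat_lit 150)) (XT.nd (nat_lit 78) (nat_lit 0) (nat_lit 0) (XT.lf (nat_lit 0) (nat_lit 46704219578) (nat_lit 76) (nat_lit 22566165378) (nat_lit 76) (nat_lit 8047585525) (nat_lit 6) (nat_lit 4) (nat_lit 7) (nat_lit 5) (nat_lit 7) (nat_lit 4) (nat_lit 401) (nat_lit 230) (nat_lit 149)) (XT.lf (nat_lit 0) (nat_lit 55032627028)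 (nat_lit 76) (nat_lit 19527174917) (nat_lit 76) (nat_lit 4966138609) (nat_lit 6) (nat_lit 4) (nat_lit 7) (nat_lit 5) (nat_lit 7) (nat_lit 4) (nat_lit 402) (nat_lit 230) (nat_lit 148)))) (XT.nd (nat_lit 156) (nat_lit 76) (nat_lit 0) (XT.nd (nat_lit 78) (nat_lit 76) (nat_lit 0) (XT.lf (nat_lit 0) (nat_lit 63580134670) (nat_lit 76) (nat_lit 16411383255) (nat_lit 76) (nat_lit 1809127090) (nat_lit 6) (nat_lit 4) (nat_lit 7) (nat_lit 5) (nat_lit 7) (nat_lit 4) (nat_lit 403) (nat_lit 230) (nat_lit 147)) (XT.lf (nat_lit 0) (nat_lit 1398377140) (nat_lit 152) (nat_lit 11803569850) (nat_lit 76) (nat_lit 70941713190) (nat_lit 5) (nat_lit 5) (nat_lit 7) (nat_lit 5) (nat_lit 6) (nat_lit 4) (nat_lit 404) (nat_lit 230) (nat_lit 146))) (XT.nd (nat_lit 78) (nat_lit 76) (nat_lit 0) (XT.lf (nat_lit 0) (nat_lit 4650145402) (nat_lit 152) (nat_lit 5241333946) (nat_lit 76) (nat_lit 76665420528) (nat_lit 5) (nat_lit 5)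 (nat_lit 7) (nat_lit 5) (nat_lit 6) (nat_lit 4) (nat_lit 405) (nat_lit 230) (nat_lit 145)) (XT.lf (nat_lit 0) (nat_lit 1518962216) (nat_lit 76) (nat_lit 6479960611) (nat_lit 152) (nat_lit 81043633612) (nat_lit 4) (nat_lit 5) (nat_lit 5) (nat_lit 5) (nat_lit 6) (nat_lit 4) (nat_lit 406) (nat_lit 230) (nat_lit 144))))) (XT.nd (nat_lit 234) (nat_lit 0) (nat_lit 0) (XT.nd (nat_lit 78) (nat_lit 0) (nat_lit 0) (XT.lf (nat_lit 0) (nat_lit 8561341126) (nat_lit 76) (nat_lit 2924774912) (nat_lit 152) (nat_lit 80115531345) (nat_lit 4) (nat_lit 5) (nat_lit 5) (nat_lit 5) (nat_lit 6) (nat_lit 4) (nat_lit 407) (nat_lit 230) (nat_lit 143)) (XT.nd (nat_lit 78) (nat_lit 0) (nat_lit 0) (XT.lf (nat_lit 0) (nat_lit 15070348474) (nat_lit 152) (nat_lit 78457268886) (nat_lit 0) (nat_lit 710124158) (nat_lit 4) (nat_lit 5) (nat_lit 6) (nat_lit 4) (nat_lit 4) (nat_lit 4) (nat_lit 408) (nat_lit 230) (nat_lit 142)) (XT.lf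 (nat_lit 0) (nat_lit 18776831384) (nat_lit 152) (nat_lit 73792556910) (nat_lit 0) (nat_lit 4383091552) (nat_lit 4) (nat_lit 5) (nat_lit 6) (nat_lit 4) (nat_lit 4) (nat_lit 4) (nat_lit 409) (nat_lit 230) (nat_lit 141)))) (XT.nd (nat_lit 33462) (nat_lit 0) (nat_lit 4560) (XT.nd (nat_lit 78) (nat_lit 0) (nat_lit 0) (XT.lf (nat_lit 0) (nat_lit 22580688717) (nat_lit 152) (nat_lit 69013979642) (nat_lit 0) (nat_lit 8154409548) (nat_lit 4) (nat_lit 5) (nat_lit 6) (nat_lit 4) (nat_lit 4) (nat_lit 4) (nat_lit 410) (nat_lit 230) (nat_lit 140)) (XT.lf (nat_lit 0) (nat_lit 26485244233) (nat_lit 152) (nat_lit 64117361625) (nat_lit 0) (nat_lit 12027373475) (nat_lit 4) (nat_lit 5) (nat_lit 6) (nat_lit 4) (nat_lit 4) (nat_lit 4) (nat_lit 411) (nat_lit 230) (nat_lit 139))) (XT.nd (nat_lit 78) (nat_lit 304) (nat_lit 0) (XT.lf (nat_lit 0) (nat_lit 5211919751) (nat_lit 228) (nat_lit 85634714) (nat_lit 228) (nat_lit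 85634714) (nat_lit 68) (nat_lit 4) (nat_lit 71) (nat_lit 5) (nat_lit 71) (nat_lit 4) (nat_lit 318) (nat_lit 231) (nat_lit 231)) (XT.lf (nat_lit 0) (nat_lit 3916502733) (nat_lit 304) (nat_lit 3812589781) (nat_lit 0) (nat_lit 3212652818) (nat_lit 64) (nat_lit 5) (nat_lit 68) (nat_lit 4) (nat_lit 64) (nat_lit 4) (nat_lit 319) (nat_lit 231) (nat_lit 230))))))) (XT.nd (nat_lit 1092) (nat_lit 1064) (nat_lit 0) (XT.nd (nat_lit 546) (nat_lit 760) (nat_lit 0) (XT.nd (nat_lit 234) (nat_lit 684) (nat_lit 0) (XT.nd (nat_lit 78) (nat_lit 228) (nat_lit 0) (XT.lf (nat_lit 0) (nat_lit 3629662274) (nat_lit 228) (nat_lit 4440756782) (nat_lit 228) (nat_lit 3053557435) (nat_lit 61) (nat_lit 4) (nat_lit 64) (nat_lit 5) (nat_lit 64) (nat_lit 4) (nat_lit 320) (nat_lit 231) (nat_lit 229)) (XT.nd (nat_lit 78) (nat_lit 152) (nat_lit 0) (XT.lf (nat_lit 0) (nat_lit 963131766) (nat_lit 304) (nat_lit 95487911) (nat_lit 76)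 (nat_lit 10254431993) (nat_lit 60) (nat_lit 5) (nat_lit 64) (nat_lit 5) (nat_lit 61) (nat_lit 4) (nat_lit 321) (nat_lit 231) (nat_lit 228)) (XT.lf (nat_lit 0) (nat_lit 5044745634) (nat_lit 228) (nat_lit 4033563644) (nat_lit 0) (nat_lit 2428466238) (nat_lit 58) (nat_lit 5) (nat_lit 61) (nat_lit 4) (nat_lit 58) (nat_lit 4) (nat_lit 322) (nat_lit 231) (nat_lit 227)))) (XT.nd (nat_lit 156) (nat_lit 380) (nat_lit 0) (XT.nd (nat_lit 78) (nat_lit 76) (nat_lit 0) (XT.lf (nat_lit 0) (nat_lit 3477575035) (nat_lit 228) (nat_lit 5726775963) (nat_lit 228) (nat_lit 2503349447) (nat_lit 55) (nat_lit 4) (nat_lit 58) (nat_lit 5) (nat_lit 58) (nat_lit 4) (nat_lit 323) (nat_lit 231) (nat_lit 226)) (XT.lf (nat_lit 0) (nat_lit 1495470809) (nat_lit 304) (nat_lit 777083995) (nat_lit 76) (nat_lit 9643133984) (nat_lit 54) (nat_lit 5) (nat_lit 58) (nat_lit 5) (nat_lit 55) (nat_lit 4) (nat_lit 324) (nat_lit 231) (nat_lit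 225))) (XT.nd (nat_lit 78) (nat_lit 228) (nat_lit 0) (XT.lf (nat_lit 0) (nat_lit 5556249556) (nat_lit 228) (nat_lit 5274416096) (nat_lit 0) (nat_lit 1298789236) (nat_lit 52) (nat_lit 5) (nat_lit 55) (nat_lit 4) (nat_lit 52) (nat_lit 4) (nat_lit 325) (nat_lit 231) (nat_lit 224)) (XT.lf (nat_lit 0) (nat_lit 2262893961) (nat_lit 228) (nat_lit 7442350181) (nat_lit 228) (nat_lit 2645447509) (nat_lit 49) (nat_lit 4) (nat_lit 52) (nat_lit 5) (nat_lit 52) (nat_lit 4) (nat_lit 326) (nat_lit 231) (nat_lit 223))))) (XT.nd (nat_lit 234) (nat_lit 532) (nat_lit 0) (XT.nd (nat_lit 78) (nat_lit 152) (nat_lit 0) (XT.lf (nat_lit 0) (nat_lit 1341092951) (nat_lit 304) (nat_lit 2598214420) (nat_lit 76) (nat_lit 8639852839) (nat_lit 48) (nat_lit 5) (nat_lit 52) (nat_lit 5) (nat_lit 49) (nat_lit 4) (nat_lit 327) (nat_lit 231) (nat_lit 222)) (XT.nd (nat_lit 78) (nat_lit 0) (nat_lit 0) (XT.lf (nat_lit 0) (nat_lit 5050847274)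 (nat_lit 152) (nat_lit 308737228) (nat_lit 228) (nat_lit 7455192033) (nat_lit 46) (nat_lit 5) (nat_lit 48) (nat_lit 5) (nat_lit 49) (nat_lit 4) (nat_lit 328) (nat_lit 231) (nat_lit 221)) (XT.lf (nat_lit 0) (nat_lit 9475666491) (nat_lit 228) (nat_lit 245478163) (nat_lit 0) (nat_lit 3337049564) (nat_lit 46) (nat_lit 5) (nat_lit 49) (nat_lit 4) (nat_lit 46) (nat_lit 4) (nat_lit 329) (nat_lit 231) (nat_lit 220)))) (XT.nd (nat_lit 156) (nat_lit 152) (nat_lit 0) (XT.nd (nat_lit 78) (nat_lit 152) (nat_lit 0) (XT.lf (nat_lit 0) (nat_lit 393486359) (nat_lit 228) (nat_lit 5805167329) (nat_lit 76) (nat_lit 7110332032) (nat_lit 43) (nat_lit 5) (nat_lit 46) (nat_lit 5) (nat_lit 44) (nat_lit 4) (nat_lit 330) (nat_lit 231) (nat_lit 219)) (XT.lf (nat_lit 0) (nat_lit 1788305562) (nat_lit 152) (nat_lit 2568356840) (nat_lit 228) (nat_lit 9211418055) (nat_lit 41) (nat_lit 5) (nat_lit 43) (nat_lit 5) (nat_lit 44) (nat_lit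 4) (nat_lit 331) (nat_lit 231) (nat_lit 218))) (XT.nd (nat_lit 78) (nat_lit 152) (nat_lit 0) (XT.lf (nat_lit 0) (nat_lit 8429904213) (nat_lit 228) (nat_lit 4251497043) (nat_lit 0) (nat_lit 1153850705) (nat_lit 41) (nat_lit 5) (nat_lit 44) (nat_lit 4) (nat_lit 41) (nat_lit 4) (nat_lit 332) (nat_lit 231) (nat_lit 217)) (XT.lf (nat_lit 0) (nat_lit 3412671844) (nat_lit 152) (nat_lit 9193929047) (nat_lit 152) (nat_lit 1504437895) (nat_lit 39) (nat_lit 4) (nat_lit 41) (nat_lit 5) (nat_lit 41) (nat_lit 4) (nat_lit 333) (nat_lit 231) (nat_lit 216)))))) (XT.nd (nat_lit 546) (nat_lit 532) (nat_lit 0) (XT.nd (nat_lit 234) (nat_lit 304) (nat_lit 0) (XT.nd (nat_lit 78) (nat_lit 152) (nat_lit 0) (XT.lf (nat_lit 0) (nat_lit 2431037915) (nat_lit 228) (nat_lit 3155879955) (nat_lit 76) (nat_lit 8808494651) (nat_lit 38) (nat_lit 5) (nat_lit 41) (nat_lit 5) (nat_lit 39) (nat_lit 4) (nat_lit 334) (nat_lit 231) (nat_lit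 215)) (XT.nd (nat_lit 78) (nat_lit 0) (nat_lit 0) (XT.lf (nat_lit 0) (nat_lit 4559383735) (nat_lit 152) (nat_lit 1864249413) (nat_lit 228) (nat_lit 8265193358) (nat_lit 36) (nat_lit 5) (nat_lit 38) (nat_lit 5) (nat_lit 39) (nat_lit 4) (nat_lit 335) (nat_lit 231) (nat_lit 214)) (XT.lf (nat_lit 0) (nat_lit 10513042666) (nat_lit 228) (nat_lit 2566598191) (nat_lit 0) (nat_lit 1912124638) (nat_lit 36) (nat_lit 5) (nat_lit 39) (nat_lit 4) (nat_lit 36) (nat_lit 4) (nat_lit 336) (nat_lit 231) (nat_lit 213)))) (XT.nd (nat_lit 156) (nat_lit 76) (nat_lit 0) (XT.nd (nat_lit 78) (nat_lit 76) (nat_lit 0) (XT.lf (nat_lit 0) (nat_lit 5181456691) (nat_lit 152) (nat_lit 9540015745) (nat_lit 152) (nat_lit 582462772) (nat_lit 34) (nat_lit 4) (nat_lit 36) (nat_lit 5) (nat_lit 36) (nat_lit 4) (nat_lit 337) (nat_lit 231) (nat_lit 212)) (XT.lf (nat_lit 0) (nat_lit 3318164341) (nat_lit 228) (nat_lit 2567926876) (nat_lit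 76) (nat_lit 9739787551) (nat_lit 33) (nat_lit 5) (nat_lit 36) (nat_lit 5) (nat_lit 34) (nat_lit 4) (nat_lit 338) (nat_lit 231) (nat_lit 211))) (XT.nd (nat_lit 78) (nat_lit 0) (nat_lit 0) (XT.lf (nat_lit 0) (nat_lit 5187789034) (nat_lit 76) (nat_lit 2116522377) (nat_lit 152) (nat_lit 8653619896) (nat_lit 32) (nat_lit 5) (nat_lit 33) (nat_lit 5) (nat_lit 34) (nat_lit 4) (nat_lit 339) (nat_lit 231) (nat_lit 210)) (XT.lf (nat_lit 0) (nat_lit 11383935534) (nat_lit 152) (nat_lit 3208939655) (nat_lit 0) (nat_lit 1707882500) (nat_lit 32) (nat_lit 5) (nat_lit 34) (nat_lit 4) (nat_lit 32) (nat_lit 4) (nat_lit 340) (nat_lit 231) (nat_lit 209))))) (XT.nd (nat_lit 234) (nat_lit 228) (nat_lit 0) (XT.nd (nat_lit 78) (nat_lit 152) (nat_lit 0) (XT.lf (nat_lit 0) (nat_lit 4528694442) (nat_lit 152) (nat_lit 11054487544) (nat_lit 152) (nat_lit 1070798074) (nat_lit 30) (nat_lit 4) (nat_lit 32) (nat_lit 5) (nat_lit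 32) (nat_lit 4) (nat_lit 341) (nat_lit 231) (nat_lit 208)) (XT.nd (nat_lit 78) (nat_lit 76) (nat_lit 0) (XT.lf (nat_lit 0) (nat_lit 2799823741) (nat_lit 228) (nat_lit 4598723425) (nat_lit 76) (nat_lit 9619476236) (nat_lit 29) (nat_lit 5) (nat_lit 32) (nat_lit 5) (nat_lit 30) (nat_lit 4) (nat_lit 342) (nat_lit 231) (nat_lit 207)) (XT.lf (nat_lit 0) (nat_lit 3088716321) (nat_lit 76) (nat_lit 3640869288) (nat_lit 152) (nat_lit 10664173885) (nat_lit 28) (nat_lit 5) (nat_lit 29) (nat_lit 5) (nat_lit 30) (nat_lit 4) (nat_lit 343) (nat_lit 231) (nat_lit 206)))) (XT.nd (nat_lit 156) (nat_lit 76) (nat_lit 0) (XT.nd (nat_lit 78) (nat_lit 152) (nat_lit 0) (XT.lf (nat_lit 0) (nat_lit 10761531988) (nat_lit 152) (nat_lit 6795941151) (nat_lit 0) (nat_lit 223790838) (nat_lit 28) (nat_lit 5) (nat_lit 30) (nat_lit 4) (nat_lit 28) (nat_lit 4) (nat_lit 344) (nat_lit 231) (nat_lit 205)) (XT.lf (nat_lit 0) (nat_lit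 806522960) (nat_lit 152) (nat_lit 14088789862) (nat_lit 152) (nat_lit 3285678820) (nat_lit 26) (nat_lit 4) (nat_lit 28) (nat_lit 5) (nat_lit 28) (nat_lit 4) (nat_lit 345) (nat_lit 231) (nat_lit 204))) (XT.nd (nat_lit 78) (nat_lit 0) (nat_lit 0) (XT.lf (nat_lit 0) (nat_lit 555972761) (nat_lit 228) (nat_lit 9932127007) (nat_lit 76) (nat_lit 8104277330) (nat_lit 25) (nat_lit 5) (nat_lit 28) (nat_lit 5) (nat_lit 26) (nat_lit 4) (nat_lit 346) (nat_lit 231) (nat_lit 203)) (XT.lf (nat_lit 0) (nat_lit 4385870940) (nat_lit 228) (nat_lit 2407570278) (nat_lit 76) (nat_lit 12223538141) (nat_lit 25) (nat_lit 5) (nat_lit 28) (nat_lit 5) (nat_lit 26) (nat_lit 4) (nat_lit 347) (nat_lit 231) (nat_lit 202))))))))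
noncomputable def xc40 : XT := (XT.nd (nat_lit 2106) (nat_lit 380) (nat_lit 0) (XT.nd (nat_lit 1014) (nat_lit 380) (nat_lit 0) (XT.nd (nat_lit 468) (nat_lit 304) (nat_lit 0) (XT.nd (nat_lit 234) (nat_lit 152) (nat_lit 0) (XT.nd (nat_lit 78) (nat_lit 152) (nat_lit 0) (XT.lf (nat_lit 0) (nat_lit 5341594052) (nat_lit 76) (nat_lit 2981230274) (nat_lit 152) (nat_lit 11131752230) (nat_lit 24) (nat_lit 5) (nat_lit 25) (nat_lit 5) (nat_lit 26) (nat_lit 4) (nat_lit 348) (nat_lit 231) (nat_lit 201)) (XT.nd (nat_lit 78) (nat_lit 152) (nat_lit 0) (XT.lf (nat_lit 0) (nat_lit 12352617803) (nat_lit 152) (nat_lit 6646978155) (nat_lit 0) (nat_lit 906484752) (nat_lit 24) (nat_lit 5) (nat_lit 26) (nat_lit 4) (nat_lit 24) (nat_lit 4) (nat_lit 349) (nat_lit 231) (nat_lit 200)) (XT.lf (nat_lit 0) (nat_lit 929031519) (nat_lit 152) (nat_lit 15555528674) (nat_lit 152) (nat_lit 3887152516) (nat_lit 22) (nat_lit 4) (nat_lit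 24) (nat_lit 5) (nat_lit 24) (nat_lit 4) (nat_lit 350) (nat_lit 231) (nat_lit 199)))) (XT.nd (nat_lit 78) (nat_lit 152) (nat_lit 0) (XT.lf (nat_lit 0) (nat_lit 8766997343) (nat_lit 152) (nat_lit 11984081861) (nat_lit 152) (nat_lit 99935696) (nat_lit 22) (nat_lit 4) (nat_lit 24) (nat_lit 5) (nat_lit 24) (nat_lit 4) (nat_lit 351) (nat_lit 231) (nat_lit 198)) (XT.nd (nat_lit 78) (nat_lit 76) (nat_lit 0) (XT.lf (nat_lit 0) (nat_lit 3671309076) (nat_lit 228) (nat_lit 4640874182) (nat_lit 76) (nat_lit 13033098028) (nat_lit 21) (nat_lit 5) (nat_lit 24) (nat_lit 5) (nat_lit 22) (nat_lit 4) (nat_lit 352) (nat_lit 231) (nat_lit 197)) (XT.lf (nat_lit 0) (nat_lit 2986003249) (nat_lit 76) (nat_lit 4542577431) (nat_lit 152) (nat_lit 14326536459) (nat_lit 20) (nat_lit 5) (nat_lit 21) (nat_lit 5) (nat_lit 22) (nat_lit 4) (nat_lit 353) (nat_lit 231) (nat_lit 196))))) (XT.nd (nat_lit 234) (nat_lit 152) (nat_lit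 0) (XT.nd (nat_lit 78) (nat_lit 152) (nat_lit 0) (XT.lf (nat_lit 0) (nat_lit 10840931310) (nat_lit 76) (nat_lit 654343056) (nat_lit 152) (nat_lit 10885180159) (nat_lit 20) (nat_lit 5) (nat_lit 21) (nat_lit 5) (nat_lit 22) (nat_lit 4) (nat_lit 354) (nat_lit 231) (nat_lit 195)) (XT.nd (nat_lit 78) (nat_lit 152) (nat_lit 0) (XT.lf (nat_lit 0) (nat_lit 15561166059) (nat_lit 152) (nat_lit 4116515054) (nat_lit 0) (nat_lit 3244482068) (nat_lit 20) (nat_lit 5) (nat_lit 22) (nat_lit 4) (nat_lit 20) (nat_lit 4) (nat_lit 355) (nat_lit 231) (nat_lit 194)) (XT.lf (nat_lit 0) (nat_lit 3499474774) (nat_lit 152) (nat_lit 16239182095) (nat_lit 152) (nat_lit 3741794121) (nat_lit 18) (nat_lit 4) (nat_lit 20) (nat_lit 5) (nat_lit 20) (nat_lit 4) (nat_lit 356) (nat_lit 231) (nat_lit 193)))) (XT.nd (nat_lit 156) (nat_lit 76) (nat_lit 0) (XT.nd (nat_lit 78) (nat_lit 76) (nat_lit 0) (XT.lf (nat_lit 0) (nat_lit 11337708759)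 (nat_lit 152) (nat_lit 12695436653) (nat_lit 152) (nat_lit 22607918) (nat_lit 18) (nat_lit 4) (nat_lit 20) (nat_lit 5) (nat_lit 20) (nat_lit 4) (nat_lit 357) (nat_lit 231) (nat_lit 192)) (XT.lf (nat_lit 0) (nat_lit 3684905682) (nat_lit 228) (nat_lit 5362801034) (nat_lit 76) (nat_lit 15600993115) (nat_lit 17) (nat_lit 5) (nat_lit 20) (nat_lit 5) (nat_lit 18) (nat_lit 4) (nat_lit 358) (nat_lit 231) (nat_lit 191))) (XT.nd (nat_lit 78) (nat_lit 0) (nat_lit 0) (XT.lf (nat_lit 0) (nat_lit 2168819036) (nat_lit 76) (nat_lit 5307707244) (nat_lit 152) (nat_lit 17783716372) (nat_lit 16) (nat_lit 5) (nat_lit 17) (nat_lit 5) (nat_lit 18) (nat_lit 4) (nat_lit 359) (nat_lit 231) (nat_lit 190)) (XT.lf (nat_lit 0) (nat_lit 9950788319) (nat_lit 76) (nat_lit 1438310587) (nat_lit 152) (nat_lit 14500831040) (nat_lit 16) (nat_lit 5) (nat_lit 17) (nat_lit 5) (nat_lit 18) (nat_lit 4) (nat_lit 360) (nat_lit 231) (nat_lit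 189)))))) (XT.nd (nat_lit 546) (nat_lit 152) (nat_lit 0) (XT.nd (nat_lit 234) (nat_lit 152) (nat_lit 0) (XT.nd (nat_lit 78) (nat_lit 76) (nat_lit 0) (XT.lf (nat_lit 0) (nat_lit 15397590706) (nat_lit 152) (nat_lit 8680837757) (nat_lit 0) (nat_lit 2460737011) (nat_lit 16) (nat_lit 5) (nat_lit 18) (nat_lit 4) (nat_lit 16) (nat_lit 4) (nat_lit 361) (nat_lit 231) (nat_lit 188)) (XT.nd (nat_lit 78) (nat_lit 76) (nat_lit 0) (XT.lf (nat_lit 0) (nat_lit 19495973159) (nat_lit 152) (nat_lit 1300638712) (nat_lit 0) (nat_lit 6412190589) (nat_lit 16) (nat_lit 5) (nat_lit 18) (nat_lit 4) (nat_lit 16) (nat_lit 4) (nat_lit 362) (nat_lit 231) (nat_lit 187)) (XT.lf (nat_lit 0) (nat_lit 6345554774) (nat_lit 76) (nat_lit 17389444035) (nat_lit 76) (nat_lit 4163012072) (nat_lit 15) (nat_lit 4) (nat_lit 16) (nat_lit 5) (nat_lit 16) (nat_lit 4) (nat_lit 363) (nat_lit 231) (nat_lit 186)))) (XT.nd (nat_lit 156) (nat_lit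 76) (nat_lit 0) (XT.nd (nat_lit 78) (nat_lit 76) (nat_lit 0) (XT.lf (nat_lit 0) (nat_lit 14169336550) (nat_lit 76) (nat_lit 13902194080) (nat_lit 76) (nat_lit 537267560) (nat_lit 15) (nat_lit 4) (nat_lit 16) (nat_lit 5) (nat_lit 16) (nat_lit 4) (nat_lit 364) (nat_lit 231) (nat_lit 185)) (XT.lf (nat_lit 0) (nat_lit 3092884003) (nat_lit 152) (nat_lit 7220832726) (nat_lit 76) (nat_lit 19027541602) (nat_lit 14) (nat_lit 5) (nat_lit 16) (nat_lit 5) (nat_lit 15) (nat_lit 4) (nat_lit 365) (nat_lit 231) (nat_lit 184))) (XT.nd (nat_lit 78) (nat_lit 0) (nat_lit 0) (XT.lf (nat_lit 0) (nat_lit 136929431) (nat_lit 76) (nat_lit 6644775537) (nat_lit 152) (nat_lit 23315022442) (nat_lit 13) (nat_lit 5) (nat_lit 14) (nat_lit 5) (nat_lit 15) (nat_lit 4) (nat_lit 366) (nat_lit 231) (nat_lit 183)) (XT.lf (nat_lit 0) (nat_lit 7789399437) (nat_lit 76) (nat_lit 2824429740) (nat_lit 152) (nat_lit 20260063507) (nat_lit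 13) (nat_lit 5) (nat_lit 14) (nat_lit 5) (nat_lit 15) (nat_lit 4) (nat_lit 367) (nat_lit 231) (nat_lit 182))))) (XT.nd (nat_lit 234) (nat_lit 152) (nat_lit 0) (XT.nd (nat_lit 78) (nat_lit 0) (nat_lit 0) (XT.lf (nat_lit 0) (nat_lit 14532172532) (nat_lit 152) (nat_lit 16086361740) (nat_lit 0) (nat_lit 1056711935) (nat_lit 13) (nat_lit 5) (nat_lit 15) (nat_lit 4) (nat_lit 13) (nat_lit 4) (nat_lit 368) (nat_lit 231) (nat_lit 181)) (XT.nd (nat_lit 78) (nat_lit 0) (nat_lit 0) (XT.lf (nat_lit 0) (nat_lit 18557759340) (nat_lit 152) (nat_lit 8976889100) (nat_lit 0) (nat_lit 4966311733) (nat_lit 13) (nat_lit 5) (nat_lit 15) (nat_lit 4) (nat_lit 13) (nat_lit 4) (nat_lit 369) (nat_lit 231) (nat_lit 180)) (XT.lf (nat_lit 0) (nat_lit 22666956960) (nat_lit 152) (nat_lit 1722713022) (nat_lit 0) (nat_lit 8962900604) (nat_lit 13) (nat_lit 5) (nat_lit 15) (nat_lit 4) (nat_lit 13) (nat_lit 4) (nat_lit 370) (nat_lit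 231) (nat_lit 179)))) (XT.nd (nat_lit 156) (nat_lit 76) (nat_lit 0) (XT.nd (nat_lit 78) (nat_lit 0) (nat_lit 0) (XT.lf (nat_lit 0) (nat_lit 5795598089) (nat_lit 76) (nat_lit 21123468697) (nat_lit 76) (nat_lit 7310083460) (nat_lit 12) (nat_lit 4) (nat_lit 13) (nat_lit 5) (nat_lit 13) (nat_lit 4) (nat_lit 371) (nat_lit 231) (nat_lit 178)) (XT.lf (nat_lit 0) (nat_lit 13508841996) (nat_lit 76) (nat_lit 17771636330) (nat_lit 76) (nat_lit 3852106547) (nat_lit 12) (nat_lit 4) (nat_lit 13) (nat_lit 5) (nat_lit 13) (nat_lit 4) (nat_lit 372) (nat_lit 231) (nat_lit 177))) (XT.nd (nat_lit 78) (nat_lit 76) (nat_lit 0) (XT.lf (nat_lit 0) (nat_lit 21389473059) (nat_lit 76) (nat_lit 14348640120) (nat_lit 76) (nat_lit 326057380) (nat_lit 12) (nat_lit 4) (nat_lit 13) (nat_lit 5) (nat_lit 13) (nat_lit 4) (nat_lit 373) (nat_lit 231) (nat_lit 176)) (XT.lf (nat_lit 0) (nat_lit 3207313232) (nat_lit 152) (nat_lit 7611788290)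 (nat_lit 76) (nat_lit 26204676459) (nat_lit 11) (nat_lit 5) (nat_lit 13) (nat_lit 5) (nat_lit 12) (nat_lit 4) (nat_lit 374) (nat_lit 231) (nat_lit 175))))))) (XT.nd (nat_lit 1092) (nat_lit 76) (nat_lit 0) (XT.nd (nat_lit 546) (nat_lit 152) (nat_lit 0) (XT.nd (nat_lit 234) (nat_lit 76) (nat_lit 0) (XT.nd (nat_lit 78) (nat_lit 76) (nat_lit 0) (XT.lf (nat_lit 0) (nat_lit 6807167956) (nat_lit 152) (nat_lit 401220497) (nat_lit 76) (nat_lit 30804685879) (nat_lit 11) (nat_lit 5) (nat_lit 13) (nat_lit 5) (nat_lit 12) (nat_lit 4) (nat_lit 375) (nat_lit 231) (nat_lit 174)) (XT.nd (nat_lit 78) (nat_lit 0) (nat_lit 0) (XT.lf (nat_lit 0) (nat_lit 7105086467) (nat_lit 76) (nat_lit 3446226818) (nat_lit 152) (nat_lit 28479655832) (nat_lit 10) (nat_lit 5) (nat_lit 11) (nat_lit 5) (nat_lit 12) (nat_lit 4) (nat_lit 376) (nat_lit 231) (nat_lit 173)) (XT.lf (nat_lit 0) (nat_lit 14384101850) (nat_lit 152) (nat_lit 25297974581)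 (nat_lit 0) (nat_lit 398042898) (nat_lit 10) (nat_lit 5) (nat_lit 12) (nat_lit 4) (nat_lit 10) (nat_lit 4) (nat_lit 377) (nat_lit 231) (nat_lit 172)))) (XT.nd (nat_lit 156) (nat_lit 76) (nat_lit 0) (XT.nd (nat_lit 78) (nat_lit 0) (nat_lit 0) (XT.lf (nat_lit 0) (nat_lit 18335029435) (nat_lit 152) (nat_lit 18562962610) (nat_lit 0) (nat_lit 4262665255) (nat_lit 10) (nat_lit 5) (nat_lit 12) (nat_lit 4) (nat_lit 10) (nat_lit 4) (nat_lit 378) (nat_lit 231) (nat_lit 171)) (XT.lf (nat_lit 0) (nat_lit 22374421068) (nat_lit 152) (nat_lit 11681834533) (nat_lit 0) (nat_lit 8218265403) (nat_lit 10) (nat_lit 5) (nat_lit 12) (nat_lit 4) (nat_lit 10) (nat_lit 4) (nat_lit 379) (nat_lit 231) (nat_lit 170))) (XT.nd (nat_lit 78) (nat_lit 76) (nat_lit 0) (XT.lf (nat_lit 0) (nat_lit 26505806314) (nat_lit 152) (nat_lit 4648577714) (nat_lit 0) (nat_lit 12268299693) (nat_lit 10) (nat_lit 5) (nat_lit 12) (nat_lit 4) (nat_lit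 10) (nat_lit 4) (nat_lit 380) (nat_lit 231) (nat_lit 169)) (XT.lf (nat_lit 0) (nat_lit 2593563168) (nat_lit 76) (nat_lit 28164162869) (nat_lit 76) (nat_lit 13847674738) (nat_lit 9) (nat_lit 4) (nat_lit 10) (nat_lit 5) (nat_lit 10) (nat_lit 4) (nat_lit 381) (nat_lit 231) (nat_lit 168))))) (XT.nd (nat_lit 234) (nat_lit 152) (nat_lit 0) (XT.nd (nat_lit 78) (nat_lit 0) (nat_lit 0) (XT.lf (nat_lit 0) (nat_lit 10096053060) (nat_lit 76) (nat_lit 25060077353) (nat_lit 76) (nat_lit 10666908143) (nat_lit 9) (nat_lit 4) (nat_lit 10) (nat_lit 5) (nat_lit 10) (nat_lit 4) (nat_lit 382) (nat_lit 231) (nat_lit 167)) (XT.nd (nat_lit 78) (nat_lit 0) (nat_lit 0) (XT.lf (nat_lit 0) (nat_lit 17772931724) (nat_lit 76) (nat_lit 21886356693) (nat_lit 76) (nat_lit 7418739835) (nat_lit 9) (nat_lit 4) (nat_lit 10) (nat_lit 5) (nat_lit 10) (nat_lit 4) (nat_lit 383) (nat_lit 231) (nat_lit 166)) (XT.lf (nat_lit 0) (nat_lit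 25630907111) (nat_lit 76) (nat_lit 18640227735) (nat_lit 76) (nat_lit 4100331607) (nat_lit 9) (nat_lit 4) (nat_lit 10) (nat_lit 5) (nat_lit 10) (nat_lit 4) (nat_lit 384) (nat_lit 231) (nat_lit 165)))) (XT.nd (nat_lit 156) (nat_lit 76) (nat_lit 0) (XT.nd (nat_lit 78) (nat_lit 76) (nat_lit 0) (XT.lf (nat_lit 0) (nat_lit 33676845415) (nat_lit 76) (nat_lit 15318854057) (nat_lit 76) (nat_lit 708783880) (nat_lit 9) (nat_lit 4) (nat_lit 10) (nat_lit 5) (nat_lit 10) (nat_lit 4) (nat_lit 385) (nat_lit 231) (nat_lit 164)) (XT.lf (nat_lit 0) (nat_lit 2705031405) (nat_lit 152) (nat_lit 9186986567) (nat_lit 76) (nat_lit 39185430147) (nat_lit 8) (nat_lit 5) (nat_lit 10) (nat_lit 5) (nat_lit 9) (nat_lit 4) (nat_lit 386) (nat_lit 231) (nat_lit 163))) (XT.nd (nat_lit 78) (nat_lit 76) (nat_lit 0) (XT.lf (nat_lit 0) (nat_lit 6182604570) (nat_lit 152) (nat_lit 2193658815) (nat_lit 76) (nat_lit 44115866125) (nat_lit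 8) (nat_lit 5) (nat_lit 10) (nat_lit 5) (nat_lit 9) (nat_lit 4) (nat_lit 387) (nat_lit 231) (nat_lit 162)) (XT.lf (nat_lit 0) (nat_lit 5064087851) (nat_lit 76) (nat_lit 4725396453) (nat_lit 152) (nat_lit 44159023372) (nat_lit 7) (nat_lit 5) (nat_lit 8) (nat_lit 5) (nat_lit 9) (nat_lit 4) (nat_lit 388) (nat_lit 231) (nat_lit 161)))))) (XT.nd (nat_lit 546) (nat_lit 76) (nat_lit 0) (XT.nd (nat_lit 234) (nat_lit 0) (nat_lit 0) (XT.nd (nat_lit 78) (nat_lit 0) (nat_lit 0) (XT.lf (nat_lit 0) (nat_lit 12540768591) (nat_lit 76) (nat_lit 962523336) (nat_lit 152) (nat_lit 41945329166) (nat_lit 7) (nat_lit 5) (nat_lit 8) (nat_lit 5) (nat_lit 9) (nat_lit 4) (nat_lit 389) (nat_lit 231) (nat_lit 160)) (XT.nd (nat_lit 78) (nat_lit 0) (nat_lit 0) (XT.lf (nat_lit 0) (nat_lit 17333580070) (nat_lit 152) (nat_lit 36822981436) (nat_lit 0) (nat_lit 2837029805) (nat_lit 7) (nat_lit 5) (nat_lit 9) (nat_lit 4) (nat_lit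 7) (nat_lit 4) (nat_lit 390) (nat_lit 231) (nat_lit 159)) (XT.lf (nat_lit 0) (nat_lit 21266037359) (nat_lit 152) (nat_lit 30606831522) (nat_lit 0) (nat_lit 6712429170) (nat_lit 7) (nat_lit 5) (nat_lit 9) (nat_lit 4) (nat_lit 7) (nat_lit 4) (nat_lit 391) (nat_lit 231) (nat_lit 158)))) (XT.nd (nat_lit 156) (nat_lit 0) (nat_lit 0) (XT.nd (nat_lit 78) (nat_lit 0) (nat_lit 0) (XT.lf (nat_lit 0) (nat_lit 25294847559) (nat_lit 152) (nat_lit 24244718810) (nat_lit 0) (nat_lit 10685843327) (nat_lit 7) (nat_lit 5) (nat_lit 9) (nat_lit 4) (nat_lit 7) (nat_lit 4) (nat_lit 392) (nat_lit 231) (nat_lit 157)) (XT.lf (nat_lit 0) (nat_lit 29423530989) (nat_lit 152) (nat_lit 17731084172) (nat_lit 0) (nat_lit 14760744192) (nat_lit 7) (nat_lit 5) (nat_lit 9) (nat_lit 4) (nat_lit 7) (nat_lit 4) (nat_lit 393) (nat_lit 231) (nat_lit 156))) (XT.nd (nat_lit 78) (nat_lit 0) (nat_lit 0) (XT.lf (nat_lit 0) (nat_lit 33655695237)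 (nat_lit 152) (nat_lit 11060236083) (nat_lit 0) (nat_lit 18940692358) (nat_lit 7) (nat_lit 5) (nat_lit 9) (nat_lit 4) (nat_lit 7) (nat_lit 4) (nat_lit 394) (nat_lit 231) (nat_lit 155)) (XT.lf (nat_lit 0) (nat_lit 37995038311) (nat_lit 152) (nat_lit 4226345646) (nat_lit 0) (nat_lit 23229340206) (nat_lit 7) (nat_lit 5) (nat_lit 9) (nat_lit 4) (nat_lit 7) (nat_lit 4) (nat_lit 395) (nat_lit 231) (nat_lit 154))))) (XT.nd (nat_lit 234) (nat_lit 0) (nat_lit 0) (XT.nd (nat_lit 78) (nat_lit 0) (nat_lit 0) (XT.lf (nat_lit 0) (nat_lit 2831817457) (nat_lit 76) (nat_lit 39640755575) (nat_lit 76) (nat_lit 24825838803) (nat_lit 6) (nat_lit 4) (nat_lit 7) (nat_lit 5) (nat_lit 7) (nat_lit 4) (nat_lit 396) (nat_lit 231) (nat_lit 153)) (XT.nd (nat_lit 78) (nat_lit 0) (nat_lit 0) (XT.lf (nat_lit 0) (nat_lit 10152711361) (nat_lit 76) (nat_lit 36955407248) (nat_lit 76) (nat_lit 22092705364) (nat_lit 6) (nat_lit 4) (nat_lit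 7) (nat_lit 5) (nat_lit 7) (nat_lit 4) (nat_lit 397) (nat_lit 231) (nat_lit 152)) (XT.lf (nat_lit 0) (nat_lit 17658620399) (nat_lit 76) (nat_lit 34205670360) (nat_lit 76) (nat_lit 19296575162) (nat_lit 6) (nat_lit 4) (nat_lit 7) (nat_lit 5) (nat_lit 7) (nat_lit 4) (nat_lit 398) (nat_lit 231) (nat_lit 151)))) (XT.nd (nat_lit 156) (nat_lit 0) (nat_lit 0) (XT.nd (nat_lit 78) (nat_lit 0) (nat_lit 0) (XT.lf (nat_lit 0) (nat_lit 25356103132) (nat_lit 76) (nat_lit 31389142229) (nat_lit 76) (nat_lit 16435004979) (nat_lit 6) (nat_lit 4) (nat_lit 7) (nat_lit 5) (nat_lit 7) (nat_lit 4) (nat_lit 399) (nat_lit 231) (nat_lit 150)) (XT.lf (nat_lit 0) (nat_lit 33251885515) (nat_lit 76) (nat_lit 28503361810) (nat_lit 76) (nat_lit 13505494413) (nat_lit 6) (nat_lit 4) (nat_lit 7) (nat_lit 5) (nat_lit 7) (nat_lit 4) (nat_lit 400) (nat_lit 231) (nat_lit 149))) (XT.nd (nat_lit 78) (nat_lit 0) (nat_lit 0) (XT.lf (nat_lit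 0) (nat_lit 41352866775) (nat_lit 76) (nat_lit 25545807548) (nat_lit 76) (nat_lit 10505483698) (nat_lit 6) (nat_lit 4) (nat_lit 7) (nat_lit 5) (nat_lit 7) (nat_lit 4) (nat_lit 401) (nat_lit 231) (nat_lit 148)) (XT.lf (nat_lit 0) (nat_lit 49666125441) (nat_lit 76) (nat_lit 22513895172) (nat_lit 76) (nat_lit 7432351464) (nat_lit 6) (nat_lit 4) (nat_lit 7) (nat_lit 5) (nat_lit 7) (nat_lit 4) (nat_lit 402) (nat_lit 231) (nat_lit 147))))))))
noncomputable def xc41 : XT := (XT.nd (nat_lit 35334) (nat_lit 0) (nat_lit 912) (XT.nd (nat_lit 34242) (nat_lit 0) (nat_lit 2584) (XT.nd (nat_lit 546) (nat_lit 0) (nat_lit 0) (XT.nd (nat_lit 234) (nat_lit 76) (nat_lit 0) (XT.nd (nat_lit 78) (nat_lit 76) (nat_lit 0) (XT.lf (nat_lit 0) (nat_lit 58198925525) (nat_lit 76) (nat_lit 19404975438) (nat_lit 76) (nat_lit 4283412450) (nat_lit 6) (nat_lit 4) (nat_lit 7) (nat_lit 5) (nat_lit 7) (nat_lit 4) (nat_lit 403) (nat_lit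 231) (nat_lit 146)) (XT.nd (nat_lit 78) (nat_lit 76) (nat_lit 0) (XT.lf (nat_lit 0) (nat_lit 66958722871) (nat_lit 76) (nat_lit 16216331815) (nat_lit 76) (nat_lit 1055915158) (nat_lit 6) (nat_lit 4) (nat_lit 7) (nat_lit 5) (nat_lit 7) (nat_lit 4) (nat_lit 404) (nat_lit 231) (nat_lit 145)) (XT.lf (nat_lit 0) (nat_lit 2208997182) (nat_lit 152) (nat_lit 10713874386) (nat_lit 76) (nat_lit 73721867948) (nat_lit 5) (nat_lit 5) (nat_lit 7) (nat_lit 5) (nat_lit 6) (nat_lit 4) (nat_lit 405) (nat_lit 231) (nat_lit 144)))) (XT.nd (nat_lit 156) (nat_lit 0) (nat_lit 0) (XT.nd (nat_lit 78) (nat_lit 76) (nat_lit 0) (XT.lf (nat_lit 0) (nat_lit 5535930082) (nat_lit 152) (nat_lit 3996823908) (nat_lit 76) (nat_lit 79598299030) (nat_lit 5) (nat_lit 5) (nat_lit 7) (nat_lit 5) (nat_lit 6) (nat_lit 4) (nat_lit 406) (nat_lit 231) (nat_lit 143)) (XT.lf (nat_lit 0) (nat_lit 2952538492) (nat_lit 76) (nat_lit 6024238394)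 (nat_lit 152) (nat_lit 82714759030) (nat_lit 4) (nat_lit 5) (nat_lit 5) (nat_lit 5) (nat_lit 6) (nat_lit 4) (nat_lit 407) (nat_lit 231) (nat_lit 142))) (XT.nd (nat_lit 78) (nat_lit 0) (nat_lit 0) (XT.lf (nat_lit 0) (nat_lit 10165761369) (nat_lit 76) (nat_lit 2381332689) (nat_lit 152) (nat_lit 81780954965) (nat_lit 4) (nat_lit 5) (nat_lit 5) (nat_lit 5) (nat_lit 6) (nat_lit 4) (nat_lit 408) (nat_lit 231) (nat_lit 141)) (XT.lf (nat_lit 0) (nat_lit 16223878228) (nat_lit 152) (nat_lit 79487530204) (nat_lit 0) (nat_lit 1332271348) (nat_lit 4) (nat_lit 5) (nat_lit 6) (nat_lit 4) (nat_lit 4) (nat_lit 4) (nat_lit 409) (nat_lit 231) (nat_lit 140))))) (XT.nd (nat_lit 33384) (nat_lit 0) (nat_lit 4332) (XT.nd (nat_lit 78) (nat_lit 0) (nat_lit 0) (XT.lf (nat_lit 0) (nat_lit 20021125937) (nat_lit 152) (nat_lit 74721424153) (nat_lit 0) (nat_lit 5097927468) (nat_lit 4) (nat_lit 5) (nat_lit 6) (nat_lit 4) (nat_lit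 4) (nat_lit 4) (nat_lit 410) (nat_lit 231) (nat_lit 139)) (XT.nd (nat_lit 33228) (nat_lit 0) (nat_lit 5092) (XT.lf (nat_lit 0) (nat_lit 23919264341) (nat_lit 152) (nat_lit 69836914114) (nat_lit 0) (nat_lit 8965394427) (nat_lit 4) (nat_lit 5) (nat_lit 6) (nat_lit 4) (nat_lit 4) (nat_lit 4) (nat_lit 411) (nat_lit 231) (nat_lit 138)) (XT.lf (nat_lit 0) (nat_lit 1521038944) (nat_lit 304) (nat_lit 2172174574) (nat_lit 0) (nat_lit 1521038944) (nat_lit 71) (nat_lit 5) (nat_lit 75) (nat_lit 4) (nat_lit 71) (nat_lit 4) (nat_lit 316) (nat_lit 232) (nat_lit 232)))) (XT.nd (nat_lit 156) (nat_lit 456) (nat_lit 0) (XT.nd (nat_lit 78) (nat_lit 76) (nat_lit 0) (XT.lf (nat_lit 0) (nat_lit 2922908097) (nat_lit 228) (nat_lit 4209342925) (nat_lit 228) (nat_lit 3462628550) (nat_lit 68) (nat_lit 4) (nat_lit 71) (nat_lit 5) (nat_lit 71) (nat_lit 4) (nat_lit 317) (nat_lit 232) (nat_lit 231)) (XT.lf (nat_lit 0) (nat_lit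 517928952) (nat_lit 304) (nat_lit 420284014) (nat_lit 76) (nat_lit 9829419845) (nat_lit 67) (nat_lit 5) (nat_lit 71) (nat_lit 5) (nat_lit 68) (nat_lit 4) (nat_lit 318) (nat_lit 232) (nat_lit 230))) (XT.nd (nat_lit 78) (nat_lit 228) (nat_lit 0) (XT.lf (nat_lit 0) (nat_lit 4548341997) (nat_lit 304) (nat_lit 3960082531) (nat_lit 0) (nat_lit 2436177237) (nat_lit 64) (nat_lit 5) (nat_lit 68) (nat_lit 4) (nat_lit 64) (nat_lit 4) (nat_lit 319) (nat_lit 232) (nat_lit 229)) (XT.lf (nat_lit 0) (nat_lit 3407289921) (nat_lit 228) (nat_lit 5248292033) (nat_lit 228) (nat_lit 2472681222) (nat_lit 61) (nat_lit 4) (nat_lit 64) (nat_lit 5) (nat_lit 64) (nat_lit 4) (nat_lit 320) (nat_lit 232) (nat_lit 228)))))) (XT.nd (nat_lit 546) (nat_lit 760) (nat_lit 0) (XT.nd (nat_lit 234) (nat_lit 532) (nat_lit 0) (XT.nd (nat_lit 78) (nat_lit 380) (nat_lit 0) (XT.lf (nat_lit 0) (nat_lit 1488296719) (nat_lit 304) (nat_lit 398490849)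 (nat_lit 76) (nat_lit 9431742806) (nat_lit 60) (nat_lit 5) (nat_lit 64) (nat_lit 5) (nat_lit 61) (nat_lit 4) (nat_lit 321) (nat_lit 232) (nat_lit 227)) (XT.nd (nat_lit 78) (nat_lit 228) (nat_lit 0) (XT.lf (nat_lit 0) (nat_lit 5514939520) (nat_lit 228) (nat_lit 4411328161) (nat_lit 0) (nat_lit 1587663089) (nat_lit 58) (nat_lit 5) (nat_lit 61) (nat_lit 4) (nat_lit 58) (nat_lit 4) (nat_lit 322) (nat_lit 232) (nat_lit 226)) (XT.lf (nat_lit 0) (nat_lit 3021836174) (nat_lit 228) (nat_lit 6605599538) (nat_lit 228) (nat_lit 2088859884) (nat_lit 55) (nat_lit 4) (nat_lit 58) (nat_lit 5) (nat_lit 58) (nat_lit 4) (nat_lit 323) (nat_lit 232) (nat_lit 225)))) (XT.nd (nat_lit 156) (nat_lit 304) (nat_lit 0) (XT.nd (nat_lit 78) (nat_lit 152) (nat_lit 0) (XT.lf (nat_lit 0) (nat_lit 1859288248) (nat_lit 304) (nat_lit 1314678901) (nat_lit 76) (nat_lit 8751499871) (nat_lit 54) (nat_lit 5) (nat_lit 58) (nat_lit 5) (nat_lit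 55) (nat_lit 4) (nat_lit 324) (nat_lit 232) (nat_lit 224)) (XT.lf (nat_lit 0) (nat_lit 5863820674) (nat_lit 228) (nat_lit 5893555628) (nat_lit 0) (nat_lit 383568569) (nat_lit 52) (nat_lit 5) (nat_lit 55) (nat_lit 4) (nat_lit 52) (nat_lit 4) (nat_lit 325) (nat_lit 232) (nat_lit 223))) (XT.nd (nat_lit 78) (nat_lit 76) (nat_lit 0) (XT.lf (nat_lit 0) (nat_lit 1562488751) (nat_lit 228) (nat_lit 8402565948) (nat_lit 228) (nat_lit 2398583404) (nat_lit 49) (nat_lit 4) (nat_lit 52) (nat_lit 5) (nat_lit 52) (nat_lit 4) (nat_lit 326) (nat_lit 232) (nat_lit 222)) (XT.lf (nat_lit 0) (nat_lit 1542240300) (nat_lit 304) (nat_lit 3381710888) (nat_lit 76) (nat_lit 7669333566) (nat_lit 48) (nat_lit 5) (nat_lit 52) (nat_lit 5) (nat_lit 49) (nat_lit 4) (nat_lit 327) (nat_lit 232) (nat_lit 221))))) (XT.nd (nat_lit 234) (nat_lit 380) (nat_lit 0) (XT.nd (nat_lit 78) (nat_lit 228) (nat_lit 0) (XT.lf (nat_lit 0) (nat_lit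 4184650323) (nat_lit 152) (nat_lit 1328046814) (nat_lit 228) (nat_lit 7317666627) (nat_lit 46) (nat_lit 5) (nat_lit 48) (nat_lit 5) (nat_lit 49) (nat_lit 4) (nat_lit 328) (nat_lit 232) (nat_lit 220)) (XT.nd (nat_lit 78) (nat_lit 228) (nat_lit 0) (XT.lf (nat_lit 0) (nat_lit 9579553180) (nat_lit 228) (nat_lit 1183563570) (nat_lit 0) (nat_lit 2312162491) (nat_lit 46) (nat_lit 5) (nat_lit 49) (nat_lit 4) (nat_lit 46) (nat_lit 4) (nat_lit 329) (nat_lit 232) (nat_lit 219)) (XT.lf (nat_lit 0) (nat_lit 429992501) (nat_lit 228) (nat_lit 6846280388) (nat_lit 76) (nat_lit 6051250682) (nat_lit 43) (nat_lit 5) (nat_lit 46) (nat_lit 5) (nat_lit 44) (nat_lit 4) (nat_lit 330) (nat_lit 232) (nat_lit 218)))) (XT.nd (nat_lit 156) (nat_lit 228) (nat_lit 0) (XT.nd (nat_lit 78) (nat_lit 0) (nat_lit 0) (XT.lf (nat_lit 0) (nat_lit 660868208) (nat_lit 152) (nat_lit 3683294044) (nat_lit 228) (nat_lit 9243945478) (nat_lit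 41) (nat_lit 5) (nat_lit 43) (nat_lit 5) (nat_lit 44) (nat_lit 4) (nat_lit 331) (nat_lit 232) (nat_lit 217)) (XT.lf (nat_lit 0) (nat_lit 8368767219) (nat_lit 228) (nat_lit 5452836104) (nat_lit 0) (nat_lit 35153687) (nat_lit 41) (nat_lit 5) (nat_lit 44) (nat_lit 4) (nat_lit 41) (nat_lit 4) (nat_lit 332) (nat_lit 232) (nat_lit 216))) (XT.nd (nat_lit 78) (nat_lit 76) (nat_lit 0) (XT.lf (nat_lit 0) (nat_lit 2123465141) (nat_lit 152) (nat_lit 10372791176) (nat_lit 152) (nat_lit 1637781872) (nat_lit 39) (nat_lit 4) (nat_lit 41) (nat_lit 5) (nat_lit 41) (nat_lit 4) (nat_lit 333) (nat_lit 232) (nat_lit 215)) (XT.lf (nat_lit 0) (nat_lit 2263579345) (nat_lit 228) (nat_lit 4529647864) (nat_lit 76) (nat_lit 7626341755) (nat_lit 38) (nat_lit 5) (nat_lit 41) (nat_lit 5) (nat_lit 39) (nat_lit 4) (nat_lit 334) (nat_lit 232) (nat_lit 214))))))) (XT.nd (nat_lit 1092) (nat_lit 608) (nat_lit 0) (XT.nd (nat_lit 546)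 (nat_lit 456) (nat_lit 0) (XT.nd (nat_lit 234) (nat_lit 304) (nat_lit 0) (XT.nd (nat_lit 78) (nat_lit 152) (nat_lit 0) (XT.lf (nat_lit 0) (nat_lit 3096047679) (nat_lit 152) (nat_lit 3110413220) (nat_lit 228) (nat_lit 8508030049) (nat_lit 36) (nat_lit 5) (nat_lit 38) (nat_lit 5) (nat_lit 39) (nat_lit 4) (nat_lit 335) (nat_lit 232) (nat_lit 213)) (XT.nd (nat_lit 78) (nat_lit 152) (nat_lit 0) (XT.lf (nat_lit 0) (nat_lit 10248459372) (nat_lit 228) (nat_lit 4104864136) (nat_lit 0) (nat_lit 665544866) (nat_lit 36) (nat_lit 5) (nat_lit 39) (nat_lit 4) (nat_lit 36) (nat_lit 4) (nat_lit 336) (nat_lit 232) (nat_lit 212)) (XT.lf (nat_lit 0) (nat_lit 3551932335) (nat_lit 152) (nat_lit 10854892669) (nat_lit 152) (nat_lit 925730645) (nat_lit 34) (nat_lit 4) (nat_lit 36) (nat_lit 5) (nat_lit 36) (nat_lit 4) (nat_lit 337) (nat_lit 232) (nat_lit 211)))) (XT.nd (nat_lit 156) (nat_lit 152) (nat_lit 0) (XT.nd (nat_lit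 78) (nat_lit 76) (nat_lit 0) (XT.lf (nat_lit 0) (nat_lit 2947279524) (nat_lit 228) (nat_lit 4282347229) (nat_lit 76) (nat_lit 8426015647) (nat_lit 33) (nat_lit 5) (nat_lit 36) (nat_lit 5) (nat_lit 34) (nat_lit 4) (nat_lit 338) (nat_lit 232) (nat_lit 210)) (XT.lf (nat_lit 0) (nat_lit 3380257169) (nat_lit 76) (nat_lit 3502478460) (nat_lit 152) (nat_lit 9106494347) (nat_lit 32) (nat_lit 5) (nat_lit 33) (nat_lit 5) (nat_lit 34) (nat_lit 4) (nat_lit 339) (nat_lit 232) (nat_lit 209))) (XT.nd (nat_lit 78) (nat_lit 152) (nat_lit 0) (XT.lf (nat_lit 0) (nat_lit 10915906728) (nat_lit 152) (nat_lit 5092486976) (nat_lit 0) (nat_lit 325070139) (nat_lit 32) (nat_lit 5) (nat_lit 34) (nat_lit 4) (nat_lit 32) (nat_lit 4) (nat_lit 340) (nat_lit 232) (nat_lit 208)) (XT.lf (nat_lit 0) (nat_lit 2550190406) (nat_lit 152) (nat_lit 12513778778) (nat_lit 152) (nat_lit 1624266037) (nat_lit 30) (nat_lit 4) (nat_lit 32) (nat_lit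 5) (nat_lit 32) (nat_lit 4) (nat_lit 341) (nat_lit 232) (nat_lit 207))))) (XT.nd (nat_lit 234) (nat_lit 304) (nat_lit 0) (XT.nd (nat_lit 78) (nat_lit 76) (nat_lit 0) (XT.lf (nat_lit 0) (nat_lit 2225063689) (nat_lit 228) (nat_lit 6662610297) (nat_lit 76) (nat_lit 8165739669) (nat_lit 29) (nat_lit 5) (nat_lit 32) (nat_lit 5) (nat_lit 30) (nat_lit 4) (nat_lit 342) (nat_lit 232) (nat_lit 206)) (XT.nd (nat_lit 78) (nat_lit 0) (nat_lit 0) (XT.lf (nat_lit 0) (nat_lit 927859519) (nat_lit 76) (nat_lit 5175037044) (nat_lit 152) (nat_lit 11327823398) (nat_lit 28) (nat_lit 5) (nat_lit 29) (nat_lit 5) (nat_lit 30) (nat_lit 4) (nat_lit 343) (nat_lit 232) (nat_lit 205)) (XT.lf (nat_lit 0) (nat_lit 8772459334) (nat_lit 76) (nat_lit 1329417920) (nat_lit 152) (nat_lit 7717348145) (nat_lit 28) (nat_lit 5) (nat_lit 29) (nat_lit 5) (nat_lit 30) (nat_lit 4) (nat_lit 344) (nat_lit 232) (nat_lit 204)))) (XT.nd (nat_lit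 156) (nat_lit 152) (nat_lit 0) (XT.nd (nat_lit 78) (nat_lit 152) (nat_lit 0) (XT.lf (nat_lit 0) (nat_lit 14185031452) (nat_lit 152) (nat_lit 1500635531) (nat_lit 0) (nat_lit 2534816515) (nat_lit 28) (nat_lit 5) (nat_lit 30) (nat_lit 4) (nat_lit 28) (nat_lit 4) (nat_lit 345) (nat_lit 232) (nat_lit 203)) (XT.lf (nat_lit 0) (nat_lit 6275988937) (nat_lit 152) (nat_lit 12128869747) (nat_lit 152) (nat_lit 228518236) (nat_lit 26) (nat_lit 4) (nat_lit 28) (nat_lit 5) (nat_lit 28) (nat_lit 4) (nat_lit 346) (nat_lit 232) (nat_lit 202))) (XT.nd (nat_lit 78) (nat_lit 76) (nat_lit 0) (XT.lf (nat_lit 0) (nat_lit 3576682305) (nat_lit 228) (nat_lit 4882537475) (nat_lit 76) (nat_lit 10599710656) (nat_lit 25) (nat_lit 5) (nat_lit 28) (nat_lit 5) (nat_lit 26) (nat_lit 4) (nat_lit 347) (nat_lit 232) (nat_lit 201)) (XT.lf (nat_lit 0) (nat_lit 2765976131) (nat_lit 76) (nat_lit 4694593522) (nat_lit 152) (nat_lit 12037560297)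 (nat_lit 24) (nat_lit 5) (nat_lit 25) (nat_lit 5) (nat_lit 26) (nat_lit 4) (nat_lit 348) (nat_lit 232) (nat_lit 200)))))) (XT.nd (nat_lit 546) (nat_lit 304) (nat_lit 0) (XT.nd (nat_lit 234) (nat_lit 152) (nat_lit 0) (XT.nd (nat_lit 78) (nat_lit 152) (nat_lit 0) (XT.lf (nat_lit 0) (nat_lit 10642741242) (nat_lit 76) (nat_lit 810772012) (nat_lit 152) (nat_lit 8497236383) (nat_lit 24) (nat_lit 5) (nat_lit 25) (nat_lit 5) (nat_lit 26) (nat_lit 4) (nat_lit 349) (nat_lit 232) (nat_lit 199)) (XT.nd (nat_lit 78) (nat_lit 152) (nat_lit 0) (XT.lf (nat_lit 0) (nat_lit 15541378564) (nat_lit 152) (nat_lit 1791397122) (nat_lit 0) (nat_lit 3084938008) (nat_lit 24) (nat_lit 5) (nat_lit 26) (nat_lit 4) (nat_lit 24) (nat_lit 4) (nat_lit 350) (nat_lit 232) (nat_lit 198)) (XT.lf (nat_lit 0) (nat_lit 5962334113) (nat_lit 152) (nat_lit 13800977406) (nat_lit 152) (nat_lit 1135051407) (nat_lit 22) (nat_lit 4) (nat_lit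 24) (nat_lit 5) (nat_lit 24) (nat_lit 4) (nat_lit 351) (nat_lit 232) (nat_lit 197)))) (XT.nd (nat_lit 156) (nat_lit 76) (nat_lit 0) (XT.nd (nat_lit 78) (nat_lit 0) (nat_lit 0) (XT.lf (nat_lit 0) (nat_lit 2629887180) (nat_lit 228) (nat_lit 7530638948) (nat_lit 76) (nat_lit 11233205757) (nat_lit 21) (nat_lit 5) (nat_lit 24) (nat_lit 5) (nat_lit 22) (nat_lit 4) (nat_lit 352) (nat_lit 232) (nat_lit 196)) (XT.lf (nat_lit 0) (nat_lit 6432722464) (nat_lit 228) (nat_lit 8343443) (nat_lit 76) (nat_lit 15464143579) (nat_lit 21) (nat_lit 5) (nat_lit 24) (nat_lit 5) (nat_lit 22) (nat_lit 4) (nat_lit 353) (nat_lit 232) (nat_lit 195))) (XT.nd (nat_lit 78) (nat_lit 0) (nat_lit 0) (XT.lf (nat_lit 0) (nat_lit 7800558380) (nat_lit 76) (nat_lit 2573351611) (nat_lit 152) (nat_lit 12057410472) (nat_lit 20) (nat_lit 5) (nat_lit 21) (nat_lit 5) (nat_lit 22) (nat_lit 4) (nat_lit 354) (nat_lit 232) (nat_lit 194)) (XT.lf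 (nat_lit 0) (nat_lit 14396480433) (nat_lit 152) (nat_lit 7234389647) (nat_lit 0) (nat_lit 1343466836) (nat_lit 20) (nat_lit 5) (nat_lit 22) (nat_lit 4) (nat_lit 20) (nat_lit 4) (nat_lit 355) (nat_lit 232) (nat_lit 193))))) (XT.nd (nat_lit 234) (nat_lit 76) (nat_lit 0) (XT.nd (nat_lit 78) (nat_lit 76) (nat_lit 0) (XT.lf (nat_lit 0) (nat_lit 274907939) (nat_lit 152) (nat_lit 18243916733) (nat_lit 152) (nat_lit 5015462375) (nat_lit 18) (nat_lit 4) (nat_lit 20) (nat_lit 5) (nat_lit 20) (nat_lit 4) (nat_lit 356) (nat_lit 232) (nat_lit 192)) (XT.nd (nat_lit 78) (nat_lit 76) (nat_lit 0) (XT.lf (nat_lit 0) (nat_lit 8069801705) (nat_lit 152) (nat_lit 14719648232) (nat_lit 152) (nat_lit 1320863039) (nat_lit 18) (nat_lit 4) (nat_lit 20) (nat_lit 5) (nat_lit 20) (nat_lit 4) (nat_lit 357) (nat_lit 232) (nat_lit 191)) (XT.lf (nat_lit 0) (nat_lit 2388579254) (nat_lit 228) (nat_lit 8715339049) (nat_lit 76) (nat_lit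 13600424962) (nat_lit 17) (nat_lit 5) (nat_lit 20) (nat_lit 5) (nat_lit 18) (nat_lit 4) (nat_lit 358) (nat_lit 232) (nat_lit 190)))) (XT.nd (nat_lit 156) (nat_lit 0) (nat_lit 0) (XT.nd (nat_lit 78) (nat_lit 76) (nat_lit 0) (XT.lf (nat_lit 0) (nat_lit 6136628594) (nat_lit 228) (nat_lit 1267352038) (nat_lit 76) (nat_lit 17913219632) (nat_lit 17) (nat_lit 5) (nat_lit 20) (nat_lit 5) (nat_lit 18) (nat_lit 4) (nat_lit 359) (nat_lit 232) (nat_lit 189)) (XT.lf (nat_lit 0) (nat_lit 6448487880) (nat_lit 76) (nat_lit 3565833700) (nat_lit 152) (nat_lit 15933619202) (nat_lit 16) (nat_lit 5) (nat_lit 17) (nat_lit 5) (nat_lit 18) (nat_lit 4) (nat_lit 360) (nat_lit 232) (nat_lit 188))) (XT.nd (nat_lit 78) (nat_lit 0) (nat_lit 0) (XT.lf (nat_lit 0) (nat_lit 13980389518) (nat_lit 152) (nat_lit 12260901546) (nat_lit 0) (nat_lit 357164596) (nat_lit 16) (nat_lit 5) (nat_lit 18) (nat_lit 4) (nat_lit 16) (nat_lit 4)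 (nat_lit 361) (nat_lit 232) (nat_lit 187)) (XT.lf (nat_lit 0) (nat_lit 18057439148) (nat_lit 152) (nat_lit 4919735091) (nat_lit 0) (nat_lit 4291564833) (nat_lit 16) (nat_lit 5) (nat_lit 18) (nat_lit 4) (nat_lit 16) (nat_lit 4) (nat_lit 362) (nat_lit 232) (nat_lit 186))))))))
noncomputable def xc42 : XT := (XT.nd (nat_lit 2106) (nat_lit 228) (nat_lit 0) (XT.nd (nat_lit 1014) (nat_lit 304) (nat_lit 0) (XT.nd (nat_lit 468) (nat_lit 152) (nat_lit 0) (XT.nd (nat_lit 234) (nat_lit 76) (nat_lit 0) (XT.nd (nat_lit 78) (nat_lit 76) (nat_lit 0) (XT.lf (nat_lit 0) (nat_lit 2615781362) (nat_lit 76) (nat_lit 19624119094) (nat_lit 76) (nat_lit 5719750223) (nat_lit 15) (nat_lit 4) (nat_lit 16) (nat_lit 5) (nat_lit 16) (nat_lit 4) (nat_lit 363) (nat_lit 232) (nat_lit 185)) (XT.nd (nat_lit 78) (nat_lit 76) (nat_lit 0) (XT.lf (nat_lit 0) (nat_lit 10402038946) (nat_lit 76) (nat_lit 16153924394) (nat_lit 76) (nat_lit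 2115094788) (nat_lit 15) (nat_lit 4) (nat_lit 16) (nat_lit 5) (nat_lit 16) (nat_lit 4) (nat_lit 364) (nat_lit 232) (nat_lit 184)) (XT.lf (nat_lit 0) (nat_lit 1525770572) (nat_lit 152) (nat_lit 11072059745) (nat_lit 76) (nat_lit 16806750947) (nat_lit 14) (nat_lit 5) (nat_lit 16) (nat_lit 5) (nat_lit 15) (nat_lit 4) (nat_lit 365) (nat_lit 232) (nat_lit 183)))) (XT.nd (nat_lit 78) (nat_lit 76) (nat_lit 0) (XT.lf (nat_lit 0) (nat_lit 5193784712) (nat_lit 152) (nat_lit 3752733181) (nat_lit 76) (nat_lit 21214162213) (nat_lit 14) (nat_lit 5) (nat_lit 16) (nat_lit 5) (nat_lit 15) (nat_lit 4) (nat_lit 366) (nat_lit 232) (nat_lit 182)) (XT.nd (nat_lit 78) (nat_lit 0) (nat_lit 0) (XT.lf (nat_lit 0) (nat_lit 3789637091) (nat_lit 76) (nat_lit 5180217025) (nat_lit 152) (nat_lit 21969678302) (nat_lit 13) (nat_lit 5) (nat_lit 14) (nat_lit 5) (nat_lit 15) (nat_lit 4) (nat_lit 367) (nat_lit 232) (nat_lit 181)) (XT.lf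 (nat_lit 0) (nat_lit 11565411301) (nat_lit 76) (nat_lit 1293724013) (nat_lit 152) (nat_lit 18882627729) (nat_lit 13) (nat_lit 5) (nat_lit 14) (nat_lit 5) (nat_lit 15) (nat_lit 4) (nat_lit 368) (nat_lit 232) (nat_lit 180))))) (XT.nd (nat_lit 234) (nat_lit 76) (nat_lit 0) (XT.nd (nat_lit 78) (nat_lit 76) (nat_lit 0) (XT.lf (nat_lit 0) (nat_lit 16853982217) (nat_lit 152) (nat_lit 13088226652) (nat_lit 0) (nat_lit 2626195423) (nat_lit 13) (nat_lit 5) (nat_lit 15) (nat_lit 4) (nat_lit 13) (nat_lit 4) (nat_lit 369) (nat_lit 232) (nat_lit 179)) (XT.nd (nat_lit 78) (nat_lit 76) (nat_lit 0) (XT.lf (nat_lit 0) (nat_lit 20945409120) (nat_lit 152) (nat_lit 5866850201) (nat_lit 0) (nat_lit 6608293444) (nat_lit 13) (nat_lit 5) (nat_lit 15) (nat_lit 4) (nat_lit 13) (nat_lit 4) (nat_lit 370) (nat_lit 232) (nat_lit 178)) (XT.lf (nat_lit 0) (nat_lit 1536506392) (nat_lit 76) (nat_lit 23602818435) (nat_lit 76) (nat_lit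 9159558214) (nat_lit 12) (nat_lit 4) (nat_lit 13) (nat_lit 5) (nat_lit 13) (nat_lit 4) (nat_lit 371) (nat_lit 232) (nat_lit 177)))) (XT.nd (nat_lit 156) (nat_lit 76) (nat_lit 0) (XT.nd (nat_lit 78) (nat_lit 0) (nat_lit 0) (XT.lf (nat_lit 0) (nat_lit 9218218200) (nat_lit 76) (nat_lit 20265464456) (nat_lit 76) (nat_lit 5719151278) (nat_lit 12) (nat_lit 4) (nat_lit 13) (nat_lit 5) (nat_lit 13) (nat_lit 4) (nat_lit 372) (nat_lit 232) (nat_lit 176)) (XT.lf (nat_lit 0) (nat_lit 17068235575) (nat_lit 76) (nat_lit 16856524933) (nat_lit 76) (nat_lit 2210160341) (nat_lit 12) (nat_lit 4) (nat_lit 13) (nat_lit 5) (nat_lit 13) (nat_lit 4) (nat_lit 373) (nat_lit 232) (nat_lit 175))) (XT.nd (nat_lit 78) (nat_lit 0) (nat_lit 0) (XT.lf (nat_lit 0) (nat_lit 1343737691) (nat_lit 152) (nat_lit 12015714373) (nat_lit 76) (nat_lit 23736110947) (nat_lit 11) (nat_lit 5) (nat_lit 13) (nat_lit 5) (nat_lit 12) (nat_lit 4)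 (nat_lit 374) (nat_lit 232) (nat_lit 174)) (XT.lf (nat_lit 0) (nat_lit 4927827157) (nat_lit 152) (nat_lit 4834320811) (nat_lit 76) (nat_lit 28323188486) (nat_lit 11) (nat_lit 5) (nat_lit 13) (nat_lit 5) (nat_lit 12) (nat_lit 4) (nat_lit 375) (nat_lit 232) (nat_lit 173)))))) (XT.nd (nat_lit 546) (nat_lit 152) (nat_lit 0) (XT.nd (nat_lit 234) (nat_lit 76) (nat_lit 0) (XT.nd (nat_lit 78) (nat_lit 0) (nat_lit 0) (XT.lf (nat_lit 0) (nat_lit 2554870554) (nat_lit 76) (nat_lit 6058056398) (nat_lit 152) (nat_lit 30492079669) (nat_lit 10) (nat_lit 5) (nat_lit 11) (nat_lit 5) (nat_lit 12) (nat_lit 4) (nat_lit 376) (nat_lit 232) (nat_lit 172)) (XT.nd (nat_lit 78) (nat_lit 0) (nat_lit 0) (XT.lf (nat_lit 0) (nat_lit 10207901482) (nat_lit 76) (nat_lit 2218781782) (nat_lit 152) (nat_lit 27728048434) (nat_lit 10) (nat_lit 5) (nat_lit 11) (nat_lit 5) (nat_lit 12) (nat_lit 4) (nat_lit 377) (nat_lit 232) (nat_lit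 171)) (XT.lf (nat_lit 0) (nat_lit 16341472818) (nat_lit 152) (nat_lit 23218043776) (nat_lit 0) (nat_lit 1676840999) (nat_lit 10) (nat_lit 5) (nat_lit 12) (nat_lit 4) (nat_lit 10) (nat_lit 4) (nat_lit 378) (nat_lit 232) (nat_lit 170)))) (XT.nd (nat_lit 156) (nat_lit 76) (nat_lit 0) (XT.nd (nat_lit 78) (nat_lit 0) (nat_lit 0) (XT.lf (nat_lit 0) (nat_lit 20366486059) (nat_lit 152) (nat_lit 16363666981) (nat_lit 0) (nat_lit 5620503284) (nat_lit 10) (nat_lit 5) (nat_lit 12) (nat_lit 4) (nat_lit 10) (nat_lit 4) (nat_lit 379) (nat_lit 232) (nat_lit 169)) (XT.lf (nat_lit 0) (nat_lit 24483911700) (nat_lit 152) (nat_lit 9356382280) (nat_lit 0) (nat_lit 9658947415) (nat_lit 10) (nat_lit 5) (nat_lit 12) (nat_lit 4) (nat_lit 10) (nat_lit 4) (nat_lit 380) (nat_lit 232) (nat_lit 168))) (XT.nd (nat_lit 78) (nat_lit 76) (nat_lit 0) (XT.lf (nat_lit 0) (nat_lit 28697347494) (nat_lit 152) (nat_lit 2190066804) (nat_lit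 0) (nat_lit 13795702131) (nat_lit 10) (nat_lit 5) (nat_lit 12) (nat_lit 4) (nat_lit 10) (nat_lit 4) (nat_lit 381) (nat_lit 232) (nat_lit 167)) (XT.lf (nat_lit 0) (nat_lit 5243868027) (nat_lit 76) (nat_lit 27817014322) (nat_lit 76) (nat_lit 12840921310) (nat_lit 9) (nat_lit 4) (nat_lit 10) (nat_lit 5) (nat_lit 10) (nat_lit 4) (nat_lit 382) (nat_lit 232) (nat_lit 166))))) (XT.nd (nat_lit 234) (nat_lit 152) (nat_lit 0) (XT.nd (nat_lit 78) (nat_lit 0) (nat_lit 0) (XT.lf (nat_lit 0) (nat_lit 12896505491) (nat_lit 76) (nat_lit 24654526826) (nat_lit 76) (nat_lit 9606154543) (nat_lit 9) (nat_lit 4) (nat_lit 10) (nat_lit 5) (nat_lit 10) (nat_lit 4) (nat_lit 383) (nat_lit 232) (nat_lit 165)) (XT.nd (nat_lit 78) (nat_lit 0) (nat_lit 0) (XT.lf (nat_lit 0) (nat_lit 20730945733) (nat_lit 76) (nat_lit 21419303852) (nat_lit 76) (nat_lit 6300757521) (nat_lit 9) (nat_lit 4) (nat_lit 10) (nat_lit 5) (nat_lit 10)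 (nat_lit 4) (nat_lit 384) (nat_lit 232) (nat_lit 164)) (XT.lf (nat_lit 0) (nat_lit 28754034381) (nat_lit 76) (nat_lit 18108518508) (nat_lit 76) (nat_lit 2921842032) (nat_lit 9) (nat_lit 4) (nat_lit 10) (nat_lit 5) (nat_lit 10) (nat_lit 4) (nat_lit 385) (nat_lit 232) (nat_lit 163)))) (XT.nd (nat_lit 156) (nat_lit 76) (nat_lit 0) (XT.nd (nat_lit 78) (nat_lit 0) (nat_lit 0) (XT.lf (nat_lit 0) (nat_lit 523133001) (nat_lit 152) (nat_lit 14190862255) (nat_lit 76) (nat_lit 36444366281) (nat_lit 8) (nat_lit 5) (nat_lit 10) (nat_lit 5) (nat_lit 9) (nat_lit 4) (nat_lit 386) (nat_lit 232) (nat_lit 162)) (XT.lf (nat_lit 0) (nat_lit 3989031419) (nat_lit 152) (nat_lit 7219307661) (nat_lit 76) (nat_lit 41365056905) (nat_lit 8) (nat_lit 5) (nat_lit 10) (nat_lit 5) (nat_lit 9) (nat_lit 4) (nat_lit 387) (nat_lit 232) (nat_lit 161))) (XT.nd (nat_lit 78) (nat_lit 76) (nat_lit 0) (XT.lf (nat_lit 0) (nat_lit 7535897340)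 (nat_lit 152) (nat_lit 81518576) (nat_lit 76) (nat_lit 46414161384) (nat_lit 8) (nat_lit 5) (nat_lit 10) (nat_lit 5) (nat_lit 9) (nat_lit 4) (nat_lit 388) (nat_lit 232) (nat_lit 160)) (XT.lf (nat_lit 0) (nat_lit 7372608040) (nat_lit 76) (nat_lit 3865091944) (nat_lit 152) (nat_lit 44294353536) (nat_lit 7) (nat_lit 5) (nat_lit 8) (nat_lit 5) (nat_lit 9) (nat_lit 4) (nat_lit 389) (nat_lit 232) (nat_lit 159))))))) (XT.nd (nat_lit 1092) (nat_lit 152) (nat_lit 0) (XT.nd (nat_lit 546) (nat_lit 76) (nat_lit 0) (XT.nd (nat_lit 234) (nat_lit 0) (nat_lit 0) (XT.nd (nat_lit 78) (nat_lit 0) (nat_lit 0) (XT.lf (nat_lit 0) (nat_lit 15010775680) (nat_lit 76) (nat_lit 18519033) (nat_lit 152) (nat_lit 42048892403) (nat_lit 7) (nat_lit 5) (nat_lit 8) (nat_lit 5) (nat_lit 9) (nat_lit 4) (nat_lit 390) (nat_lit 232) (nat_lit 158)) (XT.nd (nat_lit 78) (nat_lit 0) (nat_lit 0) (XT.lf (nat_lit 0) (nat_lit 18950923342) (nat_lit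 152) (nat_lit 35871044934) (nat_lit 0) (nat_lit 3848252942) (nat_lit 7) (nat_lit 5) (nat_lit 9) (nat_lit 4) (nat_lit 7) (nat_lit 4) (nat_lit 391) (nat_lit 232) (nat_lit 157)) (XT.lf (nat_lit 0) (nat_lit 22969393111) (nat_lit 152) (nat_lit 29528312249) (nat_lit 0) (nat_lit 7812940145) (nat_lit 7) (nat_lit 5) (nat_lit 9) (nat_lit 4) (nat_lit 7) (nat_lit 4) (nat_lit 392) (nat_lit 232) (nat_lit 156)))) (XT.nd (nat_lit 156) (nat_lit 0) (nat_lit 0) (XT.nd (nat_lit 78) (nat_lit 0) (nat_lit 0) (XT.lf (nat_lit 0) (nat_lit 27088037287) (nat_lit 152) (nat_lit 23033493172) (nat_lit 0) (nat_lit 11879368239) (nat_lit 7) (nat_lit 5) (nat_lit 9) (nat_lit 4) (nat_lit 7) (nat_lit 4) (nat_lit 393) (nat_lit 232) (nat_lit 155)) (XT.lf (nat_lit 0) (nat_lit 31310454688) (nat_lit 152) (nat_lit 16380912617) (nat_lit 0) (nat_lit 16051090413) (nat_lit 7) (nat_lit 5) (nat_lit 9) (nat_lit 4) (nat_lit 7) (nat_lit 4) (nat_lit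 394) (nat_lit 232) (nat_lit 154))) (XT.nd (nat_lit 78) (nat_lit 0) (nat_lit 0) (XT.lf (nat_lit 0) (nat_lit 35640334802) (nat_lit 152) (nat_lit 9564757651) (nat_lit 0) (nat_lit 20331751861) (nat_lit 7) (nat_lit 5) (nat_lit 9) (nat_lit 4) (nat_lit 7) (nat_lit 4) (nat_lit 395) (nat_lit 232) (nat_lit 153)) (XT.lf (nat_lit 0) (nat_lit 40081461022) (nat_lit 152) (nat_lit 2579072409) (nat_lit 0) (nat_lit 24725092968) (nat_lit 7) (nat_lit 5) (nat_lit 9) (nat_lit 4) (nat_lit 7) (nat_lit 4) (nat_lit 396) (nat_lit 232) (nat_lit 152))))) (XT.nd (nat_lit 234) (nat_lit 0) (nat_lit 0) (XT.nd (nat_lit 78) (nat_lit 0) (nat_lit 0) (XT.lf (nat_lit 0) (nat_lit 4673442806) (nat_lit 76) (nat_lit 40009195126) (nat_lit 76) (nat_lit 24606433759) (nat_lit 6) (nat_lit 4) (nat_lit 7) (nat_lit 5) (nat_lit 7) (nat_lit 4) (nat_lit 397) (nat_lit 232) (nat_lit 151)) (XT.nd (nat_lit 78) (nat_lit 0) (nat_lit 0) (XT.lf (nat_lit 0)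 (nat_lit 12162798358) (nat_lit 76) (nat_lit 37267192654) (nat_lit 76) (nat_lit 21819389235) (nat_lit 6) (nat_lit 4) (nat_lit 7) (nat_lit 5) (nat_lit 7) (nat_lit 4) (nat_lit 398) (nat_lit 232) (nat_lit 150)) (XT.lf (nat_lit 0) (nat_lit 19844209745) (nat_lit 76) (nat_lit 34458173664) (nat_lit 76) (nat_lit 18966640098) (nat_lit 6) (nat_lit 4) (nat_lit 7) (nat_lit 5) (nat_lit 7) (nat_lit 4) (nat_lit 399) (nat_lit 232) (nat_lit 149)))) (XT.nd (nat_lit 156) (nat_lit 0) (nat_lit 0) (XT.nd (nat_lit 78) (nat_lit 0) (nat_lit 0) (XT.lf (nat_lit 0) (nat_lit 27724388880) (nat_lit 76) (nat_lit 31579683673) (nat_lit 76) (nat_lit 16045693653) (nat_lit 6) (nat_lit 4) (nat_lit 7) (nat_lit 5) (nat_lit 7) (nat_lit 4) (nat_lit 400) (nat_lit 232) (nat_lit 148)) (XT.lf (nat_lit 0) (nat_lit 35810221356) (nat_lit 76) (nat_lit 28629207497) (nat_lit 76) (nat_lit 13053997619) (nat_lit 6) (nat_lit 4) (nat_lit 7) (nat_lit 5)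 (nat_lit 7) (nat_lit 4) (nat_lit 401) (nat_lit 232) (nat_lit 147))) (XT.nd (nat_lit 78) (nat_lit 0) (nat_lit 0) (XT.lf (nat_lit 0) (nat_lit 44108772464) (nat_lit 76) (nat_lit 25604167049) (nat_lit 76) (nat_lit 9988937891) (nat_lit 6) (nat_lit 4) (nat_lit 7) (nat_lit 5) (nat_lit 7) (nat_lit 4) (nat_lit 402) (nat_lit 232) (nat_lit 146)) (XT.lf (nat_lit 0) (nat_lit 52627293366) (nat_lit 76) (nat_lit 22501919089) (nat_lit 76) (nat_lit 6847836263) (nat_lit 6) (nat_lit 4) (nat_lit 7) (nat_lit 5) (nat_lit 7) (nat_lit 4) (nat_lit 403) (nat_lit 232) (nat_lit 145)))))) (XT.nd (nat_lit 546) (nat_lit 0) (nat_lit 0) (XT.nd (nat_lit 234) (nat_lit 76) (nat_lit 0) (XT.nd (nat_lit 78) (nat_lit 76) (nat_lit 0) (XT.lf (nat_lit 0) (nat_lit 61373227427) (nat_lit 76) (nat_lit 19319752917) (nat_lit 76) (nat_lit 3627948081) (nat_lit 6) (nat_lit 4) (nat_lit 7) (nat_lit 5) (nat_lit 7) (nat_lit 4) (nat_lit 404) (nat_lit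 232) (nat_lit 144)) (XT.nd (nat_lit 78) (nat_lit 76) (nat_lit 0) (XT.lf (nat_lit 0) (nat_lit 70354216728) (nat_lit 76) (nat_lit 16054887998) (nat_lit 76) (nat_lit 326459853) (nat_lit 6) (nat_lit 4) (nat_lit 7) (nat_lit 5) (nat_lit 7) (nat_lit 4) (nat_lit 405) (nat_lit 232) (nat_lit 143)) (XT.lf (nat_lit 0) (nat_lit 2999811095) (nat_lit 152) (nat_lit 9674368233) (nat_lit 76) (nat_lit 76548005429) (nat_lit 5) (nat_lit 5) (nat_lit 7) (nat_lit 5) (nat_lit 6) (nat_lit 4) (nat_lit 406) (nat_lit 232) (nat_lit 142)))) (XT.nd (nat_lit 156) (nat_lit 0) (nat_lit 0) (XT.nd (nat_lit 78) (nat_lit 76) (nat_lit 0) (XT.lf (nat_lit 0) (nat_lit 6405448760) (nat_lit 152) (nat_lit 2795444756) (nat_lit 76) (nat_lit 82582831925) (nat_lit 5) (nat_lit 5) (nat_lit 7) (nat_lit 5) (nat_lit 6) (nat_lit 4) (nat_lit 407) (nat_lit 232) (nat_lit 141)) (XT.lf (nat_lit 0) (nat_lit 4349444753) (nat_lit 76) (nat_lit 5592164118) (nat_lit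 152) (nat_lit 84479655858) (nat_lit 4) (nat_lit 5) (nat_lit 5) (nat_lit 5) (nat_lit 6) (nat_lit 4) (nat_lit 408) (nat_lit 232) (nat_lit 140))) (XT.nd (nat_lit 78) (nat_lit 0) (nat_lit 0) (XT.lf (nat_lit 0) (nat_lit 11740957614) (nat_lit 76) (nat_lit 1857819827) (nat_lit 152) (nat_lit 83538707941) (nat_lit 4) (nat_lit 5) (nat_lit 5) (nat_lit 5) (nat_lit 6) (nat_lit 4) (nat_lit 409) (nat_lit 232) (nat_lit 139)) (XT.lf (nat_lit 0) (nat_lit 17371749538) (nat_lit 152) (nat_lit 80624671193) (nat_lit 0) (nat_lit 1938592081) (nat_lit 4) (nat_lit 5) (nat_lit 6) (nat_lit 4) (nat_lit 4) (nat_lit 4) (nat_lit 410) (nat_lit 232) (nat_lit 138))))) (XT.nd (nat_lit 33228) (nat_lit 0) (nat_lit 4560) (XT.nd (nat_lit 33072) (nat_lit 0) (nat_lit 5396) (XT.lf (nat_lit 0) (nat_lit 21263657738) (nat_lit 152) (nat_lit 75751916472) (nat_lit 0) (nat_lit 5800722178) (nat_lit 4) (nat_lit 5) (nat_lit 6) (nat_lit 4) (nat_lit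 4) (nat_lit 4) (nat_lit 411) (nat_lit 232) (nat_lit 137)) (XT.nd (nat_lit 78) (nat_lit 0) (nat_lit 0) (XT.lf (nat_lit 0) (nat_lit 907950566) (nat_lit 304) (nat_lit 2073689056) (nat_lit 304) (nat_lit 2073689056) (nat_lit 75) (nat_lit 4) (nat_lit 79) (nat_lit 5) (nat_lit 79) (nat_lit 4) (nat_lit 314) (nat_lit 233) (nat_lit 233)) (XT.lf (nat_lit 0) (nat_lit 9062773774) (nat_lit 304) (nat_lit 998840822) (nat_lit 304) (nat_lit 206651541) (nat_lit 75) (nat_lit 4) (nat_lit 79) (nat_lit 5) (nat_lit 79) (nat_lit 4) (nat_lit 315) (nat_lit 233) (nat_lit 232)))) (XT.nd (nat_lit 156) (nat_lit 304) (nat_lit 0) (XT.nd (nat_lit 78) (nat_lit 228) (nat_lit 0) (XT.lf (nat_lit 0) (nat_lit 3764723794) (nat_lit 304) (nat_lit 4416315337) (nat_lit 0) (nat_lit 2248893613) (nat_lit 71) (nat_lit 5) (nat_lit 75) (nat_lit 4) (nat_lit 71) (nat_lit 4) (nat_lit 316) (nat_lit 233) (nat_lit 231)) (XT.lf (nat_lit 0) (nat_lit 2778249002)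 (nat_lit 228) (nat_lit 5030140966) (nat_lit 228) (nat_lit 2789345372) (nat_lit 68) (nat_lit 4) (nat_lit 71) (nat_lit 5) (nat_lit 71) (nat_lit 4) (nat_lit 317) (nat_lit 233) (nat_lit 230))) (XT.nd (nat_lit 78) (nat_lit 228) (nat_lit 0) (XT.lf (nat_lit 0) (nat_lit 1133135125) (nat_lit 304) (nat_lit 644381205) (nat_lit 76) (nat_lit 8994157115) (nat_lit 67) (nat_lit 5) (nat_lit 71) (nat_lit 5) (nat_lit 68) (nat_lit 4) (nat_lit 318) (nat_lit 233) (nat_lit 229)) (XT.lf (nat_lit 0) (nat_lit 5108722702) (nat_lit 304) (nat_lit 4255196907) (nat_lit 0) (nat_lit 1586397516) (nat_lit 64) (nat_lit 5) (nat_lit 68) (nat_lit 4) (nat_lit 64) (nat_lit 4) (nat_lit 319) (nat_lit 233) (nat_lit 228))))))))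
noncomputable def xc43 : XT := (XT.nd (nat_lit 2184) (nat_lit 1064) (nat_lit 0) (XT.nd (nat_lit 1092) (nat_lit 1064) (nat_lit 0) (XT.nd (nat_lit 546) (nat_lit 760) (nat_lit 0) (XT.nd (nat_lit 234) (nat_lit 684) (nat_lit 0) (XT.nd (nat_lit 78) (nat_lit 228) (nat_lit 0) (XT.lf (nat_lit 0) (nat_lit 3036453445) (nat_lit 228) (nat_lit 6132702967) (nat_lit 228) (nat_lit 1966255402) (nat_lit 61) (nat_lit 4) (nat_lit 64) (nat_lit 5) (nat_lit 64) (nat_lit 4) (nat_lit 320) (nat_lit 233) (nat_lit 227)) (XT.nd (nat_lit 78) (nat_lit 152) (nat_lit 0) (XT.lf (nat_lit 0) (nat_lit 1941756588) (nat_lit 304) (nat_lit 850043224) (nat_lit 76) (nat_lit 8535053089) (nat_lit 60) (nat_lit 5) (nat_lit 64) (nat_lit 5) (nat_lit 61) (nat_lit 4) (nat_lit 321) (nat_lit 233) (nat_lit 226)) (XT.lf (nat_lit 0) (nat_lit 5912500710) (nat_lit 228) (nat_lit 4940660525) (nat_lit 0) (nat_lit 670795644) (nat_lit 58) (nat_lit 5) (nat_lit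 61) (nat_lit 4) (nat_lit 58) (nat_lit 4) (nat_lit 322) (nat_lit 233) (nat_lit 225)))) (XT.nd (nat_lit 156) (nat_lit 380) (nat_lit 0) (XT.nd (nat_lit 78) (nat_lit 76) (nat_lit 0) (XT.lf (nat_lit 0) (nat_lit 2413565089) (nat_lit 228) (nat_lit 7564100923) (nat_lit 228) (nat_lit 1750101465) (nat_lit 55) (nat_lit 4) (nat_lit 58) (nat_lit 5) (nat_lit 58) (nat_lit 4) (nat_lit 323) (nat_lit 233) (nat_lit 224)) (XT.lf (nat_lit 0) (nat_lit 2150092638) (nat_lit 304) (nat_lit 2004937023) (nat_lit 76) (nat_lit 7783076220) (nat_lit 54) (nat_lit 5) (nat_lit 58) (nat_lit 5) (nat_lit 55) (nat_lit 4) (nat_lit 324) (nat_lit 233) (nat_lit 223))) (XT.nd (nat_lit 78) (nat_lit 228) (nat_lit 0) (XT.lf (nat_lit 0) (nat_lit 5480667520) (nat_lit 152) (nat_lit 622650190) (nat_lit 228) (nat_lit 6051828895) (nat_lit 52) (nat_lit 5) (nat_lit 54) (nat_lit 5) (nat_lit 55) (nat_lit 4) (nat_lit 325) (nat_lit 233) (nat_lit 222))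 (XT.lf (nat_lit 0) (nat_lit 705192279) (nat_lit 228) (nat_lit 9445300453) (nat_lit 228) (nat_lit 2228991840) (nat_lit 49) (nat_lit 4) (nat_lit 52) (nat_lit 5) (nat_lit 52) (nat_lit 4) (nat_lit 326) (nat_lit 233) (nat_lit 221))))) (XT.nd (nat_lit 234) (nat_lit 532) (nat_lit 0) (XT.nd (nat_lit 78) (nat_lit 152) (nat_lit 0) (XT.lf (nat_lit 0) (nat_lit 1668814224) (nat_lit 304) (nat_lit 4322281906) (nat_lit 76) (nat_lit 6619199078) (nat_lit 48) (nat_lit 5) (nat_lit 52) (nat_lit 5) (nat_lit 49) (nat_lit 4) (nat_lit 327) (nat_lit 233) (nat_lit 220)) (XT.nd (nat_lit 78) (nat_lit 0) (nat_lit 0) (XT.lf (nat_lit 0) (nat_lit 3160207314) (nat_lit 152) (nat_lit 2430664429) (nat_lit 228) (nat_lit 7257975471) (nat_lit 46) (nat_lit 5) (nat_lit 48) (nat_lit 5) (nat_lit 49) (nat_lit 4) (nat_lit 328) (nat_lit 233) (nat_lit 219)) (XT.lf (nat_lit 0) (nat_lit 9608849411) (nat_lit 228) (nat_lit 2280065222) (nat_lit 0)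 (nat_lit 1206334812) (nat_lit 46) (nat_lit 5) (nat_lit 49) (nat_lit 4) (nat_lit 46) (nat_lit 4) (nat_lit 329) (nat_lit 233) (nat_lit 218)))) (XT.nd (nat_lit 156) (nat_lit 304) (nat_lit 0) (XT.nd (nat_lit 78) (nat_lit 0) (nat_lit 0) (XT.lf (nat_lit 0) (nat_lit 390111416) (nat_lit 228) (nat_lit 8049204419) (nat_lit 76) (nat_lit 4909665235) (nat_lit 43) (nat_lit 5) (nat_lit 46) (nat_lit 5) (nat_lit 44) (nat_lit 4) (nat_lit 330) (nat_lit 233) (nat_lit 217)) (XT.lf (nat_lit 0) (nat_lit 4260871531) (nat_lit 228) (nat_lit 617402160) (nat_lit 76) (nat_lit 8732612497) (nat_lit 43) (nat_lit 5) (nat_lit 46) (nat_lit 5) (nat_lit 44) (nat_lit 4) (nat_lit 331) (nat_lit 233) (nat_lit 216))) (XT.nd (nat_lit 78) (nat_lit 152) (nat_lit 0) (XT.lf (nat_lit 0) (nat_lit 7051879848) (nat_lit 152) (nat_lit 1190626980) (nat_lit 228) (nat_lit 5638335860) (nat_lit 41) (nat_lit 5) (nat_lit 43) (nat_lit 5) (nat_lit 44) (nat_lit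 4) (nat_lit 332) (nat_lit 233) (nat_lit 215)) (XT.lf (nat_lit 0) (nat_lit 669527831) (nat_lit 152) (nat_lit 11639304269) (nat_lit 152) (nat_lit 1851144282) (nat_lit 39) (nat_lit 4) (nat_lit 41) (nat_lit 5) (nat_lit 41) (nat_lit 4) (nat_lit 333) (nat_lit 233) (nat_lit 214)))))) (XT.nd (nat_lit 546) (nat_lit 532) (nat_lit 0) (XT.nd (nat_lit 234) (nat_lit 304) (nat_lit 0) (XT.nd (nat_lit 78) (nat_lit 152) (nat_lit 0) (XT.lf (nat_lit 0) (nat_lit 2018733208) (nat_lit 228) (nat_lit 6068485586) (nat_lit 76) (nat_lit 6359435896) (nat_lit 38) (nat_lit 5) (nat_lit 41) (nat_lit 5) (nat_lit 39) (nat_lit 4) (nat_lit 334) (nat_lit 233) (nat_lit 213)) (XT.nd (nat_lit 78) (nat_lit 0) (nat_lit 0) (XT.lf (nat_lit 0) (nat_lit 1466169048) (nat_lit 152) (nat_lit 4445169395) (nat_lit 228) (nat_lit 8831762628) (nat_lit 36) (nat_lit 5) (nat_lit 38) (nat_lit 5) (nat_lit 39) (nat_lit 4) (nat_lit 335) (nat_lit 233) (nat_lit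 212)) (XT.lf (nat_lit 0) (nat_lit 9232190944) (nat_lit 152) (nat_lit 680456287) (nat_lit 228) (nat_lit 5136067593) (nat_lit 36) (nat_lit 5) (nat_lit 38) (nat_lit 5) (nat_lit 39) (nat_lit 4) (nat_lit 336) (nat_lit 233) (nat_lit 211)))) (XT.nd (nat_lit 156) (nat_lit 76) (nat_lit 0) (XT.nd (nat_lit 78) (nat_lit 76) (nat_lit 0) (XT.lf (nat_lit 0) (nat_lit 1754000772) (nat_lit 152) (nat_lit 12259790106) (nat_lit 152) (nat_lit 1350343062) (nat_lit 34) (nat_lit 4) (nat_lit 36) (nat_lit 5) (nat_lit 36) (nat_lit 4) (nat_lit 337) (nat_lit 233) (nat_lit 210)) (XT.lf (nat_lit 0) (nat_lit 2497636962) (nat_lit 228) (nat_lit 6165615504) (nat_lit 76) (nat_lit 7025104459) (nat_lit 33) (nat_lit 5) (nat_lit 36) (nat_lit 5) (nat_lit 34) (nat_lit 4) (nat_lit 338) (nat_lit 233) (nat_lit 209))) (XT.nd (nat_lit 78) (nat_lit 0) (nat_lit 0) (XT.lf (nat_lit 0) (nat_lit 1402235167) (nat_lit 76) (nat_lit 4979498445) (nat_lit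 152) (nat_lit 9641765566) (nat_lit 32) (nat_lit 5) (nat_lit 33) (nat_lit 5) (nat_lit 34) (nat_lit 4) (nat_lit 339) (nat_lit 233) (nat_lit 208)) (XT.lf (nat_lit 0) (nat_lit 9210632587) (nat_lit 76) (nat_lit 1169147259) (nat_lit 152) (nat_lit 5989020434) (nat_lit 32) (nat_lit 5) (nat_lit 33) (nat_lit 5) (nat_lit 34) (nat_lit 4) (nat_lit 340) (nat_lit 233) (nat_lit 207))))) (XT.nd (nat_lit 234) (nat_lit 304) (nat_lit 0) (XT.nd (nat_lit 78) (nat_lit 76) (nat_lit 0) (XT.lf (nat_lit 0) (nat_lit 399064286) (nat_lit 152) (nat_lit 14065632970) (nat_lit 152) (nat_lit 2260781850) (nat_lit 30) (nat_lit 4) (nat_lit 32) (nat_lit 5) (nat_lit 32) (nat_lit 4) (nat_lit 341) (nat_lit 233) (nat_lit 206)) (XT.nd (nat_lit 78) (nat_lit 0) (nat_lit 0) (XT.lf (nat_lit 0) (nat_lit 1569811076) (nat_lit 228) (nat_lit 8899665553) (nat_lit 76) (nat_lit 6622311536) (nat_lit 29) (nat_lit 5) (nat_lit 32) (nat_lit 5) (nat_lit 30)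 (nat_lit 4) (nat_lit 342) (nat_lit 233) (nat_lit 205)) (XT.lf (nat_lit 0) (nat_lit 5408474780) (nat_lit 228) (nat_lit 1380509221) (nat_lit 76) (nat_lit 10681297529) (nat_lit 29) (nat_lit 5) (nat_lit 32) (nat_lit 5) (nat_lit 30) (nat_lit 4) (nat_lit 343) (nat_lit 233) (nat_lit 204)))) (XT.nd (nat_lit 156) (nat_lit 228) (nat_lit 0) (XT.nd (nat_lit 78) (nat_lit 0) (nat_lit 0) (XT.lf (nat_lit 0) (nat_lit 6383929793) (nat_lit 76) (nat_lit 2980115877) (nat_lit 152) (nat_lit 8496055229) (nat_lit 28) (nat_lit 5) (nat_lit 29) (nat_lit 5) (nat_lit 30) (nat_lit 4) (nat_lit 344) (nat_lit 233) (nat_lit 203)) (XT.lf (nat_lit 0) (nat_lit 13402114226) (nat_lit 152) (nat_lit 3965993043) (nat_lit 0) (nat_lit 894615595) (nat_lit 28) (nat_lit 5) (nat_lit 30) (nat_lit 4) (nat_lit 28) (nat_lit 4) (nat_lit 345) (nat_lit 233) (nat_lit 202))) (XT.nd (nat_lit 78) (nat_lit 76) (nat_lit 0) (XT.lf (nat_lit 0) (nat_lit 3710254027)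 (nat_lit 152) (nat_lit 13858656908) (nat_lit 152) (nat_lit 1108307234) (nat_lit 26) (nat_lit 4) (nat_lit 28) (nat_lit 5) (nat_lit 28) (nat_lit 4) (nat_lit 346) (nat_lit 233) (nat_lit 201)) (XT.lf (nat_lit 0) (nat_lit 2685753537) (nat_lit 228) (nat_lit 7534047705) (nat_lit 76) (nat_lit 8884083721) (nat_lit 25) (nat_lit 5) (nat_lit 28) (nat_lit 5) (nat_lit 26) (nat_lit 4) (nat_lit 347) (nat_lit 233) (nat_lit 200))))))) (XT.nd (nat_lit 1092) (nat_lit 380) (nat_lit 0) (XT.nd (nat_lit 546) (nat_lit 304) (nat_lit 0) (XT.nd (nat_lit 234) (nat_lit 304) (nat_lit 0) (XT.nd (nat_lit 78) (nat_lit 0) (nat_lit 0) (XT.lf (nat_lit 0) (nat_lit 11798537) (nat_lit 76) (nat_lit 6503884380) (nat_lit 152) (nat_lit 13029030337) (nat_lit 24) (nat_lit 5) (nat_lit 25) (nat_lit 5) (nat_lit 26) (nat_lit 4) (nat_lit 348) (nat_lit 233) (nat_lit 199)) (XT.nd (nat_lit 78) (nat_lit 0) (nat_lit 0) (XT.lf (nat_lit 0) (nat_lit 7840119850)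 (nat_lit 76) (nat_lit 2641358347) (nat_lit 152) (nat_lit 9516678937) (nat_lit 24) (nat_lit 5) (nat_lit 25) (nat_lit 5) (nat_lit 26) (nat_lit 4) (nat_lit 349) (nat_lit 233) (nat_lit 198)) (XT.lf (nat_lit 0) (nat_lit 14525190456) (nat_lit 152) (nat_lit 4671463553) (nat_lit 0) (nat_lit 1269801234) (nat_lit 24) (nat_lit 5) (nat_lit 26) (nat_lit 4) (nat_lit 24) (nat_lit 4) (nat_lit 350) (nat_lit 233) (nat_lit 197)))) (XT.nd (nat_lit 156) (nat_lit 76) (nat_lit 0) (XT.nd (nat_lit 78) (nat_lit 76) (nat_lit 0) (XT.lf (nat_lit 0) (nat_lit 2977781456) (nat_lit 152) (nat_lit 15714869759) (nat_lit 152) (nat_lit 2256096612) (nat_lit 22) (nat_lit 4) (nat_lit 24) (nat_lit 5) (nat_lit 24) (nat_lit 4) (nat_lit 351) (nat_lit 233) (nat_lit 196)) (XT.lf (nat_lit 0) (nat_lit 1504984575) (nat_lit 228) (nat_lit 10601114581) (nat_lit 76) (nat_lit 9339121564) (nat_lit 21) (nat_lit 5) (nat_lit 24) (nat_lit 5) (nat_lit 22)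 (nat_lit 4) (nat_lit 352) (nat_lit 233) (nat_lit 195))) (XT.nd (nat_lit 78) (nat_lit 76) (nat_lit 0) (XT.lf (nat_lit 0) (nat_lit 5282836334) (nat_lit 228) (nat_lit 3123784365) (nat_lit 76) (nat_lit 13550835532) (nat_lit 21) (nat_lit 5) (nat_lit 24) (nat_lit 5) (nat_lit 22) (nat_lit 4) (nat_lit 353) (nat_lit 233) (nat_lit 194)) (XT.lf (nat_lit 0) (nat_lit 4578589621) (nat_lit 76) (nat_lit 4590206855) (nat_lit 152) (nat_lit 13316435714) (nat_lit 20) (nat_lit 5) (nat_lit 21) (nat_lit 5) (nat_lit 22) (nat_lit 4) (nat_lit 354) (nat_lit 233) (nat_lit 193))))) (XT.nd (nat_lit 234) (nat_lit 152) (nat_lit 0) (XT.nd (nat_lit 78) (nat_lit 152) (nat_lit 0) (XT.lf (nat_lit 0) (nat_lit 12488317268) (nat_lit 76) (nat_lit 665913509) (nat_lit 152) (nat_lit 9875139874) (nat_lit 20) (nat_lit 5) (nat_lit 21) (nat_lit 5) (nat_lit 22) (nat_lit 4) (nat_lit 355) (nat_lit 233) (nat_lit 192)) (XT.nd (nat_lit 78) (nat_lit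 152) (nat_lit 0) (XT.lf (nat_lit 0) (nat_lit 17244084602) (nat_lit 152) (nat_lit 3073213568) (nat_lit 0) (nat_lit 3273005017) (nat_lit 20) (nat_lit 5) (nat_lit 22) (nat_lit 4) (nat_lit 20) (nat_lit 4) (nat_lit 356) (nat_lit 233) (nat_lit 191)) (XT.lf (nat_lit 0) (nat_lit 4618439339) (nat_lit 152) (nat_lit 16842972753) (nat_lit 152) (nat_lit 2706523425) (nat_lit 18) (nat_lit 4) (nat_lit 20) (nat_lit 5) (nat_lit 20) (nat_lit 4) (nat_lit 357) (nat_lit 233) (nat_lit 190)))) (XT.nd (nat_lit 156) (nat_lit 76) (nat_lit 0) (XT.nd (nat_lit 78) (nat_lit 0) (nat_lit 0) (XT.lf (nat_lit 0) (nat_lit 1007234850) (nat_lit 228) (nat_lit 12252315730) (nat_lit 76) (nat_lit 11503503559) (nat_lit 17) (nat_lit 5) (nat_lit 20) (nat_lit 5) (nat_lit 18) (nat_lit 4) (nat_lit 358) (nat_lit 233) (nat_lit 189)) (XT.lf (nat_lit 0) (nat_lit 4733222788) (nat_lit 228) (nat_lit 4844437058) (nat_lit 76) (nat_lit 15798919967) (nat_lit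 17) (nat_lit 5) (nat_lit 20) (nat_lit 5) (nat_lit 18) (nat_lit 4) (nat_lit 359) (nat_lit 233) (nat_lit 188))) (XT.nd (nat_lit 78) (nat_lit 0) (nat_lit 0) (XT.lf (nat_lit 0) (nat_lit 2760496734) (nat_lit 76) (nat_lit 5793548977) (nat_lit 152) (nat_lit 17454987358) (nat_lit 16) (nat_lit 5) (nat_lit 17) (nat_lit 5) (nat_lit 18) (nat_lit 4) (nat_lit 360) (nat_lit 233) (nat_lit 187)) (XT.lf (nat_lit 0) (nat_lit 10614611262) (nat_lit 76) (nat_lit 1880835140) (nat_lit 152) (nat_lit 14164848004) (nat_lit 16) (nat_lit 5) (nat_lit 17) (nat_lit 5) (nat_lit 18) (nat_lit 4) (nat_lit 361) (nat_lit 233) (nat_lit 186)))))) (XT.nd (nat_lit 546) (nat_lit 152) (nat_lit 0) (XT.nd (nat_lit 234) (nat_lit 152) (nat_lit 0) (XT.nd (nat_lit 78) (nat_lit 76) (nat_lit 0) (XT.lf (nat_lit 0) (nat_lit 16533704817) (nat_lit 152) (nat_lit 8724332672) (nat_lit 0) (nat_lit 2073710322) (nat_lit 16) (nat_lit 5) (nat_lit 18) (nat_lit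 4) (nat_lit 16) (nat_lit 4) (nat_lit 362) (nat_lit 233) (nat_lit 185)) (XT.nd (nat_lit 78) (nat_lit 76) (nat_lit 0) (XT.lf (nat_lit 0) (nat_lit 20670913403) (nat_lit 152) (nat_lit 1276651493) (nat_lit 0) (nat_lit 6076458175) (nat_lit 16) (nat_lit 5) (nat_lit 18) (nat_lit 4) (nat_lit 16) (nat_lit 4) (nat_lit 363) (nat_lit 233) (nat_lit 184)) (XT.lf (nat_lit 0) (nat_lit 6447766967) (nat_lit 76) (nat_lit 18506820374) (nat_lit 76) (nat_lit 3781820743) (nat_lit 15) (nat_lit 4) (nat_lit 16) (nat_lit 5) (nat_lit 16) (nat_lit 4) (nat_lit 364) (nat_lit 233) (nat_lit 183)))) (XT.nd (nat_lit 156) (nat_lit 76) (nat_lit 0) (XT.nd (nat_lit 78) (nat_lit 76) (nat_lit 0) (XT.lf (nat_lit 0) (nat_lit 14358286682) (nat_lit 76) (nat_lit 14982209803) (nat_lit 76) (nat_lit 130468034) (nat_lit 15) (nat_lit 4) (nat_lit 16) (nat_lit 5) (nat_lit 16) (nat_lit 4) (nat_lit 365) (nat_lit 233) (nat_lit 182)) (XT.lf (nat_lit 0)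 (nat_lit 3521169115) (nat_lit 152) (nat_lit 7826819084) (nat_lit 76) (nat_lit 18879685866) (nat_lit 14) (nat_lit 5) (nat_lit 16) (nat_lit 5) (nat_lit 15) (nat_lit 4) (nat_lit 366) (nat_lit 233) (nat_lit 181))) (XT.nd (nat_lit 78) (nat_lit 76) (nat_lit 0) (XT.lf (nat_lit 0) (nat_lit 7242438472) (nat_lit 152) (nat_lit 392108910) (nat_lit 76) (nat_lit 23373628236) (nat_lit 14) (nat_lit 5) (nat_lit 16) (nat_lit 5) (nat_lit 15) (nat_lit 4) (nat_lit 367) (nat_lit 233) (nat_lit 180)) (XT.lf (nat_lit 0) (nat_lit 7342481428) (nat_lit 76) (nat_lit 3767236526) (nat_lit 152) (nat_lit 20701353426) (nat_lit 13) (nat_lit 5) (nat_lit 14) (nat_lit 5) (nat_lit 15) (nat_lit 4) (nat_lit 368) (nat_lit 233) (nat_lit 179))))) (XT.nd (nat_lit 234) (nat_lit 152) (nat_lit 0) (XT.nd (nat_lit 78) (nat_lit 0) (nat_lit 0) (XT.lf (nat_lit 0) (nat_lit 15063017225) (nat_lit 152) (nat_lit 17389487574) (nat_lit 0) (nat_lit 186459197)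 (nat_lit 13) (nat_lit 5) (nat_lit 15) (nat_lit 4) (nat_lit 13) (nat_lit 4) (nat_lit 369) (nat_lit 233) (nat_lit 178)) (XT.nd (nat_lit 78) (nat_lit 0) (nat_lit 0) (XT.lf (nat_lit 0) (nat_lit 19137191004) (nat_lit 152) (nat_lit 10199955420) (nat_lit 0) (nat_lit 4154488430) (nat_lit 13) (nat_lit 5) (nat_lit 15) (nat_lit 4) (nat_lit 13) (nat_lit 4) (nat_lit 370) (nat_lit 233) (nat_lit 177)) (XT.lf (nat_lit 0) (nat_lit 23299586268) (nat_lit 152) (nat_lit 2857498394) (nat_lit 0) (nat_lit 8213830737) (nat_lit 13) (nat_lit 5) (nat_lit 15) (nat_lit 4) (nat_lit 13) (nat_lit 4) (nat_lit 371) (nat_lit 233) (nat_lit 176)))) (XT.nd (nat_lit 156) (nat_lit 76) (nat_lit 0) (XT.nd (nat_lit 78) (nat_lit 0) (nat_lit 0) (XT.lf (nat_lit 0) (nat_lit 4736729903) (nat_lit 76) (nat_lit 22862642502) (nat_lit 76) (nat_lit 7676835557) (nat_lit 12) (nat_lit 4) (nat_lit 13) (nat_lit 5) (nat_lit 13) (nat_lit 4) (nat_lit 372)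 (nat_lit 233) (nat_lit 175)) (XT.lf (nat_lit 0) (nat_lit 12557025250) (nat_lit 76) (nat_lit 19467350248) (nat_lit 76) (nat_lit 4184406007) (nat_lit 12) (nat_lit 4) (nat_lit 13) (nat_lit 5) (nat_lit 13) (nat_lit 4) (nat_lit 373) (nat_lit 233) (nat_lit 174))) (XT.nd (nat_lit 78) (nat_lit 76) (nat_lit 0) (XT.lf (nat_lit 0) (nat_lit 20553351093) (nat_lit 76) (nat_lit 15997096271) (nat_lit 76) (nat_lit 619843977) (nat_lit 12) (nat_lit 4) (nat_lit 13) (nat_lit 5) (nat_lit 13) (nat_lit 4) (nat_lit 374) (nat_lit 233) (nat_lit 173)) (XT.lf (nat_lit 0) (nat_lit 2961034801) (nat_lit 152) (nat_lit 9457912864) (nat_lit 76) (nat_lit 25741759065) (nat_lit 11) (nat_lit 5) (nat_lit 13) (nat_lit 5) (nat_lit 12) (nat_lit 4) (nat_lit 375) (nat_lit 233) (nat_lit 172))))))))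
noncomputable def xc44 : XT := (XT.nd (nat_lit 2106) (nat_lit 152) (nat_lit 0) (XT.nd (nat_lit 1014) (nat_lit 152) (nat_lit 0) (XT.nd (nat_lit 468) (nat_lit 152) (nat_lit 0) (XT.nd (nat_lit 234) (nat_lit 0) (nat_lit 0) (XT.nd (nat_lit 78) (nat_lit 76) (nat_lit 0) (XT.lf (nat_lit 0) (nat_lit 6606715349) (nat_lit 152) (nat_lit 2146075737) (nat_lit 76) (nat_lit 30428772285) (nat_lit 11) (nat_lit 5) (nat_lit 13) (nat_lit 5) (nat_lit 12) (nat_lit 4) (nat_lit 376) (nat_lit 233) (nat_lit 171)) (XT.nd (nat_lit 78) (nat_lit 0) (nat_lit 0) (XT.lf (nat_lit 0) (nat_lit 5437014166) (nat_lit 76) (nat_lit 4947728341) (nat_lit 152) (nat_lit 29847621599) (nat_lit 10) (nat_lit 5) (nat_lit 11) (nat_lit 5) (nat_lit 12) (nat_lit 4) (nat_lit 377) (nat_lit 233) (nat_lit 170)) (XT.lf (nat_lit 0) (nat_lit 13237922503) (nat_lit 76) (nat_lit 1030908587) (nat_lit 152) (nat_lit 27046083616) (nat_lit 10) (nat_lit 5) (nat_lit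 11) (nat_lit 5) (nat_lit 12) (nat_lit 4) (nat_lit 378) (nat_lit 233) (nat_lit 169)))) (XT.nd (nat_lit 78) (nat_lit 0) (nat_lit 0) (XT.lf (nat_lit 0) (nat_lit 18269975003) (nat_lit 152) (nat_lit 21238677801) (nat_lit 0) (nat_lit 2921280279) (nat_lit 10) (nat_lit 5) (nat_lit 12) (nat_lit 4) (nat_lit 10) (nat_lit 4) (nat_lit 379) (nat_lit 233) (nat_lit 168)) (XT.nd (nat_lit 78) (nat_lit 0) (nat_lit 0) (XT.lf (nat_lit 0) (nat_lit 22373847631) (nat_lit 152) (nat_lit 14256608749) (nat_lit 0) (nat_lit 6948471829) (nat_lit 10) (nat_lit 5) (nat_lit 12) (nat_lit 4) (nat_lit 10) (nat_lit 4) (nat_lit 380) (nat_lit 233) (nat_lit 167)) (XT.lf (nat_lit 0) (nat_lit 26574125159) (nat_lit 152) (nat_lit 7114774485) (nat_lit 0) (nat_lit 11074301708) (nat_lit 10) (nat_lit 5) (nat_lit 12) (nat_lit 4) (nat_lit 10) (nat_lit 4) (nat_lit 381) (nat_lit 233) (nat_lit 166))))) (XT.nd (nat_lit 234) (nat_lit 76) (nat_lit 0)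 (XT.nd (nat_lit 78) (nat_lit 0) (nat_lit 0) (XT.lf (nat_lit 0) (nat_lit 196907807) (nat_lit 76) (nat_lit 30679462722) (nat_lit 76) (nat_lit 15107360001) (nat_lit 9) (nat_lit 4) (nat_lit 10) (nat_lit 5) (nat_lit 10) (nat_lit 4) (nat_lit 382) (nat_lit 233) (nat_lit 165)) (XT.nd (nat_lit 78) (nat_lit 0) (nat_lit 0) (XT.lf (nat_lit 0) (nat_lit 7826010126) (nat_lit 76) (nat_lit 27527881210) (nat_lit 76) (nat_lit 11885604440) (nat_lit 9) (nat_lit 4) (nat_lit 10) (nat_lit 5) (nat_lit 10) (nat_lit 4) (nat_lit 383) (nat_lit 233) (nat_lit 164)) (XT.lf (nat_lit 0) (nat_lit 15637600712) (nat_lit 76) (nat_lit 24303246571) (nat_lit 76) (nat_lit 8592839656) (nat_lit 9) (nat_lit 4) (nat_lit 10) (nat_lit 5) (nat_lit 10) (nat_lit 4) (nat_lit 384) (nat_lit 233) (nat_lit 163)))) (XT.nd (nat_lit 156) (nat_lit 76) (nat_lit 0) (XT.nd (nat_lit 78) (nat_lit 0) (nat_lit 0) (XT.lf (nat_lit 0) (nat_lit 23638505227) (nat_lit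 76) (nat_lit 21002741162) (nat_lit 76) (nat_lit 5226188476) (nat_lit 9) (nat_lit 4) (nat_lit 10) (nat_lit 5) (nat_lit 10) (nat_lit 4) (nat_lit 385) (nat_lit 233) (nat_lit 162)) (XT.lf (nat_lit 0) (nat_lit 31835714754) (nat_lit 76) (nat_lit 17623481048) (nat_lit 76) (nat_lit 1782709166) (nat_lit 9) (nat_lit 4) (nat_lit 10) (nat_lit 5) (nat_lit 10) (nat_lit 4) (nat_lit 386) (nat_lit 233) (nat_lit 161))) (XT.nd (nat_lit 78) (nat_lit 0) (nat_lit 0) (XT.lf (nat_lit 0) (nat_lit 1706641623) (nat_lit 152) (nat_lit 12438638119) (nat_lit 76) (nat_lit 38512516544) (nat_lit 8) (nat_lit 5) (nat_lit 10) (nat_lit 5) (nat_lit 9) (nat_lit 4) (nat_lit 387) (nat_lit 233) (nat_lit 160)) (XT.lf (nat_lit 0) (nat_lit 5242502976) (nat_lit 152) (nat_lit 5321372324) (nat_lit 76) (nat_lit 43552435092) (nat_lit 8) (nat_lit 5) (nat_lit 10) (nat_lit 5) (nat_lit 9) (nat_lit 4) (nat_lit 388) (nat_lit 233) (nat_lit 159)))))) (XT.nd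 (nat_lit 546) (nat_lit 76) (nat_lit 0) (XT.nd (nat_lit 234) (nat_lit 0) (nat_lit 0) (XT.nd (nat_lit 78) (nat_lit 0) (nat_lit 0) (XT.lf (nat_lit 0) (nat_lit 2008148846) (nat_lit 76) (nat_lit 6873906263) (nat_lit 152) (nat_lit 46736601594) (nat_lit 7) (nat_lit 5) (nat_lit 8) (nat_lit 5) (nat_lit 9) (nat_lit 4) (nat_lit 389) (nat_lit 233) (nat_lit 158)) (XT.nd (nat_lit 78) (nat_lit 0) (nat_lit 0) (XT.lf (nat_lit 0) (nat_lit 9626586311) (nat_lit 76) (nat_lit 3036501009) (nat_lit 152) (nat_lit 44502022358) (nat_lit 7) (nat_lit 5) (nat_lit 8) (nat_lit 5) (nat_lit 9) (nat_lit 4) (nat_lit 390) (nat_lit 233) (nat_lit 157)) (XT.lf (nat_lit 0) (nat_lit 16545364829) (nat_lit 152) (nat_lit 41332526204) (nat_lit 0) (nat_lit 880435709) (nat_lit 7) (nat_lit 5) (nat_lit 9) (nat_lit 4) (nat_lit 7) (nat_lit 4) (nat_lit 391) (nat_lit 233) (nat_lit 156)))) (XT.nd (nat_lit 156) (nat_lit 0) (nat_lit 0) (XT.nd (nat_lit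 78) (nat_lit 0) (nat_lit 0) (XT.lf (nat_lit 0) (nat_lit 20553795344) (nat_lit 152) (nat_lit 35008609080) (nat_lit 0) (nat_lit 4836650141) (nat_lit 7) (nat_lit 5) (nat_lit 9) (nat_lit 4) (nat_lit 7) (nat_lit 4) (nat_lit 392) (nat_lit 233) (nat_lit 155)) (XT.lf (nat_lit 0) (nat_lit 24662692673) (nat_lit 152) (nat_lit 28532057537) (nat_lit 0) (nat_lit 8894852244) (nat_lit 7) (nat_lit 5) (nat_lit 9) (nat_lit 4) (nat_lit 7) (nat_lit 4) (nat_lit 393) (nat_lit 233) (nat_lit 154))) (XT.nd (nat_lit 78) (nat_lit 0) (nat_lit 0) (XT.lf (nat_lit 0) (nat_lit 28875647114) (nat_lit 152) (nat_lit 21897212452) (nat_lit 0) (nat_lit 13058588019) (nat_lit 7) (nat_lit 5) (nat_lit 9) (nat_lit 4) (nat_lit 7) (nat_lit 4) (nat_lit 394) (nat_lit 233) (nat_lit 153)) (XT.lf (nat_lit 0) (nat_lit 33196339889) (nat_lit 152) (nat_lit 15098276389) (nat_lit 0) (nat_lit 17331495681) (nat_lit 7) (nat_lit 5) (nat_lit 9) (nat_lit 4)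 (nat_lit 7) (nat_lit 4) (nat_lit 395) (nat_lit 233) (nat_lit 152))))) (XT.nd (nat_lit 234) (nat_lit 0) (nat_lit 0) (XT.nd (nat_lit 78) (nat_lit 76) (nat_lit 0) (XT.lf (nat_lit 0) (nat_lit 37628546362) (nat_lit 152) (nat_lit 8129308529) (nat_lit 0) (nat_lit 21717308841) (nat_lit 7) (nat_lit 5) (nat_lit 9) (nat_lit 4) (nat_lit 7) (nat_lit 4) (nat_lit 396) (nat_lit 233) (nat_lit 151)) (XT.nd (nat_lit 78) (nat_lit 76) (nat_lit 0) (XT.lf (nat_lit 0) (nat_lit 42176139333) (nat_lit 152) (nat_lit 984219483) (nat_lit 0) (nat_lit 26219859761) (nat_lit 7) (nat_lit 5) (nat_lit 9) (nat_lit 4) (nat_lit 7) (nat_lit 4) (nat_lit 397) (nat_lit 233) (nat_lit 150)) (XT.lf (nat_lit 0) (nat_lit 6469476825) (nat_lit 76) (nat_lit 40435804173) (nat_lit 76) (nat_lit 24435794453) (nat_lit 6) (nat_lit 4) (nat_lit 7) (nat_lit 5) (nat_lit 7) (nat_lit 4) (nat_lit 398) (nat_lit 233) (nat_lit 149)))) (XT.nd (nat_lit 156) (nat_lit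 0) (nat_lit 0) (XT.nd (nat_lit 78) (nat_lit 0) (nat_lit 0) (XT.lf (nat_lit 0) (nat_lit 14135284963) (nat_lit 76) (nat_lit 37634075611) (nat_lit 76) (nat_lit 21591609437) (nat_lit 6) (nat_lit 4) (nat_lit 7) (nat_lit 5) (nat_lit 7) (nat_lit 4) (nat_lit 399) (nat_lit 233) (nat_lit 148)) (XT.lf (nat_lit 0) (nat_lit 22000315314) (nat_lit 76) (nat_lit 34762663706) (nat_lit 76) (nat_lit 18678977674) (nat_lit 6) (nat_lit 4) (nat_lit 7) (nat_lit 5) (nat_lit 7) (nat_lit 4) (nat_lit 400) (nat_lit 233) (nat_lit 147))) (XT.nd (nat_lit 78) (nat_lit 0) (nat_lit 0) (XT.lf (nat_lit 0) (nat_lit 30071440232) (nat_lit 76) (nat_lit 31819059457) (nat_lit 76) (nat_lit 15695354146) (nat_lit 6) (nat_lit 4) (nat_lit 7) (nat_lit 5) (nat_lit 7) (nat_lit 4) (nat_lit 401) (nat_lit 233) (nat_lit 146)) (XT.lf (nat_lit 0) (nat_lit 38355712158) (nat_lit 76) (nat_lit 28800690784) (nat_lit 76) (nat_lit 12638131803) (nat_lit 6) (nat_lit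 4) (nat_lit 7) (nat_lit 5) (nat_lit 7) (nat_lit 4) (nat_lit 402) (nat_lit 233) (nat_lit 145))))))) (XT.nd (nat_lit 33930) (nat_lit 0) (nat_lit 2964) (XT.nd (nat_lit 546) (nat_lit 0) (nat_lit 0) (XT.nd (nat_lit 234) (nat_lit 152) (nat_lit 0) (XT.nd (nat_lit 78) (nat_lit 0) (nat_lit 0) (XT.lf (nat_lit 0) (nat_lit 46860369775) (nat_lit 76) (nat_lit 25704920276) (nat_lit 76) (nat_lit 9504639286) (nat_lit 6) (nat_lit 4) (nat_lit 7) (nat_lit 5) (nat_lit 7) (nat_lit 4) (nat_lit 403) (nat_lit 233) (nat_lit 144)) (XT.nd (nat_lit 78) (nat_lit 0) (nat_lit 0) (XT.lf (nat_lit 0) (nat_lit 55592844338) (nat_lit 76) (nat_lit 22529042891) (nat_lit 76) (nat_lit 6292138591) (nat_lit 6) (nat_lit 4) (nat_lit 7) (nat_lit 5) (nat_lit 7) (nat_lit 4) (nat_lit 404) (nat_lit 233) (nat_lit 143)) (XT.lf (nat_lit 0) (nat_lit 64560766164) (nat_lit 76) (nat_lit 19270283591) (nat_lit 76) (nat_lit 2997822680) (nat_lit 6) (nat_lit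 4) (nat_lit 7) (nat_lit 5) (nat_lit 7) (nat_lit 4) (nat_lit 405) (nat_lit 233) (nat_lit 142)))) (XT.nd (nat_lit 156) (nat_lit 76) (nat_lit 0) (XT.nd (nat_lit 78) (nat_lit 0) (nat_lit 0) (XT.lf (nat_lit 0) (nat_lit 373748645) (nat_lit 152) (nat_lit 15548272142) (nat_lit 76) (nat_lit 73394448528) (nat_lit 5) (nat_lit 5) (nat_lit 7) (nat_lit 5) (nat_lit 6) (nat_lit 4) (nat_lit 406) (nat_lit 233) (nat_lit 141)) (XT.lf (nat_lit 0) (nat_lit 3772757637) (nat_lit 152) (nat_lit 8681799406) (nat_lit 76) (nat_lit 79423653286) (nat_lit 5) (nat_lit 5) (nat_lit 7) (nat_lit 5) (nat_lit 6) (nat_lit 4) (nat_lit 407) (nat_lit 233) (nat_lit 140))) (XT.nd (nat_lit 78) (nat_lit 76) (nat_lit 0) (XT.lf (nat_lit 0) (nat_lit 7260672619) (nat_lit 152) (nat_lit 1633871328) (nat_lit 76) (nat_lit 85622654450) (nat_lit 5) (nat_lit 5) (nat_lit 7) (nat_lit 5) (nat_lit 6) (nat_lit 4) (nat_lit 408) (nat_lit 233) (nat_lit 139))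 (XT.lf (nat_lit 0) (nat_lit 5713154701) (nat_lit 76) (nat_lit 5182304922) (nat_lit 152) (nat_lit 86338632259) (nat_lit 4) (nat_lit 5) (nat_lit 5) (nat_lit 5) (nat_lit 6) (nat_lit 4) (nat_lit 409) (nat_lit 233) (nat_lit 138))))) (XT.nd (nat_lit 33072) (nat_lit 0) (nat_lit 5092) (XT.nd (nat_lit 78) (nat_lit 0) (nat_lit 0) (XT.lf (nat_lit 0) (nat_lit 13290493727) (nat_lit 76) (nat_lit 1352754306) (nat_lit 152) (nat_lit 85389128136) (nat_lit 4) (nat_lit 5) (nat_lit 5) (nat_lit 5) (nat_lit 6) (nat_lit 4) (nat_lit 410) (nat_lit 233) (nat_lit 137)) (XT.nd (nat_lit 32916) (nat_lit 0) (nat_lit 6004) (XT.lf (nat_lit 0) (nat_lit 18516103988) (nat_lit 152) (nat_lit 81867537150) (nat_lit 0) (nat_lit 2530591479) (nat_lit 4) (nat_lit 5) (nat_lit 6) (nat_lit 4) (nat_lit 4) (nat_lit 4) (nat_lit 411) (nat_lit 233) (nat_lit 136)) (XT.lf (nat_lit 0) (nat_lit 3746622679) (nat_lit 304) (nat_lit 579469609) (nat_lit 304)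 (nat_lit 579469609) (nat_lit 83) (nat_lit 4) (nat_lit 87) (nat_lit 5) (nat_lit 87) (nat_lit 4) (nat_lit 312) (nat_lit 234) (nat_lit 234)))) (XT.nd (nat_lit 156) (nat_lit 304) (nat_lit 0) (XT.nd (nat_lit 78) (nat_lit 304) (nat_lit 0) (XT.lf (nat_lit 0) (nat_lit 2760281964) (nat_lit 304) (nat_lit 5254300239) (nat_lit 0) (nat_lit 1944327005) (nat_lit 79) (nat_lit 5) (nat_lit 83) (nat_lit 4) (nat_lit 79) (nat_lit 4) (nat_lit 313) (nat_lit 234) (nat_lit 233)) (XT.lf (nat_lit 0) (nat_lit 1745387450) (nat_lit 304) (nat_lit 4987421342) (nat_lit 304) (nat_lit 3379277103) (nat_lit 75) (nat_lit 4) (nat_lit 79) (nat_lit 5) (nat_lit 79) (nat_lit 4) (nat_lit 314) (nat_lit 234) (nat_lit 232))) (XT.nd (nat_lit 78) (nat_lit 228) (nat_lit 0) (XT.lf (nat_lit 0) (nat_lit 504940025) (nat_lit 380) (nat_lit 1352231794) (nat_lit 76) (nat_lit 8413761276) (nat_lit 74) (nat_lit 5) (nat_lit 79) (nat_lit 5) (nat_lit 75) (nat_lit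 4) (nat_lit 315) (nat_lit 234) (nat_lit 231)) (XT.lf (nat_lit 0) (nat_lit 4417462769) (nat_lit 304) (nat_lit 4632276787) (nat_lit 0) (nat_lit 1384477895) (nat_lit 71) (nat_lit 5) (nat_lit 75) (nat_lit 4) (nat_lit 71) (nat_lit 4) (nat_lit 316) (nat_lit 234) (nat_lit 230)))))) (XT.nd (nat_lit 546) (nat_lit 912) (nat_lit 0) (XT.nd (nat_lit 234) (nat_lit 684) (nat_lit 0) (XT.nd (nat_lit 78) (nat_lit 304) (nat_lit 0) (XT.lf (nat_lit 0) (nat_lit 2488804411) (nat_lit 228) (nat_lit 5925739876) (nat_lit 228) (nat_lit 2188905086) (nat_lit 68) (nat_lit 4) (nat_lit 71) (nat_lit 5) (nat_lit 71) (nat_lit 4) (nat_lit 317) (nat_lit 234) (nat_lit 229)) (XT.nd (nat_lit 78) (nat_lit 228) (nat_lit 0) (XT.lf (nat_lit 0) (nat_lit 1678228731) (nat_lit 304) (nat_lit 1013379897) (nat_lit 76) (nat_lit 8086944556) (nat_lit 67) (nat_lit 5) (nat_lit 71) (nat_lit 5) (nat_lit 68) (nat_lit 4) (nat_lit 318) (nat_lit 234) (nat_lit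 228)) (XT.lf (nat_lit 0) (nat_lit 5598134501) (nat_lit 304) (nat_lit 4698190777) (nat_lit 0) (nat_lit 662571130) (nat_lit 64) (nat_lit 5) (nat_lit 68) (nat_lit 4) (nat_lit 64) (nat_lit 4) (nat_lit 319) (nat_lit 234) (nat_lit 227)))) (XT.nd (nat_lit 156) (nat_lit 380) (nat_lit 0) (XT.nd (nat_lit 78) (nat_lit 76) (nat_lit 0) (XT.lf (nat_lit 0) (nat_lit 2516828812) (nat_lit 228) (nat_lit 7094762371) (nat_lit 228) (nat_lit 1533837466) (nat_lit 61) (nat_lit 4) (nat_lit 64) (nat_lit 5) (nat_lit 64) (nat_lit 4) (nat_lit 320) (nat_lit 234) (nat_lit 226)) (XT.lf (nat_lit 0) (nat_lit 2323907599) (nat_lit 304) (nat_lit 1450539598) (nat_lit 76) (nat_lit 7563579327) (nat_lit 60) (nat_lit 5) (nat_lit 64) (nat_lit 5) (nat_lit 61) (nat_lit 4) (nat_lit 321) (nat_lit 234) (nat_lit 225))) (XT.nd (nat_lit 78) (nat_lit 228) (nat_lit 0) (XT.lf (nat_lit 0) (nat_lit 5911578311) (nat_lit 152) (nat_lit 329364328) (nat_lit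 228) (nat_lit 5295824981) (nat_lit 58) (nat_lit 5) (nat_lit 60) (nat_lit 5) (nat_lit 61) (nat_lit 4) (nat_lit 322) (nat_lit 234) (nat_lit 224)) (XT.lf (nat_lit 0) (nat_lit 1652230280) (nat_lit 228) (nat_lit 8603117644) (nat_lit 228) (nat_lit 1486778188) (nat_lit 55) (nat_lit 4) (nat_lit 58) (nat_lit 5) (nat_lit 58) (nat_lit 4) (nat_lit 323) (nat_lit 234) (nat_lit 223))))) (XT.nd (nat_lit 234) (nat_lit 684) (nat_lit 0) (XT.nd (nat_lit 78) (nat_lit 152) (nat_lit 0) (XT.lf (nat_lit 0) (nat_lit 2368138083) (nat_lit 304) (nat_lit 2848461498) (nat_lit 76) (nat_lit 6737016833) (nat_lit 54) (nat_lit 5) (nat_lit 58) (nat_lit 5) (nat_lit 55) (nat_lit 4) (nat_lit 324) (nat_lit 234) (nat_lit 222)) (XT.nd (nat_lit 78) (nat_lit 0) (nat_lit 0) (XT.lf (nat_lit 0) (nat_lit 4555695639) (nat_lit 152) (nat_lit 1717805782) (nat_lit 228) (nat_lit 5898614533) (nat_lit 52) (nat_lit 5) (nat_lit 54) (nat_lit 5) (nat_lit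 55) (nat_lit 4) (nat_lit 325) (nat_lit 234) (nat_lit 221)) (XT.lf (nat_lit 0) (nat_lit 10264697726) (nat_lit 228) (nat_lit 303700318) (nat_lit 0) (nat_lit 1829757532) (nat_lit 52) (nat_lit 5) (nat_lit 55) (nat_lit 4) (nat_lit 52) (nat_lit 4) (nat_lit 326) (nat_lit 234) (nat_lit 220)))) (XT.nd (nat_lit 156) (nat_lit 228) (nat_lit 0) (XT.nd (nat_lit 78) (nat_lit 152) (nat_lit 0) (XT.lf (nat_lit 0) (nat_lit 1720925321) (nat_lit 304) (nat_lit 5420749334) (nat_lit 76) (nat_lit 5488531783) (nat_lit 48) (nat_lit 5) (nat_lit 52) (nat_lit 5) (nat_lit 49) (nat_lit 4) (nat_lit 327) (nat_lit 234) (nat_lit 219)) (XT.lf (nat_lit 0) (nat_lit 1976623101) (nat_lit 152) (nat_lit 3617553524) (nat_lit 228) (nat_lit 7276066408) (nat_lit 46) (nat_lit 5) (nat_lit 48) (nat_lit 5) (nat_lit 49) (nat_lit 4) (nat_lit 328) (nat_lit 234) (nat_lit 218))) (XT.nd (nat_lit 78) (nat_lit 228) (nat_lit 0) (XT.lf (nat_lit 0) (nat_lit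 9563580782) (nat_lit 228) (nat_lit 3535941225) (nat_lit 0) (nat_lit 18600271) (nat_lit 46) (nat_lit 5) (nat_lit 49) (nat_lit 4) (nat_lit 46) (nat_lit 4) (nat_lit 329) (nat_lit 234) (nat_lit 217)) (XT.lf (nat_lit 0) (nat_lit 273808257) (nat_lit 228) (nat_lit 9414990522) (nat_lit 76) (nat_lit 3684578188) (nat_lit 43) (nat_lit 5) (nat_lit 46) (nat_lit 5) (nat_lit 44) (nat_lit 4) (nat_lit 330) (nat_lit 234) (nat_lit 216))))))))
noncomputable def xc45 : XT := (XT.nd (nat_lit 2184) (nat_lit 684) (nat_lit 0) (XT.nd (nat_lit 1092) (nat_lit 760) (nat_lit 0) (XT.nd (nat_lit 546) (nat_lit 608) (nat_lit 0) (XT.nd (nat_lit 234) (nat_lit 380) (nat_lit 0) (XT.nd (nat_lit 78) (nat_lit 152) (nat_lit 0) (XT.lf (nat_lit 0) (nat_lit 4108590735) (nat_lit 228) (nat_lit 2043819737) (nat_lit 76) (nat_lit 7483969070) (nat_lit 43) (nat_lit 5) (nat_lit 46) (nat_lit 5) (nat_lit 44) (nat_lit 4) (nat_lit 331) (nat_lit 234)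 (nat_lit 215)) (XT.nd (nat_lit 78) (nat_lit 0) (nat_lit 0) (XT.lf (nat_lit 0) (nat_lit 5537036716) (nat_lit 152) (nat_lit 2503697972) (nat_lit 228) (nat_lit 5867103693) (nat_lit 41) (nat_lit 5) (nat_lit 43) (nat_lit 5) (nat_lit 44) (nat_lit 4) (nat_lit 332) (nat_lit 234) (nat_lit 214)) (XT.lf (nat_lit 0) (nat_lit 12053300399) (nat_lit 228) (nat_lit 931864582) (nat_lit 0) (nat_lit 1203436967) (nat_lit 41) (nat_lit 5) (nat_lit 44) (nat_lit 4) (nat_lit 41) (nat_lit 4) (nat_lit 333) (nat_lit 234) (nat_lit 213)))) (XT.nd (nat_lit 156) (nat_lit 152) (nat_lit 0) (XT.nd (nat_lit 78) (nat_lit 0) (nat_lit 0) (XT.lf (nat_lit 0) (nat_lit 1696285560) (nat_lit 228) (nat_lit 7773737737) (nat_lit 76) (nat_lit 5006670071) (nat_lit 38) (nat_lit 5) (nat_lit 41) (nat_lit 5) (nat_lit 39) (nat_lit 4) (nat_lit 334) (nat_lit 234) (nat_lit 212)) (XT.lf (nat_lit 0) (nat_lit 5541196178) (nat_lit 228) (nat_lit 325204125)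 (nat_lit 76) (nat_lit 8908185920) (nat_lit 38) (nat_lit 5) (nat_lit 41) (nat_lit 5) (nat_lit 39) (nat_lit 4) (nat_lit 335) (nat_lit 234) (nat_lit 211))) (XT.nd (nat_lit 78) (nat_lit 0) (nat_lit 0) (XT.lf (nat_lit 0) (nat_lit 7377398618) (nat_lit 152) (nat_lit 2128748428) (nat_lit 228) (nat_lit 5575158849) (nat_lit 36) (nat_lit 5) (nat_lit 38) (nat_lit 5) (nat_lit 39) (nat_lit 4) (nat_lit 336) (nat_lit 234) (nat_lit 210)) (XT.lf (nat_lit 0) (nat_lit 13544082851) (nat_lit 228) (nat_lit 209734871) (nat_lit 0) (nat_lit 1644818263) (nat_lit 36) (nat_lit 5) (nat_lit 39) (nat_lit 4) (nat_lit 36) (nat_lit 4) (nat_lit 337) (nat_lit 234) (nat_lit 209))))) (XT.nd (nat_lit 234) (nat_lit 304) (nat_lit 0) (XT.nd (nat_lit 78) (nat_lit 76) (nat_lit 0) (XT.lf (nat_lit 0) (nat_lit 1968843764) (nat_lit 228) (nat_lit 8219377275) (nat_lit 76) (nat_lit 5535829892) (nat_lit 33) (nat_lit 5) (nat_lit 36) (nat_lit 5) (nat_lit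 34) (nat_lit 4) (nat_lit 338) (nat_lit 234) (nat_lit 208)) (XT.nd (nat_lit 78) (nat_lit 76) (nat_lit 0) (XT.lf (nat_lit 0) (nat_lit 5808057877) (nat_lit 228) (nat_lit 733409061) (nat_lit 76) (nat_lit 9519086210) (nat_lit 33) (nat_lit 5) (nat_lit 36) (nat_lit 5) (nat_lit 34) (nat_lit 4) (nat_lit 339) (nat_lit 234) (nat_lit 207)) (XT.lf (nat_lit 0) (nat_lit 7006406788) (nat_lit 76) (nat_lit 2761499365) (nat_lit 152) (nat_lit 6639107131) (nat_lit 32) (nat_lit 5) (nat_lit 33) (nat_lit 5) (nat_lit 34) (nat_lit 4) (nat_lit 340) (nat_lit 234) (nat_lit 206)))) (XT.nd (nat_lit 156) (nat_lit 76) (nat_lit 0) (XT.nd (nat_lit 78) (nat_lit 228) (nat_lit 0) (XT.lf (nat_lit 0) (nat_lit 13803361873) (nat_lit 152) (nat_lit 1888969348) (nat_lit 0) (nat_lit 1072857455) (nat_lit 32) (nat_lit 5) (nat_lit 34) (nat_lit 4) (nat_lit 32) (nat_lit 4) (nat_lit 341) (nat_lit 234) (nat_lit 205)) (XT.lf (nat_lit 0) (nat_lit 833493351)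 (nat_lit 228) (nat_lit 11311843901) (nat_lit 76) (nat_lit 4987843213) (nat_lit 29) (nat_lit 5) (nat_lit 32) (nat_lit 5) (nat_lit 30) (nat_lit 4) (nat_lit 342) (nat_lit 234) (nat_lit 204))) (XT.nd (nat_lit 78) (nat_lit 76) (nat_lit 0) (XT.lf (nat_lit 0) (nat_lit 4642788108) (nat_lit 228) (nat_lit 3844345437) (nat_lit 76) (nat_lit 9025432990) (nat_lit 29) (nat_lit 5) (nat_lit 32) (nat_lit 5) (nat_lit 30) (nat_lit 4) (nat_lit 343) (nat_lit 234) (nat_lit 203)) (XT.lf (nat_lit 0) (nat_lit 3819906987) (nat_lit 76) (nat_lit 4725291513) (nat_lit 152) (nat_lit 9358793515) (nat_lit 28) (nat_lit 5) (nat_lit 29) (nat_lit 5) (nat_lit 30) (nat_lit 4) (nat_lit 344) (nat_lit 234) (nat_lit 202)))))) (XT.nd (nat_lit 546) (nat_lit 456) (nat_lit 0) (XT.nd (nat_lit 234) (nat_lit 76) (nat_lit 0) (XT.nd (nat_lit 78) (nat_lit 228) (nat_lit 0) (XT.lf (nat_lit 0) (nat_lit 11692079309) (nat_lit 76) (nat_lit 854256578) (nat_lit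 152) (nat_lit 5761396995) (nat_lit 28) (nat_lit 5) (nat_lit 29) (nat_lit 5) (nat_lit 30) (nat_lit 4) (nat_lit 345) (nat_lit 234) (nat_lit 201)) (XT.nd (nat_lit 78) (nat_lit 76) (nat_lit 0) (XT.lf (nat_lit 0) (nat_lit 966417693) (nat_lit 152) (nat_lit 15684586950) (nat_lit 152) (nat_lit 2073098031) (nat_lit 26) (nat_lit 4) (nat_lit 28) (nat_lit 5) (nat_lit 28) (nat_lit 4) (nat_lit 346) (nat_lit 234) (nat_lit 200)) (XT.lf (nat_lit 0) (nat_lit 1712306155) (nat_lit 228) (nat_lit 10364417823) (nat_lit 76) (nat_lit 7075158245) (nat_lit 25) (nat_lit 5) (nat_lit 28) (nat_lit 5) (nat_lit 26) (nat_lit 4) (nat_lit 347) (nat_lit 234) (nat_lit 199)))) (XT.nd (nat_lit 156) (nat_lit 0) (nat_lit 0) (XT.nd (nat_lit 78) (nat_lit 76) (nat_lit 0) (XT.lf (nat_lit 0) (nat_lit 5515439472) (nat_lit 228) (nat_lit 2866300297) (nat_lit 76) (nat_lit 11211784372) (nat_lit 25) (nat_lit 5) (nat_lit 28) (nat_lit 5) (nat_lit 26)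 (nat_lit 4) (nat_lit 348) (nat_lit 234) (nat_lit 198)) (XT.lf (nat_lit 0) (nat_lit 4857943207) (nat_lit 76) (nat_lit 4568832969) (nat_lit 152) (nat_lit 10621835063) (nat_lit 24) (nat_lit 5) (nat_lit 25) (nat_lit 5) (nat_lit 26) (nat_lit 4) (nat_lit 349) (nat_lit 234) (nat_lit 197))) (XT.nd (nat_lit 78) (nat_lit 0) (nat_lit 0) (XT.lf (nat_lit 0) (nat_lit 12779974624) (nat_lit 76) (nat_lit 652474882) (nat_lit 152) (nat_lit 7085610194) (nat_lit 24) (nat_lit 5) (nat_lit 25) (nat_lit 5) (nat_lit 26) (nat_lit 4) (nat_lit 350) (nat_lit 234) (nat_lit 196)) (XT.lf (nat_lit 0) (nat_lit 17539982129) (nat_lit 152) (nat_lit 185575178) (nat_lit 0) (nat_lit 3276601740) (nat_lit 24) (nat_lit 5) (nat_lit 26) (nat_lit 4) (nat_lit 24) (nat_lit 4) (nat_lit 351) (nat_lit 234) (nat_lit 195))))) (XT.nd (nat_lit 234) (nat_lit 152) (nat_lit 0) (XT.nd (nat_lit 78) (nat_lit 76) (nat_lit 0) (XT.lf (nat_lit 0) (nat_lit 295618336)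 (nat_lit 228) (nat_lit 13854984020) (nat_lit 76) (nat_lit 7349190422) (nat_lit 21) (nat_lit 5) (nat_lit 24) (nat_lit 5) (nat_lit 22) (nat_lit 4) (nat_lit 352) (nat_lit 234) (nat_lit 194)) (XT.nd (nat_lit 78) (nat_lit 76) (nat_lit 0) (XT.lf (nat_lit 0) (nat_lit 4049214247) (nat_lit 228) (nat_lit 6421309425) (nat_lit 76) (nat_lit 11542240455) (nat_lit 21) (nat_lit 5) (nat_lit 24) (nat_lit 5) (nat_lit 22) (nat_lit 4) (nat_lit 353) (nat_lit 234) (nat_lit 193)) (XT.lf (nat_lit 0) (nat_lit 1172209723) (nat_lit 76) (nat_lit 6706671091) (nat_lit 152) (nat_lit 14663356003) (nat_lit 20) (nat_lit 5) (nat_lit 21) (nat_lit 5) (nat_lit 22) (nat_lit 4) (nat_lit 354) (nat_lit 234) (nat_lit 192)))) (XT.nd (nat_lit 156) (nat_lit 152) (nat_lit 0) (XT.nd (nat_lit 78) (nat_lit 0) (nat_lit 0) (XT.lf (nat_lit 0) (nat_lit 9039968802) (nat_lit 76) (nat_lit 2801079421) (nat_lit 152) (nat_lit 11246032754) (nat_lit 20) (nat_lit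 5) (nat_lit 21) (nat_lit 5) (nat_lit 22) (nat_lit 4) (nat_lit 355) (nat_lit 234) (nat_lit 191)) (XT.lf (nat_lit 0) (nat_lit 15887613775) (nat_lit 152) (nat_lit 6600004629) (nat_lit 0) (nat_lit 1161701224) (nat_lit 20) (nat_lit 5) (nat_lit 22) (nat_lit 4) (nat_lit 20) (nat_lit 4) (nat_lit 356) (nat_lit 234) (nat_lit 190))) (XT.nd (nat_lit 78) (nat_lit 0) (nat_lit 0) (XT.lf (nat_lit 0) (nat_lit 980605908) (nat_lit 152) (nat_lit 19067265548) (nat_lit 152) (nat_lit 4180799848) (nat_lit 18) (nat_lit 4) (nat_lit 20) (nat_lit 5) (nat_lit 20) (nat_lit 4) (nat_lit 357) (nat_lit 234) (nat_lit 189)) (XT.lf (nat_lit 0) (nat_lit 8843413636) (nat_lit 152) (nat_lit 15511838633) (nat_lit 152) (nat_lit 469496090) (nat_lit 18) (nat_lit 4) (nat_lit 20) (nat_lit 5) (nat_lit 20) (nat_lit 4) (nat_lit 358) (nat_lit 234) (nat_lit 188))))))) (XT.nd (nat_lit 1092) (nat_lit 228) (nat_lit 0) (XT.nd (nat_lit 546) (nat_lit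 228) (nat_lit 0) (XT.nd (nat_lit 234) (nat_lit 76) (nat_lit 0) (XT.nd (nat_lit 78) (nat_lit 76) (nat_lit 0) (XT.lf (nat_lit 0) (nat_lit 3244234572) (nat_lit 228) (nat_lit 8607883102) (nat_lit 76) (nat_lit 13586940953) (nat_lit 17) (nat_lit 5) (nat_lit 20) (nat_lit 5) (nat_lit 18) (nat_lit 4) (nat_lit 359) (nat_lit 234) (nat_lit 187)) (XT.nd (nat_lit 78) (nat_lit 76) (nat_lit 0) (XT.lf (nat_lit 0) (nat_lit 7017726925) (nat_lit 228) (nat_lit 1094622500) (nat_lit 76) (nat_lit 17960588817) (nat_lit 17) (nat_lit 5) (nat_lit 20) (nat_lit 5) (nat_lit 18) (nat_lit 4) (nat_lit 360) (nat_lit 234) (nat_lit 186)) (XT.lf (nat_lit 0) (nat_lit 6700271584) (nat_lit 76) (nat_lit 4227575281) (nat_lit 152) (nat_lit 15797297392) (nat_lit 16) (nat_lit 5) (nat_lit 17) (nat_lit 5) (nat_lit 18) (nat_lit 4) (nat_lit 361) (nat_lit 234) (nat_lit 185)))) (XT.nd (nat_lit 156) (nat_lit 76) (nat_lit 0) (XT.nd (nat_lit 78) (nat_lit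 0) (nat_lit 0) (XT.lf (nat_lit 0) (nat_lit 14677670908) (nat_lit 76) (nat_lit 248153237) (nat_lit 152) (nat_lit 12471988021) (nat_lit 16) (nat_lit 5) (nat_lit 17) (nat_lit 5) (nat_lit 18) (nat_lit 4) (nat_lit 362) (nat_lit 234) (nat_lit 184)) (XT.lf (nat_lit 0) (nat_lit 19041124777) (nat_lit 152) (nat_lit 5305795030) (nat_lit 0) (nat_lit 3743830755) (nat_lit 16) (nat_lit 5) (nat_lit 18) (nat_lit 4) (nat_lit 16) (nat_lit 4) (nat_lit 363) (nat_lit 234) (nat_lit 183))) (XT.nd (nat_lit 78) (nat_lit 0) (nat_lit 0) (XT.lf (nat_lit 0) (nat_lit 2303065424) (nat_lit 76) (nat_lit 20962937948) (nat_lit 76) (nat_lit 5538901787) (nat_lit 15) (nat_lit 4) (nat_lit 16) (nat_lit 5) (nat_lit 16) (nat_lit 4) (nat_lit 364) (nat_lit 234) (nat_lit 182)) (XT.lf (nat_lit 0) (nat_lit 10179245187) (nat_lit 76) (nat_lit 17453935352) (nat_lit 76) (nat_lit 1906848571) (nat_lit 15) (nat_lit 4) (nat_lit 16) (nat_lit 5) (nat_lit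 16) (nat_lit 4) (nat_lit 365) (nat_lit 234) (nat_lit 181))))) (XT.nd (nat_lit 234) (nat_lit 76) (nat_lit 0) (XT.nd (nat_lit 78) (nat_lit 76) (nat_lit 0) (XT.lf (nat_lit 0) (nat_lit 1761080422) (nat_lit 152) (nat_lit 12091560144) (nat_lit 76) (nat_lit 16445166751) (nat_lit 14) (nat_lit 5) (nat_lit 16) (nat_lit 5) (nat_lit 15) (nat_lit 4) (nat_lit 366) (nat_lit 234) (nat_lit 180)) (XT.nd (nat_lit 78) (nat_lit 76) (nat_lit 0) (XT.lf (nat_lit 0) (nat_lit 5464513139) (nat_lit 152) (nat_lit 4689578738) (nat_lit 76) (nat_lit 20924757177) (nat_lit 14) (nat_lit 5) (nat_lit 16) (nat_lit 5) (nat_lit 15) (nat_lit 4) (nat_lit 367) (nat_lit 234) (nat_lit 179)) (XT.lf (nat_lit 0) (nat_lit 2927075627) (nat_lit 76) (nat_lit 6344956287) (nat_lit 152) (nat_lit 22611510660) (nat_lit 13) (nat_lit 5) (nat_lit 14) (nat_lit 5) (nat_lit 15) (nat_lit 4) (nat_lit 368) (nat_lit 234) (nat_lit 178)))) (XT.nd (nat_lit 156) (nat_lit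 76) (nat_lit 0) (XT.nd (nat_lit 78) (nat_lit 0) (nat_lit 0) (XT.lf (nat_lit 0) (nat_lit 10804489516) (nat_lit 76) (nat_lit 2401898443) (nat_lit 152) (nat_lit 19505620321) (nat_lit 13) (nat_lit 5) (nat_lit 14) (nat_lit 5) (nat_lit 15) (nat_lit 4) (nat_lit 369) (nat_lit 234) (nat_lit 177)) (XT.lf (nat_lit 0) (nat_lit 17240722616) (nat_lit 152) (nat_lit 14725814888) (nat_lit 0) (nat_lit 1599341463) (nat_lit 13) (nat_lit 5) (nat_lit 15) (nat_lit 4) (nat_lit 13) (nat_lit 4) (nat_lit 370) (nat_lit 234) (nat_lit 176))) (XT.nd (nat_lit 78) (nat_lit 76) (nat_lit 0) (XT.lf (nat_lit 0) (nat_lit 21386855156) (nat_lit 152) (nat_lit 7413374168) (nat_lit 0) (nat_lit 5645422588) (nat_lit 13) (nat_lit 5) (nat_lit 15) (nat_lit 4) (nat_lit 13) (nat_lit 4) (nat_lit 371) (nat_lit 234) (nat_lit 175)) (XT.lf (nat_lit 0) (nat_lit 60461241) (nat_lit 76) (nat_lit 25565439844) (nat_lit 76) (nat_lit 9726869982) (nat_lit 12)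 (nat_lit 4) (nat_lit 13) (nat_lit 5) (nat_lit 13) (nat_lit 4) (nat_lit 372) (nat_lit 234) (nat_lit 174)))))) (XT.nd (nat_lit 546) (nat_lit 76) (nat_lit 0) (XT.nd (nat_lit 234) (nat_lit 76) (nat_lit 0) (XT.nd (nat_lit 78) (nat_lit 76) (nat_lit 0) (XT.lf (nat_lit 0) (nat_lit 7851900251) (nat_lit 76) (nat_lit 22183397366) (nat_lit 76) (nat_lit 6250519450) (nat_lit 12) (nat_lit 4) (nat_lit 13) (nat_lit 5) (nat_lit 13) (nat_lit 4) (nat_lit 373) (nat_lit 234) (nat_lit 173)) (XT.nd (nat_lit 78) (nat_lit 76) (nat_lit 0) (XT.lf (nat_lit 0) (nat_lit 15820210232) (nat_lit 76) (nat_lit 18726007250) (nat_lit 76) (nat_lit 2701568116) (nat_lit 12) (nat_lit 4) (nat_lit 13) (nat_lit 5) (nat_lit 13) (nat_lit 4) (nat_lit 374) (nat_lit 234) (nat_lit 172)) (XT.lf (nat_lit 0) (nat_lit 905072330) (nat_lit 152) (nat_lit 14276036688) (nat_lit 76) (nat_lit 23058141998) (nat_lit 11) (nat_lit 5) (nat_lit 13) (nat_lit 5) (nat_lit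 12) (nat_lit 4) (nat_lit 375) (nat_lit 234) (nat_lit 171)))) (XT.nd (nat_lit 156) (nat_lit 0) (nat_lit 0) (XT.nd (nat_lit 78) (nat_lit 76) (nat_lit 0) (XT.lf (nat_lit 0) (nat_lit 4536325434) (nat_lit 152) (nat_lit 6990898116) (nat_lit 76) (nat_lit 27733320715) (nat_lit 11) (nat_lit 5) (nat_lit 13) (nat_lit 5) (nat_lit 12) (nat_lit 4) (nat_lit 376) (nat_lit 234) (nat_lit 170)) (XT.lf (nat_lit 0) (nat_lit 469333518) (nat_lit 76) (nat_lit 7783259462) (nat_lit 152) (nat_lit 32060608484) (nat_lit 10) (nat_lit 5) (nat_lit 11) (nat_lit 5) (nat_lit 12) (nat_lit 4) (nat_lit 377) (nat_lit 234) (nat_lit 169))) (XT.nd (nat_lit 78) (nat_lit 0) (nat_lit 0) (XT.lf (nat_lit 0) (nat_lit 8244575054) (nat_lit 76) (nat_lit 3878260533) (nat_lit 152) (nat_lit 29273335421) (nat_lit 10) (nat_lit 5) (nat_lit 11) (nat_lit 5) (nat_lit 12) (nat_lit 4) (nat_lit 378) (nat_lit 234) (nat_lit 168)) (XT.lf (nat_lit 0) (nat_lit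 16083055998) (nat_lit 152) (nat_lit 26311126712) (nat_lit 0) (nat_lit 118237843) (nat_lit 10) (nat_lit 5) (nat_lit 12) (nat_lit 4) (nat_lit 10) (nat_lit 4) (nat_lit 379) (nat_lit 234) (nat_lit 167))))) (XT.nd (nat_lit 234) (nat_lit 76) (nat_lit 0) (XT.nd (nat_lit 78) (nat_lit 0) (nat_lit 0) (XT.lf (nat_lit 0) (nat_lit 20173770360) (nat_lit 152) (nat_lit 19353538872) (nat_lit 0) (nat_lit 4134504557) (nat_lit 10) (nat_lit 5) (nat_lit 12) (nat_lit 4) (nat_lit 10) (nat_lit 4) (nat_lit 380) (nat_lit 234) (nat_lit 166)) (XT.nd (nat_lit 78) (nat_lit 0) (nat_lit 0) (XT.lf (nat_lit 0) (nat_lit 24361272873) (nat_lit 152) (nat_lit 12235472775) (nat_lit 0) (nat_lit 8249727799) (nat_lit 10) (nat_lit 5) (nat_lit 12) (nat_lit 4) (nat_lit 10) (nat_lit 4) (nat_lit 381) (nat_lit 234) (nat_lit 165)) (XT.lf (nat_lit 0) (nat_lit 28649222518) (nat_lit 152) (nat_lit 4950708752) (nat_lit 0) (nat_lit 12467503396) (nat_lit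 10) (nat_lit 5) (nat_lit 12) (nat_lit 4) (nat_lit 10) (nat_lit 4) (nat_lit 382) (nat_lit 234) (nat_lit 164)))) (XT.nd (nat_lit 156) (nat_lit 0) (nat_lit 0) (XT.nd (nat_lit 78) (nat_lit 0) (nat_lit 0) (XT.lf (nat_lit 0) (nat_lit 2557015097) (nat_lit 76) (nat_lit 30508930544) (nat_lit 76) (nat_lit 14259081277) (nat_lit 9) (nat_lit 4) (nat_lit 10) (nat_lit 5) (nat_lit 10) (nat_lit 4) (nat_lit 383) (nat_lit 234) (nat_lit 163)) (XT.lf (nat_lit 0) (nat_lit 10346421552) (nat_lit 76) (nat_lit 27294575841) (nat_lit 76) (nat_lit 10978580803) (nat_lit 9) (nat_lit 4) (nat_lit 10) (nat_lit 5) (nat_lit 10) (nat_lit 4) (nat_lit 384) (nat_lit 234) (nat_lit 162))) (XT.nd (nat_lit 78) (nat_lit 0) (nat_lit 0) (XT.lf (nat_lit 0) (nat_lit 18325788075) (nat_lit 76) (nat_lit 24004050953) (nat_lit 76) (nat_lit 7623836719) (nat_lit 9) (nat_lit 4) (nat_lit 10) (nat_lit 5) (nat_lit 10) (nat_lit 4) (nat_lit 385) (nat_lit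 234) (nat_lit 161)) (XT.lf (nat_lit 0) (nat_lit 26502086930) (nat_lit 76) (nat_lit 20634480664) (nat_lit 76) (nat_lit 4191917697) (nat_lit 9) (nat_lit 4) (nat_lit 10) (nat_lit 5) (nat_lit 10) (nat_lit 4) (nat_lit 386) (nat_lit 234) (nat_lit 160))))))))
noncomputable def xc46 : XT := (XT.nd (nat_lit 34788) (nat_lit 0) (nat_lit 2204) (XT.nd (nat_lit 1014) (nat_lit 152) (nat_lit 0) (XT.nd (nat_lit 468) (nat_lit 76) (nat_lit 0) (XT.nd (nat_lit 234) (nat_lit 76) (nat_lit 0) (XT.nd (nat_lit 78) (nat_lit 76) (nat_lit 0) (XT.lf (nat_lit 0) (nat_lit 34882462455) (nat_lit 76) (nat_lit 17182920690) (nat_lit 76) (nat_lit 679824972) (nat_lit 9) (nat_lit 4) (nat_lit 10) (nat_lit 5) (nat_lit 10) (nat_lit 4) (nat_lit 387) (nat_lit 234) (nat_lit 159)) (XT.nd (nat_lit 78) (nat_lit 0) (nat_lit 0) (XT.lf (nat_lit 0) (nat_lit 2858618167) (nat_lit 152) (nat_lit 10758870499) (nat_lit 76) (nat_lit 40586752701) (nat_lit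 8) (nat_lit 5) (nat_lit 10) (nat_lit 5) (nat_lit 9) (nat_lit 4) (nat_lit 388) (nat_lit 234) (nat_lit 158)) (XT.lf (nat_lit 0) (nat_lit 6468493886) (nat_lit 152) (nat_lit 3487880713) (nat_lit 76) (nat_lit 45751105874) (nat_lit 8) (nat_lit 5) (nat_lit 10) (nat_lit 5) (nat_lit 9) (nat_lit 4) (nat_lit 389) (nat_lit 234) (nat_lit 157)))) (XT.nd (nat_lit 78) (nat_lit 0) (nat_lit 0) (XT.lf (nat_lit 0) (nat_lit 4041985575) (nat_lit 76) (nat_lit 6163090740) (nat_lit 152) (nat_lit 47050193055) (nat_lit 7) (nat_lit 5) (nat_lit 8) (nat_lit 5) (nat_lit 9) (nat_lit 4) (nat_lit 390) (nat_lit 234) (nat_lit 156)) (XT.nd (nat_lit 78) (nat_lit 0) (nat_lit 0) (XT.lf (nat_lit 0) (nat_lit 11831492894) (nat_lit 76) (nat_lit 2237273019) (nat_lit 152) (nat_lit 44780280517) (nat_lit 7) (nat_lit 5) (nat_lit 8) (nat_lit 5) (nat_lit 9) (nat_lit 4) (nat_lit 391) (nat_lit 234) (nat_lit 155)) (XT.lf (nat_lit 0) (nat_lit 18045943543)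 (nat_lit 152) (nat_lit 40690397910) (nat_lit 0) (nat_lit 1754372675) (nat_lit 7) (nat_lit 5) (nat_lit 9) (nat_lit 4) (nat_lit 7) (nat_lit 4) (nat_lit 392) (nat_lit 234) (nat_lit 154))))) (XT.nd (nat_lit 234) (nat_lit 76) (nat_lit 0) (XT.nd (nat_lit 78) (nat_lit 0) (nat_lit 0) (XT.lf (nat_lit 0) (nat_lit 22145377912) (nat_lit 152) (nat_lit 34231581837) (nat_lit 0) (nat_lit 5804588378) (nat_lit 7) (nat_lit 5) (nat_lit 9) (nat_lit 4) (nat_lit 7) (nat_lit 4) (nat_lit 393) (nat_lit 234) (nat_lit 153)) (XT.nd (nat_lit 78) (nat_lit 0) (nat_lit 0) (XT.lf (nat_lit 0) (nat_lit 26349145014) (nat_lit 152) (nat_lit 27613955656) (nat_lit 0) (nat_lit 9960570367) (nat_lit 7) (nat_lit 5) (nat_lit 9) (nat_lit 4) (nat_lit 7) (nat_lit 4) (nat_lit 394) (nat_lit 234) (nat_lit 152)) (XT.lf (nat_lit 0) (nat_lit 30660918043) (nat_lit 152) (nat_lit 20831736975) (nat_lit 0) (nat_lit 14225950083) (nat_lit 7) (nat_lit 5) (nat_lit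 9) (nat_lit 4) (nat_lit 7) (nat_lit 4) (nat_lit 395) (nat_lit 234) (nat_lit 151)))) (XT.nd (nat_lit 156) (nat_lit 76) (nat_lit 0) (XT.nd (nat_lit 78) (nat_lit 0) (nat_lit 0) (XT.lf (nat_lit 0) (nat_lit 35084464567) (nat_lit 152) (nat_lit 13878999583) (nat_lit 0) (nat_lit 18604454555) (nat_lit 7) (nat_lit 5) (nat_lit 9) (nat_lit 4) (nat_lit 7) (nat_lit 4) (nat_lit 396) (nat_lit 234) (nat_lit 150)) (XT.lf (nat_lit 0) (nat_lit 39623649822) (nat_lit 152) (nat_lit 6749668273) (nat_lit 0) (nat_lit 23099909663) (nat_lit 7) (nat_lit 5) (nat_lit 9) (nat_lit 4) (nat_lit 7) (nat_lit 4) (nat_lit 397) (nat_lit 234) (nat_lit 149))) (XT.nd (nat_lit 78) (nat_lit 0) (nat_lit 0) (XT.lf (nat_lit 0) (nat_lit 573681051) (nat_lit 76) (nat_lit 43714273607) (nat_lit 76) (nat_lit 27148076994) (nat_lit 6) (nat_lit 4) (nat_lit 7) (nat_lit 5) (nat_lit 7) (nat_lit 4) (nat_lit 398) (nat_lit 234) (nat_lit 148)) (XT.lf (nat_lit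 0) (nat_lit 8224340406) (nat_lit 76) (nat_lit 40919623130) (nat_lit 76) (nat_lit 24312206660) (nat_lit 6) (nat_lit 4) (nat_lit 7) (nat_lit 5) (nat_lit 7) (nat_lit 4) (nat_lit 399) (nat_lit 234) (nat_lit 147)))))) (XT.nd (nat_lit 546) (nat_lit 152) (nat_lit 0) (XT.nd (nat_lit 234) (nat_lit 0) (nat_lit 0) (XT.nd (nat_lit 78) (nat_lit 0) (nat_lit 0) (XT.lf (nat_lit 0) (nat_lit 16074663198) (nat_lit 76) (nat_lit 38055083153) (nat_lit 76) (nat_lit 21407647403) (nat_lit 6) (nat_lit 4) (nat_lit 7) (nat_lit 5) (nat_lit 7) (nat_lit 4) (nat_lit 400) (nat_lit 234) (nat_lit 146)) (XT.nd (nat_lit 78) (nat_lit 0) (nat_lit 0) (XT.lf (nat_lit 0) (nat_lit 24131508934) (nat_lit 76) (nat_lit 35118150679) (nat_lit 76) (nat_lit 18431861260) (nat_lit 6) (nat_lit 4) (nat_lit 7) (nat_lit 5) (nat_lit 7) (nat_lit 4) (nat_lit 401) (nat_lit 234) (nat_lit 145)) (XT.lf (nat_lit 0) (nat_lit 32401917576) (nat_lit 76) (nat_lit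 32106259457) (nat_lit 76) (nat_lit 15382248028) (nat_lit 6) (nat_lit 4) (nat_lit 7) (nat_lit 5) (nat_lit 7) (nat_lit 4) (nat_lit 402) (nat_lit 234) (nat_lit 144)))) (XT.nd (nat_lit 156) (nat_lit 0) (nat_lit 0) (XT.nd (nat_lit 78) (nat_lit 0) (nat_lit 0) (XT.lf (nat_lit 0) (nat_lit 40893115694) (nat_lit 76) (nat_lit 29016777736) (nat_lit 76) (nat_lit 12256142997) (nat_lit 6) (nat_lit 4) (nat_lit 7) (nat_lit 5) (nat_lit 7) (nat_lit 4) (nat_lit 403) (nat_lit 234) (nat_lit 143)) (XT.lf (nat_lit 0) (nat_lit 49612522783) (nat_lit 76) (nat_lit 25847005970) (nat_lit 76) (nat_lit 9050814620) (nat_lit 6) (nat_lit 4) (nat_lit 7) (nat_lit 5) (nat_lit 7) (nat_lit 4) (nat_lit 404) (nat_lit 234) (nat_lit 142))) (XT.nd (nat_lit 78) (nat_lit 0) (nat_lit 0) (XT.lf (nat_lit 0) (nat_lit 58567757740) (nat_lit 76) (nat_lit 22594174456) (nat_lit 76) (nat_lit 5763462123) (nat_lit 6) (nat_lit 4) (nat_lit 7) (nat_lit 5)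 (nat_lit 7) (nat_lit 4) (nat_lit 405) (nat_lit 234) (nat_lit 141)) (XT.lf (nat_lit 0) (nat_lit 67766645530) (nat_lit 76) (nat_lit 19255440912) (nat_lit 76) (nat_lit 2391213063) (nat_lit 6) (nat_lit 4) (nat_lit 7) (nat_lit 5) (nat_lit 7) (nat_lit 4) (nat_lit 406) (nat_lit 234) (nat_lit 140))))) (XT.nd (nat_lit 234) (nat_lit 76) (nat_lit 0) (XT.nd (nat_lit 78) (nat_lit 0) (nat_lit 0) (XT.lf (nat_lit 0) (nat_lit 1048021501) (nat_lit 152) (nat_lit 14769283536) (nat_lit 76) (nat_lit 76158619551) (nat_lit 5) (nat_lit 5) (nat_lit 7) (nat_lit 5) (nat_lit 6) (nat_lit 4) (nat_lit 407) (nat_lit 234) (nat_lit 139)) (XT.nd (nat_lit 78) (nat_lit 0) (nat_lit 0) (XT.lf (nat_lit 0) (nat_lit 4529688324) (nat_lit 152) (nat_lit 7733091476) (nat_lit 76) (nat_lit 82352321687) (nat_lit 5) (nat_lit 5) (nat_lit 7) (nat_lit 5) (nat_lit 6) (nat_lit 4) (nat_lit 408) (nat_lit 234) (nat_lit 138)) (XT.lf (nat_lit 0) (nat_lit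 8103490815) (nat_lit 152) (nat_lit 508943864) (nat_lit 76) (nat_lit 88721391173) (nat_lit 5) (nat_lit 5) (nat_lit 7) (nat_lit 5) (nat_lit 6) (nat_lit 4) (nat_lit 409) (nat_lit 234) (nat_lit 137)))) (XT.nd (nat_lit 32838) (nat_lit 0) (nat_lit 6004) (XT.nd (nat_lit 78) (nat_lit 0) (nat_lit 0) (XT.lf (nat_lit 0) (nat_lit 7046983696) (nat_lit 76) (nat_lit 4793307938) (nat_lit 152) (nat_lit 88292149438) (nat_lit 4) (nat_lit 5) (nat_lit 5) (nat_lit 5) (nat_lit 6) (nat_lit 4) (nat_lit 410) (nat_lit 234) (nat_lit 136)) (XT.lf (nat_lit 0) (nat_lit 14817785581) (nat_lit 76) (nat_lit 864729040) (nat_lit 152) (nat_lit 87332703156) (nat_lit 4) (nat_lit 5) (nat_lit 5) (nat_lit 5) (nat_lit 6) (nat_lit 4) (nat_lit 411) (nat_lit 234) (nat_lit 135))) (XT.nd (nat_lit 78) (nat_lit 304) (nat_lit 0) (XT.lf (nat_lit 0) (nat_lit 795038120) (nat_lit 380) (nat_lit 3173995038) (nat_lit 0) (nat_lit 795038120) (nat_lit 87)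 (nat_lit 5) (nat_lit 92) (nat_lit 4) (nat_lit 87) (nat_lit 4) (nat_lit 310) (nat_lit 235) (nat_lit 235)) (XT.lf (nat_lit 0) (nat_lit 440583974) (nat_lit 304) (nat_lit 5046418362) (nat_lit 304) (nat_lit 4180771746) (nat_lit 83) (nat_lit 4) (nat_lit 87) (nat_lit 5) (nat_lit 87) (nat_lit 4) (nat_lit 311) (nat_lit 235) (nat_lit 234))))))) (XT.nd (nat_lit 1092) (nat_lit 1444) (nat_lit 0) (XT.nd (nat_lit 546) (nat_lit 1140) (nat_lit 0) (XT.nd (nat_lit 234) (nat_lit 608) (nat_lit 0) (XT.nd (nat_lit 78) (nat_lit 608) (nat_lit 0) (XT.lf (nat_lit 0) (nat_lit 7425577917) (nat_lit 304) (nat_lit 2046518057) (nat_lit 304) (nat_lit 340437833) (nat_lit 83) (nat_lit 4) (nat_lit 87) (nat_lit 5) (nat_lit 87) (nat_lit 4) (nat_lit 312) (nat_lit 235) (nat_lit 233)) (XT.nd (nat_lit 78) (nat_lit 304) (nat_lit 0) (XT.lf (nat_lit 0) (nat_lit 3507847963) (nat_lit 304) (nat_lit 5394649783) (nat_lit 0) (nat_lit 1059270116)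 (nat_lit 79) (nat_lit 5) (nat_lit 83) (nat_lit 4) (nat_lit 79) (nat_lit 4) (nat_lit 313) (nat_lit 235) (nat_lit 232)) (XT.lf (nat_lit 0) (nat_lit 1533784789) (nat_lit 304) (nat_lit 5900140812) (nat_lit 304) (nat_lit 2682447158) (nat_lit 75) (nat_lit 4) (nat_lit 79) (nat_lit 5) (nat_lit 79) (nat_lit 4) (nat_lit 314) (nat_lit 235) (nat_lit 231)))) (XT.nd (nat_lit 156) (nat_lit 304) (nat_lit 0) (XT.nd (nat_lit 78) (nat_lit 228) (nat_lit 0) (XT.lf (nat_lit 0) (nat_lit 1143945569) (nat_lit 380) (nat_lit 1642198522) (nat_lit 76) (nat_lit 7490234459) (nat_lit 74) (nat_lit 5) (nat_lit 79) (nat_lit 5) (nat_lit 75) (nat_lit 4) (nat_lit 315) (nat_lit 235) (nat_lit 230)) (XT.lf (nat_lit 0) (nat_lit 5000865168) (nat_lit 304) (nat_lit 4992422201) (nat_lit 0) (nat_lit 448075419) (nat_lit 71) (nat_lit 5) (nat_lit 75) (nat_lit 4) (nat_lit 71) (nat_lit 4) (nat_lit 316) (nat_lit 235) (nat_lit 229))) (XT.nd (nat_lit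 78) (nat_lit 76) (nat_lit 0) (XT.lf (nat_lit 0) (nat_lit 2054321411) (nat_lit 228) (nat_lit 6896922216) (nat_lit 228) (nat_lit 1660783035) (nat_lit 68) (nat_lit 4) (nat_lit 71) (nat_lit 5) (nat_lit 71) (nat_lit 4) (nat_lit 317) (nat_lit 235) (nat_lit 228)) (XT.lf (nat_lit 0) (nat_lit 2153686066) (nat_lit 304) (nat_lit 1527602517) (nat_lit 76) (nat_lit 7106989456) (nat_lit 67) (nat_lit 5) (nat_lit 71) (nat_lit 5) (nat_lit 68) (nat_lit 4) (nat_lit 318) (nat_lit 235) (nat_lit 227))))) (XT.nd (nat_lit 234) (nat_lit 608) (nat_lit 0) (XT.nd (nat_lit 78) (nat_lit 304) (nat_lit 0) (XT.lf (nat_lit 0) (nat_lit 5677501843) (nat_lit 228) (nat_lit 342798380) (nat_lit 304) (nat_lit 4949948030) (nat_lit 64) (nat_lit 5) (nat_lit 67) (nat_lit 5) (nat_lit 68) (nat_lit 4) (nat_lit 319) (nat_lit 235) (nat_lit 226)) (XT.nd (nat_lit 78) (nat_lit 76) (nat_lit 0) (XT.lf (nat_lit 0) (nat_lit 1847961982) (nat_lit 228) (nat_lit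 8135310879) (nat_lit 228) (nat_lit 1175049574) (nat_lit 61) (nat_lit 4) (nat_lit 64) (nat_lit 5) (nat_lit 64) (nat_lit 4) (nat_lit 320) (nat_lit 235) (nat_lit 225)) (XT.lf (nat_lit 0) (nat_lit 2635083671) (nat_lit 304) (nat_lit 2200504675) (nat_lit 76) (nat_lit 6516472660) (nat_lit 60) (nat_lit 5) (nat_lit 64) (nat_lit 5) (nat_lit 61) (nat_lit 4) (nat_lit 321) (nat_lit 235) (nat_lit 224)))) (XT.nd (nat_lit 156) (nat_lit 228) (nat_lit 0) (XT.nd (nat_lit 78) (nat_lit 228) (nat_lit 0) (XT.lf (nat_lit 0) (nat_lit 5082566744) (nat_lit 152) (nat_lit 1422155257) (nat_lit 228) (nat_lit 5047527096) (nat_lit 58) (nat_lit 5) (nat_lit 60) (nat_lit 5) (nat_lit 61) (nat_lit 4) (nat_lit 322) (nat_lit 235) (nat_lit 223)) (XT.lf (nat_lit 0) (nat_lit 737166504) (nat_lit 228) (nat_lit 9723557578) (nat_lit 228) (nat_lit 1298659964) (nat_lit 55) (nat_lit 4) (nat_lit 58) (nat_lit 5) (nat_lit 58) (nat_lit 4) (nat_lit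 323) (nat_lit 235) (nat_lit 222))) (XT.nd (nat_lit 78) (nat_lit 152) (nat_lit 0) (XT.lf (nat_lit 0) (nat_lit 2513615105) (nat_lit 304) (nat_lit 3845989388) (nat_lit 76) (nat_lit 5612407680) (nat_lit 54) (nat_lit 5) (nat_lit 58) (nat_lit 5) (nat_lit 55) (nat_lit 4) (nat_lit 324) (nat_lit 235) (nat_lit 221)) (XT.lf (nat_lit 0) (nat_lit 3475538664) (nat_lit 152) (nat_lit 2895221370) (nat_lit 228) (nat_lit 5821220525) (nat_lit 52) (nat_lit 5) (nat_lit 54) (nat_lit 5) (nat_lit 55) (nat_lit 4) (nat_lit 325) (nat_lit 235) (nat_lit 220)))))) (XT.nd (nat_lit 546) (nat_lit 608) (nat_lit 0) (XT.nd (nat_lit 234) (nat_lit 380) (nat_lit 0) (XT.nd (nat_lit 78) (nat_lit 456) (nat_lit 0) (XT.lf (nat_lit 0) (nat_lit 10313092018) (nat_lit 228) (nat_lit 1454265833) (nat_lit 0) (nat_lit 652149905) (nat_lit 52) (nat_lit 5) (nat_lit 55) (nat_lit 4) (nat_lit 52) (nat_lit 4) (nat_lit 326) (nat_lit 235) (nat_lit 219)) (XT.nd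 (nat_lit 78) (nat_lit 152) (nat_lit 0) (XT.lf (nat_lit 0) (nat_lit 1698619126) (nat_lit 304) (nat_lit 6678072997) (nat_lit 76) (nat_lit 4276343719) (nat_lit 48) (nat_lit 5) (nat_lit 52) (nat_lit 5) (nat_lit 49) (nat_lit 4) (nat_lit 327) (nat_lit 235) (nat_lit 218)) (XT.lf (nat_lit 0) (nat_lit 632863484) (nat_lit 152) (nat_lit 4889751188) (nat_lit 228) (nat_lit 7371955246) (nat_lit 46) (nat_lit 5) (nat_lit 48) (nat_lit 5) (nat_lit 49) (nat_lit 4) (nat_lit 328) (nat_lit 235) (nat_lit 217)))) (XT.nd (nat_lit 156) (nat_lit 152) (nat_lit 0) (XT.nd (nat_lit 78) (nat_lit 228) (nat_lit 0) (XT.lf (nat_lit 0) (nat_lit 8178985236) (nat_lit 152) (nat_lit 1276997785) (nat_lit 228) (nat_lit 3687566446) (nat_lit 46) (nat_lit 5) (nat_lit 48) (nat_lit 5) (nat_lit 49) (nat_lit 4) (nat_lit 329) (nat_lit 235) (nat_lit 216)) (XT.lf (nat_lit 0) (nat_lit 80981400) (nat_lit 228) (nat_lit 10944832100) (nat_lit 76) (nat_lit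 2374919078) (nat_lit 43) (nat_lit 5) (nat_lit 46) (nat_lit 5) (nat_lit 44) (nat_lit 4) (nat_lit 330) (nat_lit 235) (nat_lit 215))) (XT.nd (nat_lit 78) (nat_lit 152) (nat_lit 0) (XT.lf (nat_lit 0) (nat_lit 3880834132) (nat_lit 228) (nat_lit 3632526825) (nat_lit 76) (nat_lit 6151439687) (nat_lit 43) (nat_lit 5) (nat_lit 46) (nat_lit 5) (nat_lit 44) (nat_lit 4) (nat_lit 331) (nat_lit 235) (nat_lit 214)) (XT.lf (nat_lit 0) (nat_lit 3858422846) (nat_lit 152) (nat_lit 3904507002) (nat_lit 228) (nat_lit 6174848169) (nat_lit 41) (nat_lit 5) (nat_lit 43) (nat_lit 5) (nat_lit 44) (nat_lit 4) (nat_lit 332) (nat_lit 235) (nat_lit 213))))) (XT.nd (nat_lit 234) (nat_lit 380) (nat_lit 0) (XT.nd (nat_lit 78) (nat_lit 228) (nat_lit 0) (XT.lf (nat_lit 0) (nat_lit 11533685174) (nat_lit 152) (nat_lit 196543364) (nat_lit 228) (nat_lit 2489687647) (nat_lit 41) (nat_lit 5) (nat_lit 43) (nat_lit 5) (nat_lit 44) (nat_lit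 4) (nat_lit 333) (nat_lit 235) (nat_lit 212)) (XT.nd (nat_lit 78) (nat_lit 0) (nat_lit 0) (XT.lf (nat_lit 0) (nat_lit 1295954650) (nat_lit 228) (nat_lit 9646894343) (nat_lit 76) (nat_lit 3566862250) (nat_lit 38) (nat_lit 5) (nat_lit 41) (nat_lit 5) (nat_lit 39) (nat_lit 4) (nat_lit 334) (nat_lit 235) (nat_lit 211)) (XT.lf (nat_lit 0) (nat_lit 5108243033) (nat_lit 228) (nat_lit 2254196443) (nat_lit 76) (nat_lit 7446158471) (nat_lit 38) (nat_lit 5) (nat_lit 41) (nat_lit 5) (nat_lit 39) (nat_lit 4) (nat_lit 335) (nat_lit 235) (nat_lit 210)))) (XT.nd (nat_lit 156) (nat_lit 228) (nat_lit 0) (XT.nd (nat_lit 78) (nat_lit 0) (nat_lit 0) (XT.lf (nat_lit 0) (nat_lit 5354727267) (nat_lit 152) (nat_lit 3667351406) (nat_lit 228) (nat_lit 6094787142) (nat_lit 36) (nat_lit 5) (nat_lit 38) (nat_lit 5) (nat_lit 39) (nat_lit 4) (nat_lit 336) (nat_lit 235) (nat_lit 209)) (XT.lf (nat_lit 0) (nat_lit 13013743473) (nat_lit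 228) (nat_lit 2307590949) (nat_lit 0) (nat_lit 114263924) (nat_lit 36) (nat_lit 5) (nat_lit 39) (nat_lit 4) (nat_lit 36) (nat_lit 4) (nat_lit 337) (nat_lit 235) (nat_lit 208))) (XT.nd (nat_lit 78) (nat_lit 0) (nat_lit 0) (XT.lf (nat_lit 0) (nat_lit 1360437878) (nat_lit 228) (nat_lit 10445427091) (nat_lit 76) (nat_lit 3956890635) (nat_lit 33) (nat_lit 5) (nat_lit 36) (nat_lit 5) (nat_lit 34) (nat_lit 4) (nat_lit 338) (nat_lit 235) (nat_lit 207)) (XT.lf (nat_lit 0) (nat_lit 5169163258) (nat_lit 228) (nat_lit 3012390721) (nat_lit 76) (nat_lit 7918631601) (nat_lit 33) (nat_lit 5) (nat_lit 36) (nat_lit 5) (nat_lit 34) (nat_lit 4) (nat_lit 339) (nat_lit 235) (nat_lit 206))))))))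
noncomputable def xc47 : XT := (XT.nd (nat_lit 2184) (nat_lit 532) (nat_lit 0) (XT.nd (nat_lit 1092) (nat_lit 532) (nat_lit 0) (XT.nd (nat_lit 546) (nat_lit 532) (nat_lit 0) (XT.nd (nat_lit 234) (nat_lit 76) (nat_lit 0) (XT.nd (nat_lit 78) (nat_lit 228) (nat_lit 0) (XT.lf (nat_lit 0) (nat_lit 4629656020) (nat_lit 76) (nat_lit 4446908020) (nat_lit 152) (nat_lit 7371667816) (nat_lit 32) (nat_lit 5) (nat_lit 33) (nat_lit 5) (nat_lit 34) (nat_lit 4) (nat_lit 340) (nat_lit 235) (nat_lit 205)) (XT.nd (nat_lit 78) (nat_lit 228) (nat_lit 0) (XT.lf (nat_lit 0) (nat_lit 12459416002) (nat_lit 76) (nat_lit 612857841) (nat_lit 152) (nat_lit 3735338125) (nat_lit 32) (nat_lit 5) (nat_lit 33) (nat_lit 5) (nat_lit 34) (nat_lit 4) (nat_lit 341) (nat_lit 235) (nat_lit 204)) (XT.lf (nat_lit 0) (nat_lit 15467131) (nat_lit 228) (nat_lit 13901253071) (nat_lit 76) (nat_lit 3260906522) (nat_lit 29) (nat_lit 5) (nat_lit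 32) (nat_lit 5) (nat_lit 30) (nat_lit 4) (nat_lit 342) (nat_lit 235) (nat_lit 203)))) (XT.nd (nat_lit 156) (nat_lit 0) (nat_lit 0) (XT.nd (nat_lit 78) (nat_lit 76) (nat_lit 0) (XT.lf (nat_lit 0) (nat_lit 3796248346) (nat_lit 228) (nat_lit 6483907877) (nat_lit 76) (nat_lit 7277723274) (nat_lit 29) (nat_lit 5) (nat_lit 32) (nat_lit 5) (nat_lit 30) (nat_lit 4) (nat_lit 343) (nat_lit 235) (nat_lit 202)) (XT.lf (nat_lit 0) (nat_lit 1078150509) (nat_lit 76) (nat_lit 6566469738) (nat_lit 152) (nat_lit 10306316851) (nat_lit 28) (nat_lit 5) (nat_lit 29) (nat_lit 5) (nat_lit 30) (nat_lit 4) (nat_lit 344) (nat_lit 235) (nat_lit 201))) (XT.nd (nat_lit 78) (nat_lit 0) (nat_lit 0) (XT.lf (nat_lit 0) (nat_lit 8902107714) (nat_lit 76) (nat_lit 2716309700) (nat_lit 152) (nat_lit 6737091407) (nat_lit 28) (nat_lit 5) (nat_lit 29) (nat_lit 5) (nat_lit 30) (nat_lit 4) (nat_lit 345) (nat_lit 235) (nat_lit 200)) (XT.lf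 (nat_lit 0) (nat_lit 15669158457) (nat_lit 152) (nat_lit 1919711566) (nat_lit 0) (nat_lit 1184636759) (nat_lit 28) (nat_lit 5) (nat_lit 30) (nat_lit 4) (nat_lit 28) (nat_lit 4) (nat_lit 346) (nat_lit 235) (nat_lit 199))))) (XT.nd (nat_lit 234) (nat_lit 228) (nat_lit 0) (XT.nd (nat_lit 78) (nat_lit 76) (nat_lit 0) (XT.lf (nat_lit 0) (nat_lit 655489574) (nat_lit 228) (nat_lit 13376120968) (nat_lit 76) (nat_lit 5171353613) (nat_lit 25) (nat_lit 5) (nat_lit 28) (nat_lit 5) (nat_lit 26) (nat_lit 4) (nat_lit 347) (nat_lit 235) (nat_lit 198)) (XT.nd (nat_lit 78) (nat_lit 76) (nat_lit 0) (XT.lf (nat_lit 0) (nat_lit 4432717406) (nat_lit 228) (nat_lit 5924118475) (nat_lit 76) (nat_lit 9288556817) (nat_lit 25) (nat_lit 5) (nat_lit 28) (nat_lit 5) (nat_lit 26) (nat_lit 4) (nat_lit 348) (nat_lit 235) (nat_lit 197)) (XT.lf (nat_lit 0) (nat_lit 1693605526) (nat_lit 76) (nat_lit 6594880079) (nat_lit 152) (nat_lit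 11813670432) (nat_lit 24) (nat_lit 5) (nat_lit 25) (nat_lit 5) (nat_lit 26) (nat_lit 4) (nat_lit 349) (nat_lit 235) (nat_lit 196)))) (XT.nd (nat_lit 156) (nat_lit 228) (nat_lit 0) (XT.nd (nat_lit 78) (nat_lit 0) (nat_lit 0) (XT.lf (nat_lit 0) (nat_lit 9571304006) (nat_lit 76) (nat_lit 2698010370) (nat_lit 152) (nat_lit 8303044377) (nat_lit 24) (nat_lit 5) (nat_lit 25) (nat_lit 5) (nat_lit 26) (nat_lit 4) (nat_lit 350) (nat_lit 235) (nat_lit 195)) (XT.lf (nat_lit 0) (nat_lit 16332881252) (nat_lit 152) (nat_lit 3472474004) (nat_lit 0) (nat_lit 1252430473) (nat_lit 24) (nat_lit 5) (nat_lit 26) (nat_lit 4) (nat_lit 24) (nat_lit 4) (nat_lit 351) (nat_lit 235) (nat_lit 194))) (XT.nd (nat_lit 78) (nat_lit 76) (nat_lit 0) (XT.lf (nat_lit 0) (nat_lit 4252314646) (nat_lit 152) (nat_lit 16285731540) (nat_lit 152) (nat_lit 1019155659) (nat_lit 22) (nat_lit 4) (nat_lit 24) (nat_lit 5) (nat_lit 24) (nat_lit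 4) (nat_lit 352) (nat_lit 235) (nat_lit 193)) (XT.lf (nat_lit 0) (nat_lit 2730778280) (nat_lit 228) (nat_lit 9903799955) (nat_lit 76) (nat_lit 9436603266) (nat_lit 21) (nat_lit 5) (nat_lit 24) (nat_lit 5) (nat_lit 22) (nat_lit 4) (nat_lit 353) (nat_lit 235) (nat_lit 192)))))) (XT.nd (nat_lit 546) (nat_lit 228) (nat_lit 0) (XT.nd (nat_lit 234) (nat_lit 228) (nat_lit 0) (XT.nd (nat_lit 78) (nat_lit 76) (nat_lit 0) (XT.lf (nat_lit 0) (nat_lit 6526313386) (nat_lit 228) (nat_lit 2374304449) (nat_lit 76) (nat_lit 13701067990) (nat_lit 21) (nat_lit 5) (nat_lit 24) (nat_lit 5) (nat_lit 22) (nat_lit 4) (nat_lit 354) (nat_lit 235) (nat_lit 191)) (XT.nd (nat_lit 78) (nat_lit 0) (nat_lit 0) (XT.lf (nat_lit 0) (nat_lit 5405455133) (nat_lit 76) (nat_lit 5037158952) (nat_lit 152) (nat_lit 12705299371) (nat_lit 20) (nat_lit 5) (nat_lit 21) (nat_lit 5) (nat_lit 22) (nat_lit 4) (nat_lit 355) (nat_lit 235) (nat_lit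 190)) (XT.lf (nat_lit 0) (nat_lit 13386972836) (nat_lit 76) (nat_lit 1068886296) (nat_lit 152) (nat_lit 9255299842) (nat_lit 20) (nat_lit 5) (nat_lit 21) (nat_lit 5) (nat_lit 22) (nat_lit 4) (nat_lit 356) (nat_lit 235) (nat_lit 189)))) (XT.nd (nat_lit 156) (nat_lit 76) (nat_lit 0) (XT.nd (nat_lit 78) (nat_lit 152) (nat_lit 0) (XT.lf (nat_lit 0) (nat_lit 18574958823) (nat_lit 152) (nat_lit 2791324446) (nat_lit 0) (nat_lit 2925469160) (nat_lit 20) (nat_lit 5) (nat_lit 22) (nat_lit 4) (nat_lit 20) (nat_lit 4) (nat_lit 357) (nat_lit 235) (nat_lit 188)) (XT.lf (nat_lit 0) (nat_lit 4977423228) (nat_lit 152) (nat_lit 17856348269) (nat_lit 152) (nat_lit 2055521865) (nat_lit 18) (nat_lit 4) (nat_lit 20) (nat_lit 5) (nat_lit 20) (nat_lit 4) (nat_lit 358) (nat_lit 235) (nat_lit 187))) (XT.nd (nat_lit 78) (nat_lit 0) (nat_lit 0) (XT.lf (nat_lit 0) (nat_lit 1668362886) (nat_lit 228) (nat_lit 12560978620) (nat_lit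 76) (nat_lit 11275349792) (nat_lit 17) (nat_lit 5) (nat_lit 20) (nat_lit 5) (nat_lit 18) (nat_lit 4) (nat_lit 359) (nat_lit 235) (nat_lit 186)) (XT.lf (nat_lit 0) (nat_lit 5421665932) (nat_lit 228) (nat_lit 5084422829) (nat_lit 76) (nat_lit 15633094085) (nat_lit 17) (nat_lit 5) (nat_lit 20) (nat_lit 5) (nat_lit 18) (nat_lit 4) (nat_lit 360) (nat_lit 235) (nat_lit 185))))) (XT.nd (nat_lit 234) (nat_lit 152) (nat_lit 0) (XT.nd (nat_lit 78) (nat_lit 0) (nat_lit 0) (XT.lf (nat_lit 0) (nat_lit 2594721444) (nat_lit 76) (nat_lit 6677998098) (nat_lit 152) (nat_lit 17520447381) (nat_lit 16) (nat_lit 5) (nat_lit 17) (nat_lit 5) (nat_lit 18) (nat_lit 4) (nat_lit 361) (nat_lit 235) (nat_lit 184)) (XT.nd (nat_lit 78) (nat_lit 0) (nat_lit 0) (XT.lf (nat_lit 0) (nat_lit 10536834399) (nat_lit 76) (nat_lit 2714492872) (nat_lit 152) (nat_lit 14215094544) (nat_lit 16) (nat_lit 5) (nat_lit 17) (nat_lit 5) (nat_lit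 18) (nat_lit 4) (nat_lit 362) (nat_lit 235) (nat_lit 183)) (XT.lf (nat_lit 0) (nat_lit 17323966001) (nat_lit 152) (nat_lit 9526213173) (nat_lit 0) (nat_lit 1310466617) (nat_lit 16) (nat_lit 5) (nat_lit 18) (nat_lit 4) (nat_lit 16) (nat_lit 4) (nat_lit 363) (nat_lit 235) (nat_lit 182)))) (XT.nd (nat_lit 156) (nat_lit 76) (nat_lit 0) (XT.nd (nat_lit 78) (nat_lit 76) (nat_lit 0) (XT.lf (nat_lit 0) (nat_lit 21508304242) (nat_lit 152) (nat_lit 1995963676) (nat_lit 0) (nat_lit 5371754239) (nat_lit 16) (nat_lit 5) (nat_lit 18) (nat_lit 4) (nat_lit 16) (nat_lit 4) (nat_lit 364) (nat_lit 235) (nat_lit 181)) (XT.lf (nat_lit 0) (nat_lit 5807152737) (nat_lit 76) (nat_lit 20030574015) (nat_lit 76) (nat_lit 3774557390) (nat_lit 15) (nat_lit 4) (nat_lit 16) (nat_lit 5) (nat_lit 16) (nat_lit 4) (nat_lit 365) (nat_lit 235) (nat_lit 180))) (XT.nd (nat_lit 78) (nat_lit 76) (nat_lit 0) (XT.lf (nat_lit 0) (nat_lit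 13819569484) (nat_lit 76) (nat_lit 16461774701) (nat_lit 76) (nat_lit 89771066) (nat_lit 15) (nat_lit 4) (nat_lit 16) (nat_lit 5) (nat_lit 16) (nat_lit 4) (nat_lit 366) (nat_lit 235) (nat_lit 179)) (XT.lf (nat_lit 0) (nat_lit 3598096282) (nat_lit 152) (nat_lit 9180476930) (nat_lit 76) (nat_lit 18374134117) (nat_lit 14) (nat_lit 5) (nat_lit 16) (nat_lit 5) (nat_lit 15) (nat_lit 4) (nat_lit 367) (nat_lit 235) (nat_lit 178))))))) (XT.nd (nat_lit 1092) (nat_lit 228) (nat_lit 0) (XT.nd (nat_lit 546) (nat_lit 152) (nat_lit 0) (XT.nd (nat_lit 234) (nat_lit 76) (nat_lit 0) (XT.nd (nat_lit 78) (nat_lit 76) (nat_lit 0) (XT.lf (nat_lit 0) (nat_lit 7360665472) (nat_lit 152) (nat_lit 1651790355) (nat_lit 76) (nat_lit 22946298303) (nat_lit 14) (nat_lit 5) (nat_lit 16) (nat_lit 5) (nat_lit 15) (nat_lit 4) (nat_lit 368) (nat_lit 235) (nat_lit 177)) (XT.nd (nat_lit 78) (nat_lit 0) (nat_lit 0) (XT.lf (nat_lit 0)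 (nat_lit 6162202115) (nat_lit 76) (nat_lit 5100008685) (nat_lit 152) (nat_lit 21525998012) (nat_lit 13) (nat_lit 5) (nat_lit 14) (nat_lit 5) (nat_lit 15) (nat_lit 4) (nat_lit 369) (nat_lit 235) (nat_lit 176)) (XT.lf (nat_lit 0) (nat_lit 14184269074) (nat_lit 76) (nat_lit 1080463852) (nat_lit 152) (nat_lit 18378305467) (nat_lit 13) (nat_lit 5) (nat_lit 14) (nat_lit 5) (nat_lit 15) (nat_lit 4) (nat_lit 370) (nat_lit 235) (nat_lit 175)))) (XT.nd (nat_lit 156) (nat_lit 76) (nat_lit 0) (XT.nd (nat_lit 78) (nat_lit 0) (nat_lit 0) (XT.lf (nat_lit 0) (nat_lit 19384690335) (nat_lit 152) (nat_lit 12165084563) (nat_lit 0) (nat_lit 2973826080) (nat_lit 13) (nat_lit 5) (nat_lit 15) (nat_lit 4) (nat_lit 13) (nat_lit 4) (nat_lit 371) (nat_lit 235) (nat_lit 174)) (XT.lf (nat_lit 0) (nat_lit 23607825898) (nat_lit 152) (nat_lit 4720722216) (nat_lit 0) (nat_lit 7102653590) (nat_lit 13) (nat_lit 5) (nat_lit 15) (nat_lit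 4) (nat_lit 13) (nat_lit 4) (nat_lit 372) (nat_lit 235) (nat_lit 173))) (XT.nd (nat_lit 78) (nat_lit 0) (nat_lit 0) (XT.lf (nat_lit 0) (nat_lit 2948749302) (nat_lit 76) (nat_lit 25007039535) (nat_lit 76) (nat_lit 8410306009) (nat_lit 12) (nat_lit 4) (nat_lit 13) (nat_lit 5) (nat_lit 13) (nat_lit 4) (nat_lit 373) (nat_lit 235) (nat_lit 172)) (XT.lf (nat_lit 0) (nat_lit 10889859417) (nat_lit 76) (nat_lit 21562138603) (nat_lit 76) (nat_lit 4876510692) (nat_lit 12) (nat_lit 4) (nat_lit 13) (nat_lit 5) (nat_lit 13) (nat_lit 4) (nat_lit 374) (nat_lit 235) (nat_lit 171))))) (XT.nd (nat_lit 234) (nat_lit 76) (nat_lit 0) (XT.nd (nat_lit 78) (nat_lit 76) (nat_lit 0) (XT.lf (nat_lit 0) (nat_lit 19015595334) (nat_lit 76) (nat_lit 18038505249) (nat_lit 76) (nat_lit 1266572110) (nat_lit 12) (nat_lit 4) (nat_lit 13) (nat_lit 5) (nat_lit 13) (nat_lit 4) (nat_lit 375) (nat_lit 235) (nat_lit 170)) (XT.nd (nat_lit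 78) (nat_lit 0) (nat_lit 0) (XT.lf (nat_lit 0) (nat_lit 2375389150) (nat_lit 152) (nat_lit 12033684648) (nat_lit 76) (nat_lit 24933681286) (nat_lit 11) (nat_lit 5) (nat_lit 13) (nat_lit 5) (nat_lit 12) (nat_lit 4) (nat_lit 376) (nat_lit 235) (nat_lit 169)) (XT.lf (nat_lit 0) (nat_lit 6073545925) (nat_lit 152) (nat_lit 4607777350) (nat_lit 76) (nat_lit 29714635897) (nat_lit 11) (nat_lit 5) (nat_lit 13) (nat_lit 5) (nat_lit 12) (nat_lit 4) (nat_lit 377) (nat_lit 235) (nat_lit 168)))) (XT.nd (nat_lit 156) (nat_lit 0) (nat_lit 0) (XT.nd (nat_lit 78) (nat_lit 0) (nat_lit 0) (XT.lf (nat_lit 0) (nat_lit 3050841157) (nat_lit 76) (nat_lit 6834330393) (nat_lit 152) (nat_lit 31595519140) (nat_lit 10) (nat_lit 5) (nat_lit 11) (nat_lit 5) (nat_lit 12) (nat_lit 4) (nat_lit 378) (nat_lit 235) (nat_lit 167)) (XT.lf (nat_lit 0) (nat_lit 10984560494) (nat_lit 76) (nat_lit 2846621112) (nat_lit 152) (nat_lit 28766188301)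 (nat_lit 10) (nat_lit 5) (nat_lit 11) (nat_lit 5) (nat_lit 12) (nat_lit 4) (nat_lit 379) (nat_lit 235) (nat_lit 166))) (XT.nd (nat_lit 78) (nat_lit 0) (nat_lit 0) (XT.lf (nat_lit 0) (nat_lit 17881757490) (nat_lit 152) (nat_lit 24651626277) (nat_lit 0) (nat_lit 1214586794) (nat_lit 10) (nat_lit 5) (nat_lit 12) (nat_lit 4) (nat_lit 10) (nat_lit 4) (nat_lit 380) (nat_lit 235) (nat_lit 165)) (XT.lf (nat_lit 0) (nat_lit 22056857076) (nat_lit 152) (nat_lit 17556636070) (nat_lit 0) (nat_lit 5319512331) (nat_lit 10) (nat_lit 5) (nat_lit 12) (nat_lit 4) (nat_lit 10) (nat_lit 4) (nat_lit 381) (nat_lit 235) (nat_lit 164)))))) (XT.nd (nat_lit 546) (nat_lit 76) (nat_lit 0) (XT.nd (nat_lit 234) (nat_lit 76) (nat_lit 0) (XT.nd (nat_lit 78) (nat_lit 76) (nat_lit 0) (XT.lf (nat_lit 0) (nat_lit 26332765044) (nat_lit 152) (nat_lit 10294275825) (nat_lit 0) (nat_lit 9527290155) (nat_lit 10) (nat_lit 5) (nat_lit 12)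 (nat_lit 4) (nat_lit 10) (nat_lit 4) (nat_lit 382) (nat_lit 235) (nat_lit 163)) (XT.nd (nat_lit 78) (nat_lit 76) (nat_lit 0) (XT.lf (nat_lit 0) (nat_lit 30713217626) (nat_lit 152) (nat_lit 2858199788) (nat_lit 0) (nat_lit 13841596965) (nat_lit 10) (nat_lit 5) (nat_lit 12) (nat_lit 4) (nat_lit 10) (nat_lit 4) (nat_lit 383) (nat_lit 235) (nat_lit 162)) (XT.lf (nat_lit 0) (nat_lit 4852784892) (nat_lit 76) (nat_lit 30395905446) (nat_lit 76) (nat_lit 13460065589) (nat_lit 9) (nat_lit 4) (nat_lit 10) (nat_lit 5) (nat_lit 10) (nat_lit 4) (nat_lit 384) (nat_lit 235) (nat_lit 161)))) (XT.nd (nat_lit 156) (nat_lit 76) (nat_lit 0) (XT.nd (nat_lit 78) (nat_lit 0) (nat_lit 0) (XT.lf (nat_lit 0) (nat_lit 12811240744) (nat_lit 76) (nat_lit 27115070383) (nat_lit 76) (nat_lit 10116881793) (nat_lit 9) (nat_lit 4) (nat_lit 10) (nat_lit 5) (nat_lit 10) (nat_lit 4) (nat_lit 385) (nat_lit 235) (nat_lit 160)) (XT.lf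 (nat_lit 0) (nat_lit 20967237975) (nat_lit 76) (nat_lit 23754907692) (nat_lit 76) (nat_lit 6696186351) (nat_lit 9) (nat_lit 4) (nat_lit 10) (nat_lit 5) (nat_lit 10) (nat_lit 4) (nat_lit 386) (nat_lit 235) (nat_lit 159))) (XT.nd (nat_lit 78) (nat_lit 76) (nat_lit 0) (XT.lf (nat_lit 0) (nat_lit 29327903186) (nat_lit 76) (nat_lit 20312481308) (nat_lit 76) (nat_lit 3194990306) (nat_lit 9) (nat_lit 4) (nat_lit 10) (nat_lit 5) (nat_lit 10) (nat_lit 4) (nat_lit 387) (nat_lit 235) (nat_lit 158)) (XT.lf (nat_lit 0) (nat_lit 382159908) (nat_lit 152) (nat_lit 16398764312) (nat_lit 76) (nat_lit 37514522838) (nat_lit 8) (nat_lit 5) (nat_lit 10) (nat_lit 5) (nat_lit 9) (nat_lit 4) (nat_lit 388) (nat_lit 235) (nat_lit 157))))) (XT.nd (nat_lit 234) (nat_lit 0) (nat_lit 0) (XT.nd (nat_lit 78) (nat_lit 76) (nat_lit 0) (XT.lf (nat_lit 0) (nat_lit 3981964888) (nat_lit 152) (nat_lit 9146556244) (nat_lit 76) (nat_lit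 42670469582) (nat_lit 8) (nat_lit 5) (nat_lit 10) (nat_lit 5) (nat_lit 9) (nat_lit 4) (nat_lit 389) (nat_lit 235) (nat_lit 156)) (XT.nd (nat_lit 78) (nat_lit 76) (nat_lit 0) (XT.lf (nat_lit 0) (nat_lit 7669915863) (nat_lit 152) (nat_lit 1713798330) (nat_lit 76) (nat_lit 47964526720) (nat_lit 8) (nat_lit 5) (nat_lit 10) (nat_lit 5) (nat_lit 9) (nat_lit 4) (nat_lit 390) (nat_lit 235) (nat_lit 155)) (XT.lf (nat_lit 0) (nat_lit 6023545135) (nat_lit 76) (nat_lit 5483592180) (nat_lit 152) (nat_lit 47435676991) (nat_lit 7) (nat_lit 5) (nat_lit 8) (nat_lit 5) (nat_lit 9) (nat_lit 4) (nat_lit 391) (nat_lit 235) (nat_lit 154)))) (XT.nd (nat_lit 156) (nat_lit 0) (nat_lit 0) (XT.nd (nat_lit 78) (nat_lit 0) (nat_lit 0) (XT.lf (nat_lit 0) (nat_lit 13992554179) (nat_lit 76) (nat_lit 1465176373) (nat_lit 152) (nat_lit 45127551208) (nat_lit 7) (nat_lit 5) (nat_lit 8) (nat_lit 5) (nat_lit 9) (nat_lit 4) (nat_lit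 392) (nat_lit 235) (nat_lit 153)) (XT.lf (nat_lit 0) (nat_lit 19533893411) (nat_lit 152) (nat_lit 40137046241) (nat_lit 0) (nat_lit 2605876412) (nat_lit 7) (nat_lit 5) (nat_lit 9) (nat_lit 4) (nat_lit 7) (nat_lit 4) (nat_lit 393) (nat_lit 235) (nat_lit 152))) (XT.nd (nat_lit 78) (nat_lit 0) (nat_lit 0) (XT.lf (nat_lit 0) (nat_lit 23728740765) (nat_lit 152) (nat_lit 33536137442) (nat_lit 0) (nat_lit 6754330453) (nat_lit 7) (nat_lit 5) (nat_lit 9) (nat_lit 4) (nat_lit 7) (nat_lit 4) (nat_lit 394) (nat_lit 235) (nat_lit 151)) (XT.lf (nat_lit 0) (nat_lit 28031853845) (nat_lit 152) (nat_lit 26770149228) (nat_lit 0) (nat_lit 11012401482) (nat_lit 7) (nat_lit 5) (nat_lit 9) (nat_lit 4) (nat_lit 7) (nat_lit 4) (nat_lit 395) (nat_lit 235) (nat_lit 150))))))))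
noncomputable def xc48 : XT := (XT.nd (nat_lit 34632) (nat_lit 0) (nat_lit 1824) (XT.nd (nat_lit 1014) (nat_lit 76) (nat_lit 0) (XT.nd (nat_lit 468) (nat_lit 76) (nat_lit 0) (XT.nd (nat_lit 234) (nat_lit 76) (nat_lit 0) (XT.nd (nat_lit 78) (nat_lit 0) (nat_lit 0) (XT.lf (nat_lit 0) (nat_lit 32446992653) (nat_lit 152) (nat_lit 19833169572) (nat_lit 0) (nat_lit 15383810142) (nat_lit 7) (nat_lit 5) (nat_lit 9) (nat_lit 4) (nat_lit 7) (nat_lit 4) (nat_lit 396) (nat_lit 235) (nat_lit 149)) (XT.nd (nat_lit 78) (nat_lit 0) (nat_lit 0) (XT.lf (nat_lit 0) (nat_lit 36978015076) (nat_lit 152) (nat_lit 12719137034) (nat_lit 0) (nat_lit 19872376111) (nat_lit 7) (nat_lit 5) (nat_lit 9) (nat_lit 4) (nat_lit 7) (nat_lit 4) (nat_lit 397) (nat_lit 235) (nat_lit 148)) (XT.lf (nat_lit 0) (nat_lit 41628880260) (nat_lit 152) (nat_lit 5421835470) (nat_lit 0) (nat_lit 24482021437) (nat_lit 7) (nat_lit 5) (nat_lit 9) (nat_lit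 4) (nat_lit 7) (nat_lit 4) (nat_lit 398) (nat_lit 235) (nat_lit 147)))) (XT.nd (nat_lit 78) (nat_lit 0) (nat_lit 0) (XT.lf (nat_lit 0) (nat_lit 2106211169) (nat_lit 76) (nat_lit 44317687089) (nat_lit 76) (nat_lit 27130808987) (nat_lit 6) (nat_lit 4) (nat_lit 7) (nat_lit 5) (nat_lit 7) (nat_lit 4) (nat_lit 399) (nat_lit 235) (nat_lit 146)) (XT.nd (nat_lit 78) (nat_lit 0) (nat_lit 0) (XT.lf (nat_lit 0) (nat_lit 9942254779) (nat_lit 76) (nat_lit 41459818886) (nat_lit 76) (nat_lit 24234087115) (nat_lit 6) (nat_lit 4) (nat_lit 7) (nat_lit 5) (nat_lit 7) (nat_lit 4) (nat_lit 400) (nat_lit 235) (nat_lit 145)) (XT.lf (nat_lit 0) (nat_lit 17985237231) (nat_lit 76) (nat_lit 38529363864) (nat_lit 76) (nat_lit 21265910083) (nat_lit 6) (nat_lit 4) (nat_lit 7) (nat_lit 5) (nat_lit 7) (nat_lit 4) (nat_lit 401) (nat_lit 235) (nat_lit 144))))) (XT.nd (nat_lit 234) (nat_lit 76) (nat_lit 0) (XT.nd (nat_lit 78) (nat_lit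 0) (nat_lit 0) (XT.lf (nat_lit 0) (nat_lit 26242186374) (nat_lit 76) (nat_lit 35523761429) (nat_lit 76) (nat_lit 18223684338) (nat_lit 6) (nat_lit 4) (nat_lit 7) (nat_lit 5) (nat_lit 7) (nat_lit 4) (nat_lit 402) (nat_lit 235) (nat_lit 143)) (XT.nd (nat_lit 78) (nat_lit 0) (nat_lit 0) (XT.lf (nat_lit 0) (nat_lit 34720317017) (nat_lit 76) (nat_lit 32440385327) (nat_lit 76) (nat_lit 15104751624) (nat_lit 6) (nat_lit 4) (nat_lit 7) (nat_lit 5) (nat_lit 7) (nat_lit 4) (nat_lit 403) (nat_lit 235) (nat_lit 142)) (XT.lf (nat_lit 0) (nat_lit 43427037237) (nat_lit 76) (nat_lit 29276541346) (nat_lit 76) (nat_lit 11906386662) (nat_lit 6) (nat_lit 4) (nat_lit 7) (nat_lit 5) (nat_lit 7) (nat_lit 4) (nat_lit 404) (nat_lit 235) (nat_lit 141)))) (XT.nd (nat_lit 156) (nat_lit 76) (nat_lit 0) (XT.nd (nat_lit 78) (nat_lit 0) (nat_lit 0) (XT.lf (nat_lit 0) (nat_lit 52369954847) (nat_lit 76) (nat_lit 26029464963) (nat_lit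 76) (nat_lit 8625794762) (nat_lit 6) (nat_lit 4) (nat_lit 7) (nat_lit 5) (nat_lit 7) (nat_lit 4) (nat_lit 405) (nat_lit 235) (nat_lit 140)) (XT.lf (nat_lit 0) (nat_lit 61556884046) (nat_lit 76) (nat_lit 22696318926) (nat_lit 76) (nat_lit 5260109388) (nat_lit 6) (nat_lit 4) (nat_lit 7) (nat_lit 5) (nat_lit 7) (nat_lit 4) (nat_lit 406) (nat_lit 235) (nat_lit 139))) (XT.nd (nat_lit 78) (nat_lit 76) (nat_lit 0) (XT.lf (nat_lit 0) (nat_lit 70995852249) (nat_lit 76) (nat_lit 19274190777) (nat_lit 76) (nat_lit 1806389651) (nat_lit 6) (nat_lit 4) (nat_lit 7) (nat_lit 5) (nat_lit 7) (nat_lit 4) (nat_lit 407) (nat_lit 235) (nat_lit 138)) (XT.lf (nat_lit 0) (nat_lit 1704460164) (nat_lit 152) (nat_lit 14038418438) (nat_lit 76) (nat_lit 78973435227) (nat_lit 5) (nat_lit 5) (nat_lit 7) (nat_lit 5) (nat_lit 6) (nat_lit 4) (nat_lit 408) (nat_lit 235) (nat_lit 137)))))) (XT.nd (nat_lit 33072) (nat_lit 0) (nat_lit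 4788) (XT.nd (nat_lit 32760) (nat_lit 0) (nat_lit 6004) (XT.nd (nat_lit 78) (nat_lit 76) (nat_lit 0) (XT.lf (nat_lit 0) (nat_lit 5272373165) (nat_lit 152) (nat_lit 6825333148) (nat_lit 76) (nat_lit 85337509872) (nat_lit 5) (nat_lit 5) (nat_lit 7) (nat_lit 5) (nat_lit 6) (nat_lit 4) (nat_lit 409) (nat_lit 235) (nat_lit 136)) (XT.nd (nat_lit 78) (nat_lit 0) (nat_lit 0) (XT.lf (nat_lit 0) (nat_lit 593932011) (nat_lit 76) (nat_lit 8347493340) (nat_lit 152) (nat_lit 91294439779) (nat_lit 4) (nat_lit 5) (nat_lit 5) (nat_lit 5) (nat_lit 6) (nat_lit 4) (nat_lit 410) (nat_lit 235) (nat_lit 135)) (XT.lf (nat_lit 0) (nat_lit 8354099073) (nat_lit 76) (nat_lit 4423895628) (nat_lit 152) (nat_lit 90340817975) (nat_lit 4) (nat_lit 5) (nat_lit 5) (nat_lit 5) (nat_lit 6) (nat_lit 4) (nat_lit 411) (nat_lit 235) (nat_lit 134)))) (XT.nd (nat_lit 156) (nat_lit 684) (nat_lit 0) (XT.nd (nat_lit 78) (nat_lit 304) (nat_lit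 0) (XT.lf (nat_lit 0) (nat_lit 2064391584) (nat_lit 380) (nat_lit 501915688) (nat_lit 0) (nat_lit 2064391584) (nat_lit 96) (nat_lit 5) (nat_lit 101) (nat_lit 4) (nat_lit 96) (nat_lit 4) (nat_lit 308) (nat_lit 236) (nat_lit 236)) (XT.lf (nat_lit 0) (nat_lit 5759230616) (nat_lit 304) (nat_lit 2276141942) (nat_lit 304) (nat_lit 1357777447) (nat_lit 92) (nat_lit 4) (nat_lit 96) (nat_lit 5) (nat_lit 96) (nat_lit 4) (nat_lit 309) (nat_lit 236) (nat_lit 235))) (XT.nd (nat_lit 78) (nat_lit 304) (nat_lit 0) (XT.lf (nat_lit 0) (nat_lit 2435254955) (nat_lit 380) (nat_lit 6416327492) (nat_lit 0) (nat_lit 677992325) (nat_lit 87) (nat_lit 5) (nat_lit 92) (nat_lit 4) (nat_lit 87) (nat_lit 4) (nat_lit 310) (nat_lit 236) (nat_lit 234)) (XT.lf (nat_lit 0) (nat_lit 303219070) (nat_lit 304) (nat_lit 5982556787) (nat_lit 304) (nat_lit 3384860549) (nat_lit 83) (nat_lit 4) (nat_lit 87) (nat_lit 5) (nat_lit 87) (nat_lit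 4) (nat_lit 311) (nat_lit 236) (nat_lit 233))))) (XT.nd (nat_lit 234) (nat_lit 608) (nat_lit 0) (XT.nd (nat_lit 78) (nat_lit 532) (nat_lit 0) (XT.lf (nat_lit 0) (nat_lit 401706546) (nat_lit 380) (nat_lit 2598186906) (nat_lit 76) (nat_lit 6816753472) (nat_lit 82) (nat_lit 5) (nat_lit 87) (nat_lit 5) (nat_lit 83) (nat_lit 4) (nat_lit 312) (nat_lit 236) (nat_lit 232)) (XT.nd (nat_lit 78) (nat_lit 304) (nat_lit 0) (XT.lf (nat_lit 0) (nat_lit 4187678215) (nat_lit 304) (nat_lit 5675471507) (nat_lit 0) (nat_lit 104337946) (nat_lit 79) (nat_lit 5) (nat_lit 83) (nat_lit 4) (nat_lit 79) (nat_lit 4) (nat_lit 313) (nat_lit 236) (nat_lit 231)) (XT.lf (nat_lit 0) (nat_lit 1180908253) (nat_lit 304) (nat_lit 6886334042) (nat_lit 304) (nat_lit 2056279398) (nat_lit 75) (nat_lit 4) (nat_lit 79) (nat_lit 5) (nat_lit 79) (nat_lit 4) (nat_lit 314) (nat_lit 236) (nat_lit 230)))) (XT.nd (nat_lit 156) (nat_lit 304) (nat_lit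 0) (XT.nd (nat_lit 78) (nat_lit 228) (nat_lit 0) (XT.lf (nat_lit 0) (nat_lit 1714955959) (nat_lit 380) (nat_lit 2073659458) (nat_lit 76) (nat_lit 6496051439) (nat_lit 74) (nat_lit 5) (nat_lit 79) (nat_lit 5) (nat_lit 75) (nat_lit 4) (nat_lit 315) (nat_lit 236) (nat_lit 229)) (XT.lf (nat_lit 0) (nat_lit 4948642396) (nat_lit 228) (nat_lit 572299657) (nat_lit 304) (nat_lit 4930267908) (nat_lit 71) (nat_lit 5) (nat_lit 74) (nat_lit 5) (nat_lit 75) (nat_lit 4) (nat_lit 316) (nat_lit 236) (nat_lit 228))) (XT.nd (nat_lit 78) (nat_lit 76) (nat_lit 0) (XT.lf (nat_lit 0) (nat_lit 1474420356) (nat_lit 228) (nat_lit 7944536593) (nat_lit 228) (nat_lit 1204517754) (nat_lit 68) (nat_lit 4) (nat_lit 71) (nat_lit 5) (nat_lit 71) (nat_lit 4) (nat_lit 317) (nat_lit 236) (nat_lit 227)) (XT.lf (nat_lit 0) (nat_lit 2559922577) (nat_lit 304) (nat_lit 2187498386) (nat_lit 76) (nat_lit 6053435544) (nat_lit 67) (nat_lit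 5) (nat_lit 71) (nat_lit 5) (nat_lit 68) (nat_lit 4) (nat_lit 318) (nat_lit 236) (nat_lit 226))))))) (XT.nd (nat_lit 1092) (nat_lit 988) (nat_lit 0) (XT.nd (nat_lit 546) (nat_lit 836) (nat_lit 0) (XT.nd (nat_lit 234) (nat_lit 608) (nat_lit 0) (XT.nd (nat_lit 78) (nat_lit 304) (nat_lit 0) (XT.lf (nat_lit 0) (nat_lit 4940940909) (nat_lit 228) (nat_lit 1438587987) (nat_lit 304) (nat_lit 4604735480) (nat_lit 64) (nat_lit 5) (nat_lit 67) (nat_lit 5) (nat_lit 68) (nat_lit 4) (nat_lit 319) (nat_lit 236) (nat_lit 225)) (XT.nd (nat_lit 78) (nat_lit 76) (nat_lit 0) (XT.lf (nat_lit 0) (nat_lit 1029268509) (nat_lit 228) (nat_lit 9255257708) (nat_lit 228) (nat_lit 889578221) (nat_lit 61) (nat_lit 4) (nat_lit 64) (nat_lit 5) (nat_lit 64) (nat_lit 4) (nat_lit 320) (nat_lit 236) (nat_lit 224)) (XT.lf (nat_lit 0) (nat_lit 2875556705) (nat_lit 304) (nat_lit 3100593765) (nat_lit 76) (nat_lit 5392818140) (nat_lit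 60) (nat_lit 5) (nat_lit 64) (nat_lit 5) (nat_lit 61) (nat_lit 4) (nat_lit 321) (nat_lit 236) (nat_lit 223)))) (XT.nd (nat_lit 156) (nat_lit 456) (nat_lit 0) (XT.nd (nat_lit 78) (nat_lit 0) (nat_lit 0) (XT.lf (nat_lit 0) (nat_lit 4102310995) (nat_lit 152) (nat_lit 2595181859) (nat_lit 228) (nat_lit 4873119274) (nat_lit 58) (nat_lit 5) (nat_lit 60) (nat_lit 5) (nat_lit 61) (nat_lit 4) (nat_lit 322) (nat_lit 236) (nat_lit 222)) (XT.lf (nat_lit 0) (nat_lit 10597169422) (nat_lit 228) (nat_lit 325938984) (nat_lit 0) (nat_lit 856352089) (nat_lit 58) (nat_lit 5) (nat_lit 61) (nat_lit 4) (nat_lit 58) (nat_lit 4) (nat_lit 323) (nat_lit 236) (nat_lit 221))) (XT.nd (nat_lit 78) (nat_lit 152) (nat_lit 0) (XT.lf (nat_lit 0) (nat_lit 2586650821) (nat_lit 304) (nat_lit 4998392319) (nat_lit 76) (nat_lit 4408266091) (nat_lit 54) (nat_lit 5) (nat_lit 58) (nat_lit 5) (nat_lit 55) (nat_lit 4) (nat_lit 324) (nat_lit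 236) (nat_lit 220)) (XT.lf (nat_lit 0) (nat_lit 2239252768) (nat_lit 152) (nat_lit 4155925766) (nat_lit 228) (nat_lit 5819579246) (nat_lit 52) (nat_lit 5) (nat_lit 54) (nat_lit 5) (nat_lit 55) (nat_lit 4) (nat_lit 325) (nat_lit 236) (nat_lit 219))))) (XT.nd (nat_lit 234) (nat_lit 532) (nat_lit 0) (XT.nd (nat_lit 78) (nat_lit 304) (nat_lit 0) (XT.lf (nat_lit 0) (nat_lit 9676368757) (nat_lit 152) (nat_lit 618515950) (nat_lit 228) (nat_lit 2148700059) (nat_lit 52) (nat_lit 5) (nat_lit 54) (nat_lit 5) (nat_lit 55) (nat_lit 4) (nat_lit 326) (nat_lit 236) (nat_lit 218)) (XT.nd (nat_lit 78) (nat_lit 0) (nat_lit 0) (XT.lf (nat_lit 0) (nat_lit 1601876148) (nat_lit 304) (nat_lit 8095351527) (nat_lit 76) (nat_lit 2981575692) (nat_lit 48) (nat_lit 5) (nat_lit 52) (nat_lit 5) (nat_lit 49) (nat_lit 4) (nat_lit 327) (nat_lit 236) (nat_lit 217)) (XT.lf (nat_lit 0) (nat_lit 5384507914) (nat_lit 304) (nat_lit 855225038)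 (nat_lit 76) (nat_lit 6681864635) (nat_lit 48) (nat_lit 5) (nat_lit 52) (nat_lit 5) (nat_lit 49) (nat_lit 4) (nat_lit 328) (nat_lit 236) (nat_lit 216)))) (XT.nd (nat_lit 156) (nat_lit 228) (nat_lit 0) (XT.nd (nat_lit 78) (nat_lit 152) (nat_lit 0) (XT.lf (nat_lit 0) (nat_lit 6615988654) (nat_lit 152) (nat_lit 2658693874) (nat_lit 228) (nat_lit 3897209093) (nat_lit 46) (nat_lit 5) (nat_lit 48) (nat_lit 5) (nat_lit 49) (nat_lit 4) (nat_lit 329) (nat_lit 236) (nat_lit 215)) (XT.lf (nat_lit 0) (nat_lit 789102036) (nat_lit 152) (nat_lit 12449624403) (nat_lit 152) (nat_lit 192289914) (nat_lit 44) (nat_lit 4) (nat_lit 46) (nat_lit 5) (nat_lit 46) (nat_lit 4) (nat_lit 330) (nat_lit 236) (nat_lit 214))) (XT.nd (nat_lit 78) (nat_lit 152) (nat_lit 0) (XT.lf (nat_lit 0) (nat_lit 3577402713) (nat_lit 228) (nat_lit 5384911614) (nat_lit 76) (nat_lit 4733860003) (nat_lit 43) (nat_lit 5) (nat_lit 46) (nat_lit 5)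 (nat_lit 44) (nat_lit 4) (nat_lit 331) (nat_lit 236) (nat_lit 213)) (XT.lf (nat_lit 0) (nat_lit 2014571487) (nat_lit 152) (nat_lit 5394278079) (nat_lit 228) (nat_lit 6561838191) (nat_lit 41) (nat_lit 5) (nat_lit 43) (nat_lit 5) (nat_lit 44) (nat_lit 4) (nat_lit 332) (nat_lit 236) (nat_lit 212)))))) (XT.nd (nat_lit 546) (nat_lit 380) (nat_lit 0) (XT.nd (nat_lit 234) (nat_lit 380) (nat_lit 0) (XT.nd (nat_lit 78) (nat_lit 228) (nat_lit 0) (XT.lf (nat_lit 0) (nat_lit 9634891411) (nat_lit 152) (nat_lit 1708763040) (nat_lit 228) (nat_lit 2910162394) (nat_lit 41) (nat_lit 5) (nat_lit 43) (nat_lit 5) (nat_lit 44) (nat_lit 4) (nat_lit 333) (nat_lit 236) (nat_lit 211)) (XT.nd (nat_lit 78) (nat_lit 0) (nat_lit 0) (XT.lf (nat_lit 0) (nat_lit 817390675) (nat_lit 228) (nat_lit 11689592143) (nat_lit 76) (nat_lit 2038754349) (nat_lit 38) (nat_lit 5) (nat_lit 41) (nat_lit 5) (nat_lit 39) (nat_lit 4) (nat_lit 334)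 (nat_lit 236) (nat_lit 210)) (XT.lf (nat_lit 0) (nat_lit 4598006985) (nat_lit 228) (nat_lit 4351103672) (nat_lit 76) (nat_lit 5896478115) (nat_lit 38) (nat_lit 5) (nat_lit 41) (nat_lit 5) (nat_lit 39) (nat_lit 4) (nat_lit 335) (nat_lit 236) (nat_lit 209)))) (XT.nd (nat_lit 156) (nat_lit 228) (nat_lit 0) (XT.nd (nat_lit 78) (nat_lit 0) (nat_lit 0) (XT.lf (nat_lit 0) (nat_lit 3162409508) (nat_lit 152) (nat_lit 5297609632) (nat_lit 228) (nat_lit 6695406515) (nat_lit 36) (nat_lit 5) (nat_lit 38) (nat_lit 5) (nat_lit 39) (nat_lit 4) (nat_lit 336) (nat_lit 236) (nat_lit 208)) (XT.lf (nat_lit 0) (nat_lit 10884728952) (nat_lit 152) (nat_lit 1535479830) (nat_lit 228) (nat_lit 3054907553) (nat_lit 36) (nat_lit 5) (nat_lit 38) (nat_lit 5) (nat_lit 39) (nat_lit 4) (nat_lit 337) (nat_lit 236) (nat_lit 207))) (XT.nd (nat_lit 78) (nat_lit 0) (nat_lit 0) (XT.lf (nat_lit 0) (nat_lit 671887687) (nat_lit 228) (nat_lit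 12845710045) (nat_lit 76) (nat_lit 2286907035) (nat_lit 33) (nat_lit 5) (nat_lit 36) (nat_lit 5) (nat_lit 34) (nat_lit 4) (nat_lit 338) (nat_lit 236) (nat_lit 206)) (XT.lf (nat_lit 0) (nat_lit 4451012355) (nat_lit 228) (nat_lit 5464063814) (nat_lit 76) (nat_lit 6227759308) (nat_lit 33) (nat_lit 5) (nat_lit 36) (nat_lit 5) (nat_lit 34) (nat_lit 4) (nat_lit 339) (nat_lit 236) (nat_lit 205))))) (XT.nd (nat_lit 234) (nat_lit 152) (nat_lit 0) (XT.nd (nat_lit 78) (nat_lit 152) (nat_lit 0) (XT.lf (nat_lit 0) (nat_lit 2078303510) (nat_lit 76) (nat_lit 6226845911) (nat_lit 152) (nat_lit 8187342588) (nat_lit 32) (nat_lit 5) (nat_lit 33) (nat_lit 5) (nat_lit 34) (nat_lit 4) (nat_lit 340) (nat_lit 236) (nat_lit 204)) (XT.nd (nat_lit 78) (nat_lit 152) (nat_lit 0) (XT.lf (nat_lit 0) (nat_lit 9858659303) (nat_lit 76) (nat_lit 2413823508) (nat_lit 152) (nat_lit 4580252588) (nat_lit 32) (nat_lit 5) (nat_lit 33)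 (nat_lit 5) (nat_lit 34) (nat_lit 4) (nat_lit 341) (nat_lit 236) (nat_lit 203)) (XT.lf (nat_lit 0) (nat_lit 546073537) (nat_lit 152) (nat_lit 15776236701) (nat_lit 152) (nat_lit 902595249) (nat_lit 30) (nat_lit 4) (nat_lit 32) (nat_lit 5) (nat_lit 32) (nat_lit 4) (nat_lit 342) (nat_lit 236) (nat_lit 202)))) (XT.nd (nat_lit 156) (nat_lit 76) (nat_lit 0) (XT.nd (nat_lit 78) (nat_lit 0) (nat_lit 0) (XT.lf (nat_lit 0) (nat_lit 2868115799) (nat_lit 228) (nat_lit 9301502953) (nat_lit 76) (nat_lit 5436641256) (nat_lit 29) (nat_lit 5) (nat_lit 32) (nat_lit 5) (nat_lit 30) (nat_lit 4) (nat_lit 343) (nat_lit 236) (nat_lit 201)) (XT.lf (nat_lit 0) (nat_lit 6679247111) (nat_lit 228) (nat_lit 1807757433) (nat_lit 76) (nat_lit 9513440932) (nat_lit 29) (nat_lit 5) (nat_lit 32) (nat_lit 5) (nat_lit 30) (nat_lit 4) (nat_lit 344) (nat_lit 236) (nat_lit 200))) (XT.nd (nat_lit 78) (nat_lit 0) (nat_lit 0) (XT.lf (nat_lit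 0) (nat_lit 5933411060) (nat_lit 76) (nat_lit 4675366201) (nat_lit 152) (nat_lit 7797578285) (nat_lit 28) (nat_lit 5) (nat_lit 29) (nat_lit 5) (nat_lit 30) (nat_lit 4) (nat_lit 345) (nat_lit 236) (nat_lit 199)) (XT.lf (nat_lit 0) (nat_lit 13851613699) (nat_lit 76) (nat_lit 770519739) (nat_lit 152) (nat_lit 4203351652) (nat_lit 28) (nat_lit 5) (nat_lit 29) (nat_lit 5) (nat_lit 30) (nat_lit 4) (nat_lit 346) (nat_lit 236) (nat_lit 198))))))))
noncomputable def xc49 : XT := (XT.nd (nat_lit 2184) (nat_lit 456) (nat_lit 0) (XT.nd (nat_lit 1092) (nat_lit 380) (nat_lit 0) (XT.nd (nat_lit 546) (nat_lit 304) (nat_lit 0) (XT.nd (nat_lit 234) (nat_lit 304) (nat_lit 0) (XT.nd (nat_lit 78) (nat_lit 76) (nat_lit 0) (XT.lf (nat_lit 0) (nat_lit 2680482865) (nat_lit 152) (nat_lit 16081265282) (nat_lit 152) (nat_lit 495284420) (nat_lit 26) (nat_lit 4) (nat_lit 28) (nat_lit 5) (nat_lit 28) (nat_lit 4) (nat_lit 347)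 (nat_lit 236) (nat_lit 197)) (XT.nd (nat_lit 78) (nat_lit 0) (nat_lit 0) (XT.lf (nat_lit 0) (nat_lit 3266457239) (nat_lit 228) (nat_lit 9164558109) (nat_lit 76) (nat_lit 7269352304) (nat_lit 25) (nat_lit 5) (nat_lit 28) (nat_lit 5) (nat_lit 26) (nat_lit 4) (nat_lit 348) (nat_lit 236) (nat_lit 196)) (XT.lf (nat_lit 0) (nat_lit 7081527062) (nat_lit 228) (nat_lit 1623350293) (nat_lit 76) (nat_lit 11453483505) (nat_lit 25) (nat_lit 5) (nat_lit 28) (nat_lit 5) (nat_lit 26) (nat_lit 4) (nat_lit 349) (nat_lit 236) (nat_lit 195)))) (XT.nd (nat_lit 156) (nat_lit 228) (nat_lit 0) (XT.nd (nat_lit 78) (nat_lit 0) (nat_lit 0) (XT.lf (nat_lit 0) (nat_lit 6178998646) (nat_lit 76) (nat_lit 4843321057) (nat_lit 152) (nat_lit 9607453615) (nat_lit 24) (nat_lit 5) (nat_lit 25) (nat_lit 5) (nat_lit 26) (nat_lit 4) (nat_lit 350) (nat_lit 236) (nat_lit 194)) (XT.lf (nat_lit 0) (nat_lit 14163865412) (nat_lit 76) (nat_lit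 886324055) (nat_lit 152) (nat_lit 6066090144) (nat_lit 24) (nat_lit 5) (nat_lit 25) (nat_lit 5) (nat_lit 26) (nat_lit 4) (nat_lit 351) (nat_lit 236) (nat_lit 193))) (XT.nd (nat_lit 78) (nat_lit 76) (nat_lit 0) (XT.lf (nat_lit 0) (nat_lit 669898772) (nat_lit 152) (nat_lit 18519591641) (nat_lit 152) (nat_lit 2428189397) (nat_lit 22) (nat_lit 4) (nat_lit 24) (nat_lit 5) (nat_lit 24) (nat_lit 4) (nat_lit 352) (nat_lit 236) (nat_lit 192)) (XT.lf (nat_lit 0) (nat_lit 1326376402) (nat_lit 228) (nat_lit 13574298908) (nat_lit 76) (nat_lit 7232084086) (nat_lit 21) (nat_lit 5) (nat_lit 24) (nat_lit 5) (nat_lit 22) (nat_lit 4) (nat_lit 353) (nat_lit 236) (nat_lit 191))))) (XT.nd (nat_lit 234) (nat_lit 228) (nat_lit 0) (XT.nd (nat_lit 78) (nat_lit 76) (nat_lit 0) (XT.lf (nat_lit 0) (nat_lit 5099713970) (nat_lit 228) (nat_lit 6084754479) (nat_lit 76) (nat_lit 11479468666) (nat_lit 21) (nat_lit 5) (nat_lit 24)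 (nat_lit 5) (nat_lit 22) (nat_lit 4) (nat_lit 354) (nat_lit 236) (nat_lit 190)) (XT.nd (nat_lit 78) (nat_lit 0) (nat_lit 0) (XT.lf (nat_lit 0) (nat_lit 1581600472) (nat_lit 76) (nat_lit 7376105958) (nat_lit 152) (nat_lit 14254214812) (nat_lit 20) (nat_lit 5) (nat_lit 21) (nat_lit 5) (nat_lit 22) (nat_lit 4) (nat_lit 355) (nat_lit 236) (nat_lit 189)) (XT.lf (nat_lit 0) (nat_lit 9524710991) (nat_lit 76) (nat_lit 3424947985) (nat_lit 152) (nat_lit 10826153600) (nat_lit 20) (nat_lit 5) (nat_lit 21) (nat_lit 5) (nat_lit 22) (nat_lit 4) (nat_lit 356) (nat_lit 236) (nat_lit 188)))) (XT.nd (nat_lit 156) (nat_lit 76) (nat_lit 0) (XT.nd (nat_lit 78) (nat_lit 152) (nat_lit 0) (XT.lf (nat_lit 0) (nat_lit 17025278703) (nat_lit 152) (nat_lit 6733347795) (nat_lit 0) (nat_lit 599090766) (nat_lit 20) (nat_lit 5) (nat_lit 22) (nat_lit 4) (nat_lit 20) (nat_lit 4) (nat_lit 357) (nat_lit 236) (nat_lit 187)) (XT.lf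 (nat_lit 0) (nat_lit 919560232) (nat_lit 152) (nat_lit 20305299186) (nat_lit 152) (nat_lit 3732182373) (nat_lit 18) (nat_lit 4) (nat_lit 20) (nat_lit 5) (nat_lit 20) (nat_lit 4) (nat_lit 358) (nat_lit 236) (nat_lit 186))) (XT.nd (nat_lit 78) (nat_lit 0) (nat_lit 0) (XT.lf (nat_lit 0) (nat_lit 4230756) (nat_lit 228) (nat_lit 16707177770) (nat_lit 76) (nat_lit 8862126648) (nat_lit 17) (nat_lit 5) (nat_lit 20) (nat_lit 5) (nat_lit 18) (nat_lit 4) (nat_lit 359) (nat_lit 236) (nat_lit 185)) (XT.lf (nat_lit 0) (nat_lit 3737932533) (nat_lit 228) (nat_lit 9266257719) (nat_lit 76) (nat_lit 13204430580) (nat_lit 17) (nat_lit 5) (nat_lit 20) (nat_lit 5) (nat_lit 18) (nat_lit 4) (nat_lit 360) (nat_lit 236) (nat_lit 184)))))) (XT.nd (nat_lit 546) (nat_lit 152) (nat_lit 0) (XT.nd (nat_lit 234) (nat_lit 152) (nat_lit 0) (XT.nd (nat_lit 78) (nat_lit 76) (nat_lit 0) (XT.lf (nat_lit 0) (nat_lit 7545013735) (nat_lit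 228) (nat_lit 1672343612) (nat_lit 76) (nat_lit 17646572630) (nat_lit 17) (nat_lit 5) (nat_lit 20) (nat_lit 5) (nat_lit 18) (nat_lit 4) (nat_lit 361) (nat_lit 236) (nat_lit 183)) (XT.nd (nat_lit 78) (nat_lit 0) (nat_lit 0) (XT.lf (nat_lit 0) (nat_lit 6202227814) (nat_lit 76) (nat_lit 5286192734) (nat_lit 152) (nat_lit 16049826074) (nat_lit 16) (nat_lit 5) (nat_lit 17) (nat_lit 5) (nat_lit 18) (nat_lit 4) (nat_lit 362) (nat_lit 236) (nat_lit 182)) (XT.lf (nat_lit 0) (nat_lit 14279798389) (nat_lit 76) (nat_lit 1250155515) (nat_lit 152) (nat_lit 12703455411) (nat_lit 16) (nat_lit 5) (nat_lit 17) (nat_lit 5) (nat_lit 18) (nat_lit 4) (nat_lit 363) (nat_lit 236) (nat_lit 181)))) (XT.nd (nat_lit 156) (nat_lit 76) (nat_lit 0) (XT.nd (nat_lit 78) (nat_lit 76) (nat_lit 0) (XT.lf (nat_lit 0) (nat_lit 19684408983) (nat_lit 152) (nat_lit 6444033350) (nat_lit 0) (nat_lit 2821245238) (nat_lit 16) (nat_lit 5)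 (nat_lit 18) (nat_lit 4) (nat_lit 16) (nat_lit 4) (nat_lit 364) (nat_lit 236) (nat_lit 180)) (XT.lf (nat_lit 0) (nat_lit 1238189057) (nat_lit 76) (nat_lit 22714377224) (nat_lit 76) (nat_lit 5735226469) (nat_lit 15) (nat_lit 4) (nat_lit 16) (nat_lit 5) (nat_lit 16) (nat_lit 4) (nat_lit 365) (nat_lit 236) (nat_lit 179))) (XT.nd (nat_lit 78) (nat_lit 76) (nat_lit 0) (XT.lf (nat_lit 0) (nat_lit 9219179884) (nat_lit 76) (nat_lit 19159861419) (nat_lit 76) (nat_lit 2068101916) (nat_lit 15) (nat_lit 4) (nat_lit 16) (nat_lit 5) (nat_lit 16) (nat_lit 4) (nat_lit 366) (nat_lit 236) (nat_lit 178)) (XT.lf (nat_lit 0) (nat_lit 1641557049) (nat_lit 152) (nat_lit 13868727573) (nat_lit 76) (nat_lit 15719530356) (nat_lit 14) (nat_lit 5) (nat_lit 16) (nat_lit 5) (nat_lit 15) (nat_lit 4) (nat_lit 367) (nat_lit 236) (nat_lit 177))))) (XT.nd (nat_lit 234) (nat_lit 76) (nat_lit 0) (XT.nd (nat_lit 78) (nat_lit 76) (nat_lit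 0) (XT.lf (nat_lit 0) (nat_lit 5387803188) (nat_lit 152) (nat_lit 6369992456) (nat_lit 76) (nat_lit 20278560481) (nat_lit 14) (nat_lit 5) (nat_lit 16) (nat_lit 5) (nat_lit 15) (nat_lit 4) (nat_lit 368) (nat_lit 236) (nat_lit 176)) (XT.nd (nat_lit 78) (nat_lit 0) (nat_lit 0) (XT.lf (nat_lit 0) (nat_lit 1320440723) (nat_lit 76) (nat_lit 7906518198) (nat_lit 152) (nat_lit 23640728093) (nat_lit 13) (nat_lit 5) (nat_lit 14) (nat_lit 5) (nat_lit 15) (nat_lit 4) (nat_lit 369) (nat_lit 236) (nat_lit 175)) (XT.lf (nat_lit 0) (nat_lit 9313713685) (nat_lit 76) (nat_lit 3900104534) (nat_lit 152) (nat_lit 20509172647) (nat_lit 13) (nat_lit 5) (nat_lit 14) (nat_lit 5) (nat_lit 15) (nat_lit 4) (nat_lit 370) (nat_lit 236) (nat_lit 174)))) (XT.nd (nat_lit 156) (nat_lit 76) (nat_lit 0) (XT.nd (nat_lit 78) (nat_lit 0) (nat_lit 0) (XT.lf (nat_lit 0) (nat_lit 17291342340) (nat_lit 152) (nat_lit 17116781561) (nat_lit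 0) (nat_lit 196706809) (nat_lit 13) (nat_lit 5) (nat_lit 15) (nat_lit 4) (nat_lit 13) (nat_lit 4) (nat_lit 371) (nat_lit 236) (nat_lit 173)) (XT.lf (nat_lit 0) (nat_lit 21499595207) (nat_lit 152) (nat_lit 9699888385) (nat_lit 0) (nat_lit 4313398459) (nat_lit 13) (nat_lit 5) (nat_lit 15) (nat_lit 4) (nat_lit 13) (nat_lit 4) (nat_lit 372) (nat_lit 236) (nat_lit 172))) (XT.nd (nat_lit 78) (nat_lit 76) (nat_lit 0) (XT.lf (nat_lit 0) (nat_lit 25804763745) (nat_lit 152) (nat_lit 2114626684) (nat_lit 0) (nat_lit 8529672611) (nat_lit 13) (nat_lit 5) (nat_lit 15) (nat_lit 4) (nat_lit 13) (nat_lit 4) (nat_lit 373) (nat_lit 236) (nat_lit 171)) (XT.lf (nat_lit 0) (nat_lit 5757990577) (nat_lit 76) (nat_lit 24507968503) (nat_lit 76) (nat_lit 7146572140) (nat_lit 12) (nat_lit 4) (nat_lit 13) (nat_lit 5) (nat_lit 13) (nat_lit 4) (nat_lit 374) (nat_lit 236) (nat_lit 170))))))) (XT.nd (nat_lit 1092) (nat_lit 228)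 (nat_lit 0) (XT.nd (nat_lit 546) (nat_lit 76) (nat_lit 0) (XT.nd (nat_lit 234) (nat_lit 76) (nat_lit 0) (XT.nd (nat_lit 78) (nat_lit 76) (nat_lit 0) (XT.lf (nat_lit 0) (nat_lit 13858088011) (nat_lit 76) (nat_lit 20996107404) (nat_lit 76) (nat_lit 3550919556) (nat_lit 12) (nat_lit 4) (nat_lit 13) (nat_lit 5) (nat_lit 13) (nat_lit 4) (nat_lit 375) (nat_lit 236) (nat_lit 169)) (XT.nd (nat_lit 78) (nat_lit 0) (nat_lit 0) (XT.lf (nat_lit 0) (nat_lit 122018300) (nat_lit 152) (nat_lit 17278841653) (nat_lit 76) (nat_lit 22027407710) (nat_lit 11) (nat_lit 5) (nat_lit 13) (nat_lit 5) (nat_lit 12) (nat_lit 4) (nat_lit 376) (nat_lit 236) (nat_lit 168)) (XT.lf (nat_lit 0) (nat_lit 3806971920) (nat_lit 152) (nat_lit 9877367315) (nat_lit 76) (nat_lit 26797532075) (nat_lit 11) (nat_lit 5) (nat_lit 13) (nat_lit 5) (nat_lit 12) (nat_lit 4) (nat_lit 377) (nat_lit 236) (nat_lit 167)))) (XT.nd (nat_lit 156) (nat_lit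 0) (nat_lit 0) (XT.nd (nat_lit 78) (nat_lit 76) (nat_lit 0) (XT.lf (nat_lit 0) (nat_lit 7576452396) (nat_lit 152) (nat_lit 2302003027) (nat_lit 76) (nat_lit 31689415120) (nat_lit 11) (nat_lit 5) (nat_lit 13) (nat_lit 5) (nat_lit 12) (nat_lit 4) (nat_lit 378) (nat_lit 236) (nat_lit 166)) (XT.lf (nat_lit 0) (nat_lit 5562413176) (nat_lit 76) (nat_lit 5924809590) (nat_lit 152) (nat_lit 31198387449) (nat_lit 10) (nat_lit 5) (nat_lit 11) (nat_lit 5) (nat_lit 12) (nat_lit 4) (nat_lit 379) (nat_lit 236) (nat_lit 165))) (XT.nd (nat_lit 78) (nat_lit 0) (nat_lit 0) (XT.lf (nat_lit 0) (nat_lit 13663657293) (nat_lit 76) (nat_lit 1849931673) (nat_lit 152) (nat_lit 28323351363) (nat_lit 10) (nat_lit 5) (nat_lit 11) (nat_lit 5) (nat_lit 12) (nat_lit 4) (nat_lit 380) (nat_lit 236) (nat_lit 164)) (XT.lf (nat_lit 0) (nat_lit 19658864200) (nat_lit 152) (nat_lit 23082913932) (nat_lit 0) (nat_lit 2281094919) (nat_lit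 10) (nat_lit 5) (nat_lit 12) (nat_lit 4) (nat_lit 10) (nat_lit 4) (nat_lit 381) (nat_lit 236) (nat_lit 163))))) (XT.nd (nat_lit 234) (nat_lit 76) (nat_lit 0) (XT.nd (nat_lit 78) (nat_lit 0) (nat_lit 0) (XT.lf (nat_lit 0) (nat_lit 23923081220) (nat_lit 152) (nat_lit 15842304926) (nat_lit 0) (nat_lit 6479166168) (nat_lit 10) (nat_lit 5) (nat_lit 12) (nat_lit 4) (nat_lit 10) (nat_lit 4) (nat_lit 382) (nat_lit 236) (nat_lit 162)) (XT.nd (nat_lit 78) (nat_lit 0) (nat_lit 0) (XT.lf (nat_lit 0) (nat_lit 28292183367) (nat_lit 152) (nat_lit 8427346598) (nat_lit 0) (nat_lit 10784049119) (nat_lit 10) (nat_lit 5) (nat_lit 12) (nat_lit 4) (nat_lit 10) (nat_lit 4) (nat_lit 383) (nat_lit 236) (nat_lit 161)) (XT.lf (nat_lit 0) (nat_lit 32769988302) (nat_lit 152) (nat_lit 831559858) (nat_lit 0) (nat_lit 15199505320) (nat_lit 10) (nat_lit 5) (nat_lit 12) (nat_lit 4) (nat_lit 10) (nat_lit 4) (nat_lit 384) (nat_lit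 236) (nat_lit 160)))) (XT.nd (nat_lit 156) (nat_lit 0) (nat_lit 0) (XT.nd (nat_lit 78) (nat_lit 0) (nat_lit 0) (XT.lf (nat_lit 0) (nat_lit 7090044697) (nat_lit 76) (nat_lit 30338517820) (nat_lit 76) (nat_lit 12707502087) (nat_lit 9) (nat_lit 4) (nat_lit 10) (nat_lit 5) (nat_lit 10) (nat_lit 4) (nat_lit 385) (nat_lit 236) (nat_lit 159)) (XT.lf (nat_lit 0) (nat_lit 15226331614) (nat_lit 76) (nat_lit 26987488719) (nat_lit 76) (nat_lit 9297703325) (nat_lit 9) (nat_lit 4) (nat_lit 10) (nat_lit 5) (nat_lit 10) (nat_lit 4) (nat_lit 386) (nat_lit 236) (nat_lit 158))) (XT.nd (nat_lit 78) (nat_lit 0) (nat_lit 0) (XT.lf (nat_lit 0) (nat_lit 23567860598) (nat_lit 76) (nat_lit 23553929898) (nat_lit 76) (nat_lit 5807086580) (nat_lit 9) (nat_lit 4) (nat_lit 10) (nat_lit 5) (nat_lit 10) (nat_lit 4) (nat_lit 387) (nat_lit 236) (nat_lit 157)) (XT.lf (nat_lit 0) (nat_lit 32121920363) (nat_lit 76) (nat_lit 20034841160)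 (nat_lit 76) (nat_lit 2232601800) (nat_lit 9) (nat_lit 4) (nat_lit 10) (nat_lit 5) (nat_lit 10) (nat_lit 4) (nat_lit 388) (nat_lit 236) (nat_lit 156)))))) (XT.nd (nat_lit 546) (nat_lit 76) (nat_lit 0) (XT.nd (nat_lit 234) (nat_lit 0) (nat_lit 0) (XT.nd (nat_lit 78) (nat_lit 76) (nat_lit 0) (XT.lf (nat_lit 0) (nat_lit 1400991866) (nat_lit 152) (nat_lit 15012008436) (nat_lit 76) (nat_lit 39480846193) (nat_lit 8) (nat_lit 5) (nat_lit 10) (nat_lit 5) (nat_lit 9) (nat_lit 4) (nat_lit 389) (nat_lit 236) (nat_lit 155)) (XT.nd (nat_lit 78) (nat_lit 76) (nat_lit 0) (XT.lf (nat_lit 0) (nat_lit 5079450204) (nat_lit 152) (nat_lit 7596954092) (nat_lit 76) (nat_lit 44766979466) (nat_lit 8) (nat_lit 5) (nat_lit 10) (nat_lit 5) (nat_lit 9) (nat_lit 4) (nat_lit 390) (nat_lit 236) (nat_lit 154)) (XT.lf (nat_lit 0) (nat_lit 5773032) (nat_lit 76) (nat_lit 8843835965) (nat_lit 152) (nat_lit 50190362261) (nat_lit 7)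 (nat_lit 5) (nat_lit 8) (nat_lit 5) (nat_lit 9) (nat_lit 4) (nat_lit 391) (nat_lit 236) (nat_lit 153)))) (XT.nd (nat_lit 156) (nat_lit 0) (nat_lit 0) (XT.nd (nat_lit 78) (nat_lit 0) (nat_lit 0) (XT.lf (nat_lit 0) (nat_lit 7957762653) (nat_lit 76) (nat_lit 4833328259) (nat_lit 152) (nat_lit 47891623297) (nat_lit 7) (nat_lit 5) (nat_lit 8) (nat_lit 5) (nat_lit 9) (nat_lit 4) (nat_lit 392) (nat_lit 236) (nat_lit 152)) (XT.lf (nat_lit 0) (nat_lit 16114768827) (nat_lit 76) (nat_lit 718091192) (nat_lit 152) (nat_lit 45542422401) (nat_lit 7) (nat_lit 5) (nat_lit 8) (nat_lit 5) (nat_lit 9) (nat_lit 4) (nat_lit 393) (nat_lit 236) (nat_lit 151))) (XT.nd (nat_lit 78) (nat_lit 0) (nat_lit 0) (XT.lf (nat_lit 0) (nat_lit 21012144694) (nat_lit 152) (nat_lit 39668932530) (nat_lit 0) (nat_lit 3437066707) (nat_lit 7) (nat_lit 5) (nat_lit 9) (nat_lit 4) (nat_lit 7) (nat_lit 4) (nat_lit 394) (nat_lit 236) (nat_lit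 150)) (XT.lf (nat_lit 0) (nat_lit 25306850057) (nat_lit 152) (nat_lit 32918702052) (nat_lit 0) (nat_lit 7688041923) (nat_lit 7) (nat_lit 5) (nat_lit 9) (nat_lit 4) (nat_lit 7) (nat_lit 4) (nat_lit 395) (nat_lit 236) (nat_lit 149))))) (XT.nd (nat_lit 234) (nat_lit 76) (nat_lit 0) (XT.nd (nat_lit 78) (nat_lit 0) (nat_lit 0) (XT.lf (nat_lit 0) (nat_lit 29713826033) (nat_lit 152) (nat_lit 25997021169) (nat_lit 0) (nat_lit 12052561445) (nat_lit 7) (nat_lit 5) (nat_lit 9) (nat_lit 4) (nat_lit 7) (nat_lit 4) (nat_lit 396) (nat_lit 236) (nat_lit 148)) (XT.nd (nat_lit 78) (nat_lit 0) (nat_lit 0) (XT.lf (nat_lit 0) (nat_lit 34236923376) (nat_lit 152) (nat_lit 18897841808) (nat_lit 0) (nat_lit 16534438930) (nat_lit 7) (nat_lit 5) (nat_lit 9) (nat_lit 4) (nat_lit 7) (nat_lit 4) (nat_lit 397) (nat_lit 236) (nat_lit 147)) (XT.lf (nat_lit 0) (nat_lit 38880094308) (nat_lit 152) (nat_lit 11614960804) (nat_lit 0)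 (nat_lit 21137590583) (nat_lit 7) (nat_lit 5) (nat_lit 9) (nat_lit 4) (nat_lit 7) (nat_lit 4) (nat_lit 398) (nat_lit 236) (nat_lit 146)))) (XT.nd (nat_lit 156) (nat_lit 0) (nat_lit 0) (XT.nd (nat_lit 78) (nat_lit 76) (nat_lit 0) (XT.lf (nat_lit 0) (nat_lit 43647395968) (nat_lit 152) (nat_lit 4142014475) (nat_lit 0) (nat_lit 25866038574) (nat_lit 7) (nat_lit 5) (nat_lit 9) (nat_lit 4) (nat_lit 7) (nat_lit 4) (nat_lit 399) (nat_lit 236) (nat_lit 145)) (XT.lf (nat_lit 0) (nat_lit 3597731640) (nat_lit 76) (nat_lit 44979845917) (nat_lit 76) (nat_lit 27160766514) (nat_lit 6) (nat_lit 4) (nat_lit 7) (nat_lit 5) (nat_lit 7) (nat_lit 4) (nat_lit 400) (nat_lit 236) (nat_lit 144))) (XT.nd (nat_lit 78) (nat_lit 0) (nat_lit 0) (XT.lf (nat_lit 0) (nat_lit 11627254594) (nat_lit 76) (nat_lit 42055679682) (nat_lit 76) (nat_lit 24199976968) (nat_lit 6) (nat_lit 4) (nat_lit 7) (nat_lit 5) (nat_lit 7) (nat_lit 4)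 (nat_lit 401) (nat_lit 236) (nat_lit 143)) (XT.lf (nat_lit 0) (nat_lit 19871136262) (nat_lit 76) (nat_lit 39056182866) (nat_lit 76) (nat_lit 21164923541) (nat_lit 6) (nat_lit 4) (nat_lit 7) (nat_lit 5) (nat_lit 7) (nat_lit 4) (nat_lit 402) (nat_lit 236) (nat_lit 142))))))))
noncomputable def xc50 : XT := (XT.nd (nat_lit 34476) (nat_lit 0) (nat_lit 1520) (XT.nd (nat_lit 33384) (nat_lit 0) (nat_lit 4104) (XT.nd (nat_lit 468) (nat_lit 152) (nat_lit 0) (XT.nd (nat_lit 234) (nat_lit 0) (nat_lit 0) (XT.nd (nat_lit 78) (nat_lit 0) (nat_lit 0) (XT.lf (nat_lit 0) (nat_lit 28336580037) (nat_lit 76) (nat_lit 35978734550) (nat_lit 76) (nat_lit 18052954242) (nat_lit 6) (nat_lit 4) (nat_lit 7) (nat_lit 5) (nat_lit 7) (nat_lit 4) (nat_lit 403) (nat_lit 236) (nat_lit 141)) (XT.nd (nat_lit 78) (nat_lit 0) (nat_lit 0) (XT.lf (nat_lit 0) (nat_lit 37030982909) (nat_lit 76) (nat_lit 32820645700) (nat_lit 76) (nat_lit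 14861349877) (nat_lit 6) (nat_lit 4) (nat_lit 7) (nat_lit 5) (nat_lit 7) (nat_lit 4) (nat_lit 404) (nat_lit 236) (nat_lit 140)) (XT.lf (nat_lit 0) (nat_lit 45961941928) (nat_lit 76) (nat_lit 29579156823) (nat_lit 76) (nat_lit 11587321663) (nat_lit 6) (nat_lit 4) (nat_lit 7) (nat_lit 5) (nat_lit 7) (nat_lit 4) (nat_lit 405) (nat_lit 236) (nat_lit 139)))) (XT.nd (nat_lit 78) (nat_lit 0) (nat_lit 0) (XT.lf (nat_lit 0) (nat_lit 55137260845) (nat_lit 76) (nat_lit 26251435549) (nat_lit 76) (nat_lit 8228008800) (nat_lit 6) (nat_lit 4) (nat_lit 7) (nat_lit 5) (nat_lit 7) (nat_lit 4) (nat_lit 406) (nat_lit 236) (nat_lit 138)) (XT.nd (nat_lit 78) (nat_lit 0) (nat_lit 0) (XT.lf (nat_lit 0) (nat_lit 64564956929) (nat_lit 76) (nat_lit 22834574161) (nat_lit 76) (nat_lit 4780475966) (nat_lit 6) (nat_lit 4) (nat_lit 7) (nat_lit 5) (nat_lit 7) (nat_lit 4) (nat_lit 407) (nat_lit 236) (nat_lit 137)) (XT.lf (nat_lit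 0) (nat_lit 74253267974) (nat_lit 76) (nat_lit 19325587051) (nat_lit 76) (nat_lit 1241710754) (nat_lit 6) (nat_lit 4) (nat_lit 7) (nat_lit 5) (nat_lit 7) (nat_lit 4) (nat_lit 408) (nat_lit 236) (nat_lit 136))))) (XT.nd (nat_lit 32604) (nat_lit 0) (nat_lit 6688) (XT.nd (nat_lit 78) (nat_lit 76) (nat_lit 0) (XT.lf (nat_lit 0) (nat_lit 2344714543) (nat_lit 152) (nat_lit 13353016552) (nat_lit 76) (nat_lit 81842267929) (nat_lit 5) (nat_lit 5) (nat_lit 7) (nat_lit 5) (nat_lit 6) (nat_lit 4) (nat_lit 409) (nat_lit 236) (nat_lit 135)) (XT.nd (nat_lit 78) (nat_lit 76) (nat_lit 0) (XT.lf (nat_lit 0) (nat_lit 6002506083) (nat_lit 152) (nat_lit 5955768444) (nat_lit 76) (nat_lit 88382712493) (nat_lit 5) (nat_lit 5) (nat_lit 7) (nat_lit 5) (nat_lit 6) (nat_lit 4) (nat_lit 410) (nat_lit 236) (nat_lit 134)) (XT.lf (nat_lit 0) (nat_lit 1675542075) (nat_lit 76) (nat_lit 8099654501) (nat_lit 152) (nat_lit 93450655549)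 (nat_lit 4) (nat_lit 5) (nat_lit 5) (nat_lit 5) (nat_lit 6) (nat_lit 4) (nat_lit 411) (nat_lit 236) (nat_lit 133)))) (XT.nd (nat_lit 156) (nat_lit 304) (nat_lit 0) (XT.nd (nat_lit 78) (nat_lit 380) (nat_lit 0) (XT.lf (nat_lit 0) (nat_lit 2011452157) (nat_lit 380) (nat_lit 1246801987) (nat_lit 380) (nat_lit 1246801987) (nat_lit 101) (nat_lit 4) (nat_lit 106) (nat_lit 5) (nat_lit 106) (nat_lit 4) (nat_lit 306) (nat_lit 237) (nat_lit 237)) (XT.lf (nat_lit 0) (nat_lit 1245343668) (nat_lit 380) (nat_lit 7589889194) (nat_lit 0) (nat_lit 299428239) (nat_lit 96) (nat_lit 5) (nat_lit 101) (nat_lit 4) (nat_lit 96) (nat_lit 4) (nat_lit 307) (nat_lit 237) (nat_lit 236))) (XT.nd (nat_lit 78) (nat_lit 304) (nat_lit 0) (XT.lf (nat_lit 0) (nat_lit 5028882127) (nat_lit 380) (nat_lit 1069329353) (nat_lit 0) (nat_lit 3164602203) (nat_lit 96) (nat_lit 5) (nat_lit 101) (nat_lit 4) (nat_lit 96) (nat_lit 4) (nat_lit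 308) (nat_lit 237) (nat_lit 235)) (XT.lf (nat_lit 0) (nat_lit 5627573262) (nat_lit 304) (nat_lit 3262150672) (nat_lit 304) (nat_lit 506254733) (nat_lit 92) (nat_lit 4) (nat_lit 96) (nat_lit 5) (nat_lit 96) (nat_lit 4) (nat_lit 309) (nat_lit 237) (nat_lit 234)))))) (XT.nd (nat_lit 546) (nat_lit 988) (nat_lit 0) (XT.nd (nat_lit 234) (nat_lit 836) (nat_lit 0) (XT.nd (nat_lit 78) (nat_lit 380) (nat_lit 0) (XT.lf (nat_lit 0) (nat_lit 2909425686) (nat_lit 304) (nat_lit 307800048) (nat_lit 380) (nat_lit 6316558165) (nat_lit 87) (nat_lit 5) (nat_lit 91) (nat_lit 5) (nat_lit 92) (nat_lit 4) (nat_lit 310) (nat_lit 237) (nat_lit 233)) (XT.nd (nat_lit 78) (nat_lit 76) (nat_lit 0) (XT.lf (nat_lit 0) (nat_lit 28369233) (nat_lit 304) (nat_lit 6990005007) (nat_lit 304) (nat_lit 2657989315) (nat_lit 83) (nat_lit 4) (nat_lit 87) (nat_lit 5) (nat_lit 87) (nat_lit 4) (nat_lit 311) (nat_lit 237) (nat_lit 232)) (XT.lf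 (nat_lit 0) (nat_lit 1070822166) (nat_lit 380) (nat_lit 2950435973) (nat_lit 76) (nat_lit 5802248206) (nat_lit 82) (nat_lit 5) (nat_lit 87) (nat_lit 5) (nat_lit 83) (nat_lit 4) (nat_lit 312) (nat_lit 237) (nat_lit 231)))) (XT.nd (nat_lit 156) (nat_lit 304) (nat_lit 0) (XT.nd (nat_lit 78) (nat_lit 304) (nat_lit 0) (XT.lf (nat_lit 0) (nat_lit 3869759473) (nat_lit 228) (nat_lit 939639665) (nat_lit 304) (nat_lit 5166403515) (nat_lit 79) (nat_lit 5) (nat_lit 82) (nat_lit 5) (nat_lit 83) (nat_lit 4) (nat_lit 313) (nat_lit 237) (nat_lit 230)) (XT.lf (nat_lit 0) (nat_lit 686449505) (nat_lit 304) (nat_lit 7946862757) (nat_lit 304) (nat_lit 1500226685) (nat_lit 75) (nat_lit 4) (nat_lit 79) (nat_lit 5) (nat_lit 79) (nat_lit 4) (nat_lit 314) (nat_lit 237) (nat_lit 229))) (XT.nd (nat_lit 78) (nat_lit 228) (nat_lit 0) (XT.lf (nat_lit 0) (nat_lit 2218470138) (nat_lit 380) (nat_lit 2646991605) (nat_lit 76) (nat_lit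 5430343513) (nat_lit 74) (nat_lit 5) (nat_lit 79) (nat_lit 5) (nat_lit 75) (nat_lit 4) (nat_lit 315) (nat_lit 237) (nat_lit 228)) (XT.lf (nat_lit 0) (nat_lit 4301011446) (nat_lit 228) (nat_lit 1676745630) (nat_lit 304) (nat_lit 4486022220) (nat_lit 71) (nat_lit 5) (nat_lit 74) (nat_lit 5) (nat_lit 75) (nat_lit 4) (nat_lit 316) (nat_lit 237) (nat_lit 227))))) (XT.nd (nat_lit 234) (nat_lit 456) (nat_lit 0) (XT.nd (nat_lit 78) (nat_lit 304) (nat_lit 0) (XT.lf (nat_lit 0) (nat_lit 748594538) (nat_lit 228) (nat_lit 9069498398) (nat_lit 228) (nat_lit 819710563) (nat_lit 68) (nat_lit 4) (nat_lit 71) (nat_lit 5) (nat_lit 71) (nat_lit 4) (nat_lit 317) (nat_lit 237) (nat_lit 226)) (XT.nd (nat_lit 78) (nat_lit 228) (nat_lit 0) (XT.lf (nat_lit 0) (nat_lit 2897293229) (nat_lit 304) (nat_lit 2993644111) (nat_lit 76) (nat_lit 4925362239) (nat_lit 67) (nat_lit 5) (nat_lit 71) (nat_lit 5) (nat_lit 68) (nat_lit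 4) (nat_lit 318) (nat_lit 237) (nat_lit 225)) (XT.lf (nat_lit 0) (nat_lit 4057069902) (nat_lit 228) (nat_lit 2612568713) (nat_lit 304) (nat_lit 4331513283) (nat_lit 64) (nat_lit 5) (nat_lit 67) (nat_lit 5) (nat_lit 68) (nat_lit 4) (nat_lit 319) (nat_lit 237) (nat_lit 224)))) (XT.nd (nat_lit 156) (nat_lit 152) (nat_lit 0) (XT.nd (nat_lit 78) (nat_lit 76) (nat_lit 0) (XT.lf (nat_lit 0) (nat_lit 60033028) (nat_lit 228) (nat_lit 10455581453) (nat_lit 228) (nat_lit 677173967) (nat_lit 61) (nat_lit 4) (nat_lit 64) (nat_lit 5) (nat_lit 64) (nat_lit 4) (nat_lit 320) (nat_lit 237) (nat_lit 223)) (XT.lf (nat_lit 0) (nat_lit 3045536824) (nat_lit 304) (nat_lit 4151593354) (nat_lit 76) (nat_lit 4191633933) (nat_lit 60) (nat_lit 5) (nat_lit 64) (nat_lit 5) (nat_lit 61) (nat_lit 4) (nat_lit 321) (nat_lit 237) (nat_lit 222))) (XT.nd (nat_lit 78) (nat_lit 0) (nat_lit 0) (XT.lf (nat_lit 0) (nat_lit 2969954531) (nat_lit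 152) (nat_lit 3849469109) (nat_lit 228) (nat_lit 4772449121) (nat_lit 58) (nat_lit 5) (nat_lit 60) (nat_lit 5) (nat_lit 61) (nat_lit 4) (nat_lit 322) (nat_lit 237) (nat_lit 221)) (XT.lf (nat_lit 0) (nat_lit 10271132988) (nat_lit 152) (nat_lit 402925577) (nat_lit 228) (nat_lit 1128036777) (nat_lit 58) (nat_lit 5) (nat_lit 60) (nat_lit 5) (nat_lit 61) (nat_lit 4) (nat_lit 323) (nat_lit 237) (nat_lit 220))))))) (XT.nd (nat_lit 1092) (nat_lit 912) (nat_lit 0) (XT.nd (nat_lit 546) (nat_lit 760) (nat_lit 0) (XT.nd (nat_lit 234) (nat_lit 456) (nat_lit 0) (XT.nd (nat_lit 78) (nat_lit 152) (nat_lit 0) (XT.lf (nat_lit 0) (nat_lit 2587309049) (nat_lit 304) (nat_lit 6306677244) (nat_lit 76) (nat_lit 3123539904) (nat_lit 54) (nat_lit 5) (nat_lit 58) (nat_lit 5) (nat_lit 55) (nat_lit 4) (nat_lit 324) (nat_lit 237) (nat_lit 219)) (XT.nd (nat_lit 78) (nat_lit 0) (nat_lit 0) (XT.lf (nat_lit 0) (nat_lit 845757701)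 (nat_lit 152) (nat_lit 5501020554) (nat_lit 228) (nat_lit 5893689261) (nat_lit 52) (nat_lit 5) (nat_lit 54) (nat_lit 5) (nat_lit 55) (nat_lit 4) (nat_lit 325) (nat_lit 237) (nat_lit 218)) (XT.lf (nat_lit 0) (nat_lit 8225424461) (nat_lit 152) (nat_lit 1985883091) (nat_lit 228) (nat_lit 2259062660) (nat_lit 52) (nat_lit 5) (nat_lit 54) (nat_lit 5) (nat_lit 55) (nat_lit 4) (nat_lit 326) (nat_lit 237) (nat_lit 217)))) (XT.nd (nat_lit 156) (nat_lit 152) (nat_lit 0) (XT.nd (nat_lit 78) (nat_lit 0) (nat_lit 0) (XT.lf (nat_lit 0) (nat_lit 1430611853) (nat_lit 304) (nat_lit 9673823323) (nat_lit 76) (nat_lit 1603096352) (nat_lit 48) (nat_lit 5) (nat_lit 52) (nat_lit 5) (nat_lit 49) (nat_lit 4) (nat_lit 327) (nat_lit 237) (nat_lit 216)) (XT.lf (nat_lit 0) (nat_lit 5178990892) (nat_lit 304) (nat_lit 2490454647) (nat_lit 76) (nat_lit 5281926463) (nat_lit 48) (nat_lit 5) (nat_lit 52) (nat_lit 5) (nat_lit 49)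 (nat_lit 4) (nat_lit 328) (nat_lit 237) (nat_lit 215))) (XT.nd (nat_lit 78) (nat_lit 0) (nat_lit 0) (XT.lf (nat_lit 0) (nat_lit 4892013406) (nat_lit 152) (nat_lit 4127325121) (nat_lit 228) (nat_lit 4183840446) (nat_lit 46) (nat_lit 5) (nat_lit 48) (nat_lit 5) (nat_lit 49) (nat_lit 4) (nat_lit 329) (nat_lit 237) (nat_lit 214)) (XT.lf (nat_lit 0) (nat_lit 12436241586) (nat_lit 152) (nat_lit 497197410) (nat_lit 228) (nat_lit 530380611) (nat_lit 46) (nat_lit 5) (nat_lit 48) (nat_lit 5) (nat_lit 49) (nat_lit 4) (nat_lit 330) (nat_lit 237) (nat_lit 213))))) (XT.nd (nat_lit 234) (nat_lit 380) (nat_lit 0) (XT.nd (nat_lit 78) (nat_lit 152) (nat_lit 0) (XT.lf (nat_lit 0) (nat_lit 3198031342) (nat_lit 228) (nat_lit 7302505315) (nat_lit 76) (nat_lit 3229991356) (nat_lit 43) (nat_lit 5) (nat_lit 46) (nat_lit 5) (nat_lit 44) (nat_lit 4) (nat_lit 331) (nat_lit 237) (nat_lit 212)) (XT.nd (nat_lit 78) (nat_lit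 0) (nat_lit 0) (XT.lf (nat_lit 0) (nat_lit 3871508) (nat_lit 152) (nat_lit 6974312945) (nat_lit 228) (nat_lit 7028411906) (nat_lit 41) (nat_lit 5) (nat_lit 43) (nat_lit 5) (nat_lit 44) (nat_lit 4) (nat_lit 332) (nat_lit 237) (nat_lit 211)) (XT.lf (nat_lit 0) (nat_lit 7570849292) (nat_lit 152) (nat_lit 3310592663) (nat_lit 228) (nat_lit 3409245551) (nat_lit 41) (nat_lit 5) (nat_lit 43) (nat_lit 5) (nat_lit 44) (nat_lit 4) (nat_lit 333) (nat_lit 237) (nat_lit 210)))) (XT.nd (nat_lit 156) (nat_lit 152) (nat_lit 0) (XT.nd (nat_lit 78) (nat_lit 0) (nat_lit 0) (XT.lf (nat_lit 0) (nat_lit 260175473) (nat_lit 228) (nat_lit 13903616018) (nat_lit 76) (nat_lit 421011128) (nat_lit 38) (nat_lit 5) (nat_lit 41) (nat_lit 5) (nat_lit 39) (nat_lit 4) (nat_lit 334) (nat_lit 237) (nat_lit 209)) (XT.lf (nat_lit 0) (nat_lit 4010042197) (nat_lit 228) (nat_lit 6617758062) (nat_lit 76) (nat_lit 4257790764) (nat_lit 38)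 (nat_lit 5) (nat_lit 41) (nat_lit 5) (nat_lit 39) (nat_lit 4) (nat_lit 335) (nat_lit 237) (nat_lit 208))) (XT.nd (nat_lit 78) (nat_lit 0) (nat_lit 0) (XT.lf (nat_lit 0) (nat_lit 798529724) (nat_lit 152) (nat_lit 7020947604) (nat_lit 228) (nat_lit 7377541782) (nat_lit 36) (nat_lit 5) (nat_lit 38) (nat_lit 5) (nat_lit 39) (nat_lit 4) (nat_lit 336) (nat_lit 237) (nat_lit 207)) (XT.lf (nat_lit 0) (nat_lit 8470252537) (nat_lit 152) (nat_lit 3279943632) (nat_lit 228) (nat_lit 3767411232) (nat_lit 36) (nat_lit 5) (nat_lit 38) (nat_lit 5) (nat_lit 39) (nat_lit 4) (nat_lit 337) (nat_lit 237) (nat_lit 206)))))) (XT.nd (nat_lit 546) (nat_lit 380) (nat_lit 0) (XT.nd (nat_lit 234) (nat_lit 304) (nat_lit 0) (XT.nd (nat_lit 78) (nat_lit 76) (nat_lit 0) (XT.lf (nat_lit 0) (nat_lit 426027793) (nat_lit 152) (nat_lit 15323931383) (nat_lit 152) (nat_lit 99347073) (nat_lit 34) (nat_lit 4) (nat_lit 36) (nat_lit 5) (nat_lit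 36) (nat_lit 4) (nat_lit 338) (nat_lit 237) (nat_lit 205)) (XT.nd (nat_lit 78) (nat_lit 0) (nat_lit 0) (XT.lf (nat_lit 0) (nat_lit 3652977659) (nat_lit 228) (nat_lit 8090570580) (nat_lit 76) (nat_lit 4444991871) (nat_lit 33) (nat_lit 5) (nat_lit 36) (nat_lit 5) (nat_lit 34) (nat_lit 4) (nat_lit 339) (nat_lit 237) (nat_lit 204)) (XT.lf (nat_lit 0) (nat_lit 7459235290) (nat_lit 228) (nat_lit 637198577) (nat_lit 76) (nat_lit 8443211141) (nat_lit 33) (nat_lit 5) (nat_lit 36) (nat_lit 5) (nat_lit 34) (nat_lit 4) (nat_lit 340) (nat_lit 237) (nat_lit 203)))) (XT.nd (nat_lit 156) (nat_lit 228) (nat_lit 0) (XT.nd (nat_lit 78) (nat_lit 0) (nat_lit 0) (XT.lf (nat_lit 0) (nat_lit 7082510482) (nat_lit 76) (nat_lit 4310261237) (nat_lit 152) (nat_lit 5508142223) (nat_lit 32) (nat_lit 5) (nat_lit 33) (nat_lit 5) (nat_lit 34) (nat_lit 4) (nat_lit 341) (nat_lit 237) (nat_lit 202)) (XT.lf (nat_lit 0) (nat_lit 14952339340)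 (nat_lit 76) (nat_lit 444111950) (nat_lit 152) (nat_lit 1878028473) (nat_lit 32) (nat_lit 5) (nat_lit 33) (nat_lit 5) (nat_lit 34) (nat_lit 4) (nat_lit 342) (nat_lit 237) (nat_lit 201))) (XT.nd (nat_lit 78) (nat_lit 0) (nat_lit 0) (XT.lf (nat_lit 0) (nat_lit 1857579478) (nat_lit 228) (nat_lit 12299592643) (nat_lit 76) (nat_lit 3500578223) (nat_lit 29) (nat_lit 5) (nat_lit 32) (nat_lit 5) (nat_lit 30) (nat_lit 4) (nat_lit 343) (nat_lit 237) (nat_lit 200)) (XT.lf (nat_lit 0) (nat_lit 5642616860) (nat_lit 228) (nat_lit 4851744469) (nat_lit 76) (nat_lit 7558367639) (nat_lit 29) (nat_lit 5) (nat_lit 32) (nat_lit 5) (nat_lit 30) (nat_lit 4) (nat_lit 344) (nat_lit 237) (nat_lit 199))))) (XT.nd (nat_lit 234) (nat_lit 304) (nat_lit 0) (XT.nd (nat_lit 78) (nat_lit 0) (nat_lit 0) (XT.lf (nat_lit 0) (nat_lit 2783395341) (nat_lit 76) (nat_lit 6733137879) (nat_lit 152) (nat_lit 8943784269) (nat_lit 28) (nat_lit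 5) (nat_lit 29) (nat_lit 5) (nat_lit 30) (nat_lit 4) (nat_lit 345) (nat_lit 237) (nat_lit 198)) (XT.nd (nat_lit 78) (nat_lit 0) (nat_lit 0) (XT.lf (nat_lit 0) (nat_lit 10657474318) (nat_lit 76) (nat_lit 2847394904) (nat_lit 152) (nat_lit 5375338161) (nat_lit 28) (nat_lit 5) (nat_lit 29) (nat_lit 5) (nat_lit 30) (nat_lit 4) (nat_lit 346) (nat_lit 237) (nat_lit 197)) (XT.lf (nat_lit 0) (nat_lit 17574283577) (nat_lit 152) (nat_lit 644118914) (nat_lit 0) (nat_lit 1095467839) (nat_lit 28) (nat_lit 5) (nat_lit 30) (nat_lit 4) (nat_lit 28) (nat_lit 4) (nat_lit 347) (nat_lit 237) (nat_lit 196)))) (XT.nd (nat_lit 156) (nat_lit 76) (nat_lit 0) (XT.nd (nat_lit 78) (nat_lit 0) (nat_lit 0) (XT.lf (nat_lit 0) (nat_lit 2015639907) (nat_lit 228) (nat_lit 12590450651) (nat_lit 76) (nat_lit 5152406480) (nat_lit 25) (nat_lit 5) (nat_lit 28) (nat_lit 5) (nat_lit 26) (nat_lit 4) (nat_lit 348) (nat_lit 237) (nat_lit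 195)) (XT.lf (nat_lit 0) (nat_lit 5807002542) (nat_lit 228) (nat_lit 5091444623) (nat_lit 76) (nat_lit 9318762954) (nat_lit 25) (nat_lit 5) (nat_lit 28) (nat_lit 5) (nat_lit 26) (nat_lit 4) (nat_lit 349) (nat_lit 237) (nat_lit 194))) (XT.nd (nat_lit 78) (nat_lit 0) (nat_lit 0) (XT.lf (nat_lit 0) (nat_lit 2600094394) (nat_lit 76) (nat_lit 7090281484) (nat_lit 152) (nat_lit 10999977683) (nat_lit 24) (nat_lit 5) (nat_lit 25) (nat_lit 5) (nat_lit 26) (nat_lit 4) (nat_lit 350) (nat_lit 237) (nat_lit 193)) (XT.lf (nat_lit 0) (nat_lit 10544390243) (nat_lit 76) (nat_lit 3151119109) (nat_lit 152) (nat_lit 7482040754) (nat_lit 24) (nat_lit 5) (nat_lit 25) (nat_lit 5) (nat_lit 26) (nat_lit 4) (nat_lit 351) (nat_lit 237) (nat_lit 192))))))))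
noncomputable def xc51 : XT := (XT.nd (nat_lit 2184) (nat_lit 380) (nat_lit 0) (XT.nd (nat_lit 1092) (nat_lit 380) (nat_lit 0) (XT.nd (nat_lit 546) (nat_lit 304) (nat_lit 0) (XT.nd (nat_lit 234) (nat_lit 76) (nat_lit 0) (XT.nd (nat_lit 78) (nat_lit 228) (nat_lit 0) (XT.lf (nat_lit 0) (nat_lit 17784359712) (nat_lit 152) (nat_lit 3042041374) (nat_lit 0) (nat_lit 854070657) (nat_lit 24) (nat_lit 5) (nat_lit 26) (nat_lit 4) (nat_lit 24) (nat_lit 4) (nat_lit 352) (nat_lit 237) (nat_lit 191)) (XT.nd (nat_lit 78) (nat_lit 76) (nat_lit 0) (XT.lf (nat_lit 0) (nat_lit 4759869719) (nat_lit 152) (nat_lit 17269126598) (nat_lit 152) (nat_lit 168506707) (nat_lit 22) (nat_lit 4) (nat_lit 24) (nat_lit 5) (nat_lit 24) (nat_lit 4) (nat_lit 353) (nat_lit 237) (nat_lit 190)) (XT.lf (nat_lit 0) (nat_lit 3586568026) (nat_lit 228) (nat_lit 9985256541) (nat_lit 76) (nat_lit 9157558552) (nat_lit 21) (nat_lit 5) (nat_lit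 24) (nat_lit 5) (nat_lit 22) (nat_lit 4) (nat_lit 354) (nat_lit 237) (nat_lit 189)))) (XT.nd (nat_lit 156) (nat_lit 0) (nat_lit 0) (XT.nd (nat_lit 78) (nat_lit 76) (nat_lit 0) (XT.lf (nat_lit 0) (nat_lit 7408433867) (nat_lit 228) (nat_lit 2387422032) (nat_lit 76) (nat_lit 13482602186) (nat_lit 21) (nat_lit 5) (nat_lit 24) (nat_lit 5) (nat_lit 22) (nat_lit 4) (nat_lit 355) (nat_lit 237) (nat_lit 188)) (XT.lf (nat_lit 0) (nat_lit 5470885577) (nat_lit 76) (nat_lit 5885422404) (nat_lit 152) (nat_lit 12487370623) (nat_lit 20) (nat_lit 5) (nat_lit 21) (nat_lit 5) (nat_lit 22) (nat_lit 4) (nat_lit 356) (nat_lit 237) (nat_lit 187))) (XT.nd (nat_lit 78) (nat_lit 0) (nat_lit 0) (XT.lf (nat_lit 0) (nat_lit 13540391243) (nat_lit 76) (nat_lit 1865592801) (nat_lit 152) (nat_lit 9020384194) (nat_lit 20) (nat_lit 5) (nat_lit 21) (nat_lit 5) (nat_lit 22) (nat_lit 4) (nat_lit 357) (nat_lit 237) (nat_lit 186)) (XT.lf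 (nat_lit 0) (nat_lit 19559155953) (nat_lit 152) (nat_lit 3268668151) (nat_lit 0) (nat_lit 2199267368) (nat_lit 20) (nat_lit 5) (nat_lit 22) (nat_lit 4) (nat_lit 20) (nat_lit 4) (nat_lit 358) (nat_lit 237) (nat_lit 185))))) (XT.nd (nat_lit 234) (nat_lit 76) (nat_lit 0) (XT.nd (nat_lit 78) (nat_lit 76) (nat_lit 0) (XT.lf (nat_lit 0) (nat_lit 4577879273) (nat_lit 152) (nat_lit 19282819843) (nat_lit 152) (nat_lit 1784436701) (nat_lit 18) (nat_lit 4) (nat_lit 20) (nat_lit 5) (nat_lit 20) (nat_lit 4) (nat_lit 359) (nat_lit 237) (nat_lit 184)) (XT.nd (nat_lit 78) (nat_lit 0) (nat_lit 0) (XT.lf (nat_lit 0) (nat_lit 1965055504) (nat_lit 228) (nat_lit 13643781202) (nat_lit 76) (nat_lit 10672476170) (nat_lit 17) (nat_lit 5) (nat_lit 20) (nat_lit 5) (nat_lit 18) (nat_lit 4) (nat_lit 360) (nat_lit 237) (nat_lit 183)) (XT.lf (nat_lit 0) (nat_lit 5753660631) (nat_lit 228) (nat_lit 6083457197) (nat_lit 76) (nat_lit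 15100064199) (nat_lit 17) (nat_lit 5) (nat_lit 20) (nat_lit 5) (nat_lit 18) (nat_lit 4) (nat_lit 361) (nat_lit 237) (nat_lit 182)))) (XT.nd (nat_lit 156) (nat_lit 0) (nat_lit 0) (XT.nd (nat_lit 78) (nat_lit 0) (nat_lit 0) (XT.lf (nat_lit 0) (nat_lit 1670063632) (nat_lit 76) (nat_lit 7965499938) (nat_lit 152) (nat_lit 17977785774) (nat_lit 16) (nat_lit 5) (nat_lit 17) (nat_lit 5) (nat_lit 18) (nat_lit 4) (nat_lit 362) (nat_lit 237) (nat_lit 181)) (XT.lf (nat_lit 0) (nat_lit 9715342180) (nat_lit 76) (nat_lit 3944028862) (nat_lit 152) (nat_lit 14649678168) (nat_lit 16) (nat_lit 5) (nat_lit 17) (nat_lit 5) (nat_lit 18) (nat_lit 4) (nat_lit 363) (nat_lit 237) (nat_lit 180))) (XT.nd (nat_lit 78) (nat_lit 0) (nat_lit 0) (XT.lf (nat_lit 0) (nat_lit 17770585425) (nat_lit 152) (nat_lit 11089971362) (nat_lit 0) (nat_lit 166073137) (nat_lit 16) (nat_lit 5) (nat_lit 18) (nat_lit 4) (nat_lit 16) (nat_lit 4)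 (nat_lit 364) (nat_lit 237) (nat_lit 179)) (XT.lf (nat_lit 0) (nat_lit 22010000166) (nat_lit 152) (nat_lit 3462723171) (nat_lit 0) (nat_lit 4292879129) (nat_lit 16) (nat_lit 5) (nat_lit 18) (nat_lit 4) (nat_lit 16) (nat_lit 4) (nat_lit 365) (nat_lit 237) (nat_lit 178)))))) (XT.nd (nat_lit 546) (nat_lit 152) (nat_lit 0) (XT.nd (nat_lit 234) (nat_lit 76) (nat_lit 0) (XT.nd (nat_lit 78) (nat_lit 76) (nat_lit 0) (XT.lf (nat_lit 0) (nat_lit 4418842073) (nat_lit 76) (nat_lit 21967041729) (nat_lit 76) (nat_lit 4140591811) (nat_lit 15) (nat_lit 4) (nat_lit 16) (nat_lit 5) (nat_lit 16) (nat_lit 4) (nat_lit 366) (nat_lit 237) (nat_lit 177)) (XT.nd (nat_lit 78) (nat_lit 76) (nat_lit 0) (XT.lf (nat_lit 0) (nat_lit 12547704159) (nat_lit 76) (nat_lit 18347505017) (nat_lit 76) (nat_lit 414910553) (nat_lit 15) (nat_lit 4) (nat_lit 16) (nat_lit 5) (nat_lit 16) (nat_lit 4) (nat_lit 367) (nat_lit 237) (nat_lit 176))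 (XT.lf (nat_lit 0) (nat_lit 3323584361) (nat_lit 152) (nat_lit 11288771166) (nat_lit 76) (nat_lit 17504904947) (nat_lit 14) (nat_lit 5) (nat_lit 16) (nat_lit 5) (nat_lit 15) (nat_lit 4) (nat_lit 368) (nat_lit 237) (nat_lit 175)))) (XT.nd (nat_lit 156) (nat_lit 0) (nat_lit 0) (XT.nd (nat_lit 78) (nat_lit 76) (nat_lit 0) (XT.lf (nat_lit 0) (nat_lit 7134661168) (nat_lit 152) (nat_lit 3652336662) (nat_lit 76) (nat_lit 22162440286) (nat_lit 14) (nat_lit 5) (nat_lit 16) (nat_lit 5) (nat_lit 15) (nat_lit 4) (nat_lit 369) (nat_lit 237) (nat_lit 174)) (XT.lf (nat_lit 0) (nat_lit 4240292301) (nat_lit 76) (nat_lit 6830214315) (nat_lit 152) (nat_lit 22735770028) (nat_lit 13) (nat_lit 5) (nat_lit 14) (nat_lit 5) (nat_lit 15) (nat_lit 4) (nat_lit 370) (nat_lit 237) (nat_lit 173))) (XT.nd (nat_lit 78) (nat_lit 0) (nat_lit 0) (XT.lf (nat_lit 0) (nat_lit 12389473014) (nat_lit 76) (nat_lit 2741865506) (nat_lit 152)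 (nat_lit 19557282868) (nat_lit 13) (nat_lit 5) (nat_lit 14) (nat_lit 5) (nat_lit 15) (nat_lit 4) (nat_lit 371) (nat_lit 237) (nat_lit 172)) (XT.lf (nat_lit 0) (nat_lit 19298785681) (nat_lit 152) (nat_lit 14882567809) (nat_lit 0) (nat_lit 1416547427) (nat_lit 13) (nat_lit 5) (nat_lit 15) (nat_lit 4) (nat_lit 13) (nat_lit 4) (nat_lit 372) (nat_lit 237) (nat_lit 171))))) (XT.nd (nat_lit 234) (nat_lit 76) (nat_lit 0) (XT.nd (nat_lit 78) (nat_lit 76) (nat_lit 0) (XT.lf (nat_lit 0) (nat_lit 23589925850) (nat_lit 152) (nat_lit 7323198436) (nat_lit 0) (nat_lit 5621382368) (nat_lit 13) (nat_lit 5) (nat_lit 15) (nat_lit 4) (nat_lit 13) (nat_lit 4) (nat_lit 373) (nat_lit 237) (nat_lit 170)) (XT.nd (nat_lit 78) (nat_lit 0) (nat_lit 0) (XT.lf (nat_lit 0) (nat_lit 420119552) (nat_lit 76) (nat_lit 27566070976) (nat_lit 76) (nat_lit 9513736009) (nat_lit 12) (nat_lit 4) (nat_lit 13) (nat_lit 5) (nat_lit 13) (nat_lit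 4) (nat_lit 374) (nat_lit 237) (nat_lit 169)) (XT.lf (nat_lit 0) (nat_lit 8495325256) (nat_lit 76) (nat_lit 24065639250) (nat_lit 76) (nat_lit 5931953327) (nat_lit 12) (nat_lit 4) (nat_lit 13) (nat_lit 5) (nat_lit 13) (nat_lit 4) (nat_lit 375) (nat_lit 237) (nat_lit 168)))) (XT.nd (nat_lit 156) (nat_lit 0) (nat_lit 0) (XT.nd (nat_lit 78) (nat_lit 76) (nat_lit 0) (XT.lf (nat_lit 0) (nat_lit 16763728672) (nat_lit 76) (nat_lit 20482720424) (nat_lit 76) (nat_lit 2270052991) (nat_lit 12) (nat_lit 4) (nat_lit 13) (nat_lit 5) (nat_lit 13) (nat_lit 4) (nat_lit 376) (nat_lit 237) (nat_lit 167)) (XT.lf (nat_lit 0) (nat_lit 1446378941) (nat_lit 152) (nat_lit 15353199259) (nat_lit 76) (nat_lit 23771570087) (nat_lit 11) (nat_lit 5) (nat_lit 13) (nat_lit 5) (nat_lit 12) (nat_lit 4) (nat_lit 377) (nat_lit 237) (nat_lit 166))) (XT.nd (nat_lit 78) (nat_lit 0) (nat_lit 0) (XT.lf (nat_lit 0) (nat_lit 5203414177)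 (nat_lit 152) (nat_lit 7800865379) (nat_lit 76) (nat_lit 28653244586) (nat_lit 11) (nat_lit 5) (nat_lit 13) (nat_lit 5) (nat_lit 12) (nat_lit 4) (nat_lit 378) (nat_lit 237) (nat_lit 165)) (XT.lf (nat_lit 0) (nat_lit 9048632472) (nat_lit 152) (nat_lit 67351511) (nat_lit 76) (nat_lit 33661249564) (nat_lit 11) (nat_lit 5) (nat_lit 13) (nat_lit 5) (nat_lit 12) (nat_lit 4) (nat_lit 379) (nat_lit 237) (nat_lit 164))))))) (XT.nd (nat_lit 1092) (nat_lit 76) (nat_lit 0) (XT.nd (nat_lit 546) (nat_lit 152) (nat_lit 0) (XT.nd (nat_lit 234) (nat_lit 76) (nat_lit 0) (XT.nd (nat_lit 78) (nat_lit 0) (nat_lit 0) (XT.lf (nat_lit 0) (nat_lit 8010411770) (nat_lit 76) (nat_lit 5051982933) (nat_lit 152) (nat_lit 30866550153) (nat_lit 10) (nat_lit 5) (nat_lit 11) (nat_lit 5) (nat_lit 12) (nat_lit 4) (nat_lit 380) (nat_lit 237) (nat_lit 163)) (XT.nd (nat_lit 78) (nat_lit 0) (nat_lit 0) (XT.lf (nat_lit 0) (nat_lit 16288252642)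 (nat_lit 76) (nat_lit 885457833) (nat_lit 152) (nat_lit 27942188875) (nat_lit 10) (nat_lit 5) (nat_lit 11) (nat_lit 5) (nat_lit 12) (nat_lit 4) (nat_lit 381) (nat_lit 237) (nat_lit 162)) (XT.lf (nat_lit 0) (nat_lit 21418065498) (nat_lit 152) (nat_lit 21599643849) (nat_lit 0) (nat_lit 3320468026) (nat_lit 10) (nat_lit 5) (nat_lit 12) (nat_lit 4) (nat_lit 10) (nat_lit 4) (nat_lit 382) (nat_lit 237) (nat_lit 161)))) (XT.nd (nat_lit 156) (nat_lit 76) (nat_lit 0) (XT.nd (nat_lit 78) (nat_lit 0) (nat_lit 0) (XT.lf (nat_lit 0) (nat_lit 25776147804) (nat_lit 152) (nat_lit 14205188150) (nat_lit 0) (nat_lit 7616201599) (nat_lit 10) (nat_lit 5) (nat_lit 12) (nat_lit 4) (nat_lit 10) (nat_lit 4) (nat_lit 383) (nat_lit 237) (nat_lit 160)) (XT.lf (nat_lit 0) (nat_lit 30243253865) (nat_lit 152) (nat_lit 6629306876) (nat_lit 0) (nat_lit 12022774909) (nat_lit 10) (nat_lit 5) (nat_lit 12) (nat_lit 4) (nat_lit 10)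 (nat_lit 4) (nat_lit 384) (nat_lit 237) (nat_lit 159))) (XT.nd (nat_lit 78) (nat_lit 0) (nat_lit 0) (XT.lf (nat_lit 0) (nat_lit 1157200832) (nat_lit 76) (nat_lit 33677209867) (nat_lit 76) (nat_lit 15397961250) (nat_lit 9) (nat_lit 4) (nat_lit 10) (nat_lit 5) (nat_lit 10) (nat_lit 4) (nat_lit 385) (nat_lit 237) (nat_lit 158)) (XT.lf (nat_lit 0) (nat_lit 9274351522) (nat_lit 76) (nat_lit 30335048329) (nat_lit 76) (nat_lit 11998741789) (nat_lit 9) (nat_lit 4) (nat_lit 10) (nat_lit 5) (nat_lit 10) (nat_lit 4) (nat_lit 386) (nat_lit 237) (nat_lit 157))))) (XT.nd (nat_lit 234) (nat_lit 152) (nat_lit 0) (XT.nd (nat_lit 78) (nat_lit 0) (nat_lit 0) (XT.lf (nat_lit 0) (nat_lit 17597301644) (nat_lit 76) (nat_lit 26910098793) (nat_lit 76) (nat_lit 8518396210) (nat_lit 9) (nat_lit 4) (nat_lit 10) (nat_lit 5) (nat_lit 10) (nat_lit 4) (nat_lit 387) (nat_lit 237) (nat_lit 156)) (XT.nd (nat_lit 78) (nat_lit 0)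 (nat_lit 0) (XT.lf (nat_lit 0) (nat_lit 26133323680) (nat_lit 76) (nat_lit 23399368584) (nat_lit 76) (nat_lit 4953883435) (nat_lit 9) (nat_lit 4) (nat_lit 10) (nat_lit 5) (nat_lit 10) (nat_lit 4) (nat_lit 388) (nat_lit 237) (nat_lit 155)) (XT.lf (nat_lit 0) (nat_lit 34889876288) (nat_lit 76) (nat_lit 19799790073) (nat_lit 76) (nat_lit 1302088842) (nat_lit 9) (nat_lit 4) (nat_lit 10) (nat_lit 5) (nat_lit 10) (nat_lit 4) (nat_lit 389) (nat_lit 237) (nat_lit 154)))) (XT.nd (nat_lit 156) (nat_lit 76) (nat_lit 0) (XT.nd (nat_lit 78) (nat_lit 0) (nat_lit 0) (XT.lf (nat_lit 0) (nat_lit 2392561786) (nat_lit 152) (nat_lit 13691496029) (nat_lit 76) (nat_lit 41457888856) (nat_lit 8) (nat_lit 5) (nat_lit 10) (nat_lit 5) (nat_lit 9) (nat_lit 4) (nat_lit 390) (nat_lit 237) (nat_lit 153)) (XT.lf (nat_lit 0) (nat_lit 6153717365) (nat_lit 152) (nat_lit 6105568870) (nat_lit 76) (nat_lit 46879520187) (nat_lit 8)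 (nat_lit 5) (nat_lit 10) (nat_lit 5) (nat_lit 9) (nat_lit 4) (nat_lit 391) (nat_lit 237) (nat_lit 152))) (XT.nd (nat_lit 78) (nat_lit 0) (nat_lit 0) (XT.lf (nat_lit 0) (nat_lit 1708384246) (nat_lit 76) (nat_lit 8318110572) (nat_lit 152) (nat_lit 50757117785) (nat_lit 7) (nat_lit 5) (nat_lit 8) (nat_lit 5) (nat_lit 9) (nat_lit 4) (nat_lit 392) (nat_lit 237) (nat_lit 151)) (XT.lf (nat_lit 0) (nat_lit 9849347981) (nat_lit 76) (nat_lit 4210327649) (nat_lit 152) (nat_lit 48416764866) (nat_lit 7) (nat_lit 5) (nat_lit 8) (nat_lit 5) (nat_lit 9) (nat_lit 4) (nat_lit 393) (nat_lit 237) (nat_lit 150)))))) (XT.nd (nat_lit 546) (nat_lit 76) (nat_lit 0) (XT.nd (nat_lit 234) (nat_lit 0) (nat_lit 0) (XT.nd (nat_lit 78) (nat_lit 0) (nat_lit 0) (XT.lf (nat_lit 0) (nat_lit 18196983075) (nat_lit 152) (nat_lit 46017699675) (nat_lit 0) (nat_lit 5880550) (nat_lit 7) (nat_lit 5) (nat_lit 9) (nat_lit 4) (nat_lit 7) (nat_lit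 4) (nat_lit 394) (nat_lit 237) (nat_lit 149)) (XT.nd (nat_lit 78) (nat_lit 0) (nat_lit 0) (XT.lf (nat_lit 0) (nat_lit 22483525606) (nat_lit 152) (nat_lit 39282767970) (nat_lit 0) (nat_lit 4249966628) (nat_lit 7) (nat_lit 5) (nat_lit 9) (nat_lit 4) (nat_lit 7) (nat_lit 4) (nat_lit 395) (nat_lit 237) (nat_lit 148)) (XT.lf (nat_lit 0) (nat_lit 26882576502) (nat_lit 152) (nat_lit 32375940263) (nat_lit 0) (nat_lit 8607797666) (nat_lit 7) (nat_lit 5) (nat_lit 9) (nat_lit 4) (nat_lit 7) (nat_lit 4) (nat_lit 396) (nat_lit 237) (nat_lit 147)))) (XT.nd (nat_lit 156) (nat_lit 0) (nat_lit 0) (XT.nd (nat_lit 78) (nat_lit 0) (nat_lit 0) (XT.lf (nat_lit 0) (nat_lit 31397979594) (nat_lit 152) (nat_lit 25291181463) (nat_lit 0) (nat_lit 13083181477) (nat_lit 7) (nat_lit 5) (nat_lit 9) (nat_lit 4) (nat_lit 7) (nat_lit 4) (nat_lit 397) (nat_lit 237) (nat_lit 146)) (XT.lf (nat_lit 0) (nat_lit 36033680378) (nat_lit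 152) (nat_lit 18022301003) (nat_lit 0) (nat_lit 17680028592) (nat_lit 7) (nat_lit 5) (nat_lit 9) (nat_lit 4) (nat_lit 7) (nat_lit 4) (nat_lit 398) (nat_lit 237) (nat_lit 145))) (XT.nd (nat_lit 78) (nat_lit 0) (nat_lit 0) (XT.lf (nat_lit 0) (nat_lit 40793729468) (nat_lit 152) (nat_lit 10562947435) (nat_lit 0) (nat_lit 22402355673) (nat_lit 7) (nat_lit 5) (nat_lit 9) (nat_lit 4) (nat_lit 7) (nat_lit 4) (nat_lit 399) (nat_lit 237) (nat_lit 144)) (XT.lf (nat_lit 0) (nat_lit 45682286130) (nat_lit 152) (nat_lit 2906602877) (nat_lit 0) (nat_lit 27254289025) (nat_lit 7) (nat_lit 5) (nat_lit 9) (nat_lit 4) (nat_lit 7) (nat_lit 4) (nat_lit 400) (nat_lit 237) (nat_lit 143))))) (XT.nd (nat_lit 234) (nat_lit 0) (nat_lit 0) (XT.nd (nat_lit 78) (nat_lit 0) (nat_lit 0) (XT.lf (nat_lit 0) (nat_lit 5052005504) (nat_lit 76) (nat_lit 45700179381) (nat_lit 76) (nat_lit 27236625665) (nat_lit 6) (nat_lit 4) (nat_lit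 7) (nat_lit 5) (nat_lit 7) (nat_lit 4) (nat_lit 401) (nat_lit 237) (nat_lit 142)) (XT.nd (nat_lit 78) (nat_lit 0) (nat_lit 0) (XT.lf (nat_lit 0) (nat_lit 13283200304) (nat_lit 76) (nat_lit 42706610351) (nat_lit 76) (nat_lit 24208535652) (nat_lit 6) (nat_lit 4) (nat_lit 7) (nat_lit 5) (nat_lit 7) (nat_lit 4) (nat_lit 402) (nat_lit 237) (nat_lit 141)) (XT.lf (nat_lit 0) (nat_lit 21736326730) (nat_lit 76) (nat_lit 39634917166) (nat_lit 76) (nat_lit 21103326950) (nat_lit 6) (nat_lit 4) (nat_lit 7) (nat_lit 5) (nat_lit 7) (nat_lit 4) (nat_lit 403) (nat_lit 237) (nat_lit 140)))) (XT.nd (nat_lit 156) (nat_lit 0) (nat_lit 0) (XT.nd (nat_lit 78) (nat_lit 0) (nat_lit 0) (XT.lf (nat_lit 0) (nat_lit 30418771012) (nat_lit 76) (nat_lit 36482415823) (nat_lit 76) (nat_lit 17918286271) (nat_lit 6) (nat_lit 4) (nat_lit 7) (nat_lit 5) (nat_lit 7) (nat_lit 4) (nat_lit 404) (nat_lit 237) (nat_lit 139)) (XT.lf (nat_lit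 0) (nat_lit 39338119749) (nat_lit 76) (nat_lit 33246351709) (nat_lit 76) (nat_lit 14650630568) (nat_lit 6) (nat_lit 4) (nat_lit 7) (nat_lit 5) (nat_lit 7) (nat_lit 4) (nat_lit 405) (nat_lit 237) (nat_lit 138))) (XT.nd (nat_lit 78) (nat_lit 0) (nat_lit 0) (XT.lf (nat_lit 0) (nat_lit 48502166548) (nat_lit 76) (nat_lit 29923897195) (nat_lit 76) (nat_lit 11297504609) (nat_lit 6) (nat_lit 4) (nat_lit 7) (nat_lit 5) (nat_lit 7) (nat_lit 4) (nat_lit 406) (nat_lit 237) (nat_lit 137)) (XT.lf (nat_lit 0) (nat_lit 57918918828) (nat_lit 76) (nat_lit 26512149167) (nat_lit 76) (nat_lit 7855978478) (nat_lit 6) (nat_lit 4) (nat_lit 7) (nat_lit 5) (nat_lit 7) (nat_lit 4) (nat_lit 407) (nat_lit 237) (nat_lit 136))))))))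
noncomputable def xc52 : XT := (XT.nd (nat_lit 34320) (nat_lit 0) (nat_lit 1216) (XT.nd (nat_lit 33228) (nat_lit 0) (nat_lit 3572) (XT.nd (nat_lit 32682) (nat_lit 0) (nat_lit 5852) (XT.nd (nat_lit 234) (nat_lit 0) (nat_lit 0) (XT.nd (nat_lit 78) (nat_lit 76) (nat_lit 0) (XT.lf (nat_lit 0) (nat_lit 67596604819) (nat_lit 76) (nat_lit 23008126484) (nat_lit 76) (nat_lit 4323045016) (nat_lit 6) (nat_lit 4) (nat_lit 7) (nat_lit 5) (nat_lit 7) (nat_lit 4) (nat_lit 408) (nat_lit 237) (nat_lit 135)) (XT.nd (nat_lit 78) (nat_lit 76) (nat_lit 0) (XT.lf (nat_lit 0) (nat_lit 77543680752) (nat_lit 76) (nat_lit 19408767379) (nat_lit 76) (nat_lit 695617194) (nat_lit 6) (nat_lit 4) (nat_lit 7) (nat_lit 5) (nat_lit 7) (nat_lit 4) (nat_lit 409) (nat_lit 237) (nat_lit 134)) (XT.lf (nat_lit 0) (nat_lit 2970358623) (nat_lit 152) (nat_lit 12710573361) (nat_lit 76) (nat_lit 84768484826) (nat_lit 5) (nat_lit 5) (nat_lit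 7) (nat_lit 5) (nat_lit 6) (nat_lit 4) (nat_lit 410) (nat_lit 237) (nat_lit 133)))) (XT.nd (nat_lit 32292) (nat_lit 0) (nat_lit 7676) (XT.lf (nat_lit 0) (nat_lit 6721710045) (nat_lit 152) (nat_lit 5121787432) (nat_lit 76) (nat_lit 91491425770) (nat_lit 5) (nat_lit 5) (nat_lit 7) (nat_lit 5) (nat_lit 6) (nat_lit 4) (nat_lit 411) (nat_lit 237) (nat_lit 132)) (XT.nd (nat_lit 78) (nat_lit 380) (nat_lit 0) (XT.lf (nat_lit 0) (nat_lit 4362856415) (nat_lit 380) (nat_lit 12169648) (nat_lit 380) (nat_lit 12169648) (nat_lit 111) (nat_lit 4) (nat_lit 116) (nat_lit 5) (nat_lit 116) (nat_lit 4) (nat_lit 304) (nat_lit 238) (nat_lit 238)) (XT.lf (nat_lit 0) (nat_lit 3695890492) (nat_lit 380) (nat_lit 2502125473) (nat_lit 0) (nat_lit 2692368812) (nat_lit 106) (nat_lit 5) (nat_lit 111) (nat_lit 4) (nat_lit 106) (nat_lit 4) (nat_lit 305) (nat_lit 238) (nat_lit 237))))) (XT.nd (nat_lit 234) (nat_lit 1064) (nat_lit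 0) (XT.nd (nat_lit 78) (nat_lit 380) (nat_lit 0) (XT.lf (nat_lit 0) (nat_lit 3958967137) (nat_lit 380) (nat_lit 3515189943) (nat_lit 380) (nat_lit 1537375371) (nat_lit 101) (nat_lit 4) (nat_lit 106) (nat_lit 5) (nat_lit 106) (nat_lit 4) (nat_lit 306) (nat_lit 238) (nat_lit 236)) (XT.nd (nat_lit 78) (nat_lit 0) (nat_lit 0) (XT.lf (nat_lit 0) (nat_lit 1407496196) (nat_lit 304) (nat_lit 726112767) (nat_lit 380) (nat_lit 7003717159) (nat_lit 96) (nat_lit 5) (nat_lit 100) (nat_lit 5) (nat_lit 101) (nat_lit 4) (nat_lit 307) (nat_lit 238) (nat_lit 235)) (XT.lf (nat_lit 0) (nat_lit 5865685572) (nat_lit 380) (nat_lit 1265880514) (nat_lit 0) (nat_lit 2135496741) (nat_lit 96) (nat_lit 5) (nat_lit 101) (nat_lit 4) (nat_lit 96) (nat_lit 4) (nat_lit 308) (nat_lit 238) (nat_lit 234)))) (XT.nd (nat_lit 156) (nat_lit 380) (nat_lit 0) (XT.nd (nat_lit 78) (nat_lit 304) (nat_lit 0) (XT.lf (nat_lit 0) (nat_lit 273722630)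 (nat_lit 380) (nat_lit 4040178507) (nat_lit 76) (nat_lit 5087656821) (nat_lit 91) (nat_lit 5) (nat_lit 96) (nat_lit 5) (nat_lit 92) (nat_lit 4) (nat_lit 309) (nat_lit 238) (nat_lit 233)) (XT.lf (nat_lit 0) (nat_lit 2564021095) (nat_lit 304) (nat_lit 1377008535) (nat_lit 380) (nat_lit 5599613255) (nat_lit 87) (nat_lit 5) (nat_lit 91) (nat_lit 5) (nat_lit 92) (nat_lit 4) (nat_lit 310) (nat_lit 238) (nat_lit 232))) (XT.nd (nat_lit 78) (nat_lit 380) (nat_lit 0) (XT.lf (nat_lit 0) (nat_lit 7689130839) (nat_lit 380) (nat_lit 376708459) (nat_lit 0) (nat_lit 1619010437) (nat_lit 87) (nat_lit 5) (nat_lit 92) (nat_lit 4) (nat_lit 87) (nat_lit 4) (nat_lit 311) (nat_lit 238) (nat_lit 231)) (XT.lf (nat_lit 0) (nat_lit 1674136859) (nat_lit 380) (nat_lit 3440738384) (nat_lit 76) (nat_lit 4718340995) (nat_lit 82) (nat_lit 5) (nat_lit 87) (nat_lit 5) (nat_lit 83) (nat_lit 4) (nat_lit 312) (nat_lit 238) (nat_lit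 230)))))) (XT.nd (nat_lit 546) (nat_lit 912) (nat_lit 0) (XT.nd (nat_lit 234) (nat_lit 760) (nat_lit 0) (XT.nd (nat_lit 78) (nat_lit 380) (nat_lit 0) (XT.lf (nat_lit 0) (nat_lit 3307513856) (nat_lit 228) (nat_lit 2058724783) (nat_lit 304) (nat_lit 4620700902) (nat_lit 79) (nat_lit 5) (nat_lit 82) (nat_lit 5) (nat_lit 83) (nat_lit 4) (nat_lit 313) (nat_lit 238) (nat_lit 229)) (XT.nd (nat_lit 78) (nat_lit 76) (nat_lit 0) (XT.lf (nat_lit 0) (nat_lit 49976492) (nat_lit 304) (nat_lit 9082653630) (nat_lit 304) (nat_lit 1013803149) (nat_lit 75) (nat_lit 4) (nat_lit 79) (nat_lit 5) (nat_lit 79) (nat_lit 4) (nat_lit 314) (nat_lit 238) (nat_lit 228)) (XT.lf (nat_lit 0) (nat_lit 2654928069) (nat_lit 380) (nat_lit 3362695933) (nat_lit 76) (nat_lit 4292179478) (nat_lit 74) (nat_lit 5) (nat_lit 79) (nat_lit 5) (nat_lit 75) (nat_lit 4) (nat_lit 315) (nat_lit 238) (nat_lit 227)))) (XT.nd (nat_lit 156) (nat_lit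 532) (nat_lit 0) (XT.nd (nat_lit 78) (nat_lit 0) (nat_lit 0) (XT.lf (nat_lit 0) (nat_lit 3510006529) (nat_lit 228) (nat_lit 2857309969) (nat_lit 304) (nat_lit 4111897066) (nat_lit 71) (nat_lit 5) (nat_lit 74) (nat_lit 5) (nat_lit 75) (nat_lit 4) (nat_lit 316) (nat_lit 238) (nat_lit 226)) (XT.lf (nat_lit 0) (nat_lit 10150190295) (nat_lit 304) (nat_lit 121374665) (nat_lit 0) (nat_lit 383424913) (nat_lit 71) (nat_lit 5) (nat_lit 75) (nat_lit 4) (nat_lit 71) (nat_lit 4) (nat_lit 317) (nat_lit 238) (nat_lit 225))) (XT.nd (nat_lit 78) (nat_lit 228) (nat_lit 0) (XT.lf (nat_lit 0) (nat_lit 3166092813) (nat_lit 304) (nat_lit 3946744091) (nat_lit 76) (nat_lit 3721783847) (nat_lit 67) (nat_lit 5) (nat_lit 71) (nat_lit 5) (nat_lit 68) (nat_lit 4) (nat_lit 318) (nat_lit 238) (nat_lit 224)) (XT.lf (nat_lit 0) (nat_lit 3025116507) (nat_lit 228) (nat_lit 3865766365) (nat_lit 304) (nat_lit 4130042702) (nat_lit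 64) (nat_lit 5) (nat_lit 67) (nat_lit 5) (nat_lit 68) (nat_lit 4) (nat_lit 319) (nat_lit 238) (nat_lit 223))))) (XT.nd (nat_lit 234) (nat_lit 456) (nat_lit 0) (XT.nd (nat_lit 78) (nat_lit 456) (nat_lit 0) (XT.lf (nat_lit 0) (nat_lit 10169011816) (nat_lit 228) (nat_lit 522949726) (nat_lit 304) (nat_lit 521972591) (nat_lit 64) (nat_lit 5) (nat_lit 67) (nat_lit 5) (nat_lit 68) (nat_lit 4) (nat_lit 320) (nat_lit 238) (nat_lit 222)) (XT.nd (nat_lit 78) (nat_lit 152) (nat_lit 0) (XT.lf (nat_lit 0) (nat_lit 3145172554) (nat_lit 304) (nat_lit 5354421791) (nat_lit 76) (nat_lit 2911870461) (nat_lit 60) (nat_lit 5) (nat_lit 64) (nat_lit 5) (nat_lit 61) (nat_lit 4) (nat_lit 321) (nat_lit 238) (nat_lit 221)) (XT.lf (nat_lit 0) (nat_lit 1684507914) (nat_lit 152) (nat_lit 5186112987) (nat_lit 228) (nat_lit 4745428672) (nat_lit 58) (nat_lit 5) (nat_lit 60) (nat_lit 5) (nat_lit 61) (nat_lit 4) (nat_lit 322) (nat_lit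 238) (nat_lit 220)))) (XT.nd (nat_lit 156) (nat_lit 152) (nat_lit 0) (XT.nd (nat_lit 78) (nat_lit 304) (nat_lit 0) (XT.lf (nat_lit 0) (nat_lit 8928715947) (nat_lit 152) (nat_lit 1760961204) (nat_lit 228) (nat_lit 1137684657) (nat_lit 58) (nat_lit 5) (nat_lit 60) (nat_lit 5) (nat_lit 61) (nat_lit 4) (nat_lit 323) (nat_lit 238) (nat_lit 219)) (XT.lf (nat_lit 0) (nat_lit 2515590364) (nat_lit 304) (nat_lit 7771987325) (nat_lit 76) (nat_lit 1757106543) (nat_lit 54) (nat_lit 5) (nat_lit 58) (nat_lit 5) (nat_lit 55) (nat_lit 4) (nat_lit 324) (nat_lit 238) (nat_lit 218))) (XT.nd (nat_lit 78) (nat_lit 152) (nat_lit 0) (XT.lf (nat_lit 0) (nat_lit 6232304990) (nat_lit 304) (nat_lit 692384346) (nat_lit 76) (nat_lit 5344239255) (nat_lit 54) (nat_lit 5) (nat_lit 58) (nat_lit 5) (nat_lit 55) (nat_lit 4) (nat_lit 325) (nat_lit 238) (nat_lit 217)) (XT.lf (nat_lit 0) (nat_lit 6617726655) (nat_lit 152) (nat_lit 3438167241)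 (nat_lit 228) (nat_lit 2444185410) (nat_lit 52) (nat_lit 5) (nat_lit 54) (nat_lit 5) (nat_lit 55) (nat_lit 4) (nat_lit 326) (nat_lit 238) (nat_lit 216))))))) (XT.nd (nat_lit 1092) (nat_lit 912) (nat_lit 0) (XT.nd (nat_lit 546) (nat_lit 608) (nat_lit 0) (XT.nd (nat_lit 234) (nat_lit 380) (nat_lit 0) (XT.nd (nat_lit 78) (nat_lit 152) (nat_lit 0) (XT.lf (nat_lit 0) (nat_lit 1184676593) (nat_lit 304) (nat_lit 11414867633) (nat_lit 76) (nat_lit 139701201) (nat_lit 48) (nat_lit 5) (nat_lit 52) (nat_lit 5) (nat_lit 49) (nat_lit 4) (nat_lit 327) (nat_lit 238) (nat_lit 215)) (XT.nd (nat_lit 78) (nat_lit 152) (nat_lit 0) (XT.lf (nat_lit 0) (nat_lit 4899800558) (nat_lit 304) (nat_lit 4286603629) (nat_lit 76) (nat_lit 3797697494) (nat_lit 48) (nat_lit 5) (nat_lit 52) (nat_lit 5) (nat_lit 49) (nat_lit 4) (nat_lit 328) (nat_lit 238) (nat_lit 214)) (XT.lf (nat_lit 0) (nat_lit 3005553107) (nat_lit 152) (nat_lit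 5684174795) (nat_lit 228) (nat_lit 4547710959) (nat_lit 46) (nat_lit 5) (nat_lit 48) (nat_lit 5) (nat_lit 49) (nat_lit 4) (nat_lit 329) (nat_lit 238) (nat_lit 213)))) (XT.nd (nat_lit 156) (nat_lit 152) (nat_lit 0) (XT.nd (nat_lit 78) (nat_lit 228) (nat_lit 0) (XT.lf (nat_lit 0) (nat_lit 10496806111) (nat_lit 152) (nat_lit 2075166932) (nat_lit 228) (nat_lit 927079198) (nat_lit 46) (nat_lit 5) (nat_lit 48) (nat_lit 5) (nat_lit 49) (nat_lit 4) (nat_lit 330) (nat_lit 238) (nat_lit 212)) (XT.lf (nat_lit 0) (nat_lit 2742388531) (nat_lit 228) (nat_lit 9386983495) (nat_lit 76) (nat_lit 1638519684) (nat_lit 43) (nat_lit 5) (nat_lit 46) (nat_lit 5) (nat_lit 44) (nat_lit 4) (nat_lit 331) (nat_lit 238) (nat_lit 211))) (XT.nd (nat_lit 78) (nat_lit 152) (nat_lit 0) (XT.lf (nat_lit 0) (nat_lit 6491469801) (nat_lit 228) (nat_lit 2132983461) (nat_lit 76) (nat_lit 5420454587) (nat_lit 43) (nat_lit 5) (nat_lit 46)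 (nat_lit 5) (nat_lit 44) (nat_lit 4) (nat_lit 332) (nat_lit 238) (nat_lit 210)) (XT.lf (nat_lit 0) (nat_lit 5339755284) (nat_lit 152) (nat_lit 5003431888) (nat_lit 228) (nat_lit 3987373208) (nat_lit 41) (nat_lit 5) (nat_lit 43) (nat_lit 5) (nat_lit 44) (nat_lit 4) (nat_lit 333) (nat_lit 238) (nat_lit 209))))) (XT.nd (nat_lit 234) (nat_lit 380) (nat_lit 0) (XT.nd (nat_lit 78) (nat_lit 228) (nat_lit 0) (XT.lf (nat_lit 0) (nat_lit 12978331694) (nat_lit 152) (nat_lit 1293298359) (nat_lit 228) (nat_lit 354347136) (nat_lit 41) (nat_lit 5) (nat_lit 43) (nat_lit 5) (nat_lit 44) (nat_lit 4) (nat_lit 334) (nat_lit 238) (nat_lit 208)) (XT.nd (nat_lit 78) (nat_lit 0) (nat_lit 0) (XT.lf (nat_lit 0) (nat_lit 3343834914) (nat_lit 228) (nat_lit 9056140183) (nat_lit 76) (nat_lit 2528664554) (nat_lit 38) (nat_lit 5) (nat_lit 41) (nat_lit 5) (nat_lit 39) (nat_lit 4) (nat_lit 335) (nat_lit 238) (nat_lit 207)) (XT.lf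 (nat_lit 0) (nat_lit 7116609654) (nat_lit 228) (nat_lit 1705043895) (nat_lit 76) (nat_lit 6419527488) (nat_lit 38) (nat_lit 5) (nat_lit 41) (nat_lit 5) (nat_lit 39) (nat_lit 4) (nat_lit 336) (nat_lit 238) (nat_lit 206)))) (XT.nd (nat_lit 156) (nat_lit 228) (nat_lit 0) (XT.nd (nat_lit 78) (nat_lit 0) (nat_lit 0) (XT.lf (nat_lit 0) (nat_lit 5883622260) (nat_lit 152) (nat_lit 5118377693) (nat_lit 228) (nat_lit 4561142328) (nat_lit 36) (nat_lit 5) (nat_lit 38) (nat_lit 5) (nat_lit 39) (nat_lit 4) (nat_lit 337) (nat_lit 238) (nat_lit 205)) (XT.lf (nat_lit 0) (nat_lit 13638085011) (nat_lit 152) (nat_lit 1326693068) (nat_lit 228) (nat_lit 931185309) (nat_lit 36) (nat_lit 5) (nat_lit 38) (nat_lit 5) (nat_lit 39) (nat_lit 4) (nat_lit 338) (nat_lit 238) (nat_lit 204))) (XT.nd (nat_lit 78) (nat_lit 0) (nat_lit 0) (XT.lf (nat_lit 0) (nat_lit 2774361856) (nat_lit 228) (nat_lit 10894206023) (nat_lit 76) (nat_lit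 2568771531) (nat_lit 33) (nat_lit 5) (nat_lit 36) (nat_lit 5) (nat_lit 34) (nat_lit 4) (nat_lit 339) (nat_lit 238) (nat_lit 203)) (XT.lf (nat_lit 0) (nat_lit 6553530642) (nat_lit 228) (nat_lit 3487863278) (nat_lit 76) (nat_lit 6547874689) (nat_lit 33) (nat_lit 5) (nat_lit 36) (nat_lit 5) (nat_lit 34) (nat_lit 4) (nat_lit 340) (nat_lit 238) (nat_lit 202)))))) (XT.nd (nat_lit 546) (nat_lit 532) (nat_lit 0) (XT.nd (nat_lit 234) (nat_lit 76) (nat_lit 0) (XT.nd (nat_lit 78) (nat_lit 228) (nat_lit 0) (XT.lf (nat_lit 0) (nat_lit 4128543777) (nat_lit 76) (nat_lit 6303828110) (nat_lit 152) (nat_lit 6519817808) (nat_lit 32) (nat_lit 5) (nat_lit 33) (nat_lit 5) (nat_lit 34) (nat_lit 4) (nat_lit 341) (nat_lit 238) (nat_lit 201)) (XT.nd (nat_lit 78) (nat_lit 228) (nat_lit 0) (XT.lf (nat_lit 0) (nat_lit 11953160804) (nat_lit 76) (nat_lit 2456922217) (nat_lit 152) (nat_lit 2916462516) (nat_lit 32) (nat_lit 5)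 (nat_lit 33) (nat_lit 5) (nat_lit 34) (nat_lit 4) (nat_lit 342) (nat_lit 238) (nat_lit 200)) (XT.lf (nat_lit 0) (nat_lit 763756390) (nat_lit 228) (nat_lit 15480796636) (nat_lit 76) (nat_lit 1467842471) (nat_lit 29) (nat_lit 5) (nat_lit 32) (nat_lit 5) (nat_lit 30) (nat_lit 4) (nat_lit 343) (nat_lit 238) (nat_lit 199)))) (XT.nd (nat_lit 156) (nat_lit 76) (nat_lit 0) (XT.nd (nat_lit 78) (nat_lit 0) (nat_lit 0) (XT.lf (nat_lit 0) (nat_lit 4523459860) (nat_lit 228) (nat_lit 8077508992) (nat_lit 76) (nat_lit 5507175323) (nat_lit 29) (nat_lit 5) (nat_lit 32) (nat_lit 5) (nat_lit 30) (nat_lit 4) (nat_lit 344) (nat_lit 238) (nat_lit 198)) (XT.lf (nat_lit 0) (nat_lit 8346024490) (nat_lit 228) (nat_lit 539945900) (nat_lit 76) (nat_lit 9631312603) (nat_lit 29) (nat_lit 5) (nat_lit 32) (nat_lit 5) (nat_lit 30) (nat_lit 4) (nat_lit 345) (nat_lit 238) (nat_lit 197))) (XT.nd (nat_lit 78) (nat_lit 0) (nat_lit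 0) (XT.lf (nat_lit 0) (nat_lit 7280548586) (nat_lit 76) (nat_lit 5024226885) (nat_lit 152) (nat_lit 6633294426) (nat_lit 28) (nat_lit 5) (nat_lit 29) (nat_lit 5) (nat_lit 30) (nat_lit 4) (nat_lit 346) (nat_lit 238) (nat_lit 196)) (XT.lf (nat_lit 0) (nat_lit 15262296979) (nat_lit 76) (nat_lit 1077569052) (nat_lit 152) (nat_lit 3032905713) (nat_lit 28) (nat_lit 5) (nat_lit 29) (nat_lit 5) (nat_lit 30) (nat_lit 4) (nat_lit 347) (nat_lit 238) (nat_lit 195))))) (XT.nd (nat_lit 234) (nat_lit 304) (nat_lit 0) (XT.nd (nat_lit 78) (nat_lit 0) (nat_lit 0) (XT.lf (nat_lit 0) (nat_lit 679172463) (nat_lit 228) (nat_lit 16204789599) (nat_lit 76) (nat_lit 2935869587) (nat_lit 25) (nat_lit 5) (nat_lit 28) (nat_lit 5) (nat_lit 26) (nat_lit 4) (nat_lit 348) (nat_lit 238) (nat_lit 194)) (XT.nd (nat_lit 78) (nat_lit 0) (nat_lit 0) (XT.lf (nat_lit 0) (nat_lit 4447518411) (nat_lit 228) (nat_lit 8746756180) (nat_lit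 76) (nat_lit 7084969044) (nat_lit 25) (nat_lit 5) (nat_lit 28) (nat_lit 5) (nat_lit 26) (nat_lit 4) (nat_lit 349) (nat_lit 238) (nat_lit 193)) (XT.lf (nat_lit 0) (nat_lit 8283551751) (nat_lit 228) (nat_lit 1145733602) (nat_lit 76) (nat_lit 11324530085) (nat_lit 25) (nat_lit 5) (nat_lit 28) (nat_lit 5) (nat_lit 26) (nat_lit 4) (nat_lit 350) (nat_lit 238) (nat_lit 192)))) (XT.nd (nat_lit 156) (nat_lit 228) (nat_lit 0) (XT.nd (nat_lit 78) (nat_lit 0) (nat_lit 0) (XT.lf (nat_lit 0) (nat_lit 6736370660) (nat_lit 76) (nat_lit 5519007813) (nat_lit 152) (nat_lit 8986640636) (nat_lit 24) (nat_lit 5) (nat_lit 25) (nat_lit 5) (nat_lit 26) (nat_lit 4) (nat_lit 351) (nat_lit 238) (nat_lit 191)) (XT.lf (nat_lit 0) (nat_lit 14800793245) (nat_lit 76) (nat_lit 1513631211) (nat_lit 152) (nat_lit 5431418114) (nat_lit 24) (nat_lit 5) (nat_lit 25) (nat_lit 5) (nat_lit 26) (nat_lit 4) (nat_lit 352) (nat_lit 238) (nat_lit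 190))) (XT.nd (nat_lit 78) (nat_lit 76) (nat_lit 0) (XT.lf (nat_lit 0) (nat_lit 755672483) (nat_lit 152) (nat_lit 19729384019) (nat_lit 152) (nat_lit 1780044953) (nat_lit 22) (nat_lit 4) (nat_lit 24) (nat_lit 5) (nat_lit 24) (nat_lit 4) (nat_lit 353) (nat_lit 238) (nat_lit 189)) (XT.lf (nat_lit 0) (nat_lit 1985553386) (nat_lit 228) (nat_lit 14079218839) (nat_lit 76) (nat_lit 6733308796) (nat_lit 21) (nat_lit 5) (nat_lit 24) (nat_lit 5) (nat_lit 22) (nat_lit 4) (nat_lit 354) (nat_lit 238) (nat_lit 188))))))))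
noncomputable def xc53 : XT := (XT.nd (nat_lit 2184) (nat_lit 304) (nat_lit 0) (XT.nd (nat_lit 1092) (nat_lit 304) (nat_lit 0) (XT.nd (nat_lit 546) (nat_lit 228) (nat_lit 0) (XT.nd (nat_lit 234) (nat_lit 228) (nat_lit 0) (XT.nd (nat_lit 78) (nat_lit 76) (nat_lit 0) (XT.lf (nat_lit 0) (nat_lit 5787105336) (nat_lit 228) (nat_lit 6517945225) (nat_lit 76) (nat_lit 11042721678) (nat_lit 21) (nat_lit 5) (nat_lit 24) (nat_lit 5) (nat_lit 22) (nat_lit 4) (nat_lit 355) (nat_lit 238) (nat_lit 187)) (XT.nd (nat_lit 78) (nat_lit 0) (nat_lit 0) (XT.lf (nat_lit 0) (nat_lit 1221954418) (nat_lit 76) (nat_lit 8452459481) (nat_lit 152) (nat_lit 14240402462) (nat_lit 20) (nat_lit 5) (nat_lit 21) (nat_lit 5) (nat_lit 22) (nat_lit 4) (nat_lit 356) (nat_lit 238) (nat_lit 186)) (XT.lf (nat_lit 0) (nat_lit 9256312070) (nat_lit 76) (nat_lit 4448292237) (nat_lit 152) (nat_lit 10793492700) (nat_lit 20) (nat_lit 5) (nat_lit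 21) (nat_lit 5) (nat_lit 22) (nat_lit 4) (nat_lit 357) (nat_lit 238) (nat_lit 185)))) (XT.nd (nat_lit 156) (nat_lit 76) (nat_lit 0) (XT.nd (nat_lit 78) (nat_lit 152) (nat_lit 0) (XT.lf (nat_lit 0) (nat_lit 17462428151) (nat_lit 76) (nat_lit 354868508) (nat_lit 152) (nat_lit 7282744223) (nat_lit 20) (nat_lit 5) (nat_lit 21) (nat_lit 5) (nat_lit 22) (nat_lit 4) (nat_lit 358) (nat_lit 238) (nat_lit 184)) (XT.lf (nat_lit 0) (nat_lit 91250063) (nat_lit 152) (nat_lit 21962541308) (nat_lit 152) (nat_lit 3666251382) (nat_lit 18) (nat_lit 4) (nat_lit 20) (nat_lit 5) (nat_lit 20) (nat_lit 4) (nat_lit 359) (nat_lit 238) (nat_lit 183))) (XT.nd (nat_lit 78) (nat_lit 0) (nat_lit 0) (XT.lf (nat_lit 0) (nat_lit 101485730) (nat_lit 228) (nat_lit 18220818296) (nat_lit 76) (nat_lit 8035018466) (nat_lit 17) (nat_lit 5) (nat_lit 20) (nat_lit 5) (nat_lit 18) (nat_lit 4) (nat_lit 360) (nat_lit 238) (nat_lit 182)) (XT.lf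 (nat_lit 0) (nat_lit 3872152918) (nat_lit 228) (nat_lit 10693106041) (nat_lit 76) (nat_lit 12448476378) (nat_lit 17) (nat_lit 5) (nat_lit 20) (nat_lit 5) (nat_lit 18) (nat_lit 4) (nat_lit 361) (nat_lit 238) (nat_lit 181))))) (XT.nd (nat_lit 234) (nat_lit 152) (nat_lit 0) (XT.nd (nat_lit 78) (nat_lit 76) (nat_lit 0) (XT.lf (nat_lit 0) (nat_lit 7720586711) (nat_lit 228) (nat_lit 3003836062) (nat_lit 76) (nat_lit 16966489352) (nat_lit 17) (nat_lit 5) (nat_lit 20) (nat_lit 5) (nat_lit 18) (nat_lit 4) (nat_lit 362) (nat_lit 238) (nat_lit 180)) (XT.nd (nat_lit 78) (nat_lit 0) (nat_lit 0) (XT.lf (nat_lit 0) (nat_lit 4950308775) (nat_lit 76) (nat_lit 6747426437) (nat_lit 152) (nat_lit 16690281785) (nat_lit 16) (nat_lit 5) (nat_lit 17) (nat_lit 5) (nat_lit 18) (nat_lit 4) (nat_lit 363) (nat_lit 238) (nat_lit 179)) (XT.lf (nat_lit 0) (nat_lit 13142863838) (nat_lit 76) (nat_lit 2647749243) (nat_lit 152) (nat_lit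 13315539812) (nat_lit 16) (nat_lit 5) (nat_lit 17) (nat_lit 5) (nat_lit 18) (nat_lit 4) (nat_lit 364) (nat_lit 238) (nat_lit 178)))) (XT.nd (nat_lit 156) (nat_lit 152) (nat_lit 0) (XT.nd (nat_lit 78) (nat_lit 0) (nat_lit 0) (XT.lf (nat_lit 0) (nat_lit 19988226205) (nat_lit 152) (nat_lit 8340504309) (nat_lit 0) (nat_lit 1517653907) (nat_lit 16) (nat_lit 5) (nat_lit 18) (nat_lit 4) (nat_lit 16) (nat_lit 4) (nat_lit 365) (nat_lit 238) (nat_lit 177)) (XT.lf (nat_lit 0) (nat_lit 24305759605) (nat_lit 152) (nat_lit 574210503) (nat_lit 0) (nat_lit 5729042762) (nat_lit 16) (nat_lit 5) (nat_lit 18) (nat_lit 4) (nat_lit 16) (nat_lit 4) (nat_lit 366) (nat_lit 238) (nat_lit 176))) (XT.nd (nat_lit 78) (nat_lit 76) (nat_lit 0) (XT.lf (nat_lit 0) (nat_lit 7514464498) (nat_lit 76) (nat_lit 21279303229) (nat_lit 76) (nat_lit 2599533429) (nat_lit 15) (nat_lit 4) (nat_lit 16) (nat_lit 5) (nat_lit 16) (nat_lit 4)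 (nat_lit 367) (nat_lit 238) (nat_lit 175)) (XT.lf (nat_lit 0) (nat_lit 1166205304) (nat_lit 152) (nat_lit 16412424445) (nat_lit 76) (nat_lit 14622908119) (nat_lit 14) (nat_lit 5) (nat_lit 16) (nat_lit 5) (nat_lit 15) (nat_lit 4) (nat_lit 368) (nat_lit 238) (nat_lit 174)))))) (XT.nd (nat_lit 546) (nat_lit 152) (nat_lit 0) (XT.nd (nat_lit 234) (nat_lit 76) (nat_lit 0) (XT.nd (nat_lit 78) (nat_lit 76) (nat_lit 0) (XT.lf (nat_lit 0) (nat_lit 4962344207) (nat_lit 152) (nat_lit 8803399769) (nat_lit 76) (nat_lit 19268423931) (nat_lit 14) (nat_lit 5) (nat_lit 16) (nat_lit 5) (nat_lit 15) (nat_lit 4) (nat_lit 369) (nat_lit 238) (nat_lit 173)) (XT.nd (nat_lit 78) (nat_lit 76) (nat_lit 0) (XT.lf (nat_lit 0) (nat_lit 8842926551) (nat_lit 152) (nat_lit 1020125663) (nat_lit 76) (nat_lit 24029616248) (nat_lit 14) (nat_lit 5) (nat_lit 16) (nat_lit 5) (nat_lit 15) (nat_lit 4) (nat_lit 370) (nat_lit 238) (nat_lit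 172)) (XT.lf (nat_lit 0) (nat_lit 7082401962) (nat_lit 76) (nat_lit 5797021556) (nat_lit 152) (nat_lit 21896323752) (nat_lit 13) (nat_lit 5) (nat_lit 14) (nat_lit 5) (nat_lit 15) (nat_lit 4) (nat_lit 371) (nat_lit 238) (nat_lit 171)))) (XT.nd (nat_lit 156) (nat_lit 76) (nat_lit 0) (XT.nd (nat_lit 78) (nat_lit 0) (nat_lit 0) (XT.lf (nat_lit 0) (nat_lit 15396983314) (nat_lit 76) (nat_lit 1622083425) (nat_lit 152) (nat_lit 18666798075) (nat_lit 13) (nat_lit 5) (nat_lit 14) (nat_lit 5) (nat_lit 15) (nat_lit 4) (nat_lit 372) (nat_lit 238) (nat_lit 170)) (XT.lf (nat_lit 0) (nat_lit 21280994675) (nat_lit 152) (nat_lit 12739057852) (nat_lit 0) (nat_lit 2603298175) (nat_lit 13) (nat_lit 5) (nat_lit 15) (nat_lit 4) (nat_lit 13) (nat_lit 4) (nat_lit 373) (nat_lit 238) (nat_lit 169))) (XT.nd (nat_lit 78) (nat_lit 76) (nat_lit 0) (XT.lf (nat_lit 0) (nat_lit 25659997824) (nat_lit 152) (nat_lit 5028343912) (nat_lit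 0) (nat_lit 6900950368) (nat_lit 13) (nat_lit 5) (nat_lit 15) (nat_lit 4) (nat_lit 13) (nat_lit 4) (nat_lit 374) (nat_lit 238) (nat_lit 168)) (XT.lf (nat_lit 0) (nat_lit 2922621160) (nat_lit 76) (nat_lit 27249782903) (nat_lit 76) (nat_lit 8411753937) (nat_lit 12) (nat_lit 4) (nat_lit 13) (nat_lit 5) (nat_lit 13) (nat_lit 4) (nat_lit 375) (nat_lit 238) (nat_lit 167))))) (XT.nd (nat_lit 234) (nat_lit 76) (nat_lit 0) (XT.nd (nat_lit 78) (nat_lit 76) (nat_lit 0) (XT.lf (nat_lit 0) (nat_lit 11167561733) (nat_lit 76) (nat_lit 23677637357) (nat_lit 76) (nat_lit 4762927313) (nat_lit 12) (nat_lit 4) (nat_lit 13) (nat_lit 5) (nat_lit 13) (nat_lit 4) (nat_lit 376) (nat_lit 238) (nat_lit 166)) (XT.nd (nat_lit 78) (nat_lit 76) (nat_lit 0) (XT.lf (nat_lit 0) (nat_lit 19613608222) (nat_lit 76) (nat_lit 20019560221) (nat_lit 76) (nat_lit 1030402528) (nat_lit 12) (nat_lit 4) (nat_lit 13) (nat_lit 5) (nat_lit 13)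 (nat_lit 4) (nat_lit 377) (nat_lit 238) (nat_lit 165)) (XT.lf (nat_lit 0) (nat_lit 2734656814) (nat_lit 152) (nat_lit 13510083630) (nat_lit 76) (nat_lit 25505869180) (nat_lit 11) (nat_lit 5) (nat_lit 13) (nat_lit 5) (nat_lit 12) (nat_lit 4) (nat_lit 378) (nat_lit 238) (nat_lit 164)))) (XT.nd (nat_lit 156) (nat_lit 0) (nat_lit 0) (XT.nd (nat_lit 78) (nat_lit 76) (nat_lit 0) (XT.lf (nat_lit 0) (nat_lit 6568144276) (nat_lit 152) (nat_lit 5798278130) (nat_lit 76) (nat_lit 30504251623) (nat_lit 11) (nat_lit 5) (nat_lit 13) (nat_lit 5) (nat_lit 12) (nat_lit 4) (nat_lit 379) (nat_lit 238) (nat_lit 163)) (XT.lf (nat_lit 0) (nat_lit 2143932933) (nat_lit 76) (nat_lit 8370192234) (nat_lit 152) (nat_lit 33510296600) (nat_lit 10) (nat_lit 5) (nat_lit 11) (nat_lit 5) (nat_lit 12) (nat_lit 4) (nat_lit 380) (nat_lit 238) (nat_lit 162))) (XT.nd (nat_lit 78) (nat_lit 0) (nat_lit 0) (XT.lf (nat_lit 0) (nat_lit 10400904347)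 (nat_lit 76) (nat_lit 4213278547) (nat_lit 152) (nat_lit 30597534008) (nat_lit 10) (nat_lit 5) (nat_lit 11) (nat_lit 5) (nat_lit 12) (nat_lit 4) (nat_lit 381) (nat_lit 238) (nat_lit 161)) (XT.lf (nat_lit 0) (nat_lit 18815529027) (nat_lit 152) (nat_lit 27571323277) (nat_lit 0) (nat_lit 48435703) (nat_lit 10) (nat_lit 5) (nat_lit 12) (nat_lit 4) (nat_lit 10) (nat_lit 4) (nat_lit 382) (nat_lit 238) (nat_lit 160))))))) (XT.nd (nat_lit 1092) (nat_lit 76) (nat_lit 0) (XT.nd (nat_lit 546) (nat_lit 152) (nat_lit 0) (XT.nd (nat_lit 234) (nat_lit 76) (nat_lit 0) (XT.nd (nat_lit 78) (nat_lit 0) (nat_lit 0) (XT.lf (nat_lit 0) (nat_lit 23162912459) (nat_lit 152) (nat_lit 20196773044) (nat_lit 0) (nat_lit 4335286384) (nat_lit 10) (nat_lit 5) (nat_lit 12) (nat_lit 4) (nat_lit 10) (nat_lit 4) (nat_lit 383) (nat_lit 238) (nat_lit 159)) (XT.nd (nat_lit 78) (nat_lit 0) (nat_lit 0) (XT.lf (nat_lit 0) (nat_lit 27619631264)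 (nat_lit 152) (nat_lit 12640217464) (nat_lit 0) (nat_lit 8733235527) (nat_lit 10) (nat_lit 5) (nat_lit 12) (nat_lit 4) (nat_lit 10) (nat_lit 4) (nat_lit 384) (nat_lit 238) (nat_lit 158)) (XT.lf (nat_lit 0) (nat_lit 32189579661) (nat_lit 152) (nat_lit 4895053723) (nat_lit 0) (nat_lit 13246126001) (nat_lit 10) (nat_lit 5) (nat_lit 12) (nat_lit 4) (nat_lit 10) (nat_lit 4) (nat_lit 385) (nat_lit 238) (nat_lit 157)))) (XT.nd (nat_lit 156) (nat_lit 0) (nat_lit 0) (XT.nd (nat_lit 78) (nat_lit 0) (nat_lit 0) (XT.lf (nat_lit 0) (nat_lit 3106096938) (nat_lit 76) (nat_lit 33800511575) (nat_lit 76) (nat_lit 14801661873) (nat_lit 9) (nat_lit 4) (nat_lit 10) (nat_lit 5) (nat_lit 10) (nat_lit 4) (nat_lit 386) (nat_lit 238) (nat_lit 156)) (XT.lf (nat_lit 0) (nat_lit 11411009331) (nat_lit 76) (nat_lit 30383920568) (nat_lit 76) (nat_lit 11331288300) (nat_lit 9) (nat_lit 4) (nat_lit 10) (nat_lit 5) (nat_lit 10) (nat_lit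 4) (nat_lit 387) (nat_lit 238) (nat_lit 155))) (XT.nd (nat_lit 78) (nat_lit 0) (nat_lit 0) (XT.lf (nat_lit 0) (nat_lit 19929519008) (nat_lit 76) (nat_lit 26881305435) (nat_lit 76) (nat_lit 7776457084) (nat_lit 9) (nat_lit 4) (nat_lit 10) (nat_lit 5) (nat_lit 10) (nat_lit 4) (nat_lit 388) (nat_lit 238) (nat_lit 154)) (XT.lf (nat_lit 0) (nat_lit 28669069326) (nat_lit 76) (nat_lit 23289605640) (nat_lit 76) (nat_lit 4134062063) (nat_lit 9) (nat_lit 4) (nat_lit 10) (nat_lit 5) (nat_lit 10) (nat_lit 4) (nat_lit 389) (nat_lit 238) (nat_lit 153))))) (XT.nd (nat_lit 234) (nat_lit 76) (nat_lit 0) (XT.nd (nat_lit 78) (nat_lit 76) (nat_lit 0) (XT.lf (nat_lit 0) (nat_lit 37637296786) (nat_lit 76) (nat_lit 19605682803) (nat_lit 76) (nat_lit 400920560) (nat_lit 9) (nat_lit 4) (nat_lit 10) (nat_lit 5) (nat_lit 10) (nat_lit 4) (nat_lit 390) (nat_lit 238) (nat_lit 152)) (XT.nd (nat_lit 78) (nat_lit 0) (nat_lit 0)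 (XT.lf (nat_lit 0) (nat_lit 3359371315) (nat_lit 152) (nat_lit 12433023585) (nat_lit 76) (nat_lit 43448743325) (nat_lit 8) (nat_lit 5) (nat_lit 10) (nat_lit 5) (nat_lit 9) (nat_lit 4) (nat_lit 391) (nat_lit 238) (nat_lit 151)) (XT.lf (nat_lit 0) (nat_lit 7207292648) (nat_lit 152) (nat_lit 4668136592) (nat_lit 76) (nat_lit 49011262884) (nat_lit 8) (nat_lit 5) (nat_lit 10) (nat_lit 5) (nat_lit 9) (nat_lit 4) (nat_lit 392) (nat_lit 238) (nat_lit 150)))) (XT.nd (nat_lit 156) (nat_lit 0) (nat_lit 0) (XT.nd (nat_lit 78) (nat_lit 0) (nat_lit 0) (XT.lf (nat_lit 0) (nat_lit 3364346889) (nat_lit 76) (nat_lit 7822022376) (nat_lit 152) (nat_lit 51394775853) (nat_lit 7) (nat_lit 5) (nat_lit 8) (nat_lit 5) (nat_lit 9) (nat_lit 4) (nat_lit 393) (nat_lit 238) (nat_lit 149)) (XT.lf (nat_lit 0) (nat_lit 11702800378) (nat_lit 76) (nat_lit 3612723388) (nat_lit 152) (nat_lit 49009990661) (nat_lit 7) (nat_lit 5) (nat_lit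 8) (nat_lit 5) (nat_lit 9) (nat_lit 4) (nat_lit 394) (nat_lit 238) (nat_lit 148))) (XT.nd (nat_lit 78) (nat_lit 0) (nat_lit 0) (XT.lf (nat_lit 0) (nat_lit 19559413511) (nat_lit 152) (nat_lit 45867907814) (nat_lit 0) (nat_lit 695171451) (nat_lit 7) (nat_lit 5) (nat_lit 9) (nat_lit 4) (nat_lit 7) (nat_lit 4) (nat_lit 395) (nat_lit 238) (nat_lit 147)) (XT.lf (nat_lit 0) (nat_lit 23950770155) (nat_lit 152) (nat_lit 38975500668) (nat_lit 0) (nat_lit 5046508815) (nat_lit 7) (nat_lit 5) (nat_lit 9) (nat_lit 4) (nat_lit 7) (nat_lit 4) (nat_lit 396) (nat_lit 238) (nat_lit 146)))))) (XT.nd (nat_lit 546) (nat_lit 0) (nat_lit 0) (XT.nd (nat_lit 234) (nat_lit 76) (nat_lit 0) (XT.nd (nat_lit 78) (nat_lit 0) (nat_lit 0) (XT.lf (nat_lit 0) (nat_lit 28458703098) (nat_lit 152) (nat_lit 31904742412) (nat_lit 0) (nat_lit 9515588090) (nat_lit 7) (nat_lit 5) (nat_lit 9) (nat_lit 4) (nat_lit 7) (nat_lit 4) (nat_lit 397)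 (nat_lit 238) (nat_lit 145)) (XT.nd (nat_lit 78) (nat_lit 0) (nat_lit 0) (XT.lf (nat_lit 0) (nat_lit 33087151313) (nat_lit 152) (nat_lit 24649454714) (nat_lit 0) (nat_lit 14106314294) (nat_lit 7) (nat_lit 5) (nat_lit 9) (nat_lit 4) (nat_lit 7) (nat_lit 4) (nat_lit 398) (nat_lit 238) (nat_lit 144)) (XT.lf (nat_lit 0) (nat_lit 37840159072) (nat_lit 152) (nat_lit 17203298001) (nat_lit 0) (nat_lit 18822698744) (nat_lit 7) (nat_lit 5) (nat_lit 9) (nat_lit 4) (nat_lit 7) (nat_lit 4) (nat_lit 399) (nat_lit 238) (nat_lit 143)))) (XT.nd (nat_lit 156) (nat_lit 76) (nat_lit 0) (XT.nd (nat_lit 78) (nat_lit 0) (nat_lit 0) (XT.lf (nat_lit 0) (nat_lit 42721879491) (nat_lit 152) (nat_lit 9559765924) (nat_lit 0) (nat_lit 23668862551) (nat_lit 7) (nat_lit 5) (nat_lit 9) (nat_lit 4) (nat_lit 7) (nat_lit 4) (nat_lit 400) (nat_lit 238) (nat_lit 142)) (XT.lf (nat_lit 0) (nat_lit 47736578149) (nat_lit 152) (nat_lit 1712179668)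 (nat_lit 0) (nat_lit 28649040228) (nat_lit 7) (nat_lit 5) (nat_lit 9) (nat_lit 4) (nat_lit 7) (nat_lit 4) (nat_lit 401) (nat_lit 238) (nat_lit 141))) (XT.nd (nat_lit 78) (nat_lit 0) (nat_lit 0) (XT.lf (nat_lit 0) (nat_lit 6472622050) (nat_lit 76) (nat_lit 46478233576) (nat_lit 76) (nat_lit 27357180138) (nat_lit 6) (nat_lit 4) (nat_lit 7) (nat_lit 5) (nat_lit 7) (nat_lit 4) (nat_lit 402) (nat_lit 238) (nat_lit 140)) (XT.lf (nat_lit 0) (nat_lit 14913789886) (nat_lit 76) (nat_lit 43412127898) (nat_lit 76) (nat_lit 24258535123) (nat_lit 6) (nat_lit 4) (nat_lit 7) (nat_lit 5) (nat_lit 7) (nat_lit 4) (nat_lit 403) (nat_lit 238) (nat_lit 139))))) (XT.nd (nat_lit 234) (nat_lit 0) (nat_lit 0) (XT.nd (nat_lit 78) (nat_lit 0) (nat_lit 0) (XT.lf (nat_lit 0) (nat_lit 23584623885) (nat_lit 76) (nat_lit 40265051318) (nat_lit 76) (nat_lit 21079866954) (nat_lit 6) (nat_lit 4) (nat_lit 7) (nat_lit 5) (nat_lit 7)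 (nat_lit 4) (nat_lit 404) (nat_lit 238) (nat_lit 138)) (XT.nd (nat_lit 78) (nat_lit 0) (nat_lit 0) (XT.lf (nat_lit 0) (nat_lit 32492700504) (nat_lit 76) (nat_lit 37034253965) (nat_lit 76) (nat_lit 17818398156) (nat_lit 6) (nat_lit 4) (nat_lit 7) (nat_lit 5) (nat_lit 7) (nat_lit 4) (nat_lit 405) (nat_lit 238) (nat_lit 137)) (XT.lf (nat_lit 0) (nat_lit 41645803498) (nat_lit 76) (nat_lit 33716912811) (nat_lit 76) (nat_lit 14471278899) (nat_lit 6) (nat_lit 4) (nat_lit 7) (nat_lit 5) (nat_lit 7) (nat_lit 4) (nat_lit 406) (nat_lit 238) (nat_lit 136)))) (XT.nd (nat_lit 156) (nat_lit 0) (nat_lit 0) (XT.nd (nat_lit 78) (nat_lit 0) (nat_lit 0) (XT.lf (nat_lit 0) (nat_lit 51051930726) (nat_lit 76) (nat_lit 30310129209) (nat_lit 76) (nat_lit 11035584519) (nat_lit 6) (nat_lit 4) (nat_lit 7) (nat_lit 5) (nat_lit 7) (nat_lit 4) (nat_lit 407) (nat_lit 238) (nat_lit 135)) (XT.lf (nat_lit 0) (nat_lit 60719301132)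 (nat_lit 76) (nat_lit 26810926358) (nat_lit 76) (nat_lit 7508312950) (nat_lit 6) (nat_lit 4) (nat_lit 7) (nat_lit 5) (nat_lit 7) (nat_lit 4) (nat_lit 408) (nat_lit 238) (nat_lit 134))) (XT.nd (nat_lit 78) (nat_lit 0) (nat_lit 0) (XT.lf (nat_lit 0) (nat_lit 70656361934) (nat_lit 76) (nat_lit 23216246702) (nat_lit 76) (nat_lit 3886382112) (nat_lit 6) (nat_lit 4) (nat_lit 7) (nat_lit 5) (nat_lit 7) (nat_lit 4) (nat_lit 409) (nat_lit 238) (nat_lit 133)) (XT.lf (nat_lit 0) (nat_lit 80871796001) (nat_lit 76) (nat_lit 19522949259) (nat_lit 76) (nat_lit 166627210) (nat_lit 6) (nat_lit 4) (nat_lit 7) (nat_lit 5) (nat_lit 7) (nat_lit 4) (nat_lit 410) (nat_lit 238) (nat_lit 132))))))))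
noncomputable def xc54 : XT := (XT.nd (nat_lit 34164) (nat_lit 0) (nat_lit 1216) (XT.nd (nat_lit 33072) (nat_lit 0) (nat_lit 3496) (XT.nd (nat_lit 32526) (nat_lit 0) (nat_lit 5624) (XT.nd (nat_lit 32292) (nat_lit 0) (nat_lit 7296) (XT.nd (nat_lit 32136) (nat_lit 0) (nat_lit 8056) (XT.lf (nat_lit 0) (nat_lit 3582895382) (nat_lit 152) (nat_lit 12108731274) (nat_lit 76) (nat_lit 87755453839) (nat_lit 5) (nat_lit 5) (nat_lit 7) (nat_lit 5) (nat_lit 6) (nat_lit 4) (nat_lit 411) (nat_lit 238) (nat_lit 131)) (XT.nd (nat_lit 78) (nat_lit 380) (nat_lit 0) (XT.lf (nat_lit 0) (nat_lit 1157576117) (nat_lit 456) (nat_lit 1960385793) (nat_lit 0) (nat_lit 1157576117) (nat_lit 116) (nat_lit 5) (nat_lit 122) (nat_lit 4) (nat_lit 116) (nat_lit 4) (nat_lit 302) (nat_lit 239) (nat_lit 239)) (XT.lf (nat_lit 0) (nat_lit 2300433229) (nat_lit 380) (nat_lit 3712578824) (nat_lit 380) (nat_lit 2647942674) (nat_lit 111) (nat_lit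 4) (nat_lit 116) (nat_lit 5) (nat_lit 116) (nat_lit 4) (nat_lit 303) (nat_lit 239) (nat_lit 238)))) (XT.nd (nat_lit 78) (nat_lit 684) (nat_lit 0) (XT.lf (nat_lit 0) (nat_lit 974151159) (nat_lit 456) (nat_lit 120736625) (nat_lit 76) (nat_lit 7680624331) (nat_lit 110) (nat_lit 5) (nat_lit 116) (nat_lit 5) (nat_lit 111) (nat_lit 4) (nat_lit 304) (nat_lit 239) (nat_lit 237)) (XT.nd (nat_lit 78) (nat_lit 380) (nat_lit 0) (XT.lf (nat_lit 0) (nat_lit 4637643501) (nat_lit 380) (nat_lit 2629385226) (nat_lit 0) (nat_lit 1626201600) (nat_lit 106) (nat_lit 5) (nat_lit 111) (nat_lit 4) (nat_lit 106) (nat_lit 4) (nat_lit 305) (nat_lit 239) (nat_lit 236)) (XT.lf (nat_lit 0) (nat_lit 3767099734) (nat_lit 380) (nat_lit 4603025925) (nat_lit 380) (nat_lit 645668594) (nat_lit 101) (nat_lit 4) (nat_lit 106) (nat_lit 5) (nat_lit 106) (nat_lit 4) (nat_lit 306) (nat_lit 239) (nat_lit 235))))) (XT.nd (nat_lit 234) (nat_lit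 912) (nat_lit 0) (XT.nd (nat_lit 78) (nat_lit 380) (nat_lit 0) (XT.lf (nat_lit 0) (nat_lit 1136326797) (nat_lit 304) (nat_lit 1825273509) (nat_lit 380) (nat_lit 6181160187) (nat_lit 96) (nat_lit 5) (nat_lit 100) (nat_lit 5) (nat_lit 101) (nat_lit 4) (nat_lit 307) (nat_lit 239) (nat_lit 234)) (XT.nd (nat_lit 78) (nat_lit 380) (nat_lit 0) (XT.lf (nat_lit 0) (nat_lit 6639924691) (nat_lit 380) (nat_lit 1593656602) (nat_lit 0) (nat_lit 1040567564) (nat_lit 96) (nat_lit 5) (nat_lit 101) (nat_lit 4) (nat_lit 96) (nat_lit 4) (nat_lit 308) (nat_lit 239) (nat_lit 233)) (XT.lf (nat_lit 0) (nat_lit 979686115) (nat_lit 380) (nat_lit 4451027919) (nat_lit 76) (nat_lit 3979132164) (nat_lit 91) (nat_lit 5) (nat_lit 96) (nat_lit 5) (nat_lit 92) (nat_lit 4) (nat_lit 309) (nat_lit 239) (nat_lit 232)))) (XT.nd (nat_lit 156) (nat_lit 608) (nat_lit 0) (XT.nd (nat_lit 78) (nat_lit 0) (nat_lit 0) (XT.lf (nat_lit 0) (nat_lit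 2083578089) (nat_lit 304) (nat_lit 2517074020) (nat_lit 380) (nat_lit 4949705022) (nat_lit 87) (nat_lit 5) (nat_lit 91) (nat_lit 5) (nat_lit 92) (nat_lit 4) (nat_lit 310) (nat_lit 239) (nat_lit 231)) (XT.lf (nat_lit 0) (nat_lit 8296535371) (nat_lit 380) (nat_lit 916623613) (nat_lit 0) (nat_lit 483006270) (nat_lit 87) (nat_lit 5) (nat_lit 92) (nat_lit 4) (nat_lit 87) (nat_lit 4) (nat_lit 311) (nat_lit 239) (nat_lit 230))) (XT.nd (nat_lit 78) (nat_lit 228) (nat_lit 0) (XT.lf (nat_lit 0) (nat_lit 2212177791) (nat_lit 380) (nat_lit 4069522559) (nat_lit 76) (nat_lit 3564084736) (nat_lit 82) (nat_lit 5) (nat_lit 87) (nat_lit 5) (nat_lit 83) (nat_lit 4) (nat_lit 312) (nat_lit 239) (nat_lit 229)) (XT.lf (nat_lit 0) (nat_lit 2605841635) (nat_lit 228) (nat_lit 3251818720) (nat_lit 304) (nat_lit 4143278396) (nat_lit 79) (nat_lit 5) (nat_lit 82) (nat_lit 5) (nat_lit 83) (nat_lit 4) (nat_lit 313) (nat_lit 239)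 (nat_lit 228)))))) (XT.nd (nat_lit 546) (nat_lit 988) (nat_lit 0) (XT.nd (nat_lit 234) (nat_lit 532) (nat_lit 0) (XT.nd (nat_lit 78) (nat_lit 608) (nat_lit 0) (XT.lf (nat_lit 0) (nat_lit 9445898432) (nat_lit 228) (nat_lit 127972127) (nat_lit 304) (nat_lit 588098223) (nat_lit 79) (nat_lit 5) (nat_lit 82) (nat_lit 5) (nat_lit 83) (nat_lit 4) (nat_lit 314) (nat_lit 239) (nat_lit 227)) (XT.nd (nat_lit 78) (nat_lit 228) (nat_lit 0) (XT.lf (nat_lit 0) (nat_lit 3024711122) (nat_lit 380) (nat_lit 4221397815) (nat_lit 76) (nat_lit 3080564824) (nat_lit 74) (nat_lit 5) (nat_lit 79) (nat_lit 5) (nat_lit 75) (nat_lit 4) (nat_lit 315) (nat_lit 239) (nat_lit 226)) (XT.lf (nat_lit 0) (nat_lit 2574936477) (nat_lit 228) (nat_lit 4115024237) (nat_lit 304) (nat_lit 3807565539) (nat_lit 71) (nat_lit 5) (nat_lit 74) (nat_lit 5) (nat_lit 75) (nat_lit 4) (nat_lit 316) (nat_lit 239) (nat_lit 225)))) (XT.nd (nat_lit 156)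 (nat_lit 228) (nat_lit 0) (XT.nd (nat_lit 78) (nat_lit 304) (nat_lit 0) (XT.lf (nat_lit 0) (nat_lit 9544865228) (nat_lit 228) (nat_lit 886617793) (nat_lit 304) (nat_lit 243087504) (nat_lit 71) (nat_lit 5) (nat_lit 74) (nat_lit 5) (nat_lit 75) (nat_lit 4) (nat_lit 317) (nat_lit 239) (nat_lit 224)) (XT.lf (nat_lit 0) (nat_lit 3366556200) (nat_lit 304) (nat_lit 5047631133) (nat_lit 76) (nat_lit 2441648695) (nat_lit 67) (nat_lit 5) (nat_lit 71) (nat_lit 5) (nat_lit 68) (nat_lit 4) (nat_lit 318) (nat_lit 239) (nat_lit 223))) (XT.nd (nat_lit 78) (nat_lit 0) (nat_lit 0) (XT.lf (nat_lit 0) (nat_lit 1844179017) (nat_lit 228) (nat_lit 5199275971) (nat_lit 304) (nat_lit 4000147694) (nat_lit 64) (nat_lit 5) (nat_lit 67) (nat_lit 5) (nat_lit 68) (nat_lit 4) (nat_lit 319) (nat_lit 239) (nat_lit 222)) (XT.lf (nat_lit 0) (nat_lit 8931627106) (nat_lit 228) (nat_lit 1876888824) (nat_lit 304) (nat_lit 429200206)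 (nat_lit 64) (nat_lit 5) (nat_lit 67) (nat_lit 5) (nat_lit 68) (nat_lit 4) (nat_lit 320) (nat_lit 239) (nat_lit 221))))) (XT.nd (nat_lit 234) (nat_lit 532) (nat_lit 0) (XT.nd (nat_lit 78) (nat_lit 152) (nat_lit 0) (XT.lf (nat_lit 0) (nat_lit 3174550955) (nat_lit 304) (nat_lit 6710130090) (nat_lit 76) (nat_lit 1552409483) (nat_lit 60) (nat_lit 5) (nat_lit 64) (nat_lit 5) (nat_lit 61) (nat_lit 4) (nat_lit 321) (nat_lit 239) (nat_lit 220)) (XT.nd (nat_lit 78) (nat_lit 0) (nat_lit 0) (XT.lf (nat_lit 0) (nat_lit 244847937) (nat_lit 152) (nat_lit 6606281432) (nat_lit 228) (nat_lit 4792034318) (nat_lit 58) (nat_lit 5) (nat_lit 60) (nat_lit 5) (nat_lit 61) (nat_lit 4) (nat_lit 322) (nat_lit 239) (nat_lit 219)) (XT.lf (nat_lit 0) (nat_lit 7433744879) (nat_lit 152) (nat_lit 3201898338) (nat_lit 228) (nat_lit 1219890623) (nat_lit 58) (nat_lit 5) (nat_lit 60) (nat_lit 5) (nat_lit 61) (nat_lit 4) (nat_lit 323)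 (nat_lit 239) (nat_lit 218)))) (XT.nd (nat_lit 156) (nat_lit 228) (nat_lit 0) (XT.nd (nat_lit 78) (nat_lit 0) (nat_lit 0) (XT.lf (nat_lit 0) (nat_lit 2371432099) (nat_lit 304) (nat_lit 9395602931) (nat_lit 76) (nat_lit 307772037) (nat_lit 54) (nat_lit 5) (nat_lit 58) (nat_lit 5) (nat_lit 55) (nat_lit 4) (nat_lit 324) (nat_lit 239) (nat_lit 217)) (XT.lf (nat_lit 0) (nat_lit 6054530570) (nat_lit 304) (nat_lit 2370687513) (nat_lit 76) (nat_lit 3874861636) (nat_lit 54) (nat_lit 5) (nat_lit 58) (nat_lit 5) (nat_lit 55) (nat_lit 4) (nat_lit 325) (nat_lit 239) (nat_lit 216))) (XT.nd (nat_lit 78) (nat_lit 76) (nat_lit 0) (XT.lf (nat_lit 0) (nat_lit 4851870556) (nat_lit 152) (nat_lit 4976637386) (nat_lit 228) (nat_lit 2704230069) (nat_lit 52) (nat_lit 5) (nat_lit 54) (nat_lit 5) (nat_lit 55) (nat_lit 4) (nat_lit 326) (nat_lit 239) (nat_lit 215)) (XT.lf (nat_lit 0) (nat_lit 883063569) (nat_lit 228) (nat_lit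 549337199) (nat_lit 76) (nat_lit 11340995766) (nat_lit 51) (nat_lit 5) (nat_lit 54) (nat_lit 5) (nat_lit 52) (nat_lit 5) (nat_lit 327) (nat_lit 239) (nat_lit 214))))))) (XT.nd (nat_lit 1092) (nat_lit 836) (nat_lit 0) (XT.nd (nat_lit 546) (nat_lit 684) (nat_lit 0) (XT.nd (nat_lit 234) (nat_lit 380) (nat_lit 0) (XT.nd (nat_lit 78) (nat_lit 152) (nat_lit 0) (XT.lf (nat_lit 0) (nat_lit 4546692959) (nat_lit 304) (nat_lit 6245241435) (nat_lit 76) (nat_lit 2227880832) (nat_lit 48) (nat_lit 5) (nat_lit 52) (nat_lit 5) (nat_lit 49) (nat_lit 4) (nat_lit 328) (nat_lit 239) (nat_lit 213)) (XT.nd (nat_lit 78) (nat_lit 0) (nat_lit 0) (XT.lf (nat_lit 0) (nat_lit 954959393) (nat_lit 152) (nat_lit 7330603251) (nat_lit 228) (nat_lit 4989138577) (nat_lit 46) (nat_lit 5) (nat_lit 48) (nat_lit 5) (nat_lit 49) (nat_lit 4) (nat_lit 329) (nat_lit 239) (nat_lit 212)) (XT.lf (nat_lit 0) (nat_lit 8394780189) (nat_lit 152)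 (nat_lit 3742100095) (nat_lit 228) (nat_lit 1400378733) (nat_lit 46) (nat_lit 5) (nat_lit 48) (nat_lit 5) (nat_lit 49) (nat_lit 4) (nat_lit 330) (nat_lit 239) (nat_lit 211)))) (XT.nd (nat_lit 156) (nat_lit 152) (nat_lit 0) (XT.nd (nat_lit 78) (nat_lit 0) (nat_lit 0) (XT.lf (nat_lit 0) (nat_lit 2167706960) (nat_lit 152) (nat_lit 42780415) (nat_lit 228) (nat_lit 11597798358) (nat_lit 43) (nat_lit 5) (nat_lit 45) (nat_lit 5) (nat_lit 46) (nat_lit 5) (nat_lit 331) (nat_lit 239) (nat_lit 210)) (XT.lf (nat_lit 0) (nat_lit 5929026710) (nat_lit 228) (nat_lit 4436945413) (nat_lit 76) (nat_lit 3720261189) (nat_lit 43) (nat_lit 5) (nat_lit 46) (nat_lit 5) (nat_lit 44) (nat_lit 4) (nat_lit 332) (nat_lit 239) (nat_lit 209))) (XT.nd (nat_lit 78) (nat_lit 0) (nat_lit 0) (XT.lf (nat_lit 0) (nat_lit 2939659888) (nat_lit 152) (nat_lit 6788759896) (nat_lit 228) (nat_lit 4645050528) (nat_lit 41) (nat_lit 5) (nat_lit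 43) (nat_lit 5) (nat_lit 44) (nat_lit 4) (nat_lit 333) (nat_lit 239) (nat_lit 208)) (XT.lf (nat_lit 0) (nat_lit 10529420684) (nat_lit 152) (nat_lit 3098571657) (nat_lit 228) (nat_lit 1041775199) (nat_lit 41) (nat_lit 5) (nat_lit 43) (nat_lit 5) (nat_lit 44) (nat_lit 4) (nat_lit 334) (nat_lit 239) (nat_lit 207))))) (XT.nd (nat_lit 234) (nat_lit 304) (nat_lit 0) (XT.nd (nat_lit 78) (nat_lit 152) (nat_lit 0) (XT.lf (nat_lit 0) (nat_lit 2598803011) (nat_lit 228) (nat_lit 11668380661) (nat_lit 76) (nat_lit 707588598) (nat_lit 38) (nat_lit 5) (nat_lit 41) (nat_lit 5) (nat_lit 39) (nat_lit 4) (nat_lit 335) (nat_lit 239) (nat_lit 206)) (XT.nd (nat_lit 78) (nat_lit 152) (nat_lit 0) (XT.lf (nat_lit 0) (nat_lit 6343437525) (nat_lit 228) (nat_lit 4365448749) (nat_lit 76) (nat_lit 4579284686) (nat_lit 38) (nat_lit 5) (nat_lit 41) (nat_lit 5) (nat_lit 39) (nat_lit 4) (nat_lit 336) (nat_lit 239) (nat_lit 205))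 (XT.lf (nat_lit 0) (nat_lit 3122577957) (nat_lit 152) (nat_lit 7052388411) (nat_lit 228) (nat_lit 5436794393) (nat_lit 36) (nat_lit 5) (nat_lit 38) (nat_lit 5) (nat_lit 39) (nat_lit 4) (nat_lit 337) (nat_lit 239) (nat_lit 204)))) (XT.nd (nat_lit 156) (nat_lit 76) (nat_lit 0) (XT.nd (nat_lit 78) (nat_lit 228) (nat_lit 0) (XT.lf (nat_lit 0) (nat_lit 10830737625) (nat_lit 152) (nat_lit 3280036914) (nat_lit 228) (nat_lit 1834628773) (nat_lit 36) (nat_lit 5) (nat_lit 38) (nat_lit 5) (nat_lit 39) (nat_lit 4) (nat_lit 338) (nat_lit 239) (nat_lit 203)) (XT.lf (nat_lit 0) (nat_lit 1814397224) (nat_lit 228) (nat_lit 13877419923) (nat_lit 76) (nat_lit 597458873) (nat_lit 33) (nat_lit 5) (nat_lit 36) (nat_lit 5) (nat_lit 34) (nat_lit 4) (nat_lit 339) (nat_lit 239) (nat_lit 202))) (XT.nd (nat_lit 78) (nat_lit 76) (nat_lit 0) (XT.lf (nat_lit 0) (nat_lit 5567266162) (nat_lit 228) (nat_lit 6516736651) (nat_lit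 76) (nat_lit 4558002698) (nat_lit 33) (nat_lit 5) (nat_lit 36) (nat_lit 5) (nat_lit 34) (nat_lit 4) (nat_lit 340) (nat_lit 239) (nat_lit 201)) (XT.lf (nat_lit 0) (nat_lit 994178053) (nat_lit 76) (nat_lit 8396266079) (nat_lit 152) (nat_lit 7616163331) (nat_lit 32) (nat_lit 5) (nat_lit 33) (nat_lit 5) (nat_lit 34) (nat_lit 4) (nat_lit 341) (nat_lit 239) (nat_lit 200)))))) (XT.nd (nat_lit 546) (nat_lit 532) (nat_lit 0) (XT.nd (nat_lit 234) (nat_lit 76) (nat_lit 0) (XT.nd (nat_lit 78) (nat_lit 228) (nat_lit 0) (XT.lf (nat_lit 0) (nat_lit 8774900098) (nat_lit 76) (nat_lit 4568043092) (nat_lit 152) (nat_lit 4038787125) (nat_lit 32) (nat_lit 5) (nat_lit 33) (nat_lit 5) (nat_lit 34) (nat_lit 4) (nat_lit 342) (nat_lit 239) (nat_lit 199)) (XT.nd (nat_lit 78) (nat_lit 228) (nat_lit 0) (XT.lf (nat_lit 0) (nat_lit 16702532335) (nat_lit 76) (nat_lit 661795066) (nat_lit 152) (nat_lit 405291133) (nat_lit 32) (nat_lit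 5) (nat_lit 33) (nat_lit 5) (nat_lit 34) (nat_lit 4) (nat_lit 343) (nat_lit 239) (nat_lit 198)) (XT.lf (nat_lit 0) (nat_lit 3320798205) (nat_lit 228) (nat_lit 11487869632) (nat_lit 76) (nat_lit 3358071680) (nat_lit 29) (nat_lit 5) (nat_lit 32) (nat_lit 5) (nat_lit 30) (nat_lit 4) (nat_lit 344) (nat_lit 239) (nat_lit 197)))) (XT.nd (nat_lit 156) (nat_lit 0) (nat_lit 0) (XT.nd (nat_lit 78) (nat_lit 76) (nat_lit 0) (XT.lf (nat_lit 0) (nat_lit 7119483193) (nat_lit 228) (nat_lit 3992309114) (nat_lit 76) (nat_lit 7464811878) (nat_lit 29) (nat_lit 5) (nat_lit 32) (nat_lit 5) (nat_lit 30) (nat_lit 4) (nat_lit 345) (nat_lit 239) (nat_lit 196)) (XT.lf (nat_lit 0) (nat_lit 3717885791) (nat_lit 76) (nat_lit 7302917770) (nat_lit 152) (nat_lit 7978319632) (nat_lit 28) (nat_lit 5) (nat_lit 29) (nat_lit 5) (nat_lit 30) (nat_lit 4) (nat_lit 346) (nat_lit 239) (nat_lit 195))) (XT.nd (nat_lit 78) (nat_lit 0) (nat_lit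 0) (XT.lf (nat_lit 0) (nat_lit 11659254783) (nat_lit 76) (nat_lit 3373742334) (nat_lit 152) (nat_lit 4401523750) (nat_lit 28) (nat_lit 5) (nat_lit 29) (nat_lit 5) (nat_lit 30) (nat_lit 4) (nat_lit 347) (nat_lit 239) (nat_lit 194)) (XT.lf (nat_lit 0) (nat_lit 19126570416) (nat_lit 152) (nat_lit 131210764) (nat_lit 0) (nat_lit 626386448) (nat_lit 28) (nat_lit 5) (nat_lit 30) (nat_lit 4) (nat_lit 28) (nat_lit 4) (nat_lit 348) (nat_lit 239) (nat_lit 193))))) (XT.nd (nat_lit 234) (nat_lit 228) (nat_lit 0) (XT.nd (nat_lit 78) (nat_lit 76) (nat_lit 0) (XT.lf (nat_lit 0) (nat_lit 3001886770) (nat_lit 228) (nat_lit 12592478928) (nat_lit 76) (nat_lit 4750149917) (nat_lit 25) (nat_lit 5) (nat_lit 28) (nat_lit 5) (nat_lit 26) (nat_lit 4) (nat_lit 349) (nat_lit 239) (nat_lit 192)) (XT.nd (nat_lit 78) (nat_lit 76) (nat_lit 0) (XT.lf (nat_lit 0) (nat_lit 6816224674) (nat_lit 228) (nat_lit 5030076964) (nat_lit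 76) (nat_lit 8973444565) (nat_lit 25) (nat_lit 5) (nat_lit 28) (nat_lit 5) (nat_lit 26) (nat_lit 4) (nat_lit 350) (nat_lit 239) (nat_lit 191)) (XT.lf (nat_lit 0) (nat_lit 2736479268) (nat_lit 76) (nat_lit 7992059196) (nat_lit 152) (nat_lit 10581204489) (nat_lit 24) (nat_lit 5) (nat_lit 25) (nat_lit 5) (nat_lit 26) (nat_lit 4) (nat_lit 351) (nat_lit 239) (nat_lit 190)))) (XT.nd (nat_lit 156) (nat_lit 228) (nat_lit 0) (XT.nd (nat_lit 78) (nat_lit 0) (nat_lit 0) (XT.lf (nat_lit 0) (nat_lit 10763773716) (nat_lit 76) (nat_lit 4003003804) (nat_lit 152) (nat_lit 7047420571) (nat_lit 24) (nat_lit 5) (nat_lit 25) (nat_lit 5) (nat_lit 26) (nat_lit 4) (nat_lit 352) (nat_lit 239) (nat_lit 189)) (XT.lf (nat_lit 0) (nat_lit 18885862989) (nat_lit 152) (nat_lit 3377026778) (nat_lit 0) (nat_lit 72120858) (nat_lit 24) (nat_lit 5) (nat_lit 26) (nat_lit 4) (nat_lit 24) (nat_lit 4) (nat_lit 353) (nat_lit 239) (nat_lit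 188))) (XT.nd (nat_lit 78) (nat_lit 0) (nat_lit 0) (XT.lf (nat_lit 0) (nat_lit 295271108) (nat_lit 228) (nat_lit 18370218624) (nat_lit 76) (nat_lit 4204601121) (nat_lit 21) (nat_lit 5) (nat_lit 24) (nat_lit 5) (nat_lit 22) (nat_lit 4) (nat_lit 354) (nat_lit 239) (nat_lit 187)) (XT.lf (nat_lit 0) (nat_lit 4077100832) (nat_lit 228) (nat_lit 10844441024) (nat_lit 76) (nat_lit 8498838516) (nat_lit 21) (nat_lit 5) (nat_lit 24) (nat_lit 5) (nat_lit 22) (nat_lit 4) (nat_lit 355) (nat_lit 239) (nat_lit 186))))))))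
noncomputable def xc55 : XT := (XT.nd (nat_lit 2184) (nat_lit 380) (nat_lit 0) (XT.nd (nat_lit 1092) (nat_lit 304) (nat_lit 0) (XT.nd (nat_lit 546) (nat_lit 228) (nat_lit 0) (XT.nd (nat_lit 234) (nat_lit 228) (nat_lit 0) (XT.nd (nat_lit 78) (nat_lit 76) (nat_lit 0) (XT.lf (nat_lit 0) (nat_lit 7933515432) (nat_lit 228) (nat_lit 3162848262) (nat_lit 76) (nat_lit 12891994062) (nat_lit 21) (nat_lit 5) (nat_lit 24) (nat_lit 5) (nat_lit 22) (nat_lit 4) (nat_lit 356) (nat_lit 239) (nat_lit 185)) (XT.nd (nat_lit 78) (nat_lit 0) (nat_lit 0) (XT.lf (nat_lit 0) (nat_lit 4774438221) (nat_lit 76) (nat_lit 7139341189) (nat_lit 152) (nat_lit 12659363039) (nat_lit 20) (nat_lit 5) (nat_lit 21) (nat_lit 5) (nat_lit 22) (nat_lit 4) (nat_lit 357) (nat_lit 239) (nat_lit 184)) (XT.lf (nat_lit 0) (nat_lit 12947423927) (nat_lit 76) (nat_lit 3060680735) (nat_lit 152) (nat_lit 9167538746) (nat_lit 20) (nat_lit 5) (nat_lit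 21) (nat_lit 5) (nat_lit 22) (nat_lit 4) (nat_lit 358) (nat_lit 239) (nat_lit 183)))) (XT.nd (nat_lit 156) (nat_lit 76) (nat_lit 0) (XT.nd (nat_lit 78) (nat_lit 152) (nat_lit 0) (XT.lf (nat_lit 0) (nat_lit 20199742387) (nat_lit 152) (nat_lit 4507695873) (nat_lit 0) (nat_lit 1089558625) (nat_lit 20) (nat_lit 5) (nat_lit 22) (nat_lit 4) (nat_lit 20) (nat_lit 4) (nat_lit 359) (nat_lit 239) (nat_lit 182)) (XT.lf (nat_lit 0) (nat_lit 3416621886) (nat_lit 152) (nat_lit 21128237349) (nat_lit 152) (nat_lit 1891311449) (nat_lit 18) (nat_lit 4) (nat_lit 20) (nat_lit 5) (nat_lit 20) (nat_lit 4) (nat_lit 360) (nat_lit 239) (nat_lit 181))) (XT.nd (nat_lit 78) (nat_lit 0) (nat_lit 0) (XT.lf (nat_lit 0) (nat_lit 1898846563) (nat_lit 228) (nat_lit 15505317994) (nat_lit 76) (nat_lit 9689492247) (nat_lit 17) (nat_lit 5) (nat_lit 20) (nat_lit 5) (nat_lit 18) (nat_lit 4) (nat_lit 361) (nat_lit 239) (nat_lit 180))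 (XT.lf (nat_lit 0) (nat_lit 5730372129) (nat_lit 228) (nat_lit 7846787717) (nat_lit 76) (nat_lit 14194186230) (nat_lit 17) (nat_lit 5) (nat_lit 20) (nat_lit 5) (nat_lit 18) (nat_lit 4) (nat_lit 362) (nat_lit 239) (nat_lit 179))))) (XT.nd (nat_lit 234) (nat_lit 152) (nat_lit 0) (XT.nd (nat_lit 78) (nat_lit 76) (nat_lit 0) (XT.lf (nat_lit 0) (nat_lit 9643519480) (nat_lit 228) (nat_lit 19085604) (nat_lit 76) (nat_lit 18807770984) (nat_lit 17) (nat_lit 5) (nat_lit 20) (nat_lit 5) (nat_lit 18) (nat_lit 4) (nat_lit 363) (nat_lit 239) (nat_lit 178)) (XT.nd (nat_lit 78) (nat_lit 0) (nat_lit 0) (XT.lf (nat_lit 0) (nat_lit 8143537838) (nat_lit 76) (nat_lit 5576450702) (nat_lit 152) (nat_lit 15469020627) (nat_lit 16) (nat_lit 5) (nat_lit 17) (nat_lit 5) (nat_lit 18) (nat_lit 4) (nat_lit 364) (nat_lit 239) (nat_lit 177)) (XT.lf (nat_lit 0) (nat_lit 16493188393) (nat_lit 76) (nat_lit 1393785091) (nat_lit 152)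 (nat_lit 12043190849) (nat_lit 16) (nat_lit 5) (nat_lit 17) (nat_lit 5) (nat_lit 18) (nat_lit 4) (nat_lit 365) (nat_lit 239) (nat_lit 176)))) (XT.nd (nat_lit 156) (nat_lit 76) (nat_lit 0) (XT.nd (nat_lit 78) (nat_lit 76) (nat_lit 0) (XT.lf (nat_lit 0) (nat_lit 22175697684) (nat_lit 152) (nat_lit 5685482193) (nat_lit 0) (nat_lit 2832481834) (nat_lit 16) (nat_lit 5) (nat_lit 18) (nat_lit 4) (nat_lit 16) (nat_lit 4) (nat_lit 366) (nat_lit 239) (nat_lit 175)) (XT.lf (nat_lit 0) (nat_lit 2273546956) (nat_lit 76) (nat_lit 24324817533) (nat_lit 76) (nat_lit 4881550268) (nat_lit 15) (nat_lit 4) (nat_lit 16) (nat_lit 5) (nat_lit 16) (nat_lit 4) (nat_lit 367) (nat_lit 239) (nat_lit 174))) (XT.nd (nat_lit 78) (nat_lit 76) (nat_lit 0) (XT.lf (nat_lit 0) (nat_lit 10532863994) (nat_lit 76) (nat_lit 20648241519) (nat_lit 76) (nat_lit 1107836959) (nat_lit 15) (nat_lit 4) (nat_lit 16) (nat_lit 5) (nat_lit 16) (nat_lit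 4) (nat_lit 368) (nat_lit 239) (nat_lit 173)) (XT.lf (nat_lit 0) (nat_lit 2695417012) (nat_lit 152) (nat_lit 14163016079) (nat_lit 76) (nat_lit 16263898116) (nat_lit 14) (nat_lit 5) (nat_lit 16) (nat_lit 5) (nat_lit 15) (nat_lit 4) (nat_lit 369) (nat_lit 239) (nat_lit 172)))))) (XT.nd (nat_lit 546) (nat_lit 152) (nat_lit 0) (XT.nd (nat_lit 234) (nat_lit 76) (nat_lit 0) (XT.nd (nat_lit 78) (nat_lit 76) (nat_lit 0) (XT.lf (nat_lit 0) (nat_lit 6561918948) (nat_lit 152) (nat_lit 6405578365) (nat_lit 76) (nat_lit 21013760876) (nat_lit 14) (nat_lit 5) (nat_lit 16) (nat_lit 5) (nat_lit 15) (nat_lit 4) (nat_lit 370) (nat_lit 239) (nat_lit 171)) (XT.nd (nat_lit 78) (nat_lit 0) (nat_lit 0) (XT.lf (nat_lit 0) (nat_lit 1564185099) (nat_lit 76) (nat_lit 8967516042) (nat_lit 152) (nat_lit 24334641197) (nat_lit 13) (nat_lit 5) (nat_lit 14) (nat_lit 5) (nat_lit 15) (nat_lit 4) (nat_lit 371) (nat_lit 239) (nat_lit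 170)) (XT.lf (nat_lit 0) (nat_lit 9853928495) (nat_lit 76) (nat_lit 4803904973) (nat_lit 152) (nat_lit 21119035523) (nat_lit 13) (nat_lit 5) (nat_lit 14) (nat_lit 5) (nat_lit 15) (nat_lit 4) (nat_lit 372) (nat_lit 239) (nat_lit 169)))) (XT.nd (nat_lit 156) (nat_lit 76) (nat_lit 0) (XT.nd (nat_lit 78) (nat_lit 0) (nat_lit 0) (XT.lf (nat_lit 0) (nat_lit 18343411720) (nat_lit 76) (nat_lit 537709782) (nat_lit 152) (nat_lit 17834396249) (nat_lit 13) (nat_lit 5) (nat_lit 14) (nat_lit 5) (nat_lit 15) (nat_lit 4) (nat_lit 373) (nat_lit 239) (nat_lit 168)) (XT.lf (nat_lit 0) (nat_lit 23242117912) (nat_lit 152) (nat_lit 10679918444) (nat_lit 0) (nat_lit 3759966566) (nat_lit 13) (nat_lit 5) (nat_lit 15) (nat_lit 4) (nat_lit 13) (nat_lit 4) (nat_lit 374) (nat_lit 239) (nat_lit 167))) (XT.nd (nat_lit 78) (nat_lit 76) (nat_lit 0) (XT.lf (nat_lit 0) (nat_lit 27713966105) (nat_lit 152) (nat_lit 2808989236) (nat_lit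 0) (nat_lit 8155133681) (nat_lit 13) (nat_lit 5) (nat_lit 15) (nat_lit 4) (nat_lit 13) (nat_lit 4) (nat_lit 375) (nat_lit 239) (nat_lit 166)) (XT.lf (nat_lit 0) (nat_lit 5357267483) (nat_lit 76) (nat_lit 26989634575) (nat_lit 76) (nat_lit 7356354503) (nat_lit 12) (nat_lit 4) (nat_lit 13) (nat_lit 5) (nat_lit 13) (nat_lit 4) (nat_lit 376) (nat_lit 239) (nat_lit 165))))) (XT.nd (nat_lit 234) (nat_lit 76) (nat_lit 0) (XT.nd (nat_lit 78) (nat_lit 76) (nat_lit 0) (XT.lf (nat_lit 0) (nat_lit 13781197992) (nat_lit 76) (nat_lit 23341712288) (nat_lit 76) (nat_lit 3636152946) (nat_lit 12) (nat_lit 4) (nat_lit 13) (nat_lit 5) (nat_lit 13) (nat_lit 4) (nat_lit 377) (nat_lit 239) (nat_lit 164)) (XT.nd (nat_lit 78) (nat_lit 0) (nat_lit 0) (XT.lf (nat_lit 0) (nat_lit 168023140) (nat_lit 152) (nat_lit 19434646416) (nat_lit 76) (nat_lit 22244538766) (nat_lit 11) (nat_lit 5) (nat_lit 13) (nat_lit 5) (nat_lit 12)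 (nat_lit 4) (nat_lit 378) (nat_lit 239) (nat_lit 163)) (XT.lf (nat_lit 0) (nat_lit 3990121445) (nat_lit 152) (nat_lit 11743917002) (nat_lit 76) (nat_lit 27233578943) (nat_lit 11) (nat_lit 5) (nat_lit 13) (nat_lit 5) (nat_lit 12) (nat_lit 4) (nat_lit 379) (nat_lit 239) (nat_lit 162)))) (XT.nd (nat_lit 156) (nat_lit 0) (nat_lit 0) (XT.nd (nat_lit 78) (nat_lit 76) (nat_lit 0) (XT.lf (nat_lit 0) (nat_lit 7904436106) (nat_lit 152) (nat_lit 3864004011) (nat_lit 76) (nat_lit 32353877898) (nat_lit 11) (nat_lit 5) (nat_lit 13) (nat_lit 5) (nat_lit 12) (nat_lit 4) (nat_lit 380) (nat_lit 239) (nat_lit 161)) (XT.lf (nat_lit 0) (nat_lit 4295804536) (nat_lit 76) (nat_lit 7659876764) (nat_lit 152) (nat_lit 33355399043) (nat_lit 10) (nat_lit 5) (nat_lit 11) (nat_lit 5) (nat_lit 12) (nat_lit 4) (nat_lit 381) (nat_lit 239) (nat_lit 160))) (XT.nd (nat_lit 78) (nat_lit 0) (nat_lit 0) (XT.lf (nat_lit 0) (nat_lit 12739682560)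 (nat_lit 76) (nat_lit 3406258226) (nat_lit 152) (nat_lit 30389045994) (nat_lit 10) (nat_lit 5) (nat_lit 11) (nat_lit 5) (nat_lit 12) (nat_lit 4) (nat_lit 382) (nat_lit 239) (nat_lit 159)) (XT.lf (nat_lit 0) (nat_lit 20450193924) (nat_lit 152) (nat_lit 26407336645) (nat_lit 0) (nat_lit 938436654) (nat_lit 10) (nat_lit 5) (nat_lit 12) (nat_lit 4) (nat_lit 10) (nat_lit 4) (nat_lit 383) (nat_lit 239) (nat_lit 158))))))) (XT.nd (nat_lit 1092) (nat_lit 152) (nat_lit 0) (XT.nd (nat_lit 546) (nat_lit 152) (nat_lit 0) (XT.nd (nat_lit 234) (nat_lit 76) (nat_lit 0) (XT.nd (nat_lit 78) (nat_lit 0) (nat_lit 0) (XT.lf (nat_lit 0) (nat_lit 24896828014) (nat_lit 152) (nat_lit 18869543876) (nat_lit 0) (nat_lit 5328012820) (nat_lit 10) (nat_lit 5) (nat_lit 12) (nat_lit 4) (nat_lit 10) (nat_lit 4) (nat_lit 384) (nat_lit 239) (nat_lit 157)) (XT.nd (nat_lit 78) (nat_lit 0) (nat_lit 0) (XT.lf (nat_lit 0) (nat_lit 29456985426)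 (nat_lit 152) (nat_lit 11142596455) (nat_lit 0) (nat_lit 9832774190) (nat_lit 10) (nat_lit 5) (nat_lit 12) (nat_lit 4) (nat_lit 10) (nat_lit 4) (nat_lit 385) (nat_lit 239) (nat_lit 156)) (XT.lf (nat_lit 0) (nat_lit 34134650764) (nat_lit 152) (nat_lit 3219742680) (nat_lit 0) (nat_lit 14456656962) (nat_lit 10) (nat_lit 5) (nat_lit 12) (nat_lit 4) (nat_lit 10) (nat_lit 4) (nat_lit 386) (nat_lit 239) (nat_lit 155)))) (XT.nd (nat_lit 156) (nat_lit 0) (nat_lit 0) (XT.nd (nat_lit 78) (nat_lit 0) (nat_lit 0) (XT.lf (nat_lit 0) (nat_lit 5003578160) (nat_lit 76) (nat_lit 33978430601) (nat_lit 76) (nat_lit 14248220717) (nat_lit 9) (nat_lit 4) (nat_lit 10) (nat_lit 5) (nat_lit 10) (nat_lit 4) (nat_lit 387) (nat_lit 239) (nat_lit 154)) (XT.lf (nat_lit 0) (nat_lit 13505085547) (nat_lit 76) (nat_lit 30483694183) (nat_lit 76) (nat_lit 10702789073) (nat_lit 9) (nat_lit 4) (nat_lit 10) (nat_lit 5) (nat_lit 10) (nat_lit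 4) (nat_lit 388) (nat_lit 239) (nat_lit 153))) (XT.nd (nat_lit 78) (nat_lit 0) (nat_lit 0) (XT.lf (nat_lit 0) (nat_lit 22228128788) (nat_lit 76) (nat_lit 26899643626) (nat_lit 76) (nat_lit 7069519849) (nat_lit 9) (nat_lit 4) (nat_lit 10) (nat_lit 5) (nat_lit 10) (nat_lit 4) (nat_lit 389) (nat_lit 239) (nat_lit 152)) (XT.lf (nat_lit 0) (nat_lit 31180329959) (nat_lit 76) (nat_lit 23223147234) (nat_lit 76) (nat_lit 3345238345) (nat_lit 9) (nat_lit 4) (nat_lit 10) (nat_lit 5) (nat_lit 10) (nat_lit 4) (nat_lit 390) (nat_lit 239) (nat_lit 151))))) (XT.nd (nat_lit 234) (nat_lit 76) (nat_lit 0) (XT.nd (nat_lit 78) (nat_lit 0) (nat_lit 0) (XT.lf (nat_lit 0) (nat_lit 464073690) (nat_lit 152) (nat_lit 18982232610) (nat_lit 76) (nat_lit 39900751448) (nat_lit 8) (nat_lit 5) (nat_lit 10) (nat_lit 5) (nat_lit 9) (nat_lit 4) (nat_lit 391) (nat_lit 239) (nat_lit 150)) (XT.nd (nat_lit 78) (nat_lit 0) (nat_lit 0)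 (XT.lf (nat_lit 0) (nat_lit 4303806592) (nat_lit 152) (nat_lit 11232616871) (nat_lit 76) (nat_lit 45456435810) (nat_lit 8) (nat_lit 5) (nat_lit 10) (nat_lit 5) (nat_lit 9) (nat_lit 4) (nat_lit 392) (nat_lit 239) (nat_lit 149)) (XT.lf (nat_lit 0) (nat_lit 8242593115) (nat_lit 152) (nat_lit 3280610377) (nat_lit 76) (nat_lit 51165319396) (nat_lit 8) (nat_lit 5) (nat_lit 10) (nat_lit 5) (nat_lit 9) (nat_lit 4) (nat_lit 393) (nat_lit 239) (nat_lit 148)))) (XT.nd (nat_lit 156) (nat_lit 0) (nat_lit 0) (XT.nd (nat_lit 78) (nat_lit 0) (nat_lit 0) (XT.lf (nat_lit 0) (nat_lit 4977871428) (nat_lit 76) (nat_lit 7353853834) (nat_lit 152) (nat_lit 52102369467) (nat_lit 7) (nat_lit 5) (nat_lit 8) (nat_lit 5) (nat_lit 9) (nat_lit 4) (nat_lit 394) (nat_lit 239) (nat_lit 147)) (XT.lf (nat_lit 0) (nat_lit 13522422382) (nat_lit 76) (nat_lit 3038746629) (nat_lit 152) (nat_lit 49670339254) (nat_lit 7) (nat_lit 5) (nat_lit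 8) (nat_lit 5) (nat_lit 9) (nat_lit 4) (nat_lit 395) (nat_lit 239) (nat_lit 146))) (XT.nd (nat_lit 78) (nat_lit 0) (nat_lit 0) (XT.lf (nat_lit 0) (nat_lit 20915845217) (nat_lit 152) (nat_lit 45801468990) (nat_lit 0) (nat_lit 1365583088) (nat_lit 7) (nat_lit 5) (nat_lit 9) (nat_lit 4) (nat_lit 7) (nat_lit 4) (nat_lit 396) (nat_lit 239) (nat_lit 145)) (XT.lf (nat_lit 0) (nat_lit 25416525590) (nat_lit 152) (nat_lit 38744303495) (nat_lit 0) (nat_lit 5828541453) (nat_lit 7) (nat_lit 5) (nat_lit 9) (nat_lit 4) (nat_lit 7) (nat_lit 4) (nat_lit 397) (nat_lit 239) (nat_lit 144)))))) (XT.nd (nat_lit 546) (nat_lit 76) (nat_lit 0) (XT.nd (nat_lit 234) (nat_lit 76) (nat_lit 0) (XT.nd (nat_lit 78) (nat_lit 0) (nat_lit 0) (XT.lf (nat_lit 0) (nat_lit 30037932474) (nat_lit 152) (nat_lit 31502212652) (nat_lit 0) (nat_lit 10413325026) (nat_lit 7) (nat_lit 5) (nat_lit 9) (nat_lit 4) (nat_lit 7) (nat_lit 4) (nat_lit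 398) (nat_lit 239) (nat_lit 143)) (XT.nd (nat_lit 78) (nat_lit 0) (nat_lit 0) (XT.lf (nat_lit 0) (nat_lit 34784103990) (nat_lit 152) (nat_lit 24068868421) (nat_lit 0) (nat_lit 15123939931) (nat_lit 7) (nat_lit 5) (nat_lit 9) (nat_lit 4) (nat_lit 7) (nat_lit 4) (nat_lit 399) (nat_lit 239) (nat_lit 142)) (XT.lf (nat_lit 0) (nat_lit 39659187280) (nat_lit 152) (nat_lit 16437775646) (nat_lit 0) (nat_lit 19964502238) (nat_lit 7) (nat_lit 5) (nat_lit 9) (nat_lit 4) (nat_lit 7) (nat_lit 4) (nat_lit 400) (nat_lit 239) (nat_lit 141)))) (XT.nd (nat_lit 156) (nat_lit 76) (nat_lit 0) (XT.nd (nat_lit 78) (nat_lit 0) (nat_lit 0) (XT.lf (nat_lit 0) (nat_lit 44667442124) (nat_lit 152) (nat_lit 8602266382) (nat_lit 0) (nat_lit 24939241565) (nat_lit 7) (nat_lit 5) (nat_lit 9) (nat_lit 4) (nat_lit 7) (nat_lit 4) (nat_lit 401) (nat_lit 239) (nat_lit 140)) (XT.lf (nat_lit 0) (nat_lit 49813244667) (nat_lit 152) (nat_lit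 555494068) (nat_lit 0) (nat_lit 30052504772) (nat_lit 7) (nat_lit 5) (nat_lit 9) (nat_lit 4) (nat_lit 7) (nat_lit 4) (nat_lit 402) (nat_lit 239) (nat_lit 139))) (XT.nd (nat_lit 78) (nat_lit 0) (nat_lit 0) (XT.lf (nat_lit 0) (nat_lit 7863008064) (nat_lit 76) (nat_lit 47313667221) (nat_lit 76) (nat_lit 27521335738) (nat_lit 6) (nat_lit 4) (nat_lit 7) (nat_lit 5) (nat_lit 7) (nat_lit 4) (nat_lit 403) (nat_lit 239) (nat_lit 138)) (XT.lf (nat_lit 0) (nat_lit 16522569945) (nat_lit 76) (nat_lit 44171857402) (nat_lit 76) (nat_lit 24348854473) (nat_lit 6) (nat_lit 4) (nat_lit 7) (nat_lit 5) (nat_lit 7) (nat_lit 4) (nat_lit 404) (nat_lit 239) (nat_lit 137))))) (XT.nd (nat_lit 234) (nat_lit 76) (nat_lit 0) (XT.nd (nat_lit 78) (nat_lit 0) (nat_lit 0) (XT.lf (nat_lit 0) (nat_lit 25419702759) (nat_lit 76) (nat_lit 40946173408) (nat_lit 76) (nat_lit 21093392377) (nat_lit 6) (nat_lit 4) (nat_lit 7) (nat_lit 5)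 (nat_lit 7) (nat_lit 4) (nat_lit 405) (nat_lit 239) (nat_lit 136)) (XT.nd (nat_lit 78) (nat_lit 0) (nat_lit 0) (XT.lf (nat_lit 0) (nat_lit 34562180701) (nat_lit 76) (nat_lit 37633796681) (nat_lit 76) (nat_lit 17752104871) (nat_lit 6) (nat_lit 4) (nat_lit 7) (nat_lit 5) (nat_lit 7) (nat_lit 4) (nat_lit 406) (nat_lit 239) (nat_lit 135)) (XT.lf (nat_lit 0) (nat_lit 43957992343) (nat_lit 76) (nat_lit 34231832912) (nat_lit 76) (nat_lit 14322072384) (nat_lit 6) (nat_lit 4) (nat_lit 7) (nat_lit 5) (nat_lit 7) (nat_lit 4) (nat_lit 407) (nat_lit 239) (nat_lit 134)))) (XT.nd (nat_lit 156) (nat_lit 76) (nat_lit 0) (XT.nd (nat_lit 78) (nat_lit 0) (nat_lit 0) (XT.lf (nat_lit 0) (nat_lit 53615347618) (nat_lit 76) (nat_lit 30737309509) (nat_lit 76) (nat_lit 10800297799) (nat_lit 6) (nat_lit 4) (nat_lit 7) (nat_lit 5) (nat_lit 7) (nat_lit 4) (nat_lit 408) (nat_lit 239) (nat_lit 133)) (XT.lf (nat_lit 0) (nat_lit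 63542684992) (nat_lit 76) (nat_lit 27147173007) (nat_lit 76) (nat_lit 7183703839) (nat_lit 6) (nat_lit 4) (nat_lit 7) (nat_lit 5) (nat_lit 7) (nat_lit 4) (nat_lit 409) (nat_lit 239) (nat_lit 132))) (XT.nd (nat_lit 78) (nat_lit 76) (nat_lit 0) (XT.lf (nat_lit 0) (nat_lit 73748678837) (nat_lit 76) (nat_lit 23458286393) (nat_lit 76) (nat_lit 3469130372) (nat_lit 6) (nat_lit 4) (nat_lit 7) (nat_lit 5) (nat_lit 7) (nat_lit 4) (nat_lit 410) (nat_lit 239) (nat_lit 131)) (XT.lf (nat_lit 0) (nat_lit 339903597) (nat_lit 152) (nat_lit 19324090410) (nat_lit 76) (nat_lit 83898911054) (nat_lit 5) (nat_lit 5) (nat_lit 7) (nat_lit 5) (nat_lit 6) (nat_lit 4) (nat_lit 411) (nat_lit 239) (nat_lit 130))))))))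
noncomputable def xc56 : XT := (XT.nd (nat_lit 2106) (nat_lit 2280) (nat_lit 0) (XT.nd (nat_lit 1014) (nat_lit 2280) (nat_lit 0) (XT.nd (nat_lit 468) (nat_lit 1824) (nat_lit 0) (XT.nd (nat_lit 234) (nat_lit 760) (nat_lit 0) (XT.nd (nat_lit 78) (nat_lit 456) (nat_lit 0) (XT.lf (nat_lit 0) (nat_lit 361856266) (nat_lit 456) (nat_lit 1904593903) (nat_lit 456) (nat_lit 1904593903) (nat_lit 122) (nat_lit 4) (nat_lit 128) (nat_lit 5) (nat_lit 128) (nat_lit 4) (nat_lit 300) (nat_lit 240) (nat_lit 240)) (XT.nd (nat_lit 78) (nat_lit 456) (nat_lit 0) (XT.lf (nat_lit 0) (nat_lit 6869028906) (nat_lit 456) (nat_lit 1353047571) (nat_lit 456) (nat_lit 223575080) (nat_lit 122) (nat_lit 4) (nat_lit 128) (nat_lit 5) (nat_lit 128) (nat_lit 4) (nat_lit 301) (nat_lit 240) (nat_lit 239)) (XT.lf (nat_lit 0) (nat_lit 3365620926) (nat_lit 456) (nat_lit 3982476862) (nat_lit 0) (nat_lit 1204409543) (nat_lit 116) (nat_lit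 5) (nat_lit 122) (nat_lit 4) (nat_lit 116) (nat_lit 4) (nat_lit 302) (nat_lit 240) (nat_lit 238)))) (XT.nd (nat_lit 78) (nat_lit 380) (nat_lit 0) (XT.lf (nat_lit 0) (nat_lit 2176399573) (nat_lit 380) (nat_lit 4841125251) (nat_lit 380) (nat_lit 1646286537) (nat_lit 111) (nat_lit 4) (nat_lit 116) (nat_lit 5) (nat_lit 116) (nat_lit 4) (nat_lit 303) (nat_lit 240) (nat_lit 237)) (XT.nd (nat_lit 78) (nat_lit 304) (nat_lit 0) (XT.lf (nat_lit 0) (nat_lit 1911750935) (nat_lit 456) (nat_lit 317505994) (nat_lit 76) (nat_lit 6550202279) (nat_lit 110) (nat_lit 5) (nat_lit 116) (nat_lit 5) (nat_lit 111) (nat_lit 4) (nat_lit 304) (nat_lit 240) (nat_lit 236)) (XT.lf (nat_lit 0) (nat_lit 5518450732) (nat_lit 380) (nat_lit 2884015931) (nat_lit 0) (nat_lit 496457251) (nat_lit 106) (nat_lit 5) (nat_lit 111) (nat_lit 4) (nat_lit 106) (nat_lit 4) (nat_lit 305) (nat_lit 240) (nat_lit 235))))) (XT.nd (nat_lit 234) (nat_lit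 1064) (nat_lit 0) (XT.nd (nat_lit 78) (nat_lit 304) (nat_lit 0) (XT.lf (nat_lit 0) (nat_lit 178738276) (nat_lit 456) (nat_lit 5577519274) (nat_lit 76) (nat_lit 3266591273) (nat_lit 100) (nat_lit 5) (nat_lit 106) (nat_lit 5) (nat_lit 101) (nat_lit 4) (nat_lit 306) (nat_lit 240) (nat_lit 234)) (XT.nd (nat_lit 78) (nat_lit 0) (nat_lit 0) (XT.lf (nat_lit 0) (nat_lit 734050404) (nat_lit 304) (nat_lit 2993055208) (nat_lit 380) (nat_lit 5423951416) (nat_lit 96) (nat_lit 5) (nat_lit 100) (nat_lit 5) (nat_lit 101) (nat_lit 4) (nat_lit 307) (nat_lit 240) (nat_lit 233)) (XT.lf (nat_lit 0) (nat_lit 7229910645) (nat_lit 304) (nat_lit 123553025) (nat_lit 380) (nat_lit 1930578667) (nat_lit 96) (nat_lit 5) (nat_lit 100) (nat_lit 5) (nat_lit 101) (nat_lit 4) (nat_lit 308) (nat_lit 240) (nat_lit 232)))) (XT.nd (nat_lit 156) (nat_lit 380) (nat_lit 0) (XT.nd (nat_lit 78) (nat_lit 304) (nat_lit 0) (XT.lf (nat_lit 0)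 (nat_lit 1622131436) (nat_lit 380) (nat_lit 4996446206) (nat_lit 76) (nat_lit 2802418981) (nat_lit 91) (nat_lit 5) (nat_lit 96) (nat_lit 5) (nat_lit 92) (nat_lit 4) (nat_lit 309) (nat_lit 240) (nat_lit 231)) (XT.lf (nat_lit 0) (nat_lit 1467676865) (nat_lit 304) (nat_lit 3728992676) (nat_lit 380) (nat_lit 4366265587) (nat_lit 87) (nat_lit 5) (nat_lit 91) (nat_lit 5) (nat_lit 92) (nat_lit 4) (nat_lit 310) (nat_lit 240) (nat_lit 230))) (XT.nd (nat_lit 78) (nat_lit 380) (nat_lit 0) (XT.lf (nat_lit 0) (nat_lit 8110626529) (nat_lit 304) (nat_lit 737306790) (nat_lit 380) (nat_lit 862182239) (nat_lit 87) (nat_lit 5) (nat_lit 91) (nat_lit 5) (nat_lit 92) (nat_lit 4) (nat_lit 311) (nat_lit 240) (nat_lit 229)) (XT.lf (nat_lit 0) (nat_lit 2685415096) (nat_lit 380) (nat_lit 4837337922) (nat_lit 76) (nat_lit 2338470854) (nat_lit 82) (nat_lit 5) (nat_lit 87) (nat_lit 5) (nat_lit 83) (nat_lit 4) (nat_lit 312)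 (nat_lit 240) (nat_lit 228)))))) (XT.nd (nat_lit 546) (nat_lit 912) (nat_lit 0) (XT.nd (nat_lit 234) (nat_lit 760) (nat_lit 0) (XT.nd (nat_lit 78) (nat_lit 380) (nat_lit 0) (XT.lf (nat_lit 0) (nat_lit 1764129701) (nat_lit 228) (nat_lit 4519963985) (nat_lit 304) (nat_lit 3733718833) (nat_lit 79) (nat_lit 5) (nat_lit 82) (nat_lit 5) (nat_lit 83) (nat_lit 4) (nat_lit 313) (nat_lit 240) (nat_lit 227)) (XT.nd (nat_lit 78) (nat_lit 380) (nat_lit 0) (XT.lf (nat_lit 0) (nat_lit 8547278205) (nat_lit 228) (nat_lit 1414893282) (nat_lit 304) (nat_lit 217844995) (nat_lit 79) (nat_lit 5) (nat_lit 82) (nat_lit 5) (nat_lit 83) (nat_lit 4) (nat_lit 314) (nat_lit 240) (nat_lit 226)) (XT.lf (nat_lit 0) (nat_lit 3328142410) (nat_lit 380) (nat_lit 5223847573) (nat_lit 76) (nat_lit 1794440856) (nat_lit 74) (nat_lit 5) (nat_lit 79) (nat_lit 5) (nat_lit 75) (nat_lit 4) (nat_lit 315) (nat_lit 240) (nat_lit 225)))) (XT.nd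 (nat_lit 156) (nat_lit 532) (nat_lit 0) (XT.nd (nat_lit 78) (nat_lit 0) (nat_lit 0) (XT.lf (nat_lit 0) (nat_lit 1494984236) (nat_lit 228) (nat_lit 5450987406) (nat_lit 304) (nat_lit 3572761719) (nat_lit 71) (nat_lit 5) (nat_lit 74) (nat_lit 5) (nat_lit 75) (nat_lit 4) (nat_lit 316) (nat_lit 240) (nat_lit 224)) (XT.lf (nat_lit 0) (nat_lit 8409037487) (nat_lit 228) (nat_lit 2241958969) (nat_lit 304) (nat_lit 45902724) (nat_lit 71) (nat_lit 5) (nat_lit 74) (nat_lit 5) (nat_lit 75) (nat_lit 4) (nat_lit 317) (nat_lit 240) (nat_lit 223))) (XT.nd (nat_lit 78) (nat_lit 228) (nat_lit 0) (XT.lf (nat_lit 0) (nat_lit 3498858553) (nat_lit 304) (nat_lit 6297267177) (nat_lit 76) (nat_lit 1083838221) (nat_lit 67) (nat_lit 5) (nat_lit 71) (nat_lit 5) (nat_lit 68) (nat_lit 4) (nat_lit 318) (nat_lit 240) (nat_lit 222)) (XT.lf (nat_lit 0) (nat_lit 513225546) (nat_lit 228) (nat_lit 6614262734) (nat_lit 304) (nat_lit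 3941714760) (nat_lit 64) (nat_lit 5) (nat_lit 67) (nat_lit 5) (nat_lit 68) (nat_lit 4) (nat_lit 319) (nat_lit 240) (nat_lit 221))))) (XT.nd (nat_lit 234) (nat_lit 608) (nat_lit 0) (XT.nd (nat_lit 78) (nat_lit 304) (nat_lit 0) (XT.lf (nat_lit 0) (nat_lit 7545870508) (nat_lit 228) (nat_lit 3311710045) (nat_lit 304) (nat_lit 406808653) (nat_lit 64) (nat_lit 5) (nat_lit 67) (nat_lit 5) (nat_lit 68) (nat_lit 4) (nat_lit 320) (nat_lit 240) (nat_lit 220)) (XT.nd (nat_lit 78) (nat_lit 0) (nat_lit 0) (XT.lf (nat_lit 0) (nat_lit 3133697698) (nat_lit 304) (nat_lit 8219902851) (nat_lit 76) (nat_lit 112063121) (nat_lit 60) (nat_lit 5) (nat_lit 64) (nat_lit 5) (nat_lit 61) (nat_lit 4) (nat_lit 321) (nat_lit 240) (nat_lit 219)) (XT.lf (nat_lit 0) (nat_lit 6773911766) (nat_lit 304) (nat_lit 1323934461) (nat_lit 76) (nat_lit 3575003178) (nat_lit 60) (nat_lit 5) (nat_lit 64) (nat_lit 5) (nat_lit 61) (nat_lit 4)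 (nat_lit 322) (nat_lit 240) (nat_lit 218)))) (XT.nd (nat_lit 156) (nat_lit 152) (nat_lit 0) (XT.nd (nat_lit 78) (nat_lit 304) (nat_lit 0) (XT.lf (nat_lit 0) (nat_lit 5784913499) (nat_lit 152) (nat_lit 4726996052) (nat_lit 228) (nat_lit 1374726503) (nat_lit 58) (nat_lit 5) (nat_lit 60) (nat_lit 5) (nat_lit 61) (nat_lit 4) (nat_lit 323) (nat_lit 240) (nat_lit 217)) (XT.lf (nat_lit 0) (nat_lit 916600799) (nat_lit 228) (nat_lit 1250124452) (nat_lit 304) (nat_lit 9940835262) (nat_lit 54) (nat_lit 5) (nat_lit 57) (nat_lit 5) (nat_lit 58) (nat_lit 5) (nat_lit 324) (nat_lit 240) (nat_lit 216))) (XT.nd (nat_lit 78) (nat_lit 152) (nat_lit 0) (XT.lf (nat_lit 0) (nat_lit 5805169717) (nat_lit 304) (nat_lit 4207122055) (nat_lit 76) (nat_lit 2321900244) (nat_lit 54) (nat_lit 5) (nat_lit 58) (nat_lit 5) (nat_lit 55) (nat_lit 4) (nat_lit 325) (nat_lit 240) (nat_lit 215)) (XT.lf (nat_lit 0) (nat_lit 2926313182)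 (nat_lit 152) (nat_lit 6602637821) (nat_lit 228) (nat_lit 3039423859) (nat_lit 52) (nat_lit 5) (nat_lit 54) (nat_lit 5) (nat_lit 55) (nat_lit 4) (nat_lit 326) (nat_lit 240) (nat_lit 214))))))) (XT.nd (nat_lit 1092) (nat_lit 836) (nat_lit 0) (XT.nd (nat_lit 546) (nat_lit 608) (nat_lit 0) (XT.nd (nat_lit 234) (nat_lit 532) (nat_lit 0) (XT.nd (nat_lit 78) (nat_lit 228) (nat_lit 0) (XT.lf (nat_lit 0) (nat_lit 522829196) (nat_lit 228) (nat_lit 2558998365) (nat_lit 76) (nat_lit 9728267530) (nat_lit 51) (nat_lit 5) (nat_lit 54) (nat_lit 5) (nat_lit 52) (nat_lit 5) (nat_lit 327) (nat_lit 240) (nat_lit 213)) (XT.nd (nat_lit 78) (nat_lit 0) (nat_lit 0) (XT.lf (nat_lit 0) (nat_lit 4119359554) (nat_lit 304) (nat_lit 8368079496) (nat_lit 76) (nat_lit 571104790) (nat_lit 48) (nat_lit 5) (nat_lit 52) (nat_lit 5) (nat_lit 49) (nat_lit 4) (nat_lit 328) (nat_lit 240) (nat_lit 212)) (XT.lf (nat_lit 0) (nat_lit 7818616481)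 (nat_lit 304) (nat_lit 1236941946) (nat_lit 76) (nat_lit 4259076380) (nat_lit 48) (nat_lit 5) (nat_lit 52) (nat_lit 5) (nat_lit 49) (nat_lit 4) (nat_lit 329) (nat_lit 240) (nat_lit 211)))) (XT.nd (nat_lit 156) (nat_lit 304) (nat_lit 0) (XT.nd (nat_lit 78) (nat_lit 76) (nat_lit 0) (XT.lf (nat_lit 0) (nat_lit 6128327096) (nat_lit 152) (nat_lit 5499453441) (nat_lit 228) (nat_lit 1950692779) (nat_lit 46) (nat_lit 5) (nat_lit 48) (nat_lit 5) (nat_lit 49) (nat_lit 4) (nat_lit 330) (nat_lit 240) (nat_lit 210)) (XT.lf (nat_lit 0) (nat_lit 1620618510) (nat_lit 228) (nat_lit 226051452) (nat_lit 76) (nat_lit 12004512753) (nat_lit 45) (nat_lit 5) (nat_lit 48) (nat_lit 5) (nat_lit 46) (nat_lit 5) (nat_lit 331) (nat_lit 240) (nat_lit 209))) (XT.nd (nat_lit 78) (nat_lit 152) (nat_lit 0) (XT.lf (nat_lit 0) (nat_lit 5290326509) (nat_lit 228) (nat_lit 6910103067) (nat_lit 76) (nat_lit 1930180397) (nat_lit 43) (nat_lit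 5) (nat_lit 46) (nat_lit 5) (nat_lit 44) (nat_lit 4) (nat_lit 332) (nat_lit 240) (nat_lit 208)) (XT.lf (nat_lit 0) (nat_lit 368465933) (nat_lit 152) (nat_lit 8668136682) (nat_lit 228) (nat_lit 5382852178) (nat_lit 41) (nat_lit 5) (nat_lit 43) (nat_lit 5) (nat_lit 44) (nat_lit 4) (nat_lit 333) (nat_lit 240) (nat_lit 207))))) (XT.nd (nat_lit 234) (nat_lit 380) (nat_lit 0) (XT.nd (nat_lit 78) (nat_lit 228) (nat_lit 0) (XT.lf (nat_lit 0) (nat_lit 7910832929) (nat_lit 152) (nat_lit 4997312802) (nat_lit 228) (nat_lit 1808461067) (nat_lit 41) (nat_lit 5) (nat_lit 43) (nat_lit 5) (nat_lit 44) (nat_lit 4) (nat_lit 334) (nat_lit 240) (nat_lit 206)) (XT.nd (nat_lit 78) (nat_lit 0) (nat_lit 0) (XT.lf (nat_lit 0) (nat_lit 555078538) (nat_lit 152) (nat_lit 1231050564) (nat_lit 228) (nat_lit 13237545083) (nat_lit 38) (nat_lit 5) (nat_lit 40) (nat_lit 5) (nat_lit 41) (nat_lit 5) (nat_lit 335) (nat_lit 240) (nat_lit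 205)) (XT.lf (nat_lit 0) (nat_lit 5491609397) (nat_lit 228) (nat_lit 7200591654) (nat_lit 76) (nat_lit 2646059164) (nat_lit 38) (nat_lit 5) (nat_lit 41) (nat_lit 5) (nat_lit 39) (nat_lit 4) (nat_lit 336) (nat_lit 240) (nat_lit 204)))) (XT.nd (nat_lit 156) (nat_lit 228) (nat_lit 0) (XT.nd (nat_lit 78) (nat_lit 0) (nat_lit 0) (XT.lf (nat_lit 0) (nat_lit 184707065) (nat_lit 152) (nat_lit 9083665700) (nat_lit 228) (nat_lit 6395132560) (nat_lit 36) (nat_lit 5) (nat_lit 38) (nat_lit 5) (nat_lit 39) (nat_lit 4) (nat_lit 337) (nat_lit 240) (nat_lit 203)) (XT.lf (nat_lit 0) (nat_lit 7847912283) (nat_lit 152) (nat_lit 5330084229) (nat_lit 228) (nat_lit 2819948880) (nat_lit 36) (nat_lit 5) (nat_lit 38) (nat_lit 5) (nat_lit 39) (nat_lit 4) (nat_lit 338) (nat_lit 240) (nat_lit 202))) (XT.nd (nat_lit 78) (nat_lit 152) (nat_lit 0) (XT.lf (nat_lit 0) (nat_lit 793519711) (nat_lit 228) (nat_lit 699355962) (nat_lit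 76) (nat_lit 14850881405) (nat_lit 35) (nat_lit 5) (nat_lit 38) (nat_lit 5) (nat_lit 36) (nat_lit 5) (nat_lit 339) (nat_lit 240) (nat_lit 201)) (XT.lf (nat_lit 0) (nat_lit 4499580064) (nat_lit 228) (nat_lit 9726465285) (nat_lit 76) (nat_lit 2471856446) (nat_lit 33) (nat_lit 5) (nat_lit 36) (nat_lit 5) (nat_lit 34) (nat_lit 4) (nat_lit 340) (nat_lit 240) (nat_lit 200)))))) (XT.nd (nat_lit 546) (nat_lit 456) (nat_lit 0) (XT.nd (nat_lit 234) (nat_lit 304) (nat_lit 0) (XT.nd (nat_lit 78) (nat_lit 76) (nat_lit 0) (XT.lf (nat_lit 0) (nat_lit 8288411256) (nat_lit 228) (nat_lit 2277989008) (nat_lit 76) (nat_lit 6497144534) (nat_lit 33) (nat_lit 5) (nat_lit 36) (nat_lit 5) (nat_lit 34) (nat_lit 4) (nat_lit 341) (nat_lit 240) (nat_lit 199)) (XT.nd (nat_lit 78) (nat_lit 0) (nat_lit 0) (XT.lf (nat_lit 0) (nat_lit 5414780101) (nat_lit 76) (nat_lit 6779319244) (nat_lit 152) (nat_lit 5245982972) (nat_lit 32)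 (nat_lit 5) (nat_lit 33) (nat_lit 5) (nat_lit 34) (nat_lit 4) (nat_lit 342) (nat_lit 240) (nat_lit 198)) (XT.lf (nat_lit 0) (nat_lit 13301037107) (nat_lit 76) (nat_lit 2890681650) (nat_lit 152) (nat_lit 1636974759) (nat_lit 32) (nat_lit 5) (nat_lit 33) (nat_lit 5) (nat_lit 34) (nat_lit 4) (nat_lit 343) (nat_lit 240) (nat_lit 197)))) (XT.nd (nat_lit 156) (nat_lit 76) (nat_lit 0) (XT.nd (nat_lit 78) (nat_lit 0) (nat_lit 0) (XT.lf (nat_lit 0) (nat_lit 2033581028) (nat_lit 228) (nat_lit 15085806316) (nat_lit 76) (nat_lit 1109178852) (nat_lit 29) (nat_lit 5) (nat_lit 32) (nat_lit 5) (nat_lit 30) (nat_lit 4) (nat_lit 344) (nat_lit 240) (nat_lit 196)) (XT.lf (nat_lit 0) (nat_lit 5809081897) (nat_lit 228) (nat_lit 7631024995) (nat_lit 76) (nat_lit 5199028680) (nat_lit 29) (nat_lit 5) (nat_lit 32) (nat_lit 5) (nat_lit 30) (nat_lit 4) (nat_lit 345) (nat_lit 240) (nat_lit 195))) (XT.nd (nat_lit 78) (nat_lit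 76) (nat_lit 0) (XT.lf (nat_lit 0) (nat_lit 9652154820) (nat_lit 228) (nat_lit 32970886) (nat_lit 76) (nat_lit 9378285215) (nat_lit 29) (nat_lit 5) (nat_lit 32) (nat_lit 5) (nat_lit 30) (nat_lit 4) (nat_lit 346) (nat_lit 240) (nat_lit 194)) (XT.lf (nat_lit 0) (nat_lit 7868538617) (nat_lit 76) (nat_lit 5773256412) (nat_lit 152) (nat_lit 5857698824) (nat_lit 28) (nat_lit 5) (nat_lit 29) (nat_lit 5) (nat_lit 30) (nat_lit 4) (nat_lit 347) (nat_lit 240) (nat_lit 193))))) (XT.nd (nat_lit 234) (nat_lit 228) (nat_lit 0) (XT.nd (nat_lit 78) (nat_lit 228) (nat_lit 0) (XT.lf (nat_lit 0) (nat_lit 15930504515) (nat_lit 76) (nat_lit 1777140147) (nat_lit 152) (nat_lit 2242336068) (nat_lit 28) (nat_lit 5) (nat_lit 29) (nat_lit 5) (nat_lit 30) (nat_lit 4) (nat_lit 348) (nat_lit 240) (nat_lit 192)) (XT.nd (nat_lit 78) (nat_lit 0) (nat_lit 0) (XT.lf (nat_lit 0) (nat_lit 1468844445) (nat_lit 228) (nat_lit 16631973204)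 (nat_lit 76) (nat_lit 2312265438) (nat_lit 25) (nat_lit 5) (nat_lit 28) (nat_lit 5) (nat_lit 26) (nat_lit 4) (nat_lit 349) (nat_lit 240) (nat_lit 191)) (XT.lf (nat_lit 0) (nat_lit 5262118821) (nat_lit 228) (nat_lit 9107066983) (nat_lit 76) (nat_lit 6519767471) (nat_lit 25) (nat_lit 5) (nat_lit 28) (nat_lit 5) (nat_lit 26) (nat_lit 4) (nat_lit 350) (nat_lit 240) (nat_lit 190)))) (XT.nd (nat_lit 156) (nat_lit 152) (nat_lit 0) (XT.nd (nat_lit 78) (nat_lit 76) (nat_lit 0) (XT.lf (nat_lit 0) (nat_lit 9127677869) (nat_lit 228) (nat_lit 1430312950) (nat_lit 76) (nat_lit 10822369316) (nat_lit 25) (nat_lit 5) (nat_lit 28) (nat_lit 5) (nat_lit 26) (nat_lit 4) (nat_lit 351) (nat_lit 240) (nat_lit 189)) (XT.lf (nat_lit 0) (nat_lit 6532468730) (nat_lit 76) (nat_lit 6599224618) (nat_lit 152) (nat_lit 8754155883) (nat_lit 24) (nat_lit 5) (nat_lit 25) (nat_lit 5) (nat_lit 26) (nat_lit 4) (nat_lit 352) (nat_lit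 240) (nat_lit 188))) (XT.nd (nat_lit 78) (nat_lit 152) (nat_lit 0) (XT.lf (nat_lit 0) (nat_lit 14692410311) (nat_lit 76) (nat_lit 2538048914) (nat_lit 152) (nat_lit 5176819167) (nat_lit 24) (nat_lit 5) (nat_lit 25) (nat_lit 5) (nat_lit 26) (nat_lit 4) (nat_lit 353) (nat_lit 240) (nat_lit 187)) (XT.lf (nat_lit 0) (nat_lit 68467001) (nat_lit 152) (nat_lit 21361246336) (nat_lit 152) (nat_lit 1515325208) (nat_lit 22) (nat_lit 4) (nat_lit 24) (nat_lit 5) (nat_lit 24) (nat_lit 4) (nat_lit 354) (nat_lit 240) (nat_lit 186))))))))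
noncomputable def xc57 : XT := (XT.nd (nat_lit 2184) (nat_lit 304) (nat_lit 0) (XT.nd (nat_lit 1092) (nat_lit 380) (nat_lit 0) (XT.nd (nat_lit 546) (nat_lit 228) (nat_lit 0) (XT.nd (nat_lit 234) (nat_lit 152) (nat_lit 0) (XT.nd (nat_lit 78) (nat_lit 76) (nat_lit 0) (XT.lf (nat_lit 0) (nat_lit 2276926177) (nat_lit 228) (nat_lit 15370689862) (nat_lit 76) (nat_lit 5848729888) (nat_lit 21) (nat_lit 5) (nat_lit 24) (nat_lit 5) (nat_lit 22) (nat_lit 4) (nat_lit 355) (nat_lit 240) (nat_lit 185)) (XT.nd (nat_lit 78) (nat_lit 76) (nat_lit 0) (XT.lf (nat_lit 0) (nat_lit 6114750688) (nat_lit 228) (nat_lit 7722555497) (nat_lit 76) (nat_lit 10227581082) (nat_lit 21) (nat_lit 5) (nat_lit 24) (nat_lit 5) (nat_lit 22) (nat_lit 4) (nat_lit 356) (nat_lit 240) (nat_lit 184)) (XT.lf (nat_lit 0) (nat_lit 90853496) (nat_lit 76) (nat_lit 9941091059) (nat_lit 152) (nat_lit 14619625582) (nat_lit 20) (nat_lit 5) (nat_lit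 21) (nat_lit 5) (nat_lit 22) (nat_lit 4) (nat_lit 357) (nat_lit 240) (nat_lit 183)))) (XT.nd (nat_lit 156) (nat_lit 152) (nat_lit 0) (XT.nd (nat_lit 78) (nat_lit 0) (nat_lit 0) (XT.lf (nat_lit 0) (nat_lit 8231673790) (nat_lit 76) (nat_lit 5876763882) (nat_lit 152) (nat_lit 11146174284) (nat_lit 20) (nat_lit 5) (nat_lit 21) (nat_lit 5) (nat_lit 22) (nat_lit 4) (nat_lit 358) (nat_lit 240) (nat_lit 182)) (XT.lf (nat_lit 0) (nat_lit 16553324725) (nat_lit 76) (nat_lit 1718755971) (nat_lit 152) (nat_lit 7604730301) (nat_lit 20) (nat_lit 5) (nat_lit 21) (nat_lit 5) (nat_lit 22) (nat_lit 4) (nat_lit 359) (nat_lit 240) (nat_lit 181))) (XT.nd (nat_lit 78) (nat_lit 152) (nat_lit 0) (XT.lf (nat_lit 0) (nat_lit 22550894784) (nat_lit 152) (nat_lit 1480016304) (nat_lit 0) (nat_lit 2487068349) (nat_lit 20) (nat_lit 5) (nat_lit 22) (nat_lit 4) (nat_lit 20) (nat_lit 4) (nat_lit 360) (nat_lit 240) (nat_lit 180))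 (XT.lf (nat_lit 0) (nat_lit 6651022062) (nat_lit 152) (nat_lit 20354618922) (nat_lit 152) (nat_lit 171325867) (nat_lit 18) (nat_lit 4) (nat_lit 20) (nat_lit 5) (nat_lit 20) (nat_lit 4) (nat_lit 361) (nat_lit 240) (nat_lit 179))))) (XT.nd (nat_lit 234) (nat_lit 76) (nat_lit 0) (XT.nd (nat_lit 78) (nat_lit 76) (nat_lit 0) (XT.lf (nat_lit 0) (nat_lit 3647127128) (nat_lit 228) (nat_lit 12895611995) (nat_lit 76) (nat_lit 11312463966) (nat_lit 17) (nat_lit 5) (nat_lit 20) (nat_lit 5) (nat_lit 18) (nat_lit 4) (nat_lit 362) (nat_lit 240) (nat_lit 178)) (XT.nd (nat_lit 78) (nat_lit 76) (nat_lit 0) (XT.lf (nat_lit 0) (nat_lit 7544336854) (nat_lit 228) (nat_lit 5096884999) (nat_lit 76) (nat_lit 15913494294) (nat_lit 17) (nat_lit 5) (nat_lit 20) (nat_lit 5) (nat_lit 18) (nat_lit 4) (nat_lit 363) (nat_lit 240) (nat_lit 177)) (XT.lf (nat_lit 0) (nat_lit 2935989230) (nat_lit 76) (nat_lit 8619285117) (nat_lit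 152) (nat_lit 17720045638) (nat_lit 16) (nat_lit 5) (nat_lit 17) (nat_lit 5) (nat_lit 18) (nat_lit 4) (nat_lit 364) (nat_lit 240) (nat_lit 176)))) (XT.nd (nat_lit 156) (nat_lit 76) (nat_lit 0) (XT.nd (nat_lit 78) (nat_lit 0) (nat_lit 0) (XT.lf (nat_lit 0) (nat_lit 11257784400) (nat_lit 76) (nat_lit 4449184388) (nat_lit 152) (nat_lit 14309969733) (nat_lit 16) (nat_lit 5) (nat_lit 17) (nat_lit 5) (nat_lit 18) (nat_lit 4) (nat_lit 365) (nat_lit 240) (nat_lit 175)) (XT.lf (nat_lit 0) (nat_lit 19774333974) (nat_lit 76) (nat_lit 178744435) (nat_lit 152) (nat_lit 10828640446) (nat_lit 16) (nat_lit 5) (nat_lit 17) (nat_lit 5) (nat_lit 18) (nat_lit 4) (nat_lit 366) (nat_lit 240) (nat_lit 174))) (XT.nd (nat_lit 78) (nat_lit 76) (nat_lit 0) (XT.lf (nat_lit 0) (nat_lit 24337645675) (nat_lit 152) (nat_lit 3117581916) (nat_lit 0) (nat_lit 4113891683) (nat_lit 16) (nat_lit 5) (nat_lit 18) (nat_lit 4) (nat_lit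 16) (nat_lit 4) (nat_lit 367) (nat_lit 240) (nat_lit 173)) (XT.lf (nat_lit 0) (nat_lit 5053370414) (nat_lit 76) (nat_lit 23822095256) (nat_lit 76) (nat_lit 3504033209) (nat_lit 15) (nat_lit 4) (nat_lit 16) (nat_lit 5) (nat_lit 16) (nat_lit 4) (nat_lit 368) (nat_lit 240) (nat_lit 172)))))) (XT.nd (nat_lit 546) (nat_lit 228) (nat_lit 0) (XT.nd (nat_lit 234) (nat_lit 76) (nat_lit 0) (XT.nd (nat_lit 78) (nat_lit 0) (nat_lit 0) (XT.lf (nat_lit 0) (nat_lit 331898773) (nat_lit 152) (nat_lit 19735868753) (nat_lit 76) (nat_lit 13146237526) (nat_lit 14) (nat_lit 5) (nat_lit 16) (nat_lit 5) (nat_lit 15) (nat_lit 4) (nat_lit 369) (nat_lit 240) (nat_lit 171)) (XT.nd (nat_lit 78) (nat_lit 0) (nat_lit 0) (XT.lf (nat_lit 0) (nat_lit 4184730411) (nat_lit 152) (nat_lit 12003514914) (nat_lit 76) (nat_lit 17885100716) (nat_lit 14) (nat_lit 5) (nat_lit 16) (nat_lit 5) (nat_lit 15) (nat_lit 4) (nat_lit 370) (nat_lit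 240) (nat_lit 170)) (XT.lf (nat_lit 0) (nat_lit 8126204564) (nat_lit 152) (nat_lit 4088627612) (nat_lit 76) (nat_lit 22744451038) (nat_lit 14) (nat_lit 5) (nat_lit 16) (nat_lit 5) (nat_lit 15) (nat_lit 4) (nat_lit 371) (nat_lit 240) (nat_lit 169)))) (XT.nd (nat_lit 156) (nat_lit 0) (nat_lit 0) (XT.nd (nat_lit 78) (nat_lit 0) (nat_lit 0) (XT.lf (nat_lit 0) (nat_lit 4095629559) (nat_lit 76) (nat_lit 8103505377) (nat_lit 152) (nat_lit 23672274665) (nat_lit 13) (nat_lit 5) (nat_lit 14) (nat_lit 5) (nat_lit 15) (nat_lit 4) (nat_lit 372) (nat_lit 240) (nat_lit 168)) (XT.lf (nat_lit 0) (nat_lit 12561700629) (nat_lit 76) (nat_lit 3847987029) (nat_lit 152) (nat_lit 20400756329) (nat_lit 13) (nat_lit 5) (nat_lit 14) (nat_lit 5) (nat_lit 15) (nat_lit 4) (nat_lit 373) (nat_lit 240) (nat_lit 167))) (XT.nd (nat_lit 78) (nat_lit 0) (nat_lit 0) (XT.lf (nat_lit 0) (nat_lit 20726399635) (nat_lit 152) (nat_lit 16547740360)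 (nat_lit 0) (nat_lit 504121160) (nat_lit 13) (nat_lit 5) (nat_lit 15) (nat_lit 4) (nat_lit 13) (nat_lit 4) (nat_lit 374) (nat_lit 240) (nat_lit 166)) (XT.lf (nat_lit 0) (nat_lit 25186146834) (nat_lit 152) (nat_lit 8699146102) (nat_lit 0) (nat_lit 4889420711) (nat_lit 13) (nat_lit 5) (nat_lit 15) (nat_lit 4) (nat_lit 13) (nat_lit 4) (nat_lit 375) (nat_lit 240) (nat_lit 165))))) (XT.nd (nat_lit 234) (nat_lit 152) (nat_lit 0) (XT.nd (nat_lit 78) (nat_lit 76) (nat_lit 0) (XT.lf (nat_lit 0) (nat_lit 29755836918) (nat_lit 152) (nat_lit 659113383) (nat_lit 0) (nat_lit 9386831524) (nat_lit 13) (nat_lit 5) (nat_lit 15) (nat_lit 4) (nat_lit 13) (nat_lit 4) (nat_lit 376) (nat_lit 240) (nat_lit 164)) (XT.nd (nat_lit 78) (nat_lit 0) (nat_lit 0) (XT.lf (nat_lit 0) (nat_lit 7730227651) (nat_lit 76) (nat_lit 26783542845) (nat_lit 76) (nat_lit 6344363403) (nat_lit 12) (nat_lit 4) (nat_lit 13) (nat_lit 5) (nat_lit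 13) (nat_lit 4) (nat_lit 377) (nat_lit 240) (nat_lit 163)) (XT.lf (nat_lit 0) (nat_lit 16342441837) (nat_lit 76) (nat_lit 23055768738) (nat_lit 76) (nat_lit 2548459151) (nat_lit 12) (nat_lit 4) (nat_lit 13) (nat_lit 5) (nat_lit 13) (nat_lit 4) (nat_lit 378) (nat_lit 240) (nat_lit 162)))) (XT.nd (nat_lit 156) (nat_lit 76) (nat_lit 0) (XT.nd (nat_lit 78) (nat_lit 0) (nat_lit 0) (XT.lf (nat_lit 0) (nat_lit 1312311335) (nat_lit 152) (nat_lit 17909463346) (nat_lit 76) (nat_lit 23846373656) (nat_lit 11) (nat_lit 5) (nat_lit 13) (nat_lit 5) (nat_lit 12) (nat_lit 4) (nat_lit 379) (nat_lit 240) (nat_lit 161)) (XT.lf (nat_lit 0) (nat_lit 5215890623) (nat_lit 152) (nat_lit 10049416588) (nat_lit 76) (nat_lit 28957866628) (nat_lit 11) (nat_lit 5) (nat_lit 13) (nat_lit 5) (nat_lit 12) (nat_lit 4) (nat_lit 380) (nat_lit 240) (nat_lit 160))) (XT.nd (nat_lit 78) (nat_lit 76) (nat_lit 0) (XT.lf (nat_lit 0) (nat_lit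 9215419223) (nat_lit 152) (nat_lit 1992722263) (nat_lit 76) (nat_lit 34205348911) (nat_lit 11) (nat_lit 5) (nat_lit 13) (nat_lit 5) (nat_lit 12) (nat_lit 4) (nat_lit 381) (nat_lit 240) (nat_lit 159)) (XT.lf (nat_lit 0) (nat_lit 6392398169) (nat_lit 76) (nat_lit 6983441341) (nat_lit 152) (nat_lit 33262455155) (nat_lit 10) (nat_lit 5) (nat_lit 11) (nat_lit 5) (nat_lit 12) (nat_lit 4) (nat_lit 382) (nat_lit 240) (nat_lit 158))))))) (XT.nd (nat_lit 1092) (nat_lit 76) (nat_lit 0) (XT.nd (nat_lit 546) (nat_lit 152) (nat_lit 0) (XT.nd (nat_lit 234) (nat_lit 76) (nat_lit 0) (XT.nd (nat_lit 78) (nat_lit 0) (nat_lit 0) (XT.lf (nat_lit 0) (nat_lit 15032280316) (nat_lit 76) (nat_lit 2628609347) (nat_lit 152) (nat_lit 30238964113) (nat_lit 10) (nat_lit 5) (nat_lit 11) (nat_lit 5) (nat_lit 12) (nat_lit 4) (nat_lit 383) (nat_lit 240) (nat_lit 157)) (XT.nd (nat_lit 78) (nat_lit 0) (nat_lit 0) (XT.lf (nat_lit 0)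 (nat_lit 22072464966) (nat_lit 152) (nat_lit 25322729211) (nat_lit 0) (nat_lit 1804131351) (nat_lit 10) (nat_lit 5) (nat_lit 12) (nat_lit 4) (nat_lit 10) (nat_lit 4) (nat_lit 384) (nat_lit 240) (nat_lit 156)) (XT.lf (nat_lit 0) (nat_lit 26623116567) (nat_lit 152) (nat_lit 17613467538) (nat_lit 0) (nat_lit 6301000386) (nat_lit 10) (nat_lit 5) (nat_lit 12) (nat_lit 4) (nat_lit 10) (nat_lit 4) (nat_lit 385) (nat_lit 240) (nat_lit 155)))) (XT.nd (nat_lit 156) (nat_lit 76) (nat_lit 0) (XT.nd (nat_lit 78) (nat_lit 0) (nat_lit 0) (XT.lf (nat_lit 0) (nat_lit 31291552962) (nat_lit 152) (nat_lit 9707784393) (nat_lit 0) (nat_lit 10917220698) (nat_lit 10) (nat_lit 5) (nat_lit 12) (nat_lit 4) (nat_lit 10) (nat_lit 4) (nat_lit 386) (nat_lit 240) (nat_lit 154)) (XT.lf (nat_lit 0) (nat_lit 36081853367) (nat_lit 152) (nat_lit 1598771898) (nat_lit 0) (nat_lit 15656825878) (nat_lit 10) (nat_lit 5) (nat_lit 12) (nat_lit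 4) (nat_lit 10) (nat_lit 4) (nat_lit 387) (nat_lit 240) (nat_lit 153))) (XT.nd (nat_lit 78) (nat_lit 0) (nat_lit 0) (XT.lf (nat_lit 0) (nat_lit 6854409715) (nat_lit 76) (nat_lit 34209682547) (nat_lit 76) (nat_lit 13735436391) (nat_lit 9) (nat_lit 4) (nat_lit 10) (nat_lit 5) (nat_lit 10) (nat_lit 4) (nat_lit 388) (nat_lit 240) (nat_lit 152)) (XT.lf (nat_lit 0) (nat_lit 15561426667) (nat_lit 76) (nat_lit 30633058434) (nat_lit 76) (nat_lit 10111027165) (nat_lit 9) (nat_lit 4) (nat_lit 10) (nat_lit 5) (nat_lit 10) (nat_lit 4) (nat_lit 389) (nat_lit 240) (nat_lit 151))))) (XT.nd (nat_lit 234) (nat_lit 76) (nat_lit 0) (XT.nd (nat_lit 78) (nat_lit 76) (nat_lit 0) (XT.lf (nat_lit 0) (nat_lit 24498068334) (nat_lit 76) (nat_lit 26963772182) (nat_lit 76) (nat_lit 6395347600) (nat_lit 9) (nat_lit 4) (nat_lit 10) (nat_lit 5) (nat_lit 10) (nat_lit 4) (nat_lit 390) (nat_lit 240) (nat_lit 150)) (XT.nd (nat_lit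 78) (nat_lit 76) (nat_lit 0) (XT.lf (nat_lit 0) (nat_lit 33672143433) (nat_lit 76) (nat_lit 23198617619) (nat_lit 76) (nat_lit 2585150986) (nat_lit 9) (nat_lit 4) (nat_lit 10) (nat_lit 5) (nat_lit 10) (nat_lit 4) (nat_lit 391) (nat_lit 240) (nat_lit 149)) (XT.lf (nat_lit 0) (nat_lit 1297077588) (nat_lit 152) (nat_lit 18024129275) (nat_lit 76) (nat_lit 41781492617) (nat_lit 8) (nat_lit 5) (nat_lit 10) (nat_lit 5) (nat_lit 9) (nat_lit 4) (nat_lit 392) (nat_lit 240) (nat_lit 148)))) (XT.nd (nat_lit 156) (nat_lit 76) (nat_lit 0) (XT.nd (nat_lit 78) (nat_lit 0) (nat_lit 0) (XT.lf (nat_lit 0) (nat_lit 5228145729) (nat_lit 152) (nat_lit 10086517404) (nat_lit 76) (nat_lit 47483933376) (nat_lit 8) (nat_lit 5) (nat_lit 10) (nat_lit 5) (nat_lit 9) (nat_lit 4) (nat_lit 393) (nat_lit 240) (nat_lit 147)) (XT.lf (nat_lit 0) (nat_lit 9261933956) (nat_lit 152) (nat_lit 1939147160) (nat_lit 76) (nat_lit 53344749358)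 (nat_lit 8) (nat_lit 5) (nat_lit 10) (nat_lit 5) (nat_lit 9) (nat_lit 4) (nat_lit 394) (nat_lit 240) (nat_lit 146))) (XT.nd (nat_lit 78) (nat_lit 0) (nat_lit 0) (XT.lf (nat_lit 0) (nat_lit 6552972613) (nat_lit 76) (nat_lit 6911985507) (nat_lit 152) (nat_lit 52879080233) (nat_lit 7) (nat_lit 5) (nat_lit 8) (nat_lit 5) (nat_lit 9) (nat_lit 4) (nat_lit 395) (nat_lit 240) (nat_lit 145)) (XT.lf (nat_lit 0) (nat_lit 15312332959) (nat_lit 76) (nat_lit 2486720735) (nat_lit 152) (nat_lit 50396992812) (nat_lit 7) (nat_lit 5) (nat_lit 8) (nat_lit 5) (nat_lit 9) (nat_lit 4) (nat_lit 396) (nat_lit 240) (nat_lit 144)))))) (XT.nd (nat_lit 546) (nat_lit 0) (nat_lit 0) (XT.nd (nat_lit 234) (nat_lit 76) (nat_lit 0) (XT.nd (nat_lit 78) (nat_lit 0) (nat_lit 0) (XT.lf (nat_lit 0) (nat_lit 22268788856) (nat_lit 152) (nat_lit 45815841027) (nat_lit 0) (nat_lit 2018819875) (nat_lit 7) (nat_lit 5) (nat_lit 9) (nat_lit 4)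 (nat_lit 7) (nat_lit 4) (nat_lit 397) (nat_lit 240) (nat_lit 143)) (XT.nd (nat_lit 78) (nat_lit 0) (nat_lit 0) (XT.lf (nat_lit 0) (nat_lit 26883359497) (nat_lit 152) (nat_lit 38586562666) (nat_lit 0) (nat_lit 6597833904) (nat_lit 7) (nat_lit 5) (nat_lit 9) (nat_lit 4) (nat_lit 7) (nat_lit 4) (nat_lit 398) (nat_lit 240) (nat_lit 142)) (XT.lf (nat_lit 0) (nat_lit 31622893884) (nat_lit 152) (nat_lit 31165657737) (nat_lit 0) (nat_lit 11302847309) (nat_lit 7) (nat_lit 5) (nat_lit 9) (nat_lit 4) (nat_lit 7) (nat_lit 4) (nat_lit 399) (nat_lit 240) (nat_lit 141)))) (XT.nd (nat_lit 156) (nat_lit 76) (nat_lit 0) (XT.nd (nat_lit 78) (nat_lit 0) (nat_lit 0) (XT.lf (nat_lit 0) (nat_lit 36491533358) (nat_lit 152) (nat_lit 23546641954) (nat_lit 0) (nat_lit 16137971267) (nat_lit 7) (nat_lit 5) (nat_lit 9) (nat_lit 4) (nat_lit 7) (nat_lit 4) (nat_lit 400) (nat_lit 240) (nat_lit 140)) (XT.lf (nat_lit 0) (nat_lit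 41493532071) (nat_lit 152) (nat_lit 15722857926) (nat_lit 0) (nat_lit 21107430643) (nat_lit 7) (nat_lit 5) (nat_lit 9) (nat_lit 4) (nat_lit 7) (nat_lit 4) (nat_lit 401) (nat_lit 240) (nat_lit 139))) (XT.nd (nat_lit 78) (nat_lit 76) (nat_lit 0) (XT.lf (nat_lit 0) (nat_lit 46633260701) (nat_lit 152) (nat_lit 7687469335) (nat_lit 0) (nat_lit 26215567684) (nat_lit 7) (nat_lit 5) (nat_lit 9) (nat_lit 4) (nat_lit 7) (nat_lit 4) (nat_lit 402) (nat_lit 240) (nat_lit 138)) (XT.lf (nat_lit 0) (nat_lit 577820387) (nat_lit 76) (nat_lit 51342944248) (nat_lit 76) (nat_lit 30894579786) (nat_lit 6) (nat_lit 4) (nat_lit 7) (nat_lit 5) (nat_lit 7) (nat_lit 4) (nat_lit 403) (nat_lit 240) (nat_lit 137))))) (XT.nd (nat_lit 234) (nat_lit 0) (nat_lit 0) (XT.nd (nat_lit 78) (nat_lit 0) (nat_lit 0) (XT.lf (nat_lit 0) (nat_lit 9226438463) (nat_lit 76) (nat_lit 48206247789) (nat_lit 76) (nat_lit 27728105224) (nat_lit 6)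 (nat_lit 4) (nat_lit 7) (nat_lit 5) (nat_lit 7) (nat_lit 4) (nat_lit 404) (nat_lit 240) (nat_lit 136)) (XT.nd (nat_lit 78) (nat_lit 0) (nat_lit 0) (XT.lf (nat_lit 0) (nat_lit 18112946225) (nat_lit 76) (nat_lit 44985528222) (nat_lit 76) (nat_lit 24478474878) (nat_lit 6) (nat_lit 4) (nat_lit 7) (nat_lit 5) (nat_lit 7) (nat_lit 4) (nat_lit 405) (nat_lit 240) (nat_lit 135)) (XT.lf (nat_lit 0) (nat_lit 27245108581) (nat_lit 76) (nat_lit 41677971327) (nat_lit 76) (nat_lit 21142849266) (nat_lit 6) (nat_lit 4) (nat_lit 7) (nat_lit 5) (nat_lit 7) (nat_lit 4) (nat_lit 406) (nat_lit 240) (nat_lit 134)))) (XT.nd (nat_lit 156) (nat_lit 0) (nat_lit 0) (XT.nd (nat_lit 78) (nat_lit 0) (nat_lit 0) (XT.lf (nat_lit 0) (nat_lit 36630905092) (nat_lit 76) (nat_lit 38280687006) (nat_lit 76) (nat_lit 17718313762) (nat_lit 6) (nat_lit 4) (nat_lit 7) (nat_lit 5) (nat_lit 7) (nat_lit 4) (nat_lit 407) (nat_lit 240) (nat_lit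 133)) (XT.lf (nat_lit 0) (nat_lit 46278536939) (nat_lit 76) (nat_lit 34790706757) (nat_lit 76) (nat_lit 14201876055) (nat_lit 6) (nat_lit 4) (nat_lit 7) (nat_lit 5) (nat_lit 7) (nat_lit 4) (nat_lit 408) (nat_lit 240) (nat_lit 132))) (XT.nd (nat_lit 78) (nat_lit 0) (nat_lit 0) (XT.lf (nat_lit 0) (nat_lit 56196434091) (nat_lit 76) (nat_lit 31204981084) (nat_lit 76) (nat_lit 10590463530) (nat_lit 6) (nat_lit 4) (nat_lit 7) (nat_lit 5) (nat_lit 7) (nat_lit 4) (nat_lit 409) (nat_lit 240) (nat_lit 131)) (XT.lf (nat_lit 0) (nat_lit 66393262672) (nat_lit 76) (nat_lit 27520376828) (nat_lit 76) (nat_lit 6880920581) (nat_lit 6) (nat_lit 4) (nat_lit 7) (nat_lit 5) (nat_lit 7) (nat_lit 4) (nat_lit 410) (nat_lit 240) (nat_lit 130))))))))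
noncomputable def xc58 : XT := (XT.nd (nat_lit 33852) (nat_lit 0) (nat_lit 1444) (XT.nd (nat_lit 32760) (nat_lit 0) (nat_lit 3952) (XT.nd (nat_lit 32214) (nat_lit 0) (nat_lit 6460) (XT.nd (nat_lit 31980) (nat_lit 0) (nat_lit 8360) (XT.nd (nat_lit 31824) (nat_lit 0) (nat_lit 9272) (XT.lf (nat_lit 0) (nat_lit 76877932532) (nat_lit 76) (nat_lit 23733674431) (nat_lit 76) (nat_lit 3070005863) (nat_lit 6) (nat_lit 4) (nat_lit 7) (nat_lit 5) (nat_lit 7) (nat_lit 4) (nat_lit 411) (nat_lit 240) (nat_lit 129)) (XT.nd (nat_lit 78) (nat_lit 456) (nat_lit 0) (XT.lf (nat_lit 0) (nat_lit 2607661197) (nat_lit 456) (nat_lit 732660654) (nat_lit 456) (nat_lit 732660654) (nat_lit 134) (nat_lit 4) (nat_lit 140) (nat_lit 5) (nat_lit 140) (nat_lit 4) (nat_lit 298) (nat_lit 241) (nat_lit 241)) (XT.lf (nat_lit 0) (nat_lit 2074930724) (nat_lit 456) (nat_lit 5256324952) (nat_lit 0) (nat_lit 911574058) (nat_lit 128) (nat_lit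 5) (nat_lit 134) (nat_lit 4) (nat_lit 128) (nat_lit 4) (nat_lit 299) (nat_lit 241) (nat_lit 240)))) (XT.nd (nat_lit 78) (nat_lit 456) (nat_lit 0) (XT.lf (nat_lit 0) (nat_lit 663677190) (nat_lit 456) (nat_lit 4986339171) (nat_lit 456) (nat_lit 2693510014) (nat_lit 122) (nat_lit 4) (nat_lit 128) (nat_lit 5) (nat_lit 128) (nat_lit 4) (nat_lit 300) (nat_lit 241) (nat_lit 239)) (XT.nd (nat_lit 78) (nat_lit 380) (nat_lit 0) (XT.lf (nat_lit 0) (nat_lit 829307695) (nat_lit 532) (nat_lit 1705909769) (nat_lit 76) (nat_lit 5913024745) (nat_lit 121) (nat_lit 5) (nat_lit 128) (nat_lit 5) (nat_lit 122) (nat_lit 4) (nat_lit 301) (nat_lit 241) (nat_lit 238)) (XT.lf (nat_lit 0) (nat_lit 4356733503) (nat_lit 456) (nat_lit 4167646610) (nat_lit 0) (nat_lit 32422299) (nat_lit 116) (nat_lit 5) (nat_lit 122) (nat_lit 4) (nat_lit 116) (nat_lit 4) (nat_lit 302) (nat_lit 241) (nat_lit 237))))) (XT.nd (nat_lit 234) (nat_lit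 1140) (nat_lit 0) (XT.nd (nat_lit 78) (nat_lit 380) (nat_lit 0) (XT.lf (nat_lit 0) (nat_lit 1928223883) (nat_lit 380) (nat_lit 6034568063) (nat_lit 380) (nat_lit 706735179) (nat_lit 111) (nat_lit 4) (nat_lit 116) (nat_lit 5) (nat_lit 116) (nat_lit 4) (nat_lit 303) (nat_lit 241) (nat_lit 236)) (XT.nd (nat_lit 78) (nat_lit 304) (nat_lit 0) (XT.lf (nat_lit 0) (nat_lit 2789754240) (nat_lit 456) (nat_lit 638924668) (nat_lit 76) (nat_lit 5357564257) (nat_lit 110) (nat_lit 5) (nat_lit 116) (nat_lit 5) (nat_lit 111) (nat_lit 4) (nat_lit 304) (nat_lit 241) (nat_lit 235)) (XT.lf (nat_lit 0) (nat_lit 5634183502) (nat_lit 304) (nat_lit 711739999) (nat_lit 380) (nat_lit 2561341761) (nat_lit 106) (nat_lit 5) (nat_lit 110) (nat_lit 5) (nat_lit 111) (nat_lit 4) (nat_lit 305) (nat_lit 241) (nat_lit 234)))) (XT.nd (nat_lit 156) (nat_lit 380) (nat_lit 0) (XT.nd (nat_lit 78) (nat_lit 304) (nat_lit 0) (XT.lf (nat_lit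 0) (nat_lit 928756357) (nat_lit 456) (nat_lit 6043173817) (nat_lit 76) (nat_lit 2060656745) (nat_lit 100) (nat_lit 5) (nat_lit 106) (nat_lit 5) (nat_lit 101) (nat_lit 4) (nat_lit 306) (nat_lit 241) (nat_lit 233)) (XT.lf (nat_lit 0) (nat_lit 200315513) (nat_lit 304) (nat_lit 4230478256) (nat_lit 380) (nat_lit 4731429208) (nat_lit 96) (nat_lit 5) (nat_lit 100) (nat_lit 5) (nat_lit 101) (nat_lit 4) (nat_lit 307) (nat_lit 241) (nat_lit 232))) (XT.nd (nat_lit 78) (nat_lit 380) (nat_lit 0) (XT.lf (nat_lit 0) (nat_lit 6639075842) (nat_lit 304) (nat_lit 1377527748) (nat_lit 380) (nat_lit 1279857992) (nat_lit 96) (nat_lit 5) (nat_lit 100) (nat_lit 5) (nat_lit 101) (nat_lit 4) (nat_lit 308) (nat_lit 241) (nat_lit 231)) (XT.lf (nat_lit 0) (nat_lit 2201619953) (nat_lit 380) (nat_lit 5676909948) (nat_lit 76) (nat_lit 1556489077) (nat_lit 91) (nat_lit 5) (nat_lit 96) (nat_lit 5) (nat_lit 92) (nat_lit 4) (nat_lit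 309) (nat_lit 241) (nat_lit 230)))))) (XT.nd (nat_lit 546) (nat_lit 988) (nat_lit 0) (XT.nd (nat_lit 234) (nat_lit 836) (nat_lit 0) (XT.nd (nat_lit 78) (nat_lit 380) (nat_lit 0) (XT.lf (nat_lit 0) (nat_lit 715779256) (nat_lit 304) (nat_lit 5013823460) (nat_lit 380) (nat_lit 3848785148) (nat_lit 87) (nat_lit 5) (nat_lit 91) (nat_lit 5) (nat_lit 92) (nat_lit 4) (nat_lit 310) (nat_lit 241) (nat_lit 229)) (XT.nd (nat_lit 78) (nat_lit 380) (nat_lit 0) (XT.lf (nat_lit 0) (nat_lit 7302523770) (nat_lit 304) (nat_lit 2039620271) (nat_lit 380) (nat_lit 384618667) (nat_lit 87) (nat_lit 5) (nat_lit 91) (nat_lit 5) (nat_lit 92) (nat_lit 4) (nat_lit 311) (nat_lit 241) (nat_lit 228)) (XT.lf (nat_lit 0) (nat_lit 3094262282) (nat_lit 380) (nat_lit 5744855378) (nat_lit 76) (nat_lit 1040428426) (nat_lit 82) (nat_lit 5) (nat_lit 87) (nat_lit 5) (nat_lit 83) (nat_lit 4) (nat_lit 312) (nat_lit 241) (nat_lit 227))))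 (XT.nd (nat_lit 156) (nat_lit 532) (nat_lit 0) (XT.nd (nat_lit 78) (nat_lit 76) (nat_lit 0) (XT.lf (nat_lit 0) (nat_lit 781642576) (nat_lit 228) (nat_lit 5864268665) (nat_lit 304) (nat_lit 3391664343) (nat_lit 79) (nat_lit 5) (nat_lit 82) (nat_lit 5) (nat_lit 83) (nat_lit 4) (nat_lit 313) (nat_lit 241) (nat_lit 226)) (XT.lf (nat_lit 0) (nat_lit 84368896) (nat_lit 304) (nat_lit 2692206125) (nat_lit 76) (nat_lit 7424319454) (nat_lit 78) (nat_lit 5) (nat_lit 82) (nat_lit 5) (nat_lit 79) (nat_lit 5) (nat_lit 314) (nat_lit 241) (nat_lit 225))) (XT.nd (nat_lit 78) (nat_lit 228) (nat_lit 0) (XT.lf (nat_lit 0) (nat_lit 3565487066) (nat_lit 380) (nat_lit 6370921134) (nat_lit 76) (nat_lit 432683779) (nat_lit 74) (nat_lit 5) (nat_lit 79) (nat_lit 5) (nat_lit 75) (nat_lit 4) (nat_lit 315) (nat_lit 241) (nat_lit 224)) (XT.lf (nat_lit 0) (nat_lit 269206161) (nat_lit 228) (nat_lit 6866366823) (nat_lit 304) (nat_lit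 3407280438) (nat_lit 71) (nat_lit 5) (nat_lit 74) (nat_lit 5) (nat_lit 75) (nat_lit 4) (nat_lit 316) (nat_lit 241) (nat_lit 223))))) (XT.nd (nat_lit 234) (nat_lit 684) (nat_lit 0) (XT.nd (nat_lit 78) (nat_lit 228) (nat_lit 0) (XT.lf (nat_lit 0) (nat_lit 81434509) (nat_lit 304) (nat_lit 3593895146) (nat_lit 76) (nat_lit 7046754513) (nat_lit 70) (nat_lit 5) (nat_lit 74) (nat_lit 5) (nat_lit 71) (nat_lit 5) (nat_lit 317) (nat_lit 241) (nat_lit 222)) (XT.nd (nat_lit 78) (nat_lit 0) (nat_lit 0) (XT.lf (nat_lit 0) (nat_lit 3206718532) (nat_lit 228) (nat_lit 359856100) (nat_lit 304) (nat_lit 7340347194) (nat_lit 67) (nat_lit 5) (nat_lit 70) (nat_lit 5) (nat_lit 71) (nat_lit 5) (nat_lit 318) (nat_lit 241) (nat_lit 221)) (XT.lf (nat_lit 0) (nat_lit 7152369898) (nat_lit 304) (nat_lit 950000013) (nat_lit 76) (nat_lit 2995099690) (nat_lit 67) (nat_lit 5) (nat_lit 71) (nat_lit 5) (nat_lit 68) (nat_lit 4) (nat_lit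 319) (nat_lit 241) (nat_lit 220)))) (XT.nd (nat_lit 156) (nat_lit 152) (nat_lit 0) (XT.nd (nat_lit 78) (nat_lit 304) (nat_lit 0) (XT.lf (nat_lit 0) (nat_lit 6010531166) (nat_lit 228) (nat_lit 4828667115) (nat_lit 304) (nat_lit 454778365) (nat_lit 64) (nat_lit 5) (nat_lit 67) (nat_lit 5) (nat_lit 68) (nat_lit 4) (nat_lit 320) (nat_lit 241) (nat_lit 219)) (XT.lf (nat_lit 0) (nat_lit 1597907357) (nat_lit 228) (nat_lit 1438497445) (nat_lit 304) (nat_lit 8460389566) (nat_lit 60) (nat_lit 5) (nat_lit 63) (nat_lit 5) (nat_lit 64) (nat_lit 5) (nat_lit 321) (nat_lit 241) (nat_lit 218))) (XT.nd (nat_lit 78) (nat_lit 152) (nat_lit 0) (XT.lf (nat_lit 0) (nat_lit 6629771039) (nat_lit 304) (nat_lit 3041743110) (nat_lit 76) (nat_lit 2033892404) (nat_lit 60) (nat_lit 5) (nat_lit 64) (nat_lit 5) (nat_lit 61) (nat_lit 4) (nat_lit 322) (nat_lit 241) (nat_lit 217)) (XT.lf (nat_lit 0) (nat_lit 3980781082) (nat_lit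 152) (nat_lit 6337586954) (nat_lit 228) (nat_lit 1602327593) (nat_lit 58) (nat_lit 5) (nat_lit 60) (nat_lit 5) (nat_lit 61) (nat_lit 4) (nat_lit 323) (nat_lit 241) (nat_lit 216))))))) (XT.nd (nat_lit 1092) (nat_lit 988) (nat_lit 0) (XT.nd (nat_lit 546) (nat_lit 608) (nat_lit 0) (XT.nd (nat_lit 234) (nat_lit 456) (nat_lit 0) (XT.nd (nat_lit 78) (nat_lit 380) (nat_lit 0) (XT.lf (nat_lit 0) (nat_lit 1902810957) (nat_lit 228) (nat_lit 988561990) (nat_lit 76) (nat_lit 9251554643) (nat_lit 57) (nat_lit 5) (nat_lit 60) (nat_lit 5) (nat_lit 58) (nat_lit 5) (nat_lit 324) (nat_lit 241) (nat_lit 215)) (XT.nd (nat_lit 78) (nat_lit 152) (nat_lit 0) (XT.lf (nat_lit 0) (nat_lit 5484004544) (nat_lit 304) (nat_lit 6203292625) (nat_lit 76) (nat_lit 683998121) (nat_lit 54) (nat_lit 5) (nat_lit 58) (nat_lit 5) (nat_lit 55) (nat_lit 4) (nat_lit 325) (nat_lit 241) (nat_lit 214)) (XT.lf (nat_lit 0) (nat_lit 839372008)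 (nat_lit 152) (nat_lit 8317589324) (nat_lit 228) (nat_lit 3450059668) (nat_lit 52) (nat_lit 5) (nat_lit 54) (nat_lit 5) (nat_lit 55) (nat_lit 4) (nat_lit 326) (nat_lit 241) (nat_lit 213)))) (XT.nd (nat_lit 156) (nat_lit 152) (nat_lit 0) (XT.nd (nat_lit 78) (nat_lit 228) (nat_lit 0) (XT.lf (nat_lit 0) (nat_lit 89544797) (nat_lit 228) (nat_lit 4730821916) (nat_lit 76) (nat_lit 8029429868) (nat_lit 51) (nat_lit 5) (nat_lit 54) (nat_lit 5) (nat_lit 52) (nat_lit 5) (nat_lit 327) (nat_lit 241) (nat_lit 212)) (XT.lf (nat_lit 0) (nat_lit 2431492758) (nat_lit 228) (nat_lit 1197444758) (nat_lit 304) (nat_lit 9471038531) (nat_lit 48) (nat_lit 5) (nat_lit 51) (nat_lit 5) (nat_lit 52) (nat_lit 5) (nat_lit 328) (nat_lit 241) (nat_lit 211))) (XT.nd (nat_lit 78) (nat_lit 152) (nat_lit 0) (XT.lf (nat_lit 0) (nat_lit 7287137169) (nat_lit 304) (nat_lit 3574794956) (nat_lit 76) (nat_lit 2495382714) (nat_lit 48) (nat_lit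 5) (nat_lit 52) (nat_lit 5) (nat_lit 49) (nat_lit 4) (nat_lit 329) (nat_lit 241) (nat_lit 210)) (XT.lf (nat_lit 0) (nat_lit 3695466437) (nat_lit 152) (nat_lit 7348762524) (nat_lit 228) (nat_lit 2578502193) (nat_lit 46) (nat_lit 5) (nat_lit 48) (nat_lit 5) (nat_lit 49) (nat_lit 4) (nat_lit 330) (nat_lit 241) (nat_lit 209))))) (XT.nd (nat_lit 234) (nat_lit 380) (nat_lit 0) (XT.nd (nat_lit 78) (nat_lit 152) (nat_lit 0) (XT.lf (nat_lit 0) (nat_lit 976461761) (nat_lit 228) (nat_lit 2744786716) (nat_lit 76) (nat_lit 10175245807) (nat_lit 45) (nat_lit 5) (nat_lit 48) (nat_lit 5) (nat_lit 46) (nat_lit 5) (nat_lit 331) (nat_lit 241) (nat_lit 208)) (XT.nd (nat_lit 78) (nat_lit 0) (nat_lit 0) (XT.lf (nat_lit 0) (nat_lit 4574811112) (nat_lit 228) (nat_lit 9554617434) (nat_lit 76) (nat_lit 48648065) (nat_lit 43) (nat_lit 5) (nat_lit 46) (nat_lit 5) (nat_lit 44) (nat_lit 4) (nat_lit 332) (nat_lit 241) (nat_lit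 207)) (XT.lf (nat_lit 0) (nat_lit 8289971435) (nat_lit 228) (nat_lit 2329707506) (nat_lit 76) (nat_lit 3848189855) (nat_lit 43) (nat_lit 5) (nat_lit 46) (nat_lit 5) (nat_lit 44) (nat_lit 4) (nat_lit 333) (nat_lit 241) (nat_lit 206)))) (XT.nd (nat_lit 156) (nat_lit 152) (nat_lit 0) (XT.nd (nat_lit 78) (nat_lit 76) (nat_lit 0) (XT.lf (nat_lit 0) (nat_lit 5120280342) (nat_lit 152) (nat_lit 6991180888) (nat_lit 228) (nat_lit 2655074659) (nat_lit 41) (nat_lit 5) (nat_lit 43) (nat_lit 5) (nat_lit 44) (nat_lit 4) (nat_lit 334) (nat_lit 241) (nat_lit 205)) (XT.lf (nat_lit 0) (nat_lit 924005371) (nat_lit 228) (nat_lit 2333313751) (nat_lit 76) (nat_lit 11817501933) (nat_lit 40) (nat_lit 5) (nat_lit 43) (nat_lit 5) (nat_lit 41) (nat_lit 5) (nat_lit 335) (nat_lit 241) (nat_lit 204))) (XT.nd (nat_lit 78) (nat_lit 0) (nat_lit 0) (XT.lf (nat_lit 0) (nat_lit 4560380953) (nat_lit 228) (nat_lit 10212949920) (nat_lit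 76) (nat_lit 618161697) (nat_lit 38) (nat_lit 5) (nat_lit 41) (nat_lit 5) (nat_lit 39) (nat_lit 4) (nat_lit 336) (nat_lit 241) (nat_lit 203)) (XT.lf (nat_lit 0) (nat_lit 8309616511) (nat_lit 228) (nat_lit 2875332727) (nat_lit 76) (nat_lit 4532626262) (nat_lit 38) (nat_lit 5) (nat_lit 41) (nat_lit 5) (nat_lit 39) (nat_lit 4) (nat_lit 337) (nat_lit 241) (nat_lit 202)))))) (XT.nd (nat_lit 546) (nat_lit 456) (nat_lit 0) (XT.nd (nat_lit 234) (nat_lit 152) (nat_lit 0) (XT.nd (nat_lit 78) (nat_lit 228) (nat_lit 0) (XT.lf (nat_lit 0) (nat_lit 4687002634) (nat_lit 152) (nat_lit 7478626317) (nat_lit 228) (nat_lit 3888006591) (nat_lit 36) (nat_lit 5) (nat_lit 38) (nat_lit 5) (nat_lit 39) (nat_lit 4) (nat_lit 338) (nat_lit 241) (nat_lit 201)) (XT.nd (nat_lit 78) (nat_lit 228) (nat_lit 0) (XT.lf (nat_lit 0) (nat_lit 12449130580) (nat_lit 152) (nat_lit 3667123305) (nat_lit 228) (nat_lit 284178467) (nat_lit 36)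 (nat_lit 5) (nat_lit 38) (nat_lit 5) (nat_lit 39) (nat_lit 4) (nat_lit 339) (nat_lit 241) (nat_lit 200)) (XT.lf (nat_lit 0) (nat_lit 3349539419) (nat_lit 228) (nat_lit 13119853797) (nat_lit 76) (nat_lit 287613086) (nat_lit 33) (nat_lit 5) (nat_lit 36) (nat_lit 5) (nat_lit 34) (nat_lit 4) (nat_lit 340) (nat_lit 241) (nat_lit 199)))) (XT.nd (nat_lit 156) (nat_lit 76) (nat_lit 0) (XT.nd (nat_lit 78) (nat_lit 76) (nat_lit 0) (XT.lf (nat_lit 0) (nat_lit 7114302524) (nat_lit 228) (nat_lit 5713162406) (nat_lit 76) (nat_lit 4295916755) (nat_lit 33) (nat_lit 5) (nat_lit 36) (nat_lit 5) (nat_lit 34) (nat_lit 4) (nat_lit 341) (nat_lit 241) (nat_lit 198)) (XT.lf (nat_lit 0) (nat_lit 1869864786) (nat_lit 76) (nat_lit 9092682857) (nat_lit 152) (nat_lit 6539104887) (nat_lit 32) (nat_lit 5) (nat_lit 33) (nat_lit 5) (nat_lit 34) (nat_lit 4) (nat_lit 342) (nat_lit 241) (nat_lit 197))) (XT.nd (nat_lit 78) (nat_lit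 76) (nat_lit 0) (XT.lf (nat_lit 0) (nat_lit 9715951666) (nat_lit 76) (nat_lit 5221142768) (nat_lit 152) (nat_lit 2953871219) (nat_lit 32) (nat_lit 5) (nat_lit 33) (nat_lit 5) (nat_lit 34) (nat_lit 4) (nat_lit 343) (nat_lit 241) (nat_lit 196)) (XT.lf (nat_lit 0) (nat_lit 678558195) (nat_lit 152) (nat_lit 581743201) (nat_lit 76) (nat_lit 17032840598) (nat_lit 31) (nat_lit 5) (nat_lit 33) (nat_lit 5) (nat_lit 32) (nat_lit 5) (nat_lit 344) (nat_lit 241) (nat_lit 195))))) (XT.nd (nat_lit 234) (nat_lit 228) (nat_lit 0) (XT.nd (nat_lit 78) (nat_lit 76) (nat_lit 0) (XT.lf (nat_lit 0) (nat_lit 4413675590) (nat_lit 228) (nat_lit 11459273004) (nat_lit 76) (nat_lit 2831983199) (nat_lit 29) (nat_lit 5) (nat_lit 32) (nat_lit 5) (nat_lit 30) (nat_lit 4) (nat_lit 345) (nat_lit 241) (nat_lit 194)) (XT.nd (nat_lit 78) (nat_lit 76) (nat_lit 0) (XT.lf (nat_lit 0) (nat_lit 8234895258) (nat_lit 228) (nat_lit 3899657199)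 (nat_lit 76) (nat_lit 6995318940) (nat_lit 29) (nat_lit 5) (nat_lit 32) (nat_lit 5) (nat_lit 30) (nat_lit 4) (nat_lit 346) (nat_lit 241) (nat_lit 193)) (XT.lf (nat_lit 0) (nat_lit 3886836205) (nat_lit 76) (nat_lit 8278207950) (nat_lit 152) (nat_lit 7402703320) (nat_lit 28) (nat_lit 5) (nat_lit 29) (nat_lit 5) (nat_lit 30) (nat_lit 4) (nat_lit 347) (nat_lit 241) (nat_lit 192)))) (XT.nd (nat_lit 156) (nat_lit 228) (nat_lit 0) (XT.nd (nat_lit 78) (nat_lit 0) (nat_lit 0) (XT.lf (nat_lit 0) (nat_lit 11911849231) (nat_lit 76) (nat_lit 4298090554) (nat_lit 152) (nat_lit 3808931348) (nat_lit 28) (nat_lit 5) (nat_lit 29) (nat_lit 5) (nat_lit 30) (nat_lit 4) (nat_lit 348) (nat_lit 241) (nat_lit 191)) (XT.lf (nat_lit 0) (nat_lit 20104783199) (nat_lit 76) (nat_lit 230101389) (nat_lit 152) (nat_lit 149898926) (nat_lit 28) (nat_lit 5) (nat_lit 29) (nat_lit 5) (nat_lit 30) (nat_lit 4) (nat_lit 349) (nat_lit 241)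 (nat_lit 190))) (XT.nd (nat_lit 78) (nat_lit 0) (nat_lit 0) (XT.lf (nat_lit 0) (nat_lit 3619876233) (nat_lit 228) (nat_lit 13380266078) (nat_lit 76) (nat_lit 3961354816) (nat_lit 25) (nat_lit 5) (nat_lit 28) (nat_lit 5) (nat_lit 26) (nat_lit 4) (nat_lit 350) (nat_lit 241) (nat_lit 189)) (XT.lf (nat_lit 0) (nat_lit 7465580885) (nat_lit 228) (nat_lit 5738855378) (nat_lit 76) (nat_lit 8249070607) (nat_lit 25) (nat_lit 5) (nat_lit 28) (nat_lit 5) (nat_lit 26) (nat_lit 4) (nat_lit 351) (nat_lit 241) (nat_lit 188))))))))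
noncomputable def xc59 : XT := (XT.nd (nat_lit 2184) (nat_lit 456) (nat_lit 0) (XT.nd (nat_lit 1092) (nat_lit 304) (nat_lit 0) (XT.nd (nat_lit 546) (nat_lit 304) (nat_lit 0) (XT.nd (nat_lit 234) (nat_lit 304) (nat_lit 0) (XT.nd (nat_lit 78) (nat_lit 0) (nat_lit 0) (XT.lf (nat_lit 0) (nat_lit 2103181030) (nat_lit 76) (nat_lit 9304562198) (nat_lit 152) (nat_lit 10553115371) (nat_lit 24) (nat_lit 5) (nat_lit 25) (nat_lit 5) (nat_lit 26) (nat_lit 4) (nat_lit 352) (nat_lit 241) (nat_lit 187)) (XT.nd (nat_lit 78) (nat_lit 0) (nat_lit 0) (XT.lf (nat_lit 0) (nat_lit 10229145106) (nat_lit 76) (nat_lit 5258322713) (nat_lit 152) (nat_lit 6995398015) (nat_lit 24) (nat_lit 5) (nat_lit 25) (nat_lit 5) (nat_lit 26) (nat_lit 4) (nat_lit 353) (nat_lit 241) (nat_lit 186)) (XT.lf (nat_lit 0) (nat_lit 18531922730) (nat_lit 76) (nat_lit 1120133446) (nat_lit 152) (nat_lit 3369616418) (nat_lit 24) (nat_lit 5) (nat_lit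 25) (nat_lit 5) (nat_lit 26) (nat_lit 4) (nat_lit 354) (nat_lit 241) (nat_lit 185)))) (XT.nd (nat_lit 156) (nat_lit 76) (nat_lit 0) (XT.nd (nat_lit 78) (nat_lit 0) (nat_lit 0) (XT.lf (nat_lit 0) (nat_lit 385008402) (nat_lit 228) (nat_lit 20100646713) (nat_lit 76) (nat_lit 3090080167) (nat_lit 21) (nat_lit 5) (nat_lit 24) (nat_lit 5) (nat_lit 22) (nat_lit 4) (nat_lit 355) (nat_lit 241) (nat_lit 184)) (XT.lf (nat_lit 0) (nat_lit 4204784284) (nat_lit 228) (nat_lit 12484996230) (nat_lit 76) (nat_lit 7455043640) (nat_lit 21) (nat_lit 5) (nat_lit 24) (nat_lit 5) (nat_lit 22) (nat_lit 4) (nat_lit 356) (nat_lit 241) (nat_lit 183))) (XT.nd (nat_lit 78) (nat_lit 76) (nat_lit 0) (XT.lf (nat_lit 0) (nat_lit 8103581870) (nat_lit 228) (nat_lit 4704897864) (nat_lit 76) (nat_lit 11923585073) (nat_lit 21) (nat_lit 5) (nat_lit 24) (nat_lit 5) (nat_lit 22) (nat_lit 4) (nat_lit 357) (nat_lit 241) (nat_lit 182)) (XT.lf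 (nat_lit 0) (nat_lit 3311057181) (nat_lit 76) (nat_lit 8805578604) (nat_lit 152) (nat_lit 13220379742) (nat_lit 20) (nat_lit 5) (nat_lit 21) (nat_lit 5) (nat_lit 22) (nat_lit 4) (nat_lit 358) (nat_lit 241) (nat_lit 181))))) (XT.nd (nat_lit 234) (nat_lit 152) (nat_lit 0) (XT.nd (nat_lit 78) (nat_lit 152) (nat_lit 0) (XT.lf (nat_lit 0) (nat_lit 11602389130) (nat_lit 76) (nat_lit 4661081181) (nat_lit 152) (nat_lit 9696254069) (nat_lit 20) (nat_lit 5) (nat_lit 21) (nat_lit 5) (nat_lit 22) (nat_lit 4) (nat_lit 359) (nat_lit 241) (nat_lit 180)) (XT.nd (nat_lit 78) (nat_lit 152) (nat_lit 0) (XT.lf (nat_lit 0) (nat_lit 20082706143) (nat_lit 76) (nat_lit 418876302) (nat_lit 152) (nat_lit 6100536828) (nat_lit 20) (nat_lit 5) (nat_lit 21) (nat_lit 5) (nat_lit 22) (nat_lit 4) (nat_lit 360) (nat_lit 241) (nat_lit 179)) (XT.lf (nat_lit 0) (nat_lit 1485925409) (nat_lit 152) (nat_lit 23400760637) (nat_lit 152)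 (nat_lit 2376515158) (nat_lit 18) (nat_lit 4) (nat_lit 20) (nat_lit 5) (nat_lit 20) (nat_lit 4) (nat_lit 361) (nat_lit 241) (nat_lit 178)))) (XT.nd (nat_lit 156) (nat_lit 76) (nat_lit 0) (XT.nd (nat_lit 78) (nat_lit 0) (nat_lit 0) (XT.lf (nat_lit 0) (nat_lit 1469031397) (nat_lit 228) (nat_lit 18154720489) (nat_lit 76) (nat_lit 8318804549) (nat_lit 17) (nat_lit 5) (nat_lit 20) (nat_lit 5) (nat_lit 18) (nat_lit 4) (nat_lit 362) (nat_lit 241) (nat_lit 177)) (XT.lf (nat_lit 0) (nat_lit 5350767700) (nat_lit 228) (nat_lit 10384124676) (nat_lit 76) (nat_lit 12907646115) (nat_lit 17) (nat_lit 5) (nat_lit 20) (nat_lit 5) (nat_lit 18) (nat_lit 4) (nat_lit 363) (nat_lit 241) (nat_lit 176))) (XT.nd (nat_lit 78) (nat_lit 76) (nat_lit 0) (XT.lf (nat_lit 0) (nat_lit 9318459929) (nat_lit 228) (nat_lit 2435853997) (nat_lit 76) (nat_lit 17610130415) (nat_lit 17) (nat_lit 5) (nat_lit 20) (nat_lit 5) (nat_lit 18)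 (nat_lit 4) (nat_lit 364) (nat_lit 241) (nat_lit 175)) (XT.lf (nat_lit 0) (nat_lit 5810418836) (nat_lit 76) (nat_lit 7621009462) (nat_lit 152) (nat_lit 16675800879) (nat_lit 16) (nat_lit 5) (nat_lit 17) (nat_lit 5) (nat_lit 18) (nat_lit 4) (nat_lit 365) (nat_lit 241) (nat_lit 174)))))) (XT.nd (nat_lit 546) (nat_lit 152) (nat_lit 0) (XT.nd (nat_lit 234) (nat_lit 152) (nat_lit 0) (XT.nd (nat_lit 78) (nat_lit 0) (nat_lit 0) (XT.lf (nat_lit 0) (nat_lit 14300712037) (nat_lit 76) (nat_lit 3362413116) (nat_lit 152) (nat_lit 13209321128) (nat_lit 16) (nat_lit 5) (nat_lit 17) (nat_lit 5) (nat_lit 18) (nat_lit 4) (nat_lit 366) (nat_lit 241) (nat_lit 173)) (XT.nd (nat_lit 78) (nat_lit 0) (nat_lit 0) (XT.lf (nat_lit 0) (nat_lit 22002985540) (nat_lit 152) (nat_lit 8677133048) (nat_lit 0) (nat_lit 981073578) (nat_lit 16) (nat_lit 5) (nat_lit 18) (nat_lit 4) (nat_lit 16) (nat_lit 4) (nat_lit 367) (nat_lit 241)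 (nat_lit 172)) (XT.lf (nat_lit 0) (nat_lit 26478536720) (nat_lit 152) (nat_lit 629843709) (nat_lit 0) (nat_lit 5365063541) (nat_lit 16) (nat_lit 5) (nat_lit 18) (nat_lit 4) (nat_lit 16) (nat_lit 4) (nat_lit 368) (nat_lit 241) (nat_lit 171)))) (XT.nd (nat_lit 156) (nat_lit 0) (nat_lit 0) (XT.nd (nat_lit 78) (nat_lit 76) (nat_lit 0) (XT.lf (nat_lit 0) (nat_lit 7760930665) (nat_lit 76) (nat_lit 23375039947) (nat_lit 76) (nat_lit 2172672382) (nat_lit 15) (nat_lit 4) (nat_lit 16) (nat_lit 5) (nat_lit 16) (nat_lit 4) (nat_lit 369) (nat_lit 241) (nat_lit 170)) (XT.lf (nat_lit 0) (nat_lit 1709283784) (nat_lit 152) (nat_lit 17818826711) (nat_lit 76) (nat_lit 14640901988) (nat_lit 14) (nat_lit 5) (nat_lit 16) (nat_lit 5) (nat_lit 15) (nat_lit 4) (nat_lit 370) (nat_lit 241) (nat_lit 169))) (XT.nd (nat_lit 78) (nat_lit 0) (nat_lit 0) (XT.lf (nat_lit 0) (nat_lit 5637872369) (nat_lit 152) (nat_lit 9927583367)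 (nat_lit 76) (nat_lit 19489884161) (nat_lit 14) (nat_lit 5) (nat_lit 16) (nat_lit 5) (nat_lit 15) (nat_lit 4) (nat_lit 371) (nat_lit 241) (nat_lit 168)) (XT.lf (nat_lit 0) (nat_lit 9658922785) (nat_lit 152) (nat_lit 1846201979) (nat_lit 76) (nat_lit 24463901486) (nat_lit 14) (nat_lit 5) (nat_lit 16) (nat_lit 5) (nat_lit 15) (nat_lit 4) (nat_lit 372) (nat_lit 241) (nat_lit 167))))) (XT.nd (nat_lit 234) (nat_lit 76) (nat_lit 0) (XT.nd (nat_lit 78) (nat_lit 0) (nat_lit 0) (XT.lf (nat_lit 0) (nat_lit 6560395804) (nat_lit 76) (nat_lit 7278615303) (nat_lit 152) (nat_lit 23069966924) (nat_lit 13) (nat_lit 5) (nat_lit 14) (nat_lit 5) (nat_lit 15) (nat_lit 4) (nat_lit 373) (nat_lit 241) (nat_lit 166)) (XT.nd (nat_lit 78) (nat_lit 0) (nat_lit 0) (XT.lf (nat_lit 0) (nat_lit 15212238404) (nat_lit 76) (nat_lit 2926538061) (nat_lit 152) (nat_lit 19738530494) (nat_lit 13) (nat_lit 5) (nat_lit 14) (nat_lit 5)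 (nat_lit 15) (nat_lit 4) (nat_lit 374) (nat_lit 241) (nat_lit 165)) (XT.lf (nat_lit 0) (nat_lit 22558643453) (nat_lit 152) (nat_lit 14810027041) (nat_lit 0) (nat_lit 1506288627) (nat_lit 13) (nat_lit 5) (nat_lit 15) (nat_lit 4) (nat_lit 13) (nat_lit 4) (nat_lit 375) (nat_lit 241) (nat_lit 164)))) (XT.nd (nat_lit 156) (nat_lit 0) (nat_lit 0) (XT.nd (nat_lit 78) (nat_lit 76) (nat_lit 0) (XT.lf (nat_lit 0) (nat_lit 27116927190) (nat_lit 152) (nat_lit 6791047155) (nat_lit 0) (nat_lit 5994398315) (nat_lit 13) (nat_lit 5) (nat_lit 15) (nat_lit 4) (nat_lit 13) (nat_lit 4) (nat_lit 376) (nat_lit 241) (nat_lit 163)) (XT.lf (nat_lit 0) (nat_lit 1455409942) (nat_lit 76) (nat_lit 30348059317) (nat_lit 76) (nat_lit 9157400297) (nat_lit 12) (nat_lit 4) (nat_lit 13) (nat_lit 5) (nat_lit 13) (nat_lit 4) (nat_lit 377) (nat_lit 241) (nat_lit 162))) (XT.nd (nat_lit 78) (nat_lit 0) (nat_lit 0) (XT.lf (nat_lit 0) (nat_lit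 10047384874) (nat_lit 76) (nat_lit 26629578336) (nat_lit 76) (nat_lit 5372773545) (nat_lit 12) (nat_lit 4) (nat_lit 13) (nat_lit 5) (nat_lit 13) (nat_lit 4) (nat_lit 378) (nat_lit 241) (nat_lit 161)) (XT.lf (nat_lit 0) (nat_lit 18857230038) (nat_lit 76) (nat_lit 22817858504) (nat_lit 76) (nat_lit 1496834517) (nat_lit 12) (nat_lit 4) (nat_lit 13) (nat_lit 5) (nat_lit 13) (nat_lit 4) (nat_lit 379) (nat_lit 241) (nat_lit 160))))))) (XT.nd (nat_lit 1092) (nat_lit 152) (nat_lit 0) (XT.nd (nat_lit 546) (nat_lit 152) (nat_lit 0) (XT.nd (nat_lit 234) (nat_lit 76) (nat_lit 0) (XT.nd (nat_lit 78) (nat_lit 0) (nat_lit 0) (XT.lf (nat_lit 0) (nat_lit 2425530710) (nat_lit 152) (nat_lit 16459545378) (nat_lit 76) (nat_lit 25442619542) (nat_lit 11) (nat_lit 5) (nat_lit 13) (nat_lit 5) (nat_lit 12) (nat_lit 4) (nat_lit 380) (nat_lit 241) (nat_lit 159)) (XT.nd (nat_lit 78) (nat_lit 0) (nat_lit 0) (XT.lf (nat_lit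 0) (nat_lit 6414940191) (nat_lit 152) (nat_lit 8421576883) (nat_lit 76) (nat_lit 30681801342) (nat_lit 11) (nat_lit 5) (nat_lit 13) (nat_lit 5) (nat_lit 12) (nat_lit 4) (nat_lit 381) (nat_lit 241) (nat_lit 158)) (XT.lf (nat_lit 0) (nat_lit 10504088449) (nat_lit 152) (nat_lit 179375579) (nat_lit 76) (nat_lit 36061799393) (nat_lit 11) (nat_lit 5) (nat_lit 13) (nat_lit 5) (nat_lit 12) (nat_lit 4) (nat_lit 382) (nat_lit 241) (nat_lit 157)))) (XT.nd (nat_lit 156) (nat_lit 0) (nat_lit 0) (XT.nd (nat_lit 78) (nat_lit 0) (nat_lit 0) (XT.lf (nat_lit 0) (nat_lit 8438934463) (nat_lit 76) (nat_lit 6338734265) (nat_lit 152) (nat_lit 33229500401) (nat_lit 10) (nat_lit 5) (nat_lit 11) (nat_lit 5) (nat_lit 12) (nat_lit 4) (nat_lit 383) (nat_lit 241) (nat_lit 156)) (XT.lf (nat_lit 0) (nat_lit 17283990811) (nat_lit 76) (nat_lit 1878137222) (nat_lit 152) (nat_lit 30145328756) (nat_lit 10) (nat_lit 5) (nat_lit 11)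 (nat_lit 5) (nat_lit 12) (nat_lit 4) (nat_lit 384) (nat_lit 241) (nat_lit 155))) (XT.nd (nat_lit 78) (nat_lit 0) (nat_lit 0) (XT.lf (nat_lit 0) (nat_lit 23685496888) (nat_lit 152) (nat_lit 24313321132) (nat_lit 0) (nat_lit 2647718574) (nat_lit 10) (nat_lit 5) (nat_lit 12) (nat_lit 4) (nat_lit 10) (nat_lit 4) (nat_lit 385) (nat_lit 241) (nat_lit 154)) (XT.lf (nat_lit 0) (nat_lit 28344973145) (nat_lit 152) (nat_lit 16424308501) (nat_lit 0) (nat_lit 7256499604) (nat_lit 10) (nat_lit 5) (nat_lit 12) (nat_lit 4) (nat_lit 10) (nat_lit 4) (nat_lit 386) (nat_lit 241) (nat_lit 153))))) (XT.nd (nat_lit 234) (nat_lit 76) (nat_lit 0) (XT.nd (nat_lit 78) (nat_lit 76) (nat_lit 0) (XT.lf (nat_lit 0) (nat_lit 33126574387) (nat_lit 152) (nat_lit 8331480970) (nat_lit 0) (nat_lit 11988882180) (nat_lit 10) (nat_lit 5) (nat_lit 12) (nat_lit 4) (nat_lit 10) (nat_lit 4) (nat_lit 387) (nat_lit 241) (nat_lit 152)) (XT.nd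 (nat_lit 78) (nat_lit 76) (nat_lit 0) (XT.lf (nat_lit 0) (nat_lit 38034478712) (nat_lit 152) (nat_lit 27767137) (nat_lit 0) (nat_lit 16849001393) (nat_lit 10) (nat_lit 5) (nat_lit 12) (nat_lit 4) (nat_lit 10) (nat_lit 4) (nat_lit 388) (nat_lit 241) (nat_lit 151)) (XT.lf (nat_lit 0) (nat_lit 8663137689) (nat_lit 76) (nat_lit 34493112271) (nat_lit 76) (nat_lit 13261241638) (nat_lit 9) (nat_lit 4) (nat_lit 10) (nat_lit 5) (nat_lit 10) (nat_lit 4) (nat_lit 389) (nat_lit 241) (nat_lit 150)))) (XT.nd (nat_lit 156) (nat_lit 76) (nat_lit 0) (XT.nd (nat_lit 78) (nat_lit 0) (nat_lit 0) (XT.lf (nat_lit 0) (nat_lit 17584673042) (nat_lit 76) (nat_lit 30830826155) (nat_lit 76) (nat_lit 9553913471) (nat_lit 9) (nat_lit 4) (nat_lit 10) (nat_lit 5) (nat_lit 10) (nat_lit 4) (nat_lit 390) (nat_lit 241) (nat_lit 149)) (XT.lf (nat_lit 0) (nat_lit 26744081817) (nat_lit 76) (nat_lit 27072467841) (nat_lit 76) (nat_lit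 5751825010) (nat_lit 9) (nat_lit 4) (nat_lit 10) (nat_lit 5) (nat_lit 10) (nat_lit 4) (nat_lit 391) (nat_lit 241) (nat_lit 148))) (XT.nd (nat_lit 78) (nat_lit 76) (nat_lit 0) (XT.lf (nat_lit 0) (nat_lit 36149367379) (nat_lit 76) (nat_lit 23214753326) (nat_lit 76) (nat_lit 1851654041) (nat_lit 9) (nat_lit 4) (nat_lit 10) (nat_lit 5) (nat_lit 10) (nat_lit 4) (nat_lit 392) (nat_lit 241) (nat_lit 147)) (XT.lf (nat_lit 0) (nat_lit 2108052963) (nat_lit 152) (nat_lit 17124971626) (nat_lit 76) (nat_lit 43679407776) (nat_lit 8) (nat_lit 5) (nat_lit 10) (nat_lit 5) (nat_lit 9) (nat_lit 4) (nat_lit 393) (nat_lit 241) (nat_lit 146)))))) (XT.nd (nat_lit 546) (nat_lit 76) (nat_lit 0) (XT.nd (nat_lit 234) (nat_lit 0) (nat_lit 0) (XT.nd (nat_lit 78) (nat_lit 76) (nat_lit 0) (XT.lf (nat_lit 0) (nat_lit 6134565875) (nat_lit 152) (nat_lit 8991169695) (nat_lit 76) (nat_lit 49534150776) (nat_lit 8) (nat_lit 5) (nat_lit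 10) (nat_lit 5) (nat_lit 9) (nat_lit 4) (nat_lit 394) (nat_lit 241) (nat_lit 145)) (XT.nd (nat_lit 78) (nat_lit 76) (nat_lit 0) (XT.lf (nat_lit 0) (nat_lit 10267535445) (nat_lit 152) (nat_lit 640095138) (nat_lit 76) (nat_lit 55552566983) (nat_lit 8) (nat_lit 5) (nat_lit 10) (nat_lit 5) (nat_lit 9) (nat_lit 4) (nat_lit 395) (nat_lit 241) (nat_lit 144)) (XT.lf (nat_lit 0) (nat_lit 8093482088) (nat_lit 76) (nat_lit 6494890418) (nat_lit 152) (nat_lit 53724232621) (nat_lit 7) (nat_lit 5) (nat_lit 8) (nat_lit 5) (nat_lit 9) (nat_lit 4) (nat_lit 396) (nat_lit 241) (nat_lit 143)))) (XT.nd (nat_lit 156) (nat_lit 0) (nat_lit 0) (XT.nd (nat_lit 78) (nat_lit 0) (nat_lit 0) (XT.lf (nat_lit 0) (nat_lit 17076479934) (nat_lit 76) (nat_lit 1955055703) (nat_lit 152) (nat_lit 51189271510) (nat_lit 7) (nat_lit 5) (nat_lit 8) (nat_lit 5) (nat_lit 9) (nat_lit 4) (nat_lit 397) (nat_lit 241) (nat_lit 142)) (XT.lf (nat_lit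 0) (nat_lit 23620675957) (nat_lit 152) (nat_lit 45908694963) (nat_lit 0) (nat_lit 2656507003) (nat_lit 7) (nat_lit 5) (nat_lit 9) (nat_lit 4) (nat_lit 7) (nat_lit 4) (nat_lit 398) (nat_lit 241) (nat_lit 141))) (XT.nd (nat_lit 78) (nat_lit 0) (nat_lit 0) (XT.lf (nat_lit 0) (nat_lit 28353766529) (nat_lit 152) (nat_lit 38499867026) (nat_lit 0) (nat_lit 7356082059) (nat_lit 7) (nat_lit 5) (nat_lit 9) (nat_lit 4) (nat_lit 7) (nat_lit 4) (nat_lit 399) (nat_lit 241) (nat_lit 140)) (XT.lf (nat_lit 0) (nat_lit 33216149873) (nat_lit 152) (nat_lit 30892576479) (nat_lit 0) (nat_lit 12185926066) (nat_lit 7) (nat_lit 5) (nat_lit 9) (nat_lit 4) (nat_lit 7) (nat_lit 4) (nat_lit 400) (nat_lit 241) (nat_lit 139))))) (XT.nd (nat_lit 234) (nat_lit 76) (nat_lit 0) (XT.nd (nat_lit 78) (nat_lit 0) (nat_lit 0) (XT.lf (nat_lit 0) (nat_lit 38212074672) (nat_lit 152) (nat_lit 23080176174) (nat_lit 0) (nat_lit 17150259276)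 (nat_lit 7) (nat_lit 5) (nat_lit 9) (nat_lit 4) (nat_lit 7) (nat_lit 4) (nat_lit 401) (nat_lit 241) (nat_lit 138)) (XT.nd (nat_lit 78) (nat_lit 0) (nat_lit 0) (XT.lf (nat_lit 0) (nat_lit 43345906298) (nat_lit 152) (nat_lit 15055839742) (nat_lit 0) (nat_lit 22253419457) (nat_lit 7) (nat_lit 5) (nat_lit 9) (nat_lit 4) (nat_lit 7) (nat_lit 4) (nat_lit 402) (nat_lit 241) (nat_lit 137)) (XT.lf (nat_lit 0) (nat_lit 48622130624) (nat_lit 152) (nat_lit 6812555628) (nat_lit 0) (nat_lit 27499865680) (nat_lit 7) (nat_lit 5) (nat_lit 9) (nat_lit 4) (nat_lit 7) (nat_lit 4) (nat_lit 403) (nat_lit 241) (nat_lit 136)))) (XT.nd (nat_lit 156) (nat_lit 0) (nat_lit 0) (XT.nd (nat_lit 78) (nat_lit 0) (nat_lit 0) (XT.lf (nat_lit 0) (nat_lit 1689854180) (nat_lit 76) (nat_lit 52371747673) (nat_lit 76) (nat_lit 31220571950) (nat_lit 6) (nat_lit 4) (nat_lit 7) (nat_lit 5) (nat_lit 7) (nat_lit 4) (nat_lit 404) (nat_lit 241)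 (nat_lit 135)) (XT.lf (nat_lit 0) (nat_lit 10566046357) (nat_lit 76) (nat_lit 49155847939) (nat_lit 76) (nat_lit 27976603498) (nat_lit 6) (nat_lit 4) (nat_lit 7) (nat_lit 5) (nat_lit 7) (nat_lit 4) (nat_lit 405) (nat_lit 241) (nat_lit 134))) (XT.nd (nat_lit 78) (nat_lit 0) (nat_lit 0) (XT.lf (nat_lit 0) (nat_lit 19688193582) (nat_lit 76) (nat_lit 45852970492) (nat_lit 76) (nat_lit 24646474870) (nat_lit 6) (nat_lit 4) (nat_lit 7) (nat_lit 5) (nat_lit 7) (nat_lit 4) (nat_lit 406) (nat_lit 241) (nat_lit 133)) (XT.lf (nat_lit 0) (nat_lit 29064266665) (nat_lit 76) (nat_lit 42460229325) (nat_lit 76) (nat_lit 21227276244) (nat_lit 6) (nat_lit 4) (nat_lit 7) (nat_lit 5) (nat_lit 7) (nat_lit 4) (nat_lit 407) (nat_lit 241) (nat_lit 132))))))))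
noncomputable def xc60 : XT := (XT.nd (nat_lit 33696) (nat_lit 0) (nat_lit 1748) (XT.nd (nat_lit 32604) (nat_lit 0) (nat_lit 4636) (XT.nd (nat_lit 32058) (nat_lit 0) (nat_lit 7904) (XT.nd (nat_lit 234) (nat_lit 0) (nat_lit 0) (XT.nd (nat_lit 78) (nat_lit 0) (nat_lit 0) (XT.lf (nat_lit 0) (nat_lit 38702458290) (nat_lit 76) (nat_lit 38974659905) (nat_lit 76) (nat_lit 17716019972) (nat_lit 6) (nat_lit 4) (nat_lit 7) (nat_lit 5) (nat_lit 7) (nat_lit 4) (nat_lit 408) (nat_lit 241) (nat_lit 131)) (XT.nd (nat_lit 78) (nat_lit 0) (nat_lit 0) (XT.lf (nat_lit 0) (nat_lit 48611190178) (nat_lit 76) (nat_lit 35393216590) (nat_lit 76) (nat_lit 14109637965) (nat_lit 6) (nat_lit 4) (nat_lit 7) (nat_lit 5) (nat_lit 7) (nat_lit 4) (nat_lit 409) (nat_lit 241) (nat_lit 130)) (XT.lf (nat_lit 0) (nat_lit 58799120444) (nat_lit 76) (nat_lit 31712769963) (nat_lit 76) (nat_lit 10404979015) (nat_lit 6) (nat_lit 4) (nat_lit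 7) (nat_lit 5) (nat_lit 7) (nat_lit 4) (nat_lit 410) (nat_lit 241) (nat_lit 129)))) (XT.nd (nat_lit 31668) (nat_lit 0) (nat_lit 10184) (XT.lf (nat_lit 0) (nat_lit 69275151164) (nat_lit 76) (nat_lit 27930104100) (nat_lit 76) (nat_lit 6598806043) (nat_lit 6) (nat_lit 4) (nat_lit 7) (nat_lit 5) (nat_lit 7) (nat_lit 4) (nat_lit 411) (nat_lit 241) (nat_lit 128)) (XT.nd (nat_lit 78) (nat_lit 0) (nat_lit 0) (XT.lf (nat_lit 0) (nat_lit 392710434) (nat_lit 532) (nat_lit 3195782026) (nat_lit 0) (nat_lit 392710434) (nat_lit 140) (nat_lit 5) (nat_lit 147) (nat_lit 4) (nat_lit 140) (nat_lit 4) (nat_lit 296) (nat_lit 242) (nat_lit 242)) (XT.lf (nat_lit 0) (nat_lit 4295737106) (nat_lit 532) (nat_lit 695583985) (nat_lit 0) (nat_lit 3061532019) (nat_lit 140) (nat_lit 5) (nat_lit 147) (nat_lit 4) (nat_lit 140) (nat_lit 4) (nat_lit 297) (nat_lit 242) (nat_lit 241))))) (XT.nd (nat_lit 234) (nat_lit 912) (nat_lit 0)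 (XT.nd (nat_lit 78) (nat_lit 912) (nat_lit 0) (XT.lf (nat_lit 0) (nat_lit 5158165491) (nat_lit 456) (nat_lit 2710845609) (nat_lit 456) (nat_lit 278383157) (nat_lit 134) (nat_lit 4) (nat_lit 140) (nat_lit 5) (nat_lit 140) (nat_lit 4) (nat_lit 298) (nat_lit 242) (nat_lit 240)) (XT.nd (nat_lit 78) (nat_lit 456) (nat_lit 0) (XT.lf (nat_lit 0) (nat_lit 2866759245) (nat_lit 380) (nat_lit 316776894) (nat_lit 456) (nat_lit 5062086701) (nat_lit 128) (nat_lit 5) (nat_lit 133) (nat_lit 5) (nat_lit 134) (nat_lit 4) (nat_lit 299) (nat_lit 242) (nat_lit 239)) (XT.lf (nat_lit 0) (nat_lit 483518703) (nat_lit 456) (nat_lit 6225992685) (nat_lit 456) (nat_lit 1638330928) (nat_lit 122) (nat_lit 4) (nat_lit 128) (nat_lit 5) (nat_lit 128) (nat_lit 4) (nat_lit 300) (nat_lit 242) (nat_lit 238)))) (XT.nd (nat_lit 156) (nat_lit 456) (nat_lit 0) (XT.nd (nat_lit 78) (nat_lit 380) (nat_lit 0) (XT.lf (nat_lit 0) (nat_lit 1819831505)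 (nat_lit 532) (nat_lit 1958039950) (nat_lit 76) (nat_lit 4675751031) (nat_lit 121) (nat_lit 5) (nat_lit 128) (nat_lit 5) (nat_lit 122) (nat_lit 4) (nat_lit 301) (nat_lit 242) (nat_lit 237)) (XT.lf (nat_lit 0) (nat_lit 4075386261) (nat_lit 380) (nat_lit 1225752407) (nat_lit 456) (nat_lit 3262472901) (nat_lit 116) (nat_lit 5) (nat_lit 121) (nat_lit 5) (nat_lit 122) (nat_lit 4) (nat_lit 302) (nat_lit 242) (nat_lit 236))) (XT.nd (nat_lit 78) (nat_lit 0) (nat_lit 0) (XT.lf (nat_lit 0) (nat_lit 168185151) (nat_lit 456) (nat_lit 7124066584) (nat_lit 76) (nat_lit 1385805814) (nat_lit 110) (nat_lit 5) (nat_lit 116) (nat_lit 5) (nat_lit 111) (nat_lit 4) (nat_lit 303) (nat_lit 242) (nat_lit 235)) (XT.lf (nat_lit 0) (nat_lit 3608928262) (nat_lit 456) (nat_lit 1085273499) (nat_lit 76) (nat_lit 4101668155) (nat_lit 110) (nat_lit 5) (nat_lit 116) (nat_lit 5) (nat_lit 111) (nat_lit 4) (nat_lit 304) (nat_lit 242)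 (nat_lit 234)))))) (XT.nd (nat_lit 546) (nat_lit 1444) (nat_lit 0) (XT.nd (nat_lit 234) (nat_lit 1064) (nat_lit 0) (XT.nd (nat_lit 78) (nat_lit 456) (nat_lit 0) (XT.lf (nat_lit 0) (nat_lit 5122716318) (nat_lit 304) (nat_lit 1996731309) (nat_lit 380) (nat_lit 1798854149) (nat_lit 106) (nat_lit 5) (nat_lit 110) (nat_lit 5) (nat_lit 111) (nat_lit 4) (nat_lit 305) (nat_lit 242) (nat_lit 233)) (XT.nd (nat_lit 78) (nat_lit 0) (nat_lit 0) (XT.lf (nat_lit 0) (nat_lit 1617640325) (nat_lit 456) (nat_lit 6639858469) (nat_lit 76) (nat_lit 787704452) (nat_lit 100) (nat_lit 5) (nat_lit 106) (nat_lit 5) (nat_lit 101) (nat_lit 4) (nat_lit 306) (nat_lit 242) (nat_lit 232)) (XT.lf (nat_lit 0) (nat_lit 5077752825) (nat_lit 456) (nat_lit 456263702) (nat_lit 76) (nat_lit 3642117374) (nat_lit 100) (nat_lit 5) (nat_lit 106) (nat_lit 5) (nat_lit 101) (nat_lit 4) (nat_lit 307) (nat_lit 242) (nat_lit 231)))) (XT.nd (nat_lit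 156) (nat_lit 380) (nat_lit 0) (XT.nd (nat_lit 78) (nat_lit 380) (nat_lit 0) (XT.lf (nat_lit 0) (nat_lit 5917979276) (nat_lit 304) (nat_lit 2701742977) (nat_lit 380) (nat_lit 692001243) (nat_lit 96) (nat_lit 5) (nat_lit 100) (nat_lit 5) (nat_lit 101) (nat_lit 4) (nat_lit 308) (nat_lit 242) (nat_lit 230)) (XT.lf (nat_lit 0) (nat_lit 2718658014) (nat_lit 380) (nat_lit 6493013724) (nat_lit 76) (nat_lit 240253774) (nat_lit 91) (nat_lit 5) (nat_lit 96) (nat_lit 5) (nat_lit 92) (nat_lit 4) (nat_lit 309) (nat_lit 242) (nat_lit 229))) (XT.nd (nat_lit 78) (nat_lit 380) (nat_lit 0) (XT.lf (nat_lit 0) (nat_lit 6201578094) (nat_lit 380) (nat_lit 169400336) (nat_lit 76) (nat_lit 3225700590) (nat_lit 91) (nat_lit 5) (nat_lit 96) (nat_lit 5) (nat_lit 92) (nat_lit 4) (nat_lit 310) (nat_lit 242) (nat_lit 228)) (XT.lf (nat_lit 0) (nat_lit 28042599) (nat_lit 380) (nat_lit 3387133569) (nat_lit 76) (nat_lit 6331078897)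 (nat_lit 86) (nat_lit 5) (nat_lit 91) (nat_lit 5) (nat_lit 87) (nat_lit 5) (nat_lit 311) (nat_lit 242) (nat_lit 227))))) (XT.nd (nat_lit 234) (nat_lit 836) (nat_lit 0) (XT.nd (nat_lit 78) (nat_lit 304) (nat_lit 0) (XT.lf (nat_lit 0) (nat_lit 3104555598) (nat_lit 304) (nat_lit 337767827) (nat_lit 380) (nat_lit 6458346908) (nat_lit 82) (nat_lit 5) (nat_lit 86) (nat_lit 5) (nat_lit 87) (nat_lit 5) (nat_lit 312) (nat_lit 242) (nat_lit 226)) (XT.nd (nat_lit 78) (nat_lit 304) (nat_lit 0) (XT.lf (nat_lit 0) (nat_lit 6946721283) (nat_lit 380) (nat_lit 335795240) (nat_lit 76) (nat_lit 2777629932) (nat_lit 82) (nat_lit 5) (nat_lit 87) (nat_lit 5) (nat_lit 83) (nat_lit 4) (nat_lit 313) (nat_lit 242) (nat_lit 225)) (XT.lf (nat_lit 0) (nat_lit 317526902) (nat_lit 304) (nat_lit 3896030490) (nat_lit 76) (nat_lit 6011044687) (nat_lit 78) (nat_lit 5) (nat_lit 82) (nat_lit 5) (nat_lit 79) (nat_lit 5) (nat_lit 314)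 (nat_lit 242) (nat_lit 224)))) (XT.nd (nat_lit 156) (nat_lit 532) (nat_lit 0) (XT.nd (nat_lit 78) (nat_lit 0) (nat_lit 0) (XT.lf (nat_lit 0) (nat_lit 2720898605) (nat_lit 304) (nat_lit 1025915601) (nat_lit 380) (nat_lit 6647566922) (nat_lit 74) (nat_lit 5) (nat_lit 78) (nat_lit 5) (nat_lit 79) (nat_lit 5) (nat_lit 315) (nat_lit 242) (nat_lit 223)) (XT.lf (nat_lit 0) (nat_lit 7269537627) (nat_lit 380) (nat_lit 1081936166) (nat_lit 76) (nat_lit 2218115499) (nat_lit 74) (nat_lit 5) (nat_lit 79) (nat_lit 5) (nat_lit 75) (nat_lit 4) (nat_lit 316) (nat_lit 242) (nat_lit 222))) (XT.nd (nat_lit 78) (nat_lit 228) (nat_lit 0) (XT.lf (nat_lit 0) (nat_lit 141091012) (nat_lit 304) (nat_lit 5047934263) (nat_lit 76) (nat_lit 5561152598) (nat_lit 70) (nat_lit 5) (nat_lit 74) (nat_lit 5) (nat_lit 71) (nat_lit 5) (nat_lit 317) (nat_lit 242) (nat_lit 221)) (XT.lf (nat_lit 0) (nat_lit 1670880237) (nat_lit 228) (nat_lit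 1906832520) (nat_lit 304) (nat_lit 7358781978) (nat_lit 67) (nat_lit 5) (nat_lit 70) (nat_lit 5) (nat_lit 71) (nat_lit 5) (nat_lit 318) (nat_lit 242) (nat_lit 220))))))) (XT.nd (nat_lit 1092) (nat_lit 1064) (nat_lit 0) (XT.nd (nat_lit 546) (nat_lit 836) (nat_lit 0) (XT.nd (nat_lit 234) (nat_lit 684) (nat_lit 0) (XT.nd (nat_lit 78) (nat_lit 304) (nat_lit 0) (XT.lf (nat_lit 0) (nat_lit 7115198833) (nat_lit 304) (nat_lit 2552709394) (nat_lit 76) (nat_lit 1460606522) (nat_lit 67) (nat_lit 5) (nat_lit 71) (nat_lit 5) (nat_lit 68) (nat_lit 4) (nat_lit 319) (nat_lit 242) (nat_lit 219)) (XT.nd (nat_lit 78) (nat_lit 76) (nat_lit 0) (XT.lf (nat_lit 0) (nat_lit 4324267523) (nat_lit 228) (nat_lit 6429085532) (nat_lit 304) (nat_lit 573151259) (nat_lit 64) (nat_lit 5) (nat_lit 67) (nat_lit 5) (nat_lit 68) (nat_lit 4) (nat_lit 320) (nat_lit 242) (nat_lit 218)) (XT.lf (nat_lit 0) (nat_lit 2872642374) (nat_lit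 304) (nat_lit 201744264) (nat_lit 76) (nat_lit 8456421532) (nat_lit 63) (nat_lit 5) (nat_lit 67) (nat_lit 5) (nat_lit 64) (nat_lit 5) (nat_lit 321) (nat_lit 242) (nat_lit 217)))) (XT.nd (nat_lit 156) (nat_lit 304) (nat_lit 0) (XT.nd (nat_lit 78) (nat_lit 152) (nat_lit 0) (XT.lf (nat_lit 0) (nat_lit 6416227611) (nat_lit 304) (nat_lit 4914856873) (nat_lit 76) (nat_lit 409849703) (nat_lit 60) (nat_lit 5) (nat_lit 64) (nat_lit 5) (nat_lit 61) (nat_lit 4) (nat_lit 322) (nat_lit 242) (nat_lit 216)) (XT.lf (nat_lit 0) (nat_lit 2019771199) (nat_lit 152) (nat_lit 8035078358) (nat_lit 228) (nat_lit 1902892766) (nat_lit 58) (nat_lit 5) (nat_lit 60) (nat_lit 5) (nat_lit 61) (nat_lit 4) (nat_lit 323) (nat_lit 242) (nat_lit 215))) (XT.nd (nat_lit 78) (nat_lit 228) (nat_lit 0) (XT.lf (nat_lit 0) (nat_lit 1577097693) (nat_lit 228) (nat_lit 3033508433) (nat_lit 76) (nat_lit 7570403901) (nat_lit 57) (nat_lit 5)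 (nat_lit 60) (nat_lit 5) (nat_lit 58) (nat_lit 5) (nat_lit 324) (nat_lit 242) (nat_lit 214)) (XT.lf (nat_lit 0) (nat_lit 4039973766) (nat_lit 228) (nat_lit 1060979439) (nat_lit 304) (nat_lit 7310162793) (nat_lit 54) (nat_lit 5) (nat_lit 57) (nat_lit 5) (nat_lit 58) (nat_lit 5) (nat_lit 325) (nat_lit 242) (nat_lit 213))))) (XT.nd (nat_lit 234) (nat_lit 380) (nat_lit 0) (XT.nd (nat_lit 78) (nat_lit 456) (nat_lit 0) (XT.lf (nat_lit 0) (nat_lit 8725775133) (nat_lit 304) (nat_lit 1383247176) (nat_lit 76) (nat_lit 2539281043) (nat_lit 54) (nat_lit 5) (nat_lit 58) (nat_lit 5) (nat_lit 55) (nat_lit 4) (nat_lit 326) (nat_lit 242) (nat_lit 212)) (XT.nd (nat_lit 78) (nat_lit 304) (nat_lit 0) (XT.lf (nat_lit 0) (nat_lit 5821617550) (nat_lit 152) (nat_lit 6645324755) (nat_lit 228) (nat_lit 425470691) (nat_lit 52) (nat_lit 5) (nat_lit 54) (nat_lit 5) (nat_lit 55) (nat_lit 4) (nat_lit 327) (nat_lit 242) (nat_lit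 211)) (XT.lf (nat_lit 0) (nat_lit 876246) (nat_lit 228) (nat_lit 3069082200) (nat_lit 304) (nat_lit 10074340802) (nat_lit 48) (nat_lit 5) (nat_lit 51) (nat_lit 5) (nat_lit 52) (nat_lit 5) (nat_lit 328) (nat_lit 242) (nat_lit 210)))) (XT.nd (nat_lit 156) (nat_lit 228) (nat_lit 0) (XT.nd (nat_lit 78) (nat_lit 152) (nat_lit 0) (XT.lf (nat_lit 0) (nat_lit 6681480655) (nat_lit 304) (nat_lit 6079277119) (nat_lit 76) (nat_lit 642296226) (nat_lit 48) (nat_lit 5) (nat_lit 52) (nat_lit 5) (nat_lit 49) (nat_lit 4) (nat_lit 329) (nat_lit 242) (nat_lit 209)) (XT.lf (nat_lit 0) (nat_lit 1094072411) (nat_lit 152) (nat_lit 9291643243) (nat_lit 228) (nat_lit 3284355545) (nat_lit 46) (nat_lit 5) (nat_lit 48) (nat_lit 5) (nat_lit 49) (nat_lit 4) (nat_lit 330) (nat_lit 242) (nat_lit 208))) (XT.nd (nat_lit 78) (nat_lit 152) (nat_lit 0) (XT.lf (nat_lit 0) (nat_lit 256616946) (nat_lit 228) (nat_lit 5432999437) (nat_lit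 76) (nat_lit 8255268765) (nat_lit 45) (nat_lit 5) (nat_lit 48) (nat_lit 5) (nat_lit 46) (nat_lit 5) (nat_lit 331) (nat_lit 242) (nat_lit 207)) (XT.lf (nat_lit 0) (nat_lit 1836426825) (nat_lit 152) (nat_lit 1964310641) (nat_lit 228) (nat_lit 10427370768) (nat_lit 43) (nat_lit 5) (nat_lit 45) (nat_lit 5) (nat_lit 46) (nat_lit 5) (nat_lit 332) (nat_lit 242) (nat_lit 206)))))) (XT.nd (nat_lit 546) (nat_lit 532) (nat_lit 0) (XT.nd (nat_lit 234) (nat_lit 380) (nat_lit 0) (XT.nd (nat_lit 78) (nat_lit 152) (nat_lit 0) (XT.lf (nat_lit 0) (nat_lit 7470244893) (nat_lit 228) (nat_lit 5193004837) (nat_lit 76) (nat_lit 1856033765) (nat_lit 43) (nat_lit 5) (nat_lit 46) (nat_lit 5) (nat_lit 44) (nat_lit 4) (nat_lit 333) (nat_lit 242) (nat_lit 205)) (XT.nd (nat_lit 78) (nat_lit 0) (nat_lit 0) (XT.lf (nat_lit 0) (nat_lit 2155324578) (nat_lit 152) (nat_lit 9081918131) (nat_lit 228) (nat_lit 3582355735) (nat_lit 41)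 (nat_lit 5) (nat_lit 43) (nat_lit 5) (nat_lit 44) (nat_lit 4) (nat_lit 334) (nat_lit 242) (nat_lit 204)) (XT.lf (nat_lit 0) (nat_lit 9742510141) (nat_lit 152) (nat_lit 5375108139) (nat_lit 228) (nat_lit 11319336) (nat_lit 41) (nat_lit 5) (nat_lit 43) (nat_lit 5) (nat_lit 44) (nat_lit 4) (nat_lit 335) (nat_lit 242) (nat_lit 203)))) (XT.nd (nat_lit 156) (nat_lit 152) (nat_lit 0) (XT.nd (nat_lit 78) (nat_lit 0) (nat_lit 0) (XT.lf (nat_lit 0) (nat_lit 2027549374) (nat_lit 152) (nat_lit 1536155593) (nat_lit 228) (nat_lit 11883766579) (nat_lit 38) (nat_lit 5) (nat_lit 40) (nat_lit 5) (nat_lit 41) (nat_lit 5) (nat_lit 336) (nat_lit 242) (nat_lit 202)) (XT.lf (nat_lit 0) (nat_lit 7273171831) (nat_lit 228) (nat_lit 6110331935) (nat_lit 76) (nat_lit 2391255405) (nat_lit 38) (nat_lit 5) (nat_lit 41) (nat_lit 5) (nat_lit 39) (nat_lit 4) (nat_lit 337) (nat_lit 242) (nat_lit 201))) (XT.nd (nat_lit 78) (nat_lit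 0) (nat_lit 0) (XT.lf (nat_lit 0) (nat_lit 1345246717) (nat_lit 152) (nat_lit 9727540544) (nat_lit 228) (nat_lit 5039735158) (nat_lit 36) (nat_lit 5) (nat_lit 38) (nat_lit 5) (nat_lit 39) (nat_lit 4) (nat_lit 338) (nat_lit 242) (nat_lit 200)) (XT.lf (nat_lit 0) (nat_lit 9066234974) (nat_lit 152) (nat_lit 5933214766) (nat_lit 228) (nat_lit 1460599332) (nat_lit 36) (nat_lit 5) (nat_lit 38) (nat_lit 5) (nat_lit 39) (nat_lit 4) (nat_lit 339) (nat_lit 242) (nat_lit 199))))) (XT.nd (nat_lit 234) (nat_lit 304) (nat_lit 0) (XT.nd (nat_lit 78) (nat_lit 0) (nat_lit 0) (XT.lf (nat_lit 0) (nat_lit 99341285) (nat_lit 152) (nat_lit 2036372913) (nat_lit 228) (nat_lit 14683069232) (nat_lit 33) (nat_lit 5) (nat_lit 35) (nat_lit 5) (nat_lit 36) (nat_lit 5) (nat_lit 340) (nat_lit 242) (nat_lit 198)) (XT.nd (nat_lit 78) (nat_lit 0) (nat_lit 0) (XT.lf (nat_lit 0) (nat_lit 5857535366) (nat_lit 228) (nat_lit 9333743743)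 (nat_lit 76) (nat_lit 1995177999) (nat_lit 33) (nat_lit 5) (nat_lit 36) (nat_lit 5) (nat_lit 34) (nat_lit 4) (nat_lit 341) (nat_lit 242) (nat_lit 197)) (XT.lf (nat_lit 0) (nat_lit 9665119721) (nat_lit 228) (nat_lit 1826590610) (nat_lit 76) (nat_lit 6074247190) (nat_lit 33) (nat_lit 5) (nat_lit 36) (nat_lit 5) (nat_lit 34) (nat_lit 4) (nat_lit 342) (nat_lit 242) (nat_lit 196)))) (XT.nd (nat_lit 156) (nat_lit 228) (nat_lit 0) (XT.nd (nat_lit 78) (nat_lit 0) (nat_lit 0) (XT.lf (nat_lit 0) (nat_lit 5944143411) (nat_lit 76) (nat_lit 7655214747) (nat_lit 152) (nat_lit 4357131197) (nat_lit 32) (nat_lit 5) (nat_lit 33) (nat_lit 5) (nat_lit 34) (nat_lit 4) (nat_lit 343) (nat_lit 242) (nat_lit 195)) (XT.lf (nat_lit 0) (nat_lit 13908578450) (nat_lit 76) (nat_lit 3717341522) (nat_lit 152) (nat_lit 733606931) (nat_lit 32) (nat_lit 5) (nat_lit 33) (nat_lit 5) (nat_lit 34) (nat_lit 4) (nat_lit 344) (nat_lit 242)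 (nat_lit 194))) (XT.nd (nat_lit 78) (nat_lit 0) (nat_lit 0) (XT.lf (nat_lit 0) (nat_lit 2932044985) (nat_lit 228) (nat_lit 15480398212) (nat_lit 76) (nat_lit 361607141) (nat_lit 29) (nat_lit 5) (nat_lit 32) (nat_lit 5) (nat_lit 30) (nat_lit 4) (nat_lit 345) (nat_lit 242) (nat_lit 193)) (XT.lf (nat_lit 0) (nat_lit 6732047900) (nat_lit 228) (nat_lit 7958101150) (nat_lit 76) (nat_lit 4509485800) (nat_lit 29) (nat_lit 5) (nat_lit 32) (nat_lit 5) (nat_lit 30) (nat_lit 4) (nat_lit 346) (nat_lit 242) (nat_lit 192))))))))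
noncomputable def xc61 : XT := (XT.nd (nat_lit 2184) (nat_lit 456) (nat_lit 0) (XT.nd (nat_lit 1092) (nat_lit 532) (nat_lit 0) (XT.nd (nat_lit 546) (nat_lit 304) (nat_lit 0) (XT.nd (nat_lit 234) (nat_lit 304) (nat_lit 0) (XT.nd (nat_lit 78) (nat_lit 76) (nat_lit 0) (XT.lf (nat_lit 0) (nat_lit 10604235361) (nat_lit 228) (nat_lit 283685708) (nat_lit 76) (nat_lit 8751336863) (nat_lit 29) (nat_lit 5) (nat_lit 32) (nat_lit 5) (nat_lit 30) (nat_lit 4) (nat_lit 347) (nat_lit 242) (nat_lit 191)) (XT.nd (nat_lit 78) (nat_lit 0) (nat_lit 0) (XT.lf (nat_lit 0) (nat_lit 7699804840) (nat_lit 76) (nat_lit 6926201226) (nat_lit 152) (nat_lit 5465077195) (nat_lit 28) (nat_lit 5) (nat_lit 29) (nat_lit 5) (nat_lit 30) (nat_lit 4) (nat_lit 348) (nat_lit 242) (nat_lit 190)) (XT.lf (nat_lit 0) (nat_lit 15857907182) (nat_lit 76) (nat_lit 2873292531) (nat_lit 152) (nat_lit 1826396157) (nat_lit 28) (nat_lit 5) (nat_lit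 29) (nat_lit 5) (nat_lit 30) (nat_lit 4) (nat_lit 349) (nat_lit 242) (nat_lit 189)))) (XT.nd (nat_lit 156) (nat_lit 76) (nat_lit 0) (XT.nd (nat_lit 78) (nat_lit 0) (nat_lit 0) (XT.lf (nat_lit 0) (nat_lit 1888061942) (nat_lit 228) (nat_lit 17853408112) (nat_lit 76) (nat_lit 1295971091) (nat_lit 25) (nat_lit 5) (nat_lit 28) (nat_lit 5) (nat_lit 26) (nat_lit 4) (nat_lit 350) (nat_lit 242) (nat_lit 188)) (XT.lf (nat_lit 0) (nat_lit 5714490481) (nat_lit 228) (nat_lit 10246311328) (nat_lit 76) (nat_lit 5569234403) (nat_lit 25) (nat_lit 5) (nat_lit 28) (nat_lit 5) (nat_lit 26) (nat_lit 4) (nat_lit 351) (nat_lit 242) (nat_lit 187))) (XT.nd (nat_lit 78) (nat_lit 76) (nat_lit 0) (XT.lf (nat_lit 0) (nat_lit 9617721089) (nat_lit 228) (nat_lit 2478630037) (nat_lit 76) (nat_lit 9942211602) (nat_lit 25) (nat_lit 5) (nat_lit 28) (nat_lit 5) (nat_lit 26) (nat_lit 4) (nat_lit 352) (nat_lit 242) (nat_lit 186)) (XT.lf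 (nat_lit 0) (nat_lit 5565016571) (nat_lit 76) (nat_lit 8089642128) (nat_lit 152) (nat_lit 8907201507) (nat_lit 24) (nat_lit 5) (nat_lit 25) (nat_lit 5) (nat_lit 26) (nat_lit 4) (nat_lit 353) (nat_lit 242) (nat_lit 185))))) (XT.nd (nat_lit 234) (nat_lit 76) (nat_lit 0) (XT.nd (nat_lit 78) (nat_lit 228) (nat_lit 0) (XT.lf (nat_lit 0) (nat_lit 13835767139) (nat_lit 76) (nat_lit 3965531680) (nat_lit 152) (nat_lit 5299913038) (nat_lit 24) (nat_lit 5) (nat_lit 25) (nat_lit 5) (nat_lit 26) (nat_lit 4) (nat_lit 354) (nat_lit 242) (nat_lit 184)) (XT.nd (nat_lit 78) (nat_lit 228) (nat_lit 0) (XT.lf (nat_lit 0) (nat_lit 22039411364) (nat_lit 152) (nat_lit 1368745962) (nat_lit 0) (nat_lit 249587230) (nat_lit 24) (nat_lit 5) (nat_lit 26) (nat_lit 4) (nat_lit 24) (nat_lit 4) (nat_lit 355) (nat_lit 242) (nat_lit 183)) (XT.lf (nat_lit 0) (nat_lit 2201947316) (nat_lit 228) (nat_lit 17454331815) (nat_lit 76) (nat_lit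 4571959131) (nat_lit 21) (nat_lit 5) (nat_lit 24) (nat_lit 5) (nat_lit 22) (nat_lit 4) (nat_lit 356) (nat_lit 242) (nat_lit 182)))) (XT.nd (nat_lit 156) (nat_lit 76) (nat_lit 0) (XT.nd (nat_lit 78) (nat_lit 0) (nat_lit 0) (XT.lf (nat_lit 0) (nat_lit 6083732338) (nat_lit 228) (nat_lit 9704852623) (nat_lit 76) (nat_lit 9027410055) (nat_lit 21) (nat_lit 5) (nat_lit 24) (nat_lit 5) (nat_lit 22) (nat_lit 4) (nat_lit 357) (nat_lit 242) (nat_lit 181)) (XT.lf (nat_lit 0) (nat_lit 10048441293) (nat_lit 228) (nat_lit 1783235582) (nat_lit 76) (nat_lit 13590724766) (nat_lit 21) (nat_lit 5) (nat_lit 24) (nat_lit 5) (nat_lit 22) (nat_lit 4) (nat_lit 358) (nat_lit 242) (nat_lit 180))) (XT.nd (nat_lit 78) (nat_lit 0) (nat_lit 0) (XT.lf (nat_lit 0) (nat_lit 6443170573) (nat_lit 76) (nat_lit 7718303614) (nat_lit 152) (nat_lit 11884655752) (nat_lit 20) (nat_lit 5) (nat_lit 21) (nat_lit 5) (nat_lit 22) (nat_lit 4)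 (nat_lit 359) (nat_lit 242) (nat_lit 179)) (XT.lf (nat_lit 0) (nat_lit 14894909034) (nat_lit 76) (nat_lit 3488833667) (nat_lit 152) (nat_lit 8305262679) (nat_lit 20) (nat_lit 5) (nat_lit 21) (nat_lit 5) (nat_lit 22) (nat_lit 4) (nat_lit 360) (nat_lit 242) (nat_lit 178)))))) (XT.nd (nat_lit 546) (nat_lit 228) (nat_lit 0) (XT.nd (nat_lit 234) (nat_lit 76) (nat_lit 0) (XT.nd (nat_lit 78) (nat_lit 228) (nat_lit 0) (XT.lf (nat_lit 0) (nat_lit 22709551362) (nat_lit 152) (nat_lit 3816337121) (nat_lit 0) (nat_lit 825982760) (nat_lit 20) (nat_lit 5) (nat_lit 22) (nat_lit 4) (nat_lit 20) (nat_lit 4) (nat_lit 361) (nat_lit 242) (nat_lit 177)) (XT.nd (nat_lit 78) (nat_lit 76) (nat_lit 0) (XT.lf (nat_lit 0) (nat_lit 4396636724) (nat_lit 152) (nat_lit 22814753100) (nat_lit 152) (nat_lit 821855616) (nat_lit 18) (nat_lit 4) (nat_lit 20) (nat_lit 5) (nat_lit 20) (nat_lit 4) (nat_lit 362) (nat_lit 242) (nat_lit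 176)) (XT.lf (nat_lit 0) (nat_lit 3060895308) (nat_lit 228) (nat_lit 15885424552) (nat_lit 76) (nat_lit 9787599977) (nat_lit 17) (nat_lit 5) (nat_lit 20) (nat_lit 5) (nat_lit 18) (nat_lit 4) (nat_lit 363) (nat_lit 242) (nat_lit 175)))) (XT.nd (nat_lit 156) (nat_lit 0) (nat_lit 0) (XT.nd (nat_lit 78) (nat_lit 76) (nat_lit 0) (XT.lf (nat_lit 0) (nat_lit 7014002352) (nat_lit 228) (nat_lit 7963670210) (nat_lit 76) (nat_lit 14478595199) (nat_lit 17) (nat_lit 5) (nat_lit 20) (nat_lit 5) (nat_lit 18) (nat_lit 4) (nat_lit 364) (nat_lit 242) (nat_lit 174)) (XT.lf (nat_lit 0) (nat_lit 146331869) (nat_lit 76) (nat_lit 10912031810) (nat_lit 152) (nat_lit 19142751517) (nat_lit 16) (nat_lit 5) (nat_lit 17) (nat_lit 5) (nat_lit 18) (nat_lit 4) (nat_lit 365) (nat_lit 242) (nat_lit 173))) (XT.nd (nat_lit 78) (nat_lit 0) (nat_lit 0) (XT.lf (nat_lit 0) (nat_lit 8611133446) (nat_lit 76) (nat_lit 6664934111) (nat_lit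 152) (nat_lit 15690688792) (nat_lit 16) (nat_lit 5) (nat_lit 17) (nat_lit 5) (nat_lit 18) (nat_lit 4) (nat_lit 366) (nat_lit 242) (nat_lit 172)) (XT.lf (nat_lit 0) (nat_lit 17279638296) (nat_lit 76) (nat_lit 2313085864) (nat_lit 152) (nat_lit 12163478321) (nat_lit 16) (nat_lit 5) (nat_lit 17) (nat_lit 5) (nat_lit 18) (nat_lit 4) (nat_lit 367) (nat_lit 242) (nat_lit 171))))) (XT.nd (nat_lit 234) (nat_lit 152) (nat_lit 0) (XT.nd (nat_lit 78) (nat_lit 76) (nat_lit 0) (XT.lf (nat_lit 0) (nat_lit 24032746634) (nat_lit 152) (nat_lit 6431363870) (nat_lit 0) (nat_lit 2105413657) (nat_lit 16) (nat_lit 5) (nat_lit 18) (nat_lit 4) (nat_lit 16) (nat_lit 4) (nat_lit 368) (nat_lit 242) (nat_lit 170)) (XT.nd (nat_lit 78) (nat_lit 0) (nat_lit 0) (XT.lf (nat_lit 0) (nat_lit 1819863526) (nat_lit 76) (nat_lit 26800301120) (nat_lit 76) (nat_lit 4786662914) (nat_lit 15) (nat_lit 4) (nat_lit 16) (nat_lit 5) (nat_lit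 16) (nat_lit 4) (nat_lit 369) (nat_lit 242) (nat_lit 169)) (XT.lf (nat_lit 0) (nat_lit 10402995212) (nat_lit 76) (nat_lit 22981260354) (nat_lit 76) (nat_lit 883830664) (nat_lit 15) (nat_lit 4) (nat_lit 16) (nat_lit 5) (nat_lit 16) (nat_lit 4) (nat_lit 370) (nat_lit 242) (nat_lit 168)))) (XT.nd (nat_lit 156) (nat_lit 76) (nat_lit 0) (XT.nd (nat_lit 78) (nat_lit 0) (nat_lit 0) (XT.lf (nat_lit 0) (nat_lit 3049494381) (nat_lit 152) (nat_lit 15988307052) (nat_lit 76) (nat_lit 16117245964) (nat_lit 14) (nat_lit 5) (nat_lit 16) (nat_lit 5) (nat_lit 15) (nat_lit 4) (nat_lit 371) (nat_lit 242) (nat_lit 167)) (XT.lf (nat_lit 0) (nat_lit 7058398913) (nat_lit 152) (nat_lit 7929212362) (nat_lit 76) (nat_lit 21081490313) (nat_lit 14) (nat_lit 5) (nat_lit 16) (nat_lit 5) (nat_lit 15) (nat_lit 4) (nat_lit 372) (nat_lit 242) (nat_lit 166))) (XT.nd (nat_lit 78) (nat_lit 0) (nat_lit 0) (XT.lf (nat_lit 0) (nat_lit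 334253385) (nat_lit 76) (nat_lit 10832592239) (nat_lit 152) (nat_lit 25844360355) (nat_lit 13) (nat_lit 5) (nat_lit 14) (nat_lit 5) (nat_lit 15) (nat_lit 4) (nat_lit 373) (nat_lit 242) (nat_lit 165)) (XT.lf (nat_lit 0) (nat_lit 8964670547) (nat_lit 76) (nat_lit 6490285822) (nat_lit 152) (nat_lit 22524931442) (nat_lit 13) (nat_lit 5) (nat_lit 14) (nat_lit 5) (nat_lit 15) (nat_lit 4) (nat_lit 374) (nat_lit 242) (nat_lit 164))))))) (XT.nd (nat_lit 1092) (nat_lit 228) (nat_lit 0) (XT.nd (nat_lit 546) (nat_lit 76) (nat_lit 0) (XT.nd (nat_lit 234) (nat_lit 152) (nat_lit 0) (XT.nd (nat_lit 78) (nat_lit 0) (nat_lit 0) (XT.lf (nat_lit 0) (nat_lit 17811773390) (nat_lit 76) (nat_lit 2036967271) (nat_lit 152) (nat_lit 19129584962) (nat_lit 13) (nat_lit 5) (nat_lit 14) (nat_lit 5) (nat_lit 15) (nat_lit 4) (nat_lit 375) (nat_lit 242) (nat_lit 163)) (XT.nd (nat_lit 78) (nat_lit 0) (nat_lit 0) (XT.lf (nat_lit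 0) (nat_lit 24376369700) (nat_lit 152) (nat_lit 13148431415) (nat_lit 0) (nat_lit 2481860765) (nat_lit 13) (nat_lit 5) (nat_lit 15) (nat_lit 4) (nat_lit 13) (nat_lit 4) (nat_lit 376) (nat_lit 242) (nat_lit 162)) (XT.lf (nat_lit 0) (nat_lit 29038169901) (nat_lit 152) (nat_lit 4950218922) (nat_lit 0) (nat_lit 7077515195) (nat_lit 13) (nat_lit 5) (nat_lit 15) (nat_lit 4) (nat_lit 13) (nat_lit 4) (nat_lit 377) (nat_lit 242) (nat_lit 161)))) (XT.nd (nat_lit 156) (nat_lit 76) (nat_lit 0) (XT.nd (nat_lit 78) (nat_lit 0) (nat_lit 0) (XT.lf (nat_lit 0) (nat_lit 3523587185) (nat_lit 76) (nat_lit 30328917800) (nat_lit 76) (nat_lit 8304043898) (nat_lit 12) (nat_lit 4) (nat_lit 13) (nat_lit 5) (nat_lit 13) (nat_lit 4) (nat_lit 378) (nat_lit 242) (nat_lit 160)) (XT.lf (nat_lit 0) (nat_lit 12314354910) (nat_lit 76) (nat_lit 26525957631) (nat_lit 76) (nat_lit 4438734995) (nat_lit 12) (nat_lit 4) (nat_lit 13) (nat_lit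 5) (nat_lit 13) (nat_lit 4) (nat_lit 379) (nat_lit 242) (nat_lit 159))) (XT.nd (nat_lit 78) (nat_lit 76) (nat_lit 0) (XT.lf (nat_lit 0) (nat_lit 21331246444) (nat_lit 76) (nat_lit 22626172846) (nat_lit 76) (nat_lit 478417460) (nat_lit 12) (nat_lit 4) (nat_lit 13) (nat_lit 5) (nat_lit 13) (nat_lit 4) (nat_lit 380) (nat_lit 242) (nat_lit 158)) (XT.lf (nat_lit 0) (nat_lit 3510503280) (nat_lit 152) (nat_lit 15080203387) (nat_lit 76) (nat_lit 27036188143) (nat_lit 11) (nat_lit 5) (nat_lit 13) (nat_lit 5) (nat_lit 12) (nat_lit 4) (nat_lit 381) (nat_lit 242) (nat_lit 157))))) (XT.nd (nat_lit 234) (nat_lit 0) (nat_lit 0) (XT.nd (nat_lit 78) (nat_lit 76) (nat_lit 0) (XT.lf (nat_lit 0) (nat_lit 7590113299) (nat_lit 152) (nat_lit 6855652974) (nat_lit 76) (nat_lit 32408362193) (nat_lit 11) (nat_lit 5) (nat_lit 13) (nat_lit 5) (nat_lit 12) (nat_lit 4) (nat_lit 382) (nat_lit 242) (nat_lit 156)) (XT.nd (nat_lit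 78) (nat_lit 0) (nat_lit 0) (XT.lf (nat_lit 0) (nat_lit 1612308215) (nat_lit 76) (nat_lit 10176503227) (nat_lit 152) (nat_lit 36329471623) (nat_lit 10) (nat_lit 5) (nat_lit 11) (nat_lit 5) (nat_lit 12) (nat_lit 4) (nat_lit 383) (nat_lit 242) (nat_lit 155)) (XT.lf (nat_lit 0) (nat_lit 10440395785) (nat_lit 76) (nat_lit 5723721142) (nat_lit 152) (nat_lit 33254730772) (nat_lit 10) (nat_lit 5) (nat_lit 11) (nat_lit 5) (nat_lit 12) (nat_lit 4) (nat_lit 384) (nat_lit 242) (nat_lit 154)))) (XT.nd (nat_lit 156) (nat_lit 0) (nat_lit 0) (XT.nd (nat_lit 78) (nat_lit 0) (nat_lit 0) (XT.lf (nat_lit 0) (nat_lit 19499882659) (nat_lit 76) (nat_lit 1152757892) (nat_lit 152) (nat_lit 30106334598) (nat_lit 10) (nat_lit 5) (nat_lit 11) (nat_lit 5) (nat_lit 12) (nat_lit 4) (nat_lit 385) (nat_lit 242) (nat_lit 153)) (XT.lf (nat_lit 0) (nat_lit 25292336631) (nat_lit 152) (nat_lit 23375183811) (nat_lit 0) (nat_lit 3471294992)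 (nat_lit 10) (nat_lit 5) (nat_lit 12) (nat_lit 4) (nat_lit 10) (nat_lit 4) (nat_lit 386) (nat_lit 242) (nat_lit 152))) (XT.nd (nat_lit 78) (nat_lit 0) (nat_lit 0) (XT.lf (nat_lit 0) (nat_lit 30065492083) (nat_lit 152) (nat_lit 15298069839) (nat_lit 0) (nat_lit 8196665331) (nat_lit 10) (nat_lit 5) (nat_lit 12) (nat_lit 4) (nat_lit 10) (nat_lit 4) (nat_lit 387) (nat_lit 242) (nat_lit 151)) (XT.lf (nat_lit 0) (nat_lit 34965196612) (nat_lit 152) (nat_lit 7009611888) (nat_lit 0) (nat_lit 13049976547) (nat_lit 10) (nat_lit 5) (nat_lit 12) (nat_lit 4) (nat_lit 10) (nat_lit 4) (nat_lit 388) (nat_lit 242) (nat_lit 150)))))) (XT.nd (nat_lit 546) (nat_lit 76) (nat_lit 0) (XT.nd (nat_lit 234) (nat_lit 76) (nat_lit 0) (XT.nd (nat_lit 78) (nat_lit 0) (nat_lit 0) (XT.lf (nat_lit 0) (nat_lit 1527234224) (nat_lit 76) (nat_lit 38483177999) (nat_lit 76) (nat_lit 16522915883) (nat_lit 9) (nat_lit 4) (nat_lit 10) (nat_lit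 5) (nat_lit 10) (nat_lit 4) (nat_lit 389) (nat_lit 242) (nat_lit 149)) (XT.nd (nat_lit 78) (nat_lit 0) (nat_lit 0) (XT.lf (nat_lit 0) (nat_lit 10434103252) (nat_lit 76) (nat_lit 34827688132) (nat_lit 76) (nat_lit 12823695869) (nat_lit 9) (nat_lit 4) (nat_lit 10) (nat_lit 5) (nat_lit 10) (nat_lit 4) (nat_lit 390) (nat_lit 242) (nat_lit 148)) (XT.lf (nat_lit 0) (nat_lit 19579272876) (nat_lit 76) (nat_lit 31075928118) (nat_lit 76) (nat_lit 9029479401) (nat_lit 9) (nat_lit 4) (nat_lit 10) (nat_lit 5) (nat_lit 10) (nat_lit 4) (nat_lit 391) (nat_lit 242) (nat_lit 147)))) (XT.nd (nat_lit 156) (nat_lit 76) (nat_lit 0) (XT.nd (nat_lit 78) (nat_lit 0) (nat_lit 0) (XT.lf (nat_lit 0) (nat_lit 28970734022) (nat_lit 76) (nat_lit 27224619719) (nat_lit 76) (nat_lit 5136951144) (nat_lit 9) (nat_lit 4) (nat_lit 10) (nat_lit 5) (nat_lit 10) (nat_lit 4) (nat_lit 392) (nat_lit 242) (nat_lit 146)) (XT.lf (nat_lit 0)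 (nat_lit 38616692819) (nat_lit 76) (nat_lit 23270397715) (nat_lit 76) (nat_lit 1142709860) (nat_lit 9) (nat_lit 4) (nat_lit 10) (nat_lit 5) (nat_lit 10) (nat_lit 4) (nat_lit 393) (nat_lit 242) (nat_lit 145))) (XT.nd (nat_lit 78) (nat_lit 0) (nat_lit 0) (XT.lf (nat_lit 0) (nat_lit 2899038022) (nat_lit 152) (nat_lit 16281494337) (nat_lit 76) (nat_lit 45597265153) (nat_lit 8) (nat_lit 5) (nat_lit 10) (nat_lit 5) (nat_lit 9) (nat_lit 4) (nat_lit 394) (nat_lit 242) (nat_lit 144)) (XT.lf (nat_lit 0) (nat_lit 7025149909) (nat_lit 152) (nat_lit 7943209216) (nat_lit 76) (nat_lit 51609956992) (nat_lit 8) (nat_lit 5) (nat_lit 10) (nat_lit 5) (nat_lit 9) (nat_lit 4) (nat_lit 395) (nat_lit 242) (nat_lit 143))))) (XT.nd (nat_lit 234) (nat_lit 0) (nat_lit 0) (XT.nd (nat_lit 78) (nat_lit 0) (nat_lit 0) (XT.lf (nat_lit 0) (nat_lit 632357671) (nat_lit 76) (nat_lit 10635250464) (nat_lit 152) (nat_lit 57165468516)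 (nat_lit 7) (nat_lit 5) (nat_lit 8) (nat_lit 5) (nat_lit 9) (nat_lit 4) (nat_lit 396) (nat_lit 242) (nat_lit 142)) (XT.nd (nat_lit 78) (nat_lit 0) (nat_lit 0) (XT.lf (nat_lit 0) (nat_lit 9603060323) (nat_lit 76) (nat_lit 6101128729) (nat_lit 152) (nat_lit 54637288642) (nat_lit 7) (nat_lit 5) (nat_lit 8) (nat_lit 5) (nat_lit 9) (nat_lit 4) (nat_lit 397) (nat_lit 242) (nat_lit 141)) (XT.lf (nat_lit 0) (nat_lit 18818651782) (nat_lit 76) (nat_lit 1442242907) (nat_lit 152) (nat_lit 52046628337) (nat_lit 7) (nat_lit 5) (nat_lit 8) (nat_lit 5) (nat_lit 9) (nat_lit 4) (nat_lit 398) (nat_lit 242) (nat_lit 140)))) (XT.nd (nat_lit 156) (nat_lit 0) (nat_lit 0) (XT.nd (nat_lit 78) (nat_lit 0) (nat_lit 0) (XT.lf (nat_lit 0) (nat_lit 24973865409) (nat_lit 152) (nat_lit 46077904822) (nat_lit 0) (nat_lit 3280195551) (nat_lit 7) (nat_lit 5) (nat_lit 9) (nat_lit 4) (nat_lit 7) (nat_lit 4) (nat_lit 399) (nat_lit 242)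 (nat_lit 139)) (XT.lf (nat_lit 0) (nat_lit 29830174839) (nat_lit 152) (nat_lit 38481997998) (nat_lit 0) (nat_lit 8104913392) (nat_lit 7) (nat_lit 5) (nat_lit 9) (nat_lit 4) (nat_lit 7) (nat_lit 4) (nat_lit 400) (nat_lit 242) (nat_lit 138))) (XT.nd (nat_lit 78) (nat_lit 0) (nat_lit 0) (XT.lf (nat_lit 0) (nat_lit 34820202635) (nat_lit 152) (nat_lit 30680649852) (nat_lit 0) (nat_lit 13064269742) (nat_lit 7) (nat_lit 5) (nat_lit 9) (nat_lit 4) (nat_lit 7) (nat_lit 4) (nat_lit 401) (nat_lit 242) (nat_lit 137)) (XT.lf (nat_lit 0) (nat_lit 39948309015) (nat_lit 152) (nat_lit 22667043672) (nat_lit 0) (nat_lit 18162598020) (nat_lit 7) (nat_lit 5) (nat_lit 9) (nat_lit 4) (nat_lit 7) (nat_lit 4) (nat_lit 402) (nat_lit 242) (nat_lit 136))))))))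
noncomputable def xc62 : XT := (XT.nd (nat_lit 33618) (nat_lit 0) (nat_lit 2204) (XT.nd (nat_lit 32526) (nat_lit 0) (nat_lit 5776) (XT.nd (nat_lit 546) (nat_lit 0) (nat_lit 0) (XT.nd (nat_lit 234) (nat_lit 0) (nat_lit 0) (XT.nd (nat_lit 78) (nat_lit 76) (nat_lit 0) (XT.lf (nat_lit 0) (nat_lit 45218974849) (nat_lit 152) (nat_lit 14434177277) (nat_lit 0) (nat_lit 23404353075) (nat_lit 7) (nat_lit 5) (nat_lit 9) (nat_lit 4) (nat_lit 7) (nat_lit 4) (nat_lit 403) (nat_lit 242) (nat_lit 135)) (XT.nd (nat_lit 78) (nat_lit 76) (nat_lit 0) (XT.lf (nat_lit 0) (nat_lit 50636805573) (nat_lit 152) (nat_lit 5974856900) (nat_lit 0) (nat_lit 28794115082) (nat_lit 7) (nat_lit 5) (nat_lit 9) (nat_lit 4) (nat_lit 7) (nat_lit 4) (nat_lit 404) (nat_lit 242) (nat_lit 134)) (XT.lf (nat_lit 0) (nat_lit 2772408776) (nat_lit 76) (nat_lit 53460776527) (nat_lit 76) (nat_lit 31590834854) (nat_lit 6) (nat_lit 4) (nat_lit 7)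 (nat_lit 5) (nat_lit 7) (nat_lit 4) (nat_lit 405) (nat_lit 242) (nat_lit 133)))) (XT.nd (nat_lit 156) (nat_lit 0) (nat_lit 0) (XT.nd (nat_lit 78) (nat_lit 0) (nat_lit 0) (XT.lf (nat_lit 0) (nat_lit 11884832573) (nat_lit 76) (nat_lit 50162442235) (nat_lit 76) (nat_lit 28266043103) (nat_lit 6) (nat_lit 4) (nat_lit 7) (nat_lit 5) (nat_lit 7) (nat_lit 4) (nat_lit 406) (nat_lit 242) (nat_lit 132)) (XT.lf (nat_lit 0) (nat_lit 21251465434) (nat_lit 76) (nat_lit 46774111896) (nat_lit 76) (nat_lit 24852025912) (nat_lit 6) (nat_lit 4) (nat_lit 7) (nat_lit 5) (nat_lit 7) (nat_lit 4) (nat_lit 407) (nat_lit 242) (nat_lit 131))) (XT.nd (nat_lit 78) (nat_lit 0) (nat_lit 0) (XT.lf (nat_lit 0) (nat_lit 30880491795) (nat_lit 76) (nat_lit 43292824835) (nat_lit 76) (nat_lit 21345800159) (nat_lit 6) (nat_lit 4) (nat_lit 7) (nat_lit 5) (nat_lit 7) (nat_lit 4) (nat_lit 408) (nat_lit 242) (nat_lit 130)) (XT.lf (nat_lit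 0) (nat_lit 40780325369) (nat_lit 76) (nat_lit 39715539149) (nat_lit 76) (nat_lit 17744302151) (nat_lit 6) (nat_lit 4) (nat_lit 7) (nat_lit 5) (nat_lit 7) (nat_lit 4) (nat_lit 409) (nat_lit 242) (nat_lit 129))))) (XT.nd (nat_lit 31668) (nat_lit 0) (nat_lit 9652) (XT.nd (nat_lit 78) (nat_lit 0) (nat_lit 0) (XT.lf (nat_lit 0) (nat_lit 50959616495) (nat_lit 76) (nat_lit 36039129056) (nat_lit 76) (nat_lit 14044384948) (nat_lit 6) (nat_lit 4) (nat_lit 7) (nat_lit 5) (nat_lit 7) (nat_lit 4) (nat_lit 410) (nat_lit 242) (nat_lit 128)) (XT.nd (nat_lit 31512) (nat_lit 0) (nat_lit 11248) (XT.lf (nat_lit 0) (nat_lit 61427259701) (nat_lit 76) (nat_lit 32260382157) (nat_lit 76) (nat_lit 10242815614) (nat_lit 6) (nat_lit 4) (nat_lit 7) (nat_lit 5) (nat_lit 7) (nat_lit 4) (nat_lit 411) (nat_lit 242) (nat_lit 127)) (XT.lf (nat_lit 0) (nat_lit 1484396201) (nat_lit 532) (nat_lit 926324191) (nat_lit 0) (nat_lit 1484396201)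 (nat_lit 154) (nat_lit 5) (nat_lit 161) (nat_lit 4) (nat_lit 154) (nat_lit 4) (nat_lit 294) (nat_lit 243) (nat_lit 243)))) (XT.nd (nat_lit 156) (nat_lit 532) (nat_lit 0) (XT.nd (nat_lit 78) (nat_lit 532) (nat_lit 0) (XT.lf (nat_lit 0) (nat_lit 3757869298) (nat_lit 532) (nat_lit 2713274705) (nat_lit 532) (nat_lit 1403906529) (nat_lit 147) (nat_lit 4) (nat_lit 154) (nat_lit 5) (nat_lit 154) (nat_lit 4) (nat_lit 295) (nat_lit 243) (nat_lit 242)) (XT.lf (nat_lit 0) (nat_lit 1509571185) (nat_lit 456) (nat_lit 505291179) (nat_lit 532) (nat_lit 5948852855) (nat_lit 140) (nat_lit 5) (nat_lit 146) (nat_lit 5) (nat_lit 147) (nat_lit 4) (nat_lit 296) (nat_lit 243) (nat_lit 241))) (XT.nd (nat_lit 78) (nat_lit 532) (nat_lit 0) (XT.lf (nat_lit 0) (nat_lit 5475033173) (nat_lit 532) (nat_lit 809348365) (nat_lit 0) (nat_lit 1771339481) (nat_lit 140) (nat_lit 5) (nat_lit 147) (nat_lit 4) (nat_lit 140) (nat_lit 4)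 (nat_lit 297) (nat_lit 243) (nat_lit 240)) (XT.lf (nat_lit 0) (nat_lit 834399783) (nat_lit 532) (nat_lit 3173218796) (nat_lit 76) (nat_lit 4143819252) (nat_lit 133) (nat_lit 5) (nat_lit 140) (nat_lit 5) (nat_lit 134) (nat_lit 4) (nat_lit 298) (nat_lit 243) (nat_lit 239)))))) (XT.nd (nat_lit 546) (nat_lit 1824) (nat_lit 0) (XT.nd (nat_lit 234) (nat_lit 1140) (nat_lit 0) (XT.nd (nat_lit 78) (nat_lit 532) (nat_lit 0) (XT.lf (nat_lit 0) (nat_lit 2620492895) (nat_lit 380) (nat_lit 1624342446) (nat_lit 456) (nat_lit 4006181860) (nat_lit 128) (nat_lit 5) (nat_lit 133) (nat_lit 5) (nat_lit 134) (nat_lit 4) (nat_lit 299) (nat_lit 243) (nat_lit 238)) (XT.nd (nat_lit 78) (nat_lit 76) (nat_lit 0) (XT.lf (nat_lit 0) (nat_lit 183079651) (nat_lit 456) (nat_lit 7529231540) (nat_lit 456) (nat_lit 642728547) (nat_lit 122) (nat_lit 4) (nat_lit 128) (nat_lit 5) (nat_lit 128) (nat_lit 4) (nat_lit 300) (nat_lit 243)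 (nat_lit 237)) (XT.lf (nat_lit 0) (nat_lit 2753224610) (nat_lit 532) (nat_lit 2331084364) (nat_lit 76) (nat_lit 3377552591) (nat_lit 121) (nat_lit 5) (nat_lit 128) (nat_lit 5) (nat_lit 122) (nat_lit 4) (nat_lit 301) (nat_lit 243) (nat_lit 236)))) (XT.nd (nat_lit 156) (nat_lit 304) (nat_lit 0) (XT.nd (nat_lit 78) (nat_lit 456) (nat_lit 0) (XT.lf (nat_lit 0) (nat_lit 3639627360) (nat_lit 380) (nat_lit 2549180207) (nat_lit 456) (nat_lit 2384458807) (nat_lit 116) (nat_lit 5) (nat_lit 121) (nat_lit 5) (nat_lit 122) (nat_lit 4) (nat_lit 302) (nat_lit 243) (nat_lit 235)) (XT.lf (nat_lit 0) (nat_lit 969979033) (nat_lit 456) (nat_lit 7640597799) (nat_lit 76) (nat_lit 78696405) (nat_lit 110) (nat_lit 5) (nat_lit 116) (nat_lit 5) (nat_lit 111) (nat_lit 4) (nat_lit 303) (nat_lit 243) (nat_lit 234))) (XT.nd (nat_lit 78) (nat_lit 304) (nat_lit 0) (XT.lf (nat_lit 0) (nat_lit 4369988783) (nat_lit 456) (nat_lit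 1656942501) (nat_lit 76) (nat_lit 2781416588) (nat_lit 110) (nat_lit 5) (nat_lit 116) (nat_lit 5) (nat_lit 111) (nat_lit 4) (nat_lit 304) (nat_lit 243) (nat_lit 233)) (XT.lf (nat_lit 0) (nat_lit 4485072763) (nat_lit 304) (nat_lit 3349759015) (nat_lit 380) (nat_lit 1097357340) (nat_lit 106) (nat_lit 5) (nat_lit 110) (nat_lit 5) (nat_lit 111) (nat_lit 4) (nat_lit 305) (nat_lit 243) (nat_lit 232))))) (XT.nd (nat_lit 234) (nat_lit 1064) (nat_lit 0) (XT.nd (nat_lit 78) (nat_lit 304) (nat_lit 0) (XT.lf (nat_lit 0) (nat_lit 1687026193) (nat_lit 380) (nat_lit 564391197) (nat_lit 456) (nat_lit 6809128681) (nat_lit 100) (nat_lit 5) (nat_lit 105) (nat_lit 5) (nat_lit 106) (nat_lit 5) (nat_lit 306) (nat_lit 243) (nat_lit 231)) (XT.nd (nat_lit 78) (nat_lit 304) (nat_lit 0) (XT.lf (nat_lit 0) (nat_lit 5667270290) (nat_lit 456) (nat_lit 1238854874) (nat_lit 76) (nat_lit 2286715127) (nat_lit 100) (nat_lit 5) (nat_lit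 106) (nat_lit 5) (nat_lit 101) (nat_lit 4) (nat_lit 307) (nat_lit 243) (nat_lit 230)) (XT.lf (nat_lit 0) (nat_lit 5065990861) (nat_lit 304) (nat_lit 4097355791) (nat_lit 380) (nat_lit 166494758) (nat_lit 96) (nat_lit 5) (nat_lit 100) (nat_lit 5) (nat_lit 101) (nat_lit 4) (nat_lit 308) (nat_lit 243) (nat_lit 229)))) (XT.nd (nat_lit 156) (nat_lit 684) (nat_lit 0) (XT.nd (nat_lit 78) (nat_lit 0) (nat_lit 0) (XT.lf (nat_lit 0) (nat_lit 2014673501) (nat_lit 304) (nat_lit 1170273282) (nat_lit 380) (nat_lit 6286446736) (nat_lit 91) (nat_lit 5) (nat_lit 95) (nat_lit 5) (nat_lit 96) (nat_lit 5) (nat_lit 309) (nat_lit 243) (nat_lit 228)) (XT.lf (nat_lit 0) (nat_lit 6619547407) (nat_lit 380) (nat_lit 1175360534) (nat_lit 76) (nat_lit 1822720456) (nat_lit 91) (nat_lit 5) (nat_lit 96) (nat_lit 5) (nat_lit 92) (nat_lit 4) (nat_lit 310) (nat_lit 243) (nat_lit 227))) (XT.nd (nat_lit 78) (nat_lit 304) (nat_lit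 0) (XT.lf (nat_lit 0) (nat_lit 370463977) (nat_lit 380) (nat_lit 4491821261) (nat_lit 76) (nat_lit 4906240212) (nat_lit 86) (nat_lit 5) (nat_lit 91) (nat_lit 5) (nat_lit 87) (nat_lit 5) (nat_lit 311) (nat_lit 243) (nat_lit 226)) (XT.lf (nat_lit 0) (nat_lit 1924666431) (nat_lit 304) (nat_lit 1812919791) (nat_lit 380) (nat_lit 6186798344) (nat_lit 82) (nat_lit 5) (nat_lit 86) (nat_lit 5) (nat_lit 87) (nat_lit 5) (nat_lit 312) (nat_lit 243) (nat_lit 225))))))) (XT.nd (nat_lit 1092) (nat_lit 1444) (nat_lit 0) (XT.nd (nat_lit 546) (nat_lit 988) (nat_lit 0) (XT.nd (nat_lit 234) (nat_lit 532) (nat_lit 0) (XT.nd (nat_lit 78) (nat_lit 608) (nat_lit 0) (XT.lf (nat_lit 0) (nat_lit 7192376206) (nat_lit 380) (nat_lit 1577813360) (nat_lit 76) (nat_lit 1315187599) (nat_lit 82) (nat_lit 5) (nat_lit 87) (nat_lit 5) (nat_lit 83) (nat_lit 4) (nat_lit 313) (nat_lit 243) (nat_lit 224)) (XT.nd (nat_lit 78) (nat_lit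 304) (nat_lit 0) (XT.lf (nat_lit 0) (nat_lit 486083691) (nat_lit 304) (nat_lit 5243169198) (nat_lit 76) (nat_lit 4521969940) (nat_lit 78) (nat_lit 5) (nat_lit 82) (nat_lit 5) (nat_lit 79) (nat_lit 5) (nat_lit 314) (nat_lit 243) (nat_lit 223)) (XT.lf (nat_lit 0) (nat_lit 1294659227) (nat_lit 304) (nat_lit 2572760190) (nat_lit 380) (nat_lit 6555046855) (nat_lit 74) (nat_lit 5) (nat_lit 78) (nat_lit 5) (nat_lit 79) (nat_lit 5) (nat_lit 315) (nat_lit 243) (nat_lit 222)))) (XT.nd (nat_lit 156) (nat_lit 228) (nat_lit 0) (XT.nd (nat_lit 78) (nat_lit 304) (nat_lit 0) (XT.lf (nat_lit 0) (nat_lit 7341377509) (nat_lit 380) (nat_lit 2573031748) (nat_lit 76) (nat_lit 684753232) (nat_lit 74) (nat_lit 5) (nat_lit 79) (nat_lit 5) (nat_lit 75) (nat_lit 4) (nat_lit 316) (nat_lit 243) (nat_lit 221)) (XT.lf (nat_lit 0) (nat_lit 134014639) (nat_lit 304) (nat_lit 6650808320) (nat_lit 76) (nat_lit 3996395123) (nat_lit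 70) (nat_lit 5) (nat_lit 74) (nat_lit 5) (nat_lit 71) (nat_lit 5) (nat_lit 317) (nat_lit 243) (nat_lit 220))) (XT.nd (nat_lit 78) (nat_lit 228) (nat_lit 0) (XT.lf (nat_lit 0) (nat_lit 3521803054) (nat_lit 304) (nat_lit 14918556) (nat_lit 76) (nat_lit 7432301297) (nat_lit 70) (nat_lit 5) (nat_lit 74) (nat_lit 5) (nat_lit 71) (nat_lit 5) (nat_lit 318) (nat_lit 243) (nat_lit 219)) (XT.lf (nat_lit 0) (nat_lit 6854632401) (nat_lit 228) (nat_lit 157894544) (nat_lit 304) (nat_lit 4149941136) (nat_lit 67) (nat_lit 5) (nat_lit 70) (nat_lit 5) (nat_lit 71) (nat_lit 5) (nat_lit 319) (nat_lit 243) (nat_lit 218))))) (XT.nd (nat_lit 234) (nat_lit 456) (nat_lit 0) (XT.nd (nat_lit 78) (nat_lit 304) (nat_lit 0) (XT.lf (nat_lit 0) (nat_lit 2485606143) (nat_lit 228) (nat_lit 8114363719) (nat_lit 304) (nat_lit 762030768) (nat_lit 64) (nat_lit 5) (nat_lit 67) (nat_lit 5) (nat_lit 68) (nat_lit 4) (nat_lit 320) (nat_lit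 243) (nat_lit 217)) (XT.nd (nat_lit 78) (nat_lit 228) (nat_lit 0) (XT.lf (nat_lit 0) (nat_lit 2656051156) (nat_lit 304) (nat_lit 2123423475) (nat_lit 76) (nat_lit 6787846649) (nat_lit 63) (nat_lit 5) (nat_lit 67) (nat_lit 5) (nat_lit 64) (nat_lit 5) (nat_lit 321) (nat_lit 243) (nat_lit 216)) (XT.lf (nat_lit 0) (nat_lit 4821438155) (nat_lit 228) (nat_lit 1324387561) (nat_lit 304) (nat_lit 5633255711) (nat_lit 60) (nat_lit 5) (nat_lit 63) (nat_lit 5) (nat_lit 64) (nat_lit 5) (nat_lit 322) (nat_lit 243) (nat_lit 215)))) (XT.nd (nat_lit 156) (nat_lit 228) (nat_lit 0) (XT.nd (nat_lit 78) (nat_lit 228) (nat_lit 0) (XT.lf (nat_lit 0) (nat_lit 9722083479) (nat_lit 304) (nat_lit 97881615) (nat_lit 76) (nat_lit 2177814624) (nat_lit 60) (nat_lit 5) (nat_lit 64) (nat_lit 5) (nat_lit 61) (nat_lit 4) (nat_lit 323) (nat_lit 243) (nat_lit 214)) (XT.lf (nat_lit 0) (nat_lit 1180489931) (nat_lit 228) (nat_lit 5237911559)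 (nat_lit 76) (nat_lit 5803703940) (nat_lit 57) (nat_lit 5) (nat_lit 60) (nat_lit 5) (nat_lit 58) (nat_lit 5) (nat_lit 324) (nat_lit 243) (nat_lit 213))) (XT.nd (nat_lit 78) (nat_lit 0) (nat_lit 0) (XT.lf (nat_lit 0) (nat_lit 1743843304) (nat_lit 228) (nat_lit 2909197412) (nat_lit 304) (nat_lit 7800727425) (nat_lit 54) (nat_lit 5) (nat_lit 57) (nat_lit 5) (nat_lit 58) (nat_lit 5) (nat_lit 325) (nat_lit 243) (nat_lit 212)) (XT.lf (nat_lit 0) (nat_lit 8231098852) (nat_lit 304) (nat_lit 3751437551) (nat_lit 76) (nat_lit 709839094) (nat_lit 54) (nat_lit 5) (nat_lit 58) (nat_lit 5) (nat_lit 55) (nat_lit 4) (nat_lit 326) (nat_lit 243) (nat_lit 211)))))) (XT.nd (nat_lit 546) (nat_lit 608) (nat_lit 0) (XT.nd (nat_lit 234) (nat_lit 380) (nat_lit 0) (XT.nd (nat_lit 78) (nat_lit 304) (nat_lit 0) (XT.lf (nat_lit 0) (nat_lit 3359584063) (nat_lit 152) (nat_lit 8560862389) (nat_lit 228) (nat_lit 1017609866) (nat_lit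 52) (nat_lit 5) (nat_lit 54) (nat_lit 5) (nat_lit 55) (nat_lit 4) (nat_lit 327) (nat_lit 243) (nat_lit 210)) (XT.nd (nat_lit 78) (nat_lit 228) (nat_lit 0) (XT.lf (nat_lit 0) (nat_lit 2461305933) (nat_lit 228) (nat_lit 2547050689) (nat_lit 76) (nat_lit 8182614388) (nat_lit 51) (nat_lit 5) (nat_lit 54) (nat_lit 5) (nat_lit 52) (nat_lit 5) (nat_lit 328) (nat_lit 243) (nat_lit 209)) (XT.lf (nat_lit 0) (nat_lit 4686169789) (nat_lit 228) (nat_lit 1327710702) (nat_lit 304) (nat_lit 7437628881) (nat_lit 48) (nat_lit 5) (nat_lit 51) (nat_lit 5) (nat_lit 52) (nat_lit 5) (nat_lit 329) (nat_lit 243) (nat_lit 208)))) (XT.nd (nat_lit 156) (nat_lit 228) (nat_lit 0) (XT.nd (nat_lit 78) (nat_lit 152) (nat_lit 0) (XT.lf (nat_lit 0) (nat_lit 9667796412) (nat_lit 304) (nat_lit 1645381720) (nat_lit 76) (nat_lit 2406872752) (nat_lit 48) (nat_lit 5) (nat_lit 52) (nat_lit 5) (nat_lit 49) (nat_lit 4) (nat_lit 330) (nat_lit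 243) (nat_lit 207)) (XT.lf (nat_lit 0) (nat_lit 5697910710) (nat_lit 152) (nat_lit 7748045270) (nat_lit 228) (nat_lit 550282924) (nat_lit 46) (nat_lit 5) (nat_lit 48) (nat_lit 5) (nat_lit 49) (nat_lit 4) (nat_lit 331) (nat_lit 243) (nat_lit 206))) (XT.nd (nat_lit 78) (nat_lit 152) (nat_lit 0) (XT.lf (nat_lit 0) (nat_lit 2960751372) (nat_lit 228) (nat_lit 1103055593) (nat_lit 76) (nat_lit 10217141930) (nat_lit 45) (nat_lit 5) (nat_lit 48) (nat_lit 5) (nat_lit 46) (nat_lit 5) (nat_lit 332) (nat_lit 243) (nat_lit 205)) (XT.lf (nat_lit 0) (nat_lit 6340405086) (nat_lit 152) (nat_lit 235018861) (nat_lit 228) (nat_lit 7998358350) (nat_lit 43) (nat_lit 5) (nat_lit 45) (nat_lit 5) (nat_lit 46) (nat_lit 5) (nat_lit 333) (nat_lit 243) (nat_lit 204))))) (XT.nd (nat_lit 234) (nat_lit 380) (nat_lit 0) (XT.nd (nat_lit 78) (nat_lit 228) (nat_lit 0) (XT.lf (nat_lit 0) (nat_lit 10294210330) (nat_lit 228) (nat_lit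 967372493) (nat_lit 76) (nat_lit 3613973481) (nat_lit 43) (nat_lit 5) (nat_lit 46) (nat_lit 5) (nat_lit 44) (nat_lit 4) (nat_lit 334) (nat_lit 243) (nat_lit 203)) (XT.nd (nat_lit 78) (nat_lit 76) (nat_lit 0) (XT.lf (nat_lit 0) (nat_lit 6558451683) (nat_lit 152) (nat_lit 7581746378) (nat_lit 228) (nat_lit 1045741394) (nat_lit 41) (nat_lit 5) (nat_lit 43) (nat_lit 5) (nat_lit 44) (nat_lit 4) (nat_lit 335) (nat_lit 243) (nat_lit 202)) (XT.lf (nat_lit 0) (nat_lit 2505548581) (nat_lit 228) (nat_lit 1284512356) (nat_lit 76) (nat_lit 11716039976) (nat_lit 40) (nat_lit 5) (nat_lit 43) (nat_lit 5) (nat_lit 41) (nat_lit 5) (nat_lit 336) (nat_lit 243) (nat_lit 201)))) (XT.nd (nat_lit 156) (nat_lit 228) (nat_lit 0) (XT.nd (nat_lit 78) (nat_lit 0) (nat_lit 0) (XT.lf (nat_lit 0) (nat_lit 6156357576) (nat_lit 228) (nat_lit 9526721558) (nat_lit 76) (nat_lit 152080437) (nat_lit 38) (nat_lit 5) (nat_lit 41) (nat_lit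 5) (nat_lit 39) (nat_lit 4) (nat_lit 337) (nat_lit 243) (nat_lit 200)) (XT.lf (nat_lit 0) (nat_lit 9919474676) (nat_lit 228) (nat_lit 2137730419) (nat_lit 76) (nat_lit 4116823641) (nat_lit 38) (nat_lit 5) (nat_lit 41) (nat_lit 5) (nat_lit 39) (nat_lit 4) (nat_lit 338) (nat_lit 243) (nat_lit 199))) (XT.nd (nat_lit 78) (nat_lit 76) (nat_lit 0) (XT.lf (nat_lit 0) (nat_lit 5500771362) (nat_lit 152) (nat_lit 8301143129) (nat_lit 228) (nat_lit 2720978226) (nat_lit 36) (nat_lit 5) (nat_lit 38) (nat_lit 5) (nat_lit 39) (nat_lit 4) (nat_lit 339) (nat_lit 243) (nat_lit 198)) (XT.lf (nat_lit 0) (nat_lit 876154225) (nat_lit 228) (nat_lit 3558031261) (nat_lit 76) (nat_lit 12448528361) (nat_lit 35) (nat_lit 5) (nat_lit 38) (nat_lit 5) (nat_lit 36) (nat_lit 5) (nat_lit 340) (nat_lit 243) (nat_lit 197))))))))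
noncomputable def xc63 : XT := (XT.nd (nat_lit 2184) (nat_lit 608) (nat_lit 0) (XT.nd (nat_lit 1092) (nat_lit 608) (nat_lit 0) (XT.nd (nat_lit 546) (nat_lit 380) (nat_lit 0) (XT.nd (nat_lit 234) (nat_lit 228) (nat_lit 0) (XT.nd (nat_lit 78) (nat_lit 76) (nat_lit 0) (XT.lf (nat_lit 0) (nat_lit 4105818818) (nat_lit 152) (nat_lit 415183821) (nat_lit 228) (nat_lit 12731703813) (nat_lit 33) (nat_lit 5) (nat_lit 35) (nat_lit 5) (nat_lit 36) (nat_lit 5) (nat_lit 341) (nat_lit 243) (nat_lit 196)) (XT.nd (nat_lit 78) (nat_lit 76) (nat_lit 0) (XT.lf (nat_lit 0) (nat_lit 8302570283) (nat_lit 228) (nat_lit 5673982591) (nat_lit 76) (nat_lit 3656443953) (nat_lit 33) (nat_lit 5) (nat_lit 36) (nat_lit 5) (nat_lit 34) (nat_lit 4) (nat_lit 342) (nat_lit 243) (nat_lit 195)) (XT.lf (nat_lit 0) (nat_lit 1982316588) (nat_lit 76) (nat_lit 10195024444) (nat_lit 152) (nat_lit 5847980843) (nat_lit 32) (nat_lit 5) (nat_lit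 33) (nat_lit 5) (nat_lit 34) (nat_lit 4) (nat_lit 343) (nat_lit 243) (nat_lit 194)))) (XT.nd (nat_lit 156) (nat_lit 152) (nat_lit 0) (XT.nd (nat_lit 78) (nat_lit 76) (nat_lit 0) (XT.lf (nat_lit 0) (nat_lit 9909990271) (nat_lit 76) (nat_lit 6272797859) (nat_lit 152) (nat_lit 2246213653) (nat_lit 32) (nat_lit 5) (nat_lit 33) (nat_lit 5) (nat_lit 34) (nat_lit 4) (nat_lit 344) (nat_lit 243) (nat_lit 193)) (XT.lf (nat_lit 0) (nat_lit 1393002620) (nat_lit 152) (nat_lit 856672815) (nat_lit 76) (nat_lit 16595972954) (nat_lit 31) (nat_lit 5) (nat_lit 33) (nat_lit 5) (nat_lit 32) (nat_lit 5) (nat_lit 345) (nat_lit 243) (nat_lit 192))) (XT.nd (nat_lit 78) (nat_lit 0) (nat_lit 0) (XT.lf (nat_lit 0) (nat_lit 5142299580) (nat_lit 228) (nat_lit 12211848951) (nat_lit 76) (nat_lit 1918613710) (nat_lit 29) (nat_lit 5) (nat_lit 32) (nat_lit 5) (nat_lit 30) (nat_lit 4) (nat_lit 346) (nat_lit 243) (nat_lit 191)) (XT.lf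 (nat_lit 0) (nat_lit 8994488216) (nat_lit 228) (nat_lit 4572610002) (nat_lit 76) (nat_lit 6145894991) (nat_lit 29) (nat_lit 5) (nat_lit 32) (nat_lit 5) (nat_lit 30) (nat_lit 4) (nat_lit 347) (nat_lit 243) (nat_lit 190))))) (XT.nd (nat_lit 234) (nat_lit 228) (nat_lit 0) (XT.nd (nat_lit 78) (nat_lit 76) (nat_lit 0) (XT.lf (nat_lit 0) (nat_lit 3290690916) (nat_lit 76) (nat_lit 9663768571) (nat_lit 152) (nat_lit 7212220727) (nat_lit 28) (nat_lit 5) (nat_lit 29) (nat_lit 5) (nat_lit 30) (nat_lit 4) (nat_lit 348) (nat_lit 243) (nat_lit 189)) (XT.nd (nat_lit 78) (nat_lit 76) (nat_lit 0) (XT.lf (nat_lit 0) (nat_lit 11414976145) (nat_lit 76) (nat_lit 5625501108) (nat_lit 152) (nat_lit 3593298316) (nat_lit 28) (nat_lit 5) (nat_lit 29) (nat_lit 5) (nat_lit 30) (nat_lit 4) (nat_lit 349) (nat_lit 243) (nat_lit 188)) (XT.lf (nat_lit 0) (nat_lit 93391339) (nat_lit 152) (nat_lit 1400607232) (nat_lit 76) (nat_lit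 19622006260) (nat_lit 27) (nat_lit 5) (nat_lit 29) (nat_lit 5) (nat_lit 28) (nat_lit 5) (nat_lit 350) (nat_lit 243) (nat_lit 187)))) (XT.nd (nat_lit 156) (nat_lit 76) (nat_lit 0) (XT.nd (nat_lit 78) (nat_lit 0) (nat_lit 0) (XT.lf (nat_lit 0) (nat_lit 3872876578) (nat_lit 228) (nat_lit 14956619352) (nat_lit 76) (nat_lit 2780519101) (nat_lit 25) (nat_lit 5) (nat_lit 28) (nat_lit 5) (nat_lit 26) (nat_lit 4) (nat_lit 351) (nat_lit 243) (nat_lit 186)) (XT.lf (nat_lit 0) (nat_lit 7757937600) (nat_lit 228) (nat_lit 7221282218) (nat_lit 76) (nat_lit 7139873452) (nat_lit 25) (nat_lit 5) (nat_lit 28) (nat_lit 5) (nat_lit 26) (nat_lit 4) (nat_lit 352) (nat_lit 243) (nat_lit 185))) (XT.nd (nat_lit 78) (nat_lit 0) (nat_lit 0) (XT.lf (nat_lit 0) (nat_lit 695949255) (nat_lit 76) (nat_lit 11034481128) (nat_lit 152) (nat_lit 10913900154) (nat_lit 24) (nat_lit 5) (nat_lit 25) (nat_lit 5) (nat_lit 26) (nat_lit 4)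 (nat_lit 353) (nat_lit 243) (nat_lit 184)) (XT.lf (nat_lit 0) (nat_lit 8935605593) (nat_lit 76) (nat_lit 6924039436) (nat_lit 152) (nat_lit 7324566177) (nat_lit 24) (nat_lit 5) (nat_lit 25) (nat_lit 5) (nat_lit 26) (nat_lit 4) (nat_lit 354) (nat_lit 243) (nat_lit 183)))))) (XT.nd (nat_lit 546) (nat_lit 304) (nat_lit 0) (XT.nd (nat_lit 234) (nat_lit 76) (nat_lit 0) (XT.nd (nat_lit 78) (nat_lit 228) (nat_lit 0) (XT.lf (nat_lit 0) (nat_lit 17361168817) (nat_lit 76) (nat_lit 2717223887) (nat_lit 152) (nat_lit 3662938219) (nat_lit 24) (nat_lit 5) (nat_lit 25) (nat_lit 5) (nat_lit 26) (nat_lit 4) (nat_lit 355) (nat_lit 243) (nat_lit 182)) (XT.nd (nat_lit 78) (nat_lit 0) (nat_lit 0) (XT.lf (nat_lit 0) (nat_lit 104489733) (nat_lit 228) (nat_lit 22634904391) (nat_lit 76) (nat_lit 1575808353) (nat_lit 21) (nat_lit 5) (nat_lit 24) (nat_lit 5) (nat_lit 22) (nat_lit 4) (nat_lit 356) (nat_lit 243) (nat_lit 181))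 (XT.lf (nat_lit 0) (nat_lit 3969757702) (nat_lit 228) (nat_lit 14915152552) (nat_lit 76) (nat_lit 6018550046) (nat_lit 21) (nat_lit 5) (nat_lit 24) (nat_lit 5) (nat_lit 22) (nat_lit 4) (nat_lit 357) (nat_lit 243) (nat_lit 180)))) (XT.nd (nat_lit 156) (nat_lit 0) (nat_lit 0) (XT.nd (nat_lit 78) (nat_lit 76) (nat_lit 0) (XT.lf (nat_lit 0) (nat_lit 7918430684) (nat_lit 228) (nat_lit 7022397020) (nat_lit 76) (nat_lit 10569525697) (nat_lit 21) (nat_lit 5) (nat_lit 24) (nat_lit 5) (nat_lit 22) (nat_lit 4) (nat_lit 358) (nat_lit 243) (nat_lit 179)) (XT.lf (nat_lit 0) (nat_lit 1071160998) (nat_lit 76) (nat_lit 10893094631) (nat_lit 152) (nat_lit 14171847546) (nat_lit 20) (nat_lit 5) (nat_lit 21) (nat_lit 5) (nat_lit 22) (nat_lit 4) (nat_lit 359) (nat_lit 243) (nat_lit 178))) (XT.nd (nat_lit 78) (nat_lit 0) (nat_lit 0) (XT.lf (nat_lit 0) (nat_lit 9495153291) (nat_lit 76) (nat_lit 6675988694) (nat_lit 152)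 (nat_lit 10608303179) (nat_lit 20) (nat_lit 5) (nat_lit 21) (nat_lit 5) (nat_lit 22) (nat_lit 4) (nat_lit 360) (nat_lit 243) (nat_lit 177)) (XT.lf (nat_lit 0) (nat_lit 18117181160) (nat_lit 76) (nat_lit 2356737484) (nat_lit 152) (nat_lit 6969088283) (nat_lit 20) (nat_lit 5) (nat_lit 21) (nat_lit 5) (nat_lit 22) (nat_lit 4) (nat_lit 361) (nat_lit 243) (nat_lit 176))))) (XT.nd (nat_lit 234) (nat_lit 76) (nat_lit 0) (XT.nd (nat_lit 78) (nat_lit 228) (nat_lit 0) (XT.lf (nat_lit 0) (nat_lit 24896228357) (nat_lit 152) (nat_lit 1202472901) (nat_lit 0) (nat_lit 2028070522) (nat_lit 20) (nat_lit 5) (nat_lit 22) (nat_lit 4) (nat_lit 20) (nat_lit 4) (nat_lit 362) (nat_lit 243) (nat_lit 175)) (XT.nd (nat_lit 78) (nat_lit 0) (nat_lit 0) (XT.lf (nat_lit 0) (nat_lit 672718819) (nat_lit 228) (nat_lit 21605591588) (nat_lit 76) (nat_lit 6550629627) (nat_lit 17) (nat_lit 5) (nat_lit 20) (nat_lit 5) (nat_lit 18) (nat_lit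 4) (nat_lit 363) (nat_lit 243) (nat_lit 174)) (XT.lf (nat_lit 0) (nat_lit 4611665489) (nat_lit 228) (nat_lit 13709581263) (nat_lit 76) (nat_lit 11230470405) (nat_lit 17) (nat_lit 5) (nat_lit 20) (nat_lit 5) (nat_lit 18) (nat_lit 4) (nat_lit 364) (nat_lit 243) (nat_lit 173)))) (XT.nd (nat_lit 156) (nat_lit 0) (nat_lit 0) (XT.nd (nat_lit 78) (nat_lit 76) (nat_lit 0) (XT.lf (nat_lit 0) (nat_lit 8640872248) (nat_lit 228) (nat_lit 5627428836) (nat_lit 76) (nat_lit 16028722403) (nat_lit 17) (nat_lit 5) (nat_lit 20) (nat_lit 5) (nat_lit 18) (nat_lit 4) (nat_lit 365) (nat_lit 243) (nat_lit 172)) (XT.lf (nat_lit 0) (nat_lit 2700626722) (nat_lit 76) (nat_lit 10089193118) (nat_lit 152) (nat_lit 18274911622) (nat_lit 16) (nat_lit 5) (nat_lit 17) (nat_lit 5) (nat_lit 18) (nat_lit 4) (nat_lit 366) (nat_lit 243) (nat_lit 171))) (XT.nd (nat_lit 78) (nat_lit 0) (nat_lit 0) (XT.lf (nat_lit 0) (nat_lit 11345103272)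 (nat_lit 76) (nat_lit 5748183449) (nat_lit 152) (nat_lit 14761290581) (nat_lit 16) (nat_lit 5) (nat_lit 17) (nat_lit 5) (nat_lit 18) (nat_lit 4) (nat_lit 367) (nat_lit 243) (nat_lit 170)) (XT.lf (nat_lit 0) (nat_lit 20201557370) (nat_lit 76) (nat_lit 1298304959) (nat_lit 152) (nat_lit 11169043958) (nat_lit 16) (nat_lit 5) (nat_lit 17) (nat_lit 5) (nat_lit 18) (nat_lit 4) (nat_lit 368) (nat_lit 243) (nat_lit 169))))))) (XT.nd (nat_lit 1092) (nat_lit 228) (nat_lit 0) (XT.nd (nat_lit 546) (nat_lit 152) (nat_lit 0) (XT.nd (nat_lit 234) (nat_lit 76) (nat_lit 0) (XT.nd (nat_lit 78) (nat_lit 152) (nat_lit 0) (XT.lf (nat_lit 0) (nat_lit 26044775813) (nat_lit 152) (nat_lit 4262081044) (nat_lit 0) (nat_lit 3200631747) (nat_lit 16) (nat_lit 5) (nat_lit 18) (nat_lit 4) (nat_lit 16) (nat_lit 4) (nat_lit 369) (nat_lit 243) (nat_lit 168)) (XT.nd (nat_lit 78) (nat_lit 76) (nat_lit 0) (XT.lf (nat_lit 0) (nat_lit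 4213524118) (nat_lit 76) (nat_lit 26541173463) (nat_lit 76) (nat_lit 3615678442) (nat_lit 15) (nat_lit 4) (nat_lit 16) (nat_lit 5) (nat_lit 16) (nat_lit 4) (nat_lit 370) (nat_lit 243) (nat_lit 167)) (XT.lf (nat_lit 0) (nat_lit 358808909) (nat_lit 152) (nat_lit 22276094445) (nat_lit 76) (nat_lit 12623589481) (nat_lit 14) (nat_lit 5) (nat_lit 16) (nat_lit 5) (nat_lit 15) (nat_lit 4) (nat_lit 371) (nat_lit 243) (nat_lit 166)))) (XT.nd (nat_lit 156) (nat_lit 76) (nat_lit 0) (XT.nd (nat_lit 78) (nat_lit 0) (nat_lit 0) (XT.lf (nat_lit 0) (nat_lit 4355921321) (nat_lit 152) (nat_lit 14238637326) (nat_lit 76) (nat_lit 17578345505) (nat_lit 14) (nat_lit 5) (nat_lit 16) (nat_lit 5) (nat_lit 15) (nat_lit 4) (nat_lit 372) (nat_lit 243) (nat_lit 165)) (XT.lf (nat_lit 0) (nat_lit 8449706326) (nat_lit 152) (nat_lit 6002701415) (nat_lit 76) (nat_lit 22663043919) (nat_lit 14) (nat_lit 5) (nat_lit 16) (nat_lit 5)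 (nat_lit 15) (nat_lit 4) (nat_lit 373) (nat_lit 243) (nat_lit 164))) (XT.nd (nat_lit 78) (nat_lit 0) (nat_lit 0) (XT.lf (nat_lit 0) (nat_lit 2487448821) (nat_lit 76) (nat_lit 10180203074) (nat_lit 152) (nat_lit 25418589719) (nat_lit 13) (nat_lit 5) (nat_lit 14) (nat_lit 5) (nat_lit 15) (nat_lit 4) (nat_lit 374) (nat_lit 243) (nat_lit 163)) (XT.lf (nat_lit 0) (nat_lit 11314356134) (nat_lit 76) (nat_lit 5736094462) (nat_lit 152) (nat_lit 22034561476) (nat_lit 13) (nat_lit 5) (nat_lit 14) (nat_lit 5) (nat_lit 15) (nat_lit 4) (nat_lit 375) (nat_lit 243) (nat_lit 162))))) (XT.nd (nat_lit 234) (nat_lit 152) (nat_lit 0) (XT.nd (nat_lit 78) (nat_lit 0) (nat_lit 0) (XT.lf (nat_lit 0) (nat_lit 20366267825) (nat_lit 76) (nat_lit 1176814217) (nat_lit 152) (nat_lit 18571319200) (nat_lit 13) (nat_lit 5) (nat_lit 14) (nat_lit 5) (nat_lit 15) (nat_lit 4) (nat_lit 376) (nat_lit 243) (nat_lit 161)) (XT.nd (nat_lit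 78) (nat_lit 0) (nat_lit 0) (XT.lf (nat_lit 0) (nat_lit 26183131563) (nat_lit 152) (nat_lit 11557874991) (nat_lit 0) (nat_lit 3433292249) (nat_lit 13) (nat_lit 5) (nat_lit 15) (nat_lit 4) (nat_lit 13) (nat_lit 4) (nat_lit 377) (nat_lit 243) (nat_lit 160)) (XT.lf (nat_lit 0) (nat_lit 30953461380) (nat_lit 152) (nat_lit 3171531929) (nat_lit 0) (nat_lit 8141273332) (nat_lit 13) (nat_lit 5) (nat_lit 15) (nat_lit 4) (nat_lit 13) (nat_lit 4) (nat_lit 378) (nat_lit 243) (nat_lit 159)))) (XT.nd (nat_lit 156) (nat_lit 76) (nat_lit 0) (XT.nd (nat_lit 78) (nat_lit 0) (nat_lit 0) (XT.lf (nat_lit 0) (nat_lit 5537594306) (nat_lit 76) (nat_lit 30362563921) (nat_lit 76) (nat_lit 7489843122) (nat_lit 12) (nat_lit 4) (nat_lit 13) (nat_lit 5) (nat_lit 13) (nat_lit 4) (nat_lit 379) (nat_lit 243) (nat_lit 158)) (XT.lf (nat_lit 0) (nat_lit 14536503524) (nat_lit 76) (nat_lit 26471035959) (nat_lit 76) (nat_lit 3539545499)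 (nat_lit 12) (nat_lit 4) (nat_lit 13) (nat_lit 5) (nat_lit 13) (nat_lit 4) (nat_lit 380) (nat_lit 243) (nat_lit 157))) (XT.nd (nat_lit 78) (nat_lit 0) (nat_lit 0) (XT.lf (nat_lit 0) (nat_lit 499570635) (nat_lit 152) (nat_lit 21974419994) (nat_lit 76) (nat_lit 23265323826) (nat_lit 11) (nat_lit 5) (nat_lit 13) (nat_lit 5) (nat_lit 12) (nat_lit 4) (nat_lit 381) (nat_lit 243) (nat_lit 156)) (XT.lf (nat_lit 0) (nat_lit 4569920225) (nat_lit 152) (nat_lit 13767006367) (nat_lit 76) (nat_lit 28629901758) (nat_lit 11) (nat_lit 5) (nat_lit 13) (nat_lit 5) (nat_lit 12) (nat_lit 4) (nat_lit 382) (nat_lit 243) (nat_lit 155)))))) (XT.nd (nat_lit 546) (nat_lit 152) (nat_lit 0) (XT.nd (nat_lit 234) (nat_lit 0) (nat_lit 0) (XT.nd (nat_lit 78) (nat_lit 76) (nat_lit 0) (XT.lf (nat_lit 0) (nat_lit 8744129170) (nat_lit 152) (nat_lit 5347144775) (nat_lit 76) (nat_lit 34140446041) (nat_lit 11) (nat_lit 5) (nat_lit 13)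 (nat_lit 5) (nat_lit 12) (nat_lit 4) (nat_lit 383) (nat_lit 243) (nat_lit 154)) (XT.nd (nat_lit 78) (nat_lit 0) (nat_lit 0) (XT.lf (nat_lit 0) (nat_lit 3358049586) (nat_lit 76) (nat_lit 9700074877) (nat_lit 152) (nat_lit 36476001752) (nat_lit 10) (nat_lit 5) (nat_lit 11) (nat_lit 5) (nat_lit 12) (nat_lit 4) (nat_lit 384) (nat_lit 243) (nat_lit 153)) (XT.lf (nat_lit 0) (nat_lit 12401541759) (nat_lit 76) (nat_lit 5136477974) (nat_lit 152) (nat_lit 33336495005) (nat_lit 10) (nat_lit 5) (nat_lit 11) (nat_lit 5) (nat_lit 12) (nat_lit 4) (nat_lit 385) (nat_lit 243) (nat_lit 152)))) (XT.nd (nat_lit 156) (nat_lit 0) (nat_lit 0) (XT.nd (nat_lit 78) (nat_lit 0) (nat_lit 0) (XT.lf (nat_lit 0) (nat_lit 21684815159) (nat_lit 76) (nat_lit 450491306) (nat_lit 152) (nat_lit 30120322996) (nat_lit 10) (nat_lit 5) (nat_lit 11) (nat_lit 5) (nat_lit 12) (nat_lit 4) (nat_lit 386) (nat_lit 243) (nat_lit 151)) (XT.lf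 (nat_lit 0) (nat_lit 26895931723) (nat_lit 152) (nat_lit 22504625814) (nat_lit 0) (nat_lit 4276861744) (nat_lit 10) (nat_lit 5) (nat_lit 12) (nat_lit 4) (nat_lit 10) (nat_lit 4) (nat_lit 387) (nat_lit 243) (nat_lit 150))) (XT.nd (nat_lit 78) (nat_lit 0) (nat_lit 0) (XT.lf (nat_lit 0) (nat_lit 31787675286) (nat_lit 152) (nat_lit 14230979398) (nat_lit 0) (nat_lit 9123563254) (nat_lit 10) (nat_lit 5) (nat_lit 12) (nat_lit 4) (nat_lit 10) (nat_lit 4) (nat_lit 388) (nat_lit 243) (nat_lit 149)) (XT.lf (nat_lit 0) (nat_lit 36810481093) (nat_lit 152) (nat_lit 5738315258) (nat_lit 0) (nat_lit 14102638914) (nat_lit 10) (nat_lit 5) (nat_lit 12) (nat_lit 4) (nat_lit 10) (nat_lit 4) (nat_lit 389) (nat_lit 243) (nat_lit 148))))) (XT.nd (nat_lit 234) (nat_lit 76) (nat_lit 0) (XT.nd (nat_lit 78) (nat_lit 0) (nat_lit 0) (XT.lf (nat_lit 0) (nat_lit 3040110894) (nat_lit 76) (nat_lit 38957850517) (nat_lit 76) (nat_lit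 16207551885) (nat_lit 9) (nat_lit 4) (nat_lit 10) (nat_lit 5) (nat_lit 10) (nat_lit 4) (nat_lit 390) (nat_lit 243) (nat_lit 147)) (XT.nd (nat_lit 78) (nat_lit 0) (nat_lit 0) (XT.lf (nat_lit 0) (nat_lit 12171456100) (nat_lit 76) (nat_lit 35212496619) (nat_lit 76) (nat_lit 12420978129) (nat_lit 9) (nat_lit 4) (nat_lit 10) (nat_lit 5) (nat_lit 10) (nat_lit 4) (nat_lit 391) (nat_lit 243) (nat_lit 146)) (XT.lf (nat_lit 0) (nat_lit 21549495481) (nat_lit 76) (nat_lit 31367407751) (nat_lit 76) (nat_lit 8535869981) (nat_lit 9) (nat_lit 4) (nat_lit 10) (nat_lit 5) (nat_lit 10) (nat_lit 4) (nat_lit 392) (nat_lit 243) (nat_lit 145)))) (XT.nd (nat_lit 156) (nat_lit 76) (nat_lit 0) (XT.nd (nat_lit 78) (nat_lit 0) (nat_lit 0) (XT.lf (nat_lit 0) (nat_lit 31182423439) (nat_lit 76) (nat_lit 27419224125) (nat_lit 76) (nat_lit 4548832686) (nat_lit 9) (nat_lit 4) (nat_lit 10) (nat_lit 5) (nat_lit 10) (nat_lit 4) (nat_lit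 393) (nat_lit 243) (nat_lit 144)) (XT.lf (nat_lit 0) (nat_lit 41078657095) (nat_lit 76) (nat_lit 23364495874) (nat_lit 76) (nat_lit 456382426) (nat_lit 9) (nat_lit 4) (nat_lit 10) (nat_lit 5) (nat_lit 10) (nat_lit 4) (nat_lit 394) (nat_lit 243) (nat_lit 143))) (XT.nd (nat_lit 78) (nat_lit 0) (nat_lit 0) (XT.lf (nat_lit 0) (nat_lit 3671977181) (nat_lit 152) (nat_lit 15490623080) (nat_lit 76) (nat_lit 47537786693) (nat_lit 8) (nat_lit 5) (nat_lit 10) (nat_lit 5) (nat_lit 9) (nat_lit 4) (nat_lit 395) (nat_lit 243) (nat_lit 142)) (XT.lf (nat_lit 0) (nat_lit 7901892774) (nat_lit 152) (nat_lit 6939451038) (nat_lit 76) (nat_lit 53714181513) (nat_lit 8) (nat_lit 5) (nat_lit 10) (nat_lit 5) (nat_lit 9) (nat_lit 4) (nat_lit 396) (nat_lit 243) (nat_lit 141))))))))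
noncomputable def xc64 : XT := (XT.nd (nat_lit 33384) (nat_lit 0) (nat_lit 3040) (XT.nd (nat_lit 1014) (nat_lit 0) (nat_lit 0) (XT.nd (nat_lit 468) (nat_lit 76) (nat_lit 0) (XT.nd (nat_lit 234) (nat_lit 0) (nat_lit 0) (XT.nd (nat_lit 78) (nat_lit 0) (nat_lit 0) (XT.lf (nat_lit 0) (nat_lit 1881205850) (nat_lit 76) (nat_lit 10382843510) (nat_lit 152) (nat_lit 58202111253) (nat_lit 7) (nat_lit 5) (nat_lit 8) (nat_lit 5) (nat_lit 9) (nat_lit 4) (nat_lit 397) (nat_lit 243) (nat_lit 140)) (XT.nd (nat_lit 78) (nat_lit 0) (nat_lit 0) (XT.lf (nat_lit 0) (nat_lit 11085207910) (nat_lit 76) (nat_lit 5729342719) (nat_lit 152) (nat_lit 55617842915) (nat_lit 7) (nat_lit 5) (nat_lit 8) (nat_lit 5) (nat_lit 9) (nat_lit 4) (nat_lit 398) (nat_lit 243) (nat_lit 139)) (XT.lf (nat_lit 0) (nat_lit 20542488788) (nat_lit 76) (nat_lit 946850124) (nat_lit 152) (nat_lit 52968644288) (nat_lit 7) (nat_lit 5) (nat_lit 8) (nat_lit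 5) (nat_lit 9) (nat_lit 4) (nat_lit 399) (nat_lit 243) (nat_lit 138)))) (XT.nd (nat_lit 78) (nat_lit 0) (nat_lit 0) (XT.lf (nat_lit 0) (nat_lit 26330649637) (nat_lit 152) (nat_lit 46321538045) (nat_lit 0) (nat_lit 3891367312) (nat_lit 7) (nat_lit 5) (nat_lit 9) (nat_lit 4) (nat_lit 7) (nat_lit 4) (nat_lit 400) (nat_lit 243) (nat_lit 137)) (XT.nd (nat_lit 78) (nat_lit 0) (nat_lit 0) (XT.lf (nat_lit 0) (nat_lit 31314952186) (nat_lit 152) (nat_lit 38530920150) (nat_lit 0) (nat_lit 8845891759) (nat_lit 7) (nat_lit 5) (nat_lit 9) (nat_lit 4) (nat_lit 7) (nat_lit 4) (nat_lit 401) (nat_lit 243) (nat_lit 136)) (XT.lf (nat_lit 0) (nat_lit 36437500075) (nat_lit 152) (nat_lit 30527731690) (nat_lit 0) (nat_lit 13939528869) (nat_lit 7) (nat_lit 5) (nat_lit 9) (nat_lit 4) (nat_lit 7) (nat_lit 4) (nat_lit 402) (nat_lit 243) (nat_lit 135))))) (XT.nd (nat_lit 234) (nat_lit 76) (nat_lit 0) (XT.nd (nat_lit 78) (nat_lit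 0) (nat_lit 0) (XT.lf (nat_lit 0) (nat_lit 41702769316) (nat_lit 152) (nat_lit 22304979586) (nat_lit 0) (nat_lit 19176729392) (nat_lit 7) (nat_lit 5) (nat_lit 9) (nat_lit 4) (nat_lit 7) (nat_lit 4) (nat_lit 403) (nat_lit 243) (nat_lit 134)) (XT.nd (nat_lit 78) (nat_lit 0) (nat_lit 0) (XT.lf (nat_lit 0) (nat_lit 47115360629) (nat_lit 152) (nat_lit 13855478910) (nat_lit 0) (nat_lit 24562069523) (nat_lit 7) (nat_lit 5) (nat_lit 9) (nat_lit 4) (nat_lit 7) (nat_lit 4) (nat_lit 404) (nat_lit 243) (nat_lit 133)) (XT.lf (nat_lit 0) (nat_lit 52680003463) (nat_lit 152) (nat_lit 5171846602) (nat_lit 0) (nat_lit 30100254900) (nat_lit 7) (nat_lit 5) (nat_lit 9) (nat_lit 4) (nat_lit 7) (nat_lit 4) (nat_lit 405) (nat_lit 243) (nat_lit 132)))) (XT.nd (nat_lit 156) (nat_lit 0) (nat_lit 0) (XT.nd (nat_lit 78) (nat_lit 0) (nat_lit 0) (XT.lf (nat_lit 0) (nat_lit 3828207084) (nat_lit 76) (nat_lit 54610152112) (nat_lit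 76) (nat_lit 32004716696) (nat_lit 6) (nat_lit 4) (nat_lit 7) (nat_lit 5) (nat_lit 7) (nat_lit 4) (nat_lit 406) (nat_lit 243) (nat_lit 131)) (XT.lf (nat_lit 0) (nat_lit 13185674681) (nat_lit 76) (nat_lit 51226104132) (nat_lit 76) (nat_lit 28595730024) (nat_lit 6) (nat_lit 4) (nat_lit 7) (nat_lit 5) (nat_lit 7) (nat_lit 4) (nat_lit 407) (nat_lit 243) (nat_lit 130))) (XT.nd (nat_lit 78) (nat_lit 0) (nat_lit 0) (XT.lf (nat_lit 0) (nat_lit 22805802728) (nat_lit 76) (nat_lit 47748974700) (nat_lit 76) (nat_lit 25094388269) (nat_lit 6) (nat_lit 4) (nat_lit 7) (nat_lit 5) (nat_lit 7) (nat_lit 4) (nat_lit 408) (nat_lit 243) (nat_lit 129)) (XT.lf (nat_lit 0) (nat_lit 32696997161) (nat_lit 76) (nat_lit 44175725548) (nat_lit 76) (nat_lit 21497632008) (nat_lit 6) (nat_lit 4) (nat_lit 7) (nat_lit 5) (nat_lit 7) (nat_lit 4) (nat_lit 409) (nat_lit 243) (nat_lit 128)))))) (XT.nd (nat_lit 31824) (nat_lit 0) (nat_lit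 7904) (XT.nd (nat_lit 31512) (nat_lit 0) (nat_lit 10184) (XT.nd (nat_lit 78) (nat_lit 0) (nat_lit 0) (XT.lf (nat_lit 0) (nat_lit 42867900773) (nat_lit 76) (nat_lit 40503234419) (nat_lit 76) (nat_lit 17802318443) (nat_lit 6) (nat_lit 4) (nat_lit 7) (nat_lit 5) (nat_lit 7) (nat_lit 4) (nat_lit 410) (nat_lit 243) (nat_lit 127)) (XT.nd (nat_lit 31356) (nat_lit 0) (nat_lit 11780) (XT.lf (nat_lit 0) (nat_lit 53327400760) (nat_lit 76) (nat_lit 36728292340) (nat_lit 76) (nat_lit 14005218660) (nat_lit 6) (nat_lit 4) (nat_lit 7) (nat_lit 5) (nat_lit 7) (nat_lit 4) (nat_lit 411) (nat_lit 243) (nat_lit 126)) (XT.lf (nat_lit 0) (nat_lit 1298532432) (nat_lit 532) (nat_lit 1258232695) (nat_lit 532) (nat_lit 1258232695) (nat_lit 161) (nat_lit 4) (nat_lit 168) (nat_lit 5) (nat_lit 168) (nat_lit 4) (nat_lit 292) (nat_lit 244) (nat_lit 244)))) (XT.nd (nat_lit 156) (nat_lit 1064) (nat_lit 0) (XT.nd (nat_lit 78) (nat_lit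 0) (nat_lit 0) (XT.lf (nat_lit 0) (nat_lit 368140078) (nat_lit 456) (nat_lit 497499713) (nat_lit 532) (nat_lit 6843906821) (nat_lit 154) (nat_lit 5) (nat_lit 160) (nat_lit 5) (nat_lit 161) (nat_lit 4) (nat_lit 293) (nat_lit 244) (nat_lit 243)) (XT.lf (nat_lit 0) (nat_lit 4271110114) (nat_lit 532) (nat_lit 1907479437) (nat_lit 0) (nat_lit 1613092716) (nat_lit 154) (nat_lit 5) (nat_lit 161) (nat_lit 4) (nat_lit 154) (nat_lit 4) (nat_lit 294) (nat_lit 244) (nat_lit 242))) (XT.nd (nat_lit 78) (nat_lit 532) (nat_lit 0) (XT.lf (nat_lit 0) (nat_lit 3647653502) (nat_lit 532) (nat_lit 4079766700) (nat_lit 532) (nat_lit 150518063) (nat_lit 147) (nat_lit 4) (nat_lit 154) (nat_lit 5) (nat_lit 154) (nat_lit 4) (nat_lit 295) (nat_lit 244) (nat_lit 241)) (XT.lf (nat_lit 0) (nat_lit 1327205426) (nat_lit 456) (nat_lit 1870163613) (nat_lit 532) (nat_lit 4770319289) (nat_lit 140) (nat_lit 5) (nat_lit 146) (nat_lit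 5) (nat_lit 147) (nat_lit 4) (nat_lit 296) (nat_lit 244) (nat_lit 240))))) (XT.nd (nat_lit 234) (nat_lit 1368) (nat_lit 0) (XT.nd (nat_lit 78) (nat_lit 912) (nat_lit 0) (XT.lf (nat_lit 0) (nat_lit 6600450672) (nat_lit 532) (nat_lit 1036976532) (nat_lit 0) (nat_lit 424032138) (nat_lit 140) (nat_lit 5) (nat_lit 147) (nat_lit 4) (nat_lit 140) (nat_lit 4) (nat_lit 297) (nat_lit 244) (nat_lit 239)) (XT.nd (nat_lit 78) (nat_lit 380) (nat_lit 0) (XT.lf (nat_lit 0) (nat_lit 1886292024) (nat_lit 532) (nat_lit 3476718215) (nat_lit 76) (nat_lit 2795270685) (nat_lit 133) (nat_lit 5) (nat_lit 140) (nat_lit 5) (nat_lit 134) (nat_lit 4) (nat_lit 298) (nat_lit 244) (nat_lit 238)) (XT.lf (nat_lit 0) (nat_lit 2256695658) (nat_lit 380) (nat_lit 2994123020) (nat_lit 456) (nat_lit 3008466964) (nat_lit 128) (nat_lit 5) (nat_lit 133) (nat_lit 5) (nat_lit 134) (nat_lit 4) (nat_lit 299) (nat_lit 244) (nat_lit 237)))) (XT.nd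 (nat_lit 156) (nat_lit 836) (nat_lit 0) (XT.nd (nat_lit 78) (nat_lit 456) (nat_lit 0) (XT.lf (nat_lit 0) (nat_lit 295981691) (nat_lit 456) (nat_lit 241355879) (nat_lit 76) (nat_lit 7827475887) (nat_lit 127) (nat_lit 5) (nat_lit 133) (nat_lit 5) (nat_lit 128) (nat_lit 5) (nat_lit 300) (nat_lit 244) (nat_lit 236)) (XT.lf (nat_lit 0) (nat_lit 3630302596) (nat_lit 532) (nat_lit 2825368971) (nat_lit 76) (nat_lit 2017295076) (nat_lit 121) (nat_lit 5) (nat_lit 128) (nat_lit 5) (nat_lit 122) (nat_lit 4) (nat_lit 301) (nat_lit 244) (nat_lit 235))) (XT.nd (nat_lit 78) (nat_lit 456) (nat_lit 0) (XT.lf (nat_lit 0) (nat_lit 3081825742) (nat_lit 380) (nat_lit 3938372226) (nat_lit 456) (nat_lit 1565586831) (nat_lit 116) (nat_lit 5) (nat_lit 121) (nat_lit 5) (nat_lit 122) (nat_lit 4) (nat_lit 302) (nat_lit 244) (nat_lit 234)) (XT.lf (nat_lit 0) (nat_lit 405763202) (nat_lit 380) (nat_lit 1320064071) (nat_lit 456)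 (nat_lit 6977179848) (nat_lit 110) (nat_lit 5) (nat_lit 115) (nat_lit 5) (nat_lit 116) (nat_lit 5) (nat_lit 303) (nat_lit 244) (nat_lit 233))))))) (XT.nd (nat_lit 1092) (nat_lit 1824) (nat_lit 0) (XT.nd (nat_lit 546) (nat_lit 1596) (nat_lit 0) (XT.nd (nat_lit 234) (nat_lit 684) (nat_lit 0) (XT.nd (nat_lit 78) (nat_lit 760) (nat_lit 0) (XT.lf (nat_lit 0) (nat_lit 5073600809) (nat_lit 456) (nat_lit 2354431189) (nat_lit 76) (nat_lit 1395655938) (nat_lit 110) (nat_lit 5) (nat_lit 116) (nat_lit 5) (nat_lit 111) (nat_lit 4) (nat_lit 304) (nat_lit 244) (nat_lit 232)) (XT.nd (nat_lit 78) (nat_lit 456) (nat_lit 0) (XT.lf (nat_lit 0) (nat_lit 3720695673) (nat_lit 304) (nat_lit 4772005372) (nat_lit 380) (nat_lit 456238375) (nat_lit 106) (nat_lit 5) (nat_lit 110) (nat_lit 5) (nat_lit 111) (nat_lit 4) (nat_lit 305) (nat_lit 244) (nat_lit 231)) (XT.lf (nat_lit 0) (nat_lit 830768521) (nat_lit 380) (nat_lit 2002844826)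 (nat_lit 456) (nat_lit 6244926292) (nat_lit 100) (nat_lit 5) (nat_lit 105) (nat_lit 5) (nat_lit 106) (nat_lit 5) (nat_lit 306) (nat_lit 244) (nat_lit 230)))) (XT.nd (nat_lit 156) (nat_lit 304) (nat_lit 0) (XT.nd (nat_lit 78) (nat_lit 380) (nat_lit 0) (XT.lf (nat_lit 0) (nat_lit 6197935720) (nat_lit 456) (nat_lit 2152050697) (nat_lit 76) (nat_lit 862428091) (nat_lit 100) (nat_lit 5) (nat_lit 106) (nat_lit 5) (nat_lit 101) (nat_lit 4) (nat_lit 307) (nat_lit 244) (nat_lit 229)) (XT.lf (nat_lit 0) (nat_lit 291322748) (nat_lit 380) (nat_lit 5271321122) (nat_lit 76) (nat_lit 3788101606) (nat_lit 95) (nat_lit 5) (nat_lit 100) (nat_lit 5) (nat_lit 96) (nat_lit 5) (nat_lit 308) (nat_lit 244) (nat_lit 228))) (XT.nd (nat_lit 78) (nat_lit 0) (nat_lit 0) (XT.lf (nat_lit 0) (nat_lit 933006197) (nat_lit 304) (nat_lit 2659696149) (nat_lit 380) (nat_lit 5900983403) (nat_lit 91) (nat_lit 5) (nat_lit 95) (nat_lit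 5) (nat_lit 96) (nat_lit 5) (nat_lit 309) (nat_lit 244) (nat_lit 227)) (XT.lf (nat_lit 0) (nat_lit 6976995364) (nat_lit 380) (nat_lit 2316947762) (nat_lit 76) (nat_lit 347517589) (nat_lit 91) (nat_lit 5) (nat_lit 96) (nat_lit 5) (nat_lit 92) (nat_lit 4) (nat_lit 310) (nat_lit 244) (nat_lit 226))))) (XT.nd (nat_lit 234) (nat_lit 912) (nat_lit 0) (XT.nd (nat_lit 78) (nat_lit 304) (nat_lit 0) (XT.lf (nat_lit 0) (nat_lit 650449963) (nat_lit 380) (nat_lit 5735570087) (nat_lit 76) (nat_lit 3407684189) (nat_lit 86) (nat_lit 5) (nat_lit 91) (nat_lit 5) (nat_lit 87) (nat_lit 5) (nat_lit 311) (nat_lit 244) (nat_lit 225)) (XT.nd (nat_lit 78) (nat_lit 0) (nat_lit 0) (XT.lf (nat_lit 0) (nat_lit 604498523) (nat_lit 304) (nat_lit 3365609866) (nat_lit 380) (nat_lit 5980907123) (nat_lit 82) (nat_lit 5) (nat_lit 86) (nat_lit 5) (nat_lit 87) (nat_lit 5) (nat_lit 312) (nat_lit 244) (nat_lit 224)) (XT.lf (nat_lit 0)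 (nat_lit 7150515507) (nat_lit 304) (nat_lit 227245953) (nat_lit 380) (nat_lit 2735688177) (nat_lit 82) (nat_lit 5) (nat_lit 86) (nat_lit 5) (nat_lit 87) (nat_lit 5) (nat_lit 313) (nat_lit 244) (nat_lit 223)))) (XT.nd (nat_lit 156) (nat_lit 608) (nat_lit 0) (XT.nd (nat_lit 78) (nat_lit 0) (nat_lit 0) (XT.lf (nat_lit 0) (nat_lit 590186546) (nat_lit 304) (nat_lit 6734799361) (nat_lit 76) (nat_lit 2955794080) (nat_lit 78) (nat_lit 5) (nat_lit 82) (nat_lit 5) (nat_lit 79) (nat_lit 5) (nat_lit 314) (nat_lit 244) (nat_lit 222)) (XT.lf (nat_lit 0) (nat_lit 3925832854) (nat_lit 304) (nat_lit 272010713) (nat_lit 76) (nat_lit 6255575639) (nat_lit 78) (nat_lit 5) (nat_lit 82) (nat_lit 5) (nat_lit 79) (nat_lit 5) (nat_lit 315) (nat_lit 244) (nat_lit 221))) (XT.nd (nat_lit 78) (nat_lit 304) (nat_lit 0) (XT.lf (nat_lit 0) (nat_lit 6411673608) (nat_lit 304) (nat_lit 945987429) (nat_lit 380) (nat_lit 3273742644)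 (nat_lit 74) (nat_lit 5) (nat_lit 78) (nat_lit 5) (nat_lit 79) (nat_lit 5) (nat_lit 316) (nat_lit 244) (nat_lit 220)) (XT.lf (nat_lit 0) (nat_lit 60199205) (nat_lit 304) (nat_lit 8403917885) (nat_lit 76) (nat_lit 2351114824) (nat_lit 70) (nat_lit 5) (nat_lit 74) (nat_lit 5) (nat_lit 71) (nat_lit 5) (nat_lit 317) (nat_lit 244) (nat_lit 219)))))) (XT.nd (nat_lit 546) (nat_lit 836) (nat_lit 0) (XT.nd (nat_lit 234) (nat_lit 532) (nat_lit 0) (XT.nd (nat_lit 78) (nat_lit 456) (nat_lit 0) (XT.lf (nat_lit 0) (nat_lit 3416170331) (nat_lit 304) (nat_lit 1816882342) (nat_lit 76) (nat_lit 5770960880) (nat_lit 70) (nat_lit 5) (nat_lit 74) (nat_lit 5) (nat_lit 71) (nat_lit 5) (nat_lit 318) (nat_lit 244) (nat_lit 218)) (XT.nd (nat_lit 78) (nat_lit 228) (nat_lit 0) (XT.lf (nat_lit 0) (nat_lit 4968430746) (nat_lit 228) (nat_lit 1889441580) (nat_lit 304) (nat_lit 4341078703) (nat_lit 67) (nat_lit 5) (nat_lit 70)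 (nat_lit 5) (nat_lit 71) (nat_lit 5) (nat_lit 319) (nat_lit 244) (nat_lit 217)) (XT.lf (nat_lit 0) (nat_lit 492940430) (nat_lit 228) (nat_lit 9885974250) (nat_lit 304) (nat_lit 1021581930) (nat_lit 64) (nat_lit 5) (nat_lit 67) (nat_lit 5) (nat_lit 68) (nat_lit 4) (nat_lit 320) (nat_lit 244) (nat_lit 216)))) (XT.nd (nat_lit 156) (nat_lit 228) (nat_lit 0) (XT.nd (nat_lit 78) (nat_lit 228) (nat_lit 0) (XT.lf (nat_lit 0) (nat_lit 2371081830) (nat_lit 304) (nat_lit 4199990340) (nat_lit 76) (nat_lit 5035754235) (nat_lit 63) (nat_lit 5) (nat_lit 67) (nat_lit 5) (nat_lit 64) (nat_lit 5) (nat_lit 321) (nat_lit 244) (nat_lit 215)) (XT.lf (nat_lit 0) (nat_lit 2656113009) (nat_lit 228) (nat_lit 3154333862) (nat_lit 304) (nat_lit 6009671199) (nat_lit 60) (nat_lit 5) (nat_lit 63) (nat_lit 5) (nat_lit 64) (nat_lit 5) (nat_lit 322) (nat_lit 244) (nat_lit 214))) (XT.nd (nat_lit 78) (nat_lit 228) (nat_lit 0) (XT.lf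 (nat_lit 0) (nat_lit 9339776127) (nat_lit 304) (nat_lit 2333433644) (nat_lit 76) (nat_lit 367033117) (nat_lit 60) (nat_lit 5) (nat_lit 64) (nat_lit 5) (nat_lit 61) (nat_lit 4) (nat_lit 323) (nat_lit 244) (nat_lit 213)) (XT.lf (nat_lit 0) (nat_lit 712641119) (nat_lit 228) (nat_lit 7603697545) (nat_lit 76) (nat_lit 3949911042) (nat_lit 57) (nat_lit 5) (nat_lit 60) (nat_lit 5) (nat_lit 58) (nat_lit 5) (nat_lit 324) (nat_lit 244) (nat_lit 212))))) (XT.nd (nat_lit 234) (nat_lit 456) (nat_lit 0) (XT.nd (nat_lit 78) (nat_lit 380) (nat_lit 0) (XT.lf (nat_lit 0) (nat_lit 4140047546) (nat_lit 228) (nat_lit 701526258) (nat_lit 76) (nat_lit 7657710032) (nat_lit 57) (nat_lit 5) (nat_lit 60) (nat_lit 5) (nat_lit 58) (nat_lit 5) (nat_lit 325) (nat_lit 244) (nat_lit 211)) (XT.nd (nat_lit 78) (nat_lit 152) (nat_lit 0) (XT.lf (nat_lit 0) (nat_lit 6443666323) (nat_lit 228) (nat_lit 1232614008) (nat_lit 304) (nat_lit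 5062882210) (nat_lit 54) (nat_lit 5) (nat_lit 57) (nat_lit 5) (nat_lit 58) (nat_lit 5) (nat_lit 326) (nat_lit 244) (nat_lit 210)) (XT.lf (nat_lit 0) (nat_lit 731627138) (nat_lit 152) (nat_lit 10569557613) (nat_lit 228) (nat_lit 1685608013) (nat_lit 52) (nat_lit 5) (nat_lit 54) (nat_lit 5) (nat_lit 55) (nat_lit 4) (nat_lit 327) (nat_lit 244) (nat_lit 209)))) (XT.nd (nat_lit 156) (nat_lit 152) (nat_lit 0) (XT.nd (nat_lit 78) (nat_lit 228) (nat_lit 0) (XT.lf (nat_lit 0) (nat_lit 1779100425) (nat_lit 228) (nat_lit 5261910262) (nat_lit 76) (nat_lit 6199721858) (nat_lit 51) (nat_lit 5) (nat_lit 54) (nat_lit 5) (nat_lit 52) (nat_lit 5) (nat_lit 328) (nat_lit 244) (nat_lit 208)) (XT.lf (nat_lit 0) (nat_lit 1873128909) (nat_lit 228) (nat_lit 3405056462) (nat_lit 304) (nat_lit 8224704965) (nat_lit 48) (nat_lit 5) (nat_lit 51) (nat_lit 5) (nat_lit 52) (nat_lit 5) (nat_lit 329) (nat_lit 244) (nat_lit 207)))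 (XT.nd (nat_lit 78) (nat_lit 152) (nat_lit 0) (XT.lf (nat_lit 0) (nat_lit 8885880709) (nat_lit 304) (nat_lit 4533334983) (nat_lit 76) (nat_lit 353617082) (nat_lit 48) (nat_lit 5) (nat_lit 52) (nat_lit 5) (nat_lit 49) (nat_lit 4) (nat_lit 330) (nat_lit 244) (nat_lit 206)) (XT.lf (nat_lit 0) (nat_lit 2709407850) (nat_lit 152) (nat_lit 9900417865) (nat_lit 228) (nat_lit 1440835410) (nat_lit 46) (nat_lit 5) (nat_lit 48) (nat_lit 5) (nat_lit 49) (nat_lit 4) (nat_lit 331) (nat_lit 244) (nat_lit 205))))))))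
noncomputable def xc65 : XT := (XT.nd (nat_lit 2184) (nat_lit 836) (nat_lit 0) (XT.nd (nat_lit 1092) (nat_lit 836) (nat_lit 0) (XT.nd (nat_lit 546) (nat_lit 456) (nat_lit 0) (XT.nd (nat_lit 234) (nat_lit 380) (nat_lit 0) (XT.nd (nat_lit 78) (nat_lit 152) (nat_lit 0) (XT.lf (nat_lit 0) (nat_lit 2062167678) (nat_lit 228) (nat_lit 4179758018) (nat_lit 76) (nat_lit 8094477604) (nat_lit 45) (nat_lit 5) (nat_lit 48) (nat_lit 5) (nat_lit 46) (nat_lit 5) (nat_lit 332) (nat_lit 244) (nat_lit 204)) (XT.nd (nat_lit 78) (nat_lit 0) (nat_lit 0) (XT.lf (nat_lit 0) (nat_lit 3160547448) (nat_lit 152) (nat_lit 2461057045) (nat_lit 228) (nat_lit 9009301997) (nat_lit 43) (nat_lit 5) (nat_lit 45) (nat_lit 5) (nat_lit 46) (nat_lit 5) (nat_lit 333) (nat_lit 244) (nat_lit 203)) (XT.lf (nat_lit 0) (nat_lit 9294493815) (nat_lit 228) (nat_lit 4224243366) (nat_lit 76) (nat_lit 1415332571) (nat_lit 43) (nat_lit 5) (nat_lit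 46) (nat_lit 5) (nat_lit 44) (nat_lit 4) (nat_lit 334) (nat_lit 244) (nat_lit 202)))) (XT.nd (nat_lit 156) (nat_lit 152) (nat_lit 0) (XT.nd (nat_lit 78) (nat_lit 76) (nat_lit 0) (XT.lf (nat_lit 0) (nat_lit 3195880384) (nat_lit 152) (nat_lit 9888492612) (nat_lit 228) (nat_lit 2161775148) (nat_lit 41) (nat_lit 5) (nat_lit 43) (nat_lit 5) (nat_lit 44) (nat_lit 4) (nat_lit 335) (nat_lit 244) (nat_lit 201)) (XT.lf (nat_lit 0) (nat_lit 1387574623) (nat_lit 228) (nat_lit 4736739238) (nat_lit 76) (nat_lit 9443040419) (nat_lit 40) (nat_lit 5) (nat_lit 43) (nat_lit 5) (nat_lit 41) (nat_lit 5) (nat_lit 336) (nat_lit 244) (nat_lit 200))) (XT.nd (nat_lit 78) (nat_lit 0) (nat_lit 0) (XT.lf (nat_lit 0) (nat_lit 2749259739) (nat_lit 152) (nat_lit 2230377908) (nat_lit 228) (nat_lit 10918548638) (nat_lit 38) (nat_lit 5) (nat_lit 40) (nat_lit 5) (nat_lit 41) (nat_lit 5) (nat_lit 337) (nat_lit 244) (nat_lit 199))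 (XT.lf (nat_lit 0) (nat_lit 8698434411) (nat_lit 228) (nat_lit 5777657696) (nat_lit 76) (nat_lit 1762303602) (nat_lit 38) (nat_lit 5) (nat_lit 41) (nat_lit 5) (nat_lit 39) (nat_lit 4) (nat_lit 338) (nat_lit 244) (nat_lit 198))))) (XT.nd (nat_lit 234) (nat_lit 76) (nat_lit 0) (XT.nd (nat_lit 78) (nat_lit 228) (nat_lit 0) (XT.lf (nat_lit 0) (nat_lit 1749624293) (nat_lit 152) (nat_lit 10772977458) (nat_lit 228) (nat_lit 4066416450) (nat_lit 36) (nat_lit 5) (nat_lit 38) (nat_lit 5) (nat_lit 39) (nat_lit 4) (nat_lit 339) (nat_lit 244) (nat_lit 197)) (XT.nd (nat_lit 78) (nat_lit 228) (nat_lit 0) (XT.lf (nat_lit 0) (nat_lit 9544734313) (nat_lit 152) (nat_lit 6930586857) (nat_lit 228) (nat_lit 474443762) (nat_lit 36) (nat_lit 5) (nat_lit 38) (nat_lit 5) (nat_lit 39) (nat_lit 4) (nat_lit 340) (nat_lit 244) (nat_lit 196)) (XT.lf (nat_lit 0) (nat_lit 149182225) (nat_lit 152) (nat_lit 2970936239) (nat_lit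 228) (nat_lit 14201571681) (nat_lit 33) (nat_lit 5) (nat_lit 35) (nat_lit 5) (nat_lit 36) (nat_lit 5) (nat_lit 341) (nat_lit 244) (nat_lit 195)))) (XT.nd (nat_lit 156) (nat_lit 76) (nat_lit 0) (XT.nd (nat_lit 78) (nat_lit 0) (nat_lit 0) (XT.lf (nat_lit 0) (nat_lit 6855734468) (nat_lit 228) (nat_lit 9712160752) (nat_lit 76) (nat_lit 1135473034) (nat_lit 33) (nat_lit 5) (nat_lit 36) (nat_lit 5) (nat_lit 34) (nat_lit 4) (nat_lit 342) (nat_lit 244) (nat_lit 194)) (XT.lf (nat_lit 0) (nat_lit 10690688635) (nat_lit 228) (nat_lit 2130587718) (nat_lit 76) (nat_lit 5275620365) (nat_lit 33) (nat_lit 5) (nat_lit 36) (nat_lit 5) (nat_lit 34) (nat_lit 4) (nat_lit 343) (nat_lit 244) (nat_lit 193))) (XT.nd (nat_lit 78) (nat_lit 0) (nat_lit 0) (XT.lf (nat_lit 0) (nat_lit 5718992452) (nat_lit 76) (nat_lit 8935755440) (nat_lit 152) (nat_lit 3847079026) (nat_lit 32) (nat_lit 5) (nat_lit 33) (nat_lit 5) (nat_lit 34)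 (nat_lit 4) (nat_lit 344) (nat_lit 244) (nat_lit 192)) (XT.lf (nat_lit 0) (nat_lit 13777393247) (nat_lit 76) (nat_lit 4941448069) (nat_lit 152) (nat_lit 200647399) (nat_lit 32) (nat_lit 5) (nat_lit 33) (nat_lit 5) (nat_lit 34) (nat_lit 4) (nat_lit 345) (nat_lit 244) (nat_lit 191)))))) (XT.nd (nat_lit 546) (nat_lit 304) (nat_lit 0) (XT.nd (nat_lit 234) (nat_lit 304) (nat_lit 0) (XT.nd (nat_lit 78) (nat_lit 0) (nat_lit 0) (XT.lf (nat_lit 0) (nat_lit 2676827958) (nat_lit 152) (nat_lit 795075995) (nat_lit 228) (nat_lit 15877184229) (nat_lit 29) (nat_lit 5) (nat_lit 31) (nat_lit 5) (nat_lit 32) (nat_lit 5) (nat_lit 346) (nat_lit 244) (nat_lit 190)) (XT.nd (nat_lit 78) (nat_lit 0) (nat_lit 0) (XT.lf (nat_lit 0) (nat_lit 7297033499) (nat_lit 228) (nat_lit 9059530456) (nat_lit 76) (nat_lit 3433574662) (nat_lit 29) (nat_lit 5) (nat_lit 32) (nat_lit 5) (nat_lit 30) (nat_lit 4) (nat_lit 347) (nat_lit 244)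 (nat_lit 189)) (XT.lf (nat_lit 0) (nat_lit 11206521825) (nat_lit 228) (nat_lit 1293599989) (nat_lit 76) (nat_lit 7745225763) (nat_lit 29) (nat_lit 5) (nat_lit 32) (nat_lit 5) (nat_lit 30) (nat_lit 4) (nat_lit 348) (nat_lit 244) (nat_lit 188)))) (XT.nd (nat_lit 156) (nat_lit 228) (nat_lit 0) (XT.nd (nat_lit 78) (nat_lit 0) (nat_lit 0) (XT.lf (nat_lit 0) (nat_lit 6772107915) (nat_lit 76) (nat_lit 8489131963) (nat_lit 152) (nat_lit 5452149296) (nat_lit 28) (nat_lit 5) (nat_lit 29) (nat_lit 5) (nat_lit 30) (nat_lit 4) (nat_lit 349) (nat_lit 244) (nat_lit 187)) (XT.lf (nat_lit 0) (nat_lit 15041596567) (nat_lit 76) (nat_lit 4372373262) (nat_lit 152) (nat_lit 1782225369) (nat_lit 28) (nat_lit 5) (nat_lit 29) (nat_lit 5) (nat_lit 30) (nat_lit 4) (nat_lit 350) (nat_lit 244) (nat_lit 186))) (XT.nd (nat_lit 78) (nat_lit 0) (nat_lit 0) (XT.lf (nat_lit 0) (nat_lit 1818411121) (nat_lit 152) (nat_lit 121890565)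 (nat_lit 228) (nat_lit 19753176377) (nat_lit 25) (nat_lit 5) (nat_lit 27) (nat_lit 5) (nat_lit 28) (nat_lit 5) (nat_lit 351) (nat_lit 244) (nat_lit 185)) (XT.lf (nat_lit 0) (nat_lit 5806550647) (nat_lit 228) (nat_lit 12169960216) (nat_lit 76) (nat_lit 4226616243) (nat_lit 25) (nat_lit 5) (nat_lit 28) (nat_lit 5) (nat_lit 26) (nat_lit 4) (nat_lit 352) (nat_lit 244) (nat_lit 184))))) (XT.nd (nat_lit 234) (nat_lit 228) (nat_lit 0) (XT.nd (nat_lit 78) (nat_lit 76) (nat_lit 0) (XT.lf (nat_lit 0) (nat_lit 9755226963) (nat_lit 228) (nat_lit 4296796688) (nat_lit 76) (nat_lit 8677061470) (nat_lit 25) (nat_lit 5) (nat_lit 28) (nat_lit 5) (nat_lit 26) (nat_lit 4) (nat_lit 353) (nat_lit 244) (nat_lit 183)) (XT.nd (nat_lit 78) (nat_lit 0) (nat_lit 0) (XT.lf (nat_lit 0) (nat_lit 3827156397) (nat_lit 76) (nat_lit 9998241818) (nat_lit 152) (nat_lit 9445344949) (nat_lit 24) (nat_lit 5) (nat_lit 25) (nat_lit 5)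 (nat_lit 26) (nat_lit 4) (nat_lit 354) (nat_lit 244) (nat_lit 182)) (XT.lf (nat_lit 0) (nat_lit 12223410327) (nat_lit 76) (nat_lit 5804310382) (nat_lit 152) (nat_lit 5800640823) (nat_lit 24) (nat_lit 5) (nat_lit 25) (nat_lit 5) (nat_lit 26) (nat_lit 4) (nat_lit 355) (nat_lit 244) (nat_lit 181)))) (XT.nd (nat_lit 156) (nat_lit 0) (nat_lit 0) (XT.nd (nat_lit 78) (nat_lit 228) (nat_lit 0) (XT.lf (nat_lit 0) (nat_lit 20813786957) (nat_lit 76) (nat_lit 1509953966) (nat_lit 152) (nat_lit 2079950308) (nat_lit 24) (nat_lit 5) (nat_lit 25) (nat_lit 5) (nat_lit 26) (nat_lit 4) (nat_lit 356) (nat_lit 244) (nat_lit 180)) (XT.lf (nat_lit 0) (nat_lit 1759810801) (nat_lit 228) (nat_lit 20340350341) (nat_lit 76) (nat_lit 2894375945) (nat_lit 21) (nat_lit 5) (nat_lit 24) (nat_lit 5) (nat_lit 22) (nat_lit 4) (nat_lit 357) (nat_lit 244) (nat_lit 179))) (XT.nd (nat_lit 78) (nat_lit 0) (nat_lit 0) (XT.lf (nat_lit 0)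 (nat_lit 5692914875) (nat_lit 228) (nat_lit 12475615690) (nat_lit 76) (nat_lit 7433371927) (nat_lit 21) (nat_lit 5) (nat_lit 24) (nat_lit 5) (nat_lit 22) (nat_lit 4) (nat_lit 358) (nat_lit 244) (nat_lit 178)) (XT.lf (nat_lit 0) (nat_lit 9713327723) (nat_lit 228) (nat_lit 4430164621) (nat_lit 76) (nat_lit 12084927371) (nat_lit 21) (nat_lit 5) (nat_lit 24) (nat_lit 5) (nat_lit 22) (nat_lit 4) (nat_lit 359) (nat_lit 244) (nat_lit 177))))))) (XT.nd (nat_lit 1092) (nat_lit 304) (nat_lit 0) (XT.nd (nat_lit 546) (nat_lit 228) (nat_lit 0) (XT.nd (nat_lit 234) (nat_lit 228) (nat_lit 0) (XT.nd (nat_lit 78) (nat_lit 0) (nat_lit 0) (XT.lf (nat_lit 0) (nat_lit 3878720683) (nat_lit 76) (nat_lit 9983126277) (nat_lit 152) (nat_lit 13011670696) (nat_lit 20) (nat_lit 5) (nat_lit 21) (nat_lit 5) (nat_lit 22) (nat_lit 4) (nat_lit 360) (nat_lit 244) (nat_lit 176)) (XT.nd (nat_lit 78) (nat_lit 0) (nat_lit 0) (XT.lf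 (nat_lit 0) (nat_lit 12474595128) (nat_lit 76) (nat_lit 5675529333) (nat_lit 152) (nat_lit 9387394725) (nat_lit 20) (nat_lit 5) (nat_lit 21) (nat_lit 5) (nat_lit 22) (nat_lit 4) (nat_lit 361) (nat_lit 244) (nat_lit 175)) (XT.lf (nat_lit 0) (nat_lit 21276800710) (nat_lit 76) (nat_lit 1261673568) (nat_lit 152) (nat_lit 5683833213) (nat_lit 20) (nat_lit 5) (nat_lit 21) (nat_lit 5) (nat_lit 22) (nat_lit 4) (nat_lit 362) (nat_lit 244) (nat_lit 174)))) (XT.nd (nat_lit 156) (nat_lit 0) (nat_lit 0) (XT.nd (nat_lit 78) (nat_lit 76) (nat_lit 0) (XT.lf (nat_lit 0) (nat_lit 1359721611) (nat_lit 152) (nat_lit 25715438956) (nat_lit 152) (nat_lit 1851987469) (nat_lit 18) (nat_lit 4) (nat_lit 20) (nat_lit 5) (nat_lit 20) (nat_lit 4) (nat_lit 363) (nat_lit 244) (nat_lit 173)) (XT.lf (nat_lit 0) (nat_lit 2109350210) (nat_lit 228) (nat_lit 19678607855) (nat_lit 76) (nat_lit 7862917864) (nat_lit 17) (nat_lit 5) (nat_lit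 20) (nat_lit 5) (nat_lit 18) (nat_lit 4) (nat_lit 364) (nat_lit 244) (nat_lit 172))) (XT.nd (nat_lit 78) (nat_lit 0) (nat_lit 0) (XT.lf (nat_lit 0) (nat_lit 6125209459) (nat_lit 228) (nat_lit 11620721633) (nat_lit 76) (nat_lit 12650655728) (nat_lit 17) (nat_lit 5) (nat_lit 20) (nat_lit 5) (nat_lit 18) (nat_lit 4) (nat_lit 365) (nat_lit 244) (nat_lit 171)) (XT.lf (nat_lit 0) (nat_lit 10235238228) (nat_lit 228) (nat_lit 3368924450) (nat_lit 76) (nat_lit 17561303697) (nat_lit 17) (nat_lit 5) (nat_lit 20) (nat_lit 5) (nat_lit 18) (nat_lit 4) (nat_lit 366) (nat_lit 244) (nat_lit 170))))) (XT.nd (nat_lit 234) (nat_lit 152) (nat_lit 0) (XT.nd (nat_lit 78) (nat_lit 0) (nat_lit 0) (XT.lf (nat_lit 0) (nat_lit 5185175449) (nat_lit 76) (nat_lit 9307695431) (nat_lit 152) (nat_lit 17463820258) (nat_lit 16) (nat_lit 5) (nat_lit 17) (nat_lit 5) (nat_lit 18) (nat_lit 4) (nat_lit 367) (nat_lit 244) (nat_lit 169))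 (XT.nd (nat_lit 78) (nat_lit 0) (nat_lit 0) (XT.lf (nat_lit 0) (nat_lit 14018980569) (nat_lit 76) (nat_lit 4868033340) (nat_lit 152) (nat_lit 13884382975) (nat_lit 16) (nat_lit 5) (nat_lit 17) (nat_lit 5) (nat_lit 18) (nat_lit 4) (nat_lit 368) (nat_lit 244) (nat_lit 168)) (XT.lf (nat_lit 0) (nat_lit 23073161566) (nat_lit 76) (nat_lit 315316620) (nat_lit 152) (nat_lit 10222808166) (nat_lit 16) (nat_lit 5) (nat_lit 17) (nat_lit 5) (nat_lit 18) (nat_lit 4) (nat_lit 369) (nat_lit 244) (nat_lit 167)))) (XT.nd (nat_lit 156) (nat_lit 76) (nat_lit 0) (XT.nd (nat_lit 78) (nat_lit 76) (nat_lit 0) (XT.lf (nat_lit 0) (nat_lit 28043054501) (nat_lit 152) (nat_lit 2163321038) (nat_lit 0) (nat_lit 4269462162) (nat_lit 16) (nat_lit 5) (nat_lit 18) (nat_lit 4) (nat_lit 16) (nat_lit 4) (nat_lit 370) (nat_lit 244) (nat_lit 166)) (XT.lf (nat_lit 0) (nat_lit 6544722646) (nat_lit 76) (nat_lit 26335300372) (nat_lit 76)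 (nat_lit 2485026956) (nat_lit 15) (nat_lit 4) (nat_lit 16) (nat_lit 5) (nat_lit 16) (nat_lit 4) (nat_lit 371) (nat_lit 244) (nat_lit 165))) (XT.nd (nat_lit 78) (nat_lit 0) (nat_lit 0) (XT.lf (nat_lit 0) (nat_lit 1549128622) (nat_lit 152) (nat_lit 20779989960) (nat_lit 76) (nat_lit 13951406061) (nat_lit 14) (nat_lit 5) (nat_lit 16) (nat_lit 5) (nat_lit 15) (nat_lit 4) (nat_lit 372) (nat_lit 244) (nat_lit 164)) (XT.lf (nat_lit 0) (nat_lit 5631798423) (nat_lit 152) (nat_lit 12564449535) (nat_lit 76) (nat_lit 19027160818) (nat_lit 14) (nat_lit 5) (nat_lit 16) (nat_lit 5) (nat_lit 15) (nat_lit 4) (nat_lit 373) (nat_lit 244) (nat_lit 163)))))) (XT.nd (nat_lit 546) (nat_lit 152) (nat_lit 0) (XT.nd (nat_lit 234) (nat_lit 76) (nat_lit 0) (XT.nd (nat_lit 78) (nat_lit 76) (nat_lit 0) (XT.lf (nat_lit 0) (nat_lit 9815041653) (nat_lit 152) (nat_lit 4142639826) (nat_lit 76) (nat_lit 24237561399) (nat_lit 14)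 (nat_lit 5) (nat_lit 16) (nat_lit 5) (nat_lit 15) (nat_lit 4) (nat_lit 374) (nat_lit 244) (nat_lit 162)) (XT.nd (nat_lit 78) (nat_lit 0) (nat_lit 0) (XT.lf (nat_lit 0) (nat_lit 4582213519) (nat_lit 76) (nat_lit 9564347095) (nat_lit 152) (nat_lit 25048994100) (nat_lit 13) (nat_lit 5) (nat_lit 14) (nat_lit 5) (nat_lit 15) (nat_lit 4) (nat_lit 375) (nat_lit 244) (nat_lit 161)) (XT.lf (nat_lit 0) (nat_lit 13615088987) (nat_lit 76) (nat_lit 5013748100) (nat_lit 152) (nat_lit 21596420349) (nat_lit 13) (nat_lit 5) (nat_lit 14) (nat_lit 5) (nat_lit 15) (nat_lit 4) (nat_lit 376) (nat_lit 244) (nat_lit 160)))) (XT.nd (nat_lit 156) (nat_lit 76) (nat_lit 0) (XT.nd (nat_lit 78) (nat_lit 0) (nat_lit 0) (XT.lf (nat_lit 0) (nat_lit 22881432723) (nat_lit 76) (nat_lit 343740783) (nat_lit 152) (nat_lit 18061295698) (nat_lit 13) (nat_lit 5) (nat_lit 14) (nat_lit 5) (nat_lit 15) (nat_lit 4) (nat_lit 377) (nat_lit 244)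 (nat_lit 159)) (XT.lf (nat_lit 0) (nat_lit 27982359861) (nat_lit 152) (nat_lit 10033549532) (nat_lit 0) (nat_lit 4362924687) (nat_lit 13) (nat_lit 5) (nat_lit 15) (nat_lit 4) (nat_lit 13) (nat_lit 4) (nat_lit 378) (nat_lit 244) (nat_lit 158))) (XT.nd (nat_lit 78) (nat_lit 76) (nat_lit 0) (XT.lf (nat_lit 0) (nat_lit 32866273329) (nat_lit 152) (nat_lit 1450113122) (nat_lit 0) (nat_lit 9188068493) (nat_lit 13) (nat_lit 5) (nat_lit 15) (nat_lit 4) (nat_lit 13) (nat_lit 4) (nat_lit 379) (nat_lit 244) (nat_lit 157)) (XT.lf (nat_lit 0) (nat_lit 7502477442) (nat_lit 76) (nat_lit 30447518120) (nat_lit 76) (nat_lit 6712255361) (nat_lit 12) (nat_lit 4) (nat_lit 13) (nat_lit 5) (nat_lit 13) (nat_lit 4) (nat_lit 380) (nat_lit 244) (nat_lit 156))))) (XT.nd (nat_lit 234) (nat_lit 76) (nat_lit 0) (XT.nd (nat_lit 78) (nat_lit 76) (nat_lit 0) (XT.lf (nat_lit 0) (nat_lit 16718963006) (nat_lit 76) (nat_lit 26463300321)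 (nat_lit 76) (nat_lit 2672641520) (nat_lit 12) (nat_lit 4) (nat_lit 13) (nat_lit 5) (nat_lit 13) (nat_lit 4) (nat_lit 381) (nat_lit 244) (nat_lit 155)) (XT.nd (nat_lit 78) (nat_lit 0) (nat_lit 0) (XT.lf (nat_lit 0) (nat_lit 1440870226) (nat_lit 152) (nat_lit 20919474806) (nat_lit 76) (nat_lit 24723116522) (nat_lit 11) (nat_lit 5) (nat_lit 13) (nat_lit 5) (nat_lit 12) (nat_lit 4) (nat_lit 382) (nat_lit 244) (nat_lit 154)) (XT.lf (nat_lit 0) (nat_lit 5606350330) (nat_lit 152) (nat_lit 12515766278) (nat_lit 76) (nat_lit 30226500735) (nat_lit 11) (nat_lit 5) (nat_lit 13) (nat_lit 5) (nat_lit 12) (nat_lit 4) (nat_lit 383) (nat_lit 244) (nat_lit 153)))) (XT.nd (nat_lit 156) (nat_lit 0) (nat_lit 0) (XT.nd (nat_lit 78) (nat_lit 76) (nat_lit 0) (XT.lf (nat_lit 0) (nat_lit 9879591393) (nat_lit 152) (nat_lit 3891782147) (nat_lit 76) (nat_lit 35880874882) (nat_lit 11) (nat_lit 5) (nat_lit 13) (nat_lit 5) (nat_lit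 12) (nat_lit 4) (nat_lit 384) (nat_lit 244) (nat_lit 152)) (XT.lf (nat_lit 0) (nat_lit 5058727093) (nat_lit 76) (nat_lit 9254227800) (nat_lit 152) (nat_lit 36681080164) (nat_lit 10) (nat_lit 5) (nat_lit 11) (nat_lit 5) (nat_lit 12) (nat_lit 4) (nat_lit 385) (nat_lit 244) (nat_lit 151))) (XT.nd (nat_lit 78) (nat_lit 0) (nat_lit 0) (XT.lf (nat_lit 0) (nat_lit 14326923953) (nat_lit 76) (nat_lit 4575184621) (nat_lit 152) (nat_lit 33473287292) (nat_lit 10) (nat_lit 5) (nat_lit 11) (nat_lit 5) (nat_lit 12) (nat_lit 4) (nat_lit 386) (nat_lit 244) (nat_lit 150)) (XT.lf (nat_lit 0) (nat_lit 23615123790) (nat_lit 152) (nat_lit 29957445885) (nat_lit 0) (nat_lit 226046346) (nat_lit 10) (nat_lit 5) (nat_lit 12) (nat_lit 4) (nat_lit 10) (nat_lit 4) (nat_lit 387) (nat_lit 244) (nat_lit 149))))))))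
noncomputable def xc66 : XT := (XT.nd (nat_lit 33228) (nat_lit 0) (nat_lit 4636) (XT.nd (nat_lit 1014) (nat_lit 76) (nat_lit 0) (XT.nd (nat_lit 468) (nat_lit 152) (nat_lit 0) (XT.nd (nat_lit 234) (nat_lit 76) (nat_lit 0) (XT.nd (nat_lit 78) (nat_lit 0) (nat_lit 0) (XT.lf (nat_lit 0) (nat_lit 28499138258) (nat_lit 152) (nat_lit 21698179602) (nat_lit 0) (nat_lit 5066330667) (nat_lit 10) (nat_lit 5) (nat_lit 12) (nat_lit 4) (nat_lit 10) (nat_lit 4) (nat_lit 388) (nat_lit 244) (nat_lit 148)) (XT.nd (nat_lit 78) (nat_lit 0) (nat_lit 0) (XT.lf (nat_lit 0) (nat_lit 33514440091) (nat_lit 152) (nat_lit 13219476755) (nat_lit 0) (nat_lit 10039176046) (nat_lit 10) (nat_lit 5) (nat_lit 12) (nat_lit 4) (nat_lit 10) (nat_lit 4) (nat_lit 389) (nat_lit 244) (nat_lit 147)) (XT.lf (nat_lit 0) (nat_lit 38665411591) (nat_lit 152) (nat_lit 4513928769) (nat_lit 0) (nat_lit 15148927688) (nat_lit 10) (nat_lit 5) (nat_lit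 12) (nat_lit 4) (nat_lit 10) (nat_lit 4) (nat_lit 390) (nat_lit 244) (nat_lit 146)))) (XT.nd (nat_lit 78) (nat_lit 0) (nat_lit 0) (XT.lf (nat_lit 0) (nat_lit 4514158639) (nat_lit 76) (nat_lit 39485787822) (nat_lit 76) (nat_lit 15929284639) (nat_lit 9) (nat_lit 4) (nat_lit 10) (nat_lit 5) (nat_lit 10) (nat_lit 4) (nat_lit 391) (nat_lit 244) (nat_lit 145)) (XT.nd (nat_lit 78) (nat_lit 0) (nat_lit 0) (XT.lf (nat_lit 0) (nat_lit 13879167180) (nat_lit 76) (nat_lit 35646737333) (nat_lit 76) (nat_lit 12051380480) (nat_lit 9) (nat_lit 4) (nat_lit 10) (nat_lit 5) (nat_lit 10) (nat_lit 4) (nat_lit 392) (nat_lit 244) (nat_lit 144)) (XT.lf (nat_lit 0) (nat_lit 23499443837) (nat_lit 76) (nat_lit 31704416211) (nat_lit 76) (nat_lit 8071337350) (nat_lit 9) (nat_lit 4) (nat_lit 10) (nat_lit 5) (nat_lit 10) (nat_lit 4) (nat_lit 393) (nat_lit 244) (nat_lit 143))))) (XT.nd (nat_lit 234) (nat_lit 76) (nat_lit 0) (XT.nd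 (nat_lit 78) (nat_lit 76) (nat_lit 0) (XT.lf (nat_lit 0) (nat_lit 33383394677) (nat_lit 76) (nat_lit 27655379711) (nat_lit 76) (nat_lit 3985677540) (nat_lit 9) (nat_lit 4) (nat_lit 10) (nat_lit 5) (nat_lit 10) (nat_lit 4) (nat_lit 394) (nat_lit 244) (nat_lit 142)) (XT.nd (nat_lit 78) (nat_lit 0) (nat_lit 0) (XT.lf (nat_lit 0) (nat_lit 205087302) (nat_lit 152) (nat_lit 23288931557) (nat_lit 76) (nat_lit 43332497880) (nat_lit 8) (nat_lit 5) (nat_lit 10) (nat_lit 5) (nat_lit 9) (nat_lit 4) (nat_lit 395) (nat_lit 244) (nat_lit 141)) (XT.lf (nat_lit 0) (nat_lit 4428727144) (nat_lit 152) (nat_lit 14749463661) (nat_lit 76) (nat_lit 49503654091) (nat_lit 8) (nat_lit 5) (nat_lit 10) (nat_lit 5) (nat_lit 9) (nat_lit 4) (nat_lit 396) (nat_lit 244) (nat_lit 140)))) (XT.nd (nat_lit 156) (nat_lit 0) (nat_lit 0) (XT.nd (nat_lit 78) (nat_lit 76) (nat_lit 0) (XT.lf (nat_lit 0) (nat_lit 8766707467) (nat_lit 152)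 (nat_lit 5976879122) (nat_lit 76) (nat_lit 55849620354) (nat_lit 8) (nat_lit 5) (nat_lit 10) (nat_lit 5) (nat_lit 9) (nat_lit 4) (nat_lit 397) (nat_lit 244) (nat_lit 139)) (XT.lf (nat_lit 0) (nat_lit 3096919479) (nat_lit 76) (nat_lit 10155668746) (nat_lit 152) (nat_lit 59308791692) (nat_lit 7) (nat_lit 5) (nat_lit 8) (nat_lit 5) (nat_lit 9) (nat_lit 4) (nat_lit 398) (nat_lit 244) (nat_lit 138))) (XT.nd (nat_lit 78) (nat_lit 0) (nat_lit 0) (XT.lf (nat_lit 0) (nat_lit 12543276237) (nat_lit 76) (nat_lit 5378252060) (nat_lit 152) (nat_lit 56665618106) (nat_lit 7) (nat_lit 5) (nat_lit 8) (nat_lit 5) (nat_lit 9) (nat_lit 4) (nat_lit 399) (nat_lit 244) (nat_lit 137)) (XT.lf (nat_lit 0) (nat_lit 22251493636) (nat_lit 76) (nat_lit 467516850) (nat_lit 152) (nat_lit 53955023911) (nat_lit 7) (nat_lit 5) (nat_lit 8) (nat_lit 5) (nat_lit 9) (nat_lit 4) (nat_lit 400) (nat_lit 244) (nat_lit 136)))))) (XT.nd (nat_lit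 546) (nat_lit 0) (nat_lit 0) (XT.nd (nat_lit 234) (nat_lit 76) (nat_lit 0) (XT.nd (nat_lit 78) (nat_lit 0) (nat_lit 0) (XT.lf (nat_lit 0) (nat_lit 27693260487) (nat_lit 152) (nat_lit 46637846529) (nat_lit 0) (nat_lit 4491439366) (nat_lit 7) (nat_lit 5) (nat_lit 9) (nat_lit 4) (nat_lit 7) (nat_lit 4) (nat_lit 401) (nat_lit 244) (nat_lit 135)) (XT.nd (nat_lit 78) (nat_lit 0) (nat_lit 0) (XT.lf (nat_lit 0) (nat_lit 32810411782) (nat_lit 152) (nat_lit 38644772359) (nat_lit 0) (nat_lit 9580521944) (nat_lit 7) (nat_lit 5) (nat_lit 9) (nat_lit 4) (nat_lit 7) (nat_lit 4) (nat_lit 402) (nat_lit 244) (nat_lit 134)) (XT.lf (nat_lit 0) (nat_lit 38070441612) (nat_lit 152) (nat_lit 30431839955) (nat_lit 0) (nat_lit 14813300591) (nat_lit 7) (nat_lit 5) (nat_lit 9) (nat_lit 4) (nat_lit 7) (nat_lit 4) (nat_lit 403) (nat_lit 244) (nat_lit 133)))) (XT.nd (nat_lit 156) (nat_lit 76) (nat_lit 0) (XT.nd (nat_lit 78)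 (nat_lit 0) (nat_lit 0) (XT.lf (nat_lit 0) (nat_lit 43477946118) (nat_lit 152) (nat_lit 21991872968) (nat_lit 0) (nat_lit 20194347639) (nat_lit 7) (nat_lit 5) (nat_lit 9) (nat_lit 4) (nat_lit 7) (nat_lit 4) (nat_lit 404) (nat_lit 244) (nat_lit 132)) (XT.lf (nat_lit 0) (nat_lit 49037650305) (nat_lit 152) (nat_lit 13317496670) (nat_lit 0) (nat_lit 25728364973) (nat_lit 7) (nat_lit 5) (nat_lit 9) (nat_lit 4) (nat_lit 7) (nat_lit 4) (nat_lit 405) (nat_lit 244) (nat_lit 131))) (XT.nd (nat_lit 78) (nat_lit 76) (nat_lit 0) (XT.lf (nat_lit 0) (nat_lit 54754412166) (nat_lit 152) (nat_lit 4401131508) (nat_lit 0) (nat_lit 31420188143) (nat_lit 7) (nat_lit 5) (nat_lit 9) (nat_lit 4) (nat_lit 7) (nat_lit 4) (nat_lit 406) (nat_lit 244) (nat_lit 130)) (XT.lf (nat_lit 0) (nat_lit 4859846627) (nat_lit 76) (nat_lit 55820096123) (nat_lit 76) (nat_lit 32461659777) (nat_lit 6) (nat_lit 4) (nat_lit 7) (nat_lit 5) (nat_lit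 7) (nat_lit 4) (nat_lit 407) (nat_lit 244) (nat_lit 129))))) (XT.nd (nat_lit 234) (nat_lit 0) (nat_lit 0) (XT.nd (nat_lit 78) (nat_lit 0) (nat_lit 0) (XT.lf (nat_lit 0) (nat_lit 14471335533) (nat_lit 76) (nat_lit 52347003224) (nat_lit 76) (nat_lit 28965059769) (nat_lit 6) (nat_lit 4) (nat_lit 7) (nat_lit 5) (nat_lit 7) (nat_lit 4) (nat_lit 408) (nat_lit 244) (nat_lit 128)) (XT.nd (nat_lit 78) (nat_lit 0) (nat_lit 0) (XT.lf (nat_lit 0) (nat_lit 24354142452) (nat_lit 76) (nat_lit 48777673036) (nat_lit 76) (nat_lit 25372907145) (nat_lit 6) (nat_lit 4) (nat_lit 7) (nat_lit 5) (nat_lit 7) (nat_lit 4) (nat_lit 409) (nat_lit 244) (nat_lit 127)) (XT.lf (nat_lit 0) (nat_lit 34516902846) (nat_lit 76) (nat_lit 45108986727) (nat_lit 76) (nat_lit 21682063131) (nat_lit 6) (nat_lit 4) (nat_lit 7) (nat_lit 5) (nat_lit 7) (nat_lit 4) (nat_lit 410) (nat_lit 244) (nat_lit 126)))) (XT.nd (nat_lit 31278) (nat_lit 0)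 (nat_lit 11780) (XT.nd (nat_lit 31200) (nat_lit 0) (nat_lit 12920) (XT.lf (nat_lit 0) (nat_lit 44968496796) (nat_lit 76) (nat_lit 41337738648) (nat_lit 76) (nat_lit 17889302718) (nat_lit 6) (nat_lit 4) (nat_lit 7) (nat_lit 5) (nat_lit 7) (nat_lit 4) (nat_lit 411) (nat_lit 244) (nat_lit 125)) (XT.lf (nat_lit 0) (nat_lit 3487842584) (nat_lit 608) (nat_lit 126472820) (nat_lit 608) (nat_lit 126472820) (nat_lit 176) (nat_lit 4) (nat_lit 184) (nat_lit 5) (nat_lit 184) (nat_lit 4) (nat_lit 290) (nat_lit 245) (nat_lit 245))) (XT.nd (nat_lit 78) (nat_lit 532) (nat_lit 0) (XT.lf (nat_lit 0) (nat_lit 3105273684) (nat_lit 608) (nat_lit 2774709765) (nat_lit 0) (nat_lit 1674491725) (nat_lit 168) (nat_lit 5) (nat_lit 176) (nat_lit 4) (nat_lit 168) (nat_lit 4) (nat_lit 291) (nat_lit 245) (nat_lit 244)) (XT.lf (nat_lit 0) (nat_lit 2544081160) (nat_lit 532) (nat_lit 3953632911) (nat_lit 532) (nat_lit 1133742253)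 (nat_lit 161) (nat_lit 4) (nat_lit 168) (nat_lit 5) (nat_lit 168) (nat_lit 4) (nat_lit 292) (nat_lit 245) (nat_lit 243))))))) (XT.nd (nat_lit 1092) (nat_lit 2888) (nat_lit 0) (XT.nd (nat_lit 546) (nat_lit 1748) (nat_lit 0) (XT.nd (nat_lit 234) (nat_lit 1368) (nat_lit 0) (XT.nd (nat_lit 78) (nat_lit 608) (nat_lit 0) (XT.lf (nat_lit 0) (nat_lit 245602864) (nat_lit 456) (nat_lit 1928851689) (nat_lit 532) (nat_lit 5537620916) (nat_lit 154) (nat_lit 5) (nat_lit 160) (nat_lit 5) (nat_lit 161) (nat_lit 4) (nat_lit 293) (nat_lit 245) (nat_lit 242)) (XT.nd (nat_lit 78) (nat_lit 608) (nat_lit 0) (XT.lf (nat_lit 0) (nat_lit 5521183796) (nat_lit 532) (nat_lit 2072020511) (nat_lit 0) (nat_lit 202826460) (nat_lit 154) (nat_lit 5) (nat_lit 161) (nat_lit 4) (nat_lit 154) (nat_lit 4) (nat_lit 294) (nat_lit 245) (nat_lit 241)) (XT.lf (nat_lit 0) (nat_lit 1027535906) (nat_lit 608) (nat_lit 4466664532) (nat_lit 76)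 (nat_lit 2389213602) (nat_lit 146) (nat_lit 5) (nat_lit 154) (nat_lit 5) (nat_lit 147) (nat_lit 4) (nat_lit 295) (nat_lit 245) (nat_lit 240)))) (XT.nd (nat_lit 156) (nat_lit 912) (nat_lit 0) (XT.nd (nat_lit 78) (nat_lit 0) (nat_lit 0) (XT.lf (nat_lit 0) (nat_lit 1031516323) (nat_lit 456) (nat_lit 3294757623) (nat_lit 532) (nat_lit 3648285646) (nat_lit 140) (nat_lit 5) (nat_lit 146) (nat_lit 5) (nat_lit 147) (nat_lit 4) (nat_lit 296) (nat_lit 245) (nat_lit 239)) (XT.lf (nat_lit 0) (nat_lit 6681493806) (nat_lit 456) (nat_lit 1001102381) (nat_lit 532) (nat_lit 387188209) (nat_lit 140) (nat_lit 5) (nat_lit 146) (nat_lit 5) (nat_lit 147) (nat_lit 4) (nat_lit 297) (nat_lit 245) (nat_lit 238))) (XT.nd (nat_lit 78) (nat_lit 380) (nat_lit 0) (XT.lf (nat_lit 0) (nat_lit 2883644952) (nat_lit 532) (nat_lit 3897316227) (nat_lit 76) (nat_lit 1387048616) (nat_lit 133) (nat_lit 5) (nat_lit 140) (nat_lit 5) (nat_lit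 134) (nat_lit 4) (nat_lit 298) (nat_lit 245) (nat_lit 237)) (XT.lf (nat_lit 0) (nat_lit 1775049655) (nat_lit 380) (nat_lit 4427315510) (nat_lit 456) (nat_lit 2068070221) (nat_lit 128) (nat_lit 5) (nat_lit 133) (nat_lit 5) (nat_lit 134) (nat_lit 4) (nat_lit 299) (nat_lit 245) (nat_lit 236))))) (XT.nd (nat_lit 234) (nat_lit 836) (nat_lit 0) (XT.nd (nat_lit 78) (nat_lit 836) (nat_lit 0) (XT.lf (nat_lit 0) (nat_lit 1177113922) (nat_lit 456) (nat_lit 795192541) (nat_lit 76) (nat_lit 6404656967) (nat_lit 127) (nat_lit 5) (nat_lit 133) (nat_lit 5) (nat_lit 128) (nat_lit 5) (nat_lit 300) (nat_lit 245) (nat_lit 235)) (XT.nd (nat_lit 78) (nat_lit 380) (nat_lit 0) (XT.lf (nat_lit 0) (nat_lit 4451831842) (nat_lit 532) (nat_lit 3441325670) (nat_lit 76) (nat_lit 593789913) (nat_lit 121) (nat_lit 5) (nat_lit 128) (nat_lit 5) (nat_lit 122) (nat_lit 4) (nat_lit 301) (nat_lit 245) (nat_lit 234)) (XT.lf (nat_lit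 0) (nat_lit 2401494006) (nat_lit 380) (nat_lit 5394542321) (nat_lit 456) (nat_lit 805141454) (nat_lit 116) (nat_lit 5) (nat_lit 121) (nat_lit 5) (nat_lit 122) (nat_lit 4) (nat_lit 302) (nat_lit 245) (nat_lit 233)))) (XT.nd (nat_lit 156) (nat_lit 380) (nat_lit 0) (XT.nd (nat_lit 78) (nat_lit 380) (nat_lit 0) (XT.lf (nat_lit 0) (nat_lit 2428615357) (nat_lit 456) (nat_lit 356601258) (nat_lit 76) (nat_lit 5934287836) (nat_lit 115) (nat_lit 5) (nat_lit 121) (nat_lit 5) (nat_lit 116) (nat_lit 5) (nat_lit 303) (nat_lit 245) (nat_lit 232)) (XT.lf (nat_lit 0) (nat_lit 5662980676) (nat_lit 380) (nat_lit 57955574) (nat_lit 456) (nat_lit 3120950550) (nat_lit 110) (nat_lit 5) (nat_lit 115) (nat_lit 5) (nat_lit 116) (nat_lit 5) (nat_lit 304) (nat_lit 245) (nat_lit 231))) (XT.nd (nat_lit 78) (nat_lit 0) (nat_lit 0) (XT.lf (nat_lit 0) (nat_lit 122622517) (nat_lit 380) (nat_lit 6140852356) (nat_lit 76) (nat_lit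 2705056381) (nat_lit 105) (nat_lit 5) (nat_lit 110) (nat_lit 5) (nat_lit 106) (nat_lit 5) (nat_lit 305) (nat_lit 245) (nat_lit 230)) (XT.lf (nat_lit 0) (nat_lit 3358516022) (nat_lit 380) (nat_lit 153173695) (nat_lit 76) (nat_lit 5587696583) (nat_lit 105) (nat_lit 5) (nat_lit 110) (nat_lit 5) (nat_lit 106) (nat_lit 5) (nat_lit 306) (nat_lit 245) (nat_lit 229)))))) (XT.nd (nat_lit 546) (nat_lit 1140) (nat_lit 0) (XT.nd (nat_lit 234) (nat_lit 988) (nat_lit 0) (XT.nd (nat_lit 78) (nat_lit 380) (nat_lit 0) (XT.lf (nat_lit 0) (nat_lit 6031842708) (nat_lit 380) (nat_lit 644566059) (nat_lit 456) (nat_lit 2558279013) (nat_lit 100) (nat_lit 5) (nat_lit 105) (nat_lit 5) (nat_lit 106) (nat_lit 5) (nat_lit 307) (nat_lit 245) (nat_lit 228)) (XT.nd (nat_lit 78) (nat_lit 0) (nat_lit 0) (XT.lf (nat_lit 0) (nat_lit 685605172) (nat_lit 380) (nat_lit 6415187060) (nat_lit 76) (nat_lit 2273717202) (nat_lit 95) (nat_lit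 5) (nat_lit 100) (nat_lit 5) (nat_lit 96) (nat_lit 5) (nat_lit 308) (nat_lit 245) (nat_lit 227)) (XT.lf (nat_lit 0) (nat_lit 3942661403) (nat_lit 380) (nat_lit 279055426) (nat_lit 76) (nat_lit 5297093439) (nat_lit 95) (nat_lit 5) (nat_lit 100) (nat_lit 5) (nat_lit 96) (nat_lit 5) (nat_lit 309) (nat_lit 245) (nat_lit 226)))) (XT.nd (nat_lit 156) (nat_lit 304) (nat_lit 0) (XT.nd (nat_lit 78) (nat_lit 380) (nat_lit 0) (XT.lf (nat_lit 0) (nat_lit 6060907543) (nat_lit 304) (nat_lit 1225103196) (nat_lit 380) (nat_lit 2381832769) (nat_lit 91) (nat_lit 5) (nat_lit 95) (nat_lit 5) (nat_lit 96) (nat_lit 5) (nat_lit 310) (nat_lit 245) (nat_lit 225)) (XT.lf (nat_lit 0) (nat_lit 868245207) (nat_lit 380) (nat_lit 7119466816) (nat_lit 76) (nat_lit 1834101411) (nat_lit 86) (nat_lit 5) (nat_lit 91) (nat_lit 5) (nat_lit 87) (nat_lit 5) (nat_lit 311) (nat_lit 245) (nat_lit 224))) (XT.nd (nat_lit 78) (nat_lit 304)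 (nat_lit 0) (XT.lf (nat_lit 0) (nat_lit 4148332087) (nat_lit 380) (nat_lit 840376530) (nat_lit 76) (nat_lit 4991630655) (nat_lit 86) (nat_lit 5) (nat_lit 91) (nat_lit 5) (nat_lit 87) (nat_lit 5) (nat_lit 312) (nat_lit 245) (nat_lit 223)) (XT.lf (nat_lit 0) (nat_lit 5640215112) (nat_lit 304) (nat_lit 1874285510) (nat_lit 380) (nat_lit 2629543932) (nat_lit 82) (nat_lit 5) (nat_lit 86) (nat_lit 5) (nat_lit 87) (nat_lit 5) (nat_lit 313) (nat_lit 245) (nat_lit 222))))) (XT.nd (nat_lit 234) (nat_lit 532) (nat_lit 0) (XT.nd (nat_lit 78) (nat_lit 304) (nat_lit 0) (XT.lf (nat_lit 0) (nat_lit 629926432) (nat_lit 304) (nat_lit 8372224344) (nat_lit 76) (nat_lit 1311148604) (nat_lit 78) (nat_lit 5) (nat_lit 82) (nat_lit 5) (nat_lit 79) (nat_lit 5) (nat_lit 314) (nat_lit 245) (nat_lit 221)) (XT.nd (nat_lit 78) (nat_lit 304) (nat_lit 0) (XT.lf (nat_lit 0) (nat_lit 3933296659) (nat_lit 304) (nat_lit 1957762214)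 (nat_lit 76) (nat_lit 4595872370) (nat_lit 78) (nat_lit 5) (nat_lit 82) (nat_lit 5) (nat_lit 79) (nat_lit 5) (nat_lit 315) (nat_lit 245) (nat_lit 220)) (XT.lf (nat_lit 0) (nat_lit 4644519618) (nat_lit 304) (nat_lit 2672282259) (nat_lit 380) (nat_lit 3349587183) (nat_lit 74) (nat_lit 5) (nat_lit 78) (nat_lit 5) (nat_lit 79) (nat_lit 5) (nat_lit 316) (nat_lit 245) (nat_lit 219)))) (XT.nd (nat_lit 156) (nat_lit 228) (nat_lit 0) (XT.nd (nat_lit 78) (nat_lit 76) (nat_lit 0) (XT.lf (nat_lit 0) (nat_lit 542642208) (nat_lit 228) (nat_lit 10227562934) (nat_lit 304) (nat_lit 82020299) (nat_lit 71) (nat_lit 5) (nat_lit 74) (nat_lit 5) (nat_lit 75) (nat_lit 4) (nat_lit 317) (nat_lit 245) (nat_lit 218)) (XT.lf (nat_lit 0) (nat_lit 3244660767) (nat_lit 304) (nat_lit 3769190541) (nat_lit 76) (nat_lit 4028127787) (nat_lit 70) (nat_lit 5) (nat_lit 74) (nat_lit 5) (nat_lit 71) (nat_lit 5) (nat_lit 318) (nat_lit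 245) (nat_lit 217))) (XT.nd (nat_lit 78) (nat_lit 0) (nat_lit 0) (XT.lf (nat_lit 0) (nat_lit 2930301517) (nat_lit 228) (nat_lit 3706478653) (nat_lit 304) (nat_lit 4601644892) (nat_lit 67) (nat_lit 5) (nat_lit 70) (nat_lit 5) (nat_lit 71) (nat_lit 5) (nat_lit 319) (nat_lit 245) (nat_lit 216)) (XT.lf (nat_lit 0) (nat_lit 9815478462) (nat_lit 228) (nat_lit 293248169) (nat_lit 304) (nat_lit 1332737293) (nat_lit 67) (nat_lit 5) (nat_lit 70) (nat_lit 5) (nat_lit 71) (nat_lit 5) (nat_lit 320) (nat_lit 245) (nat_lit 215))))))))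
noncomputable def xc67 : XT := (XT.nd (nat_lit 2184) (nat_lit 1216) (nat_lit 0) (XT.nd (nat_lit 1092) (nat_lit 1064) (nat_lit 0) (XT.nd (nat_lit 546) (nat_lit 836) (nat_lit 0) (XT.nd (nat_lit 234) (nat_lit 456) (nat_lit 0) (XT.nd (nat_lit 78) (nat_lit 228) (nat_lit 0) (XT.lf (nat_lit 0) (nat_lit 2017485394) (nat_lit 304) (nat_lit 6433259337) (nat_lit 76) (nat_lit 3198613336) (nat_lit 63) (nat_lit 5) (nat_lit 67) (nat_lit 5) (nat_lit 64) (nat_lit 5) (nat_lit 321) (nat_lit 245) (nat_lit 214)) (XT.nd (nat_lit 78) (nat_lit 0) (nat_lit 0) (XT.lf (nat_lit 0) (nat_lit 332348524) (nat_lit 228) (nat_lit 5073431368) (nat_lit 304) (nat_lit 6458420625) (nat_lit 60) (nat_lit 5) (nat_lit 63) (nat_lit 5) (nat_lit 64) (nat_lit 5) (nat_lit 322) (nat_lit 245) (nat_lit 213)) (XT.lf (nat_lit 0) (nat_lit 7342043253) (nat_lit 228) (nat_lit 1561141563) (nat_lit 304) (nat_lit 3182116377) (nat_lit 60) (nat_lit 5) (nat_lit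 63) (nat_lit 5) (nat_lit 64) (nat_lit 5) (nat_lit 323) (nat_lit 245) (nat_lit 212)))) (XT.nd (nat_lit 156) (nat_lit 228) (nat_lit 0) (XT.nd (nat_lit 78) (nat_lit 0) (nat_lit 0) (XT.lf (nat_lit 0) (nat_lit 173142457) (nat_lit 228) (nat_lit 10132933584) (nat_lit 76) (nat_lit 2007405388) (nat_lit 57) (nat_lit 5) (nat_lit 60) (nat_lit 5) (nat_lit 58) (nat_lit 5) (nat_lit 324) (nat_lit 245) (nat_lit 211)) (XT.lf (nat_lit 0) (nat_lit 3572994058) (nat_lit 228) (nat_lit 3274990368) (nat_lit 76) (nat_lit 5699374367) (nat_lit 57) (nat_lit 5) (nat_lit 60) (nat_lit 5) (nat_lit 58) (nat_lit 5) (nat_lit 325) (nat_lit 245) (nat_lit 210))) (XT.nd (nat_lit 78) (nat_lit 0) (nat_lit 0) (XT.lf (nat_lit 0) (nat_lit 3775190769) (nat_lit 228) (nat_lit 3281632796) (nat_lit 304) (nat_lit 5732002137) (nat_lit 54) (nat_lit 5) (nat_lit 57) (nat_lit 5) (nat_lit 58) (nat_lit 5) (nat_lit 326) (nat_lit 245) (nat_lit 209)) (XT.lf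 (nat_lit 0) (nat_lit 10628461812) (nat_lit 304) (nat_lit 2024262700) (nat_lit 76) (nat_lit 385345034) (nat_lit 54) (nat_lit 5) (nat_lit 58) (nat_lit 5) (nat_lit 55) (nat_lit 4) (nat_lit 327) (nat_lit 245) (nat_lit 208))))) (XT.nd (nat_lit 234) (nat_lit 380) (nat_lit 0) (XT.nd (nat_lit 78) (nat_lit 228) (nat_lit 0) (XT.lf (nat_lit 0) (nat_lit 1022737397) (nat_lit 228) (nat_lit 8146091780) (nat_lit 76) (nat_lit 4124798411) (nat_lit 51) (nat_lit 5) (nat_lit 54) (nat_lit 5) (nat_lit 52) (nat_lit 5) (nat_lit 328) (nat_lit 245) (nat_lit 207)) (XT.nd (nat_lit 78) (nat_lit 228) (nat_lit 0) (XT.lf (nat_lit 0) (nat_lit 4478138097) (nat_lit 228) (nat_lit 1089632010) (nat_lit 76) (nat_lit 7989340110) (nat_lit 51) (nat_lit 5) (nat_lit 54) (nat_lit 5) (nat_lit 52) (nat_lit 5) (nat_lit 329) (nat_lit 245) (nat_lit 206)) (XT.lf (nat_lit 0) (nat_lit 6217006027) (nat_lit 228) (nat_lit 1829347204) (nat_lit 304) (nat_lit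 5781897723) (nat_lit 48) (nat_lit 5) (nat_lit 51) (nat_lit 5) (nat_lit 52) (nat_lit 5) (nat_lit 330) (nat_lit 245) (nat_lit 205)))) (XT.nd (nat_lit 156) (nat_lit 152) (nat_lit 0) (XT.nd (nat_lit 78) (nat_lit 228) (nat_lit 0) (XT.lf (nat_lit 0) (nat_lit 11701924049) (nat_lit 304) (nat_lit 444790648) (nat_lit 76) (nat_lit 1961429323) (nat_lit 48) (nat_lit 5) (nat_lit 52) (nat_lit 5) (nat_lit 49) (nat_lit 4) (nat_lit 331) (nat_lit 245) (nat_lit 204)) (XT.lf (nat_lit 0) (nat_lit 1086548356) (nat_lit 228) (nat_lit 7432204132) (nat_lit 76) (nat_lit 5876297003) (nat_lit 45) (nat_lit 5) (nat_lit 48) (nat_lit 5) (nat_lit 46) (nat_lit 5) (nat_lit 332) (nat_lit 245) (nat_lit 203))) (XT.nd (nat_lit 78) (nat_lit 152) (nat_lit 0) (XT.lf (nat_lit 0) (nat_lit 4591653548) (nat_lit 228) (nat_lit 193479841) (nat_lit 76) (nat_lit 9906061585) (nat_lit 45) (nat_lit 5) (nat_lit 48) (nat_lit 5) (nat_lit 46) (nat_lit 5)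 (nat_lit 333) (nat_lit 245) (nat_lit 202)) (XT.lf (nat_lit 0) (nat_lit 7326724290) (nat_lit 152) (nat_lit 898413133) (nat_lit 228) (nat_lit 6770414961) (nat_lit 43) (nat_lit 5) (nat_lit 45) (nat_lit 5) (nat_lit 46) (nat_lit 5) (nat_lit 334) (nat_lit 245) (nat_lit 201)))))) (XT.nd (nat_lit 546) (nat_lit 456) (nat_lit 0) (XT.nd (nat_lit 234) (nat_lit 380) (nat_lit 0) (XT.nd (nat_lit 78) (nat_lit 228) (nat_lit 0) (XT.lf (nat_lit 0) (nat_lit 11952567075) (nat_lit 228) (nat_lit 341348420) (nat_lit 76) (nat_lit 3015600402) (nat_lit 43) (nat_lit 5) (nat_lit 46) (nat_lit 5) (nat_lit 44) (nat_lit 4) (nat_lit 335) (nat_lit 245) (nat_lit 200)) (XT.nd (nat_lit 78) (nat_lit 0) (nat_lit 0) (XT.lf (nat_lit 0) (nat_lit 189316179) (nat_lit 228) (nat_lit 8371712572) (nat_lit 76) (nat_lit 7070841119) (nat_lit 40) (nat_lit 5) (nat_lit 43) (nat_lit 5) (nat_lit 41) (nat_lit 5) (nat_lit 336) (nat_lit 245) (nat_lit 199))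 (XT.lf (nat_lit 0) (nat_lit 3732595107) (nat_lit 228) (nat_lit 977230244) (nat_lit 76) (nat_lit 11254350695) (nat_lit 40) (nat_lit 5) (nat_lit 43) (nat_lit 5) (nat_lit 41) (nat_lit 5) (nat_lit 337) (nat_lit 245) (nat_lit 198)))) (XT.nd (nat_lit 156) (nat_lit 228) (nat_lit 0) (XT.nd (nat_lit 78) (nat_lit 0) (nat_lit 0) (XT.lf (nat_lit 0) (nat_lit 6695097613) (nat_lit 152) (nat_lit 707370265) (nat_lit 228) (nat_lit 8903395649) (nat_lit 38) (nat_lit 5) (nat_lit 40) (nat_lit 5) (nat_lit 41) (nat_lit 5) (nat_lit 338) (nat_lit 245) (nat_lit 197)) (XT.lf (nat_lit 0) (nat_lit 11181449944) (nat_lit 228) (nat_lit 2147739704) (nat_lit 76) (nat_lit 3328661966) (nat_lit 38) (nat_lit 5) (nat_lit 41) (nat_lit 5) (nat_lit 39) (nat_lit 4) (nat_lit 339) (nat_lit 245) (nat_lit 196))) (XT.nd (nat_lit 78) (nat_lit 76) (nat_lit 0) (XT.lf (nat_lit 0) (nat_lit 5568074001) (nat_lit 152) (nat_lit 9523748757) (nat_lit 228)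 (nat_lit 1928055730) (nat_lit 36) (nat_lit 5) (nat_lit 38) (nat_lit 5) (nat_lit 39) (nat_lit 4) (nat_lit 340) (nat_lit 245) (nat_lit 195)) (XT.lf (nat_lit 0) (nat_lit 1672553513) (nat_lit 228) (nat_lit 3922441996) (nat_lit 76) (nat_lit 11797906113) (nat_lit 35) (nat_lit 5) (nat_lit 38) (nat_lit 5) (nat_lit 36) (nat_lit 5) (nat_lit 341) (nat_lit 245) (nat_lit 194))))) (XT.nd (nat_lit 234) (nat_lit 228) (nat_lit 0) (XT.nd (nat_lit 78) (nat_lit 76) (nat_lit 0) (XT.lf (nat_lit 0) (nat_lit 3817424848) (nat_lit 152) (nat_lit 1520539559) (nat_lit 228) (nat_lit 12438730395) (nat_lit 33) (nat_lit 5) (nat_lit 35) (nat_lit 5) (nat_lit 36) (nat_lit 5) (nat_lit 342) (nat_lit 245) (nat_lit 193)) (XT.nd (nat_lit 78) (nat_lit 76) (nat_lit 0) (XT.lf (nat_lit 0) (nat_lit 9138145574) (nat_lit 228) (nat_lit 6398074749) (nat_lit 76) (nat_lit 2635054791) (nat_lit 33) (nat_lit 5) (nat_lit 36) (nat_lit 5) (nat_lit 34)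 (nat_lit 4) (nat_lit 343) (nat_lit 245) (nat_lit 192)) (XT.lf (nat_lit 0) (nat_lit 1331922958) (nat_lit 76) (nat_lit 11708541120) (nat_lit 152) (nat_lit 5537601864) (nat_lit 32) (nat_lit 5) (nat_lit 33) (nat_lit 5) (nat_lit 34) (nat_lit 4) (nat_lit 344) (nat_lit 245) (nat_lit 191)))) (XT.nd (nat_lit 156) (nat_lit 152) (nat_lit 0) (XT.nd (nat_lit 78) (nat_lit 76) (nat_lit 0) (XT.lf (nat_lit 0) (nat_lit 9356681904) (nat_lit 76) (nat_lit 7728552642) (nat_lit 152) (nat_lit 1911081044) (nat_lit 32) (nat_lit 5) (nat_lit 33) (nat_lit 5) (nat_lit 34) (nat_lit 4) (nat_lit 345) (nat_lit 245) (nat_lit 190)) (XT.lf (nat_lit 0) (nat_lit 1750162057) (nat_lit 152) (nat_lit 1889549975) (nat_lit 76) (nat_lit 15788044517) (nat_lit 31) (nat_lit 5) (nat_lit 33) (nat_lit 5) (nat_lit 32) (nat_lit 5) (nat_lit 346) (nat_lit 245) (nat_lit 189))) (XT.nd (nat_lit 78) (nat_lit 0) (nat_lit 0) (XT.lf (nat_lit 0) (nat_lit 5510387995)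 (nat_lit 228) (nat_lit 13748367678) (nat_lit 76) (nat_lit 612005887) (nat_lit 29) (nat_lit 5) (nat_lit 32) (nat_lit 5) (nat_lit 30) (nat_lit 4) (nat_lit 347) (nat_lit 245) (nat_lit 188)) (XT.lf (nat_lit 0) (nat_lit 9401574564) (nat_lit 228) (nat_lit 6014628686) (nat_lit 76) (nat_lit 4910323574) (nat_lit 29) (nat_lit 5) (nat_lit 32) (nat_lit 5) (nat_lit 30) (nat_lit 4) (nat_lit 348) (nat_lit 245) (nat_lit 187))))))) (XT.nd (nat_lit 1092) (nat_lit 532) (nat_lit 0) (XT.nd (nat_lit 546) (nat_lit 304) (nat_lit 0) (XT.nd (nat_lit 234) (nat_lit 304) (nat_lit 0) (XT.nd (nat_lit 78) (nat_lit 0) (nat_lit 0) (XT.lf (nat_lit 0) (nat_lit 1925245617) (nat_lit 76) (nat_lit 11466687298) (nat_lit 152) (nat_lit 7404573337) (nat_lit 28) (nat_lit 5) (nat_lit 29) (nat_lit 5) (nat_lit 30) (nat_lit 4) (nat_lit 349) (nat_lit 245) (nat_lit 186)) (XT.nd (nat_lit 78) (nat_lit 0) (nat_lit 0) (XT.lf (nat_lit 0) (nat_lit 10163786820)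 (nat_lit 76) (nat_lit 7363327399) (nat_lit 152) (nat_lit 3752731351) (nat_lit 28) (nat_lit 5) (nat_lit 29) (nat_lit 5) (nat_lit 30) (nat_lit 4) (nat_lit 350) (nat_lit 245) (nat_lit 185)) (XT.lf (nat_lit 0) (nat_lit 18588490743) (nat_lit 76) (nat_lit 3163274049) (nat_lit 152) (nat_lit 26971330) (nat_lit 28) (nat_lit 5) (nat_lit 29) (nat_lit 5) (nat_lit 30) (nat_lit 4) (nat_lit 351) (nat_lit 245) (nat_lit 184)))) (XT.nd (nat_lit 156) (nat_lit 76) (nat_lit 0) (XT.nd (nat_lit 78) (nat_lit 0) (nat_lit 0) (XT.lf (nat_lit 0) (nat_lit 3761855134) (nat_lit 228) (nat_lit 17328988116) (nat_lit 76) (nat_lit 1199894412) (nat_lit 25) (nat_lit 5) (nat_lit 28) (nat_lit 5) (nat_lit 26) (nat_lit 4) (nat_lit 352) (nat_lit 245) (nat_lit 183)) (XT.lf (nat_lit 0) (nat_lit 7693903705) (nat_lit 228) (nat_lit 9485424073) (nat_lit 76) (nat_lit 5637872803) (nat_lit 25) (nat_lit 5) (nat_lit 28) (nat_lit 5) (nat_lit 26) (nat_lit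 4) (nat_lit 353) (nat_lit 245) (nat_lit 182))) (XT.nd (nat_lit 78) (nat_lit 76) (nat_lit 0) (XT.lf (nat_lit 0) (nat_lit 11711142548) (nat_lit 228) (nat_lit 1464889958) (nat_lit 76) (nat_lit 10184419987) (nat_lit 25) (nat_lit 5) (nat_lit 28) (nat_lit 5) (nat_lit 26) (nat_lit 4) (nat_lit 354) (nat_lit 245) (nat_lit 181)) (XT.lf (nat_lit 0) (nat_lit 6873754164) (nat_lit 76) (nat_lit 9009402435) (nat_lit 152) (nat_lit 8035829239) (nat_lit 24) (nat_lit 5) (nat_lit 25) (nat_lit 5) (nat_lit 26) (nat_lit 4) (nat_lit 355) (nat_lit 245) (nat_lit 180))))) (XT.nd (nat_lit 234) (nat_lit 76) (nat_lit 0) (XT.nd (nat_lit 78) (nat_lit 228) (nat_lit 0) (XT.lf (nat_lit 0) (nat_lit 15436503972) (nat_lit 76) (nat_lit 4727190531) (nat_lit 152) (nat_lit 4331091059) (nat_lit 24) (nat_lit 5) (nat_lit 25) (nat_lit 5) (nat_lit 26) (nat_lit 4) (nat_lit 356) (nat_lit 245) (nat_lit 179)) (XT.nd (nat_lit 78) (nat_lit 228) (nat_lit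 0) (XT.lf (nat_lit 0) (nat_lit 24201687298) (nat_lit 76) (nat_lit 340447573) (nat_lit 152) (nat_lit 546650771) (nat_lit 24) (nat_lit 5) (nat_lit 25) (nat_lit 5) (nat_lit 26) (nat_lit 4) (nat_lit 357) (nat_lit 245) (nat_lit 178)) (XT.lf (nat_lit 0) (nat_lit 3369949243) (nat_lit 228) (nat_lit 18147656542) (nat_lit 76) (nat_lit 4179523126) (nat_lit 21) (nat_lit 5) (nat_lit 24) (nat_lit 5) (nat_lit 22) (nat_lit 4) (nat_lit 358) (nat_lit 245) (nat_lit 177)))) (XT.nd (nat_lit 156) (nat_lit 76) (nat_lit 0) (XT.nd (nat_lit 78) (nat_lit 0) (nat_lit 0) (XT.lf (nat_lit 0) (nat_lit 7375686903) (nat_lit 228) (nat_lit 10128617841) (nat_lit 76) (nat_lit 8819786582) (nat_lit 21) (nat_lit 5) (nat_lit 24) (nat_lit 5) (nat_lit 22) (nat_lit 4) (nat_lit 359) (nat_lit 245) (nat_lit 176)) (XT.lf (nat_lit 0) (nat_lit 11472673750) (nat_lit 228) (nat_lit 1921063423) (nat_lit 76) (nat_lit 13577002860) (nat_lit 21) (nat_lit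 5) (nat_lit 24) (nat_lit 5) (nat_lit 22) (nat_lit 4) (nat_lit 360) (nat_lit 245) (nat_lit 175))) (XT.nd (nat_lit 78) (nat_lit 0) (nat_lit 0) (XT.lf (nat_lit 0) (nat_lit 6611186419) (nat_lit 76) (nat_lit 9116854025) (nat_lit 152) (nat_lit 11907693098) (nat_lit 20) (nat_lit 5) (nat_lit 21) (nat_lit 5) (nat_lit 22) (nat_lit 4) (nat_lit 361) (nat_lit 245) (nat_lit 174)) (XT.lf (nat_lit 0) (nat_lit 15388739890) (nat_lit 76) (nat_lit 4713983523) (nat_lit 152) (nat_lit 8218212956) (nat_lit 20) (nat_lit 5) (nat_lit 21) (nat_lit 5) (nat_lit 22) (nat_lit 4) (nat_lit 362) (nat_lit 245) (nat_lit 173)))))) (XT.nd (nat_lit 546) (nat_lit 228) (nat_lit 0) (XT.nd (nat_lit 234) (nat_lit 76) (nat_lit 0) (XT.nd (nat_lit 78) (nat_lit 228) (nat_lit 0) (XT.lf (nat_lit 0) (nat_lit 24381033768) (nat_lit 76) (nat_lit 200677473) (nat_lit 152) (nat_lit 4445801015) (nat_lit 20) (nat_lit 5) (nat_lit 21) (nat_lit 5) (nat_lit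 22) (nat_lit 4) (nat_lit 363) (nat_lit 245) (nat_lit 172)) (XT.nd (nat_lit 78) (nat_lit 76) (nat_lit 0) (XT.lf (nat_lit 0) (nat_lit 3872865240) (nat_lit 152) (nat_lit 25375835825) (nat_lit 152) (nat_lit 504984030) (nat_lit 18) (nat_lit 4) (nat_lit 20) (nat_lit 5) (nat_lit 20) (nat_lit 4) (nat_lit 364) (nat_lit 245) (nat_lit 171)) (XT.lf (nat_lit 0) (nat_lit 3507770528) (nat_lit 228) (nat_lit 17841638840) (nat_lit 76) (nat_lit 9150525022) (nat_lit 17) (nat_lit 5) (nat_lit 20) (nat_lit 5) (nat_lit 18) (nat_lit 4) (nat_lit 365) (nat_lit 245) (nat_lit 170)))) (XT.nd (nat_lit 156) (nat_lit 76) (nat_lit 0) (XT.nd (nat_lit 78) (nat_lit 0) (nat_lit 0) (XT.lf (nat_lit 0) (nat_lit 7605217987) (nat_lit 228) (nat_lit 9612714882) (nat_lit 76) (nat_lit 14051262412) (nat_lit 17) (nat_lit 5) (nat_lit 20) (nat_lit 5) (nat_lit 18) (nat_lit 4) (nat_lit 366) (nat_lit 245) (nat_lit 169)) (XT.lf (nat_lit 0) (nat_lit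 11800792699) (nat_lit 228) (nat_lit 1182003446) (nat_lit 76) (nat_lit 19079489422) (nat_lit 17) (nat_lit 5) (nat_lit 20) (nat_lit 5) (nat_lit 18) (nat_lit 4) (nat_lit 367) (nat_lit 245) (nat_lit 168))) (XT.nd (nat_lit 78) (nat_lit 0) (nat_lit 0) (XT.lf (nat_lit 0) (nat_lit 7606288187) (nat_lit 76) (nat_lit 8564988806) (nat_lit 152) (nat_lit 16706427755) (nat_lit 16) (nat_lit 5) (nat_lit 17) (nat_lit 5) (nat_lit 18) (nat_lit 4) (nat_lit 368) (nat_lit 245) (nat_lit 167)) (XT.lf (nat_lit 0) (nat_lit 16639120350) (nat_lit 76) (nat_lit 4021902022) (nat_lit 152) (nat_lit 13056926979) (nat_lit 16) (nat_lit 5) (nat_lit 17) (nat_lit 5) (nat_lit 18) (nat_lit 4) (nat_lit 369) (nat_lit 245) (nat_lit 166))))) (XT.nd (nat_lit 234) (nat_lit 152) (nat_lit 0) (XT.nd (nat_lit 78) (nat_lit 76) (nat_lit 0) (XT.lf (nat_lit 0) (nat_lit 25268501277) (nat_lit 152) (nat_lit 8689377227) (nat_lit 0) (nat_lit 626038581) (nat_lit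 16) (nat_lit 5) (nat_lit 18) (nat_lit 4) (nat_lit 16) (nat_lit 4) (nat_lit 370) (nat_lit 245) (nat_lit 165)) (XT.nd (nat_lit 78) (nat_lit 76) (nat_lit 0) (XT.lf (nat_lit 0) (nat_lit 30031424478) (nat_lit 152) (nat_lit 129415470) (nat_lit 0) (nat_lit 5314514132) (nat_lit 16) (nat_lit 5) (nat_lit 18) (nat_lit 4) (nat_lit 16) (nat_lit 4) (nat_lit 371) (nat_lit 245) (nat_lit 164)) (XT.lf (nat_lit 0) (nat_lit 8819293004) (nat_lit 76) (nat_lit 26180776203) (nat_lit 76) (nat_lit 1391586588) (nat_lit 15) (nat_lit 4) (nat_lit 16) (nat_lit 5) (nat_lit 16) (nat_lit 4) (nat_lit 372) (nat_lit 245) (nat_lit 163)))) (XT.nd (nat_lit 156) (nat_lit 76) (nat_lit 0) (XT.nd (nat_lit 78) (nat_lit 0) (nat_lit 0) (XT.lf (nat_lit 0) (nat_lit 2707446619) (nat_lit 152) (nat_lit 19363247027) (nat_lit 76) (nat_lit 15264574405) (nat_lit 14) (nat_lit 5) (nat_lit 16) (nat_lit 5) (nat_lit 15) (nat_lit 4) (nat_lit 373) (nat_lit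 245) (nat_lit 162)) (XT.lf (nat_lit 0) (nat_lit 6880212703) (nat_lit 152) (nat_lit 10960662020) (nat_lit 76) (nat_lit 20466544732) (nat_lit 14) (nat_lit 5) (nat_lit 16) (nat_lit 5) (nat_lit 15) (nat_lit 4) (nat_lit 374) (nat_lit 245) (nat_lit 161))) (XT.nd (nat_lit 78) (nat_lit 76) (nat_lit 0) (XT.lf (nat_lit 0) (nat_lit 11157512639) (nat_lit 152) (nat_lit 2343888922) (nat_lit 76) (nat_lit 25807959201) (nat_lit 14) (nat_lit 5) (nat_lit 16) (nat_lit 5) (nat_lit 15) (nat_lit 4) (nat_lit 375) (nat_lit 245) (nat_lit 160)) (XT.lf (nat_lit 0) (nat_lit 6623856787) (nat_lit 76) (nat_lit 8982899647) (nat_lit 152) (nat_lit 24733300845) (nat_lit 13) (nat_lit 5) (nat_lit 14) (nat_lit 5) (nat_lit 15) (nat_lit 4) (nat_lit 376) (nat_lit 245) (nat_lit 159))))))))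
noncomputable def xc68 : XT := (XT.nd (nat_lit 2106) (nat_lit 76) (nat_lit 0) (XT.nd (nat_lit 1014) (nat_lit 228) (nat_lit 0) (XT.nd (nat_lit 468) (nat_lit 152) (nat_lit 0) (XT.nd (nat_lit 234) (nat_lit 76) (nat_lit 0) (XT.nd (nat_lit 78) (nat_lit 0) (nat_lit 0) (XT.lf (nat_lit 0) (nat_lit 15872257057) (nat_lit 76) (nat_lit 4321075241) (nat_lit 152) (nat_lit 21208232300) (nat_lit 13) (nat_lit 5) (nat_lit 14) (nat_lit 5) (nat_lit 15) (nat_lit 4) (nat_lit 377) (nat_lit 245) (nat_lit 158)) (XT.nd (nat_lit 78) (nat_lit 0) (nat_lit 0) (XT.lf (nat_lit 0) (nat_lit 24902733445) (nat_lit 152) (nat_lit 17137219436) (nat_lit 0) (nat_lit 455412803) (nat_lit 13) (nat_lit 5) (nat_lit 15) (nat_lit 4) (nat_lit 13) (nat_lit 4) (nat_lit 378) (nat_lit 245) (nat_lit 157)) (XT.lf (nat_lit 0) (nat_lit 29777372509) (nat_lit 152) (nat_lit 8570900905) (nat_lit 0) (nat_lit 5272993943) (nat_lit 13) (nat_lit 5) (nat_lit 15)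 (nat_lit 4) (nat_lit 13) (nat_lit 4) (nat_lit 379) (nat_lit 245) (nat_lit 156)))) (XT.nd (nat_lit 78) (nat_lit 0) (nat_lit 0) (XT.lf (nat_lit 0) (nat_lit 223021962) (nat_lit 76) (nat_lit 34559093925) (nat_lit 76) (nat_lit 9999319318) (nat_lit 12) (nat_lit 4) (nat_lit 13) (nat_lit 5) (nat_lit 13) (nat_lit 4) (nat_lit 380) (nat_lit 245) (nat_lit 155)) (XT.nd (nat_lit 78) (nat_lit 0) (nat_lit 0) (XT.lf (nat_lit 0) (nat_lit 9423051160) (nat_lit 76) (nat_lit 30582432288) (nat_lit 76) (nat_lit 5968875115) (nat_lit 12) (nat_lit 4) (nat_lit 13) (nat_lit 5) (nat_lit 13) (nat_lit 4) (nat_lit 381) (nat_lit 245) (nat_lit 154)) (XT.lf (nat_lit 0) (nat_lit 18866647813) (nat_lit 76) (nat_lit 26501363043) (nat_lit 76) (nat_lit 1835589787) (nat_lit 12) (nat_lit 4) (nat_lit 13) (nat_lit 5) (nat_lit 13) (nat_lit 4) (nat_lit 382) (nat_lit 245) (nat_lit 153))))) (XT.nd (nat_lit 234) (nat_lit 76) (nat_lit 0) (XT.nd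 (nat_lit 78) (nat_lit 0) (nat_lit 0) (XT.lf (nat_lit 0) (nat_lit 2357234680) (nat_lit 152) (nat_lit 19931282079) (nat_lit 76) (nat_lit 26181025478) (nat_lit 11) (nat_lit 5) (nat_lit 13) (nat_lit 5) (nat_lit 12) (nat_lit 4) (nat_lit 383) (nat_lit 245) (nat_lit 152)) (XT.nd (nat_lit 78) (nat_lit 0) (nat_lit 0) (XT.lf (nat_lit 0) (nat_lit 6622247973) (nat_lit 152) (nat_lit 11322523761) (nat_lit 76) (nat_lit 31828650573) (nat_lit 11) (nat_lit 5) (nat_lit 13) (nat_lit 5) (nat_lit 12) (nat_lit 4) (nat_lit 384) (nat_lit 245) (nat_lit 151)) (XT.lf (nat_lit 0) (nat_lit 10998995769) (nat_lit 152) (nat_lit 2485510849) (nat_lit 76) (nat_lit 37632402891) (nat_lit 11) (nat_lit 5) (nat_lit 13) (nat_lit 5) (nat_lit 12) (nat_lit 4) (nat_lit 385) (nat_lit 245) (nat_lit 150)))) (XT.nd (nat_lit 156) (nat_lit 0) (nat_lit 0) (XT.nd (nat_lit 78) (nat_lit 0) (nat_lit 0) (XT.lf (nat_lit 0) (nat_lit 6718582053) (nat_lit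 76) (nat_lit 8837303476) (nat_lit 152) (nat_lit 36943354740) (nat_lit 10) (nat_lit 5) (nat_lit 11) (nat_lit 5) (nat_lit 12) (nat_lit 4) (nat_lit 386) (nat_lit 245) (nat_lit 149)) (XT.lf (nat_lit 0) (nat_lit 16220899776) (nat_lit 76) (nat_lit 4038118647) (nat_lit 152) (nat_lit 33663740446) (nat_lit 10) (nat_lit 5) (nat_lit 11) (nat_lit 5) (nat_lit 12) (nat_lit 4) (nat_lit 387) (nat_lit 245) (nat_lit 148))) (XT.nd (nat_lit 78) (nat_lit 0) (nat_lit 0) (XT.lf (nat_lit 0) (nat_lit 25096712050) (nat_lit 152) (nat_lit 29417737237) (nat_lit 0) (nat_lit 874733630) (nat_lit 10) (nat_lit 5) (nat_lit 12) (nat_lit 4) (nat_lit 10) (nat_lit 4) (nat_lit 388) (nat_lit 245) (nat_lit 147)) (XT.lf (nat_lit 0) (nat_lit 30104728470) (nat_lit 152) (nat_lit 20952589043) (nat_lit 0) (nat_lit 5841530192) (nat_lit 10) (nat_lit 5) (nat_lit 12) (nat_lit 4) (nat_lit 10) (nat_lit 4) (nat_lit 389) (nat_lit 245) (nat_lit 146))))))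 (XT.nd (nat_lit 546) (nat_lit 76) (nat_lit 0) (XT.nd (nat_lit 234) (nat_lit 76) (nat_lit 0) (XT.nd (nat_lit 78) (nat_lit 76) (nat_lit 0) (XT.lf (nat_lit 0) (nat_lit 35248626754) (nat_lit 152) (nat_lit 12260200915) (nat_lit 0) (nat_lit 10945409197) (nat_lit 10) (nat_lit 5) (nat_lit 12) (nat_lit 4) (nat_lit 10) (nat_lit 4) (nat_lit 390) (nat_lit 245) (nat_lit 145)) (XT.nd (nat_lit 78) (nat_lit 76) (nat_lit 0) (XT.lf (nat_lit 0) (nat_lit 40532901570) (nat_lit 152) (nat_lit 3332977562) (nat_lit 0) (nat_lit 16190830343) (nat_lit 10) (nat_lit 5) (nat_lit 12) (nat_lit 4) (nat_lit 10) (nat_lit 4) (nat_lit 391) (nat_lit 245) (nat_lit 144)) (XT.lf (nat_lit 0) (nat_lit 5953046889) (nat_lit 76) (nat_lit 40066347685) (nat_lit 76) (nat_lit 15686554448) (nat_lit 9) (nat_lit 4) (nat_lit 10) (nat_lit 5) (nat_lit 10) (nat_lit 4) (nat_lit 392) (nat_lit 245) (nat_lit 143)))) (XT.nd (nat_lit 156) (nat_lit 76) (nat_lit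 0) (XT.nd (nat_lit 78) (nat_lit 0) (nat_lit 0) (XT.lf (nat_lit 0) (nat_lit 15561040730) (nat_lit 76) (nat_lit 36129718315) (nat_lit 76) (nat_lit 11713301768) (nat_lit 9) (nat_lit 4) (nat_lit 10) (nat_lit 5) (nat_lit 10) (nat_lit 4) (nat_lit 393) (nat_lit 245) (nat_lit 142)) (XT.lf (nat_lit 0) (nat_lit 25433066507) (nat_lit 76) (nat_lit 32086207787) (nat_lit 76) (nat_lit 7634234629) (nat_lit 9) (nat_lit 4) (nat_lit 10) (nat_lit 5) (nat_lit 10) (nat_lit 4) (nat_lit 394) (nat_lit 245) (nat_lit 141))) (XT.nd (nat_lit 78) (nat_lit 76) (nat_lit 0) (XT.lf (nat_lit 0) (nat_lit 35577750260) (nat_lit 76) (nat_lit 27932282937) (nat_lit 76) (nat_lit 3445788797) (nat_lit 9) (nat_lit 4) (nat_lit 10) (nat_lit 5) (nat_lit 10) (nat_lit 4) (nat_lit 395) (nat_lit 245) (nat_lit 140)) (XT.lf (nat_lit 0) (nat_lit 838997832) (nat_lit 152) (nat_lit 22816844057) (nat_lit 76) (nat_lit 45156486212) (nat_lit 8) (nat_lit 5)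 (nat_lit 10) (nat_lit 5) (nat_lit 9) (nat_lit 4) (nat_lit 396) (nat_lit 245) (nat_lit 139))))) (XT.nd (nat_lit 234) (nat_lit 0) (nat_lit 0) (XT.nd (nat_lit 78) (nat_lit 76) (nat_lit 0) (XT.lf (nat_lit 0) (nat_lit 5171062657) (nat_lit 152) (nat_lit 14055291797) (nat_lit 76) (nat_lit 51497514584) (nat_lit 8) (nat_lit 5) (nat_lit 10) (nat_lit 5) (nat_lit 9) (nat_lit 4) (nat_lit 397) (nat_lit 245) (nat_lit 138)) (XT.nd (nat_lit 78) (nat_lit 76) (nat_lit 0) (XT.lf (nat_lit 0) (nat_lit 9621430729) (nat_lit 152) (nat_lit 5052636200) (nat_lit 76) (nat_lit 58019041847) (nat_lit 8) (nat_lit 5) (nat_lit 10) (nat_lit 5) (nat_lit 9) (nat_lit 4) (nat_lit 398) (nat_lit 245) (nat_lit 137)) (XT.lf (nat_lit 0) (nat_lit 4282557248) (nat_lit 76) (nat_lit 9952600030) (nat_lit 152) (nat_lit 60485375737) (nat_lit 7) (nat_lit 5) (nat_lit 8) (nat_lit 5) (nat_lit 9) (nat_lit 4) (nat_lit 399) (nat_lit 245) (nat_lit 136))))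 (XT.nd (nat_lit 156) (nat_lit 0) (nat_lit 0) (XT.nd (nat_lit 78) (nat_lit 0) (nat_lit 0) (XT.lf (nat_lit 0) (nat_lit 13980477616) (nat_lit 76) (nat_lit 5046649352) (nat_lit 152) (nat_lit 57780460722) (nat_lit 7) (nat_lit 5) (nat_lit 8) (nat_lit 5) (nat_lit 9) (nat_lit 4) (nat_lit 400) (nat_lit 245) (nat_lit 135)) (XT.lf (nat_lit 0) (nat_lit 23949041447) (nat_lit 76) (nat_lit 2949861) (nat_lit 152) (nat_lit 55005591204) (nat_lit 7) (nat_lit 5) (nat_lit 8) (nat_lit 5) (nat_lit 9) (nat_lit 4) (nat_lit 401) (nat_lit 245) (nat_lit 134))) (XT.nd (nat_lit 78) (nat_lit 0) (nat_lit 0) (XT.lf (nat_lit 0) (nat_lit 29063874836) (nat_lit 152) (nat_lit 47025258239) (nat_lit 0) (nat_lit 5081768403) (nat_lit 7) (nat_lit 5) (nat_lit 9) (nat_lit 4) (nat_lit 7) (nat_lit 4) (nat_lit 402) (nat_lit 245) (nat_lit 133)) (XT.lf (nat_lit 0) (nat_lit 34318817859) (nat_lit 152) (nat_lit 38821859525) (nat_lit 0) (nat_lit 10310253967)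 (nat_lit 7) (nat_lit 5) (nat_lit 9) (nat_lit 4) (nat_lit 7) (nat_lit 4) (nat_lit 403) (nat_lit 245) (nat_lit 132))))))) (XT.nd (nat_lit 32058) (nat_lit 0) (nat_lit 7144) (XT.nd (nat_lit 546) (nat_lit 0) (nat_lit 0) (XT.nd (nat_lit 234) (nat_lit 76) (nat_lit 0) (XT.nd (nat_lit 78) (nat_lit 0) (nat_lit 0) (XT.lf (nat_lit 0) (nat_lit 39721383717) (nat_lit 152) (nat_lit 30391148547) (nat_lit 0) (nat_lit 15687132973) (nat_lit 7) (nat_lit 5) (nat_lit 9) (nat_lit 4) (nat_lit 7) (nat_lit 4) (nat_lit 404) (nat_lit 245) (nat_lit 131)) (XT.nd (nat_lit 78) (nat_lit 0) (nat_lit 0) (XT.lf (nat_lit 0) (nat_lit 45276293101) (nat_lit 152) (nat_lit 21725758665) (nat_lit 0) (nat_lit 21217103664) (nat_lit 7) (nat_lit 5) (nat_lit 9) (nat_lit 4) (nat_lit 7) (nat_lit 4) (nat_lit 405) (nat_lit 245) (nat_lit 130)) (XT.lf (nat_lit 0) (nat_lit 50988399813) (nat_lit 152) (nat_lit 12818118179) (nat_lit 0) (nat_lit 26904998055)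 (nat_lit 7) (nat_lit 5) (nat_lit 9) (nat_lit 4) (nat_lit 7) (nat_lit 4) (nat_lit 406) (nat_lit 245) (nat_lit 129)))) (XT.nd (nat_lit 156) (nat_lit 0) (nat_lit 0) (XT.nd (nat_lit 78) (nat_lit 76) (nat_lit 0) (XT.lf (nat_lit 0) (nat_lit 56862695016) (nat_lit 152) (nat_lit 3660443715) (nat_lit 0) (nat_lit 32755786148) (nat_lit 7) (nat_lit 5) (nat_lit 9) (nat_lit 4) (nat_lit 7) (nat_lit 4) (nat_lit 407) (nat_lit 245) (nat_lit 128)) (XT.lf (nat_lit 0) (nat_lit 5869807669) (nat_lit 76) (nat_lit 57090928102) (nat_lit 76) (nat_lit 32961196798) (nat_lit 6) (nat_lit 4) (nat_lit 7) (nat_lit 5) (nat_lit 7) (nat_lit 4) (nat_lit 408) (nat_lit 245) (nat_lit 127))) (XT.nd (nat_lit 78) (nat_lit 0) (nat_lit 0) (XT.lf (nat_lit 0) (nat_lit 15744471369) (nat_lit 76) (nat_lit 53525402734) (nat_lit 76) (nat_lit 29373513725) (nat_lit 6) (nat_lit 4) (nat_lit 7) (nat_lit 5) (nat_lit 7) (nat_lit 4) (nat_lit 409) (nat_lit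 245) (nat_lit 126)) (XT.lf (nat_lit 0) (nat_lit 25899325726) (nat_lit 76) (nat_lit 49860410424) (nat_lit 76) (nat_lit 25687009081) (nat_lit 6) (nat_lit 4) (nat_lit 7) (nat_lit 5) (nat_lit 7) (nat_lit 4) (nat_lit 410) (nat_lit 245) (nat_lit 125))))) (XT.nd (nat_lit 31200) (nat_lit 0) (nat_lit 11248) (XT.nd (nat_lit 31044) (nat_lit 0) (nat_lit 12920) (XT.lf (nat_lit 0) (nat_lit 36343243912) (nat_lit 76) (nat_lit 46092748753) (nat_lit 76) (nat_lit 21898461648) (nat_lit 6) (nat_lit 4) (nat_lit 7) (nat_lit 5) (nat_lit 7) (nat_lit 4) (nat_lit 411) (nat_lit 245) (nat_lit 124)) (XT.nd (nat_lit 78) (nat_lit 608) (nat_lit 0) (XT.lf (nat_lit 0) (nat_lit 993038339) (nat_lit 760) (nat_lit 1685382459) (nat_lit 0) (nat_lit 993038339) (nat_lit 184) (nat_lit 5) (nat_lit 194) (nat_lit 4) (nat_lit 184) (nat_lit 4) (nat_lit 288) (nat_lit 246) (nat_lit 246)) (XT.lf (nat_lit 0) (nat_lit 1717365707) (nat_lit 608) (nat_lit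 3605768307) (nat_lit 608) (nat_lit 2087851726) (nat_lit 176) (nat_lit 4) (nat_lit 184) (nat_lit 5) (nat_lit 184) (nat_lit 4) (nat_lit 289) (nat_lit 246) (nat_lit 245)))) (XT.nd (nat_lit 156) (nat_lit 1064) (nat_lit 0) (XT.nd (nat_lit 78) (nat_lit 532) (nat_lit 0) (XT.lf (nat_lit 0) (nat_lit 1193360376) (nat_lit 684) (nat_lit 569100434) (nat_lit 76) (nat_lit 5720223259) (nat_lit 175) (nat_lit 5) (nat_lit 184) (nat_lit 5) (nat_lit 176) (nat_lit 4) (nat_lit 290) (nat_lit 246) (nat_lit 244)) (XT.lf (nat_lit 0) (nat_lit 4485418774) (nat_lit 608) (nat_lit 2880167862) (nat_lit 0) (nat_lit 191822698) (nat_lit 168) (nat_lit 5) (nat_lit 176) (nat_lit 4) (nat_lit 168) (nat_lit 4) (nat_lit 291) (nat_lit 246) (nat_lit 243))) (XT.nd (nat_lit 78) (nat_lit 456) (nat_lit 0) (XT.lf (nat_lit 0) (nat_lit 191925022) (nat_lit 608) (nat_lit 5252637502) (nat_lit 76) (nat_lit 2191220662) (nat_lit 160) (nat_lit 5) (nat_lit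 168) (nat_lit 5) (nat_lit 161) (nat_lit 4) (nat_lit 292) (nat_lit 246) (nat_lit 242)) (XT.lf (nat_lit 0) (nat_lit 14040077) (nat_lit 456) (nat_lit 3417316352) (nat_lit 532) (nat_lit 4286175626) (nat_lit 154) (nat_lit 5) (nat_lit 160) (nat_lit 5) (nat_lit 161) (nat_lit 4) (nat_lit 293) (nat_lit 246) (nat_lit 241)))))) (XT.nd (nat_lit 546) (nat_lit 2052) (nat_lit 0) (XT.nd (nat_lit 234) (nat_lit 988) (nat_lit 0) (XT.nd (nat_lit 78) (nat_lit 1064) (nat_lit 0) (XT.lf (nat_lit 0) (nat_lit 5444110878) (nat_lit 456) (nat_lit 1288379561) (nat_lit 532) (nat_lit 1070420510) (nat_lit 154) (nat_lit 5) (nat_lit 160) (nat_lit 5) (nat_lit 161) (nat_lit 4) (nat_lit 294) (nat_lit 246) (nat_lit 240)) (XT.nd (nat_lit 78) (nat_lit 456) (nat_lit 0) (XT.lf (nat_lit 0) (nat_lit 2149866006) (nat_lit 608) (nat_lit 4817373755) (nat_lit 76) (nat_lit 924517479) (nat_lit 146) (nat_lit 5) (nat_lit 154) (nat_lit 5) (nat_lit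 147) (nat_lit 4) (nat_lit 295) (nat_lit 246) (nat_lit 239)) (XT.lf (nat_lit 0) (nat_lit 622245504) (nat_lit 456) (nat_lit 4780318002) (nat_lit 532) (nat_lit 2581771511) (nat_lit 140) (nat_lit 5) (nat_lit 146) (nat_lit 5) (nat_lit 147) (nat_lit 4) (nat_lit 296) (nat_lit 246) (nat_lit 238)))) (XT.nd (nat_lit 156) (nat_lit 456) (nat_lit 0) (XT.nd (nat_lit 78) (nat_lit 456) (nat_lit 0) (XT.lf (nat_lit 0) (nat_lit 624250382) (nat_lit 532) (nat_lit 1864826711) (nat_lit 76) (nat_lit 5591589489) (nat_lit 139) (nat_lit 5) (nat_lit 146) (nat_lit 5) (nat_lit 140) (nat_lit 5) (nat_lit 297) (nat_lit 246) (nat_lit 237)) (XT.lf (nat_lit 0) (nat_lit 3744423779) (nat_lit 456) (nat_lit 83710942) (nat_lit 532) (nat_lit 4352474085) (nat_lit 133) (nat_lit 5) (nat_lit 139) (nat_lit 5) (nat_lit 140) (nat_lit 5) (nat_lit 298) (nat_lit 246) (nat_lit 236))) (XT.nd (nat_lit 78) (nat_lit 76) (nat_lit 0) (XT.lf (nat_lit 0)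 (nat_lit 1175134028) (nat_lit 380) (nat_lit 5925172221) (nat_lit 456) (nat_lit 1184169928) (nat_lit 128) (nat_lit 5) (nat_lit 133) (nat_lit 5) (nat_lit 134) (nat_lit 4) (nat_lit 299) (nat_lit 246) (nat_lit 235)) (XT.lf (nat_lit 0) (nat_lit 2004043824) (nat_lit 456) (nat_lit 1468132196) (nat_lit 76) (nat_lit 4919807693) (nat_lit 127) (nat_lit 5) (nat_lit 133) (nat_lit 5) (nat_lit 128) (nat_lit 5) (nat_lit 300) (nat_lit 246) (nat_lit 234))))) (XT.nd (nat_lit 234) (nat_lit 1140) (nat_lit 0) (XT.nd (nat_lit 78) (nat_lit 456) (nat_lit 0) (XT.lf (nat_lit 0) (nat_lit 4315293717) (nat_lit 456) (nat_lit 912003204) (nat_lit 532) (nat_lit 3276256205) (nat_lit 121) (nat_lit 5) (nat_lit 127) (nat_lit 5) (nat_lit 128) (nat_lit 5) (nat_lit 301) (nat_lit 246) (nat_lit 233)) (XT.nd (nat_lit 78) (nat_lit 76) (nat_lit 0) (XT.lf (nat_lit 0) (nat_lit 1598037690) (nat_lit 380) (nat_lit 6918962875) (nat_lit 456) (nat_lit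 102458211) (nat_lit 116) (nat_lit 5) (nat_lit 121) (nat_lit 5) (nat_lit 122) (nat_lit 4) (nat_lit 302) (nat_lit 246) (nat_lit 232)) (XT.lf (nat_lit 0) (nat_lit 3079802429) (nat_lit 456) (nat_lit 1235007726) (nat_lit 76) (nat_lit 4423944134) (nat_lit 115) (nat_lit 5) (nat_lit 121) (nat_lit 5) (nat_lit 116) (nat_lit 5) (nat_lit 303) (nat_lit 246) (nat_lit 231)))) (XT.nd (nat_lit 156) (nat_lit 380) (nat_lit 0) (XT.nd (nat_lit 78) (nat_lit 380) (nat_lit 0) (XT.lf (nat_lit 0) (nat_lit 4717667016) (nat_lit 380) (nat_lit 1608685593) (nat_lit 456) (nat_lit 2536193999) (nat_lit 110) (nat_lit 5) (nat_lit 115) (nat_lit 5) (nat_lit 116) (nat_lit 5) (nat_lit 304) (nat_lit 246) (nat_lit 230)) (XT.lf (nat_lit 0) (nat_lit 634428192) (nat_lit 380) (nat_lit 7188351895) (nat_lit 76) (nat_lit 1168123283) (nat_lit 105) (nat_lit 5) (nat_lit 110) (nat_lit 5) (nat_lit 106) (nat_lit 5) (nat_lit 305) (nat_lit 246) (nat_lit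 229))) (XT.nd (nat_lit 78) (nat_lit 380) (nat_lit 0) (XT.lf (nat_lit 0) (nat_lit 3834331881) (nat_lit 380) (nat_lit 1249932147) (nat_lit 76) (nat_lit 4038607805) (nat_lit 105) (nat_lit 5) (nat_lit 110) (nat_lit 5) (nat_lit 106) (nat_lit 5) (nat_lit 306) (nat_lit 246) (nat_lit 228)) (XT.lf (nat_lit 0) (nat_lit 4864480631) (nat_lit 380) (nat_lit 2241581029) (nat_lit 456) (nat_lit 2153529283) (nat_lit 100) (nat_lit 5) (nat_lit 105) (nat_lit 5) (nat_lit 106) (nat_lit 5) (nat_lit 307) (nat_lit 246) (nat_lit 227))))))))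
noncomputable def xc69 : XT := (XT.nd (nat_lit 2184) (nat_lit 1748) (nat_lit 0) (XT.nd (nat_lit 1092) (nat_lit 1520) (nat_lit 0) (XT.nd (nat_lit 546) (nat_lit 1140) (nat_lit 0) (XT.nd (nat_lit 234) (nat_lit 988) (nat_lit 0) (XT.nd (nat_lit 78) (nat_lit 304) (nat_lit 0) (XT.lf (nat_lit 0) (nat_lit 1019945944) (nat_lit 380) (nat_lit 7694847407) (nat_lit 76) (nat_lit 686408710) (nat_lit 95) (nat_lit 5) (nat_lit 100) (nat_lit 5) (nat_lit 96) (nat_lit 5) (nat_lit 308) (nat_lit 246) (nat_lit 226)) (XT.nd (nat_lit 78) (nat_lit 304) (nat_lit 0) (XT.lf (nat_lit 0) (nat_lit 4242677184) (nat_lit 380) (nat_lit 1607249148) (nat_lit 76) (nat_lit 3696636276) (nat_lit 95) (nat_lit 5) (nat_lit 100) (nat_lit 5) (nat_lit 96) (nat_lit 5) (nat_lit 309) (nat_lit 246) (nat_lit 225)) (XT.lf (nat_lit 0) (nat_lit 4658222605) (nat_lit 304) (nat_lit 2880995215) (nat_lit 380) (nat_lit 2157811378) (nat_lit 91) (nat_lit 5) (nat_lit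 95) (nat_lit 5) (nat_lit 96) (nat_lit 5) (nat_lit 310) (nat_lit 246) (nat_lit 224)))) (XT.nd (nat_lit 156) (nat_lit 608) (nat_lit 0) (XT.nd (nat_lit 78) (nat_lit 0) (nat_lit 0) (XT.lf (nat_lit 0) (nat_lit 1024040013) (nat_lit 380) (nat_lit 8644720680) (nat_lit 76) (nat_lit 184116901) (nat_lit 86) (nat_lit 5) (nat_lit 91) (nat_lit 5) (nat_lit 87) (nat_lit 5) (nat_lit 311) (nat_lit 246) (nat_lit 223)) (XT.lf (nat_lit 0) (nat_lit 4271349480) (nat_lit 380) (nat_lit 2413380278) (nat_lit 76) (nat_lit 3327683618) (nat_lit 86) (nat_lit 5) (nat_lit 91) (nat_lit 5) (nat_lit 87) (nat_lit 5) (nat_lit 312) (nat_lit 246) (nat_lit 222))) (XT.nd (nat_lit 78) (nat_lit 304) (nat_lit 0) (XT.lf (nat_lit 0) (nat_lit 3988623758) (nat_lit 304) (nat_lit 3601195420) (nat_lit 380) (nat_lit 2587756291) (nat_lit 82) (nat_lit 5) (nat_lit 86) (nat_lit 5) (nat_lit 87) (nat_lit 5) (nat_lit 313) (nat_lit 246) (nat_lit 221)) (XT.lf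 (nat_lit 0) (nat_lit 187759950) (nat_lit 228) (nat_lit 421631097) (nat_lit 304) (nat_lit 9739296787) (nat_lit 78) (nat_lit 5) (nat_lit 81) (nat_lit 5) (nat_lit 82) (nat_lit 5) (nat_lit 314) (nat_lit 246) (nat_lit 220))))) (XT.nd (nat_lit 234) (nat_lit 836) (nat_lit 0) (XT.nd (nat_lit 78) (nat_lit 304) (nat_lit 0) (XT.lf (nat_lit 0) (nat_lit 3877372299) (nat_lit 304) (nat_lit 3789331728) (nat_lit 76) (nat_lit 2856700991) (nat_lit 78) (nat_lit 5) (nat_lit 82) (nat_lit 5) (nat_lit 79) (nat_lit 5) (nat_lit 315) (nat_lit 246) (nat_lit 219)) (XT.nd (nat_lit 78) (nat_lit 0) (nat_lit 0) (XT.lf (nat_lit 0) (nat_lit 2730039320) (nat_lit 304) (nat_lit 4482011740) (nat_lit 380) (nat_lit 3492299532) (nat_lit 74) (nat_lit 5) (nat_lit 78) (nat_lit 5) (nat_lit 79) (nat_lit 5) (nat_lit 316) (nat_lit 246) (nat_lit 218)) (XT.lf (nat_lit 0) (nat_lit 9431104341) (nat_lit 304) (nat_lit 1193090002) (nat_lit 380) (nat_lit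 267252724) (nat_lit 74) (nat_lit 5) (nat_lit 78) (nat_lit 5) (nat_lit 79) (nat_lit 5) (nat_lit 317) (nat_lit 246) (nat_lit 217)))) (XT.nd (nat_lit 156) (nat_lit 304) (nat_lit 0) (XT.nd (nat_lit 78) (nat_lit 228) (nat_lit 0) (XT.lf (nat_lit 0) (nat_lit 3007124497) (nat_lit 304) (nat_lit 5873549055) (nat_lit 76) (nat_lit 2202279153) (nat_lit 70) (nat_lit 5) (nat_lit 74) (nat_lit 5) (nat_lit 71) (nat_lit 5) (nat_lit 318) (nat_lit 246) (nat_lit 216)) (XT.lf (nat_lit 0) (nat_lit 738463824) (nat_lit 228) (nat_lit 5610593466) (nat_lit 304) (nat_lit 4931867384) (nat_lit 67) (nat_lit 5) (nat_lit 70) (nat_lit 5) (nat_lit 71) (nat_lit 5) (nat_lit 319) (nat_lit 246) (nat_lit 215))) (XT.nd (nat_lit 78) (nat_lit 304) (nat_lit 0) (XT.lf (nat_lit 0) (nat_lit 7579370556) (nat_lit 228) (nat_lit 2212938393) (nat_lit 304) (nat_lit 1692535238) (nat_lit 67) (nat_lit 5) (nat_lit 70) (nat_lit 5) (nat_lit 71) (nat_lit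 5) (nat_lit 320) (nat_lit 246) (nat_lit 214)) (XT.lf (nat_lit 0) (nat_lit 1594952880) (nat_lit 304) (nat_lit 8825181863) (nat_lit 76) (nat_lit 1274818681) (nat_lit 63) (nat_lit 5) (nat_lit 67) (nat_lit 5) (nat_lit 64) (nat_lit 5) (nat_lit 321) (nat_lit 246) (nat_lit 213)))))) (XT.nd (nat_lit 546) (nat_lit 608) (nat_lit 0) (XT.nd (nat_lit 234) (nat_lit 684) (nat_lit 0) (XT.nd (nat_lit 78) (nat_lit 228) (nat_lit 0) (XT.lf (nat_lit 0) (nat_lit 4952156432) (nat_lit 304) (nat_lit 2109894729) (nat_lit 76) (nat_lit 4848695570) (nat_lit 63) (nat_lit 5) (nat_lit 67) (nat_lit 5) (nat_lit 64) (nat_lit 5) (nat_lit 322) (nat_lit 246) (nat_lit 212)) (XT.nd (nat_lit 78) (nat_lit 0) (nat_lit 0) (XT.lf (nat_lit 0) (nat_lit 4814403305) (nat_lit 228) (nat_lit 3586971868) (nat_lit 304) (nat_lit 3731935421) (nat_lit 60) (nat_lit 5) (nat_lit 63) (nat_lit 5) (nat_lit 64) (nat_lit 5) (nat_lit 323) (nat_lit 246) (nat_lit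 211)) (XT.lf (nat_lit 0) (nat_lit 11904133993) (nat_lit 228) (nat_lit 17041400) (nat_lit 304) (nat_lit 442397517) (nat_lit 60) (nat_lit 5) (nat_lit 63) (nat_lit 5) (nat_lit 64) (nat_lit 5) (nat_lit 324) (nat_lit 246) (nat_lit 210)))) (XT.nd (nat_lit 156) (nat_lit 228) (nat_lit 0) (XT.nd (nat_lit 78) (nat_lit 228) (nat_lit 0) (XT.lf (nat_lit 0) (nat_lit 2934621882) (nat_lit 228) (nat_lit 6012826345) (nat_lit 76) (nat_lit 3651089680) (nat_lit 57) (nat_lit 5) (nat_lit 60) (nat_lit 5) (nat_lit 58) (nat_lit 5) (nat_lit 325) (nat_lit 246) (nat_lit 209)) (XT.lf (nat_lit 0) (nat_lit 940347593) (nat_lit 228) (nat_lit 5424880484) (nat_lit 304) (nat_lit 6476389076) (nat_lit 54) (nat_lit 5) (nat_lit 57) (nat_lit 5) (nat_lit 58) (nat_lit 5) (nat_lit 326) (nat_lit 246) (nat_lit 208))) (XT.nd (nat_lit 78) (nat_lit 228) (nat_lit 0) (XT.lf (nat_lit 0) (nat_lit 8141574419) (nat_lit 228) (nat_lit 1765900629) (nat_lit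 304) (nat_lit 3184282869) (nat_lit 54) (nat_lit 5) (nat_lit 57) (nat_lit 5) (nat_lit 58) (nat_lit 5) (nat_lit 327) (nat_lit 246) (nat_lit 207)) (XT.lf (nat_lit 0) (nat_lit 191555950) (nat_lit 228) (nat_lit 11202115400) (nat_lit 76) (nat_lit 1956031008) (nat_lit 51) (nat_lit 5) (nat_lit 54) (nat_lit 5) (nat_lit 52) (nat_lit 5) (nat_lit 328) (nat_lit 246) (nat_lit 206))))) (XT.nd (nat_lit 234) (nat_lit 380) (nat_lit 0) (XT.nd (nat_lit 78) (nat_lit 228) (nat_lit 0) (XT.lf (nat_lit 0) (nat_lit 3622025984) (nat_lit 228) (nat_lit 4186459426) (nat_lit 76) (nat_lit 5805461389) (nat_lit 51) (nat_lit 5) (nat_lit 54) (nat_lit 5) (nat_lit 52) (nat_lit 5) (nat_lit 329) (nat_lit 246) (nat_lit 205)) (XT.nd (nat_lit 78) (nat_lit 0) (nat_lit 0) (XT.lf (nat_lit 0) (nat_lit 3018141914) (nat_lit 228) (nat_lit 4117145237) (nat_lit 304) (nat_lit 6751462494) (nat_lit 48) (nat_lit 5) (nat_lit 51) (nat_lit 5) (nat_lit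 52) (nat_lit 5) (nat_lit 330) (nat_lit 246) (nat_lit 204)) (XT.lf (nat_lit 0) (nat_lit 10445068900) (nat_lit 228) (nat_lit 302682752) (nat_lit 304) (nat_lit 3420197344) (nat_lit 48) (nat_lit 5) (nat_lit 51) (nat_lit 5) (nat_lit 52) (nat_lit 5) (nat_lit 331) (nat_lit 246) (nat_lit 203)))) (XT.nd (nat_lit 156) (nat_lit 152) (nat_lit 0) (XT.nd (nat_lit 78) (nat_lit 0) (nat_lit 0) (XT.lf (nat_lit 0) (nat_lit 33040923) (nat_lit 228) (nat_lit 10863235878) (nat_lit 76) (nat_lit 3560661912) (nat_lit 45) (nat_lit 5) (nat_lit 48) (nat_lit 5) (nat_lit 46) (nat_lit 5) (nat_lit 332) (nat_lit 246) (nat_lit 202)) (XT.lf (nat_lit 0) (nat_lit 3514893195) (nat_lit 228) (nat_lit 3663256744) (nat_lit 76) (nat_lit 7575643829) (nat_lit 45) (nat_lit 5) (nat_lit 48) (nat_lit 5) (nat_lit 46) (nat_lit 5) (nat_lit 333) (nat_lit 246) (nat_lit 201))) (XT.nd (nat_lit 78) (nat_lit 0) (nat_lit 0) (XT.lf (nat_lit 0) (nat_lit 3749526721)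 (nat_lit 152) (nat_lit 3341888487) (nat_lit 228) (nat_lit 7968456461) (nat_lit 43) (nat_lit 5) (nat_lit 45) (nat_lit 5) (nat_lit 46) (nat_lit 5) (nat_lit 334) (nat_lit 246) (nat_lit 200)) (XT.lf (nat_lit 0) (nat_lit 10772936606) (nat_lit 228) (nat_lit 3997160624) (nat_lit 76) (nat_lit 605126496) (nat_lit 43) (nat_lit 5) (nat_lit 46) (nat_lit 5) (nat_lit 44) (nat_lit 4) (nat_lit 335) (nat_lit 246) (nat_lit 199))))))) (XT.nd (nat_lit 1092) (nat_lit 684) (nat_lit 0) (XT.nd (nat_lit 546) (nat_lit 456) (nat_lit 0) (XT.nd (nat_lit 234) (nat_lit 228) (nat_lit 0) (XT.nd (nat_lit 78) (nat_lit 228) (nat_lit 0) (XT.lf (nat_lit 0) (nat_lit 3496085883) (nat_lit 152) (nat_lit 11091325147) (nat_lit 228) (nat_lit 1111972358) (nat_lit 41) (nat_lit 5) (nat_lit 43) (nat_lit 5) (nat_lit 44) (nat_lit 4) (nat_lit 336) (nat_lit 246) (nat_lit 198)) (XT.nd (nat_lit 78) (nat_lit 152) (nat_lit 0) (XT.lf (nat_lit 0) (nat_lit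 2431299786) (nat_lit 228) (nat_lit 4834891938) (nat_lit 76) (nat_lit 8766480006) (nat_lit 40) (nat_lit 5) (nat_lit 43) (nat_lit 5) (nat_lit 41) (nat_lit 5) (nat_lit 337) (nat_lit 246) (nat_lit 197)) (XT.lf (nat_lit 0) (nat_lit 2724255617) (nat_lit 152) (nat_lit 3317673605) (nat_lit 228) (nat_lit 10334217327) (nat_lit 38) (nat_lit 5) (nat_lit 40) (nat_lit 5) (nat_lit 41) (nat_lit 5) (nat_lit 338) (nat_lit 246) (nat_lit 196)))) (XT.nd (nat_lit 156) (nat_lit 76) (nat_lit 0) (XT.nd (nat_lit 78) (nat_lit 152) (nat_lit 0) (XT.lf (nat_lit 0) (nat_lit 9774880483) (nat_lit 228) (nat_lit 6199611709) (nat_lit 76) (nat_lit 755033113) (nat_lit 38) (nat_lit 5) (nat_lit 41) (nat_lit 5) (nat_lit 39) (nat_lit 4) (nat_lit 339) (nat_lit 246) (nat_lit 195)) (XT.lf (nat_lit 0) (nat_lit 1400074341) (nat_lit 152) (nat_lit 12224784495) (nat_lit 228) (nat_lit 3468514636) (nat_lit 36) (nat_lit 5) (nat_lit 38) (nat_lit 5)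 (nat_lit 39) (nat_lit 4) (nat_lit 340) (nat_lit 246) (nat_lit 194))) (XT.nd (nat_lit 78) (nat_lit 0) (nat_lit 0) (XT.lf (nat_lit 0) (nat_lit 141878627) (nat_lit 228) (nat_lit 8183995098) (nat_lit 76) (nat_lit 9141584311) (nat_lit 35) (nat_lit 5) (nat_lit 38) (nat_lit 5) (nat_lit 36) (nat_lit 5) (nat_lit 341) (nat_lit 246) (nat_lit 193)) (XT.lf (nat_lit 0) (nat_lit 3750908778) (nat_lit 228) (nat_lit 552470728) (nat_lit 76) (nat_lit 13549571790) (nat_lit 35) (nat_lit 5) (nat_lit 38) (nat_lit 5) (nat_lit 36) (nat_lit 5) (nat_lit 342) (nat_lit 246) (nat_lit 192))))) (XT.nd (nat_lit 234) (nat_lit 228) (nat_lit 0) (XT.nd (nat_lit 78) (nat_lit 76) (nat_lit 0) (XT.lf (nat_lit 0) (nat_lit 7385399528) (nat_lit 152) (nat_lit 115005999) (nat_lit 228) (nat_lit 10748655020) (nat_lit 33) (nat_lit 5) (nat_lit 35) (nat_lit 5) (nat_lit 36) (nat_lit 5) (nat_lit 343) (nat_lit 246) (nat_lit 191)) (XT.nd (nat_lit 78)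 (nat_lit 76) (nat_lit 0) (XT.lf (nat_lit 0) (nat_lit 11369815695) (nat_lit 228) (nat_lit 3191533793) (nat_lit 76) (nat_lit 4095497298) (nat_lit 33) (nat_lit 5) (nat_lit 36) (nat_lit 5) (nat_lit 34) (nat_lit 4) (nat_lit 344) (nat_lit 246) (nat_lit 190)) (XT.lf (nat_lit 0) (nat_lit 4737045383) (nat_lit 76) (nat_lit 10627491080) (nat_lit 152) (nat_lit 3712069384) (nat_lit 32) (nat_lit 5) (nat_lit 33) (nat_lit 5) (nat_lit 34) (nat_lit 4) (nat_lit 345) (nat_lit 246) (nat_lit 189)))) (XT.nd (nat_lit 156) (nat_lit 0) (nat_lit 0) (XT.nd (nat_lit 78) (nat_lit 228) (nat_lit 0) (XT.lf (nat_lit 0) (nat_lit 12904532590) (nat_lit 76) (nat_lit 6569820606) (nat_lit 152) (nat_lit 34762469) (nat_lit 32) (nat_lit 5) (nat_lit 33) (nat_lit 5) (nat_lit 34) (nat_lit 4) (nat_lit 346) (nat_lit 246) (nat_lit 188)) (XT.lf (nat_lit 0) (nat_lit 1288273433) (nat_lit 152) (nat_lit 2367474741) (nat_lit 228) (nat_lit 16298501586)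 (nat_lit 29) (nat_lit 5) (nat_lit 31) (nat_lit 5) (nat_lit 32) (nat_lit 5) (nat_lit 347) (nat_lit 246) (nat_lit 187))) (XT.nd (nat_lit 78) (nat_lit 0) (nat_lit 0) (XT.lf (nat_lit 0) (nat_lit 7506408431) (nat_lit 228) (nat_lit 10940733579) (nat_lit 76) (nat_lit 1964095843) (nat_lit 29) (nat_lit 5) (nat_lit 32) (nat_lit 5) (nat_lit 30) (nat_lit 4) (nat_lit 348) (nat_lit 246) (nat_lit 186)) (XT.lf (nat_lit 0) (nat_lit 11461008982) (nat_lit 228) (nat_lit 3068771305) (nat_lit 76) (nat_lit 6352516562) (nat_lit 29) (nat_lit 5) (nat_lit 32) (nat_lit 5) (nat_lit 30) (nat_lit 4) (nat_lit 349) (nat_lit 246) (nat_lit 185)))))) (XT.nd (nat_lit 546) (nat_lit 304) (nat_lit 0) (XT.nd (nat_lit 234) (nat_lit 228) (nat_lit 0) (XT.nd (nat_lit 78) (nat_lit 76) (nat_lit 0) (XT.lf (nat_lit 0) (nat_lit 5078649264) (nat_lit 76) (nat_lit 10470417506) (nat_lit 152) (nat_lit 5817989737) (nat_lit 28) (nat_lit 5) (nat_lit 29)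 (nat_lit 5) (nat_lit 30) (nat_lit 4) (nat_lit 350) (nat_lit 246) (nat_lit 184)) (XT.nd (nat_lit 78) (nat_lit 76) (nat_lit 0) (XT.lf (nat_lit 0) (nat_lit 13474182248) (nat_lit 76) (nat_lit 6282993812) (nat_lit 152) (nat_lit 2109273681) (nat_lit 28) (nat_lit 5) (nat_lit 29) (nat_lit 5) (nat_lit 30) (nat_lit 4) (nat_lit 351) (nat_lit 246) (nat_lit 183)) (XT.lf (nat_lit 0) (nat_lit 1644385852) (nat_lit 152) (nat_lit 333847939) (nat_lit 76) (nat_lit 20403098058) (nat_lit 27) (nat_lit 5) (nat_lit 29) (nat_lit 5) (nat_lit 28) (nat_lit 5) (nat_lit 352) (nat_lit 246) (nat_lit 182)))) (XT.nd (nat_lit 156) (nat_lit 76) (nat_lit 0) (XT.nd (nat_lit 78) (nat_lit 0) (nat_lit 0) (XT.lf (nat_lit 0) (nat_lit 5537969564) (nat_lit 228) (nat_lit 14888047130) (nat_lit 76) (nat_lit 2482937916) (nat_lit 25) (nat_lit 5) (nat_lit 28) (nat_lit 5) (nat_lit 26) (nat_lit 4) (nat_lit 353) (nat_lit 246) (nat_lit 181)) (XT.lf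 (nat_lit 0) (nat_lit 9539535162) (nat_lit 228) (nat_lit 6895413368) (nat_lit 76) (nat_lit 7017733912) (nat_lit 25) (nat_lit 5) (nat_lit 28) (nat_lit 5) (nat_lit 26) (nat_lit 4) (nat_lit 354) (nat_lit 246) (nat_lit 180))) (XT.nd (nat_lit 78) (nat_lit 0) (nat_lit 0) (XT.lf (nat_lit 0) (nat_lit 1307525869) (nat_lit 76) (nat_lit 12335300611) (nat_lit 152) (nat_lit 10370456547) (nat_lit 24) (nat_lit 5) (nat_lit 25) (nat_lit 5) (nat_lit 26) (nat_lit 4) (nat_lit 355) (nat_lit 246) (nat_lit 179)) (XT.lf (nat_lit 0) (nat_lit 9843453522) (nat_lit 76) (nat_lit 8064879496) (nat_lit 152) (nat_lit 6681206070) (nat_lit 24) (nat_lit 5) (nat_lit 25) (nat_lit 5) (nat_lit 26) (nat_lit 4) (nat_lit 356) (nat_lit 246) (nat_lit 178))))) (XT.nd (nat_lit 234) (nat_lit 76) (nat_lit 0) (XT.nd (nat_lit 78) (nat_lit 228) (nat_lit 0) (XT.lf (nat_lit 0) (nat_lit 18582595919) (nat_lit 76) (nat_lit 3689583906) (nat_lit 152) (nat_lit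 2911802386) (nat_lit 24) (nat_lit 5) (nat_lit 25) (nat_lit 5) (nat_lit 26) (nat_lit 4) (nat_lit 357) (nat_lit 246) (nat_lit 177)) (XT.nd (nat_lit 78) (nat_lit 0) (nat_lit 0) (XT.lf (nat_lit 0) (nat_lit 947504011) (nat_lit 228) (nat_lit 24043475727) (nat_lit 76) (nat_lit 805136125) (nat_lit 21) (nat_lit 5) (nat_lit 24) (nat_lit 5) (nat_lit 22) (nat_lit 4) (nat_lit 358) (nat_lit 246) (nat_lit 176)) (XT.lf (nat_lit 0) (nat_lit 4938993916) (nat_lit 228) (nat_lit 16050080102) (nat_lit 76) (nat_lit 5434436487) (nat_lit 21) (nat_lit 5) (nat_lit 24) (nat_lit 5) (nat_lit 22) (nat_lit 4) (nat_lit 359) (nat_lit 246) (nat_lit 175)))) (XT.nd (nat_lit 156) (nat_lit 0) (nat_lit 0) (XT.nd (nat_lit 78) (nat_lit 76) (nat_lit 0) (XT.lf (nat_lit 0) (nat_lit 9022147991) (nat_lit 228) (nat_lit 7867421875) (nat_lit 76) (nat_lit 10181008983) (nat_lit 21) (nat_lit 5) (nat_lit 24) (nat_lit 5) (nat_lit 22) (nat_lit 4) (nat_lit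 360) (nat_lit 246) (nat_lit 174)) (XT.lf (nat_lit 0) (nat_lit 521831664) (nat_lit 76) (nat_lit 12683718542) (nat_lit 152) (nat_lit 14532185605) (nat_lit 20) (nat_lit 5) (nat_lit 21) (nat_lit 5) (nat_lit 22) (nat_lit 4) (nat_lit 361) (nat_lit 246) (nat_lit 173))) (XT.nd (nat_lit 78) (nat_lit 0) (nat_lit 0) (XT.lf (nat_lit 0) (nat_lit 9275451048) (nat_lit 76) (nat_lit 8291513344) (nat_lit 152) (nat_lit 10856376697) (nat_lit 20) (nat_lit 5) (nat_lit 21) (nat_lit 5) (nat_lit 22) (nat_lit 4) (nat_lit 362) (nat_lit 246) (nat_lit 172)) (XT.lf (nat_lit 0) (nat_lit 18244507948) (nat_lit 76) (nat_lit 3788561959) (nat_lit 152) (nat_lit 7097237797) (nat_lit 20) (nat_lit 5) (nat_lit 21) (nat_lit 5) (nat_lit 22) (nat_lit 4) (nat_lit 363) (nat_lit 246) (nat_lit 171))))))))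
noncomputable def xc70 : XT := (XT.nd (nat_lit 2106) (nat_lit 304) (nat_lit 0) (XT.nd (nat_lit 1014) (nat_lit 304) (nat_lit 0) (XT.nd (nat_lit 468) (nat_lit 152) (nat_lit 0) (XT.nd (nat_lit 234) (nat_lit 76) (nat_lit 0) (XT.nd (nat_lit 78) (nat_lit 228) (nat_lit 0) (XT.lf (nat_lit 0) (nat_lit 26615738703) (nat_lit 152) (nat_lit 2430383522) (nat_lit 0) (nat_lit 812892083) (nat_lit 20) (nat_lit 5) (nat_lit 22) (nat_lit 4) (nat_lit 20) (nat_lit 4) (nat_lit 364) (nat_lit 246) (nat_lit 170)) (XT.nd (nat_lit 78) (nat_lit 0) (nat_lit 0) (XT.lf (nat_lit 0) (nat_lit 786268371) (nat_lit 228) (nat_lit 24295616211) (nat_lit 76) (nat_lit 5525271918) (nat_lit 17) (nat_lit 5) (nat_lit 20) (nat_lit 5) (nat_lit 18) (nat_lit 4) (nat_lit 365) (nat_lit 246) (nat_lit 169)) (XT.lf (nat_lit 0) (nat_lit 4871500968) (nat_lit 228) (nat_lit 16088899268) (nat_lit 76) (nat_lit 10416387386) (nat_lit 17) (nat_lit 5) (nat_lit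 20) (nat_lit 5) (nat_lit 18) (nat_lit 4) (nat_lit 366) (nat_lit 246) (nat_lit 168)))) (XT.nd (nat_lit 78) (nat_lit 76) (nat_lit 0) (XT.lf (nat_lit 0) (nat_lit 9055216590) (nat_lit 228) (nat_lit 7679748041) (nat_lit 76) (nat_lit 15435272724) (nat_lit 17) (nat_lit 5) (nat_lit 20) (nat_lit 5) (nat_lit 18) (nat_lit 4) (nat_lit 367) (nat_lit 246) (nat_lit 167)) (XT.nd (nat_lit 78) (nat_lit 0) (nat_lit 0) (XT.lf (nat_lit 0) (nat_lit 957876901) (nat_lit 76) (nat_lit 12392401707) (nat_lit 152) (nat_lit 19637644164) (nat_lit 16) (nat_lit 5) (nat_lit 17) (nat_lit 5) (nat_lit 18) (nat_lit 4) (nat_lit 368) (nat_lit 246) (nat_lit 166)) (XT.lf (nat_lit 0) (nat_lit 9969982041) (nat_lit 76) (nat_lit 7858664375) (nat_lit 152) (nat_lit 15999865748) (nat_lit 16) (nat_lit 5) (nat_lit 17) (nat_lit 5) (nat_lit 18) (nat_lit 4) (nat_lit 369) (nat_lit 246) (nat_lit 165))))) (XT.nd (nat_lit 234) (nat_lit 76) (nat_lit 0)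 (XT.nd (nat_lit 78) (nat_lit 76) (nat_lit 0) (XT.lf (nat_lit 0) (nat_lit 19211599988) (nat_lit 76) (nat_lit 3207341514) (nat_lit 152) (nat_lit 12276057273) (nat_lit 16) (nat_lit 5) (nat_lit 17) (nat_lit 5) (nat_lit 18) (nat_lit 4) (nat_lit 370) (nat_lit 246) (nat_lit 164)) (XT.nd (nat_lit 78) (nat_lit 76) (nat_lit 0) (XT.lf (nat_lit 0) (nat_lit 27140224609) (nat_lit 152) (nat_lit 6912383593) (nat_lit 0) (nat_lit 1535080034) (nat_lit 16) (nat_lit 5) (nat_lit 18) (nat_lit 4) (nat_lit 16) (nat_lit 4) (nat_lit 371) (nat_lit 246) (nat_lit 163)) (XT.lf (nat_lit 0) (nat_lit 1881746921) (nat_lit 76) (nat_lit 30149940146) (nat_lit 76) (nat_lit 4474621522) (nat_lit 15) (nat_lit 4) (nat_lit 16) (nat_lit 5) (nat_lit 16) (nat_lit 4) (nat_lit 372) (nat_lit 246) (nat_lit 162)))) (XT.nd (nat_lit 156) (nat_lit 0) (nat_lit 0) (XT.nd (nat_lit 78) (nat_lit 76) (nat_lit 0) (XT.lf (nat_lit 0) (nat_lit 11042801645) (nat_lit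 76) (nat_lit 26075839248) (nat_lit 76) (nat_lit 332390480) (nat_lit 15) (nat_lit 4) (nat_lit 16) (nat_lit 5) (nat_lit 16) (nat_lit 4) (nat_lit 373) (nat_lit 246) (nat_lit 161)) (XT.lf (nat_lit 0) (nat_lit 3836689753) (nat_lit 152) (nat_lit 18021114340) (nat_lit 76) (nat_lit 16565782599) (nat_lit 14) (nat_lit 5) (nat_lit 16) (nat_lit 5) (nat_lit 15) (nat_lit 4) (nat_lit 374) (nat_lit 246) (nat_lit 160))) (XT.nd (nat_lit 78) (nat_lit 0) (nat_lit 0) (XT.lf (nat_lit 0) (nat_lit 8104113974) (nat_lit 152) (nat_lit 9422462367) (nat_lit 76) (nat_lit 21899250745) (nat_lit 14) (nat_lit 5) (nat_lit 16) (nat_lit 5) (nat_lit 15) (nat_lit 4) (nat_lit 375) (nat_lit 246) (nat_lit 159)) (XT.lf (nat_lit 0) (nat_lit 12480097134) (nat_lit 152) (nat_lit 601565286) (nat_lit 76) (nat_lit 27377061735) (nat_lit 14) (nat_lit 5) (nat_lit 16) (nat_lit 5) (nat_lit 15) (nat_lit 4) (nat_lit 376) (nat_lit 246) (nat_lit 158))))))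 (XT.nd (nat_lit 546) (nat_lit 152) (nat_lit 0) (XT.nd (nat_lit 234) (nat_lit 76) (nat_lit 0) (XT.nd (nat_lit 78) (nat_lit 0) (nat_lit 0) (XT.lf (nat_lit 0) (nat_lit 8617441812) (nat_lit 76) (nat_lit 8433857218) (nat_lit 152) (nat_lit 24469396317) (nat_lit 13) (nat_lit 5) (nat_lit 14) (nat_lit 5) (nat_lit 15) (nat_lit 4) (nat_lit 377) (nat_lit 246) (nat_lit 157)) (XT.nd (nat_lit 78) (nat_lit 0) (nat_lit 0) (XT.lf (nat_lit 0) (nat_lit 18091016342) (nat_lit 76) (nat_lit 3656018743) (nat_lit 152) (nat_lit 20867873878) (nat_lit 13) (nat_lit 5) (nat_lit 14) (nat_lit 5) (nat_lit 15) (nat_lit 4) (nat_lit 378) (nat_lit 246) (nat_lit 156)) (XT.lf (nat_lit 0) (nat_lit 26577525984) (nat_lit 152) (nat_lit 15939049503) (nat_lit 0) (nat_lit 1225562096) (nat_lit 13) (nat_lit 5) (nat_lit 15) (nat_lit 4) (nat_lit 13) (nat_lit 4) (nat_lit 379) (nat_lit 246) (nat_lit 155)))) (XT.nd (nat_lit 156) (nat_lit 0) (nat_lit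 0) (XT.nd (nat_lit 78) (nat_lit 76) (nat_lit 0) (XT.lf (nat_lit 0) (nat_lit 31571383525) (nat_lit 152) (nat_lit 7165613839) (nat_lit 0) (nat_lit 6165637071) (nat_lit 13) (nat_lit 5) (nat_lit 15) (nat_lit 4) (nat_lit 13) (nat_lit 4) (nat_lit 380) (nat_lit 246) (nat_lit 154)) (XT.lf (nat_lit 0) (nat_lit 1875828538) (nat_lit 76) (nat_lit 34840030456) (nat_lit 76) (nat_lit 9382067919) (nat_lit 12) (nat_lit 4) (nat_lit 13) (nat_lit 5) (nat_lit 13) (nat_lit 4) (nat_lit 381) (nat_lit 246) (nat_lit 153))) (XT.nd (nat_lit 78) (nat_lit 0) (nat_lit 0) (XT.lf (nat_lit 0) (nat_lit 11303913487) (nat_lit 76) (nat_lit 30766083618) (nat_lit 76) (nat_lit 5257425856) (nat_lit 12) (nat_lit 4) (nat_lit 13) (nat_lit 5) (nat_lit 13) (nat_lit 4) (nat_lit 382) (nat_lit 246) (nat_lit 152)) (XT.lf (nat_lit 0) (nat_lit 20984269376) (nat_lit 76) (nat_lit 26583955742) (nat_lit 76) (nat_lit 1026079314) (nat_lit 12) (nat_lit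 4) (nat_lit 13) (nat_lit 5) (nat_lit 13) (nat_lit 4) (nat_lit 383) (nat_lit 246) (nat_lit 151))))) (XT.nd (nat_lit 234) (nat_lit 76) (nat_lit 0) (XT.nd (nat_lit 78) (nat_lit 0) (nat_lit 0) (XT.lf (nat_lit 0) (nat_lit 3250968355) (nat_lit 152) (nat_lit 19006195779) (nat_lit 76) (nat_lit 27641558005) (nat_lit 11) (nat_lit 5) (nat_lit 13) (nat_lit 5) (nat_lit 12) (nat_lit 4) (nat_lit 384) (nat_lit 246) (nat_lit 150)) (XT.nd (nat_lit 78) (nat_lit 0) (nat_lit 0) (XT.lf (nat_lit 0) (nat_lit 7619960688) (nat_lit 152) (nat_lit 10183534655) (nat_lit 76) (nat_lit 33438948695) (nat_lit 11) (nat_lit 5) (nat_lit 13) (nat_lit 5) (nat_lit 12) (nat_lit 4) (nat_lit 385) (nat_lit 246) (nat_lit 149)) (XT.lf (nat_lit 0) (nat_lit 12104737754) (nat_lit 152) (nat_lit 1124479263) (nat_lit 76) (nat_lit 39397723138) (nat_lit 11) (nat_lit 5) (nat_lit 13) (nat_lit 5) (nat_lit 12) (nat_lit 4) (nat_lit 386) (nat_lit 246) (nat_lit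 148)))) (XT.nd (nat_lit 156) (nat_lit 0) (nat_lit 0) (XT.nd (nat_lit 78) (nat_lit 0) (nat_lit 0) (XT.lf (nat_lit 0) (nat_lit 8341661946) (nat_lit 76) (nat_lit 8447741501) (nat_lit 152) (nat_lit 37261611241) (nat_lit 10) (nat_lit 5) (nat_lit 11) (nat_lit 5) (nat_lit 12) (nat_lit 4) (nat_lit 387) (nat_lit 246) (nat_lit 147)) (XT.lf (nat_lit 0) (nat_lit 18087645635) (nat_lit 76) (nat_lit 3523649508) (nat_lit 152) (nat_lit 33906619513) (nat_lit 10) (nat_lit 5) (nat_lit 11) (nat_lit 5) (nat_lit 12) (nat_lit 4) (nat_lit 388) (nat_lit 246) (nat_lit 146))) (XT.nd (nat_lit 78) (nat_lit 0) (nat_lit 0) (XT.lf (nat_lit 0) (nat_lit 26578366873) (nat_lit 152) (nat_lit 28944409211) (nat_lit 0) (nat_lit 1506033509) (nat_lit 10) (nat_lit 5) (nat_lit 12) (nat_lit 4) (nat_lit 10) (nat_lit 4) (nat_lit 389) (nat_lit 246) (nat_lit 145)) (XT.lf (nat_lit 0) (nat_lit 31715397956) (nat_lit 152) (nat_lit 20264797644) (nat_lit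 0) (nat_lit 6604210923) (nat_lit 10) (nat_lit 5) (nat_lit 12) (nat_lit 4) (nat_lit 10) (nat_lit 4) (nat_lit 390) (nat_lit 246) (nat_lit 144))))))) (XT.nd (nat_lit 1092) (nat_lit 76) (nat_lit 0) (XT.nd (nat_lit 546) (nat_lit 76) (nat_lit 0) (XT.nd (nat_lit 234) (nat_lit 76) (nat_lit 0) (XT.nd (nat_lit 78) (nat_lit 76) (nat_lit 0) (XT.lf (nat_lit 0) (nat_lit 36993005588) (nat_lit 152) (nat_lit 11349978719) (nat_lit 0) (nat_lit 11844096545) (nat_lit 10) (nat_lit 5) (nat_lit 12) (nat_lit 4) (nat_lit 10) (nat_lit 4) (nat_lit 391) (nat_lit 246) (nat_lit 143)) (XT.nd (nat_lit 78) (nat_lit 76) (nat_lit 0) (XT.lf (nat_lit 0) (nat_lit 42415801269) (nat_lit 152) (nat_lit 2192162788) (nat_lit 0) (nat_lit 17230268916) (nat_lit 10) (nat_lit 5) (nat_lit 12) (nat_lit 4) (nat_lit 10) (nat_lit 4) (nat_lit 392) (nat_lit 246) (nat_lit 142)) (XT.lf (nat_lit 0) (nat_lit 7360277651) (nat_lit 76) (nat_lit 40698997205)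 (nat_lit 76) (nat_lit 15477908241) (nat_lit 9) (nat_lit 4) (nat_lit 10) (nat_lit 5) (nat_lit 10) (nat_lit 4) (nat_lit 393) (nat_lit 246) (nat_lit 141)))) (XT.nd (nat_lit 156) (nat_lit 76) (nat_lit 0) (XT.nd (nat_lit 78) (nat_lit 0) (nat_lit 0) (XT.lf (nat_lit 0) (nat_lit 17220725695) (nat_lit 76) (nat_lit 36660851699) (nat_lit 76) (nat_lit 11405241752) (nat_lit 9) (nat_lit 4) (nat_lit 10) (nat_lit 5) (nat_lit 10) (nat_lit 4) (nat_lit 394) (nat_lit 246) (nat_lit 140)) (XT.lf (nat_lit 0) (nat_lit 27354168931) (nat_lit 76) (nat_lit 32512135607) (nat_lit 76) (nat_lit 7223010145) (nat_lit 9) (nat_lit 4) (nat_lit 10) (nat_lit 5) (nat_lit 10) (nat_lit 4) (nat_lit 395) (nat_lit 246) (nat_lit 139))) (XT.nd (nat_lit 78) (nat_lit 76) (nat_lit 0) (XT.lf (nat_lit 0) (nat_lit 37769461826) (nat_lit 76) (nat_lit 28249223840) (nat_lit 76) (nat_lit 2927559040) (nat_lit 9) (nat_lit 4) (nat_lit 10) (nat_lit 5) (nat_lit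 10) (nat_lit 4) (nat_lit 396) (nat_lit 246) (nat_lit 138)) (XT.lf (nat_lit 0) (nat_lit 1455889805) (nat_lit 152) (nat_lit 22397800083) (nat_lit 76) (nat_lit 47005113681) (nat_lit 8) (nat_lit 5) (nat_lit 10) (nat_lit 5) (nat_lit 9) (nat_lit 4) (nat_lit 397) (nat_lit 246) (nat_lit 137))))) (XT.nd (nat_lit 234) (nat_lit 0) (nat_lit 0) (XT.nd (nat_lit 78) (nat_lit 76) (nat_lit 0) (XT.lf (nat_lit 0) (nat_lit 5900681953) (nat_lit 152) (nat_lit 13405543468) (nat_lit 76) (nat_lit 53521986509) (nat_lit 8) (nat_lit 5) (nat_lit 10) (nat_lit 5) (nat_lit 9) (nat_lit 4) (nat_lit 398) (nat_lit 246) (nat_lit 136)) (XT.nd (nat_lit 78) (nat_lit 76) (nat_lit 0) (XT.lf (nat_lit 0) (nat_lit 10467828423) (nat_lit 152) (nat_lit 4164014235) (nat_lit 76) (nat_lit 60225192217) (nat_lit 8) (nat_lit 5) (nat_lit 10) (nat_lit 5) (nat_lit 9) (nat_lit 4) (nat_lit 399) (nat_lit 246) (nat_lit 135)) (XT.lf (nat_lit 0) (nat_lit 5441036967)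 (nat_lit 76) (nat_lit 9772585536) (nat_lit 152) (nat_lit 61731853584) (nat_lit 7) (nat_lit 5) (nat_lit 8) (nat_lit 5) (nat_lit 9) (nat_lit 4) (nat_lit 400) (nat_lit 246) (nat_lit 134)))) (XT.nd (nat_lit 156) (nat_lit 0) (nat_lit 0) (XT.nd (nat_lit 78) (nat_lit 0) (nat_lit 0) (XT.lf (nat_lit 0) (nat_lit 15399894859) (nat_lit 76) (nat_lit 4733395925) (nat_lit 152) (nat_lit 58962337238) (nat_lit 7) (nat_lit 5) (nat_lit 8) (nat_lit 5) (nat_lit 9) (nat_lit 4) (nat_lit 401) (nat_lit 246) (nat_lit 133)) (XT.lf (nat_lit 0) (nat_lit 25194615564) (nat_lit 152) (nat_lit 55676512085) (nat_lit 0) (nat_lit 439337297) (nat_lit 7) (nat_lit 5) (nat_lit 9) (nat_lit 4) (nat_lit 7) (nat_lit 4) (nat_lit 402) (nat_lit 246) (nat_lit 132))) (XT.nd (nat_lit 78) (nat_lit 0) (nat_lit 0) (XT.lf (nat_lit 0) (nat_lit 30444619939) (nat_lit 152) (nat_lit 47482369380) (nat_lit 0) (nat_lit 5663654819) (nat_lit 7) (nat_lit 5) (nat_lit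 9) (nat_lit 4) (nat_lit 7) (nat_lit 4) (nat_lit 403) (nat_lit 246) (nat_lit 131)) (XT.lf (nat_lit 0) (nat_lit 35842390994) (nat_lit 152) (nat_lit 39060644818) (nat_lit 0) (nat_lit 11036487182) (nat_lit 7) (nat_lit 5) (nat_lit 9) (nat_lit 4) (nat_lit 7) (nat_lit 4) (nat_lit 404) (nat_lit 246) (nat_lit 130)))))) (XT.nd (nat_lit 31356) (nat_lit 0) (nat_lit 11704) (XT.nd (nat_lit 234) (nat_lit 76) (nat_lit 0) (XT.nd (nat_lit 78) (nat_lit 0) (nat_lit 0) (XT.lf (nat_lit 0) (nat_lit 41392645228) (nat_lit 152) (nat_lit 30403979613) (nat_lit 0) (nat_lit 16562529094) (nat_lit 7) (nat_lit 5) (nat_lit 9) (nat_lit 4) (nat_lit 7) (nat_lit 4) (nat_lit 405) (nat_lit 246) (nat_lit 129)) (XT.nd (nat_lit 78) (nat_lit 0) (nat_lit 0) (XT.lf (nat_lit 0) (nat_lit 47100232379) (nat_lit 152) (nat_lit 21504809686) (nat_lit 0) (nat_lit 22246609136) (nat_lit 7) (nat_lit 5) (nat_lit 9) (nat_lit 4) (nat_lit 7) (nat_lit 4) (nat_lit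 406) (nat_lit 246) (nat_lit 128)) (XT.lf (nat_lit 0) (nat_lit 52970139657) (nat_lit 152) (nat_lit 12355359066) (nat_lit 0) (nat_lit 28093693978) (nat_lit 7) (nat_lit 5) (nat_lit 9) (nat_lit 4) (nat_lit 7) (nat_lit 4) (nat_lit 407) (nat_lit 246) (nat_lit 127)))) (XT.nd (nat_lit 156) (nat_lit 0) (nat_lit 0) (XT.nd (nat_lit 78) (nat_lit 76) (nat_lit 0) (XT.lf (nat_lit 0) (nat_lit 59007496109) (nat_lit 152) (nat_lit 2947633086) (nat_lit 0) (nat_lit 34108892725) (nat_lit 7) (nat_lit 5) (nat_lit 9) (nat_lit 4) (nat_lit 7) (nat_lit 4) (nat_lit 408) (nat_lit 246) (nat_lit 126)) (XT.lf (nat_lit 0) (nat_lit 6860460898) (nat_lit 76) (nat_lit 58423063141) (nat_lit 76) (nat_lit 33502947423) (nat_lit 6) (nat_lit 4) (nat_lit 7) (nat_lit 5) (nat_lit 7) (nat_lit 4) (nat_lit 409) (nat_lit 246) (nat_lit 125))) (XT.nd (nat_lit 78) (nat_lit 0) (nat_lit 0) (XT.lf (nat_lit 0) (nat_lit 17007639491) (nat_lit 76) (nat_lit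 54761657240) (nat_lit 76) (nat_lit 29820655759) (nat_lit 6) (nat_lit 4) (nat_lit 7) (nat_lit 5) (nat_lit 7) (nat_lit 4) (nat_lit 410) (nat_lit 246) (nat_lit 124)) (XT.lf (nat_lit 0) (nat_lit 27444105478) (nat_lit 76) (nat_lit 50997477518) (nat_lit 76) (nat_lit 26036198599) (nat_lit 6) (nat_lit 4) (nat_lit 7) (nat_lit 5) (nat_lit 7) (nat_lit 4) (nat_lit 411) (nat_lit 246) (nat_lit 123))))) (XT.nd (nat_lit 234) (nat_lit 1824) (nat_lit 0) (XT.nd (nat_lit 78) (nat_lit 760) (nat_lit 0) (XT.lf (nat_lit 0) (nat_lit 602233601) (nat_lit 1140) (nat_lit 1502751238) (nat_lit 1140) (nat_lit 1502751238) (nat_lit 194) (nat_lit 4) (nat_lit 209) (nat_lit 5) (nat_lit 209) (nat_lit 4) (nat_lit 286) (nat_lit 247) (nat_lit 247)) (XT.nd (nat_lit 78) (nat_lit 684) (nat_lit 0) (XT.lf (nat_lit 0) (nat_lit 256215359) (nat_lit 1216) (nat_lit 1090240520) (nat_lit 76) (nat_lit 5932116200) (nat_lit 193) (nat_lit 5) (nat_lit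 209) (nat_lit 5) (nat_lit 194) (nat_lit 4) (nat_lit 287) (nat_lit 247) (nat_lit 246)) (XT.lf (nat_lit 0) (nat_lit 3502232513) (nat_lit 760) (nat_lit 3421311405) (nat_lit 0) (nat_lit 420861854) (nat_lit 184) (nat_lit 5) (nat_lit 194) (nat_lit 4) (nat_lit 184) (nat_lit 4) (nat_lit 288) (nat_lit 247) (nat_lit 245)))) (XT.nd (nat_lit 156) (nat_lit 1140) (nat_lit 0) (XT.nd (nat_lit 78) (nat_lit 76) (nat_lit 0) (XT.lf (nat_lit 0) (nat_lit 1615762314) (nat_lit 608) (nat_lit 5176630237) (nat_lit 608) (nat_lit 621554160) (nat_lit 176) (nat_lit 4) (nat_lit 184) (nat_lit 5) (nat_lit 184) (nat_lit 4) (nat_lit 289) (nat_lit 247) (nat_lit 244)) (XT.lf (nat_lit 0) (nat_lit 2585485562) (nat_lit 684) (nat_lit 737322345) (nat_lit 76) (nat_lit 4163843809) (nat_lit 175) (nat_lit 5) (nat_lit 184) (nat_lit 5) (nat_lit 176) (nat_lit 4) (nat_lit 290) (nat_lit 247) (nat_lit 243))) (XT.nd (nat_lit 78) (nat_lit 608) (nat_lit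 0) (XT.lf (nat_lit 0) (nat_lit 4458531958) (nat_lit 532) (nat_lit 1370777742) (nat_lit 608) (nat_lit 1733575214) (nat_lit 168) (nat_lit 5) (nat_lit 175) (nat_lit 5) (nat_lit 176) (nat_lit 4) (nat_lit 291) (nat_lit 247) (nat_lit 242)) (XT.lf (nat_lit 0) (nat_lit 1444410574) (nat_lit 608) (nat_lit 5537376590) (nat_lit 76) (nat_lit 660937419) (nat_lit 160) (nat_lit 5) (nat_lit 168) (nat_lit 5) (nat_lit 161) (nat_lit 4) (nat_lit 292) (nat_lit 247) (nat_lit 241))))))))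
noncomputable def xc71 : XT := (XT.nd (nat_lit 2184) (nat_lit 2888) (nat_lit 0) (XT.nd (nat_lit 1092) (nat_lit 2888) (nat_lit 0) (XT.nd (nat_lit 546) (nat_lit 1748) (nat_lit 0) (XT.nd (nat_lit 234) (nat_lit 1368) (nat_lit 0) (XT.nd (nat_lit 78) (nat_lit 1064) (nat_lit 0) (XT.lf (nat_lit 0) (nat_lit 4640584609) (nat_lit 608) (nat_lit 320374536) (nat_lit 76) (nat_lit 2764867765) (nat_lit 160) (nat_lit 5) (nat_lit 168) (nat_lit 5) (nat_lit 161) (nat_lit 4) (nat_lit 293) (nat_lit 247) (nat_lit 240)) (XT.nd (nat_lit 78) (nat_lit 532) (nat_lit 0) (XT.lf (nat_lit 0) (nat_lit 81985141) (nat_lit 532) (nat_lit 2759025065) (nat_lit 76) (nat_lit 4971589927) (nat_lit 153) (nat_lit 5) (nat_lit 160) (nat_lit 5) (nat_lit 154) (nat_lit 5) (nat_lit 294) (nat_lit 247) (nat_lit 239)) (XT.lf (nat_lit 0) (nat_lit 2615701429) (nat_lit 532) (nat_lit 610557686) (nat_lit 608) (nat_lit 4676583375) (nat_lit 146) (nat_lit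 5) (nat_lit 153) (nat_lit 5) (nat_lit 154) (nat_lit 5) (nat_lit 295) (nat_lit 247) (nat_lit 238)))) (XT.nd (nat_lit 156) (nat_lit 836) (nat_lit 0) (XT.nd (nat_lit 78) (nat_lit 76) (nat_lit 0) (XT.lf (nat_lit 0) (nat_lit 99035356) (nat_lit 456) (nat_lit 6328142811) (nat_lit 532) (nat_lit 1569844976) (nat_lit 140) (nat_lit 5) (nat_lit 146) (nat_lit 5) (nat_lit 147) (nat_lit 4) (nat_lit 296) (nat_lit 247) (nat_lit 237)) (XT.lf (nat_lit 0) (nat_lit 1575829180) (nat_lit 532) (nat_lit 2459927757) (nat_lit 76) (nat_lit 4058570674) (nat_lit 139) (nat_lit 5) (nat_lit 146) (nat_lit 5) (nat_lit 140) (nat_lit 5) (nat_lit 297) (nat_lit 247) (nat_lit 236))) (XT.nd (nat_lit 78) (nat_lit 380) (nat_lit 0) (XT.lf (nat_lit 0) (nat_lit 3088488593) (nat_lit 456) (nat_lit 1645500835) (nat_lit 532) (nat_lit 3461697451) (nat_lit 133) (nat_lit 5) (nat_lit 139) (nat_lit 5) (nat_lit 140) (nat_lit 5) (nat_lit 298) (nat_lit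 247) (nat_lit 235)) (XT.lf (nat_lit 0) (nat_lit 456424579) (nat_lit 380) (nat_lit 7489001961) (nat_lit 456) (nat_lit 355993743) (nat_lit 128) (nat_lit 5) (nat_lit 133) (nat_lit 5) (nat_lit 134) (nat_lit 4) (nat_lit 299) (nat_lit 247) (nat_lit 234))))) (XT.nd (nat_lit 234) (nat_lit 760) (nat_lit 0) (XT.nd (nat_lit 78) (nat_lit 912) (nat_lit 0) (XT.lf (nat_lit 0) (nat_lit 2777493955) (nat_lit 456) (nat_lit 2260762848) (nat_lit 76) (nat_lit 3371630623) (nat_lit 127) (nat_lit 5) (nat_lit 133) (nat_lit 5) (nat_lit 128) (nat_lit 5) (nat_lit 300) (nat_lit 247) (nat_lit 233)) (XT.nd (nat_lit 78) (nat_lit 456) (nat_lit 0) (XT.lf (nat_lit 0) (nat_lit 3458352550) (nat_lit 456) (nat_lit 2496714969) (nat_lit 532) (nat_lit 2567799972) (nat_lit 121) (nat_lit 5) (nat_lit 127) (nat_lit 5) (nat_lit 128) (nat_lit 5) (nat_lit 301) (nat_lit 247) (nat_lit 232)) (XT.lf (nat_lit 0) (nat_lit 532479509) (nat_lit 456) (nat_lit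 7975109395) (nat_lit 76) (nat_lit 132898234) (nat_lit 115) (nat_lit 5) (nat_lit 121) (nat_lit 5) (nat_lit 116) (nat_lit 5) (nat_lit 302) (nat_lit 247) (nat_lit 231)))) (XT.nd (nat_lit 156) (nat_lit 380) (nat_lit 0) (XT.nd (nat_lit 78) (nat_lit 380) (nat_lit 0) (XT.lf (nat_lit 0) (nat_lit 3676057042) (nat_lit 456) (nat_lit 2238141644) (nat_lit 76) (nat_lit 2846691783) (nat_lit 115) (nat_lit 5) (nat_lit 121) (nat_lit 5) (nat_lit 116) (nat_lit 5) (nat_lit 303) (nat_lit 247) (nat_lit 230)) (XT.lf (nat_lit 0) (nat_lit 3646583156) (nat_lit 380) (nat_lit 3230112835) (nat_lit 456) (nat_lit 2009399911) (nat_lit 110) (nat_lit 5) (nat_lit 115) (nat_lit 5) (nat_lit 116) (nat_lit 5) (nat_lit 304) (nat_lit 247) (nat_lit 229))) (XT.nd (nat_lit 78) (nat_lit 0) (nat_lit 0) (XT.lf (nat_lit 0) (nat_lit 644495839) (nat_lit 304) (nat_lit 448342616) (nat_lit 380) (nat_lit 7923239140) (nat_lit 105) (nat_lit 5) (nat_lit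 109) (nat_lit 5) (nat_lit 110) (nat_lit 5) (nat_lit 305) (nat_lit 247) (nat_lit 228)) (XT.lf (nat_lit 0) (nat_lit 4253490833) (nat_lit 380) (nat_lit 2476676452) (nat_lit 76) (nat_lit 2419089052) (nat_lit 105) (nat_lit 5) (nat_lit 110) (nat_lit 5) (nat_lit 106) (nat_lit 5) (nat_lit 306) (nat_lit 247) (nat_lit 227)))))) (XT.nd (nat_lit 546) (nat_lit 1140) (nat_lit 0) (XT.nd (nat_lit 234) (nat_lit 988) (nat_lit 0) (XT.nd (nat_lit 78) (nat_lit 380) (nat_lit 0) (XT.lf (nat_lit 0) (nat_lit 3565966386) (nat_lit 380) (nat_lit 3912848260) (nat_lit 456) (nat_lit 1808584768) (nat_lit 100) (nat_lit 5) (nat_lit 105) (nat_lit 5) (nat_lit 106) (nat_lit 5) (nat_lit 307) (nat_lit 247) (nat_lit 226)) (XT.nd (nat_lit 78) (nat_lit 0) (nat_lit 0) (XT.lf (nat_lit 0) (nat_lit 309578652) (nat_lit 304) (nat_lit 994619445) (nat_lit 380) (nat_lit 8126361760) (nat_lit 95) (nat_lit 5) (nat_lit 99) (nat_lit 5) (nat_lit 100)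 (nat_lit 5) (nat_lit 308) (nat_lit 247) (nat_lit 225)) (XT.lf (nat_lit 0) (nat_lit 4484043213) (nat_lit 380) (nat_lit 3070941836) (nat_lit 76) (nat_lit 2022251028) (nat_lit 95) (nat_lit 5) (nat_lit 100) (nat_lit 5) (nat_lit 96) (nat_lit 5) (nat_lit 309) (nat_lit 247) (nat_lit 224)))) (XT.nd (nat_lit 156) (nat_lit 608) (nat_lit 0) (XT.nd (nat_lit 78) (nat_lit 76) (nat_lit 0) (XT.lf (nat_lit 0) (nat_lit 3118741741) (nat_lit 304) (nat_lit 4614689080) (nat_lit 380) (nat_lit 1995714679) (nat_lit 91) (nat_lit 5) (nat_lit 95) (nat_lit 5) (nat_lit 96) (nat_lit 5) (nat_lit 310) (nat_lit 247) (nat_lit 223)) (XT.lf (nat_lit 0) (nat_lit 1137347261) (nat_lit 380) (nat_lit 432717095) (nat_lit 76) (nat_lit 8316278206) (nat_lit 90) (nat_lit 5) (nat_lit 95) (nat_lit 5) (nat_lit 91) (nat_lit 5) (nat_lit 311) (nat_lit 247) (nat_lit 222))) (XT.nd (nat_lit 78) (nat_lit 304) (nat_lit 0) (XT.lf (nat_lit 0) (nat_lit 4333457250)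 (nat_lit 380) (nat_lit 4127683132) (nat_lit 76) (nat_lit 1586299791) (nat_lit 86) (nat_lit 5) (nat_lit 91) (nat_lit 5) (nat_lit 87) (nat_lit 5) (nat_lit 312) (nat_lit 247) (nat_lit 221)) (XT.lf (nat_lit 0) (nat_lit 2194298305) (nat_lit 304) (nat_lit 5409484632) (nat_lit 380) (nat_lit 2610288742) (nat_lit 82) (nat_lit 5) (nat_lit 86) (nat_lit 5) (nat_lit 87) (nat_lit 5) (nat_lit 313) (nat_lit 247) (nat_lit 220))))) (XT.nd (nat_lit 234) (nat_lit 532) (nat_lit 0) (XT.nd (nat_lit 78) (nat_lit 532) (nat_lit 0) (XT.lf (nat_lit 0) (nat_lit 554743917) (nat_lit 380) (nat_lit 1691712200) (nat_lit 76) (nat_lit 8139734709) (nat_lit 81) (nat_lit 5) (nat_lit 86) (nat_lit 5) (nat_lit 82) (nat_lit 5) (nat_lit 314) (nat_lit 247) (nat_lit 219)) (XT.nd (nat_lit 78) (nat_lit 304) (nat_lit 0) (XT.lf (nat_lit 0) (nat_lit 3758010907) (nat_lit 304) (nat_lit 5768319654) (nat_lit 76) (nat_lit 1036541840) (nat_lit 78) (nat_lit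 5) (nat_lit 82) (nat_lit 5) (nat_lit 79) (nat_lit 5) (nat_lit 315) (nat_lit 247) (nat_lit 218)) (XT.lf (nat_lit 0) (nat_lit 666559868) (nat_lit 304) (nat_lit 6376757189) (nat_lit 380) (nat_lit 3702004392) (nat_lit 74) (nat_lit 5) (nat_lit 78) (nat_lit 5) (nat_lit 79) (nat_lit 5) (nat_lit 316) (nat_lit 247) (nat_lit 217)))) (XT.nd (nat_lit 156) (nat_lit 228) (nat_lit 0) (XT.nd (nat_lit 78) (nat_lit 304) (nat_lit 0) (XT.lf (nat_lit 0) (nat_lit 7323832863) (nat_lit 304) (nat_lit 3102529641) (nat_lit 380) (nat_lit 506949999) (nat_lit 74) (nat_lit 5) (nat_lit 78) (nat_lit 5) (nat_lit 79) (nat_lit 5) (nat_lit 317) (nat_lit 247) (nat_lit 216)) (XT.lf (nat_lit 0) (nat_lit 2703353968) (nat_lit 304) (nat_lit 8131796642) (nat_lit 76) (nat_lit 291819576) (nat_lit 70) (nat_lit 5) (nat_lit 74) (nat_lit 5) (nat_lit 71) (nat_lit 5) (nat_lit 318) (nat_lit 247) (nat_lit 215))) (XT.nd (nat_lit 78) (nat_lit 228) (nat_lit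 0) (XT.lf (nat_lit 0) (nat_lit 6009918946) (nat_lit 304) (nat_lit 1577600193) (nat_lit 76) (nat_lit 3738503859) (nat_lit 70) (nat_lit 5) (nat_lit 74) (nat_lit 5) (nat_lit 71) (nat_lit 5) (nat_lit 319) (nat_lit 247) (nat_lit 214)) (XT.lf (nat_lit 0) (nat_lit 5188928412) (nat_lit 228) (nat_lit 4220916494) (nat_lit 304) (nat_lit 2121416608) (nat_lit 67) (nat_lit 5) (nat_lit 70) (nat_lit 5) (nat_lit 71) (nat_lit 5) (nat_lit 320) (nat_lit 247) (nat_lit 213))))))) (XT.nd (nat_lit 1092) (nat_lit 1216) (nat_lit 0) (XT.nd (nat_lit 546) (nat_lit 684) (nat_lit 0) (XT.nd (nat_lit 234) (nat_lit 456) (nat_lit 0) (XT.nd (nat_lit 78) (nat_lit 228) (nat_lit 0) (XT.lf (nat_lit 0) (nat_lit 358358980) (nat_lit 228) (nat_lit 751984641) (nat_lit 304) (nat_lit 10633091845) (nat_lit 63) (nat_lit 5) (nat_lit 66) (nat_lit 5) (nat_lit 67) (nat_lit 5) (nat_lit 321) (nat_lit 247) (nat_lit 212)) (XT.nd (nat_lit 78) (nat_lit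 228) (nat_lit 0) (XT.lf (nat_lit 0) (nat_lit 4433234939) (nat_lit 304) (nat_lit 4705119468) (nat_lit 76) (nat_lit 2821921334) (nat_lit 63) (nat_lit 5) (nat_lit 67) (nat_lit 5) (nat_lit 64) (nat_lit 5) (nat_lit 322) (nat_lit 247) (nat_lit 211)) (XT.lf (nat_lit 0) (nat_lit 2125387096) (nat_lit 228) (nat_lit 5704923261) (nat_lit 304) (nat_lit 4354110631) (nat_lit 60) (nat_lit 5) (nat_lit 63) (nat_lit 5) (nat_lit 64) (nat_lit 5) (nat_lit 323) (nat_lit 247) (nat_lit 210)))) (XT.nd (nat_lit 156) (nat_lit 228) (nat_lit 0) (XT.nd (nat_lit 78) (nat_lit 228) (nat_lit 0) (XT.lf (nat_lit 0) (nat_lit 9174203794) (nat_lit 228) (nat_lit 2149984510) (nat_lit 304) (nat_lit 1091289258) (nat_lit 60) (nat_lit 5) (nat_lit 63) (nat_lit 5) (nat_lit 64) (nat_lit 5) (nat_lit 324) (nat_lit 247) (nat_lit 209)) (XT.lf (nat_lit 0) (nat_lit 2224373216) (nat_lit 228) (nat_lit 8917426475) (nat_lit 76) (nat_lit 1511066206) (nat_lit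 57) (nat_lit 5) (nat_lit 60) (nat_lit 5) (nat_lit 58) (nat_lit 5) (nat_lit 325) (nat_lit 247) (nat_lit 208))) (XT.nd (nat_lit 78) (nat_lit 228) (nat_lit 0) (XT.lf (nat_lit 0) (nat_lit 5620723646) (nat_lit 228) (nat_lit 2023077054) (nat_lit 76) (nat_lit 5253187296) (nat_lit 57) (nat_lit 5) (nat_lit 60) (nat_lit 5) (nat_lit 58) (nat_lit 5) (nat_lit 326) (nat_lit 247) (nat_lit 207)) (XT.lf (nat_lit 0) (nat_lit 5097808434) (nat_lit 228) (nat_lit 4020460733) (nat_lit 304) (nat_lit 4030215377) (nat_lit 54) (nat_lit 5) (nat_lit 57) (nat_lit 5) (nat_lit 58) (nat_lit 5) (nat_lit 327) (nat_lit 247) (nat_lit 206))))) (XT.nd (nat_lit 234) (nat_lit 456) (nat_lit 0) (XT.nd (nat_lit 78) (nat_lit 228) (nat_lit 0) (XT.lf (nat_lit 0) (nat_lit 12394802636) (nat_lit 228) (nat_lit 297357099) (nat_lit 304) (nat_lit 716252742) (nat_lit 54) (nat_lit 5) (nat_lit 57) (nat_lit 5) (nat_lit 58) (nat_lit 5) (nat_lit 328) (nat_lit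 247) (nat_lit 205)) (XT.nd (nat_lit 78) (nat_lit 0) (nat_lit 0) (XT.lf (nat_lit 0) (nat_lit 2691095313) (nat_lit 228) (nat_lit 7456610797) (nat_lit 76) (nat_lit 3526283807) (nat_lit 51) (nat_lit 5) (nat_lit 54) (nat_lit 5) (nat_lit 52) (nat_lit 5) (nat_lit 329) (nat_lit 247) (nat_lit 204)) (XT.lf (nat_lit 0) (nat_lit 6151844710) (nat_lit 228) (nat_lit 349365767) (nat_lit 76) (nat_lit 7447170735) (nat_lit 51) (nat_lit 5) (nat_lit 54) (nat_lit 5) (nat_lit 52) (nat_lit 5) (nat_lit 330) (nat_lit 247) (nat_lit 203)))) (XT.nd (nat_lit 156) (nat_lit 76) (nat_lit 0) (XT.nd (nat_lit 78) (nat_lit 152) (nat_lit 0) (XT.lf (nat_lit 0) (nat_lit 7032523736) (nat_lit 228) (nat_lit 2705179139) (nat_lit 304) (nat_lit 4492688592) (nat_lit 48) (nat_lit 5) (nat_lit 51) (nat_lit 5) (nat_lit 52) (nat_lit 5) (nat_lit 331) (nat_lit 247) (nat_lit 202)) (XT.lf (nat_lit 0) (nat_lit 35173274) (nat_lit 152) (nat_lit 13365475561)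 (nat_lit 228) (nat_lit 1121152891) (nat_lit 46) (nat_lit 5) (nat_lit 48) (nat_lit 5) (nat_lit 49) (nat_lit 4) (nat_lit 332) (nat_lit 247) (nat_lit 201))) (XT.nd (nat_lit 78) (nat_lit 0) (nat_lit 0) (XT.lf (nat_lit 0) (nat_lit 2360001460) (nat_lit 228) (nat_lit 7313488768) (nat_lit 76) (nat_lit 5146178774) (nat_lit 45) (nat_lit 5) (nat_lit 48) (nat_lit 5) (nat_lit 46) (nat_lit 5) (nat_lit 333) (nat_lit 247) (nat_lit 200)) (XT.lf (nat_lit 0) (nat_lit 5878562621) (nat_lit 228) (nat_lit 10393100) (nat_lit 76) (nat_lit 9238541304) (nat_lit 45) (nat_lit 5) (nat_lit 48) (nat_lit 5) (nat_lit 46) (nat_lit 5) (nat_lit 334) (nat_lit 247) (nat_lit 199)))))) (XT.nd (nat_lit 546) (nat_lit 532) (nat_lit 0) (XT.nd (nat_lit 234) (nat_lit 304) (nat_lit 0) (XT.nd (nat_lit 78) (nat_lit 228) (nat_lit 0) (XT.lf (nat_lit 0) (nat_lit 7587884052) (nat_lit 152) (nat_lit 1944538124) (nat_lit 228) (nat_lit 5911267729) (nat_lit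 43) (nat_lit 5) (nat_lit 45) (nat_lit 5) (nat_lit 46) (nat_lit 5) (nat_lit 335) (nat_lit 247) (nat_lit 198)) (XT.nd (nat_lit 78) (nat_lit 228) (nat_lit 0) (XT.lf (nat_lit 0) (nat_lit 13273464924) (nat_lit 228) (nat_lit 447703085) (nat_lit 76) (nat_lit 2048895156) (nat_lit 43) (nat_lit 5) (nat_lit 46) (nat_lit 5) (nat_lit 44) (nat_lit 4) (nat_lit 336) (nat_lit 247) (nat_lit 197)) (XT.lf (nat_lit 0) (nat_lit 1048187064) (nat_lit 228) (nat_lit 8880744074) (nat_lit 76) (nat_lit 6175594879) (nat_lit 40) (nat_lit 5) (nat_lit 43) (nat_lit 5) (nat_lit 41) (nat_lit 5) (nat_lit 337) (nat_lit 247) (nat_lit 196)))) (XT.nd (nat_lit 156) (nat_lit 152) (nat_lit 0) (XT.nd (nat_lit 78) (nat_lit 152) (nat_lit 0) (XT.lf (nat_lit 0) (nat_lit 4612169897) (nat_lit 228) (nat_lit 1409411774) (nat_lit 76) (nat_lit 10427828308) (nat_lit 40) (nat_lit 5) (nat_lit 43) (nat_lit 5) (nat_lit 41) (nat_lit 5) (nat_lit 338) (nat_lit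 247) (nat_lit 195)) (XT.lf (nat_lit 0) (nat_lit 6341505042) (nat_lit 152) (nat_lit 1962202719) (nat_lit 228) (nat_lit 8500332836) (nat_lit 38) (nat_lit 5) (nat_lit 40) (nat_lit 5) (nat_lit 41) (nat_lit 5) (nat_lit 339) (nat_lit 247) (nat_lit 194))) (XT.nd (nat_lit 78) (nat_lit 152) (nat_lit 0) (XT.lf (nat_lit 0) (nat_lit 12101628862) (nat_lit 228) (nat_lit 2905089629) (nat_lit 76) (nat_lit 2162741176) (nat_lit 38) (nat_lit 5) (nat_lit 41) (nat_lit 5) (nat_lit 39) (nat_lit 4) (nat_lit 340) (nat_lit 247) (nat_lit 193)) (XT.lf (nat_lit 0) (nat_lit 4888464351) (nat_lit 152) (nat_lit 11152542789) (nat_lit 228) (nat_lit 1504026684) (nat_lit 36) (nat_lit 5) (nat_lit 38) (nat_lit 5) (nat_lit 39) (nat_lit 4) (nat_lit 341) (nat_lit 247) (nat_lit 192))))) (XT.nd (nat_lit 234) (nat_lit 304) (nat_lit 0) (XT.nd (nat_lit 78) (nat_lit 152) (nat_lit 0) (XT.lf (nat_lit 0) (nat_lit 2115240480) (nat_lit 228) (nat_lit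 5043452303) (nat_lit 76) (nat_lit 10772849795) (nat_lit 35) (nat_lit 5) (nat_lit 38) (nat_lit 5) (nat_lit 36) (nat_lit 5) (nat_lit 342) (nat_lit 247) (nat_lit 191)) (XT.nd (nat_lit 78) (nat_lit 0) (nat_lit 0) (XT.lf (nat_lit 0) (nat_lit 2772495996) (nat_lit 152) (nat_lit 3029343879) (nat_lit 228) (nat_lit 12527707035) (nat_lit 33) (nat_lit 5) (nat_lit 35) (nat_lit 5) (nat_lit 36) (nat_lit 5) (nat_lit 343) (nat_lit 247) (nat_lit 190)) (XT.lf (nat_lit 0) (nat_lit 9624789460) (nat_lit 228) (nat_lit 7888933926) (nat_lit 76) (nat_lit 1225011504) (nat_lit 33) (nat_lit 5) (nat_lit 36) (nat_lit 5) (nat_lit 34) (nat_lit 4) (nat_lit 344) (nat_lit 247) (nat_lit 189)))) (XT.nd (nat_lit 156) (nat_lit 228) (nat_lit 0) (XT.nd (nat_lit 78) (nat_lit 76) (nat_lit 0) (XT.lf (nat_lit 0) (nat_lit 13556065933) (nat_lit 228) (nat_lit 83883446) (nat_lit 76) (nat_lit 5520455593) (nat_lit 33) (nat_lit 5) (nat_lit 36) (nat_lit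 5) (nat_lit 34) (nat_lit 4) (nat_lit 345) (nat_lit 247) (nat_lit 188)) (XT.lf (nat_lit 0) (nat_lit 8051147258) (nat_lit 76) (nat_lit 9596229778) (nat_lit 152) (nat_lit 1946100392) (nat_lit 32) (nat_lit 5) (nat_lit 33) (nat_lit 5) (nat_lit 34) (nat_lit 4) (nat_lit 346) (nat_lit 247) (nat_lit 187))) (XT.nd (nat_lit 78) (nat_lit 152) (nat_lit 0) (XT.lf (nat_lit 0) (nat_lit 1751978379) (nat_lit 152) (nat_lit 3686482158) (nat_lit 76) (nat_lit 14601601083) (nat_lit 31) (nat_lit 5) (nat_lit 33) (nat_lit 5) (nat_lit 32) (nat_lit 5) (nat_lit 347) (nat_lit 247) (nat_lit 186)) (XT.lf (nat_lit 0) (nat_lit 4412267880) (nat_lit 152) (nat_lit 1117844986) (nat_lit 228) (nat_lit 14969119454) (nat_lit 29) (nat_lit 5) (nat_lit 31) (nat_lit 5) (nat_lit 32) (nat_lit 5) (nat_lit 348) (nat_lit 247) (nat_lit 185))))))))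
noncomputable def xc72 : XT := (XT.nd (nat_lit 2106) (nat_lit 532) (nat_lit 0) (XT.nd (nat_lit 1014) (nat_lit 532) (nat_lit 0) (XT.nd (nat_lit 468) (nat_lit 304) (nat_lit 0) (XT.nd (nat_lit 234) (nat_lit 228) (nat_lit 0) (XT.nd (nat_lit 78) (nat_lit 76) (nat_lit 0) (XT.lf (nat_lit 0) (nat_lit 9457219307) (nat_lit 228) (nat_lit 8233716516) (nat_lit 76) (nat_lit 3280186952) (nat_lit 29) (nat_lit 5) (nat_lit 32) (nat_lit 5) (nat_lit 30) (nat_lit 4) (nat_lit 349) (nat_lit 247) (nat_lit 184)) (XT.nd (nat_lit 78) (nat_lit 76) (nat_lit 0) (XT.lf (nat_lit 0) (nat_lit 13480197138) (nat_lit 228) (nat_lit 214000395) (nat_lit 76) (nat_lit 7763643742) (nat_lit 29) (nat_lit 5) (nat_lit 32) (nat_lit 5) (nat_lit 30) (nat_lit 4) (nat_lit 350) (nat_lit 247) (nat_lit 183)) (XT.lf (nat_lit 0) (nat_lit 8148952261) (nat_lit 76) (nat_lit 9521196625) (nat_lit 152) (nat_lit 4287636603) (nat_lit 28) (nat_lit 5) (nat_lit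 29) (nat_lit 5) (nat_lit 30) (nat_lit 4) (nat_lit 351) (nat_lit 247) (nat_lit 182)))) (XT.nd (nat_lit 78) (nat_lit 228) (nat_lit 0) (XT.lf (nat_lit 0) (nat_lit 16711362589) (nat_lit 76) (nat_lit 5244946339) (nat_lit 152) (nat_lit 517316137) (nat_lit 28) (nat_lit 5) (nat_lit 29) (nat_lit 5) (nat_lit 30) (nat_lit 4) (nat_lit 352) (nat_lit 247) (nat_lit 181)) (XT.nd (nat_lit 78) (nat_lit 0) (nat_lit 0) (XT.lf (nat_lit 0) (nat_lit 2487058284) (nat_lit 152) (nat_lit 806232426) (nat_lit 228) (nat_lit 19710904168) (nat_lit 25) (nat_lit 5) (nat_lit 27) (nat_lit 5) (nat_lit 28) (nat_lit 5) (nat_lit 353) (nat_lit 247) (nat_lit 180)) (XT.lf (nat_lit 0) (nat_lit 7271889568) (nat_lit 228) (nat_lit 12543840556) (nat_lit 76) (nat_lit 3732887146) (nat_lit 25) (nat_lit 5) (nat_lit 28) (nat_lit 5) (nat_lit 26) (nat_lit 4) (nat_lit 354) (nat_lit 247) (nat_lit 179))))) (XT.nd (nat_lit 234) (nat_lit 228) (nat_lit 0)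 (XT.nd (nat_lit 78) (nat_lit 76) (nat_lit 0) (XT.lf (nat_lit 0) (nat_lit 11347838612) (nat_lit 228) (nat_lit 4392714616) (nat_lit 76) (nat_lit 8369490290) (nat_lit 25) (nat_lit 5) (nat_lit 28) (nat_lit 5) (nat_lit 26) (nat_lit 4) (nat_lit 355) (nat_lit 247) (nat_lit 178)) (XT.nd (nat_lit 78) (nat_lit 0) (nat_lit 0) (XT.lf (nat_lit 0) (nat_lit 4029748473) (nat_lit 76) (nat_lit 11525937287) (nat_lit 152) (nat_lit 9132348839) (nat_lit 24) (nat_lit 5) (nat_lit 25) (nat_lit 5) (nat_lit 26) (nat_lit 4) (nat_lit 356) (nat_lit 247) (nat_lit 177)) (XT.lf (nat_lit 0) (nat_lit 12743608417) (nat_lit 76) (nat_lit 7161755646) (nat_lit 152) (nat_lit 5377543801) (nat_lit 24) (nat_lit 5) (nat_lit 25) (nat_lit 5) (nat_lit 26) (nat_lit 4) (nat_lit 357) (nat_lit 247) (nat_lit 176)))) (XT.nd (nat_lit 156) (nat_lit 0) (nat_lit 0) (XT.nd (nat_lit 78) (nat_lit 228) (nat_lit 0) (XT.lf (nat_lit 0) (nat_lit 21669055631)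 (nat_lit 76) (nat_lit 2688552748) (nat_lit 152) (nat_lit 1538866700) (nat_lit 24) (nat_lit 5) (nat_lit 25) (nat_lit 5) (nat_lit 26) (nat_lit 4) (nat_lit 358) (nat_lit 247) (nat_lit 175)) (XT.lf (nat_lit 0) (nat_lit 2401119613) (nat_lit 228) (nat_lit 22199725498) (nat_lit 76) (nat_lit 1925919013) (nat_lit 21) (nat_lit 5) (nat_lit 24) (nat_lit 5) (nat_lit 22) (nat_lit 4) (nat_lit 359) (nat_lit 247) (nat_lit 174))) (XT.nd (nat_lit 78) (nat_lit 0) (nat_lit 0) (XT.lf (nat_lit 0) (nat_lit 6470843812) (nat_lit 228) (nat_lit 14041238330) (nat_lit 76) (nat_lit 6662157740) (nat_lit 21) (nat_lit 5) (nat_lit 24) (nat_lit 5) (nat_lit 22) (nat_lit 4) (nat_lit 360) (nat_lit 247) (nat_lit 173)) (XT.lf (nat_lit 0) (nat_lit 10636191148) (nat_lit 228) (nat_lit 5685634652) (nat_lit 76) (nat_lit 11520117076) (nat_lit 21) (nat_lit 5) (nat_lit 24) (nat_lit 5) (nat_lit 22) (nat_lit 4) (nat_lit 361) (nat_lit 247) (nat_lit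 172)))))) (XT.nd (nat_lit 546) (nat_lit 228) (nat_lit 0) (XT.nd (nat_lit 234) (nat_lit 228) (nat_lit 0) (XT.nd (nat_lit 78) (nat_lit 0) (nat_lit 0) (XT.lf (nat_lit 0) (nat_lit 2931592475) (nat_lit 76) (nat_lit 11997389029) (nat_lit 152) (nat_lit 13600629625) (nat_lit 20) (nat_lit 5) (nat_lit 21) (nat_lit 5) (nat_lit 22) (nat_lit 4) (nat_lit 362) (nat_lit 247) (nat_lit 171)) (XT.nd (nat_lit 78) (nat_lit 0) (nat_lit 0) (XT.lf (nat_lit 0) (nat_lit 11878089201) (nat_lit 76) (nat_lit 7504490716) (nat_lit 152) (nat_lit 9854377174) (nat_lit 20) (nat_lit 5) (nat_lit 21) (nat_lit 5) (nat_lit 22) (nat_lit 4) (nat_lit 363) (nat_lit 247) (nat_lit 170)) (XT.lf (nat_lit 0) (nat_lit 21048517576) (nat_lit 76) (nat_lit 2896618791) (nat_lit 152) (nat_lit 6021134715) (nat_lit 20) (nat_lit 5) (nat_lit 21) (nat_lit 5) (nat_lit 22) (nat_lit 4) (nat_lit 364) (nat_lit 247) (nat_lit 169)))) (XT.nd (nat_lit 156) (nat_lit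 0) (nat_lit 0) (XT.nd (nat_lit 78) (nat_lit 228) (nat_lit 0) (XT.lf (nat_lit 0) (nat_lit 28638231064) (nat_lit 152) (nat_lit 284893279) (nat_lit 0) (nat_lit 1794538213) (nat_lit 20) (nat_lit 5) (nat_lit 22) (nat_lit 4) (nat_lit 20) (nat_lit 4) (nat_lit 365) (nat_lit 247) (nat_lit 168)) (XT.lf (nat_lit 0) (nat_lit 2031698485) (nat_lit 228) (nat_lit 22803136409) (nat_lit 76) (nat_lit 6653502516) (nat_lit 17) (nat_lit 5) (nat_lit 20) (nat_lit 5) (nat_lit 18) (nat_lit 4) (nat_lit 366) (nat_lit 247) (nat_lit 167))) (XT.nd (nat_lit 78) (nat_lit 0) (nat_lit 0) (XT.lf (nat_lit 0) (nat_lit 6203900427) (nat_lit 228) (nat_lit 14414917422) (nat_lit 76) (nat_lit 11663318270) (nat_lit 17) (nat_lit 5) (nat_lit 20) (nat_lit 5) (nat_lit 18) (nat_lit 4) (nat_lit 367) (nat_lit 247) (nat_lit 166)) (XT.lf (nat_lit 0) (nat_lit 10478576417) (nat_lit 228) (nat_lit 5816306672) (nat_lit 76) (nat_lit 16805553491) (nat_lit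 17) (nat_lit 5) (nat_lit 20) (nat_lit 5) (nat_lit 18) (nat_lit 4) (nat_lit 368) (nat_lit 247) (nat_lit 165))))) (XT.nd (nat_lit 234) (nat_lit 152) (nat_lit 0) (XT.nd (nat_lit 78) (nat_lit 0) (nat_lit 0) (XT.lf (nat_lit 0) (nat_lit 3059919235) (nat_lit 76) (nat_lit 11828956190) (nat_lit 152) (nat_lit 19054195974) (nat_lit 16) (nat_lit 5) (nat_lit 17) (nat_lit 5) (nat_lit 18) (nat_lit 4) (nat_lit 369) (nat_lit 247) (nat_lit 164)) (XT.nd (nat_lit 78) (nat_lit 0) (nat_lit 0) (XT.lf (nat_lit 0) (nat_lit 12281999975) (nat_lit 76) (nat_lit 7186446085) (nat_lit 152) (nat_lit 15341436949) (nat_lit 16) (nat_lit 5) (nat_lit 17) (nat_lit 5) (nat_lit 18) (nat_lit 4) (nat_lit 370) (nat_lit 247) (nat_lit 163)) (XT.lf (nat_lit 0) (nat_lit 21742237767) (nat_lit 76) (nat_lit 2422029506) (nat_lit 152) (nat_lit 11539072223) (nat_lit 16) (nat_lit 5) (nat_lit 17) (nat_lit 5) (nat_lit 18) (nat_lit 4) (nat_lit 371) (nat_lit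 247) (nat_lit 162)))) (XT.nd (nat_lit 156) (nat_lit 76) (nat_lit 0) (XT.nd (nat_lit 78) (nat_lit 76) (nat_lit 0) (XT.lf (nat_lit 0) (nat_lit 29004170524) (nat_lit 152) (nat_lit 5199051028) (nat_lit 0) (nat_lit 2420288149) (nat_lit 16) (nat_lit 5) (nat_lit 18) (nat_lit 4) (nat_lit 16) (nat_lit 4) (nat_lit 372) (nat_lit 247) (nat_lit 161)) (XT.lf (nat_lit 0) (nat_lit 3840072969) (nat_lit 76) (nat_lit 30190010932) (nat_lit 76) (nat_lit 3539982785) (nat_lit 15) (nat_lit 4) (nat_lit 16) (nat_lit 5) (nat_lit 16) (nat_lit 4) (nat_lit 373) (nat_lit 247) (nat_lit 160))) (XT.nd (nat_lit 78) (nat_lit 0) (nat_lit 0) (XT.lf (nat_lit 0) (nat_lit 681813413) (nat_lit 152) (nat_lit 25330166113) (nat_lit 76) (nat_lit 12531866565) (nat_lit 14) (nat_lit 5) (nat_lit 16) (nat_lit 5) (nat_lit 15) (nat_lit 4) (nat_lit 374) (nat_lit 247) (nat_lit 159)) (XT.lf (nat_lit 0) (nat_lit 4939649561) (nat_lit 152) (nat_lit 16749107466)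 (nat_lit 76) (nat_lit 17857619835) (nat_lit 14) (nat_lit 5) (nat_lit 16) (nat_lit 5) (nat_lit 15) (nat_lit 4) (nat_lit 375) (nat_lit 247) (nat_lit 158))))))) (XT.nd (nat_lit 1092) (nat_lit 228) (nat_lit 0) (XT.nd (nat_lit 546) (nat_lit 152) (nat_lit 0) (XT.nd (nat_lit 234) (nat_lit 76) (nat_lit 0) (XT.nd (nat_lit 78) (nat_lit 76) (nat_lit 0) (XT.lf (nat_lit 0) (nat_lit 9306323913) (nat_lit 152) (nat_lit 7945291283) (nat_lit 76) (nat_lit 23327940654) (nat_lit 14) (nat_lit 5) (nat_lit 16) (nat_lit 5) (nat_lit 15) (nat_lit 4) (nat_lit 376) (nat_lit 247) (nat_lit 157)) (XT.nd (nat_lit 78) (nat_lit 0) (nat_lit 0) (XT.lf (nat_lit 0) (nat_lit 1110647830) (nat_lit 76) (nat_lit 12685680405) (nat_lit 152) (nat_lit 27847637310) (nat_lit 13) (nat_lit 5) (nat_lit 14) (nat_lit 5) (nat_lit 15) (nat_lit 4) (nat_lit 377) (nat_lit 247) (nat_lit 156)) (XT.lf (nat_lit 0) (nat_lit 10567801545) (nat_lit 76) (nat_lit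 7915330453) (nat_lit 152) (nat_lit 24255317634) (nat_lit 13) (nat_lit 5) (nat_lit 14) (nat_lit 5) (nat_lit 15) (nat_lit 4) (nat_lit 378) (nat_lit 247) (nat_lit 155)))) (XT.nd (nat_lit 156) (nat_lit 76) (nat_lit 0) (XT.nd (nat_lit 78) (nat_lit 0) (nat_lit 0) (XT.lf (nat_lit 0) (nat_lit 20276306521) (nat_lit 76) (nat_lit 3016628934) (nat_lit 152) (nat_lit 20573365849) (nat_lit 13) (nat_lit 5) (nat_lit 14) (nat_lit 5) (nat_lit 15) (nat_lit 4) (nat_lit 379) (nat_lit 247) (nat_lit 154)) (XT.lf (nat_lit 0) (nat_lit 28249307920) (nat_lit 152) (nat_lit 14803226722) (nat_lit 0) (nat_lit 1975390425) (nat_lit 13) (nat_lit 5) (nat_lit 15) (nat_lit 4) (nat_lit 13) (nat_lit 4) (nat_lit 380) (nat_lit 247) (nat_lit 153))) (XT.nd (nat_lit 78) (nat_lit 76) (nat_lit 0) (XT.lf (nat_lit 0) (nat_lit 33367511590) (nat_lit 152) (nat_lit 5813597530) (nat_lit 0) (nat_lit 7042898868) (nat_lit 13) (nat_lit 5) (nat_lit 15)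 (nat_lit 4) (nat_lit 13) (nat_lit 4) (nat_lit 381) (nat_lit 247) (nat_lit 152)) (XT.lf (nat_lit 0) (nat_lit 3483725523) (nat_lit 76) (nat_lit 35172783177) (nat_lit 76) (nat_lit 8798951790) (nat_lit 12) (nat_lit 4) (nat_lit 13) (nat_lit 5) (nat_lit 13) (nat_lit 4) (nat_lit 382) (nat_lit 247) (nat_lit 151))))) (XT.nd (nat_lit 234) (nat_lit 76) (nat_lit 0) (XT.nd (nat_lit 78) (nat_lit 76) (nat_lit 0) (XT.lf (nat_lit 0) (nat_lit 13149460143) (nat_lit 76) (nat_lit 30997368853) (nat_lit 76) (nat_lit 4575752353) (nat_lit 12) (nat_lit 4) (nat_lit 13) (nat_lit 5) (nat_lit 13) (nat_lit 4) (nat_lit 383) (nat_lit 247) (nat_lit 150)) (XT.nd (nat_lit 78) (nat_lit 76) (nat_lit 0) (XT.lf (nat_lit 0) (nat_lit 23076350128) (nat_lit 76) (nat_lit 26709923663) (nat_lit 76) (nat_lit 241913849) (nat_lit 12) (nat_lit 4) (nat_lit 13) (nat_lit 5) (nat_lit 13) (nat_lit 4) (nat_lit 384) (nat_lit 247) (nat_lit 149)) (XT.lf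 (nat_lit 0) (nat_lit 4124269518) (nat_lit 152) (nat_lit 18140784741) (nat_lit 76) (nat_lit 29107152905) (nat_lit 11) (nat_lit 5) (nat_lit 13) (nat_lit 5) (nat_lit 12) (nat_lit 4) (nat_lit 385) (nat_lit 247) (nat_lit 148)))) (XT.nd (nat_lit 156) (nat_lit 0) (nat_lit 0) (XT.nd (nat_lit 78) (nat_lit 76) (nat_lit 0) (XT.lf (nat_lit 0) (nat_lit 8601736317) (nat_lit 152) (nat_lit 9095257286) (nat_lit 76) (nat_lit 35059930903) (nat_lit 11) (nat_lit 5) (nat_lit 13) (nat_lit 5) (nat_lit 12) (nat_lit 4) (nat_lit 386) (nat_lit 247) (nat_lit 147)) (XT.lf (nat_lit 0) (nat_lit 198854501) (nat_lit 76) (nat_lit 13002176517) (nat_lit 152) (nat_lit 40982531014) (nat_lit 10) (nat_lit 5) (nat_lit 11) (nat_lit 5) (nat_lit 12) (nat_lit 4) (nat_lit 387) (nat_lit 247) (nat_lit 146))) (XT.nd (nat_lit 78) (nat_lit 0) (nat_lit 0) (XT.lf (nat_lit 0) (nat_lit 9931833033) (nat_lit 76) (nat_lit 8084074038) (nat_lit 152) (nat_lit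 37634767204) (nat_lit 10) (nat_lit 5) (nat_lit 11) (nat_lit 5) (nat_lit 12) (nat_lit 4) (nat_lit 388) (nat_lit 247) (nat_lit 145)) (XT.lf (nat_lit 0) (nat_lit 19931169401) (nat_lit 76) (nat_lit 3030233064) (nat_lit 152) (nat_lit 34200815792) (nat_lit 10) (nat_lit 5) (nat_lit 11) (nat_lit 5) (nat_lit 12) (nat_lit 4) (nat_lit 389) (nat_lit 247) (nat_lit 144)))))) (XT.nd (nat_lit 546) (nat_lit 152) (nat_lit 0) (XT.nd (nat_lit 234) (nat_lit 76) (nat_lit 0) (XT.nd (nat_lit 78) (nat_lit 0) (nat_lit 0) (XT.lf (nat_lit 0) (nat_lit 28062637910) (nat_lit 152) (nat_lit 28534713263) (nat_lit 0) (nat_lit 2121539587) (nat_lit 10) (nat_lit 5) (nat_lit 12) (nat_lit 4) (nat_lit 10) (nat_lit 4) (nat_lit 390) (nat_lit 247) (nat_lit 143)) (XT.nd (nat_lit 78) (nat_lit 0) (nat_lit 0) (XT.lf (nat_lit 0) (nat_lit 33333772547) (nat_lit 152) (nat_lit 19631937472) (nat_lit 0) (nat_lit 7356050913) (nat_lit 10) (nat_lit 5)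 (nat_lit 12) (nat_lit 4) (nat_lit 10) (nat_lit 4) (nat_lit 391) (nat_lit 247) (nat_lit 142)) (XT.lf (nat_lit 0) (nat_lit 38750283767) (nat_lit 152) (nat_lit 10485813905) (nat_lit 0) (nat_lit 12737005522) (nat_lit 10) (nat_lit 5) (nat_lit 12) (nat_lit 4) (nat_lit 10) (nat_lit 4) (nat_lit 392) (nat_lit 247) (nat_lit 141)))) (XT.nd (nat_lit 156) (nat_lit 0) (nat_lit 0) (XT.nd (nat_lit 78) (nat_lit 76) (nat_lit 0) (XT.lf (nat_lit 0) (nat_lit 44316904444) (nat_lit 152) (nat_lit 1088350802) (nat_lit 0) (nat_lit 18269105217) (nat_lit 10) (nat_lit 5) (nat_lit 12) (nat_lit 4) (nat_lit 10) (nat_lit 4) (nat_lit 393) (nat_lit 247) (nat_lit 140)) (XT.lf (nat_lit 0) (nat_lit 8739196410) (nat_lit 76) (nat_lit 41383308708) (nat_lit 76) (nat_lit 15301993964) (nat_lit 9) (nat_lit 4) (nat_lit 10) (nat_lit 5) (nat_lit 10) (nat_lit 4) (nat_lit 394) (nat_lit 247) (nat_lit 139))) (XT.nd (nat_lit 78) (nat_lit 0) (nat_lit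 0) (XT.lf (nat_lit 0) (nat_lit 18861726523) (nat_lit 76) (nat_lit 37239649664) (nat_lit 76) (nat_lit 11125795584) (nat_lit 9) (nat_lit 4) (nat_lit 10) (nat_lit 5) (nat_lit 10) (nat_lit 4) (nat_lit 395) (nat_lit 247) (nat_lit 138)) (XT.lf (nat_lit 0) (nat_lit 29266424153) (nat_lit 76) (nat_lit 32981647651) (nat_lit 76) (nat_lit 6836201982) (nat_lit 9) (nat_lit 4) (nat_lit 10) (nat_lit 5) (nat_lit 10) (nat_lit 4) (nat_lit 396) (nat_lit 247) (nat_lit 137))))) (XT.nd (nat_lit 234) (nat_lit 76) (nat_lit 0) (XT.nd (nat_lit 78) (nat_lit 76) (nat_lit 0) (XT.lf (nat_lit 0) (nat_lit 39962380781) (nat_lit 76) (nat_lit 28605582084) (nat_lit 76) (nat_lit 2429464970) (nat_lit 9) (nat_lit 4) (nat_lit 10) (nat_lit 5) (nat_lit 10) (nat_lit 4) (nat_lit 397) (nat_lit 247) (nat_lit 136)) (XT.nd (nat_lit 78) (nat_lit 0) (nat_lit 0) (XT.lf (nat_lit 0) (nat_lit 2057321271) (nat_lit 152) (nat_lit 22029533034) (nat_lit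 76) (nat_lit 48880846206) (nat_lit 8) (nat_lit 5) (nat_lit 10) (nat_lit 5) (nat_lit 9) (nat_lit 4) (nat_lit 398) (nat_lit 247) (nat_lit 135)) (XT.lf (nat_lit 0) (nat_lit 6619211899) (nat_lit 152) (nat_lit 12797805839) (nat_lit 76) (nat_lit 55579664663) (nat_lit 8) (nat_lit 5) (nat_lit 10) (nat_lit 5) (nat_lit 9) (nat_lit 4) (nat_lit 399) (nat_lit 247) (nat_lit 134)))) (XT.nd (nat_lit 156) (nat_lit 0) (nat_lit 0) (XT.nd (nat_lit 78) (nat_lit 76) (nat_lit 0) (XT.lf (nat_lit 0) (nat_lit 11307600643) (nat_lit 152) (nat_lit 3308445406) (nat_lit 76) (nat_lit 62470800953) (nat_lit 8) (nat_lit 5) (nat_lit 10) (nat_lit 5) (nat_lit 9) (nat_lit 4) (nat_lit 400) (nat_lit 247) (nat_lit 133)) (XT.lf (nat_lit 0) (nat_lit 6575144692) (nat_lit 76) (nat_lit 9614643774) (nat_lit 152) (nat_lit 63048336080) (nat_lit 7) (nat_lit 5) (nat_lit 8) (nat_lit 5) (nat_lit 9) (nat_lit 4) (nat_lit 401) (nat_lit 247) (nat_lit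 132))) (XT.nd (nat_lit 78) (nat_lit 0) (nat_lit 0) (XT.lf (nat_lit 0) (nat_lit 16804490361) (nat_lit 76) (nat_lit 4437417872) (nat_lit 152) (nat_lit 60211330547) (nat_lit 7) (nat_lit 5) (nat_lit 8) (nat_lit 5) (nat_lit 9) (nat_lit 4) (nat_lit 402) (nat_lit 247) (nat_lit 131)) (XT.lf (nat_lit 0) (nat_lit 26444462630) (nat_lit 152) (nat_lit 56420936956) (nat_lit 0) (nat_lit 869443012) (nat_lit 7) (nat_lit 5) (nat_lit 9) (nat_lit 4) (nat_lit 7) (nat_lit 4) (nat_lit 403) (nat_lit 247) (nat_lit 130))))))))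
noncomputable def xc73 : XT := (XT.nd (nat_lit 32838) (nat_lit 0) (nat_lit 3192) (XT.nd (nat_lit 31746) (nat_lit 0) (nat_lit 8284) (XT.nd (nat_lit 546) (nat_lit 0) (nat_lit 0) (XT.nd (nat_lit 234) (nat_lit 76) (nat_lit 0) (XT.nd (nat_lit 78) (nat_lit 0) (nat_lit 0) (XT.lf (nat_lit 0) (nat_lit 31837578536) (nat_lit 152) (nat_lit 48007937070) (nat_lit 0) (nat_lit 6238346596) (nat_lit 7) (nat_lit 5) (nat_lit 9) (nat_lit 4) (nat_lit 7) (nat_lit 4) (nat_lit 404) (nat_lit 247) (nat_lit 129)) (XT.nd (nat_lit 78) (nat_lit 0) (nat_lit 0) (XT.lf (nat_lit 0) (nat_lit 37383313208) (nat_lit 152) (nat_lit 39359742424) (nat_lit 0) (nat_lit 11760574159) (nat_lit 7) (nat_lit 5) (nat_lit 9) (nat_lit 4) (nat_lit 7) (nat_lit 4) (nat_lit 405) (nat_lit 247) (nat_lit 128)) (XT.lf (nat_lit 0) (nat_lit 43086512434) (nat_lit 152) (nat_lit 30468796342) (nat_lit 0) (nat_lit 17440950949) (nat_lit 7) (nat_lit 5) (nat_lit 9)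 (nat_lit 4) (nat_lit 7) (nat_lit 4) (nat_lit 406) (nat_lit 247) (nat_lit 127)))) (XT.nd (nat_lit 156) (nat_lit 76) (nat_lit 0) (XT.nd (nat_lit 78) (nat_lit 0) (nat_lit 0) (XT.lf (nat_lit 0) (nat_lit 48952159592) (nat_lit 152) (nat_lit 21327330037) (nat_lit 0) (nat_lit 23284440402) (nat_lit 7) (nat_lit 5) (nat_lit 9) (nat_lit 4) (nat_lit 7) (nat_lit 4) (nat_lit 407) (nat_lit 247) (nat_lit 126)) (XT.lf (nat_lit 0) (nat_lit 54985380004) (nat_lit 152) (nat_lit 11927355818) (nat_lit 0) (nat_lit 29296148479) (nat_lit 7) (nat_lit 5) (nat_lit 9) (nat_lit 4) (nat_lit 7) (nat_lit 4) (nat_lit 408) (nat_lit 247) (nat_lit 125))) (XT.nd (nat_lit 78) (nat_lit 76) (nat_lit 0) (XT.lf (nat_lit 0) (nat_lit 61191445416) (nat_lit 152) (nat_lit 2260660118) (nat_lit 0) (nat_lit 35481328130) (nat_lit 7) (nat_lit 5) (nat_lit 9) (nat_lit 4) (nat_lit 7) (nat_lit 4) (nat_lit 409) (nat_lit 247) (nat_lit 124)) (XT.lf (nat_lit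 0) (nat_lit 7834074706) (nat_lit 76) (nat_lit 59817009816) (nat_lit 76) (nat_lit 34086615091) (nat_lit 6) (nat_lit 4) (nat_lit 7) (nat_lit 5) (nat_lit 7) (nat_lit 4) (nat_lit 410) (nat_lit 247) (nat_lit 123))))) (XT.nd (nat_lit 30888) (nat_lit 0) (nat_lit 12844) (XT.nd (nat_lit 30732) (nat_lit 0) (nat_lit 15428) (XT.lf (nat_lit 0) (nat_lit 18263305550) (nat_lit 76) (nat_lit 56056210627) (nat_lit 76) (nat_lit 30306129068) (nat_lit 6) (nat_lit 4) (nat_lit 7) (nat_lit 5) (nat_lit 7) (nat_lit 4) (nat_lit 411) (nat_lit 247) (nat_lit 122)) (XT.nd (nat_lit 78) (nat_lit 1140) (nat_lit 0) (XT.lf (nat_lit 0) (nat_lit 2902136795) (nat_lit 988) (nat_lit 323606151) (nat_lit 988) (nat_lit 323606151) (nat_lit 224) (nat_lit 4) (nat_lit 237) (nat_lit 5) (nat_lit 237) (nat_lit 4) (nat_lit 284) (nat_lit 248) (nat_lit 248)) (XT.lf (nat_lit 0) (nat_lit 2577562009) (nat_lit 1140) (nat_lit 3659566895) (nat_lit 0) (nat_lit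 918893577) (nat_lit 209) (nat_lit 5) (nat_lit 224) (nat_lit 4) (nat_lit 209) (nat_lit 4) (nat_lit 285) (nat_lit 248) (nat_lit 247)))) (XT.nd (nat_lit 156) (nat_lit 1368) (nat_lit 0) (XT.nd (nat_lit 78) (nat_lit 76) (nat_lit 0) (XT.lf (nat_lit 0) (nat_lit 1155934678) (nat_lit 1140) (nat_lit 4665033221) (nat_lit 1140) (nat_lit 1396007089) (nat_lit 194) (nat_lit 4) (nat_lit 209) (nat_lit 5) (nat_lit 209) (nat_lit 4) (nat_lit 286) (nat_lit 248) (nat_lit 246)) (XT.lf (nat_lit 0) (nat_lit 1787494470) (nat_lit 1216) (nat_lit 1203866435) (nat_lit 76) (nat_lit 4289722690) (nat_lit 193) (nat_lit 5) (nat_lit 209) (nat_lit 5) (nat_lit 194) (nat_lit 4) (nat_lit 287) (nat_lit 248) (nat_lit 245))) (XT.nd (nat_lit 78) (nat_lit 684) (nat_lit 0) (XT.lf (nat_lit 0) (nat_lit 3763809606) (nat_lit 684) (nat_lit 1218558077) (nat_lit 760) (nat_lit 2366150479) (nat_lit 184) (nat_lit 5) (nat_lit 193) (nat_lit 5) (nat_lit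 194) (nat_lit 4) (nat_lit 288) (nat_lit 248) (nat_lit 244)) (XT.lf (nat_lit 0) (nat_lit 778903906) (nat_lit 684) (nat_lit 6015040806) (nat_lit 76) (nat_lit 625697440) (nat_lit 175) (nat_lit 5) (nat_lit 184) (nat_lit 5) (nat_lit 176) (nat_lit 4) (nat_lit 289) (nat_lit 248) (nat_lit 243)))))) (XT.nd (nat_lit 546) (nat_lit 2356) (nat_lit 0) (XT.nd (nat_lit 234) (nat_lit 1064) (nat_lit 0) (XT.nd (nat_lit 78) (nat_lit 1140) (nat_lit 0) (XT.lf (nat_lit 0) (nat_lit 3929582214) (nat_lit 684) (nat_lit 1008272540) (nat_lit 76) (nat_lit 2555701046) (nat_lit 175) (nat_lit 5) (nat_lit 184) (nat_lit 5) (nat_lit 176) (nat_lit 4) (nat_lit 290) (nat_lit 248) (nat_lit 242)) (XT.nd (nat_lit 78) (nat_lit 608) (nat_lit 0) (XT.lf (nat_lit 0) (nat_lit 4134542051) (nat_lit 532) (nat_lit 2992805588) (nat_lit 608) (nat_lit 443882255) (nat_lit 168) (nat_lit 5) (nat_lit 175) (nat_lit 5) (nat_lit 176) (nat_lit 4) (nat_lit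 291) (nat_lit 248) (nat_lit 241)) (XT.lf (nat_lit 0) (nat_lit 1712327190) (nat_lit 532) (nat_lit 943676203) (nat_lit 608) (nat_lit 4996337995) (nat_lit 160) (nat_lit 5) (nat_lit 167) (nat_lit 5) (nat_lit 168) (nat_lit 5) (nat_lit 292) (nat_lit 248) (nat_lit 240)))) (XT.nd (nat_lit 156) (nat_lit 532) (nat_lit 0) (XT.nd (nat_lit 78) (nat_lit 532) (nat_lit 0) (XT.lf (nat_lit 0) (nat_lit 5801239820) (nat_lit 608) (nat_lit 761903625) (nat_lit 76) (nat_lit 1173882514) (nat_lit 160) (nat_lit 5) (nat_lit 168) (nat_lit 5) (nat_lit 161) (nat_lit 4) (nat_lit 293) (nat_lit 248) (nat_lit 239)) (XT.lf (nat_lit 0) (nat_lit 1163077685) (nat_lit 532) (nat_lit 3280047401) (nat_lit 76) (nat_lit 3381771633) (nat_lit 153) (nat_lit 5) (nat_lit 160) (nat_lit 5) (nat_lit 154) (nat_lit 5) (nat_lit 294) (nat_lit 248) (nat_lit 238))) (XT.nd (nat_lit 78) (nat_lit 0) (nat_lit 0) (XT.lf (nat_lit 0) (nat_lit 2036413324) (nat_lit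 532) (nat_lit 2225018395) (nat_lit 608) (nat_lit 3655134478) (nat_lit 146) (nat_lit 5) (nat_lit 153) (nat_lit 5) (nat_lit 154) (nat_lit 5) (nat_lit 295) (nat_lit 248) (nat_lit 237)) (XT.lf (nat_lit 0) (nat_lit 7406190299) (nat_lit 608) (nat_lit 528061829) (nat_lit 76) (nat_lit 78227616) (nat_lit 146) (nat_lit 5) (nat_lit 154) (nat_lit 5) (nat_lit 147) (nat_lit 4) (nat_lit 296) (nat_lit 248) (nat_lit 236))))) (XT.nd (nat_lit 234) (nat_lit 1292) (nat_lit 0) (XT.nd (nat_lit 78) (nat_lit 532) (nat_lit 0) (XT.lf (nat_lit 0) (nat_lit 2475935097) (nat_lit 532) (nat_lit 3170391831) (nat_lit 76) (nat_lit 2464564153) (nat_lit 139) (nat_lit 5) (nat_lit 146) (nat_lit 5) (nat_lit 140) (nat_lit 5) (nat_lit 297) (nat_lit 248) (nat_lit 235)) (XT.nd (nat_lit 78) (nat_lit 76) (nat_lit 0) (XT.lf (nat_lit 0) (nat_lit 2316321337) (nat_lit 456) (nat_lit 3272080746) (nat_lit 532) (nat_lit 2625263064) (nat_lit 133) (nat_lit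 5) (nat_lit 139) (nat_lit 5) (nat_lit 140) (nat_lit 5) (nat_lit 298) (nat_lit 248) (nat_lit 234)) (XT.lf (nat_lit 0) (nat_lit 420620245) (nat_lit 532) (nat_lit 386178212) (nat_lit 76) (nat_lit 7514016377) (nat_lit 132) (nat_lit 5) (nat_lit 139) (nat_lit 5) (nat_lit 133) (nat_lit 5) (nat_lit 299) (nat_lit 248) (nat_lit 233)))) (XT.nd (nat_lit 156) (nat_lit 456) (nat_lit 0) (XT.nd (nat_lit 78) (nat_lit 456) (nat_lit 0) (XT.lf (nat_lit 0) (nat_lit 3498140147) (nat_lit 456) (nat_lit 3173777087) (nat_lit 76) (nat_lit 1758772981) (nat_lit 127) (nat_lit 5) (nat_lit 133) (nat_lit 5) (nat_lit 128) (nat_lit 5) (nat_lit 300) (nat_lit 248) (nat_lit 232)) (XT.lf (nat_lit 0) (nat_lit 2480045585) (nat_lit 456) (nat_lit 4149912497) (nat_lit 532) (nat_lit 1915123961) (nat_lit 121) (nat_lit 5) (nat_lit 127) (nat_lit 5) (nat_lit 128) (nat_lit 5) (nat_lit 301) (nat_lit 248) (nat_lit 231))) (XT.nd (nat_lit 78) (nat_lit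 380) (nat_lit 0) (XT.lf (nat_lit 0) (nat_lit 1128584083) (nat_lit 532) (nat_lit 399591033) (nat_lit 76) (nat_lit 7135690267) (nat_lit 120) (nat_lit 5) (nat_lit 127) (nat_lit 5) (nat_lit 121) (nat_lit 5) (nat_lit 302) (nat_lit 248) (nat_lit 230)) (XT.lf (nat_lit 0) (nat_lit 4217900196) (nat_lit 456) (nat_lit 3366879535) (nat_lit 76) (nat_lit 1201152601) (nat_lit 115) (nat_lit 5) (nat_lit 121) (nat_lit 5) (nat_lit 116) (nat_lit 5) (nat_lit 303) (nat_lit 248) (nat_lit 229))))))) (XT.nd (nat_lit 1092) (nat_lit 1976) (nat_lit 0) (XT.nd (nat_lit 546) (nat_lit 1292) (nat_lit 0) (XT.nd (nat_lit 234) (nat_lit 1064) (nat_lit 0) (XT.nd (nat_lit 78) (nat_lit 380) (nat_lit 0) (XT.lf (nat_lit 0) (nat_lit 2448793195) (nat_lit 380) (nat_lit 4923654081) (nat_lit 456) (nat_lit 1540107980) (nat_lit 110) (nat_lit 5) (nat_lit 115) (nat_lit 5) (nat_lit 116) (nat_lit 5) (nat_lit 304) (nat_lit 248) (nat_lit 228)) (XT.nd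 (nat_lit 78) (nat_lit 304) (nat_lit 0) (XT.lf (nat_lit 0) (nat_lit 1512402126) (nat_lit 456) (nat_lit 642788950) (nat_lit 76) (nat_lit 6888460400) (nat_lit 109) (nat_lit 5) (nat_lit 115) (nat_lit 5) (nat_lit 110) (nat_lit 5) (nat_lit 305) (nat_lit 248) (nat_lit 227)) (XT.lf (nat_lit 0) (nat_lit 4616359132) (nat_lit 380) (nat_lit 3834478524) (nat_lit 76) (nat_lit 727725211) (nat_lit 105) (nat_lit 5) (nat_lit 110) (nat_lit 5) (nat_lit 106) (nat_lit 5) (nat_lit 306) (nat_lit 248) (nat_lit 226)))) (XT.nd (nat_lit 156) (nat_lit 608) (nat_lit 0) (XT.nd (nat_lit 78) (nat_lit 76) (nat_lit 0) (XT.lf (nat_lit 0) (nat_lit 2135165350) (nat_lit 380) (nat_lit 5659828081) (nat_lit 456) (nat_lit 1523144059) (nat_lit 100) (nat_lit 5) (nat_lit 105) (nat_lit 5) (nat_lit 106) (nat_lit 5) (nat_lit 307) (nat_lit 248) (nat_lit 225)) (XT.lf (nat_lit 0) (nat_lit 1548337184) (nat_lit 456) (nat_lit 1206063211) (nat_lit 76)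 (nat_lit 6707916262) (nat_lit 99) (nat_lit 5) (nat_lit 105) (nat_lit 5) (nat_lit 100) (nat_lit 5) (nat_lit 308) (nat_lit 248) (nat_lit 224))) (XT.nd (nat_lit 78) (nat_lit 304) (nat_lit 0) (XT.lf (nat_lit 0) (nat_lit 4666970392) (nat_lit 380) (nat_lit 4671412444) (nat_lit 76) (nat_lit 272474639) (nat_lit 95) (nat_lit 5) (nat_lit 100) (nat_lit 5) (nat_lit 96) (nat_lit 5) (nat_lit 309) (nat_lit 248) (nat_lit 223)) (XT.lf (nat_lit 0) (nat_lit 1441119773) (nat_lit 304) (nat_lit 6427699669) (nat_lit 380) (nat_lit 1895401033) (nat_lit 91) (nat_lit 5) (nat_lit 95) (nat_lit 5) (nat_lit 96) (nat_lit 5) (nat_lit 310) (nat_lit 248) (nat_lit 222))))) (XT.nd (nat_lit 234) (nat_lit 608) (nat_lit 0) (XT.nd (nat_lit 78) (nat_lit 608) (nat_lit 0) (XT.lf (nat_lit 0) (nat_lit 1204451118) (nat_lit 380) (nat_lit 2191005614) (nat_lit 76) (nat_lit 6526895291) (nat_lit 90) (nat_lit 5) (nat_lit 95) (nat_lit 5) (nat_lit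 91) (nat_lit 5) (nat_lit 311) (nat_lit 248) (nat_lit 221)) (XT.nd (nat_lit 78) (nat_lit 304) (nat_lit 0) (XT.lf (nat_lit 0) (nat_lit 4098303873) (nat_lit 304) (nat_lit 238700325) (nat_lit 380) (nat_lit 5748377237) (nat_lit 86) (nat_lit 5) (nat_lit 90) (nat_lit 5) (nat_lit 91) (nat_lit 5) (nat_lit 312) (nat_lit 248) (nat_lit 220)) (XT.lf (nat_lit 0) (nat_lit 255670897) (nat_lit 304) (nat_lit 7300733206) (nat_lit 380) (nat_lit 2697160973) (nat_lit 82) (nat_lit 5) (nat_lit 86) (nat_lit 5) (nat_lit 87) (nat_lit 5) (nat_lit 313) (nat_lit 248) (nat_lit 219)))) (XT.nd (nat_lit 156) (nat_lit 304) (nat_lit 0) (XT.nd (nat_lit 78) (nat_lit 228) (nat_lit 0) (XT.lf (nat_lit 0) (nat_lit 439712987) (nat_lit 380) (nat_lit 3712884547) (nat_lit 76) (nat_lit 6274030321) (nat_lit 81) (nat_lit 5) (nat_lit 86) (nat_lit 5) (nat_lit 82) (nat_lit 5) (nat_lit 314) (nat_lit 248) (nat_lit 218)) (XT.lf (nat_lit 0) (nat_lit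 2700165798) (nat_lit 228) (nat_lit 883434503) (nat_lit 304) (nat_lit 7021512816) (nat_lit 78) (nat_lit 5) (nat_lit 81) (nat_lit 5) (nat_lit 82) (nat_lit 5) (nat_lit 315) (nat_lit 248) (nat_lit 217))) (XT.nd (nat_lit 78) (nat_lit 304) (nat_lit 0) (XT.lf (nat_lit 0) (nat_lit 6825330077) (nat_lit 304) (nat_lit 1517520152) (nat_lit 76) (nat_lit 2446040870) (nat_lit 78) (nat_lit 5) (nat_lit 82) (nat_lit 5) (nat_lit 79) (nat_lit 5) (nat_lit 316) (nat_lit 248) (nat_lit 216)) (XT.lf (nat_lit 0) (nat_lit 5067034686) (nat_lit 304) (nat_lit 5098212864) (nat_lit 380) (nat_lit 812949457) (nat_lit 74) (nat_lit 5) (nat_lit 78) (nat_lit 5) (nat_lit 79) (nat_lit 5) (nat_lit 317) (nat_lit 248) (nat_lit 215)))))) (XT.nd (nat_lit 546) (nat_lit 912) (nat_lit 0) (XT.nd (nat_lit 234) (nat_lit 532) (nat_lit 0) (XT.nd (nat_lit 78) (nat_lit 228) (nat_lit 0) (XT.lf (nat_lit 0) (nat_lit 610947118) (nat_lit 228) (nat_lit 1738851533)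 (nat_lit 304) (nat_lit 8823769902) (nat_lit 70) (nat_lit 5) (nat_lit 73) (nat_lit 5) (nat_lit 74) (nat_lit 5) (nat_lit 318) (nat_lit 248) (nat_lit 214)) (XT.nd (nat_lit 78) (nat_lit 228) (nat_lit 0) (XT.lf (nat_lit 0) (nat_lit 5612202853) (nat_lit 304) (nat_lit 4033852160) (nat_lit 76) (nat_lit 1727910408) (nat_lit 70) (nat_lit 5) (nat_lit 74) (nat_lit 5) (nat_lit 71) (nat_lit 5) (nat_lit 319) (nat_lit 248) (nat_lit 213)) (XT.lf (nat_lit 0) (nat_lit 2642063294) (nat_lit 228) (nat_lit 6318937015) (nat_lit 304) (nat_lit 2619756154) (nat_lit 67) (nat_lit 5) (nat_lit 70) (nat_lit 5) (nat_lit 71) (nat_lit 5) (nat_lit 320) (nat_lit 248) (nat_lit 212)))) (XT.nd (nat_lit 156) (nat_lit 228) (nat_lit 0) (XT.nd (nat_lit 78) (nat_lit 228) (nat_lit 0) (XT.lf (nat_lit 0) (nat_lit 591746129) (nat_lit 304) (nat_lit 2281262881) (nat_lit 76) (nat_lit 8920982185) (nat_lit 66) (nat_lit 5) (nat_lit 70) (nat_lit 5)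 (nat_lit 67) (nat_lit 5) (nat_lit 321) (nat_lit 248) (nat_lit 211)) (XT.lf (nat_lit 0) (nat_lit 3845367249) (nat_lit 304) (nat_lit 7462078678) (nat_lit 76) (nat_lit 705480734) (nat_lit 63) (nat_lit 5) (nat_lit 67) (nat_lit 5) (nat_lit 64) (nat_lit 5) (nat_lit 322) (nat_lit 248) (nat_lit 210))) (XT.nd (nat_lit 78) (nat_lit 228) (nat_lit 0) (XT.lf (nat_lit 0) (nat_lit 7196483163) (nat_lit 304) (nat_lit 713161682) (nat_lit 76) (nat_lit 4328822439) (nat_lit 63) (nat_lit 5) (nat_lit 67) (nat_lit 5) (nat_lit 64) (nat_lit 5) (nat_lit 323) (nat_lit 248) (nat_lit 209)) (XT.lf (nat_lit 0) (nat_lit 6281739379) (nat_lit 228) (nat_lit 4376462693) (nat_lit 304) (nat_lit 1812302663) (nat_lit 60) (nat_lit 5) (nat_lit 63) (nat_lit 5) (nat_lit 64) (nat_lit 5) (nat_lit 324) (nat_lit 248) (nat_lit 208))))) (XT.nd (nat_lit 234) (nat_lit 456) (nat_lit 0) (XT.nd (nat_lit 78) (nat_lit 228) (nat_lit 0) (XT.lf (nat_lit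 0) (nat_lit 711764978) (nat_lit 152) (nat_lit 736946457) (nat_lit 228) (nat_lit 11261466279) (nat_lit 57) (nat_lit 5) (nat_lit 59) (nat_lit 5) (nat_lit 60) (nat_lit 5) (nat_lit 325) (nat_lit 248) (nat_lit 207)) (XT.nd (nat_lit 78) (nat_lit 228) (nat_lit 0) (XT.lf (nat_lit 0) (nat_lit 4813495779) (nat_lit 228) (nat_lit 5136275404) (nat_lit 76) (nat_lit 3005490353) (nat_lit 57) (nat_lit 5) (nat_lit 60) (nat_lit 5) (nat_lit 58) (nat_lit 5) (nat_lit 326) (nat_lit 248) (nat_lit 206)) (XT.lf (nat_lit 0) (nat_lit 1883740521) (nat_lit 228) (nat_lit 6372636157) (nat_lit 304) (nat_lit 4952035654) (nat_lit 54) (nat_lit 5) (nat_lit 57) (nat_lit 5) (nat_lit 58) (nat_lit 5) (nat_lit 327) (nat_lit 248) (nat_lit 205)))) (XT.nd (nat_lit 156) (nat_lit 228) (nat_lit 0) (XT.nd (nat_lit 78) (nat_lit 228) (nat_lit 0) (XT.lf (nat_lit 0) (nat_lit 9142957235) (nat_lit 228) (nat_lit 2663870138) (nat_lit 304) (nat_lit 1662229981)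 (nat_lit 54) (nat_lit 5) (nat_lit 57) (nat_lit 5) (nat_lit 58) (nat_lit 5) (nat_lit 328) (nat_lit 248) (nat_lit 204)) (XT.lf (nat_lit 0) (nat_lit 1684532649) (nat_lit 228) (nat_lit 10902943536) (nat_lit 76) (nat_lit 1149815850) (nat_lit 51) (nat_lit 5) (nat_lit 54) (nat_lit 5) (nat_lit 52) (nat_lit 5) (nat_lit 329) (nat_lit 248) (nat_lit 203))) (XT.nd (nat_lit 78) (nat_lit 228) (nat_lit 0) (XT.lf (nat_lit 0) (nat_lit 5122466956) (nat_lit 228) (nat_lit 3833039760) (nat_lit 76) (nat_lit 5056873782) (nat_lit 51) (nat_lit 5) (nat_lit 54) (nat_lit 5) (nat_lit 52) (nat_lit 5) (nat_lit 330) (nat_lit 248) (nat_lit 202)) (XT.lf (nat_lit 0) (nat_lit 3442542637) (nat_lit 228) (nat_lit 5209122815) (nat_lit 304) (nat_lit 5644437433) (nat_lit 48) (nat_lit 5) (nat_lit 51) (nat_lit 5) (nat_lit 52) (nat_lit 5) (nat_lit 331) (nat_lit 248) (nat_lit 201))))))))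
noncomputable def xc74 : XT := (XT.nd (nat_lit 2106) (nat_lit 988) (nat_lit 0) (XT.nd (nat_lit 1014) (nat_lit 684) (nat_lit 0) (XT.nd (nat_lit 468) (nat_lit 608) (nat_lit 0) (XT.nd (nat_lit 234) (nat_lit 304) (nat_lit 0) (XT.nd (nat_lit 78) (nat_lit 228) (nat_lit 0) (XT.lf (nat_lit 0) (nat_lit 10942092685) (nat_lit 228) (nat_lit 1338996918) (nat_lit 304) (nat_lit 2307441181) (nat_lit 48) (nat_lit 5) (nat_lit 51) (nat_lit 5) (nat_lit 52) (nat_lit 5) (nat_lit 332) (nat_lit 248) (nat_lit 200)) (XT.nd (nat_lit 78) (nat_lit 0) (nat_lit 0) (XT.lf (nat_lit 0) (nat_lit 1125969214) (nat_lit 228) (nat_lit 11147365436) (nat_lit 76) (nat_lit 2615543587) (nat_lit 45) (nat_lit 5) (nat_lit 48) (nat_lit 5) (nat_lit 46) (nat_lit 5) (nat_lit 333) (nat_lit 248) (nat_lit 199)) (XT.lf (nat_lit 0) (nat_lit 4623250659) (nat_lit 228) (nat_lit 3879727075) (nat_lit 76) (nat_lit 6694377885) (nat_lit 45) (nat_lit 5) (nat_lit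 48) (nat_lit 5) (nat_lit 46) (nat_lit 5) (nat_lit 334) (nat_lit 248) (nat_lit 198)))) (XT.nd (nat_lit 78) (nat_lit 152) (nat_lit 0) (XT.lf (nat_lit 0) (nat_lit 3606433057) (nat_lit 152) (nat_lit 4611745095) (nat_lit 228) (nat_lit 7297148957) (nat_lit 43) (nat_lit 5) (nat_lit 45) (nat_lit 5) (nat_lit 46) (nat_lit 5) (nat_lit 335) (nat_lit 248) (nat_lit 197)) (XT.nd (nat_lit 78) (nat_lit 152) (nat_lit 0) (XT.lf (nat_lit 0) (nat_lit 11327511835) (nat_lit 152) (nat_lit 591236019) (nat_lit 228) (nat_lit 3924177045) (nat_lit 43) (nat_lit 5) (nat_lit 45) (nat_lit 5) (nat_lit 46) (nat_lit 5) (nat_lit 336) (nat_lit 248) (nat_lit 196)) (XT.lf (nat_lit 0) (nat_lit 3057259336) (nat_lit 152) (nat_lit 12696149767) (nat_lit 228) (nat_lit 426269661) (nat_lit 41) (nat_lit 5) (nat_lit 43) (nat_lit 5) (nat_lit 44) (nat_lit 4) (nat_lit 337) (nat_lit 248) (nat_lit 195))))) (XT.nd (nat_lit 234) (nat_lit 380) (nat_lit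 0) (XT.nd (nat_lit 78) (nat_lit 152) (nat_lit 0) (XT.lf (nat_lit 0) (nat_lit 3126167740) (nat_lit 228) (nat_lit 5680635404) (nat_lit 76) (nat_lit 7718487872) (nat_lit 40) (nat_lit 5) (nat_lit 43) (nat_lit 5) (nat_lit 41) (nat_lit 5) (nat_lit 338) (nat_lit 248) (nat_lit 194)) (XT.nd (nat_lit 78) (nat_lit 0) (nat_lit 0) (XT.lf (nat_lit 0) (nat_lit 1951959707) (nat_lit 152) (nat_lit 4804265964) (nat_lit 228) (nat_lit 10125549547) (nat_lit 38) (nat_lit 5) (nat_lit 40) (nat_lit 5) (nat_lit 41) (nat_lit 5) (nat_lit 339) (nat_lit 248) (nat_lit 193)) (XT.lf (nat_lit 0) (nat_lit 9864318537) (nat_lit 152) (nat_lit 649590722) (nat_lit 228) (nat_lit 6734501072) (nat_lit 38) (nat_lit 5) (nat_lit 40) (nat_lit 5) (nat_lit 41) (nat_lit 5) (nat_lit 340) (nat_lit 248) (nat_lit 192)))) (XT.nd (nat_lit 156) (nat_lit 152) (nat_lit 0) (XT.nd (nat_lit 78) (nat_lit 76) (nat_lit 0) (XT.lf (nat_lit 0) (nat_lit 294213745)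 (nat_lit 152) (nat_lit 14090062777) (nat_lit 228) (nat_lit 3241786955) (nat_lit 36) (nat_lit 5) (nat_lit 38) (nat_lit 5) (nat_lit 39) (nat_lit 4) (nat_lit 341) (nat_lit 248) (nat_lit 191)) (XT.lf (nat_lit 0) (nat_lit 392834868) (nat_lit 228) (nat_lit 9733935741) (nat_lit 76) (nat_lit 7886867574) (nat_lit 35) (nat_lit 5) (nat_lit 38) (nat_lit 5) (nat_lit 36) (nat_lit 5) (nat_lit 342) (nat_lit 248) (nat_lit 190))) (XT.nd (nat_lit 78) (nat_lit 152) (nat_lit 0) (XT.lf (nat_lit 0) (nat_lit 4034768478) (nat_lit 228) (nat_lit 2003067072) (nat_lit 76) (nat_lit 12375154862) (nat_lit 35) (nat_lit 5) (nat_lit 38) (nat_lit 5) (nat_lit 36) (nat_lit 5) (nat_lit 343) (nat_lit 248) (nat_lit 189)) (XT.lf (nat_lit 0) (nat_lit 6016068609) (nat_lit 152) (nat_lit 1792216608) (nat_lit 228) (nat_lit 11015383852) (nat_lit 33) (nat_lit 5) (nat_lit 35) (nat_lit 5) (nat_lit 36) (nat_lit 5) (nat_lit 344) (nat_lit 248) (nat_lit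 188)))))) (XT.nd (nat_lit 546) (nat_lit 304) (nat_lit 0) (XT.nd (nat_lit 234) (nat_lit 304) (nat_lit 0) (XT.nd (nat_lit 78) (nat_lit 76) (nat_lit 0) (XT.lf (nat_lit 0) (nat_lit 11704946510) (nat_lit 228) (nat_lit 5015508390) (nat_lit 76) (nat_lit 2525930176) (nat_lit 33) (nat_lit 5) (nat_lit 36) (nat_lit 5) (nat_lit 34) (nat_lit 4) (nat_lit 345) (nat_lit 248) (nat_lit 187)) (XT.nd (nat_lit 78) (nat_lit 0) (nat_lit 0) (XT.lf (nat_lit 0) (nat_lit 2991482961) (nat_lit 76) (nat_lit 12739257191) (nat_lit 152) (nat_lit 3950690153) (nat_lit 32) (nat_lit 5) (nat_lit 33) (nat_lit 5) (nat_lit 34) (nat_lit 4) (nat_lit 346) (nat_lit 248) (nat_lit 186)) (XT.lf (nat_lit 0) (nat_lit 11282586957) (nat_lit 76) (nat_lit 8611531099) (nat_lit 152) (nat_lit 234918813) (nat_lit 32) (nat_lit 5) (nat_lit 33) (nat_lit 5) (nat_lit 34) (nat_lit 4) (nat_lit 347) (nat_lit 248) (nat_lit 185)))) (XT.nd (nat_lit 156) (nat_lit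 76) (nat_lit 0) (XT.nd (nat_lit 78) (nat_lit 152) (nat_lit 0) (XT.lf (nat_lit 0) (nat_lit 3489036770) (nat_lit 152) (nat_lit 860047472) (nat_lit 76) (nat_lit 16240960600) (nat_lit 31) (nat_lit 5) (nat_lit 33) (nat_lit 5) (nat_lit 32) (nat_lit 5) (nat_lit 348) (nat_lit 248) (nat_lit 184)) (XT.lf (nat_lit 0) (nat_lit 7360306366) (nat_lit 228) (nat_lit 13611671553) (nat_lit 76) (nat_lit 91638924) (nat_lit 29) (nat_lit 5) (nat_lit 32) (nat_lit 5) (nat_lit 30) (nat_lit 4) (nat_lit 349) (nat_lit 248) (nat_lit 183))) (XT.nd (nat_lit 78) (nat_lit 76) (nat_lit 0) (XT.lf (nat_lit 0) (nat_lit 11367496940) (nat_lit 228) (nat_lit 5619724081) (nat_lit 76) (nat_lit 4563594194) (nat_lit 29) (nat_lit 5) (nat_lit 32) (nat_lit 5) (nat_lit 30) (nat_lit 4) (nat_lit 350) (nat_lit 248) (nat_lit 182)) (XT.lf (nat_lit 0) (nat_lit 2608147666) (nat_lit 76) (nat_lit 12880711985) (nat_lit 152) (nat_lit 6563963522) (nat_lit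 28) (nat_lit 5) (nat_lit 29) (nat_lit 5) (nat_lit 30) (nat_lit 4) (nat_lit 351) (nat_lit 248) (nat_lit 181))))) (XT.nd (nat_lit 234) (nat_lit 76) (nat_lit 0) (XT.nd (nat_lit 78) (nat_lit 228) (nat_lit 0) (XT.lf (nat_lit 0) (nat_lit 11143862453) (nat_lit 76) (nat_lit 8616019623) (nat_lit 152) (nat_lit 2809240697) (nat_lit 28) (nat_lit 5) (nat_lit 29) (nat_lit 5) (nat_lit 30) (nat_lit 4) (nat_lit 352) (nat_lit 248) (nat_lit 180)) (XT.nd (nat_lit 78) (nat_lit 152) (nat_lit 0) (XT.lf (nat_lit 0) (nat_lit 1007334889) (nat_lit 152) (nat_lit 3228658703) (nat_lit 76) (nat_lit 18865528144) (nat_lit 27) (nat_lit 5) (nat_lit 29) (nat_lit 5) (nat_lit 28) (nat_lit 5) (nat_lit 353) (nat_lit 248) (nat_lit 179)) (XT.lf (nat_lit 0) (nat_lit 4906224329) (nat_lit 228) (nat_lit 18415107040) (nat_lit 76) (nat_lit 327009434) (nat_lit 25) (nat_lit 5) (nat_lit 28) (nat_lit 5) (nat_lit 26) (nat_lit 4) (nat_lit 354) (nat_lit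 248) (nat_lit 178)))) (XT.nd (nat_lit 156) (nat_lit 76) (nat_lit 0) (XT.nd (nat_lit 78) (nat_lit 0) (nat_lit 0) (XT.lf (nat_lit 0) (nat_lit 8967830135) (nat_lit 228) (nat_lit 10289513876) (nat_lit 76) (nat_lit 4952858577) (nat_lit 25) (nat_lit 5) (nat_lit 28) (nat_lit 5) (nat_lit 26) (nat_lit 4) (nat_lit 355) (nat_lit 248) (nat_lit 177)) (XT.lf (nat_lit 0) (nat_lit 13123015401) (nat_lit 228) (nat_lit 1970474796) (nat_lit 76) (nat_lit 9696288413) (nat_lit 25) (nat_lit 5) (nat_lit 28) (nat_lit 5) (nat_lit 26) (nat_lit 4) (nat_lit 356) (nat_lit 248) (nat_lit 176))) (XT.nd (nat_lit 78) (nat_lit 0) (nat_lit 0) (XT.lf (nat_lit 0) (nat_lit 6679622762) (nat_lit 76) (nat_lit 10759996731) (nat_lit 152) (nat_lit 7946029546) (nat_lit 24) (nat_lit 5) (nat_lit 25) (nat_lit 5) (nat_lit 26) (nat_lit 4) (nat_lit 357) (nat_lit 248) (nat_lit 175)) (XT.lf (nat_lit 0) (nat_lit 15581238838) (nat_lit 76) (nat_lit 6297269797)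 (nat_lit 152) (nat_lit 4121113068) (nat_lit 24) (nat_lit 5) (nat_lit 25) (nat_lit 5) (nat_lit 26) (nat_lit 4) (nat_lit 358) (nat_lit 248) (nat_lit 174))))))) (XT.nd (nat_lit 1092) (nat_lit 380) (nat_lit 0) (XT.nd (nat_lit 546) (nat_lit 304) (nat_lit 0) (XT.nd (nat_lit 234) (nat_lit 76) (nat_lit 0) (XT.nd (nat_lit 78) (nat_lit 228) (nat_lit 0) (XT.lf (nat_lit 0) (nat_lit 24702935232) (nat_lit 76) (nat_lit 1721307856) (nat_lit 152) (nat_lit 208569548) (nat_lit 24) (nat_lit 5) (nat_lit 25) (nat_lit 5) (nat_lit 26) (nat_lit 4) (nat_lit 359) (nat_lit 248) (nat_lit 173)) (XT.nd (nat_lit 78) (nat_lit 0) (nat_lit 0) (XT.lf (nat_lit 0) (nat_lit 3816531918) (nat_lit 228) (nat_lit 20447907384) (nat_lit 76) (nat_lit 3017374407) (nat_lit 21) (nat_lit 5) (nat_lit 24) (nat_lit 5) (nat_lit 22) (nat_lit 4) (nat_lit 360) (nat_lit 248) (nat_lit 172)) (XT.lf (nat_lit 0) (nat_lit 7969220308) (nat_lit 228) (nat_lit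 12115087247) (nat_lit 76) (nat_lit 7865593175) (nat_lit 21) (nat_lit 5) (nat_lit 24) (nat_lit 5) (nat_lit 22) (nat_lit 4) (nat_lit 361) (nat_lit 248) (nat_lit 171)))) (XT.nd (nat_lit 156) (nat_lit 0) (nat_lit 0) (XT.nd (nat_lit 78) (nat_lit 76) (nat_lit 0) (XT.lf (nat_lit 0) (nat_lit 12221540166) (nat_lit 228) (nat_lit 3577185990) (nat_lit 76) (nat_lit 12840061077) (nat_lit 21) (nat_lit 5) (nat_lit 24) (nat_lit 5) (nat_lit 22) (nat_lit 4) (nat_lit 362) (nat_lit 248) (nat_lit 170)) (XT.lf (nat_lit 0) (nat_lit 5276214639) (nat_lit 76) (nat_lit 11351710672) (nat_lit 152) (nat_lit 12719628297) (nat_lit 20) (nat_lit 5) (nat_lit 21) (nat_lit 5) (nat_lit 22) (nat_lit 4) (nat_lit 363) (nat_lit 248) (nat_lit 169))) (XT.nd (nat_lit 78) (nat_lit 0) (nat_lit 0) (XT.lf (nat_lit 0) (nat_lit 14425377888) (nat_lit 76) (nat_lit 6753314732) (nat_lit 152) (nat_lit 8898532551) (nat_lit 20) (nat_lit 5) (nat_lit 21)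 (nat_lit 5) (nat_lit 22) (nat_lit 4) (nat_lit 364) (nat_lit 248) (nat_lit 168)) (XT.lf (nat_lit 0) (nat_lit 23807105152) (nat_lit 76) (nat_lit 2035642882) (nat_lit 152) (nat_lit 4986743573) (nat_lit 20) (nat_lit 5) (nat_lit 21) (nat_lit 5) (nat_lit 22) (nat_lit 4) (nat_lit 365) (nat_lit 248) (nat_lit 167))))) (XT.nd (nat_lit 234) (nat_lit 76) (nat_lit 0) (XT.nd (nat_lit 78) (nat_lit 76) (nat_lit 0) (XT.lf (nat_lit 0) (nat_lit 1833392425) (nat_lit 152) (nat_lit 28835365693) (nat_lit 152) (nat_lit 934914388) (nat_lit 18) (nat_lit 4) (nat_lit 20) (nat_lit 5) (nat_lit 20) (nat_lit 4) (nat_lit 366) (nat_lit 248) (nat_lit 166)) (XT.nd (nat_lit 78) (nat_lit 0) (nat_lit 0) (XT.lf (nat_lit 0) (nat_lit 3244352770) (nat_lit 228) (nat_lit 21393396691) (nat_lit 76) (nat_lit 7760330177) (nat_lit 17) (nat_lit 5) (nat_lit 20) (nat_lit 5) (nat_lit 18) (nat_lit 4) (nat_lit 367) (nat_lit 248) (nat_lit 165)) (XT.lf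 (nat_lit 0) (nat_lit 7508176013) (nat_lit 228) (nat_lit 12814516586) (nat_lit 76) (nat_lit 12894016445) (nat_lit 17) (nat_lit 5) (nat_lit 20) (nat_lit 5) (nat_lit 18) (nat_lit 4) (nat_lit 368) (nat_lit 248) (nat_lit 164)))) (XT.nd (nat_lit 156) (nat_lit 0) (nat_lit 0) (XT.nd (nat_lit 78) (nat_lit 76) (nat_lit 0) (XT.lf (nat_lit 0) (nat_lit 11878524557) (nat_lit 228) (nat_lit 4017156690) (nat_lit 76) (nat_lit 18164864393) (nat_lit 17) (nat_lit 5) (nat_lit 20) (nat_lit 5) (nat_lit 18) (nat_lit 4) (nat_lit 369) (nat_lit 248) (nat_lit 163)) (XT.lf (nat_lit 0) (nat_lit 5106006592) (nat_lit 76) (nat_lit 11302292621) (nat_lit 152) (nat_lit 18520555084) (nat_lit 16) (nat_lit 5) (nat_lit 17) (nat_lit 5) (nat_lit 18) (nat_lit 4) (nat_lit 370) (nat_lit 248) (nat_lit 162))) (XT.nd (nat_lit 78) (nat_lit 0) (nat_lit 0) (XT.lf (nat_lit 0) (nat_lit 14547828692) (nat_lit 76) (nat_lit 6546182910) (nat_lit 152) (nat_lit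 14728605524) (nat_lit 16) (nat_lit 5) (nat_lit 17) (nat_lit 5) (nat_lit 18) (nat_lit 4) (nat_lit 371) (nat_lit 248) (nat_lit 161)) (XT.lf (nat_lit 0) (nat_lit 24236610451) (nat_lit 76) (nat_lit 1663761695) (nat_lit 152) (nat_lit 10843424455) (nat_lit 16) (nat_lit 5) (nat_lit 17) (nat_lit 5) (nat_lit 18) (nat_lit 4) (nat_lit 372) (nat_lit 248) (nat_lit 160)))))) (XT.nd (nat_lit 546) (nat_lit 152) (nat_lit 0) (XT.nd (nat_lit 234) (nat_lit 76) (nat_lit 0) (XT.nd (nat_lit 78) (nat_lit 152) (nat_lit 0) (XT.lf (nat_lit 0) (nat_lit 30863775494) (nat_lit 152) (nat_lit 3544574756) (nat_lit 0) (nat_lit 3283881536) (nat_lit 16) (nat_lit 5) (nat_lit 18) (nat_lit 4) (nat_lit 16) (nat_lit 4) (nat_lit 373) (nat_lit 248) (nat_lit 159)) (XT.nd (nat_lit 78) (nat_lit 76) (nat_lit 0) (XT.lf (nat_lit 0) (nat_lit 5747973472) (nat_lit 76) (nat_lit 30280905511) (nat_lit 76) (nat_lit 2638662819) (nat_lit 15) (nat_lit 4)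 (nat_lit 16) (nat_lit 5) (nat_lit 16) (nat_lit 4) (nat_lit 374) (nat_lit 248) (nat_lit 158)) (XT.lf (nat_lit 0) (nat_lit 1661354336) (nat_lit 152) (nat_lit 24330226141) (nat_lit 76) (nat_lit 13679534948) (nat_lit 14) (nat_lit 5) (nat_lit 16) (nat_lit 5) (nat_lit 15) (nat_lit 4) (nat_lit 375) (nat_lit 248) (nat_lit 157)))) (XT.nd (nat_lit 156) (nat_lit 76) (nat_lit 0) (XT.nd (nat_lit 78) (nat_lit 0) (nat_lit 0) (XT.lf (nat_lit 0) (nat_lit 6018991009) (nat_lit 152) (nat_lit 15542993354) (nat_lit 76) (nat_lit 19142583756) (nat_lit 14) (nat_lit 5) (nat_lit 16) (nat_lit 5) (nat_lit 15) (nat_lit 4) (nat_lit 376) (nat_lit 248) (nat_lit 156)) (XT.lf (nat_lit 0) (nat_lit 10489544661) (nat_lit 152) (nat_lit 6524827365) (nat_lit 76) (nat_lit 24755191812) (nat_lit 14) (nat_lit 5) (nat_lit 16) (nat_lit 5) (nat_lit 15) (nat_lit 4) (nat_lit 377) (nat_lit 248) (nat_lit 155))) (XT.nd (nat_lit 78) (nat_lit 0) (nat_lit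 0) (XT.lf (nat_lit 0) (nat_lit 2786526953) (nat_lit 76) (nat_lit 12317180447) (nat_lit 152) (nat_lit 27762522184) (nat_lit 13) (nat_lit 5) (nat_lit 14) (nat_lit 5) (nat_lit 15) (nat_lit 4) (nat_lit 378) (nat_lit 248) (nat_lit 154)) (XT.lf (nat_lit 0) (nat_lit 12479553736) (nat_lit 76) (nat_lit 7425537579) (nat_lit 152) (nat_lit 24089244885) (nat_lit 13) (nat_lit 5) (nat_lit 14) (nat_lit 5) (nat_lit 15) (nat_lit 4) (nat_lit 379) (nat_lit 248) (nat_lit 153))))) (XT.nd (nat_lit 234) (nat_lit 152) (nat_lit 0) (XT.nd (nat_lit 78) (nat_lit 0) (nat_lit 0) (XT.lf (nat_lit 0) (nat_lit 22432865759) (nat_lit 76) (nat_lit 2401057136) (nat_lit 152) (nat_lit 20322865584) (nat_lit 13) (nat_lit 5) (nat_lit 14) (nat_lit 5) (nat_lit 15) (nat_lit 4) (nat_lit 380) (nat_lit 248) (nat_lit 152)) (XT.nd (nat_lit 78) (nat_lit 0) (nat_lit 0) (XT.lf (nat_lit 0) (nat_lit 29921045953) (nat_lit 152) (nat_lit 13725979131) (nat_lit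 0) (nat_lit 2706780958) (nat_lit 13) (nat_lit 5) (nat_lit 15) (nat_lit 4) (nat_lit 13) (nat_lit 4) (nat_lit 381) (nat_lit 248) (nat_lit 151)) (XT.lf (nat_lit 0) (nat_lit 35168788195) (nat_lit 152) (nat_lit 4510972065) (nat_lit 0) (nat_lit 7906738087) (nat_lit 13) (nat_lit 5) (nat_lit 15) (nat_lit 4) (nat_lit 13) (nat_lit 4) (nat_lit 382) (nat_lit 248) (nat_lit 150)))) (XT.nd (nat_lit 156) (nat_lit 76) (nat_lit 0) (XT.nd (nat_lit 78) (nat_lit 0) (nat_lit 0) (XT.lf (nat_lit 0) (nat_lit 5050789960) (nat_lit 76) (nat_lit 35556415920) (nat_lit 76) (nat_lit 8247972500) (nat_lit 12) (nat_lit 4) (nat_lit 13) (nat_lit 5) (nat_lit 13) (nat_lit 4) (nat_lit 383) (nat_lit 248) (nat_lit 149)) (XT.lf (nat_lit 0) (nat_lit 14963897997) (nat_lit 76) (nat_lit 31275298897) (nat_lit 76) (nat_lit 3921813425) (nat_lit 12) (nat_lit 4) (nat_lit 13) (nat_lit 5) (nat_lit 13) (nat_lit 4) (nat_lit 384) (nat_lit 248) (nat_lit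 148))) (XT.nd (nat_lit 78) (nat_lit 0) (nat_lit 0) (XT.lf (nat_lit 0) (nat_lit 508867771) (nat_lit 152) (nat_lit 26364214043) (nat_lit 76) (nat_lit 24633230459) (nat_lit 11) (nat_lit 5) (nat_lit 13) (nat_lit 5) (nat_lit 12) (nat_lit 4) (nat_lit 385) (nat_lit 248) (nat_lit 147)) (XT.lf (nat_lit 0) (nat_lit 4979237224) (nat_lit 152) (nat_lit 17331820508) (nat_lit 76) (nat_lit 30580186665) (nat_lit 11) (nat_lit 5) (nat_lit 13) (nat_lit 5) (nat_lit 12) (nat_lit 4) (nat_lit 386) (nat_lit 248) (nat_lit 146))))))))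
noncomputable def xc75 : XT := (XT.nd (nat_lit 32682) (nat_lit 0) (nat_lit 6080) (XT.nd (nat_lit 1092) (nat_lit 152) (nat_lit 0) (XT.nd (nat_lit 546) (nat_lit 152) (nat_lit 0) (XT.nd (nat_lit 234) (nat_lit 0) (nat_lit 0) (XT.nd (nat_lit 78) (nat_lit 76) (nat_lit 0) (XT.lf (nat_lit 0) (nat_lit 9569729785) (nat_lit 152) (nat_lit 8054340466) (nat_lit 76) (nat_lit 36694077542) (nat_lit 11) (nat_lit 5) (nat_lit 13) (nat_lit 5) (nat_lit 12) (nat_lit 4) (nat_lit 387) (nat_lit 248) (nat_lit 145)) (XT.nd (nat_lit 78) (nat_lit 0) (nat_lit 0) (XT.lf (nat_lit 0) (nat_lit 1505714532) (nat_lit 76) (nat_lit 12793115882) (nat_lit 152) (nat_lit 41489004639) (nat_lit 10) (nat_lit 5) (nat_lit 11) (nat_lit 5) (nat_lit 12) (nat_lit 4) (nat_lit 388) (nat_lit 248) (nat_lit 144)) (XT.lf (nat_lit 0) (nat_lit 11492792293) (nat_lit 76) (nat_lit 7744920600) (nat_lit 152) (nat_lit 38061866234) (nat_lit 10) (nat_lit 5) (nat_lit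 11) (nat_lit 5) (nat_lit 12) (nat_lit 4) (nat_lit 389) (nat_lit 248) (nat_lit 143)))) (XT.nd (nat_lit 156) (nat_lit 0) (nat_lit 0) (XT.nd (nat_lit 78) (nat_lit 0) (nat_lit 0) (XT.lf (nat_lit 0) (nat_lit 21755322219) (nat_lit 76) (nat_lit 2556406405) (nat_lit 152) (nat_lit 34545341251) (nat_lit 10) (nat_lit 5) (nat_lit 11) (nat_lit 5) (nat_lit 12) (nat_lit 4) (nat_lit 390) (nat_lit 248) (nat_lit 142)) (XT.lf (nat_lit 0) (nat_lit 29552005058) (nat_lit 152) (nat_lit 28186090486) (nat_lit 0) (nat_lit 2722771855) (nat_lit 10) (nat_lit 5) (nat_lit 12) (nat_lit 4) (nat_lit 10) (nat_lit 4) (nat_lit 391) (nat_lit 248) (nat_lit 141))) (XT.nd (nat_lit 78) (nat_lit 0) (nat_lit 0) (XT.lf (nat_lit 0) (nat_lit 34962414860) (nat_lit 152) (nat_lit 19051318727) (nat_lit 0) (nat_lit 8098660674) (nat_lit 10) (nat_lit 5) (nat_lit 12) (nat_lit 4) (nat_lit 10) (nat_lit 4) (nat_lit 392) (nat_lit 248) (nat_lit 140)) (XT.lf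 (nat_lit 0) (nat_lit 40523111830) (nat_lit 152) (nat_lit 9664876798) (nat_lit 0) (nat_lit 13625842128) (nat_lit 10) (nat_lit 5) (nat_lit 12) (nat_lit 4) (nat_lit 10) (nat_lit 4) (nat_lit 393) (nat_lit 248) (nat_lit 139))))) (XT.nd (nat_lit 234) (nat_lit 76) (nat_lit 0) (XT.nd (nat_lit 78) (nat_lit 76) (nat_lit 0) (XT.lf (nat_lit 0) (nat_lit 46238954830) (nat_lit 152) (nat_lit 18562953) (nat_lit 0) (nat_lit 19309145791) (nat_lit 10) (nat_lit 5) (nat_lit 12) (nat_lit 4) (nat_lit 10) (nat_lit 4) (nat_lit 394) (nat_lit 248) (nat_lit 138)) (XT.nd (nat_lit 78) (nat_lit 0) (nat_lit 0) (XT.lf (nat_lit 0) (nat_lit 10093002455) (nat_lit 76) (nat_lit 42118955944) (nat_lit 76) (nat_lit 15157555316) (nat_lit 9) (nat_lit 4) (nat_lit 10) (nat_lit 5) (nat_lit 10) (nat_lit 4) (nat_lit 395) (nat_lit 248) (nat_lit 137)) (XT.lf (nat_lit 0) (nat_lit 20487413419) (nat_lit 76) (nat_lit 37865720683) (nat_lit 76) (nat_lit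 10873648610) (nat_lit 9) (nat_lit 4) (nat_lit 10) (nat_lit 5) (nat_lit 10) (nat_lit 4) (nat_lit 396) (nat_lit 248) (nat_lit 136)))) (XT.nd (nat_lit 156) (nat_lit 76) (nat_lit 0) (XT.nd (nat_lit 78) (nat_lit 0) (nat_lit 0) (XT.lf (nat_lit 0) (nat_lit 31173382994) (nat_lit 76) (nat_lit 33494283031) (nat_lit 76) (nat_lit 6472432855) (nat_lit 9) (nat_lit 4) (nat_lit 10) (nat_lit 5) (nat_lit 10) (nat_lit 4) (nat_lit 397) (nat_lit 248) (nat_lit 135)) (XT.lf (nat_lit 0) (nat_lit 42160248434) (nat_lit 76) (nat_lit 29000823285) (nat_lit 76) (nat_lit 1950062331) (nat_lit 9) (nat_lit 4) (nat_lit 10) (nat_lit 5) (nat_lit 10) (nat_lit 4) (nat_lit 398) (nat_lit 248) (nat_lit 134))) (XT.nd (nat_lit 78) (nat_lit 0) (nat_lit 0) (XT.lf (nat_lit 0) (nat_lit 2644778276) (nat_lit 152) (nat_lit 21709929770) (nat_lit 76) (nat_lit 50786124561) (nat_lit 8) (nat_lit 5) (nat_lit 10) (nat_lit 5) (nat_lit 9) (nat_lit 4) (nat_lit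 399) (nat_lit 248) (nat_lit 133)) (XT.lf (nat_lit 0) (nat_lit 7328212884) (nat_lit 152) (nat_lit 12229808698) (nat_lit 76) (nat_lit 57673125446) (nat_lit 8) (nat_lit 5) (nat_lit 10) (nat_lit 5) (nat_lit 9) (nat_lit 4) (nat_lit 400) (nat_lit 248) (nat_lit 132)))))) (XT.nd (nat_lit 546) (nat_lit 76) (nat_lit 0) (XT.nd (nat_lit 234) (nat_lit 0) (nat_lit 0) (XT.nd (nat_lit 78) (nat_lit 76) (nat_lit 0) (XT.lf (nat_lit 0) (nat_lit 12142386554) (nat_lit 152) (nat_lit 2483493607) (nat_lit 76) (nat_lit 64758585995) (nat_lit 8) (nat_lit 5) (nat_lit 10) (nat_lit 5) (nat_lit 9) (nat_lit 4) (nat_lit 401) (nat_lit 248) (nat_lit 131)) (XT.nd (nat_lit 78) (nat_lit 0) (nat_lit 0) (XT.lf (nat_lit 0) (nat_lit 7687543359) (nat_lit 76) (nat_lit 9477859854) (nat_lit 152) (nat_lit 64435051397) (nat_lit 7) (nat_lit 5) (nat_lit 8) (nat_lit 5) (nat_lit 9) (nat_lit 4) (nat_lit 402) (nat_lit 248) (nat_lit 130)) (XT.lf (nat_lit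 0) (nat_lit 18197114709) (nat_lit 76) (nat_lit 4157702318) (nat_lit 152) (nat_lit 61527636711) (nat_lit 7) (nat_lit 5) (nat_lit 8) (nat_lit 5) (nat_lit 9) (nat_lit 4) (nat_lit 403) (nat_lit 248) (nat_lit 129)))) (XT.nd (nat_lit 156) (nat_lit 0) (nat_lit 0) (XT.nd (nat_lit 78) (nat_lit 0) (nat_lit 0) (XT.lf (nat_lit 0) (nat_lit 27703446993) (nat_lit 152) (nat_lit 57240843326) (nat_lit 0) (nat_lit 1288518664) (nat_lit 7) (nat_lit 5) (nat_lit 9) (nat_lit 4) (nat_lit 7) (nat_lit 4) (nat_lit 404) (nat_lit 248) (nat_lit 128)) (XT.lf (nat_lit 0) (nat_lit 33244793741) (nat_lit 152) (nat_lit 48600872524) (nat_lit 0) (nat_lit 6807042976) (nat_lit 7) (nat_lit 5) (nat_lit 9) (nat_lit 4) (nat_lit 7) (nat_lit 4) (nat_lit 405) (nat_lit 248) (nat_lit 127))) (XT.nd (nat_lit 78) (nat_lit 0) (nat_lit 0) (XT.lf (nat_lit 0) (nat_lit 38943732846) (nat_lit 152) (nat_lit 39717910757) (nat_lit 0) (nat_lit 12483824376)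 (nat_lit 7) (nat_lit 5) (nat_lit 9) (nat_lit 4) (nat_lit 7) (nat_lit 4) (nat_lit 406) (nat_lit 248) (nat_lit 126)) (XT.lf (nat_lit 0) (nat_lit 44805243964) (nat_lit 152) (nat_lit 30584196213) (nat_lit 0) (nat_lit 18323823159) (nat_lit 7) (nat_lit 5) (nat_lit 9) (nat_lit 4) (nat_lit 7) (nat_lit 4) (nat_lit 407) (nat_lit 248) (nat_lit 125))))) (XT.nd (nat_lit 234) (nat_lit 76) (nat_lit 0) (XT.nd (nat_lit 78) (nat_lit 0) (nat_lit 0) (XT.lf (nat_lit 0) (nat_lit 50834448804) (nat_lit 152) (nat_lit 21191747977) (nat_lit 0) (nat_lit 24332142237) (nat_lit 7) (nat_lit 5) (nat_lit 9) (nat_lit 4) (nat_lit 7) (nat_lit 4) (nat_lit 408) (nat_lit 248) (nat_lit 124)) (XT.nd (nat_lit 78) (nat_lit 0) (nat_lit 0) (XT.lf (nat_lit 0) (nat_lit 57036615603) (nat_lit 152) (nat_lit 11532359055) (nat_lit 0) (nat_lit 30514031597) (nat_lit 7) (nat_lit 5) (nat_lit 9) (nat_lit 4) (nat_lit 7) (nat_lit 4) (nat_lit 409) (nat_lit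 248) (nat_lit 123)) (XT.lf (nat_lit 0) (nat_lit 63417163729) (nat_lit 152) (nat_lit 1597589205) (nat_lit 0) (nat_lit 36874892889) (nat_lit 7) (nat_lit 5) (nat_lit 9) (nat_lit 4) (nat_lit 7) (nat_lit 4) (nat_lit 410) (nat_lit 248) (nat_lit 122)))) (XT.nd (nat_lit 30654) (nat_lit 0) (nat_lit 16492) (XT.nd (nat_lit 30576) (nat_lit 0) (nat_lit 17556) (XT.lf (nat_lit 0) (nat_lit 8792822069) (nat_lit 76) (nat_lit 61273368335) (nat_lit 76) (nat_lit 34711984064) (nat_lit 6) (nat_lit 4) (nat_lit 7) (nat_lit 5) (nat_lit 7) (nat_lit 4) (nat_lit 411) (nat_lit 248) (nat_lit 121)) (XT.lf (nat_lit 0) (nat_lit 857288479) (nat_lit 988) (nat_lit 1781142894) (nat_lit 0) (nat_lit 857288479) (nat_lit 237) (nat_lit 5) (nat_lit 250) (nat_lit 4) (nat_lit 237) (nat_lit 4) (nat_lit 282) (nat_lit 249) (nat_lit 249))) (XT.nd (nat_lit 78) (nat_lit 76) (nat_lit 0) (XT.lf (nat_lit 0) (nat_lit 1038901075) (nat_lit 988) (nat_lit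 3882412077) (nat_lit 988) (nat_lit 2122730738) (nat_lit 224) (nat_lit 4) (nat_lit 237) (nat_lit 5) (nat_lit 237) (nat_lit 4) (nat_lit 283) (nat_lit 249) (nat_lit 248)) (XT.lf (nat_lit 0) (nat_lit 1042586072) (nat_lit 1064) (nat_lit 1351660096) (nat_lit 76) (nat_lit 4705651363) (nat_lit 223) (nat_lit 5) (nat_lit 237) (nat_lit 5) (nat_lit 224) (nat_lit 4) (nat_lit 284) (nat_lit 249) (nat_lit 247))))))) (XT.nd (nat_lit 1092) (nat_lit 3572) (nat_lit 0) (XT.nd (nat_lit 546) (nat_lit 2584) (nat_lit 0) (XT.nd (nat_lit 234) (nat_lit 1976) (nat_lit 0) (XT.nd (nat_lit 78) (nat_lit 1216) (nat_lit 0) (XT.lf (nat_lit 0) (nat_lit 3394929337) (nat_lit 1064) (nat_lit 802956176) (nat_lit 1140) (nat_lit 2960927752) (nat_lit 209) (nat_lit 5) (nat_lit 223) (nat_lit 5) (nat_lit 224) (nat_lit 4) (nat_lit 285) (nat_lit 249) (nat_lit 246)) (XT.nd (nat_lit 78) (nat_lit 0) (nat_lit 0) (XT.lf (nat_lit 0) (nat_lit 161642296)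 (nat_lit 1216) (nat_lit 6212774833) (nat_lit 76) (nat_lit 847020127) (nat_lit 193) (nat_lit 5) (nat_lit 209) (nat_lit 5) (nat_lit 194) (nat_lit 4) (nat_lit 286) (nat_lit 249) (nat_lit 245)) (XT.lf (nat_lit 0) (nat_lit 3272456880) (nat_lit 1216) (nat_lit 1415737807) (nat_lit 76) (nat_lit 2598378527) (nat_lit 193) (nat_lit 5) (nat_lit 209) (nat_lit 5) (nat_lit 194) (nat_lit 4) (nat_lit 287) (nat_lit 249) (nat_lit 244)))) (XT.nd (nat_lit 156) (nat_lit 608) (nat_lit 0) (XT.nd (nat_lit 78) (nat_lit 684) (nat_lit 0) (XT.lf (nat_lit 0) (nat_lit 3501462018) (nat_lit 684) (nat_lit 2919224047) (nat_lit 760) (nat_lit 934785654) (nat_lit 184) (nat_lit 5) (nat_lit 193) (nat_lit 5) (nat_lit 194) (nat_lit 4) (nat_lit 288) (nat_lit 249) (nat_lit 243)) (XT.lf (nat_lit 0) (nat_lit 1075469539) (nat_lit 608) (nat_lit 1053750559) (nat_lit 684) (nat_lit 5298617270) (nat_lit 175) (nat_lit 5) (nat_lit 183) (nat_lit 5)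 (nat_lit 184) (nat_lit 5) (nat_lit 289) (nat_lit 249) (nat_lit 242))) (XT.nd (nat_lit 78) (nat_lit 608) (nat_lit 0) (XT.lf (nat_lit 0) (nat_lit 5226824787) (nat_lit 684) (nat_lit 1382187770) (nat_lit 76) (nat_lit 894389800) (nat_lit 175) (nat_lit 5) (nat_lit 184) (nat_lit 5) (nat_lit 176) (nat_lit 4) (nat_lit 290) (nat_lit 249) (nat_lit 241)) (XT.lf (nat_lit 0) (nat_lit 780739945) (nat_lit 608) (nat_lit 3883236608) (nat_lit 76) (nat_lit 2918301799) (nat_lit 167) (nat_lit 5) (nat_lit 175) (nat_lit 5) (nat_lit 168) (nat_lit 5) (nat_lit 291) (nat_lit 249) (nat_lit 240))))) (XT.nd (nat_lit 234) (nat_lit 1520) (nat_lit 0) (XT.nd (nat_lit 78) (nat_lit 532) (nat_lit 0) (XT.lf (nat_lit 0) (nat_lit 1205838546) (nat_lit 532) (nat_lit 2619886051) (nat_lit 608) (nat_lit 3838978535) (nat_lit 160) (nat_lit 5) (nat_lit 167) (nat_lit 5) (nat_lit 168) (nat_lit 5) (nat_lit 292) (nat_lit 249) (nat_lit 239)) (XT.nd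 (nat_lit 78) (nat_lit 532) (nat_lit 0) (XT.lf (nat_lit 0) (nat_lit 6435146925) (nat_lit 532) (nat_lit 483703996) (nat_lit 608) (nat_lit 832152625) (nat_lit 160) (nat_lit 5) (nat_lit 167) (nat_lit 5) (nat_lit 168) (nat_lit 5) (nat_lit 293) (nat_lit 249) (nat_lit 238)) (XT.lf (nat_lit 0) (nat_lit 2194689525) (nat_lit 532) (nat_lit 3912032804) (nat_lit 76) (nat_lit 1733397809) (nat_lit 153) (nat_lit 5) (nat_lit 160) (nat_lit 5) (nat_lit 154) (nat_lit 5) (nat_lit 294) (nat_lit 249) (nat_lit 237)))) (XT.nd (nat_lit 156) (nat_lit 912) (nat_lit 0) (XT.nd (nat_lit 78) (nat_lit 76) (nat_lit 0) (XT.lf (nat_lit 0) (nat_lit 1345348809) (nat_lit 532) (nat_lit 3901875632) (nat_lit 608) (nat_lit 2685987829) (nat_lit 146) (nat_lit 5) (nat_lit 153) (nat_lit 5) (nat_lit 154) (nat_lit 5) (nat_lit 295) (nat_lit 249) (nat_lit 236)) (XT.lf (nat_lit 0) (nat_lit 316106261) (nat_lit 608) (nat_lit 1284452268) (nat_lit 76)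 (nat_lit 6429698078) (nat_lit 145) (nat_lit 5) (nat_lit 153) (nat_lit 5) (nat_lit 146) (nat_lit 5) (nat_lit 296) (nat_lit 249) (nat_lit 235))) (XT.nd (nat_lit 78) (nat_lit 456) (nat_lit 0) (XT.lf (nat_lit 0) (nat_lit 3325354632) (nat_lit 532) (nat_lit 3996839727) (nat_lit 76) (nat_lit 808177102) (nat_lit 139) (nat_lit 5) (nat_lit 146) (nat_lit 5) (nat_lit 140) (nat_lit 5) (nat_lit 297) (nat_lit 249) (nat_lit 234)) (XT.lf (nat_lit 0) (nat_lit 1427247299) (nat_lit 456) (nat_lit 4964871958) (nat_lit 532) (nat_lit 1842440059) (nat_lit 133) (nat_lit 5) (nat_lit 139) (nat_lit 5) (nat_lit 140) (nat_lit 5) (nat_lit 298) (nat_lit 249) (nat_lit 233)))))) (XT.nd (nat_lit 546) (nat_lit 1748) (nat_lit 0) (XT.nd (nat_lit 234) (nat_lit 912) (nat_lit 0) (XT.nd (nat_lit 78) (nat_lit 836) (nat_lit 0) (XT.lf (nat_lit 0) (nat_lit 1151260668) (nat_lit 532) (nat_lit 1349279391) (nat_lit 76) (nat_lit 5842090669) (nat_lit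 132) (nat_lit 5) (nat_lit 139) (nat_lit 5) (nat_lit 133) (nat_lit 5) (nat_lit 299) (nat_lit 249) (nat_lit 232)) (XT.nd (nat_lit 78) (nat_lit 456) (nat_lit 0) (XT.lf (nat_lit 0) (nat_lit 4166612089) (nat_lit 456) (nat_lit 4207972692) (nat_lit 76) (nat_lit 79825475) (nat_lit 127) (nat_lit 5) (nat_lit 133) (nat_lit 5) (nat_lit 128) (nat_lit 5) (nat_lit 300) (nat_lit 249) (nat_lit 231)) (XT.lf (nat_lit 0) (nat_lit 1379517991) (nat_lit 456) (nat_lit 5873040328) (nat_lit 532) (nat_lit 1317657872) (nat_lit 121) (nat_lit 5) (nat_lit 127) (nat_lit 5) (nat_lit 128) (nat_lit 5) (nat_lit 301) (nat_lit 249) (nat_lit 230)))) (XT.nd (nat_lit 156) (nat_lit 456) (nat_lit 0) (XT.nd (nat_lit 78) (nat_lit 380) (nat_lit 0) (XT.lf (nat_lit 0) (nat_lit 1679320063) (nat_lit 532) (nat_lit 1576146710) (nat_lit 76) (nat_lit 5434448380) (nat_lit 120) (nat_lit 5) (nat_lit 127) (nat_lit 5) (nat_lit 121) (nat_lit 5) (nat_lit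 302) (nat_lit 249) (nat_lit 229)) (XT.lf (nat_lit 0) (nat_lit 4186502571) (nat_lit 380) (nat_lit 524343082) (nat_lit 456) (nat_lit 4102904899) (nat_lit 115) (nat_lit 5) (nat_lit 120) (nat_lit 5) (nat_lit 121) (nat_lit 5) (nat_lit 303) (nat_lit 249) (nat_lit 228))) (XT.nd (nat_lit 78) (nat_lit 76) (nat_lit 0) (XT.lf (nat_lit 0) (nat_lit 1123250522) (nat_lit 380) (nat_lit 6690789124) (nat_lit 456) (nat_lit 1127908145) (nat_lit 110) (nat_lit 5) (nat_lit 115) (nat_lit 5) (nat_lit 116) (nat_lit 5) (nat_lit 304) (nat_lit 249) (nat_lit 227)) (XT.lf (nat_lit 0) (nat_lit 1883184286) (nat_lit 456) (nat_lit 2046296106) (nat_lit 76) (nat_lit 5144477762) (nat_lit 109) (nat_lit 5) (nat_lit 115) (nat_lit 5) (nat_lit 110) (nat_lit 5) (nat_lit 305) (nat_lit 249) (nat_lit 226))))) (XT.nd (nat_lit 234) (nat_lit 988) (nat_lit 0) (XT.nd (nat_lit 78) (nat_lit 456) (nat_lit 0) (XT.lf (nat_lit 0) (nat_lit 3875820960)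 (nat_lit 304) (nat_lit 1057599177) (nat_lit 380) (nat_lit 4277091903) (nat_lit 105) (nat_lit 5) (nat_lit 109) (nat_lit 5) (nat_lit 110) (nat_lit 5) (nat_lit 306) (nat_lit 249) (nat_lit 225)) (XT.nd (nat_lit 78) (nat_lit 76) (nat_lit 0) (XT.lf (nat_lit 0) (nat_lit 570827308) (nat_lit 380) (nat_lit 7484046979) (nat_lit 456) (nat_lit 1296957742) (nat_lit 100) (nat_lit 5) (nat_lit 105) (nat_lit 5) (nat_lit 106) (nat_lit 5) (nat_lit 307) (nat_lit 249) (nat_lit 224)) (XT.lf (nat_lit 0) (nat_lit 1738308056) (nat_lit 456) (nat_lit 2850268021) (nat_lit 76) (nat_lit 4908352186) (nat_lit 99) (nat_lit 5) (nat_lit 105) (nat_lit 5) (nat_lit 100) (nat_lit 5) (nat_lit 308) (nat_lit 249) (nat_lit 223)))) (XT.nd (nat_lit 156) (nat_lit 684) (nat_lit 0) (XT.nd (nat_lit 78) (nat_lit 0) (nat_lit 0) (XT.lf (nat_lit 0) (nat_lit 3221702147) (nat_lit 304) (nat_lit 1585153882) (nat_lit 380) (nat_lit 4840143030) (nat_lit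 95) (nat_lit 5) (nat_lit 99) (nat_lit 5) (nat_lit 100) (nat_lit 5) (nat_lit 309) (nat_lit 249) (nat_lit 222)) (XT.lf (nat_lit 0) (nat_lit 7949117375) (nat_lit 380) (nat_lit 368769937) (nat_lit 76) (nat_lit 1484288998) (nat_lit 95) (nat_lit 5) (nat_lit 100) (nat_lit 5) (nat_lit 96) (nat_lit 5) (nat_lit 310) (nat_lit 249) (nat_lit 221))) (XT.nd (nat_lit 78) (nat_lit 304) (nat_lit 0) (XT.lf (nat_lit 0) (nat_lit 1211973735) (nat_lit 380) (nat_lit 4089997565) (nat_lit 76) (nat_lit 4659369239) (nat_lit 90) (nat_lit 5) (nat_lit 95) (nat_lit 5) (nat_lit 91) (nat_lit 5) (nat_lit 311) (nat_lit 249) (nat_lit 220)) (XT.lf (nat_lit 0) (nat_lit 2118615563) (nat_lit 304) (nat_lit 2177422979) (nat_lit 380) (nat_lit 5829810418) (nat_lit 86) (nat_lit 5) (nat_lit 90) (nat_lit 5) (nat_lit 91) (nat_lit 5) (nat_lit 312) (nat_lit 249) (nat_lit 219))))))))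
noncomputable def xc76 : XT := (XT.nd (nat_lit 2106) (nat_lit 1748) (nat_lit 0) (XT.nd (nat_lit 1014) (nat_lit 1444) (nat_lit 0) (XT.nd (nat_lit 468) (nat_lit 1064) (nat_lit 0) (XT.nd (nat_lit 234) (nat_lit 380) (nat_lit 0) (XT.nd (nat_lit 78) (nat_lit 608) (nat_lit 0) (XT.lf (nat_lit 0) (nat_lit 7465222287) (nat_lit 380) (nat_lit 1793262962) (nat_lit 76) (nat_lit 1037077490) (nat_lit 86) (nat_lit 5) (nat_lit 91) (nat_lit 5) (nat_lit 87) (nat_lit 5) (nat_lit 313) (nat_lit 249) (nat_lit 218)) (XT.nd (nat_lit 78) (nat_lit 228) (nat_lit 0) (XT.lf (nat_lit 0) (nat_lit 262392882) (nat_lit 380) (nat_lit 5881187037) (nat_lit 76) (nat_lit 4326508481) (nat_lit 81) (nat_lit 5) (nat_lit 86) (nat_lit 5) (nat_lit 82) (nat_lit 5) (nat_lit 314) (nat_lit 249) (nat_lit 217)) (XT.lf (nat_lit 0) (nat_lit 446519205) (nat_lit 228) (nat_lit 2909957407) (nat_lit 304) (nat_lit 7293612802) (nat_lit 78) (nat_lit 5) (nat_lit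 81) (nat_lit 5) (nat_lit 82) (nat_lit 5) (nat_lit 315) (nat_lit 249) (nat_lit 216)))) (XT.nd (nat_lit 78) (nat_lit 380) (nat_lit 0) (XT.lf (nat_lit 0) (nat_lit 6550884581) (nat_lit 304) (nat_lit 3838349744) (nat_lit 76) (nat_lit 446073741) (nat_lit 78) (nat_lit 5) (nat_lit 82) (nat_lit 5) (nat_lit 79) (nat_lit 5) (nat_lit 316) (nat_lit 249) (nat_lit 215)) (XT.nd (nat_lit 78) (nat_lit 76) (nat_lit 0) (XT.lf (nat_lit 0) (nat_lit 2658737851) (nat_lit 304) (nat_lit 7181883473) (nat_lit 380) (nat_lit 1185518476) (nat_lit 74) (nat_lit 5) (nat_lit 78) (nat_lit 5) (nat_lit 79) (nat_lit 5) (nat_lit 317) (nat_lit 249) (nat_lit 214)) (XT.lf (nat_lit 0) (nat_lit 1951715286) (nat_lit 380) (nat_lit 1894263659) (nat_lit 76) (nat_lit 7376642607) (nat_lit 73) (nat_lit 5) (nat_lit 78) (nat_lit 5) (nat_lit 74) (nat_lit 5) (nat_lit 318) (nat_lit 249) (nat_lit 213))))) (XT.nd (nat_lit 234) (nat_lit 532) (nat_lit 0)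 (XT.nd (nat_lit 78) (nat_lit 304) (nat_lit 0) (XT.lf (nat_lit 0) (nat_lit 4774419035) (nat_lit 228) (nat_lit 377674327) (nat_lit 304) (nat_lit 6272804514) (nat_lit 70) (nat_lit 5) (nat_lit 73) (nat_lit 5) (nat_lit 74) (nat_lit 5) (nat_lit 319) (nat_lit 249) (nat_lit 212)) (XT.nd (nat_lit 78) (nat_lit 304) (nat_lit 0) (XT.lf (nat_lit 0) (nat_lit 8445992886) (nat_lit 304) (nat_lit 62212072) (nat_lit 76) (nat_lit 3125149025) (nat_lit 70) (nat_lit 5) (nat_lit 74) (nat_lit 5) (nat_lit 71) (nat_lit 5) (nat_lit 320) (nat_lit 249) (nat_lit 211)) (XT.lf (nat_lit 0) (nat_lit 8836601) (nat_lit 304) (nat_lit 5073793367) (nat_lit 76) (nat_lit 6764930937) (nat_lit 66) (nat_lit 5) (nat_lit 70) (nat_lit 5) (nat_lit 67) (nat_lit 5) (nat_lit 321) (nat_lit 249) (nat_lit 210)))) (XT.nd (nat_lit 156) (nat_lit 304) (nat_lit 0) (XT.nd (nat_lit 78) (nat_lit 0) (nat_lit 0) (XT.lf (nat_lit 0) (nat_lit 1670392090) (nat_lit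 228) (nat_lit 1532377753) (nat_lit 304) (nat_lit 8865533754) (nat_lit 63) (nat_lit 5) (nat_lit 66) (nat_lit 5) (nat_lit 67) (nat_lit 5) (nat_lit 322) (nat_lit 249) (nat_lit 209)) (XT.lf (nat_lit 0) (nat_lit 6514370185) (nat_lit 304) (nat_lit 3673211554) (nat_lit 76) (nat_lit 2107464054) (nat_lit 63) (nat_lit 5) (nat_lit 67) (nat_lit 5) (nat_lit 64) (nat_lit 5) (nat_lit 323) (nat_lit 249) (nat_lit 208))) (XT.nd (nat_lit 78) (nat_lit 76) (nat_lit 0) (XT.lf (nat_lit 0) (nat_lit 3224213351) (nat_lit 228) (nat_lit 6698421416) (nat_lit 304) (nat_lit 2606067743) (nat_lit 60) (nat_lit 5) (nat_lit 63) (nat_lit 5) (nat_lit 64) (nat_lit 5) (nat_lit 324) (nat_lit 249) (nat_lit 207)) (XT.lf (nat_lit 0) (nat_lit 639621336) (nat_lit 304) (nat_lit 2448151700) (nat_lit 76) (nat_lit 9681770526) (nat_lit 59) (nat_lit 5) (nat_lit 63) (nat_lit 5) (nat_lit 60) (nat_lit 5) (nat_lit 325) (nat_lit 249) (nat_lit 206))))))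 (XT.nd (nat_lit 546) (nat_lit 608) (nat_lit 0) (XT.nd (nat_lit 234) (nat_lit 456) (nat_lit 0) (XT.nd (nat_lit 78) (nat_lit 228) (nat_lit 0) (XT.lf (nat_lit 0) (nat_lit 3933799936) (nat_lit 228) (nat_lit 8420317293) (nat_lit 76) (nat_lit 662642636) (nat_lit 57) (nat_lit 5) (nat_lit 60) (nat_lit 5) (nat_lit 58) (nat_lit 5) (nat_lit 326) (nat_lit 249) (nat_lit 205)) (XT.nd (nat_lit 78) (nat_lit 228) (nat_lit 0) (XT.lf (nat_lit 0) (nat_lit 7335496436) (nat_lit 228) (nat_lit 1474100243) (nat_lit 76) (nat_lit 4461563407) (nat_lit 57) (nat_lit 5) (nat_lit 60) (nat_lit 5) (nat_lit 58) (nat_lit 5) (nat_lit 327) (nat_lit 249) (nat_lit 204)) (XT.lf (nat_lit 0) (nat_lit 5719101812) (nat_lit 228) (nat_lit 5129636196) (nat_lit 304) (nat_lit 2684196862) (nat_lit 54) (nat_lit 5) (nat_lit 57) (nat_lit 5) (nat_lit 58) (nat_lit 5) (nat_lit 328) (nat_lit 249) (nat_lit 203)))) (XT.nd (nat_lit 156) (nat_lit 228) (nat_lit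 0) (XT.nd (nat_lit 78) (nat_lit 152) (nat_lit 0) (XT.lf (nat_lit 0) (nat_lit 621552292) (nat_lit 304) (nat_lit 723550649) (nat_lit 76) (nat_lit 12458202710) (nat_lit 53) (nat_lit 5) (nat_lit 57) (nat_lit 5) (nat_lit 54) (nat_lit 5) (nat_lit 329) (nat_lit 249) (nat_lit 202)) (XT.lf (nat_lit 0) (nat_lit 4017242205) (nat_lit 228) (nat_lit 7494818870) (nat_lit 76) (nat_lit 2567612714) (nat_lit 51) (nat_lit 5) (nat_lit 54) (nat_lit 5) (nat_lit 52) (nat_lit 5) (nat_lit 330) (nat_lit 249) (nat_lit 201))) (XT.nd (nat_lit 78) (nat_lit 228) (nat_lit 0) (XT.lf (nat_lit 0) (nat_lit 7491843465) (nat_lit 228) (nat_lit 321610591) (nat_lit 76) (nat_lit 6551592023) (nat_lit 51) (nat_lit 5) (nat_lit 54) (nat_lit 5) (nat_lit 52) (nat_lit 5) (nat_lit 331) (nat_lit 249) (nat_lit 200)) (XT.lf (nat_lit 0) (nat_lit 7136686137) (nat_lit 228) (nat_lit 3960214368) (nat_lit 304) (nat_lit 3561316121) (nat_lit 48) (nat_lit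 5) (nat_lit 51) (nat_lit 5) (nat_lit 52) (nat_lit 5) (nat_lit 332) (nat_lit 249) (nat_lit 199))))) (XT.nd (nat_lit 234) (nat_lit 380) (nat_lit 0) (XT.nd (nat_lit 78) (nat_lit 228) (nat_lit 0) (XT.lf (nat_lit 0) (nat_lit 14756634320) (nat_lit 228) (nat_lit 14912329) (nat_lit 304) (nat_lit 189815450) (nat_lit 48) (nat_lit 5) (nat_lit 51) (nat_lit 5) (nat_lit 52) (nat_lit 5) (nat_lit 333) (nat_lit 249) (nat_lit 198)) (XT.nd (nat_lit 78) (nat_lit 0) (nat_lit 0) (XT.lf (nat_lit 0) (nat_lit 3288339704) (nat_lit 228) (nat_lit 7935022947) (nat_lit 76) (nat_lit 4047227126) (nat_lit 45) (nat_lit 5) (nat_lit 48) (nat_lit 5) (nat_lit 46) (nat_lit 5) (nat_lit 334) (nat_lit 249) (nat_lit 197)) (XT.lf (nat_lit 0) (nat_lit 6828541784) (nat_lit 228) (nat_lit 552659225) (nat_lit 76) (nat_lit 8209012358) (nat_lit 45) (nat_lit 5) (nat_lit 48) (nat_lit 5) (nat_lit 46) (nat_lit 5) (nat_lit 335) (nat_lit 249) (nat_lit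 196)))) (XT.nd (nat_lit 156) (nat_lit 228) (nat_lit 0) (XT.nd (nat_lit 78) (nat_lit 0) (nat_lit 0) (XT.lf (nat_lit 0) (nat_lit 7124326303) (nat_lit 152) (nat_lit 3379574877) (nat_lit 228) (nat_lit 5414676322) (nat_lit 43) (nat_lit 5) (nat_lit 45) (nat_lit 5) (nat_lit 46) (nat_lit 5) (nat_lit 336) (nat_lit 249) (nat_lit 195)) (XT.lf (nat_lit 0) (nat_lit 14263031210) (nat_lit 228) (nat_lit 1287026127) (nat_lit 76) (nat_lit 707549711) (nat_lit 43) (nat_lit 5) (nat_lit 46) (nat_lit 5) (nat_lit 44) (nat_lit 4) (nat_lit 337) (nat_lit 249) (nat_lit 194))) (XT.nd (nat_lit 78) (nat_lit 0) (nat_lit 0) (XT.lf (nat_lit 0) (nat_lit 1556437094) (nat_lit 228) (nat_lit 10146307449) (nat_lit 76) (nat_lit 4901897042) (nat_lit 40) (nat_lit 5) (nat_lit 43) (nat_lit 5) (nat_lit 41) (nat_lit 5) (nat_lit 338) (nat_lit 249) (nat_lit 193)) (XT.lf (nat_lit 0) (nat_lit 5149008352) (nat_lit 228) (nat_lit 2583516534) (nat_lit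 76) (nat_lit 9229734418) (nat_lit 40) (nat_lit 5) (nat_lit 43) (nat_lit 5) (nat_lit 41) (nat_lit 5) (nat_lit 339) (nat_lit 249) (nat_lit 192))))))) (XT.nd (nat_lit 1092) (nat_lit 836) (nat_lit 0) (XT.nd (nat_lit 546) (nat_lit 380) (nat_lit 0) (XT.nd (nat_lit 234) (nat_lit 228) (nat_lit 0) (XT.nd (nat_lit 78) (nat_lit 152) (nat_lit 0) (XT.lf (nat_lit 0) (nat_lit 5246021744) (nat_lit 152) (nat_lit 3616861828) (nat_lit 228) (nat_lit 8467333753) (nat_lit 38) (nat_lit 5) (nat_lit 40) (nat_lit 5) (nat_lit 41) (nat_lit 5) (nat_lit 340) (nat_lit 249) (nat_lit 191)) (XT.nd (nat_lit 78) (nat_lit 152) (nat_lit 0) (XT.lf (nat_lit 0) (nat_lit 12683837308) (nat_lit 228) (nat_lit 4414022866) (nat_lit 76) (nat_lit 611501110) (nat_lit 38) (nat_lit 5) (nat_lit 41) (nat_lit 5) (nat_lit 39) (nat_lit 4) (nat_lit 341) (nat_lit 249) (nat_lit 190)) (XT.lf (nat_lit 0) (nat_lit 3456973190) (nat_lit 152) (nat_lit 13195889320)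 (nat_lit 228) (nat_lit 1446030332) (nat_lit 36) (nat_lit 5) (nat_lit 38) (nat_lit 5) (nat_lit 39) (nat_lit 4) (nat_lit 342) (nat_lit 249) (nat_lit 189)))) (XT.nd (nat_lit 156) (nat_lit 0) (nat_lit 0) (XT.nd (nat_lit 78) (nat_lit 152) (nat_lit 0) (XT.lf (nat_lit 0) (nat_lit 2206630384) (nat_lit 228) (nat_lit 6927226823) (nat_lit 76) (nat_lit 9365337264) (nat_lit 35) (nat_lit 5) (nat_lit 38) (nat_lit 5) (nat_lit 36) (nat_lit 5) (nat_lit 343) (nat_lit 249) (nat_lit 188)) (XT.lf (nat_lit 0) (nat_lit 964127318) (nat_lit 152) (nat_lit 4950476723) (nat_lit 228) (nat_lit 12997242848) (nat_lit 33) (nat_lit 5) (nat_lit 35) (nat_lit 5) (nat_lit 36) (nat_lit 5) (nat_lit 344) (nat_lit 249) (nat_lit 187))) (XT.nd (nat_lit 78) (nat_lit 0) (nat_lit 0) (XT.lf (nat_lit 0) (nat_lit 9175528642) (nat_lit 152) (nat_lit 594208587) (nat_lit 228) (nat_lit 9566078760) (nat_lit 33) (nat_lit 5) (nat_lit 35) (nat_lit 5) (nat_lit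 36) (nat_lit 5) (nat_lit 345) (nat_lit 249) (nat_lit 186)) (XT.lf (nat_lit 0) (nat_lit 13744673815) (nat_lit 228) (nat_lit 2234412181) (nat_lit 76) (nat_lit 3793307974) (nat_lit 33) (nat_lit 5) (nat_lit 36) (nat_lit 5) (nat_lit 34) (nat_lit 4) (nat_lit 346) (nat_lit 249) (nat_lit 185))))) (XT.nd (nat_lit 234) (nat_lit 76) (nat_lit 0) (XT.nd (nat_lit 78) (nat_lit 228) (nat_lit 0) (XT.lf (nat_lit 0) (nat_lit 5984048112) (nat_lit 76) (nat_lit 11885914933) (nat_lit 152) (nat_lit 2351186984) (nat_lit 32) (nat_lit 5) (nat_lit 33) (nat_lit 5) (nat_lit 34) (nat_lit 4) (nat_lit 347) (nat_lit 249) (nat_lit 184)) (XT.nd (nat_lit 78) (nat_lit 152) (nat_lit 0) (XT.lf (nat_lit 0) (nat_lit 1398191218) (nat_lit 152) (nat_lit 6258032868) (nat_lit 76) (nat_lit 13027026845) (nat_lit 31) (nat_lit 5) (nat_lit 33) (nat_lit 5) (nat_lit 32) (nat_lit 5) (nat_lit 348) (nat_lit 249) (nat_lit 183)) (XT.lf (nat_lit 0) (nat_lit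 1920049855) (nat_lit 152) (nat_lit 3279916616) (nat_lit 228) (nat_lit 15958947547) (nat_lit 29) (nat_lit 5) (nat_lit 31) (nat_lit 5) (nat_lit 32) (nat_lit 5) (nat_lit 349) (nat_lit 249) (nat_lit 182)))) (XT.nd (nat_lit 156) (nat_lit 76) (nat_lit 0) (XT.nd (nat_lit 78) (nat_lit 0) (nat_lit 0) (XT.lf (nat_lit 0) (nat_lit 9160301047) (nat_lit 228) (nat_lit 11242347981) (nat_lit 76) (nat_lit 1244875115) (nat_lit 29) (nat_lit 5) (nat_lit 32) (nat_lit 5) (nat_lit 30) (nat_lit 4) (nat_lit 350) (nat_lit 249) (nat_lit 181)) (XT.lf (nat_lit 0) (nat_lit 13241711644) (nat_lit 228) (nat_lit 3091545203) (nat_lit 76) (nat_lit 5817479713) (nat_lit 29) (nat_lit 5) (nat_lit 32) (nat_lit 5) (nat_lit 30) (nat_lit 4) (nat_lit 351) (nat_lit 249) (nat_lit 180))) (XT.nd (nat_lit 78) (nat_lit 0) (nat_lit 0) (XT.lf (nat_lit 0) (nat_lit 5356723770) (nat_lit 76) (nat_lit 12111004315) (nat_lit 152) (nat_lit 5200663977) (nat_lit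 28) (nat_lit 5) (nat_lit 29) (nat_lit 5) (nat_lit 30) (nat_lit 4) (nat_lit 352) (nat_lit 249) (nat_lit 179)) (XT.lf (nat_lit 0) (nat_lit 14070733349) (nat_lit 76) (nat_lit 7752044843) (nat_lit 152) (nat_lit 1378742724) (nat_lit 28) (nat_lit 5) (nat_lit 29) (nat_lit 5) (nat_lit 30) (nat_lit 4) (nat_lit 353) (nat_lit 249) (nat_lit 178)))))) (XT.nd (nat_lit 546) (nat_lit 304) (nat_lit 0) (XT.nd (nat_lit 234) (nat_lit 304) (nat_lit 0) (XT.nd (nat_lit 78) (nat_lit 152) (nat_lit 0) (XT.lf (nat_lit 0) (nat_lit 2479512677) (nat_lit 152) (nat_lit 779237282) (nat_lit 76) (nat_lit 20492019012) (nat_lit 27) (nat_lit 5) (nat_lit 29) (nat_lit 5) (nat_lit 28) (nat_lit 5) (nat_lit 354) (nat_lit 249) (nat_lit 177)) (XT.nd (nat_lit 78) (nat_lit 0) (nat_lit 0) (XT.lf (nat_lit 0) (nat_lit 6488152690) (nat_lit 228) (nat_lit 16413538993) (nat_lit 76) (nat_lit 1412533132) (nat_lit 25) (nat_lit 5) (nat_lit 28) (nat_lit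 5) (nat_lit 26) (nat_lit 4) (nat_lit 355) (nat_lit 249) (nat_lit 176)) (XT.lf (nat_lit 0) (nat_lit 10629818078) (nat_lit 228) (nat_lit 8118567003) (nat_lit 76) (nat_lit 6145826290) (nat_lit 25) (nat_lit 5) (nat_lit 28) (nat_lit 5) (nat_lit 26) (nat_lit 4) (nat_lit 356) (nat_lit 249) (nat_lit 175)))) (XT.nd (nat_lit 156) (nat_lit 228) (nat_lit 0) (XT.nd (nat_lit 78) (nat_lit 0) (nat_lit 0) (XT.lf (nat_lit 0) (nat_lit 385340327) (nat_lit 76) (nat_lit 14487451254) (nat_lit 152) (nat_lit 10619503929) (nat_lit 24) (nat_lit 5) (nat_lit 25) (nat_lit 5) (nat_lit 26) (nat_lit 4) (nat_lit 357) (nat_lit 249) (nat_lit 174)) (XT.lf (nat_lit 0) (nat_lit 9263819376) (nat_lit 76) (nat_lit 10034895158) (nat_lit 152) (nat_lit 6807947280) (nat_lit 24) (nat_lit 5) (nat_lit 25) (nat_lit 5) (nat_lit 26) (nat_lit 4) (nat_lit 358) (nat_lit 249) (nat_lit 173))) (XT.nd (nat_lit 78) (nat_lit 228) (nat_lit 0) (XT.lf (nat_lit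 0) (nat_lit 18363052636) (nat_lit 76) (nat_lit 5468807818) (nat_lit 152) (nat_lit 2908374468) (nat_lit 24) (nat_lit 5) (nat_lit 25) (nat_lit 5) (nat_lit 26) (nat_lit 4) (nat_lit 359) (nat_lit 249) (nat_lit 172)) (XT.lf (nat_lit 0) (nat_lit 292727802) (nat_lit 152) (nat_lit 771582124) (nat_lit 228) (nat_lit 26328861892) (nat_lit 21) (nat_lit 5) (nat_lit 23) (nat_lit 5) (nat_lit 24) (nat_lit 5) (nat_lit 360) (nat_lit 249) (nat_lit 171))))) (XT.nd (nat_lit 234) (nat_lit 304) (nat_lit 0) (XT.nd (nat_lit 78) (nat_lit 0) (nat_lit 0) (XT.lf (nat_lit 0) (nat_lit 5197291159) (nat_lit 228) (nat_lit 18782326904) (nat_lit 76) (nat_lit 4082236127) (nat_lit 21) (nat_lit 5) (nat_lit 24) (nat_lit 5) (nat_lit 22) (nat_lit 4) (nat_lit 361) (nat_lit 249) (nat_lit 170)) (XT.nd (nat_lit 78) (nat_lit 0) (nat_lit 0) (XT.lf (nat_lit 0) (nat_lit 9437678746) (nat_lit 228) (nat_lit 10265901320) (nat_lit 76) (nat_lit 9047522610)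 (nat_lit 21) (nat_lit 5) (nat_lit 24) (nat_lit 5) (nat_lit 22) (nat_lit 4) (nat_lit 362) (nat_lit 249) (nat_lit 169)) (XT.lf (nat_lit 0) (nat_lit 13781760961) (nat_lit 228) (nat_lit 1536308808) (nat_lit 76) (nat_lit 14143672267) (nat_lit 21) (nat_lit 5) (nat_lit 24) (nat_lit 5) (nat_lit 22) (nat_lit 4) (nat_lit 363) (nat_lit 249) (nat_lit 168)))) (XT.nd (nat_lit 156) (nat_lit 228) (nat_lit 0) (XT.nd (nat_lit 78) (nat_lit 0) (nat_lit 0) (XT.lf (nat_lit 0) (nat_lit 7561633127) (nat_lit 76) (nat_lit 10744387521) (nat_lit 152) (nat_lit 11886191963) (nat_lit 20) (nat_lit 5) (nat_lit 21) (nat_lit 5) (nat_lit 22) (nat_lit 4) (nat_lit 364) (nat_lit 249) (nat_lit 167)) (XT.lf (nat_lit 0) (nat_lit 16923315971) (nat_lit 76) (nat_lit 6035647696) (nat_lit 152) (nat_lit 7985852428) (nat_lit 20) (nat_lit 5) (nat_lit 21) (nat_lit 5) (nat_lit 22) (nat_lit 4) (nat_lit 365) (nat_lit 249) (nat_lit 166))) (XT.nd (nat_lit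 78) (nat_lit 228) (nat_lit 0) (XT.lf (nat_lit 0) (nat_lit 26526344274) (nat_lit 76) (nat_lit 1203249569) (nat_lit 152) (nat_lit 3991068113) (nat_lit 20) (nat_lit 5) (nat_lit 21) (nat_lit 5) (nat_lit 22) (nat_lit 4) (nat_lit 366) (nat_lit 249) (nat_lit 165)) (XT.lf (nat_lit 0) (nat_lit 173987605) (nat_lit 228) (nat_lit 28621283548) (nat_lit 76) (nat_lit 3722898066) (nat_lit 17) (nat_lit 5) (nat_lit 20) (nat_lit 5) (nat_lit 18) (nat_lit 4) (nat_lit 367) (nat_lit 249) (nat_lit 164))))))))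
noncomputable def xc77 : XT := (XT.nd (nat_lit 2184) (nat_lit 152) (nat_lit 0) (XT.nd (nat_lit 1092) (nat_lit 304) (nat_lit 0) (XT.nd (nat_lit 546) (nat_lit 228) (nat_lit 0) (XT.nd (nat_lit 234) (nat_lit 76) (nat_lit 0) (XT.nd (nat_lit 78) (nat_lit 0) (nat_lit 0) (XT.lf (nat_lit 0) (nat_lit 4427274200) (nat_lit 228) (nat_lit 20061559409) (nat_lit 76) (nat_lit 8848284379) (nat_lit 17) (nat_lit 5) (nat_lit 20) (nat_lit 5) (nat_lit 18) (nat_lit 4) (nat_lit 368) (nat_lit 249) (nat_lit 163)) (XT.nd (nat_lit 78) (nat_lit 0) (nat_lit 0) (XT.lf (nat_lit 0) (nat_lit 8787392989) (nat_lit 228) (nat_lit 11282797537) (nat_lit 76) (nat_lit 14111074120) (nat_lit 17) (nat_lit 5) (nat_lit 20) (nat_lit 5) (nat_lit 18) (nat_lit 4) (nat_lit 369) (nat_lit 249) (nat_lit 162)) (XT.lf (nat_lit 0) (nat_lit 13258153786) (nat_lit 228) (nat_lit 2277327170) (nat_lit 76) (nat_lit 19515865841) (nat_lit 17) (nat_lit 5) (nat_lit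 20) (nat_lit 5) (nat_lit 18) (nat_lit 4) (nat_lit 370) (nat_lit 249) (nat_lit 161)))) (XT.nd (nat_lit 156) (nat_lit 0) (nat_lit 0) (XT.nd (nat_lit 78) (nat_lit 0) (nat_lit 0) (XT.lf (nat_lit 0) (nat_lit 7101292341) (nat_lit 76) (nat_lit 10810432704) (nat_lit 152) (nat_lit 18034351802) (nat_lit 16) (nat_lit 5) (nat_lit 17) (nat_lit 5) (nat_lit 18) (nat_lit 4) (nat_lit 371) (nat_lit 249) (nat_lit 160)) (XT.lf (nat_lit 0) (nat_lit 16772715544) (nat_lit 76) (nat_lit 5935841508) (nat_lit 152) (nat_lit 14158988025) (nat_lit 16) (nat_lit 5) (nat_lit 17) (nat_lit 5) (nat_lit 18) (nat_lit 4) (nat_lit 372) (nat_lit 249) (nat_lit 159))) (XT.nd (nat_lit 78) (nat_lit 0) (nat_lit 0) (XT.lf (nat_lit 0) (nat_lit 26700069921) (nat_lit 76) (nat_lit 930444555) (nat_lit 152) (nat_lit 10186711980) (nat_lit 16) (nat_lit 5) (nat_lit 17) (nat_lit 5) (nat_lit 18) (nat_lit 4) (nat_lit 373) (nat_lit 249) (nat_lit 158)) (XT.lf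 (nat_lit 0) (nat_lit 32722368422) (nat_lit 152) (nat_lit 1944391307) (nat_lit 0) (nat_lit 4127976964) (nat_lit 16) (nat_lit 5) (nat_lit 18) (nat_lit 4) (nat_lit 16) (nat_lit 4) (nat_lit 374) (nat_lit 249) (nat_lit 157))))) (XT.nd (nat_lit 234) (nat_lit 76) (nat_lit 0) (XT.nd (nat_lit 78) (nat_lit 76) (nat_lit 0) (XT.lf (nat_lit 0) (nat_lit 7610202774) (nat_lit 76) (nat_lit 30421300112) (nat_lit 76) (nat_lit 1768138993) (nat_lit 15) (nat_lit 4) (nat_lit 16) (nat_lit 5) (nat_lit 16) (nat_lit 4) (nat_lit 375) (nat_lit 249) (nat_lit 156)) (XT.nd (nat_lit 78) (nat_lit 0) (nat_lit 0) (XT.lf (nat_lit 0) (nat_lit 2615225996) (nat_lit 152) (nat_lit 23401310269) (nat_lit 76) (nat_lit 14817333935) (nat_lit 14) (nat_lit 5) (nat_lit 16) (nat_lit 5) (nat_lit 15) (nat_lit 4) (nat_lit 376) (nat_lit 249) (nat_lit 155)) (XT.lf (nat_lit 0) (nat_lit 7077260769) (nat_lit 152) (nat_lit 14398775722) (nat_lit 76) (nat_lit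 20423087423) (nat_lit 14) (nat_lit 5) (nat_lit 16) (nat_lit 5) (nat_lit 15) (nat_lit 4) (nat_lit 377) (nat_lit 249) (nat_lit 154)))) (XT.nd (nat_lit 156) (nat_lit 0) (nat_lit 0) (XT.nd (nat_lit 78) (nat_lit 76) (nat_lit 0) (XT.lf (nat_lit 0) (nat_lit 11656366952) (nat_lit 152) (nat_lit 5156972737) (nat_lit 76) (nat_lit 26183504026) (nat_lit 14) (nat_lit 5) (nat_lit 16) (nat_lit 5) (nat_lit 15) (nat_lit 4) (nat_lit 378) (nat_lit 249) (nat_lit 153)) (XT.lf (nat_lit 0) (nat_lit 4418392805) (nat_lit 76) (nat_lit 11980625194) (nat_lit 152) (nat_lit 27727696609) (nat_lit 13) (nat_lit 5) (nat_lit 14) (nat_lit 5) (nat_lit 15) (nat_lit 4) (nat_lit 379) (nat_lit 249) (nat_lit 152))) (XT.nd (nat_lit 78) (nat_lit 0) (nat_lit 0) (XT.lf (nat_lit 0) (nat_lit 14357115147) (nat_lit 76) (nat_lit 6962798205) (nat_lit 152) (nat_lit 23969493842) (nat_lit 13) (nat_lit 5) (nat_lit 14) (nat_lit 5) (nat_lit 15) (nat_lit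 4) (nat_lit 380) (nat_lit 249) (nat_lit 151)) (XT.lf (nat_lit 0) (nat_lit 24565244741) (nat_lit 76) (nat_lit 1807549528) (nat_lit 152) (nat_lit 20114659912) (nat_lit 13) (nat_lit 5) (nat_lit 14) (nat_lit 5) (nat_lit 15) (nat_lit 4) (nat_lit 381) (nat_lit 249) (nat_lit 150)))))) (XT.nd (nat_lit 546) (nat_lit 152) (nat_lit 0) (XT.nd (nat_lit 234) (nat_lit 76) (nat_lit 0) (XT.nd (nat_lit 78) (nat_lit 76) (nat_lit 0) (XT.lf (nat_lit 0) (nat_lit 31595620300) (nat_lit 152) (nat_lit 12703745504) (nat_lit 0) (nat_lit 3421530263) (nat_lit 13) (nat_lit 5) (nat_lit 15) (nat_lit 4) (nat_lit 13) (nat_lit 4) (nat_lit 382) (nat_lit 249) (nat_lit 149)) (XT.nd (nat_lit 78) (nat_lit 76) (nat_lit 0) (XT.lf (nat_lit 0) (nat_lit 36978165403) (nat_lit 152) (nat_lit 3254055595) (nat_lit 0) (nat_lit 8759033314) (nat_lit 13) (nat_lit 5) (nat_lit 15) (nat_lit 4) (nat_lit 13) (nat_lit 4) (nat_lit 383) (nat_lit 249) (nat_lit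 148)) (XT.lf (nat_lit 0) (nat_lit 6580909823) (nat_lit 76) (nat_lit 35990107407) (nat_lit 76) (nat_lit 7727245171) (nat_lit 12) (nat_lit 4) (nat_lit 13) (nat_lit 5) (nat_lit 13) (nat_lit 4) (nat_lit 384) (nat_lit 249) (nat_lit 147)))) (XT.nd (nat_lit 156) (nat_lit 0) (nat_lit 0) (XT.nd (nat_lit 78) (nat_lit 76) (nat_lit 0) (XT.lf (nat_lit 0) (nat_lit 16751257816) (nat_lit 76) (nat_lit 31598993795) (nat_lit 76) (nat_lit 3293675105) (nat_lit 12) (nat_lit 4) (nat_lit 13) (nat_lit 5) (nat_lit 13) (nat_lit 4) (nat_lit 385) (nat_lit 249) (nat_lit 146)) (XT.lf (nat_lit 0) (nat_lit 1234075183) (nat_lit 152) (nat_lit 25841365925) (nat_lit 76) (nat_lit 25954576083) (nat_lit 11) (nat_lit 5) (nat_lit 13) (nat_lit 5) (nat_lit 12) (nat_lit 4) (nat_lit 386) (nat_lit 249) (nat_lit 145))) (XT.nd (nat_lit 78) (nat_lit 0) (nat_lit 0) (XT.lf (nat_lit 0) (nat_lit 5817877815) (nat_lit 152) (nat_lit 16576265862) (nat_lit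 76) (nat_lit 32062979363) (nat_lit 11) (nat_lit 5) (nat_lit 13) (nat_lit 5) (nat_lit 12) (nat_lit 4) (nat_lit 387) (nat_lit 249) (nat_lit 144)) (XT.lf (nat_lit 0) (nat_lit 10526009518) (nat_lit 152) (nat_lit 7057612174) (nat_lit 76) (nat_lit 38343819380) (nat_lit 11) (nat_lit 5) (nat_lit 13) (nat_lit 5) (nat_lit 12) (nat_lit 4) (nat_lit 388) (nat_lit 249) (nat_lit 143))))) (XT.nd (nat_lit 234) (nat_lit 76) (nat_lit 0) (XT.nd (nat_lit 78) (nat_lit 0) (nat_lit 0) (XT.lf (nat_lit 0) (nat_lit 2777103705) (nat_lit 76) (nat_lit 12612175708) (nat_lit 152) (nat_lit 42052175762) (nat_lit 10) (nat_lit 5) (nat_lit 11) (nat_lit 5) (nat_lit 12) (nat_lit 4) (nat_lit 389) (nat_lit 249) (nat_lit 142)) (XT.nd (nat_lit 78) (nat_lit 0) (nat_lit 0) (XT.lf (nat_lit 0) (nat_lit 13028078719) (nat_lit 76) (nat_lit 7428983120) (nat_lit 152) (nat_lit 38542072691) (nat_lit 10) (nat_lit 5) (nat_lit 11) (nat_lit 5) (nat_lit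 12) (nat_lit 4) (nat_lit 390) (nat_lit 249) (nat_lit 141)) (XT.lf (nat_lit 0) (nat_lit 23563809708) (nat_lit 76) (nat_lit 2100782969) (nat_lit 152) (nat_lit 34939323304) (nat_lit 10) (nat_lit 5) (nat_lit 11) (nat_lit 5) (nat_lit 12) (nat_lit 4) (nat_lit 391) (nat_lit 249) (nat_lit 140)))) (XT.nd (nat_lit 156) (nat_lit 76) (nat_lit 0) (XT.nd (nat_lit 78) (nat_lit 0) (nat_lit 0) (XT.lf (nat_lit 0) (nat_lit 31048884761) (nat_lit 152) (nat_lit 27896161677) (nat_lit 0) (nat_lit 3311181451) (nat_lit 10) (nat_lit 5) (nat_lit 12) (nat_lit 4) (nat_lit 10) (nat_lit 4) (nat_lit 392) (nat_lit 249) (nat_lit 139)) (XT.lf (nat_lit 0) (nat_lit 36603830559) (nat_lit 152) (nat_lit 18520419916) (nat_lit 0) (nat_lit 8833587912) (nat_lit 10) (nat_lit 5) (nat_lit 12) (nat_lit 4) (nat_lit 10) (nat_lit 4) (nat_lit 393) (nat_lit 249) (nat_lit 138))) (XT.nd (nat_lit 78) (nat_lit 76) (nat_lit 0) (XT.lf (nat_lit 0) (nat_lit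 42314089897) (nat_lit 152) (nat_lit 8884494585) (nat_lit 0) (nat_lit 14512255661) (nat_lit 10) (nat_lit 5) (nat_lit 12) (nat_lit 4) (nat_lit 10) (nat_lit 4) (nat_lit 394) (nat_lit 249) (nat_lit 137)) (XT.lf (nat_lit 0) (nat_lit 1040334735) (nat_lit 76) (nat_lit 47154317920) (nat_lit 76) (nat_lit 19321812239) (nat_lit 9) (nat_lit 4) (nat_lit 10) (nat_lit 5) (nat_lit 10) (nat_lit 4) (nat_lit 395) (nat_lit 249) (nat_lit 136))))))) (XT.nd (nat_lit 1092) (nat_lit 0) (nat_lit 0) (XT.nd (nat_lit 546) (nat_lit 76) (nat_lit 0) (XT.nd (nat_lit 234) (nat_lit 76) (nat_lit 0) (XT.nd (nat_lit 78) (nat_lit 0) (nat_lit 0) (XT.lf (nat_lit 0) (nat_lit 11424758646) (nat_lit 76) (nat_lit 42905710573) (nat_lit 76) (nat_lit 15043426790) (nat_lit 9) (nat_lit 4) (nat_lit 10) (nat_lit 5) (nat_lit 10) (nat_lit 4) (nat_lit 396) (nat_lit 249) (nat_lit 135)) (XT.nd (nat_lit 78) (nat_lit 0) (nat_lit 0) (XT.lf (nat_lit 0) (nat_lit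 22101032052) (nat_lit 76) (nat_lit 38538766042) (nat_lit 76) (nat_lit 10647571480) (nat_lit 9) (nat_lit 4) (nat_lit 10) (nat_lit 5) (nat_lit 10) (nat_lit 4) (nat_lit 397) (nat_lit 249) (nat_lit 134)) (XT.lf (nat_lit 0) (nat_lit 33078483736) (nat_lit 76) (nat_lit 34049668550) (nat_lit 76) (nat_lit 6130405270) (nat_lit 9) (nat_lit 4) (nat_lit 10) (nat_lit 5) (nat_lit 10) (nat_lit 4) (nat_lit 398) (nat_lit 249) (nat_lit 133)))) (XT.nd (nat_lit 156) (nat_lit 0) (nat_lit 0) (XT.nd (nat_lit 78) (nat_lit 76) (nat_lit 0) (XT.lf (nat_lit 0) (nat_lit 44366705646) (nat_lit 76) (nat_lit 29434495583) (nat_lit 76) (nat_lit 1487981122) (nat_lit 9) (nat_lit 4) (nat_lit 10) (nat_lit 5) (nat_lit 10) (nat_lit 4) (nat_lit 399) (nat_lit 249) (nat_lit 132)) (XT.lf (nat_lit 0) (nat_lit 3219679516) (nat_lit 152) (nat_lit 21437022502) (nat_lit 76) (nat_lit 52723369311) (nat_lit 8) (nat_lit 5) (nat_lit 10) (nat_lit 5) (nat_lit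 9) (nat_lit 4) (nat_lit 400) (nat_lit 249) (nat_lit 131))) (XT.nd (nat_lit 78) (nat_lit 0) (nat_lit 0) (XT.lf (nat_lit 0) (nat_lit 8029183437) (nat_lit 152) (nat_lit 11699416395) (nat_lit 76) (nat_lit 59804931844) (nat_lit 8) (nat_lit 5) (nat_lit 10) (nat_lit 5) (nat_lit 9) (nat_lit 4) (nat_lit 401) (nat_lit 249) (nat_lit 130)) (XT.lf (nat_lit 0) (nat_lit 12973768991) (nat_lit 152) (nat_lit 1686846411) (nat_lit 76) (nat_lit 67091258754) (nat_lit 8) (nat_lit 5) (nat_lit 10) (nat_lit 5) (nat_lit 9) (nat_lit 4) (nat_lit 402) (nat_lit 249) (nat_lit 129))))) (XT.nd (nat_lit 234) (nat_lit 0) (nat_lit 0) (XT.nd (nat_lit 78) (nat_lit 0) (nat_lit 0) (XT.lf (nat_lit 0) (nat_lit 8780780958) (nat_lit 76) (nat_lit 9361381970) (nat_lit 152) (nat_lit 65892342014) (nat_lit 7) (nat_lit 5) (nat_lit 8) (nat_lit 5) (nat_lit 9) (nat_lit 4) (nat_lit 403) (nat_lit 249) (nat_lit 128)) (XT.nd (nat_lit 78) (nat_lit 0) (nat_lit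 0) (XT.lf (nat_lit 0) (nat_lit 19580514847) (nat_lit 76) (nat_lit 3893293893) (nat_lit 152) (nat_lit 62911562002) (nat_lit 7) (nat_lit 5) (nat_lit 8) (nat_lit 5) (nat_lit 9) (nat_lit 4) (nat_lit 404) (nat_lit 249) (nat_lit 127)) (XT.lf (nat_lit 0) (nat_lit 28973470645) (nat_lit 152) (nat_lit 58135444685) (nat_lit 0) (nat_lit 1697607216) (nat_lit 7) (nat_lit 5) (nat_lit 9) (nat_lit 4) (nat_lit 7) (nat_lit 4) (nat_lit 405) (nat_lit 249) (nat_lit 126)))) (XT.nd (nat_lit 156) (nat_lit 0) (nat_lit 0) (XT.nd (nat_lit 78) (nat_lit 0) (nat_lit 0) (XT.lf (nat_lit 0) (nat_lit 34668273711) (nat_lit 152) (nat_lit 49260234680) (nat_lit 0) (nat_lit 7370897947) (nat_lit 7) (nat_lit 5) (nat_lit 9) (nat_lit 4) (nat_lit 7) (nat_lit 4) (nat_lit 406) (nat_lit 249) (nat_lit 125)) (XT.lf (nat_lit 0) (nat_lit 40525769256) (nat_lit 152) (nat_lit 40134046118) (nat_lit 0) (nat_lit 13207507730) (nat_lit 7) (nat_lit 5) (nat_lit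 9) (nat_lit 4) (nat_lit 7) (nat_lit 4) (nat_lit 407) (nat_lit 249) (nat_lit 124))) (XT.nd (nat_lit 78) (nat_lit 0) (nat_lit 0) (XT.lf (nat_lit 0) (nat_lit 46551075482) (nat_lit 152) (nat_lit 30748904661) (nat_lit 0) (nat_lit 19212536517) (nat_lit 7) (nat_lit 5) (nat_lit 9) (nat_lit 4) (nat_lit 7) (nat_lit 4) (nat_lit 408) (nat_lit 249) (nat_lit 123)) (XT.lf (nat_lit 0) (nat_lit 52749457218) (nat_lit 152) (nat_lit 21096609700) (nat_lit 0) (nat_lit 25391231420) (nat_lit 7) (nat_lit 5) (nat_lit 9) (nat_lit 4) (nat_lit 7) (nat_lit 4) (nat_lit 409) (nat_lit 249) (nat_lit 122)))))) (XT.nd (nat_lit 30888) (nat_lit 0) (nat_lit 12160) (XT.nd (nat_lit 30576) (nat_lit 0) (nat_lit 16416) (XT.nd (nat_lit 78) (nat_lit 0) (nat_lit 0) (XT.lf (nat_lit 0) (nat_lit 59126330527) (nat_lit 152) (nat_lit 11168727190) (nat_lit 0) (nat_lit 31748991298) (nat_lit 7) (nat_lit 5) (nat_lit 9) (nat_lit 4) (nat_lit 7) (nat_lit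 4) (nat_lit 410) (nat_lit 249) (nat_lit 121)) (XT.nd (nat_lit 30420) (nat_lit 0) (nat_lit 18468) (XT.lf (nat_lit 0) (nat_lit 65687267433) (nat_lit 152) (nat_lit 956582282) (nat_lit 0) (nat_lit 38291371475) (nat_lit 7) (nat_lit 5) (nat_lit 9) (nat_lit 4) (nat_lit 7) (nat_lit 4) (nat_lit 411) (nat_lit 249) (nat_lit 120)) (XT.lf (nat_lit 0) (nat_lit 647697453) (nat_lit 836) (nat_lit 1399761914) (nat_lit 836) (nat_lit 1399761914) (nat_lit 250) (nat_lit 4) (nat_lit 261) (nat_lit 5) (nat_lit 261) (nat_lit 4) (nat_lit 280) (nat_lit 250) (nat_lit 250)))) (XT.nd (nat_lit 156) (nat_lit 1064) (nat_lit 0) (XT.nd (nat_lit 78) (nat_lit 912) (nat_lit 0) (XT.lf (nat_lit 0) (nat_lit 353438297) (nat_lit 912) (nat_lit 1149366188) (nat_lit 76) (nat_lit 5439528051) (nat_lit 249) (nat_lit 5) (nat_lit 261) (nat_lit 5) (nat_lit 250) (nat_lit 4) (nat_lit 281) (nat_lit 250) (nat_lit 249)) (XT.lf (nat_lit 0) (nat_lit 3383786617)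 (nat_lit 912) (nat_lit 95575121) (nat_lit 988) (nat_lit 3513588048) (nat_lit 237) (nat_lit 5) (nat_lit 249) (nat_lit 5) (nat_lit 250) (nat_lit 4) (nat_lit 282) (nat_lit 250) (nat_lit 248))) (XT.nd (nat_lit 78) (nat_lit 76) (nat_lit 0) (XT.lf (nat_lit 0) (nat_lit 946519675) (nat_lit 988) (nat_lit 5690581478) (nat_lit 988) (nat_lit 409999875) (nat_lit 224) (nat_lit 4) (nat_lit 237) (nat_lit 5) (nat_lit 237) (nat_lit 4) (nat_lit 283) (nat_lit 250) (nat_lit 247)) (XT.lf (nat_lit 0) (nat_lit 2675123847) (nat_lit 1064) (nat_lit 1508748624) (nat_lit 76) (nat_lit 2920064156) (nat_lit 223) (nat_lit 5) (nat_lit 237) (nat_lit 5) (nat_lit 224) (nat_lit 4) (nat_lit 284) (nat_lit 250) (nat_lit 246))))) (XT.nd (nat_lit 234) (nat_lit 1976) (nat_lit 0) (XT.nd (nat_lit 78) (nat_lit 1216) (nat_lit 0) (XT.lf (nat_lit 0) (nat_lit 3189971268) (nat_lit 1064) (nat_lit 2593072575) (nat_lit 1140) (nat_lit 1381300507) (nat_lit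 209) (nat_lit 5) (nat_lit 223) (nat_lit 5) (nat_lit 224) (nat_lit 4) (nat_lit 285) (nat_lit 250) (nat_lit 245)) (XT.nd (nat_lit 78) (nat_lit 0) (nat_lit 0) (XT.lf (nat_lit 0) (nat_lit 741764775) (nat_lit 1140) (nat_lit 912716544) (nat_lit 1216) (nat_lit 5573776968) (nat_lit 193) (nat_lit 5) (nat_lit 208) (nat_lit 5) (nat_lit 209) (nat_lit 5) (nat_lit 286) (nat_lit 250) (nat_lit 244)) (XT.lf (nat_lit 0) (nat_lit 4712400130) (nat_lit 1216) (nat_lit 1726039767) (nat_lit 76) (nat_lit 856605837) (nat_lit 193) (nat_lit 5) (nat_lit 209) (nat_lit 5) (nat_lit 194) (nat_lit 4) (nat_lit 287) (nat_lit 250) (nat_lit 243)))) (XT.nd (nat_lit 156) (nat_lit 608) (nat_lit 0) (XT.nd (nat_lit 78) (nat_lit 608) (nat_lit 0) (XT.lf (nat_lit 0) (nat_lit 440161956) (nat_lit 760) (nat_lit 4229639369) (nat_lit 76) (nat_lit 2695465517) (nat_lit 183) (nat_lit 5) (nat_lit 193) (nat_lit 5) (nat_lit 184) (nat_lit 5) (nat_lit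 288) (nat_lit 250) (nat_lit 242)) (XT.lf (nat_lit 0) (nat_lit 637805005) (nat_lit 608) (nat_lit 2801430387) (nat_lit 684) (nat_lit 3999587399) (nat_lit 175) (nat_lit 5) (nat_lit 183) (nat_lit 5) (nat_lit 184) (nat_lit 5) (nat_lit 289) (nat_lit 250) (nat_lit 241))) (XT.nd (nat_lit 78) (nat_lit 608) (nat_lit 0) (XT.lf (nat_lit 0) (nat_lit 5648509272) (nat_lit 608) (nat_lit 837891850) (nat_lit 684) (nat_lit 1029557236) (nat_lit 175) (nat_lit 5) (nat_lit 183) (nat_lit 5) (nat_lit 184) (nat_lit 5) (nat_lit 290) (nat_lit 250) (nat_lit 240)) (XT.lf (nat_lit 0) (nat_lit 1949196948) (nat_lit 608) (nat_lit 4440529586) (nat_lit 76) (nat_lit 1206429205) (nat_lit 167) (nat_lit 5) (nat_lit 175) (nat_lit 5) (nat_lit 168) (nat_lit 5) (nat_lit 291) (nat_lit 250) (nat_lit 239))))))))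
noncomputable def xc78 : XT := (XT.nd (nat_lit 2106) (nat_lit 3040) (nat_lit 0) (XT.nd (nat_lit 1014) (nat_lit 3192) (nat_lit 0) (XT.nd (nat_lit 468) (nat_lit 1824) (nat_lit 0) (XT.nd (nat_lit 234) (nat_lit 1064) (nat_lit 0) (XT.nd (nat_lit 78) (nat_lit 532) (nat_lit 0) (XT.lf (nat_lit 0) (nat_lit 592113668) (nat_lit 532) (nat_lit 4356002825) (nat_lit 608) (nat_lit 2731898518) (nat_lit 160) (nat_lit 5) (nat_lit 167) (nat_lit 5) (nat_lit 168) (nat_lit 5) (nat_lit 292) (nat_lit 250) (nat_lit 238)) (XT.nd (nat_lit 78) (nat_lit 456) (nat_lit 0) (XT.lf (nat_lit 0) (nat_lit 229703385) (nat_lit 608) (nat_lit 1992399021) (nat_lit 76) (nat_lit 5545379034) (nat_lit 159) (nat_lit 5) (nat_lit 167) (nat_lit 5) (nat_lit 160) (nat_lit 5) (nat_lit 293) (nat_lit 250) (nat_lit 237)) (XT.lf (nat_lit 0) (nat_lit 3177722069) (nat_lit 532) (nat_lit 4655533495) (nat_lit 76) (nat_lit 25028129) (nat_lit 153) (nat_lit 5)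 (nat_lit 160) (nat_lit 5) (nat_lit 154) (nat_lit 5) (nat_lit 294) (nat_lit 250) (nat_lit 236)))) (XT.nd (nat_lit 78) (nat_lit 532) (nat_lit 0) (XT.lf (nat_lit 0) (nat_lit 541904043) (nat_lit 532) (nat_lit 5642594611) (nat_lit 608) (nat_lit 1768296601) (nat_lit 146) (nat_lit 5) (nat_lit 153) (nat_lit 5) (nat_lit 154) (nat_lit 5) (nat_lit 295) (nat_lit 250) (nat_lit 235)) (XT.nd (nat_lit 78) (nat_lit 456) (nat_lit 0) (XT.lf (nat_lit 0) (nat_lit 1178127153) (nat_lit 608) (nat_lit 2160928978) (nat_lit 76) (nat_lit 4711695704) (nat_lit 145) (nat_lit 5) (nat_lit 153) (nat_lit 5) (nat_lit 146) (nat_lit 5) (nat_lit 296) (nat_lit 250) (nat_lit 234)) (XT.lf (nat_lit 0) (nat_lit 3203582398) (nat_lit 456) (nat_lit 930189146) (nat_lit 532) (nat_lit 4018745983) (nat_lit 139) (nat_lit 5) (nat_lit 145) (nat_lit 5) (nat_lit 146) (nat_lit 5) (nat_lit 297) (nat_lit 250) (nat_lit 233))))) (XT.nd (nat_lit 234) (nat_lit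 912) (nat_lit 0) (XT.nd (nat_lit 78) (nat_lit 456) (nat_lit 0) (XT.lf (nat_lit 0) (nat_lit 420489620) (nat_lit 456) (nat_lit 6725353609) (nat_lit 532) (nat_lit 1112544417) (nat_lit 133) (nat_lit 5) (nat_lit 139) (nat_lit 5) (nat_lit 140) (nat_lit 5) (nat_lit 298) (nat_lit 250) (nat_lit 232)) (XT.nd (nat_lit 78) (nat_lit 380) (nat_lit 0) (XT.lf (nat_lit 0) (nat_lit 1831081489) (nat_lit 532) (nat_lit 2431161213) (nat_lit 76) (nat_lit 4105119920) (nat_lit 132) (nat_lit 5) (nat_lit 139) (nat_lit 5) (nat_lit 133) (nat_lit 5) (nat_lit 299) (nat_lit 250) (nat_lit 231)) (XT.lf (nat_lit 0) (nat_lit 3099984758) (nat_lit 380) (nat_lit 1699849116) (nat_lit 456) (nat_lit 3680744204) (nat_lit 127) (nat_lit 5) (nat_lit 132) (nat_lit 5) (nat_lit 133) (nat_lit 5) (nat_lit 300) (nat_lit 250) (nat_lit 230)))) (XT.nd (nat_lit 156) (nat_lit 380) (nat_lit 0) (XT.nd (nat_lit 78) (nat_lit 76) (nat_lit 0) (XT.lf (nat_lit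 0) (nat_lit 155808141) (nat_lit 456) (nat_lit 7667604109) (nat_lit 532) (nat_lit 774879648) (nat_lit 121) (nat_lit 5) (nat_lit 127) (nat_lit 5) (nat_lit 128) (nat_lit 5) (nat_lit 301) (nat_lit 250) (nat_lit 229)) (XT.lf (nat_lit 0) (nat_lit 2177456833) (nat_lit 532) (nat_lit 2876985438) (nat_lit 76) (nat_lit 3664448294) (nat_lit 120) (nat_lit 5) (nat_lit 127) (nat_lit 5) (nat_lit 121) (nat_lit 5) (nat_lit 302) (nat_lit 250) (nat_lit 228))) (XT.nd (nat_lit 78) (nat_lit 0) (nat_lit 0) (XT.lf (nat_lit 0) (nat_lit 2816368707) (nat_lit 380) (nat_lit 2346384999) (nat_lit 456) (nat_lit 3681392843) (nat_lit 115) (nat_lit 5) (nat_lit 120) (nat_lit 5) (nat_lit 121) (nat_lit 5) (nat_lit 303) (nat_lit 250) (nat_lit 227)) (XT.lf (nat_lit 0) (nat_lit 8205042684) (nat_lit 456) (nat_lit 324740139) (nat_lit 76) (nat_lit 444420855) (nat_lit 115) (nat_lit 5) (nat_lit 121) (nat_lit 5) (nat_lit 116) (nat_lit 5) (nat_lit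 304) (nat_lit 250) (nat_lit 226)))))) (XT.nd (nat_lit 546) (nat_lit 1292) (nat_lit 0) (XT.nd (nat_lit 234) (nat_lit 1140) (nat_lit 0) (XT.nd (nat_lit 78) (nat_lit 304) (nat_lit 0) (XT.lf (nat_lit 0) (nat_lit 2199313632) (nat_lit 456) (nat_lit 3579828427) (nat_lit 76) (nat_lit 3328067909) (nat_lit 109) (nat_lit 5) (nat_lit 115) (nat_lit 5) (nat_lit 110) (nat_lit 5) (nat_lit 305) (nat_lit 250) (nat_lit 225)) (XT.nd (nat_lit 78) (nat_lit 0) (nat_lit 0) (XT.lf (nat_lit 0) (nat_lit 2268882629) (nat_lit 304) (nat_lit 2933761622) (nat_lit 380) (nat_lit 4042556722) (nat_lit 105) (nat_lit 5) (nat_lit 109) (nat_lit 5) (nat_lit 110) (nat_lit 5) (nat_lit 306) (nat_lit 250) (nat_lit 224)) (XT.lf (nat_lit 0) (nat_lit 8269531308) (nat_lit 380) (nat_lit 1106395202) (nat_lit 76) (nat_lit 12260554) (nat_lit 105) (nat_lit 5) (nat_lit 110) (nat_lit 5) (nat_lit 106) (nat_lit 5) (nat_lit 307) (nat_lit 250) (nat_lit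 223)))) (XT.nd (nat_lit 156) (nat_lit 380) (nat_lit 0) (XT.nd (nat_lit 78) (nat_lit 304) (nat_lit 0) (XT.lf (nat_lit 0) (nat_lit 1871300849) (nat_lit 456) (nat_lit 4630513455) (nat_lit 76) (nat_lit 3032699891) (nat_lit 99) (nat_lit 5) (nat_lit 105) (nat_lit 5) (nat_lit 100) (nat_lit 5) (nat_lit 308) (nat_lit 250) (nat_lit 222)) (XT.lf (nat_lit 0) (nat_lit 1363728634) (nat_lit 304) (nat_lit 3528284024) (nat_lit 380) (nat_lit 4794034039) (nat_lit 95) (nat_lit 5) (nat_lit 99) (nat_lit 5) (nat_lit 100) (nat_lit 5) (nat_lit 309) (nat_lit 250) (nat_lit 221))) (XT.nd (nat_lit 78) (nat_lit 380) (nat_lit 0) (XT.lf (nat_lit 0) (nat_lit 7549355537) (nat_lit 304) (nat_lit 440868772) (nat_lit 380) (nat_lit 1852346975) (nat_lit 95) (nat_lit 5) (nat_lit 99) (nat_lit 5) (nat_lit 100) (nat_lit 5) (nat_lit 310) (nat_lit 250) (nat_lit 220)) (XT.lf (nat_lit 0) (nat_lit 1159921684) (nat_lit 380) (nat_lit 6131352260)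 (nat_lit 76) (nat_lit 2712068229) (nat_lit 90) (nat_lit 5) (nat_lit 95) (nat_lit 5) (nat_lit 91) (nat_lit 5) (nat_lit 311) (nat_lit 250) (nat_lit 219))))) (XT.nd (nat_lit 234) (nat_lit 608) (nat_lit 0) (XT.nd (nat_lit 78) (nat_lit 684) (nat_lit 0) (XT.lf (nat_lit 0) (nat_lit 4195020774) (nat_lit 380) (nat_lit 4921253) (nat_lit 76) (nat_lit 5969401192) (nat_lit 90) (nat_lit 5) (nat_lit 95) (nat_lit 5) (nat_lit 91) (nat_lit 5) (nat_lit 312) (nat_lit 250) (nat_lit 218)) (XT.nd (nat_lit 78) (nat_lit 380) (nat_lit 0) (XT.lf (nat_lit 0) (nat_lit 6348697561) (nat_lit 304) (nat_lit 977135278) (nat_lit 380) (nat_lit 3014398272) (nat_lit 86) (nat_lit 5) (nat_lit 90) (nat_lit 5) (nat_lit 91) (nat_lit 5) (nat_lit 313) (nat_lit 250) (nat_lit 217)) (XT.lf (nat_lit 0) (nat_lit 22628663) (nat_lit 380) (nat_lit 8198514303) (nat_lit 76) (nat_lit 2295467472) (nat_lit 81) (nat_lit 5) (nat_lit 86) (nat_lit 5) (nat_lit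 82) (nat_lit 5) (nat_lit 314) (nat_lit 250) (nat_lit 216)))) (XT.nd (nat_lit 156) (nat_lit 380) (nat_lit 0) (XT.nd (nat_lit 78) (nat_lit 228) (nat_lit 0) (XT.lf (nat_lit 0) (nat_lit 3085099640) (nat_lit 380) (nat_lit 1919683725) (nat_lit 76) (nat_lit 5692797484) (nat_lit 81) (nat_lit 5) (nat_lit 86) (nat_lit 5) (nat_lit 82) (nat_lit 5) (nat_lit 315) (nat_lit 250) (nat_lit 215)) (XT.lf (nat_lit 0) (nat_lit 4557285676) (nat_lit 228) (nat_lit 1672121157) (nat_lit 304) (nat_lit 4654916094) (nat_lit 78) (nat_lit 5) (nat_lit 81) (nat_lit 5) (nat_lit 82) (nat_lit 5) (nat_lit 316) (nat_lit 250) (nat_lit 214))) (XT.nd (nat_lit 78) (nat_lit 76) (nat_lit 0) (XT.lf (nat_lit 0) (nat_lit 96838020) (nat_lit 304) (nat_lit 9355362149) (nat_lit 380) (nat_lit 1624982602) (nat_lit 74) (nat_lit 5) (nat_lit 78) (nat_lit 5) (nat_lit 79) (nat_lit 5) (nat_lit 317) (nat_lit 250) (nat_lit 213)) (XT.lf (nat_lit 0) (nat_lit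 1494698812) (nat_lit 380) (nat_lit 4542429378) (nat_lit 76) (nat_lit 5237465573) (nat_lit 73) (nat_lit 5) (nat_lit 78) (nat_lit 5) (nat_lit 74) (nat_lit 5) (nat_lit 318) (nat_lit 250) (nat_lit 212))))))) (XT.nd (nat_lit 1092) (nat_lit 1140) (nat_lit 0) (XT.nd (nat_lit 546) (nat_lit 912) (nat_lit 0) (XT.nd (nat_lit 234) (nat_lit 532) (nat_lit 0) (XT.nd (nat_lit 78) (nat_lit 228) (nat_lit 0) (XT.lf (nat_lit 0) (nat_lit 2034489050) (nat_lit 228) (nat_lit 2608883084) (nat_lit 304) (nat_lit 6835067222) (nat_lit 70) (nat_lit 5) (nat_lit 73) (nat_lit 5) (nat_lit 74) (nat_lit 5) (nat_lit 319) (nat_lit 250) (nat_lit 211)) (XT.nd (nat_lit 78) (nat_lit 228) (nat_lit 0) (XT.lf (nat_lit 0) (nat_lit 7890707053) (nat_lit 304) (nat_lit 2872801766) (nat_lit 76) (nat_lit 924801182) (nat_lit 70) (nat_lit 5) (nat_lit 74) (nat_lit 5) (nat_lit 71) (nat_lit 5) (nat_lit 320) (nat_lit 250) (nat_lit 210)) (XT.lf (nat_lit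 0) (nat_lit 3869142956) (nat_lit 228) (nat_lit 7379839994) (nat_lit 304) (nat_lit 655122875) (nat_lit 67) (nat_lit 5) (nat_lit 70) (nat_lit 5) (nat_lit 71) (nat_lit 5) (nat_lit 321) (nat_lit 250) (nat_lit 209)))) (XT.nd (nat_lit 156) (nat_lit 228) (nat_lit 0) (XT.nd (nat_lit 78) (nat_lit 228) (nat_lit 0) (XT.lf (nat_lit 0) (nat_lit 2511251699) (nat_lit 304) (nat_lit 1354650379) (nat_lit 76) (nat_lit 8260361743) (nat_lit 66) (nat_lit 5) (nat_lit 70) (nat_lit 5) (nat_lit 67) (nat_lit 5) (nat_lit 322) (nat_lit 250) (nat_lit 208)) (XT.lf (nat_lit 0) (nat_lit 5553906164) (nat_lit 228) (nat_lit 211067628) (nat_lit 304) (nat_lit 6589784210) (nat_lit 63) (nat_lit 5) (nat_lit 66) (nat_lit 5) (nat_lit 67) (nat_lit 5) (nat_lit 323) (nat_lit 250) (nat_lit 207))) (XT.nd (nat_lit 78) (nat_lit 228) (nat_lit 0) (XT.lf (nat_lit 0) (nat_lit 9116853716) (nat_lit 304) (nat_lit 1025503) (nat_lit 76) (nat_lit 3472242221)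 (nat_lit 63) (nat_lit 5) (nat_lit 67) (nat_lit 5) (nat_lit 64) (nat_lit 5) (nat_lit 324) (nat_lit 250) (nat_lit 206)) (XT.lf (nat_lit 0) (nat_lit 7066239968) (nat_lit 228) (nat_lit 5527020062) (nat_lit 304) (nat_lit 238596573) (nat_lit 60) (nat_lit 5) (nat_lit 63) (nat_lit 5) (nat_lit 64) (nat_lit 5) (nat_lit 325) (nat_lit 250) (nat_lit 205))))) (XT.nd (nat_lit 234) (nat_lit 456) (nat_lit 0) (XT.nd (nat_lit 78) (nat_lit 228) (nat_lit 0) (XT.lf (nat_lit 0) (nat_lit 1185516162) (nat_lit 152) (nat_lit 1812776807) (nat_lit 228) (nat_lit 10082720987) (nat_lit 57) (nat_lit 5) (nat_lit 59) (nat_lit 5) (nat_lit 60) (nat_lit 5) (nat_lit 326) (nat_lit 250) (nat_lit 204)) (XT.nd (nat_lit 78) (nat_lit 228) (nat_lit 0) (XT.lf (nat_lit 0) (nat_lit 6360159355) (nat_lit 228) (nat_lit 4967816693) (nat_lit 76) (nat_lit 2008646521) (nat_lit 57) (nat_lit 5) (nat_lit 60) (nat_lit 5) (nat_lit 58) (nat_lit 5) (nat_lit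 327) (nat_lit 250) (nat_lit 203)) (XT.lf (nat_lit 0) (nat_lit 2120244649) (nat_lit 228) (nat_lit 7696809827) (nat_lit 304) (nat_lit 3783046365) (nat_lit 54) (nat_lit 5) (nat_lit 57) (nat_lit 5) (nat_lit 58) (nat_lit 5) (nat_lit 328) (nat_lit 250) (nat_lit 202)))) (XT.nd (nat_lit 156) (nat_lit 228) (nat_lit 0) (XT.nd (nat_lit 78) (nat_lit 228) (nat_lit 0) (XT.lf (nat_lit 0) (nat_lit 9452602547) (nat_lit 228) (nat_lit 3931673981) (nat_lit 304) (nat_lit 487034144) (nat_lit 54) (nat_lit 5) (nat_lit 57) (nat_lit 5) (nat_lit 58) (nat_lit 5) (nat_lit 329) (nat_lit 250) (nat_lit 201)) (XT.lf (nat_lit 0) (nat_lit 2812187068) (nat_lit 152) (nat_lit 23241066) (nat_lit 228) (nat_lit 11314885052) (nat_lit 51) (nat_lit 5) (nat_lit 53) (nat_lit 5) (nat_lit 54) (nat_lit 5) (nat_lit 330) (nat_lit 250) (nat_lit 200))) (XT.nd (nat_lit 78) (nat_lit 228) (nat_lit 0) (XT.lf (nat_lit 0) (nat_lit 6288926947) (nat_lit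 228) (nat_lit 4198866969) (nat_lit 76) (nat_lit 3948536268) (nat_lit 51) (nat_lit 5) (nat_lit 54) (nat_lit 5) (nat_lit 52) (nat_lit 5) (nat_lit 331) (nat_lit 250) (nat_lit 199)) (XT.lf (nat_lit 0) (nat_lit 3148427243) (nat_lit 228) (nat_lit 6686948248) (nat_lit 304) (nat_lit 4895894792) (nat_lit 48) (nat_lit 5) (nat_lit 51) (nat_lit 5) (nat_lit 52) (nat_lit 5) (nat_lit 332) (nat_lit 250) (nat_lit 198)))))) (XT.nd (nat_lit 546) (nat_lit 532) (nat_lit 0) (XT.nd (nat_lit 234) (nat_lit 380) (nat_lit 0) (XT.nd (nat_lit 78) (nat_lit 228) (nat_lit 0) (XT.lf (nat_lit 0) (nat_lit 10735523473) (nat_lit 228) (nat_lit 2754501871) (nat_lit 304) (nat_lit 1545001269) (nat_lit 48) (nat_lit 5) (nat_lit 51) (nat_lit 5) (nat_lit 52) (nat_lit 5) (nat_lit 333) (nat_lit 250) (nat_lit 197)) (XT.nd (nat_lit 78) (nat_lit 0) (nat_lit 0) (XT.lf (nat_lit 0) (nat_lit 1872663328) (nat_lit 228) (nat_lit 12179824177) (nat_lit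 76) (nat_lit 1294775981) (nat_lit 45) (nat_lit 5) (nat_lit 48) (nat_lit 5) (nat_lit 46) (nat_lit 5) (nat_lit 334) (nat_lit 250) (nat_lit 196)) (XT.lf (nat_lit 0) (nat_lit 5393391453) (nat_lit 228) (nat_lit 4829908914) (nat_lit 76) (nat_lit 5444180965) (nat_lit 45) (nat_lit 5) (nat_lit 48) (nat_lit 5) (nat_lit 46) (nat_lit 5) (nat_lit 335) (nat_lit 250) (nat_lit 195)))) (XT.nd (nat_lit 156) (nat_lit 228) (nat_lit 0) (XT.nd (nat_lit 78) (nat_lit 0) (nat_lit 0) (XT.lf (nat_lit 0) (nat_lit 2729820621) (nat_lit 152) (nat_lit 6277780799) (nat_lit 228) (nat_lit 6990088275) (nat_lit 43) (nat_lit 5) (nat_lit 45) (nat_lit 5) (nat_lit 46) (nat_lit 5) (nat_lit 336) (nat_lit 250) (nat_lit 194)) (XT.lf (nat_lit 0) (nat_lit 10552025602) (nat_lit 152) (nat_lit 2189113154) (nat_lit 228) (nat_lit 3596357725) (nat_lit 43) (nat_lit 5) (nat_lit 45) (nat_lit 5) (nat_lit 46) (nat_lit 5) (nat_lit 337) (nat_lit 250) (nat_lit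 193))) (XT.nd (nat_lit 78) (nat_lit 76) (nat_lit 0) (XT.lf (nat_lit 0) (nat_lit 1876207483) (nat_lit 152) (nat_lit 14710942717) (nat_lit 228) (nat_lit 100351878) (nat_lit 41) (nat_lit 5) (nat_lit 43) (nat_lit 5) (nat_lit 44) (nat_lit 4) (nat_lit 338) (nat_lit 250) (nat_lit 192)) (XT.lf (nat_lit 0) (nat_lit 3475999702) (nat_lit 228) (nat_lit 7278329748) (nat_lit 76) (nat_lit 6291373282) (nat_lit 40) (nat_lit 5) (nat_lit 43) (nat_lit 5) (nat_lit 41) (nat_lit 5) (nat_lit 339) (nat_lit 250) (nat_lit 191))))) (XT.nd (nat_lit 234) (nat_lit 380) (nat_lit 0) (XT.nd (nat_lit 78) (nat_lit 0) (nat_lit 0) (XT.lf (nat_lit 0) (nat_lit 427283701) (nat_lit 152) (nat_lit 6698622112) (nat_lit 228) (nat_lit 10289682420) (nat_lit 38) (nat_lit 5) (nat_lit 40) (nat_lit 5) (nat_lit 41) (nat_lit 5) (nat_lit 340) (nat_lit 250) (nat_lit 190)) (XT.nd (nat_lit 78) (nat_lit 0) (nat_lit 0) (XT.lf (nat_lit 0) (nat_lit 8453174521)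 (nat_lit 152) (nat_lit 2470270959) (nat_lit 228) (nat_lit 6871997294) (nat_lit 38) (nat_lit 5) (nat_lit 40) (nat_lit 5) (nat_lit 41) (nat_lit 5) (nat_lit 341) (nat_lit 250) (nat_lit 189)) (XT.lf (nat_lit 0) (nat_lit 14818469085) (nat_lit 228) (nat_lit 1544124679) (nat_lit 76) (nat_lit 1824608538) (nat_lit 38) (nat_lit 5) (nat_lit 41) (nat_lit 5) (nat_lit 39) (nat_lit 4) (nat_lit 342) (nat_lit 250) (nat_lit 188)))) (XT.nd (nat_lit 156) (nat_lit 152) (nat_lit 0) (XT.nd (nat_lit 78) (nat_lit 0) (nat_lit 0) (XT.lf (nat_lit 0) (nat_lit 289177262) (nat_lit 228) (nat_lit 12058387304) (nat_lit 76) (nat_lit 6241469373) (nat_lit 35) (nat_lit 5) (nat_lit 38) (nat_lit 5) (nat_lit 36) (nat_lit 5) (nat_lit 343) (nat_lit 250) (nat_lit 187)) (XT.lf (nat_lit 0) (nat_lit 3971396992) (nat_lit 228) (nat_lit 4214196243) (nat_lit 76) (nat_lit 10816872991) (nat_lit 35) (nat_lit 5) (nat_lit 38) (nat_lit 5) (nat_lit 36)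 (nat_lit 5) (nat_lit 344) (nat_lit 250) (nat_lit 186))) (XT.nd (nat_lit 78) (nat_lit 0) (nat_lit 0) (XT.lf (nat_lit 0) (nat_lit 3885262764) (nat_lit 152) (nat_lit 3883675958) (nat_lit 228) (nat_lit 11659231388) (nat_lit 33) (nat_lit 5) (nat_lit 35) (nat_lit 5) (nat_lit 36) (nat_lit 5) (nat_lit 345) (nat_lit 250) (nat_lit 185)) (XT.lf (nat_lit 0) (nat_lit 11696343094) (nat_lit 228) (nat_lit 7613036539) (nat_lit 76) (nat_lit 556801259) (nat_lit 33) (nat_lit 5) (nat_lit 36) (nat_lit 5) (nat_lit 34) (nat_lit 4) (nat_lit 346) (nat_lit 250) (nat_lit 184))))))))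
noncomputable def xc79 : XT := (XT.nd (nat_lit 2184) (nat_lit 608) (nat_lit 0) (XT.nd (nat_lit 1092) (nat_lit 608) (nat_lit 0) (XT.nd (nat_lit 546) (nat_lit 304) (nat_lit 0) (XT.nd (nat_lit 234) (nat_lit 228) (nat_lit 0) (XT.nd (nat_lit 78) (nat_lit 76) (nat_lit 0) (XT.lf (nat_lit 0) (nat_lit 471024681) (nat_lit 76) (nat_lit 15282164699) (nat_lit 152) (nat_lit 4563807494) (nat_lit 32) (nat_lit 5) (nat_lit 33) (nat_lit 5) (nat_lit 34) (nat_lit 4) (nat_lit 347) (nat_lit 250) (nat_lit 183)) (XT.nd (nat_lit 78) (nat_lit 76) (nat_lit 0) (XT.lf (nat_lit 0) (nat_lit 8899756437) (nat_lit 76) (nat_lit 11077896308) (nat_lit 152) (nat_lit 802320318) (nat_lit 32) (nat_lit 5) (nat_lit 33) (nat_lit 5) (nat_lit 34) (nat_lit 4) (nat_lit 348) (nat_lit 250) (nat_lit 182)) (XT.lf (nat_lit 0) (nat_lit 2981692202) (nat_lit 152) (nat_lit 3757976123) (nat_lit 76) (nat_lit 14517207836) (nat_lit 31) (nat_lit 5) (nat_lit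 33) (nat_lit 5) (nat_lit 32) (nat_lit 5) (nat_lit 349) (nat_lit 250) (nat_lit 181)))) (XT.nd (nat_lit 156) (nat_lit 76) (nat_lit 0) (XT.nd (nat_lit 78) (nat_lit 0) (nat_lit 0) (XT.lf (nat_lit 0) (nat_lit 4639098123) (nat_lit 152) (nat_lit 2239106376) (nat_lit 228) (nat_lit 14869202350) (nat_lit 29) (nat_lit 5) (nat_lit 31) (nat_lit 5) (nat_lit 32) (nat_lit 5) (nat_lit 350) (nat_lit 250) (nat_lit 180)) (XT.lf (nat_lit 0) (nat_lit 10923643860) (nat_lit 228) (nat_lit 8961394536) (nat_lit 76) (nat_lit 2366665731) (nat_lit 29) (nat_lit 5) (nat_lit 32) (nat_lit 5) (nat_lit 30) (nat_lit 4) (nat_lit 351) (nat_lit 250) (nat_lit 179))) (XT.nd (nat_lit 78) (nat_lit 76) (nat_lit 0) (XT.lf (nat_lit 0) (nat_lit 15084141423) (nat_lit 228) (nat_lit 642326622) (nat_lit 76) (nat_lit 7044862708) (nat_lit 29) (nat_lit 5) (nat_lit 32) (nat_lit 5) (nat_lit 30) (nat_lit 4) (nat_lit 352) (nat_lit 250) (nat_lit 178)) (XT.lf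 (nat_lit 0) (nat_lit 8034469195) (nat_lit 76) (nat_lit 11384571951) (nat_lit 152) (nat_lit 3886028368) (nat_lit 28) (nat_lit 5) (nat_lit 29) (nat_lit 5) (nat_lit 30) (nat_lit 4) (nat_lit 353) (nat_lit 250) (nat_lit 177))))) (XT.nd (nat_lit 234) (nat_lit 76) (nat_lit 0) (XT.nd (nat_lit 78) (nat_lit 152) (nat_lit 0) (XT.lf (nat_lit 0) (nat_lit 7565330) (nat_lit 152) (nat_lit 6918942624) (nat_lit 76) (nat_lit 16928945383) (nat_lit 27) (nat_lit 5) (nat_lit 29) (nat_lit 5) (nat_lit 28) (nat_lit 5) (nat_lit 354) (nat_lit 250) (nat_lit 176)) (XT.nd (nat_lit 78) (nat_lit 0) (nat_lit 0) (XT.lf (nat_lit 0) (nat_lit 1629293203) (nat_lit 152) (nat_lit 2299450086) (nat_lit 228) (nat_lit 20492794690) (nat_lit 25) (nat_lit 5) (nat_lit 27) (nat_lit 5) (nat_lit 28) (nat_lit 5) (nat_lit 355) (nat_lit 250) (nat_lit 175)) (XT.lf (nat_lit 0) (nat_lit 8035178862) (nat_lit 228) (nat_lit 14498535173) (nat_lit 76) (nat_lit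 2468872189) (nat_lit 25) (nat_lit 5) (nat_lit 28) (nat_lit 5) (nat_lit 26) (nat_lit 4) (nat_lit 356) (nat_lit 250) (nat_lit 174)))) (XT.nd (nat_lit 156) (nat_lit 0) (nat_lit 0) (XT.nd (nat_lit 78) (nat_lit 76) (nat_lit 0) (XT.lf (nat_lit 0) (nat_lit 12261704457) (nat_lit 228) (nat_lit 6024832761) (nat_lit 76) (nat_lit 7314631237) (nat_lit 25) (nat_lit 5) (nat_lit 28) (nat_lit 5) (nat_lit 26) (nat_lit 4) (nat_lit 357) (nat_lit 250) (nat_lit 173)) (XT.lf (nat_lit 0) (nat_lit 2711277169) (nat_lit 76) (nat_lit 13904694719) (nat_lit 152) (nat_lit 9601717054) (nat_lit 24) (nat_lit 5) (nat_lit 25) (nat_lit 5) (nat_lit 26) (nat_lit 4) (nat_lit 358) (nat_lit 250) (nat_lit 172))) (XT.nd (nat_lit 78) (nat_lit 0) (nat_lit 0) (XT.lf (nat_lit 0) (nat_lit 11788701561) (nat_lit 76) (nat_lit 9348194370) (nat_lit 152) (nat_lit 5714737162) (nat_lit 24) (nat_lit 5) (nat_lit 25) (nat_lit 5) (nat_lit 26) (nat_lit 4)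 (nat_lit 359) (nat_lit 250) (nat_lit 171)) (XT.lf (nat_lit 0) (nat_lit 21095466161) (nat_lit 76) (nat_lit 4673893758) (nat_lit 152) (nat_lit 1735966928) (nat_lit 24) (nat_lit 5) (nat_lit 25) (nat_lit 5) (nat_lit 26) (nat_lit 4) (nat_lit 360) (nat_lit 250) (nat_lit 170)))))) (XT.nd (nat_lit 546) (nat_lit 304) (nat_lit 0) (XT.nd (nat_lit 234) (nat_lit 76) (nat_lit 0) (XT.nd (nat_lit 78) (nat_lit 0) (nat_lit 0) (XT.lf (nat_lit 0) (nat_lit 2317981626) (nat_lit 228) (nat_lit 25693179366) (nat_lit 76) (nat_lit 166740087) (nat_lit 21) (nat_lit 5) (nat_lit 24) (nat_lit 5) (nat_lit 22) (nat_lit 4) (nat_lit 361) (nat_lit 250) (nat_lit 169)) (XT.nd (nat_lit 78) (nat_lit 0) (nat_lit 0) (XT.lf (nat_lit 0) (nat_lit 6546784484) (nat_lit 228) (nat_lit 17197603949) (nat_lit 76) (nat_lit 5123112569) (nat_lit 21) (nat_lit 5) (nat_lit 24) (nat_lit 5) (nat_lit 22) (nat_lit 4) (nat_lit 362) (nat_lit 250) (nat_lit 168))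 (XT.lf (nat_lit 0) (nat_lit 10879619390) (nat_lit 228) (nat_lit 8488254319) (nat_lit 76) (nat_lit 10210607859) (nat_lit 21) (nat_lit 5) (nat_lit 24) (nat_lit 5) (nat_lit 22) (nat_lit 4) (nat_lit 363) (nat_lit 250) (nat_lit 167)))) (XT.nd (nat_lit 156) (nat_lit 0) (nat_lit 0) (XT.nd (nat_lit 78) (nat_lit 0) (nat_lit 0) (XT.lf (nat_lit 0) (nat_lit 451285848) (nat_lit 76) (nat_lit 14873324503) (nat_lit 152) (nat_lit 14986723526) (nat_lit 20) (nat_lit 5) (nat_lit 21) (nat_lit 5) (nat_lit 22) (nat_lit 4) (nat_lit 364) (nat_lit 250) (nat_lit 166)) (XT.lf (nat_lit 0) (nat_lit 9793508088) (nat_lit 76) (nat_lit 10173256547) (nat_lit 152) (nat_lit 11097499955) (nat_lit 20) (nat_lit 5) (nat_lit 21) (nat_lit 5) (nat_lit 22) (nat_lit 4) (nat_lit 365) (nat_lit 250) (nat_lit 165))) (XT.nd (nat_lit 78) (nat_lit 0) (nat_lit 0) (XT.lf (nat_lit 0) (nat_lit 19377642602) (nat_lit 76) (nat_lit 5349277710) (nat_lit 152)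 (nat_lit 7113507838) (nat_lit 20) (nat_lit 5) (nat_lit 21) (nat_lit 5) (nat_lit 22) (nat_lit 4) (nat_lit 366) (nat_lit 250) (nat_lit 164)) (XT.lf (nat_lit 0) (nat_lit 29212063877) (nat_lit 76) (nat_lit 397172865) (nat_lit 152) (nat_lit 3031266019) (nat_lit 20) (nat_lit 5) (nat_lit 21) (nat_lit 5) (nat_lit 22) (nat_lit 4) (nat_lit 367) (nat_lit 250) (nat_lit 163))))) (XT.nd (nat_lit 234) (nat_lit 76) (nat_lit 0) (XT.nd (nat_lit 78) (nat_lit 0) (nat_lit 0) (XT.lf (nat_lit 0) (nat_lit 1233178930) (nat_lit 228) (nat_lit 27563767508) (nat_lit 76) (nat_lit 4664822190) (nat_lit 17) (nat_lit 5) (nat_lit 20) (nat_lit 5) (nat_lit 18) (nat_lit 4) (nat_lit 368) (nat_lit 250) (nat_lit 162)) (XT.nd (nat_lit 78) (nat_lit 0) (nat_lit 0) (XT.lf (nat_lit 0) (nat_lit 5583365918) (nat_lit 228) (nat_lit 18803061971) (nat_lit 76) (nat_lit 9919788427) (nat_lit 17) (nat_lit 5) (nat_lit 20) (nat_lit 5) (nat_lit 18) (nat_lit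 4) (nat_lit 369) (nat_lit 250) (nat_lit 161)) (XT.lf (nat_lit 0) (nat_lit 10044484188) (nat_lit 228) (nat_lit 9815122027) (nat_lit 76) (nat_lit 15316984515) (nat_lit 17) (nat_lit 5) (nat_lit 20) (nat_lit 5) (nat_lit 18) (nat_lit 4) (nat_lit 370) (nat_lit 250) (nat_lit 160)))) (XT.nd (nat_lit 156) (nat_lit 0) (nat_lit 0) (XT.nd (nat_lit 78) (nat_lit 76) (nat_lit 0) (XT.lf (nat_lit 0) (nat_lit 14620431806) (nat_lit 228) (nat_lit 592094134) (nat_lit 76) (nat_lit 20861126449) (nat_lit 17) (nat_lit 5) (nat_lit 20) (nat_lit 5) (nat_lit 18) (nat_lit 4) (nat_lit 371) (nat_lit 250) (nat_lit 159)) (XT.lf (nat_lit 0) (nat_lit 9050692268) (nat_lit 76) (nat_lit 10351515695) (nat_lit 152) (nat_lit 17593367148) (nat_lit 16) (nat_lit 5) (nat_lit 17) (nat_lit 5) (nat_lit 18) (nat_lit 4) (nat_lit 372) (nat_lit 250) (nat_lit 158))) (XT.nd (nat_lit 78) (nat_lit 0) (nat_lit 0) (XT.lf (nat_lit 0) (nat_lit 18961684542)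 (nat_lit 76) (nat_lit 5353499287) (nat_lit 152) (nat_lit 13630344842) (nat_lit 16) (nat_lit 5) (nat_lit 17) (nat_lit 5) (nat_lit 18) (nat_lit 4) (nat_lit 373) (nat_lit 250) (nat_lit 157)) (XT.lf (nat_lit 0) (nat_lit 29137758942) (nat_lit 76) (nat_lit 220088507) (nat_lit 152) (nat_lit 9566669821) (nat_lit 16) (nat_lit 5) (nat_lit 17) (nat_lit 5) (nat_lit 18) (nat_lit 4) (nat_lit 374) (nat_lit 250) (nat_lit 156))))))) (XT.nd (nat_lit 1092) (nat_lit 228) (nat_lit 0) (XT.nd (nat_lit 546) (nat_lit 152) (nat_lit 0) (XT.nd (nat_lit 234) (nat_lit 76) (nat_lit 0) (XT.nd (nat_lit 78) (nat_lit 152) (nat_lit 0) (XT.lf (nat_lit 0) (nat_lit 34583179509) (nat_lit 152) (nat_lit 394163623) (nat_lit 0) (nat_lit 4954595972) (nat_lit 16) (nat_lit 5) (nat_lit 18) (nat_lit 4) (nat_lit 16) (nat_lit 4) (nat_lit 375) (nat_lit 250) (nat_lit 155)) (XT.nd (nat_lit 78) (nat_lit 76) (nat_lit 0) (XT.lf (nat_lit 0) (nat_lit 9431298089)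 (nat_lit 76) (nat_lit 30609994761) (nat_lit 76) (nat_lit 926015181) (nat_lit 15) (nat_lit 4) (nat_lit 16) (nat_lit 5) (nat_lit 16) (nat_lit 4) (nat_lit 376) (nat_lit 250) (nat_lit 154)) (XT.lf (nat_lit 0) (nat_lit 3545818727) (nat_lit 152) (nat_lit 22539750128) (nat_lit 76) (nat_lit 15947510414) (nat_lit 14) (nat_lit 5) (nat_lit 16) (nat_lit 5) (nat_lit 15) (nat_lit 4) (nat_lit 377) (nat_lit 250) (nat_lit 153)))) (XT.nd (nat_lit 156) (nat_lit 76) (nat_lit 0) (XT.nd (nat_lit 78) (nat_lit 0) (nat_lit 0) (XT.lf (nat_lit 0) (nat_lit 8116895049) (nat_lit 152) (nat_lit 13312681276) (nat_lit 76) (nat_lit 21701465929) (nat_lit 14) (nat_lit 5) (nat_lit 16) (nat_lit 5) (nat_lit 15) (nat_lit 4) (nat_lit 378) (nat_lit 250) (nat_lit 152)) (XT.lf (nat_lit 0) (nat_lit 12809277821) (nat_lit 152) (nat_lit 3837839475) (nat_lit 76) (nat_lit 27615306121) (nat_lit 14) (nat_lit 5) (nat_lit 16) (nat_lit 5) (nat_lit 15)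 (nat_lit 4) (nat_lit 379) (nat_lit 250) (nat_lit 151))) (XT.nd (nat_lit 78) (nat_lit 0) (nat_lit 0) (XT.lf (nat_lit 0) (nat_lit 6010337597) (nat_lit 76) (nat_lit 11674504627) (nat_lit 152) (nat_lit 27741635867) (nat_lit 13) (nat_lit 5) (nat_lit 14) (nat_lit 5) (nat_lit 15) (nat_lit 4) (nat_lit 380) (nat_lit 250) (nat_lit 150)) (XT.lf (nat_lit 0) (nat_lit 16204715018) (nat_lit 76) (nat_lit 6525527469) (nat_lit 152) (nat_lit 23894509105) (nat_lit 13) (nat_lit 5) (nat_lit 14) (nat_lit 5) (nat_lit 15) (nat_lit 4) (nat_lit 381) (nat_lit 250) (nat_lit 149))))) (XT.nd (nat_lit 234) (nat_lit 152) (nat_lit 0) (XT.nd (nat_lit 78) (nat_lit 0) (nat_lit 0) (XT.lf (nat_lit 0) (nat_lit 26677819963) (nat_lit 76) (nat_lit 1234441371) (nat_lit 152) (nat_lit 19947158395) (nat_lit 13) (nat_lit 5) (nat_lit 14) (nat_lit 5) (nat_lit 15) (nat_lit 4) (nat_lit 382) (nat_lit 250) (nat_lit 148)) (XT.nd (nat_lit 78) (nat_lit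 0) (nat_lit 0) (XT.lf (nat_lit 0) (nat_lit 33275832173) (nat_lit 152) (nat_lit 11733163081) (nat_lit 0) (nat_lit 4121353922) (nat_lit 13) (nat_lit 5) (nat_lit 15) (nat_lit 4) (nat_lit 13) (nat_lit 4) (nat_lit 383) (nat_lit 250) (nat_lit 147)) (XT.lf (nat_lit 0) (nat_lit 38798523242) (nat_lit 152) (nat_lit 2039352226) (nat_lit 0) (nat_lit 9601588538) (nat_lit 13) (nat_lit 5) (nat_lit 15) (nat_lit 4) (nat_lit 13) (nat_lit 4) (nat_lit 384) (nat_lit 250) (nat_lit 146)))) (XT.nd (nat_lit 156) (nat_lit 76) (nat_lit 0) (XT.nd (nat_lit 78) (nat_lit 0) (nat_lit 0) (XT.lf (nat_lit 0) (nat_lit 8077796223) (nat_lit 76) (nat_lit 36473146484) (nat_lit 76) (nat_lit 7234991922) (nat_lit 12) (nat_lit 4) (nat_lit 13) (nat_lit 5) (nat_lit 13) (nat_lit 4) (nat_lit 385) (nat_lit 250) (nat_lit 145)) (XT.lf (nat_lit 0) (nat_lit 18515406332) (nat_lit 76) (nat_lit 31967678031) (nat_lit 76) (nat_lit 2689504190) (nat_lit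 12) (nat_lit 4) (nat_lit 13) (nat_lit 5) (nat_lit 13) (nat_lit 4) (nat_lit 386) (nat_lit 250) (nat_lit 144))) (XT.nd (nat_lit 78) (nat_lit 0) (nat_lit 0) (XT.lf (nat_lit 0) (nat_lit 1940285277) (nat_lit 152) (nat_lit 25378248396) (nat_lit 76) (nat_lit 27282132879) (nat_lit 11) (nat_lit 5) (nat_lit 13) (nat_lit 5) (nat_lit 12) (nat_lit 4) (nat_lit 387) (nat_lit 250) (nat_lit 143)) (XT.lf (nat_lit 0) (nat_lit 6642111080) (nat_lit 152) (nat_lit 15871264026) (nat_lit 76) (nat_lit 33557800310) (nat_lit 11) (nat_lit 5) (nat_lit 13) (nat_lit 5) (nat_lit 12) (nat_lit 4) (nat_lit 388) (nat_lit 250) (nat_lit 142)))))) (XT.nd (nat_lit 546) (nat_lit 152) (nat_lit 0) (XT.nd (nat_lit 234) (nat_lit 0) (nat_lit 0) (XT.nd (nat_lit 78) (nat_lit 76) (nat_lit 0) (XT.lf (nat_lit 0) (nat_lit 11472563523) (nat_lit 152) (nat_lit 6102068877) (nat_lit 76) (nat_lit 40011543249) (nat_lit 11) (nat_lit 5) (nat_lit 13) (nat_lit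 5) (nat_lit 12) (nat_lit 4) (nat_lit 389) (nat_lit 250) (nat_lit 141)) (XT.nd (nat_lit 78) (nat_lit 0) (nat_lit 0) (XT.lf (nat_lit 0) (nat_lit 4016244638) (nat_lit 76) (nat_lit 12458225351) (nat_lit 152) (nat_lit 42671362851) (nat_lit 10) (nat_lit 5) (nat_lit 11) (nat_lit 5) (nat_lit 12) (nat_lit 4) (nat_lit 390) (nat_lit 250) (nat_lit 140)) (XT.lf (nat_lit 0) (nat_lit 14541084014) (nat_lit 76) (nat_lit 7135041324) (nat_lit 152) (nat_lit 39074666731) (nat_lit 10) (nat_lit 5) (nat_lit 11) (nat_lit 5) (nat_lit 12) (nat_lit 4) (nat_lit 391) (nat_lit 250) (nat_lit 139)))) (XT.nd (nat_lit 156) (nat_lit 0) (nat_lit 0) (XT.nd (nat_lit 78) (nat_lit 0) (nat_lit 0) (XT.lf (nat_lit 0) (nat_lit 25360202576) (nat_lit 76) (nat_lit 1662047924) (nat_lit 152) (nat_lit 35381999954) (nat_lit 10) (nat_lit 5) (nat_lit 11) (nat_lit 5) (nat_lit 12) (nat_lit 4) (nat_lit 392) (nat_lit 250) (nat_lit 138)) (XT.lf (nat_lit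 0) (nat_lit 32555636015) (nat_lit 152) (nat_lit 27662718010) (nat_lit 0) (nat_lit 3888155164) (nat_lit 10) (nat_lit 5) (nat_lit 12) (nat_lit 4) (nat_lit 10) (nat_lit 4) (nat_lit 393) (nat_lit 250) (nat_lit 137))) (XT.nd (nat_lit 78) (nat_lit 0) (nat_lit 0) (XT.lf (nat_lit 0) (nat_lit 38260474322) (nat_lit 152) (nat_lit 18036878614) (nat_lit 0) (nat_lit 9562322025) (nat_lit 10) (nat_lit 5) (nat_lit 12) (nat_lit 4) (nat_lit 10) (nat_lit 4) (nat_lit 394) (nat_lit 250) (nat_lit 136)) (XT.lf (nat_lit 0) (nat_lit 44125773609) (nat_lit 152) (nat_lit 8142142141) (nat_lit 0) (nat_lit 15397843210) (nat_lit 10) (nat_lit 5) (nat_lit 12) (nat_lit 4) (nat_lit 10) (nat_lit 4) (nat_lit 395) (nat_lit 250) (nat_lit 135))))) (XT.nd (nat_lit 234) (nat_lit 76) (nat_lit 0) (XT.nd (nat_lit 78) (nat_lit 0) (nat_lit 0) (XT.lf (nat_lit 0) (nat_lit 2070541007) (nat_lit 76) (nat_lit 48106021196) (nat_lit 76) (nat_lit 19349180017)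 (nat_lit 9) (nat_lit 4) (nat_lit 10) (nat_lit 5) (nat_lit 10) (nat_lit 4) (nat_lit 396) (nat_lit 250) (nat_lit 134)) (XT.nd (nat_lit 78) (nat_lit 0) (nat_lit 0) (XT.lf (nat_lit 0) (nat_lit 12737400657) (nat_lit 76) (nat_lit 43743438918) (nat_lit 76) (nat_lit 14958529022) (nat_lit 9) (nat_lit 4) (nat_lit 10) (nat_lit 5) (nat_lit 10) (nat_lit 4) (nat_lit 397) (nat_lit 250) (nat_lit 133)) (XT.lf (nat_lit 0) (nat_lit 23705712773) (nat_lit 76) (nat_lit 39258576623) (nat_lit 76) (nat_lit 10446415545) (nat_lit 9) (nat_lit 4) (nat_lit 10) (nat_lit 5) (nat_lit 10) (nat_lit 4) (nat_lit 398) (nat_lit 250) (nat_lit 132)))) (XT.nd (nat_lit 156) (nat_lit 76) (nat_lit 0) (XT.nd (nat_lit 78) (nat_lit 0) (nat_lit 0) (XT.lf (nat_lit 0) (nat_lit 34985061316) (nat_lit 76) (nat_lit 34647515499) (nat_lit 76) (nat_lit 5808896963) (nat_lit 9) (nat_lit 4) (nat_lit 10) (nat_lit 5) (nat_lit 10) (nat_lit 4) (nat_lit 399)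 (nat_lit 250) (nat_lit 131)) (XT.lf (nat_lit 0) (nat_lit 46585302027) (nat_lit 76) (nat_lit 29906226464) (nat_lit 76) (nat_lit 1041921075) (nat_lit 9) (nat_lit 4) (nat_lit 10) (nat_lit 5) (nat_lit 10) (nat_lit 4) (nat_lit 400) (nat_lit 250) (nat_lit 130))) (XT.nd (nat_lit 78) (nat_lit 0) (nat_lit 0) (XT.lf (nat_lit 0) (nat_lit 3783380742) (nat_lit 152) (nat_lit 21208981173) (nat_lit 76) (nat_lit 54694985570) (nat_lit 8) (nat_lit 5) (nat_lit 10) (nat_lit 5) (nat_lit 9) (nat_lit 4) (nat_lit 401) (nat_lit 250) (nat_lit 129)) (XT.lf (nat_lit 0) (nat_lit 8723564611) (nat_lit 152) (nat_lit 11204620242) (nat_lit 76) (nat_lit 61977638225) (nat_lit 8) (nat_lit 5) (nat_lit 10) (nat_lit 5) (nat_lit 9) (nat_lit 4) (nat_lit 402) (nat_lit 250) (nat_lit 128))))))))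
noncomputable def xc80 : XT := (XT.nd (nat_lit 32292) (nat_lit 0) (nat_lit 4256) (XT.nd (nat_lit 31200) (nat_lit 0) (nat_lit 11096) (XT.nd (nat_lit 468) (nat_lit 0) (nat_lit 0) (XT.nd (nat_lit 234) (nat_lit 0) (nat_lit 0) (XT.nd (nat_lit 78) (nat_lit 76) (nat_lit 0) (XT.lf (nat_lit 0) (nat_lit 13803278829) (nat_lit 152) (nat_lit 916307488) (nat_lit 76) (nat_lit 69471528969) (nat_lit 8) (nat_lit 5) (nat_lit 10) (nat_lit 5) (nat_lit 9) (nat_lit 4) (nat_lit 403) (nat_lit 250) (nat_lit 127)) (XT.nd (nat_lit 78) (nat_lit 0) (nat_lit 0) (XT.lf (nat_lit 0) (nat_lit 9857298268) (nat_lit 76) (nat_lit 9264418094) (nat_lit 152) (nat_lit 67420661973) (nat_lit 7) (nat_lit 5) (nat_lit 8) (nat_lit 5) (nat_lit 9) (nat_lit 4) (nat_lit 404) (nat_lit 250) (nat_lit 126)) (XT.lf (nat_lit 0) (nat_lit 20957341828) (nat_lit 76) (nat_lit 3643291413) (nat_lit 152) (nat_lit 64363520220) (nat_lit 7) (nat_lit 5) (nat_lit 8)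 (nat_lit 5) (nat_lit 9) (nat_lit 4) (nat_lit 405) (nat_lit 250) (nat_lit 125)))) (XT.nd (nat_lit 78) (nat_lit 0) (nat_lit 0) (XT.lf (nat_lit 0) (nat_lit 30256399189) (nat_lit 152) (nat_lit 59104106065) (nat_lit 0) (nat_lit 2097704055) (nat_lit 7) (nat_lit 5) (nat_lit 9) (nat_lit 4) (nat_lit 7) (nat_lit 4) (nat_lit 406) (nat_lit 250) (nat_lit 124)) (XT.nd (nat_lit 78) (nat_lit 0) (nat_lit 0) (XT.lf (nat_lit 0) (nat_lit 36109996120) (nat_lit 152) (nat_lit 49985224282) (nat_lit 0) (nat_lit 7931023548) (nat_lit 7) (nat_lit 5) (nat_lit 9) (nat_lit 4) (nat_lit 7) (nat_lit 4) (nat_lit 407) (nat_lit 250) (nat_lit 123)) (XT.lf (nat_lit 0) (nat_lit 42131517284) (nat_lit 152) (nat_lit 40607176786) (nat_lit 0) (nat_lit 13932857878) (nat_lit 7) (nat_lit 5) (nat_lit 9) (nat_lit 4) (nat_lit 7) (nat_lit 4) (nat_lit 408) (nat_lit 250) (nat_lit 122))))) (XT.nd (nat_lit 30420) (nat_lit 0) (nat_lit 18392) (XT.nd (nat_lit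 78) (nat_lit 0) (nat_lit 0) (XT.lf (nat_lit 0) (nat_lit 48326224203) (nat_lit 152) (nat_lit 30961769164) (nat_lit 0) (nat_lit 20108451366) (nat_lit 7) (nat_lit 5) (nat_lit 9) (nat_lit 4) (nat_lit 7) (nat_lit 4) (nat_lit 409) (nat_lit 250) (nat_lit 121)) (XT.nd (nat_lit 78) (nat_lit 0) (nat_lit 0) (XT.lf (nat_lit 0) (nat_lit 54699529727) (nat_lit 152) (nat_lit 21040573392) (nat_lit 0) (nat_lit 26463200162) (nat_lit 7) (nat_lit 5) (nat_lit 9) (nat_lit 4) (nat_lit 7) (nat_lit 4) (nat_lit 410) (nat_lit 250) (nat_lit 120)) (XT.lf (nat_lit 0) (nat_lit 61257002766) (nat_lit 152) (nat_lit 10834920462) (nat_lit 0) (nat_lit 33002656958) (nat_lit 7) (nat_lit 5) (nat_lit 9) (nat_lit 4) (nat_lit 7) (nat_lit 4) (nat_lit 411) (nat_lit 250) (nat_lit 119)))) (XT.nd (nat_lit 156) (nat_lit 912) (nat_lit 0) (XT.nd (nat_lit 78) (nat_lit 836) (nat_lit 0) (XT.lf (nat_lit 0) (nat_lit 3118637980) (nat_lit 684) (nat_lit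 142608021) (nat_lit 684) (nat_lit 142608021) (nat_lit 272) (nat_lit 4) (nat_lit 281) (nat_lit 5) (nat_lit 281) (nat_lit 4) (nat_lit 278) (nat_lit 251) (nat_lit 251)) (XT.lf (nat_lit 0) (nat_lit 2836834742) (nat_lit 836) (nat_lit 3099185964) (nat_lit 0) (nat_lit 913983431) (nat_lit 261) (nat_lit 5) (nat_lit 272) (nat_lit 4) (nat_lit 261) (nat_lit 4) (nat_lit 279) (nat_lit 251) (nat_lit 250))) (XT.nd (nat_lit 78) (nat_lit 76) (nat_lit 0) (XT.lf (nat_lit 0) (nat_lit 1251647076) (nat_lit 836) (nat_lit 4717024990) (nat_lit 836) (nat_lit 927327747) (nat_lit 250) (nat_lit 4) (nat_lit 261) (nat_lit 5) (nat_lit 261) (nat_lit 4) (nat_lit 280) (nat_lit 251) (nat_lit 249)) (XT.lf (nat_lit 0) (nat_lit 2140880933) (nat_lit 912) (nat_lit 1256180727) (nat_lit 76) (nat_lit 3547814298) (nat_lit 249) (nat_lit 5) (nat_lit 261) (nat_lit 5) (nat_lit 250) (nat_lit 4) (nat_lit 281) (nat_lit 251) (nat_lit 248)))))) (XT.nd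 (nat_lit 546) (nat_lit 2280) (nat_lit 0) (XT.nd (nat_lit 234) (nat_lit 3040) (nat_lit 0) (XT.nd (nat_lit 78) (nat_lit 1064) (nat_lit 0) (XT.lf (nat_lit 0) (nat_lit 3231760089) (nat_lit 912) (nat_lit 1986767226) (nat_lit 988) (nat_lit 1778491359) (nat_lit 237) (nat_lit 5) (nat_lit 249) (nat_lit 5) (nat_lit 250) (nat_lit 4) (nat_lit 282) (nat_lit 251) (nat_lit 247)) (XT.nd (nat_lit 78) (nat_lit 0) (nat_lit 0) (XT.lf (nat_lit 0) (nat_lit 744345308) (nat_lit 988) (nat_lit 493138104) (nat_lit 1064) (nat_lit 5815229781) (nat_lit 223) (nat_lit 5) (nat_lit 236) (nat_lit 5) (nat_lit 237) (nat_lit 5) (nat_lit 283) (nat_lit 251) (nat_lit 246)) (XT.lf (nat_lit 0) (nat_lit 4264456954) (nat_lit 1064) (nat_lit 1759606050) (nat_lit 76) (nat_lit 1086942648) (nat_lit 223) (nat_lit 5) (nat_lit 237) (nat_lit 5) (nat_lit 224) (nat_lit 4) (nat_lit 284) (nat_lit 251) (nat_lit 245)))) (XT.nd (nat_lit 156) (nat_lit 760)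 (nat_lit 0) (XT.nd (nat_lit 78) (nat_lit 1140) (nat_lit 0) (XT.lf (nat_lit 0) (nat_lit 149546230) (nat_lit 1140) (nat_lit 4283675660) (nat_lit 76) (nat_lit 2739624961) (nat_lit 208) (nat_lit 5) (nat_lit 223) (nat_lit 5) (nat_lit 209) (nat_lit 5) (nat_lit 285) (nat_lit 251) (nat_lit 244)) (XT.lf (nat_lit 0) (nat_lit 368797270) (nat_lit 1140) (nat_lit 2742290396) (nat_lit 1216) (nat_lit 4126757987) (nat_lit 193) (nat_lit 5) (nat_lit 208) (nat_lit 5) (nat_lit 209) (nat_lit 5) (nat_lit 286) (nat_lit 251) (nat_lit 243))) (XT.nd (nat_lit 78) (nat_lit 760) (nat_lit 0) (XT.lf (nat_lit 0) (nat_lit 5162002059) (nat_lit 1140) (nat_lit 955767788) (nat_lit 1216) (nat_lit 1188463087) (nat_lit 193) (nat_lit 5) (nat_lit 208) (nat_lit 5) (nat_lit 209) (nat_lit 5) (nat_lit 287) (nat_lit 251) (nat_lit 242)) (XT.lf (nat_lit 0) (nat_lit 1751326837) (nat_lit 760) (nat_lit 4716145939) (nat_lit 76) (nat_lit 910312709)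 (nat_lit 183) (nat_lit 5) (nat_lit 193) (nat_lit 5) (nat_lit 184) (nat_lit 5) (nat_lit 288) (nat_lit 251) (nat_lit 241))))) (XT.nd (nat_lit 234) (nat_lit 1064) (nat_lit 0) (XT.nd (nat_lit 78) (nat_lit 608) (nat_lit 0) (XT.lf (nat_lit 0) (nat_lit 97543636) (nat_lit 608) (nat_lit 4606416535) (nat_lit 684) (nat_lit 2748831877) (nat_lit 175) (nat_lit 5) (nat_lit 183) (nat_lit 5) (nat_lit 184) (nat_lit 5) (nat_lit 289) (nat_lit 251) (nat_lit 240)) (XT.nd (nat_lit 78) (nat_lit 532) (nat_lit 0) (XT.lf (nat_lit 0) (nat_lit 175969968) (nat_lit 684) (nat_lit 2467463052) (nat_lit 76) (nat_lit 4887712280) (nat_lit 174) (nat_lit 5) (nat_lit 183) (nat_lit 5) (nat_lit 175) (nat_lit 5) (nat_lit 290) (nat_lit 251) (nat_lit 239)) (XT.lf (nat_lit 0) (nat_lit 2502530570) (nat_lit 532) (nat_lit 574160084) (nat_lit 608) (nat_lit 4536145957) (nat_lit 167) (nat_lit 5) (nat_lit 174) (nat_lit 5) (nat_lit 175) (nat_lit 5)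 (nat_lit 291) (nat_lit 251) (nat_lit 238)))) (XT.nd (nat_lit 156) (nat_lit 456) (nat_lit 0) (XT.nd (nat_lit 78) (nat_lit 608) (nat_lit 0) (XT.lf (nat_lit 0) (nat_lit 6025403528) (nat_lit 608) (nat_lit 126858964) (nat_lit 76) (nat_lit 1545990601) (nat_lit 167) (nat_lit 5) (nat_lit 175) (nat_lit 5) (nat_lit 168) (nat_lit 5) (nat_lit 292) (nat_lit 251) (nat_lit 237)) (XT.lf (nat_lit 0) (nat_lit 1228132213) (nat_lit 608) (nat_lit 2785895888) (nat_lit 76) (nat_lit 3772632720) (nat_lit 159) (nat_lit 5) (nat_lit 167) (nat_lit 5) (nat_lit 160) (nat_lit 5) (nat_lit 293) (nat_lit 251) (nat_lit 236))) (XT.nd (nat_lit 78) (nat_lit 0) (nat_lit 0) (XT.lf (nat_lit 0) (nat_lit 2350584757) (nat_lit 456) (nat_lit 1779555699) (nat_lit 532) (nat_lit 3748749613) (nat_lit 153) (nat_lit 5) (nat_lit 159) (nat_lit 5) (nat_lit 160) (nat_lit 5) (nat_lit 294) (nat_lit 251) (nat_lit 235)) (XT.lf (nat_lit 0) (nat_lit 7077674441)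 (nat_lit 532) (nat_lit 367312770) (nat_lit 76) (nat_lit 530237018) (nat_lit 153) (nat_lit 5) (nat_lit 160) (nat_lit 5) (nat_lit 154) (nat_lit 5) (nat_lit 295) (nat_lit 251) (nat_lit 234))))))) (XT.nd (nat_lit 1092) (nat_lit 2736) (nat_lit 0) (XT.nd (nat_lit 546) (nat_lit 1596) (nat_lit 0) (XT.nd (nat_lit 234) (nat_lit 1444) (nat_lit 0) (XT.nd (nat_lit 78) (nat_lit 456) (nat_lit 0) (XT.lf (nat_lit 0) (nat_lit 1991582814) (nat_lit 608) (nat_lit 3151655258) (nat_lit 76) (nat_lit 2930943344) (nat_lit 145) (nat_lit 5) (nat_lit 153) (nat_lit 5) (nat_lit 146) (nat_lit 5) (nat_lit 296) (nat_lit 251) (nat_lit 233)) (XT.nd (nat_lit 78) (nat_lit 0) (nat_lit 0) (XT.lf (nat_lit 0) (nat_lit 2150235787) (nat_lit 456) (nat_lit 2751270876) (nat_lit 532) (nat_lit 3275853537) (nat_lit 139) (nat_lit 5) (nat_lit 145) (nat_lit 5) (nat_lit 146) (nat_lit 5) (nat_lit 297) (nat_lit 251) (nat_lit 232)) (XT.lf (nat_lit 0)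 (nat_lit 7591233133) (nat_lit 456) (nat_lit 268354316) (nat_lit 532) (nat_lit 425302862) (nat_lit 139) (nat_lit 5) (nat_lit 145) (nat_lit 5) (nat_lit 146) (nat_lit 5) (nat_lit 298) (nat_lit 251) (nat_lit 231)))) (XT.nd (nat_lit 156) (nat_lit 532) (nat_lit 0) (XT.nd (nat_lit 78) (nat_lit 380) (nat_lit 0) (XT.lf (nat_lit 0) (nat_lit 2460676728) (nat_lit 532) (nat_lit 3632769012) (nat_lit 76) (nat_lit 2301586390) (nat_lit 132) (nat_lit 5) (nat_lit 139) (nat_lit 5) (nat_lit 133) (nat_lit 5) (nat_lit 299) (nat_lit 251) (nat_lit 230)) (XT.lf (nat_lit 0) (nat_lit 1831894165) (nat_lit 380) (nat_lit 3551570256) (nat_lit 456) (nat_lit 3126198953) (nat_lit 127) (nat_lit 5) (nat_lit 132) (nat_lit 5) (nat_lit 133) (nat_lit 5) (nat_lit 300) (nat_lit 251) (nat_lit 229))) (XT.nd (nat_lit 78) (nat_lit 532) (nat_lit 0) (XT.lf (nat_lit 0) (nat_lit 7451068415) (nat_lit 380) (nat_lit 912178388) (nat_lit 456) (nat_lit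 265480049) (nat_lit 127) (nat_lit 5) (nat_lit 132) (nat_lit 5) (nat_lit 133) (nat_lit 5) (nat_lit 301) (nat_lit 251) (nat_lit 228)) (XT.lf (nat_lit 0) (nat_lit 2623429658) (nat_lit 532) (nat_lit 4303243873) (nat_lit 76) (nat_lit 1824143407) (nat_lit 120) (nat_lit 5) (nat_lit 127) (nat_lit 5) (nat_lit 121) (nat_lit 5) (nat_lit 302) (nat_lit 251) (nat_lit 227))))) (XT.nd (nat_lit 234) (nat_lit 760) (nat_lit 0) (XT.nd (nat_lit 78) (nat_lit 456) (nat_lit 0) (XT.lf (nat_lit 0) (nat_lit 1319583288) (nat_lit 380) (nat_lit 4242659932) (nat_lit 456) (nat_lit 3315256940) (nat_lit 115) (nat_lit 5) (nat_lit 120) (nat_lit 5) (nat_lit 121) (nat_lit 5) (nat_lit 303) (nat_lit 251) (nat_lit 226)) (XT.nd (nat_lit 78) (nat_lit 456) (nat_lit 0) (XT.lf (nat_lit 0) (nat_lit 7116251682) (nat_lit 380) (nat_lit 1452369678) (nat_lit 456) (nat_lit 440045042) (nat_lit 115) (nat_lit 5) (nat_lit 120) (nat_lit 5) (nat_lit 121)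 (nat_lit 5) (nat_lit 304) (nat_lit 251) (nat_lit 225)) (XT.lf (nat_lit 0) (nat_lit 2461066392) (nat_lit 456) (nat_lit 5244725895) (nat_lit 76) (nat_lit 1437643687) (nat_lit 109) (nat_lit 5) (nat_lit 115) (nat_lit 5) (nat_lit 110) (nat_lit 5) (nat_lit 305) (nat_lit 251) (nat_lit 224)))) (XT.nd (nat_lit 156) (nat_lit 456) (nat_lit 0) (XT.nd (nat_lit 78) (nat_lit 0) (nat_lit 0) (XT.lf (nat_lit 0) (nat_lit 529213826) (nat_lit 304) (nat_lit 4887918330) (nat_lit 380) (nat_lit 3865741857) (nat_lit 105) (nat_lit 5) (nat_lit 109) (nat_lit 5) (nat_lit 110) (nat_lit 5) (nat_lit 306) (nat_lit 251) (nat_lit 223)) (XT.lf (nat_lit 0) (nat_lit 6501822972) (nat_lit 304) (nat_lit 1952034941) (nat_lit 380) (nat_lit 972935272) (nat_lit 105) (nat_lit 5) (nat_lit 109) (nat_lit 5) (nat_lit 110) (nat_lit 5) (nat_lit 307) (nat_lit 251) (nat_lit 222))) (XT.nd (nat_lit 78) (nat_lit 0) (nat_lit 0) (XT.lf (nat_lit 0) (nat_lit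 1947431769) (nat_lit 456) (nat_lit 6548355069) (nat_lit 76) (nat_lit 1079320458) (nat_lit 99) (nat_lit 5) (nat_lit 105) (nat_lit 5) (nat_lit 100) (nat_lit 5) (nat_lit 308) (nat_lit 251) (nat_lit 221)) (XT.lf (nat_lit 0) (nat_lit 4925931492) (nat_lit 456) (nat_lit 620988628) (nat_lit 76) (nat_lit 4181011886) (nat_lit 99) (nat_lit 5) (nat_lit 105) (nat_lit 5) (nat_lit 100) (nat_lit 5) (nat_lit 309) (nat_lit 251) (nat_lit 220)))))) (XT.nd (nat_lit 546) (nat_lit 1140) (nat_lit 0) (XT.nd (nat_lit 234) (nat_lit 912) (nat_lit 0) (XT.nd (nat_lit 78) (nat_lit 380) (nat_lit 0) (XT.lf (nat_lit 0) (nat_lit 5512409741) (nat_lit 304) (nat_lit 2477006597) (nat_lit 380) (nat_lit 1896107152) (nat_lit 95) (nat_lit 5) (nat_lit 99) (nat_lit 5) (nat_lit 100) (nat_lit 5) (nat_lit 310) (nat_lit 251) (nat_lit 219)) (XT.nd (nat_lit 78) (nat_lit 0) (nat_lit 0) (XT.lf (nat_lit 0) (nat_lit 1048249485) (nat_lit 380) (nat_lit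 8316853407) (nat_lit 76) (nat_lit 683290737) (nat_lit 90) (nat_lit 5) (nat_lit 95) (nat_lit 5) (nat_lit 91) (nat_lit 5) (nat_lit 311) (nat_lit 251) (nat_lit 218)) (XT.lf (nat_lit 0) (nat_lit 4055581303) (nat_lit 380) (nat_lit 2230073178) (nat_lit 76) (nat_lit 3929596175) (nat_lit 90) (nat_lit 5) (nat_lit 95) (nat_lit 5) (nat_lit 91) (nat_lit 5) (nat_lit 312) (nat_lit 251) (nat_lit 217)))) (XT.nd (nat_lit 156) (nat_lit 608) (nat_lit 0) (XT.nd (nat_lit 78) (nat_lit 0) (nat_lit 0) (XT.lf (nat_lit 0) (nat_lit 4039998704) (nat_lit 304) (nat_lit 3097243523) (nat_lit 380) (nat_lit 3250393150) (nat_lit 86) (nat_lit 5) (nat_lit 90) (nat_lit 5) (nat_lit 91) (nat_lit 5) (nat_lit 313) (nat_lit 251) (nat_lit 216)) (XT.lf (nat_lit 0) (nat_lit 10281789531) (nat_lit 380) (nat_lit 101462593) (nat_lit 76) (nat_lit 182870359) (nat_lit 86) (nat_lit 5) (nat_lit 91) (nat_lit 5) (nat_lit 87) (nat_lit 5) (nat_lit 314)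 (nat_lit 251) (nat_lit 215))) (XT.nd (nat_lit 78) (nat_lit 228) (nat_lit 0) (XT.lf (nat_lit 0) (nat_lit 2756157009) (nat_lit 380) (nat_lit 4427053301) (nat_lit 76) (nat_lit 3564810864) (nat_lit 81) (nat_lit 5) (nat_lit 86) (nat_lit 5) (nat_lit 82) (nat_lit 5) (nat_lit 315) (nat_lit 251) (nat_lit 214)) (XT.lf (nat_lit 0) (nat_lit 1961404123) (nat_lit 228) (nat_lit 3888354650) (nat_lit 304) (nat_lit 5086545450) (nat_lit 78) (nat_lit 5) (nat_lit 81) (nat_lit 5) (nat_lit 82) (nat_lit 5) (nat_lit 316) (nat_lit 251) (nat_lit 213))))) (XT.nd (nat_lit 234) (nat_lit 760) (nat_lit 0) (XT.nd (nat_lit 78) (nat_lit 380) (nat_lit 0) (XT.lf (nat_lit 0) (nat_lit 8556169290) (nat_lit 228) (nat_lit 473217987) (nat_lit 304) (nat_lit 2101090967) (nat_lit 78) (nat_lit 5) (nat_lit 81) (nat_lit 5) (nat_lit 82) (nat_lit 5) (nat_lit 317) (nat_lit 251) (nat_lit 212)) (XT.nd (nat_lit 78) (nat_lit 0) (nat_lit 0) (XT.lf (nat_lit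 0) (nat_lit 972477097) (nat_lit 380) (nat_lit 7347785746) (nat_lit 76) (nat_lit 3009443938) (nat_lit 73) (nat_lit 5) (nat_lit 78) (nat_lit 5) (nat_lit 74) (nat_lit 5) (nat_lit 318) (nat_lit 251) (nat_lit 211)) (XT.lf (nat_lit 0) (nat_lit 4076965637) (nat_lit 380) (nat_lit 847750404) (nat_lit 76) (nat_lit 6610179476) (nat_lit 73) (nat_lit 5) (nat_lit 78) (nat_lit 5) (nat_lit 74) (nat_lit 5) (nat_lit 319) (nat_lit 251) (nat_lit 210)))) (XT.nd (nat_lit 156) (nat_lit 304) (nat_lit 0) (XT.nd (nat_lit 78) (nat_lit 228) (nat_lit 0) (XT.lf (nat_lit 0) (nat_lit 5888917225) (nat_lit 228) (nat_lit 1393740745) (nat_lit 304) (nat_lit 4463374557) (nat_lit 70) (nat_lit 5) (nat_lit 73) (nat_lit 5) (nat_lit 74) (nat_lit 5) (nat_lit 320) (nat_lit 251) (nat_lit 209)) (XT.lf (nat_lit 0) (nat_lit 802024247) (nat_lit 228) (nat_lit 9772354059) (nat_lit 304) (nat_lit 1389463301) (nat_lit 67) (nat_lit 5) (nat_lit 70) (nat_lit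 5) (nat_lit 71) (nat_lit 5) (nat_lit 321) (nat_lit 251) (nat_lit 208))) (XT.nd (nat_lit 78) (nat_lit 228) (nat_lit 0) (XT.lf (nat_lit 0) (nat_lit 1767662604) (nat_lit 304) (nat_lit 4510926566) (nat_lit 76) (nat_lit 5908345187) (nat_lit 66) (nat_lit 5) (nat_lit 70) (nat_lit 5) (nat_lit 67) (nat_lit 5) (nat_lit 322) (nat_lit 251) (nat_lit 207)) (XT.lf (nat_lit 0) (nat_lit 2298690920) (nat_lit 228) (nat_lit 2668511107) (nat_lit 304) (nat_lit 7449867172) (nat_lit 63) (nat_lit 5) (nat_lit 66) (nat_lit 5) (nat_lit 67) (nat_lit 5) (nat_lit 323) (nat_lit 251) (nat_lit 206))))))))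
noncomputable def xc81 : XT := (XT.nd (nat_lit 2184) (nat_lit 1140) (nat_lit 0) (XT.nd (nat_lit 1092) (nat_lit 1064) (nat_lit 0) (XT.nd (nat_lit 546) (nat_lit 760) (nat_lit 0) (XT.nd (nat_lit 234) (nat_lit 456) (nat_lit 0) (XT.nd (nat_lit 78) (nat_lit 304) (nat_lit 0) (XT.lf (nat_lit 0) (nat_lit 8272777330) (nat_lit 304) (nat_lit 3330571695) (nat_lit 76) (nat_lit 1050487490) (nat_lit 63) (nat_lit 5) (nat_lit 67) (nat_lit 5) (nat_lit 64) (nat_lit 5) (nat_lit 324) (nat_lit 251) (nat_lit 205)) (XT.nd (nat_lit 78) (nat_lit 76) (nat_lit 0) (XT.lf (nat_lit 0) (nat_lit 3635136511) (nat_lit 228) (nat_lit 8059043742) (nat_lit 304) (nat_lit 1203055838) (nat_lit 60) (nat_lit 5) (nat_lit 63) (nat_lit 5) (nat_lit 64) (nat_lit 5) (nat_lit 325) (nat_lit 251) (nat_lit 204)) (XT.lf (nat_lit 0) (nat_lit 2019319808) (nat_lit 304) (nat_lit 2359544421) (nat_lit 76) (nat_lit 8768820850) (nat_lit 59) (nat_lit 5) (nat_lit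 63) (nat_lit 5) (nat_lit 60) (nat_lit 5) (nat_lit 326) (nat_lit 251) (nat_lit 203)))) (XT.nd (nat_lit 156) (nat_lit 304) (nat_lit 0) (XT.nd (nat_lit 78) (nat_lit 0) (nat_lit 0) (XT.lf (nat_lit 0) (nat_lit 4762694544) (nat_lit 152) (nat_lit 554036727) (nat_lit 228) (nat_lit 8088509164) (nat_lit 57) (nat_lit 5) (nat_lit 59) (nat_lit 5) (nat_lit 60) (nat_lit 5) (nat_lit 327) (nat_lit 251) (nat_lit 202)) (XT.lf (nat_lit 0) (nat_lit 8726801086) (nat_lit 228) (nat_lit 1624429552) (nat_lit 76) (nat_lit 3318905544) (nat_lit 57) (nat_lit 5) (nat_lit 60) (nat_lit 5) (nat_lit 58) (nat_lit 5) (nat_lit 328) (nat_lit 251) (nat_lit 201))) (XT.nd (nat_lit 78) (nat_lit 76) (nat_lit 0) (XT.lf (nat_lit 0) (nat_lit 5642034202) (nat_lit 228) (nat_lit 6615237130) (nat_lit 304) (nat_lit 1685189577) (nat_lit 54) (nat_lit 5) (nat_lit 57) (nat_lit 5) (nat_lit 58) (nat_lit 5) (nat_lit 329) (nat_lit 251) (nat_lit 200)) (XT.lf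 (nat_lit 0) (nat_lit 1613189182) (nat_lit 304) (nat_lit 1145895463) (nat_lit 76) (nat_lit 11464159852) (nat_lit 53) (nat_lit 5) (nat_lit 57) (nat_lit 5) (nat_lit 54) (nat_lit 5) (nat_lit 330) (nat_lit 251) (nat_lit 199))))) (XT.nd (nat_lit 234) (nat_lit 380) (nat_lit 0) (XT.nd (nat_lit 78) (nat_lit 228) (nat_lit 0) (XT.lf (nat_lit 0) (nat_lit 5008772981) (nat_lit 228) (nat_lit 8259790795) (nat_lit 76) (nat_lit 1242446467) (nat_lit 51) (nat_lit 5) (nat_lit 54) (nat_lit 5) (nat_lit 52) (nat_lit 5) (nat_lit 331) (nat_lit 251) (nat_lit 198)) (XT.nd (nat_lit 78) (nat_lit 228) (nat_lit 0) (XT.lf (nat_lit 0) (nat_lit 8505276419) (nat_lit 228) (nat_lit 1006144631) (nat_lit 76) (nat_lit 5296038612) (nat_lit 51) (nat_lit 5) (nat_lit 54) (nat_lit 5) (nat_lit 52) (nat_lit 5) (nat_lit 332) (nat_lit 251) (nat_lit 197)) (XT.lf (nat_lit 0) (nat_lit 6529032247) (nat_lit 228) (nat_lit 5601615988) (nat_lit 304) (nat_lit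 2981456747) (nat_lit 48) (nat_lit 5) (nat_lit 51) (nat_lit 5) (nat_lit 52) (nat_lit 5) (nat_lit 333) (nat_lit 251) (nat_lit 196)))) (XT.nd (nat_lit 156) (nat_lit 152) (nat_lit 0) (XT.nd (nat_lit 78) (nat_lit 152) (nat_lit 0) (XT.lf (nat_lit 0) (nat_lit 401926165) (nat_lit 304) (nat_lit 1182665971) (nat_lit 76) (nat_lit 13842043361) (nat_lit 47) (nat_lit 5) (nat_lit 51) (nat_lit 5) (nat_lit 48) (nat_lit 5) (nat_lit 334) (nat_lit 251) (nat_lit 195)) (XT.lf (nat_lit 0) (nat_lit 3876805905) (nat_lit 228) (nat_lit 9299427912) (nat_lit 76) (nat_lit 2572004723) (nat_lit 45) (nat_lit 5) (nat_lit 48) (nat_lit 5) (nat_lit 46) (nat_lit 5) (nat_lit 335) (nat_lit 251) (nat_lit 194))) (XT.nd (nat_lit 78) (nat_lit 152) (nat_lit 0) (XT.lf (nat_lit 0) (nat_lit 7446419097) (nat_lit 228) (nat_lit 1823552793) (nat_lit 76) (nat_lit 6809822377) (nat_lit 45) (nat_lit 5) (nat_lit 48) (nat_lit 5) (nat_lit 46) (nat_lit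 5) (nat_lit 336) (nat_lit 251) (nat_lit 193)) (XT.lf (nat_lit 0) (nat_lit 5932073988) (nat_lit 152) (nat_lit 5211891923) (nat_lit 228) (nat_lit 5276724043) (nat_lit 43) (nat_lit 5) (nat_lit 45) (nat_lit 5) (nat_lit 46) (nat_lit 5) (nat_lit 337) (nat_lit 251) (nat_lit 192)))))) (XT.nd (nat_lit 546) (nat_lit 456) (nat_lit 0) (XT.nd (nat_lit 234) (nat_lit 380) (nat_lit 0) (XT.nd (nat_lit 78) (nat_lit 228) (nat_lit 0) (XT.lf (nat_lit 0) (nat_lit 13898060883) (nat_lit 152) (nat_lit 1037094996) (nat_lit 228) (nat_lit 1837193233) (nat_lit 43) (nat_lit 5) (nat_lit 45) (nat_lit 5) (nat_lit 46) (nat_lit 5) (nat_lit 338) (nat_lit 251) (nat_lit 191)) (XT.nd (nat_lit 78) (nat_lit 0) (nat_lit 0) (XT.lf (nat_lit 0) (nat_lit 1716974436) (nat_lit 228) (nat_lit 12174671963) (nat_lit 76) (nat_lit 3241094918) (nat_lit 40) (nat_lit 5) (nat_lit 43) (nat_lit 5) (nat_lit 41) (nat_lit 5) (nat_lit 339) (nat_lit 251) (nat_lit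 190)) (XT.lf (nat_lit 0) (nat_lit 5345638817) (nat_lit 228) (nat_lit 4506419555) (nat_lit 76) (nat_lit 7651213858) (nat_lit 40) (nat_lit 5) (nat_lit 43) (nat_lit 5) (nat_lit 41) (nat_lit 5) (nat_lit 340) (nat_lit 251) (nat_lit 189)))) (XT.nd (nat_lit 156) (nat_lit 228) (nat_lit 0) (XT.nd (nat_lit 78) (nat_lit 0) (nat_lit 0) (XT.lf (nat_lit 0) (nat_lit 3401046022) (nat_lit 152) (nat_lit 5681040266) (nat_lit 228) (nat_lit 8802881173) (nat_lit 38) (nat_lit 5) (nat_lit 40) (nat_lit 5) (nat_lit 41) (nat_lit 5) (nat_lit 341) (nat_lit 251) (nat_lit 188)) (XT.lf (nat_lit 0) (nat_lit 11581472485) (nat_lit 152) (nat_lit 1361330049) (nat_lit 228) (nat_lit 5334961369) (nat_lit 38) (nat_lit 5) (nat_lit 40) (nat_lit 5) (nat_lit 41) (nat_lit 5) (nat_lit 342) (nat_lit 251) (nat_lit 187))) (XT.nd (nat_lit 78) (nat_lit 76) (nat_lit 0) (XT.lf (nat_lit 0) (nat_lit 1264194046) (nat_lit 152) (nat_lit 15664404503) (nat_lit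 228) (nat_lit 1753483101) (nat_lit 36) (nat_lit 5) (nat_lit 38) (nat_lit 5) (nat_lit 39) (nat_lit 4) (nat_lit 343) (nat_lit 251) (nat_lit 186)) (XT.lf (nat_lit 0) (nat_lit 1946947431) (nat_lit 228) (nat_lit 9584364763) (nat_lit 76) (nat_lit 7565194627) (nat_lit 35) (nat_lit 5) (nat_lit 38) (nat_lit 5) (nat_lit 36) (nat_lit 5) (nat_lit 344) (nat_lit 251) (nat_lit 185))))) (XT.nd (nat_lit 234) (nat_lit 304) (nat_lit 0) (XT.nd (nat_lit 78) (nat_lit 152) (nat_lit 0) (XT.lf (nat_lit 0) (nat_lit 5691601864) (nat_lit 228) (nat_lit 1587443334) (nat_lit 76) (nat_lit 12244758960) (nat_lit 35) (nat_lit 5) (nat_lit 38) (nat_lit 5) (nat_lit 36) (nat_lit 5) (nat_lit 345) (nat_lit 251) (nat_lit 184)) (XT.nd (nat_lit 78) (nat_lit 0) (nat_lit 0) (XT.lf (nat_lit 0) (nat_lit 6728007493) (nat_lit 152) (nat_lit 2854635226) (nat_lit 228) (nat_lit 10380269763) (nat_lit 33) (nat_lit 5) (nat_lit 35) (nat_lit 5) (nat_lit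 36) (nat_lit 5) (nat_lit 346) (nat_lit 251) (nat_lit 183)) (XT.lf (nat_lit 0) (nat_lit 13592522293) (nat_lit 228) (nat_lit 5158633616) (nat_lit 76) (nat_lit 1663988000) (nat_lit 33) (nat_lit 5) (nat_lit 36) (nat_lit 5) (nat_lit 34) (nat_lit 4) (nat_lit 347) (nat_lit 251) (nat_lit 182)))) (XT.nd (nat_lit 156) (nat_lit 152) (nat_lit 0) (XT.nd (nat_lit 78) (nat_lit 76) (nat_lit 0) (XT.lf (nat_lit 0) (nat_lit 3141647539) (nat_lit 76) (nat_lit 14609953841) (nat_lit 152) (nat_lit 3128486500) (nat_lit 32) (nat_lit 5) (nat_lit 33) (nat_lit 5) (nat_lit 34) (nat_lit 4) (nat_lit 348) (nat_lit 251) (nat_lit 181)) (XT.lf (nat_lit 0) (nat_lit 686391495) (nat_lit 152) (nat_lit 9619167000) (nat_lit 76) (nat_lit 11052544987) (nat_lit 31) (nat_lit 5) (nat_lit 33) (nat_lit 5) (nat_lit 32) (nat_lit 5) (nat_lit 349) (nat_lit 251) (nat_lit 180))) (XT.nd (nat_lit 78) (nat_lit 152) (nat_lit 0) (XT.lf (nat_lit 0) (nat_lit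 4524206637) (nat_lit 152) (nat_lit 1337208261) (nat_lit 76) (nat_lit 15988985910) (nat_lit 31) (nat_lit 5) (nat_lit 33) (nat_lit 5) (nat_lit 32) (nat_lit 5) (nat_lit 350) (nat_lit 251) (nat_lit 179)) (XT.lf (nat_lit 0) (nat_lit 7286939907) (nat_lit 152) (nat_lit 1232467013) (nat_lit 228) (nat_lit 13836803895) (nat_lit 29) (nat_lit 5) (nat_lit 31) (nat_lit 5) (nat_lit 32) (nat_lit 5) (nat_lit 351) (nat_lit 251) (nat_lit 178))))))) (XT.nd (nat_lit 1092) (nat_lit 456) (nat_lit 0) (XT.nd (nat_lit 546) (nat_lit 380) (nat_lit 0) (XT.nd (nat_lit 234) (nat_lit 228) (nat_lit 0) (XT.nd (nat_lit 78) (nat_lit 76) (nat_lit 0) (XT.lf (nat_lit 0) (nat_lit 12654439030) (nat_lit 228) (nat_lit 6762309249) (nat_lit 76) (nat_lit 3459858522) (nat_lit 29) (nat_lit 5) (nat_lit 32) (nat_lit 5) (nat_lit 30) (nat_lit 4) (nat_lit 352) (nat_lit 251) (nat_lit 177)) (XT.nd (nat_lit 78) (nat_lit 0) (nat_lit 0) (XT.lf (nat_lit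 0) (nat_lit 1768968271) (nat_lit 76) (nat_lit 15146921075) (nat_lit 152) (nat_lit 6496664936) (nat_lit 28) (nat_lit 5) (nat_lit 29) (nat_lit 5) (nat_lit 30) (nat_lit 4) (nat_lit 353) (nat_lit 251) (nat_lit 176)) (XT.lf (nat_lit 0) (nat_lit 10648058376) (nat_lit 76) (nat_lit 10698903440) (nat_lit 152) (nat_lit 2616375334) (nat_lit 28) (nat_lit 5) (nat_lit 29) (nat_lit 5) (nat_lit 30) (nat_lit 4) (nat_lit 354) (nat_lit 251) (nat_lit 175)))) (XT.nd (nat_lit 156) (nat_lit 0) (nat_lit 0) (XT.nd (nat_lit 78) (nat_lit 152) (nat_lit 0) (XT.lf (nat_lit 0) (nat_lit 1327387891) (nat_lit 152) (nat_lit 4796302917) (nat_lit 76) (nat_lit 18407344375) (nat_lit 27) (nat_lit 5) (nat_lit 29) (nat_lit 5) (nat_lit 28) (nat_lit 5) (nat_lit 355) (nat_lit 251) (nat_lit 174)) (XT.lf (nat_lit 0) (nat_lit 3985534809) (nat_lit 152) (nat_lit 1364411339) (nat_lit 228) (nat_lit 19764658252) (nat_lit 25) (nat_lit 5) (nat_lit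 27) (nat_lit 5) (nat_lit 28) (nat_lit 5) (nat_lit 356) (nat_lit 251) (nat_lit 173))) (XT.nd (nat_lit 78) (nat_lit 0) (nat_lit 0) (XT.lf (nat_lit 0) (nat_lit 9550983583) (nat_lit 228) (nat_lit 12664276420) (nat_lit 76) (nat_lit 3498695791) (nat_lit 25) (nat_lit 5) (nat_lit 28) (nat_lit 5) (nat_lit 26) (nat_lit 4) (nat_lit 357) (nat_lit 251) (nat_lit 172)) (XT.lf (nat_lit 0) (nat_lit 13867176324) (nat_lit 228) (nat_lit 4002456570) (nat_lit 76) (nat_lit 8461990015) (nat_lit 25) (nat_lit 5) (nat_lit 28) (nat_lit 5) (nat_lit 26) (nat_lit 4) (nat_lit 358) (nat_lit 251) (nat_lit 171))))) (XT.nd (nat_lit 234) (nat_lit 304) (nat_lit 0) (XT.nd (nat_lit 78) (nat_lit 0) (nat_lit 0) (XT.lf (nat_lit 0) (nat_lit 4974137430) (nat_lit 76) (nat_lit 13362857267) (nat_lit 152) (nat_lit 8630109793) (nat_lit 24) (nat_lit 5) (nat_lit 25) (nat_lit 5) (nat_lit 26) (nat_lit 4) (nat_lit 359) (nat_lit 251) (nat_lit 170))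 (XT.nd (nat_lit 78) (nat_lit 0) (nat_lit 0) (XT.lf (nat_lit 0) (nat_lit 14260345080) (nat_lit 76) (nat_lit 8697593313) (nat_lit 152) (nat_lit 4663209594) (nat_lit 24) (nat_lit 5) (nat_lit 25) (nat_lit 5) (nat_lit 26) (nat_lit 4) (nat_lit 360) (nat_lit 251) (nat_lit 169)) (XT.lf (nat_lit 0) (nat_lit 23784623807) (nat_lit 76) (nat_lit 3910181553) (nat_lit 152) (nat_lit 600696730) (nat_lit 24) (nat_lit 5) (nat_lit 25) (nat_lit 5) (nat_lit 26) (nat_lit 4) (nat_lit 361) (nat_lit 251) (nat_lit 168)))) (XT.nd (nat_lit 156) (nat_lit 76) (nat_lit 0) (XT.nd (nat_lit 78) (nat_lit 0) (nat_lit 0) (XT.lf (nat_lit 0) (nat_lit 3546331357) (nat_lit 228) (nat_lit 24378350706) (nat_lit 76) (nat_lit 1063401860) (nat_lit 21) (nat_lit 5) (nat_lit 24) (nat_lit 5) (nat_lit 22) (nat_lit 4) (nat_lit 362) (nat_lit 251) (nat_lit 167)) (XT.lf (nat_lit 0) (nat_lit 7868246545) (nat_lit 228) (nat_lit 15688654358) (nat_lit 76)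 (nat_lit 6142494851) (nat_lit 21) (nat_lit 5) (nat_lit 24) (nat_lit 5) (nat_lit 22) (nat_lit 4) (nat_lit 363) (nat_lit 251) (nat_lit 166))) (XT.nd (nat_lit 78) (nat_lit 76) (nat_lit 0) (XT.lf (nat_lit 0) (nat_lit 12298297803) (nat_lit 228) (nat_lit 6777001259) (nat_lit 76) (nat_lit 11357400759) (nat_lit 21) (nat_lit 5) (nat_lit 24) (nat_lit 5) (nat_lit 22) (nat_lit 4) (nat_lit 364) (nat_lit 251) (nat_lit 165)) (XT.lf (nat_lit 0) (nat_lit 2411451577) (nat_lit 76) (nat_lit 14452084821) (nat_lit 152) (nat_lit 14324405070) (nat_lit 20) (nat_lit 5) (nat_lit 21) (nat_lit 5) (nat_lit 22) (nat_lit 4) (nat_lit 365) (nat_lit 251) (nat_lit 164)))))) (XT.nd (nat_lit 546) (nat_lit 152) (nat_lit 0) (XT.nd (nat_lit 234) (nat_lit 304) (nat_lit 0) (XT.nd (nat_lit 78) (nat_lit 0) (nat_lit 0) (XT.lf (nat_lit 0) (nat_lit 11977242606) (nat_lit 76) (nat_lit 9636280052) (nat_lit 152) (nat_lit 10350890816) (nat_lit 20)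 (nat_lit 5) (nat_lit 21) (nat_lit 5) (nat_lit 22) (nat_lit 4) (nat_lit 366) (nat_lit 251) (nat_lit 163)) (XT.nd (nat_lit 78) (nat_lit 0) (nat_lit 0) (XT.lf (nat_lit 0) (nat_lit 21793854671) (nat_lit 76) (nat_lit 4692111195) (nat_lit 152) (nat_lit 6278821678) (nat_lit 20) (nat_lit 5) (nat_lit 21) (nat_lit 5) (nat_lit 22) (nat_lit 4) (nat_lit 367) (nat_lit 251) (nat_lit 162)) (XT.lf (nat_lit 0) (nat_lit 31488821874) (nat_lit 152) (nat_lit 1723596015) (nat_lit 0) (nat_lit 377234196) (nat_lit 20) (nat_lit 5) (nat_lit 22) (nat_lit 4) (nat_lit 20) (nat_lit 4) (nat_lit 368) (nat_lit 251) (nat_lit 161)))) (XT.nd (nat_lit 156) (nat_lit 76) (nat_lit 0) (XT.nd (nat_lit 78) (nat_lit 0) (nat_lit 0) (XT.lf (nat_lit 0) (nat_lit 2263643707) (nat_lit 228) (nat_lit 26584521096) (nat_lit 76) (nat_lit 5587345027) (nat_lit 17) (nat_lit 5) (nat_lit 20) (nat_lit 5) (nat_lit 18) (nat_lit 4) (nat_lit 369) (nat_lit 251)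 (nat_lit 160)) (XT.lf (nat_lit 0) (nat_lit 6715400303) (nat_lit 228) (nat_lit 17613600979) (nat_lit 76) (nat_lit 10977166712) (nat_lit 17) (nat_lit 5) (nat_lit 20) (nat_lit 5) (nat_lit 18) (nat_lit 4) (nat_lit 370) (nat_lit 251) (nat_lit 159))) (XT.nd (nat_lit 78) (nat_lit 76) (nat_lit 0) (XT.lf (nat_lit 0) (nat_lit 11282258915) (nat_lit 228) (nat_lit 8407097191) (nat_lit 76) (nat_lit 16514149033) (nat_lit 17) (nat_lit 5) (nat_lit 20) (nat_lit 5) (nat_lit 18) (nat_lit 4) (nat_lit 371) (nat_lit 251) (nat_lit 158)) (XT.lf (nat_lit 0) (nat_lit 1063793223) (nat_lit 76) (nat_lit 14914642612) (nat_lit 152) (nat_lit 21149562736) (nat_lit 16) (nat_lit 5) (nat_lit 17) (nat_lit 5) (nat_lit 18) (nat_lit 4) (nat_lit 372) (nat_lit 251) (nat_lit 157))))) (XT.nd (nat_lit 234) (nat_lit 152) (nat_lit 0) (XT.nd (nat_lit 78) (nat_lit 0) (nat_lit 0) (XT.lf (nat_lit 0) (nat_lit 10958899959) (nat_lit 76) (nat_lit 9923791781)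 (nat_lit 152) (nat_lit 17195524644) (nat_lit 16) (nat_lit 5) (nat_lit 17) (nat_lit 5) (nat_lit 18) (nat_lit 4) (nat_lit 373) (nat_lit 251) (nat_lit 156)) (XT.nd (nat_lit 78) (nat_lit 0) (nat_lit 0) (XT.lf (nat_lit 0) (nat_lit 21119551508) (nat_lit 76) (nat_lit 4797337873) (nat_lit 152) (nat_lit 13140572160) (nat_lit 16) (nat_lit 5) (nat_lit 17) (nat_lit 5) (nat_lit 18) (nat_lit 4) (nat_lit 374) (nat_lit 251) (nat_lit 155)) (XT.lf (nat_lit 0) (nat_lit 31089937794) (nat_lit 152) (nat_lit 8516473807) (nat_lit 0) (nat_lit 460042785) (nat_lit 16) (nat_lit 5) (nat_lit 18) (nat_lit 4) (nat_lit 16) (nat_lit 4) (nat_lit 375) (nat_lit 251) (nat_lit 154)))) (XT.nd (nat_lit 156) (nat_lit 76) (nat_lit 0) (XT.nd (nat_lit 78) (nat_lit 0) (nat_lit 0) (XT.lf (nat_lit 0) (nat_lit 1132328812) (nat_lit 76) (nat_lit 35327904519) (nat_lit 76) (nat_lit 4644226944) (nat_lit 15) (nat_lit 4) (nat_lit 16) (nat_lit 5) (nat_lit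 16) (nat_lit 4) (nat_lit 376) (nat_lit 251) (nat_lit 153)) (XT.lf (nat_lit 0) (nat_lit 11215593647) (nat_lit 76) (nat_lit 30845907617) (nat_lit 76) (nat_lit 110013960) (nat_lit 15) (nat_lit 4) (nat_lit 16) (nat_lit 5) (nat_lit 16) (nat_lit 4) (nat_lit 377) (nat_lit 251) (nat_lit 152))) (XT.nd (nat_lit 78) (nat_lit 0) (nat_lit 0) (XT.lf (nat_lit 0) (nat_lit 4455413150) (nat_lit 152) (nat_lit 21742100188) (nat_lit 76) (nat_lit 17072232700) (nat_lit 14) (nat_lit 5) (nat_lit 16) (nat_lit 5) (nat_lit 15) (nat_lit 4) (nat_lit 378) (nat_lit 251) (nat_lit 151)) (XT.lf (nat_lit 0) (nat_lit 9140227009) (nat_lit 152) (nat_lit 12281146720) (nat_lit 76) (nat_lit 22979982698) (nat_lit 14) (nat_lit 5) (nat_lit 16) (nat_lit 5) (nat_lit 15) (nat_lit 4) (nat_lit 379) (nat_lit 251) (nat_lit 150))))))))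
noncomputable def xc82 : XT := (XT.nd (nat_lit 2106) (nat_lit 0) (nat_lit 0) (XT.nd (nat_lit 1014) (nat_lit 228) (nat_lit 0) (XT.nd (nat_lit 468) (nat_lit 228) (nat_lit 0) (XT.nd (nat_lit 234) (nat_lit 0) (nat_lit 0) (XT.nd (nat_lit 78) (nat_lit 76) (nat_lit 0) (XT.lf (nat_lit 0) (nat_lit 13950667912) (nat_lit 152) (nat_lit 2563736800) (nat_lit 76) (nat_lit 29052962189) (nat_lit 14) (nat_lit 5) (nat_lit 16) (nat_lit 5) (nat_lit 15) (nat_lit 4) (nat_lit 380) (nat_lit 251) (nat_lit 149)) (XT.nd (nat_lit 78) (nat_lit 0) (nat_lit 0) (XT.lf (nat_lit 0) (nat_lit 7566265605) (nat_lit 76) (nat_lit 11397405124) (nat_lit 152) (nat_lit 27802943630) (nat_lit 13) (nat_lit 5) (nat_lit 14) (nat_lit 5) (nat_lit 15) (nat_lit 4) (nat_lit 381) (nat_lit 251) (nat_lit 148)) (XT.lf (nat_lit 0) (nat_lit 18026407808) (nat_lit 76) (nat_lit 6112230534) (nat_lit 152) (nat_lit 23862857665) (nat_lit 13) (nat_lit 5) (nat_lit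 14) (nat_lit 5) (nat_lit 15) (nat_lit 4) (nat_lit 382) (nat_lit 251) (nat_lit 147)))) (XT.nd (nat_lit 78) (nat_lit 0) (nat_lit 0) (XT.lf (nat_lit 0) (nat_lit 28774806348) (nat_lit 76) (nat_lit 680151544) (nat_lit 152) (nat_lit 19818887019) (nat_lit 13) (nat_lit 5) (nat_lit 14) (nat_lit 5) (nat_lit 15) (nat_lit 4) (nat_lit 383) (nat_lit 251) (nat_lit 146)) (XT.nd (nat_lit 78) (nat_lit 0) (nat_lit 0) (XT.lf (nat_lit 0) (nat_lit 34964410902) (nat_lit 152) (nat_lit 10811055996) (nat_lit 0) (nat_lit 4807891846) (nat_lit 13) (nat_lit 5) (nat_lit 15) (nat_lit 4) (nat_lit 13) (nat_lit 4) (nat_lit 384) (nat_lit 251) (nat_lit 145)) (XT.lf (nat_lit 0) (nat_lit 40632676769) (nat_lit 152) (nat_lit 863540581) (nat_lit 0) (nat_lit 10436138433) (nat_lit 13) (nat_lit 5) (nat_lit 15) (nat_lit 4) (nat_lit 13) (nat_lit 4) (nat_lit 385) (nat_lit 251) (nat_lit 144))))) (XT.nd (nat_lit 234) (nat_lit 76) (nat_lit 0) (XT.nd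 (nat_lit 78) (nat_lit 76) (nat_lit 0) (XT.lf (nat_lit 0) (nat_lit 9544994947) (nat_lit 76) (nat_lit 37004927697) (nat_lit 76) (nat_lit 6769535691) (nat_lit 12) (nat_lit 4) (nat_lit 13) (nat_lit 5) (nat_lit 13) (nat_lit 4) (nat_lit 386) (nat_lit 251) (nat_lit 143)) (XT.nd (nat_lit 78) (nat_lit 76) (nat_lit 0) (XT.lf (nat_lit 0) (nat_lit 20260057684) (nat_lit 76) (nat_lit 32380676156) (nat_lit 76) (nat_lit 2107562141) (nat_lit 12) (nat_lit 4) (nat_lit 13) (nat_lit 5) (nat_lit 13) (nat_lit 4) (nat_lit 387) (nat_lit 251) (nat_lit 142)) (XT.lf (nat_lit 0) (nat_lit 2629267555) (nat_lit 152) (nat_lit 24972324186) (nat_lit 76) (nat_lit 28618006152) (nat_lit 11) (nat_lit 5) (nat_lit 13) (nat_lit 5) (nat_lit 12) (nat_lit 4) (nat_lit 388) (nat_lit 251) (nat_lit 141)))) (XT.nd (nat_lit 156) (nat_lit 76) (nat_lit 0) (XT.nd (nat_lit 78) (nat_lit 0) (nat_lit 0) (XT.lf (nat_lit 0) (nat_lit 7453776082) (nat_lit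 152) (nat_lit 15214128489) (nat_lit 76) (nat_lit 35066873433) (nat_lit 11) (nat_lit 5) (nat_lit 13) (nat_lit 5) (nat_lit 12) (nat_lit 4) (nat_lit 389) (nat_lit 251) (nat_lit 140)) (XT.lf (nat_lit 0) (nat_lit 12411305156) (nat_lit 152) (nat_lit 5184865450) (nat_lit 76) (nat_lit 41699597424) (nat_lit 11) (nat_lit 5) (nat_lit 13) (nat_lit 5) (nat_lit 12) (nat_lit 4) (nat_lit 390) (nat_lit 251) (nat_lit 139))) (XT.nd (nat_lit 78) (nat_lit 0) (nat_lit 0) (XT.lf (nat_lit 0) (nat_lit 5226210554) (nat_lit 76) (nat_lit 12330213578) (nat_lit 152) (nat_lit 43346000688) (nat_lit 10) (nat_lit 5) (nat_lit 11) (nat_lit 5) (nat_lit 12) (nat_lit 4) (nat_lit 391) (nat_lit 251) (nat_lit 138)) (XT.lf (nat_lit 0) (nat_lit 16035062726) (nat_lit 76) (nat_lit 6861948356) (nat_lit 152) (nat_lit 39659039696) (nat_lit 10) (nat_lit 5) (nat_lit 11) (nat_lit 5) (nat_lit 12) (nat_lit 4) (nat_lit 392) (nat_lit 251) (nat_lit 137))))))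 (XT.nd (nat_lit 546) (nat_lit 152) (nat_lit 0) (XT.nd (nat_lit 234) (nat_lit 76) (nat_lit 0) (XT.nd (nat_lit 78) (nat_lit 0) (nat_lit 0) (XT.lf (nat_lit 0) (nat_lit 27147946703) (nat_lit 76) (nat_lit 1238953820) (nat_lit 152) (nat_lit 35872715256) (nat_lit 10) (nat_lit 5) (nat_lit 11) (nat_lit 5) (nat_lit 12) (nat_lit 4) (nat_lit 393) (nat_lit 251) (nat_lit 136)) (XT.nd (nat_lit 78) (nat_lit 0) (nat_lit 0) (XT.lf (nat_lit 0) (nat_lit 34074566111) (nat_lit 152) (nat_lit 27483712269) (nat_lit 0) (nat_lit 4455019697) (nat_lit 10) (nat_lit 5) (nat_lit 12) (nat_lit 4) (nat_lit 10) (nat_lit 4) (nat_lit 394) (nat_lit 251) (nat_lit 135)) (XT.lf (nat_lit 0) (nat_lit 39934755557) (nat_lit 152) (nat_lit 17598482757) (nat_lit 0) (nat_lit 10286298364) (nat_lit 10) (nat_lit 5) (nat_lit 12) (nat_lit 4) (nat_lit 10) (nat_lit 4) (nat_lit 395) (nat_lit 251) (nat_lit 134)))) (XT.nd (nat_lit 156) (nat_lit 0) (nat_lit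 0) (XT.nd (nat_lit 78) (nat_lit 76) (nat_lit 0) (XT.lf (nat_lit 0) (nat_lit 45960679832) (nat_lit 152) (nat_lit 7435433380) (nat_lit 0) (nat_lit 16284153922) (nat_lit 10) (nat_lit 5) (nat_lit 12) (nat_lit 4) (nat_lit 10) (nat_lit 4) (nat_lit 396) (nat_lit 251) (nat_lit 133)) (XT.lf (nat_lit 0) (nat_lit 3074306997) (nat_lit 76) (nat_lit 49112849431) (nat_lit 76) (nat_lit 19409072339) (nat_lit 9) (nat_lit 4) (nat_lit 10) (nat_lit 5) (nat_lit 10) (nat_lit 4) (nat_lit 397) (nat_lit 251) (nat_lit 132))) (XT.nd (nat_lit 78) (nat_lit 0) (nat_lit 0) (XT.lf (nat_lit 0) (nat_lit 14033745745) (nat_lit 76) (nat_lit 44632098979) (nat_lit 76) (nat_lit 14901864428) (nat_lit 9) (nat_lit 4) (nat_lit 10) (nat_lit 5) (nat_lit 10) (nat_lit 4) (nat_lit 398) (nat_lit 251) (nat_lit 131)) (XT.lf (nat_lit 0) (nat_lit 25304479367) (nat_lit 76) (nat_lit 40025029934) (nat_lit 76) (nat_lit 10269108531) (nat_lit 9) (nat_lit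 4) (nat_lit 10) (nat_lit 5) (nat_lit 10) (nat_lit 4) (nat_lit 399) (nat_lit 251) (nat_lit 130))))) (XT.nd (nat_lit 234) (nat_lit 76) (nat_lit 0) (XT.nd (nat_lit 78) (nat_lit 76) (nat_lit 0) (XT.lf (nat_lit 0) (nat_lit 36896356079) (nat_lit 76) (nat_lit 35287616705) (nat_lit 76) (nat_lit 5506756609) (nat_lit 9) (nat_lit 4) (nat_lit 10) (nat_lit 5) (nat_lit 10) (nat_lit 4) (nat_lit 400) (nat_lit 251) (nat_lit 129)) (XT.nd (nat_lit 78) (nat_lit 76) (nat_lit 0) (XT.lf (nat_lit 0) (nat_lit 48819504703) (nat_lit 76) (nat_lit 30415719802) (nat_lit 76) (nat_lit 610647384) (nat_lit 9) (nat_lit 4) (nat_lit 10) (nat_lit 5) (nat_lit 10) (nat_lit 4) (nat_lit 401) (nat_lit 251) (nat_lit 128)) (XT.lf (nat_lit 0) (nat_lit 4337178932) (nat_lit 152) (nat_lit 21024106292) (nat_lit 76) (nat_lit 56703367589) (nat_lit 8) (nat_lit 5) (nat_lit 10) (nat_lit 5) (nat_lit 9) (nat_lit 4) (nat_lit 402) (nat_lit 251) (nat_lit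 127)))) (XT.nd (nat_lit 156) (nat_lit 76) (nat_lit 0) (XT.nd (nat_lit 78) (nat_lit 0) (nat_lit 0) (XT.lf (nat_lit 0) (nat_lit 9412744139) (nat_lit 152) (nat_lit 10743531358) (nat_lit 76) (nat_lit 64193794996) (nat_lit 8) (nat_lit 5) (nat_lit 10) (nat_lit 5) (nat_lit 9) (nat_lit 4) (nat_lit 403) (nat_lit 251) (nat_lit 126)) (XT.lf (nat_lit 0) (nat_lit 14632399126) (nat_lit 152) (nat_lit 169789440) (nat_lit 76) (nat_lit 71902109424) (nat_lit 8) (nat_lit 5) (nat_lit 10) (nat_lit 5) (nat_lit 9) (nat_lit 4) (nat_lit 404) (nat_lit 251) (nat_lit 125))) (XT.nd (nat_lit 78) (nat_lit 0) (nat_lit 0) (XT.lf (nat_lit 0) (nat_lit 10919436182) (nat_lit 76) (nat_lit 9186232874) (nat_lit 152) (nat_lit 69020574413) (nat_lit 7) (nat_lit 5) (nat_lit 8) (nat_lit 5) (nat_lit 9) (nat_lit 4) (nat_lit 405) (nat_lit 251) (nat_lit 124)) (XT.lf (nat_lit 0) (nat_lit 22330158166) (nat_lit 76) (nat_lit 3406844754) (nat_lit 152)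 (nat_lit 65884030274) (nat_lit 7) (nat_lit 5) (nat_lit 8) (nat_lit 5) (nat_lit 9) (nat_lit 4) (nat_lit 406) (nat_lit 251) (nat_lit 123))))))) (XT.nd (nat_lit 31122) (nat_lit 0) (nat_lit 9956) (XT.nd (nat_lit 30576) (nat_lit 0) (nat_lit 16416) (XT.nd (nat_lit 234) (nat_lit 0) (nat_lit 0) (XT.nd (nat_lit 78) (nat_lit 0) (nat_lit 0) (XT.lf (nat_lit 0) (nat_lit 31554066115) (nat_lit 152) (nat_lit 60146338530) (nat_lit 0) (nat_lit 2489760093) (nat_lit 7) (nat_lit 5) (nat_lit 9) (nat_lit 4) (nat_lit 7) (nat_lit 4) (nat_lit 407) (nat_lit 251) (nat_lit 122)) (XT.nd (nat_lit 78) (nat_lit 0) (nat_lit 0) (XT.lf (nat_lit 0) (nat_lit 37571912460) (nat_lit 152) (nat_lit 50775178374) (nat_lit 0) (nat_lit 8488493008) (nat_lit 7) (nat_lit 5) (nat_lit 9) (nat_lit 4) (nat_lit 7) (nat_lit 4) (nat_lit 408) (nat_lit 251) (nat_lit 121)) (XT.lf (nat_lit 0) (nat_lit 43763051595) (nat_lit 152) (nat_lit 41136457490) (nat_lit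 0) (nat_lit 14661075413) (nat_lit 7) (nat_lit 5) (nat_lit 9) (nat_lit 4) (nat_lit 7) (nat_lit 4) (nat_lit 409) (nat_lit 251) (nat_lit 120)))) (XT.nd (nat_lit 30186) (nat_lit 0) (nat_lit 20140) (XT.nd (nat_lit 78) (nat_lit 0) (nat_lit 0) (XT.lf (nat_lit 0) (nat_lit 50132893252) (nat_lit 152) (nat_lit 31221753696) (nat_lit 0) (nat_lit 21012900828) (nat_lit 7) (nat_lit 5) (nat_lit 9) (nat_lit 4) (nat_lit 7) (nat_lit 4) (nat_lit 410) (nat_lit 251) (nat_lit 119)) (XT.lf (nat_lit 0) (nat_lit 56687003311) (nat_lit 152) (nat_lit 21022403658) (nat_lit 0) (nat_lit 27549519391) (nat_lit 7) (nat_lit 5) (nat_lit 9) (nat_lit 4) (nat_lit 7) (nat_lit 4) (nat_lit 411) (nat_lit 251) (nat_lit 118))) (XT.nd (nat_lit 78) (nat_lit 684) (nat_lit 0) (XT.lf (nat_lit 0) (nat_lit 1132261281) (nat_lit 684) (nat_lit 1100286672) (nat_lit 0) (nat_lit 1132261281) (nat_lit 281) (nat_lit 5) (nat_lit 290) (nat_lit 4) (nat_lit 281)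 (nat_lit 4) (nat_lit 276) (nat_lit 252) (nat_lit 252)) (XT.lf (nat_lit 0) (nat_lit 1954384323) (nat_lit 684) (nat_lit 3426594277) (nat_lit 684) (nat_lit 1386641322) (nat_lit 272) (nat_lit 4) (nat_lit 281) (nat_lit 5) (nat_lit 281) (nat_lit 4) (nat_lit 277) (nat_lit 252) (nat_lit 251))))) (XT.nd (nat_lit 234) (nat_lit 1976) (nat_lit 0) (XT.nd (nat_lit 78) (nat_lit 1672) (nat_lit 0) (XT.lf (nat_lit 0) (nat_lit 1670692573) (nat_lit 760) (nat_lit 628983881) (nat_lit 76) (nat_lit 4509106496) (nat_lit 271) (nat_lit 5) (nat_lit 281) (nat_lit 5) (nat_lit 272) (nat_lit 4) (nat_lit 278) (nat_lit 252) (nat_lit 250)) (XT.nd (nat_lit 78) (nat_lit 912) (nat_lit 0) (XT.lf (nat_lit 0) (nat_lit 3656258767) (nat_lit 760) (nat_lit 1072608170) (nat_lit 836) (nat_lit 2123963488) (nat_lit 261) (nat_lit 5) (nat_lit 271) (nat_lit 5) (nat_lit 272) (nat_lit 4) (nat_lit 279) (nat_lit 252) (nat_lit 249)) (XT.lf (nat_lit 0)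 (nat_lit 883613514) (nat_lit 912) (nat_lit 5788970437) (nat_lit 76) (nat_lit 227829082) (nat_lit 249) (nat_lit 5) (nat_lit 261) (nat_lit 5) (nat_lit 250) (nat_lit 4) (nat_lit 280) (nat_lit 252) (nat_lit 248)))) (XT.nd (nat_lit 156) (nat_lit 1064) (nat_lit 0) (XT.nd (nat_lit 78) (nat_lit 912) (nat_lit 0) (XT.lf (nat_lit 0) (nat_lit 3886911004) (nat_lit 912) (nat_lit 1451957872) (nat_lit 76) (nat_lit 1611634506) (nat_lit 249) (nat_lit 5) (nat_lit 261) (nat_lit 5) (nat_lit 250) (nat_lit 4) (nat_lit 281) (nat_lit 252) (nat_lit 247)) (XT.lf (nat_lit 0) (nat_lit 2990255362) (nat_lit 912) (nat_lit 3926528410) (nat_lit 988) (nat_lit 87370442) (nat_lit 237) (nat_lit 5) (nat_lit 249) (nat_lit 5) (nat_lit 250) (nat_lit 4) (nat_lit 282) (nat_lit 252) (nat_lit 246))) (XT.nd (nat_lit 78) (nat_lit 0) (nat_lit 0) (XT.lf (nat_lit 0) (nat_lit 431769822) (nat_lit 988) (nat_lit 2415799223) (nat_lit 1064) (nat_lit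 4213303676) (nat_lit 223) (nat_lit 5) (nat_lit 236) (nat_lit 5) (nat_lit 237) (nat_lit 5) (nat_lit 283) (nat_lit 252) (nat_lit 245)) (XT.lf (nat_lit 0) (nat_lit 5008628094) (nat_lit 988) (nat_lit 811143241) (nat_lit 1064) (nat_lit 1301105534) (nat_lit 223) (nat_lit 5) (nat_lit 236) (nat_lit 5) (nat_lit 237) (nat_lit 5) (nat_lit 284) (nat_lit 252) (nat_lit 244)))))) (XT.nd (nat_lit 546) (nat_lit 2204) (nat_lit 0) (XT.nd (nat_lit 234) (nat_lit 1900) (nat_lit 0) (XT.nd (nat_lit 78) (nat_lit 1216) (nat_lit 0) (XT.lf (nat_lit 0) (nat_lit 1609842464) (nat_lit 1140) (nat_lit 4703444994) (nat_lit 76) (nat_lit 870699247) (nat_lit 208) (nat_lit 5) (nat_lit 223) (nat_lit 5) (nat_lit 209) (nat_lit 5) (nat_lit 285) (nat_lit 252) (nat_lit 243)) (XT.nd (nat_lit 78) (nat_lit 1216) (nat_lit 0) (XT.lf (nat_lit 0) (nat_lit 4525410591) (nat_lit 1140) (nat_lit 100022104) (nat_lit 76) (nat_lit 2624994746) (nat_lit 208)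 (nat_lit 5) (nat_lit 223) (nat_lit 5) (nat_lit 209) (nat_lit 5) (nat_lit 286) (nat_lit 252) (nat_lit 242)) (XT.lf (nat_lit 0) (nat_lit 166063591) (nat_lit 1216) (nat_lit 2672031947) (nat_lit 76) (nat_lit 4482008390) (nat_lit 192) (nat_lit 5) (nat_lit 208) (nat_lit 5) (nat_lit 193) (nat_lit 5) (nat_lit 287) (nat_lit 252) (nat_lit 241)))) (XT.nd (nat_lit 156) (nat_lit 1216) (nat_lit 0) (XT.nd (nat_lit 78) (nat_lit 0) (nat_lit 0) (XT.lf (nat_lit 0) (nat_lit 2078950662) (nat_lit 684) (nat_lit 948260298) (nat_lit 760) (nat_lit 4365823743) (nat_lit 183) (nat_lit 5) (nat_lit 192) (nat_lit 5) (nat_lit 193) (nat_lit 5) (nat_lit 288) (nat_lit 252) (nat_lit 240)) (XT.lf (nat_lit 0) (nat_lit 5929745970) (nat_lit 760) (nat_lit 535136377) (nat_lit 76) (nat_lit 1004717607) (nat_lit 183) (nat_lit 5) (nat_lit 193) (nat_lit 5) (nat_lit 184) (nat_lit 5) (nat_lit 289) (nat_lit 252) (nat_lit 239))) (XT.nd (nat_lit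 78) (nat_lit 532) (nat_lit 0) (XT.lf (nat_lit 0) (nat_lit 1316337637) (nat_lit 684) (nat_lit 3181713599) (nat_lit 76) (nat_lit 3050956427) (nat_lit 174) (nat_lit 5) (nat_lit 183) (nat_lit 5) (nat_lit 175) (nat_lit 5) (nat_lit 290) (nat_lit 252) (nat_lit 238)) (XT.lf (nat_lit 0) (nat_lit 1732095100) (nat_lit 532) (nat_lit 2438993899) (nat_lit 608) (nat_lit 3461040064) (nat_lit 167) (nat_lit 5) (nat_lit 174) (nat_lit 5) (nat_lit 175) (nat_lit 5) (nat_lit 291) (nat_lit 252) (nat_lit 237))))) (XT.nd (nat_lit 234) (nat_lit 1140) (nat_lit 0) (XT.nd (nat_lit 78) (nat_lit 1064) (nat_lit 0) (XT.lf (nat_lit 0) (nat_lit 6775822621) (nat_lit 532) (nat_lit 290990569) (nat_lit 608) (nat_lit 652371537) (nat_lit 167) (nat_lit 5) (nat_lit 174) (nat_lit 5) (nat_lit 175) (nat_lit 5) (nat_lit 292) (nat_lit 252) (nat_lit 236)) (XT.nd (nat_lit 78) (nat_lit 456) (nat_lit 0) (XT.lf (nat_lit 0) (nat_lit 2180244568) (nat_lit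 608) (nat_lit 3689041410) (nat_lit 76) (nat_lit 1939512449) (nat_lit 159) (nat_lit 5) (nat_lit 167) (nat_lit 5) (nat_lit 160) (nat_lit 5) (nat_lit 293) (nat_lit 252) (nat_lit 235)) (XT.lf (nat_lit 0) (nat_lit 1387591892) (nat_lit 456) (nat_lit 3648927243) (nat_lit 532) (nat_lit 2865925869) (nat_lit 153) (nat_lit 5) (nat_lit 159) (nat_lit 5) (nat_lit 160) (nat_lit 5) (nat_lit 294) (nat_lit 252) (nat_lit 234)))) (XT.nd (nat_lit 156) (nat_lit 532) (nat_lit 0) (XT.nd (nat_lit 78) (nat_lit 608) (nat_lit 0) (XT.lf (nat_lit 0) (nat_lit 6609619573) (nat_lit 456) (nat_lit 1333429991) (nat_lit 532) (nat_lit 57003706) (nat_lit 153) (nat_lit 5) (nat_lit 159) (nat_lit 5) (nat_lit 160) (nat_lit 5) (nat_lit 295) (nat_lit 252) (nat_lit 233)) (XT.lf (nat_lit 0) (nat_lit 2757184029) (nat_lit 608) (nat_lit 4257496790) (nat_lit 76) (nat_lit 1085885002) (nat_lit 145) (nat_lit 5) (nat_lit 153) (nat_lit 5) (nat_lit 146)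 (nat_lit 5) (nat_lit 296) (nat_lit 252) (nat_lit 232))) (XT.nd (nat_lit 78) (nat_lit 76) (nat_lit 0) (XT.lf (nat_lit 0) (nat_lit 980732503) (nat_lit 456) (nat_lit 4640575014) (nat_lit 532) (nat_lit 2583851364) (nat_lit 139) (nat_lit 5) (nat_lit 145) (nat_lit 5) (nat_lit 146) (nat_lit 5) (nat_lit 297) (nat_lit 252) (nat_lit 231)) (XT.lf (nat_lit 0) (nat_lit 227180110) (nat_lit 532) (nat_lit 1934683842) (nat_lit 76) (nat_lit 6151815533) (nat_lit 138) (nat_lit 5) (nat_lit 145) (nat_lit 5) (nat_lit 139) (nat_lit 5) (nat_lit 298) (nat_lit 252) (nat_lit 230))))))))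
noncomputable def xc83 : XT := (XT.nd (nat_lit 2184) (nat_lit 2356) (nat_lit 0) (XT.nd (nat_lit 1092) (nat_lit 2356) (nat_lit 0) (XT.nd (nat_lit 546) (nat_lit 1444) (nat_lit 0) (XT.nd (nat_lit 234) (nat_lit 1292) (nat_lit 0) (XT.nd (nat_lit 78) (nat_lit 456) (nat_lit 0) (XT.lf (nat_lit 0) (nat_lit 3040596516) (nat_lit 532) (nat_lit 4955152736) (nat_lit 76) (nat_lit 429914175) (nat_lit 132) (nat_lit 5) (nat_lit 139) (nat_lit 5) (nat_lit 133) (nat_lit 5) (nat_lit 299) (nat_lit 252) (nat_lit 229)) (XT.nd (nat_lit 78) (nat_lit 76) (nat_lit 0) (XT.lf (nat_lit 0) (nat_lit 441863827) (nat_lit 380) (nat_lit 5475367270) (nat_lit 456) (nat_lit 2624483943) (nat_lit 127) (nat_lit 5) (nat_lit 132) (nat_lit 5) (nat_lit 133) (nat_lit 5) (nat_lit 300) (nat_lit 252) (nat_lit 228)) (XT.lf (nat_lit 0) (nat_lit 199050171) (nat_lit 456) (nat_lit 2642818145) (nat_lit 76) (nat_lit 5819853048) (nat_lit 126) (nat_lit 5)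 (nat_lit 132) (nat_lit 5) (nat_lit 127) (nat_lit 5) (nat_lit 301) (nat_lit 252) (nat_lit 227)))) (XT.nd (nat_lit 156) (nat_lit 836) (nat_lit 0) (XT.nd (nat_lit 78) (nat_lit 0) (nat_lit 0) (XT.lf (nat_lit 0) (nat_lit 2928664532) (nat_lit 456) (nat_lit 89827164) (nat_lit 532) (nat_lit 5767204568) (nat_lit 120) (nat_lit 5) (nat_lit 126) (nat_lit 5) (nat_lit 127) (nat_lit 5) (nat_lit 302) (nat_lit 252) (nat_lit 226)) (XT.lf (nat_lit 0) (nat_lit 5912596665) (nat_lit 532) (nat_lit 299206755) (nat_lit 76) (nat_lit 2701949112) (nat_lit 120) (nat_lit 5) (nat_lit 127) (nat_lit 5) (nat_lit 121) (nat_lit 5) (nat_lit 303) (nat_lit 252) (nat_lit 225))) (XT.nd (nat_lit 78) (nat_lit 456) (nat_lit 0) (XT.lf (nat_lit 0) (nat_lit 5451784295) (nat_lit 380) (nat_lit 3433622380) (nat_lit 456) (nat_lit 160550002) (nat_lit 115) (nat_lit 5) (nat_lit 120) (nat_lit 5) (nat_lit 121) (nat_lit 5) (nat_lit 304) (nat_lit 252)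 (nat_lit 224)) (XT.lf (nat_lit 0) (nat_lit 2134888277) (nat_lit 380) (nat_lit 538963857) (nat_lit 456) (nat_lit 6508660265) (nat_lit 109) (nat_lit 5) (nat_lit 114) (nat_lit 5) (nat_lit 115) (nat_lit 5) (nat_lit 305) (nat_lit 252) (nat_lit 223))))) (XT.nd (nat_lit 234) (nat_lit 684) (nat_lit 0) (XT.nd (nat_lit 78) (nat_lit 760) (nat_lit 0) (XT.lf (nat_lit 0) (nat_lit 5589997403) (nat_lit 456) (nat_lit 1318465497) (nat_lit 76) (nat_lit 2414713395) (nat_lit 109) (nat_lit 5) (nat_lit 115) (nat_lit 5) (nat_lit 110) (nat_lit 5) (nat_lit 306) (nat_lit 252) (nat_lit 222)) (XT.nd (nat_lit 78) (nat_lit 456) (nat_lit 0) (XT.lf (nat_lit 0) (nat_lit 4588657099) (nat_lit 304) (nat_lit 3995973812) (nat_lit 380) (nat_lit 883754742) (nat_lit 105) (nat_lit 5) (nat_lit 109) (nat_lit 5) (nat_lit 110) (nat_lit 5) (nat_lit 307) (nat_lit 252) (nat_lit 221)) (XT.lf (nat_lit 0) (nat_lit 1003645981) (nat_lit 380) (nat_lit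 972469328) (nat_lit 456) (nat_lit 7642347287) (nat_lit 99) (nat_lit 5) (nat_lit 104) (nat_lit 5) (nat_lit 105) (nat_lit 5) (nat_lit 308) (nat_lit 252) (nat_lit 220)))) (XT.nd (nat_lit 156) (nat_lit 380) (nat_lit 0) (XT.nd (nat_lit 78) (nat_lit 304) (nat_lit 0) (XT.lf (nat_lit 0) (nat_lit 4917011633) (nat_lit 456) (nat_lit 2717193846) (nat_lit 76) (nat_lit 2138235021) (nat_lit 99) (nat_lit 5) (nat_lit 105) (nat_lit 5) (nat_lit 100) (nat_lit 5) (nat_lit 309) (nat_lit 252) (nat_lit 219)) (XT.lf (nat_lit 0) (nat_lit 3335777539) (nat_lit 304) (nat_lit 4596363365) (nat_lit 380) (nat_lit 1999366111) (nat_lit 95) (nat_lit 5) (nat_lit 99) (nat_lit 5) (nat_lit 100) (nat_lit 5) (nat_lit 310) (nat_lit 252) (nat_lit 218))) (XT.nd (nat_lit 78) (nat_lit 304) (nat_lit 0) (XT.lf (nat_lit 0) (nat_lit 896310433) (nat_lit 380) (nat_lit 555253200) (nat_lit 76) (nat_lit 8644387112) (nat_lit 94) (nat_lit 5) (nat_lit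 99) (nat_lit 5) (nat_lit 95) (nat_lit 5) (nat_lit 311) (nat_lit 252) (nat_lit 217)) (XT.lf (nat_lit 0) (nat_lit 3857232861) (nat_lit 380) (nat_lit 4600126340) (nat_lit 76) (nat_lit 1806863147) (nat_lit 90) (nat_lit 5) (nat_lit 95) (nat_lit 5) (nat_lit 91) (nat_lit 5) (nat_lit 312) (nat_lit 252) (nat_lit 216)))))) (XT.nd (nat_lit 546) (nat_lit 1064) (nat_lit 0) (XT.nd (nat_lit 234) (nat_lit 608) (nat_lit 0) (XT.nd (nat_lit 78) (nat_lit 380) (nat_lit 0) (XT.lf (nat_lit 0) (nat_lit 1584658348) (nat_lit 304) (nat_lit 5304459887) (nat_lit 380) (nat_lit 3549003746) (nat_lit 86) (nat_lit 5) (nat_lit 90) (nat_lit 5) (nat_lit 91) (nat_lit 5) (nat_lit 313) (nat_lit 252) (nat_lit 215)) (XT.nd (nat_lit 78) (nat_lit 380) (nat_lit 0) (XT.lf (nat_lit 0) (nat_lit 7974157923) (nat_lit 304) (nat_lit 2031948036) (nat_lit 380) (nat_lit 611350930) (nat_lit 86) (nat_lit 5) (nat_lit 90) (nat_lit 5) (nat_lit 91) (nat_lit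 5) (nat_lit 314) (nat_lit 252) (nat_lit 214)) (XT.lf (nat_lit 0) (nat_lit 2365069079) (nat_lit 380) (nat_lit 7086493628) (nat_lit 76) (nat_lit 1350020524) (nat_lit 81) (nat_lit 5) (nat_lit 86) (nat_lit 5) (nat_lit 82) (nat_lit 5) (nat_lit 315) (nat_lit 252) (nat_lit 213)))) (XT.nd (nat_lit 156) (nat_lit 380) (nat_lit 0) (XT.nd (nat_lit 78) (nat_lit 228) (nat_lit 0) (XT.lf (nat_lit 0) (nat_lit 5414814466) (nat_lit 380) (nat_lit 773064608) (nat_lit 76) (nat_lit 4803322130) (nat_lit 81) (nat_lit 5) (nat_lit 86) (nat_lit 5) (nat_lit 82) (nat_lit 5) (nat_lit 316) (nat_lit 252) (nat_lit 212)) (XT.lf (nat_lit 0) (nat_lit 5769921047) (nat_lit 228) (nat_lit 2792319072) (nat_lit 304) (nat_lit 2624119862) (nat_lit 78) (nat_lit 5) (nat_lit 81) (nat_lit 5) (nat_lit 82) (nat_lit 5) (nat_lit 317) (nat_lit 252) (nat_lit 211))) (XT.nd (nat_lit 78) (nat_lit 0) (nat_lit 0) (XT.lf (nat_lit 0) (nat_lit 384593831) (nat_lit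 380) (nat_lit 10312784047) (nat_lit 76) (nat_lit 690630886) (nat_lit 73) (nat_lit 5) (nat_lit 78) (nat_lit 5) (nat_lit 74) (nat_lit 5) (nat_lit 318) (nat_lit 252) (nat_lit 210)) (XT.lf (nat_lit 0) (nat_lit 3465171663) (nat_lit 380) (nat_lit 3848848586) (nat_lit 76) (nat_lit 4279911660) (nat_lit 73) (nat_lit 5) (nat_lit 78) (nat_lit 5) (nat_lit 74) (nat_lit 5) (nat_lit 319) (nat_lit 252) (nat_lit 209))))) (XT.nd (nat_lit 234) (nat_lit 532) (nat_lit 0) (XT.nd (nat_lit 78) (nat_lit 304) (nat_lit 0) (XT.lf (nat_lit 0) (nat_lit 2792345344) (nat_lit 228) (nat_lit 3825538229) (nat_lit 304) (nat_lit 5188791347) (nat_lit 70) (nat_lit 5) (nat_lit 73) (nat_lit 5) (nat_lit 74) (nat_lit 5) (nat_lit 320) (nat_lit 252) (nat_lit 208)) (XT.nd (nat_lit 78) (nat_lit 304) (nat_lit 0) (XT.lf (nat_lit 0) (nat_lit 9641221940) (nat_lit 228) (nat_lit 216391094) (nat_lit 304) (nat_lit 2168446798) (nat_lit 70) (nat_lit 5)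 (nat_lit 73) (nat_lit 5) (nat_lit 74) (nat_lit 5) (nat_lit 321) (nat_lit 252) (nat_lit 207)) (XT.lf (nat_lit 0) (nat_lit 955295990) (nat_lit 304) (nat_lit 7833789747) (nat_lit 76) (nat_lit 3461764186) (nat_lit 66) (nat_lit 5) (nat_lit 70) (nat_lit 5) (nat_lit 67) (nat_lit 5) (nat_lit 322) (nat_lit 252) (nat_lit 206)))) (XT.nd (nat_lit 156) (nat_lit 304) (nat_lit 0) (XT.nd (nat_lit 78) (nat_lit 228) (nat_lit 0) (XT.lf (nat_lit 0) (nat_lit 4110514185) (nat_lit 304) (nat_lit 1103414488) (nat_lit 76) (nat_lit 7268400468) (nat_lit 66) (nat_lit 5) (nat_lit 70) (nat_lit 5) (nat_lit 67) (nat_lit 5) (nat_lit 323) (nat_lit 252) (nat_lit 205)) (XT.lf (nat_lit 0) (nat_lit 5875757799) (nat_lit 228) (nat_lit 1497310218) (nat_lit 304) (nat_lit 5347333395) (nat_lit 63) (nat_lit 5) (nat_lit 66) (nat_lit 5) (nat_lit 67) (nat_lit 5) (nat_lit 324) (nat_lit 252) (nat_lit 204))) (XT.nd (nat_lit 78) (nat_lit 76) (nat_lit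 0) (XT.lf (nat_lit 0) (nat_lit 31542361) (nat_lit 228) (nat_lit 10692515444) (nat_lit 304) (nat_lit 2241869469) (nat_lit 60) (nat_lit 5) (nat_lit 63) (nat_lit 5) (nat_lit 64) (nat_lit 5) (nat_lit 325) (nat_lit 252) (nat_lit 203)) (XT.lf (nat_lit 0) (nat_lit 979478082) (nat_lit 304) (nat_lit 6055547850) (nat_lit 76) (nat_lit 6182301972) (nat_lit 59) (nat_lit 5) (nat_lit 63) (nat_lit 5) (nat_lit 60) (nat_lit 5) (nat_lit 326) (nat_lit 252) (nat_lit 202))))))) (XT.nd (nat_lit 1092) (nat_lit 912) (nat_lit 0) (XT.nd (nat_lit 546) (nat_lit 608) (nat_lit 0) (XT.nd (nat_lit 234) (nat_lit 456) (nat_lit 0) (XT.nd (nat_lit 78) (nat_lit 228) (nat_lit 0) (XT.lf (nat_lit 0) (nat_lit 959760022) (nat_lit 152) (nat_lit 3259894660) (nat_lit 228) (nat_lit 9256958337) (nat_lit 57) (nat_lit 5) (nat_lit 59) (nat_lit 5) (nat_lit 60) (nat_lit 5) (nat_lit 327) (nat_lit 252) (nat_lit 201)) (XT.nd (nat_lit 78) (nat_lit 228)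 (nat_lit 0) (XT.lf (nat_lit 0) (nat_lit 7583210757) (nat_lit 228) (nat_lit 5505636134) (nat_lit 76) (nat_lit 654069631) (nat_lit 57) (nat_lit 5) (nat_lit 60) (nat_lit 5) (nat_lit 58) (nat_lit 5) (nat_lit 328) (nat_lit 252) (nat_lit 200)) (XT.lf (nat_lit 0) (nat_lit 1650996806) (nat_lit 228) (nat_lit 9404413712) (nat_lit 304) (nat_lit 2961590831) (nat_lit 54) (nat_lit 5) (nat_lit 57) (nat_lit 5) (nat_lit 58) (nat_lit 5) (nat_lit 329) (nat_lit 252) (nat_lit 199)))) (XT.nd (nat_lit 156) (nat_lit 228) (nat_lit 0) (XT.nd (nat_lit 78) (nat_lit 152) (nat_lit 0) (XT.lf (nat_lit 0) (nat_lit 341858820) (nat_lit 304) (nat_lit 5231247877) (nat_lit 76) (nat_lit 8725652711) (nat_lit 53) (nat_lit 5) (nat_lit 57) (nat_lit 5) (nat_lit 54) (nat_lit 5) (nat_lit 330) (nat_lit 252) (nat_lit 198)) (XT.lf (nat_lit 0) (nat_lit 2065376815) (nat_lit 152) (nat_lit 1600268936) (nat_lit 228) (nat_lit 10923044278) (nat_lit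 51) (nat_lit 5) (nat_lit 53) (nat_lit 5) (nat_lit 54) (nat_lit 5) (nat_lit 331) (nat_lit 252) (nat_lit 197))) (XT.nd (nat_lit 78) (nat_lit 228) (nat_lit 0) (XT.lf (nat_lit 0) (nat_lit 7127659145) (nat_lit 228) (nat_lit 5285556998) (nat_lit 76) (nat_lit 2472968653) (nat_lit 51) (nat_lit 5) (nat_lit 54) (nat_lit 5) (nat_lit 52) (nat_lit 5) (nat_lit 332) (nat_lit 252) (nat_lit 196)) (XT.lf (nat_lit 0) (nat_lit 2133485066) (nat_lit 228) (nat_lit 8558742449) (nat_lit 304) (nat_lit 4500437040) (nat_lit 48) (nat_lit 5) (nat_lit 51) (nat_lit 5) (nat_lit 52) (nat_lit 5) (nat_lit 333) (nat_lit 252) (nat_lit 195))))) (XT.nd (nat_lit 234) (nat_lit 380) (nat_lit 0) (XT.nd (nat_lit 78) (nat_lit 228) (nat_lit 0) (XT.lf (nat_lit 0) (nat_lit 9822416822) (nat_lit 228) (nat_lit 4557542017) (nat_lit 304) (nat_lit 1127913467) (nat_lit 48) (nat_lit 5) (nat_lit 51) (nat_lit 5) (nat_lit 52) (nat_lit 5) (nat_lit 334) (nat_lit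 252) (nat_lit 194)) (XT.nd (nat_lit 78) (nat_lit 0) (nat_lit 0) (XT.lf (nat_lit 0) (nat_lit 1863293473) (nat_lit 152) (nat_lit 418186358) (nat_lit 228) (nat_lit 13550955126) (nat_lit 45) (nat_lit 5) (nat_lit 47) (nat_lit 5) (nat_lit 48) (nat_lit 5) (nat_lit 335) (nat_lit 252) (nat_lit 193)) (XT.lf (nat_lit 0) (nat_lit 5829251733) (nat_lit 228) (nat_lit 6518941439) (nat_lit 76) (nat_lit 3816461935) (nat_lit 45) (nat_lit 5) (nat_lit 48) (nat_lit 5) (nat_lit 46) (nat_lit 5) (nat_lit 336) (nat_lit 252) (nat_lit 192)))) (XT.nd (nat_lit 156) (nat_lit 228) (nat_lit 0) (XT.nd (nat_lit 78) (nat_lit 0) (nat_lit 0) (XT.lf (nat_lit 0) (nat_lit 1113834091) (nat_lit 152) (nat_lit 8349346230) (nat_lit 228) (nat_lit 7044287938) (nat_lit 43) (nat_lit 5) (nat_lit 45) (nat_lit 5) (nat_lit 46) (nat_lit 5) (nat_lit 337) (nat_lit 252) (nat_lit 191)) (XT.lf (nat_lit 0) (nat_lit 9051273599) (nat_lit 152) (nat_lit 4186023872)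 (nat_lit 228) (nat_lit 3622350790) (nat_lit 43) (nat_lit 5) (nat_lit 45) (nat_lit 5) (nat_lit 46) (nat_lit 5) (nat_lit 338) (nat_lit 252) (nat_lit 190))) (XT.nd (nat_lit 78) (nat_lit 228) (nat_lit 0) (XT.lf (nat_lit 0) (nat_lit 17091754765) (nat_lit 228) (nat_lit 53612186) (nat_lit 76) (nat_lit 78030275) (nat_lit 43) (nat_lit 5) (nat_lit 46) (nat_lit 5) (nat_lit 44) (nat_lit 4) (nat_lit 339) (nat_lit 252) (nat_lit 189)) (XT.lf (nat_lit 0) (nat_lit 3482424566) (nat_lit 228) (nat_lit 9636746991) (nat_lit 76) (nat_lit 4475317453) (nat_lit 40) (nat_lit 5) (nat_lit 43) (nat_lit 5) (nat_lit 41) (nat_lit 5) (nat_lit 340) (nat_lit 252) (nat_lit 188)))))) (XT.nd (nat_lit 546) (nat_lit 380) (nat_lit 0) (XT.nd (nat_lit 234) (nat_lit 380) (nat_lit 0) (XT.nd (nat_lit 78) (nat_lit 152) (nat_lit 0) (XT.lf (nat_lit 0) (nat_lit 7170028270) (nat_lit 228) (nat_lit 1823005218) (nat_lit 76) (nat_lit 8984623756) (nat_lit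 40) (nat_lit 5) (nat_lit 43) (nat_lit 5) (nat_lit 41) (nat_lit 5) (nat_lit 341) (nat_lit 252) (nat_lit 187)) (XT.nd (nat_lit 78) (nat_lit 0) (nat_lit 0) (XT.lf (nat_lit 0) (nat_lit 6294050925) (nat_lit 152) (nat_lit 4702880175) (nat_lit 228) (nat_lit 7374544458) (nat_lit 38) (nat_lit 5) (nat_lit 40) (nat_lit 5) (nat_lit 41) (nat_lit 5) (nat_lit 342) (nat_lit 252) (nat_lit 186)) (XT.lf (nat_lit 0) (nat_lit 14638599691) (nat_lit 152) (nat_lit 287032767) (nat_lit 228) (nat_lit 3851880938) (nat_lit 38) (nat_lit 5) (nat_lit 40) (nat_lit 5) (nat_lit 41) (nat_lit 5) (nat_lit 343) (nat_lit 252) (nat_lit 185)))) (XT.nd (nat_lit 156) (nat_lit 152) (nat_lit 0) (XT.nd (nat_lit 78) (nat_lit 76) (nat_lit 0) (XT.lf (nat_lit 0) (nat_lit 4022730206) (nat_lit 152) (nat_lit 14998388401) (nat_lit 228) (nat_lit 173160339) (nat_lit 36) (nat_lit 5) (nat_lit 38) (nat_lit 5) (nat_lit 39) (nat_lit 4) (nat_lit 344) (nat_lit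 252) (nat_lit 184)) (XT.lf (nat_lit 0) (nat_lit 3559785915) (nat_lit 228) (nat_lit 7198906584) (nat_lit 76) (nat_lit 8863392971) (nat_lit 35) (nat_lit 5) (nat_lit 38) (nat_lit 5) (nat_lit 36) (nat_lit 5) (nat_lit 345) (nat_lit 252) (nat_lit 183))) (XT.nd (nat_lit 78) (nat_lit 0) (nat_lit 0) (XT.lf (nat_lit 0) (nat_lit 979175679) (nat_lit 152) (nat_lit 6401742075) (nat_lit 228) (nat_lit 12682379752) (nat_lit 33) (nat_lit 5) (nat_lit 35) (nat_lit 5) (nat_lit 36) (nat_lit 5) (nat_lit 346) (nat_lit 252) (nat_lit 182)) (XT.lf (nat_lit 0) (nat_lit 9499540288) (nat_lit 152) (nat_lit 1860482586) (nat_lit 228) (nat_lit 9156435546) (nat_lit 33) (nat_lit 5) (nat_lit 35) (nat_lit 5) (nat_lit 36) (nat_lit 5) (nat_lit 347) (nat_lit 252) (nat_lit 181))))) (XT.nd (nat_lit 234) (nat_lit 228) (nat_lit 0) (XT.nd (nat_lit 78) (nat_lit 152) (nat_lit 0) (XT.lf (nat_lit 0) (nat_lit 15456880963) (nat_lit 228) (nat_lit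 2784601956) (nat_lit 76) (nat_lit 2741792175) (nat_lit 33) (nat_lit 5) (nat_lit 36) (nat_lit 5) (nat_lit 34) (nat_lit 4) (nat_lit 348) (nat_lit 252) (nat_lit 180)) (XT.nd (nat_lit 78) (nat_lit 76) (nat_lit 0) (XT.lf (nat_lit 0) (nat_lit 5739895568) (nat_lit 76) (nat_lit 13982482074) (nat_lit 152) (nat_lit 1740358609) (nat_lit 32) (nat_lit 5) (nat_lit 33) (nat_lit 5) (nat_lit 34) (nat_lit 4) (nat_lit 349) (nat_lit 252) (nat_lit 179)) (XT.lf (nat_lit 0) (nat_lit 2117724667) (nat_lit 152) (nat_lit 7448026334) (nat_lit 76) (nat_lit 12390200792) (nat_lit 31) (nat_lit 5) (nat_lit 33) (nat_lit 5) (nat_lit 32) (nat_lit 5) (nat_lit 350) (nat_lit 252) (nat_lit 178)))) (XT.nd (nat_lit 156) (nat_lit 76) (nat_lit 0) (XT.nd (nat_lit 78) (nat_lit 0) (nat_lit 0) (XT.lf (nat_lit 0) (nat_lit 1030864848) (nat_lit 152) (nat_lit 5008629162) (nat_lit 228) (nat_lit 16424476113) (nat_lit 29) (nat_lit 5) (nat_lit 31) (nat_lit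 5) (nat_lit 32) (nat_lit 5) (nat_lit 351) (nat_lit 252) (nat_lit 177)) (XT.lf (nat_lit 0) (nat_lit 9870209091) (nat_lit 152) (nat_lit 257269702) (nat_lit 228) (nat_lit 12858303973) (nat_lit 29) (nat_lit 5) (nat_lit 31) (nat_lit 5) (nat_lit 32) (nat_lit 5) (nat_lit 352) (nat_lit 252) (nat_lit 176))) (XT.nd (nat_lit 78) (nat_lit 76) (nat_lit 0) (XT.lf (nat_lit 0) (nat_lit 14356615187) (nat_lit 228) (nat_lit 4638920516) (nat_lit 76) (nat_lit 4527169047) (nat_lit 29) (nat_lit 5) (nat_lit 32) (nat_lit 5) (nat_lit 30) (nat_lit 4) (nat_lit 353) (nat_lit 252) (nat_lit 175)) (XT.lf (nat_lit 0) (nat_lit 4125488878) (nat_lit 76) (nat_lit 14604041650) (nat_lit 152) (nat_lit 5345706743) (nat_lit 28) (nat_lit 5) (nat_lit 29) (nat_lit 5) (nat_lit 30) (nat_lit 4) (nat_lit 354) (nat_lit 252) (nat_lit 174))))))))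
noncomputable def xc84 : XT := (XT.nd (nat_lit 2106) (nat_lit 532) (nat_lit 0) (XT.nd (nat_lit 1014) (nat_lit 456) (nat_lit 0) (XT.nd (nat_lit 468) (nat_lit 304) (nat_lit 0) (XT.nd (nat_lit 234) (nat_lit 76) (nat_lit 0) (XT.nd (nat_lit 78) (nat_lit 228) (nat_lit 0) (XT.lf (nat_lit 0) (nat_lit 13203860864) (nat_lit 76) (nat_lit 10051630682) (nat_lit 152) (nat_lit 1388208205) (nat_lit 28) (nat_lit 5) (nat_lit 29) (nat_lit 5) (nat_lit 30) (nat_lit 4) (nat_lit 355) (nat_lit 252) (nat_lit 173)) (XT.nd (nat_lit 78) (nat_lit 152) (nat_lit 0) (XT.lf (nat_lit 0) (nat_lit 2611054942) (nat_lit 152) (nat_lit 2743747489) (nat_lit 76) (nat_lit 19874382907) (nat_lit 27) (nat_lit 5) (nat_lit 29) (nat_lit 5) (nat_lit 28) (nat_lit 5) (nat_lit 356) (nat_lit 252) (nat_lit 172)) (XT.lf (nat_lit 0) (nat_lit 6280011598) (nat_lit 152) (nat_lit 458956415) (nat_lit 228) (nat_lit 19091766838) (nat_lit 25) (nat_lit 5) (nat_lit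 27) (nat_lit 5) (nat_lit 28) (nat_lit 5) (nat_lit 357) (nat_lit 252) (nat_lit 171)))) (XT.nd (nat_lit 78) (nat_lit 76) (nat_lit 0) (XT.lf (nat_lit 0) (nat_lit 11039086619) (nat_lit 228) (nat_lit 10905252117) (nat_lit 76) (nat_lit 4504549714) (nat_lit 25) (nat_lit 5) (nat_lit 28) (nat_lit 5) (nat_lit 26) (nat_lit 4) (nat_lit 358) (nat_lit 252) (nat_lit 170)) (XT.nd (nat_lit 78) (nat_lit 76) (nat_lit 0) (XT.lf (nat_lit 0) (nat_lit 15449767855) (nat_lit 228) (nat_lit 2045877263) (nat_lit 76) (nat_lit 9590503161) (nat_lit 25) (nat_lit 5) (nat_lit 28) (nat_lit 5) (nat_lit 26) (nat_lit 4) (nat_lit 359) (nat_lit 252) (nat_lit 169)) (XT.lf (nat_lit 0) (nat_lit 7179655215) (nat_lit 76) (nat_lit 12859813967) (nat_lit 152) (nat_lit 7701663880) (nat_lit 24) (nat_lit 5) (nat_lit 25) (nat_lit 5) (nat_lit 26) (nat_lit 4) (nat_lit 360) (nat_lit 252) (nat_lit 168))))) (XT.nd (nat_lit 234) (nat_lit 76) (nat_lit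 0) (XT.nd (nat_lit 78) (nat_lit 228) (nat_lit 0) (XT.lf (nat_lit 0) (nat_lit 16684557046) (nat_lit 76) (nat_lit 8080920125) (nat_lit 152) (nat_lit 3650339662) (nat_lit 24) (nat_lit 5) (nat_lit 25) (nat_lit 5) (nat_lit 26) (nat_lit 4) (nat_lit 361) (nat_lit 252) (nat_lit 167)) (XT.nd (nat_lit 78) (nat_lit 152) (nat_lit 0) (XT.lf (nat_lit 0) (nat_lit 490706844) (nat_lit 152) (nat_lit 2679785185) (nat_lit 76) (nat_lit 25940754494) (nat_lit 23) (nat_lit 5) (nat_lit 25) (nat_lit 5) (nat_lit 24) (nat_lit 5) (nat_lit 362) (nat_lit 252) (nat_lit 166)) (XT.lf (nat_lit 0) (nat_lit 4745011129) (nat_lit 228) (nat_lit 23143800538) (nat_lit 76) (nat_lit 1935778580) (nat_lit 21) (nat_lit 5) (nat_lit 24) (nat_lit 5) (nat_lit 22) (nat_lit 4) (nat_lit 363) (nat_lit 252) (nat_lit 165)))) (XT.nd (nat_lit 156) (nat_lit 76) (nat_lit 0) (XT.nd (nat_lit 78) (nat_lit 0) (nat_lit 0) (XT.lf (nat_lit 0) (nat_lit 9164769506)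 (nat_lit 228) (nat_lit 14250672543) (nat_lit 76) (nat_lit 7142764516) (nat_lit 21) (nat_lit 5) (nat_lit 24) (nat_lit 5) (nat_lit 22) (nat_lit 4) (nat_lit 364) (nat_lit 252) (nat_lit 164)) (XT.lf (nat_lit 0) (nat_lit 13696834664) (nat_lit 228) (nat_lit 5127261350) (nat_lit 76) (nat_lit 12490350762) (nat_lit 21) (nat_lit 5) (nat_lit 24) (nat_lit 5) (nat_lit 22) (nat_lit 4) (nat_lit 365) (nat_lit 252) (nat_lit 163))) (XT.nd (nat_lit 78) (nat_lit 0) (nat_lit 0) (XT.lf (nat_lit 0) (nat_lit 4318677915) (nat_lit 76) (nat_lit 14068002519) (nat_lit 152) (nat_lit 13706045826) (nat_lit 20) (nat_lit 5) (nat_lit 21) (nat_lit 5) (nat_lit 22) (nat_lit 4) (nat_lit 366) (nat_lit 252) (nat_lit 162)) (XT.lf (nat_lit 0) (nat_lit 14117999486) (nat_lit 76) (nat_lit 9131538505) (nat_lit 152) (nat_lit 9643853078) (nat_lit 20) (nat_lit 5) (nat_lit 21) (nat_lit 5) (nat_lit 22) (nat_lit 4) (nat_lit 367) (nat_lit 252) (nat_lit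 161)))))) (XT.nd (nat_lit 546) (nat_lit 152) (nat_lit 0) (XT.nd (nat_lit 234) (nat_lit 76) (nat_lit 0) (XT.nd (nat_lit 78) (nat_lit 228) (nat_lit 0) (XT.lf (nat_lit 0) (nat_lit 24177223324) (nat_lit 76) (nat_lit 4062165844) (nat_lit 152) (nat_lit 5479259665) (nat_lit 20) (nat_lit 5) (nat_lit 21) (nat_lit 5) (nat_lit 22) (nat_lit 4) (nat_lit 368) (nat_lit 252) (nat_lit 160)) (XT.nd (nat_lit 78) (nat_lit 228) (nat_lit 0) (XT.lf (nat_lit 0) (nat_lit 33371596092) (nat_lit 152) (nat_lit 75083676) (nat_lit 0) (nat_lit 1122210818) (nat_lit 20) (nat_lit 5) (nat_lit 22) (nat_lit 4) (nat_lit 20) (nat_lit 4) (nat_lit 369) (nat_lit 252) (nat_lit 159)) (XT.lf (nat_lit 0) (nat_lit 3267993220) (nat_lit 228) (nat_lit 25679578232) (nat_lit 76) (nat_lit 6492620360) (nat_lit 17) (nat_lit 5) (nat_lit 20) (nat_lit 5) (nat_lit 18) (nat_lit 4) (nat_lit 370) (nat_lit 252) (nat_lit 158)))) (XT.nd (nat_lit 156) (nat_lit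 76) (nat_lit 0) (XT.nd (nat_lit 78) (nat_lit 0) (nat_lit 0) (XT.lf (nat_lit 0) (nat_lit 7826027555) (nat_lit 228) (nat_lit 16489117264) (nat_lit 76) (nat_lit 12022651600) (nat_lit 17) (nat_lit 5) (nat_lit 20) (nat_lit 5) (nat_lit 18) (nat_lit 4) (nat_lit 371) (nat_lit 252) (nat_lit 157)) (XT.lf (nat_lit 0) (nat_lit 12503411385) (nat_lit 228) (nat_lit 7054560840) (nat_lit 76) (nat_lit 17704884073) (nat_lit 17) (nat_lit 5) (nat_lit 20) (nat_lit 5) (nat_lit 18) (nat_lit 4) (nat_lit 372) (nat_lit 252) (nat_lit 156))) (XT.nd (nat_lit 78) (nat_lit 0) (nat_lit 0) (XT.lf (nat_lit 0) (nat_lit 2684723450) (nat_lit 76) (nat_lit 14645315498) (nat_lit 152) (nat_lit 20885366591) (nat_lit 16) (nat_lit 5) (nat_lit 17) (nat_lit 5) (nat_lit 18) (nat_lit 4) (nat_lit 373) (nat_lit 252) (nat_lit 155)) (XT.lf (nat_lit 0) (nat_lit 12830401356) (nat_lit 76) (nat_lit 9525615833) (nat_lit 152) (nat_lit 16838882590) (nat_lit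 16) (nat_lit 5) (nat_lit 17) (nat_lit 5) (nat_lit 18) (nat_lit 4) (nat_lit 374) (nat_lit 252) (nat_lit 154))))) (XT.nd (nat_lit 234) (nat_lit 76) (nat_lit 0) (XT.nd (nat_lit 78) (nat_lit 76) (nat_lit 0) (XT.lf (nat_lit 0) (nat_lit 23250938440) (nat_lit 76) (nat_lit 4265636939) (nat_lit 152) (nat_lit 12687694380) (nat_lit 16) (nat_lit 5) (nat_lit 17) (nat_lit 5) (nat_lit 18) (nat_lit 4) (nat_lit 375) (nat_lit 252) (nat_lit 153)) (XT.nd (nat_lit 78) (nat_lit 76) (nat_lit 0) (XT.lf (nat_lit 0) (nat_lit 32827173598) (nat_lit 152) (nat_lit 7299908282) (nat_lit 0) (nat_lit 1116987048) (nat_lit 16) (nat_lit 5) (nat_lit 18) (nat_lit 4) (nat_lit 16) (nat_lit 4) (nat_lit 376) (nat_lit 252) (nat_lit 152)) (XT.lf (nat_lit 0) (nat_lit 2623926458) (nat_lit 76) (nat_lit 35725230017) (nat_lit 76) (nat_lit 3964348241) (nat_lit 15) (nat_lit 4) (nat_lit 16) (nat_lit 5) (nat_lit 16) (nat_lit 4) (nat_lit 377) (nat_lit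 252) (nat_lit 151)))) (XT.nd (nat_lit 156) (nat_lit 0) (nat_lit 0) (XT.nd (nat_lit 78) (nat_lit 0) (nat_lit 0) (XT.lf (nat_lit 0) (nat_lit 668721900) (nat_lit 152) (nat_lit 30452594983) (nat_lit 76) (nat_lit 12291759379) (nat_lit 14) (nat_lit 5) (nat_lit 16) (nat_lit 5) (nat_lit 15) (nat_lit 4) (nat_lit 378) (nat_lit 252) (nat_lit 150)) (XT.lf (nat_lit 0) (nat_lit 5346187300) (nat_lit 152) (nat_lit 21005125334) (nat_lit 76) (nat_lit 18193596565) (nat_lit 14) (nat_lit 5) (nat_lit 16) (nat_lit 5) (nat_lit 15) (nat_lit 4) (nat_lit 379) (nat_lit 252) (nat_lit 149))) (XT.nd (nat_lit 78) (nat_lit 0) (nat_lit 0) (XT.lf (nat_lit 0) (nat_lit 10149493776) (nat_lit 152) (nat_lit 11300806501) (nat_lit 76) (nat_lit 24260835464) (nat_lit 14) (nat_lit 5) (nat_lit 16) (nat_lit 5) (nat_lit 15) (nat_lit 4) (nat_lit 380) (nat_lit 252) (nat_lit 148)) (XT.lf (nat_lit 0) (nat_lit 15082838392) (nat_lit 152) (nat_lit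 1331158982) (nat_lit 76) (nat_lit 30498777545) (nat_lit 14) (nat_lit 5) (nat_lit 16) (nat_lit 5) (nat_lit 15) (nat_lit 4) (nat_lit 381) (nat_lit 252) (nat_lit 147))))))) (XT.nd (nat_lit 1092) (nat_lit 228) (nat_lit 0) (XT.nd (nat_lit 546) (nat_lit 152) (nat_lit 0) (XT.nd (nat_lit 234) (nat_lit 76) (nat_lit 0) (XT.nd (nat_lit 78) (nat_lit 0) (nat_lit 0) (XT.lf (nat_lit 0) (nat_lit 9089905359) (nat_lit 76) (nat_lit 11148004210) (nat_lit 152) (nat_lit 27910345810) (nat_lit 13) (nat_lit 5) (nat_lit 14) (nat_lit 5) (nat_lit 15) (nat_lit 4) (nat_lit 382) (nat_lit 252) (nat_lit 146)) (XT.nd (nat_lit 78) (nat_lit 0) (nat_lit 0) (XT.lf (nat_lit 0) (nat_lit 19826085271) (nat_lit 76) (nat_lit 5721497384) (nat_lit 152) (nat_lit 23873222882) (nat_lit 13) (nat_lit 5) (nat_lit 14) (nat_lit 5) (nat_lit 15) (nat_lit 4) (nat_lit 383) (nat_lit 252) (nat_lit 145)) (XT.lf (nat_lit 0) (nat_lit 30860269207) (nat_lit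 76) (nat_lit 143177386) (nat_lit 152) (nat_lit 19728482257) (nat_lit 13) (nat_lit 5) (nat_lit 14) (nat_lit 5) (nat_lit 15) (nat_lit 4) (nat_lit 384) (nat_lit 252) (nat_lit 144)))) (XT.nd (nat_lit 156) (nat_lit 0) (nat_lit 0) (XT.nd (nat_lit 78) (nat_lit 76) (nat_lit 0) (XT.lf (nat_lit 0) (nat_lit 36664020734) (nat_lit 152) (nat_lit 9934424364) (nat_lit 0) (nat_lit 5482713299) (nat_lit 13) (nat_lit 5) (nat_lit 15) (nat_lit 4) (nat_lit 13) (nat_lit 4) (nat_lit 385) (nat_lit 252) (nat_lit 143)) (XT.lf (nat_lit 0) (nat_lit 282040627) (nat_lit 76) (nat_lit 42204053324) (nat_lit 76) (nat_lit 10985023880) (nat_lit 12) (nat_lit 4) (nat_lit 13) (nat_lit 5) (nat_lit 13) (nat_lit 4) (nat_lit 386) (nat_lit 252) (nat_lit 142))) (XT.nd (nat_lit 78) (nat_lit 0) (nat_lit 0) (XT.lf (nat_lit 0) (nat_lit 10985897380) (nat_lit 76) (nat_lit 37584947163) (nat_lit 76) (nat_lit 6329294408) (nat_lit 12) (nat_lit 4) (nat_lit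 13) (nat_lit 5) (nat_lit 13) (nat_lit 4) (nat_lit 387) (nat_lit 252) (nat_lit 141)) (XT.lf (nat_lit 0) (nat_lit 21988784254) (nat_lit 76) (nat_lit 32837408708) (nat_lit 76) (nat_lit 1546199342) (nat_lit 12) (nat_lit 4) (nat_lit 13) (nat_lit 5) (nat_lit 13) (nat_lit 4) (nat_lit 388) (nat_lit 252) (nat_lit 140))))) (XT.nd (nat_lit 234) (nat_lit 76) (nat_lit 0) (XT.nd (nat_lit 78) (nat_lit 0) (nat_lit 0) (XT.lf (nat_lit 0) (nat_lit 3302710309) (nat_lit 152) (nat_lit 24621228418) (nat_lit 76) (nat_lit 29964254214) (nat_lit 11) (nat_lit 5) (nat_lit 13) (nat_lit 5) (nat_lit 12) (nat_lit 4) (nat_lit 389) (nat_lit 252) (nat_lit 139)) (XT.nd (nat_lit 78) (nat_lit 0) (nat_lit 0) (XT.lf (nat_lit 0) (nat_lit 8254636673) (nat_lit 152) (nat_lit 14602333418) (nat_lit 76) (nat_lit 36592382429) (nat_lit 11) (nat_lit 5) (nat_lit 13) (nat_lit 5) (nat_lit 12) (nat_lit 4) (nat_lit 390) (nat_lit 252) (nat_lit 138))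 (XT.lf (nat_lit 0) (nat_lit 13344078591) (nat_lit 152) (nat_lit 4303305660) (nat_lit 76) (nat_lit 43410296797) (nat_lit 11) (nat_lit 5) (nat_lit 13) (nat_lit 5) (nat_lit 12) (nat_lit 4) (nat_lit 391) (nat_lit 252) (nat_lit 137)))) (XT.nd (nat_lit 156) (nat_lit 0) (nat_lit 0) (XT.nd (nat_lit 78) (nat_lit 0) (nat_lit 0) (XT.lf (nat_lit 0) (nat_lit 6409934920) (nat_lit 76) (nat_lit 12227164444) (nat_lit 152) (nat_lit 44075636012) (nat_lit 10) (nat_lit 5) (nat_lit 11) (nat_lit 5) (nat_lit 12) (nat_lit 4) (nat_lit 392) (nat_lit 252) (nat_lit 136)) (XT.lf (nat_lit 0) (nat_lit 17513141840) (nat_lit 76) (nat_lit 6608626669) (nat_lit 152) (nat_lit 40294689822) (nat_lit 10) (nat_lit 5) (nat_lit 11) (nat_lit 5) (nat_lit 12) (nat_lit 4) (nat_lit 393) (nat_lit 252) (nat_lit 135))) (XT.nd (nat_lit 78) (nat_lit 0) (nat_lit 0) (XT.lf (nat_lit 0) (nat_lit 28930372708) (nat_lit 76) (nat_lit 830316476) (nat_lit 152)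 (nat_lit 36410915098) (nat_lit 10) (nat_lit 5) (nat_lit 11) (nat_lit 5) (nat_lit 12) (nat_lit 4) (nat_lit 394) (nat_lit 252) (nat_lit 134)) (XT.lf (nat_lit 0) (nat_lit 35607936110) (nat_lit 152) (nat_lit 27357250612) (nat_lit 0) (nat_lit 5013045705) (nat_lit 10) (nat_lit 5) (nat_lit 12) (nat_lit 4) (nat_lit 10) (nat_lit 4) (nat_lit 395) (nat_lit 252) (nat_lit 133)))))) (XT.nd (nat_lit 546) (nat_lit 152) (nat_lit 0) (XT.nd (nat_lit 234) (nat_lit 0) (nat_lit 0) (XT.nd (nat_lit 78) (nat_lit 76) (nat_lit 0) (XT.lf (nat_lit 0) (nat_lit 41629043869) (nat_lit 152) (nat_lit 17203162459) (nat_lit 0) (nat_lit 11006902282) (nat_lit 10) (nat_lit 5) (nat_lit 12) (nat_lit 4) (nat_lit 10) (nat_lit 4) (nat_lit 396) (nat_lit 252) (nat_lit 132)) (XT.nd (nat_lit 78) (nat_lit 76) (nat_lit 0) (XT.lf (nat_lit 0) (nat_lit 47821292116) (nat_lit 152) (nat_lit 6762113099) (nat_lit 0) (nat_lit 17172693071) (nat_lit 10) (nat_lit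 5) (nat_lit 12) (nat_lit 4) (nat_lit 10) (nat_lit 4) (nat_lit 397) (nat_lit 252) (nat_lit 131)) (XT.lf (nat_lit 0) (nat_lit 4054131418) (nat_lit 76) (nat_lit 50174930927) (nat_lit 76) (nat_lit 19500645029) (nat_lit 9) (nat_lit 4) (nat_lit 10) (nat_lit 5) (nat_lit 10) (nat_lit 4) (nat_lit 398) (nat_lit 252) (nat_lit 130)))) (XT.nd (nat_lit 156) (nat_lit 0) (nat_lit 0) (XT.nd (nat_lit 78) (nat_lit 0) (nat_lit 0) (XT.lf (nat_lit 0) (nat_lit 15316501040) (nat_lit 76) (nat_lit 45571737688) (nat_lit 76) (nat_lit 14872513098) (nat_lit 9) (nat_lit 4) (nat_lit 10) (nat_lit 5) (nat_lit 10) (nat_lit 4) (nat_lit 399) (nat_lit 252) (nat_lit 129)) (XT.lf (nat_lit 0) (nat_lit 26900257363) (nat_lit 76) (nat_lit 40838087377) (nat_lit 76) (nat_lit 10114650464) (nat_lit 9) (nat_lit 4) (nat_lit 10) (nat_lit 5) (nat_lit 10) (nat_lit 4) (nat_lit 400) (nat_lit 252) (nat_lit 128))) (XT.nd (nat_lit 78) (nat_lit 0) (nat_lit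 0) (XT.lf (nat_lit 0) (nat_lit 38815522115) (nat_lit 76) (nat_lit 35969843792) (nat_lit 76) (nat_lit 5222899771) (nat_lit 9) (nat_lit 4) (nat_lit 10) (nat_lit 5) (nat_lit 10) (nat_lit 4) (nat_lit 401) (nat_lit 252) (nat_lit 127)) (XT.lf (nat_lit 0) (nat_lit 51072706693) (nat_lit 76) (nat_lit 30962753130) (nat_lit 76) (nat_lit 192986673) (nat_lit 9) (nat_lit 4) (nat_lit 10) (nat_lit 5) (nat_lit 10) (nat_lit 4) (nat_lit 402) (nat_lit 252) (nat_lit 126))))) (XT.nd (nat_lit 234) (nat_lit 0) (nat_lit 0) (XT.nd (nat_lit 78) (nat_lit 76) (nat_lit 0) (XT.lf (nat_lit 0) (nat_lit 4882316232) (nat_lit 152) (nat_lit 20880822209) (nat_lit 76) (nat_lit 58750903203) (nat_lit 8) (nat_lit 5) (nat_lit 10) (nat_lit 5) (nat_lit 9) (nat_lit 4) (nat_lit 403) (nat_lit 252) (nat_lit 125)) (XT.nd (nat_lit 78) (nat_lit 76) (nat_lit 0) (XT.lf (nat_lit 0) (nat_lit 10098060378) (nat_lit 152) (nat_lit 10314373928) (nat_lit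 76) (nat_lit 66455953104) (nat_lit 8) (nat_lit 5) (nat_lit 10) (nat_lit 5) (nat_lit 9) (nat_lit 4) (nat_lit 404) (nat_lit 252) (nat_lit 124)) (XT.lf (nat_lit 0) (nat_lit 565732442) (nat_lit 76) (nat_lit 14902274799) (nat_lit 152) (nat_lit 73825426255) (nat_lit 7) (nat_lit 5) (nat_lit 8) (nat_lit 5) (nat_lit 9) (nat_lit 4) (nat_lit 405) (nat_lit 252) (nat_lit 123)))) (XT.nd (nat_lit 156) (nat_lit 0) (nat_lit 0) (XT.nd (nat_lit 78) (nat_lit 0) (nat_lit 0) (XT.lf (nat_lit 0) (nat_lit 11969442649) (nat_lit 76) (nat_lit 9126144713) (nat_lit 152) (nat_lit 70692749361) (nat_lit 7) (nat_lit 5) (nat_lit 8) (nat_lit 5) (nat_lit 9) (nat_lit 4) (nat_lit 406) (nat_lit 252) (nat_lit 122)) (XT.lf (nat_lit 0) (nat_lit 23701444835) (nat_lit 76) (nat_lit 3183151896) (nat_lit 152) (nat_lit 67473714013) (nat_lit 7) (nat_lit 5) (nat_lit 8) (nat_lit 5) (nat_lit 9) (nat_lit 4) (nat_lit 407) (nat_lit 252) (nat_lit 121)))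 (XT.nd (nat_lit 78) (nat_lit 0) (nat_lit 0) (XT.lf (nat_lit 0) (nat_lit 32868276891) (nat_lit 152) (nat_lit 61261794087) (nat_lit 0) (nat_lit 2874684694) (nat_lit 7) (nat_lit 5) (nat_lit 9) (nat_lit 4) (nat_lit 7) (nat_lit 4) (nat_lit 408) (nat_lit 252) (nat_lit 120)) (XT.lf (nat_lit 0) (nat_lit 39055952157) (nat_lit 152) (nat_lit 51629565182) (nat_lit 0) (nat_lit 9044343719) (nat_lit 7) (nat_lit 5) (nat_lit 9) (nat_lit 4) (nat_lit 7) (nat_lit 4) (nat_lit 409) (nat_lit 252) (nat_lit 119))))))))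
noncomputable def xc85 : XT := (XT.nd (nat_lit 32136) (nat_lit 0) (nat_lit 3800) (XT.nd (nat_lit 31044) (nat_lit 0) (nat_lit 9500) (XT.nd (nat_lit 30498) (nat_lit 0) (nat_lit 15276) (XT.nd (nat_lit 30186) (nat_lit 0) (nat_lit 19304) (XT.nd (nat_lit 30030) (nat_lit 0) (nat_lit 20824) (XT.lf (nat_lit 0) (nat_lit 45422430835) (nat_lit 152) (nat_lit 41721164280) (nat_lit 0) (nat_lit 15393330900) (nat_lit 7) (nat_lit 5) (nat_lit 9) (nat_lit 4) (nat_lit 7) (nat_lit 4) (nat_lit 410) (nat_lit 252) (nat_lit 118)) (XT.nd (nat_lit 78) (nat_lit 684) (nat_lit 0) (XT.lf (nat_lit 0) (nat_lit 1541175938) (nat_lit 532) (nat_lit 894799775) (nat_lit 532) (nat_lit 894799775) (nat_lit 290) (nat_lit 4) (nat_lit 297) (nat_lit 5) (nat_lit 297) (nat_lit 4) (nat_lit 274) (nat_lit 253) (nat_lit 253)) (XT.lf (nat_lit 0) (nat_lit 408520707) (nat_lit 608) (nat_lit 858822542) (nat_lit 684) (nat_lit 5427741539) (nat_lit 281)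 (nat_lit 5) (nat_lit 289) (nat_lit 5) (nat_lit 290) (nat_lit 4) (nat_lit 275) (nat_lit 253) (nat_lit 252)))) (XT.nd (nat_lit 156) (nat_lit 760) (nat_lit 0) (XT.nd (nat_lit 78) (nat_lit 760) (nat_lit 0) (XT.lf (nat_lit 0) (nat_lit 4315371311) (nat_lit 684) (nat_lit 2241581559) (nat_lit 0) (nat_lit 174266811) (nat_lit 281) (nat_lit 5) (nat_lit 290) (nat_lit 4) (nat_lit 281) (nat_lit 4) (nat_lit 276) (nat_lit 253) (nat_lit 251)) (XT.lf (nat_lit 0) (nat_lit 599467257) (nat_lit 760) (nat_lit 4904722815) (nat_lit 76) (nat_lit 1266433091) (nat_lit 271) (nat_lit 5) (nat_lit 281) (nat_lit 5) (nat_lit 272) (nat_lit 4) (nat_lit 277) (nat_lit 253) (nat_lit 250))) (XT.nd (nat_lit 78) (nat_lit 760) (nat_lit 0) (XT.lf (nat_lit 0) (nat_lit 3581390261) (nat_lit 760) (nat_lit 774270429) (nat_lit 76) (nat_lit 2457260509) (nat_lit 271) (nat_lit 5) (nat_lit 281) (nat_lit 5) (nat_lit 272) (nat_lit 4) (nat_lit 278) (nat_lit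 253) (nat_lit 249)) (XT.lf (nat_lit 0) (nat_lit 3468007410) (nat_lit 760) (nat_lit 3122803428) (nat_lit 836) (nat_lit 267702303) (nat_lit 261) (nat_lit 5) (nat_lit 271) (nat_lit 5) (nat_lit 272) (nat_lit 4) (nat_lit 279) (nat_lit 253) (nat_lit 248))))) (XT.nd (nat_lit 234) (nat_lit 2128) (nat_lit 0) (XT.nd (nat_lit 78) (nat_lit 988) (nat_lit 0) (XT.lf (nat_lit 0) (nat_lit 857048177) (nat_lit 836) (nat_lit 1795419291) (nat_lit 912) (nat_lit 4254705677) (nat_lit 249) (nat_lit 5) (nat_lit 260) (nat_lit 5) (nat_lit 261) (nat_lit 5) (nat_lit 280) (nat_lit 253) (nat_lit 247)) (XT.nd (nat_lit 78) (nat_lit 988) (nat_lit 0) (XT.lf (nat_lit 0) (nat_lit 5218607661) (nat_lit 836) (nat_lit 378080850) (nat_lit 912) (nat_lit 1362422185) (nat_lit 249) (nat_lit 5) (nat_lit 260) (nat_lit 5) (nat_lit 261) (nat_lit 5) (nat_lit 281) (nat_lit 253) (nat_lit 246)) (XT.lf (nat_lit 0) (nat_lit 1530786722) (nat_lit 988)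 (nat_lit 4370308944) (nat_lit 76) (nat_lit 1112816744) (nat_lit 236) (nat_lit 5) (nat_lit 249) (nat_lit 5) (nat_lit 237) (nat_lit 5) (nat_lit 282) (nat_lit 253) (nat_lit 245)))) (XT.nd (nat_lit 156) (nat_lit 1064) (nat_lit 0) (XT.nd (nat_lit 78) (nat_lit 76) (nat_lit 0) (XT.lf (nat_lit 0) (nat_lit 26237886) (nat_lit 988) (nat_lit 4390166010) (nat_lit 1064) (nat_lit 2655698897) (nat_lit 223) (nat_lit 5) (nat_lit 236) (nat_lit 5) (nat_lit 237) (nat_lit 5) (nat_lit 283) (nat_lit 253) (nat_lit 244)) (XT.lf (nat_lit 0) (nat_lit 208174654) (nat_lit 1064) (nat_lit 2572375996) (nat_lit 76) (nat_lit 4352846520) (nat_lit 222) (nat_lit 5) (nat_lit 236) (nat_lit 5) (nat_lit 223) (nat_lit 5) (nat_lit 284) (nat_lit 253) (nat_lit 243))) (XT.nd (nat_lit 78) (nat_lit 0) (nat_lit 0) (XT.lf (nat_lit 0) (nat_lit 1966794869) (nat_lit 1064) (nat_lit 1071321659) (nat_lit 1140) (nat_lit 4159746507) (nat_lit 208) (nat_lit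 5) (nat_lit 222) (nat_lit 5) (nat_lit 223) (nat_lit 5) (nat_lit 285) (nat_lit 253) (nat_lit 242)) (XT.lf (nat_lit 0) (nat_lit 5902194023) (nat_lit 1140) (nat_lit 657981522) (nat_lit 76) (nat_lit 705733851) (nat_lit 208) (nat_lit 5) (nat_lit 223) (nat_lit 5) (nat_lit 209) (nat_lit 5) (nat_lit 286) (nat_lit 253) (nat_lit 241)))))) (XT.nd (nat_lit 546) (nat_lit 2052) (nat_lit 0) (XT.nd (nat_lit 234) (nat_lit 1824) (nat_lit 0) (XT.nd (nat_lit 78) (nat_lit 684) (nat_lit 0) (XT.lf (nat_lit 0) (nat_lit 1454439621) (nat_lit 1216) (nat_lit 3310879634) (nat_lit 76) (nat_lit 2571322316) (nat_lit 192) (nat_lit 5) (nat_lit 208) (nat_lit 5) (nat_lit 193) (nat_lit 5) (nat_lit 287) (nat_lit 253) (nat_lit 240)) (XT.nd (nat_lit 78) (nat_lit 0) (nat_lit 0) (XT.lf (nat_lit 0) (nat_lit 1386685436) (nat_lit 684) (nat_lit 2882599308) (nat_lit 760) (nat_lit 3141732408) (nat_lit 183) (nat_lit 5) (nat_lit 192) (nat_lit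 5) (nat_lit 193) (nat_lit 5) (nat_lit 288) (nat_lit 253) (nat_lit 239)) (XT.lf (nat_lit 0) (nat_lit 6212826344) (nat_lit 684) (nat_lit 910270390) (nat_lit 760) (nat_lit 366001474) (nat_lit 183) (nat_lit 5) (nat_lit 192) (nat_lit 5) (nat_lit 193) (nat_lit 5) (nat_lit 289) (nat_lit 253) (nat_lit 238)))) (XT.nd (nat_lit 156) (nat_lit 608) (nat_lit 0) (XT.nd (nat_lit 78) (nat_lit 532) (nat_lit 0) (XT.lf (nat_lit 0) (nat_lit 2412632578) (nat_lit 684) (nat_lit 4000928095) (nat_lit 76) (nat_lit 1156297283) (nat_lit 174) (nat_lit 5) (nat_lit 183) (nat_lit 5) (nat_lit 175) (nat_lit 5) (nat_lit 290) (nat_lit 253) (nat_lit 237)) (XT.lf (nat_lit 0) (nat_lit 855829117) (nat_lit 532) (nat_lit 4365691397) (nat_lit 608) (nat_lit 2432884268) (nat_lit 167) (nat_lit 5) (nat_lit 174) (nat_lit 5) (nat_lit 175) (nat_lit 5) (nat_lit 291) (nat_lit 253) (nat_lit 236))) (XT.nd (nat_lit 78) (nat_lit 532) (nat_lit 0) (XT.lf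 (nat_lit 0) (nat_lit 331310537) (nat_lit 608) (nat_lit 1885862622) (nat_lit 76) (nat_lit 5525339822) (nat_lit 166) (nat_lit 5) (nat_lit 174) (nat_lit 5) (nat_lit 167) (nat_lit 5) (nat_lit 292) (nat_lit 253) (nat_lit 235)) (XT.lf (nat_lit 0) (nat_lit 3086872392) (nat_lit 608) (nat_lit 4702624741) (nat_lit 76) (nat_lit 44416463) (nat_lit 159) (nat_lit 5) (nat_lit 167) (nat_lit 5) (nat_lit 160) (nat_lit 5) (nat_lit 293) (nat_lit 253) (nat_lit 234))))) (XT.nd (nat_lit 234) (nat_lit 988) (nat_lit 0) (XT.nd (nat_lit 78) (nat_lit 608) (nat_lit 0) (XT.lf (nat_lit 0) (nat_lit 313182889) (nat_lit 456) (nat_lit 5584221826) (nat_lit 532) (nat_lit 2031571726) (nat_lit 153) (nat_lit 5) (nat_lit 159) (nat_lit 5) (nat_lit 160) (nat_lit 5) (nat_lit 294) (nat_lit 253) (nat_lit 233)) (XT.nd (nat_lit 78) (nat_lit 532) (nat_lit 0) (XT.lf (nat_lit 0) (nat_lit 727033178) (nat_lit 532) (nat_lit 2539056798) (nat_lit 76)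 (nat_lit 4761366486) (nat_lit 152) (nat_lit 5) (nat_lit 159) (nat_lit 5) (nat_lit 153) (nat_lit 5) (nat_lit 295) (nat_lit 253) (nat_lit 232)) (XT.lf (nat_lit 0) (nat_lit 2642176455) (nat_lit 532) (nat_lit 841512448) (nat_lit 608) (nat_lit 4645996527) (nat_lit 145) (nat_lit 5) (nat_lit 152) (nat_lit 5) (nat_lit 153) (nat_lit 5) (nat_lit 296) (nat_lit 253) (nat_lit 231)))) (XT.nd (nat_lit 156) (nat_lit 456) (nat_lit 0) (XT.nd (nat_lit 78) (nat_lit 532) (nat_lit 0) (XT.lf (nat_lit 0) (nat_lit 6296744035) (nat_lit 608) (nat_lit 299979173) (nat_lit 76) (nat_lit 1639126428) (nat_lit 145) (nat_lit 5) (nat_lit 153) (nat_lit 5) (nat_lit 146) (nat_lit 5) (nat_lit 297) (nat_lit 253) (nat_lit 230)) (XT.lf (nat_lit 0) (nat_lit 823058999) (nat_lit 532) (nat_lit 3298275405) (nat_lit 76) (nat_lit 4223975321) (nat_lit 138) (nat_lit 5) (nat_lit 145) (nat_lit 5) (nat_lit 139) (nat_lit 5) (nat_lit 298) (nat_lit 253)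 (nat_lit 229))) (XT.nd (nat_lit 78) (nat_lit 0) (nat_lit 0) (XT.lf (nat_lit 0) (nat_lit 2044551901) (nat_lit 456) (nat_lit 1541614621) (nat_lit 532) (nat_lit 4872672187) (nat_lit 132) (nat_lit 5) (nat_lit 138) (nat_lit 5) (nat_lit 139) (nat_lit 5) (nat_lit 299) (nat_lit 253) (nat_lit 228)) (XT.lf (nat_lit 0) (nat_lit 6411898492) (nat_lit 532) (nat_lit 1050415516) (nat_lit 76) (nat_lit 1114138128) (nat_lit 132) (nat_lit 5) (nat_lit 139) (nat_lit 5) (nat_lit 133) (nat_lit 5) (nat_lit 300) (nat_lit 253) (nat_lit 227))))))) (XT.nd (nat_lit 1092) (nat_lit 2204) (nat_lit 0) (XT.nd (nat_lit 546) (nat_lit 1444) (nat_lit 0) (XT.nd (nat_lit 234) (nat_lit 1140) (nat_lit 0) (XT.nd (nat_lit 78) (nat_lit 456) (nat_lit 0) (XT.lf (nat_lit 0) (nat_lit 607979213) (nat_lit 456) (nat_lit 4234986346) (nat_lit 76) (nat_lit 3854653798) (nat_lit 126) (nat_lit 5) (nat_lit 132) (nat_lit 5) (nat_lit 127) (nat_lit 5) (nat_lit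 301) (nat_lit 253) (nat_lit 226)) (XT.nd (nat_lit 78) (nat_lit 0) (nat_lit 0) (XT.lf (nat_lit 0) (nat_lit 1265579157) (nat_lit 456) (nat_lit 2115149930) (nat_lit 532) (nat_lit 5442297705) (nat_lit 120) (nat_lit 5) (nat_lit 126) (nat_lit 5) (nat_lit 127) (nat_lit 5) (nat_lit 302) (nat_lit 253) (nat_lit 225)) (XT.lf (nat_lit 0) (nat_lit 6225112523) (nat_lit 532) (nat_lit 2019101429) (nat_lit 76) (nat_lit 708391615) (nat_lit 120) (nat_lit 5) (nat_lit 127) (nat_lit 5) (nat_lit 121) (nat_lit 5) (nat_lit 303) (nat_lit 253) (nat_lit 224)))) (XT.nd (nat_lit 156) (nat_lit 304) (nat_lit 0) (XT.nd (nat_lit 78) (nat_lit 380) (nat_lit 0) (XT.lf (nat_lit 0) (nat_lit 63810608) (nat_lit 456) (nat_lit 5427768625) (nat_lit 76) (nat_lit 3594639799) (nat_lit 114) (nat_lit 5) (nat_lit 120) (nat_lit 5) (nat_lit 115) (nat_lit 5) (nat_lit 304) (nat_lit 253) (nat_lit 223)) (XT.lf (nat_lit 0) (nat_lit 224417057) (nat_lit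 380) (nat_lit 2623107566) (nat_lit 456) (nat_lit 6376658729) (nat_lit 109) (nat_lit 5) (nat_lit 114) (nat_lit 5) (nat_lit 115) (nat_lit 5) (nat_lit 305) (nat_lit 253) (nat_lit 222))) (XT.nd (nat_lit 78) (nat_lit 304) (nat_lit 0) (XT.lf (nat_lit 0) (nat_lit 5714846974) (nat_lit 456) (nat_lit 3289054265) (nat_lit 76) (nat_lit 362438116) (nat_lit 109) (nat_lit 5) (nat_lit 115) (nat_lit 5) (nat_lit 110) (nat_lit 5) (nat_lit 306) (nat_lit 253) (nat_lit 221)) (XT.lf (nat_lit 0) (nat_lit 2540746353) (nat_lit 304) (nat_lit 6121098016) (nat_lit 380) (nat_lit 851160050) (nat_lit 105) (nat_lit 5) (nat_lit 109) (nat_lit 5) (nat_lit 110) (nat_lit 5) (nat_lit 307) (nat_lit 253) (nat_lit 220))))) (XT.nd (nat_lit 234) (nat_lit 684) (nat_lit 0) (XT.nd (nat_lit 78) (nat_lit 684) (nat_lit 0) (XT.lf (nat_lit 0) (nat_lit 1970636905) (nat_lit 380) (nat_lit 1146353344) (nat_lit 76) (nat_lit 6547229918) (nat_lit 104)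 (nat_lit 5) (nat_lit 109) (nat_lit 5) (nat_lit 105) (nat_lit 5) (nat_lit 308) (nat_lit 253) (nat_lit 219)) (XT.nd (nat_lit 78) (nat_lit 304) (nat_lit 0) (XT.lf (nat_lit 0) (nat_lit 4852136292) (nat_lit 456) (nat_lit 4953329913) (nat_lit 76) (nat_lit 14538135) (nat_lit 99) (nat_lit 5) (nat_lit 105) (nat_lit 5) (nat_lit 100) (nat_lit 5) (nat_lit 309) (nat_lit 253) (nat_lit 218)) (XT.lf (nat_lit 0) (nat_lit 1017557018) (nat_lit 304) (nat_lit 6800790939) (nat_lit 380) (nat_lit 2162214078) (nat_lit 95) (nat_lit 5) (nat_lit 99) (nat_lit 5) (nat_lit 100) (nat_lit 5) (nat_lit 310) (nat_lit 253) (nat_lit 217)))) (XT.nd (nat_lit 156) (nat_lit 304) (nat_lit 0) (XT.nd (nat_lit 78) (nat_lit 304) (nat_lit 0) (XT.lf (nat_lit 0) (nat_lit 710149761) (nat_lit 380) (nat_lit 2957999224) (nat_lit 76) (nat_lit 6477720750) (nat_lit 94) (nat_lit 5) (nat_lit 99) (nat_lit 5) (nat_lit 95) (nat_lit 5) (nat_lit 311) (nat_lit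 253) (nat_lit 216)) (XT.lf (nat_lit 0) (nat_lit 3195103622) (nat_lit 304) (nat_lit 408626479) (nat_lit 380) (nat_lit 6712453146) (nat_lit 90) (nat_lit 5) (nat_lit 94) (nat_lit 5) (nat_lit 95) (nat_lit 5) (nat_lit 312) (nat_lit 253) (nat_lit 215))) (XT.nd (nat_lit 78) (nat_lit 304) (nat_lit 0) (XT.lf (nat_lit 0) (nat_lit 6591043816) (nat_lit 380) (nat_lit 999575441) (nat_lit 76) (nat_lit 2900821788) (nat_lit 90) (nat_lit 5) (nat_lit 95) (nat_lit 5) (nat_lit 91) (nat_lit 5) (nat_lit 313) (nat_lit 253) (nat_lit 214)) (XT.lf (nat_lit 0) (nat_lit 5334100290) (nat_lit 304) (nat_lit 4339115245) (nat_lit 380) (nat_lit 998625301) (nat_lit 86) (nat_lit 5) (nat_lit 90) (nat_lit 5) (nat_lit 91) (nat_lit 5) (nat_lit 314) (nat_lit 253) (nat_lit 213)))))) (XT.nd (nat_lit 546) (nat_lit 988) (nat_lit 0) (XT.nd (nat_lit 234) (nat_lit 608) (nat_lit 0) (XT.nd (nat_lit 78) (nat_lit 228) (nat_lit 0) (XT.lf (nat_lit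 0) (nat_lit 948356766) (nat_lit 304) (nat_lit 972485482) (nat_lit 380) (nat_lit 8937191130) (nat_lit 81) (nat_lit 5) (nat_lit 85) (nat_lit 5) (nat_lit 86) (nat_lit 5) (nat_lit 315) (nat_lit 253) (nat_lit 212)) (XT.nd (nat_lit 78) (nat_lit 228) (nat_lit 0) (XT.lf (nat_lit 0) (nat_lit 4936965565) (nat_lit 380) (nat_lit 3622583298) (nat_lit 76) (nat_lit 2489129820) (nat_lit 81) (nat_lit 5) (nat_lit 86) (nat_lit 5) (nat_lit 82) (nat_lit 5) (nat_lit 316) (nat_lit 253) (nat_lit 211)) (XT.lf (nat_lit 0) (nat_lit 2828357357) (nat_lit 228) (nat_lit 5204190816) (nat_lit 304) (nat_lit 3212862707) (nat_lit 78) (nat_lit 5) (nat_lit 81) (nat_lit 5) (nat_lit 82) (nat_lit 5) (nat_lit 317) (nat_lit 253) (nat_lit 210)))) (XT.nd (nat_lit 156) (nat_lit 228) (nat_lit 0) (XT.nd (nat_lit 78) (nat_lit 380) (nat_lit 0) (XT.lf (nat_lit 0) (nat_lit 9477446805) (nat_lit 228) (nat_lit 1733015576) (nat_lit 304) (nat_lit 237934465)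 (nat_lit 78) (nat_lit 5) (nat_lit 81) (nat_lit 5) (nat_lit 82) (nat_lit 5) (nat_lit 318) (nat_lit 253) (nat_lit 209)) (XT.lf (nat_lit 0) (nat_lit 2787898882) (nat_lit 380) (nat_lit 7011128022) (nat_lit 76) (nat_lit 1857159913) (nat_lit 73) (nat_lit 5) (nat_lit 78) (nat_lit 5) (nat_lit 74) (nat_lit 5) (nat_lit 319) (nat_lit 253) (nat_lit 208))) (XT.nd (nat_lit 78) (nat_lit 228) (nat_lit 0) (XT.lf (nat_lit 0) (nat_lit 5891230926) (nat_lit 380) (nat_lit 458450406) (nat_lit 76) (nat_lit 5520746000) (nat_lit 73) (nat_lit 5) (nat_lit 78) (nat_lit 5) (nat_lit 74) (nat_lit 5) (nat_lit 320) (nat_lit 253) (nat_lit 207)) (XT.lf (nat_lit 0) (nat_lit 6347608130) (nat_lit 228) (nat_lit 2756652072) (nat_lit 304) (nat_lit 2986368684) (nat_lit 70) (nat_lit 5) (nat_lit 73) (nat_lit 5) (nat_lit 74) (nat_lit 5) (nat_lit 321) (nat_lit 253) (nat_lit 206))))) (XT.nd (nat_lit 234) (nat_lit 456) (nat_lit 0) (XT.nd (nat_lit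 78) (nat_lit 228) (nat_lit 0) (XT.lf (nat_lit 0) (nat_lit 73442023) (nat_lit 304) (nat_lit 11326143394) (nat_lit 76) (nat_lit 918480950) (nat_lit 66) (nat_lit 5) (nat_lit 70) (nat_lit 5) (nat_lit 67) (nat_lit 5) (nat_lit 322) (nat_lit 253) (nat_lit 205)) (XT.nd (nat_lit 78) (nat_lit 228) (nat_lit 0) (XT.lf (nat_lit 0) (nat_lit 3207082737) (nat_lit 304) (nat_lit 4629153075) (nat_lit 76) (nat_lit 4713971408) (nat_lit 66) (nat_lit 5) (nat_lit 70) (nat_lit 5) (nat_lit 67) (nat_lit 5) (nat_lit 323) (nat_lit 253) (nat_lit 204)) (XT.lf (nat_lit 0) (nat_lit 2246792464) (nat_lit 228) (nat_lit 4167011259) (nat_lit 304) (nat_lit 6376164646) (nat_lit 63) (nat_lit 5) (nat_lit 66) (nat_lit 5) (nat_lit 67) (nat_lit 5) (nat_lit 324) (nat_lit 253) (nat_lit 203)))) (XT.nd (nat_lit 156) (nat_lit 228) (nat_lit 0) (XT.nd (nat_lit 78) (nat_lit 228) (nat_lit 0) (XT.lf (nat_lit 0) (nat_lit 9358757040) (nat_lit 228) (nat_lit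 362800528) (nat_lit 304) (nat_lit 3315247230) (nat_lit 63) (nat_lit 5) (nat_lit 66) (nat_lit 5) (nat_lit 67) (nat_lit 5) (nat_lit 325) (nat_lit 253) (nat_lit 202)) (XT.lf (nat_lit 0) (nat_lit 3360139365) (nat_lit 228) (nat_lit 9793972156) (nat_lit 304) (nat_lit 136194359) (nat_lit 60) (nat_lit 5) (nat_lit 63) (nat_lit 5) (nat_lit 64) (nat_lit 5) (nat_lit 326) (nat_lit 253) (nat_lit 201))) (XT.nd (nat_lit 78) (nat_lit 152) (nat_lit 0) (XT.lf (nat_lit 0) (nat_lit 3077337647) (nat_lit 304) (nat_lit 2964046905) (nat_lit 76) (nat_lit 7509137131) (nat_lit 59) (nat_lit 5) (nat_lit 63) (nat_lit 5) (nat_lit 60) (nat_lit 5) (nat_lit 327) (nat_lit 253) (nat_lit 200)) (XT.lf (nat_lit 0) (nat_lit 4229630326) (nat_lit 152) (nat_lit 2155997588) (nat_lit 228) (nat_lit 7432867230) (nat_lit 57) (nat_lit 5) (nat_lit 59) (nat_lit 5) (nat_lit 60) (nat_lit 5) (nat_lit 328) (nat_lit 253) (nat_lit 199))))))))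
noncomputable def xc86 : XT := (XT.nd (nat_lit 2106) (nat_lit 1140) (nat_lit 0) (XT.nd (nat_lit 1014) (nat_lit 912) (nat_lit 0) (XT.nd (nat_lit 468) (nat_lit 608) (nat_lit 0) (XT.nd (nat_lit 234) (nat_lit 380) (nat_lit 0) (XT.nd (nat_lit 78) (nat_lit 304) (nat_lit 0) (XT.lf (nat_lit 0) (nat_lit 9801906117) (nat_lit 228) (nat_lit 2474744682) (nat_lit 76) (nat_lit 1817618454) (nat_lit 57) (nat_lit 5) (nat_lit 60) (nat_lit 5) (nat_lit 58) (nat_lit 5) (nat_lit 329) (nat_lit 253) (nat_lit 198)) (XT.nd (nat_lit 78) (nat_lit 76) (nat_lit 0) (XT.lf (nat_lit 0) (nat_lit 4865253320) (nat_lit 228) (nat_lit 8485443751) (nat_lit 304) (nat_lit 1026741714) (nat_lit 54) (nat_lit 5) (nat_lit 57) (nat_lit 5) (nat_lit 58) (nat_lit 5) (nat_lit 330) (nat_lit 253) (nat_lit 197)) (XT.lf (nat_lit 0) (nat_lit 2278529369) (nat_lit 304) (nat_lit 2276198709) (nat_lit 76) (nat_lit 10114104603) (nat_lit 53) (nat_lit 5) (nat_lit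 57) (nat_lit 5) (nat_lit 54) (nat_lit 5) (nat_lit 331) (nat_lit 253) (nat_lit 196)))) (XT.nd (nat_lit 78) (nat_lit 228) (nat_lit 0) (XT.lf (nat_lit 0) (nat_lit 5208815050) (nat_lit 152) (nat_lit 466726729) (nat_lit 228) (nat_lit 9292746037) (nat_lit 51) (nat_lit 5) (nat_lit 53) (nat_lit 5) (nat_lit 54) (nat_lit 5) (nat_lit 332) (nat_lit 253) (nat_lit 195)) (XT.nd (nat_lit 78) (nat_lit 228) (nat_lit 0) (XT.lf (nat_lit 0) (nat_lit 9197104881) (nat_lit 228) (nat_lit 2407053747) (nat_lit 76) (nat_lit 3671909142) (nat_lit 51) (nat_lit 5) (nat_lit 54) (nat_lit 5) (nat_lit 52) (nat_lit 5) (nat_lit 333) (nat_lit 253) (nat_lit 194)) (XT.lf (nat_lit 0) (nat_lit 5204784383) (nat_lit 228) (nat_lit 7638686810) (nat_lit 304) (nat_lit 2749055023) (nat_lit 48) (nat_lit 5) (nat_lit 51) (nat_lit 5) (nat_lit 52) (nat_lit 5) (nat_lit 334) (nat_lit 253) (nat_lit 193))))) (XT.nd (nat_lit 234) (nat_lit 380) (nat_lit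 0) (XT.nd (nat_lit 78) (nat_lit 152) (nat_lit 0) (XT.lf (nat_lit 0) (nat_lit 656632436) (nat_lit 304) (nat_lit 2888463478) (nat_lit 76) (nat_lit 12373529845) (nat_lit 47) (nat_lit 5) (nat_lit 51) (nat_lit 5) (nat_lit 48) (nat_lit 5) (nat_lit 335) (nat_lit 253) (nat_lit 192)) (XT.nd (nat_lit 78) (nat_lit 0) (nat_lit 0) (XT.lf (nat_lit 0) (nat_lit 4128445565) (nat_lit 228) (nat_lit 11413716717) (nat_lit 76) (nat_lit 710971308) (nat_lit 45) (nat_lit 5) (nat_lit 48) (nat_lit 5) (nat_lit 46) (nat_lit 5) (nat_lit 336) (nat_lit 253) (nat_lit 191)) (XT.lf (nat_lit 0) (nat_lit 7734868894) (nat_lit 228) (nat_lit 3830666427) (nat_lit 76) (nat_lit 5031245237) (nat_lit 45) (nat_lit 5) (nat_lit 48) (nat_lit 5) (nat_lit 46) (nat_lit 5) (nat_lit 337) (nat_lit 253) (nat_lit 190)))) (XT.nd (nat_lit 156) (nat_lit 228) (nat_lit 0) (XT.nd (nat_lit 78) (nat_lit 0) (nat_lit 0) (XT.lf (nat_lit 0) (nat_lit 4002819396)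 (nat_lit 152) (nat_lit 7452035540) (nat_lit 228) (nat_lit 5495737960) (nat_lit 43) (nat_lit 5) (nat_lit 45) (nat_lit 5) (nat_lit 46) (nat_lit 5) (nat_lit 338) (nat_lit 253) (nat_lit 189)) (XT.lf (nat_lit 0) (nat_lit 12095210139) (nat_lit 152) (nat_lit 3197244319) (nat_lit 228) (nat_lit 2022401298) (nat_lit 43) (nat_lit 5) (nat_lit 45) (nat_lit 5) (nat_lit 46) (nat_lit 5) (nat_lit 339) (nat_lit 253) (nat_lit 188))) (XT.nd (nat_lit 78) (nat_lit 0) (nat_lit 0) (XT.lf (nat_lit 0) (nat_lit 1530527698) (nat_lit 228) (nat_lit 14976519259) (nat_lit 76) (nat_lit 1182394536) (nat_lit 40) (nat_lit 5) (nat_lit 43) (nat_lit 5) (nat_lit 41) (nat_lit 5) (nat_lit 340) (nat_lit 253) (nat_lit 187)) (XT.lf (nat_lit 0) (nat_lit 5202450982) (nat_lit 228) (nat_lit 7189337824) (nat_lit 76) (nat_lit 5681298804) (nat_lit 40) (nat_lit 5) (nat_lit 43) (nat_lit 5) (nat_lit 41) (nat_lit 5) (nat_lit 341) (nat_lit 253) (nat_lit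 186)))))) (XT.nd (nat_lit 546) (nat_lit 380) (nat_lit 0) (XT.nd (nat_lit 234) (nat_lit 380) (nat_lit 0) (XT.nd (nat_lit 78) (nat_lit 0) (nat_lit 0) (XT.lf (nat_lit 0) (nat_lit 794617836) (nat_lit 152) (nat_lit 8166648352) (nat_lit 228) (nat_lit 9507689614) (nat_lit 38) (nat_lit 5) (nat_lit 40) (nat_lit 5) (nat_lit 41) (nat_lit 5) (nat_lit 342) (nat_lit 253) (nat_lit 185)) (XT.nd (nat_lit 78) (nat_lit 0) (nat_lit 0) (XT.lf (nat_lit 0) (nat_lit 9113632677) (nat_lit 152) (nat_lit 3761309121) (nat_lit 228) (nat_lit 6000509654) (nat_lit 38) (nat_lit 5) (nat_lit 40) (nat_lit 5) (nat_lit 41) (nat_lit 5) (nat_lit 343) (nat_lit 253) (nat_lit 184)) (XT.lf (nat_lit 0) (nat_lit 16883675961) (nat_lit 228) (nat_lit 1670412575) (nat_lit 76) (nat_lit 740737860) (nat_lit 38) (nat_lit 5) (nat_lit 41) (nat_lit 5) (nat_lit 39) (nat_lit 4) (nat_lit 344) (nat_lit 253) (nat_lit 183)))) (XT.nd (nat_lit 156) (nat_lit 152)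 (nat_lit 0) (XT.nd (nat_lit 78) (nat_lit 0) (nat_lit 0) (XT.lf (nat_lit 0) (nat_lit 1334280599) (nat_lit 228) (nat_lit 13029845675) (nat_lit 76) (nat_lit 5360094070) (nat_lit 35) (nat_lit 5) (nat_lit 38) (nat_lit 5) (nat_lit 36) (nat_lit 5) (nat_lit 345) (nat_lit 253) (nat_lit 182)) (XT.lf (nat_lit 0) (nat_lit 5131778908) (nat_lit 228) (nat_lit 4895325169) (nat_lit 76) (nat_lit 10139043563) (nat_lit 35) (nat_lit 5) (nat_lit 38) (nat_lit 5) (nat_lit 36) (nat_lit 5) (nat_lit 346) (nat_lit 253) (nat_lit 181))) (XT.nd (nat_lit 78) (nat_lit 0) (nat_lit 0) (XT.lf (nat_lit 0) (nat_lit 3503398104) (nat_lit 152) (nat_lit 5545452884) (nat_lit 228) (nat_lit 11572324630) (nat_lit 33) (nat_lit 5) (nat_lit 35) (nat_lit 5) (nat_lit 36) (nat_lit 5) (nat_lit 347) (nat_lit 253) (nat_lit 180)) (XT.lf (nat_lit 0) (nat_lit 12206708200) (nat_lit 152) (nat_lit 898489828) (nat_lit 228) (nat_lit 7984015491) (nat_lit 33)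 (nat_lit 5) (nat_lit 35) (nat_lit 5) (nat_lit 36) (nat_lit 5) (nat_lit 348) (nat_lit 253) (nat_lit 179))))) (XT.nd (nat_lit 234) (nat_lit 228) (nat_lit 0) (XT.nd (nat_lit 78) (nat_lit 152) (nat_lit 0) (XT.lf (nat_lit 0) (nat_lit 17293556570) (nat_lit 228) (nat_lit 484512276) (nat_lit 76) (nat_lit 3792925698) (nat_lit 33) (nat_lit 5) (nat_lit 36) (nat_lit 5) (nat_lit 34) (nat_lit 4) (nat_lit 349) (nat_lit 253) (nat_lit 178)) (XT.nd (nat_lit 78) (nat_lit 76) (nat_lit 0) (XT.lf (nat_lit 0) (nat_lit 8272351274) (nat_lit 76) (nat_lit 13397365733) (nat_lit 152) (nat_lit 395658739) (nat_lit 32) (nat_lit 5) (nat_lit 33) (nat_lit 5) (nat_lit 34) (nat_lit 4) (nat_lit 350) (nat_lit 253) (nat_lit 177)) (XT.lf (nat_lit 0) (nat_lit 3511015504) (nat_lit 152) (nat_lit 5352949191) (nat_lit 76) (nat_lit 13710233195) (nat_lit 31) (nat_lit 5) (nat_lit 33) (nat_lit 5) (nat_lit 32) (nat_lit 5) (nat_lit 351) (nat_lit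 253) (nat_lit 176)))) (XT.nd (nat_lit 156) (nat_lit 76) (nat_lit 0) (XT.nd (nat_lit 78) (nat_lit 0) (nat_lit 0) (XT.lf (nat_lit 0) (nat_lit 3357578159) (nat_lit 152) (nat_lit 4176197434) (nat_lit 228) (nat_lit 15564196766) (nat_lit 29) (nat_lit 5) (nat_lit 31) (nat_lit 5) (nat_lit 32) (nat_lit 5) (nat_lit 352) (nat_lit 253) (nat_lit 175)) (XT.lf (nat_lit 0) (nat_lit 11712778249) (nat_lit 228) (nat_lit 11247990739) (nat_lit 76) (nat_lit 675634304) (nat_lit 29) (nat_lit 5) (nat_lit 32) (nat_lit 5) (nat_lit 30) (nat_lit 4) (nat_lit 353) (nat_lit 253) (nat_lit 174))) (XT.nd (nat_lit 78) (nat_lit 76) (nat_lit 0) (XT.lf (nat_lit 0) (nat_lit 16033937251) (nat_lit 228) (nat_lit 2585366848) (nat_lit 76) (nat_lit 5571189199) (nat_lit 29) (nat_lit 5) (nat_lit 32) (nat_lit 5) (nat_lit 30) (nat_lit 4) (nat_lit 354) (nat_lit 253) (nat_lit 173)) (XT.lf (nat_lit 0) (nat_lit 6420477561) (nat_lit 76) (nat_lit 14102124199)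 (nat_lit 152) (nat_lit 4237477568) (nat_lit 28) (nat_lit 5) (nat_lit 29) (nat_lit 5) (nat_lit 30) (nat_lit 4) (nat_lit 355) (nat_lit 253) (nat_lit 172))))))) (XT.nd (nat_lit 1092) (nat_lit 532) (nat_lit 0) (XT.nd (nat_lit 546) (nat_lit 304) (nat_lit 0) (XT.nd (nat_lit 234) (nat_lit 76) (nat_lit 0) (XT.nd (nat_lit 78) (nat_lit 228) (nat_lit 0) (XT.lf (nat_lit 0) (nat_lit 15707961172) (nat_lit 76) (nat_lit 9440520671) (nat_lit 152) (nat_lit 198203599) (nat_lit 28) (nat_lit 5) (nat_lit 29) (nat_lit 5) (nat_lit 30) (nat_lit 4) (nat_lit 356) (nat_lit 253) (nat_lit 171)) (XT.nd (nat_lit 78) (nat_lit 152) (nat_lit 0) (XT.lf (nat_lit 0) (nat_lit 3861830191) (nat_lit 152) (nat_lit 755700300) (nat_lit 76) (nat_lit 21332918289) (nat_lit 27) (nat_lit 5) (nat_lit 29) (nat_lit 5) (nat_lit 28) (nat_lit 5) (nat_lit 357) (nat_lit 253) (nat_lit 170)) (XT.lf (nat_lit 0) (nat_lit 8103169172) (nat_lit 228) (nat_lit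 18056047823) (nat_lit 76) (nat_lit 411152907) (nat_lit 25) (nat_lit 5) (nat_lit 28) (nat_lit 5) (nat_lit 26) (nat_lit 4) (nat_lit 358) (nat_lit 253) (nat_lit 169)))) (XT.nd (nat_lit 156) (nat_lit 76) (nat_lit 0) (XT.nd (nat_lit 78) (nat_lit 0) (nat_lit 0) (XT.lf (nat_lit 0) (nat_lit 12502857509) (nat_lit 228) (nat_lit 9216241715) (nat_lit 76) (nat_lit 5488864308) (nat_lit 25) (nat_lit 5) (nat_lit 28) (nat_lit 5) (nat_lit 26) (nat_lit 4) (nat_lit 359) (nat_lit 253) (nat_lit 168)) (XT.lf (nat_lit 0) (nat_lit 17012870882) (nat_lit 228) (nat_lit 149808953) (nat_lit 76) (nat_lit 10702663016) (nat_lit 25) (nat_lit 5) (nat_lit 28) (nat_lit 5) (nat_lit 26) (nat_lit 4) (nat_lit 360) (nat_lit 253) (nat_lit 167))) (XT.nd (nat_lit 78) (nat_lit 0) (nat_lit 0) (XT.lf (nat_lit 0) (nat_lit 9333298865) (nat_lit 76) (nat_lit 12393568593) (nat_lit 152) (nat_lit 6813523292) (nat_lit 24) (nat_lit 5) (nat_lit 25) (nat_lit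 5) (nat_lit 26) (nat_lit 4) (nat_lit 361) (nat_lit 253) (nat_lit 166)) (XT.lf (nat_lit 0) (nat_lit 19066893751) (nat_lit 76) (nat_lit 7496124628) (nat_lit 152) (nat_lit 2673257129) (nat_lit 24) (nat_lit 5) (nat_lit 25) (nat_lit 5) (nat_lit 26) (nat_lit 4) (nat_lit 362) (nat_lit 253) (nat_lit 165))))) (XT.nd (nat_lit 234) (nat_lit 76) (nat_lit 0) (XT.nd (nat_lit 78) (nat_lit 152) (nat_lit 0) (XT.lf (nat_lit 0) (nat_lit 1539786676) (nat_lit 152) (nat_lit 912245896) (nat_lit 76) (nat_lit 27501163794) (nat_lit 23) (nat_lit 5) (nat_lit 25) (nat_lit 5) (nat_lit 24) (nat_lit 5) (nat_lit 363) (nat_lit 253) (nat_lit 164)) (XT.nd (nat_lit 78) (nat_lit 0) (nat_lit 0) (XT.lf (nat_lit 0) (nat_lit 5916949389) (nat_lit 228) (nat_lit 21985064607) (nat_lit 76) (nat_lit 2786079918) (nat_lit 21) (nat_lit 5) (nat_lit 24) (nat_lit 5) (nat_lit 22) (nat_lit 4) (nat_lit 364) (nat_lit 253) (nat_lit 163)) (XT.lf (nat_lit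 0) (nat_lit 10439312520) (nat_lit 228) (nat_lit 12879115101) (nat_lit 76) (nat_lit 8126200830) (nat_lit 21) (nat_lit 5) (nat_lit 24) (nat_lit 5) (nat_lit 22) (nat_lit 4) (nat_lit 365) (nat_lit 253) (nat_lit 162)))) (XT.nd (nat_lit 156) (nat_lit 0) (nat_lit 0) (XT.nd (nat_lit 78) (nat_lit 76) (nat_lit 0) (XT.lf (nat_lit 0) (nat_lit 15078225072) (nat_lit 228) (nat_lit 3534401891) (nat_lit 76) (nat_lit 13611812138) (nat_lit 21) (nat_lit 5) (nat_lit 24) (nat_lit 5) (nat_lit 22) (nat_lit 4) (nat_lit 366) (nat_lit 253) (nat_lit 161)) (XT.lf (nat_lit 0) (nat_lit 6177791264) (nat_lit 76) (nat_lit 13719333908) (nat_lit 152) (nat_lit 13129300538) (nat_lit 20) (nat_lit 5) (nat_lit 21) (nat_lit 5) (nat_lit 22) (nat_lit 4) (nat_lit 367) (nat_lit 253) (nat_lit 160))) (XT.nd (nat_lit 78) (nat_lit 0) (nat_lit 0) (XT.lf (nat_lit 0) (nat_lit 16220717153) (nat_lit 76) (nat_lit 8657223799) (nat_lit 152) (nat_lit 8974016571)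 (nat_lit 20) (nat_lit 5) (nat_lit 21) (nat_lit 5) (nat_lit 22) (nat_lit 4) (nat_lit 368) (nat_lit 253) (nat_lit 159)) (XT.lf (nat_lit 0) (nat_lit 26532809617) (nat_lit 76) (nat_lit 3457563963) (nat_lit 152) (nat_lit 4712421825) (nat_lit 20) (nat_lit 5) (nat_lit 21) (nat_lit 5) (nat_lit 22) (nat_lit 4) (nat_lit 369) (nat_lit 253) (nat_lit 158)))))) (XT.nd (nat_lit 546) (nat_lit 228) (nat_lit 0) (XT.nd (nat_lit 234) (nat_lit 76) (nat_lit 0) (XT.nd (nat_lit 78) (nat_lit 76) (nat_lit 0) (XT.lf (nat_lit 0) (nat_lit 1555640587) (nat_lit 152) (nat_lit 33716315392) (nat_lit 152) (nat_lit 306734859) (nat_lit 18) (nat_lit 4) (nat_lit 20) (nat_lit 5) (nat_lit 20) (nat_lit 4) (nat_lit 370) (nat_lit 253) (nat_lit 157)) (XT.nd (nat_lit 78) (nat_lit 0) (nat_lit 0) (XT.lf (nat_lit 0) (nat_lit 4248717719) (nat_lit 228) (nat_lit 24845216313) (nat_lit 76) (nat_lit 7382709540) (nat_lit 17) (nat_lit 5) (nat_lit 20)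 (nat_lit 5) (nat_lit 18) (nat_lit 4) (nat_lit 371) (nat_lit 253) (nat_lit 156)) (XT.lf (nat_lit 0) (nat_lit 8917783822) (nat_lit 228) (nat_lit 15425781786) (nat_lit 76) (nat_lit 13058389953) (nat_lit 17) (nat_lit 5) (nat_lit 20) (nat_lit 5) (nat_lit 18) (nat_lit 4) (nat_lit 372) (nat_lit 253) (nat_lit 155)))) (XT.nd (nat_lit 156) (nat_lit 0) (nat_lit 0) (XT.nd (nat_lit 78) (nat_lit 76) (nat_lit 0) (XT.lf (nat_lit 0) (nat_lit 13710528717) (nat_lit 228) (nat_lit 5753567572) (nat_lit 76) (nat_lit 18891427493) (nat_lit 17) (nat_lit 5) (nat_lit 20) (nat_lit 5) (nat_lit 18) (nat_lit 4) (nat_lit 373) (nat_lit 253) (nat_lit 154)) (XT.lf (nat_lit 0) (nat_lit 4263065540) (nat_lit 76) (nat_lit 14409053893) (nat_lit 152) (nat_lit 20664832644) (nat_lit 16) (nat_lit 5) (nat_lit 17) (nat_lit 5) (nat_lit 18) (nat_lit 4) (nat_lit 374) (nat_lit 253) (nat_lit 153))) (XT.nd (nat_lit 78) (nat_lit 0) (nat_lit 0) (XT.lf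 (nat_lit 0) (nat_lit 14669488530) (nat_lit 76) (nat_lit 9155441522) (nat_lit 152) (nat_lit 16521626791) (nat_lit 16) (nat_lit 5) (nat_lit 17) (nat_lit 5) (nat_lit 18) (nat_lit 4) (nat_lit 375) (nat_lit 253) (nat_lit 152)) (XT.lf (nat_lit 0) (nat_lit 25360287111) (nat_lit 76) (nat_lit 3756768391) (nat_lit 152) (nat_lit 12269856981) (nat_lit 16) (nat_lit 5) (nat_lit 17) (nat_lit 5) (nat_lit 18) (nat_lit 4) (nat_lit 376) (nat_lit 253) (nat_lit 151))))) (XT.nd (nat_lit 234) (nat_lit 76) (nat_lit 0) (XT.nd (nat_lit 78) (nat_lit 152) (nat_lit 0) (XT.lf (nat_lit 0) (nat_lit 34570342722) (nat_lit 152) (nat_lit 6131348042) (nat_lit 0) (nat_lit 1756720601) (nat_lit 16) (nat_lit 5) (nat_lit 18) (nat_lit 4) (nat_lit 16) (nat_lit 4) (nat_lit 377) (nat_lit 253) (nat_lit 150)) (XT.nd (nat_lit 78) (nat_lit 76) (nat_lit 0) (XT.lf (nat_lit 0) (nat_lit 4076598236) (nat_lit 76) (nat_lit 36172506159) (nat_lit 76) (nat_lit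 3311098924) (nat_lit 15) (nat_lit 4) (nat_lit 16) (nat_lit 5) (nat_lit 16) (nat_lit 4) (nat_lit 378) (nat_lit 253) (nat_lit 149)) (XT.lf (nat_lit 0) (nat_lit 1423843514) (nat_lit 152) (nat_lit 30017398213) (nat_lit 76) (nat_lit 13251965446) (nat_lit 14) (nat_lit 5) (nat_lit 16) (nat_lit 5) (nat_lit 15) (nat_lit 4) (nat_lit 379) (nat_lit 253) (nat_lit 148)))) (XT.nd (nat_lit 156) (nat_lit 76) (nat_lit 0) (XT.nd (nat_lit 78) (nat_lit 0) (nat_lit 0) (XT.lf (nat_lit 0) (nat_lit 6220223362) (nat_lit 152) (nat_lit 20325789172) (nat_lit 76) (nat_lit 19313630953) (nat_lit 14) (nat_lit 5) (nat_lit 16) (nat_lit 5) (nat_lit 15) (nat_lit 4) (nat_lit 380) (nat_lit 253) (nat_lit 147)) (XT.lf (nat_lit 0) (nat_lit 11146843098) (nat_lit 152) (nat_lit 10368481257) (nat_lit 76) (nat_lit 25546161975) (nat_lit 14) (nat_lit 5) (nat_lit 16) (nat_lit 5) (nat_lit 15) (nat_lit 4) (nat_lit 381) (nat_lit 253) (nat_lit 146)))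 (XT.nd (nat_lit 78) (nat_lit 76) (nat_lit 0) (XT.lf (nat_lit 0) (nat_lit 16208007533) (nat_lit 152) (nat_lit 136773907) (nat_lit 76) (nat_lit 31955004413) (nat_lit 14) (nat_lit 5) (nat_lit 16) (nat_lit 5) (nat_lit 15) (nat_lit 4) (nat_lit 382) (nat_lit 253) (nat_lit 145)) (XT.lf (nat_lit 0) (nat_lit 10584821189) (nat_lit 76) (nat_lit 10925065631) (nat_lit 152) (nat_lit 28062684812) (nat_lit 13) (nat_lit 5) (nat_lit 14) (nat_lit 5) (nat_lit 15) (nat_lit 4) (nat_lit 383) (nat_lit 253) (nat_lit 144))))))))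
noncomputable def xc87 : XT := (XT.nd (nat_lit 31980) (nat_lit 0) (nat_lit 9500) (XT.nd (nat_lit 1092) (nat_lit 228) (nat_lit 0) (XT.nd (nat_lit 546) (nat_lit 76) (nat_lit 0) (XT.nd (nat_lit 234) (nat_lit 152) (nat_lit 0) (XT.nd (nat_lit 78) (nat_lit 0) (nat_lit 0) (XT.lf (nat_lit 0) (nat_lit 21607487896) (nat_lit 76) (nat_lit 5351997932) (nat_lit 152) (nat_lit 23924398819) (nat_lit 13) (nat_lit 5) (nat_lit 14) (nat_lit 5) (nat_lit 15) (nat_lit 4) (nat_lit 384) (nat_lit 253) (nat_lit 143)) (XT.nd (nat_lit 78) (nat_lit 0) (nat_lit 0) (XT.lf (nat_lit 0) (nat_lit 32563858126) (nat_lit 152) (nat_lit 19300408037) (nat_lit 0) (nat_lit 370535789) (nat_lit 13) (nat_lit 5) (nat_lit 15) (nat_lit 4) (nat_lit 13) (nat_lit 4) (nat_lit 385) (nat_lit 253) (nat_lit 142)) (XT.lf (nat_lit 0) (nat_lit 38377267310) (nat_lit 152) (nat_lit 9100433990) (nat_lit 0) (nat_lit 6147321663) (nat_lit 13) (nat_lit 5) (nat_lit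 15) (nat_lit 4) (nat_lit 13) (nat_lit 4) (nat_lit 386) (nat_lit 253) (nat_lit 141)))) (XT.nd (nat_lit 156) (nat_lit 76) (nat_lit 0) (XT.nd (nat_lit 78) (nat_lit 0) (nat_lit 0) (XT.lf (nat_lit 0) (nat_lit 1411426685) (nat_lit 76) (nat_lit 42955487191) (nat_lit 76) (nat_lit 10689984933) (nat_lit 12) (nat_lit 4) (nat_lit 13) (nat_lit 5) (nat_lit 13) (nat_lit 4) (nat_lit 387) (nat_lit 253) (nat_lit 140)) (XT.lf (nat_lit 0) (nat_lit 12403750844) (nat_lit 76) (nat_lit 38212798750) (nat_lit 76) (nat_lit 5912775509) (nat_lit 12) (nat_lit 4) (nat_lit 13) (nat_lit 5) (nat_lit 13) (nat_lit 4) (nat_lit 388) (nat_lit 253) (nat_lit 139))) (XT.nd (nat_lit 78) (nat_lit 76) (nat_lit 0) (XT.lf (nat_lit 0) (nat_lit 23705026949) (nat_lit 76) (nat_lit 33337388418) (nat_lit 76) (nat_lit 1003849661) (nat_lit 12) (nat_lit 4) (nat_lit 13) (nat_lit 5) (nat_lit 13) (nat_lit 4) (nat_lit 389) (nat_lit 253) (nat_lit 138)) (XT.lf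 (nat_lit 0) (nat_lit 3962225899) (nat_lit 152) (nat_lit 24322759518) (nat_lit 76) (nat_lit 31322893290) (nat_lit 11) (nat_lit 5) (nat_lit 13) (nat_lit 5) (nat_lit 12) (nat_lit 4) (nat_lit 390) (nat_lit 253) (nat_lit 137))))) (XT.nd (nat_lit 234) (nat_lit 0) (nat_lit 0) (XT.nd (nat_lit 78) (nat_lit 76) (nat_lit 0) (XT.lf (nat_lit 0) (nat_lit 9046386724) (nat_lit 152) (nat_lit 14033504631) (nat_lit 76) (nat_lit 38136475698) (nat_lit 11) (nat_lit 5) (nat_lit 13) (nat_lit 5) (nat_lit 12) (nat_lit 4) (nat_lit 391) (nat_lit 253) (nat_lit 136)) (XT.nd (nat_lit 78) (nat_lit 76) (nat_lit 0) (XT.lf (nat_lit 0) (nat_lit 14272664008) (nat_lit 152) (nat_lit 3454833190) (nat_lit 76) (nat_lit 45145927833) (nat_lit 11) (nat_lit 5) (nat_lit 13) (nat_lit 5) (nat_lit 12) (nat_lit 4) (nat_lit 392) (nat_lit 253) (nat_lit 135)) (XT.lf (nat_lit 0) (nat_lit 7570220573) (nat_lit 76) (nat_lit 12148173418) (nat_lit 152)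 (nat_lit 44859923476) (nat_lit 10) (nat_lit 5) (nat_lit 11) (nat_lit 5) (nat_lit 12) (nat_lit 4) (nat_lit 393) (nat_lit 253) (nat_lit 134)))) (XT.nd (nat_lit 156) (nat_lit 0) (nat_lit 0) (XT.nd (nat_lit 78) (nat_lit 0) (nat_lit 0) (XT.lf (nat_lit 0) (nat_lit 18978329886) (nat_lit 76) (nat_lit 6374064150) (nat_lit 152) (nat_lit 40981218268) (nat_lit 10) (nat_lit 5) (nat_lit 11) (nat_lit 5) (nat_lit 12) (nat_lit 4) (nat_lit 394) (nat_lit 253) (nat_lit 133)) (XT.lf (nat_lit 0) (nat_lit 30710705046) (nat_lit 76) (nat_lit 435011098) (nat_lit 152) (nat_lit 36996143280) (nat_lit 10) (nat_lit 5) (nat_lit 11) (nat_lit 5) (nat_lit 12) (nat_lit 4) (nat_lit 395) (nat_lit 253) (nat_lit 132))) (XT.nd (nat_lit 78) (nat_lit 0) (nat_lit 0) (XT.lf (nat_lit 0) (nat_lit 37157966082) (nat_lit 152) (nat_lit 27281584848) (nat_lit 0) (nat_lit 5563451607) (nat_lit 10) (nat_lit 5) (nat_lit 12) (nat_lit 4) (nat_lit 10) (nat_lit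 4) (nat_lit 396) (nat_lit 253) (nat_lit 131)) (XT.lf (nat_lit 0) (nat_lit 43345674301) (nat_lit 152) (nat_lit 16848982301) (nat_lit 0) (nat_lit 11725472973) (nat_lit 10) (nat_lit 5) (nat_lit 12) (nat_lit 4) (nat_lit 10) (nat_lit 4) (nat_lit 397) (nat_lit 253) (nat_lit 130)))))) (XT.nd (nat_lit 546) (nat_lit 76) (nat_lit 0) (XT.nd (nat_lit 234) (nat_lit 76) (nat_lit 0) (XT.nd (nat_lit 78) (nat_lit 76) (nat_lit 0) (XT.lf (nat_lit 0) (nat_lit 49710065944) (nat_lit 152) (nat_lit 6120049277) (nat_lit 0) (nat_lit 18064925924) (nat_lit 10) (nat_lit 5) (nat_lit 12) (nat_lit 4) (nat_lit 10) (nat_lit 4) (nat_lit 398) (nat_lit 253) (nat_lit 129)) (XT.nd (nat_lit 78) (nat_lit 0) (nat_lit 0) (XT.lf (nat_lit 0) (nat_lit 5012398975) (nat_lit 76) (nat_lit 51292485399) (nat_lit 76) (nat_lit 19623133057) (nat_lit 9) (nat_lit 4) (nat_lit 10) (nat_lit 5) (nat_lit 10) (nat_lit 4) (nat_lit 399) (nat_lit 253) (nat_lit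 128)) (XT.lf (nat_lit 0) (nat_lit 16588271426) (nat_lit 76) (nat_lit 46562488405) (nat_lit 76) (nat_lit 14869628954) (nat_lit 9) (nat_lit 4) (nat_lit 10) (nat_lit 5) (nat_lit 10) (nat_lit 4) (nat_lit 400) (nat_lit 253) (nat_lit 127)))) (XT.nd (nat_lit 156) (nat_lit 76) (nat_lit 0) (XT.nd (nat_lit 78) (nat_lit 0) (nat_lit 0) (XT.lf (nat_lit 0) (nat_lit 28495881933) (nat_lit 76) (nat_lit 41697791732) (nat_lit 76) (nat_lit 9982109845) (nat_lit 9) (nat_lit 4) (nat_lit 10) (nat_lit 5) (nat_lit 10) (nat_lit 4) (nat_lit 401) (nat_lit 253) (nat_lit 126)) (XT.lf (nat_lit 0) (nat_lit 40745635205) (nat_lit 76) (nat_lit 36694144673) (nat_lit 76) (nat_lit 4956305082) (nat_lit 9) (nat_lit 4) (nat_lit 10) (nat_lit 5) (nat_lit 10) (nat_lit 4) (nat_lit 402) (nat_lit 253) (nat_lit 125))) (XT.nd (nat_lit 78) (nat_lit 0) (nat_lit 0) (XT.lf (nat_lit 0) (nat_lit 208036482) (nat_lit 152) (nat_lit 31337037867) (nat_lit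 76) (nat_lit 53138097666) (nat_lit 8) (nat_lit 5) (nat_lit 10) (nat_lit 5) (nat_lit 9) (nat_lit 4) (nat_lit 403) (nat_lit 253) (nat_lit 124)) (XT.lf (nat_lit 0) (nat_lit 5419983695) (nat_lit 152) (nat_lit 20777670786) (nat_lit 76) (nat_lit 60839978123) (nat_lit 8) (nat_lit 5) (nat_lit 10) (nat_lit 5) (nat_lit 9) (nat_lit 4) (nat_lit 404) (nat_lit 253) (nat_lit 123))))) (XT.nd (nat_lit 234) (nat_lit 0) (nat_lit 0) (XT.nd (nat_lit 78) (nat_lit 76) (nat_lit 0) (XT.lf (nat_lit 0) (nat_lit 10780806049) (nat_lit 152) (nat_lit 9915478846) (nat_lit 76) (nat_lit 68766668419) (nat_lit 8) (nat_lit 5) (nat_lit 10) (nat_lit 5) (nat_lit 9) (nat_lit 4) (nat_lit 405) (nat_lit 253) (nat_lit 122)) (XT.nd (nat_lit 78) (nat_lit 0) (nat_lit 0) (XT.lf (nat_lit 0) (nat_lit 1284086339) (nat_lit 76) (nat_lit 15023444842) (nat_lit 152) (nat_lit 75653351873) (nat_lit 7) (nat_lit 5) (nat_lit 8) (nat_lit 5) (nat_lit 9) (nat_lit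 4) (nat_lit 406) (nat_lit 253) (nat_lit 121)) (XT.lf (nat_lit 0) (nat_lit 13009479253) (nat_lit 76) (nat_lit 9083523034) (nat_lit 152) (nat_lit 72437961774) (nat_lit 7) (nat_lit 5) (nat_lit 8) (nat_lit 5) (nat_lit 9) (nat_lit 4) (nat_lit 407) (nat_lit 253) (nat_lit 120)))) (XT.nd (nat_lit 156) (nat_lit 0) (nat_lit 0) (XT.nd (nat_lit 78) (nat_lit 0) (nat_lit 0) (XT.lf (nat_lit 0) (nat_lit 25073607913) (nat_lit 76) (nat_lit 2971456142) (nat_lit 152) (nat_lit 69133294300) (nat_lit 7) (nat_lit 5) (nat_lit 8) (nat_lit 5) (nat_lit 9) (nat_lit 4) (nat_lit 408) (nat_lit 253) (nat_lit 119)) (XT.lf (nat_lit 0) (nat_lit 34200812889) (nat_lit 152) (nat_lit 62450260975) (nat_lit 0) (nat_lit 3253348460) (nat_lit 7) (nat_lit 5) (nat_lit 9) (nat_lit 4) (nat_lit 7) (nat_lit 4) (nat_lit 409) (nat_lit 253) (nat_lit 118))) (XT.nd (nat_lit 29874) (nat_lit 0) (nat_lit 22040) (XT.lf (nat_lit 0) (nat_lit 40564026539)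 (nat_lit 152) (nat_lit 52547979385) (nat_lit 0) (nat_lit 9599580074) (nat_lit 7) (nat_lit 5) (nat_lit 9) (nat_lit 4) (nat_lit 7) (nat_lit 4) (nat_lit 410) (nat_lit 253) (nat_lit 117)) (XT.lf (nat_lit 0) (nat_lit 471728763) (nat_lit 532) (nat_lit 2358043512) (nat_lit 0) (nat_lit 471728763) (nat_lit 297) (nat_lit 5) (nat_lit 304) (nat_lit 4) (nat_lit 297) (nat_lit 4) (nat_lit 272) (nat_lit 254) (nat_lit 254))))))) (XT.nd (nat_lit 1092) (nat_lit 5776) (nat_lit 0) (XT.nd (nat_lit 546) (nat_lit 3952) (nat_lit 0) (XT.nd (nat_lit 234) (nat_lit 1596) (nat_lit 0) (XT.nd (nat_lit 78) (nat_lit 1216) (nat_lit 0) (XT.lf (nat_lit 0) (nat_lit 3987819585) (nat_lit 532) (nat_lit 884935048) (nat_lit 0) (nat_lit 1758707912) (nat_lit 297) (nat_lit 5) (nat_lit 304) (nat_lit 4) (nat_lit 297) (nat_lit 4) (nat_lit 273) (nat_lit 254) (nat_lit 253)) (XT.nd (nat_lit 78) (nat_lit 608) (nat_lit 0) (XT.lf (nat_lit 0) (nat_lit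 379402830) (nat_lit 608) (nat_lit 3623110018) (nat_lit 76) (nat_lit 2660552261) (nat_lit 289) (nat_lit 5) (nat_lit 297) (nat_lit 5) (nat_lit 290) (nat_lit 4) (nat_lit 274) (nat_lit 254) (nat_lit 252)) (XT.lf (nat_lit 0) (nat_lit 306893809) (nat_lit 608) (nat_lit 3043521519) (nat_lit 684) (nat_lit 3347289899) (nat_lit 281) (nat_lit 5) (nat_lit 289) (nat_lit 5) (nat_lit 290) (nat_lit 4) (nat_lit 275) (nat_lit 254) (nat_lit 251)))) (XT.nd (nat_lit 156) (nat_lit 836) (nat_lit 0) (XT.nd (nat_lit 78) (nat_lit 760) (nat_lit 0) (XT.lf (nat_lit 0) (nat_lit 4351618573) (nat_lit 608) (nat_lit 1996174942) (nat_lit 684) (nat_lit 387655544) (nat_lit 281) (nat_lit 5) (nat_lit 289) (nat_lit 5) (nat_lit 290) (nat_lit 4) (nat_lit 276) (nat_lit 254) (nat_lit 250)) (XT.lf (nat_lit 0) (nat_lit 1673124777) (nat_lit 684) (nat_lit 854219857) (nat_lit 760) (nat_lit 4248829473) (nat_lit 271) (nat_lit 5) (nat_lit 280) (nat_lit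 5) (nat_lit 281) (nat_lit 5) (nat_lit 277) (nat_lit 254) (nat_lit 249))) (XT.nd (nat_lit 78) (nat_lit 836) (nat_lit 0) (XT.lf (nat_lit 0) (nat_lit 5454112155) (nat_lit 760) (nat_lit 1003677007) (nat_lit 76) (nat_lit 362419498) (nat_lit 271) (nat_lit 5) (nat_lit 281) (nat_lit 5) (nat_lit 272) (nat_lit 4) (nat_lit 278) (nat_lit 254) (nat_lit 248)) (XT.lf (nat_lit 0) (nat_lit 1517799508) (nat_lit 836) (nat_lit 3687077405) (nat_lit 76) (nat_lit 1662002746) (nat_lit 260) (nat_lit 5) (nat_lit 271) (nat_lit 5) (nat_lit 261) (nat_lit 5) (nat_lit 279) (nat_lit 254) (nat_lit 247))))) (XT.nd (nat_lit 234) (nat_lit 2128) (nat_lit 0) (XT.nd (nat_lit 78) (nat_lit 988) (nat_lit 0) (XT.lf (nat_lit 0) (nat_lit 512432461) (nat_lit 836) (nat_lit 3871870461) (nat_lit 912) (nat_lit 2532687725) (nat_lit 249) (nat_lit 5) (nat_lit 260) (nat_lit 5) (nat_lit 261) (nat_lit 5) (nat_lit 280) (nat_lit 254) (nat_lit 246)) (XT.nd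 (nat_lit 78) (nat_lit 912) (nat_lit 0) (XT.lf (nat_lit 0) (nat_lit 307885782) (nat_lit 912) (nat_lit 2137719160) (nat_lit 76) (nat_lit 4524630953) (nat_lit 248) (nat_lit 5) (nat_lit 260) (nat_lit 5) (nat_lit 249) (nat_lit 5) (nat_lit 281) (nat_lit 254) (nat_lit 245)) (XT.lf (nat_lit 0) (nat_lit 2197421449) (nat_lit 912) (nat_lit 918389276) (nat_lit 988) (nat_lit 3910663488) (nat_lit 236) (nat_lit 5) (nat_lit 248) (nat_lit 5) (nat_lit 249) (nat_lit 5) (nat_lit 282) (nat_lit 254) (nat_lit 244)))) (XT.nd (nat_lit 156) (nat_lit 1064) (nat_lit 0) (XT.nd (nat_lit 78) (nat_lit 1064) (nat_lit 0) (XT.lf (nat_lit 0) (nat_lit 5949901760) (nat_lit 988) (nat_lit 463382624) (nat_lit 76) (nat_lit 672992552) (nat_lit 236) (nat_lit 5) (nat_lit 249) (nat_lit 5) (nat_lit 237) (nat_lit 5) (nat_lit 283) (nat_lit 254) (nat_lit 243)) (XT.lf (nat_lit 0) (nat_lit 1651205314) (nat_lit 1064) (nat_lit 3139797183) (nat_lit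 76) (nat_lit 2357592776) (nat_lit 222) (nat_lit 5) (nat_lit 236) (nat_lit 5) (nat_lit 223) (nat_lit 5) (nat_lit 284) (nat_lit 254) (nat_lit 242))) (XT.nd (nat_lit 78) (nat_lit 0) (nat_lit 0) (XT.lf (nat_lit 0) (nat_lit 1348761851) (nat_lit 1064) (nat_lit 3085611769) (nat_lit 1140) (nat_lit 2780151632) (nat_lit 208) (nat_lit 5) (nat_lit 222) (nat_lit 5) (nat_lit 223) (nat_lit 5) (nat_lit 285) (nat_lit 254) (nat_lit 241)) (XT.lf (nat_lit 0) (nat_lit 5958847563) (nat_lit 1064) (nat_lit 1292674286) (nat_lit 1140) (nat_lit 32516774) (nat_lit 208) (nat_lit 5) (nat_lit 222) (nat_lit 5) (nat_lit 223) (nat_lit 5) (nat_lit 286) (nat_lit 254) (nat_lit 240)))))) (XT.nd (nat_lit 546) (nat_lit 2052) (nat_lit 0) (XT.nd (nat_lit 234) (nat_lit 1748) (nat_lit 0) (XT.nd (nat_lit 78) (nat_lit 760) (nat_lit 0) (XT.lf (nat_lit 0) (nat_lit 2700981961) (nat_lit 1216) (nat_lit 4049907921) (nat_lit 76) (nat_lit 605313160)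 (nat_lit 192) (nat_lit 5) (nat_lit 208) (nat_lit 5) (nat_lit 193) (nat_lit 5) (nat_lit 287) (nat_lit 254) (nat_lit 239)) (XT.nd (nat_lit 78) (nat_lit 76) (nat_lit 0) (XT.lf (nat_lit 0) (nat_lit 593431352) (nat_lit 684) (nat_lit 4876277510) (nat_lit 760) (nat_lit 1962307422) (nat_lit 183) (nat_lit 5) (nat_lit 192) (nat_lit 5) (nat_lit 193) (nat_lit 5) (nat_lit 288) (nat_lit 254) (nat_lit 238)) (XT.lf (nat_lit 0) (nat_lit 759384877) (nat_lit 760) (nat_lit 2137521473) (nat_lit 76) (nat_lit 4614152399) (nat_lit 182) (nat_lit 5) (nat_lit 192) (nat_lit 5) (nat_lit 183) (nat_lit 5) (nat_lit 289) (nat_lit 254) (nat_lit 237)))) (XT.nd (nat_lit 156) (nat_lit 1140) (nat_lit 0) (XT.nd (nat_lit 78) (nat_lit 0) (nat_lit 0) (XT.lf (nat_lit 0) (nat_lit 2659834605) (nat_lit 608) (nat_lit 813800864) (nat_lit 684) (nat_lit 4119844248) (nat_lit 174) (nat_lit 5) (nat_lit 182) (nat_lit 5) (nat_lit 183) (nat_lit 5) (nat_lit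 290) (nat_lit 254) (nat_lit 236)) (XT.lf (nat_lit 0) (nat_lit 6230124171) (nat_lit 684) (nat_lit 124554176) (nat_lit 76) (nat_lit 1324968253) (nat_lit 174) (nat_lit 5) (nat_lit 183) (nat_lit 5) (nat_lit 175) (nat_lit 5) (nat_lit 291) (nat_lit 254) (nat_lit 235))) (XT.nd (nat_lit 78) (nat_lit 532) (nat_lit 0) (XT.lf (nat_lit 0) (nat_lit 1258191191) (nat_lit 608) (nat_lit 2942615228) (nat_lit 76) (nat_lit 3567828888) (nat_lit 166) (nat_lit 5) (nat_lit 174) (nat_lit 5) (nat_lit 167) (nat_lit 5) (nat_lit 292) (nat_lit 254) (nat_lit 234)) (XT.lf (nat_lit 0) (nat_lit 2015165949) (nat_lit 532) (nat_lit 1952409691) (nat_lit 608) (nat_lit 3893889604) (nat_lit 159) (nat_lit 5) (nat_lit 166) (nat_lit 5) (nat_lit 167) (nat_lit 5) (nat_lit 293) (nat_lit 254) (nat_lit 233))))) (XT.nd (nat_lit 234) (nat_lit 988) (nat_lit 0) (XT.nd (nat_lit 78) (nat_lit 1064) (nat_lit 0) (XT.lf (nat_lit 0) (nat_lit 6721946821)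 (nat_lit 608) (nat_lit 856534342) (nat_lit 76) (nat_lit 379774479) (nat_lit 159) (nat_lit 5) (nat_lit 167) (nat_lit 5) (nat_lit 160) (nat_lit 5) (nat_lit 294) (nat_lit 254) (nat_lit 232)) (XT.nd (nat_lit 78) (nat_lit 532) (nat_lit 0) (XT.lf (nat_lit 0) (nat_lit 1464172488) (nat_lit 532) (nat_lit 3801952396) (nat_lit 76) (nat_lit 2791699863) (nat_lit 152) (nat_lit 5) (nat_lit 159) (nat_lit 5) (nat_lit 153) (nat_lit 5) (nat_lit 295) (nat_lit 254) (nat_lit 231)) (XT.lf (nat_lit 0) (nat_lit 1315490376) (nat_lit 532) (nat_lit 2859454228) (nat_lit 608) (nat_lit 3986524713) (nat_lit 145) (nat_lit 5) (nat_lit 152) (nat_lit 5) (nat_lit 153) (nat_lit 5) (nat_lit 296) (nat_lit 254) (nat_lit 230)))) (XT.nd (nat_lit 156) (nat_lit 456) (nat_lit 0) (XT.nd (nat_lit 78) (nat_lit 532) (nat_lit 0) (XT.lf (nat_lit 0) (nat_lit 6588205879) (nat_lit 532) (nat_lit 351197503) (nat_lit 608) (nat_lit 1329725985) (nat_lit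 145) (nat_lit 5) (nat_lit 152) (nat_lit 5) (nat_lit 153) (nat_lit 5) (nat_lit 297) (nat_lit 254) (nat_lit 229)) (XT.lf (nat_lit 0) (nat_lit 1371153663) (nat_lit 532) (nat_lit 4781535084) (nat_lit 76) (nat_lit 2227242568) (nat_lit 138) (nat_lit 5) (nat_lit 145) (nat_lit 5) (nat_lit 139) (nat_lit 5) (nat_lit 298) (nat_lit 254) (nat_lit 228))) (XT.nd (nat_lit 78) (nat_lit 0) (nat_lit 0) (XT.lf (nat_lit 0) (nat_lit 493354609) (nat_lit 456) (nat_lit 3594592492) (nat_lit 532) (nat_lit 4406937354) (nat_lit 132) (nat_lit 5) (nat_lit 138) (nat_lit 5) (nat_lit 139) (nat_lit 5) (nat_lit 299) (nat_lit 254) (nat_lit 227)) (XT.lf (nat_lit 0) (nat_lit 5948791069) (nat_lit 456) (nat_lit 923118164) (nat_lit 532) (nat_lit 1741875467) (nat_lit 132) (nat_lit 5) (nat_lit 138) (nat_lit 5) (nat_lit 139) (nat_lit 5) (nat_lit 300) (nat_lit 254) (nat_lit 226))))))))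
noncomputable def xc88 : XT := (XT.nd (nat_lit 2106) (nat_lit 2280) (nat_lit 0) (XT.nd (nat_lit 1014) (nat_lit 2356) (nat_lit 0) (XT.nd (nat_lit 468) (nat_lit 1444) (nat_lit 0) (XT.nd (nat_lit 234) (nat_lit 836) (nat_lit 0) (XT.nd (nat_lit 78) (nat_lit 456) (nat_lit 0) (XT.lf (nat_lit 0) (nat_lit 966844862) (nat_lit 456) (nat_lit 5953002300) (nat_lit 76) (nat_lit 1816681591) (nat_lit 126) (nat_lit 5) (nat_lit 132) (nat_lit 5) (nat_lit 127) (nat_lit 5) (nat_lit 301) (nat_lit 254) (nat_lit 225)) (XT.nd (nat_lit 78) (nat_lit 456) (nat_lit 0) (XT.lf (nat_lit 0) (nat_lit 3697618482) (nat_lit 456) (nat_lit 514476869) (nat_lit 76) (nat_lit 4651130987) (nat_lit 126) (nat_lit 5) (nat_lit 132) (nat_lit 5) (nat_lit 127) (nat_lit 5) (nat_lit 302) (nat_lit 254) (nat_lit 224)) (XT.lf (nat_lit 0) (nat_lit 5113384432) (nat_lit 456) (nat_lit 1387330664) (nat_lit 532) (nat_lit 2493358583) (nat_lit 120) (nat_lit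 5) (nat_lit 126) (nat_lit 5) (nat_lit 127) (nat_lit 5) (nat_lit 303) (nat_lit 254) (nat_lit 223)))) (XT.nd (nat_lit 78) (nat_lit 380) (nat_lit 0) (XT.lf (nat_lit 0) (nat_lit 232418234) (nat_lit 456) (nat_lit 7395206899) (nat_lit 76) (nat_lit 1501851476) (nat_lit 114) (nat_lit 5) (nat_lit 120) (nat_lit 5) (nat_lit 115) (nat_lit 5) (nat_lit 304) (nat_lit 254) (nat_lit 222)) (XT.nd (nat_lit 78) (nat_lit 380) (nat_lit 0) (XT.lf (nat_lit 0) (nat_lit 2985634632) (nat_lit 456) (nat_lit 1784343602) (nat_lit 76) (nat_lit 4498405042) (nat_lit 114) (nat_lit 5) (nat_lit 120) (nat_lit 5) (nat_lit 115) (nat_lit 5) (nat_lit 305) (nat_lit 254) (nat_lit 221)) (XT.lf (nat_lit 0) (nat_lit 4000091395) (nat_lit 380) (nat_lit 1803952133) (nat_lit 456) (nat_lit 3607989777) (nat_lit 109) (nat_lit 5) (nat_lit 114) (nat_lit 5) (nat_lit 115) (nat_lit 5) (nat_lit 306) (nat_lit 254) (nat_lit 220))))) (XT.nd (nat_lit 234) (nat_lit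 684) (nat_lit 0) (XT.nd (nat_lit 78) (nat_lit 456) (nat_lit 0) (XT.lf (nat_lit 0) (nat_lit 356301297) (nat_lit 304) (nat_lit 8329264458) (nat_lit 380) (nat_lit 875122714) (nat_lit 105) (nat_lit 5) (nat_lit 109) (nat_lit 5) (nat_lit 110) (nat_lit 5) (nat_lit 307) (nat_lit 254) (nat_lit 219)) (XT.nd (nat_lit 78) (nat_lit 380) (nat_lit 0) (XT.lf (nat_lit 0) (nat_lit 1920161841) (nat_lit 380) (nat_lit 3414729529) (nat_lit 76) (nat_lit 4377853518) (nat_lit 104) (nat_lit 5) (nat_lit 109) (nat_lit 5) (nat_lit 105) (nat_lit 5) (nat_lit 308) (nat_lit 254) (nat_lit 218)) (XT.lf (nat_lit 0) (nat_lit 2517180114) (nat_lit 380) (nat_lit 2235558222) (nat_lit 456) (nat_lit 5117282065) (nat_lit 99) (nat_lit 5) (nat_lit 104) (nat_lit 5) (nat_lit 105) (nat_lit 5) (nat_lit 309) (nat_lit 254) (nat_lit 217)))) (XT.nd (nat_lit 156) (nat_lit 304) (nat_lit 0) (XT.nd (nat_lit 78) (nat_lit 380) (nat_lit 0) (XT.lf (nat_lit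 0) (nat_lit 7661821347) (nat_lit 456) (nat_lit 1416094395) (nat_lit 76) (nat_lit 954399176) (nat_lit 99) (nat_lit 5) (nat_lit 105) (nat_lit 5) (nat_lit 100) (nat_lit 5) (nat_lit 310) (nat_lit 254) (nat_lit 216)) (XT.lf (nat_lit 0) (nat_lit 466194925) (nat_lit 380) (nat_lit 5505820670) (nat_lit 76) (nat_lit 4226880921) (nat_lit 94) (nat_lit 5) (nat_lit 99) (nat_lit 5) (nat_lit 95) (nat_lit 5) (nat_lit 311) (nat_lit 254) (nat_lit 215))) (XT.nd (nat_lit 78) (nat_lit 0) (nat_lit 0) (XT.lf (nat_lit 0) (nat_lit 560970893) (nat_lit 304) (nat_lit 2748513683) (nat_lit 380) (nat_lit 7061255188) (nat_lit 90) (nat_lit 5) (nat_lit 94) (nat_lit 5) (nat_lit 95) (nat_lit 5) (nat_lit 312) (nat_lit 254) (nat_lit 214)) (XT.lf (nat_lit 0) (nat_lit 6249635002) (nat_lit 380) (nat_lit 3701001461) (nat_lit 76) (nat_lit 596796399) (nat_lit 90) (nat_lit 5) (nat_lit 95) (nat_lit 5) (nat_lit 91) (nat_lit 5) (nat_lit 313)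 (nat_lit 254) (nat_lit 213)))))) (XT.nd (nat_lit 546) (nat_lit 1064) (nat_lit 0) (XT.nd (nat_lit 234) (nat_lit 608) (nat_lit 0) (XT.nd (nat_lit 78) (nat_lit 380) (nat_lit 0) (XT.lf (nat_lit 0) (nat_lit 2544026776) (nat_lit 304) (nat_lit 6737007759) (nat_lit 380) (nat_lit 1448341092) (nat_lit 86) (nat_lit 5) (nat_lit 90) (nat_lit 5) (nat_lit 91) (nat_lit 5) (nat_lit 314) (nat_lit 254) (nat_lit 212)) (XT.nd (nat_lit 78) (nat_lit 304) (nat_lit 0) (XT.lf (nat_lit 0) (nat_lit 1446953312) (nat_lit 380) (nat_lit 1947795222) (nat_lit 76) (nat_lit 7521956457) (nat_lit 85) (nat_lit 5) (nat_lit 90) (nat_lit 5) (nat_lit 86) (nat_lit 5) (nat_lit 315) (nat_lit 254) (nat_lit 211)) (XT.lf (nat_lit 0) (nat_lit 4396940319) (nat_lit 380) (nat_lit 6627915877) (nat_lit 76) (nat_lit 84496318) (nat_lit 81) (nat_lit 5) (nat_lit 86) (nat_lit 5) (nat_lit 82) (nat_lit 5) (nat_lit 316) (nat_lit 254) (nat_lit 210)))) (XT.nd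 (nat_lit 156) (nat_lit 380) (nat_lit 0) (XT.nd (nat_lit 78) (nat_lit 228) (nat_lit 0) (XT.lf (nat_lit 0) (nat_lit 7442454506) (nat_lit 380) (nat_lit 265802093) (nat_lit 76) (nat_lit 3599347763) (nat_lit 81) (nat_lit 5) (nat_lit 86) (nat_lit 5) (nat_lit 82) (nat_lit 5) (nat_lit 317) (nat_lit 254) (nat_lit 209)) (XT.lf (nat_lit 0) (nat_lit 6344691697) (nat_lit 228) (nat_lit 4250536862) (nat_lit 304) (nat_lit 916133060) (nat_lit 78) (nat_lit 5) (nat_lit 81) (nat_lit 5) (nat_lit 82) (nat_lit 5) (nat_lit 318) (nat_lit 254) (nat_lit 208))) (XT.nd (nat_lit 78) (nat_lit 0) (nat_lit 0) (XT.lf (nat_lit 0) (nat_lit 1377696121) (nat_lit 304) (nat_lit 673331859) (nat_lit 380) (nat_lit 9670492487) (nat_lit 73) (nat_lit 5) (nat_lit 77) (nat_lit 5) (nat_lit 78) (nat_lit 5) (nat_lit 319) (nat_lit 254) (nat_lit 207)) (XT.lf (nat_lit 0) (nat_lit 5126005861) (nat_lit 380) (nat_lit 3817710758) (nat_lit 76) (nat_lit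 2992910624) (nat_lit 73) (nat_lit 5) (nat_lit 78) (nat_lit 5) (nat_lit 74) (nat_lit 5) (nat_lit 320) (nat_lit 254) (nat_lit 206))))) (XT.nd (nat_lit 234) (nat_lit 532) (nat_lit 0) (XT.nd (nat_lit 78) (nat_lit 304) (nat_lit 0) (XT.lf (nat_lit 0) (nat_lit 2888779293) (nat_lit 228) (nat_lit 5395763111) (nat_lit 304) (nat_lit 3873936357) (nat_lit 70) (nat_lit 5) (nat_lit 73) (nat_lit 5) (nat_lit 74) (nat_lit 5) (nat_lit 321) (nat_lit 254) (nat_lit 205)) (XT.nd (nat_lit 78) (nat_lit 304) (nat_lit 0) (XT.lf (nat_lit 0) (nat_lit 9810250933) (nat_lit 228) (nat_lit 1723645814) (nat_lit 304) (nat_lit 853237148) (nat_lit 70) (nat_lit 5) (nat_lit 73) (nat_lit 5) (nat_lit 74) (nat_lit 5) (nat_lit 322) (nat_lit 254) (nat_lit 204)) (XT.lf (nat_lit 0) (nat_lit 2234021854) (nat_lit 304) (nat_lit 8326461322) (nat_lit 76) (nat_lit 2060942462) (nat_lit 66) (nat_lit 5) (nat_lit 70) (nat_lit 5) (nat_lit 67) (nat_lit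 5) (nat_lit 323) (nat_lit 254) (nat_lit 203)))) (XT.nd (nat_lit 156) (nat_lit 304) (nat_lit 0) (XT.nd (nat_lit 78) (nat_lit 228) (nat_lit 0) (XT.lf (nat_lit 0) (nat_lit 5398806452) (nat_lit 304) (nat_lit 1525827304) (nat_lit 76) (nat_lit 5937824612) (nat_lit 66) (nat_lit 5) (nat_lit 70) (nat_lit 5) (nat_lit 67) (nat_lit 5) (nat_lit 324) (nat_lit 254) (nat_lit 202)) (XT.lf (nat_lit 0) (nat_lit 5524610323) (nat_lit 228) (nat_lit 3146944902) (nat_lit 304) (nat_lit 4438802821) (nat_lit 63) (nat_lit 5) (nat_lit 66) (nat_lit 5) (nat_lit 67) (nat_lit 5) (nat_lit 325) (nat_lit 254) (nat_lit 201))) (XT.nd (nat_lit 78) (nat_lit 304) (nat_lit 0) (XT.lf (nat_lit 0) (nat_lit 12025480723) (nat_lit 304) (nat_lit 617111397) (nat_lit 76) (nat_lit 723638575) (nat_lit 63) (nat_lit 5) (nat_lit 67) (nat_lit 5) (nat_lit 64) (nat_lit 5) (nat_lit 326) (nat_lit 254) (nat_lit 200)) (XT.lf (nat_lit 0) (nat_lit 1870685553)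 (nat_lit 304) (nat_lit 7048890644) (nat_lit 76) (nat_lit 4707997704) (nat_lit 59) (nat_lit 5) (nat_lit 63) (nat_lit 5) (nat_lit 60) (nat_lit 5) (nat_lit 327) (nat_lit 254) (nat_lit 199))))))) (XT.nd (nat_lit 1092) (nat_lit 836) (nat_lit 0) (XT.nd (nat_lit 546) (nat_lit 608) (nat_lit 0) (XT.nd (nat_lit 234) (nat_lit 456) (nat_lit 0) (XT.nd (nat_lit 78) (nat_lit 228) (nat_lit 0) (XT.lf (nat_lit 0) (nat_lit 32948819) (nat_lit 152) (nat_lit 5086761964) (nat_lit 228) (nat_lit 8777626166) (nat_lit 57) (nat_lit 5) (nat_lit 59) (nat_lit 5) (nat_lit 60) (nat_lit 5) (nat_lit 328) (nat_lit 254) (nat_lit 198)) (XT.nd (nat_lit 78) (nat_lit 228) (nat_lit 0) (XT.lf (nat_lit 0) (nat_lit 7411545632) (nat_lit 152) (nat_lit 1087965750) (nat_lit 228) (nat_lit 5674705300) (nat_lit 57) (nat_lit 5) (nat_lit 59) (nat_lit 5) (nat_lit 60) (nat_lit 5) (nat_lit 329) (nat_lit 254) (nat_lit 197)) (XT.lf (nat_lit 0) (nat_lit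 472833242) (nat_lit 228) (nat_lit 11504571287) (nat_lit 304) (nat_lit 2482119586) (nat_lit 54) (nat_lit 5) (nat_lit 57) (nat_lit 5) (nat_lit 58) (nat_lit 5) (nat_lit 330) (nat_lit 254) (nat_lit 196)))) (XT.nd (nat_lit 156) (nat_lit 228) (nat_lit 0) (XT.nd (nat_lit 78) (nat_lit 152) (nat_lit 0) (XT.lf (nat_lit 0) (nat_lit 833398141) (nat_lit 304) (nat_lit 6766039053) (nat_lit 76) (nat_lit 7152455446) (nat_lit 53) (nat_lit 5) (nat_lit 57) (nat_lit 5) (nat_lit 54) (nat_lit 5) (nat_lit 331) (nat_lit 254) (nat_lit 195)) (XT.lf (nat_lit 0) (nat_lit 600580662) (nat_lit 152) (nat_lit 3567908430) (nat_lit 228) (nat_lit 10884726363) (nat_lit 51) (nat_lit 5) (nat_lit 53) (nat_lit 5) (nat_lit 54) (nat_lit 5) (nat_lit 332) (nat_lit 254) (nat_lit 194))) (XT.nd (nat_lit 78) (nat_lit 228) (nat_lit 0) (XT.lf (nat_lit 0) (nat_lit 7642755871) (nat_lit 228) (nat_lit 7099024281) (nat_lit 76) (nat_lit 620643892) (nat_lit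 51) (nat_lit 5) (nat_lit 54) (nat_lit 5) (nat_lit 52) (nat_lit 5) (nat_lit 333) (nat_lit 254) (nat_lit 193)) (XT.lf (nat_lit 0) (nat_lit 391096052) (nat_lit 228) (nat_lit 10834777444) (nat_lit 304) (nat_lit 4454915915) (nat_lit 48) (nat_lit 5) (nat_lit 51) (nat_lit 5) (nat_lit 52) (nat_lit 5) (nat_lit 334) (nat_lit 254) (nat_lit 192))))) (XT.nd (nat_lit 234) (nat_lit 380) (nat_lit 0) (XT.nd (nat_lit 78) (nat_lit 228) (nat_lit 0) (XT.lf (nat_lit 0) (nat_lit 8195591657) (nat_lit 228) (nat_lit 6758583664) (nat_lit 304) (nat_lit 1053418343) (nat_lit 48) (nat_lit 5) (nat_lit 51) (nat_lit 5) (nat_lit 52) (nat_lit 5) (nat_lit 335) (nat_lit 254) (nat_lit 191)) (XT.nd (nat_lit 78) (nat_lit 152) (nat_lit 0) (XT.lf (nat_lit 0) (nat_lit 2368963480) (nat_lit 304) (nat_lit 188437949) (nat_lit 76) (nat_lit 13787112126) (nat_lit 47) (nat_lit 5) (nat_lit 51) (nat_lit 5) (nat_lit 48) (nat_lit 5) (nat_lit 336) (nat_lit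 254) (nat_lit 190)) (XT.lf (nat_lit 0) (nat_lit 5932628649) (nat_lit 228) (nat_lit 8956280397) (nat_lit 76) (nat_lit 1800542626) (nat_lit 45) (nat_lit 5) (nat_lit 48) (nat_lit 5) (nat_lit 46) (nat_lit 5) (nat_lit 337) (nat_lit 254) (nat_lit 189)))) (XT.nd (nat_lit 156) (nat_lit 228) (nat_lit 0) (XT.nd (nat_lit 78) (nat_lit 152) (nat_lit 0) (XT.lf (nat_lit 0) (nat_lit 9598303036) (nat_lit 228) (nat_lit 1227287564) (nat_lit 76) (nat_lit 6219310922) (nat_lit 45) (nat_lit 5) (nat_lit 48) (nat_lit 5) (nat_lit 46) (nat_lit 5) (nat_lit 338) (nat_lit 254) (nat_lit 188)) (XT.lf (nat_lit 0) (nat_lit 6814552845) (nat_lit 152) (nat_lit 6593693433) (nat_lit 228) (nat_lit 4001755715) (nat_lit 43) (nat_lit 5) (nat_lit 45) (nat_lit 5) (nat_lit 46) (nat_lit 5) (nat_lit 339) (nat_lit 254) (nat_lit 187))) (XT.nd (nat_lit 78) (nat_lit 228) (nat_lit 0) (XT.lf (nat_lit 0) (nat_lit 15071317770) (nat_lit 152) (nat_lit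 2242770218) (nat_lit 228) (nat_lit 472535100) (nat_lit 43) (nat_lit 5) (nat_lit 45) (nat_lit 5) (nat_lit 46) (nat_lit 5) (nat_lit 340) (nat_lit 254) (nat_lit 186)) (XT.lf (nat_lit 0) (nat_lit 3144942246) (nat_lit 228) (nat_lit 12769007481) (nat_lit 76) (nat_lit 2258373001) (nat_lit 40) (nat_lit 5) (nat_lit 43) (nat_lit 5) (nat_lit 41) (nat_lit 5) (nat_lit 341) (nat_lit 254) (nat_lit 185)))))) (XT.nd (nat_lit 546) (nat_lit 304) (nat_lit 0) (XT.nd (nat_lit 234) (nat_lit 380) (nat_lit 0) (XT.nd (nat_lit 78) (nat_lit 152) (nat_lit 0) (XT.lf (nat_lit 0) (nat_lit 6881338799) (nat_lit 228) (nat_lit 4825593342) (nat_lit 76) (nat_lit 6861938378) (nat_lit 40) (nat_lit 5) (nat_lit 43) (nat_lit 5) (nat_lit 41) (nat_lit 5) (nat_lit 342) (nat_lit 254) (nat_lit 184)) (XT.nd (nat_lit 78) (nat_lit 0) (nat_lit 0) (XT.lf (nat_lit 0) (nat_lit 3372592511) (nat_lit 152) (nat_lit 7360524055) (nat_lit 228) (nat_lit 8244113373)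 (nat_lit 38) (nat_lit 5) (nat_lit 40) (nat_lit 5) (nat_lit 41) (nat_lit 5) (nat_lit 343) (nat_lit 254) (nat_lit 183)) (XT.lf (nat_lit 0) (nat_lit 11866785483) (nat_lit 152) (nat_lit 2853639902) (nat_lit 228) (nat_lit 4676828895) (nat_lit 38) (nat_lit 5) (nat_lit 40) (nat_lit 5) (nat_lit 41) (nat_lit 5) (nat_lit 344) (nat_lit 254) (nat_lit 182)))) (XT.nd (nat_lit 156) (nat_lit 152) (nat_lit 0) (XT.nd (nat_lit 78) (nat_lit 76) (nat_lit 0) (XT.lf (nat_lit 0) (nat_lit 734977086) (nat_lit 152) (nat_lit 18088531567) (nat_lit 228) (nat_lit 1006499120) (nat_lit 36) (nat_lit 5) (nat_lit 38) (nat_lit 5) (nat_lit 39) (nat_lit 4) (nat_lit 345) (nat_lit 254) (nat_lit 181)) (XT.lf (nat_lit 0) (nat_lit 2796832722) (nat_lit 228) (nat_lit 10974577344) (nat_lit 76) (nat_lit 6501235535) (nat_lit 35) (nat_lit 5) (nat_lit 38) (nat_lit 5) (nat_lit 36) (nat_lit 5) (nat_lit 346) (nat_lit 254) (nat_lit 180))) (XT.nd (nat_lit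 78) (nat_lit 152) (nat_lit 0) (XT.lf (nat_lit 0) (nat_lit 6666823251) (nat_lit 228) (nat_lit 2667268710) (nat_lit 76) (nat_lit 11394999960) (nat_lit 35) (nat_lit 5) (nat_lit 38) (nat_lit 5) (nat_lit 36) (nat_lit 5) (nat_lit 347) (nat_lit 254) (nat_lit 179)) (XT.lf (nat_lit 0) (nat_lit 5960132770) (nat_lit 152) (nat_lit 4723654106) (nat_lit 228) (nat_lit 10514530174) (nat_lit 33) (nat_lit 5) (nat_lit 35) (nat_lit 5) (nat_lit 36) (nat_lit 5) (nat_lit 348) (nat_lit 254) (nat_lit 178))))) (XT.nd (nat_lit 234) (nat_lit 152) (nat_lit 0) (XT.nd (nat_lit 78) (nat_lit 152) (nat_lit 0) (XT.lf (nat_lit 0) (nat_lit 14822437815) (nat_lit 228) (nat_lit 6825882852) (nat_lit 76) (nat_lit 33274191) (nat_lit 33) (nat_lit 5) (nat_lit 36) (nat_lit 5) (nat_lit 34) (nat_lit 4) (nat_lit 349) (nat_lit 254) (nat_lit 177)) (XT.nd (nat_lit 78) (nat_lit 76) (nat_lit 0) (XT.lf (nat_lit 0) (nat_lit 1782533764) (nat_lit 76)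 (nat_lit 17341119438) (nat_lit 152) (nat_lit 3054576606) (nat_lit 32) (nat_lit 5) (nat_lit 33) (nat_lit 5) (nat_lit 34) (nat_lit 4) (nat_lit 350) (nat_lit 254) (nat_lit 176)) (XT.lf (nat_lit 0) (nat_lit 891452097) (nat_lit 152) (nat_lit 11951909509) (nat_lit 76) (nat_lit 9844838124) (nat_lit 31) (nat_lit 5) (nat_lit 33) (nat_lit 5) (nat_lit 32) (nat_lit 5) (nat_lit 351) (nat_lit 254) (nat_lit 175)))) (XT.nd (nat_lit 156) (nat_lit 0) (nat_lit 0) (XT.nd (nat_lit 78) (nat_lit 152) (nat_lit 0) (XT.lf (nat_lit 0) (nat_lit 4869771455) (nat_lit 152) (nat_lit 3328112147) (nat_lit 76) (nat_lit 15015428756) (nat_lit 31) (nat_lit 5) (nat_lit 33) (nat_lit 5) (nat_lit 32) (nat_lit 5) (nat_lit 352) (nat_lit 254) (nat_lit 174)) (XT.lf (nat_lit 0) (nat_lit 5622305283) (nat_lit 152) (nat_lit 3375203215) (nat_lit 228) (nat_lit 14755777556) (nat_lit 29) (nat_lit 5) (nat_lit 31) (nat_lit 5) (nat_lit 32) (nat_lit 5)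 (nat_lit 353) (nat_lit 254) (nat_lit 173))) (XT.nd (nat_lit 78) (nat_lit 0) (nat_lit 0) (XT.lf (nat_lit 0) (nat_lit 13274475780) (nat_lit 228) (nat_lit 9456574846) (nat_lit 76) (nat_lit 1577655839) (nat_lit 29) (nat_lit 5) (nat_lit 32) (nat_lit 5) (nat_lit 30) (nat_lit 4) (nat_lit 354) (nat_lit 254) (nat_lit 172)) (XT.lf (nat_lit 0) (nat_lit 17690017681) (nat_lit 228) (nat_lit 596077742) (nat_lit 76) (nat_lit 6594395268) (nat_lit 29) (nat_lit 5) (nat_lit 32) (nat_lit 5) (nat_lit 30) (nat_lit 4) (nat_lit 355) (nat_lit 254) (nat_lit 171))))))))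
noncomputable def xc89 : XT := (XT.nd (nat_lit 2184) (nat_lit 456) (nat_lit 0) (XT.nd (nat_lit 1092) (nat_lit 532) (nat_lit 0) (XT.nd (nat_lit 546) (nat_lit 304) (nat_lit 0) (XT.nd (nat_lit 234) (nat_lit 76) (nat_lit 0) (XT.nd (nat_lit 78) (nat_lit 228) (nat_lit 0) (XT.lf (nat_lit 0) (nat_lit 8659678763) (nat_lit 76) (nat_lit 13639111292) (nat_lit 152) (nat_lit 3168824368) (nat_lit 28) (nat_lit 5) (nat_lit 29) (nat_lit 5) (nat_lit 30) (nat_lit 4) (nat_lit 356) (nat_lit 254) (nat_lit 170)) (XT.nd (nat_lit 78) (nat_lit 152) (nat_lit 0) (XT.lf (nat_lit 0) (nat_lit 938128745) (nat_lit 152) (nat_lit 7915865709) (nat_lit 76) (nat_lit 17218575550) (nat_lit 27) (nat_lit 5) (nat_lit 29) (nat_lit 5) (nat_lit 28) (nat_lit 5) (nat_lit 357) (nat_lit 254) (nat_lit 169)) (XT.lf (nat_lit 0) (nat_lit 1196489003) (nat_lit 152) (nat_lit 3897838017) (nat_lit 228) (nat_lit 21600722341) (nat_lit 25) (nat_lit 5) (nat_lit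 27) (nat_lit 5) (nat_lit 28) (nat_lit 5) (nat_lit 358) (nat_lit 254) (nat_lit 168)))) (XT.nd (nat_lit 156) (nat_lit 76) (nat_lit 0) (XT.nd (nat_lit 78) (nat_lit 0) (nat_lit 0) (XT.lf (nat_lit 0) (nat_lit 9445874239) (nat_lit 228) (nat_lit 16640284631) (nat_lit 76) (nat_lit 1247932254) (nat_lit 25) (nat_lit 5) (nat_lit 28) (nat_lit 5) (nat_lit 26) (nat_lit 4) (nat_lit 359) (nat_lit 254) (nat_lit 167)) (XT.lf (nat_lit 0) (nat_lit 13945525751) (nat_lit 228) (nat_lit 7592297289) (nat_lit 76) (nat_lit 6453962043) (nat_lit 25) (nat_lit 5) (nat_lit 28) (nat_lit 5) (nat_lit 26) (nat_lit 4) (nat_lit 360) (nat_lit 254) (nat_lit 166))) (XT.nd (nat_lit 78) (nat_lit 0) (nat_lit 0) (XT.lf (nat_lit 0) (nat_lit 1724425834) (nat_lit 76) (nat_lit 16851895290) (nat_lit 152) (nat_lit 10093011566) (nat_lit 24) (nat_lit 5) (nat_lit 25) (nat_lit 5) (nat_lit 26) (nat_lit 4) (nat_lit 361) (nat_lit 254) (nat_lit 165)) (XT.lf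 (nat_lit 0) (nat_lit 11440288116) (nat_lit 76) (nat_lit 11962246426) (nat_lit 152) (nat_lit 5962984599) (nat_lit 24) (nat_lit 5) (nat_lit 25) (nat_lit 5) (nat_lit 26) (nat_lit 4) (nat_lit 362) (nat_lit 254) (nat_lit 164))))) (XT.nd (nat_lit 234) (nat_lit 76) (nat_lit 0) (XT.nd (nat_lit 78) (nat_lit 228) (nat_lit 0) (XT.lf (nat_lit 0) (nat_lit 21412677540) (nat_lit 76) (nat_lit 6941271256) (nat_lit 152) (nat_lit 1729236987) (nat_lit 24) (nat_lit 5) (nat_lit 25) (nat_lit 5) (nat_lit 26) (nat_lit 4) (nat_lit 363) (nat_lit 254) (nat_lit 163)) (XT.nd (nat_lit 78) (nat_lit 0) (nat_lit 0) (XT.lf (nat_lit 0) (nat_lit 818206828) (nat_lit 152) (nat_lit 1750620762) (nat_lit 228) (nat_lit 28253142933) (nat_lit 21) (nat_lit 5) (nat_lit 23) (nat_lit 5) (nat_lit 24) (nat_lit 5) (nat_lit 364) (nat_lit 254) (nat_lit 162)) (XT.lf (nat_lit 0) (nat_lit 7064943239) (nat_lit 228) (nat_lit 20897939246) (nat_lit 76) (nat_lit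 3616413169) (nat_lit 21) (nat_lit 5) (nat_lit 24) (nat_lit 5) (nat_lit 22) (nat_lit 4) (nat_lit 365) (nat_lit 254) (nat_lit 161)))) (XT.nd (nat_lit 156) (nat_lit 76) (nat_lit 0) (XT.nd (nat_lit 78) (nat_lit 0) (nat_lit 0) (XT.lf (nat_lit 0) (nat_lit 11694710699) (nat_lit 228) (nat_lit 11569685351) (nat_lit 76) (nat_lit 9094987683) (nat_lit 21) (nat_lit 5) (nat_lit 24) (nat_lit 5) (nat_lit 22) (nat_lit 4) (nat_lit 366) (nat_lit 254) (nat_lit 160)) (XT.lf (nat_lit 0) (nat_lit 16445347361) (nat_lit 228) (nat_lit 1994023071) (nat_lit 76) (nat_lit 14724050801) (nat_lit 21) (nat_lit 5) (nat_lit 24) (nat_lit 5) (nat_lit 22) (nat_lit 4) (nat_lit 367) (nat_lit 254) (nat_lit 159))) (XT.nd (nat_lit 78) (nat_lit 0) (nat_lit 0) (XT.lf (nat_lit 0) (nat_lit 7993394596) (nat_lit 76) (nat_lit 13404447070) (nat_lit 152) (nat_lit 12591963924) (nat_lit 20) (nat_lit 5) (nat_lit 21) (nat_lit 5) (nat_lit 22) (nat_lit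 4) (nat_lit 368) (nat_lit 254) (nat_lit 158)) (XT.lf (nat_lit 0) (nat_lit 18290124681) (nat_lit 76) (nat_lit 8211632887) (nat_lit 152) (nat_lit 8339144223) (nat_lit 20) (nat_lit 5) (nat_lit 21) (nat_lit 5) (nat_lit 22) (nat_lit 4) (nat_lit 369) (nat_lit 254) (nat_lit 157)))))) (XT.nd (nat_lit 546) (nat_lit 228) (nat_lit 0) (XT.nd (nat_lit 234) (nat_lit 76) (nat_lit 0) (XT.nd (nat_lit 78) (nat_lit 228) (nat_lit 0) (XT.lf (nat_lit 0) (nat_lit 28865479356) (nat_lit 76) (nat_lit 2876526196) (nat_lit 152) (nat_lit 3976034436) (nat_lit 20) (nat_lit 5) (nat_lit 21) (nat_lit 5) (nat_lit 22) (nat_lit 4) (nat_lit 370) (nat_lit 254) (nat_lit 156)) (XT.nd (nat_lit 78) (nat_lit 0) (nat_lit 0) (XT.lf (nat_lit 0) (nat_lit 547203601) (nat_lit 228) (nat_lit 33482695783) (nat_lit 76) (nat_lit 2590268536) (nat_lit 17) (nat_lit 5) (nat_lit 20) (nat_lit 5) (nat_lit 18) (nat_lit 4) (nat_lit 371) (nat_lit 254) (nat_lit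 155)) (XT.lf (nat_lit 0) (nat_lit 5208194240) (nat_lit 228) (nat_lit 24077942709) (nat_lit 76) (nat_lit 8259587724) (nat_lit 17) (nat_lit 5) (nat_lit 20) (nat_lit 5) (nat_lit 18) (nat_lit 4) (nat_lit 372) (nat_lit 254) (nat_lit 154)))) (XT.nd (nat_lit 156) (nat_lit 76) (nat_lit 0) (XT.nd (nat_lit 78) (nat_lit 0) (nat_lit 0) (XT.lf (nat_lit 0) (nat_lit 9993098880) (nat_lit 228) (nat_lit 14419982333) (nat_lit 76) (nat_lit 14086449319) (nat_lit 17) (nat_lit 5) (nat_lit 20) (nat_lit 5) (nat_lit 18) (nat_lit 4) (nat_lit 373) (nat_lit 254) (nat_lit 153)) (XT.lf (nat_lit 0) (nat_lit 14906098504) (nat_lit 228) (nat_lit 4500375661) (nat_lit 76) (nat_lit 20075944753) (nat_lit 17) (nat_lit 5) (nat_lit 20) (nat_lit 5) (nat_lit 18) (nat_lit 4) (nat_lit 374) (nat_lit 254) (nat_lit 152))) (XT.nd (nat_lit 78) (nat_lit 0) (nat_lit 0) (XT.lf (nat_lit 0) (nat_lit 5802778024) (nat_lit 76) (nat_lit 14204487854) (nat_lit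 152) (nat_lit 20486309393) (nat_lit 16) (nat_lit 5) (nat_lit 17) (nat_lit 5) (nat_lit 18) (nat_lit 4) (nat_lit 375) (nat_lit 254) (nat_lit 151)) (XT.lf (nat_lit 0) (nat_lit 16480272717) (nat_lit 76) (nat_lit 8811815781) (nat_lit 152) (nat_lit 16242063721) (nat_lit 16) (nat_lit 5) (nat_lit 17) (nat_lit 5) (nat_lit 18) (nat_lit 4) (nat_lit 376) (nat_lit 254) (nat_lit 150))))) (XT.nd (nat_lit 234) (nat_lit 152) (nat_lit 0) (XT.nd (nat_lit 78) (nat_lit 76) (nat_lit 0) (XT.lf (nat_lit 0) (nat_lit 27451871968) (nat_lit 76) (nat_lit 3269190873) (nat_lit 152) (nat_lit 11885319804) (nat_lit 16) (nat_lit 5) (nat_lit 17) (nat_lit 5) (nat_lit 18) (nat_lit 4) (nat_lit 377) (nat_lit 254) (nat_lit 149)) (XT.nd (nat_lit 78) (nat_lit 76) (nat_lit 0) (XT.lf (nat_lit 0) (nat_lit 36322274303) (nat_lit 152) (nat_lit 5007382470) (nat_lit 0) (nat_lit 2380846426) (nat_lit 16) (nat_lit 5) (nat_lit 18) (nat_lit 4) (nat_lit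 16) (nat_lit 4) (nat_lit 378) (nat_lit 254) (nat_lit 148)) (XT.lf (nat_lit 0) (nat_lit 5493979587) (nat_lit 76) (nat_lit 36669048335) (nat_lit 76) (nat_lit 2682578406) (nat_lit 15) (nat_lit 4) (nat_lit 16) (nat_lit 5) (nat_lit 16) (nat_lit 4) (nat_lit 379) (nat_lit 254) (nat_lit 147)))) (XT.nd (nat_lit 156) (nat_lit 76) (nat_lit 0) (XT.nd (nat_lit 78) (nat_lit 0) (nat_lit 0) (XT.lf (nat_lit 0) (nat_lit 2159423328) (nat_lit 152) (nat_lit 29646570720) (nat_lit 76) (nat_lit 14207025857) (nat_lit 14) (nat_lit 5) (nat_lit 16) (nat_lit 5) (nat_lit 15) (nat_lit 4) (nat_lit 380) (nat_lit 254) (nat_lit 146)) (XT.lf (nat_lit 0) (nat_lit 7079514052) (nat_lit 152) (nat_lit 19701243003) (nat_lit 76) (nat_lit 20434303423) (nat_lit 14) (nat_lit 5) (nat_lit 16) (nat_lit 5) (nat_lit 15) (nat_lit 4) (nat_lit 381) (nat_lit 254) (nat_lit 145))) (XT.nd (nat_lit 78) (nat_lit 76) (nat_lit 0) (XT.lf (nat_lit 0) (nat_lit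 12134339642) (nat_lit 152) (nat_lit 9481166914) (nat_lit 76) (nat_lit 26838045418) (nat_lit 14) (nat_lit 5) (nat_lit 16) (nat_lit 5) (nat_lit 15) (nat_lit 4) (nat_lit 382) (nat_lit 254) (nat_lit 144)) (XT.lf (nat_lit 0) (nat_lit 1042939211) (nat_lit 76) (nat_lit 16295403093) (nat_lit 152) (nat_lit 32390933504) (nat_lit 13) (nat_lit 5) (nat_lit 14) (nat_lit 5) (nat_lit 15) (nat_lit 4) (nat_lit 383) (nat_lit 254) (nat_lit 143))))))) (XT.nd (nat_lit 1092) (nat_lit 228) (nat_lit 0) (XT.nd (nat_lit 546) (nat_lit 152) (nat_lit 0) (XT.nd (nat_lit 234) (nat_lit 76) (nat_lit 0) (XT.nd (nat_lit 78) (nat_lit 0) (nat_lit 0) (XT.lf (nat_lit 0) (nat_lit 12054424142) (nat_lit 76) (nat_lit 10727434714) (nat_lit 152) (nat_lit 28258914144) (nat_lit 13) (nat_lit 5) (nat_lit 14) (nat_lit 5) (nat_lit 15) (nat_lit 4) (nat_lit 384) (nat_lit 254) (nat_lit 142)) (XT.nd (nat_lit 78) (nat_lit 0) (nat_lit 0) (XT.lf (nat_lit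 0) (nat_lit 23374215754) (nat_lit 76) (nat_lit 5002477398) (nat_lit 152) (nat_lit 24015284946) (nat_lit 13) (nat_lit 5) (nat_lit 14) (nat_lit 5) (nat_lit 15) (nat_lit 4) (nat_lit 385) (nat_lit 254) (nat_lit 141)) (XT.lf (nat_lit 0) (nat_lit 34136235961) (nat_lit 152) (nat_lit 18780368720) (nat_lit 0) (nat_lit 867212023) (nat_lit 13) (nat_lit 5) (nat_lit 15) (nat_lit 4) (nat_lit 13) (nat_lit 4) (nat_lit 386) (nat_lit 254) (nat_lit 140)))) (XT.nd (nat_lit 156) (nat_lit 0) (nat_lit 0) (XT.nd (nat_lit 78) (nat_lit 76) (nat_lit 0) (XT.lf (nat_lit 0) (nat_lit 40106703864) (nat_lit 152) (nat_lit 8306406662) (nat_lit 0) (nat_lit 6803158944) (nat_lit 13) (nat_lit 5) (nat_lit 15) (nat_lit 4) (nat_lit 13) (nat_lit 4) (nat_lit 387) (nat_lit 254) (nat_lit 139)) (XT.lf (nat_lit 0) (nat_lit 2510348653) (nat_lit 76) (nat_lit 43759009256) (nat_lit 76) (nat_lit 10421948819) (nat_lit 12) (nat_lit 4) (nat_lit 13)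 (nat_lit 5) (nat_lit 13) (nat_lit 4) (nat_lit 388) (nat_lit 254) (nat_lit 138))) (XT.nd (nat_lit 78) (nat_lit 0) (nat_lit 0) (XT.lf (nat_lit 0) (nat_lit 13801668387) (nat_lit 76) (nat_lit 38888170527) (nat_lit 76) (nat_lit 5518570753) (nat_lit 12) (nat_lit 4) (nat_lit 13) (nat_lit 5) (nat_lit 13) (nat_lit 4) (nat_lit 389) (nat_lit 254) (nat_lit 137)) (XT.lf (nat_lit 0) (nat_lit 25412104959) (nat_lit 76) (nat_lit 33880216687) (nat_lit 76) (nat_lit 479025325) (nat_lit 12) (nat_lit 4) (nat_lit 13) (nat_lit 5) (nat_lit 13) (nat_lit 4) (nat_lit 390) (nat_lit 254) (nat_lit 136))))) (XT.nd (nat_lit 234) (nat_lit 76) (nat_lit 0) (XT.nd (nat_lit 78) (nat_lit 0) (nat_lit 0) (XT.lf (nat_lit 0) (nat_lit 4609355735) (nat_lit 152) (nat_lit 24074870663) (nat_lit 76) (nat_lit 32695902221) (nat_lit 11) (nat_lit 5) (nat_lit 13) (nat_lit 5) (nat_lit 12) (nat_lit 4) (nat_lit 391) (nat_lit 254) (nat_lit 135)) (XT.nd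 (nat_lit 78) (nat_lit 0) (nat_lit 0) (XT.lf (nat_lit 0) (nat_lit 9830655083) (nat_lit 152) (nat_lit 13505411090) (nat_lit 76) (nat_lit 39701271068) (nat_lit 11) (nat_lit 5) (nat_lit 13) (nat_lit 5) (nat_lit 12) (nat_lit 4) (nat_lit 392) (nat_lit 254) (nat_lit 134)) (XT.lf (nat_lit 0) (nat_lit 15198782527) (nat_lit 152) (nat_lit 2637023157) (nat_lit 76) (nat_lit 46908753337) (nat_lit 11) (nat_lit 5) (nat_lit 13) (nat_lit 5) (nat_lit 12) (nat_lit 4) (nat_lit 393) (nat_lit 254) (nat_lit 133)))) (XT.nd (nat_lit 156) (nat_lit 0) (nat_lit 0) (XT.nd (nat_lit 78) (nat_lit 0) (nat_lit 0) (XT.lf (nat_lit 0) (nat_lit 8709748346) (nat_lit 76) (nat_lit 12092403748) (nat_lit 152) (nat_lit 45698621910) (nat_lit 10) (nat_lit 5) (nat_lit 11) (nat_lit 5) (nat_lit 12) (nat_lit 4) (nat_lit 394) (nat_lit 254) (nat_lit 132)) (XT.lf (nat_lit 0) (nat_lit 20433525565) (nat_lit 76) (nat_lit 6157310470) (nat_lit 152) (nat_lit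 41718325427) (nat_lit 10) (nat_lit 5) (nat_lit 11) (nat_lit 5) (nat_lit 12) (nat_lit 4) (nat_lit 395) (nat_lit 254) (nat_lit 131))) (XT.nd (nat_lit 78) (nat_lit 0) (nat_lit 0) (XT.lf (nat_lit 0) (nat_lit 32492070646) (nat_lit 76) (nat_lit 51968611) (nat_lit 152) (nat_lit 37628037880) (nat_lit 10) (nat_lit 5) (nat_lit 11) (nat_lit 5) (nat_lit 12) (nat_lit 4) (nat_lit 396) (nat_lit 254) (nat_lit 130)) (XT.lf (nat_lit 0) (nat_lit 38726840128) (nat_lit 152) (nat_lit 27255105178) (nat_lit 0) (nat_lit 6107407216) (nat_lit 10) (nat_lit 5) (nat_lit 12) (nat_lit 4) (nat_lit 10) (nat_lit 4) (nat_lit 397) (nat_lit 254) (nat_lit 129)))))) (XT.nd (nat_lit 546) (nat_lit 76) (nat_lit 0) (XT.nd (nat_lit 234) (nat_lit 76) (nat_lit 0) (XT.nd (nat_lit 78) (nat_lit 76) (nat_lit 0) (XT.lf (nat_lit 0) (nat_lit 45086952359) (nat_lit 152) (nat_lit 16534134085) (nat_lit 0) (nat_lit 12443307124) (nat_lit 10) (nat_lit 5)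 (nat_lit 12) (nat_lit 4) (nat_lit 10) (nat_lit 4) (nat_lit 398) (nat_lit 254) (nat_lit 128)) (XT.nd (nat_lit 78) (nat_lit 76) (nat_lit 0) (XT.lf (nat_lit 0) (nat_lit 51629433775) (nat_lit 152) (nat_lit 5507225819) (nat_lit 0) (nat_lit 18962281432) (nat_lit 10) (nat_lit 5) (nat_lit 12) (nat_lit 4) (nat_lit 10) (nat_lit 4) (nat_lit 399) (nat_lit 254) (nat_lit 127)) (XT.lf (nat_lit 0) (nat_lit 5951387793) (nat_lit 76) (nat_lit 52465821695) (nat_lit 76) (nat_lit 19775846916) (nat_lit 9) (nat_lit 4) (nat_lit 10) (nat_lit 5) (nat_lit 10) (nat_lit 4) (nat_lit 400) (nat_lit 254) (nat_lit 126)))) (XT.nd (nat_lit 156) (nat_lit 76) (nat_lit 0) (XT.nd (nat_lit 78) (nat_lit 0) (nat_lit 0) (XT.lf (nat_lit 0) (nat_lit 17851566995) (nat_lit 76) (nat_lit 47604568625) (nat_lit 76) (nat_lit 14892436141) (nat_lit 9) (nat_lit 4) (nat_lit 10) (nat_lit 5) (nat_lit 10) (nat_lit 4) (nat_lit 401) (nat_lit 254) (nat_lit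 125)) (XT.lf (nat_lit 0) (nat_lit 30094105407) (nat_lit 76) (nat_lit 42604264870) (nat_lit 76) (nat_lit 9870620051) (nat_lit 9) (nat_lit 4) (nat_lit 10) (nat_lit 5) (nat_lit 10) (nat_lit 4) (nat_lit 402) (nat_lit 254) (nat_lit 124))) (XT.nd (nat_lit 78) (nat_lit 76) (nat_lit 0) (XT.lf (nat_lit 0) (nat_lit 42689700393) (nat_lit 76) (nat_lit 37460541233) (nat_lit 76) (nat_lit 4706010652) (nat_lit 9) (nat_lit 4) (nat_lit 10) (nat_lit 5) (nat_lit 10) (nat_lit 4) (nat_lit 403) (nat_lit 254) (nat_lit 123)) (XT.lf (nat_lit 0) (nat_lit 594081436) (nat_lit 152) (nat_lit 31568822703) (nat_lit 76) (nat_lit 55049277318) (nat_lit 8) (nat_lit 5) (nat_lit 10) (nat_lit 5) (nat_lit 9) (nat_lit 4) (nat_lit 404) (nat_lit 254) (nat_lit 122))))) (XT.nd (nat_lit 234) (nat_lit 0) (nat_lit 0) (XT.nd (nat_lit 78) (nat_lit 76) (nat_lit 0) (XT.lf (nat_lit 0) (nat_lit 5951324817) (nat_lit 152) (nat_lit 20713305473) (nat_lit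 76) (nat_lit 62972980109) (nat_lit 8) (nat_lit 5) (nat_lit 10) (nat_lit 5) (nat_lit 9) (nat_lit 4) (nat_lit 405) (nat_lit 254) (nat_lit 121)) (XT.nd (nat_lit 78) (nat_lit 76) (nat_lit 0) (XT.lf (nat_lit 0) (nat_lit 11462231795) (nat_lit 152) (nat_lit 9545277739) (nat_lit 76) (nat_lit 71128505989) (nat_lit 8) (nat_lit 5) (nat_lit 10) (nat_lit 5) (nat_lit 9) (nat_lit 4) (nat_lit 406) (nat_lit 254) (nat_lit 120)) (XT.lf (nat_lit 0) (nat_lit 1983728662) (nat_lit 76) (nat_lit 15166957877) (nat_lit 152) (nat_lit 77558321296) (nat_lit 7) (nat_lit 5) (nat_lit 8) (nat_lit 5) (nat_lit 9) (nat_lit 4) (nat_lit 407) (nat_lit 254) (nat_lit 119)))) (XT.nd (nat_lit 156) (nat_lit 0) (nat_lit 0) (XT.nd (nat_lit 78) (nat_lit 0) (nat_lit 0) (XT.lf (nat_lit 0) (nat_lit 14041627449) (nat_lit 76) (nat_lit 9057785705) (nat_lit 152) (nat_lit 74257089819) (nat_lit 7) (nat_lit 5) (nat_lit 8) (nat_lit 5) (nat_lit 9) (nat_lit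 4) (nat_lit 408) (nat_lit 254) (nat_lit 118)) (XT.lf (nat_lit 0) (nat_lit 26448984905) (nat_lit 76) (nat_lit 2771043496) (nat_lit 152) (nat_lit 70863593314) (nat_lit 7) (nat_lit 5) (nat_lit 8) (nat_lit 5) (nat_lit 9) (nat_lit 4) (nat_lit 409) (nat_lit 254) (nat_lit 117))) (XT.nd (nat_lit 29718) (nat_lit 0) (nat_lit 22572) (XT.lf (nat_lit 0) (nat_lit 35553435157) (nat_lit 152) (nat_lit 63711659336) (nat_lit 0) (nat_lit 3626585849) (nat_lit 7) (nat_lit 5) (nat_lit 9) (nat_lit 4) (nat_lit 7) (nat_lit 4) (nat_lit 410) (nat_lit 254) (nat_lit 116)) (XT.lf (nat_lit 0) (nat_lit 464309260) (nat_lit 380) (nat_lit 1406188844) (nat_lit 380) (nat_lit 1406188844) (nat_lit 304) (nat_lit 4) (nat_lit 309) (nat_lit 5) (nat_lit 309) (nat_lit 4) (nat_lit 270) (nat_lit 255) (nat_lit 255))))))))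
noncomputable def xc90 : XT := (XT.nd (nat_lit 2106) (nat_lit 6232) (nat_lit 0) (XT.nd (nat_lit 1014) (nat_lit 6840) (nat_lit 0) (XT.nd (nat_lit 468) (nat_lit 3420) (nat_lit 0) (XT.nd (nat_lit 234) (nat_lit 1292) (nat_lit 0) (XT.nd (nat_lit 78) (nat_lit 456) (nat_lit 0) (XT.lf (nat_lit 0) (nat_lit 220638257) (nat_lit 456) (nat_lit 1916968911) (nat_lit 76) (nat_lit 4439855186) (nat_lit 303) (nat_lit 5) (nat_lit 309) (nat_lit 5) (nat_lit 304) (nat_lit 4) (nat_lit 271) (nat_lit 255) (nat_lit 254)) (XT.nd (nat_lit 78) (nat_lit 0) (nat_lit 0) (XT.lf (nat_lit 0) (nat_lit 1836122212) (nat_lit 456) (nat_lit 1364356511) (nat_lit 532) (nat_lit 3403792941) (nat_lit 297) (nat_lit 5) (nat_lit 303) (nat_lit 5) (nat_lit 304) (nat_lit 4) (nat_lit 272) (nat_lit 255) (nat_lit 253)) (XT.lf (nat_lit 0) (nat_lit 5667913719) (nat_lit 456) (nat_lit 518231595) (nat_lit 532) (nat_lit 448445417) (nat_lit 297) (nat_lit 5)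 (nat_lit 303) (nat_lit 5) (nat_lit 304) (nat_lit 4) (nat_lit 273) (nat_lit 255) (nat_lit 252)))) (XT.nd (nat_lit 78) (nat_lit 684) (nat_lit 0) (XT.lf (nat_lit 0) (nat_lit 2475941406) (nat_lit 608) (nat_lit 3764273275) (nat_lit 76) (nat_lit 427112375) (nat_lit 289) (nat_lit 5) (nat_lit 297) (nat_lit 5) (nat_lit 290) (nat_lit 4) (nat_lit 274) (nat_lit 255) (nat_lit 251)) (XT.nd (nat_lit 78) (nat_lit 76) (nat_lit 0) (XT.lf (nat_lit 0) (nat_lit 124768721) (nat_lit 608) (nat_lit 5271859853) (nat_lit 684) (nat_lit 1306937803) (nat_lit 281) (nat_lit 5) (nat_lit 289) (nat_lit 5) (nat_lit 290) (nat_lit 4) (nat_lit 275) (nat_lit 255) (nat_lit 250)) (XT.lf (nat_lit 0) (nat_lit 1572374991) (nat_lit 684) (nat_lit 2625785651) (nat_lit 76) (nat_lit 2544199421) (nat_lit 280) (nat_lit 5) (nat_lit 289) (nat_lit 5) (nat_lit 281) (nat_lit 5) (nat_lit 276) (nat_lit 255) (nat_lit 249))))) (XT.nd (nat_lit 234) (nat_lit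 1900) (nat_lit 0) (XT.nd (nat_lit 78) (nat_lit 836) (nat_lit 0) (XT.lf (nat_lit 0) (nat_lit 1384844845) (nat_lit 684) (nat_lit 3045523289) (nat_lit 760) (nat_lit 2354170313) (nat_lit 271) (nat_lit 5) (nat_lit 280) (nat_lit 5) (nat_lit 281) (nat_lit 5) (nat_lit 277) (nat_lit 255) (nat_lit 248)) (XT.nd (nat_lit 78) (nat_lit 760) (nat_lit 0) (XT.lf (nat_lit 0) (nat_lit 468466224) (nat_lit 760) (nat_lit 1339420865) (nat_lit 76) (nat_lit 5022104107) (nat_lit 270) (nat_lit 5) (nat_lit 280) (nat_lit 5) (nat_lit 271) (nat_lit 5) (nat_lit 278) (nat_lit 255) (nat_lit 247)) (XT.lf (nat_lit 0) (nat_lit 2799868240) (nat_lit 760) (nat_lit 464468714) (nat_lit 836) (nat_lit 3613847231) (nat_lit 260) (nat_lit 5) (nat_lit 270) (nat_lit 5) (nat_lit 271) (nat_lit 5) (nat_lit 279) (nat_lit 255) (nat_lit 246)))) (XT.nd (nat_lit 156) (nat_lit 988) (nat_lit 0) (XT.nd (nat_lit 78) (nat_lit 76) (nat_lit 0) (XT.lf (nat_lit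 0) (nat_lit 79594955) (nat_lit 836) (nat_lit 5998804556) (nat_lit 912) (nat_lit 851541615) (nat_lit 249) (nat_lit 5) (nat_lit 260) (nat_lit 5) (nat_lit 261) (nat_lit 5) (nat_lit 280) (nat_lit 255) (nat_lit 245)) (XT.lf (nat_lit 0) (nat_lit 1912835438) (nat_lit 912) (nat_lit 2637848176) (nat_lit 76) (nat_lit 2433388241) (nat_lit 248) (nat_lit 5) (nat_lit 260) (nat_lit 5) (nat_lit 249) (nat_lit 5) (nat_lit 281) (nat_lit 255) (nat_lit 244))) (XT.nd (nat_lit 78) (nat_lit 76) (nat_lit 0) (XT.lf (nat_lit 0) (nat_lit 1649532379) (nat_lit 912) (nat_lit 3023833942) (nat_lit 988) (nat_lit 2368432229) (nat_lit 236) (nat_lit 5) (nat_lit 248) (nat_lit 5) (nat_lit 249) (nat_lit 5) (nat_lit 282) (nat_lit 255) (nat_lit 243)) (XT.lf (nat_lit 0) (nat_lit 349548035) (nat_lit 988) (nat_lit 1061432564) (nat_lit 76) (nat_lit 5692018017) (nat_lit 235) (nat_lit 5) (nat_lit 248) (nat_lit 5) (nat_lit 236) (nat_lit 5) (nat_lit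 283) (nat_lit 255) (nat_lit 242)))))) (XT.nd (nat_lit 546) (nat_lit 2204) (nat_lit 0) (XT.nd (nat_lit 234) (nat_lit 2508) (nat_lit 0) (XT.nd (nat_lit 78) (nat_lit 1140) (nat_lit 0) (XT.lf (nat_lit 0) (nat_lit 3054636601) (nat_lit 1064) (nat_lit 3802501120) (nat_lit 76) (nat_lit 309721948) (nat_lit 222) (nat_lit 5) (nat_lit 236) (nat_lit 5) (nat_lit 223) (nat_lit 5) (nat_lit 284) (nat_lit 255) (nat_lit 241)) (XT.nd (nat_lit 78) (nat_lit 76) (nat_lit 0) (XT.lf (nat_lit 0) (nat_lit 634694985) (nat_lit 1064) (nat_lit 5156602519) (nat_lit 1140) (nat_lit 1442946499) (nat_lit 208) (nat_lit 5) (nat_lit 222) (nat_lit 5) (nat_lit 223) (nat_lit 5) (nat_lit 285) (nat_lit 255) (nat_lit 240)) (XT.lf (nat_lit 0) (nat_lit 1239943338) (nat_lit 1140) (nat_lit 2109417707) (nat_lit 76) (nat_lit 3955254399) (nat_lit 207) (nat_lit 5) (nat_lit 222) (nat_lit 5) (nat_lit 208) (nat_lit 5) (nat_lit 286) (nat_lit 255) (nat_lit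 239)))) (XT.nd (nat_lit 156) (nat_lit 1368) (nat_lit 0) (XT.nd (nat_lit 78) (nat_lit 0) (nat_lit 0) (XT.lf (nat_lit 0) (nat_lit 2474726509) (nat_lit 1140) (nat_lit 1445952696) (nat_lit 1216) (nat_lit 3457709244) (nat_lit 192) (nat_lit 5) (nat_lit 207) (nat_lit 5) (nat_lit 208) (nat_lit 5) (nat_lit 287) (nat_lit 255) (nat_lit 238)) (XT.lf (nat_lit 0) (nat_lit 6632430476) (nat_lit 1216) (nat_lit 295621282) (nat_lit 76) (nat_lit 527911742) (nat_lit 192) (nat_lit 5) (nat_lit 208) (nat_lit 5) (nat_lit 193) (nat_lit 5) (nat_lit 288) (nat_lit 255) (nat_lit 237))) (XT.nd (nat_lit 78) (nat_lit 608) (nat_lit 0) (XT.lf (nat_lit 0) (nat_lit 1835956555) (nat_lit 760) (nat_lit 3105445798) (nat_lit 76) (nat_lit 2594524171) (nat_lit 182) (nat_lit 5) (nat_lit 192) (nat_lit 5) (nat_lit 183) (nat_lit 5) (nat_lit 289) (nat_lit 255) (nat_lit 236)) (XT.lf (nat_lit 0) (nat_lit 1634983410) (nat_lit 608) (nat_lit 2869397303)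 (nat_lit 684) (nat_lit 3115389652) (nat_lit 174) (nat_lit 5) (nat_lit 182) (nat_lit 5) (nat_lit 183) (nat_lit 5) (nat_lit 290) (nat_lit 255) (nat_lit 235))))) (XT.nd (nat_lit 234) (nat_lit 1064) (nat_lit 0) (XT.nd (nat_lit 78) (nat_lit 1140) (nat_lit 0) (XT.lf (nat_lit 0) (nat_lit 6507054520) (nat_lit 608) (nat_lit 705546388) (nat_lit 684) (nat_lit 494831074) (nat_lit 174) (nat_lit 5) (nat_lit 182) (nat_lit 5) (nat_lit 183) (nat_lit 5) (nat_lit 291) (nat_lit 255) (nat_lit 234)) (XT.nd (nat_lit 78) (nat_lit 532) (nat_lit 0) (XT.lf (nat_lit 0) (nat_lit 2141810437) (nat_lit 608) (nat_lit 4108272305) (nat_lit 76) (nat_lit 1547679916) (nat_lit 166) (nat_lit 5) (nat_lit 174) (nat_lit 5) (nat_lit 167) (nat_lit 5) (nat_lit 292) (nat_lit 255) (nat_lit 233)) (XT.lf (nat_lit 0) (nat_lit 788652369) (nat_lit 532) (nat_lit 4016763410) (nat_lit 608) (nat_lit 3086592908) (nat_lit 159) (nat_lit 5) (nat_lit 166)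 (nat_lit 5) (nat_lit 167) (nat_lit 5) (nat_lit 293) (nat_lit 255) (nat_lit 232)))) (XT.nd (nat_lit 156) (nat_lit 532) (nat_lit 0) (XT.nd (nat_lit 78) (nat_lit 532) (nat_lit 0) (XT.lf (nat_lit 0) (nat_lit 5842481881) (nat_lit 532) (nat_lit 1680231219) (nat_lit 608) (nat_lit 467239674) (nat_lit 159) (nat_lit 5) (nat_lit 166) (nat_lit 5) (nat_lit 167) (nat_lit 5) (nat_lit 294) (nat_lit 255) (nat_lit 231)) (XT.lf (nat_lit 0) (nat_lit 2156170675) (nat_lit 532) (nat_lit 5179676037) (nat_lit 76) (nat_lit 755354389) (nat_lit 152) (nat_lit 5) (nat_lit 159) (nat_lit 5) (nat_lit 153) (nat_lit 5) (nat_lit 295) (nat_lit 255) (nat_lit 230))) (XT.nd (nat_lit 78) (nat_lit 532) (nat_lit 0) (XT.lf (nat_lit 0) (nat_lit 4822131773) (nat_lit 532) (nat_lit 124701333) (nat_lit 76) (nat_lit 3249394850) (nat_lit 152) (nat_lit 5) (nat_lit 159) (nat_lit 5) (nat_lit 153) (nat_lit 5) (nat_lit 296) (nat_lit 255) (nat_lit 229))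 (XT.lf (nat_lit 0) (nat_lit 5109095020) (nat_lit 532) (nat_lit 2444693856) (nat_lit 608) (nat_lit 751120030) (nat_lit 145) (nat_lit 5) (nat_lit 152) (nat_lit 5) (nat_lit 153) (nat_lit 5) (nat_lit 297) (nat_lit 255) (nat_lit 228))))))) (XT.nd (nat_lit 1092) (nat_lit 2356) (nat_lit 0) (XT.nd (nat_lit 546) (nat_lit 1900) (nat_lit 0) (XT.nd (nat_lit 234) (nat_lit 988) (nat_lit 0) (XT.nd (nat_lit 78) (nat_lit 456) (nat_lit 0) (XT.lf (nat_lit 0) (nat_lit 1871943023) (nat_lit 532) (nat_lit 6385758930) (nat_lit 76) (nat_lit 159872555) (nat_lit 138) (nat_lit 5) (nat_lit 145) (nat_lit 5) (nat_lit 139) (nat_lit 5) (nat_lit 298) (nat_lit 255) (nat_lit 227)) (XT.nd (nat_lit 78) (nat_lit 456) (nat_lit 0) (XT.lf (nat_lit 0) (nat_lit 4553505659) (nat_lit 532) (nat_lit 1157067396) (nat_lit 76) (nat_lit 2823045240) (nat_lit 138) (nat_lit 5) (nat_lit 145) (nat_lit 5) (nat_lit 139) (nat_lit 5) (nat_lit 299) (nat_lit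 255) (nat_lit 226)) (XT.lf (nat_lit 0) (nat_lit 4239128657) (nat_lit 456) (nat_lit 3057046873) (nat_lit 532) (nat_lit 1357614518) (nat_lit 132) (nat_lit 5) (nat_lit 138) (nat_lit 5) (nat_lit 139) (nat_lit 5) (nat_lit 300) (nat_lit 255) (nat_lit 225)))) (XT.nd (nat_lit 156) (nat_lit 532) (nat_lit 0) (XT.nd (nat_lit 78) (nat_lit 0) (nat_lit 0) (XT.lf (nat_lit 0) (nat_lit 977128921) (nat_lit 380) (nat_lit 301732204) (nat_lit 456) (nat_lit 7499535416) (nat_lit 126) (nat_lit 5) (nat_lit 131) (nat_lit 5) (nat_lit 132) (nat_lit 5) (nat_lit 301) (nat_lit 255) (nat_lit 224)) (XT.lf (nat_lit 0) (nat_lit 3977791851) (nat_lit 456) (nat_lit 2396098129) (nat_lit 76) (nat_lit 2532189393) (nat_lit 126) (nat_lit 5) (nat_lit 132) (nat_lit 5) (nat_lit 127) (nat_lit 5) (nat_lit 302) (nat_lit 255) (nat_lit 223))) (XT.nd (nat_lit 78) (nat_lit 76) (nat_lit 0) (XT.lf (nat_lit 0) (nat_lit 3158414300) (nat_lit 456) (nat_lit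 3575582321) (nat_lit 532) (nat_lit 2304365939) (nat_lit 120) (nat_lit 5) (nat_lit 126) (nat_lit 5) (nat_lit 127) (nat_lit 5) (nat_lit 303) (nat_lit 255) (nat_lit 222)) (XT.lf (nat_lit 0) (nat_lit 358265060) (nat_lit 532) (nat_lit 321216335) (nat_lit 76) (nat_lit 8496040748) (nat_lit 119) (nat_lit 5) (nat_lit 126) (nat_lit 5) (nat_lit 120) (nat_lit 5) (nat_lit 304) (nat_lit 255) (nat_lit 221))))) (XT.nd (nat_lit 234) (nat_lit 1140) (nat_lit 0) (XT.nd (nat_lit 78) (nat_lit 380) (nat_lit 0) (XT.lf (nat_lit 0) (nat_lit 3074254573) (nat_lit 456) (nat_lit 3921666910) (nat_lit 76) (nat_lit 2319650757) (nat_lit 114) (nat_lit 5) (nat_lit 120) (nat_lit 5) (nat_lit 115) (nat_lit 5) (nat_lit 305) (nat_lit 255) (nat_lit 220)) (XT.nd (nat_lit 78) (nat_lit 0) (nat_lit 0) (XT.lf (nat_lit 0) (nat_lit 1784715616) (nat_lit 380) (nat_lit 4059938777) (nat_lit 456) (nat_lit 3616033994) (nat_lit 109) (nat_lit 5) (nat_lit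 114) (nat_lit 5) (nat_lit 115) (nat_lit 5) (nat_lit 306) (nat_lit 255) (nat_lit 219)) (XT.lf (nat_lit 0) (nat_lit 7672683284) (nat_lit 380) (nat_lit 1011762224) (nat_lit 456) (nat_lit 926175068) (nat_lit 109) (nat_lit 5) (nat_lit 114) (nat_lit 5) (nat_lit 115) (nat_lit 5) (nat_lit 307) (nat_lit 255) (nat_lit 218)))) (XT.nd (nat_lit 156) (nat_lit 380) (nat_lit 0) (XT.nd (nat_lit 78) (nat_lit 380) (nat_lit 0) (XT.lf (nat_lit 0) (nat_lit 1814998353) (nat_lit 380) (nat_lit 5823049398) (nat_lit 76) (nat_lit 2126320839) (nat_lit 104) (nat_lit 5) (nat_lit 109) (nat_lit 5) (nat_lit 105) (nat_lit 5) (nat_lit 308) (nat_lit 255) (nat_lit 217)) (XT.lf (nat_lit 0) (nat_lit 25862189) (nat_lit 380) (nat_lit 4572333352) (nat_lit 456) (nat_lit 5324952905) (nat_lit 99) (nat_lit 5) (nat_lit 104) (nat_lit 5) (nat_lit 105) (nat_lit 5) (nat_lit 309) (nat_lit 255) (nat_lit 216))) (XT.nd (nat_lit 78) (nat_lit 380) (nat_lit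 0) (XT.lf (nat_lit 0) (nat_lit 6100493781) (nat_lit 380) (nat_lit 1372410120) (nat_lit 456) (nat_lit 2613592596) (nat_lit 99) (nat_lit 5) (nat_lit 104) (nat_lit 5) (nat_lit 105) (nat_lit 5) (nat_lit 310) (nat_lit 255) (nat_lit 215)) (XT.lf (nat_lit 0) (nat_lit 164232762) (nat_lit 380) (nat_lit 8200943787) (nat_lit 76) (nat_lit 1889900872) (nat_lit 94) (nat_lit 5) (nat_lit 99) (nat_lit 5) (nat_lit 95) (nat_lit 5) (nat_lit 311) (nat_lit 255) (nat_lit 214)))))) (XT.nd (nat_lit 546) (nat_lit 1140) (nat_lit 0) (XT.nd (nat_lit 234) (nat_lit 912) (nat_lit 0) (XT.nd (nat_lit 78) (nat_lit 304) (nat_lit 0) (XT.lf (nat_lit 0) (nat_lit 2977887498) (nat_lit 380) (nat_lit 2178991860) (nat_lit 76) (nat_lit 5270950760) (nat_lit 94) (nat_lit 5) (nat_lit 99) (nat_lit 5) (nat_lit 95) (nat_lit 5) (nat_lit 312) (nat_lit 255) (nat_lit 213)) (XT.nd (nat_lit 78) (nat_lit 0) (nat_lit 0) (XT.lf (nat_lit 0) (nat_lit 4035568121)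 (nat_lit 304) (nat_lit 1831397159) (nat_lit 380) (nat_lit 4739109925) (nat_lit 90) (nat_lit 5) (nat_lit 94) (nat_lit 5) (nat_lit 95) (nat_lit 5) (nat_lit 313) (nat_lit 255) (nat_lit 212)) (XT.lf (nat_lit 0) (nat_lit 8833050911) (nat_lit 380) (nat_lit 390724364) (nat_lit 76) (nat_lit 1566221344) (nat_lit 90) (nat_lit 5) (nat_lit 95) (nat_lit 5) (nat_lit 91) (nat_lit 5) (nat_lit 314) (nat_lit 255) (nat_lit 211)))) (XT.nd (nat_lit 156) (nat_lit 228) (nat_lit 0) (XT.nd (nat_lit 78) (nat_lit 304) (nat_lit 0) (XT.lf (nat_lit 0) (nat_lit 921266463) (nat_lit 380) (nat_lit 4979491479) (nat_lit 76) (nat_lit 5077543046) (nat_lit 85) (nat_lit 5) (nat_lit 90) (nat_lit 5) (nat_lit 86) (nat_lit 5) (nat_lit 315) (nat_lit 255) (nat_lit 210)) (XT.lf (nat_lit 0) (nat_lit 1357224014) (nat_lit 304) (nat_lit 2460696566) (nat_lit 380) (nat_lit 7354645518) (nat_lit 81) (nat_lit 5) (nat_lit 85) (nat_lit 5) (nat_lit 86)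 (nat_lit 5) (nat_lit 316) (nat_lit 255) (nat_lit 209))) (XT.nd (nat_lit 78) (nat_lit 228) (nat_lit 0) (XT.lf (nat_lit 0) (nat_lit 6817566949) (nat_lit 380) (nat_lit 3462230340) (nat_lit 76) (nat_lit 1092413778) (nat_lit 81) (nat_lit 5) (nat_lit 86) (nat_lit 5) (nat_lit 82) (nat_lit 5) (nat_lit 317) (nat_lit 255) (nat_lit 208)) (XT.lf (nat_lit 0) (nat_lit 3052312654) (nat_lit 228) (nat_lit 6864812902) (nat_lit 304) (nat_lit 1660455821) (nat_lit 78) (nat_lit 5) (nat_lit 81) (nat_lit 5) (nat_lit 82) (nat_lit 5) (nat_lit 318) (nat_lit 255) (nat_lit 207))))) (XT.nd (nat_lit 234) (nat_lit 760) (nat_lit 0) (XT.nd (nat_lit 78) (nat_lit 304) (nat_lit 0) (XT.lf (nat_lit 0) (nat_lit 1286519591) (nat_lit 304) (nat_lit 2032468267) (nat_lit 76) (nat_lit 8470023952) (nat_lit 77) (nat_lit 5) (nat_lit 81) (nat_lit 5) (nat_lit 78) (nat_lit 5) (nat_lit 319) (nat_lit 255) (nat_lit 206)) (XT.nd (nat_lit 78) (nat_lit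 0) (nat_lit 0) (XT.lf (nat_lit 0) (nat_lit 4294698005) (nat_lit 380) (nat_lit 7342859702) (nat_lit 76) (nat_lit 368580044) (nat_lit 73) (nat_lit 5) (nat_lit 78) (nat_lit 5) (nat_lit 74) (nat_lit 5) (nat_lit 320) (nat_lit 255) (nat_lit 205)) (XT.lf (nat_lit 0) (nat_lit 7404840248) (nat_lit 380) (nat_lit 723880214) (nat_lit 76) (nat_lit 4100735376) (nat_lit 73) (nat_lit 5) (nat_lit 78) (nat_lit 5) (nat_lit 74) (nat_lit 5) (nat_lit 321) (nat_lit 255) (nat_lit 204)))) (XT.nd (nat_lit 156) (nat_lit 228) (nat_lit 0) (XT.nd (nat_lit 78) (nat_lit 304) (nat_lit 0) (XT.lf (nat_lit 0) (nat_lit 6152350010) (nat_lit 228) (nat_lit 4474426471) (nat_lit 304) (nat_lit 1832171344) (nat_lit 70) (nat_lit 5) (nat_lit 73) (nat_lit 5) (nat_lit 74) (nat_lit 5) (nat_lit 322) (nat_lit 255) (nat_lit 203)) (XT.lf (nat_lit 0) (nat_lit 490478753) (nat_lit 228) (nat_lit 706796697) (nat_lit 304) (nat_lit 11498567353) (nat_lit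 66) (nat_lit 5) (nat_lit 69) (nat_lit 5) (nat_lit 70) (nat_lit 5) (nat_lit 323) (nat_lit 255) (nat_lit 202))) (XT.nd (nat_lit 78) (nat_lit 228) (nat_lit 0) (XT.lf (nat_lit 0) (nat_lit 4335519435) (nat_lit 304) (nat_lit 5428487820) (nat_lit 76) (nat_lit 3173677593) (nat_lit 66) (nat_lit 5) (nat_lit 70) (nat_lit 5) (nat_lit 67) (nat_lit 5) (nat_lit 324) (nat_lit 255) (nat_lit 201)) (XT.lf (nat_lit 0) (nat_lit 1514026790) (nat_lit 228) (nat_lit 6036517922) (nat_lit 304) (nat_lit 5636784231) (nat_lit 63) (nat_lit 5) (nat_lit 66) (nat_lit 5) (nat_lit 67) (nat_lit 5) (nat_lit 325) (nat_lit 255) (nat_lit 200))))))))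
noncomputable def xc91 : XT := (XT.nd (nat_lit 2184) (nat_lit 1292) (nat_lit 0) (XT.nd (nat_lit 1092) (nat_lit 912) (nat_lit 0) (XT.nd (nat_lit 546) (nat_lit 760) (nat_lit 0) (XT.nd (nat_lit 234) (nat_lit 456) (nat_lit 0) (XT.nd (nat_lit 78) (nat_lit 304) (nat_lit 0) (XT.lf (nat_lit 0) (nat_lit 8716471815) (nat_lit 228) (nat_lit 2162008640) (nat_lit 304) (nat_lit 2565513174) (nat_lit 63) (nat_lit 5) (nat_lit 66) (nat_lit 5) (nat_lit 67) (nat_lit 5) (nat_lit 326) (nat_lit 255) (nat_lit 199)) (XT.nd (nat_lit 78) (nat_lit 0) (nat_lit 0) (XT.lf (nat_lit 0) (nat_lit 589418243) (nat_lit 304) (nat_lit 11317068850) (nat_lit 76) (nat_lit 1801626683) (nat_lit 59) (nat_lit 5) (nat_lit 63) (nat_lit 5) (nat_lit 60) (nat_lit 5) (nat_lit 327) (nat_lit 255) (nat_lit 198)) (XT.lf (nat_lit 0) (nat_lit 3819753967) (nat_lit 304) (nat_lit 4264945536) (nat_lit 76) (nat_lit 5893749302) (nat_lit 59) (nat_lit 5) (nat_lit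 63) (nat_lit 5) (nat_lit 60) (nat_lit 5) (nat_lit 328) (nat_lit 255) (nat_lit 197)))) (XT.nd (nat_lit 156) (nat_lit 304) (nat_lit 0) (XT.nd (nat_lit 78) (nat_lit 0) (nat_lit 0) (XT.lf (nat_lit 0) (nat_lit 2999982329) (nat_lit 152) (nat_lit 4139644662) (nat_lit 228) (nat_lit 7117510342) (nat_lit 57) (nat_lit 5) (nat_lit 59) (nat_lit 5) (nat_lit 60) (nat_lit 5) (nat_lit 329) (nat_lit 255) (nat_lit 196)) (XT.lf (nat_lit 0) (nat_lit 10513547385) (nat_lit 152) (nat_lit 52915246) (nat_lit 228) (nat_lit 3977524509) (nat_lit 57) (nat_lit 5) (nat_lit 59) (nat_lit 5) (nat_lit 60) (nat_lit 5) (nat_lit 330) (nat_lit 255) (nat_lit 195))) (XT.nd (nat_lit 78) (nat_lit 76) (nat_lit 0) (XT.lf (nat_lit 0) (nat_lit 3383191400) (nat_lit 228) (nat_lit 10750529608) (nat_lit 304) (nat_lit 704613888) (nat_lit 54) (nat_lit 5) (nat_lit 57) (nat_lit 5) (nat_lit 58) (nat_lit 5) (nat_lit 331) (nat_lit 255) (nat_lit 194)) (XT.lf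 (nat_lit 0) (nat_lit 2621342507) (nat_lit 304) (nat_lit 4121111640) (nat_lit 76) (nat_lit 8398103028) (nat_lit 53) (nat_lit 5) (nat_lit 57) (nat_lit 5) (nat_lit 54) (nat_lit 5) (nat_lit 332) (nat_lit 255) (nat_lit 193))))) (XT.nd (nat_lit 234) (nat_lit 380) (nat_lit 0) (XT.nd (nat_lit 78) (nat_lit 228) (nat_lit 0) (XT.lf (nat_lit 0) (nat_lit 3438585994) (nat_lit 152) (nat_lit 2593659805) (nat_lit 228) (nat_lit 9419430331) (nat_lit 51) (nat_lit 5) (nat_lit 53) (nat_lit 5) (nat_lit 54) (nat_lit 5) (nat_lit 333) (nat_lit 255) (nat_lit 192)) (XT.nd (nat_lit 78) (nat_lit 228) (nat_lit 0) (XT.lf (nat_lit 0) (nat_lit 9570190018) (nat_lit 228) (nat_lit 4532645766) (nat_lit 76) (nat_lit 1668570099) (nat_lit 51) (nat_lit 5) (nat_lit 54) (nat_lit 5) (nat_lit 52) (nat_lit 5) (nat_lit 334) (nat_lit 255) (nat_lit 191)) (XT.lf (nat_lit 0) (nat_lit 3154929655) (nat_lit 228) (nat_lit 10082865669) (nat_lit 304)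 (nat_lit 2862244624) (nat_lit 48) (nat_lit 5) (nat_lit 51) (nat_lit 5) (nat_lit 52) (nat_lit 5) (nat_lit 335) (nat_lit 255) (nat_lit 190)))) (XT.nd (nat_lit 156) (nat_lit 152) (nat_lit 0) (XT.nd (nat_lit 78) (nat_lit 152) (nat_lit 0) (XT.lf (nat_lit 0) (nat_lit 579483879) (nat_lit 304) (nat_lit 5330418169) (nat_lit 76) (nat_lit 10528066324) (nat_lit 47) (nat_lit 5) (nat_lit 51) (nat_lit 5) (nat_lit 48) (nat_lit 5) (nat_lit 336) (nat_lit 255) (nat_lit 189)) (XT.lf (nat_lit 0) (nat_lit 2481035484) (nat_lit 152) (nat_lit 1578314196) (nat_lit 228) (nat_lit 12726078952) (nat_lit 45) (nat_lit 5) (nat_lit 47) (nat_lit 5) (nat_lit 48) (nat_lit 5) (nat_lit 337) (nat_lit 255) (nat_lit 188))) (XT.nd (nat_lit 78) (nat_lit 152) (nat_lit 0) (XT.lf (nat_lit 0) (nat_lit 7694479427) (nat_lit 228) (nat_lit 6585843707) (nat_lit 76) (nat_lit 2861479611) (nat_lit 45) (nat_lit 5) (nat_lit 48) (nat_lit 5) (nat_lit 46)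 (nat_lit 5) (nat_lit 338) (nat_lit 255) (nat_lit 187)) (XT.lf (nat_lit 0) (nat_lit 1323986943) (nat_lit 152) (nat_lit 10112731882) (nat_lit 228) (nat_lit 6072223198) (nat_lit 43) (nat_lit 5) (nat_lit 45) (nat_lit 5) (nat_lit 46) (nat_lit 5) (nat_lit 339) (nat_lit 255) (nat_lit 186)))))) (XT.nd (nat_lit 546) (nat_lit 304) (nat_lit 0) (XT.nd (nat_lit 234) (nat_lit 380) (nat_lit 0) (XT.nd (nat_lit 78) (nat_lit 228) (nat_lit 0) (XT.lf (nat_lit 0) (nat_lit 9556126641) (nat_lit 152) (nat_lit 5771706731) (nat_lit 228) (nat_lit 2558179030) (nat_lit 43) (nat_lit 5) (nat_lit 45) (nat_lit 5) (nat_lit 46) (nat_lit 5) (nat_lit 340) (nat_lit 255) (nat_lit 185)) (XT.nd (nat_lit 78) (nat_lit 152) (nat_lit 0) (XT.lf (nat_lit 0) (nat_lit 1011249747) (nat_lit 228) (nat_lit 298497272) (nat_lit 76) (nat_lit 16965235926) (nat_lit 42) (nat_lit 5) (nat_lit 45) (nat_lit 5) (nat_lit 43) (nat_lit 5) (nat_lit 341) (nat_lit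 255) (nat_lit 184)) (XT.lf (nat_lit 0) (nat_lit 4717750987) (nat_lit 228) (nat_lit 10647781961) (nat_lit 76) (nat_lit 3306901483) (nat_lit 40) (nat_lit 5) (nat_lit 43) (nat_lit 5) (nat_lit 41) (nat_lit 5) (nat_lit 342) (nat_lit 255) (nat_lit 183)))) (XT.nd (nat_lit 156) (nat_lit 228) (nat_lit 0) (XT.nd (nat_lit 78) (nat_lit 152) (nat_lit 0) (XT.lf (nat_lit 0) (nat_lit 8523177482) (nat_lit 228) (nat_lit 2539006050) (nat_lit 76) (nat_lit 8020007492) (nat_lit 40) (nat_lit 5) (nat_lit 43) (nat_lit 5) (nat_lit 41) (nat_lit 5) (nat_lit 343) (nat_lit 255) (nat_lit 182)) (XT.lf (nat_lit 0) (nat_lit 5881288564) (nat_lit 152) (nat_lit 6590554832) (nat_lit 228) (nat_lit 7031537698) (nat_lit 38) (nat_lit 5) (nat_lit 40) (nat_lit 5) (nat_lit 41) (nat_lit 5) (nat_lit 344) (nat_lit 255) (nat_lit 181))) (XT.nd (nat_lit 78) (nat_lit 228) (nat_lit 0) (XT.lf (nat_lit 0) (nat_lit 14560185434) (nat_lit 152) (nat_lit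 1977321968) (nat_lit 228) (nat_lit 3399756018) (nat_lit 38) (nat_lit 5) (nat_lit 40) (nat_lit 5) (nat_lit 41) (nat_lit 5) (nat_lit 345) (nat_lit 255) (nat_lit 180)) (XT.lf (nat_lit 0) (nat_lit 364626516) (nat_lit 228) (nat_lit 17283000056) (nat_lit 76) (nat_lit 2735540246) (nat_lit 35) (nat_lit 5) (nat_lit 38) (nat_lit 5) (nat_lit 36) (nat_lit 5) (nat_lit 346) (nat_lit 255) (nat_lit 179))))) (XT.nd (nat_lit 234) (nat_lit 152) (nat_lit 0) (XT.nd (nat_lit 78) (nat_lit 152) (nat_lit 0) (XT.lf (nat_lit 0) (nat_lit 4221602729) (nat_lit 228) (nat_lit 8998070767) (nat_lit 76) (nat_lit 7620335796) (nat_lit 35) (nat_lit 5) (nat_lit 38) (nat_lit 5) (nat_lit 36) (nat_lit 5) (nat_lit 347) (nat_lit 255) (nat_lit 178)) (XT.nd (nat_lit 78) (nat_lit 152) (nat_lit 0) (XT.lf (nat_lit 0) (nat_lit 8168638652) (nat_lit 228) (nat_lit 508700463) (nat_lit 76) (nat_lit 12633998692) (nat_lit 35) (nat_lit 5) (nat_lit 38)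 (nat_lit 5) (nat_lit 36) (nat_lit 5) (nat_lit 348) (nat_lit 255) (nat_lit 177)) (XT.lf (nat_lit 0) (nat_lit 8355576136) (nat_lit 152) (nat_lit 3933925926) (nat_lit 228) (nat_lit 9505652576) (nat_lit 33) (nat_lit 5) (nat_lit 35) (nat_lit 5) (nat_lit 36) (nat_lit 5) (nat_lit 349) (nat_lit 255) (nat_lit 176)))) (XT.nd (nat_lit 156) (nat_lit 76) (nat_lit 0) (XT.nd (nat_lit 78) (nat_lit 76) (nat_lit 0) (XT.lf (nat_lit 0) (nat_lit 16523572242) (nat_lit 228) (nat_lit 4849302294) (nat_lit 76) (nat_lit 920934647) (nat_lit 33) (nat_lit 5) (nat_lit 36) (nat_lit 5) (nat_lit 34) (nat_lit 4) (nat_lit 350) (nat_lit 255) (nat_lit 175)) (XT.lf (nat_lit 0) (nat_lit 3995980968) (nat_lit 76) (nat_lit 16942010127) (nat_lit 152) (nat_lit 1867842794) (nat_lit 32) (nat_lit 5) (nat_lit 33) (nat_lit 5) (nat_lit 34) (nat_lit 4) (nat_lit 351) (nat_lit 255) (nat_lit 174))) (XT.nd (nat_lit 78) (nat_lit 0) (nat_lit 0) (XT.lf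 (nat_lit 0) (nat_lit 2135113607) (nat_lit 152) (nat_lit 10188694445) (nat_lit 76) (nat_lit 11008036243) (nat_lit 31) (nat_lit 5) (nat_lit 33) (nat_lit 5) (nat_lit 32) (nat_lit 5) (nat_lit 352) (nat_lit 255) (nat_lit 173)) (XT.lf (nat_lit 0) (nat_lit 6197338333) (nat_lit 152) (nat_lit 1367982357) (nat_lit 76) (nat_lit 16308467324) (nat_lit 31) (nat_lit 5) (nat_lit 33) (nat_lit 5) (nat_lit 32) (nat_lit 5) (nat_lit 353) (nat_lit 255) (nat_lit 172))))))) (XT.nd (nat_lit 1092) (nat_lit 532) (nat_lit 0) (XT.nd (nat_lit 546) (nat_lit 304) (nat_lit 0) (XT.nd (nat_lit 234) (nat_lit 228) (nat_lit 0) (XT.nd (nat_lit 78) (nat_lit 76) (nat_lit 0) (XT.lf (nat_lit 0) (nat_lit 7830751780) (nat_lit 152) (nat_lit 2603351439) (nat_lit 228) (nat_lit 13996315797) (nat_lit 29) (nat_lit 5) (nat_lit 31) (nat_lit 5) (nat_lit 32) (nat_lit 5) (nat_lit 354) (nat_lit 255) (nat_lit 171)) (XT.nd (nat_lit 78) (nat_lit 76) (nat_lit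 0) (XT.lf (nat_lit 0) (nat_lit 14813547250) (nat_lit 228) (nat_lit 7733621497) (nat_lit 76) (nat_lit 2456121818) (nat_lit 29) (nat_lit 5) (nat_lit 32) (nat_lit 5) (nat_lit 30) (nat_lit 4) (nat_lit 355) (nat_lit 255) (nat_lit 170)) (XT.lf (nat_lit 0) (nat_lit 1360798465) (nat_lit 76) (nat_lit 17980609503) (nat_lit 152) (nat_lit 6251437939) (nat_lit 28) (nat_lit 5) (nat_lit 29) (nat_lit 5) (nat_lit 30) (nat_lit 4) (nat_lit 356) (nat_lit 255) (nat_lit 169)))) (XT.nd (nat_lit 156) (nat_lit 152) (nat_lit 0) (XT.nd (nat_lit 78) (nat_lit 76) (nat_lit 0) (XT.lf (nat_lit 0) (nat_lit 10848573543) (nat_lit 76) (nat_lit 13213072421) (nat_lit 152) (nat_lit 2136754095) (nat_lit 28) (nat_lit 5) (nat_lit 29) (nat_lit 5) (nat_lit 30) (nat_lit 4) (nat_lit 357) (nat_lit 255) (nat_lit 168)) (XT.lf (nat_lit 0) (nat_lit 2039224589) (nat_lit 152) (nat_lit 6258669347) (nat_lit 76) (nat_lit 18524263034) (nat_lit 27) (nat_lit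 5) (nat_lit 29) (nat_lit 5) (nat_lit 28) (nat_lit 5) (nat_lit 358) (nat_lit 255) (nat_lit 167))) (XT.nd (nat_lit 78) (nat_lit 0) (nat_lit 0) (XT.lf (nat_lit 0) (nat_lit 3108480788) (nat_lit 152) (nat_lit 3198411190) (nat_lit 228) (nat_lit 21156826932) (nat_lit 25) (nat_lit 5) (nat_lit 27) (nat_lit 5) (nat_lit 28) (nat_lit 5) (nat_lit 359) (nat_lit 255) (nat_lit 166)) (XT.lf (nat_lit 0) (nat_lit 10765738346) (nat_lit 228) (nat_lit 15294413871) (nat_lit 76) (nat_lit 2062488480) (nat_lit 25) (nat_lit 5) (nat_lit 28) (nat_lit 5) (nat_lit 26) (nat_lit 4) (nat_lit 360) (nat_lit 255) (nat_lit 165))))) (XT.nd (nat_lit 234) (nat_lit 228) (nat_lit 0) (XT.nd (nat_lit 78) (nat_lit 76) (nat_lit 0) (XT.lf (nat_lit 0) (nat_lit 15370190437) (nat_lit 228) (nat_lit 6028727084) (nat_lit 76) (nat_lit 7402064649) (nat_lit 25) (nat_lit 5) (nat_lit 28) (nat_lit 5) (nat_lit 26) (nat_lit 4) (nat_lit 361) (nat_lit 255)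 (nat_lit 164)) (XT.nd (nat_lit 78) (nat_lit 0) (nat_lit 0) (XT.lf (nat_lit 0) (nat_lit 3549935585) (nat_lit 76) (nat_lit 16577715038) (nat_lit 152) (nat_lit 9371584057) (nat_lit 24) (nat_lit 5) (nat_lit 25) (nat_lit 5) (nat_lit 26) (nat_lit 4) (nat_lit 362) (nat_lit 255) (nat_lit 163)) (XT.lf (nat_lit 0) (nat_lit 13505610328) (nat_lit 76) (nat_lit 11564087498) (nat_lit 152) (nat_lit 5147487869) (nat_lit 24) (nat_lit 5) (nat_lit 25) (nat_lit 5) (nat_lit 26) (nat_lit 4) (nat_lit 363) (nat_lit 255) (nat_lit 162)))) (XT.nd (nat_lit 156) (nat_lit 0) (nat_lit 0) (XT.nd (nat_lit 78) (nat_lit 228) (nat_lit 0) (XT.lf (nat_lit 0) (nat_lit 23727012787) (nat_lit 76) (nat_lit 6414532383) (nat_lit 152) (nat_lit 815690536) (nat_lit 24) (nat_lit 5) (nat_lit 25) (nat_lit 5) (nat_lit 26) (nat_lit 4) (nat_lit 364) (nat_lit 255) (nat_lit 161)) (XT.lf (nat_lit 0) (nat_lit 2517293752) (nat_lit 152) (nat_lit 1063709618)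 (nat_lit 228) (nat_lit 28137255933) (nat_lit 21) (nat_lit 5) (nat_lit 23) (nat_lit 5) (nat_lit 24) (nat_lit 5) (nat_lit 365) (nat_lit 255) (nat_lit 160))) (XT.nd (nat_lit 78) (nat_lit 0) (nat_lit 0) (XT.lf (nat_lit 0) (nat_lit 8191667073) (nat_lit 228) (nat_lit 19878466546) (nat_lit 76) (nat_lit 4428789863) (nat_lit 21) (nat_lit 5) (nat_lit 24) (nat_lit 5) (nat_lit 22) (nat_lit 4) (nat_lit 366) (nat_lit 255) (nat_lit 159)) (XT.lf (nat_lit 0) (nat_lit 12933683610) (nat_lit 228) (nat_lit 10318318749) (nat_lit 76) (nat_lit 10051220128) (nat_lit 21) (nat_lit 5) (nat_lit 24) (nat_lit 5) (nat_lit 22) (nat_lit 4) (nat_lit 367) (nat_lit 255) (nat_lit 158)))))) (XT.nd (nat_lit 546) (nat_lit 228) (nat_lit 0) (XT.nd (nat_lit 234) (nat_lit 228) (nat_lit 0) (XT.nd (nat_lit 78) (nat_lit 76) (nat_lit 0) (XT.lf (nat_lit 0) (nat_lit 17800971462) (nat_lit 228) (nat_lit 501943605) (nat_lit 76) (nat_lit 15829250786)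 (nat_lit 21) (nat_lit 5) (nat_lit 24) (nat_lit 5) (nat_lit 22) (nat_lit 4) (nat_lit 368) (nat_lit 255) (nat_lit 157)) (XT.nd (nat_lit 78) (nat_lit 0) (nat_lit 0) (XT.lf (nat_lit 0) (nat_lit 9769881884) (nat_lit 76) (nat_lit 13121815796) (nat_lit 152) (nat_lit 12091962798) (nat_lit 20) (nat_lit 5) (nat_lit 21) (nat_lit 5) (nat_lit 22) (nat_lit 4) (nat_lit 369) (nat_lit 255) (nat_lit 156)) (XT.lf (nat_lit 0) (nat_lit 20330756043) (nat_lit 76) (nat_lit 7793161790) (nat_lit 152) (nat_lit 7737124332) (nat_lit 20) (nat_lit 5) (nat_lit 21) (nat_lit 5) (nat_lit 22) (nat_lit 4) (nat_lit 370) (nat_lit 255) (nat_lit 155)))) (XT.nd (nat_lit 156) (nat_lit 0) (nat_lit 0) (XT.nd (nat_lit 78) (nat_lit 228) (nat_lit 0) (XT.lf (nat_lit 0) (nat_lit 31179917156) (nat_lit 76) (nat_lit 2317365590) (nat_lit 152) (nat_lit 3267942443) (nat_lit 20) (nat_lit 5) (nat_lit 21) (nat_lit 5) (nat_lit 22) (nat_lit 4) (nat_lit 371)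 (nat_lit 255) (nat_lit 154)) (XT.lf (nat_lit 0) (nat_lit 1371401253) (nat_lit 228) (nat_lit 33018603750) (nat_lit 76) (nat_lit 3304284260) (nat_lit 17) (nat_lit 5) (nat_lit 20) (nat_lit 5) (nat_lit 18) (nat_lit 4) (nat_lit 372) (nat_lit 255) (nat_lit 153))) (XT.nd (nat_lit 78) (nat_lit 0) (nat_lit 0) (XT.lf (nat_lit 0) (nat_lit 6148693993) (nat_lit 228) (nat_lit 23374482052) (nat_lit 76) (nat_lit 9125149791) (nat_lit 17) (nat_lit 5) (nat_lit 20) (nat_lit 5) (nat_lit 18) (nat_lit 4) (nat_lit 373) (nat_lit 255) (nat_lit 152)) (XT.lf (nat_lit 0) (nat_lit 11054303425) (nat_lit 228) (nat_lit 13468310989) (nat_lit 76) (nat_lit 15108823804) (nat_lit 17) (nat_lit 5) (nat_lit 20) (nat_lit 5) (nat_lit 18) (nat_lit 4) (nat_lit 374) (nat_lit 255) (nat_lit 151))))) (XT.nd (nat_lit 234) (nat_lit 152) (nat_lit 0) (XT.nd (nat_lit 78) (nat_lit 76) (nat_lit 0) (XT.lf (nat_lit 0) (nat_lit 16092516002) (nat_lit 228)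 (nat_lit 3291434684) (nat_lit 76) (nat_lit 21260534751) (nat_lit 17) (nat_lit 5) (nat_lit 20) (nat_lit 5) (nat_lit 18) (nat_lit 4) (nat_lit 375) (nat_lit 255) (nat_lit 150)) (XT.nd (nat_lit 78) (nat_lit 0) (nat_lit 0) (XT.lf (nat_lit 0) (nat_lit 7307637608) (nat_lit 76) (nat_lit 14030341920) (nat_lit 152) (nat_lit 20348265788) (nat_lit 16) (nat_lit 5) (nat_lit 17) (nat_lit 5) (nat_lit 18) (nat_lit 4) (nat_lit 376) (nat_lit 255) (nat_lit 149)) (XT.lf (nat_lit 0) (nat_lit 18266696669) (nat_lit 76) (nat_lit 8493373585) (nat_lit 152) (nat_lit 15998614091) (nat_lit 16) (nat_lit 5) (nat_lit 17) (nat_lit 5) (nat_lit 18) (nat_lit 4) (nat_lit 377) (nat_lit 255) (nat_lit 148)))) (XT.nd (nat_lit 156) (nat_lit 152) (nat_lit 0) (XT.nd (nat_lit 78) (nat_lit 0) (nat_lit 0) (XT.lf (nat_lit 0) (nat_lit 29529812371) (nat_lit 76) (nat_lit 2801444590) (nat_lit 152) (nat_lit 11532450717) (nat_lit 16) (nat_lit 5) (nat_lit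 17) (nat_lit 5) (nat_lit 18) (nat_lit 4) (nat_lit 378) (nat_lit 255) (nat_lit 147)) (XT.lf (nat_lit 0) (nat_lit 38085730165) (nat_lit 152) (nat_lit 3924777088) (nat_lit 0) (nat_lit 2990893939) (nat_lit 16) (nat_lit 5) (nat_lit 18) (nat_lit 4) (nat_lit 16) (nat_lit 4) (nat_lit 379) (nat_lit 255) (nat_lit 146))) (XT.nd (nat_lit 78) (nat_lit 76) (nat_lit 0) (XT.lf (nat_lit 0) (nat_lit 6879539294) (nat_lit 76) (nat_lit 37214276718) (nat_lit 76) (nat_lit 2076984039) (nat_lit 15) (nat_lit 4) (nat_lit 16) (nat_lit 5) (nat_lit 16) (nat_lit 4) (nat_lit 380) (nat_lit 255) (nat_lit 145)) (XT.lf (nat_lit 0) (nat_lit 2877297278) (nat_lit 152) (nat_lit 29337599061) (nat_lit 76) (nat_lit 15158735216) (nat_lit 14) (nat_lit 5) (nat_lit 16) (nat_lit 5) (nat_lit 15) (nat_lit 4) (nat_lit 381) (nat_lit 255) (nat_lit 144))))))))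
noncomputable def xc92 : XT := (XT.nd (nat_lit 2106) (nat_lit 0) (nat_lit 0) (XT.nd (nat_lit 1014) (nat_lit 304) (nat_lit 0) (XT.nd (nat_lit 468) (nat_lit 152) (nat_lit 0) (XT.nd (nat_lit 234) (nat_lit 0) (nat_lit 0) (XT.nd (nat_lit 78) (nat_lit 76) (nat_lit 0) (XT.lf (nat_lit 0) (nat_lit 7925968649) (nat_lit 152) (nat_lit 19128815458) (nat_lit 76) (nat_lit 21557525325) (nat_lit 14) (nat_lit 5) (nat_lit 16) (nat_lit 5) (nat_lit 15) (nat_lit 4) (nat_lit 382) (nat_lit 255) (nat_lit 143)) (XT.nd (nat_lit 78) (nat_lit 76) (nat_lit 0) (XT.lf (nat_lit 0) (nat_lit 13113970972) (nat_lit 152) (nat_lit 8636024411) (nat_lit 76) (nat_lit 28138519596) (nat_lit 14) (nat_lit 5) (nat_lit 16) (nat_lit 5) (nat_lit 15) (nat_lit 4) (nat_lit 383) (nat_lit 255) (nat_lit 142)) (XT.lf (nat_lit 0) (nat_lit 2192730608) (nat_lit 76) (nat_lit 16274184713) (nat_lit 152) (nat_lit 32735815671) (nat_lit 13) (nat_lit 5) (nat_lit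 14) (nat_lit 5) (nat_lit 15) (nat_lit 4) (nat_lit 384) (nat_lit 255) (nat_lit 141)))) (XT.nd (nat_lit 78) (nat_lit 0) (nat_lit 0) (XT.lf (nat_lit 0) (nat_lit 13501982324) (nat_lit 76) (nat_lit 10554033995) (nat_lit 152) (nat_lit 28498093376) (nat_lit 13) (nat_lit 5) (nat_lit 14) (nat_lit 5) (nat_lit 15) (nat_lit 4) (nat_lit 385) (nat_lit 255) (nat_lit 140)) (XT.nd (nat_lit 78) (nat_lit 0) (nat_lit 0) (XT.lf (nat_lit 0) (nat_lit 25129738787) (nat_lit 76) (nat_lit 4671751953) (nat_lit 152) (nat_lit 24144881172) (nat_lit 13) (nat_lit 5) (nat_lit 14) (nat_lit 5) (nat_lit 15) (nat_lit 4) (nat_lit 386) (nat_lit 255) (nat_lit 139)) (XT.lf (nat_lit 0) (nat_lit 35721603171) (nat_lit 152) (nat_lit 18307818279) (nat_lit 0) (nat_lit 1350915405) (nat_lit 13) (nat_lit 5) (nat_lit 15) (nat_lit 4) (nat_lit 13) (nat_lit 4) (nat_lit 387) (nat_lit 255) (nat_lit 138))))) (XT.nd (nat_lit 234) (nat_lit 76) (nat_lit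 0) (XT.nd (nat_lit 78) (nat_lit 76) (nat_lit 0) (XT.lf (nat_lit 0) (nat_lit 41854837146) (nat_lit 152) (nat_lit 7549810995) (nat_lit 0) (nat_lit 7451610044) (nat_lit 13) (nat_lit 5) (nat_lit 15) (nat_lit 4) (nat_lit 13) (nat_lit 4) (nat_lit 388) (nat_lit 255) (nat_lit 137)) (XT.nd (nat_lit 78) (nat_lit 0) (nat_lit 0) (XT.lf (nat_lit 0) (nat_lit 3581586314) (nat_lit 76) (nat_lit 44614486149) (nat_lit 76) (nat_lit 10179667457) (nat_lit 12) (nat_lit 4) (nat_lit 13) (nat_lit 5) (nat_lit 13) (nat_lit 4) (nat_lit 389) (nat_lit 255) (nat_lit 136)) (XT.lf (nat_lit 0) (nat_lit 15182638051) (nat_lit 76) (nat_lit 39610841483) (nat_lit 76) (nat_lit 5145351346) (nat_lit 12) (nat_lit 4) (nat_lit 13) (nat_lit 5) (nat_lit 13) (nat_lit 4) (nat_lit 390) (nat_lit 255) (nat_lit 135)))) (XT.nd (nat_lit 156) (nat_lit 0) (nat_lit 0) (XT.nd (nat_lit 78) (nat_lit 0) (nat_lit 0) (XT.lf (nat_lit 0) (nat_lit 29108606) (nat_lit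 152) (nat_lit 34436177767) (nat_lit 76) (nat_lit 27083822467) (nat_lit 11) (nat_lit 5) (nat_lit 13) (nat_lit 5) (nat_lit 12) (nat_lit 4) (nat_lit 391) (nat_lit 255) (nat_lit 134)) (XT.lf (nat_lit 0) (nat_lit 5245575006) (nat_lit 152) (nat_lit 23875661754) (nat_lit 76) (nat_lit 34085226957) (nat_lit 11) (nat_lit 5) (nat_lit 13) (nat_lit 5) (nat_lit 12) (nat_lit 4) (nat_lit 392) (nat_lit 255) (nat_lit 133))) (XT.nd (nat_lit 78) (nat_lit 0) (nat_lit 0) (XT.lf (nat_lit 0) (nat_lit 10609010268) (nat_lit 152) (nat_lit 13015956890) (nat_lit 76) (nat_lit 41288860336) (nat_lit 11) (nat_lit 5) (nat_lit 13) (nat_lit 5) (nat_lit 12) (nat_lit 4) (nat_lit 393) (nat_lit 255) (nat_lit 132)) (XT.lf (nat_lit 0) (nat_lit 16124100890) (nat_lit 152) (nat_lit 1847574111) (nat_lit 76) (nat_lit 48701017039) (nat_lit 11) (nat_lit 5) (nat_lit 13) (nat_lit 5) (nat_lit 12) (nat_lit 4) (nat_lit 394) (nat_lit 255) (nat_lit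 131)))))) (XT.nd (nat_lit 546) (nat_lit 152) (nat_lit 0) (XT.nd (nat_lit 234) (nat_lit 76) (nat_lit 0) (XT.nd (nat_lit 78) (nat_lit 0) (nat_lit 0) (XT.lf (nat_lit 0) (nat_lit 9831085245) (nat_lit 76) (nat_lit 12059083041) (nat_lit 152) (nat_lit 46591590869) (nat_lit 10) (nat_lit 5) (nat_lit 11) (nat_lit 5) (nat_lit 12) (nat_lit 4) (nat_lit 395) (nat_lit 255) (nat_lit 130)) (XT.nd (nat_lit 78) (nat_lit 0) (nat_lit 0) (XT.lf (nat_lit 0) (nat_lit 21881525943) (nat_lit 76) (nat_lit 5957473649) (nat_lit 152) (nat_lit 42505807522) (nat_lit 10) (nat_lit 5) (nat_lit 11) (nat_lit 5) (nat_lit 12) (nat_lit 4) (nat_lit 396) (nat_lit 255) (nat_lit 129)) (XT.lf (nat_lit 0) (nat_lit 33960753723) (nat_lit 152) (nat_lit 37989574461) (nat_lit 0) (nat_lit 313586809) (nat_lit 10) (nat_lit 5) (nat_lit 12) (nat_lit 4) (nat_lit 10) (nat_lit 4) (nat_lit 397) (nat_lit 255) (nat_lit 128)))) (XT.nd (nat_lit 156) (nat_lit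 76) (nat_lit 0) (XT.nd (nat_lit 78) (nat_lit 0) (nat_lit 0) (XT.lf (nat_lit 0) (nat_lit 40316711185) (nat_lit 152) (nat_lit 27276333397) (nat_lit 0) (nat_lit 6646037162) (nat_lit 10) (nat_lit 5) (nat_lit 12) (nat_lit 4) (nat_lit 10) (nat_lit 4) (nat_lit 398) (nat_lit 255) (nat_lit 127)) (XT.lf (nat_lit 0) (nat_lit 46855158845) (nat_lit 152) (nat_lit 16256930014) (nat_lit 0) (nat_lit 13161662386) (nat_lit 10) (nat_lit 5) (nat_lit 12) (nat_lit 4) (nat_lit 10) (nat_lit 4) (nat_lit 399) (nat_lit 255) (nat_lit 126))) (XT.nd (nat_lit 78) (nat_lit 76) (nat_lit 0) (XT.lf (nat_lit 0) (nat_lit 53581809910) (nat_lit 152) (nat_lit 4921735707) (nat_lit 0) (nat_lit 19866155747) (nat_lit 10) (nat_lit 5) (nat_lit 12) (nat_lit 4) (nat_lit 10) (nat_lit 4) (nat_lit 400) (nat_lit 255) (nat_lit 125)) (XT.lf (nat_lit 0) (nat_lit 6873276443) (nat_lit 76) (nat_lit 53695335732) (nat_lit 76) (nat_lit 19958169233) (nat_lit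 9) (nat_lit 4) (nat_lit 10) (nat_lit 5) (nat_lit 10) (nat_lit 4) (nat_lit 401) (nat_lit 255) (nat_lit 124))))) (XT.nd (nat_lit 234) (nat_lit 152) (nat_lit 0) (XT.nd (nat_lit 78) (nat_lit 0) (nat_lit 0) (XT.lf (nat_lit 0) (nat_lit 19108810136) (nat_lit 76) (nat_lit 48698277903) (nat_lit 76) (nat_lit 14940225643) (nat_lit 9) (nat_lit 4) (nat_lit 10) (nat_lit 5) (nat_lit 10) (nat_lit 4) (nat_lit 402) (nat_lit 255) (nat_lit 123)) (XT.nd (nat_lit 78) (nat_lit 0) (nat_lit 0) (XT.lf (nat_lit 0) (nat_lit 31697604425) (nat_lit 76) (nat_lit 43557705650) (nat_lit 76) (nat_lit 9779375951) (nat_lit 9) (nat_lit 4) (nat_lit 10) (nat_lit 5) (nat_lit 10) (nat_lit 4) (nat_lit 403) (nat_lit 255) (nat_lit 122)) (XT.lf (nat_lit 0) (nat_lit 44650659226) (nat_lit 76) (nat_lit 38269127212) (nat_lit 76) (nat_lit 4471110679) (nat_lit 9) (nat_lit 4) (nat_lit 10) (nat_lit 5) (nat_lit 10) (nat_lit 4) (nat_lit 404) (nat_lit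 255) (nat_lit 121)))) (XT.nd (nat_lit 156) (nat_lit 76) (nat_lit 0) (XT.nd (nat_lit 78) (nat_lit 0) (nat_lit 0) (XT.lf (nat_lit 0) (nat_lit 969905443) (nat_lit 152) (nat_lit 31848221912) (nat_lit 76) (nat_lit 56999593155) (nat_lit 8) (nat_lit 5) (nat_lit 10) (nat_lit 5) (nat_lit 9) (nat_lit 4) (nat_lit 405) (nat_lit 255) (nat_lit 120)) (XT.lf (nat_lit 0) (nat_lit 6477438896) (nat_lit 152) (nat_lit 20686485732) (nat_lit 76) (nat_lit 65152303025) (nat_lit 8) (nat_lit 5) (nat_lit 10) (nat_lit 5) (nat_lit 9) (nat_lit 4) (nat_lit 406) (nat_lit 255) (nat_lit 119))) (XT.nd (nat_lit 78) (nat_lit 76) (nat_lit 0) (XT.lf (nat_lit 0) (nat_lit 12143549559) (nat_lit 152) (nat_lit 9202297328) (nat_lit 76) (nat_lit 73544044190) (nat_lit 8) (nat_lit 5) (nat_lit 10) (nat_lit 5) (nat_lit 9) (nat_lit 4) (nat_lit 407) (nat_lit 255) (nat_lit 118)) (XT.lf (nat_lit 0) (nat_lit 2666409277) (nat_lit 76) (nat_lit 15332410283)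 (nat_lit 152) (nat_lit 79541371120) (nat_lit 7) (nat_lit 5) (nat_lit 8) (nat_lit 5) (nat_lit 9) (nat_lit 4) (nat_lit 408) (nat_lit 255) (nat_lit 117))))))) (XT.nd (nat_lit 30576) (nat_lit 0) (nat_lit 12084) (XT.nd (nat_lit 30030) (nat_lit 0) (nat_lit 19228) (XT.nd (nat_lit 29718) (nat_lit 0) (nat_lit 22040) (XT.nd (nat_lit 78) (nat_lit 0) (nat_lit 0) (XT.lf (nat_lit 0) (nat_lit 15067894481) (nat_lit 76) (nat_lit 9048396625) (nat_lit 152) (nat_lit 76151113373) (nat_lit 7) (nat_lit 5) (nat_lit 8) (nat_lit 5) (nat_lit 9) (nat_lit 4) (nat_lit 409) (nat_lit 255) (nat_lit 116)) (XT.nd (nat_lit 29562) (nat_lit 0) (nat_lit 22952) (XT.lf (nat_lit 0) (nat_lit 27829850772) (nat_lit 76) (nat_lit 2581240189) (nat_lit 152) (nat_lit 72665531074) (nat_lit 7) (nat_lit 5) (nat_lit 8) (nat_lit 5) (nat_lit 9) (nat_lit 4) (nat_lit 410) (nat_lit 255) (nat_lit 115)) (XT.lf (nat_lit 0) (nat_lit 61097409) (nat_lit 380)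 (nat_lit 3134590734) (nat_lit 0) (nat_lit 61097409) (nat_lit 309) (nat_lit 5) (nat_lit 314) (nat_lit 4) (nat_lit 309) (nat_lit 4) (nat_lit 268) (nat_lit 256) (nat_lit 256)))) (XT.nd (nat_lit 156) (nat_lit 532) (nat_lit 0) (XT.nd (nat_lit 78) (nat_lit 380) (nat_lit 0) (XT.lf (nat_lit 0) (nat_lit 3126975635) (nat_lit 380) (nat_lit 2714317042) (nat_lit 0) (nat_lit 691165124) (nat_lit 309) (nat_lit 5) (nat_lit 314) (nat_lit 4) (nat_lit 309) (nat_lit 4) (nat_lit 269) (nat_lit 256) (nat_lit 255)) (XT.lf (nat_lit 0) (nat_lit 892282790) (nat_lit 380) (nat_lit 5231728429) (nat_lit 380) (nat_lit 431053343) (nat_lit 304) (nat_lit 4) (nat_lit 309) (nat_lit 5) (nat_lit 309) (nat_lit 4) (nat_lit 270) (nat_lit 256) (nat_lit 254))) (XT.nd (nat_lit 78) (nat_lit 456) (nat_lit 0) (XT.lf (nat_lit 0) (nat_lit 2503627450) (nat_lit 456) (nat_lit 2014296383) (nat_lit 76) (nat_lit 2062199142) (nat_lit 303) (nat_lit 5)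 (nat_lit 309) (nat_lit 5) (nat_lit 304) (nat_lit 4) (nat_lit 271) (nat_lit 256) (nat_lit 253)) (XT.lf (nat_lit 0) (nat_lit 1700804367) (nat_lit 456) (nat_lit 3731006543) (nat_lit 532) (nat_lit 1176768822) (nat_lit 297) (nat_lit 5) (nat_lit 303) (nat_lit 5) (nat_lit 304) (nat_lit 4) (nat_lit 272) (nat_lit 256) (nat_lit 252))))) (XT.nd (nat_lit 234) (nat_lit 2128) (nat_lit 0) (XT.nd (nat_lit 78) (nat_lit 608) (nat_lit 0) (XT.lf (nat_lit 0) (nat_lit 1694065763) (nat_lit 532) (nat_lit 1159486354) (nat_lit 76) (nat_lit 3786420100) (nat_lit 296) (nat_lit 5) (nat_lit 303) (nat_lit 5) (nat_lit 297) (nat_lit 5) (nat_lit 273) (nat_lit 256) (nat_lit 251)) (XT.nd (nat_lit 78) (nat_lit 76) (nat_lit 0) (XT.lf (nat_lit 0) (nat_lit 2670590780) (nat_lit 532) (nat_lit 1884291823) (nat_lit 608) (nat_lit 2119430636) (nat_lit 289) (nat_lit 5) (nat_lit 296) (nat_lit 5) (nat_lit 297) (nat_lit 5) (nat_lit 274) (nat_lit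 256) (nat_lit 250)) (XT.lf (nat_lit 0) (nat_lit 691109021) (nat_lit 608) (nat_lit 150250877) (nat_lit 76) (nat_lit 5870825757) (nat_lit 288) (nat_lit 5) (nat_lit 296) (nat_lit 5) (nat_lit 289) (nat_lit 5) (nat_lit 275) (nat_lit 256) (nat_lit 249)))) (XT.nd (nat_lit 156) (nat_lit 836) (nat_lit 0) (XT.nd (nat_lit 78) (nat_lit 684) (nat_lit 0) (XT.lf (nat_lit 0) (nat_lit 3488672096) (nat_lit 684) (nat_lit 2953892845) (nat_lit 76) (nat_lit 309806758) (nat_lit 280) (nat_lit 5) (nat_lit 289) (nat_lit 5) (nat_lit 281) (nat_lit 5) (nat_lit 276) (nat_lit 256) (nat_lit 248)) (XT.lf (nat_lit 0) (nat_lit 1013597149) (nat_lit 684) (nat_lit 5284187434) (nat_lit 760) (nat_lit 498311390) (nat_lit 271) (nat_lit 5) (nat_lit 280) (nat_lit 5) (nat_lit 281) (nat_lit 5) (nat_lit 277) (nat_lit 256) (nat_lit 247))) (XT.nd (nat_lit 78) (nat_lit 760) (nat_lit 0) (XT.lf (nat_lit 0) (nat_lit 2243262153) (nat_lit 760) (nat_lit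 1776577419) (nat_lit 76) (nat_lit 2822594324) (nat_lit 270) (nat_lit 5) (nat_lit 280) (nat_lit 5) (nat_lit 271) (nat_lit 5) (nat_lit 278) (nat_lit 256) (nat_lit 246)) (XT.lf (nat_lit 0) (nat_lit 2317857692) (nat_lit 760) (nat_lit 2673099577) (nat_lit 836) (nat_lit 1901187609) (nat_lit 260) (nat_lit 5) (nat_lit 270) (nat_lit 5) (nat_lit 271) (nat_lit 5) (nat_lit 279) (nat_lit 256) (nat_lit 245)))))) (XT.nd (nat_lit 546) (nat_lit 3116) (nat_lit 0) (XT.nd (nat_lit 234) (nat_lit 2204) (nat_lit 0) (XT.nd (nat_lit 78) (nat_lit 1748) (nat_lit 0) (XT.lf (nat_lit 0) (nat_lit 791227654) (nat_lit 836) (nat_lit 453014966) (nat_lit 76) (nat_lit 5701072027) (nat_lit 259) (nat_lit 5) (nat_lit 270) (nat_lit 5) (nat_lit 260) (nat_lit 5) (nat_lit 280) (nat_lit 256) (nat_lit 244)) (XT.nd (nat_lit 78) (nat_lit 912) (nat_lit 0) (XT.lf (nat_lit 0) (nat_lit 3480414930) (nat_lit 912) (nat_lit 3228230655) (nat_lit 76)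 (nat_lit 292377974) (nat_lit 248) (nat_lit 5) (nat_lit 260) (nat_lit 5) (nat_lit 249) (nat_lit 5) (nat_lit 281) (nat_lit 256) (nat_lit 243)) (XT.lf (nat_lit 0) (nat_lit 1010694786) (nat_lit 912) (nat_lit 5183209725) (nat_lit 988) (nat_lit 866321597) (nat_lit 236) (nat_lit 5) (nat_lit 248) (nat_lit 5) (nat_lit 249) (nat_lit 5) (nat_lit 282) (nat_lit 256) (nat_lit 242)))) (XT.nd (nat_lit 156) (nat_lit 1140) (nat_lit 0) (XT.nd (nat_lit 78) (nat_lit 988) (nat_lit 0) (XT.lf (nat_lit 0) (nat_lit 1781837329) (nat_lit 988) (nat_lit 1769640309) (nat_lit 76) (nat_lit 3570791560) (nat_lit 235) (nat_lit 5) (nat_lit 248) (nat_lit 5) (nat_lit 236) (nat_lit 5) (nat_lit 283) (nat_lit 256) (nat_lit 241)) (XT.lf (nat_lit 0) (nat_lit 2609038154) (nat_lit 988) (nat_lit 1828230732) (nat_lit 1064) (nat_lit 2750410207) (nat_lit 222) (nat_lit 5) (nat_lit 235) (nat_lit 5) (nat_lit 236) (nat_lit 5) (nat_lit 284) (nat_lit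 256) (nat_lit 240))) (XT.nd (nat_lit 78) (nat_lit 1140) (nat_lit 0) (XT.lf (nat_lit 0) (nat_lit 7084114623) (nat_lit 988) (nat_lit 27919704) (nat_lit 1064) (nat_lit 144943375) (nat_lit 222) (nat_lit 5) (nat_lit 235) (nat_lit 5) (nat_lit 236) (nat_lit 5) (nat_lit 285) (nat_lit 256) (nat_lit 239)) (XT.lf (nat_lit 0) (nat_lit 2472496246) (nat_lit 1140) (nat_lit 2992188363) (nat_lit 76) (nat_lit 1863547979) (nat_lit 207) (nat_lit 5) (nat_lit 222) (nat_lit 5) (nat_lit 208) (nat_lit 5) (nat_lit 286) (nat_lit 256) (nat_lit 238))))) (XT.nd (nat_lit 234) (nat_lit 1216) (nat_lit 0) (XT.nd (nat_lit 78) (nat_lit 760) (nat_lit 0) (XT.lf (nat_lit 0) (nat_lit 1537952033) (nat_lit 1140) (nat_lit 3569244549) (nat_lit 1216) (nat_lit 2296242616) (nat_lit 192) (nat_lit 5) (nat_lit 207) (nat_lit 5) (nat_lit 208) (nat_lit 5) (nat_lit 287) (nat_lit 256) (nat_lit 237)) (XT.nd (nat_lit 78) (nat_lit 684) (nat_lit 0) (XT.lf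 (nat_lit 0) (nat_lit 289410957) (nat_lit 1216) (nat_lit 1291621778) (nat_lit 76) (nat_lit 5901191433) (nat_lit 191) (nat_lit 5) (nat_lit 207) (nat_lit 5) (nat_lit 192) (nat_lit 5) (nat_lit 288) (nat_lit 256) (nat_lit 236)) (XT.lf (nat_lit 0) (nat_lit 2871796260) (nat_lit 760) (nat_lit 4177372368) (nat_lit 76) (nat_lit 514660181) (nat_lit 182) (nat_lit 5) (nat_lit 192) (nat_lit 5) (nat_lit 183) (nat_lit 5) (nat_lit 289) (nat_lit 256) (nat_lit 235)))) (XT.nd (nat_lit 156) (nat_lit 532) (nat_lit 0) (XT.nd (nat_lit 78) (nat_lit 76) (nat_lit 0) (XT.lf (nat_lit 0) (nat_lit 505157109) (nat_lit 608) (nat_lit 4989275603) (nat_lit 684) (nat_lit 2154660249) (nat_lit 174) (nat_lit 5) (nat_lit 182) (nat_lit 5) (nat_lit 183) (nat_lit 5) (nat_lit 290) (nat_lit 256) (nat_lit 234)) (XT.lf (nat_lit 0) (nat_lit 422172329) (nat_lit 684) (nat_lit 2400239410) (nat_lit 76) (nat_lit 4915291524) (nat_lit 173) (nat_lit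 5) (nat_lit 182) (nat_lit 5) (nat_lit 174) (nat_lit 5) (nat_lit 291) (nat_lit 256) (nat_lit 233))) (XT.nd (nat_lit 78) (nat_lit 0) (nat_lit 0) (XT.lf (nat_lit 0) (nat_lit 2440646739) (nat_lit 532) (nat_lit 547557084) (nat_lit 608) (nat_lit 4841558758) (nat_lit 166) (nat_lit 5) (nat_lit 173) (nat_lit 5) (nat_lit 174) (nat_lit 5) (nat_lit 292) (nat_lit 256) (nat_lit 232)) (XT.lf (nat_lit 0) (nat_lit 5605965569) (nat_lit 608) (nat_lit 538164545) (nat_lit 76) (nat_lit 1781295278) (nat_lit 166) (nat_lit 5) (nat_lit 174) (nat_lit 5) (nat_lit 167) (nat_lit 5) (nat_lit 293) (nat_lit 256) (nat_lit 231))))))))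
noncomputable def xc93 : XT := (XT.nd (nat_lit 2184) (nat_lit 3040) (nat_lit 0) (XT.nd (nat_lit 1092) (nat_lit 2736) (nat_lit 0) (XT.nd (nat_lit 546) (nat_lit 1748) (nat_lit 0) (XT.nd (nat_lit 234) (nat_lit 1520) (nat_lit 0) (XT.nd (nat_lit 78) (nat_lit 456) (nat_lit 0) (XT.lf (nat_lit 0) (nat_lit 255973776) (nat_lit 608) (nat_lit 3557590457) (nat_lit 76) (nat_lit 4210899888) (nat_lit 158) (nat_lit 5) (nat_lit 166) (nat_lit 5) (nat_lit 159) (nat_lit 5) (nat_lit 294) (nat_lit 256) (nat_lit 230)) (XT.nd (nat_lit 78) (nat_lit 0) (nat_lit 0) (XT.lf (nat_lit 0) (nat_lit 1440556337) (nat_lit 456) (nat_lit 1376305953) (nat_lit 532) (nat_lit 5310355499) (nat_lit 152) (nat_lit 5) (nat_lit 158) (nat_lit 5) (nat_lit 159) (nat_lit 5) (nat_lit 295) (nat_lit 256) (nat_lit 229)) (XT.lf (nat_lit 0) (nat_lit 5438364640) (nat_lit 532) (nat_lit 1654183177) (nat_lit 76) (nat_lit 1141067439) (nat_lit 152) (nat_lit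 5) (nat_lit 159) (nat_lit 5) (nat_lit 153) (nat_lit 5) (nat_lit 296) (nat_lit 256) (nat_lit 228)))) (XT.nd (nat_lit 156) (nat_lit 456) (nat_lit 0) (XT.nd (nat_lit 78) (nat_lit 532) (nat_lit 0) (XT.lf (nat_lit 0) (nat_lit 3513797422) (nat_lit 532) (nat_lit 4610570069) (nat_lit 608) (nat_lit 219334120) (nat_lit 145) (nat_lit 5) (nat_lit 152) (nat_lit 5) (nat_lit 153) (nat_lit 5) (nat_lit 297) (nat_lit 256) (nat_lit 227)) (XT.lf (nat_lit 0) (nat_lit 325929980) (nat_lit 456) (nat_lit 2019345867) (nat_lit 532) (nat_lit 6112414013) (nat_lit 138) (nat_lit 5) (nat_lit 144) (nat_lit 5) (nat_lit 145) (nat_lit 5) (nat_lit 298) (nat_lit 256) (nat_lit 226))) (XT.nd (nat_lit 78) (nat_lit 456) (nat_lit 0) (XT.lf (nat_lit 0) (nat_lit 4977826930) (nat_lit 532) (nat_lit 2919163018) (nat_lit 76) (nat_lit 678246785) (nat_lit 138) (nat_lit 5) (nat_lit 145) (nat_lit 5) (nat_lit 139) (nat_lit 5) (nat_lit 299) (nat_lit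 256) (nat_lit 225)) (XT.lf (nat_lit 0) (nat_lit 2406806115) (nat_lit 456) (nat_lit 5267339064) (nat_lit 532) (nat_lit 1022685644) (nat_lit 132) (nat_lit 5) (nat_lit 138) (nat_lit 5) (nat_lit 139) (nat_lit 5) (nat_lit 300) (nat_lit 256) (nat_lit 224))))) (XT.nd (nat_lit 234) (nat_lit 836) (nat_lit 0) (XT.nd (nat_lit 78) (nat_lit 836) (nat_lit 0) (XT.lf (nat_lit 0) (nat_lit 1569322515) (nat_lit 532) (nat_lit 955252937) (nat_lit 76) (nat_lit 6297933194) (nat_lit 131) (nat_lit 5) (nat_lit 138) (nat_lit 5) (nat_lit 132) (nat_lit 5) (nat_lit 301) (nat_lit 256) (nat_lit 223)) (XT.nd (nat_lit 78) (nat_lit 456) (nat_lit 0) (XT.lf (nat_lit 0) (nat_lit 4209328486) (nat_lit 456) (nat_lit 4405624765) (nat_lit 76) (nat_lit 337035060) (nat_lit 126) (nat_lit 5) (nat_lit 132) (nat_lit 5) (nat_lit 127) (nat_lit 5) (nat_lit 302) (nat_lit 256) (nat_lit 222)) (XT.lf (nat_lit 0) (nat_lit 1074038882) (nat_lit 456) (nat_lit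 5844177037) (nat_lit 532) (nat_lit 2167503339) (nat_lit 120) (nat_lit 5) (nat_lit 126) (nat_lit 5) (nat_lit 127) (nat_lit 5) (nat_lit 303) (nat_lit 256) (nat_lit 221)))) (XT.nd (nat_lit 156) (nat_lit 380) (nat_lit 0) (XT.nd (nat_lit 78) (nat_lit 380) (nat_lit 0) (XT.lf (nat_lit 0) (nat_lit 465352889) (nat_lit 532) (nat_lit 2488670164) (nat_lit 76) (nat_lit 6269656065) (nat_lit 119) (nat_lit 5) (nat_lit 126) (nat_lit 5) (nat_lit 120) (nat_lit 5) (nat_lit 304) (nat_lit 256) (nat_lit 220)) (XT.lf (nat_lit 0) (nat_lit 3111304647) (nat_lit 456) (nat_lit 6193799614) (nat_lit 76) (nat_lit 60751931) (nat_lit 114) (nat_lit 5) (nat_lit 120) (nat_lit 5) (nat_lit 115) (nat_lit 5) (nat_lit 305) (nat_lit 256) (nat_lit 219))) (XT.nd (nat_lit 78) (nat_lit 380) (nat_lit 0) (XT.lf (nat_lit 0) (nat_lit 5838613223) (nat_lit 456) (nat_lit 556051581) (nat_lit 76) (nat_lit 3117625365) (nat_lit 114) (nat_lit 5) (nat_lit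 120) (nat_lit 5) (nat_lit 115) (nat_lit 5) (nat_lit 306) (nat_lit 256) (nat_lit 218)) (XT.lf (nat_lit 0) (nat_lit 5287372761) (nat_lit 380) (nat_lit 3360078228) (nat_lit 456) (nat_lit 1015724332) (nat_lit 109) (nat_lit 5) (nat_lit 114) (nat_lit 5) (nat_lit 115) (nat_lit 5) (nat_lit 307) (nat_lit 256) (nat_lit 217)))))) (XT.nd (nat_lit 546) (nat_lit 1292) (nat_lit 0) (XT.nd (nat_lit 234) (nat_lit 684) (nat_lit 0) (XT.nd (nat_lit 78) (nat_lit 380) (nat_lit 0) (XT.lf (nat_lit 0) (nat_lit 1443605197) (nat_lit 304) (nat_lit 213501663) (nat_lit 380) (nat_lit 8161967952) (nat_lit 104) (nat_lit 5) (nat_lit 108) (nat_lit 5) (nat_lit 109) (nat_lit 5) (nat_lit 308) (nat_lit 256) (nat_lit 216)) (XT.nd (nat_lit 78) (nat_lit 380) (nat_lit 0) (XT.lf (nat_lit 0) (nat_lit 4413312616) (nat_lit 380) (nat_lit 2558392394) (nat_lit 76) (nat_lit 3006981695) (nat_lit 104) (nat_lit 5) (nat_lit 109) (nat_lit 5) (nat_lit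 105) (nat_lit 5) (nat_lit 309) (nat_lit 256) (nat_lit 215)) (XT.lf (nat_lit 0) (nat_lit 3432267437) (nat_lit 380) (nat_lit 3806382140) (nat_lit 456) (nat_lit 2904887968) (nat_lit 99) (nat_lit 5) (nat_lit 104) (nat_lit 5) (nat_lit 105) (nat_lit 5) (nat_lit 310) (nat_lit 256) (nat_lit 214)))) (XT.nd (nat_lit 156) (nat_lit 304) (nat_lit 0) (XT.nd (nat_lit 78) (nat_lit 380) (nat_lit 0) (XT.lf (nat_lit 0) (nat_lit 9589944889) (nat_lit 380) (nat_lit 536765712) (nat_lit 456) (nat_lit 187327049) (nat_lit 99) (nat_lit 5) (nat_lit 104) (nat_lit 5) (nat_lit 105) (nat_lit 5) (nat_lit 311) (nat_lit 256) (nat_lit 213)) (XT.lf (nat_lit 0) (nat_lit 2594117730) (nat_lit 380) (nat_lit 5056677509) (nat_lit 76) (nat_lit 2837144899) (nat_lit 94) (nat_lit 5) (nat_lit 99) (nat_lit 5) (nat_lit 95) (nat_lit 5) (nat_lit 312) (nat_lit 256) (nat_lit 212))) (XT.nd (nat_lit 78) (nat_lit 0) (nat_lit 0) (XT.lf (nat_lit 0) (nat_lit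 1068027595) (nat_lit 304) (nat_lit 4363791203) (nat_lit 380) (nat_lit 5235926960) (nat_lit 90) (nat_lit 5) (nat_lit 94) (nat_lit 5) (nat_lit 95) (nat_lit 5) (nat_lit 313) (nat_lit 256) (nat_lit 211)) (XT.lf (nat_lit 0) (nat_lit 7415913232) (nat_lit 304) (nat_lit 944146658) (nat_lit 380) (nat_lit 2492761289) (nat_lit 90) (nat_lit 5) (nat_lit 94) (nat_lit 5) (nat_lit 95) (nat_lit 5) (nat_lit 314) (nat_lit 256) (nat_lit 210))))) (XT.nd (nat_lit 234) (nat_lit 608) (nat_lit 0) (XT.nd (nat_lit 78) (nat_lit 304) (nat_lit 0) (XT.lf (nat_lit 0) (nat_lit 334206176) (nat_lit 380) (nat_lit 8167886917) (nat_lit 76) (nat_lit 2541055584) (nat_lit 85) (nat_lit 5) (nat_lit 90) (nat_lit 5) (nat_lit 86) (nat_lit 5) (nat_lit 315) (nat_lit 256) (nat_lit 209)) (XT.nd (nat_lit 78) (nat_lit 304) (nat_lit 0) (XT.lf (nat_lit 0) (nat_lit 3196003681) (nat_lit 380) (nat_lit 1889100724) (nat_lit 76) (nat_lit 6153372167) (nat_lit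 85) (nat_lit 5) (nat_lit 90) (nat_lit 5) (nat_lit 86) (nat_lit 5) (nat_lit 316) (nat_lit 256) (nat_lit 208)) (XT.lf (nat_lit 0) (nat_lit 4605953729) (nat_lit 304) (nat_lit 1538991584) (nat_lit 380) (nat_lit 5294713961) (nat_lit 81) (nat_lit 5) (nat_lit 85) (nat_lit 5) (nat_lit 86) (nat_lit 5) (nat_lit 317) (nat_lit 256) (nat_lit 207)))) (XT.nd (nat_lit 156) (nat_lit 304) (nat_lit 0) (XT.nd (nat_lit 78) (nat_lit 304) (nat_lit 0) (XT.lf (nat_lit 0) (nat_lit 9179430578) (nat_lit 380) (nat_lit 394711622) (nat_lit 76) (nat_lit 2072855690) (nat_lit 81) (nat_lit 5) (nat_lit 86) (nat_lit 5) (nat_lit 82) (nat_lit 5) (nat_lit 318) (nat_lit 256) (nat_lit 206)) (XT.lf (nat_lit 0) (nat_lit 470408173) (nat_lit 304) (nat_lit 5579993299) (nat_lit 76) (nat_lit 5809017272) (nat_lit 77) (nat_lit 5) (nat_lit 81) (nat_lit 5) (nat_lit 78) (nat_lit 5) (nat_lit 319) (nat_lit 256) (nat_lit 205))) (XT.nd (nat_lit 78) (nat_lit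 0) (nat_lit 0) (XT.lf (nat_lit 0) (nat_lit 1018265903) (nat_lit 304) (nat_lit 2401398782) (nat_lit 380) (nat_lit 8658662397) (nat_lit 73) (nat_lit 5) (nat_lit 77) (nat_lit 5) (nat_lit 78) (nat_lit 5) (nat_lit 320) (nat_lit 256) (nat_lit 204)) (XT.lf (nat_lit 0) (nat_lit 6486698373) (nat_lit 380) (nat_lit 4448231060) (nat_lit 76) (nat_lit 1368023303) (nat_lit 73) (nat_lit 5) (nat_lit 78) (nat_lit 5) (nat_lit 74) (nat_lit 5) (nat_lit 321) (nat_lit 256) (nat_lit 203))))))) (XT.nd (nat_lit 1092) (nat_lit 1368) (nat_lit 0) (XT.nd (nat_lit 546) (nat_lit 608) (nat_lit 0) (XT.nd (nat_lit 234) (nat_lit 532) (nat_lit 0) (XT.nd (nat_lit 78) (nat_lit 304) (nat_lit 0) (XT.lf (nat_lit 0) (nat_lit 2323940601) (nat_lit 228) (nat_lit 7328451399) (nat_lit 304) (nat_lit 2881753895) (nat_lit 70) (nat_lit 5) (nat_lit 73) (nat_lit 5) (nat_lit 74) (nat_lit 5) (nat_lit 322) (nat_lit 256) (nat_lit 202)) (XT.nd (nat_lit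 78) (nat_lit 228) (nat_lit 0) (XT.lf (nat_lit 0) (nat_lit 144101655) (nat_lit 304) (nat_lit 3442073590) (nat_lit 76) (nat_lit 9185903571) (nat_lit 69) (nat_lit 5) (nat_lit 73) (nat_lit 5) (nat_lit 70) (nat_lit 5) (nat_lit 323) (nat_lit 256) (nat_lit 201)) (XT.lf (nat_lit 0) (nat_lit 3201416042) (nat_lit 304) (nat_lit 9508442187) (nat_lit 76) (nat_lit 306503234) (nat_lit 66) (nat_lit 5) (nat_lit 70) (nat_lit 5) (nat_lit 67) (nat_lit 5) (nat_lit 324) (nat_lit 256) (nat_lit 200)))) (XT.nd (nat_lit 156) (nat_lit 304) (nat_lit 0) (XT.nd (nat_lit 78) (nat_lit 228) (nat_lit 0) (XT.lf (nat_lit 0) (nat_lit 6383274644) (nat_lit 304) (nat_lit 2624269834) (nat_lit 76) (nat_lit 4259468425) (nat_lit 66) (nat_lit 5) (nat_lit 70) (nat_lit 5) (nat_lit 67) (nat_lit 5) (nat_lit 325) (nat_lit 256) (nat_lit 199)) (XT.lf (nat_lit 0) (nat_lit 4497431266) (nat_lit 228) (nat_lit 5169706073) (nat_lit 304) (nat_lit 3857874426)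 (nat_lit 63) (nat_lit 5) (nat_lit 66) (nat_lit 5) (nat_lit 67) (nat_lit 5) (nat_lit 326) (nat_lit 256) (nat_lit 198))) (XT.nd (nat_lit 78) (nat_lit 304) (nat_lit 0) (XT.lf (nat_lit 0) (nat_lit 11830377302) (nat_lit 228) (nat_lit 1209483087) (nat_lit 304) (nat_lit 751203490) (nat_lit 63) (nat_lit 5) (nat_lit 66) (nat_lit 5) (nat_lit 67) (nat_lit 5) (nat_lit 327) (nat_lit 256) (nat_lit 197)) (XT.lf (nat_lit 0) (nat_lit 2444914235) (nat_lit 304) (nat_lit 8748414092) (nat_lit 76) (nat_lit 2869764480) (nat_lit 59) (nat_lit 5) (nat_lit 63) (nat_lit 5) (nat_lit 60) (nat_lit 5) (nat_lit 328) (nat_lit 256) (nat_lit 196))))) (XT.nd (nat_lit 234) (nat_lit 456) (nat_lit 0) (XT.nd (nat_lit 78) (nat_lit 152) (nat_lit 0) (XT.lf (nat_lit 0) (nat_lit 5718631484) (nat_lit 304) (nat_lit 1569430967) (nat_lit 76) (nat_lit 7055114206) (nat_lit 59) (nat_lit 5) (nat_lit 63) (nat_lit 5) (nat_lit 60) (nat_lit 5) (nat_lit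 329) (nat_lit 256) (nat_lit 195)) (XT.nd (nat_lit 78) (nat_lit 0) (nat_lit 0) (XT.lf (nat_lit 0) (nat_lit 5885763724) (nat_lit 152) (nat_lit 3227242278) (nat_lit 228) (nat_lit 5518004633) (nat_lit 57) (nat_lit 5) (nat_lit 59) (nat_lit 5) (nat_lit 60) (nat_lit 5) (nat_lit 330) (nat_lit 256) (nat_lit 194)) (XT.lf (nat_lit 0) (nat_lit 12600558378) (nat_lit 228) (nat_lit 1393879141) (nat_lit 76) (nat_lit 933322089) (nat_lit 57) (nat_lit 5) (nat_lit 60) (nat_lit 5) (nat_lit 58) (nat_lit 5) (nat_lit 331) (nat_lit 256) (nat_lit 193)))) (XT.nd (nat_lit 156) (nat_lit 152) (nat_lit 0) (XT.nd (nat_lit 78) (nat_lit 0) (nat_lit 0) (XT.lf (nat_lit 0) (nat_lit 1000004320) (nat_lit 304) (nat_lit 9026861636) (nat_lit 76) (nat_lit 5204505712) (nat_lit 53) (nat_lit 5) (nat_lit 57) (nat_lit 5) (nat_lit 54) (nat_lit 5) (nat_lit 332) (nat_lit 256) (nat_lit 192)) (XT.lf (nat_lit 0) (nat_lit 4361725097) (nat_lit 304)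 (nat_lit 1560318008) (nat_lit 76) (nat_lit 9621932177) (nat_lit 53) (nat_lit 5) (nat_lit 57) (nat_lit 5) (nat_lit 54) (nat_lit 5) (nat_lit 333) (nat_lit 256) (nat_lit 191))) (XT.nd (nat_lit 78) (nat_lit 0) (nat_lit 0) (XT.lf (nat_lit 0) (nat_lit 6199852643) (nat_lit 152) (nat_lit 1652253953) (nat_lit 228) (nat_lit 8013034239) (nat_lit 51) (nat_lit 5) (nat_lit 53) (nat_lit 5) (nat_lit 54) (nat_lit 5) (nat_lit 334) (nat_lit 256) (nat_lit 190)) (XT.lf (nat_lit 0) (nat_lit 11457966348) (nat_lit 228) (nat_lit 2048821912) (nat_lit 76) (nat_lit 2688847666) (nat_lit 51) (nat_lit 5) (nat_lit 54) (nat_lit 5) (nat_lit 52) (nat_lit 5) (nat_lit 335) (nat_lit 256) (nat_lit 189)))))) (XT.nd (nat_lit 546) (nat_lit 532) (nat_lit 0) (XT.nd (nat_lit 234) (nat_lit 380) (nat_lit 0) (XT.nd (nat_lit 78) (nat_lit 228) (nat_lit 0) (XT.lf (nat_lit 0) (nat_lit 5843696426) (nat_lit 228) (nat_lit 9370218170) (nat_lit 304)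 (nat_lit 1320890954) (nat_lit 48) (nat_lit 5) (nat_lit 51) (nat_lit 5) (nat_lit 52) (nat_lit 5) (nat_lit 336) (nat_lit 256) (nat_lit 188)) (XT.nd (nat_lit 78) (nat_lit 152) (nat_lit 0) (XT.lf (nat_lit 0) (nat_lit 2145866518) (nat_lit 304) (nat_lit 2940124274) (nat_lit 76) (nat_lit 11797830369) (nat_lit 47) (nat_lit 5) (nat_lit 51) (nat_lit 5) (nat_lit 48) (nat_lit 5) (nat_lit 337) (nat_lit 256) (nat_lit 187)) (XT.lf (nat_lit 0) (nat_lit 5080670966) (nat_lit 152) (nat_lit 628614687) (nat_lit 228) (nat_lit 11533068631) (nat_lit 45) (nat_lit 5) (nat_lit 47) (nat_lit 5) (nat_lit 48) (nat_lit 5) (nat_lit 338) (nat_lit 256) (nat_lit 186)))) (XT.nd (nat_lit 156) (nat_lit 228) (nat_lit 0) (XT.nd (nat_lit 78) (nat_lit 152) (nat_lit 0) (XT.lf (nat_lit 0) (nat_lit 9418264999) (nat_lit 228) (nat_lit 4295790493) (nat_lit 76) (nat_lit 3896443339) (nat_lit 45) (nat_lit 5) (nat_lit 48) (nat_lit 5) (nat_lit 46)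 (nat_lit 5) (nat_lit 339) (nat_lit 256) (nat_lit 185)) (XT.lf (nat_lit 0) (nat_lit 3826946562) (nat_lit 152) (nat_lit 9426019173) (nat_lit 228) (nat_lit 4736303140) (nat_lit 43) (nat_lit 5) (nat_lit 45) (nat_lit 5) (nat_lit 46) (nat_lit 5) (nat_lit 340) (nat_lit 256) (nat_lit 184))) (XT.nd (nat_lit 78) (nat_lit 228) (nat_lit 0) (XT.lf (nat_lit 0) (nat_lit 12234305595) (nat_lit 152) (nat_lit 4983600976) (nat_lit 228) (nat_lit 1161053766) (nat_lit 43) (nat_lit 5) (nat_lit 45) (nat_lit 5) (nat_lit 46) (nat_lit 5) (nat_lit 341) (nat_lit 256) (nat_lit 183)) (XT.lf (nat_lit 0) (nat_lit 2083653852) (nat_lit 152) (nat_lit 380982267) (nat_lit 228) (nat_lit 16315221193) (nat_lit 40) (nat_lit 5) (nat_lit 42) (nat_lit 5) (nat_lit 43) (nat_lit 5) (nat_lit 342) (nat_lit 256) (nat_lit 182))))) (XT.nd (nat_lit 234) (nat_lit 380) (nat_lit 0) (XT.nd (nat_lit 78) (nat_lit 152) (nat_lit 0) (XT.lf (nat_lit 0) (nat_lit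 6252874311) (nat_lit 228) (nat_lit 8606676496) (nat_lit 76) (nat_lit 4330585190) (nat_lit 40) (nat_lit 5) (nat_lit 43) (nat_lit 5) (nat_lit 41) (nat_lit 5) (nat_lit 343) (nat_lit 256) (nat_lit 181)) (XT.nd (nat_lit 78) (nat_lit 152) (nat_lit 0) (XT.lf (nat_lit 0) (nat_lit 10131873578) (nat_lit 228) (nat_lit 323390868) (nat_lit 76) (nat_lit 9158157875) (nat_lit 40) (nat_lit 5) (nat_lit 43) (nat_lit 5) (nat_lit 41) (nat_lit 5) (nat_lit 344) (nat_lit 256) (nat_lit 180)) (XT.lf (nat_lit 0) (nat_lit 8327044100) (nat_lit 152) (nat_lit 5854361642) (nat_lit 228) (nat_lit 5866388932) (nat_lit 38) (nat_lit 5) (nat_lit 40) (nat_lit 5) (nat_lit 41) (nat_lit 5) (nat_lit 345) (nat_lit 256) (nat_lit 179)))) (XT.nd (nat_lit 156) (nat_lit 152) (nat_lit 0) (XT.nd (nat_lit 78) (nat_lit 228) (nat_lit 0) (XT.lf (nat_lit 0) (nat_lit 17200211268) (nat_lit 152) (nat_lit 1129933049) (nat_lit 228) (nat_lit 2165734236) (nat_lit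 38) (nat_lit 5) (nat_lit 40) (nat_lit 5) (nat_lit 41) (nat_lit 5) (nat_lit 346) (nat_lit 256) (nat_lit 178)) (XT.lf (nat_lit 0) (nat_lit 1677376016) (nat_lit 228) (nat_lit 15562903749) (nat_lit 76) (nat_lit 3714755186) (nat_lit 35) (nat_lit 5) (nat_lit 38) (nat_lit 5) (nat_lit 36) (nat_lit 5) (nat_lit 347) (nat_lit 256) (nat_lit 177))) (XT.nd (nat_lit 78) (nat_lit 152) (nat_lit 0) (XT.lf (nat_lit 0) (nat_lit 5612144698) (nat_lit 228) (nat_lit 7094628125) (nat_lit 76) (nat_lit 8719964057) (nat_lit 35) (nat_lit 5) (nat_lit 38) (nat_lit 5) (nat_lit 36) (nat_lit 5) (nat_lit 348) (nat_lit 256) (nat_lit 176)) (XT.lf (nat_lit 0) (nat_lit 1617687733) (nat_lit 152) (nat_lit 8038641727) (nat_lit 228) (nat_lit 12256529849) (nat_lit 33) (nat_lit 5) (nat_lit 35) (nat_lit 5) (nat_lit 36) (nat_lit 5) (nat_lit 349) (nat_lit 256) (nat_lit 175))))))))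
noncomputable def xc94 : XT := (XT.nd (nat_lit 2184) (nat_lit 532) (nat_lit 0) (XT.nd (nat_lit 1092) (nat_lit 608) (nat_lit 0) (XT.nd (nat_lit 546) (nat_lit 380) (nat_lit 0) (XT.nd (nat_lit 234) (nat_lit 228) (nat_lit 0) (XT.nd (nat_lit 78) (nat_lit 76) (nat_lit 0) (XT.lf (nat_lit 0) (nat_lit 10695638635) (nat_lit 152) (nat_lit 3173974241) (nat_lit 228) (nat_lit 8542529664) (nat_lit 33) (nat_lit 5) (nat_lit 35) (nat_lit 5) (nat_lit 36) (nat_lit 5) (nat_lit 350) (nat_lit 256) (nat_lit 174)) (XT.nd (nat_lit 78) (nat_lit 76) (nat_lit 0) (XT.lf (nat_lit 0) (nat_lit 18203614683) (nat_lit 228) (nat_lit 2938643137) (nat_lit 76) (nat_lit 1784326876) (nat_lit 33) (nat_lit 5) (nat_lit 36) (nat_lit 5) (nat_lit 34) (nat_lit 4) (nat_lit 351) (nat_lit 256) (nat_lit 173)) (XT.lf (nat_lit 0) (nat_lit 6151840405) (nat_lit 76) (nat_lit 16583701580) (nat_lit 152) (nat_lit 718890698) (nat_lit 32) (nat_lit 5) (nat_lit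 33) (nat_lit 5) (nat_lit 34) (nat_lit 4) (nat_lit 352) (nat_lit 256) (nat_lit 172)))) (XT.nd (nat_lit 156) (nat_lit 0) (nat_lit 0) (XT.nd (nat_lit 78) (nat_lit 152) (nat_lit 0) (XT.lf (nat_lit 0) (nat_lit 3346228894) (nat_lit 152) (nat_lit 8494381343) (nat_lit 76) (nat_lit 12156311996) (nat_lit 31) (nat_lit 5) (nat_lit 33) (nat_lit 5) (nat_lit 32) (nat_lit 5) (nat_lit 353) (nat_lit 256) (nat_lit 171)) (XT.lf (nat_lit 0) (nat_lit 543302222) (nat_lit 152) (nat_lit 6958831123) (nat_lit 228) (nat_lit 17053850087) (nat_lit 29) (nat_lit 5) (nat_lit 31) (nat_lit 5) (nat_lit 32) (nat_lit 5) (nat_lit 354) (nat_lit 256) (nat_lit 170))) (XT.nd (nat_lit 78) (nat_lit 0) (nat_lit 0) (XT.lf (nat_lit 0) (nat_lit 9988360109) (nat_lit 152) (nat_lit 1858464073) (nat_lit 228) (nat_lit 13283077656) (nat_lit 29) (nat_lit 5) (nat_lit 31) (nat_lit 5) (nat_lit 32) (nat_lit 5) (nat_lit 355) (nat_lit 256) (nat_lit 169))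 (XT.lf (nat_lit 0) (nat_lit 16333302143) (nat_lit 228) (nat_lit 6074169501) (nat_lit 76) (nat_lit 3313231153) (nat_lit 29) (nat_lit 5) (nat_lit 32) (nat_lit 5) (nat_lit 30) (nat_lit 4) (nat_lit 356) (nat_lit 256) (nat_lit 168))))) (XT.nd (nat_lit 234) (nat_lit 228) (nat_lit 0) (XT.nd (nat_lit 78) (nat_lit 76) (nat_lit 0) (XT.lf (nat_lit 0) (nat_lit 3274539328) (nat_lit 76) (nat_lit 17709142148) (nat_lit 152) (nat_lit 5344675247) (nat_lit 28) (nat_lit 5) (nat_lit 29) (nat_lit 5) (nat_lit 30) (nat_lit 4) (nat_lit 357) (nat_lit 256) (nat_lit 167)) (XT.nd (nat_lit 78) (nat_lit 76) (nat_lit 0) (XT.lf (nat_lit 0) (nat_lit 12992396680) (nat_lit 76) (nat_lit 12822196982) (nat_lit 152) (nat_lit 1138423873) (nat_lit 28) (nat_lit 5) (nat_lit 29) (nat_lit 5) (nat_lit 30) (nat_lit 4) (nat_lit 358) (nat_lit 256) (nat_lit 166)) (XT.lf (nat_lit 0) (nat_lit 3111761475) (nat_lit 152) (nat_lit 4660519037) (nat_lit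 76) (nat_lit 19823821839) (nat_lit 27) (nat_lit 5) (nat_lit 29) (nat_lit 5) (nat_lit 28) (nat_lit 5) (nat_lit 359) (nat_lit 256) (nat_lit 165)))) (XT.nd (nat_lit 156) (nat_lit 76) (nat_lit 0) (XT.nd (nat_lit 78) (nat_lit 0) (nat_lit 0) (XT.lf (nat_lit 0) (nat_lit 4970136676) (nat_lit 152) (nat_lit 2524864074) (nat_lit 228) (nat_lit 20762295168) (nat_lit 25) (nat_lit 5) (nat_lit 27) (nat_lit 5) (nat_lit 28) (nat_lit 5) (nat_lit 360) (nat_lit 256) (nat_lit 164)) (XT.lf (nat_lit 0) (nat_lit 12065699733) (nat_lit 228) (nat_lit 14014082089) (nat_lit 76) (nat_lit 2856871625) (nat_lit 25) (nat_lit 5) (nat_lit 28) (nat_lit 5) (nat_lit 26) (nat_lit 4) (nat_lit 361) (nat_lit 256) (nat_lit 163))) (XT.nd (nat_lit 78) (nat_lit 76) (nat_lit 0) (XT.lf (nat_lit 0) (nat_lit 16779829388) (nat_lit 228) (nat_lit 4521079966) (nat_lit 76) (nat_lit 8335299881) (nat_lit 25) (nat_lit 5) (nat_lit 28) (nat_lit 5) (nat_lit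 26) (nat_lit 4) (nat_lit 362) (nat_lit 256) (nat_lit 162)) (XT.lf (nat_lit 0) (nat_lit 5328388574) (nat_lit 76) (nat_lit 16340069479) (nat_lit 152) (nat_lit 8687308018) (nat_lit 24) (nat_lit 5) (nat_lit 25) (nat_lit 5) (nat_lit 26) (nat_lit 4) (nat_lit 363) (nat_lit 256) (nat_lit 161)))))) (XT.nd (nat_lit 546) (nat_lit 304) (nat_lit 0) (XT.nd (nat_lit 234) (nat_lit 76) (nat_lit 0) (XT.nd (nat_lit 78) (nat_lit 228) (nat_lit 0) (XT.lf (nat_lit 0) (nat_lit 15534035843) (nat_lit 76) (nat_lit 11197440209) (nat_lit 152) (nat_lit 4364608077) (nat_lit 24) (nat_lit 5) (nat_lit 25) (nat_lit 5) (nat_lit 26) (nat_lit 4) (nat_lit 364) (nat_lit 256) (nat_lit 160)) (XT.nd (nat_lit 78) (nat_lit 152) (nat_lit 0) (XT.lf (nat_lit 0) (nat_lit 68480157) (nat_lit 152) (nat_lit 5845010358) (nat_lit 76) (nat_lit 25945629367) (nat_lit 23) (nat_lit 5) (nat_lit 25) (nat_lit 5) (nat_lit 24) (nat_lit 5) (nat_lit 365) (nat_lit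 256) (nat_lit 159)) (XT.lf (nat_lit 0) (nat_lit 4171227796) (nat_lit 152) (nat_lit 398637434) (nat_lit 228) (nat_lit 28073200090) (nat_lit 21) (nat_lit 5) (nat_lit 23) (nat_lit 5) (nat_lit 24) (nat_lit 5) (nat_lit 366) (nat_lit 256) (nat_lit 158)))) (XT.nd (nat_lit 156) (nat_lit 76) (nat_lit 0) (XT.nd (nat_lit 78) (nat_lit 0) (nat_lit 0) (XT.lf (nat_lit 0) (nat_lit 9299680765) (nat_lit 228) (nat_lit 18922920385) (nat_lit 76) (nat_lit 5225132020) (nat_lit 21) (nat_lit 5) (nat_lit 24) (nat_lit 5) (nat_lit 22) (nat_lit 4) (nat_lit 367) (nat_lit 256) (nat_lit 157)) (XT.lf (nat_lit 0) (nat_lit 14158843321) (nat_lit 228) (nat_lit 9121169129) (nat_lit 76) (nat_lit 10996910578) (nat_lit 21) (nat_lit 5) (nat_lit 24) (nat_lit 5) (nat_lit 22) (nat_lit 4) (nat_lit 368) (nat_lit 256) (nat_lit 156))) (XT.nd (nat_lit 78) (nat_lit 0) (nat_lit 0) (XT.lf (nat_lit 0) (nat_lit 964636355) (nat_lit 76) (nat_lit 18192403141)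 (nat_lit 152) (nat_lit 15974156712) (nat_lit 20) (nat_lit 5) (nat_lit 21) (nat_lit 5) (nat_lit 22) (nat_lit 4) (nat_lit 369) (nat_lit 256) (nat_lit 155)) (XT.lf (nat_lit 0) (nat_lit 11511451760) (nat_lit 76) (nat_lit 12870013878) (nat_lit 152) (nat_lit 11627348655) (nat_lit 20) (nat_lit 5) (nat_lit 21) (nat_lit 5) (nat_lit 22) (nat_lit 4) (nat_lit 370) (nat_lit 256) (nat_lit 154))))) (XT.nd (nat_lit 234) (nat_lit 76) (nat_lit 0) (XT.nd (nat_lit 78) (nat_lit 228) (nat_lit 0) (XT.lf (nat_lit 0) (nat_lit 22346963597) (nat_lit 76) (nat_lit 7400299952) (nat_lit 152) (nat_lit 7165963279) (nat_lit 20) (nat_lit 5) (nat_lit 21) (nat_lit 5) (nat_lit 22) (nat_lit 4) (nat_lit 371) (nat_lit 256) (nat_lit 153)) (XT.nd (nat_lit 78) (nat_lit 228) (nat_lit 0) (XT.lf (nat_lit 0) (nat_lit 33480639789) (nat_lit 76) (nat_lit 1778482003) (nat_lit 152) (nat_lit 2586102286) (nat_lit 20) (nat_lit 5) (nat_lit 21) (nat_lit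 5) (nat_lit 22) (nat_lit 4) (nat_lit 372) (nat_lit 256) (nat_lit 152)) (XT.lf (nat_lit 0) (nat_lit 2173954869) (nat_lit 228) (nat_lit 32624891049) (nat_lit 76) (nat_lit 4003193792) (nat_lit 17) (nat_lit 5) (nat_lit 20) (nat_lit 5) (nat_lit 18) (nat_lit 4) (nat_lit 373) (nat_lit 256) (nat_lit 151)))) (XT.nd (nat_lit 156) (nat_lit 76) (nat_lit 0) (XT.nd (nat_lit 78) (nat_lit 0) (nat_lit 0) (XT.lf (nat_lit 0) (nat_lit 7072389355) (nat_lit 228) (nat_lit 22731764267) (nat_lit 76) (nat_lit 9981215940) (nat_lit 17) (nat_lit 5) (nat_lit 20) (nat_lit 5) (nat_lit 18) (nat_lit 4) (nat_lit 374) (nat_lit 256) (nat_lit 150)) (XT.lf (nat_lit 0) (nat_lit 12103635967) (nat_lit 228) (nat_lit 12567552312) (nat_lit 76) (nat_lit 16127439639) (nat_lit 17) (nat_lit 5) (nat_lit 20) (nat_lit 5) (nat_lit 18) (nat_lit 4) (nat_lit 375) (nat_lit 256) (nat_lit 149))) (XT.nd (nat_lit 78) (nat_lit 76) (nat_lit 0) (XT.lf (nat_lit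 0) (nat_lit 17272090937) (nat_lit 228) (nat_lit 2123373835) (nat_lit 76) (nat_lit 22447235377) (nat_lit 17) (nat_lit 5) (nat_lit 20) (nat_lit 5) (nat_lit 18) (nat_lit 4) (nat_lit 376) (nat_lit 256) (nat_lit 148)) (XT.lf (nat_lit 0) (nat_lit 8781250980) (nat_lit 76) (nat_lit 13885430168) (nat_lit 152) (nat_lit 20249285081) (nat_lit 16) (nat_lit 5) (nat_lit 17) (nat_lit 5) (nat_lit 18) (nat_lit 4) (nat_lit 377) (nat_lit 256) (nat_lit 147))))))) (XT.nd (nat_lit 1092) (nat_lit 228) (nat_lit 0) (XT.nd (nat_lit 546) (nat_lit 152) (nat_lit 0) (XT.nd (nat_lit 234) (nat_lit 152) (nat_lit 0) (XT.nd (nat_lit 78) (nat_lit 0) (nat_lit 0) (XT.lf (nat_lit 0) (nat_lit 20032546350) (nat_lit 76) (nat_lit 8198833036) (nat_lit 152) (nat_lit 15789806805) (nat_lit 16) (nat_lit 5) (nat_lit 17) (nat_lit 5) (nat_lit 18) (nat_lit 4) (nat_lit 378) (nat_lit 256) (nat_lit 146)) (XT.nd (nat_lit 78) (nat_lit 0) (nat_lit 0) (XT.lf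 (nat_lit 0) (nat_lit 31598084198) (nat_lit 76) (nat_lit 2352146416) (nat_lit 152) (nat_lit 11209719667) (nat_lit 16) (nat_lit 5) (nat_lit 17) (nat_lit 5) (nat_lit 18) (nat_lit 4) (nat_lit 379) (nat_lit 256) (nat_lit 145)) (XT.lf (nat_lit 0) (nat_lit 39863411536) (nat_lit 152) (nat_lit 2880462849) (nat_lit 0) (nat_lit 3588323765) (nat_lit 16) (nat_lit 5) (nat_lit 18) (nat_lit 4) (nat_lit 16) (nat_lit 4) (nat_lit 380) (nat_lit 256) (nat_lit 144)))) (XT.nd (nat_lit 156) (nat_lit 0) (nat_lit 0) (XT.nd (nat_lit 78) (nat_lit 76) (nat_lit 0) (XT.lf (nat_lit 0) (nat_lit 8236590303) (nat_lit 76) (nat_lit 37807712216) (nat_lit 76) (nat_lit 1492605164) (nat_lit 15) (nat_lit 4) (nat_lit 16) (nat_lit 5) (nat_lit 16) (nat_lit 4) (nat_lit 381) (nat_lit 256) (nat_lit 143)) (XT.lf (nat_lit 0) (nat_lit 3579217338) (nat_lit 152) (nat_lit 29088149522) (nat_lit 76) (nat_lit 16108830088) (nat_lit 14) (nat_lit 5) (nat_lit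 16) (nat_lit 5) (nat_lit 15) (nat_lit 4) (nat_lit 382) (nat_lit 256) (nat_lit 142))) (XT.nd (nat_lit 78) (nat_lit 0) (nat_lit 0) (XT.lf (nat_lit 0) (nat_lit 8761418720) (nat_lit 152) (nat_lit 18606002727) (nat_lit 76) (nat_lit 22685156731) (nat_lit 14) (nat_lit 5) (nat_lit 16) (nat_lit 5) (nat_lit 15) (nat_lit 4) (nat_lit 383) (nat_lit 256) (nat_lit 141)) (XT.lf (nat_lit 0) (nat_lit 14087653219) (nat_lit 152) (nat_lit 7830370003) (nat_lit 76) (nat_lit 29449573869) (nat_lit 14) (nat_lit 5) (nat_lit 16) (nat_lit 5) (nat_lit 15) (nat_lit 4) (nat_lit 384) (nat_lit 256) (nat_lit 140))))) (XT.nd (nat_lit 234) (nat_lit 76) (nat_lit 0) (XT.nd (nat_lit 78) (nat_lit 0) (nat_lit 0) (XT.lf (nat_lit 0) (nat_lit 3312809087) (nat_lit 76) (nat_lit 16281610488) (nat_lit 152) (nat_lit 33127027819) (nat_lit 13) (nat_lit 5) (nat_lit 14) (nat_lit 5) (nat_lit 15) (nat_lit 4) (nat_lit 385) (nat_lit 256) (nat_lit 139))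 (XT.nd (nat_lit 78) (nat_lit 0) (nat_lit 0) (XT.lf (nat_lit 0) (nat_lit 14930630687) (nat_lit 76) (nat_lit 10403859125) (nat_lit 152) (nat_lit 28779383437) (nat_lit 13) (nat_lit 5) (nat_lit 14) (nat_lit 5) (nat_lit 15) (nat_lit 4) (nat_lit 386) (nat_lit 256) (nat_lit 138)) (XT.lf (nat_lit 0) (nat_lit 26877406576) (nat_lit 76) (nat_lit 4358704618) (nat_lit 152) (nat_lit 24312283199) (nat_lit 13) (nat_lit 5) (nat_lit 14) (nat_lit 5) (nat_lit 15) (nat_lit 4) (nat_lit 387) (nat_lit 256) (nat_lit 137)))) (XT.nd (nat_lit 156) (nat_lit 76) (nat_lit 0) (XT.nd (nat_lit 78) (nat_lit 0) (nat_lit 0) (XT.lf (nat_lit 0) (nat_lit 37322311622) (nat_lit 152) (nat_lit 17880559753) (nat_lit 0) (nat_lit 1822856781) (nat_lit 13) (nat_lit 5) (nat_lit 15) (nat_lit 4) (nat_lit 13) (nat_lit 4) (nat_lit 388) (nat_lit 256) (nat_lit 136)) (XT.lf (nat_lit 0) (nat_lit 43624133092) (nat_lit 152) (nat_lit 6828253796) (nat_lit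 0) (nat_lit 8094006805) (nat_lit 13) (nat_lit 5) (nat_lit 15) (nat_lit 4) (nat_lit 13) (nat_lit 4) (nat_lit 389) (nat_lit 256) (nat_lit 135))) (XT.nd (nat_lit 78) (nat_lit 0) (nat_lit 0) (XT.lf (nat_lit 0) (nat_lit 4627790809) (nat_lit 76) (nat_lit 45521877860) (nat_lit 76) (nat_lit 9961973471) (nat_lit 12) (nat_lit 4) (nat_lit 13) (nat_lit 5) (nat_lit 13) (nat_lit 4) (nat_lit 390) (nat_lit 256) (nat_lit 134)) (XT.lf (nat_lit 0) (nat_lit 16549531664) (nat_lit 76) (nat_lit 40380678501) (nat_lit 76) (nat_lit 4791863333) (nat_lit 12) (nat_lit 4) (nat_lit 13) (nat_lit 5) (nat_lit 13) (nat_lit 4) (nat_lit 391) (nat_lit 256) (nat_lit 133)))))) (XT.nd (nat_lit 546) (nat_lit 76) (nat_lit 0) (XT.nd (nat_lit 234) (nat_lit 76) (nat_lit 0) (XT.nd (nat_lit 78) (nat_lit 0) (nat_lit 0) (XT.lf (nat_lit 0) (nat_lit 513417397) (nat_lit 152) (nat_lit 34574646568) (nat_lit 76) (nat_lit 28292888276) (nat_lit 11) (nat_lit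 5) (nat_lit 13) (nat_lit 5) (nat_lit 12) (nat_lit 4) (nat_lit 392) (nat_lit 256) (nat_lit 132)) (XT.nd (nat_lit 78) (nat_lit 0) (nat_lit 0) (XT.lf (nat_lit 0) (nat_lit 5872297143) (nat_lit 152) (nat_lit 23723371866) (nat_lit 76) (nat_lit 35492784868) (nat_lit 11) (nat_lit 5) (nat_lit 13) (nat_lit 5) (nat_lit 12) (nat_lit 4) (nat_lit 393) (nat_lit 256) (nat_lit 131)) (XT.lf (nat_lit 0) (nat_lit 11382964932) (nat_lit 152) (nat_lit 12563173712) (nat_lit 76) (nat_lit 42901313623) (nat_lit 11) (nat_lit 5) (nat_lit 13) (nat_lit 5) (nat_lit 12) (nat_lit 4) (nat_lit 394) (nat_lit 256) (nat_lit 130)))) (XT.nd (nat_lit 156) (nat_lit 0) (nat_lit 0) (XT.nd (nat_lit 78) (nat_lit 76) (nat_lit 0) (XT.lf (nat_lit 0) (nat_lit 17050235912) (nat_lit 152) (nat_lit 1084300476) (nat_lit 76) (nat_lit 50524948014) (nat_lit 11) (nat_lit 5) (nat_lit 13) (nat_lit 5) (nat_lit 12) (nat_lit 4) (nat_lit 395) (nat_lit 256) (nat_lit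 129)) (XT.lf (nat_lit 0) (nat_lit 10936692182) (nat_lit 76) (nat_lit 12047500060) (nat_lit 152) (nat_lit 47538787461) (nat_lit 10) (nat_lit 5) (nat_lit 11) (nat_lit 5) (nat_lit 12) (nat_lit 4) (nat_lit 396) (nat_lit 256) (nat_lit 128))) (XT.nd (nat_lit 78) (nat_lit 0) (nat_lit 0) (XT.lf (nat_lit 0) (nat_lit 23325034226) (nat_lit 76) (nat_lit 5773716817) (nat_lit 152) (nat_lit 43343553462) (nat_lit 10) (nat_lit 5) (nat_lit 11) (nat_lit 5) (nat_lit 12) (nat_lit 4) (nat_lit 397) (nat_lit 256) (nat_lit 127)) (XT.lf (nat_lit 0) (nat_lit 35395174251) (nat_lit 152) (nat_lit 38356033601) (nat_lit 0) (nat_lit 668050462) (nat_lit 10) (nat_lit 5) (nat_lit 12) (nat_lit 4) (nat_lit 10) (nat_lit 4) (nat_lit 398) (nat_lit 256) (nat_lit 126))))) (XT.nd (nat_lit 234) (nat_lit 76) (nat_lit 0) (XT.nd (nat_lit 78) (nat_lit 0) (nat_lit 0) (XT.lf (nat_lit 0) (nat_lit 41929705643) (nat_lit 152) (nat_lit 27343916512)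 (nat_lit 0) (nat_lit 7180424149) (nat_lit 10) (nat_lit 5) (nat_lit 12) (nat_lit 4) (nat_lit 10) (nat_lit 4) (nat_lit 399) (nat_lit 256) (nat_lit 125)) (XT.nd (nat_lit 78) (nat_lit 0) (nat_lit 0) (XT.lf (nat_lit 0) (nat_lit 48652554506) (nat_lit 152) (nat_lit 16015796277) (nat_lit 0) (nat_lit 13881760678) (nat_lit 10) (nat_lit 5) (nat_lit 12) (nat_lit 4) (nat_lit 10) (nat_lit 4) (nat_lit 400) (nat_lit 256) (nat_lit 124)) (XT.lf (nat_lit 0) (nat_lit 55569595174) (nat_lit 152) (nat_lit 4361774537) (nat_lit 0) (nat_lit 20777915584) (nat_lit 10) (nat_lit 5) (nat_lit 12) (nat_lit 4) (nat_lit 10) (nat_lit 4) (nat_lit 401) (nat_lit 256) (nat_lit 123)))) (XT.nd (nat_lit 156) (nat_lit 0) (nat_lit 0) (XT.nd (nat_lit 78) (nat_lit 0) (nat_lit 0) (XT.lf (nat_lit 0) (nat_lit 7780150592) (nat_lit 76) (nat_lit 54981508638) (nat_lit 76) (nat_lit 20169551609) (nat_lit 9) (nat_lit 4) (nat_lit 10) (nat_lit 5) (nat_lit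 10) (nat_lit 4) (nat_lit 402) (nat_lit 256) (nat_lit 122)) (XT.lf (nat_lit 0) (nat_lit 20362342262) (nat_lit 76) (nat_lit 49843995982) (nat_lit 76) (nat_lit 15012352120) (nat_lit 9) (nat_lit 4) (nat_lit 10) (nat_lit 5) (nat_lit 10) (nat_lit 4) (nat_lit 403) (nat_lit 256) (nat_lit 121))) (XT.nd (nat_lit 78) (nat_lit 0) (nat_lit 0) (XT.lf (nat_lit 0) (nat_lit 33308986753) (nat_lit 76) (nat_lit 44558388026) (nat_lit 76) (nat_lit 9707630732) (nat_lit 9) (nat_lit 4) (nat_lit 10) (nat_lit 5) (nat_lit 10) (nat_lit 4) (nat_lit 404) (nat_lit 256) (nat_lit 120)) (XT.lf (nat_lit 0) (nat_lit 46631396668) (nat_lit 76) (nat_lit 39120066276) (nat_lit 76) (nat_lit 4250752254) (nat_lit 9) (nat_lit 4) (nat_lit 10) (nat_lit 5) (nat_lit 10) (nat_lit 4) (nat_lit 405) (nat_lit 256) (nat_lit 119))))))))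
noncomputable def xc95 : XT := (XT.nd (nat_lit 31512) (nat_lit 0) (nat_lit 5928) (XT.nd (nat_lit 30420) (nat_lit 0) (nat_lit 13984) (XT.nd (nat_lit 29874) (nat_lit 0) (nat_lit 21432) (XT.nd (nat_lit 234) (nat_lit 76) (nat_lit 0) (XT.nd (nat_lit 78) (nat_lit 0) (nat_lit 0) (XT.lf (nat_lit 0) (nat_lit 1336453417) (nat_lit 152) (nat_lit 32174329826) (nat_lit 76) (nat_lit 58991263971) (nat_lit 8) (nat_lit 5) (nat_lit 10) (nat_lit 5) (nat_lit 9) (nat_lit 4) (nat_lit 406) (nat_lit 256) (nat_lit 118)) (XT.nd (nat_lit 78) (nat_lit 0) (nat_lit 0) (XT.lf (nat_lit 0) (nat_lit 6999384209) (nat_lit 152) (nat_lit 20696071816) (nat_lit 76) (nat_lit 67380350777) (nat_lit 8) (nat_lit 5) (nat_lit 10) (nat_lit 5) (nat_lit 9) (nat_lit 4) (nat_lit 407) (nat_lit 256) (nat_lit 117)) (XT.lf (nat_lit 0) (nat_lit 12825935799) (nat_lit 152) (nat_lit 8885154123) (nat_lit 76) (nat_lit 76015878779) (nat_lit 8) (nat_lit 5) (nat_lit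 10) (nat_lit 5) (nat_lit 9) (nat_lit 4) (nat_lit 408) (nat_lit 256) (nat_lit 116)))) (XT.nd (nat_lit 29484) (nat_lit 0) (nat_lit 23332) (XT.nd (nat_lit 78) (nat_lit 0) (nat_lit 0) (XT.lf (nat_lit 0) (nat_lit 3333797875) (nat_lit 76) (nat_lit 15519447979) (nat_lit 152) (nat_lit 81603642214) (nat_lit 7) (nat_lit 5) (nat_lit 8) (nat_lit 5) (nat_lit 9) (nat_lit 4) (nat_lit 409) (nat_lit 256) (nat_lit 115)) (XT.lf (nat_lit 0) (nat_lit 16090219004) (nat_lit 76) (nat_lit 9054863464) (nat_lit 152) (nat_lit 78121112755) (nat_lit 7) (nat_lit 5) (nat_lit 8) (nat_lit 5) (nat_lit 9) (nat_lit 4) (nat_lit 410) (nat_lit 256) (nat_lit 114))) (XT.nd (nat_lit 78) (nat_lit 228) (nat_lit 0) (XT.lf (nat_lit 0) (nat_lit 1567437903) (nat_lit 228) (nat_lit 106074761) (nat_lit 0) (nat_lit 1567437903) (nat_lit 317) (nat_lit 5) (nat_lit 320) (nat_lit 4) (nat_lit 317) (nat_lit 4) (nat_lit 266) (nat_lit 257) (nat_lit 257))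 (XT.lf (nat_lit 0) (nat_lit 3234848619) (nat_lit 228) (nat_lit 2923019252) (nat_lit 228) (nat_lit 338867880) (nat_lit 314) (nat_lit 4) (nat_lit 317) (nat_lit 5) (nat_lit 317) (nat_lit 4) (nat_lit 267) (nat_lit 257) (nat_lit 256))))) (XT.nd (nat_lit 234) (nat_lit 1064) (nat_lit 0) (XT.nd (nat_lit 78) (nat_lit 456) (nat_lit 0) (XT.lf (nat_lit 0) (nat_lit 185516266) (nat_lit 304) (nat_lit 2414755883) (nat_lit 380) (nat_lit 3914333185) (nat_lit 309) (nat_lit 5) (nat_lit 313) (nat_lit 5) (nat_lit 314) (nat_lit 4) (nat_lit 268) (nat_lit 257) (nat_lit 255)) (XT.nd (nat_lit 78) (nat_lit 456) (nat_lit 0) (XT.lf (nat_lit 0) (nat_lit 3731253183) (nat_lit 304) (nat_lit 1815594054) (nat_lit 380) (nat_lit 988497766) (nat_lit 309) (nat_lit 5) (nat_lit 313) (nat_lit 5) (nat_lit 314) (nat_lit 4) (nat_lit 269) (nat_lit 257) (nat_lit 254)) (XT.lf (nat_lit 0) (nat_lit 753054251) (nat_lit 380) (nat_lit 1134824366)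 (nat_lit 456) (nat_lit 4671380109) (nat_lit 303) (nat_lit 5) (nat_lit 308) (nat_lit 5) (nat_lit 309) (nat_lit 5) (nat_lit 270) (nat_lit 257) (nat_lit 253)))) (XT.nd (nat_lit 156) (nat_lit 532) (nat_lit 0) (XT.nd (nat_lit 78) (nat_lit 532) (nat_lit 0) (XT.lf (nat_lit 0) (nat_lit 4396259475) (nat_lit 380) (nat_lit 360085016) (nat_lit 456) (nat_lit 1829680185) (nat_lit 303) (nat_lit 5) (nat_lit 308) (nat_lit 5) (nat_lit 309) (nat_lit 5) (nat_lit 271) (nat_lit 257) (nat_lit 252)) (XT.lf (nat_lit 0) (nat_lit 994160923) (nat_lit 532) (nat_lit 5135583861) (nat_lit 76) (nat_lit 486170352) (nat_lit 296) (nat_lit 5) (nat_lit 303) (nat_lit 5) (nat_lit 297) (nat_lit 5) (nat_lit 272) (nat_lit 257) (nat_lit 251))) (XT.nd (nat_lit 78) (nat_lit 532) (nat_lit 0) (XT.lf (nat_lit 0) (nat_lit 3793676724) (nat_lit 532) (nat_lit 1433642245) (nat_lit 76) (nat_lit 1421189415) (nat_lit 296) (nat_lit 5) (nat_lit 303) (nat_lit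 5) (nat_lit 297) (nat_lit 5) (nat_lit 273) (nat_lit 257) (nat_lit 250)) (XT.lf (nat_lit 0) (nat_lit 2356286561) (nat_lit 532) (nat_lit 4248238352) (nat_lit 608) (nat_lit 79910390) (nat_lit 289) (nat_lit 5) (nat_lit 296) (nat_lit 5) (nat_lit 297) (nat_lit 5) (nat_lit 274) (nat_lit 257) (nat_lit 249)))))) (XT.nd (nat_lit 546) (nat_lit 4332) (nat_lit 0) (XT.nd (nat_lit 234) (nat_lit 1672) (nat_lit 0) (XT.nd (nat_lit 78) (nat_lit 1368) (nat_lit 0) (XT.lf (nat_lit 0) (nat_lit 2644389989) (nat_lit 608) (nat_lit 528970033) (nat_lit 76) (nat_lit 3549834623) (nat_lit 288) (nat_lit 5) (nat_lit 296) (nat_lit 5) (nat_lit 289) (nat_lit 5) (nat_lit 275) (nat_lit 257) (nat_lit 248)) (XT.nd (nat_lit 78) (nat_lit 760) (nat_lit 0) (XT.lf (nat_lit 0) (nat_lit 3381003203) (nat_lit 608) (nat_lit 2008781191) (nat_lit 684) (nat_lit 1375240826) (nat_lit 280) (nat_lit 5) (nat_lit 288) (nat_lit 5) (nat_lit 289) (nat_lit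 5) (nat_lit 276) (nat_lit 257) (nat_lit 247)) (XT.lf (nat_lit 0) (nat_lit 538424750) (nat_lit 684) (nat_lit 763518420) (nat_lit 760) (nat_lit 5508312666) (nat_lit 270) (nat_lit 5) (nat_lit 279) (nat_lit 5) (nat_lit 280) (nat_lit 5) (nat_lit 277) (nat_lit 257) (nat_lit 246)))) (XT.nd (nat_lit 156) (nat_lit 912) (nat_lit 0) (XT.nd (nat_lit 78) (nat_lit 760) (nat_lit 0) (XT.lf (nat_lit 0) (nat_lit 3982911225) (nat_lit 760) (nat_lit 2298808581) (nat_lit 76) (nat_lit 576329426) (nat_lit 270) (nat_lit 5) (nat_lit 280) (nat_lit 5) (nat_lit 271) (nat_lit 5) (nat_lit 278) (nat_lit 257) (nat_lit 245)) (XT.lf (nat_lit 0) (nat_lit 1750132405) (nat_lit 760) (nat_lit 4932742600) (nat_lit 836) (nat_lit 226387758) (nat_lit 260) (nat_lit 5) (nat_lit 270) (nat_lit 5) (nat_lit 271) (nat_lit 5) (nat_lit 279) (nat_lit 257) (nat_lit 244))) (XT.nd (nat_lit 78) (nat_lit 836) (nat_lit 0) (XT.lf (nat_lit 0) (nat_lit 2391498994)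 (nat_lit 836) (nat_lit 1088935083) (nat_lit 76) (nat_lit 3482837446) (nat_lit 259) (nat_lit 5) (nat_lit 270) (nat_lit 5) (nat_lit 260) (nat_lit 5) (nat_lit 280) (nat_lit 257) (nat_lit 243)) (XT.lf (nat_lit 0) (nat_lit 3092534349) (nat_lit 836) (nat_lit 1938089742) (nat_lit 912) (nat_lit 1989922825) (nat_lit 248) (nat_lit 5) (nat_lit 259) (nat_lit 5) (nat_lit 260) (nat_lit 5) (nat_lit 281) (nat_lit 257) (nat_lit 242))))) (XT.nd (nat_lit 234) (nat_lit 2356) (nat_lit 0) (XT.nd (nat_lit 78) (nat_lit 988) (nat_lit 0) (XT.lf (nat_lit 0) (nat_lit 271300362) (nat_lit 912) (nat_lit 317079278) (nat_lit 988) (nat_lit 6493129756) (nat_lit 235) (nat_lit 5) (nat_lit 247) (nat_lit 5) (nat_lit 248) (nat_lit 5) (nat_lit 282) (nat_lit 257) (nat_lit 241)) (XT.nd (nat_lit 78) (nat_lit 988) (nat_lit 0) (XT.lf (nat_lit 0) (nat_lit 3177255700) (nat_lit 988) (nat_lit 2571037857) (nat_lit 76) (nat_lit 1396339567) (nat_lit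 235) (nat_lit 5) (nat_lit 248) (nat_lit 5) (nat_lit 236) (nat_lit 5) (nat_lit 283) (nat_lit 257) (nat_lit 240)) (XT.lf (nat_lit 0) (nat_lit 1756598495) (nat_lit 988) (nat_lit 4029710269) (nat_lit 1064) (nat_lit 1425183023) (nat_lit 222) (nat_lit 5) (nat_lit 235) (nat_lit 5) (nat_lit 236) (nat_lit 5) (nat_lit 284) (nat_lit 257) (nat_lit 239)))) (XT.nd (nat_lit 156) (nat_lit 1216) (nat_lit 0) (XT.nd (nat_lit 78) (nat_lit 1064) (nat_lit 0) (XT.lf (nat_lit 0) (nat_lit 1119427610) (nat_lit 1064) (nat_lit 1095338551) (nat_lit 76) (nat_lit 5066872718) (nat_lit 221) (nat_lit 5) (nat_lit 235) (nat_lit 5) (nat_lit 222) (nat_lit 5) (nat_lit 285) (nat_lit 257) (nat_lit 238)) (XT.lf (nat_lit 0) (nat_lit 3378071276) (nat_lit 1064) (nat_lit 291585073) (nat_lit 1140) (nat_lit 3685179631) (nat_lit 207) (nat_lit 5) (nat_lit 221) (nat_lit 5) (nat_lit 222) (nat_lit 5) (nat_lit 286) (nat_lit 257) (nat_lit 237))) (XT.nd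 (nat_lit 78) (nat_lit 76) (nat_lit 0) (XT.lf (nat_lit 0) (nat_lit 501265628) (nat_lit 1140) (nat_lit 5754370781) (nat_lit 1216) (nat_lit 1175918799) (nat_lit 192) (nat_lit 5) (nat_lit 207) (nat_lit 5) (nat_lit 208) (nat_lit 5) (nat_lit 287) (nat_lit 257) (nat_lit 236)) (XT.lf (nat_lit 0) (nat_lit 1352240703) (nat_lit 1216) (nat_lit 2402294106) (nat_lit 76) (nat_lit 3756599347) (nat_lit 191) (nat_lit 5) (nat_lit 207) (nat_lit 5) (nat_lit 192) (nat_lit 5) (nat_lit 288) (nat_lit 257) (nat_lit 235))))))) (XT.nd (nat_lit 1092) (nat_lit 3116) (nat_lit 0) (XT.nd (nat_lit 546) (nat_lit 2432) (nat_lit 0) (XT.nd (nat_lit 234) (nat_lit 1140) (nat_lit 0) (XT.nd (nat_lit 78) (nat_lit 684) (nat_lit 0) (XT.lf (nat_lit 0) (nat_lit 2224120063) (nat_lit 684) (nat_lit 1659642530) (nat_lit 760) (nat_lit 3710548786) (nat_lit 182) (nat_lit 5) (nat_lit 191) (nat_lit 5) (nat_lit 192) (nat_lit 5) (nat_lit 289) (nat_lit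 257) (nat_lit 234)) (XT.nd (nat_lit 78) (nat_lit 684) (nat_lit 0) (XT.lf (nat_lit 0) (nat_lit 6451679839) (nat_lit 760) (nat_lit 716374269) (nat_lit 76) (nat_lit 513208320) (nat_lit 182) (nat_lit 5) (nat_lit 192) (nat_lit 5) (nat_lit 183) (nat_lit 5) (nat_lit 290) (nat_lit 257) (nat_lit 233)) (XT.lf (nat_lit 0) (nat_lit 1288479708) (nat_lit 684) (nat_lit 3712410258) (nat_lit 76) (nat_lit 2769980272) (nat_lit 173) (nat_lit 5) (nat_lit 182) (nat_lit 5) (nat_lit 174) (nat_lit 5) (nat_lit 291) (nat_lit 257) (nat_lit 232)))) (XT.nd (nat_lit 156) (nat_lit 608) (nat_lit 0) (XT.nd (nat_lit 78) (nat_lit 0) (nat_lit 0) (XT.lf (nat_lit 0) (nat_lit 1067526837) (nat_lit 532) (nat_lit 2741138622) (nat_lit 608) (nat_lit 4055680942) (nat_lit 166) (nat_lit 5) (nat_lit 173) (nat_lit 5) (nat_lit 174) (nat_lit 5) (nat_lit 292) (nat_lit 257) (nat_lit 231)) (XT.lf (nat_lit 0) (nat_lit 5998308845) (nat_lit 532) (nat_lit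 378633979) (nat_lit 608) (nat_lit 1584591187) (nat_lit 166) (nat_lit 5) (nat_lit 173) (nat_lit 5) (nat_lit 174) (nat_lit 5) (nat_lit 293) (nat_lit 257) (nat_lit 230))) (XT.nd (nat_lit 78) (nat_lit 0) (nat_lit 0) (XT.lf (nat_lit 0) (nat_lit 926967607) (nat_lit 608) (nat_lit 5085958980) (nat_lit 76) (nat_lit 2048958234) (nat_lit 158) (nat_lit 5) (nat_lit 166) (nat_lit 5) (nat_lit 159) (nat_lit 5) (nat_lit 294) (nat_lit 257) (nat_lit 229)) (XT.lf (nat_lit 0) (nat_lit 3443148710) (nat_lit 608) (nat_lit 150031976) (nat_lit 76) (nat_lit 4572835875) (nat_lit 158) (nat_lit 5) (nat_lit 166) (nat_lit 5) (nat_lit 159) (nat_lit 5) (nat_lit 295) (nat_lit 257) (nat_lit 228))))) (XT.nd (nat_lit 234) (nat_lit 1368) (nat_lit 0) (XT.nd (nat_lit 78) (nat_lit 608) (nat_lit 0) (XT.lf (nat_lit 0) (nat_lit 4963605436) (nat_lit 456) (nat_lit 1058102051) (nat_lit 532) (nat_lit 2252030626) (nat_lit 152) (nat_lit 5) (nat_lit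 158) (nat_lit 5) (nat_lit 159) (nat_lit 5) (nat_lit 296) (nat_lit 257) (nat_lit 227)) (XT.nd (nat_lit 78) (nat_lit 0) (nat_lit 0) (XT.lf (nat_lit 0) (nat_lit 260903912) (nat_lit 608) (nat_lit 6587180123) (nat_lit 76) (nat_lit 1537380605) (nat_lit 144) (nat_lit 5) (nat_lit 152) (nat_lit 5) (nat_lit 145) (nat_lit 5) (nat_lit 297) (nat_lit 257) (nat_lit 226)) (XT.lf (nat_lit 0) (nat_lit 2788882285) (nat_lit 608) (nat_lit 1473773977) (nat_lit 76) (nat_lit 4237736664) (nat_lit 144) (nat_lit 5) (nat_lit 152) (nat_lit 5) (nat_lit 145) (nat_lit 5) (nat_lit 298) (nat_lit 257) (nat_lit 225)))) (XT.nd (nat_lit 156) (nat_lit 456) (nat_lit 0) (XT.nd (nat_lit 78) (nat_lit 456) (nat_lit 0) (XT.lf (nat_lit 0) (nat_lit 3800261085) (nat_lit 456) (nat_lit 1571383268) (nat_lit 532) (nat_lit 3247820905) (nat_lit 138) (nat_lit 5) (nat_lit 144) (nat_lit 5) (nat_lit 145) (nat_lit 5) (nat_lit 299) (nat_lit 257) (nat_lit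 224)) (XT.lf (nat_lit 0) (nat_lit 450222383) (nat_lit 456) (nat_lit 7555926058) (nat_lit 532) (nat_lit 736796191) (nat_lit 132) (nat_lit 5) (nat_lit 138) (nat_lit 5) (nat_lit 139) (nat_lit 5) (nat_lit 300) (nat_lit 257) (nat_lit 223))) (XT.nd (nat_lit 78) (nat_lit 380) (nat_lit 0) (XT.lf (nat_lit 0) (nat_lit 1821925416) (nat_lit 532) (nat_lit 2994418715) (nat_lit 76) (nat_lit 4053056204) (nat_lit 131) (nat_lit 5) (nat_lit 138) (nat_lit 5) (nat_lit 132) (nat_lit 5) (nat_lit 301) (nat_lit 257) (nat_lit 222)) (XT.lf (nat_lit 0) (nat_lit 2436628261) (nat_lit 380) (nat_lit 1974785283) (nat_lit 456) (nat_lit 4589010233) (nat_lit 126) (nat_lit 5) (nat_lit 131) (nat_lit 5) (nat_lit 132) (nat_lit 5) (nat_lit 302) (nat_lit 257) (nat_lit 221)))))) (XT.nd (nat_lit 546) (nat_lit 1444) (nat_lit 0) (XT.nd (nat_lit 234) (nat_lit 760) (nat_lit 0) (XT.nd (nat_lit 78) (nat_lit 912) (nat_lit 0) (XT.lf (nat_lit 0)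 (nat_lit 7064507365) (nat_lit 456) (nat_lit 1119287110) (nat_lit 76) (nat_lit 952061479) (nat_lit 126) (nat_lit 5) (nat_lit 132) (nat_lit 5) (nat_lit 127) (nat_lit 5) (nat_lit 303) (nat_lit 257) (nat_lit 220)) (XT.nd (nat_lit 78) (nat_lit 380) (nat_lit 0) (XT.lf (nat_lit 0) (nat_lit 522234613) (nat_lit 532) (nat_lit 4788957699) (nat_lit 76) (nat_lit 3963743519) (nat_lit 119) (nat_lit 5) (nat_lit 126) (nat_lit 5) (nat_lit 120) (nat_lit 5) (nat_lit 304) (nat_lit 257) (nat_lit 219)) (XT.lf (nat_lit 0) (nat_lit 793525791) (nat_lit 380) (nat_lit 2325646978) (nat_lit 456) (nat_lit 6299435636) (nat_lit 114) (nat_lit 5) (nat_lit 119) (nat_lit 5) (nat_lit 120) (nat_lit 5) (nat_lit 305) (nat_lit 257) (nat_lit 218)))) (XT.nd (nat_lit 156) (nat_lit 380) (nat_lit 0) (XT.nd (nat_lit 78) (nat_lit 380) (nat_lit 0) (XT.lf (nat_lit 0) (nat_lit 5798945741) (nat_lit 456) (nat_lit 2997802596) (nat_lit 76) (nat_lit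 769744475) (nat_lit 114) (nat_lit 5) (nat_lit 120) (nat_lit 5) (nat_lit 115) (nat_lit 5) (nat_lit 306) (nat_lit 257) (nat_lit 217)) (XT.lf (nat_lit 0) (nat_lit 2764524355) (nat_lit 380) (nat_lit 5794561325) (nat_lit 456) (nat_lit 1159776870) (nat_lit 109) (nat_lit 5) (nat_lit 114) (nat_lit 5) (nat_lit 115) (nat_lit 5) (nat_lit 307) (nat_lit 257) (nat_lit 216))) (XT.nd (nat_lit 78) (nat_lit 304) (nat_lit 0) (XT.lf (nat_lit 0) (nat_lit 1477690023) (nat_lit 456) (nat_lit 1193776639) (nat_lit 76) (nat_lit 7204504475) (nat_lit 108) (nat_lit 5) (nat_lit 114) (nat_lit 5) (nat_lit 109) (nat_lit 5) (nat_lit 308) (nat_lit 257) (nat_lit 215)) (XT.lf (nat_lit 0) (nat_lit 4174477366) (nat_lit 380) (nat_lit 5285446539) (nat_lit 76) (nat_lit 577463323) (nat_lit 104) (nat_lit 5) (nat_lit 109) (nat_lit 5) (nat_lit 105) (nat_lit 5) (nat_lit 309) (nat_lit 257) (nat_lit 214))))) (XT.nd (nat_lit 234) (nat_lit 684)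 (nat_lit 0) (XT.nd (nat_lit 78) (nat_lit 380) (nat_lit 0) (XT.lf (nat_lit 0) (nat_lit 618847591) (nat_lit 380) (nat_lit 6330649239) (nat_lit 456) (nat_lit 3254271776) (nat_lit 99) (nat_lit 5) (nat_lit 104) (nat_lit 5) (nat_lit 105) (nat_lit 5) (nat_lit 310) (nat_lit 257) (nat_lit 213)) (XT.nd (nat_lit 78) (nat_lit 380) (nat_lit 0) (XT.lf (nat_lit 0) (nat_lit 6745367784) (nat_lit 380) (nat_lit 3069295243) (nat_lit 456) (nat_lit 560312932) (nat_lit 99) (nat_lit 5) (nat_lit 104) (nat_lit 5) (nat_lit 105) (nat_lit 5) (nat_lit 311) (nat_lit 257) (nat_lit 212)) (XT.lf (nat_lit 0) (nat_lit 2152447543) (nat_lit 380) (nat_lit 8085547097) (nat_lit 76) (nat_lit 313289478) (nat_lit 94) (nat_lit 5) (nat_lit 99) (nat_lit 5) (nat_lit 95) (nat_lit 5) (nat_lit 312) (nat_lit 257) (nat_lit 211)))) (XT.nd (nat_lit 156) (nat_lit 380) (nat_lit 0) (XT.nd (nat_lit 78) (nat_lit 304) (nat_lit 0) (XT.lf (nat_lit 0) (nat_lit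 4957696739) (nat_lit 380) (nat_lit 2012700021) (nat_lit 76) (nat_lit 3761685206) (nat_lit 94) (nat_lit 5) (nat_lit 99) (nat_lit 5) (nat_lit 95) (nat_lit 5) (nat_lit 313) (nat_lit 257) (nat_lit 210)) (XT.lf (nat_lit 0) (nat_lit 4264416061) (nat_lit 304) (nat_lit 3579955021) (nat_lit 380) (nat_lit 3074051435) (nat_lit 90) (nat_lit 5) (nat_lit 94) (nat_lit 5) (nat_lit 95) (nat_lit 5) (nat_lit 314) (nat_lit 257) (nat_lit 209))) (XT.nd (nat_lit 78) (nat_lit 380) (nat_lit 0) (XT.lf (nat_lit 0) (nat_lit 10710572802) (nat_lit 304) (nat_lit 84364341) (nat_lit 380) (nat_lit 316133125) (nat_lit 90) (nat_lit 5) (nat_lit 94) (nat_lit 5) (nat_lit 95) (nat_lit 5) (nat_lit 315) (nat_lit 257) (nat_lit 208)) (XT.lf (nat_lit 0) (nat_lit 2525882094) (nat_lit 380) (nat_lit 5267510419) (nat_lit 76) (nat_lit 3513891941) (nat_lit 85) (nat_lit 5) (nat_lit 90) (nat_lit 5) (nat_lit 86) (nat_lit 5) (nat_lit 316) (nat_lit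 257) (nat_lit 207))))))))
noncomputable def xc96 : XT := (XT.nd (nat_lit 2106) (nat_lit 1520) (nat_lit 0) (XT.nd (nat_lit 1014) (nat_lit 1444) (nat_lit 0) (XT.nd (nat_lit 468) (nat_lit 1064) (nat_lit 0) (XT.nd (nat_lit 234) (nat_lit 380) (nat_lit 0) (XT.nd (nat_lit 78) (nat_lit 228) (nat_lit 0) (XT.lf (nat_lit 0) (nat_lit 1130077263) (nat_lit 304) (nat_lit 4290776058) (nat_lit 380) (nat_lit 6089249052) (nat_lit 81) (nat_lit 5) (nat_lit 85) (nat_lit 5) (nat_lit 86) (nat_lit 5) (nat_lit 317) (nat_lit 257) (nat_lit 206)) (XT.nd (nat_lit 78) (nat_lit 228) (nat_lit 0) (XT.lf (nat_lit 0) (nat_lit 7767992266) (nat_lit 304) (nat_lit 646782710) (nat_lit 380) (nat_lit 3303898558) (nat_lit 81) (nat_lit 5) (nat_lit 85) (nat_lit 5) (nat_lit 86) (nat_lit 5) (nat_lit 318) (nat_lit 257) (nat_lit 205)) (XT.lf (nat_lit 0) (nat_lit 2634184577) (nat_lit 228) (nat_lit 8879446985) (nat_lit 304) (nat_lit 419447569) (nat_lit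 78) (nat_lit 5) (nat_lit 81) (nat_lit 5) (nat_lit 82) (nat_lit 5) (nat_lit 319) (nat_lit 257) (nat_lit 204)))) (XT.nd (nat_lit 78) (nat_lit 304) (nat_lit 0) (XT.lf (nat_lit 0) (nat_lit 2508560528) (nat_lit 304) (nat_lit 2745608454) (nat_lit 76) (nat_lit 6898836757) (nat_lit 77) (nat_lit 5) (nat_lit 81) (nat_lit 5) (nat_lit 78) (nat_lit 5) (nat_lit 320) (nat_lit 257) (nat_lit 203)) (XT.nd (nat_lit 78) (nat_lit 0) (nat_lit 0) (XT.lf (nat_lit 0) (nat_lit 4021169264) (nat_lit 304) (nat_lit 1494744945) (nat_lit 380) (nat_lit 6863521476) (nat_lit 73) (nat_lit 5) (nat_lit 77) (nat_lit 5) (nat_lit 78) (nat_lit 5) (nat_lit 321) (nat_lit 257) (nat_lit 202)) (XT.lf (nat_lit 0) (nat_lit 8626024961) (nat_lit 380) (nat_lit 1645572389) (nat_lit 76) (nat_lit 2340712469) (nat_lit 73) (nat_lit 5) (nat_lit 78) (nat_lit 5) (nat_lit 74) (nat_lit 5) (nat_lit 322) (nat_lit 257) (nat_lit 201))))) (XT.nd (nat_lit 234)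 (nat_lit 532) (nat_lit 0) (XT.nd (nat_lit 78) (nat_lit 304) (nat_lit 0) (XT.lf (nat_lit 0) (nat_lit 5300979072) (nat_lit 228) (nat_lit 6557014770) (nat_lit 304) (nat_lit 993346273) (nat_lit 70) (nat_lit 5) (nat_lit 73) (nat_lit 5) (nat_lit 74) (nat_lit 5) (nat_lit 323) (nat_lit 257) (nat_lit 200)) (XT.nd (nat_lit 78) (nat_lit 228) (nat_lit 0) (XT.lf (nat_lit 0) (nat_lit 2028350533) (nat_lit 304) (nat_lit 684008764) (nat_lit 76) (nat_lit 10385212309) (nat_lit 69) (nat_lit 5) (nat_lit 73) (nat_lit 5) (nat_lit 70) (nat_lit 5) (nat_lit 324) (nat_lit 257) (nat_lit 199)) (XT.lf (nat_lit 0) (nat_lit 5159293113) (nat_lit 304) (nat_lit 6913042423) (nat_lit 76) (nat_lit 1277426975) (nat_lit 66) (nat_lit 5) (nat_lit 70) (nat_lit 5) (nat_lit 67) (nat_lit 5) (nat_lit 325) (nat_lit 257) (nat_lit 198)))) (XT.nd (nat_lit 156) (nat_lit 304) (nat_lit 0) (XT.nd (nat_lit 78) (nat_lit 0) (nat_lit 0) (XT.lf (nat_lit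 0) (nat_lit 95618443) (nat_lit 228) (nat_lit 8287679980) (nat_lit 304) (nat_lit 5226270307) (nat_lit 63) (nat_lit 5) (nat_lit 66) (nat_lit 5) (nat_lit 67) (nat_lit 5) (nat_lit 326) (nat_lit 257) (nat_lit 197)) (XT.lf (nat_lit 0) (nat_lit 7401685595) (nat_lit 228) (nat_lit 4337044039) (nat_lit 304) (nat_lit 2137421262) (nat_lit 63) (nat_lit 5) (nat_lit 66) (nat_lit 5) (nat_lit 67) (nat_lit 5) (nat_lit 327) (nat_lit 257) (nat_lit 196))) (XT.nd (nat_lit 78) (nat_lit 0) (nat_lit 0) (XT.lf (nat_lit 0) (nat_lit 726665725) (nat_lit 228) (nat_lit 269599377) (nat_lit 304) (nat_lit 13155009570) (nat_lit 59) (nat_lit 5) (nat_lit 62) (nat_lit 5) (nat_lit 63) (nat_lit 5) (nat_lit 328) (nat_lit 257) (nat_lit 195)) (XT.lf (nat_lit 0) (nat_lit 4250577097) (nat_lit 304) (nat_lit 6269640365) (nat_lit 76) (nat_lit 3911733554) (nat_lit 59) (nat_lit 5) (nat_lit 63) (nat_lit 5) (nat_lit 60) (nat_lit 5) (nat_lit 329)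 (nat_lit 257) (nat_lit 194)))))) (XT.nd (nat_lit 546) (nat_lit 608) (nat_lit 0) (XT.nd (nat_lit 234) (nat_lit 456) (nat_lit 0) (XT.nd (nat_lit 78) (nat_lit 228) (nat_lit 0) (XT.lf (nat_lit 0) (nat_lit 1065665691) (nat_lit 152) (nat_lit 6516628213) (nat_lit 228) (nat_lit 7139380858) (nat_lit 57) (nat_lit 5) (nat_lit 59) (nat_lit 5) (nat_lit 60) (nat_lit 5) (nat_lit 330) (nat_lit 257) (nat_lit 193)) (XT.nd (nat_lit 78) (nat_lit 228) (nat_lit 0) (XT.lf (nat_lit 0) (nat_lit 8697629242) (nat_lit 152) (nat_lit 2346972427) (nat_lit 228) (nat_lit 3974589150) (nat_lit 57) (nat_lit 5) (nat_lit 59) (nat_lit 5) (nat_lit 60) (nat_lit 5) (nat_lit 331) (nat_lit 257) (nat_lit 192)) (XT.lf (nat_lit 0) (nat_lit 1186140040) (nat_lit 228) (nat_lit 13422864028) (nat_lit 304) (nat_lit 716700732) (nat_lit 54) (nat_lit 5) (nat_lit 57) (nat_lit 5) (nat_lit 58) (nat_lit 5) (nat_lit 332) (nat_lit 257) (nat_lit 191)))) (XT.nd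 (nat_lit 156) (nat_lit 228) (nat_lit 0) (XT.nd (nat_lit 78) (nat_lit 152) (nat_lit 0) (XT.lf (nat_lit 0) (nat_lit 2643346503) (nat_lit 304) (nat_lit 6691427697) (nat_lit 76) (nat_lit 6304219581) (nat_lit 53) (nat_lit 5) (nat_lit 57) (nat_lit 5) (nat_lit 54) (nat_lit 5) (nat_lit 333) (nat_lit 257) (nat_lit 190)) (XT.lf (nat_lit 0) (nat_lit 941575878) (nat_lit 152) (nat_lit 5126403483) (nat_lit 228) (nat_lit 9894161090) (nat_lit 51) (nat_lit 5) (nat_lit 53) (nat_lit 5) (nat_lit 54) (nat_lit 5) (nat_lit 334) (nat_lit 257) (nat_lit 189))) (XT.nd (nat_lit 78) (nat_lit 228) (nat_lit 0) (XT.lf (nat_lit 0) (nat_lit 8891370957) (nat_lit 152) (nat_lit 741113073) (nat_lit 228) (nat_lit 6661400568) (nat_lit 51) (nat_lit 5) (nat_lit 53) (nat_lit 5) (nat_lit 54) (nat_lit 5) (nat_lit 335) (nat_lit 257) (nat_lit 188)) (XT.lf (nat_lit 0) (nat_lit 366276609) (nat_lit 228) (nat_lit 12947735190) (nat_lit 304) (nat_lit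 3321283200) (nat_lit 48) (nat_lit 5) (nat_lit 51) (nat_lit 5) (nat_lit 52) (nat_lit 5) (nat_lit 336) (nat_lit 257) (nat_lit 187))))) (XT.nd (nat_lit 234) (nat_lit 380) (nat_lit 0) (XT.nd (nat_lit 78) (nat_lit 152) (nat_lit 0) (XT.lf (nat_lit 0) (nat_lit 169912588) (nat_lit 304) (nat_lit 8522835687) (nat_lit 76) (nat_lit 8292584792) (nat_lit 47) (nat_lit 5) (nat_lit 51) (nat_lit 5) (nat_lit 48) (nat_lit 5) (nat_lit 337) (nat_lit 257) (nat_lit 186)) (XT.nd (nat_lit 78) (nat_lit 152) (nat_lit 0) (XT.lf (nat_lit 0) (nat_lit 3670321806) (nat_lit 304) (nat_lit 624513843) (nat_lit 76) (nat_lit 13050928306) (nat_lit 47) (nat_lit 5) (nat_lit 51) (nat_lit 5) (nat_lit 48) (nat_lit 5) (nat_lit 338) (nat_lit 257) (nat_lit 185)) (XT.lf (nat_lit 0) (nat_lit 7323807490) (nat_lit 228) (nat_lit 10105136584) (nat_lit 76) (nat_lit 286636491) (nat_lit 45) (nat_lit 5) (nat_lit 48) (nat_lit 5) (nat_lit 46) (nat_lit 5)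 (nat_lit 339) (nat_lit 257) (nat_lit 184)))) (XT.nd (nat_lit 156) (nat_lit 228) (nat_lit 0) (XT.nd (nat_lit 78) (nat_lit 152) (nat_lit 0) (XT.lf (nat_lit 0) (nat_lit 11108062634) (nat_lit 228) (nat_lit 2079835737) (nat_lit 76) (nat_lit 4907972646) (nat_lit 45) (nat_lit 5) (nat_lit 48) (nat_lit 5) (nat_lit 46) (nat_lit 5) (nat_lit 340) (nat_lit 257) (nat_lit 183)) (XT.lf (nat_lit 0) (nat_lit 6263594915) (nat_lit 152) (nat_lit 8775540567) (nat_lit 228) (nat_lit 3447449871) (nat_lit 43) (nat_lit 5) (nat_lit 45) (nat_lit 5) (nat_lit 46) (nat_lit 5) (nat_lit 341) (nat_lit 257) (nat_lit 182))) (XT.nd (nat_lit 78) (nat_lit 152) (nat_lit 0) (XT.lf (nat_lit 0) (nat_lit 189605529) (nat_lit 228) (nat_lit 4035511957) (nat_lit 76) (nat_lit 14664028140) (nat_lit 42) (nat_lit 5) (nat_lit 45) (nat_lit 5) (nat_lit 43) (nat_lit 5) (nat_lit 342) (nat_lit 257) (nat_lit 181)) (XT.lf (nat_lit 0) (nat_lit 3887803873)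 (nat_lit 228) (nat_lit 14901532099) (nat_lit 76) (nat_lit 512795789) (nat_lit 40) (nat_lit 5) (nat_lit 43) (nat_lit 5) (nat_lit 41) (nat_lit 5) (nat_lit 343) (nat_lit 257) (nat_lit 180))))))) (XT.nd (nat_lit 1092) (nat_lit 684) (nat_lit 0) (XT.nd (nat_lit 546) (nat_lit 304) (nat_lit 0) (XT.nd (nat_lit 234) (nat_lit 380) (nat_lit 0) (XT.nd (nat_lit 78) (nat_lit 152) (nat_lit 0) (XT.lf (nat_lit 0) (nat_lit 7754053523) (nat_lit 228) (nat_lit 6639842457) (nat_lit 76) (nat_lit 5331910666) (nat_lit 40) (nat_lit 5) (nat_lit 43) (nat_lit 5) (nat_lit 41) (nat_lit 5) (nat_lit 344) (nat_lit 257) (nat_lit 179)) (XT.nd (nat_lit 78) (nat_lit 0) (nat_lit 0) (XT.lf (nat_lit 0) (nat_lit 1863498480) (nat_lit 152) (nat_lit 9865577384) (nat_lit 228) (nat_lit 8433344325) (nat_lit 38) (nat_lit 5) (nat_lit 40) (nat_lit 5) (nat_lit 41) (nat_lit 5) (nat_lit 345) (nat_lit 257) (nat_lit 178)) (XT.lf (nat_lit 0) (nat_lit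 10715904231) (nat_lit 152) (nat_lit 5149692901) (nat_lit 228) (nat_lit 4745279180) (nat_lit 38) (nat_lit 5) (nat_lit 40) (nat_lit 5) (nat_lit 41) (nat_lit 5) (nat_lit 346) (nat_lit 257) (nat_lit 177)))) (XT.nd (nat_lit 156) (nat_lit 152) (nat_lit 0) (XT.nd (nat_lit 78) (nat_lit 228) (nat_lit 0) (XT.lf (nat_lit 0) (nat_lit 19792964021) (nat_lit 152) (nat_lit 309171244) (nat_lit 228) (nat_lit 971384495) (nat_lit 38) (nat_lit 5) (nat_lit 40) (nat_lit 5) (nat_lit 41) (nat_lit 5) (nat_lit 347) (nat_lit 257) (nat_lit 176)) (XT.lf (nat_lit 0) (nat_lit 2954778740) (nat_lit 228) (nat_lit 13919708566) (nat_lit 76) (nat_lit 4671846567) (nat_lit 35) (nat_lit 5) (nat_lit 38) (nat_lit 5) (nat_lit 36) (nat_lit 5) (nat_lit 348) (nat_lit 257) (nat_lit 175))) (XT.nd (nat_lit 78) (nat_lit 152) (nat_lit 0) (XT.lf (nat_lit 0) (nat_lit 6971850246) (nat_lit 228) (nat_lit 5258843380) (nat_lit 76) (nat_lit 9802581159)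 (nat_lit 35) (nat_lit 5) (nat_lit 38) (nat_lit 5) (nat_lit 36) (nat_lit 5) (nat_lit 349) (nat_lit 257) (nat_lit 174)) (XT.lf (nat_lit 0) (nat_lit 3694757408) (nat_lit 152) (nat_lit 7427403442) (nat_lit 228) (nat_lit 11412291288) (nat_lit 33) (nat_lit 5) (nat_lit 35) (nat_lit 5) (nat_lit 36) (nat_lit 5) (nat_lit 350) (nat_lit 257) (nat_lit 173))))) (XT.nd (nat_lit 234) (nat_lit 152) (nat_lit 0) (XT.nd (nat_lit 78) (nat_lit 152) (nat_lit 0) (XT.lf (nat_lit 0) (nat_lit 12985963177) (nat_lit 152) (nat_lit 2441623045) (nat_lit 228) (nat_lit 7622170159) (nat_lit 33) (nat_lit 5) (nat_lit 35) (nat_lit 5) (nat_lit 36) (nat_lit 5) (nat_lit 351) (nat_lit 257) (nat_lit 172)) (XT.nd (nat_lit 78) (nat_lit 152) (nat_lit 0) (XT.lf (nat_lit 0) (nat_lit 19866072708) (nat_lit 228) (nat_lit 1088694950) (nat_lit 76) (nat_lit 2625644589) (nat_lit 33) (nat_lit 5) (nat_lit 36) (nat_lit 5) (nat_lit 34) (nat_lit 4) (nat_lit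 352) (nat_lit 257) (nat_lit 171)) (XT.lf (nat_lit 0) (nat_lit 387643880) (nat_lit 152) (nat_lit 15872830050) (nat_lit 76) (nat_lit 7863943720) (nat_lit 31) (nat_lit 5) (nat_lit 33) (nat_lit 5) (nat_lit 32) (nat_lit 5) (nat_lit 353) (nat_lit 257) (nat_lit 170)))) (XT.nd (nat_lit 156) (nat_lit 0) (nat_lit 0) (XT.nd (nat_lit 78) (nat_lit 152) (nat_lit 0) (XT.lf (nat_lit 0) (nat_lit 4527831595) (nat_lit 152) (nat_lit 6864045532) (nat_lit 76) (nat_lit 13292077485) (nat_lit 31) (nat_lit 5) (nat_lit 33) (nat_lit 5) (nat_lit 32) (nat_lit 5) (nat_lit 354) (nat_lit 257) (nat_lit 169)) (XT.lf (nat_lit 0) (nat_lit 2426286508) (nat_lit 152) (nat_lit 6368578670) (nat_lit 228) (nat_lit 16465341692) (nat_lit 29) (nat_lit 5) (nat_lit 31) (nat_lit 5) (nat_lit 32) (nat_lit 5) (nat_lit 355) (nat_lit 257) (nat_lit 168))) (XT.nd (nat_lit 78) (nat_lit 0) (nat_lit 0) (XT.lf (nat_lit 0) (nat_lit 12100326658) (nat_lit 152)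 (nat_lit 1138472959) (nat_lit 228) (nat_lit 12613488532) (nat_lit 29) (nat_lit 5) (nat_lit 31) (nat_lit 5) (nat_lit 32) (nat_lit 5) (nat_lit 356) (nat_lit 257) (nat_lit 167)) (XT.lf (nat_lit 0) (nat_lit 17836920281) (nat_lit 228) (nat_lit 4473511523) (nat_lit 76) (nat_lit 4151081929) (nat_lit 29) (nat_lit 5) (nat_lit 32) (nat_lit 5) (nat_lit 30) (nat_lit 4) (nat_lit 357) (nat_lit 257) (nat_lit 166)))))) (XT.nd (nat_lit 546) (nat_lit 304) (nat_lit 0) (XT.nd (nat_lit 234) (nat_lit 228) (nat_lit 0) (XT.nd (nat_lit 78) (nat_lit 76) (nat_lit 0) (XT.lf (nat_lit 0) (nat_lit 5138179325) (nat_lit 76) (nat_lit 17476078925) (nat_lit 152) (nat_lit 4473527306) (nat_lit 28) (nat_lit 5) (nat_lit 29) (nat_lit 5) (nat_lit 30) (nat_lit 4) (nat_lit 358) (nat_lit 257) (nat_lit 165)) (XT.nd (nat_lit 78) (nat_lit 76) (nat_lit 0) (XT.lf (nat_lit 0) (nat_lit 15096152869) (nat_lit 76) (nat_lit 12464787661) (nat_lit 152)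 (nat_lit 171131737) (nat_lit 28) (nat_lit 5) (nat_lit 29) (nat_lit 5) (nat_lit 30) (nat_lit 4) (nat_lit 359) (nat_lit 257) (nat_lit 164)) (XT.lf (nat_lit 0) (nat_lit 4158418258) (nat_lit 152) (nat_lit 3116942780) (nat_lit 76) (nat_lit 21119668470) (nat_lit 27) (nat_lit 5) (nat_lit 29) (nat_lit 5) (nat_lit 28) (nat_lit 5) (nat_lit 360) (nat_lit 257) (nat_lit 163)))) (XT.nd (nat_lit 156) (nat_lit 76) (nat_lit 0) (XT.nd (nat_lit 78) (nat_lit 0) (nat_lit 0) (XT.lf (nat_lit 0) (nat_lit 6786128763) (nat_lit 152) (nat_lit 1875282961) (nat_lit 228) (nat_lit 20415009840) (nat_lit 25) (nat_lit 5) (nat_lit 27) (nat_lit 5) (nat_lit 28) (nat_lit 5) (nat_lit 361) (nat_lit 257) (nat_lit 162)) (XT.lf (nat_lit 0) (nat_lit 13348576782) (nat_lit 228) (nat_lit 12795175493) (nat_lit 76) (nat_lit 3633037281) (nat_lit 25) (nat_lit 5) (nat_lit 28) (nat_lit 5) (nat_lit 26) (nat_lit 4) (nat_lit 362) (nat_lit 257) (nat_lit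 161))) (XT.nd (nat_lit 78) (nat_lit 76) (nat_lit 0) (XT.lf (nat_lit 0) (nat_lit 18177307821) (nat_lit 228) (nat_lit 3065130755) (nat_lit 76) (nat_lit 9255707913) (nat_lit 25) (nat_lit 5) (nat_lit 28) (nat_lit 5) (nat_lit 26) (nat_lit 4) (nat_lit 363) (nat_lit 257) (nat_lit 160)) (XT.lf (nat_lit 0) (nat_lit 7064218100) (nat_lit 76) (nat_lit 16137485239) (nat_lit 152) (nat_lit 8037922959) (nat_lit 24) (nat_lit 5) (nat_lit 25) (nat_lit 5) (nat_lit 26) (nat_lit 4) (nat_lit 364) (nat_lit 257) (nat_lit 159))))) (XT.nd (nat_lit 234) (nat_lit 76) (nat_lit 0) (XT.nd (nat_lit 78) (nat_lit 228) (nat_lit 0) (XT.lf (nat_lit 0) (nat_lit 17530132519) (nat_lit 76) (nat_lit 10860755334) (nat_lit 152) (nat_lit 3612047000) (nat_lit 24) (nat_lit 5) (nat_lit 25) (nat_lit 5) (nat_lit 26) (nat_lit 4) (nat_lit 365) (nat_lit 257) (nat_lit 158)) (XT.nd (nat_lit 78) (nat_lit 152) (nat_lit 0) (XT.lf (nat_lit 0) (nat_lit 911562781)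 (nat_lit 152) (nat_lit 4517822159) (nat_lit 76) (nat_lit 27359987585) (nat_lit 23) (nat_lit 5) (nat_lit 25) (nat_lit 5) (nat_lit 24) (nat_lit 5) (nat_lit 366) (nat_lit 257) (nat_lit 157)) (XT.lf (nat_lit 0) (nat_lit 5540163485) (nat_lit 228) (nat_lit 27815346563) (nat_lit 76) (nat_lit 241569505) (nat_lit 21) (nat_lit 5) (nat_lit 24) (nat_lit 5) (nat_lit 22) (nat_lit 4) (nat_lit 367) (nat_lit 257) (nat_lit 156)))) (XT.nd (nat_lit 156) (nat_lit 76) (nat_lit 0) (XT.nd (nat_lit 78) (nat_lit 0) (nat_lit 0) (XT.lf (nat_lit 0) (nat_lit 10391437405) (nat_lit 228) (nat_lit 18027793257) (nat_lit 76) (nat_lit 6007278064) (nat_lit 21) (nat_lit 5) (nat_lit 24) (nat_lit 5) (nat_lit 22) (nat_lit 4) (nat_lit 368) (nat_lit 257) (nat_lit 155)) (XT.lf (nat_lit 0) (nat_lit 15372702036) (nat_lit 228) (nat_lit 7974595718) (nat_lit 76) (nat_lit 11933994675) (nat_lit 21) (nat_lit 5) (nat_lit 24) (nat_lit 5) (nat_lit 22)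 (nat_lit 4) (nat_lit 369) (nat_lit 257) (nat_lit 154))) (XT.nd (nat_lit 78) (nat_lit 0) (nat_lit 0) (XT.lf (nat_lit 0) (nat_lit 2399860319) (nat_lit 76) (nat_lit 18111518545) (nat_lit 152) (nat_lit 15650106631) (nat_lit 20) (nat_lit 5) (nat_lit 21) (nat_lit 5) (nat_lit 22) (nat_lit 4) (nat_lit 370) (nat_lit 257) (nat_lit 153)) (XT.lf (nat_lit 0) (nat_lit 13222120432) (nat_lit 76) (nat_lit 12647709740) (nat_lit 152) (nat_lit 11196290685) (nat_lit 20) (nat_lit 5) (nat_lit 21) (nat_lit 5) (nat_lit 22) (nat_lit 4) (nat_lit 371) (nat_lit 257) (nat_lit 152))))))))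
noncomputable def xc97 : XT := (XT.nd (nat_lit 2184) (nat_lit 228) (nat_lit 0) (XT.nd (nat_lit 1092) (nat_lit 304) (nat_lit 0) (XT.nd (nat_lit 546) (nat_lit 152) (nat_lit 0) (XT.nd (nat_lit 234) (nat_lit 76) (nat_lit 0) (XT.nd (nat_lit 78) (nat_lit 228) (nat_lit 0) (XT.lf (nat_lit 0) (nat_lit 24342930873) (nat_lit 76) (nat_lit 7031624917) (nat_lit 152) (nat_lit 6623778653) (nat_lit 20) (nat_lit 5) (nat_lit 21) (nat_lit 5) (nat_lit 22) (nat_lit 4) (nat_lit 372) (nat_lit 257) (nat_lit 151)) (XT.nd (nat_lit 78) (nat_lit 228) (nat_lit 0) (XT.lf (nat_lit 0) (nat_lit 35772008855) (nat_lit 76) (nat_lit 1258356819) (nat_lit 152) (nat_lit 1928575136) (nat_lit 20) (nat_lit 5) (nat_lit 21) (nat_lit 5) (nat_lit 22) (nat_lit 4) (nat_lit 373) (nat_lit 257) (nat_lit 150)) (XT.lf (nat_lit 0) (nat_lit 2956876954) (nat_lit 228) (nat_lit 32298829774) (nat_lit 76) (nat_lit 4688640728) (nat_lit 17) (nat_lit 5) (nat_lit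 20) (nat_lit 5) (nat_lit 18) (nat_lit 4) (nat_lit 374) (nat_lit 257) (nat_lit 149)))) (XT.nd (nat_lit 156) (nat_lit 76) (nat_lit 0) (XT.nd (nat_lit 78) (nat_lit 0) (nat_lit 0) (XT.lf (nat_lit 0) (nat_lit 7981360491) (nat_lit 228) (nat_lit 22146913306) (nat_lit 76) (nat_lit 10829537002) (nat_lit 17) (nat_lit 5) (nat_lit 20) (nat_lit 5) (nat_lit 18) (nat_lit 4) (nat_lit 375) (nat_lit 257) (nat_lit 148)) (XT.lf (nat_lit 0) (nat_lit 13143249371) (nat_lit 228) (nat_lit 11714672193) (nat_lit 76) (nat_lit 17144160483) (nat_lit 17) (nat_lit 5) (nat_lit 20) (nat_lit 5) (nat_lit 18) (nat_lit 4) (nat_lit 376) (nat_lit 257) (nat_lit 147))) (XT.nd (nat_lit 78) (nat_lit 76) (nat_lit 0) (XT.lf (nat_lit 0) (nat_lit 18447053981) (nat_lit 228) (nat_lit 992990886) (nat_lit 76) (nat_lit 23638028802) (nat_lit 17) (nat_lit 5) (nat_lit 20) (nat_lit 5) (nat_lit 18) (nat_lit 4) (nat_lit 377) (nat_lit 257) (nat_lit 146))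 (XT.lf (nat_lit 0) (nat_lit 10227065966) (nat_lit 76) (nat_lit 13768651562) (nat_lit 152) (nat_lit 20188059061) (nat_lit 16) (nat_lit 5) (nat_lit 17) (nat_lit 5) (nat_lit 18) (nat_lit 4) (nat_lit 378) (nat_lit 257) (nat_lit 145))))) (XT.nd (nat_lit 234) (nat_lit 152) (nat_lit 0) (XT.nd (nat_lit 78) (nat_lit 0) (nat_lit 0) (XT.lf (nat_lit 0) (nat_lit 21781462018) (nat_lit 76) (nat_lit 7926990734) (nat_lit 152) (nat_lit 15614273269) (nat_lit 16) (nat_lit 5) (nat_lit 17) (nat_lit 5) (nat_lit 18) (nat_lit 4) (nat_lit 379) (nat_lit 257) (nat_lit 144)) (XT.nd (nat_lit 78) (nat_lit 0) (nat_lit 0) (XT.lf (nat_lit 0) (nat_lit 33660530878) (nat_lit 76) (nat_lit 1919985282) (nat_lit 152) (nat_lit 10915693063) (nat_lit 16) (nat_lit 5) (nat_lit 17) (nat_lit 5) (nat_lit 18) (nat_lit 4) (nat_lit 380) (nat_lit 257) (nat_lit 143)) (XT.lf (nat_lit 0) (nat_lit 41657965467) (nat_lit 152) (nat_lit 1871526039) (nat_lit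 0) (nat_lit 4174532255) (nat_lit 16) (nat_lit 5) (nat_lit 18) (nat_lit 4) (nat_lit 16) (nat_lit 4) (nat_lit 381) (nat_lit 257) (nat_lit 142)))) (XT.nd (nat_lit 156) (nat_lit 0) (nat_lit 0) (XT.nd (nat_lit 78) (nat_lit 76) (nat_lit 0) (XT.lf (nat_lit 0) (nat_lit 9568299975) (nat_lit 76) (nat_lit 38448972704) (nat_lit 76) (nat_lit 927817483) (nat_lit 15) (nat_lit 4) (nat_lit 16) (nat_lit 5) (nat_lit 16) (nat_lit 4) (nat_lit 382) (nat_lit 257) (nat_lit 141)) (XT.lf (nat_lit 0) (nat_lit 4266856976) (nat_lit 152) (nat_lit 28896058868) (nat_lit 76) (nat_lit 17058993676) (nat_lit 14) (nat_lit 5) (nat_lit 16) (nat_lit 5) (nat_lit 15) (nat_lit 4) (nat_lit 383) (nat_lit 257) (nat_lit 140))) (XT.nd (nat_lit 78) (nat_lit 0) (nat_lit 0) (XT.lf (nat_lit 0) (nat_lit 9587623532) (nat_lit 152) (nat_lit 18130459372) (nat_lit 76) (nat_lit 23819011127) (nat_lit 14) (nat_lit 5) (nat_lit 16) (nat_lit 5) (nat_lit 15)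 (nat_lit 4) (nat_lit 384) (nat_lit 257) (nat_lit 139)) (XT.lf (nat_lit 0) (nat_lit 15057236457) (nat_lit 152) (nat_lit 7061666116) (nat_lit 76) (nat_lit 30773157876) (nat_lit 14) (nat_lit 5) (nat_lit 16) (nat_lit 5) (nat_lit 15) (nat_lit 4) (nat_lit 385) (nat_lit 257) (nat_lit 138)))))) (XT.nd (nat_lit 546) (nat_lit 152) (nat_lit 0) (XT.nd (nat_lit 234) (nat_lit 76) (nat_lit 0) (XT.nd (nat_lit 78) (nat_lit 0) (nat_lit 0) (XT.lf (nat_lit 0) (nat_lit 4405968984) (nat_lit 76) (nat_lit 16316858909) (nat_lit 152) (nat_lit 33563894245) (nat_lit 13) (nat_lit 5) (nat_lit 14) (nat_lit 5) (nat_lit 15) (nat_lit 4) (nat_lit 386) (nat_lit 257) (nat_lit 137)) (XT.nd (nat_lit 78) (nat_lit 0) (nat_lit 0) (XT.lf (nat_lit 0) (nat_lit 16343380312) (nat_lit 76) (nat_lit 10275975003) (nat_lit 152) (nat_lit 29102042214) (nat_lit 13) (nat_lit 5) (nat_lit 14) (nat_lit 5) (nat_lit 15) (nat_lit 4) (nat_lit 387) (nat_lit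 257) (nat_lit 136)) (XT.lf (nat_lit 0) (nat_lit 28620457612) (nat_lit 76) (nat_lit 4062281392) (nat_lit 152) (nat_lit 24516678175) (nat_lit 13) (nat_lit 5) (nat_lit 14) (nat_lit 5) (nat_lit 15) (nat_lit 4) (nat_lit 388) (nat_lit 257) (nat_lit 135)))) (XT.nd (nat_lit 156) (nat_lit 76) (nat_lit 0) (XT.nd (nat_lit 78) (nat_lit 0) (nat_lit 0) (XT.lf (nat_lit 0) (nat_lit 38940671098) (nat_lit 152) (nat_lit 17496538169) (nat_lit 0) (nat_lit 2284191474) (nat_lit 13) (nat_lit 5) (nat_lit 15) (nat_lit 4) (nat_lit 13) (nat_lit 4) (nat_lit 389) (nat_lit 257) (nat_lit 134)) (XT.lf (nat_lit 0) (nat_lit 45417022256) (nat_lit 152) (nat_lit 6139471918) (nat_lit 0) (nat_lit 8731631854) (nat_lit 13) (nat_lit 5) (nat_lit 15) (nat_lit 4) (nat_lit 13) (nat_lit 4) (nat_lit 390) (nat_lit 257) (nat_lit 133))) (XT.nd (nat_lit 78) (nat_lit 0) (nat_lit 0) (XT.lf (nat_lit 0) (nat_lit 5651492953) (nat_lit 76) (nat_lit 46481234947)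 (nat_lit 76) (nat_lit 9767775827) (nat_lit 12) (nat_lit 4) (nat_lit 13) (nat_lit 5) (nat_lit 13) (nat_lit 4) (nat_lit 391) (nat_lit 257) (nat_lit 132)) (XT.lf (nat_lit 0) (nat_lit 17905113167) (nat_lit 76) (nat_lit 41197633566) (nat_lit 76) (nat_lit 4456923264) (nat_lit 12) (nat_lit 4) (nat_lit 13) (nat_lit 5) (nat_lit 13) (nat_lit 4) (nat_lit 392) (nat_lit 257) (nat_lit 131))))) (XT.nd (nat_lit 234) (nat_lit 76) (nat_lit 0) (XT.nd (nat_lit 78) (nat_lit 0) (nat_lit 0) (XT.lf (nat_lit 0) (nat_lit 984504275) (nat_lit 152) (nat_lit 34768624080) (nat_lit 76) (nat_lit 29515462402) (nat_lit 11) (nat_lit 5) (nat_lit 13) (nat_lit 5) (nat_lit 12) (nat_lit 4) (nat_lit 393) (nat_lit 257) (nat_lit 130)) (XT.nd (nat_lit 78) (nat_lit 0) (nat_lit 0) (XT.lf (nat_lit 0) (nat_lit 6490878053) (nat_lit 152) (nat_lit 23616372164) (nat_lit 76) (nat_lit 36920468878) (nat_lit 11) (nat_lit 5) (nat_lit 13) (nat_lit 5) (nat_lit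 12) (nat_lit 4) (nat_lit 394) (nat_lit 257) (nat_lit 129)) (XT.lf (nat_lit 0) (nat_lit 12153980090) (nat_lit 152) (nat_lit 12145213721) (nat_lit 76) (nat_lit 44540683580) (nat_lit 11) (nat_lit 5) (nat_lit 13) (nat_lit 5) (nat_lit 12) (nat_lit 4) (nat_lit 395) (nat_lit 257) (nat_lit 128)))) (XT.nd (nat_lit 156) (nat_lit 0) (nat_lit 0) (XT.nd (nat_lit 78) (nat_lit 76) (nat_lit 0) (XT.lf (nat_lit 0) (nat_lit 17978758727) (nat_lit 152) (nat_lit 345125410) (nat_lit 76) (nat_lit 52382764947) (nat_lit 11) (nat_lit 5) (nat_lit 13) (nat_lit 5) (nat_lit 12) (nat_lit 4) (nat_lit 396) (nat_lit 257) (nat_lit 127)) (XT.lf (nat_lit 0) (nat_lit 12028931301) (nat_lit 76) (nat_lit 12057001721) (nat_lit 152) (nat_lit 48540263429) (nat_lit 10) (nat_lit 5) (nat_lit 11) (nat_lit 5) (nat_lit 12) (nat_lit 4) (nat_lit 397) (nat_lit 257) (nat_lit 126))) (XT.nd (nat_lit 78) (nat_lit 0) (nat_lit 0) (XT.lf (nat_lit 0) (nat_lit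 24766667149) (nat_lit 76) (nat_lit 5605255176) (nat_lit 152) (nat_lit 44231541954) (nat_lit 10) (nat_lit 5) (nat_lit 11) (nat_lit 5) (nat_lit 12) (nat_lit 4) (nat_lit 398) (nat_lit 257) (nat_lit 125)) (XT.lf (nat_lit 0) (nat_lit 36848770373) (nat_lit 152) (nat_lit 38777872971) (nat_lit 0) (nat_lit 1013340396) (nat_lit 10) (nat_lit 5) (nat_lit 12) (nat_lit 4) (nat_lit 10) (nat_lit 4) (nat_lit 399) (nat_lit 257) (nat_lit 124))))))) (XT.nd (nat_lit 30264) (nat_lit 0) (nat_lit 19152) (XT.nd (nat_lit 546) (nat_lit 152) (nat_lit 0) (XT.nd (nat_lit 234) (nat_lit 76) (nat_lit 0) (XT.nd (nat_lit 78) (nat_lit 0) (nat_lit 0) (XT.lf (nat_lit 0) (nat_lit 43567927778) (nat_lit 152) (nat_lit 27456620767) (nat_lit 0) (nat_lit 7711612038) (nat_lit 10) (nat_lit 5) (nat_lit 12) (nat_lit 4) (nat_lit 10) (nat_lit 4) (nat_lit 400) (nat_lit 257) (nat_lit 123)) (XT.nd (nat_lit 78) (nat_lit 0) (nat_lit 0) (XT.lf (nat_lit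 0) (nat_lit 50481384506) (nat_lit 152) (nat_lit 15809267019) (nat_lit 0) (nat_lit 14604791328) (nat_lit 10) (nat_lit 5) (nat_lit 12) (nat_lit 4) (nat_lit 10) (nat_lit 4) (nat_lit 401) (nat_lit 257) (nat_lit 122)) (XT.lf (nat_lit 0) (nat_lit 57595181442) (nat_lit 152) (nat_lit 3825634427) (nat_lit 0) (nat_lit 21698901430) (nat_lit 10) (nat_lit 5) (nat_lit 12) (nat_lit 4) (nat_lit 10) (nat_lit 4) (nat_lit 402) (nat_lit 257) (nat_lit 121)))) (XT.nd (nat_lit 156) (nat_lit 0) (nat_lit 0) (XT.nd (nat_lit 78) (nat_lit 0) (nat_lit 0) (XT.lf (nat_lit 0) (nat_lit 8674009305) (nat_lit 76) (nat_lit 56324905103) (nat_lit 76) (nat_lit 20409511660) (nat_lit 9) (nat_lit 4) (nat_lit 10) (nat_lit 5) (nat_lit 10) (nat_lit 4) (nat_lit 403) (nat_lit 257) (nat_lit 120)) (XT.lf (nat_lit 0) (nat_lit 21614430195) (nat_lit 76) (nat_lit 51042181110) (nat_lit 76) (nat_lit 15108230938) (nat_lit 9) (nat_lit 4) (nat_lit 10)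 (nat_lit 5) (nat_lit 10) (nat_lit 4) (nat_lit 404) (nat_lit 257) (nat_lit 119))) (XT.nd (nat_lit 78) (nat_lit 0) (nat_lit 0) (XT.lf (nat_lit 0) (nat_lit 34930797779) (nat_lit 76) (nat_lit 45606659325) (nat_lit 76) (nat_lit 9654692912) (nat_lit 9) (nat_lit 4) (nat_lit 10) (nat_lit 5) (nat_lit 10) (nat_lit 4) (nat_lit 405) (nat_lit 257) (nat_lit 118)) (XT.lf (nat_lit 0) (nat_lit 48634747717) (nat_lit 76) (nat_lit 40013590263) (nat_lit 76) (nat_lit 4044132353) (nat_lit 9) (nat_lit 4) (nat_lit 10) (nat_lit 5) (nat_lit 10) (nat_lit 4) (nat_lit 406) (nat_lit 257) (nat_lit 117))))) (XT.nd (nat_lit 234) (nat_lit 76) (nat_lit 0) (XT.nd (nat_lit 78) (nat_lit 0) (nat_lit 0) (XT.lf (nat_lit 0) (nat_lit 1694626772) (nat_lit 152) (nat_lit 32546347596) (nat_lit 76) (nat_lit 61026515154) (nat_lit 8) (nat_lit 5) (nat_lit 10) (nat_lit 5) (nat_lit 9) (nat_lit 4) (nat_lit 407) (nat_lit 257) (nat_lit 116)) (XT.nd (nat_lit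 78) (nat_lit 0) (nat_lit 0) (XT.lf (nat_lit 0) (nat_lit 7518181029) (nat_lit 152) (nat_lit 20741019869) (nat_lit 76) (nat_lit 69659541168) (nat_lit 8) (nat_lit 5) (nat_lit 10) (nat_lit 5) (nat_lit 9) (nat_lit 4) (nat_lit 408) (nat_lit 257) (nat_lit 115)) (XT.lf (nat_lit 0) (nat_lit 13510534547) (nat_lit 152) (nat_lit 8592549425) (nat_lit 76) (nat_lit 78546626859) (nat_lit 8) (nat_lit 5) (nat_lit 10) (nat_lit 5) (nat_lit 9) (nat_lit 4) (nat_lit 409) (nat_lit 257) (nat_lit 114)))) (XT.nd (nat_lit 29328) (nat_lit 0) (nat_lit 23560) (XT.nd (nat_lit 29250) (nat_lit 0) (nat_lit 23788) (XT.lf (nat_lit 0) (nat_lit 3987489179) (nat_lit 76) (nat_lit 15727764369) (nat_lit 152) (nat_lit 83746378647) (nat_lit 7) (nat_lit 5) (nat_lit 8) (nat_lit 5) (nat_lit 9) (nat_lit 4) (nat_lit 410) (nat_lit 257) (nat_lit 113)) (XT.lf (nat_lit 0) (nat_lit 3037364502) (nat_lit 76) (nat_lit 96333162) (nat_lit 76) (nat_lit 96333162)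 (nat_lit 320) (nat_lit 4) (nat_lit 321) (nat_lit 5) (nat_lit 321) (nat_lit 4) (nat_lit 264) (nat_lit 258) (nat_lit 258))) (XT.nd (nat_lit 78) (nat_lit 0) (nat_lit 0) (XT.lf (nat_lit 0) (nat_lit 2784374830) (nat_lit 228) (nat_lit 3562971852) (nat_lit 0) (nat_lit 122698918) (nat_lit 317) (nat_lit 5) (nat_lit 320) (nat_lit 4) (nat_lit 317) (nat_lit 4) (nat_lit 265) (nat_lit 258) (nat_lit 257)) (XT.lf (nat_lit 0) (nat_lit 5742046559) (nat_lit 228) (nat_lit 245387160) (nat_lit 0) (nat_lit 496219276) (nat_lit 317) (nat_lit 5) (nat_lit 320) (nat_lit 4) (nat_lit 317) (nat_lit 4) (nat_lit 266) (nat_lit 258) (nat_lit 256)))))) (XT.nd (nat_lit 546) (nat_lit 2812) (nat_lit 0) (XT.nd (nat_lit 234) (nat_lit 912) (nat_lit 0) (XT.nd (nat_lit 78) (nat_lit 380) (nat_lit 0) (XT.lf (nat_lit 0) (nat_lit 2168121190) (nat_lit 304) (nat_lit 3353426093) (nat_lit 76) (nat_lit 978022745) (nat_lit 313) (nat_lit 5) (nat_lit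 317) (nat_lit 5) (nat_lit 314) (nat_lit 4) (nat_lit 267) (nat_lit 258) (nat_lit 255)) (XT.nd (nat_lit 78) (nat_lit 76) (nat_lit 0) (XT.lf (nat_lit 0) (nat_lit 55073577) (nat_lit 304) (nat_lit 4992018146) (nat_lit 380) (nat_lit 1471963675) (nat_lit 309) (nat_lit 5) (nat_lit 313) (nat_lit 5) (nat_lit 314) (nat_lit 4) (nat_lit 268) (nat_lit 258) (nat_lit 254)) (XT.lf (nat_lit 0) (nat_lit 1373799168) (nat_lit 380) (nat_lit 2986866123) (nat_lit 76) (nat_lit 2180362249) (nat_lit 308) (nat_lit 5) (nat_lit 313) (nat_lit 5) (nat_lit 309) (nat_lit 5) (nat_lit 269) (nat_lit 258) (nat_lit 253)))) (XT.nd (nat_lit 156) (nat_lit 456) (nat_lit 0) (XT.nd (nat_lit 78) (nat_lit 76) (nat_lit 0) (XT.lf (nat_lit 0) (nat_lit 523377595) (nat_lit 380) (nat_lit 3655104604) (nat_lit 456) (nat_lit 2387843867) (nat_lit 303) (nat_lit 5) (nat_lit 308) (nat_lit 5) (nat_lit 309) (nat_lit 5) (nat_lit 270) (nat_lit 258) (nat_lit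 252)) (XT.lf (nat_lit 0) (nat_lit 395373322) (nat_lit 456) (nat_lit 2464547488) (nat_lit 76) (nat_lit 3734621240) (nat_lit 302) (nat_lit 5) (nat_lit 308) (nat_lit 5) (nat_lit 303) (nat_lit 5) (nat_lit 271) (nat_lit 258) (nat_lit 251))) (XT.nd (nat_lit 78) (nat_lit 0) (nat_lit 0) (XT.lf (nat_lit 0) (nat_lit 1153706212) (nat_lit 456) (nat_lit 1973670339) (nat_lit 532) (nat_lit 3498301789) (nat_lit 296) (nat_lit 5) (nat_lit 302) (nat_lit 5) (nat_lit 303) (nat_lit 5) (nat_lit 272) (nat_lit 258) (nat_lit 250)) (XT.lf (nat_lit 0) (nat_lit 4865308763) (nat_lit 456) (nat_lit 1005327924) (nat_lit 532) (nat_lit 789409410) (nat_lit 296) (nat_lit 5) (nat_lit 302) (nat_lit 5) (nat_lit 303) (nat_lit 5) (nat_lit 273) (nat_lit 258) (nat_lit 249))))) (XT.nd (nat_lit 234) (nat_lit 1520) (nat_lit 0) (XT.nd (nat_lit 78) (nat_lit 684) (nat_lit 0) (XT.lf (nat_lit 0) (nat_lit 1887087454) (nat_lit 608) (nat_lit 4752149083)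 (nat_lit 76) (nat_lit 58036151) (nat_lit 288) (nat_lit 5) (nat_lit 296) (nat_lit 5) (nat_lit 289) (nat_lit 5) (nat_lit 274) (nat_lit 258) (nat_lit 248)) (XT.nd (nat_lit 78) (nat_lit 684) (nat_lit 0) (XT.lf (nat_lit 0) (nat_lit 4564740250) (nat_lit 608) (nat_lit 987415956) (nat_lit 76) (nat_lit 1185284897) (nat_lit 288) (nat_lit 5) (nat_lit 296) (nat_lit 5) (nat_lit 289) (nat_lit 5) (nat_lit 275) (nat_lit 258) (nat_lit 247)) (XT.lf (nat_lit 0) (nat_lit 471357071) (nat_lit 684) (nat_lit 3905341640) (nat_lit 76) (nat_lit 2403969191) (nat_lit 279) (nat_lit 5) (nat_lit 288) (nat_lit 5) (nat_lit 280) (nat_lit 5) (nat_lit 276) (nat_lit 258) (nat_lit 246)))) (XT.nd (nat_lit 156) (nat_lit 836) (nat_lit 0) (XT.nd (nat_lit 78) (nat_lit 684) (nat_lit 0) (XT.lf (nat_lit 0) (nat_lit 3073220967) (nat_lit 684) (nat_lit 39931769) (nat_lit 76) (nat_lit 3713876445) (nat_lit 279) (nat_lit 5) (nat_lit 288) (nat_lit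 5) (nat_lit 280) (nat_lit 5) (nat_lit 277) (nat_lit 258) (nat_lit 245)) (XT.lf (nat_lit 0) (nat_lit 3952925149) (nat_lit 684) (nat_lit 1752857914) (nat_lit 760) (nat_lit 1170562299) (nat_lit 270) (nat_lit 5) (nat_lit 279) (nat_lit 5) (nat_lit 280) (nat_lit 5) (nat_lit 278) (nat_lit 258) (nat_lit 244))) (XT.nd (nat_lit 78) (nat_lit 0) (nat_lit 0) (XT.lf (nat_lit 0) (nat_lit 1079163858) (nat_lit 760) (nat_lit 308261568) (nat_lit 836) (nat_lit 5541631276) (nat_lit 259) (nat_lit 5) (nat_lit 269) (nat_lit 5) (nat_lit 270) (nat_lit 5) (nat_lit 279) (nat_lit 258) (nat_lit 243)) (XT.lf (nat_lit 0) (nat_lit 3957303054) (nat_lit 836) (nat_lit 1812869525) (nat_lit 76) (nat_lit 1214199960) (nat_lit 259) (nat_lit 5) (nat_lit 270) (nat_lit 5) (nat_lit 260) (nat_lit 5) (nat_lit 280) (nat_lit 258) (nat_lit 242))))))))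
noncomputable def xc98 : XT := (XT.nd (nat_lit 2106) (nat_lit 4408) (nat_lit 0) (XT.nd (nat_lit 1014) (nat_lit 4332) (nat_lit 0) (XT.nd (nat_lit 468) (nat_lit 3116) (nat_lit 0) (XT.nd (nat_lit 234) (nat_lit 2128) (nat_lit 0) (XT.nd (nat_lit 78) (nat_lit 988) (nat_lit 0) (XT.lf (nat_lit 0) (nat_lit 2320566148) (nat_lit 836) (nat_lit 4228996435) (nat_lit 912) (nat_lit 493554049) (nat_lit 248) (nat_lit 5) (nat_lit 259) (nat_lit 5) (nat_lit 260) (nat_lit 5) (nat_lit 281) (nat_lit 258) (nat_lit 241)) (XT.nd (nat_lit 78) (nat_lit 912) (nat_lit 0) (XT.lf (nat_lit 0) (nat_lit 2013889097) (nat_lit 912) (nat_lit 576398600) (nat_lit 76) (nat_lit 4514668821) (nat_lit 247) (nat_lit 5) (nat_lit 259) (nat_lit 5) (nat_lit 248) (nat_lit 5) (nat_lit 282) (nat_lit 258) (nat_lit 240)) (XT.lf (nat_lit 0) (nat_lit 3695370412) (nat_lit 912) (nat_lit 849821034) (nat_lit 988) (nat_lit 2624673422) (nat_lit 235) (nat_lit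 5) (nat_lit 247) (nat_lit 5) (nat_lit 248) (nat_lit 5) (nat_lit 283) (nat_lit 258) (nat_lit 239)))) (XT.nd (nat_lit 78) (nat_lit 1140) (nat_lit 0) (XT.lf (nat_lit 0) (nat_lit 809422305) (nat_lit 988) (nat_lit 6290476210) (nat_lit 1064) (nat_lit 138511133) (nat_lit 222) (nat_lit 5) (nat_lit 235) (nat_lit 5) (nat_lit 236) (nat_lit 5) (nat_lit 284) (nat_lit 258) (nat_lit 238)) (XT.nd (nat_lit 78) (nat_lit 1064) (nat_lit 0) (XT.lf (nat_lit 0) (nat_lit 2344268974) (nat_lit 1064) (nat_lit 2115662540) (nat_lit 76) (nat_lit 2849408405) (nat_lit 221) (nat_lit 5) (nat_lit 235) (nat_lit 5) (nat_lit 222) (nat_lit 5) (nat_lit 285) (nat_lit 258) (nat_lit 237)) (XT.lf (nat_lit 0) (nat_lit 2303911157) (nat_lit 1064) (nat_lit 2544607749) (nat_lit 1140) (nat_lit 2535448486) (nat_lit 207) (nat_lit 5) (nat_lit 221) (nat_lit 5) (nat_lit 222) (nat_lit 5) (nat_lit 286) (nat_lit 258) (nat_lit 236))))) (XT.nd (nat_lit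 234) (nat_lit 1216) (nat_lit 0) (XT.nd (nat_lit 78) (nat_lit 1900) (nat_lit 0) (XT.lf (nat_lit 0) (nat_lit 6833358300) (nat_lit 1064) (nat_lit 544998652) (nat_lit 1140) (nat_lit 84063451) (nat_lit 207) (nat_lit 5) (nat_lit 221) (nat_lit 5) (nat_lit 222) (nat_lit 5) (nat_lit 287) (nat_lit 258) (nat_lit 235)) (XT.nd (nat_lit 78) (nat_lit 684) (nat_lit 0) (XT.lf (nat_lit 0) (nat_lit 2376728144) (nat_lit 1216) (nat_lit 3615465606) (nat_lit 76) (nat_lit 1550919271) (nat_lit 191) (nat_lit 5) (nat_lit 207) (nat_lit 5) (nat_lit 192) (nat_lit 5) (nat_lit 288) (nat_lit 258) (nat_lit 234)) (XT.lf (nat_lit 0) (nat_lit 953059848) (nat_lit 684) (nat_lit 3909384912) (nat_lit 760) (nat_lit 2765264962) (nat_lit 182) (nat_lit 5) (nat_lit 191) (nat_lit 5) (nat_lit 192) (nat_lit 5) (nat_lit 289) (nat_lit 258) (nat_lit 233)))) (XT.nd (nat_lit 156) (nat_lit 532) (nat_lit 0) (XT.nd (nat_lit 78) (nat_lit 684) (nat_lit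 0) (XT.lf (nat_lit 0) (nat_lit 5666248958) (nat_lit 684) (nat_lit 1726157868) (nat_lit 760) (nat_lit 323436600) (nat_lit 182) (nat_lit 5) (nat_lit 191) (nat_lit 5) (nat_lit 192) (nat_lit 5) (nat_lit 290) (nat_lit 258) (nat_lit 232)) (XT.lf (nat_lit 0) (nat_lit 2114503965) (nat_lit 684) (nat_lit 5133279945) (nat_lit 76) (nat_lit 559320674) (nat_lit 173) (nat_lit 5) (nat_lit 182) (nat_lit 5) (nat_lit 174) (nat_lit 5) (nat_lit 291) (nat_lit 258) (nat_lit 231))) (XT.nd (nat_lit 78) (nat_lit 532) (nat_lit 0) (XT.lf (nat_lit 0) (nat_lit 4592732390) (nat_lit 684) (nat_lit 407333889) (nat_lit 76) (nat_lit 2901813456) (nat_lit 173) (nat_lit 5) (nat_lit 182) (nat_lit 5) (nat_lit 174) (nat_lit 5) (nat_lit 292) (nat_lit 258) (nat_lit 230)) (XT.lf (nat_lit 0) (nat_lit 4482506724) (nat_lit 532) (nat_lit 2643421502) (nat_lit 608) (nat_lit 874230659) (nat_lit 166) (nat_lit 5) (nat_lit 173) (nat_lit 5) (nat_lit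 174) (nat_lit 5) (nat_lit 293) (nat_lit 258) (nat_lit 229)))))) (XT.nd (nat_lit 546) (nat_lit 2204) (nat_lit 0) (XT.nd (nat_lit 234) (nat_lit 1064) (nat_lit 0) (XT.nd (nat_lit 78) (nat_lit 456) (nat_lit 0) (XT.lf (nat_lit 0) (nat_lit 1371119050) (nat_lit 532) (nat_lit 186115658) (nat_lit 608) (nat_lit 6545093935) (nat_lit 158) (nat_lit 5) (nat_lit 165) (nat_lit 5) (nat_lit 166) (nat_lit 5) (nat_lit 294) (nat_lit 258) (nat_lit 228)) (XT.nd (nat_lit 78) (nat_lit 456) (nat_lit 0) (XT.lf (nat_lit 0) (nat_lit 4041665685) (nat_lit 608) (nat_lit 1826609404) (nat_lit 76) (nat_lit 2339173574) (nat_lit 158) (nat_lit 5) (nat_lit 166) (nat_lit 5) (nat_lit 159) (nat_lit 5) (nat_lit 295) (nat_lit 258) (nat_lit 227)) (XT.lf (nat_lit 0) (nat_lit 3220869622) (nat_lit 456) (nat_lit 3353514178) (nat_lit 532) (nat_lit 1742196368) (nat_lit 152) (nat_lit 5) (nat_lit 158) (nat_lit 5) (nat_lit 159) (nat_lit 5) (nat_lit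 296) (nat_lit 258) (nat_lit 226)))) (XT.nd (nat_lit 156) (nat_lit 456) (nat_lit 0) (XT.nd (nat_lit 78) (nat_lit 532) (nat_lit 0) (XT.lf (nat_lit 0) (nat_lit 699418746) (nat_lit 532) (nat_lit 44506900) (nat_lit 76) (nat_lit 7686107888) (nat_lit 151) (nat_lit 5) (nat_lit 158) (nat_lit 5) (nat_lit 152) (nat_lit 5) (nat_lit 297) (nat_lit 258) (nat_lit 225)) (XT.lf (nat_lit 0) (nat_lit 3191437856) (nat_lit 608) (nat_lit 3387848233) (nat_lit 76) (nat_lit 1966786295) (nat_lit 144) (nat_lit 5) (nat_lit 152) (nat_lit 5) (nat_lit 145) (nat_lit 5) (nat_lit 298) (nat_lit 258) (nat_lit 224))) (XT.nd (nat_lit 78) (nat_lit 0) (nat_lit 0) (XT.lf (nat_lit 0) (nat_lit 1815445770) (nat_lit 456) (nat_lit 3912133601) (nat_lit 532) (nat_lit 2938994821) (nat_lit 138) (nat_lit 5) (nat_lit 144) (nat_lit 5) (nat_lit 145) (nat_lit 5) (nat_lit 299) (nat_lit 258) (nat_lit 223)) (XT.lf (nat_lit 0) (nat_lit 7179942596) (nat_lit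 456) (nat_lit 1139174239) (nat_lit 532) (nat_lit 472255693) (nat_lit 138) (nat_lit 5) (nat_lit 144) (nat_lit 5) (nat_lit 145) (nat_lit 5) (nat_lit 300) (nat_lit 258) (nat_lit 222))))) (XT.nd (nat_lit 234) (nat_lit 1292) (nat_lit 0) (XT.nd (nat_lit 78) (nat_lit 380) (nat_lit 0) (XT.lf (nat_lit 0) (nat_lit 2027497789) (nat_lit 532) (nat_lit 5161217512) (nat_lit 76) (nat_lit 1730679064) (nat_lit 131) (nat_lit 5) (nat_lit 138) (nat_lit 5) (nat_lit 132) (nat_lit 5) (nat_lit 301) (nat_lit 258) (nat_lit 221)) (XT.nd (nat_lit 78) (nat_lit 0) (nat_lit 0) (XT.lf (nat_lit 0) (nat_lit 194288925) (nat_lit 380) (nat_lit 4375024977) (nat_lit 456) (nat_lit 4482561486) (nat_lit 126) (nat_lit 5) (nat_lit 131) (nat_lit 5) (nat_lit 132) (nat_lit 5) (nat_lit 302) (nat_lit 258) (nat_lit 220)) (XT.lf (nat_lit 0) (nat_lit 5752370652) (nat_lit 380) (nat_lit 1435044017) (nat_lit 456) (nat_lit 2000969306) (nat_lit 126) (nat_lit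 5) (nat_lit 131) (nat_lit 5) (nat_lit 132) (nat_lit 5) (nat_lit 303) (nat_lit 258) (nat_lit 219)))) (XT.nd (nat_lit 156) (nat_lit 760) (nat_lit 0) (XT.nd (nat_lit 78) (nat_lit 0) (nat_lit 0) (XT.lf (nat_lit 0) (nat_lit 528959935) (nat_lit 532) (nat_lit 7224088900) (nat_lit 76) (nat_lit 1576288234) (nat_lit 119) (nat_lit 5) (nat_lit 126) (nat_lit 5) (nat_lit 120) (nat_lit 5) (nat_lit 304) (nat_lit 258) (nat_lit 218)) (XT.lf (nat_lit 0) (nat_lit 3093466155) (nat_lit 532) (nat_lit 1688576416) (nat_lit 76) (nat_lit 4691964392) (nat_lit 119) (nat_lit 5) (nat_lit 126) (nat_lit 5) (nat_lit 120) (nat_lit 5) (nat_lit 305) (nat_lit 258) (nat_lit 217))) (XT.nd (nat_lit 78) (nat_lit 380) (nat_lit 0) (XT.lf (nat_lit 0) (nat_lit 4029577167) (nat_lit 380) (nat_lit 1695179441) (nat_lit 456) (nat_lit 3898612889) (nat_lit 114) (nat_lit 5) (nat_lit 119) (nat_lit 5) (nat_lit 120) (nat_lit 5) (nat_lit 306) (nat_lit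 258) (nat_lit 216)) (XT.lf (nat_lit 0) (nat_lit 101933638) (nat_lit 380) (nat_lit 8317338733) (nat_lit 456) (nat_lit 1358458554) (nat_lit 109) (nat_lit 5) (nat_lit 114) (nat_lit 5) (nat_lit 115) (nat_lit 5) (nat_lit 307) (nat_lit 258) (nat_lit 215))))))) (XT.nd (nat_lit 1092) (nat_lit 1672) (nat_lit 0) (XT.nd (nat_lit 546) (nat_lit 1292) (nat_lit 0) (XT.nd (nat_lit 234) (nat_lit 1064) (nat_lit 0) (XT.nd (nat_lit 78) (nat_lit 304) (nat_lit 0) (XT.lf (nat_lit 0) (nat_lit 1259294590) (nat_lit 456) (nat_lit 3944453051) (nat_lit 76) (nat_lit 4731878533) (nat_lit 108) (nat_lit 5) (nat_lit 114) (nat_lit 5) (nat_lit 109) (nat_lit 5) (nat_lit 308) (nat_lit 258) (nat_lit 214)) (XT.nd (nat_lit 78) (nat_lit 0) (nat_lit 0) (XT.lf (nat_lit 0) (nat_lit 1921529668) (nat_lit 304) (nat_lit 1978723528) (nat_lit 380) (nat_lit 6198484946) (nat_lit 104) (nat_lit 5) (nat_lit 108) (nat_lit 5) (nat_lit 109) (nat_lit 5)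 (nat_lit 309) (nat_lit 258) (nat_lit 213)) (XT.lf (nat_lit 0) (nat_lit 6627707895) (nat_lit 380) (nat_lit 2296518855) (nat_lit 76) (nat_lit 1342340116) (nat_lit 104) (nat_lit 5) (nat_lit 109) (nat_lit 5) (nat_lit 105) (nat_lit 5) (nat_lit 310) (nat_lit 258) (nat_lit 212)))) (XT.nd (nat_lit 156) (nat_lit 608) (nat_lit 0) (XT.nd (nat_lit 78) (nat_lit 76) (nat_lit 0) (XT.lf (nat_lit 0) (nat_lit 3754046343) (nat_lit 380) (nat_lit 5694084871) (nat_lit 456) (nat_lit 991005100) (nat_lit 99) (nat_lit 5) (nat_lit 104) (nat_lit 5) (nat_lit 105) (nat_lit 5) (nat_lit 311) (nat_lit 258) (nat_lit 211)) (XT.lf (nat_lit 0) (nat_lit 1681542587) (nat_lit 456) (nat_lit 660439730) (nat_lit 76) (nat_lit 8275063544) (nat_lit 98) (nat_lit 5) (nat_lit 104) (nat_lit 5) (nat_lit 99) (nat_lit 5) (nat_lit 312) (nat_lit 258) (nat_lit 210))) (XT.nd (nat_lit 78) (nat_lit 304) (nat_lit 0) (XT.lf (nat_lit 0) (nat_lit 4436201044)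 (nat_lit 380) (nat_lit 5225513692) (nat_lit 76) (nat_lit 1137664822) (nat_lit 94) (nat_lit 5) (nat_lit 99) (nat_lit 5) (nat_lit 95) (nat_lit 5) (nat_lit 313) (nat_lit 258) (nat_lit 209)) (XT.lf (nat_lit 0) (nat_lit 957842773) (nat_lit 304) (nat_lit 6312336000) (nat_lit 380) (nat_lit 3717139835) (nat_lit 90) (nat_lit 5) (nat_lit 94) (nat_lit 5) (nat_lit 95) (nat_lit 5) (nat_lit 314) (nat_lit 258) (nat_lit 208))))) (XT.nd (nat_lit 234) (nat_lit 912) (nat_lit 0) (XT.nd (nat_lit 78) (nat_lit 380) (nat_lit 0) (XT.lf (nat_lit 0) (nat_lit 7375049682) (nat_lit 304) (nat_lit 2825114141) (nat_lit 380) (nat_lit 980437053) (nat_lit 90) (nat_lit 5) (nat_lit 94) (nat_lit 5) (nat_lit 95) (nat_lit 5) (nat_lit 315) (nat_lit 258) (nat_lit 207)) (XT.nd (nat_lit 78) (nat_lit 0) (nat_lit 0) (XT.lf (nat_lit 0) (nat_lit 1793923807) (nat_lit 380) (nat_lit 8807441405) (nat_lit 76) (nat_lit 778076045) (nat_lit 85) (nat_lit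 5) (nat_lit 90) (nat_lit 5) (nat_lit 86) (nat_lit 5) (nat_lit 316) (nat_lit 258) (nat_lit 206)) (XT.lf (nat_lit 0) (nat_lit 4658072669) (nat_lit 380) (nat_lit 2460682205) (nat_lit 76) (nat_lit 4464444611) (nat_lit 85) (nat_lit 5) (nat_lit 90) (nat_lit 5) (nat_lit 86) (nat_lit 5) (nat_lit 317) (nat_lit 258) (nat_lit 205)))) (XT.nd (nat_lit 156) (nat_lit 608) (nat_lit 0) (XT.nd (nat_lit 78) (nat_lit 0) (nat_lit 0) (XT.lf (nat_lit 0) (nat_lit 4099765916) (nat_lit 304) (nat_lit 3508452135) (nat_lit 380) (nat_lit 4184881066) (nat_lit 81) (nat_lit 5) (nat_lit 85) (nat_lit 5) (nat_lit 86) (nat_lit 5) (nat_lit 318) (nat_lit 258) (nat_lit 204)) (XT.lf (nat_lit 0) (nat_lit 10635083051) (nat_lit 380) (nat_lit 1160530811) (nat_lit 76) (nat_lit 214065337) (nat_lit 81) (nat_lit 5) (nat_lit 86) (nat_lit 5) (nat_lit 82) (nat_lit 5) (nat_lit 319) (nat_lit 258) (nat_lit 203))) (XT.nd (nat_lit 78) (nat_lit 304) (nat_lit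 0) (XT.lf (nat_lit 0) (nat_lit 1541486969) (nat_lit 304) (nat_lit 6659354420) (nat_lit 76) (nat_lit 4029970657) (nat_lit 77) (nat_lit 5) (nat_lit 81) (nat_lit 5) (nat_lit 78) (nat_lit 5) (nat_lit 320) (nat_lit 258) (nat_lit 202)) (XT.lf (nat_lit 0) (nat_lit 1522936) (nat_lit 304) (nat_lit 4490160974) (nat_lit 380) (nat_lit 7967286274) (nat_lit 73) (nat_lit 5) (nat_lit 77) (nat_lit 5) (nat_lit 78) (nat_lit 5) (nat_lit 321) (nat_lit 258) (nat_lit 201)))))) (XT.nd (nat_lit 546) (nat_lit 912) (nat_lit 0) (XT.nd (nat_lit 234) (nat_lit 456) (nat_lit 0) (XT.nd (nat_lit 78) (nat_lit 304) (nat_lit 0) (XT.lf (nat_lit 0) (nat_lit 6943534367) (nat_lit 304) (nat_lit 617072636) (nat_lit 380) (nat_lit 5132486039) (nat_lit 73) (nat_lit 5) (nat_lit 77) (nat_lit 5) (nat_lit 78) (nat_lit 5) (nat_lit 322) (nat_lit 258) (nat_lit 200)) (XT.nd (nat_lit 78) (nat_lit 76) (nat_lit 0) (XT.lf (nat_lit 0) (nat_lit 1093968840)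 (nat_lit 228) (nat_lit 9634443196) (nat_lit 304) (nat_lit 2205648932) (nat_lit 70) (nat_lit 5) (nat_lit 73) (nat_lit 5) (nat_lit 74) (nat_lit 5) (nat_lit 323) (nat_lit 258) (nat_lit 199)) (XT.lf (nat_lit 0) (nat_lit 821989321) (nat_lit 304) (nat_lit 4989049353) (nat_lit 76) (nat_lit 7370146820) (nat_lit 69) (nat_lit 5) (nat_lit 73) (nat_lit 5) (nat_lit 70) (nat_lit 5) (nat_lit 324) (nat_lit 258) (nat_lit 198)))) (XT.nd (nat_lit 156) (nat_lit 228) (nat_lit 0) (XT.nd (nat_lit 78) (nat_lit 0) (nat_lit 0) (XT.lf (nat_lit 0) (nat_lit 2032201703) (nat_lit 228) (nat_lit 1848544506) (nat_lit 304) (nat_lit 9554807397) (nat_lit 66) (nat_lit 5) (nat_lit 69) (nat_lit 5) (nat_lit 70) (nat_lit 5) (nat_lit 325) (nat_lit 258) (nat_lit 197)) (XT.lf (nat_lit 0) (nat_lit 7069029574) (nat_lit 304) (nat_lit 4405141935) (nat_lit 76) (nat_lit 2222271271) (nat_lit 66) (nat_lit 5) (nat_lit 70) (nat_lit 5) (nat_lit 67)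 (nat_lit 5) (nat_lit 326) (nat_lit 258) (nat_lit 196))) (XT.nd (nat_lit 78) (nat_lit 0) (nat_lit 0) (XT.lf (nat_lit 0) (nat_lit 2787158250) (nat_lit 228) (nat_lit 7577326675) (nat_lit 304) (nat_lit 3600350263) (nat_lit 63) (nat_lit 5) (nat_lit 66) (nat_lit 5) (nat_lit 67) (nat_lit 5) (nat_lit 327) (nat_lit 258) (nat_lit 195)) (XT.lf (nat_lit 0) (nat_lit 10234096603) (nat_lit 228) (nat_lit 3536103219) (nat_lit 304) (nat_lit 470759285) (nat_lit 63) (nat_lit 5) (nat_lit 66) (nat_lit 5) (nat_lit 67) (nat_lit 5) (nat_lit 328) (nat_lit 258) (nat_lit 194))))) (XT.nd (nat_lit 234) (nat_lit 456) (nat_lit 0) (XT.nd (nat_lit 78) (nat_lit 152) (nat_lit 0) (XT.lf (nat_lit 0) (nat_lit 2705343399) (nat_lit 304) (nat_lit 11163293303) (nat_lit 76) (nat_lit 655766409) (nat_lit 59) (nat_lit 5) (nat_lit 63) (nat_lit 5) (nat_lit 60) (nat_lit 5) (nat_lit 329) (nat_lit 258) (nat_lit 193)) (XT.nd (nat_lit 78) (nat_lit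 152) (nat_lit 0) (XT.lf (nat_lit 0) (nat_lit 6010967852) (nat_lit 304) (nat_lit 3873861020) (nat_lit 76) (nat_lit 4930090500) (nat_lit 59) (nat_lit 5) (nat_lit 63) (nat_lit 5) (nat_lit 60) (nat_lit 5) (nat_lit 330) (nat_lit 258) (nat_lit 192)) (XT.lf (nat_lit 0) (nat_lit 3656172172) (nat_lit 152) (nat_lit 5763498788) (nat_lit 228) (nat_lit 5694382068) (nat_lit 57) (nat_lit 5) (nat_lit 59) (nat_lit 5) (nat_lit 60) (nat_lit 5) (nat_lit 331) (nat_lit 258) (nat_lit 191)))) (XT.nd (nat_lit 156) (nat_lit 152) (nat_lit 0) (XT.nd (nat_lit 78) (nat_lit 304) (nat_lit 0) (XT.lf (nat_lit 0) (nat_lit 11442574149) (nat_lit 152) (nat_lit 1496383278) (nat_lit 228) (nat_lit 2482972246) (nat_lit 57) (nat_lit 5) (nat_lit 59) (nat_lit 5) (nat_lit 60) (nat_lit 5) (nat_lit 332) (nat_lit 258) (nat_lit 190)) (XT.lf (nat_lit 0) (nat_lit 842554728) (nat_lit 304) (nat_lit 12026325765) (nat_lit 76) (nat_lit 2868925771) (nat_lit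 53) (nat_lit 5) (nat_lit 57) (nat_lit 5) (nat_lit 54) (nat_lit 5) (nat_lit 333) (nat_lit 258) (nat_lit 189))) (XT.nd (nat_lit 78) (nat_lit 152) (nat_lit 0) (XT.lf (nat_lit 0) (nat_lit 4243376517) (nat_lit 304) (nat_lit 4435539567) (nat_lit 76) (nat_lit 7382759588) (nat_lit 53) (nat_lit 5) (nat_lit 57) (nat_lit 5) (nat_lit 54) (nat_lit 5) (nat_lit 334) (nat_lit 258) (nat_lit 188)) (XT.lf (nat_lit 0) (nat_lit 3402369499) (nat_lit 152) (nat_lit 4347468890) (nat_lit 228) (nat_lit 8645330876) (nat_lit 51) (nat_lit 5) (nat_lit 53) (nat_lit 5) (nat_lit 54) (nat_lit 5) (nat_lit 335) (nat_lit 258) (nat_lit 187))))))))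
noncomputable def xc99 : XT := (XT.nd (nat_lit 2184) (nat_lit 912) (nat_lit 0) (XT.nd (nat_lit 1092) (nat_lit 760) (nat_lit 0) (XT.nd (nat_lit 546) (nat_lit 608) (nat_lit 0) (XT.nd (nat_lit 234) (nat_lit 304) (nat_lit 0) (XT.nd (nat_lit 78) (nat_lit 304) (nat_lit 0) (XT.lf (nat_lit 0) (nat_lit 11378961175) (nat_lit 228) (nat_lit 5219760226) (nat_lit 76) (nat_lit 139438337) (nat_lit 51) (nat_lit 5) (nat_lit 54) (nat_lit 5) (nat_lit 52) (nat_lit 5) (nat_lit 336) (nat_lit 258) (nat_lit 186)) (XT.nd (nat_lit 78) (nat_lit 76) (nat_lit 0) (XT.lf (nat_lit 0) (nat_lit 2751251165) (nat_lit 228) (nat_lit 12407176318) (nat_lit 304) (nat_lit 1931783962) (nat_lit 48) (nat_lit 5) (nat_lit 51) (nat_lit 5) (nat_lit 52) (nat_lit 5) (nat_lit 337) (nat_lit 258) (nat_lit 185)) (XT.lf (nat_lit 0) (nat_lit 1592562678) (nat_lit 304) (nat_lit 6444720604) (nat_lit 76) (nat_lit 9414336148) (nat_lit 47) (nat_lit 5) (nat_lit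 51) (nat_lit 5) (nat_lit 48) (nat_lit 5) (nat_lit 338) (nat_lit 258) (nat_lit 184)))) (XT.nd (nat_lit 156) (nat_lit 152) (nat_lit 0) (XT.nd (nat_lit 78) (nat_lit 0) (nat_lit 0) (XT.lf (nat_lit 0) (nat_lit 1654868579) (nat_lit 152) (nat_lit 3517735259) (nat_lit 228) (nat_lit 12651042576) (nat_lit 45) (nat_lit 5) (nat_lit 47) (nat_lit 5) (nat_lit 48) (nat_lit 5) (nat_lit 339) (nat_lit 258) (nat_lit 183)) (XT.lf (nat_lit 0) (nat_lit 8909783544) (nat_lit 228) (nat_lit 8131758186) (nat_lit 76) (nat_lit 1163814233) (nat_lit 45) (nat_lit 5) (nat_lit 48) (nat_lit 5) (nat_lit 46) (nat_lit 5) (nat_lit 340) (nat_lit 258) (nat_lit 182))) (XT.nd (nat_lit 78) (nat_lit 0) (nat_lit 0) (XT.lf (nat_lit 0) (nat_lit 69348147) (nat_lit 152) (nat_lit 12699090778) (nat_lit 228) (nat_lit 5829810534) (nat_lit 43) (nat_lit 5) (nat_lit 45) (nat_lit 5) (nat_lit 46) (nat_lit 5) (nat_lit 341) (nat_lit 258) (nat_lit 181)) (XT.lf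 (nat_lit 0) (nat_lit 8640059608) (nat_lit 152) (nat_lit 8159120498) (nat_lit 228) (nat_lit 2202072949) (nat_lit 43) (nat_lit 5) (nat_lit 45) (nat_lit 5) (nat_lit 46) (nat_lit 5) (nat_lit 342) (nat_lit 258) (nat_lit 180))))) (XT.nd (nat_lit 234) (nat_lit 380) (nat_lit 0) (XT.nd (nat_lit 78) (nat_lit 152) (nat_lit 0) (XT.lf (nat_lit 0) (nat_lit 1479255310) (nat_lit 228) (nat_lit 2005585850) (nat_lit 76) (nat_lit 15931834345) (nat_lit 42) (nat_lit 5) (nat_lit 45) (nat_lit 5) (nat_lit 43) (nat_lit 5) (nat_lit 343) (nat_lit 258) (nat_lit 179)) (XT.nd (nat_lit 78) (nat_lit 0) (nat_lit 0) (XT.lf (nat_lit 0) (nat_lit 5279770981) (nat_lit 228) (nat_lit 13188350554) (nat_lit 76) (nat_lit 1374206770) (nat_lit 40) (nat_lit 5) (nat_lit 43) (nat_lit 5) (nat_lit 41) (nat_lit 5) (nat_lit 344) (nat_lit 258) (nat_lit 178)) (XT.lf (nat_lit 0) (nat_lit 9224862499) (nat_lit 228) (nat_lit 4741729470) (nat_lit 76) (nat_lit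 6313253527) (nat_lit 40) (nat_lit 5) (nat_lit 43) (nat_lit 5) (nat_lit 41) (nat_lit 5) (nat_lit 345) (nat_lit 258) (nat_lit 177)))) (XT.nd (nat_lit 156) (nat_lit 228) (nat_lit 0) (XT.nd (nat_lit 78) (nat_lit 0) (nat_lit 0) (XT.lf (nat_lit 0) (nat_lit 3996149849) (nat_lit 152) (nat_lit 9306884909) (nat_lit 228) (nat_lit 7427022888) (nat_lit 38) (nat_lit 5) (nat_lit 40) (nat_lit 5) (nat_lit 41) (nat_lit 5) (nat_lit 346) (nat_lit 258) (nat_lit 176)) (XT.lf (nat_lit 0) (nat_lit 13053640013) (nat_lit 152) (nat_lit 4474416895) (nat_lit 228) (nat_lit 3664995062) (nat_lit 38) (nat_lit 5) (nat_lit 40) (nat_lit 5) (nat_lit 41) (nat_lit 5) (nat_lit 347) (nat_lit 258) (nat_lit 175))) (XT.nd (nat_lit 78) (nat_lit 0) (nat_lit 0) (XT.lf (nat_lit 0) (nat_lit 194218809) (nat_lit 228) (nat_lit 20989905449) (nat_lit 76) (nat_lit 486109032) (nat_lit 35) (nat_lit 5) (nat_lit 38) (nat_lit 5) (nat_lit 36) (nat_lit 5)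 (nat_lit 348) (nat_lit 258) (nat_lit 174)) (XT.lf (nat_lit 0) (nat_lit 4200064051) (nat_lit 228) (nat_lit 12348344882) (nat_lit 76) (nat_lit 5609106993) (nat_lit 35) (nat_lit 5) (nat_lit 38) (nat_lit 5) (nat_lit 36) (nat_lit 5) (nat_lit 349) (nat_lit 258) (nat_lit 173)))))) (XT.nd (nat_lit 546) (nat_lit 304) (nat_lit 0) (XT.nd (nat_lit 234) (nat_lit 304) (nat_lit 0) (XT.nd (nat_lit 78) (nat_lit 152) (nat_lit 0) (XT.lf (nat_lit 0) (nat_lit 8303959102) (nat_lit 228) (nat_lit 3485584467) (nat_lit 76) (nat_lit 10870546971) (nat_lit 35) (nat_lit 5) (nat_lit 38) (nat_lit 5) (nat_lit 36) (nat_lit 5) (nat_lit 350) (nat_lit 258) (nat_lit 172)) (XT.nd (nat_lit 78) (nat_lit 0) (nat_lit 0) (XT.lf (nat_lit 0) (nat_lit 5717692735) (nat_lit 152) (nat_lit 6846759115) (nat_lit 228) (nat_lit 10612295566) (nat_lit 33) (nat_lit 5) (nat_lit 35) (nat_lit 5) (nat_lit 36) (nat_lit 5) (nat_lit 351) (nat_lit 258) (nat_lit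 171)) (XT.lf (nat_lit 0) (nat_lit 15231942659) (nat_lit 152) (nat_lit 1734807241) (nat_lit 228) (nat_lit 6741743554) (nat_lit 33) (nat_lit 5) (nat_lit 35) (nat_lit 5) (nat_lit 36) (nat_lit 5) (nat_lit 352) (nat_lit 258) (nat_lit 170)))) (XT.nd (nat_lit 156) (nat_lit 152) (nat_lit 0) (XT.nd (nat_lit 78) (nat_lit 76) (nat_lit 0) (XT.lf (nat_lit 0) (nat_lit 719537144) (nat_lit 76) (nat_lit 20801700927) (nat_lit 152) (nat_lit 2734359071) (nat_lit 32) (nat_lit 5) (nat_lit 33) (nat_lit 5) (nat_lit 34) (nat_lit 4) (nat_lit 353) (nat_lit 258) (nat_lit 169)) (XT.lf (nat_lit 0) (nat_lit 1448997308) (nat_lit 152) (nat_lit 14518755484) (nat_lit 76) (nat_lit 8848479633) (nat_lit 31) (nat_lit 5) (nat_lit 33) (nat_lit 5) (nat_lit 32) (nat_lit 5) (nat_lit 354) (nat_lit 258) (nat_lit 168))) (XT.nd (nat_lit 78) (nat_lit 152) (nat_lit 0) (XT.lf (nat_lit 0) (nat_lit 5682816165) (nat_lit 152) (nat_lit 5293015960) (nat_lit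 76) (nat_lit 14417653014) (nat_lit 31) (nat_lit 5) (nat_lit 33) (nat_lit 5) (nat_lit 32) (nat_lit 5) (nat_lit 355) (nat_lit 258) (nat_lit 167)) (XT.lf (nat_lit 0) (nat_lit 4258604954) (nat_lit 152) (nat_lit 5806485509) (nat_lit 228) (nat_lit 15922329657) (nat_lit 29) (nat_lit 5) (nat_lit 31) (nat_lit 5) (nat_lit 32) (nat_lit 5) (nat_lit 356) (nat_lit 258) (nat_lit 166))))) (XT.nd (nat_lit 234) (nat_lit 228) (nat_lit 0) (XT.nd (nat_lit 78) (nat_lit 76) (nat_lit 0) (XT.lf (nat_lit 0) (nat_lit 14171617867) (nat_lit 152) (nat_lit 441413050) (nat_lit 228) (nat_lit 11985123978) (nat_lit 29) (nat_lit 5) (nat_lit 31) (nat_lit 5) (nat_lit 32) (nat_lit 5) (nat_lit 357) (nat_lit 258) (nat_lit 165)) (XT.nd (nat_lit 78) (nat_lit 76) (nat_lit 0) (XT.lf (nat_lit 0) (nat_lit 19327461082) (nat_lit 228) (nat_lit 2927178588) (nat_lit 76) (nat_lit 4971677957) (nat_lit 29) (nat_lit 5) (nat_lit 32) (nat_lit 5) (nat_lit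 30) (nat_lit 4) (nat_lit 358) (nat_lit 258) (nat_lit 164)) (XT.lf (nat_lit 0) (nat_lit 6956387121) (nat_lit 76) (nat_lit 17279899904) (nat_lit 152) (nat_lit 3635456569) (nat_lit 28) (nat_lit 5) (nat_lit 29) (nat_lit 5) (nat_lit 30) (nat_lit 4) (nat_lit 359) (nat_lit 258) (nat_lit 163)))) (XT.nd (nat_lit 156) (nat_lit 152) (nat_lit 0) (XT.nd (nat_lit 78) (nat_lit 0) (nat_lit 0) (XT.lf (nat_lit 0) (nat_lit 752711693) (nat_lit 152) (nat_lit 11378941608) (nat_lit 76) (nat_lit 16404319428) (nat_lit 27) (nat_lit 5) (nat_lit 29) (nat_lit 5) (nat_lit 28) (nat_lit 5) (nat_lit 360) (nat_lit 258) (nat_lit 162)) (XT.lf (nat_lit 0) (nat_lit 5181751198) (nat_lit 152) (nat_lit 1623692813) (nat_lit 76) (nat_lit 22414142658) (nat_lit 27) (nat_lit 5) (nat_lit 29) (nat_lit 5) (nat_lit 28) (nat_lit 5) (nat_lit 361) (nat_lit 258) (nat_lit 161))) (XT.nd (nat_lit 78) (nat_lit 0) (nat_lit 0) (XT.lf (nat_lit 0) (nat_lit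 8560914423) (nat_lit 152) (nat_lit 1247851154) (nat_lit 228) (nat_lit 20112996772) (nat_lit 25) (nat_lit 5) (nat_lit 27) (nat_lit 5) (nat_lit 28) (nat_lit 5) (nat_lit 362) (nat_lit 258) (nat_lit 160)) (XT.lf (nat_lit 0) (nat_lit 14617076367) (nat_lit 228) (nat_lit 11633805894) (nat_lit 76) (nat_lit 4392852706) (nat_lit 25) (nat_lit 5) (nat_lit 28) (nat_lit 5) (nat_lit 26) (nat_lit 4) (nat_lit 363) (nat_lit 258) (nat_lit 159))))))) (XT.nd (nat_lit 1092) (nat_lit 304) (nat_lit 0) (XT.nd (nat_lit 546) (nat_lit 304) (nat_lit 0) (XT.nd (nat_lit 234) (nat_lit 228) (nat_lit 0) (XT.nd (nat_lit 78) (nat_lit 76) (nat_lit 0) (XT.lf (nat_lit 0) (nat_lit 19565386552) (nat_lit 228) (nat_lit 1656866362) (nat_lit 76) (nat_lit 10165247410) (nat_lit 25) (nat_lit 5) (nat_lit 28) (nat_lit 5) (nat_lit 26) (nat_lit 4) (nat_lit 364) (nat_lit 258) (nat_lit 158)) (XT.nd (nat_lit 78) (nat_lit 0) (nat_lit 0) (XT.lf (nat_lit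 0) (nat_lit 8761654936) (nat_lit 76) (nat_lit 15968592242) (nat_lit 152) (nat_lit 7421294318) (nat_lit 24) (nat_lit 5) (nat_lit 25) (nat_lit 5) (nat_lit 26) (nat_lit 4) (nat_lit 365) (nat_lit 258) (nat_lit 157)) (XT.lf (nat_lit 0) (nat_lit 19498279497) (nat_lit 76) (nat_lit 10552580369) (nat_lit 152) (nat_lit 2887625566) (nat_lit 24) (nat_lit 5) (nat_lit 25) (nat_lit 5) (nat_lit 26) (nat_lit 4) (nat_lit 366) (nat_lit 258) (nat_lit 156)))) (XT.nd (nat_lit 156) (nat_lit 0) (nat_lit 0) (XT.nd (nat_lit 78) (nat_lit 152) (nat_lit 0) (XT.lf (nat_lit 0) (nat_lit 1731659423) (nat_lit 152) (nat_lit 3237070171) (nat_lit 76) (nat_lit 28780268160) (nat_lit 23) (nat_lit 5) (nat_lit 25) (nat_lit 5) (nat_lit 24) (nat_lit 5) (nat_lit 367) (nat_lit 258) (nat_lit 155)) (XT.lf (nat_lit 0) (nat_lit 6495461804) (nat_lit 228) (nat_lit 27229598475) (nat_lit 76) (nat_lit 855993370) (nat_lit 21) (nat_lit 5) (nat_lit 24)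 (nat_lit 5) (nat_lit 22) (nat_lit 4) (nat_lit 368) (nat_lit 258) (nat_lit 154))) (XT.nd (nat_lit 78) (nat_lit 0) (nat_lit 0) (XT.lf (nat_lit 0) (nat_lit 11469290638) (nat_lit 228) (nat_lit 17189783865) (nat_lit 76) (nat_lit 6776988425) (nat_lit 21) (nat_lit 5) (nat_lit 24) (nat_lit 5) (nat_lit 22) (nat_lit 4) (nat_lit 369) (nat_lit 258) (nat_lit 153)) (XT.lf (nat_lit 0) (nat_lit 16577679321) (nat_lit 228) (nat_lit 6875150881) (nat_lit 76) (nat_lit 12864336864) (nat_lit 21) (nat_lit 5) (nat_lit 24) (nat_lit 5) (nat_lit 22) (nat_lit 4) (nat_lit 370) (nat_lit 258) (nat_lit 152))))) (XT.nd (nat_lit 234) (nat_lit 228) (nat_lit 0) (XT.nd (nat_lit 78) (nat_lit 0) (nat_lit 0) (XT.lf (nat_lit 0) (nat_lit 3797414496) (nat_lit 76) (nat_lit 18064180067) (nat_lit 152) (nat_lit 15362446305) (nat_lit 20) (nat_lit 5) (nat_lit 21) (nat_lit 5) (nat_lit 22) (nat_lit 4) (nat_lit 371) (nat_lit 258) (nat_lit 151)) (XT.nd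 (nat_lit 78) (nat_lit 0) (nat_lit 0) (XT.lf (nat_lit 0) (nat_lit 14905733917) (nat_lit 76) (nat_lit 12453661388) (nat_lit 152) (nat_lit 10797069188) (nat_lit 20) (nat_lit 5) (nat_lit 21) (nat_lit 5) (nat_lit 22) (nat_lit 4) (nat_lit 372) (nat_lit 258) (nat_lit 150)) (XT.lf (nat_lit 0) (nat_lit 26322684694) (nat_lit 76) (nat_lit 6685797311) (nat_lit 152) (nat_lit 6108792772) (nat_lit 20) (nat_lit 5) (nat_lit 21) (nat_lit 5) (nat_lit 22) (nat_lit 4) (nat_lit 373) (nat_lit 258) (nat_lit 149)))) (XT.nd (nat_lit 156) (nat_lit 0) (nat_lit 0) (XT.nd (nat_lit 78) (nat_lit 228) (nat_lit 0) (XT.lf (nat_lit 0) (nat_lit 38058242805) (nat_lit 76) (nat_lit 755547957) (nat_lit 152) (nat_lit 1293520506) (nat_lit 20) (nat_lit 5) (nat_lit 21) (nat_lit 5) (nat_lit 22) (nat_lit 4) (nat_lit 374) (nat_lit 258) (nat_lit 148)) (XT.lf (nat_lit 0) (nat_lit 3722087588) (nat_lit 228) (nat_lit 32037887979) (nat_lit 76) (nat_lit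 5362197604) (nat_lit 17) (nat_lit 5) (nat_lit 20) (nat_lit 5) (nat_lit 18) (nat_lit 4) (nat_lit 375) (nat_lit 258) (nat_lit 147))) (XT.nd (nat_lit 78) (nat_lit 0) (nat_lit 0) (XT.lf (nat_lit 0) (nat_lit 8877601622) (nat_lit 228) (nat_lit 21617236541) (nat_lit 76) (nat_lit 11671799476) (nat_lit 17) (nat_lit 5) (nat_lit 20) (nat_lit 5) (nat_lit 18) (nat_lit 4) (nat_lit 376) (nat_lit 258) (nat_lit 146)) (XT.lf (nat_lit 0) (nat_lit 14175217062) (nat_lit 228) (nat_lit 10906807345) (nat_lit 76) (nat_lit 18160792446) (nat_lit 17) (nat_lit 5) (nat_lit 20) (nat_lit 5) (nat_lit 18) (nat_lit 4) (nat_lit 377) (nat_lit 258) (nat_lit 145)))))) (XT.nd (nat_lit 546) (nat_lit 76) (nat_lit 0) (XT.nd (nat_lit 234) (nat_lit 152) (nat_lit 0) (XT.nd (nat_lit 78) (nat_lit 0) (nat_lit 0) (XT.lf (nat_lit 0) (nat_lit 104803324) (nat_lit 76) (nat_lit 19515767000) (nat_lit 152) (nat_lit 24731050618) (nat_lit 16) (nat_lit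 5) (nat_lit 17) (nat_lit 5) (nat_lit 18) (nat_lit 4) (nat_lit 378) (nat_lit 258) (nat_lit 144)) (XT.nd (nat_lit 78) (nat_lit 0) (nat_lit 0) (XT.lf (nat_lit 0) (nat_lit 11648382099) (nat_lit 76) (nat_lit 13678985582) (nat_lit 152) (nat_lit 20163382639) (nat_lit 16) (nat_lit 5) (nat_lit 17) (nat_lit 5) (nat_lit 18) (nat_lit 4) (nat_lit 379) (nat_lit 258) (nat_lit 143)) (XT.lf (nat_lit 0) (nat_lit 23516948746) (nat_lit 76) (nat_lit 7676717421) (nat_lit 152) (nat_lit 15470742056) (nat_lit 16) (nat_lit 5) (nat_lit 17) (nat_lit 5) (nat_lit 18) (nat_lit 4) (nat_lit 380) (nat_lit 258) (nat_lit 142)))) (XT.nd (nat_lit 156) (nat_lit 152) (nat_lit 0) (XT.nd (nat_lit 78) (nat_lit 0) (nat_lit 0) (XT.lf (nat_lit 0) (nat_lit 35720873860) (nat_lit 76) (nat_lit 1503717816) (nat_lit 152) (nat_lit 10649028503) (nat_lit 16) (nat_lit 5) (nat_lit 17) (nat_lit 5) (nat_lit 18) (nat_lit 4) (nat_lit 381) (nat_lit 258) (nat_lit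 141)) (XT.lf (nat_lit 0) (nat_lit 43471990966) (nat_lit 152) (nat_lit 895198737) (nat_lit 0) (nat_lit 4750855769) (nat_lit 16) (nat_lit 5) (nat_lit 18) (nat_lit 4) (nat_lit 16) (nat_lit 4) (nat_lit 382) (nat_lit 258) (nat_lit 140))) (XT.nd (nat_lit 78) (nat_lit 76) (nat_lit 0) (XT.lf (nat_lit 0) (nat_lit 10877699773) (nat_lit 76) (nat_lit 39137769553) (nat_lit 76) (nat_lit 381077744) (nat_lit 15) (nat_lit 4) (nat_lit 16) (nat_lit 5) (nat_lit 16) (nat_lit 4) (nat_lit 383) (nat_lit 258) (nat_lit 139)) (XT.lf (nat_lit 0) (nat_lit 4941816326) (nat_lit 152) (nat_lit 28759325646) (nat_lit 76) (nat_lit 18010860276) (nat_lit 14) (nat_lit 5) (nat_lit 16) (nat_lit 5) (nat_lit 15) (nat_lit 4) (nat_lit 384) (nat_lit 258) (nat_lit 138))))) (XT.nd (nat_lit 234) (nat_lit 0) (nat_lit 0) (XT.nd (nat_lit 78) (nat_lit 76) (nat_lit 0) (XT.lf (nat_lit 0) (nat_lit 10406275190) (nat_lit 152) (nat_lit 17699989670) (nat_lit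 76) (nat_lit 24960859899) (nat_lit 14) (nat_lit 5) (nat_lit 16) (nat_lit 5) (nat_lit 15) (nat_lit 4) (nat_lit 385) (nat_lit 258) (nat_lit 137)) (XT.nd (nat_lit 78) (nat_lit 76) (nat_lit 0) (XT.lf (nat_lit 0) (nat_lit 16024509815) (nat_lit 152) (nat_lit 6327512718) (nat_lit 76) (nat_lit 32111186047) (nat_lit 14) (nat_lit 5) (nat_lit 16) (nat_lit 5) (nat_lit 15) (nat_lit 4) (nat_lit 386) (nat_lit 258) (nat_lit 136)) (XT.lf (nat_lit 0) (nat_lit 5474876892) (nat_lit 76) (nat_lit 16379180311) (nat_lit 152) (nat_lit 34045837552) (nat_lit 13) (nat_lit 5) (nat_lit 14) (nat_lit 5) (nat_lit 15) (nat_lit 4) (nat_lit 387) (nat_lit 258) (nat_lit 135)))) (XT.nd (nat_lit 156) (nat_lit 0) (nat_lit 0) (XT.nd (nat_lit 78) (nat_lit 0) (nat_lit 0) (XT.lf (nat_lit 0) (nat_lit 17743127195) (nat_lit 76) (nat_lit 10169512150) (nat_lit 152) (nat_lit 29465420451) (nat_lit 13) (nat_lit 5) (nat_lit 14) (nat_lit 5) (nat_lit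 15) (nat_lit 4) (nat_lit 388) (nat_lit 258) (nat_lit 134)) (XT.lf (nat_lit 0) (nat_lit 30362028111) (nat_lit 76) (nat_lit 3781487598) (nat_lit 152) (nat_lit 24757340627) (nat_lit 13) (nat_lit 5) (nat_lit 14) (nat_lit 5) (nat_lit 15) (nat_lit 4) (nat_lit 389) (nat_lit 258) (nat_lit 133))) (XT.nd (nat_lit 78) (nat_lit 0) (nat_lit 0) (XT.lf (nat_lit 0) (nat_lit 40578954504) (nat_lit 152) (nat_lit 17153832865) (nat_lit 0) (nat_lit 2736022893) (nat_lit 13) (nat_lit 5) (nat_lit 15) (nat_lit 4) (nat_lit 13) (nat_lit 4) (nat_lit 390) (nat_lit 258) (nat_lit 132)) (XT.lf (nat_lit 0) (nat_lit 47235905034) (nat_lit 152) (nat_lit 5481324571) (nat_lit 0) (nat_lit 9365722241) (nat_lit 13) (nat_lit 5) (nat_lit 15) (nat_lit 4) (nat_lit 13) (nat_lit 4) (nat_lit 391) (nat_lit 258) (nat_lit 131))))))))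
noncomputable def xc100 : XT := (XT.nd (nat_lit 31122) (nat_lit 0) (nat_lit 10868) (XT.nd (nat_lit 1014) (nat_lit 76) (nat_lit 0) (XT.nd (nat_lit 468) (nat_lit 76) (nat_lit 0) (XT.nd (nat_lit 234) (nat_lit 76) (nat_lit 0) (XT.nd (nat_lit 78) (nat_lit 76) (nat_lit 0) (XT.lf (nat_lit 0) (nat_lit 6655111093) (nat_lit 76) (nat_lit 47492695986) (nat_lit 76) (nat_lit 9596055734) (nat_lit 12) (nat_lit 4) (nat_lit 13) (nat_lit 5) (nat_lit 13) (nat_lit 4) (nat_lit 392) (nat_lit 258) (nat_lit 130)) (XT.nd (nat_lit 78) (nat_lit 76) (nat_lit 0) (XT.lf (nat_lit 0) (nat_lit 19252046515) (nat_lit 76) (nat_lit 42061741204) (nat_lit 76) (nat_lit 4139414100) (nat_lit 12) (nat_lit 4) (nat_lit 13) (nat_lit 5) (nat_lit 13) (nat_lit 4) (nat_lit 393) (nat_lit 258) (nat_lit 129)) (XT.lf (nat_lit 0) (nat_lit 1443565613) (nat_lit 152) (nat_lit 35016827601) (nat_lit 76) (nat_lit 30753256821) (nat_lit 11) (nat_lit 5) (nat_lit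 13) (nat_lit 5) (nat_lit 12) (nat_lit 4) (nat_lit 394) (nat_lit 258) (nat_lit 128)))) (XT.nd (nat_lit 78) (nat_lit 76) (nat_lit 0) (XT.lf (nat_lit 0) (nat_lit 7102620132) (nat_lit 152) (nat_lit 23553159249) (nat_lit 76) (nat_lit 38370151437) (nat_lit 11) (nat_lit 5) (nat_lit 13) (nat_lit 5) (nat_lit 12) (nat_lit 4) (nat_lit 395) (nat_lit 258) (nat_lit 127)) (XT.nd (nat_lit 78) (nat_lit 76) (nat_lit 0) (XT.lf (nat_lit 0) (nat_lit 12923469140) (nat_lit 152) (nat_lit 11760342871) (nat_lit 76) (nat_lit 46209009420) (nat_lit 11) (nat_lit 5) (nat_lit 13) (nat_lit 5) (nat_lit 12) (nat_lit 4) (nat_lit 396) (nat_lit 258) (nat_lit 126)) (XT.lf (nat_lit 0) (nat_lit 379327991) (nat_lit 76) (nat_lit 18535517158) (nat_lit 152) (nat_lit 53900998599) (nat_lit 10) (nat_lit 5) (nat_lit 11) (nat_lit 5) (nat_lit 12) (nat_lit 4) (nat_lit 397) (nat_lit 258) (nat_lit 125))))) (XT.nd (nat_lit 234) (nat_lit 76) (nat_lit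 0) (XT.nd (nat_lit 78) (nat_lit 0) (nat_lit 0) (XT.lf (nat_lit 0) (nat_lit 13110072926) (nat_lit 76) (nat_lit 12086990272) (nat_lit 152) (nat_lit 49596162485) (nat_lit 10) (nat_lit 5) (nat_lit 11) (nat_lit 5) (nat_lit 12) (nat_lit 4) (nat_lit 398) (nat_lit 258) (nat_lit 124)) (XT.nd (nat_lit 78) (nat_lit 0) (nat_lit 0) (XT.lf (nat_lit 0) (nat_lit 26208962005) (nat_lit 76) (nat_lit 5451353122) (nat_lit 152) (nat_lit 45169838846) (nat_lit 10) (nat_lit 5) (nat_lit 11) (nat_lit 5) (nat_lit 12) (nat_lit 4) (nat_lit 399) (nat_lit 258) (nat_lit 123)) (XT.lf (nat_lit 0) (nat_lit 38323486850) (nat_lit 152) (nat_lit 39254206014) (nat_lit 0) (nat_lit 1350318437) (nat_lit 10) (nat_lit 5) (nat_lit 12) (nat_lit 4) (nat_lit 10) (nat_lit 4) (nat_lit 400) (nat_lit 258) (nat_lit 122)))) (XT.nd (nat_lit 156) (nat_lit 76) (nat_lit 0) (XT.nd (nat_lit 78) (nat_lit 0) (nat_lit 0) (XT.lf (nat_lit 0) (nat_lit 45233464024)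 (nat_lit 152) (nat_lit 27613326044) (nat_lit 0) (nat_lit 8240608778) (nat_lit 10) (nat_lit 5) (nat_lit 12) (nat_lit 4) (nat_lit 10) (nat_lit 4) (nat_lit 401) (nat_lit 258) (nat_lit 121)) (XT.lf (nat_lit 0) (nat_lit 52343882753) (nat_lit 152) (nat_lit 15635978674) (nat_lit 0) (nat_lit 15331914076) (nat_lit 10) (nat_lit 5) (nat_lit 12) (nat_lit 4) (nat_lit 10) (nat_lit 4) (nat_lit 402) (nat_lit 258) (nat_lit 120))) (XT.nd (nat_lit 78) (nat_lit 76) (nat_lit 0) (XT.lf (nat_lit 0) (nat_lit 59660956023) (nat_lit 152) (nat_lit 3311698261) (nat_lit 0) (nat_lit 22630430617) (nat_lit 10) (nat_lit 5) (nat_lit 12) (nat_lit 4) (nat_lit 10) (nat_lit 4) (nat_lit 403) (nat_lit 258) (nat_lit 119)) (XT.lf (nat_lit 0) (nat_lit 9556771007) (nat_lit 76) (nat_lit 57726171915) (nat_lit 76) (nat_lit 20677630267) (nat_lit 9) (nat_lit 4) (nat_lit 10) (nat_lit 5) (nat_lit 10) (nat_lit 4) (nat_lit 404) (nat_lit 258) (nat_lit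 118)))))) (XT.nd (nat_lit 29562) (nat_lit 0) (nat_lit 22800) (XT.nd (nat_lit 234) (nat_lit 76) (nat_lit 0) (XT.nd (nat_lit 78) (nat_lit 0) (nat_lit 0) (XT.lf (nat_lit 0) (nat_lit 22867272250) (nat_lit 76) (nat_lit 52293368542) (nat_lit 76) (nat_lit 15227335397) (nat_lit 9) (nat_lit 4) (nat_lit 10) (nat_lit 5) (nat_lit 10) (nat_lit 4) (nat_lit 405) (nat_lit 258) (nat_lit 117)) (XT.nd (nat_lit 78) (nat_lit 0) (nat_lit 0) (XT.lf (nat_lit 0) (nat_lit 36565526710) (nat_lit 76) (nat_lit 46702938715) (nat_lit 76) (nat_lit 9619923535) (nat_lit 9) (nat_lit 4) (nat_lit 10) (nat_lit 5) (nat_lit 10) (nat_lit 4) (nat_lit 406) (nat_lit 258) (nat_lit 116)) (XT.lf (nat_lit 0) (nat_lit 50663503739) (nat_lit 76) (nat_lit 40949997593) (nat_lit 76) (nat_lit 3850495000) (nat_lit 9) (nat_lit 4) (nat_lit 10) (nat_lit 5) (nat_lit 10) (nat_lit 4) (nat_lit 407) (nat_lit 258) (nat_lit 115)))) (XT.nd (nat_lit 156) (nat_lit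 0) (nat_lit 0) (XT.nd (nat_lit 78) (nat_lit 0) (nat_lit 0) (XT.lf (nat_lit 0) (nat_lit 2045286250) (nat_lit 152) (nat_lit 32963578702) (nat_lit 76) (nat_lit 63107582324) (nat_lit 8) (nat_lit 5) (nat_lit 10) (nat_lit 5) (nat_lit 9) (nat_lit 4) (nat_lit 408) (nat_lit 258) (nat_lit 114)) (XT.lf (nat_lit 0) (nat_lit 8034814493) (nat_lit 152) (nat_lit 20820377337) (nat_lit 76) (nat_lit 71992309651) (nat_lit 8) (nat_lit 5) (nat_lit 10) (nat_lit 5) (nat_lit 9) (nat_lit 4) (nat_lit 409) (nat_lit 258) (nat_lit 113))) (XT.nd (nat_lit 29094) (nat_lit 0) (nat_lit 23788) (XT.lf (nat_lit 0) (nat_lit 14198460324) (nat_lit 152) (nat_lit 8323264618) (nat_lit 76) (nat_lit 81138930760) (nat_lit 8) (nat_lit 5) (nat_lit 10) (nat_lit 5) (nat_lit 9) (nat_lit 4) (nat_lit 410) (nat_lit 258) (nat_lit 112)) (XT.lf (nat_lit 0) (nat_lit 1527975545) (nat_lit 76) (nat_lit 167227108) (nat_lit 0) (nat_lit 1527975545) (nat_lit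 321) (nat_lit 5) (nat_lit 322) (nat_lit 0) (nat_lit 321) (nat_lit 4) (nat_lit 262) (nat_lit 259) (nat_lit 259))))) (XT.nd (nat_lit 234) (nat_lit 684) (nat_lit 0) (XT.nd (nat_lit 78) (nat_lit 228) (nat_lit 0) (XT.lf (nat_lit 0) (nat_lit 2834789052) (nat_lit 76) (nat_lit 3220617294) (nat_lit 76) (nat_lit 396845318) (nat_lit 320) (nat_lit 4) (nat_lit 321) (nat_lit 5) (nat_lit 321) (nat_lit 4) (nat_lit 263) (nat_lit 259) (nat_lit 258)) (XT.nd (nat_lit 78) (nat_lit 152) (nat_lit 0) (XT.lf (nat_lit 0) (nat_lit 2523699976) (nat_lit 152) (nat_lit 442187213) (nat_lit 76) (nat_lit 3495217814) (nat_lit 319) (nat_lit 5) (nat_lit 321) (nat_lit 5) (nat_lit 320) (nat_lit 4) (nat_lit 264) (nat_lit 259) (nat_lit 257)) (XT.lf (nat_lit 0) (nat_lit 2817184470) (nat_lit 152) (nat_lit 2623287720) (nat_lit 228) (nat_lit 1032373183) (nat_lit 317) (nat_lit 5) (nat_lit 319) (nat_lit 5) (nat_lit 320) (nat_lit 4) (nat_lit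 265) (nat_lit 259) (nat_lit 256)))) (XT.nd (nat_lit 156) (nat_lit 380) (nat_lit 0) (XT.nd (nat_lit 78) (nat_lit 228) (nat_lit 0) (XT.lf (nat_lit 0) (nat_lit 1816915011) (nat_lit 228) (nat_lit 384277584) (nat_lit 76) (nat_lit 4286543052) (nat_lit 316) (nat_lit 5) (nat_lit 319) (nat_lit 5) (nat_lit 317) (nat_lit 5) (nat_lit 266) (nat_lit 259) (nat_lit 255)) (XT.lf (nat_lit 0) (nat_lit 2970869741) (nat_lit 228) (nat_lit 1682638603) (nat_lit 304) (nat_lit 1851797159) (nat_lit 313) (nat_lit 5) (nat_lit 316) (nat_lit 5) (nat_lit 317) (nat_lit 5) (nat_lit 267) (nat_lit 259) (nat_lit 254))) (XT.nd (nat_lit 78) (nat_lit 304) (nat_lit 0) (XT.lf (nat_lit 0) (nat_lit 930474384) (nat_lit 304) (nat_lit 162693857) (nat_lit 76) (nat_lit 5433159206) (nat_lit 312) (nat_lit 5) (nat_lit 316) (nat_lit 5) (nat_lit 313) (nat_lit 5) (nat_lit 268) (nat_lit 259) (nat_lit 253)) (XT.lf (nat_lit 0) (nat_lit 3294198146) (nat_lit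 304) (nat_lit 394795341) (nat_lit 380) (nat_lit 2860734969) (nat_lit 308) (nat_lit 5) (nat_lit 312) (nat_lit 5) (nat_lit 313) (nat_lit 5) (nat_lit 269) (nat_lit 259) (nat_lit 252))))))) (XT.nd (nat_lit 1092) (nat_lit 6384) (nat_lit 0) (XT.nd (nat_lit 546) (nat_lit 3344) (nat_lit 0) (XT.nd (nat_lit 234) (nat_lit 1292) (nat_lit 0) (XT.nd (nat_lit 78) (nat_lit 532) (nat_lit 0) (XT.lf (nat_lit 0) (nat_lit 220641245) (nat_lit 380) (nat_lit 6217595794) (nat_lit 456) (nat_lit 138548019) (nat_lit 303) (nat_lit 5) (nat_lit 308) (nat_lit 5) (nat_lit 309) (nat_lit 5) (nat_lit 270) (nat_lit 259) (nat_lit 251)) (XT.nd (nat_lit 78) (nat_lit 456) (nat_lit 0) (XT.lf (nat_lit 0) (nat_lit 2552596367) (nat_lit 456) (nat_lit 2832059146) (nat_lit 76) (nat_lit 1221231754) (nat_lit 302) (nat_lit 5) (nat_lit 308) (nat_lit 5) (nat_lit 303) (nat_lit 5) (nat_lit 271) (nat_lit 259) (nat_lit 250)) (XT.lf (nat_lit 0) (nat_lit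 746506180) (nat_lit 456) (nat_lit 4487401549) (nat_lit 532) (nat_lit 1404723422) (nat_lit 296) (nat_lit 5) (nat_lit 302) (nat_lit 5) (nat_lit 303) (nat_lit 5) (nat_lit 272) (nat_lit 259) (nat_lit 249)))) (XT.nd (nat_lit 156) (nat_lit 684) (nat_lit 0) (XT.nd (nat_lit 78) (nat_lit 532) (nat_lit 0) (XT.lf (nat_lit 0) (nat_lit 1232467319) (nat_lit 532) (nat_lit 2259860252) (nat_lit 76) (nat_lit 3181764674) (nat_lit 295) (nat_lit 5) (nat_lit 302) (nat_lit 5) (nat_lit 296) (nat_lit 5) (nat_lit 273) (nat_lit 259) (nat_lit 248)) (XT.lf (nat_lit 0) (nat_lit 1431474944) (nat_lit 532) (nat_lit 2411667457) (nat_lit 608) (nat_lit 2869540784) (nat_lit 288) (nat_lit 5) (nat_lit 295) (nat_lit 5) (nat_lit 296) (nat_lit 5) (nat_lit 274) (nat_lit 259) (nat_lit 247))) (XT.nd (nat_lit 78) (nat_lit 684) (nat_lit 0) (XT.lf (nat_lit 0) (nat_lit 5216579265) (nat_lit 532) (nat_lit 1249267234) (nat_lit 608) (nat_lit 288730715)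 (nat_lit 288) (nat_lit 5) (nat_lit 295) (nat_lit 5) (nat_lit 296) (nat_lit 5) (nat_lit 275) (nat_lit 259) (nat_lit 246)) (XT.lf (nat_lit 0) (nat_lit 2257795607) (nat_lit 684) (nat_lit 4523537685) (nat_lit 76) (nat_lit 17823207) (nat_lit 279) (nat_lit 5) (nat_lit 288) (nat_lit 5) (nat_lit 280) (nat_lit 5) (nat_lit 276) (nat_lit 259) (nat_lit 245))))) (XT.nd (nat_lit 234) (nat_lit 1824) (nat_lit 0) (XT.nd (nat_lit 78) (nat_lit 1520) (nat_lit 0) (XT.lf (nat_lit 0) (nat_lit 4817612384) (nat_lit 684) (nat_lit 690468236) (nat_lit 76) (nat_lit 1338769179) (nat_lit 279) (nat_lit 5) (nat_lit 288) (nat_lit 5) (nat_lit 280) (nat_lit 5) (nat_lit 277) (nat_lit 259) (nat_lit 244)) (XT.nd (nat_lit 78) (nat_lit 760) (nat_lit 0) (XT.lf (nat_lit 0) (nat_lit 495152125) (nat_lit 760) (nat_lit 3645095836) (nat_lit 76) (nat_lit 2757266180) (nat_lit 269) (nat_lit 5) (nat_lit 279) (nat_lit 5) (nat_lit 270) (nat_lit 5)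 (nat_lit 278) (nat_lit 259) (nat_lit 243)) (XT.lf (nat_lit 0) (nat_lit 299054171) (nat_lit 760) (nat_lit 2683351973) (nat_lit 836) (nat_lit 3968983143) (nat_lit 259) (nat_lit 5) (nat_lit 269) (nat_lit 5) (nat_lit 270) (nat_lit 5) (nat_lit 279) (nat_lit 259) (nat_lit 242)))) (XT.nd (nat_lit 156) (nat_lit 912) (nat_lit 0) (XT.nd (nat_lit 78) (nat_lit 912) (nat_lit 0) (XT.lf (nat_lit 0) (nat_lit 4372008537) (nat_lit 760) (nat_lit 1128850679) (nat_lit 836) (nat_lit 1507451379) (nat_lit 259) (nat_lit 5) (nat_lit 269) (nat_lit 5) (nat_lit 270) (nat_lit 5) (nat_lit 280) (nat_lit 259) (nat_lit 241)) (XT.lf (nat_lit 0) (nat_lit 947985980) (nat_lit 912) (nat_lit 5618966192) (nat_lit 76) (nat_lit 501607431) (nat_lit 247) (nat_lit 5) (nat_lit 259) (nat_lit 5) (nat_lit 248) (nat_lit 5) (nat_lit 281) (nat_lit 259) (nat_lit 240))) (XT.nd (nat_lit 78) (nat_lit 912) (nat_lit 0) (XT.lf (nat_lit 0) (nat_lit 3407883674)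 (nat_lit 912) (nat_lit 1510066405) (nat_lit 76) (nat_lit 2213501923) (nat_lit 247) (nat_lit 5) (nat_lit 259) (nat_lit 5) (nat_lit 248) (nat_lit 5) (nat_lit 282) (nat_lit 259) (nat_lit 239)) (XT.lf (nat_lit 0) (nat_lit 2710931737) (nat_lit 912) (nat_lit 3181981127) (nat_lit 988) (nat_lit 1304891421) (nat_lit 235) (nat_lit 5) (nat_lit 247) (nat_lit 5) (nat_lit 248) (nat_lit 5) (nat_lit 283) (nat_lit 259) (nat_lit 238)))))) (XT.nd (nat_lit 546) (nat_lit 2280) (nat_lit 0) (XT.nd (nat_lit 234) (nat_lit 1976) (nat_lit 0) (XT.nd (nat_lit 78) (nat_lit 2052) (nat_lit 0) (XT.lf (nat_lit 0) (nat_lit 1104605599) (nat_lit 988) (nat_lit 252749586) (nat_lit 76) (nat_lit 5910314198) (nat_lit 234) (nat_lit 5) (nat_lit 247) (nat_lit 5) (nat_lit 235) (nat_lit 5) (nat_lit 284) (nat_lit 259) (nat_lit 237)) (XT.nd (nat_lit 78) (nat_lit 1064) (nat_lit 0) (XT.lf (nat_lit 0) (nat_lit 3533479333) (nat_lit 1064) (nat_lit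 3233333306) (nat_lit 76) (nat_lit 573334185) (nat_lit 221) (nat_lit 5) (nat_lit 235) (nat_lit 5) (nat_lit 222) (nat_lit 5) (nat_lit 285) (nat_lit 259) (nat_lit 236)) (XT.lf (nat_lit 0) (nat_lit 1131443461) (nat_lit 1064) (nat_lit 4860400451) (nat_lit 1140) (nat_lit 1424356469) (nat_lit 207) (nat_lit 5) (nat_lit 221) (nat_lit 5) (nat_lit 222) (nat_lit 5) (nat_lit 286) (nat_lit 259) (nat_lit 235)))) (XT.nd (nat_lit 156) (nat_lit 760) (nat_lit 0) (XT.nd (nat_lit 78) (nat_lit 1140) (nat_lit 0) (XT.lf (nat_lit 0) (nat_lit 972694167) (nat_lit 1140) (nat_lit 1875969342) (nat_lit 76) (nat_lit 4646769190) (nat_lit 206) (nat_lit 5) (nat_lit 221) (nat_lit 5) (nat_lit 207) (nat_lit 5) (nat_lit 287) (nat_lit 259) (nat_lit 234)) (XT.lf (nat_lit 0) (nat_lit 2638744244) (nat_lit 1140) (nat_lit 732061241) (nat_lit 1216) (nat_lit 4207172109) (nat_lit 191) (nat_lit 5) (nat_lit 206) (nat_lit 5) (nat_lit 207) (nat_lit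 5) (nat_lit 288) (nat_lit 259) (nat_lit 233))) (XT.nd (nat_lit 78) (nat_lit 760) (nat_lit 0) (XT.lf (nat_lit 0) (nat_lit 5807714884) (nat_lit 1216) (nat_lit 414390596) (nat_lit 76) (nat_lit 1441977032) (nat_lit 191) (nat_lit 5) (nat_lit 207) (nat_lit 5) (nat_lit 192) (nat_lit 5) (nat_lit 289) (nat_lit 259) (nat_lit 232)) (XT.lf (nat_lit 0) (nat_lit 537610259) (nat_lit 760) (nat_lit 3499866286) (nat_lit 76) (nat_lit 3715705092) (nat_lit 181) (nat_lit 5) (nat_lit 191) (nat_lit 5) (nat_lit 182) (nat_lit 5) (nat_lit 290) (nat_lit 259) (nat_lit 231))))) (XT.nd (nat_lit 234) (nat_lit 1140) (nat_lit 0) (XT.nd (nat_lit 78) (nat_lit 532) (nat_lit 0) (XT.lf (nat_lit 0) (nat_lit 1164993277) (nat_lit 608) (nat_lit 1752822798) (nat_lit 684) (nat_lit 4928116414) (nat_lit 173) (nat_lit 5) (nat_lit 181) (nat_lit 5) (nat_lit 182) (nat_lit 5) (nat_lit 291) (nat_lit 259) (nat_lit 230)) (XT.nd (nat_lit 78) (nat_lit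 532) (nat_lit 0) (XT.lf (nat_lit 0) (nat_lit 5348422862) (nat_lit 684) (nat_lit 1970337880) (nat_lit 76) (nat_lit 623414640) (nat_lit 173) (nat_lit 5) (nat_lit 182) (nat_lit 5) (nat_lit 174) (nat_lit 5) (nat_lit 292) (nat_lit 259) (nat_lit 229)) (XT.lf (nat_lit 0) (nat_lit 2856517586) (nat_lit 532) (nat_lit 4979594960) (nat_lit 608) (nat_lit 205745125) (nat_lit 166) (nat_lit 5) (nat_lit 173) (nat_lit 5) (nat_lit 174) (nat_lit 5) (nat_lit 293) (nat_lit 259) (nat_lit 228)))) (XT.nd (nat_lit 156) (nat_lit 532) (nat_lit 0) (XT.nd (nat_lit 78) (nat_lit 532) (nat_lit 0) (XT.lf (nat_lit 0) (nat_lit 2169865905) (nat_lit 608) (nat_lit 361325510) (nat_lit 76) (nat_lit 5613963307) (nat_lit 165) (nat_lit 5) (nat_lit 173) (nat_lit 5) (nat_lit 166) (nat_lit 5) (nat_lit 294) (nat_lit 259) (nat_lit 227)) (XT.lf (nat_lit 0) (nat_lit 4599088680) (nat_lit 608) (nat_lit 3618751361) (nat_lit 76) (nat_lit 34125682)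 (nat_lit 158) (nat_lit 5) (nat_lit 166) (nat_lit 5) (nat_lit 159) (nat_lit 5) (nat_lit 295) (nat_lit 259) (nat_lit 226))) (XT.nd (nat_lit 78) (nat_lit 76) (nat_lit 0) (XT.lf (nat_lit 0) (nat_lit 1361224403) (nat_lit 456) (nat_lit 5724465163) (nat_lit 532) (nat_lit 1276824901) (nat_lit 152) (nat_lit 5) (nat_lit 158) (nat_lit 5) (nat_lit 159) (nat_lit 5) (nat_lit 296) (nat_lit 259) (nat_lit 225)) (XT.lf (nat_lit 0) (nat_lit 1127686886) (nat_lit 532) (nat_lit 1986058196) (nat_lit 76) (nat_lit 5362961003) (nat_lit 151) (nat_lit 5) (nat_lit 158) (nat_lit 5) (nat_lit 152) (nat_lit 5) (nat_lit 297) (nat_lit 259) (nat_lit 224))))))))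
noncomputable def xc101 : XT := (XT.nd (nat_lit 2184) (nat_lit 2736) (nat_lit 0) (XT.nd (nat_lit 1092) (nat_lit 2280) (nat_lit 0) (XT.nd (nat_lit 546) (nat_lit 1976) (nat_lit 0) (XT.nd (nat_lit 234) (nat_lit 988) (nat_lit 0) (XT.nd (nat_lit 78) (nat_lit 456) (nat_lit 0) (XT.lf (nat_lit 0) (nat_lit 3166703329) (nat_lit 532) (nat_lit 387179748) (nat_lit 608) (nat_lit 5040867407) (nat_lit 144) (nat_lit 5) (nat_lit 151) (nat_lit 5) (nat_lit 152) (nat_lit 5) (nat_lit 298) (nat_lit 259) (nat_lit 223)) (XT.nd (nat_lit 78) (nat_lit 456) (nat_lit 0) (XT.lf (nat_lit 0) (nat_lit 6042112490) (nat_lit 608) (nat_lit 287535057) (nat_lit 76) (nat_lit 2387072071) (nat_lit 144) (nat_lit 5) (nat_lit 152) (nat_lit 5) (nat_lit 145) (nat_lit 5) (nat_lit 299) (nat_lit 259) (nat_lit 222)) (XT.lf (nat_lit 0) (nat_lit 5040466113) (nat_lit 456) (nat_lit 3564108748) (nat_lit 532) (nat_lit 237844434) (nat_lit 138) (nat_lit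 5) (nat_lit 144) (nat_lit 5) (nat_lit 145) (nat_lit 5) (nat_lit 300) (nat_lit 259) (nat_lit 221)))) (XT.nd (nat_lit 156) (nat_lit 456) (nat_lit 0) (XT.nd (nat_lit 78) (nat_lit 0) (nat_lit 0) (XT.lf (nat_lit 0) (nat_lit 1508213689) (nat_lit 456) (nat_lit 684586231) (nat_lit 532) (nat_lit 6779537079) (nat_lit 131) (nat_lit 5) (nat_lit 137) (nat_lit 5) (nat_lit 138) (nat_lit 5) (nat_lit 301) (nat_lit 259) (nat_lit 220)) (XT.lf (nat_lit 0) (nat_lit 4700811169) (nat_lit 532) (nat_lit 2136686149) (nat_lit 76) (nat_lit 2268361471) (nat_lit 131) (nat_lit 5) (nat_lit 138) (nat_lit 5) (nat_lit 132) (nat_lit 5) (nat_lit 302) (nat_lit 259) (nat_lit 219))) (XT.nd (nat_lit 78) (nat_lit 76) (nat_lit 0) (XT.lf (nat_lit 0) (nat_lit 3348315208) (nat_lit 380) (nat_lit 3924737062) (nat_lit 456) (nat_lit 1970716743) (nat_lit 126) (nat_lit 5) (nat_lit 131) (nat_lit 5) (nat_lit 132) (nat_lit 5) (nat_lit 303) (nat_lit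 259) (nat_lit 218)) (XT.lf (nat_lit 0) (nat_lit 498328165) (nat_lit 456) (nat_lit 410134390) (nat_lit 76) (nat_lit 8478084008) (nat_lit 125) (nat_lit 5) (nat_lit 131) (nat_lit 5) (nat_lit 126) (nat_lit 5) (nat_lit 304) (nat_lit 259) (nat_lit 217))))) (XT.nd (nat_lit 234) (nat_lit 1140) (nat_lit 0) (XT.nd (nat_lit 78) (nat_lit 380) (nat_lit 0) (XT.lf (nat_lit 0) (nat_lit 3025959319) (nat_lit 532) (nat_lit 4291248447) (nat_lit 76) (nat_lit 2215138597) (nat_lit 119) (nat_lit 5) (nat_lit 126) (nat_lit 5) (nat_lit 120) (nat_lit 5) (nat_lit 305) (nat_lit 259) (nat_lit 216)) (XT.nd (nat_lit 78) (nat_lit 0) (nat_lit 0) (XT.lf (nat_lit 0) (nat_lit 1344837180) (nat_lit 380) (nat_lit 4263225003) (nat_lit 456) (nat_lit 4075145304) (nat_lit 114) (nat_lit 5) (nat_lit 119) (nat_lit 5) (nat_lit 120) (nat_lit 5) (nat_lit 306) (nat_lit 259) (nat_lit 215)) (XT.lf (nat_lit 0) (nat_lit 7178314046) (nat_lit 380) (nat_lit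 1085994343) (nat_lit 456) (nat_lit 1574430908) (nat_lit 114) (nat_lit 5) (nat_lit 119) (nat_lit 5) (nat_lit 120) (nat_lit 5) (nat_lit 307) (nat_lit 259) (nat_lit 214)))) (XT.nd (nat_lit 156) (nat_lit 684) (nat_lit 0) (XT.nd (nat_lit 78) (nat_lit 0) (nat_lit 0) (XT.lf (nat_lit 0) (nat_lit 987852914) (nat_lit 456) (nat_lit 6838997479) (nat_lit 76) (nat_lit 2171657961) (nat_lit 108) (nat_lit 5) (nat_lit 114) (nat_lit 5) (nat_lit 109) (nat_lit 5) (nat_lit 308) (nat_lit 259) (nat_lit 213)) (XT.lf (nat_lit 0) (nat_lit 3588104062) (nat_lit 456) (nat_lit 1039851067) (nat_lit 76) (nat_lit 5534906818) (nat_lit 108) (nat_lit 5) (nat_lit 114) (nat_lit 5) (nat_lit 109) (nat_lit 5) (nat_lit 309) (nat_lit 259) (nat_lit 212))) (XT.nd (nat_lit 78) (nat_lit 380) (nat_lit 0) (XT.lf (nat_lit 0) (nat_lit 4972474510) (nat_lit 304) (nat_lit 1297861290) (nat_lit 380) (nat_lit 4061731370) (nat_lit 104) (nat_lit 5) (nat_lit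 108) (nat_lit 5) (nat_lit 109) (nat_lit 5) (nat_lit 310) (nat_lit 259) (nat_lit 211)) (XT.lf (nat_lit 0) (nat_lit 613366790) (nat_lit 380) (nat_lit 8413428101) (nat_lit 456) (nat_lit 1479779886) (nat_lit 99) (nat_lit 5) (nat_lit 104) (nat_lit 5) (nat_lit 105) (nat_lit 5) (nat_lit 311) (nat_lit 259) (nat_lit 210)))))) (XT.nd (nat_lit 546) (nat_lit 912) (nat_lit 0) (XT.nd (nat_lit 234) (nat_lit 988) (nat_lit 0) (XT.nd (nat_lit 78) (nat_lit 304) (nat_lit 0) (XT.lf (nat_lit 0) (nat_lit 1181127796) (nat_lit 456) (nat_lit 3892812255) (nat_lit 76) (nat_lit 5611338685) (nat_lit 98) (nat_lit 5) (nat_lit 104) (nat_lit 5) (nat_lit 99) (nat_lit 5) (nat_lit 312) (nat_lit 259) (nat_lit 209)) (XT.nd (nat_lit 78) (nat_lit 0) (nat_lit 0) (XT.lf (nat_lit 0) (nat_lit 2259981915) (nat_lit 304) (nat_lit 1612124315) (nat_lit 380) (nat_lit 6997434203) (nat_lit 94) (nat_lit 5) (nat_lit 98) (nat_lit 5) (nat_lit 99) (nat_lit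 5) (nat_lit 313) (nat_lit 259) (nat_lit 208)) (XT.lf (nat_lit 0) (nat_lit 6661077136) (nat_lit 380) (nat_lit 2457781206) (nat_lit 76) (nat_lit 1939988432) (nat_lit 94) (nat_lit 5) (nat_lit 99) (nat_lit 5) (nat_lit 95) (nat_lit 5) (nat_lit 314) (nat_lit 259) (nat_lit 207)))) (XT.nd (nat_lit 156) (nat_lit 608) (nat_lit 0) (XT.nd (nat_lit 78) (nat_lit 76) (nat_lit 0) (XT.lf (nat_lit 0) (nat_lit 3882404404) (nat_lit 304) (nat_lit 5664580322) (nat_lit 380) (nat_lit 1706483229) (nat_lit 90) (nat_lit 5) (nat_lit 94) (nat_lit 5) (nat_lit 95) (nat_lit 5) (nat_lit 315) (nat_lit 259) (nat_lit 206)) (XT.lf (nat_lit 0) (nat_lit 1030010605) (nat_lit 380) (nat_lit 1056712418) (nat_lit 76) (nat_lit 9367371372) (nat_lit 89) (nat_lit 5) (nat_lit 94) (nat_lit 5) (nat_lit 90) (nat_lit 5) (nat_lit 316) (nat_lit 259) (nat_lit 205))) (XT.nd (nat_lit 78) (nat_lit 304) (nat_lit 0) (XT.lf (nat_lit 0) (nat_lit 3844260078)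 (nat_lit 380) (nat_lit 6193166078) (nat_lit 76) (nat_lit 1621938629) (nat_lit 85) (nat_lit 5) (nat_lit 90) (nat_lit 5) (nat_lit 86) (nat_lit 5) (nat_lit 317) (nat_lit 259) (nat_lit 204)) (XT.lf (nat_lit 0) (nat_lit 265333750) (nat_lit 304) (nat_lit 6473399179) (nat_lit 380) (nat_lit 5132216402) (nat_lit 81) (nat_lit 5) (nat_lit 85) (nat_lit 5) (nat_lit 86) (nat_lit 5) (nat_lit 318) (nat_lit 259) (nat_lit 203))))) (XT.nd (nat_lit 234) (nat_lit 608) (nat_lit 0) (XT.nd (nat_lit 78) (nat_lit 304) (nat_lit 0) (XT.lf (nat_lit 0) (nat_lit 6990019083) (nat_lit 304) (nat_lit 2754956331) (nat_lit 380) (nat_lit 2343186987) (nat_lit 81) (nat_lit 5) (nat_lit 85) (nat_lit 5) (nat_lit 86) (nat_lit 5) (nat_lit 319) (nat_lit 259) (nat_lit 202)) (XT.nd (nat_lit 78) (nat_lit 0) (nat_lit 0) (XT.lf (nat_lit 0) (nat_lit 507810798) (nat_lit 304) (nat_lit 10746261810) (nat_lit 76) (nat_lit 1058035029) (nat_lit 77) (nat_lit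 5) (nat_lit 81) (nat_lit 5) (nat_lit 78) (nat_lit 5) (nat_lit 320) (nat_lit 259) (nat_lit 201)) (XT.lf (nat_lit 0) (nat_lit 3440015002) (nat_lit 304) (nat_lit 4112076872) (nat_lit 76) (nat_lit 4988726777) (nat_lit 77) (nat_lit 5) (nat_lit 81) (nat_lit 5) (nat_lit 78) (nat_lit 5) (nat_lit 321) (nat_lit 259) (nat_lit 200)))) (XT.nd (nat_lit 156) (nat_lit 304) (nat_lit 0) (XT.nd (nat_lit 78) (nat_lit 0) (nat_lit 0) (XT.lf (nat_lit 0) (nat_lit 2721694862) (nat_lit 304) (nat_lit 3729220504) (nat_lit 380) (nat_lit 6325779541) (nat_lit 73) (nat_lit 5) (nat_lit 77) (nat_lit 5) (nat_lit 78) (nat_lit 5) (nat_lit 322) (nat_lit 259) (nat_lit 199)) (XT.lf (nat_lit 0) (nat_lit 9561015030) (nat_lit 380) (nat_lit 3228983253) (nat_lit 76) (nat_lit 229408056) (nat_lit 73) (nat_lit 5) (nat_lit 78) (nat_lit 5) (nat_lit 74) (nat_lit 5) (nat_lit 323) (nat_lit 259) (nat_lit 198))) (XT.nd (nat_lit 78) (nat_lit 76) (nat_lit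 0) (XT.lf (nat_lit 0) (nat_lit 3787397787) (nat_lit 228) (nat_lit 9016305561) (nat_lit 304) (nat_lit 464541524) (nat_lit 70) (nat_lit 5) (nat_lit 73) (nat_lit 5) (nat_lit 74) (nat_lit 5) (nat_lit 324) (nat_lit 259) (nat_lit 197)) (XT.lf (nat_lit 0) (nat_lit 2567047441) (nat_lit 304) (nat_lit 2520201264) (nat_lit 76) (nat_lit 8436596522) (nat_lit 69) (nat_lit 5) (nat_lit 73) (nat_lit 5) (nat_lit 70) (nat_lit 5) (nat_lit 325) (nat_lit 259) (nat_lit 196))))))) (XT.nd (nat_lit 1092) (nat_lit 1064) (nat_lit 0) (XT.nd (nat_lit 546) (nat_lit 760) (nat_lit 0) (XT.nd (nat_lit 234) (nat_lit 456) (nat_lit 0) (XT.nd (nat_lit 78) (nat_lit 228) (nat_lit 0) (XT.lf (nat_lit 0) (nat_lit 4686015562) (nat_lit 228) (nat_lit 1006366820) (nat_lit 304) (nat_lit 8094251439) (nat_lit 66) (nat_lit 5) (nat_lit 69) (nat_lit 5) (nat_lit 70) (nat_lit 5) (nat_lit 326) (nat_lit 259) (nat_lit 195)) (XT.nd (nat_lit 78) (nat_lit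 228) (nat_lit 0) (XT.lf (nat_lit 0) (nat_lit 8935316379) (nat_lit 304) (nat_lit 1977873287) (nat_lit 76) (nat_lit 3143422853) (nat_lit 66) (nat_lit 5) (nat_lit 70) (nat_lit 5) (nat_lit 67) (nat_lit 5) (nat_lit 327) (nat_lit 259) (nat_lit 194)) (XT.lf (nat_lit 0) (nat_lit 5405103522) (nat_lit 228) (nat_lit 6900712357) (nat_lit 304) (nat_lit 2027987359) (nat_lit 63) (nat_lit 5) (nat_lit 66) (nat_lit 5) (nat_lit 67) (nat_lit 5) (nat_lit 328) (nat_lit 259) (nat_lit 193)))) (XT.nd (nat_lit 156) (nat_lit 152) (nat_lit 0) (XT.nd (nat_lit 78) (nat_lit 228) (nat_lit 0) (XT.lf (nat_lit 0) (nat_lit 1124175143) (nat_lit 304) (nat_lit 1629053269) (nat_lit 76) (nat_lit 11866107466) (nat_lit 62) (nat_lit 5) (nat_lit 66) (nat_lit 5) (nat_lit 63) (nat_lit 5) (nat_lit 329) (nat_lit 259) (nat_lit 192)) (XT.lf (nat_lit 0) (nat_lit 4371817723) (nat_lit 304) (nat_lit 8989581854) (nat_lit 76) (nat_lit 1550201478) (nat_lit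 59) (nat_lit 5) (nat_lit 63) (nat_lit 5) (nat_lit 60) (nat_lit 5) (nat_lit 330) (nat_lit 259) (nat_lit 191))) (XT.nd (nat_lit 78) (nat_lit 152) (nat_lit 0) (XT.lf (nat_lit 0) (nat_lit 7730436714) (nat_lit 304) (nat_lit 1554532921) (nat_lit 76) (nat_lit 5927276785) (nat_lit 59) (nat_lit 5) (nat_lit 63) (nat_lit 5) (nat_lit 60) (nat_lit 5) (nat_lit 331) (nat_lit 259) (nat_lit 190)) (XT.lf (nat_lit 0) (nat_lit 6177523386) (nat_lit 152) (nat_lit 5042230625) (nat_lit 228) (nat_lit 4301277047) (nat_lit 57) (nat_lit 5) (nat_lit 59) (nat_lit 5) (nat_lit 60) (nat_lit 5) (nat_lit 332) (nat_lit 259) (nat_lit 189))))) (XT.nd (nat_lit 234) (nat_lit 456) (nat_lit 0) (XT.nd (nat_lit 78) (nat_lit 304) (nat_lit 0) (XT.lf (nat_lit 0) (nat_lit 14127274721) (nat_lit 152) (nat_lit 673145526) (nat_lit 228) (nat_lit 1039076478) (nat_lit 57) (nat_lit 5) (nat_lit 59) (nat_lit 5) (nat_lit 60) (nat_lit 5) (nat_lit 333) (nat_lit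 259) (nat_lit 188)) (XT.nd (nat_lit 78) (nat_lit 0) (nat_lit 0) (XT.lf (nat_lit 0) (nat_lit 2344267894) (nat_lit 304) (nat_lit 10002036934) (nat_lit 76) (nat_lit 3818501718) (nat_lit 53) (nat_lit 5) (nat_lit 57) (nat_lit 5) (nat_lit 54) (nat_lit 5) (nat_lit 334) (nat_lit 259) (nat_lit 187)) (XT.lf (nat_lit 0) (nat_lit 5804111331) (nat_lit 304) (nat_lit 2252995459) (nat_lit 76) (nat_lit 8442599826) (nat_lit 53) (nat_lit 5) (nat_lit 57) (nat_lit 5) (nat_lit 54) (nat_lit 5) (nat_lit 335) (nat_lit 259) (nat_lit 186)))) (XT.nd (nat_lit 156) (nat_lit 304) (nat_lit 0) (XT.nd (nat_lit 78) (nat_lit 0) (nat_lit 0) (XT.lf (nat_lit 0) (nat_lit 5797348817) (nat_lit 152) (nat_lit 3598708587) (nat_lit 228) (nat_lit 7447762678) (nat_lit 51) (nat_lit 5) (nat_lit 53) (nat_lit 5) (nat_lit 54) (nat_lit 5) (nat_lit 336) (nat_lit 259) (nat_lit 185)) (XT.lf (nat_lit 0) (nat_lit 13101082556) (nat_lit 228) (nat_lit 3116487756)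 (nat_lit 76) (nat_lit 980542182) (nat_lit 51) (nat_lit 5) (nat_lit 54) (nat_lit 5) (nat_lit 52) (nat_lit 5) (nat_lit 337) (nat_lit 259) (nat_lit 184))) (XT.nd (nat_lit 78) (nat_lit 76) (nat_lit 0) (XT.lf (nat_lit 0) (nat_lit 5071498435) (nat_lit 228) (nat_lit 11903728560) (nat_lit 304) (nat_lit 586082345) (nat_lit 48) (nat_lit 5) (nat_lit 51) (nat_lit 5) (nat_lit 52) (nat_lit 5) (nat_lit 338) (nat_lit 259) (nat_lit 183)) (XT.lf (nat_lit 0) (nat_lit 2976518945) (nat_lit 304) (nat_lit 4438231744) (nat_lit 76) (nat_lit 10519627776) (nat_lit 47) (nat_lit 5) (nat_lit 51) (nat_lit 5) (nat_lit 48) (nat_lit 5) (nat_lit 339) (nat_lit 259) (nat_lit 182)))))) (XT.nd (nat_lit 546) (nat_lit 532) (nat_lit 0) (XT.nd (nat_lit 234) (nat_lit 228) (nat_lit 0) (XT.nd (nat_lit 78) (nat_lit 152) (nat_lit 0) (XT.lf (nat_lit 0) (nat_lit 3882778149) (nat_lit 152) (nat_lit 2763204147) (nat_lit 228) (nat_lit 11672143845)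 (nat_lit 45) (nat_lit 5) (nat_lit 47) (nat_lit 5) (nat_lit 48) (nat_lit 5) (nat_lit 340) (nat_lit 259) (nat_lit 181)) (XT.nd (nat_lit 78) (nat_lit 152) (nat_lit 0) (XT.lf (nat_lit 0) (nat_lit 10464909861) (nat_lit 228) (nat_lit 6229860713) (nat_lit 76) (nat_lit 2017447339) (nat_lit 45) (nat_lit 5) (nat_lit 48) (nat_lit 5) (nat_lit 46) (nat_lit 5) (nat_lit 341) (nat_lit 259) (nat_lit 180)) (XT.lf (nat_lit 0) (nat_lit 2196241062) (nat_lit 152) (nat_lit 12225999145) (nat_lit 228) (nat_lit 4695189881) (nat_lit 43) (nat_lit 5) (nat_lit 45) (nat_lit 5) (nat_lit 46) (nat_lit 5) (nat_lit 342) (nat_lit 259) (nat_lit 179)))) (XT.nd (nat_lit 156) (nat_lit 152) (nat_lit 0) (XT.nd (nat_lit 78) (nat_lit 76) (nat_lit 0) (XT.lf (nat_lit 0) (nat_lit 10962186125) (nat_lit 152) (nat_lit 7574705418) (nat_lit 228) (nat_lit 996761380) (nat_lit 43) (nat_lit 5) (nat_lit 45) (nat_lit 5) (nat_lit 46) (nat_lit 5) (nat_lit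 343) (nat_lit 259) (nat_lit 178)) (XT.lf (nat_lit 0) (nat_lit 2733889936) (nat_lit 228) (nat_lit 38237669) (nat_lit 76) (nat_lit 17190150730) (nat_lit 42) (nat_lit 5) (nat_lit 45) (nat_lit 5) (nat_lit 43) (nat_lit 5) (nat_lit 344) (nat_lit 259) (nat_lit 177))) (XT.nd (nat_lit 78) (nat_lit 0) (nat_lit 0) (XT.lf (nat_lit 0) (nat_lit 6640287772) (nat_lit 228) (nat_lit 11547779459) (nat_lit 76) (nat_lit 2212894663) (nat_lit 40) (nat_lit 5) (nat_lit 43) (nat_lit 5) (nat_lit 41) (nat_lit 5) (nat_lit 345) (nat_lit 259) (nat_lit 176)) (XT.lf (nat_lit 0) (nat_lit 10668718725) (nat_lit 228) (nat_lit 2907067168) (nat_lit 76) (nat_lit 7276885784) (nat_lit 40) (nat_lit 5) (nat_lit 43) (nat_lit 5) (nat_lit 41) (nat_lit 5) (nat_lit 346) (nat_lit 259) (nat_lit 175))))) (XT.nd (nat_lit 234) (nat_lit 152) (nat_lit 0) (XT.nd (nat_lit 78) (nat_lit 228) (nat_lit 0) (XT.lf (nat_lit 0) (nat_lit 6073567020) (nat_lit 152)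 (nat_lit 8780492629) (nat_lit 228) (nat_lit 6462802028) (nat_lit 38) (nat_lit 5) (nat_lit 40) (nat_lit 5) (nat_lit 41) (nat_lit 5) (nat_lit 347) (nat_lit 259) (nat_lit 174)) (XT.nd (nat_lit 78) (nat_lit 228) (nat_lit 0) (XT.lf (nat_lit 0) (nat_lit 15345766373) (nat_lit 152) (nat_lit 3826514618) (nat_lit 228) (nat_lit 2622487102) (nat_lit 38) (nat_lit 5) (nat_lit 40) (nat_lit 5) (nat_lit 41) (nat_lit 5) (nat_lit 348) (nat_lit 259) (nat_lit 173)) (XT.lf (nat_lit 0) (nat_lit 1322998722) (nat_lit 228) (nat_lit 19688578398) (nat_lit 76) (nat_lit 1274580681) (nat_lit 35) (nat_lit 5) (nat_lit 38) (nat_lit 5) (nat_lit 36) (nat_lit 5) (nat_lit 349) (nat_lit 259) (nat_lit 172)))) (XT.nd (nat_lit 156) (nat_lit 152) (nat_lit 0) (XT.nd (nat_lit 78) (nat_lit 0) (nat_lit 0) (XT.lf (nat_lit 0) (nat_lit 5416311942) (nat_lit 228) (nat_lit 10844014438) (nat_lit 76) (nat_lit 6528728143) (nat_lit 35) (nat_lit 5) (nat_lit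 38) (nat_lit 5) (nat_lit 36) (nat_lit 5) (nat_lit 350) (nat_lit 259) (nat_lit 171)) (XT.lf (nat_lit 0) (nat_lit 9611569108) (nat_lit 228) (nat_lit 1769976477) (nat_lit 76) (nat_lit 11926127399) (nat_lit 35) (nat_lit 5) (nat_lit 38) (nat_lit 5) (nat_lit 36) (nat_lit 5) (nat_lit 351) (nat_lit 259) (nat_lit 170))) (XT.nd (nat_lit 78) (nat_lit 0) (nat_lit 0) (XT.lf (nat_lit 0) (nat_lit 7691554183) (nat_lit 152) (nat_lit 6294817718) (nat_lit 228) (nat_lit 9853876366) (nat_lit 33) (nat_lit 5) (nat_lit 35) (nat_lit 5) (nat_lit 36) (nat_lit 5) (nat_lit 352) (nat_lit 259) (nat_lit 169)) (XT.lf (nat_lit 0) (nat_lit 17438736537) (nat_lit 152) (nat_lit 1051565855) (nat_lit 228) (nat_lit 5898570553) (nat_lit 33) (nat_lit 5) (nat_lit 35) (nat_lit 5) (nat_lit 36) (nat_lit 5) (nat_lit 353) (nat_lit 259) (nat_lit 168))))))))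
noncomputable def xc102 : XT := (XT.nd (nat_lit 2106) (nat_lit 532) (nat_lit 0) (XT.nd (nat_lit 1014) (nat_lit 608) (nat_lit 0) (XT.nd (nat_lit 468) (nat_lit 380) (nat_lit 0) (XT.nd (nat_lit 234) (nat_lit 152) (nat_lit 0) (XT.nd (nat_lit 78) (nat_lit 76) (nat_lit 0) (XT.lf (nat_lit 0) (nat_lit 2497377499) (nat_lit 76) (nat_lit 20678242051) (nat_lit 152) (nat_lit 1776957145) (nat_lit 32) (nat_lit 5) (nat_lit 33) (nat_lit 5) (nat_lit 34) (nat_lit 4) (nat_lit 354) (nat_lit 259) (nat_lit 167)) (XT.nd (nat_lit 78) (nat_lit 0) (nat_lit 0) (XT.lf (nat_lit 0) (nat_lit 2481932880) (nat_lit 152) (nat_lit 13229123063) (nat_lit 76) (nat_lit 9819577910) (nat_lit 31) (nat_lit 5) (nat_lit 33) (nat_lit 5) (nat_lit 32) (nat_lit 5) (nat_lit 355) (nat_lit 259) (nat_lit 166)) (XT.lf (nat_lit 0) (nat_lit 6813946915) (nat_lit 152) (nat_lit 3776859753) (nat_lit 76) (nat_lit 15535273758) (nat_lit 31) (nat_lit 5) (nat_lit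 33) (nat_lit 5) (nat_lit 32) (nat_lit 5) (nat_lit 356) (nat_lit 259) (nat_lit 165)))) (XT.nd (nat_lit 78) (nat_lit 0) (nat_lit 0) (XT.lf (nat_lit 0) (nat_lit 6044888742) (nat_lit 152) (nat_lit 5270763474) (nat_lit 228) (nat_lit 15422553713) (nat_lit 29) (nat_lit 5) (nat_lit 31) (nat_lit 5) (nat_lit 32) (nat_lit 5) (nat_lit 357) (nat_lit 259) (nat_lit 164)) (XT.nd (nat_lit 78) (nat_lit 0) (nat_lit 0) (XT.lf (nat_lit 0) (nat_lit 15974656459) (nat_lit 228) (nat_lit 11163372149) (nat_lit 76) (nat_lit 230006397) (nat_lit 29) (nat_lit 5) (nat_lit 32) (nat_lit 5) (nat_lit 30) (nat_lit 4) (nat_lit 358) (nat_lit 259) (nat_lit 163)) (XT.lf (nat_lit 0) (nat_lit 20807872333) (nat_lit 228) (nat_lit 1430925436) (nat_lit 76) (nat_lit 5776934969) (nat_lit 29) (nat_lit 5) (nat_lit 32) (nat_lit 5) (nat_lit 30) (nat_lit 4) (nat_lit 359) (nat_lit 259) (nat_lit 162))))) (XT.nd (nat_lit 234) (nat_lit 228) (nat_lit 0)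 (XT.nd (nat_lit 78) (nat_lit 76) (nat_lit 0) (XT.lf (nat_lit 0) (nat_lit 8733617160) (nat_lit 76) (nat_lit 17119192943) (nat_lit 152) (nat_lit 2828056362) (nat_lit 28) (nat_lit 5) (nat_lit 29) (nat_lit 5) (nat_lit 30) (nat_lit 4) (nat_lit 360) (nat_lit 259) (nat_lit 161)) (XT.nd (nat_lit 78) (nat_lit 0) (nat_lit 0) (XT.lf (nat_lit 0) (nat_lit 1647701192) (nat_lit 152) (nat_lit 10179767866) (nat_lit 76) (nat_lit 17538084091) (nat_lit 27) (nat_lit 5) (nat_lit 29) (nat_lit 5) (nat_lit 28) (nat_lit 5) (nat_lit 361) (nat_lit 259) (nat_lit 160)) (XT.lf (nat_lit 0) (nat_lit 6184201936) (nat_lit 152) (nat_lit 176731762) (nat_lit 76) (nat_lit 23709513617) (nat_lit 27) (nat_lit 5) (nat_lit 29) (nat_lit 5) (nat_lit 28) (nat_lit 5) (nat_lit 362) (nat_lit 259) (nat_lit 159)))) (XT.nd (nat_lit 156) (nat_lit 76) (nat_lit 0) (XT.nd (nat_lit 78) (nat_lit 0) (nat_lit 0) (XT.lf (nat_lit 0) (nat_lit 10298750242) (nat_lit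 152) (nat_lit 640843013) (nat_lit 228) (nat_lit 19854417249) (nat_lit 25) (nat_lit 5) (nat_lit 27) (nat_lit 5) (nat_lit 28) (nat_lit 5) (nat_lit 363) (nat_lit 259) (nat_lit 158)) (XT.lf (nat_lit 0) (nat_lit 15873801762) (nat_lit 228) (nat_lit 10526297435) (nat_lit 76) (nat_lit 5138102616) (nat_lit 25) (nat_lit 5) (nat_lit 28) (nat_lit 5) (nat_lit 26) (nat_lit 4) (nat_lit 364) (nat_lit 259) (nat_lit 157))) (XT.nd (nat_lit 78) (nat_lit 76) (nat_lit 0) (XT.lf (nat_lit 0) (nat_lit 20946729803) (nat_lit 228) (nat_lit 292472707) (nat_lit 76) (nat_lit 11065801268) (nat_lit 25) (nat_lit 5) (nat_lit 28) (nat_lit 5) (nat_lit 26) (nat_lit 4) (nat_lit 365) (nat_lit 259) (nat_lit 156)) (XT.lf (nat_lit 0) (nat_lit 10424740508) (nat_lit 76) (nat_lit 15832118334) (nat_lit 152) (nat_lit 6835406115) (nat_lit 24) (nat_lit 5) (nat_lit 25) (nat_lit 5) (nat_lit 26) (nat_lit 4) (nat_lit 366) (nat_lit 259) (nat_lit 155))))))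 (XT.nd (nat_lit 546) (nat_lit 304) (nat_lit 0) (XT.nd (nat_lit 234) (nat_lit 76) (nat_lit 0) (XT.nd (nat_lit 78) (nat_lit 228) (nat_lit 0) (XT.lf (nat_lit 0) (nat_lit 21442680236) (nat_lit 76) (nat_lit 10271554211) (nat_lit 152) (nat_lit 2189276631) (nat_lit 24) (nat_lit 5) (nat_lit 25) (nat_lit 5) (nat_lit 26) (nat_lit 4) (nat_lit 367) (nat_lit 259) (nat_lit 154)) (XT.nd (nat_lit 78) (nat_lit 152) (nat_lit 0) (XT.lf (nat_lit 0) (nat_lit 2530851885) (nat_lit 152) (nat_lit 1999196272) (nat_lit 76) (nat_lit 30208744494) (nat_lit 23) (nat_lit 5) (nat_lit 25) (nat_lit 5) (nat_lit 24) (nat_lit 5) (nat_lit 368) (nat_lit 259) (nat_lit 153)) (XT.lf (nat_lit 0) (nat_lit 7434121883) (nat_lit 228) (nat_lit 26707803721) (nat_lit 76) (nat_lit 1453995520) (nat_lit 21) (nat_lit 5) (nat_lit 24) (nat_lit 5) (nat_lit 22) (nat_lit 4) (nat_lit 369) (nat_lit 259) (nat_lit 152)))) (XT.nd (nat_lit 156) (nat_lit 76) (nat_lit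 0) (XT.nd (nat_lit 78) (nat_lit 0) (nat_lit 0) (XT.lf (nat_lit 0) (nat_lit 12535501614) (nat_lit 228) (nat_lit 16405785431) (nat_lit 76) (nat_lit 7535950843) (nat_lit 21) (nat_lit 5) (nat_lit 24) (nat_lit 5) (nat_lit 22) (nat_lit 4) (nat_lit 370) (nat_lit 259) (nat_lit 151)) (XT.lf (nat_lit 0) (nat_lit 17776108979) (nat_lit 228) (nat_lit 5819568563) (nat_lit 76) (nat_lit 13789735675) (nat_lit 21) (nat_lit 5) (nat_lit 24) (nat_lit 5) (nat_lit 22) (nat_lit 4) (nat_lit 371) (nat_lit 259) (nat_lit 150))) (XT.nd (nat_lit 78) (nat_lit 0) (nat_lit 0) (XT.lf (nat_lit 0) (nat_lit 5160802826) (nat_lit 76) (nat_lit 18049329116) (nat_lit 152) (nat_lit 15109620454) (nat_lit 20) (nat_lit 5) (nat_lit 21) (nat_lit 5) (nat_lit 22) (nat_lit 4) (nat_lit 372) (nat_lit 259) (nat_lit 149)) (XT.lf (nat_lit 0) (nat_lit 16565979619) (nat_lit 76) (nat_lit 12286711663) (nat_lit 152) (nat_lit 10428069379) (nat_lit 20) (nat_lit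 5) (nat_lit 21) (nat_lit 5) (nat_lit 22) (nat_lit 4) (nat_lit 373) (nat_lit 259) (nat_lit 148))))) (XT.nd (nat_lit 234) (nat_lit 76) (nat_lit 0) (XT.nd (nat_lit 78) (nat_lit 228) (nat_lit 0) (XT.lf (nat_lit 0) (nat_lit 28290106676) (nat_lit 76) (nat_lit 6361556117) (nat_lit 152) (nat_lit 5619326571) (nat_lit 20) (nat_lit 5) (nat_lit 21) (nat_lit 5) (nat_lit 22) (nat_lit 4) (nat_lit 374) (nat_lit 259) (nat_lit 147)) (XT.nd (nat_lit 78) (nat_lit 228) (nat_lit 0) (XT.lf (nat_lit 0) (nat_lit 40343428382) (nat_lit 76) (nat_lit 268685160) (nat_lit 152) (nat_lit 679190214) (nat_lit 20) (nat_lit 5) (nat_lit 21) (nat_lit 5) (nat_lit 22) (nat_lit 4) (nat_lit 375) (nat_lit 259) (nat_lit 146)) (XT.lf (nat_lit 0) (nat_lit 4471420425) (nat_lit 228) (nat_lit 31839719605) (nat_lit 76) (nat_lit 6025370681) (nat_lit 17) (nat_lit 5) (nat_lit 20) (nat_lit 5) (nat_lit 18) (nat_lit 4) (nat_lit 376) (nat_lit 259) (nat_lit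 145)))) (XT.nd (nat_lit 156) (nat_lit 76) (nat_lit 0) (XT.nd (nat_lit 78) (nat_lit 0) (nat_lit 0) (XT.lf (nat_lit 0) (nat_lit 9763026962) (nat_lit 228) (nat_lit 21140214789) (nat_lit 76) (nat_lit 12509630304) (nat_lit 17) (nat_lit 5) (nat_lit 20) (nat_lit 5) (nat_lit 18) (nat_lit 4) (nat_lit 377) (nat_lit 259) (nat_lit 144)) (XT.lf (nat_lit 0) (nat_lit 15201538905) (nat_lit 228) (nat_lit 10141255402) (nat_lit 76) (nat_lit 19179088883) (nat_lit 17) (nat_lit 5) (nat_lit 20) (nat_lit 5) (nat_lit 18) (nat_lit 4) (nat_lit 378) (nat_lit 259) (nat_lit 143))) (XT.nd (nat_lit 78) (nat_lit 0) (nat_lit 0) (XT.lf (nat_lit 0) (nat_lit 1189990292) (nat_lit 76) (nat_lit 19613156975) (nat_lit 152) (nat_lit 24861022725) (nat_lit 16) (nat_lit 5) (nat_lit 17) (nat_lit 5) (nat_lit 18) (nat_lit 4) (nat_lit 379) (nat_lit 259) (nat_lit 142)) (XT.lf (nat_lit 0) (nat_lit 13048360617) (nat_lit 76) (nat_lit 13615488125)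 (nat_lit 152) (nat_lit 20174148767) (nat_lit 16) (nat_lit 5) (nat_lit 17) (nat_lit 5) (nat_lit 18) (nat_lit 4) (nat_lit 380) (nat_lit 259) (nat_lit 141))))))) (XT.nd (nat_lit 1092) (nat_lit 228) (nat_lit 0) (XT.nd (nat_lit 546) (nat_lit 152) (nat_lit 0) (XT.nd (nat_lit 234) (nat_lit 76) (nat_lit 0) (XT.nd (nat_lit 78) (nat_lit 76) (nat_lit 0) (XT.lf (nat_lit 0) (nat_lit 25242386389) (nat_lit 76) (nat_lit 7446953871) (nat_lit 152) (nat_lit 15358033879) (nat_lit 16) (nat_lit 5) (nat_lit 17) (nat_lit 5) (nat_lit 18) (nat_lit 4) (nat_lit 381) (nat_lit 259) (nat_lit 140)) (XT.nd (nat_lit 78) (nat_lit 76) (nat_lit 0) (XT.lf (nat_lit 0) (nat_lit 37782722581) (nat_lit 76) (nat_lit 1102164231) (nat_lit 152) (nat_lit 10408469807) (nat_lit 16) (nat_lit 5) (nat_lit 17) (nat_lit 5) (nat_lit 18) (nat_lit 4) (nat_lit 382) (nat_lit 259) (nat_lit 139)) (XT.lf (nat_lit 0) (nat_lit 52168195) (nat_lit 76) (nat_lit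 45256378151) (nat_lit 76) (nat_lit 5266907995) (nat_lit 15) (nat_lit 4) (nat_lit 16) (nat_lit 5) (nat_lit 16) (nat_lit 4) (nat_lit 383) (nat_lit 259) (nat_lit 138)))) (XT.nd (nat_lit 156) (nat_lit 0) (nat_lit 0) (XT.nd (nat_lit 78) (nat_lit 0) (nat_lit 0) (XT.lf (nat_lit 0) (nat_lit 146172160) (nat_lit 152) (nat_lit 39726256186) (nat_lit 76) (nat_lit 12020046234) (nat_lit 14) (nat_lit 5) (nat_lit 16) (nat_lit 5) (nat_lit 15) (nat_lit 4) (nat_lit 384) (nat_lit 259) (nat_lit 137)) (XT.lf (nat_lit 0) (nat_lit 5605627081) (nat_lit 152) (nat_lit 28676102034) (nat_lit 76) (nat_lit 18966019519) (nat_lit 14) (nat_lit 5) (nat_lit 16) (nat_lit 5) (nat_lit 15) (nat_lit 4) (nat_lit 385) (nat_lit 259) (nat_lit 136))) (XT.nd (nat_lit 78) (nat_lit 0) (nat_lit 0) (XT.lf (nat_lit 0) (nat_lit 11219003508) (nat_lit 152) (nat_lit 17312539475) (nat_lit 76) (nat_lit 26112436603) (nat_lit 14) (nat_lit 5) (nat_lit 16)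 (nat_lit 5) (nat_lit 15) (nat_lit 4) (nat_lit 386) (nat_lit 259) (nat_lit 135)) (XT.lf (nat_lit 0) (nat_lit 16991206335) (nat_lit 152) (nat_lit 5625639182) (nat_lit 76) (nat_lit 33465541927) (nat_lit 14) (nat_lit 5) (nat_lit 16) (nat_lit 5) (nat_lit 15) (nat_lit 4) (nat_lit 387) (nat_lit 259) (nat_lit 134))))) (XT.nd (nat_lit 234) (nat_lit 76) (nat_lit 0) (XT.nd (nat_lit 78) (nat_lit 0) (nat_lit 0) (XT.lf (nat_lit 0) (nat_lit 6522079970) (nat_lit 76) (nat_lit 16467893485) (nat_lit 152) (nat_lit 34572374785) (nat_lit 13) (nat_lit 5) (nat_lit 14) (nat_lit 5) (nat_lit 15) (nat_lit 4) (nat_lit 388) (nat_lit 259) (nat_lit 133)) (XT.nd (nat_lit 78) (nat_lit 0) (nat_lit 0) (XT.lf (nat_lit 0) (nat_lit 19132660595) (nat_lit 76) (nat_lit 10083663306) (nat_lit 152) (nat_lit 29868957925) (nat_lit 13) (nat_lit 5) (nat_lit 14) (nat_lit 5) (nat_lit 15) (nat_lit 4) (nat_lit 389) (nat_lit 259) (nat_lit 132)) (XT.lf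 (nat_lit 0) (nat_lit 32105160395) (nat_lit 76) (nat_lit 3515384450) (nat_lit 152) (nat_lit 25033628672) (nat_lit 13) (nat_lit 5) (nat_lit 14) (nat_lit 5) (nat_lit 15) (nat_lit 4) (nat_lit 390) (nat_lit 259) (nat_lit 131)))) (XT.nd (nat_lit 156) (nat_lit 76) (nat_lit 0) (XT.nd (nat_lit 78) (nat_lit 0) (nat_lit 0) (XT.lf (nat_lit 0) (nat_lit 42239402858) (nat_lit 152) (nat_lit 16850650274) (nat_lit 0) (nat_lit 3179405940) (nat_lit 13) (nat_lit 5) (nat_lit 15) (nat_lit 4) (nat_lit 13) (nat_lit 4) (nat_lit 391) (nat_lit 259) (nat_lit 130)) (XT.lf (nat_lit 0) (nat_lit 49083156669) (nat_lit 152) (nat_lit 4851786079) (nat_lit 0) (nat_lit 9997472899) (nat_lit 13) (nat_lit 5) (nat_lit 15) (nat_lit 4) (nat_lit 13) (nat_lit 4) (nat_lit 392) (nat_lit 259) (nat_lit 129))) (XT.nd (nat_lit 78) (nat_lit 0) (nat_lit 0) (XT.lf (nat_lit 0) (nat_lit 7640958555) (nat_lit 76) (nat_lit 48556485245) (nat_lit 76) (nat_lit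 9445862783) (nat_lit 12) (nat_lit 4) (nat_lit 13) (nat_lit 5) (nat_lit 13) (nat_lit 4) (nat_lit 393) (nat_lit 259) (nat_lit 128)) (XT.lf (nat_lit 0) (nat_lit 20592903182) (nat_lit 76) (nat_lit 42973116139) (nat_lit 76) (nat_lit 3838281354) (nat_lit 12) (nat_lit 4) (nat_lit 13) (nat_lit 5) (nat_lit 13) (nat_lit 4) (nat_lit 394) (nat_lit 259) (nat_lit 127)))))) (XT.nd (nat_lit 546) (nat_lit 76) (nat_lit 0) (XT.nd (nat_lit 234) (nat_lit 76) (nat_lit 0) (XT.nd (nat_lit 78) (nat_lit 0) (nat_lit 0) (XT.lf (nat_lit 0) (nat_lit 1891742229) (nat_lit 152) (nat_lit 35318105166) (nat_lit 76) (nat_lit 32007959859) (nat_lit 11) (nat_lit 5) (nat_lit 13) (nat_lit 5) (nat_lit 12) (nat_lit 4) (nat_lit 395) (nat_lit 259) (nat_lit 126)) (XT.nd (nat_lit 78) (nat_lit 0) (nat_lit 0) (XT.lf (nat_lit 0) (nat_lit 7708776064) (nat_lit 152) (nat_lit 23532348918) (nat_lit 76) (nat_lit 39843688342) (nat_lit 11) (nat_lit 5)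 (nat_lit 13) (nat_lit 5) (nat_lit 12) (nat_lit 4) (nat_lit 396) (nat_lit 259) (nat_lit 125)) (XT.lf (nat_lit 0) (nat_lit 13692801689) (nat_lit 152) (nat_lit 11406934605) (nat_lit 76) (nat_lit 47908320830) (nat_lit 11) (nat_lit 5) (nat_lit 13) (nat_lit 5) (nat_lit 12) (nat_lit 4) (nat_lit 397) (nat_lit 259) (nat_lit 124)))) (XT.nd (nat_lit 156) (nat_lit 0) (nat_lit 0) (XT.nd (nat_lit 78) (nat_lit 0) (nat_lit 0) (XT.lf (nat_lit 0) (nat_lit 1090002671) (nat_lit 76) (nat_lit 18769522963) (nat_lit 152) (nat_lit 55129379191) (nat_lit 10) (nat_lit 5) (nat_lit 11) (nat_lit 5) (nat_lit 12) (nat_lit 4) (nat_lit 398) (nat_lit 259) (nat_lit 123)) (XT.lf (nat_lit 0) (nat_lit 14182302144) (nat_lit 76) (nat_lit 12136920651) (nat_lit 152) (nat_lit 50706717878) (nat_lit 10) (nat_lit 5) (nat_lit 11) (nat_lit 5) (nat_lit 12) (nat_lit 4) (nat_lit 399) (nat_lit 259) (nat_lit 122))) (XT.nd (nat_lit 78) (nat_lit 0) (nat_lit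 0) (XT.lf (nat_lit 0) (nat_lit 27654383321) (nat_lit 76) (nat_lit 5311321550) (nat_lit 152) (nat_lit 46158594709) (nat_lit 10) (nat_lit 5) (nat_lit 11) (nat_lit 5) (nat_lit 12) (nat_lit 4) (nat_lit 400) (nat_lit 259) (nat_lit 121)) (XT.lf (nat_lit 0) (nat_lit 39821248167) (nat_lit 152) (nat_lit 39784265839) (nat_lit 0) (nat_lit 1679806999) (nat_lit 10) (nat_lit 5) (nat_lit 12) (nat_lit 4) (nat_lit 10) (nat_lit 4) (nat_lit 401) (nat_lit 259) (nat_lit 120))))) (XT.nd (nat_lit 234) (nat_lit 76) (nat_lit 0) (XT.nd (nat_lit 78) (nat_lit 0) (nat_lit 0) (XT.lf (nat_lit 0) (nat_lit 46928387082) (nat_lit 152) (nat_lit 27813020626) (nat_lit 0) (nat_lit 8768389185) (nat_lit 10) (nat_lit 5) (nat_lit 12) (nat_lit 4) (nat_lit 10) (nat_lit 4) (nat_lit 402) (nat_lit 259) (nat_lit 119)) (XT.nd (nat_lit 78) (nat_lit 0) (nat_lit 0) (XT.lf (nat_lit 0) (nat_lit 54242276068) (nat_lit 152) (nat_lit 15494664637) (nat_lit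 0) (nat_lit 16064261929) (nat_lit 10) (nat_lit 5) (nat_lit 12) (nat_lit 4) (nat_lit 10) (nat_lit 4) (nat_lit 403) (nat_lit 259) (nat_lit 118)) (XT.lf (nat_lit 0) (nat_lit 61769305900) (nat_lit 152) (nat_lit 2818434260) (nat_lit 0) (nat_lit 23573800265) (nat_lit 10) (nat_lit 5) (nat_lit 12) (nat_lit 4) (nat_lit 10) (nat_lit 4) (nat_lit 404) (nat_lit 259) (nat_lit 117)))) (XT.nd (nat_lit 156) (nat_lit 0) (nat_lit 0) (XT.nd (nat_lit 78) (nat_lit 0) (nat_lit 0) (XT.lf (nat_lit 0) (nat_lit 10430279136) (nat_lit 76) (nat_lit 59186036682) (nat_lit 76) (nat_lit 20973549011) (nat_lit 9) (nat_lit 4) (nat_lit 10) (nat_lit 5) (nat_lit 10) (nat_lit 4) (nat_lit 405) (nat_lit 259) (nat_lit 116)) (XT.lf (nat_lit 0) (nat_lit 24123004008) (nat_lit 76) (nat_lit 53598169220) (nat_lit 76) (nat_lit 15369194135) (nat_lit 9) (nat_lit 4) (nat_lit 10) (nat_lit 5) (nat_lit 10) (nat_lit 4) (nat_lit 406) (nat_lit 259) (nat_lit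 115))) (XT.nd (nat_lit 78) (nat_lit 0) (nat_lit 0) (XT.lf (nat_lit 0) (nat_lit 38215612503) (nat_lit 76) (nat_lit 47847715830) (nat_lit 76) (nat_lit 9602733548) (nat_lit 9) (nat_lit 4) (nat_lit 10) (nat_lit 5) (nat_lit 10) (nat_lit 4) (nat_lit 407) (nat_lit 259) (nat_lit 114)) (XT.lf (nat_lit 0) (nat_lit 52720418551) (nat_lit 76) (nat_lit 41929651844) (nat_lit 76) (nat_lit 3669128594) (nat_lit 9) (nat_lit 4) (nat_lit 10) (nat_lit 5) (nat_lit 10) (nat_lit 4) (nat_lit 408) (nat_lit 259) (nat_lit 113))))))))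
noncomputable def xc103 : XT := (XT.nd (nat_lit 31044) (nat_lit 0) (nat_lit 6840) (XT.nd (nat_lit 29952) (nat_lit 0) (nat_lit 16188) (XT.nd (nat_lit 29406) (nat_lit 0) (nat_lit 22344) (XT.nd (nat_lit 29094) (nat_lit 0) (nat_lit 23636) (XT.nd (nat_lit 78) (nat_lit 0) (nat_lit 0) (XT.lf (nat_lit 0) (nat_lit 2389254578) (nat_lit 152) (nat_lit 33425424774) (nat_lit 76) (nat_lit 65236714890) (nat_lit 8) (nat_lit 5) (nat_lit 10) (nat_lit 5) (nat_lit 9) (nat_lit 4) (nat_lit 409) (nat_lit 259) (nat_lit 112)) (XT.nd (nat_lit 28938) (nat_lit 0) (nat_lit 23864) (XT.lf (nat_lit 0) (nat_lit 8550237317) (nat_lit 152) (nat_lit 20933278667) (nat_lit 76) (nat_lit 74381113014) (nat_lit 8) (nat_lit 5) (nat_lit 10) (nat_lit 5) (nat_lit 9) (nat_lit 4) (nat_lit 410) (nat_lit 259) (nat_lit 111)) (XT.lf (nat_lit 0) (nat_lit 1073741823) (nat_lit 0) (nat_lit 0) (nat_lit 0) (nat_lit 0) (nat_lit 322) (nat_lit 0) (nat_lit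 1) (nat_lit 0) (nat_lit 1) (nat_lit 0) (nat_lit 260) (nat_lit 260) (nat_lit 260)))) (XT.nd (nat_lit 156) (nat_lit 152) (nat_lit 0) (XT.nd (nat_lit 78) (nat_lit 0) (nat_lit 0) (XT.lf (nat_lit 0) (nat_lit 2966942806) (nat_lit 76) (nat_lit 3418045723) (nat_lit 0) (nat_lit 58457671) (nat_lit 321) (nat_lit 5) (nat_lit 322) (nat_lit 0) (nat_lit 321) (nat_lit 4) (nat_lit 261) (nat_lit 260) (nat_lit 259)) (XT.lf (nat_lit 0) (nat_lit 5907681204) (nat_lit 76) (nat_lit 365081274) (nat_lit 0) (nat_lit 175424094) (nat_lit 321) (nat_lit 5) (nat_lit 322) (nat_lit 0) (nat_lit 321) (nat_lit 4) (nat_lit 262) (nat_lit 260) (nat_lit 258))) (XT.nd (nat_lit 78) (nat_lit 0) (nat_lit 0) (XT.lf (nat_lit 0) (nat_lit 2348820123) (nat_lit 152) (nat_lit 3705678449) (nat_lit 76) (nat_lit 400687061) (nat_lit 319) (nat_lit 5) (nat_lit 321) (nat_lit 5) (nat_lit 320) (nat_lit 4) (nat_lit 263) (nat_lit 260) (nat_lit 257)) (XT.lf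 (nat_lit 0) (nat_lit 5207191122) (nat_lit 152) (nat_lit 564861234) (nat_lit 76) (nat_lit 693621791) (nat_lit 319) (nat_lit 5) (nat_lit 321) (nat_lit 5) (nat_lit 320) (nat_lit 4) (nat_lit 264) (nat_lit 260) (nat_lit 256))))) (XT.nd (nat_lit 234) (nat_lit 760) (nat_lit 0) (XT.nd (nat_lit 78) (nat_lit 304) (nat_lit 0) (XT.lf (nat_lit 0) (nat_lit 1559430187) (nat_lit 228) (nat_lit 3832720579) (nat_lit 76) (nat_lit 1086548583) (nat_lit 316) (nat_lit 5) (nat_lit 319) (nat_lit 5) (nat_lit 317) (nat_lit 5) (nat_lit 265) (nat_lit 260) (nat_lit 255)) (XT.nd (nat_lit 78) (nat_lit 304) (nat_lit 0) (XT.lf (nat_lit 0) (nat_lit 4336365356) (nat_lit 228) (nat_lit 601866158) (nat_lit 76) (nat_lit 1556733426) (nat_lit 316) (nat_lit 5) (nat_lit 319) (nat_lit 5) (nat_lit 317) (nat_lit 5) (nat_lit 266) (nat_lit 260) (nat_lit 254)) (XT.lf (nat_lit 0) (nat_lit 593797493) (nat_lit 304) (nat_lit 3801407697) (nat_lit 76)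 (nat_lit 2118851998) (nat_lit 312) (nat_lit 5) (nat_lit 316) (nat_lit 5) (nat_lit 313) (nat_lit 5) (nat_lit 267) (nat_lit 260) (nat_lit 253)))) (XT.nd (nat_lit 156) (nat_lit 456) (nat_lit 0) (XT.nd (nat_lit 78) (nat_lit 304) (nat_lit 0) (XT.lf (nat_lit 0) (nat_lit 3289851467) (nat_lit 304) (nat_lit 477983248) (nat_lit 76) (nat_lit 2768310606) (nat_lit 312) (nat_lit 5) (nat_lit 316) (nat_lit 5) (nat_lit 313) (nat_lit 5) (nat_lit 268) (nat_lit 260) (nat_lit 252)) (XT.lf (nat_lit 0) (nat_lit 2942416214) (nat_lit 304) (nat_lit 3053949184) (nat_lit 380) (nat_lit 564835978) (nat_lit 308) (nat_lit 5) (nat_lit 312) (nat_lit 5) (nat_lit 313) (nat_lit 5) (nat_lit 269) (nat_lit 260) (nat_lit 251))) (XT.nd (nat_lit 78) (nat_lit 380) (nat_lit 0) (XT.lf (nat_lit 0) (nat_lit 2061526077) (nat_lit 380) (nat_lit 194483830) (nat_lit 76) (nat_lit 4333327198) (nat_lit 307) (nat_lit 5) (nat_lit 312) (nat_lit 5) (nat_lit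 308) (nat_lit 5) (nat_lit 270) (nat_lit 260) (nat_lit 250)) (XT.lf (nat_lit 0) (nat_lit 3332093666) (nat_lit 380) (nat_lit 1360562442) (nat_lit 456) (nat_lit 1927549412) (nat_lit 302) (nat_lit 5) (nat_lit 307) (nat_lit 5) (nat_lit 308) (nat_lit 5) (nat_lit 271) (nat_lit 260) (nat_lit 249)))))) (XT.nd (nat_lit 546) (nat_lit 3648) (nat_lit 0) (XT.nd (nat_lit 234) (nat_lit 1444) (nat_lit 0) (XT.nd (nat_lit 78) (nat_lit 532) (nat_lit 0) (XT.lf (nat_lit 0) (nat_lit 252889687) (nat_lit 456) (nat_lit 393999547) (nat_lit 532) (nat_lit 6007735874) (nat_lit 295) (nat_lit 5) (nat_lit 301) (nat_lit 5) (nat_lit 302) (nat_lit 5) (nat_lit 272) (nat_lit 260) (nat_lit 248)) (XT.nd (nat_lit 78) (nat_lit 532) (nat_lit 0) (XT.lf (nat_lit 0) (nat_lit 3207975958) (nat_lit 532) (nat_lit 2810675336) (nat_lit 76) (nat_lit 672570070) (nat_lit 295) (nat_lit 5) (nat_lit 302) (nat_lit 5) (nat_lit 296) (nat_lit 5) (nat_lit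 273) (nat_lit 260) (nat_lit 247)) (XT.lf (nat_lit 0) (nat_lit 838517338) (nat_lit 532) (nat_lit 4930836316) (nat_lit 608) (nat_lit 962014726) (nat_lit 288) (nat_lit 5) (nat_lit 295) (nat_lit 5) (nat_lit 296) (nat_lit 5) (nat_lit 274) (nat_lit 260) (nat_lit 246)))) (XT.nd (nat_lit 156) (nat_lit 760) (nat_lit 0) (XT.nd (nat_lit 78) (nat_lit 608) (nat_lit 0) (XT.lf (nat_lit 0) (nat_lit 1544092723) (nat_lit 608) (nat_lit 2196404444) (nat_lit 76) (nat_lit 3033664566) (nat_lit 287) (nat_lit 5) (nat_lit 295) (nat_lit 5) (nat_lit 288) (nat_lit 5) (nat_lit 275) (nat_lit 260) (nat_lit 245)) (XT.lf (nat_lit 0) (nat_lit 1570561096) (nat_lit 608) (nat_lit 2465611519) (nat_lit 684) (nat_lit 2784020114) (nat_lit 279) (nat_lit 5) (nat_lit 287) (nat_lit 5) (nat_lit 288) (nat_lit 5) (nat_lit 276) (nat_lit 260) (nat_lit 244))) (XT.nd (nat_lit 78) (nat_lit 760) (nat_lit 0) (XT.lf (nat_lit 0) (nat_lit 5434665788) (nat_lit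 608) (nat_lit 1107445637) (nat_lit 684) (nat_lit 327459493) (nat_lit 279) (nat_lit 5) (nat_lit 287) (nat_lit 5) (nat_lit 288) (nat_lit 5) (nat_lit 277) (nat_lit 260) (nat_lit 243)) (XT.lf (nat_lit 0) (nat_lit 2105313194) (nat_lit 760) (nat_lit 4464888536) (nat_lit 76) (nat_lit 351359663) (nat_lit 269) (nat_lit 5) (nat_lit 279) (nat_lit 5) (nat_lit 270) (nat_lit 5) (nat_lit 278) (nat_lit 260) (nat_lit 242))))) (XT.nd (nat_lit 234) (nat_lit 1976) (nat_lit 0) (XT.nd (nat_lit 78) (nat_lit 1672) (nat_lit 0) (XT.lf (nat_lit 0) (nat_lit 4550476086) (nat_lit 760) (nat_lit 557602457) (nat_lit 76) (nat_lit 1868683463) (nat_lit 269) (nat_lit 5) (nat_lit 279) (nat_lit 5) (nat_lit 270) (nat_lit 5) (nat_lit 279) (nat_lit 260) (nat_lit 241)) (XT.nd (nat_lit 78) (nat_lit 912) (nat_lit 0) (XT.lf (nat_lit 0) (nat_lit 3473530420) (nat_lit 760) (nat_lit 3551562497) (nat_lit 836) (nat_lit 9966389) (nat_lit 259) (nat_lit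 5) (nat_lit 269) (nat_lit 5) (nat_lit 270) (nat_lit 5) (nat_lit 280) (nat_lit 260) (nat_lit 240)) (XT.lf (nat_lit 0) (nat_lit 465090532) (nat_lit 836) (nat_lit 1899050257) (nat_lit 912) (nat_lit 4732356360) (nat_lit 247) (nat_lit 5) (nat_lit 258) (nat_lit 5) (nat_lit 259) (nat_lit 5) (nat_lit 281) (nat_lit 260) (nat_lit 239)))) (XT.nd (nat_lit 156) (nat_lit 1064) (nat_lit 0) (XT.nd (nat_lit 78) (nat_lit 912) (nat_lit 0) (XT.lf (nat_lit 0) (nat_lit 4623833332) (nat_lit 836) (nat_lit 146548903) (nat_lit 912) (nat_lit 2390672738) (nat_lit 247) (nat_lit 5) (nat_lit 258) (nat_lit 5) (nat_lit 259) (nat_lit 5) (nat_lit 282) (nat_lit 260) (nat_lit 238)) (XT.lf (nat_lit 0) (nat_lit 1633519344) (nat_lit 912) (nat_lit 5574388623) (nat_lit 988) (nat_lit 20978507) (nat_lit 235) (nat_lit 5) (nat_lit 247) (nat_lit 5) (nat_lit 248) (nat_lit 5) (nat_lit 283) (nat_lit 260) (nat_lit 237))) (XT.nd (nat_lit 78) (nat_lit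 988) (nat_lit 0) (XT.lf (nat_lit 0) (nat_lit 2328078072) (nat_lit 988) (nat_lit 1404682465) (nat_lit 76) (nat_lit 3566733392) (nat_lit 234) (nat_lit 5) (nat_lit 247) (nat_lit 5) (nat_lit 235) (nat_lit 5) (nat_lit 284) (nat_lit 260) (nat_lit 236)) (XT.lf (nat_lit 0) (nat_lit 2906952795) (nat_lit 988) (nat_lit 1798432643) (nat_lit 1064) (nat_lit 2668182446) (nat_lit 221) (nat_lit 5) (nat_lit 234) (nat_lit 5) (nat_lit 235) (nat_lit 5) (nat_lit 285) (nat_lit 260) (nat_lit 235))))))) (XT.nd (nat_lit 1092) (nat_lit 3496) (nat_lit 0) (XT.nd (nat_lit 546) (nat_lit 2204) (nat_lit 0) (XT.nd (nat_lit 234) (nat_lit 1368) (nat_lit 0) (XT.nd (nat_lit 78) (nat_lit 2280) (nat_lit 0) (XT.lf (nat_lit 0) (nat_lit 7101979580) (nat_lit 1064) (nat_lit 137617441) (nat_lit 76) (nat_lit 211925614) (nat_lit 221) (nat_lit 5) (nat_lit 235) (nat_lit 5) (nat_lit 222) (nat_lit 5) (nat_lit 286) (nat_lit 260) (nat_lit 234)) (XT.nd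 (nat_lit 78) (nat_lit 1140) (nat_lit 0) (XT.lf (nat_lit 0) (nat_lit 1991877015) (nat_lit 1140) (nat_lit 3224842594) (nat_lit 76) (nat_lit 2314810425) (nat_lit 206) (nat_lit 5) (nat_lit 221) (nat_lit 5) (nat_lit 207) (nat_lit 5) (nat_lit 287) (nat_lit 260) (nat_lit 233)) (XT.lf (nat_lit 0) (nat_lit 1231941181) (nat_lit 1140) (nat_lit 3112199307) (nat_lit 1216) (nat_lit 3271353874) (nat_lit 191) (nat_lit 5) (nat_lit 206) (nat_lit 5) (nat_lit 207) (nat_lit 5) (nat_lit 288) (nat_lit 260) (nat_lit 232)))) (XT.nd (nat_lit 156) (nat_lit 608) (nat_lit 0) (XT.nd (nat_lit 78) (nat_lit 760) (nat_lit 0) (XT.lf (nat_lit 0) (nat_lit 5827270782) (nat_lit 1140) (nat_lit 907968681) (nat_lit 1216) (nat_lit 967776849) (nat_lit 191) (nat_lit 5) (nat_lit 206) (nat_lit 5) (nat_lit 207) (nat_lit 5) (nat_lit 289) (nat_lit 260) (nat_lit 231)) (XT.lf (nat_lit 0) (nat_lit 1354282921) (nat_lit 760) (nat_lit 5060886107) (nat_lit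 76) (nat_lit 1378367782) (nat_lit 181) (nat_lit 5) (nat_lit 191) (nat_lit 5) (nat_lit 182) (nat_lit 5) (nat_lit 290) (nat_lit 260) (nat_lit 230))) (XT.nd (nat_lit 78) (nat_lit 608) (nat_lit 0) (XT.lf (nat_lit 0) (nat_lit 3692822442) (nat_lit 760) (nat_lit 449386524) (nat_lit 76) (nat_lit 3745367778) (nat_lit 181) (nat_lit 5) (nat_lit 191) (nat_lit 5) (nat_lit 182) (nat_lit 5) (nat_lit 291) (nat_lit 260) (nat_lit 229)) (XT.lf (nat_lit 0) (nat_lit 4324482789) (nat_lit 608) (nat_lit 1758557003) (nat_lit 684) (nat_lit 1902029484) (nat_lit 173) (nat_lit 5) (nat_lit 181) (nat_lit 5) (nat_lit 182) (nat_lit 5) (nat_lit 292) (nat_lit 260) (nat_lit 228))))) (XT.nd (nat_lit 234) (nat_lit 1064) (nat_lit 0) (XT.nd (nat_lit 78) (nat_lit 532) (nat_lit 0) (XT.lf (nat_lit 0) (nat_lit 413225529) (nat_lit 608) (nat_lit 6971797374) (nat_lit 76) (nat_lit 701522368) (nat_lit 165) (nat_lit 5) (nat_lit 173) (nat_lit 5)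 (nat_lit 166) (nat_lit 5) (nat_lit 293) (nat_lit 260) (nat_lit 227)) (XT.nd (nat_lit 78) (nat_lit 532) (nat_lit 0) (XT.lf (nat_lit 0) (nat_lit 2756054992) (nat_lit 608) (nat_lit 2180416153) (nat_lit 76) (nat_lit 3254209582) (nat_lit 165) (nat_lit 5) (nat_lit 173) (nat_lit 5) (nat_lit 166) (nat_lit 5) (nat_lit 294) (nat_lit 260) (nat_lit 226)) (XT.lf (nat_lit 0) (nat_lit 2747909792) (nat_lit 532) (nat_lit 2390978522) (nat_lit 608) (nat_lit 3160028819) (nat_lit 158) (nat_lit 5) (nat_lit 165) (nat_lit 5) (nat_lit 166) (nat_lit 5) (nat_lit 295) (nat_lit 260) (nat_lit 225)))) (XT.nd (nat_lit 156) (nat_lit 532) (nat_lit 0) (XT.nd (nat_lit 78) (nat_lit 532) (nat_lit 0) (XT.lf (nat_lit 0) (nat_lit 7562002108) (nat_lit 608) (nat_lit 604916135) (nat_lit 76) (nat_lit 244484989) (nat_lit 158) (nat_lit 5) (nat_lit 166) (nat_lit 5) (nat_lit 159) (nat_lit 5) (nat_lit 296) (nat_lit 260) (nat_lit 224)) (XT.lf (nat_lit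 0) (nat_lit 1513574746) (nat_lit 532) (nat_lit 4047935287) (nat_lit 76) (nat_lit 2964988276) (nat_lit 151) (nat_lit 5) (nat_lit 158) (nat_lit 5) (nat_lit 152) (nat_lit 5) (nat_lit 297) (nat_lit 260) (nat_lit 223))) (XT.nd (nat_lit 78) (nat_lit 0) (nat_lit 0) (XT.lf (nat_lit 0) (nat_lit 1033509738) (nat_lit 532) (nat_lit 2859341976) (nat_lit 608) (nat_lit 4753128533) (nat_lit 144) (nat_lit 5) (nat_lit 151) (nat_lit 5) (nat_lit 152) (nat_lit 5) (nat_lit 298) (nat_lit 260) (nat_lit 222)) (XT.lf (nat_lit 0) (nat_lit 6290696590) (nat_lit 532) (nat_lit 41054936) (nat_lit 608) (nat_lit 2437706833) (nat_lit 144) (nat_lit 5) (nat_lit 151) (nat_lit 5) (nat_lit 152) (nat_lit 5) (nat_lit 299) (nat_lit 260) (nat_lit 221)))))) (XT.nd (nat_lit 546) (nat_lit 1596) (nat_lit 0) (XT.nd (nat_lit 234) (nat_lit 912) (nat_lit 0) (XT.nd (nat_lit 78) (nat_lit 532) (nat_lit 0) (XT.lf (nat_lit 0) (nat_lit 2776155354) (nat_lit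 456) (nat_lit 6070693774) (nat_lit 532) (nat_lit 49758094) (nat_lit 138) (nat_lit 5) (nat_lit 144) (nat_lit 5) (nat_lit 145) (nat_lit 5) (nat_lit 300) (nat_lit 260) (nat_lit 220)) (XT.nd (nat_lit 78) (nat_lit 456) (nat_lit 0) (XT.lf (nat_lit 0) (nat_lit 2337697312) (nat_lit 532) (nat_lit 871054902) (nat_lit 76) (nat_lit 5818930655) (nat_lit 137) (nat_lit 5) (nat_lit 144) (nat_lit 5) (nat_lit 138) (nat_lit 5) (nat_lit 301) (nat_lit 260) (nat_lit 219)) (XT.lf (nat_lit 0) (nat_lit 4566232649) (nat_lit 456) (nat_lit 224124155) (nat_lit 532) (nat_lit 4372534251) (nat_lit 131) (nat_lit 5) (nat_lit 137) (nat_lit 5) (nat_lit 138) (nat_lit 5) (nat_lit 302) (nat_lit 260) (nat_lit 218)))) (XT.nd (nat_lit 156) (nat_lit 456) (nat_lit 0) (XT.nd (nat_lit 78) (nat_lit 76) (nat_lit 0) (XT.lf (nat_lit 0) (nat_lit 811915833) (nat_lit 380) (nat_lit 6500245224) (nat_lit 456) (nat_lit 1990178421) (nat_lit 126) (nat_lit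 5) (nat_lit 131) (nat_lit 5) (nat_lit 132) (nat_lit 5) (nat_lit 303) (nat_lit 260) (nat_lit 217)) (XT.lf (nat_lit 0) (nat_lit 455508150) (nat_lit 456) (nat_lit 3034215318) (nat_lit 76) (nat_lit 5956134968) (nat_lit 125) (nat_lit 5) (nat_lit 131) (nat_lit 5) (nat_lit 126) (nat_lit 5) (nat_lit 304) (nat_lit 260) (nat_lit 216))) (XT.nd (nat_lit 78) (nat_lit 0) (nat_lit 0) (XT.lf (nat_lit 0) (nat_lit 2558150259) (nat_lit 456) (nat_lit 354220141) (nat_lit 532) (nat_lit 6681433866) (nat_lit 119) (nat_lit 5) (nat_lit 125) (nat_lit 5) (nat_lit 126) (nat_lit 5) (nat_lit 305) (nat_lit 260) (nat_lit 215)) (XT.lf (nat_lit 0) (nat_lit 5455441639) (nat_lit 532) (nat_lit 1451220587) (nat_lit 76) (nat_lit 2839196408) (nat_lit 119) (nat_lit 5) (nat_lit 126) (nat_lit 5) (nat_lit 120) (nat_lit 5) (nat_lit 306) (nat_lit 260) (nat_lit 214))))) (XT.nd (nat_lit 234) (nat_lit 760) (nat_lit 0) (XT.nd (nat_lit 78) (nat_lit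 456) (nat_lit 0) (XT.lf (nat_lit 0) (nat_lit 4324842066) (nat_lit 380) (nat_lit 3750305752) (nat_lit 456) (nat_lit 1827360471) (nat_lit 114) (nat_lit 5) (nat_lit 119) (nat_lit 5) (nat_lit 120) (nat_lit 5) (nat_lit 307) (nat_lit 260) (nat_lit 213)) (XT.nd (nat_lit 78) (nat_lit 0) (nat_lit 0) (XT.lf (nat_lit 0) (nat_lit 179902640) (nat_lit 380) (nat_lit 487915313) (nat_lit 456) (nat_lit 9396713965) (nat_lit 108) (nat_lit 5) (nat_lit 113) (nat_lit 5) (nat_lit 114) (nat_lit 5) (nat_lit 308) (nat_lit 260) (nat_lit 212)) (XT.lf (nat_lit 0) (nat_lit 3241790088) (nat_lit 456) (nat_lit 4109278496) (nat_lit 76) (nat_lit 2878625106) (nat_lit 108) (nat_lit 5) (nat_lit 114) (nat_lit 5) (nat_lit 109) (nat_lit 5) (nat_lit 309) (nat_lit 260) (nat_lit 211)))) (XT.nd (nat_lit 156) (nat_lit 456) (nat_lit 0) (XT.nd (nat_lit 78) (nat_lit 0) (nat_lit 0) (XT.lf (nat_lit 0) (nat_lit 1813752959) (nat_lit 304) (nat_lit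 4058945232) (nat_lit 380) (nat_lit 4527759662) (nat_lit 104) (nat_lit 5) (nat_lit 108) (nat_lit 5) (nat_lit 109) (nat_lit 5) (nat_lit 310) (nat_lit 260) (nat_lit 210)) (XT.lf (nat_lit 0) (nat_lit 7943120092) (nat_lit 304) (nat_lit 639065067) (nat_lit 380) (nat_lit 1994208135) (nat_lit 104) (nat_lit 5) (nat_lit 108) (nat_lit 5) (nat_lit 109) (nat_lit 5) (nat_lit 311) (nat_lit 260) (nat_lit 209))) (XT.nd (nat_lit 78) (nat_lit 0) (nat_lit 0) (XT.lf (nat_lit 0) (nat_lit 623961864) (nat_lit 456) (nat_lit 7279218491) (nat_lit 76) (nat_lit 2853666130) (nat_lit 98) (nat_lit 5) (nat_lit 104) (nat_lit 5) (nat_lit 99) (nat_lit 5) (nat_lit 312) (nat_lit 260) (nat_lit 208)) (XT.lf (nat_lit 0) (nat_lit 3273253898) (nat_lit 456) (nat_lit 1197815603) (nat_lit 76) (nat_lit 6471306359) (nat_lit 98) (nat_lit 5) (nat_lit 104) (nat_lit 5) (nat_lit 99) (nat_lit 5) (nat_lit 313) (nat_lit 260) (nat_lit 207))))))))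
noncomputable def xc104 : XT := (XT.nd (nat_lit 2106) (nat_lit 1748) (nat_lit 0) (XT.nd (nat_lit 1014) (nat_lit 1672) (nat_lit 0) (XT.nd (nat_lit 468) (nat_lit 912) (nat_lit 0) (XT.nd (nat_lit 234) (nat_lit 608) (nat_lit 0) (XT.nd (nat_lit 78) (nat_lit 380) (nat_lit 0) (XT.lf (nat_lit 0) (nat_lit 5111995911) (nat_lit 304) (nat_lit 899825690) (nat_lit 380) (nat_lit 5121389286) (nat_lit 94) (nat_lit 5) (nat_lit 98) (nat_lit 5) (nat_lit 99) (nat_lit 5) (nat_lit 314) (nat_lit 260) (nat_lit 206)) (XT.nd (nat_lit 78) (nat_lit 76) (nat_lit 0) (XT.lf (nat_lit 0) (nat_lit 229585143) (nat_lit 304) (nat_lit 8605243973) (nat_lit 380) (nat_lit 2494906061) (nat_lit 90) (nat_lit 5) (nat_lit 94) (nat_lit 5) (nat_lit 95) (nat_lit 5) (nat_lit 315) (nat_lit 260) (nat_lit 205)) (XT.lf (nat_lit 0) (nat_lit 237936388) (nat_lit 380) (nat_lit 4805107337) (nat_lit 76) (nat_lit 6488131526) (nat_lit 89) (nat_lit 5) (nat_lit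 94) (nat_lit 5) (nat_lit 90) (nat_lit 5) (nat_lit 316) (nat_lit 260) (nat_lit 204)))) (XT.nd (nat_lit 78) (nat_lit 304) (nat_lit 0) (XT.lf (nat_lit 0) (nat_lit 1632958140) (nat_lit 304) (nat_lit 1347839573) (nat_lit 380) (nat_lit 8757804313) (nat_lit 85) (nat_lit 5) (nat_lit 89) (nat_lit 5) (nat_lit 90) (nat_lit 5) (nat_lit 317) (nat_lit 260) (nat_lit 203)) (XT.nd (nat_lit 78) (nat_lit 304) (nat_lit 0) (XT.lf (nat_lit 0) (nat_lit 5841498103) (nat_lit 380) (nat_lit 3665700085) (nat_lit 76) (nat_lit 2444015868) (nat_lit 85) (nat_lit 5) (nat_lit 90) (nat_lit 5) (nat_lit 86) (nat_lit 5) (nat_lit 318) (nat_lit 260) (nat_lit 202)) (XT.lf (nat_lit 0) (nat_lit 2959954141) (nat_lit 304) (nat_lit 5833863903) (nat_lit 380) (nat_lit 3376240651) (nat_lit 81) (nat_lit 5) (nat_lit 85) (nat_lit 5) (nat_lit 86) (nat_lit 5) (nat_lit 319) (nat_lit 260) (nat_lit 201))))) (XT.nd (nat_lit 234) (nat_lit 608) (nat_lit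 0) (XT.nd (nat_lit 78) (nat_lit 304) (nat_lit 0) (XT.lf (nat_lit 0) (nat_lit 9808127789) (nat_lit 304) (nat_lit 2028151379) (nat_lit 380) (nat_lit 559169738) (nat_lit 81) (nat_lit 5) (nat_lit 85) (nat_lit 5) (nat_lit 86) (nat_lit 5) (nat_lit 320) (nat_lit 260) (nat_lit 200)) (XT.nd (nat_lit 78) (nat_lit 0) (nat_lit 0) (XT.lf (nat_lit 0) (nat_lit 2321378544) (nat_lit 304) (nat_lit 8401602887) (nat_lit 76) (nat_lit 1903229478) (nat_lit 77) (nat_lit 5) (nat_lit 81) (nat_lit 5) (nat_lit 78) (nat_lit 5) (nat_lit 321) (nat_lit 260) (nat_lit 199)) (XT.lf (nat_lit 0) (nat_lit 5289170231) (nat_lit 304) (nat_lit 1646073375) (nat_lit 76) (nat_lit 5928149162) (nat_lit 77) (nat_lit 5) (nat_lit 81) (nat_lit 5) (nat_lit 78) (nat_lit 5) (nat_lit 322) (nat_lit 260) (nat_lit 198)))) (XT.nd (nat_lit 156) (nat_lit 304) (nat_lit 0) (XT.nd (nat_lit 78) (nat_lit 0) (nat_lit 0) (XT.lf (nat_lit 0) (nat_lit 5367325572)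 (nat_lit 304) (nat_lit 2996865525) (nat_lit 380) (nat_lit 4742977452) (nat_lit 73) (nat_lit 5) (nat_lit 77) (nat_lit 5) (nat_lit 78) (nat_lit 5) (nat_lit 323) (nat_lit 260) (nat_lit 197)) (XT.lf (nat_lit 0) (nat_lit 11525382898) (nat_lit 380) (nat_lit 793142266) (nat_lit 76) (nat_lit 1039938449) (nat_lit 73) (nat_lit 5) (nat_lit 78) (nat_lit 5) (nat_lit 74) (nat_lit 5) (nat_lit 324) (nat_lit 260) (nat_lit 196))) (XT.nd (nat_lit 78) (nat_lit 0) (nat_lit 0) (XT.lf (nat_lit 0) (nat_lit 1201148802) (nat_lit 304) (nat_lit 7218421069) (nat_lit 76) (nat_lit 5195621659) (nat_lit 69) (nat_lit 5) (nat_lit 73) (nat_lit 5) (nat_lit 70) (nat_lit 5) (nat_lit 325) (nat_lit 260) (nat_lit 195)) (XT.lf (nat_lit 0) (nat_lit 4265699397) (nat_lit 304) (nat_lit 127601469) (nat_lit 76) (nat_lit 9486513437) (nat_lit 69) (nat_lit 5) (nat_lit 73) (nat_lit 5) (nat_lit 70) (nat_lit 5) (nat_lit 326) (nat_lit 260) (nat_lit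 194)))))) (XT.nd (nat_lit 546) (nat_lit 760) (nat_lit 0) (XT.nd (nat_lit 234) (nat_lit 456) (nat_lit 0) (XT.nd (nat_lit 78) (nat_lit 228) (nat_lit 0) (XT.lf (nat_lit 0) (nat_lit 7270603767) (nat_lit 228) (nat_lit 190451669) (nat_lit 304) (nat_lit 6690175241) (nat_lit 66) (nat_lit 5) (nat_lit 69) (nat_lit 5) (nat_lit 70) (nat_lit 5) (nat_lit 327) (nat_lit 260) (nat_lit 193)) (XT.nd (nat_lit 78) (nat_lit 0) (nat_lit 0) (XT.lf (nat_lit 0) (nat_lit 382761122) (nat_lit 228) (nat_lit 10383551239) (nat_lit 304) (nat_lit 3664076350) (nat_lit 63) (nat_lit 5) (nat_lit 66) (nat_lit 5) (nat_lit 67) (nat_lit 5) (nat_lit 328) (nat_lit 260) (nat_lit 192)) (XT.lf (nat_lit 0) (nat_lit 7956106212) (nat_lit 228) (nat_lit 6255689127) (nat_lit 304) (nat_lit 504913876) (nat_lit 63) (nat_lit 5) (nat_lit 66) (nat_lit 5) (nat_lit 67) (nat_lit 5) (nat_lit 329) (nat_lit 260) (nat_lit 191)))) (XT.nd (nat_lit 156) (nat_lit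 152) (nat_lit 0) (XT.nd (nat_lit 78) (nat_lit 0) (nat_lit 0) (XT.lf (nat_lit 0) (nat_lit 685680632) (nat_lit 228) (nat_lit 1986583037) (nat_lit 304) (nat_lit 12339275047) (nat_lit 59) (nat_lit 5) (nat_lit 62) (nat_lit 5) (nat_lit 63) (nat_lit 5) (nat_lit 330) (nat_lit 260) (nat_lit 190)) (XT.lf (nat_lit 0) (nat_lit 5997282766) (nat_lit 304) (nat_lit 6894663553) (nat_lit 76) (nat_lit 2421254677) (nat_lit 59) (nat_lit 5) (nat_lit 63) (nat_lit 5) (nat_lit 60) (nat_lit 5) (nat_lit 331) (nat_lit 260) (nat_lit 189))) (XT.nd (nat_lit 78) (nat_lit 0) (nat_lit 0) (XT.lf (nat_lit 0) (nat_lit 708388037) (nat_lit 152) (nat_lit 8711558141) (nat_lit 228) (nat_lit 6204047728) (nat_lit 57) (nat_lit 5) (nat_lit 59) (nat_lit 5) (nat_lit 60) (nat_lit 5) (nat_lit 332) (nat_lit 260) (nat_lit 188)) (XT.lf (nat_lit 0) (nat_lit 8636075638) (nat_lit 152) (nat_lit 4350653611) (nat_lit 228) (nat_lit 2956155226) (nat_lit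 57) (nat_lit 5) (nat_lit 59) (nat_lit 5) (nat_lit 60) (nat_lit 5) (nat_lit 333) (nat_lit 260) (nat_lit 187))))) (XT.nd (nat_lit 234) (nat_lit 456) (nat_lit 0) (XT.nd (nat_lit 78) (nat_lit 0) (nat_lit 0) (XT.lf (nat_lit 0) (nat_lit 359943072) (nat_lit 304) (nat_lit 15781153691) (nat_lit 76) (nat_lit 130797957) (nat_lit 53) (nat_lit 5) (nat_lit 57) (nat_lit 5) (nat_lit 54) (nat_lit 5) (nat_lit 334) (nat_lit 260) (nat_lit 186)) (XT.nd (nat_lit 78) (nat_lit 0) (nat_lit 0) (XT.lf (nat_lit 0) (nat_lit 3806278958) (nat_lit 304) (nat_lit 8053932708) (nat_lit 76) (nat_lit 4746996043) (nat_lit 53) (nat_lit 5) (nat_lit 57) (nat_lit 5) (nat_lit 54) (nat_lit 5) (nat_lit 335) (nat_lit 260) (nat_lit 185)) (XT.lf (nat_lit 0) (nat_lit 7329383241) (nat_lit 304) (nat_lit 137900531) (nat_lit 76) (nat_lit 9486110125) (nat_lit 53) (nat_lit 5) (nat_lit 57) (nat_lit 5) (nat_lit 54) (nat_lit 5) (nat_lit 336) (nat_lit 260)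 (nat_lit 184)))) (XT.nd (nat_lit 156) (nat_lit 304) (nat_lit 0) (XT.nd (nat_lit 78) (nat_lit 0) (nat_lit 0) (XT.lf (nat_lit 0) (nat_lit 8132555203) (nat_lit 152) (nat_lit 2877954255) (nat_lit 228) (nat_lit 6297901070) (nat_lit 51) (nat_lit 5) (nat_lit 53) (nat_lit 5) (nat_lit 54) (nat_lit 5) (nat_lit 337) (nat_lit 260) (nat_lit 183)) (XT.lf (nat_lit 0) (nat_lit 14795606733) (nat_lit 228) (nat_lit 1079842624) (nat_lit 76) (nat_lit 1798836471) (nat_lit 51) (nat_lit 5) (nat_lit 54) (nat_lit 5) (nat_lit 52) (nat_lit 5) (nat_lit 338) (nat_lit 260) (nat_lit 182))) (XT.nd (nat_lit 78) (nat_lit 0) (nat_lit 0) (XT.lf (nat_lit 0) (nat_lit 705376399) (nat_lit 304) (nat_lit 10722944692) (nat_lit 76) (nat_lit 6620400112) (nat_lit 47) (nat_lit 5) (nat_lit 51) (nat_lit 5) (nat_lit 48) (nat_lit 5) (nat_lit 339) (nat_lit 260) (nat_lit 181)) (XT.lf (nat_lit 0) (nat_lit 4325291737) (nat_lit 304) (nat_lit 2497827488)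 (nat_lit 76) (nat_lit 11610842535) (nat_lit 47) (nat_lit 5) (nat_lit 51) (nat_lit 5) (nat_lit 48) (nat_lit 5) (nat_lit 340) (nat_lit 260) (nat_lit 180))))))) (XT.nd (nat_lit 1092) (nat_lit 684) (nat_lit 0) (XT.nd (nat_lit 546) (nat_lit 532) (nat_lit 0) (XT.nd (nat_lit 234) (nat_lit 228) (nat_lit 0) (XT.nd (nat_lit 78) (nat_lit 152) (nat_lit 0) (XT.lf (nat_lit 0) (nat_lit 6052483769) (nat_lit 152) (nat_lit 2035408245) (nat_lit 228) (nat_lit 10741857592) (nat_lit 45) (nat_lit 5) (nat_lit 47) (nat_lit 5) (nat_lit 48) (nat_lit 5) (nat_lit 341) (nat_lit 260) (nat_lit 179)) (XT.nd (nat_lit 78) (nat_lit 152) (nat_lit 0) (XT.lf (nat_lit 0) (nat_lit 11992763097) (nat_lit 228) (nat_lit 4394086897) (nat_lit 76) (nat_lit 2849691637) (nat_lit 45) (nat_lit 5) (nat_lit 48) (nat_lit 5) (nat_lit 46) (nat_lit 5) (nat_lit 342) (nat_lit 260) (nat_lit 178)) (XT.lf (nat_lit 0) (nat_lit 4264967837) (nat_lit 152) (nat_lit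 11787741552) (nat_lit 228) (nat_lit 3601702124) (nat_lit 43) (nat_lit 5) (nat_lit 45) (nat_lit 5) (nat_lit 46) (nat_lit 5) (nat_lit 343) (nat_lit 260) (nat_lit 177)))) (XT.nd (nat_lit 156) (nat_lit 0) (nat_lit 0) (XT.nd (nat_lit 78) (nat_lit 152) (nat_lit 0) (XT.lf (nat_lit 0) (nat_lit 168376457) (nat_lit 228) (nat_lit 6850279978) (nat_lit 76) (nat_lit 13065479389) (nat_lit 42) (nat_lit 5) (nat_lit 45) (nat_lit 5) (nat_lit 43) (nat_lit 5) (nat_lit 344) (nat_lit 260) (nat_lit 176)) (XT.lf (nat_lit 0) (nat_lit 1908994619) (nat_lit 152) (nat_lit 2066045704) (nat_lit 228) (nat_lit 16550776476) (nat_lit 40) (nat_lit 5) (nat_lit 42) (nat_lit 5) (nat_lit 43) (nat_lit 5) (nat_lit 345) (nat_lit 260) (nat_lit 175))) (XT.nd (nat_lit 78) (nat_lit 0) (nat_lit 0) (XT.lf (nat_lit 0) (nat_lit 7972613250) (nat_lit 228) (nat_lit 9974878681) (nat_lit 76) (nat_lit 3030965630) (nat_lit 40) (nat_lit 5) (nat_lit 43)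 (nat_lit 5) (nat_lit 41) (nat_lit 5) (nat_lit 346) (nat_lit 260) (nat_lit 174)) (XT.lf (nat_lit 0) (nat_lit 12088893729) (nat_lit 228) (nat_lit 1130847958) (nat_lit 76) (nat_lit 8224982772) (nat_lit 40) (nat_lit 5) (nat_lit 43) (nat_lit 5) (nat_lit 41) (nat_lit 5) (nat_lit 347) (nat_lit 260) (nat_lit 173))))) (XT.nd (nat_lit 234) (nat_lit 152) (nat_lit 0) (XT.nd (nat_lit 78) (nat_lit 228) (nat_lit 0) (XT.lf (nat_lit 0) (nat_lit 8100936321) (nat_lit 152) (nat_lit 8284553248) (nat_lit 228) (nat_lit 5537795009) (nat_lit 38) (nat_lit 5) (nat_lit 40) (nat_lit 5) (nat_lit 41) (nat_lit 5) (nat_lit 348) (nat_lit 260) (nat_lit 172)) (XT.nd (nat_lit 78) (nat_lit 228) (nat_lit 0) (XT.lf (nat_lit 0) (nat_lit 17597559064) (nat_lit 152) (nat_lit 3204073008) (nat_lit 228) (nat_lit 1614859697) (nat_lit 38) (nat_lit 5) (nat_lit 40) (nat_lit 5) (nat_lit 41) (nat_lit 5) (nat_lit 349) (nat_lit 260) (nat_lit 171))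 (XT.lf (nat_lit 0) (nat_lit 2421179916) (nat_lit 228) (nat_lit 18459060225) (nat_lit 76) (nat_lit 2042282120) (nat_lit 35) (nat_lit 5) (nat_lit 38) (nat_lit 5) (nat_lit 36) (nat_lit 5) (nat_lit 350) (nat_lit 260) (nat_lit 170)))) (XT.nd (nat_lit 156) (nat_lit 152) (nat_lit 0) (XT.nd (nat_lit 78) (nat_lit 0) (nat_lit 0) (XT.lf (nat_lit 0) (nat_lit 6606462692) (nat_lit 228) (nat_lit 9402174168) (nat_lit 76) (nat_lit 7432807481) (nat_lit 35) (nat_lit 5) (nat_lit 38) (nat_lit 5) (nat_lit 36) (nat_lit 5) (nat_lit 351) (nat_lit 260) (nat_lit 169)) (XT.lf (nat_lit 0) (nat_lit 10897645687) (nat_lit 228) (nat_lit 107385767) (nat_lit 76) (nat_lit 12971501022) (nat_lit 35) (nat_lit 5) (nat_lit 38) (nat_lit 5) (nat_lit 36) (nat_lit 5) (nat_lit 352) (nat_lit 260) (nat_lit 168))) (XT.nd (nat_lit 78) (nat_lit 0) (nat_lit 0) (XT.lf (nat_lit 0) (nat_lit 9621170322) (nat_lit 152) (nat_lit 5769792732) (nat_lit 228)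 (nat_lit 9134516629) (nat_lit 33) (nat_lit 5) (nat_lit 35) (nat_lit 5) (nat_lit 36) (nat_lit 5) (nat_lit 353) (nat_lit 260) (nat_lit 167)) (XT.lf (nat_lit 0) (nat_lit 19611286510) (nat_lit 152) (nat_lit 390035630) (nat_lit 228) (nat_lit 5090114051) (nat_lit 33) (nat_lit 5) (nat_lit 35) (nat_lit 5) (nat_lit 36) (nat_lit 5) (nat_lit 354) (nat_lit 260) (nat_lit 166)))))) (XT.nd (nat_lit 546) (nat_lit 304) (nat_lit 0) (XT.nd (nat_lit 234) (nat_lit 228) (nat_lit 0) (XT.nd (nat_lit 78) (nat_lit 76) (nat_lit 0) (XT.lf (nat_lit 0) (nat_lit 4227736885) (nat_lit 76) (nat_lit 20593989536) (nat_lit 152) (nat_lit 850500851) (nat_lit 32) (nat_lit 5) (nat_lit 33) (nat_lit 5) (nat_lit 34) (nat_lit 4) (nat_lit 355) (nat_lit 260) (nat_lit 165)) (XT.nd (nat_lit 78) (nat_lit 0) (nat_lit 0) (XT.lf (nat_lit 0) (nat_lit 3489057143) (nat_lit 152) (nat_lit 11999834925) (nat_lit 76) (nat_lit 10779302289) (nat_lit 31) (nat_lit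 5) (nat_lit 33) (nat_lit 5) (nat_lit 32) (nat_lit 5) (nat_lit 356) (nat_lit 260) (nat_lit 164)) (XT.lf (nat_lit 0) (nat_lit 7923866562) (nat_lit 152) (nat_lit 2311367652) (nat_lit 76) (nat_lit 16647096089) (nat_lit 31) (nat_lit 5) (nat_lit 33) (nat_lit 5) (nat_lit 32) (nat_lit 5) (nat_lit 357) (nat_lit 260) (nat_lit 163)))) (XT.nd (nat_lit 156) (nat_lit 76) (nat_lit 0) (XT.nd (nat_lit 78) (nat_lit 0) (nat_lit 0) (XT.lf (nat_lit 0) (nat_lit 7789554887) (nat_lit 152) (nat_lit 4759721896) (nat_lit 228) (nat_lit 14963893880) (nat_lit 29) (nat_lit 5) (nat_lit 31) (nat_lit 5) (nat_lit 32) (nat_lit 5) (nat_lit 358) (nat_lit 260) (nat_lit 162)) (XT.lf (nat_lit 0) (nat_lit 17328252870) (nat_lit 228) (nat_lit 9960342722) (nat_lit 76) (nat_lit 873903359) (nat_lit 29) (nat_lit 5) (nat_lit 32) (nat_lit 5) (nat_lit 30) (nat_lit 4) (nat_lit 359) (nat_lit 260) (nat_lit 161))) (XT.nd (nat_lit 78) (nat_lit 0) (nat_lit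 0) (XT.lf (nat_lit 0) (nat_lit 19667072) (nat_lit 76) (nat_lit 22261520499) (nat_lit 152) (nat_lit 6549208464) (nat_lit 28) (nat_lit 5) (nat_lit 29) (nat_lit 5) (nat_lit 30) (nat_lit 4) (nat_lit 360) (nat_lit 260) (nat_lit 160)) (XT.lf (nat_lit 0) (nat_lit 10474123578) (nat_lit 76) (nat_lit 16992648119) (nat_lit 152) (nat_lit 2049042926) (nat_lit 28) (nat_lit 5) (nat_lit 29) (nat_lit 5) (nat_lit 30) (nat_lit 4) (nat_lit 361) (nat_lit 260) (nat_lit 159))))) (XT.nd (nat_lit 234) (nat_lit 76) (nat_lit 0) (XT.nd (nat_lit 78) (nat_lit 152) (nat_lit 0) (XT.lf (nat_lit 0) (nat_lit 2519460580) (nat_lit 152) (nat_lit 9033052323) (nat_lit 76) (nat_lit 18669029216) (nat_lit 27) (nat_lit 5) (nat_lit 29) (nat_lit 5) (nat_lit 28) (nat_lit 5) (nat_lit 362) (nat_lit 260) (nat_lit 158)) (XT.nd (nat_lit 78) (nat_lit 0) (nat_lit 0) (XT.lf (nat_lit 0) (nat_lit 1252215676) (nat_lit 152) (nat_lit 5927926421) (nat_lit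 228) (nat_lit 23767807405) (nat_lit 25) (nat_lit 5) (nat_lit 27) (nat_lit 5) (nat_lit 28) (nat_lit 5) (nat_lit 363) (nat_lit 260) (nat_lit 157)) (XT.lf (nat_lit 0) (nat_lit 12003705196) (nat_lit 152) (nat_lit 52618330) (nat_lit 228) (nat_lit 19637560912) (nat_lit 25) (nat_lit 5) (nat_lit 27) (nat_lit 5) (nat_lit 28) (nat_lit 5) (nat_lit 364) (nat_lit 260) (nat_lit 156)))) (XT.nd (nat_lit 156) (nat_lit 0) (nat_lit 0) (XT.nd (nat_lit 78) (nat_lit 76) (nat_lit 0) (XT.lf (nat_lit 0) (nat_lit 17121260139) (nat_lit 228) (nat_lit 9469174080) (nat_lit 76) (nat_lit 5870494661) (nat_lit 25) (nat_lit 5) (nat_lit 28) (nat_lit 5) (nat_lit 26) (nat_lit 4) (nat_lit 365) (nat_lit 260) (nat_lit 155)) (XT.lf (nat_lit 0) (nat_lit 1052210061) (nat_lit 76) (nat_lit 21281817020) (nat_lit 152) (nat_lit 10917086495) (nat_lit 24) (nat_lit 5) (nat_lit 25) (nat_lit 5) (nat_lit 26) (nat_lit 4) (nat_lit 366) (nat_lit 260)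 (nat_lit 154))) (XT.nd (nat_lit 78) (nat_lit 0) (nat_lit 0) (XT.lf (nat_lit 0) (nat_lit 12057339378) (nat_lit 76) (nat_lit 15726884244) (nat_lit 152) (nat_lit 6278354024) (nat_lit 24) (nat_lit 5) (nat_lit 25) (nat_lit 5) (nat_lit 26) (nat_lit 4) (nat_lit 367) (nat_lit 260) (nat_lit 153)) (XT.lf (nat_lit 0) (nat_lit 23367374870) (nat_lit 76) (nat_lit 10016402158) (nat_lit 152) (nat_lit 1515038159) (nat_lit 24) (nat_lit 5) (nat_lit 25) (nat_lit 5) (nat_lit 26) (nat_lit 4) (nat_lit 368) (nat_lit 260) (nat_lit 152))))))))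
noncomputable def xc105 : XT := (XT.nd (nat_lit 2184) (nat_lit 228) (nat_lit 0) (XT.nd (nat_lit 1092) (nat_lit 380) (nat_lit 0) (XT.nd (nat_lit 546) (nat_lit 304) (nat_lit 0) (XT.nd (nat_lit 234) (nat_lit 76) (nat_lit 0) (XT.nd (nat_lit 78) (nat_lit 152) (nat_lit 0) (XT.lf (nat_lit 0) (nat_lit 3311125334) (nat_lit 152) (nat_lit 800819813) (nat_lit 76) (nat_lit 31647637886) (nat_lit 23) (nat_lit 5) (nat_lit 25) (nat_lit 5) (nat_lit 24) (nat_lit 5) (nat_lit 369) (nat_lit 260) (nat_lit 151)) (XT.nd (nat_lit 78) (nat_lit 0) (nat_lit 0) (XT.lf (nat_lit 0) (nat_lit 8358244817) (nat_lit 228) (nat_lit 26247200988) (nat_lit 76) (nat_lit 2037084091) (nat_lit 21) (nat_lit 5) (nat_lit 24) (nat_lit 5) (nat_lit 22) (nat_lit 4) (nat_lit 370) (nat_lit 260) (nat_lit 150)) (XT.lf (nat_lit 0) (nat_lit 13592245573) (nat_lit 228) (nat_lit 15672874679) (nat_lit 76) (nat_lit 8285785393) (nat_lit 21) (nat_lit 5) (nat_lit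 24) (nat_lit 5) (nat_lit 22) (nat_lit 4) (nat_lit 371) (nat_lit 260) (nat_lit 149)))) (XT.nd (nat_lit 156) (nat_lit 0) (nat_lit 0) (XT.nd (nat_lit 78) (nat_lit 76) (nat_lit 0) (XT.lf (nat_lit 0) (nat_lit 18970245560) (nat_lit 228) (nat_lit 4804753372) (nat_lit 76) (nat_lit 14711928739) (nat_lit 21) (nat_lit 5) (nat_lit 24) (nat_lit 5) (nat_lit 22) (nat_lit 4) (nat_lit 372) (nat_lit 260) (nat_lit 148)) (XT.lf (nat_lit 0) (nat_lit 6493368352) (nat_lit 76) (nat_lit 18065993876) (nat_lit 152) (nat_lit 14890179083) (nat_lit 20) (nat_lit 5) (nat_lit 21) (nat_lit 5) (nat_lit 22) (nat_lit 4) (nat_lit 373) (nat_lit 260) (nat_lit 147))) (XT.nd (nat_lit 78) (nat_lit 0) (nat_lit 0) (XT.lf (nat_lit 0) (nat_lit 18206397300) (nat_lit 76) (nat_lit 12145783776) (nat_lit 152) (nat_lit 10087775553) (nat_lit 20) (nat_lit 5) (nat_lit 21) (nat_lit 5) (nat_lit 22) (nat_lit 4) (nat_lit 374) (nat_lit 260) (nat_lit 146))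 (XT.lf (nat_lit 0) (nat_lit 30248944141) (nat_lit 76) (nat_lit 6057714222) (nat_lit 152) (nat_lit 5153793837) (nat_lit 20) (nat_lit 5) (nat_lit 21) (nat_lit 5) (nat_lit 22) (nat_lit 4) (nat_lit 375) (nat_lit 260) (nat_lit 145))))) (XT.nd (nat_lit 234) (nat_lit 76) (nat_lit 0) (XT.nd (nat_lit 78) (nat_lit 76) (nat_lit 0) (XT.lf (nat_lit 0) (nat_lit 119996844) (nat_lit 152) (nat_lit 42311110169) (nat_lit 152) (nat_lit 80719406) (nat_lit 18) (nat_lit 4) (nat_lit 20) (nat_lit 5) (nat_lit 20) (nat_lit 4) (nat_lit 376) (nat_lit 260) (nat_lit 144)) (XT.nd (nat_lit 78) (nat_lit 0) (nat_lit 0) (XT.lf (nat_lit 0) (nat_lit 5206628369) (nat_lit 228) (nat_lit 31702155029) (nat_lit 76) (nat_lit 6679604465) (nat_lit 17) (nat_lit 5) (nat_lit 20) (nat_lit 5) (nat_lit 18) (nat_lit 4) (nat_lit 377) (nat_lit 260) (nat_lit 143)) (XT.lf (nat_lit 0) (nat_lit 10639476345) (nat_lit 228) (nat_lit 20713492919) (nat_lit 76)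 (nat_lit 13344601411) (nat_lit 17) (nat_lit 5) (nat_lit 20) (nat_lit 5) (nat_lit 18) (nat_lit 4) (nat_lit 378) (nat_lit 260) (nat_lit 142)))) (XT.nd (nat_lit 156) (nat_lit 0) (nat_lit 0) (XT.nd (nat_lit 78) (nat_lit 76) (nat_lit 0) (XT.lf (nat_lit 0) (nat_lit 16224146794) (nat_lit 228) (nat_lit 9415465575) (nat_lit 76) (nat_lit 20200754946) (nat_lit 17) (nat_lit 5) (nat_lit 20) (nat_lit 5) (nat_lit 18) (nat_lit 4) (nat_lit 379) (nat_lit 260) (nat_lit 141)) (XT.lf (nat_lit 0) (nat_lit 2245619181) (nat_lit 76) (nat_lit 19741486611) (nat_lit 152) (nat_lit 25030022969) (nat_lit 16) (nat_lit 5) (nat_lit 17) (nat_lit 5) (nat_lit 18) (nat_lit 4) (nat_lit 380) (nat_lit 260) (nat_lit 140))) (XT.nd (nat_lit 78) (nat_lit 0) (nat_lit 0) (XT.lf (nat_lit 0) (nat_lit 14430033941) (nat_lit 76) (nat_lit 13577287649) (nat_lit 152) (nat_lit 20219343678) (nat_lit 16) (nat_lit 5) (nat_lit 17) (nat_lit 5) (nat_lit 18)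 (nat_lit 4) (nat_lit 381) (nat_lit 260) (nat_lit 139)) (XT.lf (nat_lit 0) (nat_lit 26961039054) (nat_lit 76) (nat_lit 7236707031) (nat_lit 152) (nat_lit 15275056885) (nat_lit 16) (nat_lit 5) (nat_lit 17) (nat_lit 5) (nat_lit 18) (nat_lit 4) (nat_lit 382) (nat_lit 260) (nat_lit 138)))))) (XT.nd (nat_lit 546) (nat_lit 152) (nat_lit 0) (XT.nd (nat_lit 234) (nat_lit 76) (nat_lit 0) (XT.nd (nat_lit 78) (nat_lit 152) (nat_lit 0) (XT.lf (nat_lit 0) (nat_lit 39849583941) (nat_lit 76) (nat_lit 714204444) (nat_lit 152) (nat_lit 10192842337) (nat_lit 16) (nat_lit 5) (nat_lit 17) (nat_lit 5) (nat_lit 18) (nat_lit 4) (nat_lit 383) (nat_lit 260) (nat_lit 137)) (XT.nd (nat_lit 78) (nat_lit 76) (nat_lit 0) (XT.lf (nat_lit 0) (nat_lit 989329047) (nat_lit 76) (nat_lit 46188828486) (nat_lit 76) (nat_lit 4899098390) (nat_lit 15) (nat_lit 4) (nat_lit 16) (nat_lit 5) (nat_lit 16) (nat_lit 4) (nat_lit 384) (nat_lit 260)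 (nat_lit 136)) (XT.lf (nat_lit 0) (nat_lit 651097388) (nat_lit 152) (nat_lit 39999593987) (nat_lit 76) (nat_lit 12783398528) (nat_lit 14) (nat_lit 5) (nat_lit 16) (nat_lit 5) (nat_lit 15) (nat_lit 4) (nat_lit 385) (nat_lit 260) (nat_lit 135)))) (XT.nd (nat_lit 156) (nat_lit 76) (nat_lit 0) (XT.nd (nat_lit 78) (nat_lit 0) (nat_lit 0) (XT.lf (nat_lit 0) (nat_lit 6259757119) (nat_lit 152) (nat_lit 28644686178) (nat_lit 76) (nat_lit 19926020403) (nat_lit 14) (nat_lit 5) (nat_lit 16) (nat_lit 5) (nat_lit 15) (nat_lit 4) (nat_lit 386) (nat_lit 260) (nat_lit 134)) (XT.lf (nat_lit 0) (nat_lit 12027380629) (nat_lit 152) (nat_lit 16966188555) (nat_lit 76) (nat_lit 27275441059) (nat_lit 14) (nat_lit 5) (nat_lit 16) (nat_lit 5) (nat_lit 15) (nat_lit 4) (nat_lit 387) (nat_lit 260) (nat_lit 133))) (XT.nd (nat_lit 78) (nat_lit 76) (nat_lit 0) (XT.lf (nat_lit 0) (nat_lit 17959007589) (nat_lit 152) (nat_lit 4953896606)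 (nat_lit 76) (nat_lit 34838082318) (nat_lit 14) (nat_lit 5) (nat_lit 16) (nat_lit 5) (nat_lit 15) (nat_lit 4) (nat_lit 388) (nat_lit 260) (nat_lit 132)) (XT.lf (nat_lit 0) (nat_lit 7550013810) (nat_lit 76) (nat_lit 16582382514) (nat_lit 152) (nat_lit 35143113855) (nat_lit 13) (nat_lit 5) (nat_lit 14) (nat_lit 5) (nat_lit 15) (nat_lit 4) (nat_lit 389) (nat_lit 260) (nat_lit 131))))) (XT.nd (nat_lit 234) (nat_lit 152) (nat_lit 0) (XT.nd (nat_lit 78) (nat_lit 0) (nat_lit 0) (XT.lf (nat_lit 0) (nat_lit 20514670938) (nat_lit 76) (nat_lit 10017680219) (nat_lit 152) (nat_lit 30312179893) (nat_lit 13) (nat_lit 5) (nat_lit 14) (nat_lit 5) (nat_lit 15) (nat_lit 4) (nat_lit 390) (nat_lit 260) (nat_lit 130)) (XT.nd (nat_lit 78) (nat_lit 0) (nat_lit 0) (XT.lf (nat_lit 0) (nat_lit 33852810862) (nat_lit 76) (nat_lit 3263085803) (nat_lit 152) (nat_lit 25344980474) (nat_lit 13) (nat_lit 5) (nat_lit 14) (nat_lit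 5) (nat_lit 15) (nat_lit 4) (nat_lit 391) (nat_lit 260) (nat_lit 129)) (XT.lf (nat_lit 0) (nat_lit 43924230074) (nat_lit 152) (nat_lit 16585317132) (nat_lit 0) (nat_lit 3615350246) (nat_lit 13) (nat_lit 5) (nat_lit 15) (nat_lit 4) (nat_lit 13) (nat_lit 4) (nat_lit 392) (nat_lit 260) (nat_lit 128)))) (XT.nd (nat_lit 156) (nat_lit 76) (nat_lit 0) (XT.nd (nat_lit 78) (nat_lit 76) (nat_lit 0) (XT.lf (nat_lit 0) (nat_lit 50961132078) (nat_lit 152) (nat_lit 4248939030) (nat_lit 0) (nat_lit 10628039928) (nat_lit 13) (nat_lit 5) (nat_lit 15) (nat_lit 4) (nat_lit 13) (nat_lit 4) (nat_lit 393) (nat_lit 260) (nat_lit 127)) (XT.lf (nat_lit 0) (nat_lit 8611250682) (nat_lit 76) (nat_lit 49672910578) (nat_lit 76) (nat_lit 9316311319) (nat_lit 12) (nat_lit 4) (nat_lit 13) (nat_lit 5) (nat_lit 13) (nat_lit 4) (nat_lit 394) (nat_lit 260) (nat_lit 126))) (XT.nd (nat_lit 78) (nat_lit 76) (nat_lit 0) (XT.lf (nat_lit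 0) (nat_lit 21930169277) (nat_lit 76) (nat_lit 43931951152) (nat_lit 76) (nat_lit 3552529457) (nat_lit 12) (nat_lit 4) (nat_lit 13) (nat_lit 5) (nat_lit 13) (nat_lit 4) (nat_lit 395) (nat_lit 260) (nat_lit 125)) (XT.lf (nat_lit 0) (nat_lit 2330122970) (nat_lit 152) (nat_lit 35671429769) (nat_lit 76) (nat_lit 33281239782) (nat_lit 11) (nat_lit 5) (nat_lit 13) (nat_lit 5) (nat_lit 12) (nat_lit 4) (nat_lit 396) (nat_lit 260) (nat_lit 124))))))) (XT.nd (nat_lit 30030) (nat_lit 0) (nat_lit 21204) (XT.nd (nat_lit 546) (nat_lit 152) (nat_lit 0) (XT.nd (nat_lit 234) (nat_lit 0) (nat_lit 0) (XT.nd (nat_lit 78) (nat_lit 76) (nat_lit 0) (XT.lf (nat_lit 0) (nat_lit 8310552427) (nat_lit 152) (nat_lit 23552670305) (nat_lit 76) (nat_lit 41342922417) (nat_lit 11) (nat_lit 5) (nat_lit 13) (nat_lit 5) (nat_lit 12) (nat_lit 4) (nat_lit 397) (nat_lit 260) (nat_lit 123)) (XT.nd (nat_lit 78) (nat_lit 76) (nat_lit 0)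 (XT.lf (nat_lit 0) (nat_lit 14463307177) (nat_lit 152) (nat_lit 11083463925) (nat_lit 76) (nat_lit 49640641742) (nat_lit 11) (nat_lit 5) (nat_lit 13) (nat_lit 5) (nat_lit 12) (nat_lit 4) (nat_lit 398) (nat_lit 260) (nat_lit 122)) (XT.lf (nat_lit 0) (nat_lit 1781855208) (nat_lit 76) (nat_lit 19029036487) (nat_lit 152) (nat_lit 56416921264) (nat_lit 10) (nat_lit 5) (nat_lit 11) (nat_lit 5) (nat_lit 12) (nat_lit 4) (nat_lit 399) (nat_lit 260) (nat_lit 121)))) (XT.nd (nat_lit 156) (nat_lit 0) (nat_lit 0) (XT.nd (nat_lit 78) (nat_lit 0) (nat_lit 0) (XT.lf (nat_lit 0) (nat_lit 15247725050) (nat_lit 76) (nat_lit 12206298013) (nat_lit 152) (nat_lit 51872250189) (nat_lit 10) (nat_lit 5) (nat_lit 11) (nat_lit 5) (nat_lit 12) (nat_lit 4) (nat_lit 400) (nat_lit 260) (nat_lit 120)) (XT.lf (nat_lit 0) (nat_lit 29105329230) (nat_lit 76) (nat_lit 5184515316) (nat_lit 152) (nat_lit 47198042623) (nat_lit 10) (nat_lit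 5) (nat_lit 11) (nat_lit 5) (nat_lit 12) (nat_lit 4) (nat_lit 401) (nat_lit 260) (nat_lit 119))) (XT.nd (nat_lit 78) (nat_lit 0) (nat_lit 0) (XT.lf (nat_lit 0) (nat_lit 41343962444) (nat_lit 152) (nat_lit 40367400417) (nat_lit 0) (nat_lit 2002591640) (nat_lit 10) (nat_lit 5) (nat_lit 12) (nat_lit 4) (nat_lit 10) (nat_lit 4) (nat_lit 402) (nat_lit 260) (nat_lit 118)) (XT.lf (nat_lit 0) (nat_lit 48654759891) (nat_lit 152) (nat_lit 28054796296) (nat_lit 0) (nat_lit 9295897590) (nat_lit 10) (nat_lit 5) (nat_lit 12) (nat_lit 4) (nat_lit 10) (nat_lit 4) (nat_lit 403) (nat_lit 260) (nat_lit 117))))) (XT.nd (nat_lit 234) (nat_lit 76) (nat_lit 0) (XT.nd (nat_lit 78) (nat_lit 76) (nat_lit 0) (XT.lf (nat_lit 0) (nat_lit 56178788230) (nat_lit 152) (nat_lit 15384150257) (nat_lit 0) (nat_lit 16802943893) (nat_lit 10) (nat_lit 5) (nat_lit 12) (nat_lit 4) (nat_lit 10) (nat_lit 4) (nat_lit 404) (nat_lit 260) (nat_lit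 116)) (XT.nd (nat_lit 78) (nat_lit 76) (nat_lit 0) (XT.lf (nat_lit 0) (nat_lit 63922621854) (nat_lit 152) (nat_lit 2344390861) (nat_lit 0) (nat_lit 24530290103) (nat_lit 10) (nat_lit 5) (nat_lit 12) (nat_lit 4) (nat_lit 10) (nat_lit 4) (nat_lit 405) (nat_lit 260) (nat_lit 115)) (XT.lf (nat_lit 0) (nat_lit 11296307501) (nat_lit 76) (nat_lit 60705306736) (nat_lit 76) (nat_lit 21296967788) (nat_lit 9) (nat_lit 4) (nat_lit 10) (nat_lit 5) (nat_lit 10) (nat_lit 4) (nat_lit 406) (nat_lit 260) (nat_lit 114)))) (XT.nd (nat_lit 156) (nat_lit 76) (nat_lit 0) (XT.nd (nat_lit 78) (nat_lit 0) (nat_lit 0) (XT.lf (nat_lit 0) (nat_lit 25383703828) (nat_lit 76) (nat_lit 54957268620) (nat_lit 76) (nat_lit 15533388704) (nat_lit 9) (nat_lit 4) (nat_lit 10) (nat_lit 5) (nat_lit 10) (nat_lit 4) (nat_lit 407) (nat_lit 260) (nat_lit 113)) (XT.lf (nat_lit 0) (nat_lit 39883449519) (nat_lit 76) (nat_lit 49041549560) (nat_lit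 76) (nat_lit 9602581325) (nat_lit 9) (nat_lit 4) (nat_lit 10) (nat_lit 5) (nat_lit 10) (nat_lit 4) (nat_lit 408) (nat_lit 260) (nat_lit 112))) (XT.nd (nat_lit 78) (nat_lit 76) (nat_lit 0) (XT.lf (nat_lit 0) (nat_lit 54808214254) (nat_lit 76) (nat_lit 42952980483) (nat_lit 76) (nat_lit 3499363395) (nat_lit 9) (nat_lit 4) (nat_lit 10) (nat_lit 5) (nat_lit 10) (nat_lit 4) (nat_lit 409) (nat_lit 260) (nat_lit 111)) (XT.lf (nat_lit 0) (nat_lit 2727319001) (nat_lit 152) (nat_lit 33931381702) (nat_lit 76) (nat_lit 67416179515) (nat_lit 8) (nat_lit 5) (nat_lit 10) (nat_lit 5) (nat_lit 9) (nat_lit 4) (nat_lit 410) (nat_lit 260) (nat_lit 110)))))) (XT.nd (nat_lit 546) (nat_lit 1824) (nat_lit 0) (XT.nd (nat_lit 234) (nat_lit 532) (nat_lit 0) (XT.nd (nat_lit 78) (nat_lit 228) (nat_lit 0) (XT.lf (nat_lit 0) (nat_lit 1468927565) (nat_lit 0) (nat_lit 1468927565) (nat_lit 76) (nat_lit 285301990) (nat_lit 321)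 (nat_lit 5) (nat_lit 321) (nat_lit 3) (nat_lit 322) (nat_lit 0) (nat_lit 261) (nat_lit 261) (nat_lit 258)) (XT.nd (nat_lit 78) (nat_lit 0) (nat_lit 0) (XT.lf (nat_lit 0) (nat_lit 2262040932) (nat_lit 228) (nat_lit 505993698) (nat_lit 228) (nat_lit 3684173934) (nat_lit 318) (nat_lit 3) (nat_lit 321) (nat_lit 3) (nat_lit 321) (nat_lit 5) (nat_lit 262) (nat_lit 261) (nat_lit 257)) (XT.lf (nat_lit 76) (nat_lit 2574129990) (nat_lit 0) (nat_lit 2508367561) (nat_lit 228) (nat_lit 1378420557) (nat_lit 319) (nat_lit 5) (nat_lit 318) (nat_lit 3) (nat_lit 321) (nat_lit 5) (nat_lit 263) (nat_lit 261) (nat_lit 256)))) (XT.nd (nat_lit 156) (nat_lit 304) (nat_lit 0) (XT.nd (nat_lit 78) (nat_lit 0) (nat_lit 0) (XT.lf (nat_lit 0) (nat_lit 1384162241) (nat_lit 228) (nat_lit 786177081) (nat_lit 304) (nat_lit 4302452299) (nat_lit 315) (nat_lit 5) (nat_lit 318) (nat_lit 3) (nat_lit 319) (nat_lit 5) (nat_lit 264) (nat_lit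 261) (nat_lit 255)) (XT.lf (nat_lit 76) (nat_lit 2383190999) (nat_lit 0) (nat_lit 1735750432) (nat_lit 304) (nat_lit 2368376569) (nat_lit 316) (nat_lit 5) (nat_lit 315) (nat_lit 5) (nat_lit 319) (nat_lit 5) (nat_lit 265) (nat_lit 261) (nat_lit 254))) (XT.nd (nat_lit 78) (nat_lit 0) (nat_lit 0) (XT.lf (nat_lit 0) (nat_lit 328468309) (nat_lit 304) (nat_lit 901375342) (nat_lit 380) (nat_lit 5275412569) (nat_lit 311) (nat_lit 5) (nat_lit 315) (nat_lit 5) (nat_lit 316) (nat_lit 5) (nat_lit 266) (nat_lit 261) (nat_lit 253)) (XT.lf (nat_lit 76) (nat_lit 2362990132) (nat_lit 0) (nat_lit 616812598) (nat_lit 380) (nat_lit 3545789201) (nat_lit 312) (nat_lit 5) (nat_lit 311) (nat_lit 5) (nat_lit 316) (nat_lit 5) (nat_lit 267) (nat_lit 261) (nat_lit 252))))) (XT.nd (nat_lit 234) (nat_lit 1520) (nat_lit 0) (XT.nd (nat_lit 78) (nat_lit 380) (nat_lit 0) (XT.lf (nat_lit 0) (nat_lit 5621303896) (nat_lit 304) (nat_lit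 862876179) (nat_lit 76) (nat_lit 65231464) (nat_lit 312) (nat_lit 5) (nat_lit 316) (nat_lit 5) (nat_lit 313) (nat_lit 5) (nat_lit 268) (nat_lit 261) (nat_lit 251)) (XT.nd (nat_lit 78) (nat_lit 0) (nat_lit 0) (XT.lf (nat_lit 0) (nat_lit 1667275294) (nat_lit 380) (nat_lit 4071917823) (nat_lit 76) (nat_lit 836414116) (nat_lit 307) (nat_lit 5) (nat_lit 312) (nat_lit 5) (nat_lit 308) (nat_lit 5) (nat_lit 269) (nat_lit 261) (nat_lit 250)) (XT.lf (nat_lit 0) (nat_lit 4235964940) (nat_lit 380) (nat_lit 682544359) (nat_lit 76) (nat_lit 1686557127) (nat_lit 307) (nat_lit 5) (nat_lit 312) (nat_lit 5) (nat_lit 308) (nat_lit 5) (nat_lit 270) (nat_lit 261) (nat_lit 249)))) (XT.nd (nat_lit 156) (nat_lit 1064) (nat_lit 0) (XT.nd (nat_lit 78) (nat_lit 0) (nat_lit 0) (XT.lf (nat_lit 0) (nat_lit 175710753) (nat_lit 456) (nat_lit 3834141871) (nat_lit 76) (nat_lit 2627625568) (nat_lit 301) (nat_lit 5) (nat_lit 307)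 (nat_lit 5) (nat_lit 302) (nat_lit 5) (nat_lit 271) (nat_lit 261) (nat_lit 248)) (XT.lf (nat_lit 0) (nat_lit 2665341613) (nat_lit 456) (nat_lit 345932620) (nat_lit 76) (nat_lit 3661562982) (nat_lit 301) (nat_lit 5) (nat_lit 307) (nat_lit 5) (nat_lit 302) (nat_lit 5) (nat_lit 272) (nat_lit 261) (nat_lit 247))) (XT.nd (nat_lit 78) (nat_lit 608) (nat_lit 0) (XT.lf (nat_lit 0) (nat_lit 3252589439) (nat_lit 456) (nat_lit 1920114779) (nat_lit 532) (nat_lit 1538418131) (nat_lit 295) (nat_lit 5) (nat_lit 301) (nat_lit 5) (nat_lit 302) (nat_lit 5) (nat_lit 273) (nat_lit 261) (nat_lit 246)) (XT.lf (nat_lit 0) (nat_lit 149818296) (nat_lit 532) (nat_lit 753069159) (nat_lit 608) (nat_lit 5849993620) (nat_lit 287) (nat_lit 5) (nat_lit 294) (nat_lit 5) (nat_lit 295) (nat_lit 5) (nat_lit 274) (nat_lit 261) (nat_lit 245))))))))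
noncomputable def xc106 : XT := (XT.nd (nat_lit 2106) (nat_lit 5624) (nat_lit 0) (XT.nd (nat_lit 1014) (nat_lit 5244) (nat_lit 0) (XT.nd (nat_lit 468) (nat_lit 3952) (nat_lit 0) (XT.nd (nat_lit 234) (nat_lit 1520) (nat_lit 0) (XT.nd (nat_lit 78) (nat_lit 684) (nat_lit 0) (XT.lf (nat_lit 0) (nat_lit 3341125232) (nat_lit 608) (nat_lit 2938918715) (nat_lit 76) (nat_lit 516896585) (nat_lit 287) (nat_lit 5) (nat_lit 295) (nat_lit 5) (nat_lit 288) (nat_lit 5) (nat_lit 275) (nat_lit 261) (nat_lit 244)) (XT.nd (nat_lit 78) (nat_lit 76) (nat_lit 0) (XT.lf (nat_lit 0) (nat_lit 783272314) (nat_lit 608) (nat_lit 5001725742) (nat_lit 684) (nat_lit 1059488235) (nat_lit 279) (nat_lit 5) (nat_lit 287) (nat_lit 5) (nat_lit 288) (nat_lit 5) (nat_lit 276) (nat_lit 261) (nat_lit 243)) (XT.lf (nat_lit 0) (nat_lit 1329616343) (nat_lit 684) (nat_lit 2289904868) (nat_lit 76) (nat_lit 3275210825) (nat_lit 278) (nat_lit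 5) (nat_lit 287) (nat_lit 5) (nat_lit 279) (nat_lit 5) (nat_lit 277) (nat_lit 261) (nat_lit 242)))) (XT.nd (nat_lit 78) (nat_lit 836) (nat_lit 0) (XT.lf (nat_lit 0) (nat_lit 1555300726) (nat_lit 684) (nat_lit 2149531616) (nat_lit 760) (nat_lit 3243393471) (nat_lit 269) (nat_lit 5) (nat_lit 278) (nat_lit 5) (nat_lit 279) (nat_lit 5) (nat_lit 278) (nat_lit 261) (nat_lit 241)) (XT.nd (nat_lit 78) (nat_lit 836) (nat_lit 0) (XT.lf (nat_lit 0) (nat_lit 5504280404) (nat_lit 684) (nat_lit 592675164) (nat_lit 760) (nat_lit 908122956) (nat_lit 269) (nat_lit 5) (nat_lit 278) (nat_lit 5) (nat_lit 279) (nat_lit 5) (nat_lit 279) (nat_lit 261) (nat_lit 240)) (XT.lf (nat_lit 0) (nat_lit 1426051700) (nat_lit 836) (nat_lit 4591435441) (nat_lit 76) (nat_lit 1047092599) (nat_lit 258) (nat_lit 5) (nat_lit 269) (nat_lit 5) (nat_lit 259) (nat_lit 5) (nat_lit 280) (nat_lit 261) (nat_lit 239))))) (XT.nd (nat_lit 234) (nat_lit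 2128) (nat_lit 0) (XT.nd (nat_lit 78) (nat_lit 1824) (nat_lit 0) (XT.lf (nat_lit 0) (nat_lit 3758912307) (nat_lit 836) (nat_lit 603731611) (nat_lit 76) (nat_lit 2764658091) (nat_lit 258) (nat_lit 5) (nat_lit 269) (nat_lit 5) (nat_lit 259) (nat_lit 5) (nat_lit 281) (nat_lit 261) (nat_lit 238)) (XT.nd (nat_lit 78) (nat_lit 988) (nat_lit 0) (XT.lf (nat_lit 0) (nat_lit 3513543160) (nat_lit 836) (nat_lit 2609892657) (nat_lit 912) (nat_lit 1069729669) (nat_lit 247) (nat_lit 5) (nat_lit 258) (nat_lit 5) (nat_lit 259) (nat_lit 5) (nat_lit 282) (nat_lit 261) (nat_lit 237)) (XT.lf (nat_lit 0) (nat_lit 442415705) (nat_lit 912) (nat_lit 769199136) (nat_lit 988) (nat_lit 6050947756) (nat_lit 234) (nat_lit 5) (nat_lit 246) (nat_lit 5) (nat_lit 247) (nat_lit 5) (nat_lit 283) (nat_lit 261) (nat_lit 236)))) (XT.nd (nat_lit 156) (nat_lit 1140) (nat_lit 0) (XT.nd (nat_lit 78) (nat_lit 988) (nat_lit 0) (XT.lf (nat_lit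 0) (nat_lit 3518512047) (nat_lit 988) (nat_lit 2652460687) (nat_lit 76) (nat_lit 1163493290) (nat_lit 234) (nat_lit 5) (nat_lit 247) (nat_lit 5) (nat_lit 235) (nat_lit 5) (nat_lit 284) (nat_lit 261) (nat_lit 235)) (XT.lf (nat_lit 0) (nat_lit 1604446512) (nat_lit 988) (nat_lit 4245497078) (nat_lit 1064) (nat_lit 1560020744) (nat_lit 221) (nat_lit 5) (nat_lit 234) (nat_lit 5) (nat_lit 235) (nat_lit 5) (nat_lit 285) (nat_lit 261) (nat_lit 234))) (XT.nd (nat_lit 78) (nat_lit 1064) (nat_lit 0) (XT.lf (nat_lit 0) (nat_lit 708685008) (nat_lit 1064) (nat_lit 1511441032) (nat_lit 76) (nat_lit 5268673503) (nat_lit 220) (nat_lit 5) (nat_lit 234) (nat_lit 5) (nat_lit 221) (nat_lit 5) (nat_lit 286) (nat_lit 261) (nat_lit 233)) (XT.lf (nat_lit 0) (nat_lit 2893894800) (nat_lit 1064) (nat_lit 82918280) (nat_lit 1140) (nat_lit 4593931196) (nat_lit 206) (nat_lit 5) (nat_lit 220) (nat_lit 5) (nat_lit 221) (nat_lit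 5) (nat_lit 287) (nat_lit 261) (nat_lit 232)))))) (XT.nd (nat_lit 546) (nat_lit 2128) (nat_lit 0) (XT.nd (nat_lit 234) (nat_lit 1216) (nat_lit 0) (XT.nd (nat_lit 78) (nat_lit 1900) (nat_lit 0) (XT.lf (nat_lit 0) (nat_lit 5285054029) (nat_lit 1140) (nat_lit 272898556) (nat_lit 76) (nat_lit 2098119416) (nat_lit 206) (nat_lit 5) (nat_lit 221) (nat_lit 5) (nat_lit 207) (nat_lit 5) (nat_lit 288) (nat_lit 261) (nat_lit 231)) (XT.nd (nat_lit 78) (nat_lit 760) (nat_lit 0) (XT.lf (nat_lit 0) (nat_lit 4287699622) (nat_lit 1140) (nat_lit 3355027037) (nat_lit 1216) (nat_lit 101911556) (nat_lit 191) (nat_lit 5) (nat_lit 206) (nat_lit 5) (nat_lit 207) (nat_lit 5) (nat_lit 289) (nat_lit 261) (nat_lit 230)) (XT.lf (nat_lit 0) (nat_lit 1095753110) (nat_lit 684) (nat_lit 1047926597) (nat_lit 760) (nat_lit 5693055571) (nat_lit 181) (nat_lit 5) (nat_lit 190) (nat_lit 5) (nat_lit 191) (nat_lit 5) (nat_lit 290) (nat_lit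 261) (nat_lit 229)))) (XT.nd (nat_lit 156) (nat_lit 608) (nat_lit 0) (XT.nd (nat_lit 78) (nat_lit 608) (nat_lit 0) (XT.lf (nat_lit 0) (nat_lit 4442565657) (nat_lit 760) (nat_lit 2149144000) (nat_lit 76) (nat_lit 1340293120) (nat_lit 181) (nat_lit 5) (nat_lit 191) (nat_lit 5) (nat_lit 182) (nat_lit 5) (nat_lit 291) (nat_lit 261) (nat_lit 228)) (XT.lf (nat_lit 0) (nat_lit 2561453599) (nat_lit 608) (nat_lit 4225663393) (nat_lit 684) (nat_lit 1243785146) (nat_lit 173) (nat_lit 5) (nat_lit 181) (nat_lit 5) (nat_lit 182) (nat_lit 5) (nat_lit 292) (nat_lit 261) (nat_lit 227))) (XT.nd (nat_lit 78) (nat_lit 532) (nat_lit 0) (XT.lf (nat_lit 0) (nat_lit 1012492869) (nat_lit 684) (nat_lit 744435581) (nat_lit 76) (nat_lit 6376678563) (nat_lit 172) (nat_lit 5) (nat_lit 181) (nat_lit 5) (nat_lit 173) (nat_lit 5) (nat_lit 293) (nat_lit 261) (nat_lit 226)) (XT.lf (nat_lit 0) (nat_lit 3303134138) (nat_lit 608) (nat_lit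 4114497845) (nat_lit 76) (nat_lit 821709854) (nat_lit 165) (nat_lit 5) (nat_lit 173) (nat_lit 5) (nat_lit 166) (nat_lit 5) (nat_lit 294) (nat_lit 261) (nat_lit 225))))) (XT.nd (nat_lit 234) (nat_lit 1064) (nat_lit 0) (XT.nd (nat_lit 78) (nat_lit 532) (nat_lit 0) (XT.lf (nat_lit 0) (nat_lit 745865150) (nat_lit 532) (nat_lit 4893742021) (nat_lit 608) (nat_lit 2709394621) (nat_lit 158) (nat_lit 5) (nat_lit 165) (nat_lit 5) (nat_lit 166) (nat_lit 5) (nat_lit 295) (nat_lit 261) (nat_lit 224)) (XT.nd (nat_lit 78) (nat_lit 532) (nat_lit 0) (XT.lf (nat_lit 0) (nat_lit 5778298718) (nat_lit 532) (nat_lit 2255424651) (nat_lit 608) (nat_lit 428666235) (nat_lit 158) (nat_lit 5) (nat_lit 165) (nat_lit 5) (nat_lit 166) (nat_lit 5) (nat_lit 296) (nat_lit 261) (nat_lit 223)) (XT.lf (nat_lit 0) (nat_lit 1857419511) (nat_lit 532) (nat_lit 6231939815) (nat_lit 76) (nat_lit 490094390) (nat_lit 151) (nat_lit 5) (nat_lit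 158) (nat_lit 5) (nat_lit 152) (nat_lit 5) (nat_lit 297) (nat_lit 261) (nat_lit 222)))) (XT.nd (nat_lit 156) (nat_lit 532) (nat_lit 0) (XT.nd (nat_lit 78) (nat_lit 532) (nat_lit 0) (XT.lf (nat_lit 0) (nat_lit 4201117420) (nat_lit 532) (nat_lit 1199487731) (nat_lit 76) (nat_lit 3299426964) (nat_lit 151) (nat_lit 5) (nat_lit 158) (nat_lit 5) (nat_lit 152) (nat_lit 5) (nat_lit 298) (nat_lit 261) (nat_lit 221)) (XT.lf (nat_lit 0) (nat_lit 4005284119) (nat_lit 532) (nat_lit 2597801648) (nat_lit 608) (nat_lit 2221560645) (nat_lit 144) (nat_lit 5) (nat_lit 151) (nat_lit 5) (nat_lit 152) (nat_lit 5) (nat_lit 299) (nat_lit 261) (nat_lit 220))) (XT.nd (nat_lit 78) (nat_lit 0) (nat_lit 0) (XT.lf (nat_lit 0) (nat_lit 90369151) (nat_lit 532) (nat_lit 8569837834) (nat_lit 76) (nat_lit 293750092) (nat_lit 137) (nat_lit 5) (nat_lit 144) (nat_lit 5) (nat_lit 138) (nat_lit 5) (nat_lit 300) (nat_lit 261) (nat_lit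 219)) (XT.lf (nat_lit 0) (nat_lit 2452561525) (nat_lit 532) (nat_lit 3349590264) (nat_lit 76) (nat_lit 3283621193) (nat_lit 137) (nat_lit 5) (nat_lit 144) (nat_lit 5) (nat_lit 138) (nat_lit 5) (nat_lit 301) (nat_lit 261) (nat_lit 218))))))) (XT.nd (nat_lit 1092) (nat_lit 2356) (nat_lit 0) (XT.nd (nat_lit 546) (nat_lit 1444) (nat_lit 0) (XT.nd (nat_lit 234) (nat_lit 912) (nat_lit 0) (XT.nd (nat_lit 78) (nat_lit 456) (nat_lit 0) (XT.lf (nat_lit 0) (nat_lit 2009979571) (nat_lit 456) (nat_lit 2847084641) (nat_lit 532) (nat_lit 4365386754) (nat_lit 131) (nat_lit 5) (nat_lit 137) (nat_lit 5) (nat_lit 138) (nat_lit 5) (nat_lit 302) (nat_lit 261) (nat_lit 217)) (XT.nd (nat_lit 78) (nat_lit 456) (nat_lit 0) (XT.lf (nat_lit 0) (nat_lit 7322645470) (nat_lit 532) (nat_lit 1822767103) (nat_lit 76) (nat_lit 218197868) (nat_lit 131) (nat_lit 5) (nat_lit 138) (nat_lit 5) (nat_lit 132) (nat_lit 5) (nat_lit 303)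 (nat_lit 261) (nat_lit 216)) (XT.lf (nat_lit 0) (nat_lit 364618726) (nat_lit 456) (nat_lit 5794761662) (nat_lit 76) (nat_lit 3349019437) (nat_lit 125) (nat_lit 5) (nat_lit 131) (nat_lit 5) (nat_lit 126) (nat_lit 5) (nat_lit 304) (nat_lit 261) (nat_lit 215)))) (XT.nd (nat_lit 156) (nat_lit 456) (nat_lit 0) (XT.nd (nat_lit 78) (nat_lit 456) (nat_lit 0) (XT.lf (nat_lit 0) (nat_lit 2774515030) (nat_lit 456) (nat_lit 279931141) (nat_lit 76) (nat_lit 6603330756) (nat_lit 125) (nat_lit 5) (nat_lit 131) (nat_lit 5) (nat_lit 126) (nat_lit 5) (nat_lit 305) (nat_lit 261) (nat_lit 214)) (XT.lf (nat_lit 0) (nat_lit 5266820344) (nat_lit 532) (nat_lit 4360920076) (nat_lit 76) (nat_lit 183635499) (nat_lit 119) (nat_lit 5) (nat_lit 126) (nat_lit 5) (nat_lit 120) (nat_lit 5) (nat_lit 306) (nat_lit 261) (nat_lit 213))) (XT.nd (nat_lit 78) (nat_lit 76) (nat_lit 0) (XT.lf (nat_lit 0) (nat_lit 1329532807) (nat_lit 380)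 (nat_lit 6506804752) (nat_lit 456) (nat_lit 2133214698) (nat_lit 114) (nat_lit 5) (nat_lit 119) (nat_lit 5) (nat_lit 120) (nat_lit 5) (nat_lit 307) (nat_lit 261) (nat_lit 212)) (XT.lf (nat_lit 0) (nat_lit 344942921) (nat_lit 456) (nat_lit 2910358215) (nat_lit 76) (nat_lit 6877072434) (nat_lit 113) (nat_lit 5) (nat_lit 119) (nat_lit 5) (nat_lit 114) (nat_lit 5) (nat_lit 308) (nat_lit 261) (nat_lit 211))))) (XT.nd (nat_lit 234) (nat_lit 760) (nat_lit 0) (XT.nd (nat_lit 78) (nat_lit 304) (nat_lit 0) (XT.lf (nat_lit 0) (nat_lit 2842537751) (nat_lit 456) (nat_lit 7326930605) (nat_lit 76) (nat_lit 130377537) (nat_lit 108) (nat_lit 5) (nat_lit 114) (nat_lit 5) (nat_lit 109) (nat_lit 5) (nat_lit 309) (nat_lit 261) (nat_lit 210)) (XT.nd (nat_lit 78) (nat_lit 304) (nat_lit 0) (XT.lf (nat_lit 0) (nat_lit 5435661368) (nat_lit 456) (nat_lit 1466142573) (nat_lit 76) (nat_lit 3569958322) (nat_lit 108) (nat_lit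 5) (nat_lit 114) (nat_lit 5) (nat_lit 109) (nat_lit 5) (nat_lit 310) (nat_lit 261) (nat_lit 209)) (XT.lf (nat_lit 0) (nat_lit 4607458117) (nat_lit 304) (nat_lit 3503303821) (nat_lit 380) (nat_lit 2537985485) (nat_lit 104) (nat_lit 5) (nat_lit 108) (nat_lit 5) (nat_lit 109) (nat_lit 5) (nat_lit 311) (nat_lit 261) (nat_lit 208)))) (XT.nd (nat_lit 156) (nat_lit 304) (nat_lit 0) (XT.nd (nat_lit 78) (nat_lit 0) (nat_lit 0) (XT.lf (nat_lit 0) (nat_lit 9190537) (nat_lit 380) (nat_lit 370977) (nat_lit 456) (nat_lit 10822250021) (nat_lit 98) (nat_lit 5) (nat_lit 103) (nat_lit 5) (nat_lit 104) (nat_lit 5) (nat_lit 312) (nat_lit 261) (nat_lit 207)) (XT.lf (nat_lit 0) (nat_lit 2639469330) (nat_lit 456) (nat_lit 4767710560) (nat_lit 76) (nat_lit 3610759136) (nat_lit 98) (nat_lit 5) (nat_lit 104) (nat_lit 5) (nat_lit 99) (nat_lit 5) (nat_lit 313) (nat_lit 261) (nat_lit 206))) (XT.nd (nat_lit 78) (nat_lit 0)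 (nat_lit 0) (XT.lf (nat_lit 0) (nat_lit 1444816794) (nat_lit 304) (nat_lit 3879152903) (nat_lit 380) (nat_lit 5886442483) (nat_lit 94) (nat_lit 5) (nat_lit 98) (nat_lit 5) (nat_lit 99) (nat_lit 5) (nat_lit 314) (nat_lit 261) (nat_lit 205)) (XT.lf (nat_lit 0) (nat_lit 7889745024) (nat_lit 304) (nat_lit 209823236) (nat_lit 380) (nat_lit 3308806115) (nat_lit 94) (nat_lit 5) (nat_lit 98) (nat_lit 5) (nat_lit 99) (nat_lit 5) (nat_lit 315) (nat_lit 261) (nat_lit 204)))))) (XT.nd (nat_lit 546) (nat_lit 1064) (nat_lit 0) (XT.nd (nat_lit 234) (nat_lit 608) (nat_lit 0) (XT.nd (nat_lit 78) (nat_lit 380) (nat_lit 0) (XT.lf (nat_lit 0) (nat_lit 2886564027) (nat_lit 304) (nat_lit 8097312636) (nat_lit 380) (nat_lit 627666334) (nat_lit 90) (nat_lit 5) (nat_lit 94) (nat_lit 5) (nat_lit 95) (nat_lit 5) (nat_lit 316) (nat_lit 261) (nat_lit 203)) (XT.nd (nat_lit 78) (nat_lit 304) (nat_lit 0) (XT.lf (nat_lit 0) (nat_lit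 2093802439) (nat_lit 380) (nat_lit 2338088677) (nat_lit 76) (nat_lit 7388283189) (nat_lit 89) (nat_lit 5) (nat_lit 94) (nat_lit 5) (nat_lit 90) (nat_lit 5) (nat_lit 317) (nat_lit 261) (nat_lit 202)) (XT.lf (nat_lit 0) (nat_lit 4267519040) (nat_lit 304) (nat_lit 622438219) (nat_lit 380) (nat_lit 7144779337) (nat_lit 85) (nat_lit 5) (nat_lit 89) (nat_lit 5) (nat_lit 90) (nat_lit 5) (nat_lit 318) (nat_lit 261) (nat_lit 201)))) (XT.nd (nat_lit 156) (nat_lit 304) (nat_lit 0) (XT.nd (nat_lit 78) (nat_lit 304) (nat_lit 0) (XT.lf (nat_lit 0) (nat_lit 7790623924) (nat_lit 380) (nat_lit 1218162391) (nat_lit 76) (nat_lit 3246358006) (nat_lit 85) (nat_lit 5) (nat_lit 90) (nat_lit 5) (nat_lit 86) (nat_lit 5) (nat_lit 319) (nat_lit 261) (nat_lit 200)) (XT.lf (nat_lit 0) (nat_lit 5581187847) (nat_lit 304) (nat_lit 5223002498) (nat_lit 380) (nat_lit 1677224125) (nat_lit 81) (nat_lit 5) (nat_lit 85) (nat_lit 5)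 (nat_lit 86) (nat_lit 5) (nat_lit 320) (nat_lit 261) (nat_lit 199))) (XT.nd (nat_lit 78) (nat_lit 228) (nat_lit 0) (XT.lf (nat_lit 0) (nat_lit 1149054446) (nat_lit 380) (nat_lit 165350586) (nat_lit 76) (nat_lit 11400388816) (nat_lit 80) (nat_lit 5) (nat_lit 85) (nat_lit 5) (nat_lit 81) (nat_lit 5) (nat_lit 321) (nat_lit 261) (nat_lit 198)) (XT.lf (nat_lit 0) (nat_lit 4086121627) (nat_lit 304) (nat_lit 6139703591) (nat_lit 76) (nat_lit 2727084209) (nat_lit 77) (nat_lit 5) (nat_lit 81) (nat_lit 5) (nat_lit 78) (nat_lit 5) (nat_lit 322) (nat_lit 261) (nat_lit 197))))) (XT.nd (nat_lit 234) (nat_lit 532) (nat_lit 0) (XT.nd (nat_lit 78) (nat_lit 228) (nat_lit 0) (XT.lf (nat_lit 0) (nat_lit 760102371) (nat_lit 304) (nat_lit 6340779367) (nat_lit 380) (nat_lit 6097622928) (nat_lit 73) (nat_lit 5) (nat_lit 77) (nat_lit 5) (nat_lit 78) (nat_lit 5) (nat_lit 323) (nat_lit 261) (nat_lit 196)) (XT.nd (nat_lit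 78) (nat_lit 228) (nat_lit 0) (XT.lf (nat_lit 0) (nat_lit 7945142270) (nat_lit 304) (nat_lit 2291002243) (nat_lit 380) (nat_lit 3214444384) (nat_lit 73) (nat_lit 5) (nat_lit 77) (nat_lit 5) (nat_lit 78) (nat_lit 5) (nat_lit 324) (nat_lit 261) (nat_lit 195)) (XT.lf (nat_lit 0) (nat_lit 1601639767) (nat_lit 228) (nat_lit 11866140466) (nat_lit 304) (nat_lit 242408235) (nat_lit 70) (nat_lit 5) (nat_lit 73) (nat_lit 5) (nat_lit 74) (nat_lit 5) (nat_lit 325) (nat_lit 261) (nat_lit 194)))) (XT.nd (nat_lit 156) (nat_lit 228) (nat_lit 0) (XT.nd (nat_lit 78) (nat_lit 228) (nat_lit 0) (XT.lf (nat_lit 0) (nat_lit 2811591551) (nat_lit 304) (nat_lit 5038657357) (nat_lit 76) (nat_lit 6125101007) (nat_lit 69) (nat_lit 5) (nat_lit 73) (nat_lit 5) (nat_lit 70) (nat_lit 5) (nat_lit 326) (nat_lit 261) (nat_lit 193)) (XT.lf (nat_lit 0) (nat_lit 2238777827) (nat_lit 228) (nat_lit 3704964786) (nat_lit 304) (nat_lit 8304929862)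 (nat_lit 66) (nat_lit 5) (nat_lit 69) (nat_lit 5) (nat_lit 70) (nat_lit 5) (nat_lit 327) (nat_lit 261) (nat_lit 192))) (XT.nd (nat_lit 78) (nat_lit 228) (nat_lit 0) (XT.lf (nat_lit 0) (nat_lit 9196843340) (nat_lit 304) (nat_lit 4742925533) (nat_lit 76) (nat_lit 589636067) (nat_lit 66) (nat_lit 5) (nat_lit 70) (nat_lit 5) (nat_lit 67) (nat_lit 5) (nat_lit 328) (nat_lit 261) (nat_lit 191)) (XT.lf (nat_lit 0) (nat_lit 2713515397) (nat_lit 228) (nat_lit 9867830008) (nat_lit 304) (nat_lit 2236218927) (nat_lit 63) (nat_lit 5) (nat_lit 66) (nat_lit 5) (nat_lit 67) (nat_lit 5) (nat_lit 329) (nat_lit 261) (nat_lit 190))))))))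
noncomputable def xc107 : XT := (XT.nd (nat_lit 2184) (nat_lit 1216) (nat_lit 0) (XT.nd (nat_lit 1092) (nat_lit 1064) (nat_lit 0) (XT.nd (nat_lit 546) (nat_lit 608) (nat_lit 0) (XT.nd (nat_lit 234) (nat_lit 456) (nat_lit 0) (XT.nd (nat_lit 78) (nat_lit 228) (nat_lit 0) (XT.lf (nat_lit 0) (nat_lit 953943375) (nat_lit 304) (nat_lit 4676649712) (nat_lit 76) (nat_lit 9482932912) (nat_lit 62) (nat_lit 5) (nat_lit 66) (nat_lit 5) (nat_lit 63) (nat_lit 5) (nat_lit 330) (nat_lit 261) (nat_lit 189)) (XT.nd (nat_lit 78) (nat_lit 0) (nat_lit 0) (XT.lf (nat_lit 0) (nat_lit 2965652970) (nat_lit 228) (nat_lit 1229717169) (nat_lit 304) (nat_lit 11222334567) (nat_lit 59) (nat_lit 5) (nat_lit 62) (nat_lit 5) (nat_lit 63) (nat_lit 5) (nat_lit 331) (nat_lit 261) (nat_lit 188)) (XT.lf (nat_lit 0) (nat_lit 7585732224) (nat_lit 304) (nat_lit 4872635746) (nat_lit 76) (nat_lit 3271107093) (nat_lit 59) (nat_lit 5) (nat_lit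 63) (nat_lit 5) (nat_lit 60) (nat_lit 5) (nat_lit 332) (nat_lit 261) (nat_lit 187)))) (XT.nd (nat_lit 156) (nat_lit 304) (nat_lit 0) (XT.nd (nat_lit 78) (nat_lit 0) (nat_lit 0) (XT.lf (nat_lit 0) (nat_lit 2936655747) (nat_lit 152) (nat_lit 8154609806) (nat_lit 228) (nat_lit 4958945731) (nat_lit 57) (nat_lit 5) (nat_lit 59) (nat_lit 5) (nat_lit 60) (nat_lit 5) (nat_lit 333) (nat_lit 261) (nat_lit 186)) (XT.lf (nat_lit 0) (nat_lit 11037891955) (nat_lit 152) (nat_lit 3686711977) (nat_lit 228) (nat_lit 1655302573) (nat_lit 57) (nat_lit 5) (nat_lit 59) (nat_lit 5) (nat_lit 60) (nat_lit 5) (nat_lit 334) (nat_lit 261) (nat_lit 185))) (XT.nd (nat_lit 78) (nat_lit 0) (nat_lit 0) (XT.lf (nat_lit 0) (nat_lit 1721889935) (nat_lit 304) (nat_lit 14071903510) (nat_lit 76) (nat_lit 924954199) (nat_lit 53) (nat_lit 5) (nat_lit 57) (nat_lit 5) (nat_lit 54) (nat_lit 5) (nat_lit 335) (nat_lit 261) (nat_lit 184)) (XT.lf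 (nat_lit 0) (nat_lit 5232262055) (nat_lit 304) (nat_lit 6176439241) (nat_lit 76) (nat_lit 5656621753) (nat_lit 53) (nat_lit 5) (nat_lit 57) (nat_lit 5) (nat_lit 54) (nat_lit 5) (nat_lit 336) (nat_lit 261) (nat_lit 183))))) (XT.nd (nat_lit 234) (nat_lit 228) (nat_lit 0) (XT.nd (nat_lit 78) (nat_lit 228) (nat_lit 0) (XT.lf (nat_lit 0) (nat_lit 1953471471) (nat_lit 152) (nat_lit 6888158344) (nat_lit 228) (nat_lit 8580869656) (nat_lit 51) (nat_lit 5) (nat_lit 53) (nat_lit 5) (nat_lit 54) (nat_lit 5) (nat_lit 337) (nat_lit 261) (nat_lit 182)) (XT.nd (nat_lit 78) (nat_lit 228) (nat_lit 0) (XT.lf (nat_lit 0) (nat_lit 10413751126) (nat_lit 152) (nat_lit 2183148958) (nat_lit 228) (nat_lit 5192376334) (nat_lit 51) (nat_lit 5) (nat_lit 53) (nat_lit 5) (nat_lit 54) (nat_lit 5) (nat_lit 338) (nat_lit 261) (nat_lit 181)) (XT.lf (nat_lit 0) (nat_lit 913447781) (nat_lit 228) (nat_lit 15561588526) (nat_lit 304)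 (nat_lit 1691727600) (nat_lit 48) (nat_lit 5) (nat_lit 51) (nat_lit 5) (nat_lit 52) (nat_lit 5) (nat_lit 339) (nat_lit 261) (nat_lit 180)))) (XT.nd (nat_lit 156) (nat_lit 152) (nat_lit 0) (XT.nd (nat_lit 78) (nat_lit 0) (nat_lit 0) (XT.lf (nat_lit 0) (nat_lit 1949331113) (nat_lit 304) (nat_lit 9031476519) (nat_lit 76) (nat_lit 7572046994) (nat_lit 47) (nat_lit 5) (nat_lit 51) (nat_lit 5) (nat_lit 48) (nat_lit 5) (nat_lit 340) (nat_lit 261) (nat_lit 179)) (XT.lf (nat_lit 0) (nat_lit 5642228569) (nat_lit 304) (nat_lit 618241425) (nat_lit 76) (nat_lit 12690269635) (nat_lit 47) (nat_lit 5) (nat_lit 51) (nat_lit 5) (nat_lit 48) (nat_lit 5) (nat_lit 341) (nat_lit 261) (nat_lit 178))) (XT.nd (nat_lit 78) (nat_lit 0) (nat_lit 0) (XT.lf (nat_lit 0) (nat_lit 8169417200) (nat_lit 152) (nat_lit 1332315506) (nat_lit 228) (nat_lit 9857165853) (nat_lit 45) (nat_lit 5) (nat_lit 47) (nat_lit 5) (nat_lit 48) (nat_lit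 5) (nat_lit 342) (nat_lit 261) (nat_lit 177)) (XT.lf (nat_lit 0) (nat_lit 13496768762) (nat_lit 228) (nat_lit 2619349379) (nat_lit 76) (nat_lit 3662603329) (nat_lit 45) (nat_lit 5) (nat_lit 48) (nat_lit 5) (nat_lit 46) (nat_lit 5) (nat_lit 343) (nat_lit 261) (nat_lit 176)))))) (XT.nd (nat_lit 546) (nat_lit 532) (nat_lit 0) (XT.nd (nat_lit 234) (nat_lit 152) (nat_lit 0) (XT.nd (nat_lit 78) (nat_lit 228) (nat_lit 0) (XT.lf (nat_lit 0) (nat_lit 6280785232) (nat_lit 152) (nat_lit 11382548680) (nat_lit 228) (nat_lit 2546266099) (nat_lit 43) (nat_lit 5) (nat_lit 45) (nat_lit 5) (nat_lit 46) (nat_lit 5) (nat_lit 344) (nat_lit 261) (nat_lit 175)) (XT.nd (nat_lit 78) (nat_lit 152) (nat_lit 0) (XT.lf (nat_lit 0) (nat_lit 1280984319) (nat_lit 228) (nat_lit 5200324244) (nat_lit 76) (nat_lit 14171584955) (nat_lit 42) (nat_lit 5) (nat_lit 45) (nat_lit 5) (nat_lit 43) (nat_lit 5) (nat_lit 345) (nat_lit 261) (nat_lit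 174)) (XT.lf (nat_lit 0) (nat_lit 3803537766) (nat_lit 152) (nat_lit 1383712400) (nat_lit 228) (nat_lit 15921028413) (nat_lit 40) (nat_lit 5) (nat_lit 42) (nat_lit 5) (nat_lit 43) (nat_lit 5) (nat_lit 346) (nat_lit 261) (nat_lit 173)))) (XT.nd (nat_lit 156) (nat_lit 0) (nat_lit 0) (XT.nd (nat_lit 78) (nat_lit 152) (nat_lit 0) (XT.lf (nat_lit 0) (nat_lit 9279862951) (nat_lit 228) (nat_lit 8464968513) (nat_lit 76) (nat_lit 3830428982) (nat_lit 40) (nat_lit 5) (nat_lit 43) (nat_lit 5) (nat_lit 41) (nat_lit 5) (nat_lit 347) (nat_lit 261) (nat_lit 172)) (XT.lf (nat_lit 0) (nat_lit 603465027) (nat_lit 152) (nat_lit 12890858818) (nat_lit 228) (nat_lit 8561965561) (nat_lit 38) (nat_lit 5) (nat_lit 40) (nat_lit 5) (nat_lit 41) (nat_lit 5) (nat_lit 348) (nat_lit 261) (nat_lit 171))) (XT.nd (nat_lit 78) (nat_lit 0) (nat_lit 0) (XT.lf (nat_lit 0) (nat_lit 10083206838) (nat_lit 152) (nat_lit 7817325721) (nat_lit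 228) (nat_lit 4649266705) (nat_lit 38) (nat_lit 5) (nat_lit 40) (nat_lit 5) (nat_lit 41) (nat_lit 5) (nat_lit 349) (nat_lit 261) (nat_lit 170)) (XT.lf (nat_lit 0) (nat_lit 19814070717) (nat_lit 152) (nat_lit 2605278573) (nat_lit 228) (nat_lit 639361648) (nat_lit 38) (nat_lit 5) (nat_lit 40) (nat_lit 5) (nat_lit 41) (nat_lit 5) (nat_lit 350) (nat_lit 261) (nat_lit 169))))) (XT.nd (nat_lit 234) (nat_lit 152) (nat_lit 0) (XT.nd (nat_lit 78) (nat_lit 152) (nat_lit 0) (XT.lf (nat_lit 0) (nat_lit 3491544819) (nat_lit 228) (nat_lit 17297142029) (nat_lit 76) (nat_lit 2791140384) (nat_lit 35) (nat_lit 5) (nat_lit 38) (nat_lit 5) (nat_lit 36) (nat_lit 5) (nat_lit 351) (nat_lit 261) (nat_lit 168)) (XT.nd (nat_lit 78) (nat_lit 152) (nat_lit 0) (XT.lf (nat_lit 0) (nat_lit 7773325995) (nat_lit 228) (nat_lit 8018520943) (nat_lit 76) (nat_lit 8323354618) (nat_lit 35) (nat_lit 5) (nat_lit 38) (nat_lit 5) (nat_lit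 36) (nat_lit 5) (nat_lit 352) (nat_lit 261) (nat_lit 167)) (XT.lf (nat_lit 0) (nat_lit 1536579232) (nat_lit 152) (nat_lit 10643222115) (nat_lit 228) (nat_lit 12486956692) (nat_lit 33) (nat_lit 5) (nat_lit 35) (nat_lit 5) (nat_lit 36) (nat_lit 5) (nat_lit 353) (nat_lit 261) (nat_lit 166)))) (XT.nd (nat_lit 156) (nat_lit 152) (nat_lit 0) (XT.nd (nat_lit 78) (nat_lit 0) (nat_lit 0) (XT.lf (nat_lit 0) (nat_lit 11511152885) (nat_lit 152) (nat_lit 5269996028) (nat_lit 228) (nat_lit 8451839877) (nat_lit 33) (nat_lit 5) (nat_lit 35) (nat_lit 5) (nat_lit 36) (nat_lit 5) (nat_lit 354) (nat_lit 261) (nat_lit 165)) (XT.lf (nat_lit 0) (nat_lit 21505194436) (nat_lit 228) (nat_lit 4064833692) (nat_lit 76) (nat_lit 246646290) (nat_lit 33) (nat_lit 5) (nat_lit 36) (nat_lit 5) (nat_lit 34) (nat_lit 4) (nat_lit 355) (nat_lit 261) (nat_lit 164))) (XT.nd (nat_lit 78) (nat_lit 0) (nat_lit 0) (XT.lf (nat_lit 0) (nat_lit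 46579587) (nat_lit 152) (nat_lit 20500606405) (nat_lit 76) (nat_lit 5867928187) (nat_lit 31) (nat_lit 5) (nat_lit 33) (nat_lit 5) (nat_lit 32) (nat_lit 5) (nat_lit 356) (nat_lit 261) (nat_lit 163)) (XT.lf (nat_lit 0) (nat_lit 4472856274) (nat_lit 152) (nat_lit 10827016483) (nat_lit 76) (nat_lit 11729636813) (nat_lit 31) (nat_lit 5) (nat_lit 33) (nat_lit 5) (nat_lit 32) (nat_lit 5) (nat_lit 357) (nat_lit 261) (nat_lit 162))))))) (XT.nd (nat_lit 1092) (nat_lit 456) (nat_lit 0) (XT.nd (nat_lit 546) (nat_lit 304) (nat_lit 0) (XT.nd (nat_lit 234) (nat_lit 304) (nat_lit 0) (XT.nd (nat_lit 78) (nat_lit 152) (nat_lit 0) (XT.lf (nat_lit 0) (nat_lit 9015104322) (nat_lit 152) (nat_lit 892540246) (nat_lit 76) (nat_lit 17755203588) (nat_lit 31) (nat_lit 5) (nat_lit 33) (nat_lit 5) (nat_lit 32) (nat_lit 5) (nat_lit 358) (nat_lit 261) (nat_lit 161)) (XT.nd (nat_lit 78) (nat_lit 0) (nat_lit 0) (XT.lf (nat_lit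 0) (nat_lit 9496820083) (nat_lit 152) (nat_lit 4271761849) (nat_lit 228) (nat_lit 14544362732) (nat_lit 29) (nat_lit 5) (nat_lit 31) (nat_lit 5) (nat_lit 32) (nat_lit 5) (nat_lit 359) (nat_lit 261) (nat_lit 160)) (XT.lf (nat_lit 0) (nat_lit 18672265520) (nat_lit 228) (nat_lit 8809505920) (nat_lit 76) (nat_lit 1500551010) (nat_lit 29) (nat_lit 5) (nat_lit 32) (nat_lit 5) (nat_lit 30) (nat_lit 4) (nat_lit 360) (nat_lit 261) (nat_lit 159)))) (XT.nd (nat_lit 156) (nat_lit 228) (nat_lit 0) (XT.nd (nat_lit 78) (nat_lit 0) (nat_lit 0) (XT.lf (nat_lit 0) (nat_lit 1455691941) (nat_lit 76) (nat_lit 22307889791) (nat_lit 152) (nat_lit 5906990420) (nat_lit 28) (nat_lit 5) (nat_lit 29) (nat_lit 5) (nat_lit 30) (nat_lit 4) (nat_lit 361) (nat_lit 261) (nat_lit 158)) (XT.lf (nat_lit 0) (nat_lit 12181973361) (nat_lit 76) (nat_lit 16899052492) (nat_lit 152) (nat_lit 1296247904) (nat_lit 28) (nat_lit 5) (nat_lit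 29) (nat_lit 5) (nat_lit 30) (nat_lit 4) (nat_lit 362) (nat_lit 261) (nat_lit 157))) (XT.nd (nat_lit 78) (nat_lit 152) (nat_lit 0) (XT.lf (nat_lit 0) (nat_lit 3370167737) (nat_lit 152) (nat_lit 7935292287) (nat_lit 76) (nat_lit 19799184551) (nat_lit 27) (nat_lit 5) (nat_lit 29) (nat_lit 5) (nat_lit 28) (nat_lit 5) (nat_lit 363) (nat_lit 261) (nat_lit 156)) (XT.lf (nat_lit 0) (nat_lit 2645114619) (nat_lit 152) (nat_lit 5516006958) (nat_lit 228) (nat_lit 23692017496) (nat_lit 25) (nat_lit 5) (nat_lit 27) (nat_lit 5) (nat_lit 28) (nat_lit 5) (nat_lit 364) (nat_lit 261) (nat_lit 155))))) (XT.nd (nat_lit 234) (nat_lit 228) (nat_lit 0) (XT.nd (nat_lit 78) (nat_lit 76) (nat_lit 0) (XT.lf (nat_lit 0) (nat_lit 13166273156) (nat_lit 228) (nat_lit 18947439105) (nat_lit 76) (nat_lit 508267459) (nat_lit 25) (nat_lit 5) (nat_lit 28) (nat_lit 5) (nat_lit 26) (nat_lit 4) (nat_lit 365) (nat_lit 261) (nat_lit 154))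 (XT.nd (nat_lit 78) (nat_lit 76) (nat_lit 0) (XT.lf (nat_lit 0) (nat_lit 18361869689) (nat_lit 228) (nat_lit 8459147805) (nat_lit 76) (nat_lit 6591664612) (nat_lit 25) (nat_lit 5) (nat_lit 28) (nat_lit 5) (nat_lit 26) (nat_lit 4) (nat_lit 366) (nat_lit 261) (nat_lit 153)) (XT.lf (nat_lit 0) (nat_lit 2365190590) (nat_lit 76) (nat_lit 21356972852) (nat_lit 152) (nat_lit 10504682319) (nat_lit 24) (nat_lit 5) (nat_lit 25) (nat_lit 5) (nat_lit 26) (nat_lit 4) (nat_lit 367) (nat_lit 261) (nat_lit 152)))) (XT.nd (nat_lit 156) (nat_lit 228) (nat_lit 0) (XT.nd (nat_lit 78) (nat_lit 0) (nat_lit 0) (XT.lf (nat_lit 0) (nat_lit 13663151042) (nat_lit 76) (nat_lit 15651798850) (nat_lit 152) (nat_lit 5748338848) (nat_lit 24) (nat_lit 5) (nat_lit 25) (nat_lit 5) (nat_lit 26) (nat_lit 4) (nat_lit 368) (nat_lit 261) (nat_lit 151)) (XT.lf (nat_lit 0) (nat_lit 25276251925) (nat_lit 76) (nat_lit 9785931193) (nat_lit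 152) (nat_lit 863046782) (nat_lit 24) (nat_lit 5) (nat_lit 25) (nat_lit 5) (nat_lit 26) (nat_lit 4) (nat_lit 369) (nat_lit 261) (nat_lit 150))) (XT.nd (nat_lit 78) (nat_lit 0) (nat_lit 0) (XT.lf (nat_lit 0) (nat_lit 368463414) (nat_lit 152) (nat_lit 3709453018) (nat_lit 228) (nat_lit 32734201360) (nat_lit 21) (nat_lit 5) (nat_lit 23) (nat_lit 5) (nat_lit 24) (nat_lit 5) (nat_lit 370) (nat_lit 261) (nat_lit 149)) (XT.lf (nat_lit 0) (nat_lit 9269845474) (nat_lit 228) (nat_lit 25845214770) (nat_lit 76) (nat_lit 2606697607) (nat_lit 21) (nat_lit 5) (nat_lit 24) (nat_lit 5) (nat_lit 22) (nat_lit 4) (nat_lit 371) (nat_lit 261) (nat_lit 148)))))) (XT.nd (nat_lit 546) (nat_lit 152) (nat_lit 0) (XT.nd (nat_lit 234) (nat_lit 228) (nat_lit 0) (XT.nd (nat_lit 78) (nat_lit 76) (nat_lit 0) (XT.lf (nat_lit 0) (nat_lit 14641618098) (nat_lit 228) (nat_lit 14988301456) (nat_lit 76) (nat_lit 9028049240) (nat_lit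 21) (nat_lit 5) (nat_lit 24) (nat_lit 5) (nat_lit 22) (nat_lit 4) (nat_lit 372) (nat_lit 261) (nat_lit 147)) (XT.nd (nat_lit 78) (nat_lit 76) (nat_lit 0) (XT.lf (nat_lit 0) (nat_lit 20162270555) (nat_lit 228) (nat_lit 3827770281) (nat_lit 76) (nat_lit 15632597558) (nat_lit 21) (nat_lit 5) (nat_lit 24) (nat_lit 5) (nat_lit 22) (nat_lit 4) (nat_lit 373) (nat_lit 261) (nat_lit 146)) (XT.lf (nat_lit 0) (nat_lit 7798303668) (nat_lit 76) (nat_lit 18113285114) (nat_lit 152) (nat_lit 14702771924) (nat_lit 20) (nat_lit 5) (nat_lit 21) (nat_lit 5) (nat_lit 22) (nat_lit 4) (nat_lit 374) (nat_lit 261) (nat_lit 145)))) (XT.nd (nat_lit 156) (nat_lit 228) (nat_lit 0) (XT.nd (nat_lit 78) (nat_lit 0) (nat_lit 0) (XT.lf (nat_lit 0) (nat_lit 19830389476) (nat_lit 76) (nat_lit 12029877116) (nat_lit 152) (nat_lit 9774765586) (nat_lit 20) (nat_lit 5) (nat_lit 21) (nat_lit 5) (nat_lit 22) (nat_lit 4) (nat_lit 375) (nat_lit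 261) (nat_lit 144)) (XT.lf (nat_lit 0) (nat_lit 32202820482) (nat_lit 76) (nat_lit 5773154218) (nat_lit 152) (nat_lit 4710695774) (nat_lit 20) (nat_lit 5) (nat_lit 21) (nat_lit 5) (nat_lit 22) (nat_lit 4) (nat_lit 376) (nat_lit 261) (nat_lit 143))) (XT.nd (nat_lit 78) (nat_lit 0) (nat_lit 0) (XT.lf (nat_lit 0) (nat_lit 502039965) (nat_lit 228) (nat_lit 42601856947) (nat_lit 76) (nat_lit 665620734) (nat_lit 17) (nat_lit 5) (nat_lit 20) (nat_lit 5) (nat_lit 18) (nat_lit 4) (nat_lit 377) (nat_lit 261) (nat_lit 142)) (XT.lf (nat_lit 0) (nat_lit 5929388943) (nat_lit 228) (nat_lit 31623192191) (nat_lit 76) (nat_lit 7326285995) (nat_lit 17) (nat_lit 5) (nat_lit 20) (nat_lit 5) (nat_lit 18) (nat_lit 4) (nat_lit 378) (nat_lit 261) (nat_lit 141))))) (XT.nd (nat_lit 234) (nat_lit 76) (nat_lit 0) (XT.nd (nat_lit 78) (nat_lit 76) (nat_lit 0) (XT.lf (nat_lit 0) (nat_lit 11508720560) (nat_lit 228) (nat_lit 20334871018)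 (nat_lit 76) (nat_lit 14178234012) (nat_lit 17) (nat_lit 5) (nat_lit 20) (nat_lit 5) (nat_lit 18) (nat_lit 4) (nat_lit 379) (nat_lit 261) (nat_lit 140)) (XT.nd (nat_lit 78) (nat_lit 76) (nat_lit 0) (XT.lf (nat_lit 0) (nat_lit 17244909960) (nat_lit 228) (nat_lit 8727029845) (nat_lit 76) (nat_lit 21227451924) (nat_lit 17) (nat_lit 5) (nat_lit 20) (nat_lit 5) (nat_lit 18) (nat_lit 4) (nat_lit 380) (nat_lit 261) (nat_lit 139)) (XT.lf (nat_lit 0) (nat_lit 3274368829) (nat_lit 76) (nat_lit 19900075754) (nat_lit 152) (nat_lit 25237205647) (nat_lit 16) (nat_lit 5) (nat_lit 17) (nat_lit 5) (nat_lit 18) (nat_lit 4) (nat_lit 381) (nat_lit 261) (nat_lit 138)))) (XT.nd (nat_lit 156) (nat_lit 76) (nat_lit 0) (XT.nd (nat_lit 78) (nat_lit 0) (nat_lit 0) (XT.lf (nat_lit 0) (nat_lit 15796314642) (nat_lit 76) (nat_lit 13563581565) (nat_lit 152) (nat_lit 20298042424) (nat_lit 16) (nat_lit 5) (nat_lit 17) (nat_lit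 5) (nat_lit 18) (nat_lit 4) (nat_lit 382) (nat_lit 261) (nat_lit 137)) (XT.lf (nat_lit 0) (nat_lit 28676064092) (nat_lit 76) (nat_lit 7045046384) (nat_lit 152) (nat_lit 15220802218) (nat_lit 16) (nat_lit 5) (nat_lit 17) (nat_lit 5) (nat_lit 18) (nat_lit 4) (nat_lit 383) (nat_lit 261) (nat_lit 136))) (XT.nd (nat_lit 78) (nat_lit 76) (nat_lit 0) (XT.lf (nat_lit 0) (nat_lit 41924871330) (nat_lit 76) (nat_lit 338774405) (nat_lit 152) (nat_lit 10001048604) (nat_lit 16) (nat_lit 5) (nat_lit 17) (nat_lit 5) (nat_lit 18) (nat_lit 4) (nat_lit 384) (nat_lit 261) (nat_lit 135)) (XT.lf (nat_lit 0) (nat_lit 1900897698) (nat_lit 76) (nat_lit 47173662905) (nat_lit 76) (nat_lit 4550438535) (nat_lit 15) (nat_lit 4) (nat_lit 16) (nat_lit 5) (nat_lit 16) (nat_lit 4) (nat_lit 385) (nat_lit 261) (nat_lit 134))))))))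
noncomputable def xc108 : XT := (XT.nd (nat_lit 31122) (nat_lit 0) (nat_lit 13072) (XT.nd (nat_lit 1014) (nat_lit 152) (nat_lit 0) (XT.nd (nat_lit 468) (nat_lit 152) (nat_lit 0) (XT.nd (nat_lit 234) (nat_lit 76) (nat_lit 0) (XT.nd (nat_lit 78) (nat_lit 0) (nat_lit 0) (XT.lf (nat_lit 0) (nat_lit 1142437325) (nat_lit 152) (nat_lit 40333854702) (nat_lit 76) (nat_lit 13546531841) (nat_lit 14) (nat_lit 5) (nat_lit 16) (nat_lit 5) (nat_lit 15) (nat_lit 4) (nat_lit 386) (nat_lit 261) (nat_lit 133)) (XT.nd (nat_lit 78) (nat_lit 0) (nat_lit 0) (XT.lf (nat_lit 0) (nat_lit 6905614896) (nat_lit 152) (nat_lit 28663515011) (nat_lit 76) (nat_lit 20892375149) (nat_lit 14) (nat_lit 5) (nat_lit 16) (nat_lit 5) (nat_lit 15) (nat_lit 4) (nat_lit 387) (nat_lit 261) (nat_lit 132)) (XT.lf (nat_lit 0) (nat_lit 12832925410) (nat_lit 152) (nat_lit 16659143385) (nat_lit 76) (nat_lit 28451543255) (nat_lit 14) (nat_lit 5)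 (nat_lit 16) (nat_lit 5) (nat_lit 15) (nat_lit 4) (nat_lit 388) (nat_lit 261) (nat_lit 131)))) (XT.nd (nat_lit 78) (nat_lit 76) (nat_lit 0) (XT.lf (nat_lit 0) (nat_lit 18929548071) (nat_lit 152) (nat_lit 4310250565) (nat_lit 76) (nat_lit 36230641258) (nat_lit 14) (nat_lit 5) (nat_lit 16) (nat_lit 5) (nat_lit 15) (nat_lit 4) (nat_lit 389) (nat_lit 261) (nat_lit 130)) (XT.nd (nat_lit 78) (nat_lit 0) (nat_lit 0) (XT.lf (nat_lit 0) (nat_lit 8561009879) (nat_lit 76) (nat_lit 16722093809) (nat_lit 152) (nat_lit 35757750212) (nat_lit 13) (nat_lit 5) (nat_lit 14) (nat_lit 5) (nat_lit 15) (nat_lit 4) (nat_lit 390) (nat_lit 261) (nat_lit 129)) (XT.lf (nat_lit 0) (nat_lit 21891757333) (nat_lit 76) (nat_lit 9970870644) (nat_lit 152) (nat_lit 30794693776) (nat_lit 13) (nat_lit 5) (nat_lit 14) (nat_lit 5) (nat_lit 15) (nat_lit 4) (nat_lit 391) (nat_lit 261) (nat_lit 128))))) (XT.nd (nat_lit 234) (nat_lit 152)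 (nat_lit 0) (XT.nd (nat_lit 78) (nat_lit 0) (nat_lit 0) (XT.lf (nat_lit 0) (nat_lit 35607857583) (nat_lit 76) (nat_lit 3023755094) (nat_lit 152) (nat_lit 25690910943) (nat_lit 13) (nat_lit 5) (nat_lit 14) (nat_lit 5) (nat_lit 15) (nat_lit 4) (nat_lit 392) (nat_lit 261) (nat_lit 127)) (XT.nd (nat_lit 78) (nat_lit 0) (nat_lit 0) (XT.lf (nat_lit 0) (nat_lit 45635627567) (nat_lit 152) (nat_lit 16356274091) (nat_lit 0) (nat_lit 4044823221) (nat_lit 13) (nat_lit 5) (nat_lit 15) (nat_lit 4) (nat_lit 13) (nat_lit 4) (nat_lit 393) (nat_lit 261) (nat_lit 126)) (XT.lf (nat_lit 0) (nat_lit 52872170498) (nat_lit 152) (nat_lit 3670967827) (nat_lit 0) (nat_lit 11258543716) (nat_lit 13) (nat_lit 5) (nat_lit 15) (nat_lit 4) (nat_lit 13) (nat_lit 4) (nat_lit 394) (nat_lit 261) (nat_lit 125)))) (XT.nd (nat_lit 156) (nat_lit 76) (nat_lit 0) (XT.nd (nat_lit 78) (nat_lit 0) (nat_lit 0) (XT.lf (nat_lit 0) (nat_lit 9568111504)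 (nat_lit 76) (nat_lit 50842361516) (nat_lit 76) (nat_lit 9206577029) (nat_lit 12) (nat_lit 4) (nat_lit 13) (nat_lit 5) (nat_lit 13) (nat_lit 4) (nat_lit 395) (nat_lit 261) (nat_lit 124)) (XT.lf (nat_lit 0) (nat_lit 23266252318) (nat_lit 76) (nat_lit 44938515144) (nat_lit 76) (nat_lit 3281218323) (nat_lit 12) (nat_lit 4) (nat_lit 13) (nat_lit 5) (nat_lit 13) (nat_lit 4) (nat_lit 396) (nat_lit 261) (nat_lit 123))) (XT.nd (nat_lit 78) (nat_lit 0) (nat_lit 0) (XT.lf (nat_lit 0) (nat_lit 2759748097) (nat_lit 152) (nat_lit 36075893944) (nat_lit 76) (nat_lit 34574748262) (nat_lit 11) (nat_lit 5) (nat_lit 13) (nat_lit 5) (nat_lit 12) (nat_lit 4) (nat_lit 397) (nat_lit 261) (nat_lit 122)) (XT.lf (nat_lit 0) (nat_lit 8909113115) (nat_lit 152) (nat_lit 23612960397) (nat_lit 76) (nat_lit 42869687067) (nat_lit 11) (nat_lit 5) (nat_lit 13) (nat_lit 5) (nat_lit 12) (nat_lit 4) (nat_lit 398) (nat_lit 261) (nat_lit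 121)))))) (XT.nd (nat_lit 546) (nat_lit 76) (nat_lit 0) (XT.nd (nat_lit 234) (nat_lit 0) (nat_lit 0) (XT.nd (nat_lit 78) (nat_lit 76) (nat_lit 0) (XT.lf (nat_lit 0) (nat_lit 15236278349) (nat_lit 152) (nat_lit 10788501806) (nat_lit 76) (nat_lit 51407993982) (nat_lit 11) (nat_lit 5) (nat_lit 13) (nat_lit 5) (nat_lit 12) (nat_lit 4) (nat_lit 399) (nat_lit 261) (nat_lit 120)) (XT.nd (nat_lit 78) (nat_lit 0) (nat_lit 0) (XT.lf (nat_lit 0) (nat_lit 2456625273) (nat_lit 76) (nat_lit 19313761701) (nat_lit 152) (nat_lit 57764118974) (nat_lit 10) (nat_lit 5) (nat_lit 11) (nat_lit 5) (nat_lit 12) (nat_lit 4) (nat_lit 400) (nat_lit 261) (nat_lit 119)) (XT.lf (nat_lit 0) (nat_lit 16308374674) (nat_lit 76) (nat_lit 12294675419) (nat_lit 152) (nat_lit 53093165337) (nat_lit 10) (nat_lit 5) (nat_lit 11) (nat_lit 5) (nat_lit 12) (nat_lit 4) (nat_lit 401) (nat_lit 261) (nat_lit 118)))) (XT.nd (nat_lit 156) (nat_lit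 0) (nat_lit 0) (XT.nd (nat_lit 78) (nat_lit 0) (nat_lit 0) (XT.lf (nat_lit 0) (nat_lit 30564137527) (nat_lit 76) (nat_lit 5070330839) (nat_lit 152) (nat_lit 48288496176) (nat_lit 10) (nat_lit 5) (nat_lit 11) (nat_lit 5) (nat_lit 12) (nat_lit 4) (nat_lit 402) (nat_lit 261) (nat_lit 117)) (XT.lf (nat_lit 0) (nat_lit 42893525198) (nat_lit 152) (nat_lit 41003068110) (nat_lit 0) (nat_lit 2319423495) (nat_lit 10) (nat_lit 5) (nat_lit 12) (nat_lit 4) (nat_lit 10) (nat_lit 4) (nat_lit 403) (nat_lit 261) (nat_lit 116))) (XT.nd (nat_lit 78) (nat_lit 0) (nat_lit 0) (XT.lf (nat_lit 0) (nat_lit 50414639465) (nat_lit 152) (nat_lit 28337843758) (nat_lit 0) (nat_lit 9824050349) (nat_lit 10) (nat_lit 5) (nat_lit 12) (nat_lit 4) (nat_lit 10) (nat_lit 4) (nat_lit 404) (nat_lit 261) (nat_lit 115)) (XT.lf (nat_lit 0) (nat_lit 58155643893) (nat_lit 152) (nat_lit 15303348137) (nat_lit 0) (nat_lit 17549047580) (nat_lit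 10) (nat_lit 5) (nat_lit 12) (nat_lit 4) (nat_lit 10) (nat_lit 4) (nat_lit 405) (nat_lit 261) (nat_lit 114))))) (XT.nd (nat_lit 234) (nat_lit 0) (nat_lit 0) (XT.nd (nat_lit 78) (nat_lit 76) (nat_lit 0) (XT.lf (nat_lit 0) (nat_lit 66123302467) (nat_lit 152) (nat_lit 1888191880) (nat_lit 0) (nat_lit 25501165185) (nat_lit 10) (nat_lit 5) (nat_lit 12) (nat_lit 4) (nat_lit 10) (nat_lit 4) (nat_lit 406) (nat_lit 261) (nat_lit 113)) (XT.nd (nat_lit 78) (nat_lit 0) (nat_lit 0) (XT.lf (nat_lit 0) (nat_lit 12156565367) (nat_lit 76) (nat_lit 62284868194) (nat_lit 76) (nat_lit 21647642593) (nat_lit 9) (nat_lit 4) (nat_lit 10) (nat_lit 5) (nat_lit 10) (nat_lit 4) (nat_lit 407) (nat_lit 261) (nat_lit 112)) (XT.lf (nat_lit 0) (nat_lit 26651398089) (nat_lit 76) (nat_lit 56371425762) (nat_lit 76) (nat_lit 15719551308) (nat_lit 9) (nat_lit 4) (nat_lit 10) (nat_lit 5) (nat_lit 10) (nat_lit 4) (nat_lit 408) (nat_lit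 261) (nat_lit 111)))) (XT.nd (nat_lit 29172) (nat_lit 0) (nat_lit 23256) (XT.nd (nat_lit 78) (nat_lit 0) (nat_lit 0) (XT.lf (nat_lit 0) (nat_lit 41571392952) (nat_lit 76) (nat_lit 50285067002) (nat_lit 76) (nat_lit 9618970360) (nat_lit 9) (nat_lit 4) (nat_lit 10) (nat_lit 5) (nat_lit 10) (nat_lit 4) (nat_lit 409) (nat_lit 261) (nat_lit 110)) (XT.lf (nat_lit 0) (nat_lit 56929586845) (nat_lit 76) (nat_lit 44020473736) (nat_lit 76) (nat_lit 3340569146) (nat_lit 9) (nat_lit 4) (nat_lit 10) (nat_lit 5) (nat_lit 10) (nat_lit 4) (nat_lit 410) (nat_lit 261) (nat_lit 109))) (XT.nd (nat_lit 78) (nat_lit 228) (nat_lit 0) (XT.lf (nat_lit 0) (nat_lit 2514572900) (nat_lit 228) (nat_lit 357635351) (nat_lit 228) (nat_lit 357635351) (nat_lit 318) (nat_lit 3) (nat_lit 321) (nat_lit 3) (nat_lit 321) (nat_lit 5) (nat_lit 262) (nat_lit 262) (nat_lit 256)) (XT.lf (nat_lit 0) (nat_lit 1298456476) (nat_lit 228) (nat_lit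 4150008172) (nat_lit 304) (nat_lit 1021317702) (nat_lit 315) (nat_lit 5) (nat_lit 318) (nat_lit 3) (nat_lit 319) (nat_lit 5) (nat_lit 263) (nat_lit 262) (nat_lit 255))))))) (XT.nd (nat_lit 1092) (nat_lit 7372) (nat_lit 0) (XT.nd (nat_lit 546) (nat_lit 2128) (nat_lit 0) (XT.nd (nat_lit 234) (nat_lit 380) (nat_lit 0) (XT.nd (nat_lit 78) (nat_lit 304) (nat_lit 0) (XT.lf (nat_lit 0) (nat_lit 3981981278) (nat_lit 228) (nat_lit 1090784400) (nat_lit 304) (nat_lit 1410164280) (nat_lit 315) (nat_lit 5) (nat_lit 318) (nat_lit 3) (nat_lit 319) (nat_lit 5) (nat_lit 264) (nat_lit 262) (nat_lit 254)) (XT.nd (nat_lit 78) (nat_lit 0) (nat_lit 0) (XT.lf (nat_lit 0) (nat_lit 160494451) (nat_lit 304) (nat_lit 4456090144) (nat_lit 380) (nat_lit 1882545076) (nat_lit 311) (nat_lit 5) (nat_lit 315) (nat_lit 5) (nat_lit 316) (nat_lit 5) (nat_lit 265) (nat_lit 262) (nat_lit 253)) (XT.lf (nat_lit 0) (nat_lit 2761109838)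 (nat_lit 304) (nat_lit 1304247582) (nat_lit 380) (nat_lit 2452625639) (nat_lit 311) (nat_lit 5) (nat_lit 315) (nat_lit 5) (nat_lit 316) (nat_lit 5) (nat_lit 266) (nat_lit 262) (nat_lit 252)))) (XT.nd (nat_lit 156) (nat_lit 0) (nat_lit 0) (XT.nd (nat_lit 78) (nat_lit 380) (nat_lit 0) (XT.lf (nat_lit 76) (nat_lit 1924233042) (nat_lit 0) (nat_lit 3435436397) (nat_lit 380) (nat_lit 1180327465) (nat_lit 312) (nat_lit 5) (nat_lit 311) (nat_lit 5) (nat_lit 316) (nat_lit 5) (nat_lit 267) (nat_lit 262) (nat_lit 251)) (XT.lf (nat_lit 0) (nat_lit 1360697612) (nat_lit 380) (nat_lit 1357308353) (nat_lit 456) (nat_lit 3846943746) (nat_lit 306) (nat_lit 5) (nat_lit 311) (nat_lit 5) (nat_lit 312) (nat_lit 5) (nat_lit 268) (nat_lit 262) (nat_lit 250))) (XT.nd (nat_lit 78) (nat_lit 0) (nat_lit 0) (XT.lf (nat_lit 76) (nat_lit 1970281647) (nat_lit 0) (nat_lit 1908359569) (nat_lit 456) (nat_lit 2714103238) (nat_lit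 307) (nat_lit 5) (nat_lit 306) (nat_lit 5) (nat_lit 312) (nat_lit 5) (nat_lit 269) (nat_lit 262) (nat_lit 249)) (XT.lf (nat_lit 76) (nat_lit 5370685725) (nat_lit 0) (nat_lit 1022841319) (nat_lit 456) (nat_lit 230375027) (nat_lit 307) (nat_lit 5) (nat_lit 306) (nat_lit 5) (nat_lit 312) (nat_lit 5) (nat_lit 270) (nat_lit 262) (nat_lit 248))))) (XT.nd (nat_lit 234) (nat_lit 1216) (nat_lit 0) (XT.nd (nat_lit 78) (nat_lit 456) (nat_lit 0) (XT.lf (nat_lit 76) (nat_lit 2182105758) (nat_lit 0) (nat_lit 30645965) (nat_lit 532) (nat_lit 4444823358) (nat_lit 301) (nat_lit 5) (nat_lit 300) (nat_lit 5) (nat_lit 307) (nat_lit 5) (nat_lit 271) (nat_lit 262) (nat_lit 247)) (XT.nd (nat_lit 78) (nat_lit 532) (nat_lit 0) (XT.lf (nat_lit 0) (nat_lit 4658628361) (nat_lit 456) (nat_lit 1015439970) (nat_lit 76) (nat_lit 1020255556) (nat_lit 301) (nat_lit 5) (nat_lit 307) (nat_lit 5) (nat_lit 302) (nat_lit 5) (nat_lit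 272) (nat_lit 262) (nat_lit 246)) (XT.lf (nat_lit 0) (nat_lit 375337574) (nat_lit 532) (nat_lit 4196272311) (nat_lit 76) (nat_lit 2162434509) (nat_lit 294) (nat_lit 5) (nat_lit 301) (nat_lit 5) (nat_lit 295) (nat_lit 5) (nat_lit 273) (nat_lit 262) (nat_lit 245)))) (XT.nd (nat_lit 156) (nat_lit 684) (nat_lit 0) (XT.nd (nat_lit 78) (nat_lit 532) (nat_lit 0) (XT.lf (nat_lit 0) (nat_lit 2743475422) (nat_lit 532) (nat_lit 633907582) (nat_lit 76) (nat_lit 3399341508) (nat_lit 294) (nat_lit 5) (nat_lit 301) (nat_lit 5) (nat_lit 295) (nat_lit 5) (nat_lit 274) (nat_lit 262) (nat_lit 244)) (XT.lf (nat_lit 0) (nat_lit 3038902010) (nat_lit 532) (nat_lit 2090766929) (nat_lit 608) (nat_lit 1692744907) (nat_lit 287) (nat_lit 5) (nat_lit 294) (nat_lit 5) (nat_lit 295) (nat_lit 5) (nat_lit 275) (nat_lit 262) (nat_lit 243))) (XT.nd (nat_lit 78) (nat_lit 608) (nat_lit 0) (XT.lf (nat_lit 0) (nat_lit 629164368) (nat_lit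 608) (nat_lit 98284594) (nat_lit 76) (nat_lit 6144193013) (nat_lit 286) (nat_lit 5) (nat_lit 294) (nat_lit 5) (nat_lit 287) (nat_lit 5) (nat_lit 276) (nat_lit 262) (nat_lit 242)) (XT.lf (nat_lit 0) (nat_lit 2950605290) (nat_lit 684) (nat_lit 3232899094) (nat_lit 76) (nat_lit 739550212) (nat_lit 278) (nat_lit 5) (nat_lit 287) (nat_lit 5) (nat_lit 279) (nat_lit 5) (nat_lit 277) (nat_lit 262) (nat_lit 241)))))) (XT.nd (nat_lit 546) (nat_lit 4028) (nat_lit 0) (XT.nd (nat_lit 234) (nat_lit 1824) (nat_lit 0) (XT.nd (nat_lit 78) (nat_lit 836) (nat_lit 0) (XT.lf (nat_lit 0) (nat_lit 564710056) (nat_lit 684) (nat_lit 4713702249) (nat_lit 760) (nat_lit 1699619245) (nat_lit 269) (nat_lit 5) (nat_lit 278) (nat_lit 5) (nat_lit 279) (nat_lit 5) (nat_lit 278) (nat_lit 262) (nat_lit 240)) (XT.nd (nat_lit 78) (nat_lit 760) (nat_lit 0) (XT.lf (nat_lit 0) (nat_lit 585770218) (nat_lit 760) (nat_lit 2556097406) (nat_lit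 76) (nat_lit 3894015055) (nat_lit 268) (nat_lit 5) (nat_lit 278) (nat_lit 5) (nat_lit 269) (nat_lit 5) (nat_lit 279) (nat_lit 262) (nat_lit 239)) (XT.lf (nat_lit 0) (nat_lit 1370002575) (nat_lit 760) (nat_lit 1474864587) (nat_lit 836) (nat_lit 4252031298) (nat_lit 258) (nat_lit 5) (nat_lit 268) (nat_lit 5) (nat_lit 269) (nat_lit 5) (nat_lit 280) (nat_lit 262) (nat_lit 238)))) (XT.nd (nat_lit 156) (nat_lit 912) (nat_lit 0) (XT.nd (nat_lit 78) (nat_lit 912) (nat_lit 0) (XT.lf (nat_lit 0) (nat_lit 5128034586) (nat_lit 836) (nat_lit 1753892615) (nat_lit 76) (nat_lit 279238438) (nat_lit 258) (nat_lit 5) (nat_lit 269) (nat_lit 5) (nat_lit 259) (nat_lit 5) (nat_lit 281) (nat_lit 262) (nat_lit 237)) (XT.lf (nat_lit 0) (nat_lit 213807874) (nat_lit 912) (nat_lit 4918661830) (nat_lit 76) (nat_lit 2095930038) (nat_lit 246) (nat_lit 5) (nat_lit 258) (nat_lit 5) (nat_lit 247) (nat_lit 5) (nat_lit 282) (nat_lit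 262) (nat_lit 236))) (XT.nd (nat_lit 78) (nat_lit 912) (nat_lit 0) (XT.lf (nat_lit 0) (nat_lit 2435897236) (nat_lit 912) (nat_lit 844030443) (nat_lit 76) (nat_lit 4018761637) (nat_lit 246) (nat_lit 5) (nat_lit 258) (nat_lit 5) (nat_lit 247) (nat_lit 5) (nat_lit 283) (nat_lit 262) (nat_lit 235)) (XT.lf (nat_lit 0) (nat_lit 3362299022) (nat_lit 912) (nat_lit 1327408549) (nat_lit 988) (nat_lit 2682525857) (nat_lit 234) (nat_lit 5) (nat_lit 246) (nat_lit 5) (nat_lit 247) (nat_lit 5) (nat_lit 284) (nat_lit 262) (nat_lit 234))))) (XT.nd (nat_lit 234) (nat_lit 1900) (nat_lit 0) (XT.nd (nat_lit 78) (nat_lit 1140) (nat_lit 0) (XT.lf (nat_lit 0) (nat_lit 203946110) (nat_lit 988) (nat_lit 6758586855) (nat_lit 1064) (nat_lit 487003638) (nat_lit 221) (nat_lit 5) (nat_lit 234) (nat_lit 5) (nat_lit 235) (nat_lit 5) (nat_lit 285) (nat_lit 262) (nat_lit 233)) (XT.nd (nat_lit 78) (nat_lit 1064) (nat_lit 0) (XT.lf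 (nat_lit 0) (nat_lit 1728693800) (nat_lit 1064) (nat_lit 2990689196) (nat_lit 76) (nat_lit 2809685478) (nat_lit 220) (nat_lit 5) (nat_lit 234) (nat_lit 5) (nat_lit 221) (nat_lit 5) (nat_lit 286) (nat_lit 262) (nat_lit 232)) (XT.lf (nat_lit 0) (nat_lit 1356628652) (nat_lit 1064) (nat_lit 2594280267) (nat_lit 1140) (nat_lit 3661524396) (nat_lit 206) (nat_lit 5) (nat_lit 220) (nat_lit 5) (nat_lit 221) (nat_lit 5) (nat_lit 287) (nat_lit 262) (nat_lit 231)))) (XT.nd (nat_lit 156) (nat_lit 684) (nat_lit 0) (XT.nd (nat_lit 78) (nat_lit 1216) (nat_lit 0) (XT.lf (nat_lit 0) (nat_lit 5839348514) (nat_lit 1064) (nat_lit 368735903) (nat_lit 1140) (nat_lit 1491250060) (nat_lit 206) (nat_lit 5) (nat_lit 220) (nat_lit 5) (nat_lit 221) (nat_lit 5) (nat_lit 288) (nat_lit 262) (nat_lit 230)) (XT.lf (nat_lit 0) (nat_lit 713229035) (nat_lit 1216) (nat_lit 5152206820) (nat_lit 76) (nat_lit 1923763069) (nat_lit 190)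 (nat_lit 5) (nat_lit 206) (nat_lit 5) (nat_lit 191) (nat_lit 5) (nat_lit 289) (nat_lit 262) (nat_lit 229))) (XT.nd (nat_lit 78) (nat_lit 684) (nat_lit 0) (XT.lf (nat_lit 0) (nat_lit 2916987630) (nat_lit 1216) (nat_lit 650116396) (nat_lit 76) (nat_lit 4315395849) (nat_lit 190) (nat_lit 5) (nat_lit 206) (nat_lit 5) (nat_lit 191) (nat_lit 5) (nat_lit 290) (nat_lit 262) (nat_lit 228)) (XT.lf (nat_lit 0) (nat_lit 4009622314) (nat_lit 684) (nat_lit 1158011408) (nat_lit 760) (nat_lit 2811617695) (nat_lit 181) (nat_lit 5) (nat_lit 190) (nat_lit 5) (nat_lit 191) (nat_lit 5) (nat_lit 291) (nat_lit 262) (nat_lit 227))))))))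
noncomputable def xc109 : XT := (XT.nd (nat_lit 2184) (nat_lit 3420) (nat_lit 0) (XT.nd (nat_lit 1092) (nat_lit 3040) (nat_lit 0) (XT.nd (nat_lit 546) (nat_lit 1976) (nat_lit 0) (XT.nd (nat_lit 234) (nat_lit 1064) (nat_lit 0) (XT.nd (nat_lit 78) (nat_lit 608) (nat_lit 0) (XT.lf (nat_lit 0) (nat_lit 687504686) (nat_lit 608) (nat_lit 6767653081) (nat_lit 684) (nat_lit 624739606) (nat_lit 173) (nat_lit 5) (nat_lit 181) (nat_lit 5) (nat_lit 182) (nat_lit 5) (nat_lit 292) (nat_lit 262) (nat_lit 226)) (XT.nd (nat_lit 78) (nat_lit 532) (nat_lit 0) (XT.lf (nat_lit 0) (nat_lit 1591816973) (nat_lit 684) (nat_lit 2701667266) (nat_lit 76) (nat_lit 3889802461) (nat_lit 172) (nat_lit 5) (nat_lit 181) (nat_lit 5) (nat_lit 173) (nat_lit 5) (nat_lit 293) (nat_lit 262) (nat_lit 225)) (XT.lf (nat_lit 0) (nat_lit 2108898137) (nat_lit 532) (nat_lit 1719209327) (nat_lit 608) (nat_lit 4462577324) (nat_lit 165) (nat_lit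 5) (nat_lit 172) (nat_lit 5) (nat_lit 173) (nat_lit 5) (nat_lit 294) (nat_lit 262) (nat_lit 224)))) (XT.nd (nat_lit 156) (nat_lit 532) (nat_lit 0) (XT.nd (nat_lit 78) (nat_lit 532) (nat_lit 0) (XT.lf (nat_lit 0) (nat_lit 6114559053) (nat_lit 608) (nat_lit 1347506302) (nat_lit 76) (nat_lit 939811819) (nat_lit 165) (nat_lit 5) (nat_lit 173) (nat_lit 5) (nat_lit 166) (nat_lit 5) (nat_lit 295) (nat_lit 262) (nat_lit 223)) (XT.lf (nat_lit 0) (nat_lit 3630330068) (nat_lit 532) (nat_lit 4839308431) (nat_lit 608) (nat_lit 46828451) (nat_lit 158) (nat_lit 5) (nat_lit 165) (nat_lit 5) (nat_lit 166) (nat_lit 5) (nat_lit 296) (nat_lit 262) (nat_lit 222))) (XT.nd (nat_lit 78) (nat_lit 0) (nat_lit 0) (XT.lf (nat_lit 0) (nat_lit 74797271) (nat_lit 456) (nat_lit 2104958503) (nat_lit 532) (nat_lit 6455255777) (nat_lit 151) (nat_lit 5) (nat_lit 157) (nat_lit 5) (nat_lit 158) (nat_lit 5) (nat_lit 297) (nat_lit 262)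 (nat_lit 221)) (XT.lf (nat_lit 0) (nat_lit 4478322127) (nat_lit 532) (nat_lit 3535513917) (nat_lit 76) (nat_lit 743136096) (nat_lit 151) (nat_lit 5) (nat_lit 158) (nat_lit 5) (nat_lit 152) (nat_lit 5) (nat_lit 298) (nat_lit 262) (nat_lit 220))))) (XT.nd (nat_lit 234) (nat_lit 912) (nat_lit 0) (XT.nd (nat_lit 78) (nat_lit 532) (nat_lit 0) (XT.lf (nat_lit 0) (nat_lit 1595054934) (nat_lit 532) (nat_lit 5237894701) (nat_lit 608) (nat_lit 2050084447) (nat_lit 144) (nat_lit 5) (nat_lit 151) (nat_lit 5) (nat_lit 152) (nat_lit 5) (nat_lit 299) (nat_lit 262) (nat_lit 219)) (XT.nd (nat_lit 78) (nat_lit 456) (nat_lit 0) (XT.lf (nat_lit 0) (nat_lit 227910588) (nat_lit 608) (nat_lit 2118140695) (nat_lit 76) (nat_lit 6667187518) (nat_lit 143) (nat_lit 5) (nat_lit 151) (nat_lit 5) (nat_lit 144) (nat_lit 5) (nat_lit 300) (nat_lit 262) (nat_lit 218)) (XT.lf (nat_lit 0) (nat_lit 2522995054) (nat_lit 532) (nat_lit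 5958988789) (nat_lit 76) (nat_lit 665109193) (nat_lit 137) (nat_lit 5) (nat_lit 144) (nat_lit 5) (nat_lit 138) (nat_lit 5) (nat_lit 301) (nat_lit 262) (nat_lit 217)))) (XT.nd (nat_lit 156) (nat_lit 456) (nat_lit 0) (XT.nd (nat_lit 78) (nat_lit 456) (nat_lit 0) (XT.lf (nat_lit 0) (nat_lit 4885278981) (nat_lit 532) (nat_lit 665666147) (nat_lit 76) (nat_lit 3734116818) (nat_lit 137) (nat_lit 5) (nat_lit 144) (nat_lit 5) (nat_lit 138) (nat_lit 5) (nat_lit 302) (nat_lit 262) (nat_lit 216)) (XT.lf (nat_lit 0) (nat_lit 4827392629) (nat_lit 456) (nat_lit 2492314351) (nat_lit 532) (nat_lit 2107472690) (nat_lit 131) (nat_lit 5) (nat_lit 137) (nat_lit 5) (nat_lit 138) (nat_lit 5) (nat_lit 303) (nat_lit 262) (nat_lit 215))) (XT.nd (nat_lit 78) (nat_lit 0) (nat_lit 0) (XT.lf (nat_lit 0) (nat_lit 225580474) (nat_lit 456) (nat_lit 8694185549) (nat_lit 76) (nat_lit 654459354) (nat_lit 125) (nat_lit 5) (nat_lit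 131) (nat_lit 5) (nat_lit 126) (nat_lit 5) (nat_lit 304) (nat_lit 262) (nat_lit 214)) (XT.lf (nat_lit 0) (nat_lit 2613753050) (nat_lit 456) (nat_lit 3206167000) (nat_lit 76) (nat_lit 3904355787) (nat_lit 125) (nat_lit 5) (nat_lit 131) (nat_lit 5) (nat_lit 126) (nat_lit 5) (nat_lit 305) (nat_lit 262) (nat_lit 213)))))) (XT.nd (nat_lit 546) (nat_lit 1444) (nat_lit 0) (XT.nd (nat_lit 234) (nat_lit 760) (nat_lit 0) (XT.nd (nat_lit 78) (nat_lit 380) (nat_lit 0) (XT.lf (nat_lit 0) (nat_lit 2441287401) (nat_lit 456) (nat_lit 2612935823) (nat_lit 532) (nat_lit 4825227674) (nat_lit 119) (nat_lit 5) (nat_lit 125) (nat_lit 5) (nat_lit 126) (nat_lit 5) (nat_lit 306) (nat_lit 262) (nat_lit 212)) (XT.nd (nat_lit 78) (nat_lit 380) (nat_lit 0) (XT.lf (nat_lit 0) (nat_lit 7565069993) (nat_lit 532) (nat_lit 1774906864) (nat_lit 76) (nat_lit 699430897) (nat_lit 119) (nat_lit 5) (nat_lit 126) (nat_lit 5) (nat_lit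 120) (nat_lit 5) (nat_lit 307) (nat_lit 262) (nat_lit 211)) (XT.lf (nat_lit 0) (nat_lit 4059623912) (nat_lit 380) (nat_lit 6115571476) (nat_lit 456) (nat_lit 28289540) (nat_lit 114) (nat_lit 5) (nat_lit 119) (nat_lit 5) (nat_lit 120) (nat_lit 5) (nat_lit 308) (nat_lit 262) (nat_lit 210)))) (XT.nd (nat_lit 156) (nat_lit 304) (nat_lit 0) (XT.nd (nat_lit 78) (nat_lit 380) (nat_lit 0) (XT.lf (nat_lit 0) (nat_lit 2419949584) (nat_lit 456) (nat_lit 342804868) (nat_lit 76) (nat_lit 7609726862) (nat_lit 113) (nat_lit 5) (nat_lit 119) (nat_lit 5) (nat_lit 114) (nat_lit 5) (nat_lit 309) (nat_lit 262) (nat_lit 209)) (XT.lf (nat_lit 0) (nat_lit 4963364929) (nat_lit 456) (nat_lit 4860899418) (nat_lit 76) (nat_lit 721642710) (nat_lit 108) (nat_lit 5) (nat_lit 114) (nat_lit 5) (nat_lit 109) (nat_lit 5) (nat_lit 310) (nat_lit 262) (nat_lit 208))) (XT.nd (nat_lit 78) (nat_lit 0) (nat_lit 0) (XT.lf (nat_lit 0) (nat_lit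 1119326013) (nat_lit 304) (nat_lit 6466427993) (nat_lit 380) (nat_lit 3138737157) (nat_lit 104) (nat_lit 5) (nat_lit 108) (nat_lit 5) (nat_lit 109) (nat_lit 5) (nat_lit 311) (nat_lit 262) (nat_lit 207)) (XT.lf (nat_lit 0) (nat_lit 7327727831) (nat_lit 304) (nat_lit 2969879259) (nat_lit 380) (nat_lit 610536618) (nat_lit 104) (nat_lit 5) (nat_lit 108) (nat_lit 5) (nat_lit 109) (nat_lit 5) (nat_lit 312) (nat_lit 262) (nat_lit 206))))) (XT.nd (nat_lit 234) (nat_lit 684) (nat_lit 0) (XT.nd (nat_lit 78) (nat_lit 304) (nat_lit 0) (XT.lf (nat_lit 0) (nat_lit 1948474406) (nat_lit 456) (nat_lit 8496922669) (nat_lit 76) (nat_lit 651550614) (nat_lit 98) (nat_lit 5) (nat_lit 104) (nat_lit 5) (nat_lit 99) (nat_lit 5) (nat_lit 313) (nat_lit 262) (nat_lit 205)) (XT.nd (nat_lit 78) (nat_lit 304) (nat_lit 0) (XT.lf (nat_lit 0) (nat_lit 4600818186) (nat_lit 456) (nat_lit 2337563929) (nat_lit 76) (nat_lit 4352019061)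 (nat_lit 98) (nat_lit 5) (nat_lit 104) (nat_lit 5) (nat_lit 99) (nat_lit 5) (nat_lit 314) (nat_lit 262) (nat_lit 204)) (XT.lf (nat_lit 0) (nat_lit 4036112011) (nat_lit 304) (nat_lit 3299413680) (nat_lit 380) (nat_lit 4154079593) (nat_lit 94) (nat_lit 5) (nat_lit 98) (nat_lit 5) (nat_lit 99) (nat_lit 5) (nat_lit 315) (nat_lit 262) (nat_lit 203)))) (XT.nd (nat_lit 156) (nat_lit 304) (nat_lit 0) (XT.nd (nat_lit 78) (nat_lit 380) (nat_lit 0) (XT.lf (nat_lit 0) (nat_lit 10144874331) (nat_lit 380) (nat_lit 1099413199) (nat_lit 76) (nat_lit 450749909) (nat_lit 94) (nat_lit 5) (nat_lit 99) (nat_lit 5) (nat_lit 95) (nat_lit 5) (nat_lit 316) (nat_lit 262) (nat_lit 202)) (XT.lf (nat_lit 0) (nat_lit 1161000660) (nat_lit 380) (nat_lit 6445395492) (nat_lit 76) (nat_lit 4298401703) (nat_lit 89) (nat_lit 5) (nat_lit 94) (nat_lit 5) (nat_lit 90) (nat_lit 5) (nat_lit 317) (nat_lit 262) (nat_lit 201))) (XT.nd (nat_lit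 78) (nat_lit 0) (nat_lit 0) (XT.lf (nat_lit 0) (nat_lit 54104365) (nat_lit 304) (nat_lit 3845635642) (nat_lit 380) (nat_lit 8221356092) (nat_lit 85) (nat_lit 5) (nat_lit 89) (nat_lit 5) (nat_lit 90) (nat_lit 5) (nat_lit 318) (nat_lit 262) (nat_lit 200)) (XT.lf (nat_lit 0) (nat_lit 6752707667) (nat_lit 380) (nat_lit 5511053177) (nat_lit 76) (nat_lit 79187046) (nat_lit 85) (nat_lit 5) (nat_lit 90) (nat_lit 5) (nat_lit 86) (nat_lit 5) (nat_lit 319) (nat_lit 262) (nat_lit 199))))))) (XT.nd (nat_lit 1092) (nat_lit 1444) (nat_lit 0) (XT.nd (nat_lit 546) (nat_lit 760) (nat_lit 0) (XT.nd (nat_lit 234) (nat_lit 608) (nat_lit 0) (XT.nd (nat_lit 78) (nat_lit 304) (nat_lit 0) (XT.lf (nat_lit 0) (nat_lit 1178996438) (nat_lit 304) (nat_lit 8528732297) (nat_lit 380) (nat_lit 2863258379) (nat_lit 81) (nat_lit 5) (nat_lit 85) (nat_lit 5) (nat_lit 86) (nat_lit 5) (nat_lit 320) (nat_lit 262) (nat_lit 198)) (XT.nd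 (nat_lit 78) (nat_lit 304) (nat_lit 0) (XT.lf (nat_lit 0) (nat_lit 8135686430) (nat_lit 304) (nat_lit 4638927825) (nat_lit 380) (nat_lit 30581903) (nat_lit 81) (nat_lit 5) (nat_lit 85) (nat_lit 5) (nat_lit 86) (nat_lit 5) (nat_lit 321) (nat_lit 262) (nat_lit 197)) (XT.lf (nat_lit 0) (nat_lit 2223971529) (nat_lit 228) (nat_lit 596316379) (nat_lit 304) (nat_lit 10225648107) (nat_lit 77) (nat_lit 5) (nat_lit 80) (nat_lit 5) (nat_lit 81) (nat_lit 5) (nat_lit 322) (nat_lit 262) (nat_lit 196)))) (XT.nd (nat_lit 156) (nat_lit 304) (nat_lit 0) (XT.nd (nat_lit 78) (nat_lit 304) (nat_lit 0) (XT.lf (nat_lit 0) (nat_lit 5806501228) (nat_lit 304) (nat_lit 3954258181) (nat_lit 76) (nat_lit 3531639544) (nat_lit 77) (nat_lit 5) (nat_lit 81) (nat_lit 5) (nat_lit 78) (nat_lit 5) (nat_lit 323) (nat_lit 262) (nat_lit 195)) (XT.lf (nat_lit 0) (nat_lit 3129310230) (nat_lit 304) (nat_lit 5758411245) (nat_lit 380) (nat_lit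 4658393954) (nat_lit 73) (nat_lit 5) (nat_lit 77) (nat_lit 5) (nat_lit 78) (nat_lit 5) (nat_lit 324) (nat_lit 262) (nat_lit 194))) (XT.nd (nat_lit 78) (nat_lit 304) (nat_lit 0) (XT.lf (nat_lit 0) (nat_lit 10461559438) (nat_lit 304) (nat_lit 1609643473) (nat_lit 380) (nat_lit 1735967364) (nat_lit 73) (nat_lit 5) (nat_lit 77) (nat_lit 5) (nat_lit 78) (nat_lit 5) (nat_lit 325) (nat_lit 262) (nat_lit 193)) (XT.lf (nat_lit 0) (nat_lit 1283743415) (nat_lit 304) (nat_lit 10142884358) (nat_lit 76) (nat_lit 2648047709) (nat_lit 69) (nat_lit 5) (nat_lit 73) (nat_lit 5) (nat_lit 70) (nat_lit 5) (nat_lit 326) (nat_lit 262) (nat_lit 192))))) (XT.nd (nat_lit 234) (nat_lit 532) (nat_lit 0) (XT.nd (nat_lit 78) (nat_lit 228) (nat_lit 0) (XT.lf (nat_lit 0) (nat_lit 4379970105) (nat_lit 304) (nat_lit 2931059096) (nat_lit 76) (nat_lit 7038056317) (nat_lit 69) (nat_lit 5) (nat_lit 73) (nat_lit 5) (nat_lit 70) (nat_lit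 5) (nat_lit 327) (nat_lit 262) (nat_lit 191)) (XT.nd (nat_lit 78) (nat_lit 0) (nat_lit 0) (XT.lf (nat_lit 0) (nat_lit 4542554458) (nat_lit 228) (nat_lit 3041806738) (nat_lit 304) (nat_lit 7046927535) (nat_lit 66) (nat_lit 5) (nat_lit 69) (nat_lit 5) (nat_lit 70) (nat_lit 5) (nat_lit 328) (nat_lit 262) (nat_lit 190)) (XT.lf (nat_lit 0) (nat_lit 10899689822) (nat_lit 304) (nat_lit 2677432617) (nat_lit 76) (nat_lit 1344410074) (nat_lit 66) (nat_lit 5) (nat_lit 70) (nat_lit 5) (nat_lit 67) (nat_lit 5) (nat_lit 329) (nat_lit 262) (nat_lit 189)))) (XT.nd (nat_lit 156) (nat_lit 228) (nat_lit 0) (XT.nd (nat_lit 78) (nat_lit 76) (nat_lit 0) (XT.lf (nat_lit 0) (nat_lit 4981056632) (nat_lit 228) (nat_lit 9384123398) (nat_lit 304) (nat_lit 853800629) (nat_lit 63) (nat_lit 5) (nat_lit 66) (nat_lit 5) (nat_lit 67) (nat_lit 5) (nat_lit 330) (nat_lit 262) (nat_lit 188)) (XT.lf (nat_lit 0) (nat_lit 2362386730)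 (nat_lit 304) (nat_lit 2666160030) (nat_lit 76) (nat_lit 10496124233) (nat_lit 62) (nat_lit 5) (nat_lit 66) (nat_lit 5) (nat_lit 63) (nat_lit 5) (nat_lit 331) (nat_lit 262) (nat_lit 187))) (XT.nd (nat_lit 78) (nat_lit 0) (nat_lit 0) (XT.lf (nat_lit 0) (nat_lit 5184325564) (nat_lit 228) (nat_lit 497013662) (nat_lit 304) (nat_lit 10157252572) (nat_lit 59) (nat_lit 5) (nat_lit 62) (nat_lit 5) (nat_lit 63) (nat_lit 5) (nat_lit 332) (nat_lit 262) (nat_lit 186)) (XT.lf (nat_lit 0) (nat_lit 9140979725) (nat_lit 304) (nat_lit 2917893230) (nat_lit 76) (nat_lit 4101839774) (nat_lit 59) (nat_lit 5) (nat_lit 63) (nat_lit 5) (nat_lit 60) (nat_lit 5) (nat_lit 333) (nat_lit 262) (nat_lit 185)))))) (XT.nd (nat_lit 546) (nat_lit 608) (nat_lit 0) (XT.nd (nat_lit 234) (nat_lit 380) (nat_lit 0) (XT.nd (nat_lit 78) (nat_lit 304) (nat_lit 0) (XT.lf (nat_lit 0) (nat_lit 5105079738) (nat_lit 152) (nat_lit 7627926505)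 (nat_lit 228) (nat_lit 3758648754) (nat_lit 57) (nat_lit 5) (nat_lit 59) (nat_lit 5) (nat_lit 60) (nat_lit 5) (nat_lit 334) (nat_lit 262) (nat_lit 184)) (XT.nd (nat_lit 78) (nat_lit 304) (nat_lit 0) (XT.lf (nat_lit 0) (nat_lit 13388761062) (nat_lit 152) (nat_lit 3048457419) (nat_lit 228) (nat_lit 395189467) (nat_lit 57) (nat_lit 5) (nat_lit 59) (nat_lit 5) (nat_lit 60) (nat_lit 5) (nat_lit 335) (nat_lit 262) (nat_lit 183)) (XT.lf (nat_lit 0) (nat_lit 3047133748) (nat_lit 304) (nat_lit 12436670861) (nat_lit 76) (nat_lit 1697572562) (nat_lit 53) (nat_lit 5) (nat_lit 57) (nat_lit 5) (nat_lit 54) (nat_lit 5) (nat_lit 336) (nat_lit 262) (nat_lit 182)))) (XT.nd (nat_lit 156) (nat_lit 228) (nat_lit 0) (XT.nd (nat_lit 78) (nat_lit 152) (nat_lit 0) (XT.lf (nat_lit 0) (nat_lit 6625722261) (nat_lit 304) (nat_lit 4364266637) (nat_lit 76) (nat_lit 6549494907) (nat_lit 53) (nat_lit 5) (nat_lit 57) (nat_lit 5)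 (nat_lit 54) (nat_lit 5) (nat_lit 337) (nat_lit 262) (nat_lit 181)) (XT.lf (nat_lit 0) (nat_lit 3989958399) (nat_lit 152) (nat_lit 6336410935) (nat_lit 228) (nat_lit 7581536748) (nat_lit 51) (nat_lit 5) (nat_lit 53) (nat_lit 5) (nat_lit 54) (nat_lit 5) (nat_lit 338) (nat_lit 262) (nat_lit 180))) (XT.nd (nat_lit 78) (nat_lit 228) (nat_lit 0) (XT.lf (nat_lit 0) (nat_lit 12646438207) (nat_lit 152) (nat_lit 1512340359) (nat_lit 228) (nat_lit 4127993257) (nat_lit 51) (nat_lit 5) (nat_lit 53) (nat_lit 5) (nat_lit 54) (nat_lit 5) (nat_lit 339) (nat_lit 262) (nat_lit 179)) (XT.lf (nat_lit 0) (nat_lit 2871119289) (nat_lit 228) (nat_lit 15273081544) (nat_lit 304) (nat_lit 531674177) (nat_lit 48) (nat_lit 5) (nat_lit 51) (nat_lit 5) (nat_lit 52) (nat_lit 5) (nat_lit 340) (nat_lit 262) (nat_lit 178))))) (XT.nd (nat_lit 234) (nat_lit 380) (nat_lit 0) (XT.nd (nat_lit 78) (nat_lit 152) (nat_lit 0) (XT.lf (nat_lit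 0) (nat_lit 3160411123) (nat_lit 304) (nat_lit 7404827720) (nat_lit 76) (nat_lit 8509016000) (nat_lit 47) (nat_lit 5) (nat_lit 51) (nat_lit 5) (nat_lit 48) (nat_lit 5) (nat_lit 341) (nat_lit 262) (nat_lit 177)) (XT.nd (nat_lit 78) (nat_lit 0) (nat_lit 0) (XT.lf (nat_lit 0) (nat_lit 1229527229) (nat_lit 152) (nat_lit 5712816365) (nat_lit 228) (nat_lit 12542403052) (nat_lit 45) (nat_lit 5) (nat_lit 47) (nat_lit 5) (nat_lit 48) (nat_lit 5) (nat_lit 342) (nat_lit 262) (nat_lit 176)) (XT.lf (nat_lit 0) (nat_lit 10238761114) (nat_lit 152) (nat_lit 651995606) (nat_lit 228) (nat_lit 9015217083) (nat_lit 45) (nat_lit 5) (nat_lit 47) (nat_lit 5) (nat_lit 48) (nat_lit 5) (nat_lit 343) (nat_lit 262) (nat_lit 175)))) (XT.nd (nat_lit 156) (nat_lit 228) (nat_lit 0) (XT.nd (nat_lit 78) (nat_lit 152) (nat_lit 0) (XT.lf (nat_lit 0) (nat_lit 14980211530) (nat_lit 228) (nat_lit 900814085) (nat_lit 76) (nat_lit 4458145434)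 (nat_lit 45) (nat_lit 5) (nat_lit 48) (nat_lit 5) (nat_lit 46) (nat_lit 5) (nat_lit 344) (nat_lit 262) (nat_lit 174)) (XT.lf (nat_lit 0) (nat_lit 8248705781) (nat_lit 152) (nat_lit 11008759688) (nat_lit 228) (nat_lit 1525955911) (nat_lit 43) (nat_lit 5) (nat_lit 45) (nat_lit 5) (nat_lit 46) (nat_lit 5) (nat_lit 345) (nat_lit 262) (nat_lit 173))) (XT.nd (nat_lit 78) (nat_lit 152) (nat_lit 0) (XT.lf (nat_lit 0) (nat_lit 2363392139) (nat_lit 228) (nat_lit 3607381069) (nat_lit 76) (nat_lit 15269879063) (nat_lit 42) (nat_lit 5) (nat_lit 45) (nat_lit 5) (nat_lit 43) (nat_lit 5) (nat_lit 346) (nat_lit 262) (nat_lit 172)) (XT.lf (nat_lit 0) (nat_lit 5649450204) (nat_lit 152) (nat_lit 723635805) (nat_lit 228) (nat_lit 15337040490) (nat_lit 40) (nat_lit 5) (nat_lit 42) (nat_lit 5) (nat_lit 43) (nat_lit 5) (nat_lit 347) (nat_lit 262) (nat_lit 171))))))))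
noncomputable def xc110 : XT := (XT.nd (nat_lit 2106) (nat_lit 836) (nat_lit 0) (XT.nd (nat_lit 1014) (nat_lit 608) (nat_lit 0) (XT.nd (nat_lit 468) (nat_lit 456) (nat_lit 0) (XT.nd (nat_lit 234) (nat_lit 228) (nat_lit 0) (XT.nd (nat_lit 78) (nat_lit 152) (nat_lit 0) (XT.lf (nat_lit 0) (nat_lit 10565018480) (nat_lit 228) (nat_lit 7013614025) (nat_lit 76) (nat_lit 4613203462) (nat_lit 40) (nat_lit 5) (nat_lit 43) (nat_lit 5) (nat_lit 41) (nat_lit 5) (nat_lit 348) (nat_lit 262) (nat_lit 170)) (XT.nd (nat_lit 78) (nat_lit 0) (nat_lit 0) (XT.lf (nat_lit 0) (nat_lit 2310153859) (nat_lit 152) (nat_lit 12582667957) (nat_lit 228) (nat_lit 7794880689) (nat_lit 38) (nat_lit 5) (nat_lit 40) (nat_lit 5) (nat_lit 41) (nat_lit 5) (nat_lit 349) (nat_lit 262) (nat_lit 169)) (XT.lf (nat_lit 0) (nat_lit 12025105841) (nat_lit 152) (nat_lit 7377169157) (nat_lit 228) (nat_lit 3794624474) (nat_lit 38) (nat_lit 5) (nat_lit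 40) (nat_lit 5) (nat_lit 41) (nat_lit 5) (nat_lit 350) (nat_lit 262) (nat_lit 168)))) (XT.nd (nat_lit 78) (nat_lit 152) (nat_lit 0) (XT.lf (nat_lit 0) (nat_lit 300639460) (nat_lit 228) (nat_lit 1724736032) (nat_lit 76) (nat_lit 21696470710) (nat_lit 37) (nat_lit 5) (nat_lit 40) (nat_lit 5) (nat_lit 38) (nat_lit 5) (nat_lit 351) (nat_lit 262) (nat_lit 167)) (XT.nd (nat_lit 78) (nat_lit 0) (nat_lit 0) (XT.lf (nat_lit 0) (nat_lit 4536746914) (nat_lit 228) (nat_lit 16198853911) (nat_lit 76) (nat_lit 3522993928) (nat_lit 35) (nat_lit 5) (nat_lit 38) (nat_lit 5) (nat_lit 36) (nat_lit 5) (nat_lit 352) (nat_lit 262) (nat_lit 166)) (XT.lf (nat_lit 0) (nat_lit 8919589611) (nat_lit 228) (nat_lit 6688977175) (nat_lit 76) (nat_lit 9202297328) (nat_lit 35) (nat_lit 5) (nat_lit 38) (nat_lit 5) (nat_lit 36) (nat_lit 5) (nat_lit 353) (nat_lit 262) (nat_lit 165))))) (XT.nd (nat_lit 234) (nat_lit 304) (nat_lit 0)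 (XT.nd (nat_lit 78) (nat_lit 0) (nat_lit 0) (XT.lf (nat_lit 0) (nat_lit 3137382875) (nat_lit 152) (nat_lit 10309227044) (nat_lit 228) (nat_lit 11932718547) (nat_lit 33) (nat_lit 5) (nat_lit 35) (nat_lit 5) (nat_lit 36) (nat_lit 5) (nat_lit 354) (nat_lit 262) (nat_lit 164)) (XT.nd (nat_lit 78) (nat_lit 0) (nat_lit 0) (XT.lf (nat_lit 0) (nat_lit 13365911030) (nat_lit 152) (nat_lit 4793832089) (nat_lit 228) (nat_lit 7803602019) (nat_lit 33) (nat_lit 5) (nat_lit 35) (nat_lit 5) (nat_lit 36) (nat_lit 5) (nat_lit 355) (nat_lit 262) (nat_lit 163)) (XT.lf (nat_lit 0) (nat_lit 23005939270) (nat_lit 228) (nat_lit 2701380700) (nat_lit 76) (nat_lit 857819512) (nat_lit 33) (nat_lit 5) (nat_lit 36) (nat_lit 5) (nat_lit 34) (nat_lit 4) (nat_lit 356) (nat_lit 262) (nat_lit 162)))) (XT.nd (nat_lit 156) (nat_lit 152) (nat_lit 0) (XT.nd (nat_lit 78) (nat_lit 0) (nat_lit 0) (XT.lf (nat_lit 0) (nat_lit 901498739) (nat_lit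 152) (nat_lit 19627456161) (nat_lit 76) (nat_lit 6652660649) (nat_lit 31) (nat_lit 5) (nat_lit 33) (nat_lit 5) (nat_lit 32) (nat_lit 5) (nat_lit 357) (nat_lit 262) (nat_lit 161)) (XT.lf (nat_lit 0) (nat_lit 5435703869) (nat_lit 152) (nat_lit 9707003254) (nat_lit 76) (nat_lit 12672491564) (nat_lit 31) (nat_lit 5) (nat_lit 33) (nat_lit 5) (nat_lit 32) (nat_lit 5) (nat_lit 358) (nat_lit 262) (nat_lit 160))) (XT.nd (nat_lit 78) (nat_lit 0) (nat_lit 0) (XT.lf (nat_lit 0) (nat_lit 493046131) (nat_lit 152) (nat_lit 9601776905) (nat_lit 228) (nat_lit 18373306081) (nat_lit 29) (nat_lit 5) (nat_lit 31) (nat_lit 5) (nat_lit 32) (nat_lit 5) (nat_lit 359) (nat_lit 262) (nat_lit 159)) (XT.lf (nat_lit 0) (nat_lit 11170713798) (nat_lit 152) (nat_lit 3805370728) (nat_lit 228) (nat_lit 14162098116) (nat_lit 29) (nat_lit 5) (nat_lit 31) (nat_lit 5) (nat_lit 32) (nat_lit 5) (nat_lit 360) (nat_lit 262) (nat_lit 158))))))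 (XT.nd (nat_lit 546) (nat_lit 304) (nat_lit 0) (XT.nd (nat_lit 234) (nat_lit 228) (nat_lit 0) (XT.nd (nat_lit 78) (nat_lit 76) (nat_lit 0) (XT.lf (nat_lit 0) (nat_lit 20009288104) (nat_lit 228) (nat_lit 7707359686) (nat_lit 76) (nat_lit 2111530920) (nat_lit 29) (nat_lit 5) (nat_lit 32) (nat_lit 5) (nat_lit 30) (nat_lit 4) (nat_lit 361) (nat_lit 262) (nat_lit 157)) (XT.nd (nat_lit 78) (nat_lit 0) (nat_lit 0) (XT.lf (nat_lit 0) (nat_lit 2852397724) (nat_lit 76) (nat_lit 22391325445) (nat_lit 152) (nat_lit 5293650318) (nat_lit 28) (nat_lit 5) (nat_lit 29) (nat_lit 5) (nat_lit 30) (nat_lit 4) (nat_lit 362) (nat_lit 262) (nat_lit 156)) (XT.lf (nat_lit 0) (nat_lit 13861058799) (nat_lit 76) (nat_lit 16837285193) (nat_lit 152) (nat_lit 567611250) (nat_lit 28) (nat_lit 5) (nat_lit 29) (nat_lit 5) (nat_lit 30) (nat_lit 4) (nat_lit 363) (nat_lit 262) (nat_lit 155)))) (XT.nd (nat_lit 156) (nat_lit 0) (nat_lit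 0) (XT.nd (nat_lit 78) (nat_lit 152) (nat_lit 0) (XT.lf (nat_lit 0) (nat_lit 4201900859) (nat_lit 152) (nat_lit 6883171392) (nat_lit 76) (nat_lit 20930519366) (nat_lit 27) (nat_lit 5) (nat_lit 29) (nat_lit 5) (nat_lit 28) (nat_lit 5) (nat_lit 364) (nat_lit 262) (nat_lit 154)) (XT.lf (nat_lit 0) (nat_lit 4001998901) (nat_lit 152) (nat_lit 5125584391) (nat_lit 228) (nat_lit 23659235623) (nat_lit 25) (nat_lit 5) (nat_lit 27) (nat_lit 5) (nat_lit 28) (nat_lit 5) (nat_lit 365) (nat_lit 262) (nat_lit 153))) (XT.nd (nat_lit 78) (nat_lit 0) (nat_lit 0) (XT.lf (nat_lit 0) (nat_lit 14267059162) (nat_lit 228) (nat_lit 18259453058) (nat_lit 76) (nat_lit 1052695202) (nat_lit 25) (nat_lit 5) (nat_lit 28) (nat_lit 5) (nat_lit 26) (nat_lit 4) (nat_lit 366) (nat_lit 262) (nat_lit 152)) (XT.lf (nat_lit 0) (nat_lit 19597966373) (nat_lit 228) (nat_lit 7493107462) (nat_lit 76) (nat_lit 7303181267) (nat_lit 25) (nat_lit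 5) (nat_lit 28) (nat_lit 5) (nat_lit 26) (nat_lit 4) (nat_lit 367) (nat_lit 262) (nat_lit 151))))) (XT.nd (nat_lit 234) (nat_lit 228) (nat_lit 0) (XT.nd (nat_lit 78) (nat_lit 0) (nat_lit 0) (XT.lf (nat_lit 0) (nat_lit 3644002117) (nat_lit 76) (nat_lit 21466719007) (nat_lit 152) (nat_lit 10122380267) (nat_lit 24) (nat_lit 5) (nat_lit 25) (nat_lit 5) (nat_lit 26) (nat_lit 4) (nat_lit 368) (nat_lit 262) (nat_lit 150)) (XT.nd (nat_lit 78) (nat_lit 0) (nat_lit 0) (XT.lf (nat_lit 0) (nat_lit 15245721116) (nat_lit 76) (nat_lit 15605854728) (nat_lit 152) (nat_lit 5243660352) (nat_lit 24) (nat_lit 5) (nat_lit 25) (nat_lit 5) (nat_lit 26) (nat_lit 4) (nat_lit 369) (nat_lit 262) (nat_lit 149)) (XT.lf (nat_lit 0) (nat_lit 27173059427) (nat_lit 76) (nat_lit 9579025548) (nat_lit 152) (nat_lit 231531718) (nat_lit 24) (nat_lit 5) (nat_lit 25) (nat_lit 5) (nat_lit 26) (nat_lit 4) (nat_lit 370) (nat_lit 262) (nat_lit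 148)))) (XT.nd (nat_lit 156) (nat_lit 0) (nat_lit 0) (XT.nd (nat_lit 78) (nat_lit 0) (nat_lit 0) (XT.lf (nat_lit 0) (nat_lit 1519798063) (nat_lit 152) (nat_lit 3317220918) (nat_lit 228) (nat_lit 33060143526) (nat_lit 21) (nat_lit 5) (nat_lit 23) (nat_lit 5) (nat_lit 24) (nat_lit 5) (nat_lit 371) (nat_lit 262) (nat_lit 147)) (XT.lf (nat_lit 0) (nat_lit 10170858466) (nat_lit 228) (nat_lit 25499445520) (nat_lit 76) (nat_lit 3164209492) (nat_lit 21) (nat_lit 5) (nat_lit 24) (nat_lit 5) (nat_lit 22) (nat_lit 4) (nat_lit 372) (nat_lit 262) (nat_lit 146))) (XT.nd (nat_lit 78) (nat_lit 0) (nat_lit 0) (XT.lf (nat_lit 0) (nat_lit 15685641037) (nat_lit 228) (nat_lit 14349478953) (nat_lit 76) (nat_lit 9764241161) (nat_lit 21) (nat_lit 5) (nat_lit 24) (nat_lit 5) (nat_lit 22) (nat_lit 4) (nat_lit 373) (nat_lit 262) (nat_lit 145)) (XT.lf (nat_lit 0) (nat_lit 21354298279) (nat_lit 228) (nat_lit 2885834897) (nat_lit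 76) (nat_lit 16553372032) (nat_lit 21) (nat_lit 5) (nat_lit 24) (nat_lit 5) (nat_lit 22) (nat_lit 4) (nat_lit 374) (nat_lit 262) (nat_lit 144))))))) (XT.nd (nat_lit 1092) (nat_lit 304) (nat_lit 0) (XT.nd (nat_lit 546) (nat_lit 228) (nat_lit 0) (XT.nd (nat_lit 234) (nat_lit 228) (nat_lit 0) (XT.nd (nat_lit 78) (nat_lit 0) (nat_lit 0) (XT.lf (nat_lit 0) (nat_lit 9078660794) (nat_lit 76) (nat_lit 18190392237) (nat_lit 152) (nat_lit 14546143204) (nat_lit 20) (nat_lit 5) (nat_lit 21) (nat_lit 5) (nat_lit 22) (nat_lit 4) (nat_lit 375) (nat_lit 262) (nat_lit 143)) (XT.nd (nat_lit 78) (nat_lit 0) (nat_lit 0) (XT.lf (nat_lit 0) (nat_lit 21441231273) (nat_lit 76) (nat_lit 11938063303) (nat_lit 152) (nat_lit 9487705759) (nat_lit 20) (nat_lit 5) (nat_lit 21) (nat_lit 5) (nat_lit 22) (nat_lit 4) (nat_lit 376) (nat_lit 262) (nat_lit 142)) (XT.lf (nat_lit 0) (nat_lit 34155245012) (nat_lit 76) (nat_lit 5506824450)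 (nat_lit 152) (nat_lit 4288615876) (nat_lit 20) (nat_lit 5) (nat_lit 21) (nat_lit 5) (nat_lit 22) (nat_lit 4) (nat_lit 377) (nat_lit 262) (nat_lit 141)))) (XT.nd (nat_lit 156) (nat_lit 0) (nat_lit 0) (XT.nd (nat_lit 78) (nat_lit 0) (nat_lit 0) (XT.lf (nat_lit 0) (nat_lit 1067161088) (nat_lit 228) (nat_lit 42879885967) (nat_lit 76) (nat_lit 1118883915) (nat_lit 17) (nat_lit 5) (nat_lit 20) (nat_lit 5) (nat_lit 18) (nat_lit 4) (nat_lit 378) (nat_lit 262) (nat_lit 140)) (XT.lf (nat_lit 0) (nat_lit 6641309373) (nat_lit 228) (nat_lit 31600988259) (nat_lit 76) (nat_lit 7966748904) (nat_lit 17) (nat_lit 5) (nat_lit 20) (nat_lit 5) (nat_lit 18) (nat_lit 4) (nat_lit 379) (nat_lit 262) (nat_lit 139))) (XT.nd (nat_lit 78) (nat_lit 0) (nat_lit 0) (XT.lf (nat_lit 0) (nat_lit 12372466411) (nat_lit 228) (nat_lit 20002296083) (nat_lit 76) (nat_lit 15012002711) (nat_lit 17) (nat_lit 5) (nat_lit 20) (nat_lit 5)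 (nat_lit 18) (nat_lit 4) (nat_lit 380) (nat_lit 262) (nat_lit 138)) (XT.lf (nat_lit 0) (nat_lit 18265640011) (nat_lit 228) (nat_lit 8073674657) (nat_lit 76) (nat_lit 22260801383) (nat_lit 17) (nat_lit 5) (nat_lit 20) (nat_lit 5) (nat_lit 18) (nat_lit 4) (nat_lit 381) (nat_lit 262) (nat_lit 137))))) (XT.nd (nat_lit 234) (nat_lit 152) (nat_lit 0) (XT.nd (nat_lit 78) (nat_lit 0) (nat_lit 0) (XT.lf (nat_lit 0) (nat_lit 4278793761) (nat_lit 76) (nat_lit 20088316169) (nat_lit 152) (nat_lit 25481815443) (nat_lit 16) (nat_lit 5) (nat_lit 17) (nat_lit 5) (nat_lit 18) (nat_lit 4) (nat_lit 382) (nat_lit 262) (nat_lit 136)) (XT.nd (nat_lit 78) (nat_lit 0) (nat_lit 0) (XT.lf (nat_lit 0) (nat_lit 17150003952) (nat_lit 76) (nat_lit 13573632839) (nat_lit 152) (nat_lit 20409404694) (nat_lit 16) (nat_lit 5) (nat_lit 17) (nat_lit 5) (nat_lit 18) (nat_lit 4) (nat_lit 383) (nat_lit 262) (nat_lit 135)) (XT.lf (nat_lit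 0) (nat_lit 30390520646) (nat_lit 76) (nat_lit 6871100520) (nat_lit 152) (nat_lit 15194339874) (nat_lit 16) (nat_lit 5) (nat_lit 17) (nat_lit 5) (nat_lit 18) (nat_lit 4) (nat_lit 384) (nat_lit 262) (nat_lit 134)))) (XT.nd (nat_lit 156) (nat_lit 76) (nat_lit 0) (XT.nd (nat_lit 78) (nat_lit 76) (nat_lit 0) (XT.lf (nat_lit 0) (nat_lit 43987017496) (nat_lit 152) (nat_lit 9807168397) (nat_lit 0) (nat_lit 24646847) (nat_lit 16) (nat_lit 5) (nat_lit 18) (nat_lit 4) (nat_lit 16) (nat_lit 4) (nat_lit 385) (nat_lit 262) (nat_lit 133)) (XT.lf (nat_lit 0) (nat_lit 2789189385) (nat_lit 76) (nat_lit 48211051662) (nat_lit 76) (nat_lit 4219770234) (nat_lit 15) (nat_lit 4) (nat_lit 16) (nat_lit 5) (nat_lit 16) (nat_lit 4) (nat_lit 386) (nat_lit 262) (nat_lit 132))) (XT.nd (nat_lit 78) (nat_lit 0) (nat_lit 0) (XT.lf (nat_lit 0) (nat_lit 1621433807) (nat_lit 152) (nat_lit 40727839516) (nat_lit 76) (nat_lit 14310766761)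 (nat_lit 14) (nat_lit 5) (nat_lit 16) (nat_lit 5) (nat_lit 15) (nat_lit 4) (nat_lit 387) (nat_lit 262) (nat_lit 131)) (XT.lf (nat_lit 0) (nat_lit 7544553598) (nat_lit 152) (nat_lit 28731157523) (nat_lit 76) (nat_lit 21866562874) (nat_lit 14) (nat_lit 5) (nat_lit 16) (nat_lit 5) (nat_lit 15) (nat_lit 4) (nat_lit 388) (nat_lit 262) (nat_lit 130)))))) (XT.nd (nat_lit 546) (nat_lit 228) (nat_lit 0) (XT.nd (nat_lit 234) (nat_lit 0) (nat_lit 0) (XT.nd (nat_lit 78) (nat_lit 76) (nat_lit 0) (XT.lf (nat_lit 0) (nat_lit 13637107595) (nat_lit 152) (nat_lit 16389730367) (nat_lit 76) (nat_lit 29642387097) (nat_lit 14) (nat_lit 5) (nat_lit 16) (nat_lit 5) (nat_lit 15) (nat_lit 4) (nat_lit 389) (nat_lit 262) (nat_lit 129)) (XT.nd (nat_lit 78) (nat_lit 76) (nat_lit 0) (XT.lf (nat_lit 0) (nat_lit 19904419389) (nat_lit 152) (nat_lit 3692774277) (nat_lit 76) (nat_lit 37645033840) (nat_lit 14) (nat_lit 5) (nat_lit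 16) (nat_lit 5) (nat_lit 15) (nat_lit 4) (nat_lit 390) (nat_lit 262) (nat_lit 128)) (XT.lf (nat_lit 0) (nat_lit 9557302571) (nat_lit 76) (nat_lit 16886533341) (nat_lit 152) (nat_lit 36416063774) (nat_lit 13) (nat_lit 5) (nat_lit 14) (nat_lit 5) (nat_lit 15) (nat_lit 4) (nat_lit 391) (nat_lit 262) (nat_lit 127)))) (XT.nd (nat_lit 156) (nat_lit 0) (nat_lit 0) (XT.nd (nat_lit 78) (nat_lit 0) (nat_lit 0) (XT.lf (nat_lit 0) (nat_lit 23266434708) (nat_lit 76) (nat_lit 9942595518) (nat_lit 152) (nat_lit 31316186099) (nat_lit 13) (nat_lit 5) (nat_lit 14) (nat_lit 5) (nat_lit 15) (nat_lit 4) (nat_lit 392) (nat_lit 262) (nat_lit 126)) (XT.lf (nat_lit 0) (nat_lit 37373107539) (nat_lit 76) (nat_lit 2796602461) (nat_lit 152) (nat_lit 26071008669) (nat_lit 13) (nat_lit 5) (nat_lit 14) (nat_lit 5) (nat_lit 15) (nat_lit 4) (nat_lit 393) (nat_lit 262) (nat_lit 125))) (XT.nd (nat_lit 78) (nat_lit 0) (nat_lit 0)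 (XT.lf (nat_lit 0) (nat_lit 47375768683) (nat_lit 152) (nat_lit 16162069719) (nat_lit 0) (nat_lit 4468752957) (nat_lit 13) (nat_lit 5) (nat_lit 15) (nat_lit 4) (nat_lit 13) (nat_lit 4) (nat_lit 394) (nat_lit 262) (nat_lit 124)) (XT.lf (nat_lit 0) (nat_lit 54818599971) (nat_lit 152) (nat_lit 3116152595) (nat_lit 0) (nat_lit 11890071910) (nat_lit 13) (nat_lit 5) (nat_lit 15) (nat_lit 4) (nat_lit 13) (nat_lit 4) (nat_lit 395) (nat_lit 262) (nat_lit 123))))) (XT.nd (nat_lit 234) (nat_lit 76) (nat_lit 0) (XT.nd (nat_lit 78) (nat_lit 76) (nat_lit 0) (XT.lf (nat_lit 0) (nat_lit 10513580055) (nat_lit 76) (nat_lit 52065307563) (nat_lit 76) (nat_lit 9115893740) (nat_lit 12) (nat_lit 4) (nat_lit 13) (nat_lit 5) (nat_lit 13) (nat_lit 4) (nat_lit 396) (nat_lit 262) (nat_lit 122)) (XT.nd (nat_lit 78) (nat_lit 76) (nat_lit 0) (XT.lf (nat_lit 0) (nat_lit 24603487660) (nat_lit 76) (nat_lit 45993151376) (nat_lit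 76) (nat_lit 3023460115) (nat_lit 12) (nat_lit 4) (nat_lit 13) (nat_lit 5) (nat_lit 13) (nat_lit 4) (nat_lit 397) (nat_lit 262) (nat_lit 121)) (XT.lf (nat_lit 0) (nat_lit 3181612497) (nat_lit 152) (nat_lit 36530704726) (nat_lit 76) (nat_lit 35890123698) (nat_lit 11) (nat_lit 5) (nat_lit 13) (nat_lit 5) (nat_lit 12) (nat_lit 4) (nat_lit 398) (nat_lit 262) (nat_lit 120)))) (XT.nd (nat_lit 156) (nat_lit 76) (nat_lit 0) (XT.nd (nat_lit 78) (nat_lit 0) (nat_lit 0) (XT.lf (nat_lit 0) (nat_lit 9505582583) (nat_lit 152) (nat_lit 23712158882) (nat_lit 76) (nat_lit 44425809706) (nat_lit 11) (nat_lit 5) (nat_lit 13) (nat_lit 5) (nat_lit 12) (nat_lit 4) (nat_lit 399) (nat_lit 262) (nat_lit 119)) (XT.lf (nat_lit 0) (nat_lit 16012974538) (nat_lit 152) (nat_lit 10520709941) (nat_lit 76) (nat_lit 53212400817) (nat_lit 11) (nat_lit 5) (nat_lit 13) (nat_lit 5) (nat_lit 12) (nat_lit 4) (nat_lit 400) (nat_lit 262)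 (nat_lit 118))) (XT.nd (nat_lit 78) (nat_lit 0) (nat_lit 0) (XT.lf (nat_lit 0) (nat_lit 3115972451) (nat_lit 76) (nat_lit 19623454616) (nat_lit 152) (nat_lit 59171554818) (nat_lit 10) (nat_lit 5) (nat_lit 11) (nat_lit 5) (nat_lit 12) (nat_lit 4) (nat_lit 401) (nat_lit 262) (nat_lit 117)) (XT.lf (nat_lit 0) (nat_lit 17366216613) (nat_lit 76) (nat_lit 12401651665) (nat_lit 152) (nat_lit 54369952797) (nat_lit 10) (nat_lit 5) (nat_lit 11) (nat_lit 5) (nat_lit 12) (nat_lit 4) (nat_lit 402) (nat_lit 262) (nat_lit 116))))))))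
noncomputable def xc111 : XT := (XT.nd (nat_lit 31278) (nat_lit 0) (nat_lit 7524) (XT.nd (nat_lit 30186) (nat_lit 0) (nat_lit 18012) (XT.nd (nat_lit 546) (nat_lit 0) (nat_lit 0) (XT.nd (nat_lit 234) (nat_lit 76) (nat_lit 0) (XT.nd (nat_lit 78) (nat_lit 0) (nat_lit 0) (XT.lf (nat_lit 0) (nat_lit 32033091457) (nat_lit 76) (nat_lit 4968203855) (nat_lit 152) (nat_lit 49430347663) (nat_lit 10) (nat_lit 5) (nat_lit 11) (nat_lit 5) (nat_lit 12) (nat_lit 4) (nat_lit 403) (nat_lit 262) (nat_lit 115)) (XT.nd (nat_lit 78) (nat_lit 0) (nat_lit 0) (XT.lf (nat_lit 0) (nat_lit 44471822970) (nat_lit 152) (nat_lit 41690833526) (nat_lit 0) (nat_lit 2631021570) (nat_lit 10) (nat_lit 5) (nat_lit 12) (nat_lit 4) (nat_lit 10) (nat_lit 4) (nat_lit 404) (nat_lit 262) (nat_lit 114)) (XT.lf (nat_lit 0) (nat_lit 52210080607) (nat_lit 152) (nat_lit 28661448364) (nat_lit 0) (nat_lit 10353738238) (nat_lit 10) (nat_lit 5) (nat_lit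 12) (nat_lit 4) (nat_lit 10) (nat_lit 4) (nat_lit 405) (nat_lit 262) (nat_lit 113)))) (XT.nd (nat_lit 156) (nat_lit 76) (nat_lit 0) (XT.nd (nat_lit 78) (nat_lit 0) (nat_lit 0) (XT.lf (nat_lit 0) (nat_lit 60175072392) (nat_lit 152) (nat_lit 15251253720) (nat_lit 0) (nat_lit 18303641705) (nat_lit 10) (nat_lit 5) (nat_lit 12) (nat_lit 4) (nat_lit 10) (nat_lit 4) (nat_lit 406) (nat_lit 262) (nat_lit 112)) (XT.lf (nat_lit 0) (nat_lit 68373758029) (nat_lit 152) (nat_lit 1448531947) (nat_lit 0) (nat_lit 26487678488) (nat_lit 10) (nat_lit 5) (nat_lit 12) (nat_lit 4) (nat_lit 10) (nat_lit 4) (nat_lit 407) (nat_lit 262) (nat_lit 111))) (XT.nd (nat_lit 78) (nat_lit 0) (nat_lit 0) (XT.lf (nat_lit 0) (nat_lit 13012702276) (nat_lit 76) (nat_lit 63925685194) (nat_lit 76) (nat_lit 22025383466) (nat_lit 9) (nat_lit 4) (nat_lit 10) (nat_lit 5) (nat_lit 10) (nat_lit 4) (nat_lit 408) (nat_lit 262) (nat_lit 110)) (XT.lf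 (nat_lit 0) (nat_lit 27928066195) (nat_lit 76) (nat_lit 57841472374) (nat_lit 76) (nat_lit 15927362696) (nat_lit 9) (nat_lit 4) (nat_lit 10) (nat_lit 5) (nat_lit 10) (nat_lit 4) (nat_lit 409) (nat_lit 262) (nat_lit 109))))) (XT.nd (nat_lit 29328) (nat_lit 0) (nat_lit 22572) (XT.nd (nat_lit 29172) (nat_lit 0) (nat_lit 22876) (XT.lf (nat_lit 0) (nat_lit 43281764025) (nat_lit 76) (nat_lit 51578962545) (nat_lit 76) (nat_lit 9651447092) (nat_lit 9) (nat_lit 4) (nat_lit 10) (nat_lit 5) (nat_lit 10) (nat_lit 4) (nat_lit 410) (nat_lit 262) (nat_lit 108)) (XT.nd (nat_lit 78) (nat_lit 380) (nat_lit 0) (XT.lf (nat_lit 0) (nat_lit 985247912) (nat_lit 0) (nat_lit 985247912) (nat_lit 228) (nat_lit 1270168270) (nat_lit 315) (nat_lit 5) (nat_lit 315) (nat_lit 3) (nat_lit 318) (nat_lit 3) (nat_lit 263) (nat_lit 263) (nat_lit 254)) (XT.lf (nat_lit 0) (nat_lit 72162250) (nat_lit 380) (nat_lit 1475576794) (nat_lit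 380) (nat_lit 4948460148) (nat_lit 310) (nat_lit 3) (nat_lit 315) (nat_lit 3) (nat_lit 315) (nat_lit 5) (nat_lit 264) (nat_lit 263) (nat_lit 253)))) (XT.nd (nat_lit 156) (nat_lit 304) (nat_lit 0) (XT.nd (nat_lit 78) (nat_lit 0) (nat_lit 0) (XT.lf (nat_lit 76) (nat_lit 1604532363) (nat_lit 0) (nat_lit 1021387125) (nat_lit 380) (nat_lit 3887622436) (nat_lit 311) (nat_lit 5) (nat_lit 310) (nat_lit 3) (nat_lit 315) (nat_lit 5) (nat_lit 265) (nat_lit 263) (nat_lit 252)) (XT.lf (nat_lit 76) (nat_lit 4755443588) (nat_lit 0) (nat_lit 416721655) (nat_lit 380) (nat_lit 1361956049) (nat_lit 311) (nat_lit 5) (nat_lit 310) (nat_lit 3) (nat_lit 315) (nat_lit 5) (nat_lit 266) (nat_lit 263) (nat_lit 251))) (XT.nd (nat_lit 78) (nat_lit 0) (nat_lit 0) (XT.lf (nat_lit 0) (nat_lit 1134222908) (nat_lit 380) (nat_lit 5151636628) (nat_lit 456) (nat_lit 271714757) (nat_lit 306) (nat_lit 5) (nat_lit 311) (nat_lit 5) (nat_lit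 312) (nat_lit 5) (nat_lit 267) (nat_lit 263) (nat_lit 250)) (XT.lf (nat_lit 0) (nat_lit 3605649849) (nat_lit 380) (nat_lit 1931807964) (nat_lit 456) (nat_lit 1046212715) (nat_lit 306) (nat_lit 5) (nat_lit 311) (nat_lit 5) (nat_lit 312) (nat_lit 5) (nat_lit 268) (nat_lit 263) (nat_lit 249)))))) (XT.nd (nat_lit 546) (nat_lit 3040) (nat_lit 0) (XT.nd (nat_lit 234) (nat_lit 1064) (nat_lit 0) (XT.nd (nat_lit 78) (nat_lit 456) (nat_lit 0) (XT.lf (nat_lit 76) (nat_lit 1357335011) (nat_lit 0) (nat_lit 4715157010) (nat_lit 456) (nat_lit 540590602) (nat_lit 307) (nat_lit 5) (nat_lit 306) (nat_lit 5) (nat_lit 312) (nat_lit 5) (nat_lit 269) (nat_lit 263) (nat_lit 248)) (XT.nd (nat_lit 78) (nat_lit 0) (nat_lit 0) (XT.lf (nat_lit 0) (nat_lit 1860557921) (nat_lit 456) (nat_lit 1932374670) (nat_lit 532) (nat_lit 2852166622) (nat_lit 300) (nat_lit 5) (nat_lit 306) (nat_lit 5) (nat_lit 307) (nat_lit 5) (nat_lit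 270) (nat_lit 263) (nat_lit 247)) (XT.lf (nat_lit 76) (nat_lit 1460243998) (nat_lit 0) (nat_lit 2788645014) (nat_lit 532) (nat_lit 2431402938) (nat_lit 301) (nat_lit 5) (nat_lit 300) (nat_lit 5) (nat_lit 307) (nat_lit 5) (nat_lit 271) (nat_lit 263) (nat_lit 246)))) (XT.nd (nat_lit 156) (nat_lit 532) (nat_lit 0) (XT.nd (nat_lit 78) (nat_lit 532) (nat_lit 0) (XT.lf (nat_lit 76) (nat_lit 4941180781) (nat_lit 0) (nat_lit 1701232762) (nat_lit 532) (nat_lit 76272682) (nat_lit 301) (nat_lit 5) (nat_lit 300) (nat_lit 5) (nat_lit 307) (nat_lit 5) (nat_lit 272) (nat_lit 263) (nat_lit 245)) (XT.lf (nat_lit 76) (nat_lit 1726059808) (nat_lit 0) (nat_lit 509759322) (nat_lit 608) (nat_lit 4523914332) (nat_lit 294) (nat_lit 5) (nat_lit 293) (nat_lit 5) (nat_lit 301) (nat_lit 5) (nat_lit 273) (nat_lit 263) (nat_lit 244))) (XT.nd (nat_lit 78) (nat_lit 608) (nat_lit 0) (XT.lf (nat_lit 0) (nat_lit 4558564125) (nat_lit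 532) (nat_lit 1493860040) (nat_lit 76) (nat_lit 751419752) (nat_lit 294) (nat_lit 5) (nat_lit 301) (nat_lit 5) (nat_lit 295) (nat_lit 5) (nat_lit 274) (nat_lit 263) (nat_lit 243)) (XT.lf (nat_lit 0) (nat_lit 44820131) (nat_lit 608) (nat_lit 4716826674) (nat_lit 76) (nat_lit 2089379984) (nat_lit 286) (nat_lit 5) (nat_lit 294) (nat_lit 5) (nat_lit 287) (nat_lit 5) (nat_lit 275) (nat_lit 263) (nat_lit 242))))) (XT.nd (nat_lit 234) (nat_lit 2432) (nat_lit 0) (XT.nd (nat_lit 78) (nat_lit 608) (nat_lit 0) (XT.lf (nat_lit 0) (nat_lit 2294832119) (nat_lit 608) (nat_lit 1075097760) (nat_lit 76) (nat_lit 3531065593) (nat_lit 286) (nat_lit 5) (nat_lit 294) (nat_lit 5) (nat_lit 287) (nat_lit 5) (nat_lit 276) (nat_lit 263) (nat_lit 241)) (XT.nd (nat_lit 78) (nat_lit 0) (nat_lit 0) (XT.lf (nat_lit 0) (nat_lit 2674410145) (nat_lit 608) (nat_lit 1887042926) (nat_lit 684) (nat_lit 2392660529) (nat_lit 278) (nat_lit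 5) (nat_lit 286) (nat_lit 5) (nat_lit 287) (nat_lit 5) (nat_lit 277) (nat_lit 263) (nat_lit 240)) (XT.lf (nat_lit 0) (nat_lit 6505307570) (nat_lit 608) (nat_lit 326742293) (nat_lit 684) (nat_lit 178816131) (nat_lit 278) (nat_lit 5) (nat_lit 286) (nat_lit 5) (nat_lit 287) (nat_lit 5) (nat_lit 278) (nat_lit 263) (nat_lit 239)))) (XT.nd (nat_lit 156) (nat_lit 912) (nat_lit 0) (XT.nd (nat_lit 78) (nat_lit 760) (nat_lit 0) (XT.lf (nat_lit 0) (nat_lit 2032364973) (nat_lit 760) (nat_lit 3708793588) (nat_lit 76) (nat_lit 1328511693) (nat_lit 268) (nat_lit 5) (nat_lit 278) (nat_lit 5) (nat_lit 269) (nat_lit 5) (nat_lit 279) (nat_lit 263) (nat_lit 238)) (XT.lf (nat_lit 0) (nat_lit 166685547) (nat_lit 760) (nat_lit 4077883490) (nat_lit 836) (nat_lit 2887577899) (nat_lit 258) (nat_lit 5) (nat_lit 268) (nat_lit 5) (nat_lit 269) (nat_lit 5) (nat_lit 280) (nat_lit 263) (nat_lit 237))) (XT.nd (nat_lit 78) (nat_lit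 912) (nat_lit 0) (XT.lf (nat_lit 0) (nat_lit 4179902038) (nat_lit 760) (nat_lit 2310541513) (nat_lit 836) (nat_lit 707141891) (nat_lit 258) (nat_lit 5) (nat_lit 268) (nat_lit 5) (nat_lit 269) (nat_lit 5) (nat_lit 281) (nat_lit 263) (nat_lit 236)) (XT.lf (nat_lit 0) (nat_lit 998790845) (nat_lit 836) (nat_lit 450611702) (nat_lit 912) (nat_lit 5817019724) (nat_lit 246) (nat_lit 5) (nat_lit 257) (nat_lit 5) (nat_lit 258) (nat_lit 5) (nat_lit 282) (nat_lit 263) (nat_lit 235))))))) (XT.nd (nat_lit 1092) (nat_lit 3724) (nat_lit 0) (XT.nd (nat_lit 546) (nat_lit 2508) (nat_lit 0) (XT.nd (nat_lit 234) (nat_lit 3268) (nat_lit 0) (XT.nd (nat_lit 78) (nat_lit 988) (nat_lit 0) (XT.lf (nat_lit 0) (nat_lit 3634026275) (nat_lit 912) (nat_lit 2216329285) (nat_lit 76) (nat_lit 1487528332) (nat_lit 246) (nat_lit 5) (nat_lit 258) (nat_lit 5) (nat_lit 247) (nat_lit 5) (nat_lit 283) (nat_lit 263) (nat_lit 234)) (XT.nd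 (nat_lit 78) (nat_lit 76) (nat_lit 0) (XT.lf (nat_lit 0) (nat_lit 1935299124) (nat_lit 912) (nat_lit 3906651282) (nat_lit 988) (nat_lit 1570900866) (nat_lit 234) (nat_lit 5) (nat_lit 246) (nat_lit 5) (nat_lit 247) (nat_lit 5) (nat_lit 284) (nat_lit 263) (nat_lit 233)) (XT.lf (nat_lit 0) (nat_lit 571787338) (nat_lit 988) (nat_lit 1294084127) (nat_lit 76) (nat_lit 5625366217) (nat_lit 233) (nat_lit 5) (nat_lit 246) (nat_lit 5) (nat_lit 234) (nat_lit 5) (nat_lit 285) (nat_lit 263) (nat_lit 232)))) (XT.nd (nat_lit 156) (nat_lit 2280) (nat_lit 0) (XT.nd (nat_lit 78) (nat_lit 0) (nat_lit 0) (XT.lf (nat_lit 0) (nat_lit 2716097159) (nat_lit 1064) (nat_lit 4571196186) (nat_lit 76) (nat_lit 285235018) (nat_lit 220) (nat_lit 5) (nat_lit 234) (nat_lit 5) (nat_lit 221) (nat_lit 5) (nat_lit 286) (nat_lit 263) (nat_lit 231)) (XT.lf (nat_lit 0) (nat_lit 4895042591) (nat_lit 1064) (nat_lit 277555305) (nat_lit 76)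 (nat_lit 2484634873) (nat_lit 220) (nat_lit 5) (nat_lit 234) (nat_lit 5) (nat_lit 221) (nat_lit 5) (nat_lit 287) (nat_lit 263) (nat_lit 230))) (XT.nd (nat_lit 78) (nat_lit 1216) (nat_lit 0) (XT.lf (nat_lit 0) (nat_lit 4172703113) (nat_lit 1064) (nat_lit 2947186417) (nat_lit 1140) (nat_lit 625254524) (nat_lit 206) (nat_lit 5) (nat_lit 220) (nat_lit 5) (nat_lit 221) (nat_lit 5) (nat_lit 288) (nat_lit 263) (nat_lit 229)) (XT.lf (nat_lit 0) (nat_lit 874089808) (nat_lit 1140) (nat_lit 623174804) (nat_lit 1216) (nat_lit 6339483948) (nat_lit 190) (nat_lit 5) (nat_lit 205) (nat_lit 5) (nat_lit 206) (nat_lit 5) (nat_lit 289) (nat_lit 263) (nat_lit 228))))) (XT.nd (nat_lit 234) (nat_lit 1824) (nat_lit 0) (XT.nd (nat_lit 78) (nat_lit 684) (nat_lit 0) (XT.lf (nat_lit 0) (nat_lit 3666575627) (nat_lit 1216) (nat_lit 2481995035) (nat_lit 76) (nat_lit 1782549126) (nat_lit 190) (nat_lit 5) (nat_lit 206) (nat_lit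 5) (nat_lit 191) (nat_lit 5) (nat_lit 290) (nat_lit 263) (nat_lit 227)) (XT.nd (nat_lit 78) (nat_lit 0) (nat_lit 0) (XT.lf (nat_lit 0) (nat_lit 2114137449) (nat_lit 684) (nat_lit 3757235318) (nat_lit 760) (nat_lit 2157909807) (nat_lit 181) (nat_lit 5) (nat_lit 190) (nat_lit 5) (nat_lit 191) (nat_lit 5) (nat_lit 291) (nat_lit 263) (nat_lit 226)) (XT.lf (nat_lit 0) (nat_lit 6845526602) (nat_lit 684) (nat_lit 1266884102) (nat_lit 760) (nat_lit 18947145) (nat_lit 181) (nat_lit 5) (nat_lit 190) (nat_lit 5) (nat_lit 191) (nat_lit 5) (nat_lit 292) (nat_lit 263) (nat_lit 225)))) (XT.nd (nat_lit 156) (nat_lit 1140) (nat_lit 0) (XT.nd (nat_lit 78) (nat_lit 0) (nat_lit 0) (XT.lf (nat_lit 0) (nat_lit 2134042643) (nat_lit 684) (nat_lit 4773464340) (nat_lit 76) (nat_lit 1328650604) (nat_lit 172) (nat_lit 5) (nat_lit 181) (nat_lit 5) (nat_lit 173) (nat_lit 5) (nat_lit 293) (nat_lit 263) (nat_lit 224)) (XT.lf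 (nat_lit 0) (nat_lit 4324006231) (nat_lit 684) (nat_lit 30761373) (nat_lit 76) (nat_lit 3990209664) (nat_lit 172) (nat_lit 5) (nat_lit 181) (nat_lit 5) (nat_lit 173) (nat_lit 5) (nat_lit 294) (nat_lit 263) (nat_lit 223))) (XT.nd (nat_lit 78) (nat_lit 608) (nat_lit 0) (XT.lf (nat_lit 0) (nat_lit 4897141032) (nat_lit 532) (nat_lit 1678251120) (nat_lit 608) (nat_lit 1881860332) (nat_lit 165) (nat_lit 5) (nat_lit 172) (nat_lit 5) (nat_lit 173) (nat_lit 5) (nat_lit 295) (nat_lit 263) (nat_lit 222)) (XT.lf (nat_lit 0) (nat_lit 288240501) (nat_lit 608) (nat_lit 7213407215) (nat_lit 76) (nat_lit 1072021934) (nat_lit 157) (nat_lit 5) (nat_lit 165) (nat_lit 5) (nat_lit 158) (nat_lit 5) (nat_lit 296) (nat_lit 263) (nat_lit 221)))))) (XT.nd (nat_lit 546) (nat_lit 1748) (nat_lit 0) (XT.nd (nat_lit 234) (nat_lit 1520) (nat_lit 0) (XT.nd (nat_lit 78) (nat_lit 456) (nat_lit 0) (XT.lf (nat_lit 0) (nat_lit 2488579001)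 (nat_lit 608) (nat_lit 2281085398) (nat_lit 76) (nat_lit 3923324549) (nat_lit 157) (nat_lit 5) (nat_lit 165) (nat_lit 5) (nat_lit 158) (nat_lit 5) (nat_lit 297) (nat_lit 263) (nat_lit 220)) (XT.nd (nat_lit 78) (nat_lit 0) (nat_lit 0) (XT.lf (nat_lit 0) (nat_lit 2801240859) (nat_lit 456) (nat_lit 1932105040) (nat_lit 532) (nat_lit 4083245040) (nat_lit 151) (nat_lit 5) (nat_lit 157) (nat_lit 5) (nat_lit 158) (nat_lit 5) (nat_lit 298) (nat_lit 263) (nat_lit 219)) (XT.lf (nat_lit 0) (nat_lit 7030599993) (nat_lit 532) (nat_lit 923713285) (nat_lit 76) (nat_lit 990087426) (nat_lit 151) (nat_lit 5) (nat_lit 158) (nat_lit 5) (nat_lit 152) (nat_lit 5) (nat_lit 299) (nat_lit 263) (nat_lit 218)))) (XT.nd (nat_lit 156) (nat_lit 456) (nat_lit 0) (XT.nd (nat_lit 78) (nat_lit 456) (nat_lit 0) (XT.lf (nat_lit 0) (nat_lit 329100098) (nat_lit 608) (nat_lit 4744760640) (nat_lit 76) (nat_lit 4001703522) (nat_lit 143)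 (nat_lit 5) (nat_lit 151) (nat_lit 5) (nat_lit 144) (nat_lit 5) (nat_lit 300) (nat_lit 263) (nat_lit 217)) (XT.lf (nat_lit 0) (nat_lit 489577253) (nat_lit 456) (nat_lit 2079471342) (nat_lit 532) (nat_lit 6642048342) (nat_lit 137) (nat_lit 5) (nat_lit 143) (nat_lit 5) (nat_lit 144) (nat_lit 5) (nat_lit 301) (nat_lit 263) (nat_lit 216))) (XT.nd (nat_lit 78) (nat_lit 456) (nat_lit 0) (XT.lf (nat_lit 0) (nat_lit 4889112683) (nat_lit 532) (nat_lit 3434446001) (nat_lit 76) (nat_lit 1026797409) (nat_lit 137) (nat_lit 5) (nat_lit 144) (nat_lit 5) (nat_lit 138) (nat_lit 5) (nat_lit 302) (nat_lit 263) (nat_lit 215)) (XT.lf (nat_lit 0) (nat_lit 1977527753) (nat_lit 456) (nat_lit 5297035092) (nat_lit 532) (nat_lit 2219403271) (nat_lit 131) (nat_lit 5) (nat_lit 137) (nat_lit 5) (nat_lit 138) (nat_lit 5) (nat_lit 303) (nat_lit 263) (nat_lit 214))))) (XT.nd (nat_lit 234) (nat_lit 1292) (nat_lit 0) (XT.nd (nat_lit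 78) (nat_lit 380) (nat_lit 0) (XT.lf (nat_lit 0) (nat_lit 79466029) (nat_lit 532) (nat_lit 2071900766) (nat_lit 76) (nat_lit 7490789993) (nat_lit 130) (nat_lit 5) (nat_lit 137) (nat_lit 5) (nat_lit 131) (nat_lit 5) (nat_lit 304) (nat_lit 263) (nat_lit 213)) (XT.nd (nat_lit 78) (nat_lit 0) (nat_lit 0) (XT.lf (nat_lit 0) (nat_lit 2405353484) (nat_lit 456) (nat_lit 6273032949) (nat_lit 76) (nat_lit 1115710384) (nat_lit 125) (nat_lit 5) (nat_lit 131) (nat_lit 5) (nat_lit 126) (nat_lit 5) (nat_lit 305) (nat_lit 263) (nat_lit 212)) (XT.lf (nat_lit 0) (nat_lit 4801879812) (nat_lit 456) (nat_lit 698489713) (nat_lit 76) (nat_lit 4450241071) (nat_lit 125) (nat_lit 5) (nat_lit 131) (nat_lit 5) (nat_lit 126) (nat_lit 5) (nat_lit 306) (nat_lit 263) (nat_lit 211)))) (XT.nd (nat_lit 156) (nat_lit 456) (nat_lit 0) (XT.nd (nat_lit 78) (nat_lit 380) (nat_lit 0) (XT.lf (nat_lit 0) (nat_lit 5092860259) (nat_lit 456)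 (nat_lit 2186040372) (nat_lit 532) (nat_lit 2832701407) (nat_lit 119) (nat_lit 5) (nat_lit 125) (nat_lit 5) (nat_lit 126) (nat_lit 5) (nat_lit 307) (nat_lit 263) (nat_lit 210)) (XT.lf (nat_lit 0) (nat_lit 747311710) (nat_lit 380) (nat_lit 9069280217) (nat_lit 456) (nat_lit 461279540) (nat_lit 114) (nat_lit 5) (nat_lit 119) (nat_lit 5) (nat_lit 120) (nat_lit 5) (nat_lit 308) (nat_lit 263) (nat_lit 209))) (XT.nd (nat_lit 78) (nat_lit 380) (nat_lit 0) (XT.lf (nat_lit 0) (nat_lit 1975953059) (nat_lit 456) (nat_lit 3750358798) (nat_lit 76) (nat_lit 4721282660) (nat_lit 113) (nat_lit 5) (nat_lit 119) (nat_lit 5) (nat_lit 114) (nat_lit 5) (nat_lit 309) (nat_lit 263) (nat_lit 208)) (XT.lf (nat_lit 0) (nat_lit 2192151796) (nat_lit 380) (nat_lit 2267607117) (nat_lit 456) (nat_lit 6163067232) (nat_lit 108) (nat_lit 5) (nat_lit 113) (nat_lit 5) (nat_lit 114) (nat_lit 5) (nat_lit 310) (nat_lit 263) (nat_lit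 207))))))))
noncomputable def xc112 : XT := (XT.nd (nat_lit 2106) (nat_lit 1976) (nat_lit 0) (XT.nd (nat_lit 1014) (nat_lit 1824) (nat_lit 0) (XT.nd (nat_lit 468) (nat_lit 1292) (nat_lit 0) (XT.nd (nat_lit 234) (nat_lit 684) (nat_lit 0) (XT.nd (nat_lit 78) (nat_lit 380) (nat_lit 0) (XT.lf (nat_lit 0) (nat_lit 7030967966) (nat_lit 456) (nat_lit 2475065448) (nat_lit 76) (nat_lit 1296929324) (nat_lit 108) (nat_lit 5) (nat_lit 114) (nat_lit 5) (nat_lit 109) (nat_lit 5) (nat_lit 311) (nat_lit 263) (nat_lit 206)) (XT.nd (nat_lit 78) (nat_lit 76) (nat_lit 0) (XT.lf (nat_lit 0) (nat_lit 3659746541) (nat_lit 304) (nat_lit 6040494934) (nat_lit 380) (nat_lit 1287667785) (nat_lit 104) (nat_lit 5) (nat_lit 108) (nat_lit 5) (nat_lit 109) (nat_lit 5) (nat_lit 312) (nat_lit 263) (nat_lit 205)) (XT.lf (nat_lit 0) (nat_lit 1235139837) (nat_lit 380) (nat_lit 1209493504) (nat_lit 76) (nat_lit 8733773307) (nat_lit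 103) (nat_lit 5) (nat_lit 108) (nat_lit 5) (nat_lit 104) (nat_lit 5) (nat_lit 313) (nat_lit 263) (nat_lit 204)))) (XT.nd (nat_lit 78) (nat_lit 304) (nat_lit 0) (XT.lf (nat_lit 0) (nat_lit 3834273081) (nat_lit 456) (nat_lit 6253599331) (nat_lit 76) (nat_lit 1285599221) (nat_lit 98) (nat_lit 5) (nat_lit 104) (nat_lit 5) (nat_lit 99) (nat_lit 5) (nat_lit 314) (nat_lit 263) (nat_lit 203)) (XT.nd (nat_lit 78) (nat_lit 0) (nat_lit 0) (XT.lf (nat_lit 0) (nat_lit 18129940) (nat_lit 304) (nat_lit 6495007885) (nat_lit 380) (nat_lit 5061227937) (nat_lit 94) (nat_lit 5) (nat_lit 98) (nat_lit 5) (nat_lit 99) (nat_lit 5) (nat_lit 315) (nat_lit 263) (nat_lit 202)) (XT.lf (nat_lit 0) (nat_lit 6558883291) (nat_lit 304) (nat_lit 2742242061) (nat_lit 380) (nat_lit 2479327710) (nat_lit 94) (nat_lit 5) (nat_lit 98) (nat_lit 5) (nat_lit 99) (nat_lit 5) (nat_lit 316) (nat_lit 263) (nat_lit 201))))) (XT.nd (nat_lit 234)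 (nat_lit 608) (nat_lit 0) (XT.nd (nat_lit 78) (nat_lit 304) (nat_lit 0) (XT.lf (nat_lit 0) (nat_lit 165880314) (nat_lit 380) (nat_lit 10724416108) (nat_lit 76) (nat_lit 1102721107) (nat_lit 89) (nat_lit 5) (nat_lit 94) (nat_lit 5) (nat_lit 90) (nat_lit 5) (nat_lit 317) (nat_lit 263) (nat_lit 200)) (XT.nd (nat_lit 78) (nat_lit 304) (nat_lit 0) (XT.lf (nat_lit 0) (nat_lit 2887678652) (nat_lit 380) (nat_lit 4249165190) (nat_lit 76) (nat_lit 5072993257) (nat_lit 89) (nat_lit 5) (nat_lit 94) (nat_lit 5) (nat_lit 90) (nat_lit 5) (nat_lit 318) (nat_lit 263) (nat_lit 199)) (XT.lf (nat_lit 0) (nat_lit 2421892289) (nat_lit 304) (nat_lit 3260155789) (nat_lit 380) (nat_lit 6751411474) (nat_lit 85) (nat_lit 5) (nat_lit 89) (nat_lit 5) (nat_lit 90) (nat_lit 5) (nat_lit 319) (nat_lit 263) (nat_lit 198)))) (XT.nd (nat_lit 156) (nat_lit 304) (nat_lit 0) (XT.nd (nat_lit 78) (nat_lit 304) (nat_lit 0) (XT.lf (nat_lit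 0) (nat_lit 8578641187) (nat_lit 380) (nat_lit 3335902020) (nat_lit 76) (nat_lit 748720751) (nat_lit 85) (nat_lit 5) (nat_lit 90) (nat_lit 5) (nat_lit 86) (nat_lit 5) (nat_lit 320) (nat_lit 263) (nat_lit 197)) (XT.lf (nat_lit 0) (nat_lit 3531903174) (nat_lit 304) (nat_lit 8065405190) (nat_lit 380) (nat_lit 1301623173) (nat_lit 81) (nat_lit 5) (nat_lit 85) (nat_lit 5) (nat_lit 86) (nat_lit 5) (nat_lit 321) (nat_lit 263) (nat_lit 196))) (XT.nd (nat_lit 78) (nat_lit 228) (nat_lit 0) (XT.lf (nat_lit 0) (nat_lit 1537448950) (nat_lit 380) (nat_lit 2526879667) (nat_lit 76) (nat_lit 9076818622) (nat_lit 80) (nat_lit 5) (nat_lit 85) (nat_lit 5) (nat_lit 81) (nat_lit 5) (nat_lit 322) (nat_lit 263) (nat_lit 195)) (XT.lf (nat_lit 0) (nat_lit 4450250630) (nat_lit 304) (nat_lit 8840101320) (nat_lit 76) (nat_lit 99471545) (nat_lit 77) (nat_lit 5) (nat_lit 81) (nat_lit 5) (nat_lit 78) (nat_lit 5) (nat_lit 323)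 (nat_lit 263) (nat_lit 194)))))) (XT.nd (nat_lit 546) (nat_lit 988) (nat_lit 0) (XT.nd (nat_lit 234) (nat_lit 532) (nat_lit 0) (XT.nd (nat_lit 78) (nat_lit 304) (nat_lit 0) (XT.lf (nat_lit 0) (nat_lit 7486772194) (nat_lit 304) (nat_lit 1839276239) (nat_lit 76) (nat_lit 4318843145) (nat_lit 77) (nat_lit 5) (nat_lit 81) (nat_lit 5) (nat_lit 78) (nat_lit 5) (nat_lit 324) (nat_lit 263) (nat_lit 193)) (XT.nd (nat_lit 78) (nat_lit 0) (nat_lit 0) (XT.lf (nat_lit 0) (nat_lit 5434901090) (nat_lit 304) (nat_lit 5202921993) (nat_lit 380) (nat_lit 3269106597) (nat_lit 73) (nat_lit 5) (nat_lit 77) (nat_lit 5) (nat_lit 78) (nat_lit 5) (nat_lit 325) (nat_lit 263) (nat_lit 192)) (XT.lf (nat_lit 0) (nat_lit 12922698992) (nat_lit 304) (nat_lit 950902108) (nat_lit 380) (nat_lit 303542331) (nat_lit 73) (nat_lit 5) (nat_lit 77) (nat_lit 5) (nat_lit 78) (nat_lit 5) (nat_lit 326) (nat_lit 263) (nat_lit 191)))) (XT.nd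 (nat_lit 156) (nat_lit 228) (nat_lit 0) (XT.nd (nat_lit 78) (nat_lit 0) (nat_lit 0) (XT.lf (nat_lit 0) (nat_lit 2763062327) (nat_lit 304) (nat_lit 8254201974) (nat_lit 76) (nat_lit 3435452518) (nat_lit 69) (nat_lit 5) (nat_lit 73) (nat_lit 5) (nat_lit 70) (nat_lit 5) (nat_lit 327) (nat_lit 263) (nat_lit 190)) (XT.lf (nat_lit 0) (nat_lit 5910210577) (nat_lit 304) (nat_lit 889894835) (nat_lit 76) (nat_lit 7936541092) (nat_lit 69) (nat_lit 5) (nat_lit 73) (nat_lit 5) (nat_lit 70) (nat_lit 5) (nat_lit 328) (nat_lit 263) (nat_lit 189))) (XT.nd (nat_lit 78) (nat_lit 0) (nat_lit 0) (XT.lf (nat_lit 0) (nat_lit 6787053636) (nat_lit 228) (nat_lit 2403202338) (nat_lit 304) (nat_lit 5837701726) (nat_lit 66) (nat_lit 5) (nat_lit 69) (nat_lit 5) (nat_lit 70) (nat_lit 5) (nat_lit 329) (nat_lit 263) (nat_lit 188)) (XT.lf (nat_lit 0) (nat_lit 12571709437) (nat_lit 304) (nat_lit 676710557) (nat_lit 76) (nat_lit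 2079515611) (nat_lit 66) (nat_lit 5) (nat_lit 70) (nat_lit 5) (nat_lit 67) (nat_lit 5) (nat_lit 330) (nat_lit 263) (nat_lit 187))))) (XT.nd (nat_lit 234) (nat_lit 456) (nat_lit 0) (XT.nd (nat_lit 78) (nat_lit 228) (nat_lit 0) (XT.lf (nat_lit 0) (nat_lit 477381873) (nat_lit 304) (nat_lit 8448463448) (nat_lit 76) (nat_lit 6708928473) (nat_lit 62) (nat_lit 5) (nat_lit 66) (nat_lit 5) (nat_lit 63) (nat_lit 5) (nat_lit 331) (nat_lit 263) (nat_lit 186)) (XT.nd (nat_lit 78) (nat_lit 228) (nat_lit 0) (XT.lf (nat_lit 0) (nat_lit 3733875783) (nat_lit 304) (nat_lit 718819755) (nat_lit 76) (nat_lit 11497880742) (nat_lit 62) (nat_lit 5) (nat_lit 66) (nat_lit 5) (nat_lit 63) (nat_lit 5) (nat_lit 332) (nat_lit 263) (nat_lit 185)) (XT.lf (nat_lit 0) (nat_lit 7135863849) (nat_lit 304) (nat_lit 8929243596) (nat_lit 76) (nat_lit 209327029) (nat_lit 59) (nat_lit 5) (nat_lit 63) (nat_lit 5) (nat_lit 60) (nat_lit 5)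 (nat_lit 333) (nat_lit 263) (nat_lit 184)))) (XT.nd (nat_lit 156) (nat_lit 304) (nat_lit 0) (XT.nd (nat_lit 78) (nat_lit 152) (nat_lit 0) (XT.lf (nat_lit 0) (nat_lit 10666670645) (nat_lit 304) (nat_lit 1025109932) (nat_lit 76) (nat_lit 4915440228) (nat_lit 59) (nat_lit 5) (nat_lit 63) (nat_lit 5) (nat_lit 60) (nat_lit 5) (nat_lit 334) (nat_lit 263) (nat_lit 183)) (XT.lf (nat_lit 0) (nat_lit 7219137322) (nat_lit 152) (nat_lit 7129719721) (nat_lit 228) (nat_lit 2599784737) (nat_lit 57) (nat_lit 5) (nat_lit 59) (nat_lit 5) (nat_lit 60) (nat_lit 5) (nat_lit 335) (nat_lit 263) (nat_lit 182))) (XT.nd (nat_lit 78) (nat_lit 228) (nat_lit 0) (XT.lf (nat_lit 0) (nat_lit 811392449) (nat_lit 228) (nat_lit 1614456695) (nat_lit 76) (nat_lit 14874629420) (nat_lit 56) (nat_lit 5) (nat_lit 59) (nat_lit 5) (nat_lit 57) (nat_lit 5) (nat_lit 336) (nat_lit 263) (nat_lit 181)) (XT.lf (nat_lit 0) (nat_lit 4339025765)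 (nat_lit 304) (nat_lit 10870483820) (nat_lit 76) (nat_lit 2450610906) (nat_lit 53) (nat_lit 5) (nat_lit 57) (nat_lit 5) (nat_lit 54) (nat_lit 5) (nat_lit 337) (nat_lit 263) (nat_lit 180))))))) (XT.nd (nat_lit 1092) (nat_lit 836) (nat_lit 0) (XT.nd (nat_lit 546) (nat_lit 532) (nat_lit 0) (XT.nd (nat_lit 234) (nat_lit 456) (nat_lit 0) (XT.nd (nat_lit 78) (nat_lit 152) (nat_lit 0) (XT.lf (nat_lit 0) (nat_lit 7990006555) (nat_lit 304) (nat_lit 2612391561) (nat_lit 76) (nat_lit 7427641081) (nat_lit 53) (nat_lit 5) (nat_lit 57) (nat_lit 5) (nat_lit 54) (nat_lit 5) (nat_lit 338) (nat_lit 263) (nat_lit 179)) (XT.nd (nat_lit 78) (nat_lit 0) (nat_lit 0) (XT.lf (nat_lit 0) (nat_lit 5974001372) (nat_lit 152) (nat_lit 5811645915) (nat_lit 228) (nat_lit 6624366961) (nat_lit 51) (nat_lit 5) (nat_lit 53) (nat_lit 5) (nat_lit 54) (nat_lit 5) (nat_lit 339) (nat_lit 263) (nat_lit 178)) (XT.lf (nat_lit 0) (nat_lit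 14835874286) (nat_lit 152) (nat_lit 863674310) (nat_lit 228) (nat_lit 3101720540) (nat_lit 51) (nat_lit 5) (nat_lit 53) (nat_lit 5) (nat_lit 54) (nat_lit 5) (nat_lit 340) (nat_lit 263) (nat_lit 177)))) (XT.nd (nat_lit 156) (nat_lit 152) (nat_lit 0) (XT.nd (nat_lit 78) (nat_lit 0) (nat_lit 0) (XT.lf (nat_lit 0) (nat_lit 582090922) (nat_lit 304) (nat_lit 14431310900) (nat_lit 76) (nat_lit 4188746758) (nat_lit 47) (nat_lit 5) (nat_lit 51) (nat_lit 5) (nat_lit 48) (nat_lit 5) (nat_lit 341) (nat_lit 263) (nat_lit 176)) (XT.lf (nat_lit 0) (nat_lit 4341659574) (nat_lit 304) (nat_lit 5838309064) (nat_lit 76) (nat_lit 9433348217) (nat_lit 47) (nat_lit 5) (nat_lit 51) (nat_lit 5) (nat_lit 48) (nat_lit 5) (nat_lit 342) (nat_lit 263) (nat_lit 175))) (XT.nd (nat_lit 78) (nat_lit 0) (nat_lit 0) (XT.lf (nat_lit 0) (nat_lit 3037540617) (nat_lit 152) (nat_lit 5184890794) (nat_lit 228) (nat_lit 11814147235) (nat_lit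 45) (nat_lit 5) (nat_lit 47) (nat_lit 5) (nat_lit 48) (nat_lit 5) (nat_lit 343) (nat_lit 263) (nat_lit 174)) (XT.lf (nat_lit 0) (nat_lit 12258149947) (nat_lit 228) (nat_lit 8206001071) (nat_lit 76) (nat_lit 7242199) (nat_lit 45) (nat_lit 5) (nat_lit 48) (nat_lit 5) (nat_lit 46) (nat_lit 5) (nat_lit 344) (nat_lit 263) (nat_lit 173))))) (XT.nd (nat_lit 234) (nat_lit 304) (nat_lit 0) (XT.nd (nat_lit 78) (nat_lit 76) (nat_lit 0) (XT.lf (nat_lit 0) (nat_lit 781362669) (nat_lit 152) (nat_lit 15672393256) (nat_lit 228) (nat_lit 4464342149) (nat_lit 43) (nat_lit 5) (nat_lit 45) (nat_lit 5) (nat_lit 46) (nat_lit 5) (nat_lit 345) (nat_lit 263) (nat_lit 172)) (XT.nd (nat_lit 78) (nat_lit 76) (nat_lit 0) (XT.lf (nat_lit 0) (nat_lit 10173513541) (nat_lit 152) (nat_lit 10664816190) (nat_lit 228) (nat_lit 537991379) (nat_lit 43) (nat_lit 5) (nat_lit 45) (nat_lit 5) (nat_lit 46) (nat_lit 5) (nat_lit 346) (nat_lit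 263) (nat_lit 171)) (XT.lf (nat_lit 0) (nat_lit 3418343569) (nat_lit 228) (nat_lit 2067046651) (nat_lit 76) (nat_lit 16362480628) (nat_lit 42) (nat_lit 5) (nat_lit 45) (nat_lit 5) (nat_lit 43) (nat_lit 5) (nat_lit 347) (nat_lit 263) (nat_lit 170)))) (XT.nd (nat_lit 156) (nat_lit 152) (nat_lit 0) (XT.nd (nat_lit 78) (nat_lit 0) (nat_lit 0) (XT.lf (nat_lit 0) (nat_lit 7451327249) (nat_lit 152) (nat_lit 84030931) (nat_lit 228) (nat_lit 14796474191) (nat_lit 40) (nat_lit 5) (nat_lit 42) (nat_lit 5) (nat_lit 43) (nat_lit 5) (nat_lit 348) (nat_lit 263) (nat_lit 169)) (XT.lf (nat_lit 0) (nat_lit 11830936554) (nat_lit 228) (nat_lit 5616610302) (nat_lit 76) (nat_lit 5381123189) (nat_lit 40) (nat_lit 5) (nat_lit 43) (nat_lit 5) (nat_lit 41) (nat_lit 5) (nat_lit 349) (nat_lit 263) (nat_lit 168))) (XT.nd (nat_lit 78) (nat_lit 0) (nat_lit 0) (XT.lf (nat_lit 0) (nat_lit 3971111676) (nat_lit 152) (nat_lit 12305122427)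 (nat_lit 228) (nat_lit 7063561836) (nat_lit 38) (nat_lit 5) (nat_lit 40) (nat_lit 5) (nat_lit 41) (nat_lit 5) (nat_lit 350) (nat_lit 263) (nat_lit 167)) (XT.lf (nat_lit 0) (nat_lit 13931153386) (nat_lit 152) (nat_lit 6962537078) (nat_lit 228) (nat_lit 2971409545) (nat_lit 38) (nat_lit 5) (nat_lit 40) (nat_lit 5) (nat_lit 41) (nat_lit 5) (nat_lit 351) (nat_lit 263) (nat_lit 166)))))) (XT.nd (nat_lit 546) (nat_lit 304) (nat_lit 0) (XT.nd (nat_lit 234) (nat_lit 304) (nat_lit 0) (XT.nd (nat_lit 78) (nat_lit 152) (nat_lit 0) (XT.lf (nat_lit 0) (nat_lit 1201666772) (nat_lit 228) (nat_lit 258038031) (nat_lit 76) (nat_lit 22946634966) (nat_lit 37) (nat_lit 5) (nat_lit 40) (nat_lit 5) (nat_lit 38) (nat_lit 5) (nat_lit 352) (nat_lit 263) (nat_lit 165)) (XT.nd (nat_lit 78) (nat_lit 0) (nat_lit 0) (XT.lf (nat_lit 0) (nat_lit 5559319065) (nat_lit 228) (nat_lit 15160451182) (nat_lit 76) (nat_lit 4239598378)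 (nat_lit 35) (nat_lit 5) (nat_lit 38) (nat_lit 5) (nat_lit 36) (nat_lit 5) (nat_lit 353) (nat_lit 263) (nat_lit 164)) (XT.lf (nat_lit 0) (nat_lit 10047827535) (nat_lit 228) (nat_lit 5409677222) (nat_lit 76) (nat_lit 10071487249) (nat_lit 35) (nat_lit 5) (nat_lit 38) (nat_lit 5) (nat_lit 36) (nat_lit 5) (nat_lit 354) (nat_lit 263) (nat_lit 163)))) (XT.nd (nat_lit 156) (nat_lit 152) (nat_lit 0) (XT.nd (nat_lit 78) (nat_lit 0) (nat_lit 0) (XT.lf (nat_lit 0) (nat_lit 4696964127) (nat_lit 152) (nat_lit 10002713739) (nat_lit 228) (nat_lit 11415172866) (nat_lit 33) (nat_lit 5) (nat_lit 35) (nat_lit 5) (nat_lit 36) (nat_lit 5) (nat_lit 355) (nat_lit 263) (nat_lit 162)) (XT.lf (nat_lit 0) (nat_lit 15189664832) (nat_lit 152) (nat_lit 4339792569) (nat_lit 228) (nat_lit 7187683636) (nat_lit 33) (nat_lit 5) (nat_lit 35) (nat_lit 5) (nat_lit 36) (nat_lit 5) (nat_lit 356) (nat_lit 263) (nat_lit 161))) (XT.nd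 (nat_lit 78) (nat_lit 152) (nat_lit 0) (XT.lf (nat_lit 0) (nat_lit 24502592140) (nat_lit 228) (nat_lit 1382292041) (nat_lit 76) (nat_lit 1452668843) (nat_lit 33) (nat_lit 5) (nat_lit 36) (nat_lit 5) (nat_lit 34) (nat_lit 4) (nat_lit 357) (nat_lit 263) (nat_lit 160)) (XT.lf (nat_lit 0) (nat_lit 1733069824) (nat_lit 152) (nat_lit 18813538366) (nat_lit 76) (nat_lit 7425993524) (nat_lit 31) (nat_lit 5) (nat_lit 33) (nat_lit 5) (nat_lit 32) (nat_lit 5) (nat_lit 358) (nat_lit 263) (nat_lit 159))))) (XT.nd (nat_lit 234) (nat_lit 152) (nat_lit 0) (XT.nd (nat_lit 78) (nat_lit 152) (nat_lit 0) (XT.lf (nat_lit 0) (nat_lit 6379868308) (nat_lit 152) (nat_lit 8636328420) (nat_lit 76) (nat_lit 13609708113) (nat_lit 31) (nat_lit 5) (nat_lit 33) (nat_lit 5) (nat_lit 32) (nat_lit 5) (nat_lit 359) (nat_lit 263) (nat_lit 158)) (XT.nd (nat_lit 78) (nat_lit 0) (nat_lit 0) (XT.lf (nat_lit 0) (nat_lit 1856370634) (nat_lit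 152) (nat_lit 9312603051) (nat_lit 228) (nat_lit 18129752353) (nat_lit 29) (nat_lit 5) (nat_lit 31) (nat_lit 5) (nat_lit 32) (nat_lit 5) (nat_lit 360) (nat_lit 263) (nat_lit 157)) (XT.lf (nat_lit 0) (nat_lit 12815090667) (nat_lit 152) (nat_lit 3359117131) (nat_lit 228) (nat_lit 13815356292) (nat_lit 29) (nat_lit 5) (nat_lit 31) (nat_lit 5) (nat_lit 32) (nat_lit 5) (nat_lit 361) (nat_lit 263) (nat_lit 156)))) (XT.nd (nat_lit 156) (nat_lit 76) (nat_lit 0) (XT.nd (nat_lit 78) (nat_lit 76) (nat_lit 0) (XT.lf (nat_lit 0) (nat_lit 21341826733) (nat_lit 228) (nat_lit 6650587819) (nat_lit 76) (nat_lit 2708351615) (nat_lit 29) (nat_lit 5) (nat_lit 32) (nat_lit 5) (nat_lit 30) (nat_lit 4) (nat_lit 362) (nat_lit 263) (nat_lit 155)) (XT.lf (nat_lit 0) (nat_lit 4213334935) (nat_lit 76) (nat_lit 22510891545) (nat_lit 152) (nat_lit 4707290806) (nat_lit 28) (nat_lit 5) (nat_lit 29) (nat_lit 5) (nat_lit 30) (nat_lit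 4) (nat_lit 363) (nat_lit 263) (nat_lit 154))) (XT.nd (nat_lit 78) (nat_lit 0) (nat_lit 0) (XT.lf (nat_lit 0) (nat_lit 136116496) (nat_lit 152) (nat_lit 16668821808) (nat_lit 76) (nat_lit 15377618275) (nat_lit 27) (nat_lit 5) (nat_lit 29) (nat_lit 5) (nat_lit 28) (nat_lit 5) (nat_lit 364) (nat_lit 263) (nat_lit 153)) (XT.lf (nat_lit 0) (nat_lit 5016644933) (nat_lit 152) (nat_lit 5873548460) (nat_lit 76) (nat_lit 22064947605) (nat_lit 27) (nat_lit 5) (nat_lit 29) (nat_lit 5) (nat_lit 28) (nat_lit 5) (nat_lit 365) (nat_lit 263) (nat_lit 152))))))))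
noncomputable def xc113 : XT := (XT.nd (nat_lit 2184) (nat_lit 304) (nat_lit 0) (XT.nd (nat_lit 1092) (nat_lit 304) (nat_lit 0) (XT.nd (nat_lit 546) (nat_lit 304) (nat_lit 0) (XT.nd (nat_lit 234) (nat_lit 304) (nat_lit 0) (XT.nd (nat_lit 78) (nat_lit 0) (nat_lit 0) (XT.lf (nat_lit 0) (nat_lit 5326254215) (nat_lit 152) (nat_lit 4755360240) (nat_lit 228) (nat_lit 23668152668) (nat_lit 25) (nat_lit 5) (nat_lit 27) (nat_lit 5) (nat_lit 28) (nat_lit 5) (nat_lit 366) (nat_lit 263) (nat_lit 151)) (XT.nd (nat_lit 78) (nat_lit 0) (nat_lit 0) (XT.lf (nat_lit 0) (nat_lit 15360353066) (nat_lit 228) (nat_lit 17622950458) (nat_lit 76) (nat_lit 1583078697) (nat_lit 25) (nat_lit 5) (nat_lit 28) (nat_lit 5) (nat_lit 26) (nat_lit 4) (nat_lit 367) (nat_lit 263) (nat_lit 150)) (XT.lf (nat_lit 0) (nat_lit 20831810344) (nat_lit 228) (nat_lit 6568108267) (nat_lit 76) (nat_lit 8006551112) (nat_lit 25) (nat_lit 5) (nat_lit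 28) (nat_lit 5) (nat_lit 26) (nat_lit 4) (nat_lit 368) (nat_lit 263) (nat_lit 149)))) (XT.nd (nat_lit 156) (nat_lit 228) (nat_lit 0) (XT.nd (nat_lit 78) (nat_lit 0) (nat_lit 0) (XT.lf (nat_lit 0) (nat_lit 4891842124) (nat_lit 76) (nat_lit 21610236997) (nat_lit 152) (nat_lit 9768645208) (nat_lit 24) (nat_lit 5) (nat_lit 25) (nat_lit 5) (nat_lit 26) (nat_lit 4) (nat_lit 369) (nat_lit 263) (nat_lit 148)) (XT.lf (nat_lit 0) (nat_lit 16808451918) (nat_lit 76) (nat_lit 15588123981) (nat_lit 152) (nat_lit 4762711456) (nat_lit 24) (nat_lit 5) (nat_lit 25) (nat_lit 5) (nat_lit 26) (nat_lit 4) (nat_lit 370) (nat_lit 263) (nat_lit 147))) (XT.nd (nat_lit 78) (nat_lit 152) (nat_lit 0) (XT.lf (nat_lit 0) (nat_lit 373752567) (nat_lit 152) (nat_lit 9017115804) (nat_lit 76) (nat_lit 28683888716) (nat_lit 23) (nat_lit 5) (nat_lit 25) (nat_lit 5) (nat_lit 24) (nat_lit 5) (nat_lit 371) (nat_lit 263) (nat_lit 146))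 (XT.lf (nat_lit 0) (nat_lit 2640215972) (nat_lit 152) (nat_lit 2942125716) (nat_lit 228) (nat_lit 33433525856) (nat_lit 21) (nat_lit 5) (nat_lit 23) (nat_lit 5) (nat_lit 24) (nat_lit 5) (nat_lit 372) (nat_lit 263) (nat_lit 145))))) (XT.nd (nat_lit 234) (nat_lit 304) (nat_lit 0) (XT.nd (nat_lit 78) (nat_lit 0) (nat_lit 0) (XT.lf (nat_lit 0) (nat_lit 11063143828) (nat_lit 228) (nat_lit 25207660394) (nat_lit 76) (nat_lit 3710932324) (nat_lit 21) (nat_lit 5) (nat_lit 24) (nat_lit 5) (nat_lit 22) (nat_lit 4) (nat_lit 373) (nat_lit 263) (nat_lit 144)) (XT.nd (nat_lit 78) (nat_lit 0) (nat_lit 0) (XT.lf (nat_lit 0) (nat_lit 16726268140) (nat_lit 228) (nat_lit 13753974494) (nat_lit 76) (nat_lit 10495805820) (nat_lit 21) (nat_lit 5) (nat_lit 24) (nat_lit 5) (nat_lit 22) (nat_lit 4) (nat_lit 374) (nat_lit 263) (nat_lit 143)) (XT.lf (nat_lit 0) (nat_lit 22548381472) (nat_lit 228) (nat_lit 1976304287) (nat_lit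 76) (nat_lit 17475834770) (nat_lit 21) (nat_lit 5) (nat_lit 24) (nat_lit 5) (nat_lit 22) (nat_lit 4) (nat_lit 375) (nat_lit 263) (nat_lit 142)))) (XT.nd (nat_lit 156) (nat_lit 228) (nat_lit 0) (XT.nd (nat_lit 78) (nat_lit 0) (nat_lit 0) (XT.lf (nat_lit 0) (nat_lit 10337360533) (nat_lit 76) (nat_lit 18296579609) (nat_lit 152) (nat_lit 14419126729) (nat_lit 20) (nat_lit 5) (nat_lit 21) (nat_lit 5) (nat_lit 22) (nat_lit 4) (nat_lit 376) (nat_lit 263) (nat_lit 141)) (XT.lf (nat_lit 0) (nat_lit 23042079780) (nat_lit 76) (nat_lit 11869482488) (nat_lit 152) (nat_lit 9225345892) (nat_lit 20) (nat_lit 5) (nat_lit 21) (nat_lit 5) (nat_lit 22) (nat_lit 4) (nat_lit 377) (nat_lit 263) (nat_lit 140))) (XT.nd (nat_lit 78) (nat_lit 228) (nat_lit 0) (XT.lf (nat_lit 0) (nat_lit 36109622332) (nat_lit 76) (nat_lit 5257735287) (nat_lit 152) (nat_lit 3886215090) (nat_lit 20) (nat_lit 5) (nat_lit 21) (nat_lit 5) (nat_lit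 22) (nat_lit 4) (nat_lit 378) (nat_lit 263) (nat_lit 139)) (XT.lf (nat_lit 0) (nat_lit 1617660155) (nat_lit 228) (nat_lit 43223661480) (nat_lit 76) (nat_lit 1560872111) (nat_lit 17) (nat_lit 5) (nat_lit 20) (nat_lit 5) (nat_lit 18) (nat_lit 4) (nat_lit 379) (nat_lit 263) (nat_lit 138)))))) (XT.nd (nat_lit 546) (nat_lit 228) (nat_lit 0) (XT.nd (nat_lit 234) (nat_lit 76) (nat_lit 0) (XT.nd (nat_lit 78) (nat_lit 0) (nat_lit 0) (XT.lf (nat_lit 0) (nat_lit 7343931406) (nat_lit 228) (nat_lit 31633851824) (nat_lit 76) (nat_lit 8602277273) (nat_lit 17) (nat_lit 5) (nat_lit 20) (nat_lit 5) (nat_lit 18) (nat_lit 4) (nat_lit 380) (nat_lit 263) (nat_lit 137)) (XT.nd (nat_lit 78) (nat_lit 0) (nat_lit 0) (XT.lf (nat_lit 0) (nat_lit 13232361522) (nat_lit 228) (nat_lit 19713854205) (nat_lit 76) (nat_lit 15847339396) (nat_lit 17) (nat_lit 5) (nat_lit 20) (nat_lit 5) (nat_lit 18) (nat_lit 4) (nat_lit 381) (nat_lit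 263) (nat_lit 136)) (XT.lf (nat_lit 0) (nat_lit 19288095734) (nat_lit 228) (nat_lit 7453253091) (nat_lit 76) (nat_lit 23302389118) (nat_lit 17) (nat_lit 5) (nat_lit 20) (nat_lit 5) (nat_lit 18) (nat_lit 4) (nat_lit 382) (nat_lit 263) (nat_lit 135)))) (XT.nd (nat_lit 156) (nat_lit 0) (nat_lit 0) (XT.nd (nat_lit 78) (nat_lit 0) (nat_lit 0) (XT.lf (nat_lit 0) (nat_lit 5261332205) (nat_lit 76) (nat_lit 20305668398) (nat_lit 152) (nat_lit 25763183496) (nat_lit 16) (nat_lit 5) (nat_lit 17) (nat_lit 5) (nat_lit 18) (nat_lit 4) (nat_lit 383) (nat_lit 263) (nat_lit 134)) (XT.lf (nat_lit 0) (nat_lit 18493799829) (nat_lit 76) (nat_lit 13606766818) (nat_lit 152) (nat_lit 20552670902) (nat_lit 16) (nat_lit 5) (nat_lit 17) (nat_lit 5) (nat_lit 18) (nat_lit 4) (nat_lit 384) (nat_lit 263) (nat_lit 133))) (XT.nd (nat_lit 78) (nat_lit 0) (nat_lit 0) (XT.lf (nat_lit 0) (nat_lit 32107377779) (nat_lit 76) (nat_lit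 6714053919) (nat_lit 152) (nat_lit 15194814796) (nat_lit 16) (nat_lit 5) (nat_lit 17) (nat_lit 5) (nat_lit 18) (nat_lit 4) (nat_lit 385) (nat_lit 263) (nat_lit 132)) (XT.lf (nat_lit 0) (nat_lit 45739106663) (nat_lit 152) (nat_lit 9310078802) (nat_lit 0) (nat_lit 371107295) (nat_lit 16) (nat_lit 5) (nat_lit 18) (nat_lit 4) (nat_lit 16) (nat_lit 4) (nat_lit 386) (nat_lit 263) (nat_lit 131))))) (XT.nd (nat_lit 234) (nat_lit 76) (nat_lit 0) (XT.nd (nat_lit 78) (nat_lit 76) (nat_lit 0) (XT.lf (nat_lit 0) (nat_lit 3656411825) (nat_lit 76) (nat_lit 49301250561) (nat_lit 76) (nat_lit 3906000012) (nat_lit 15) (nat_lit 4) (nat_lit 16) (nat_lit 5) (nat_lit 16) (nat_lit 4) (nat_lit 387) (nat_lit 263) (nat_lit 130)) (XT.nd (nat_lit 78) (nat_lit 0) (nat_lit 0) (XT.lf (nat_lit 0) (nat_lit 2089271243) (nat_lit 152) (nat_lit 41180487382) (nat_lit 76) (nat_lit 15077387308) (nat_lit 14) (nat_lit 5) (nat_lit 16) (nat_lit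 5) (nat_lit 15) (nat_lit 4) (nat_lit 388) (nat_lit 263) (nat_lit 129)) (XT.lf (nat_lit 0) (nat_lit 8177875081) (nat_lit 152) (nat_lit 28846308444) (nat_lit 76) (nat_lit 22850033104) (nat_lit 14) (nat_lit 5) (nat_lit 16) (nat_lit 5) (nat_lit 15) (nat_lit 4) (nat_lit 389) (nat_lit 263) (nat_lit 128)))) (XT.nd (nat_lit 156) (nat_lit 76) (nat_lit 0) (XT.nd (nat_lit 78) (nat_lit 0) (nat_lit 0) (XT.lf (nat_lit 0) (nat_lit 14441351770) (nat_lit 152) (nat_lit 16156389458) (nat_lit 76) (nat_lit 30849593995) (nat_lit 14) (nat_lit 5) (nat_lit 16) (nat_lit 5) (nat_lit 15) (nat_lit 4) (nat_lit 390) (nat_lit 263) (nat_lit 127)) (XT.lf (nat_lit 0) (nat_lit 20885174250) (nat_lit 152) (nat_lit 3099642146) (nat_lit 76) (nat_lit 39083059889) (nat_lit 14) (nat_lit 5) (nat_lit 16) (nat_lit 5) (nat_lit 15) (nat_lit 4) (nat_lit 391) (nat_lit 263) (nat_lit 126))) (XT.nd (nat_lit 78) (nat_lit 0) (nat_lit 0) (XT.lf (nat_lit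 0) (nat_lit 10541035876) (nat_lit 76) (nat_lit 17075264054) (nat_lit 152) (nat_lit 37117916085) (nat_lit 13) (nat_lit 5) (nat_lit 14) (nat_lit 5) (nat_lit 15) (nat_lit 4) (nat_lit 392) (nat_lit 263) (nat_lit 125)) (XT.lf (nat_lit 0) (nat_lit 24641140593) (nat_lit 76) (nat_lit 9932266309) (nat_lit 152) (nat_lit 31876419641) (nat_lit 13) (nat_lit 5) (nat_lit 14) (nat_lit 5) (nat_lit 15) (nat_lit 4) (nat_lit 393) (nat_lit 263) (nat_lit 124))))))) (XT.nd (nat_lit 1092) (nat_lit 76) (nat_lit 0) (XT.nd (nat_lit 546) (nat_lit 76) (nat_lit 0) (XT.nd (nat_lit 234) (nat_lit 152) (nat_lit 0) (XT.nd (nat_lit 78) (nat_lit 0) (nat_lit 0) (XT.lf (nat_lit 0) (nat_lit 39151303526) (nat_lit 76) (nat_lit 2580882015) (nat_lit 152) (nat_lit 26484933064) (nat_lit 13) (nat_lit 5) (nat_lit 14) (nat_lit 5) (nat_lit 15) (nat_lit 4) (nat_lit 394) (nat_lit 263) (nat_lit 123)) (XT.nd (nat_lit 78) (nat_lit 0) (nat_lit 0) (XT.lf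 (nat_lit 0) (nat_lit 49146812965) (nat_lit 152) (nat_lit 16001354852) (nat_lit 0) (nat_lit 4888030965) (nat_lit 13) (nat_lit 5) (nat_lit 15) (nat_lit 4) (nat_lit 13) (nat_lit 4) (nat_lit 395) (nat_lit 263) (nat_lit 122)) (XT.lf (nat_lit 0) (nat_lit 56802741680) (nat_lit 152) (nat_lit 2582863426) (nat_lit 0) (nat_lit 12523682242) (nat_lit 13) (nat_lit 5) (nat_lit 15) (nat_lit 4) (nat_lit 13) (nat_lit 4) (nat_lit 396) (nat_lit 263) (nat_lit 121)))) (XT.nd (nat_lit 156) (nat_lit 76) (nat_lit 0) (XT.nd (nat_lit 78) (nat_lit 0) (nat_lit 0) (XT.lf (nat_lit 0) (nat_lit 11449616363) (nat_lit 76) (nat_lit 53342296671) (nat_lit 76) (nat_lit 9043550399) (nat_lit 12) (nat_lit 4) (nat_lit 13) (nat_lit 5) (nat_lit 13) (nat_lit 4) (nat_lit 397) (nat_lit 263) (nat_lit 120)) (XT.lf (nat_lit 0) (nat_lit 25944144626) (nat_lit 76) (nat_lit 47096275900) (nat_lit 76) (nat_lit 2778416197) (nat_lit 12) (nat_lit 4) (nat_lit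 13) (nat_lit 5) (nat_lit 13) (nat_lit 4) (nat_lit 398) (nat_lit 263) (nat_lit 119))) (XT.nd (nat_lit 78) (nat_lit 0) (nat_lit 0) (XT.lf (nat_lit 0) (nat_lit 3596668710) (nat_lit 152) (nat_lit 37035178948) (nat_lit 76) (nat_lit 37228994425) (nat_lit 11) (nat_lit 5) (nat_lit 13) (nat_lit 5) (nat_lit 12) (nat_lit 4) (nat_lit 399) (nat_lit 263) (nat_lit 118)) (XT.lf (nat_lit 0) (nat_lit 10101048933) (nat_lit 152) (nat_lit 23849303338) (nat_lit 76) (nat_lit 46013115081) (nat_lit 11) (nat_lit 5) (nat_lit 13) (nat_lit 5) (nat_lit 12) (nat_lit 4) (nat_lit 400) (nat_lit 263) (nat_lit 117))))) (XT.nd (nat_lit 234) (nat_lit 0) (nat_lit 0) (XT.nd (nat_lit 78) (nat_lit 76) (nat_lit 0) (XT.lf (nat_lit 0) (nat_lit 16794624816) (nat_lit 152) (nat_lit 10278835792) (nat_lit 76) (nat_lit 55055890399) (nat_lit 11) (nat_lit 5) (nat_lit 13) (nat_lit 5) (nat_lit 12) (nat_lit 4) (nat_lit 401) (nat_lit 263) (nat_lit 116))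 (XT.nd (nat_lit 78) (nat_lit 0) (nat_lit 0) (XT.lf (nat_lit 0) (nat_lit 3761481430) (nat_lit 76) (nat_lit 19957921346) (nat_lit 152) (nat_lit 60639898064) (nat_lit 10) (nat_lit 5) (nat_lit 11) (nat_lit 5) (nat_lit 12) (nat_lit 4) (nat_lit 402) (nat_lit 263) (nat_lit 115)) (XT.lf (nat_lit 0) (nat_lit 18423154379) (nat_lit 76) (nat_lit 12526869265) (nat_lit 152) (nat_lit 55703184004) (nat_lit 10) (nat_lit 5) (nat_lit 11) (nat_lit 5) (nat_lit 12) (nat_lit 4) (nat_lit 403) (nat_lit 263) (nat_lit 114)))) (XT.nd (nat_lit 156) (nat_lit 0) (nat_lit 0) (XT.nd (nat_lit 78) (nat_lit 0) (nat_lit 0) (XT.lf (nat_lit 0) (nat_lit 33514425237) (nat_lit 76) (nat_lit 4877607301) (nat_lit 152) (nat_lit 50624066465) (nat_lit 10) (nat_lit 5) (nat_lit 11) (nat_lit 5) (nat_lit 12) (nat_lit 4) (nat_lit 404) (nat_lit 263) (nat_lit 113)) (XT.lf (nat_lit 0) (nat_lit 46080736841) (nat_lit 152) (nat_lit 42430363671) (nat_lit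 0) (nat_lit 2938074915) (nat_lit 10) (nat_lit 5) (nat_lit 12) (nat_lit 4) (nat_lit 10) (nat_lit 4) (nat_lit 405) (nat_lit 263) (nat_lit 112))) (XT.nd (nat_lit 78) (nat_lit 0) (nat_lit 0) (XT.lf (nat_lit 0) (nat_lit 54043139512) (nat_lit 152) (nat_lit 29024986125) (nat_lit 0) (nat_lit 10885828732) (nat_lit 10) (nat_lit 5) (nat_lit 12) (nat_lit 4) (nat_lit 10) (nat_lit 4) (nat_lit 406) (nat_lit 263) (nat_lit 111)) (XT.lf (nat_lit 0) (nat_lit 62239311445) (nat_lit 152) (nat_lit 15226941147) (nat_lit 0) (nat_lit 19067778478) (nat_lit 10) (nat_lit 5) (nat_lit 12) (nat_lit 4) (nat_lit 10) (nat_lit 4) (nat_lit 407) (nat_lit 263) (nat_lit 110)))))) (XT.nd (nat_lit 29718) (nat_lit 0) (nat_lit 21584) (XT.nd (nat_lit 29406) (nat_lit 0) (nat_lit 22496) (XT.nd (nat_lit 78) (nat_lit 76) (nat_lit 0) (XT.lf (nat_lit 0) (nat_lit 70676414343) (nat_lit 152) (nat_lit 1024172192) (nat_lit 0) (nat_lit 27491073427) (nat_lit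 10) (nat_lit 5) (nat_lit 12) (nat_lit 4) (nat_lit 10) (nat_lit 4) (nat_lit 408) (nat_lit 263) (nat_lit 109)) (XT.nd (nat_lit 78) (nat_lit 0) (nat_lit 0) (XT.lf (nat_lit 0) (nat_lit 13866312629) (nat_lit 76) (nat_lit 65628799283) (nat_lit 76) (nat_lit 22430052591) (nat_lit 9) (nat_lit 4) (nat_lit 10) (nat_lit 5) (nat_lit 10) (nat_lit 4) (nat_lit 409) (nat_lit 263) (nat_lit 108)) (XT.lf (nat_lit 0) (nat_lit 29215645350) (nat_lit 76) (nat_lit 59368312208) (nat_lit 76) (nat_lit 16156550200) (nat_lit 9) (nat_lit 4) (nat_lit 10) (nat_lit 5) (nat_lit 10) (nat_lit 4) (nat_lit 410) (nat_lit 263) (nat_lit 107)))) (XT.nd (nat_lit 156) (nat_lit 380) (nat_lit 0) (XT.nd (nat_lit 78) (nat_lit 0) (nat_lit 0) (XT.lf (nat_lit 0) (nat_lit 1292549393) (nat_lit 380) (nat_lit 981709075) (nat_lit 380) (nat_lit 981709075) (nat_lit 310) (nat_lit 3) (nat_lit 315) (nat_lit 3) (nat_lit 315) (nat_lit 5) (nat_lit 264) (nat_lit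 264) (nat_lit 252)) (XT.lf (nat_lit 76) (nat_lit 1081440585) (nat_lit 0) (nat_lit 4003852073) (nat_lit 380) (nat_lit 1445686953) (nat_lit 311) (nat_lit 5) (nat_lit 310) (nat_lit 3) (nat_lit 315) (nat_lit 5) (nat_lit 265) (nat_lit 264) (nat_lit 251))) (XT.nd (nat_lit 78) (nat_lit 0) (nat_lit 0) (XT.lf (nat_lit 0) (nat_lit 1010986093) (nat_lit 380) (nat_lit 2355429214) (nat_lit 456) (nat_lit 3186359244) (nat_lit 305) (nat_lit 5) (nat_lit 310) (nat_lit 3) (nat_lit 311) (nat_lit 5) (nat_lit 266) (nat_lit 264) (nat_lit 250)) (XT.lf (nat_lit 76) (nat_lit 781511662) (nat_lit 0) (nat_lit 2643860760) (nat_lit 456) (nat_lit 3152205690) (nat_lit 306) (nat_lit 5) (nat_lit 305) (nat_lit 5) (nat_lit 311) (nat_lit 5) (nat_lit 267) (nat_lit 264) (nat_lit 249))))) (XT.nd (nat_lit 234) (nat_lit 456) (nat_lit 0) (XT.nd (nat_lit 78) (nat_lit 456) (nat_lit 0) (XT.lf (nat_lit 76) (nat_lit 4010415449) (nat_lit 0) (nat_lit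 1833383698) (nat_lit 456) (nat_lit 761549514) (nat_lit 306) (nat_lit 5) (nat_lit 305) (nat_lit 5) (nat_lit 311) (nat_lit 5) (nat_lit 268) (nat_lit 264) (nat_lit 248)) (XT.nd (nat_lit 78) (nat_lit 0) (nat_lit 76) (XT.lf (nat_lit 76) (nat_lit 647597855) (nat_lit 0) (nat_lit 935723713) (nat_lit 532) (nat_lit 5052831067) (nat_lit 300) (nat_lit 5) (nat_lit 299) (nat_lit 5) (nat_lit 306) (nat_lit 5) (nat_lit 269) (nat_lit 264) (nat_lit 247)) (XT.lf (nat_lit 0) (nat_lit 3921565237) (nat_lit 456) (nat_lit 2687786384) (nat_lit 532) (nat_lit 60309543) (nat_lit 300) (nat_lit 5) (nat_lit 306) (nat_lit 5) (nat_lit 307) (nat_lit 5) (nat_lit 270) (nat_lit 264) (nat_lit 246)))) (XT.nd (nat_lit 156) (nat_lit 0) (nat_lit 0) (XT.nd (nat_lit 78) (nat_lit 532) (nat_lit 0) (XT.lf (nat_lit 76) (nat_lit 663654152) (nat_lit 0) (nat_lit 5596486578) (nat_lit 532) (nat_lit 446280746) (nat_lit 301) (nat_lit 5) (nat_lit 300)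 (nat_lit 5) (nat_lit 307) (nat_lit 5) (nat_lit 271) (nat_lit 264) (nat_lit 245)) (XT.lf (nat_lit 0) (nat_lit 1830006467) (nat_lit 532) (nat_lit 2644854748) (nat_lit 608) (nat_lit 2270722509) (nat_lit 293) (nat_lit 5) (nat_lit 300) (nat_lit 5) (nat_lit 301) (nat_lit 5) (nat_lit 272) (nat_lit 264) (nat_lit 244))) (XT.nd (nat_lit 78) (nat_lit 0) (nat_lit 0) (XT.lf (nat_lit 76) (nat_lit 814677535) (nat_lit 0) (nat_lit 3276788603) (nat_lit 608) (nat_lit 2696685692) (nat_lit 294) (nat_lit 5) (nat_lit 293) (nat_lit 5) (nat_lit 301) (nat_lit 5) (nat_lit 273) (nat_lit 264) (nat_lit 243)) (XT.lf (nat_lit 76) (nat_lit 4380924183) (nat_lit 0) (nat_lit 1986470406) (nat_lit 608) (nat_lit 466338746) (nat_lit 294) (nat_lit 5) (nat_lit 293) (nat_lit 5) (nat_lit 301) (nat_lit 5) (nat_lit 274) (nat_lit 264) (nat_lit 242))))))))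
noncomputable def xc114 : XT := (XT.nd (nat_lit 2106) (nat_lit 5852) (nat_lit 0) (XT.nd (nat_lit 1014) (nat_lit 5852) (nat_lit 0) (XT.nd (nat_lit 468) (nat_lit 3648) (nat_lit 0) (XT.nd (nat_lit 234) (nat_lit 760) (nat_lit 0) (XT.nd (nat_lit 78) (nat_lit 532) (nat_lit 0) (XT.lf (nat_lit 76) (nat_lit 1126368227) (nat_lit 0) (nat_lit 601001140) (nat_lit 684) (nat_lit 5154946914) (nat_lit 286) (nat_lit 5) (nat_lit 285) (nat_lit 5) (nat_lit 294) (nat_lit 5) (nat_lit 275) (nat_lit 264) (nat_lit 241)) (XT.nd (nat_lit 78) (nat_lit 608) (nat_lit 0) (XT.lf (nat_lit 0) (nat_lit 3933870440) (nat_lit 608) (nat_lit 2134875571) (nat_lit 76) (nat_lit 864905188) (nat_lit 286) (nat_lit 5) (nat_lit 294) (nat_lit 5) (nat_lit 287) (nat_lit 5) (nat_lit 276) (nat_lit 264) (nat_lit 240)) (XT.lf (nat_lit 0) (nat_lit 1567366211) (nat_lit 608) (nat_lit 4585848913) (nat_lit 684) (nat_lit 835031624) (nat_lit 278) (nat_lit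 5) (nat_lit 286) (nat_lit 5) (nat_lit 287) (nat_lit 5) (nat_lit 277) (nat_lit 264) (nat_lit 239)))) (XT.nd (nat_lit 78) (nat_lit 684) (nat_lit 0) (XT.lf (nat_lit 0) (nat_lit 1315684375) (nat_lit 684) (nat_lit 1686178245) (nat_lit 76) (nat_lit 4043881324) (nat_lit 277) (nat_lit 5) (nat_lit 286) (nat_lit 5) (nat_lit 278) (nat_lit 5) (nat_lit 278) (nat_lit 264) (nat_lit 238)) (XT.nd (nat_lit 78) (nat_lit 0) (nat_lit 0) (XT.lf (nat_lit 0) (nat_lit 2142490465) (nat_lit 684) (nat_lit 1320852450) (nat_lit 760) (nat_lit 3643008834) (nat_lit 268) (nat_lit 5) (nat_lit 277) (nat_lit 5) (nat_lit 278) (nat_lit 5) (nat_lit 279) (nat_lit 264) (nat_lit 237)) (XT.lf (nat_lit 0) (nat_lit 5626950903) (nat_lit 760) (nat_lit 1105287259) (nat_lit 76) (nat_lit 438100690) (nat_lit 268) (nat_lit 5) (nat_lit 278) (nat_lit 5) (nat_lit 269) (nat_lit 5) (nat_lit 280) (nat_lit 264) (nat_lit 236))))) (XT.nd (nat_lit 234) (nat_lit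 1976) (nat_lit 0) (XT.nd (nat_lit 78) (nat_lit 836) (nat_lit 0) (XT.lf (nat_lit 0) (nat_lit 579742523) (nat_lit 836) (nat_lit 4383002808) (nat_lit 76) (nat_lit 2274244070) (nat_lit 257) (nat_lit 5) (nat_lit 268) (nat_lit 5) (nat_lit 258) (nat_lit 5) (nat_lit 281) (nat_lit 264) (nat_lit 235)) (XT.nd (nat_lit 78) (nat_lit 836) (nat_lit 0) (XT.lf (nat_lit 0) (nat_lit 2679944376) (nat_lit 836) (nat_lit 418850809) (nat_lit 76) (nat_lit 4208151513) (nat_lit 257) (nat_lit 5) (nat_lit 268) (nat_lit 5) (nat_lit 258) (nat_lit 5) (nat_lit 282) (nat_lit 264) (nat_lit 234)) (XT.lf (nat_lit 0) (nat_lit 3684818598) (nat_lit 836) (nat_lit 1128828488) (nat_lit 912) (nat_lit 2566335544) (nat_lit 246) (nat_lit 5) (nat_lit 257) (nat_lit 5) (nat_lit 258) (nat_lit 5) (nat_lit 283) (nat_lit 264) (nat_lit 233)))) (XT.nd (nat_lit 156) (nat_lit 988) (nat_lit 0) (XT.nd (nat_lit 78) (nat_lit 76) (nat_lit 0) (XT.lf (nat_lit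 0) (nat_lit 411507750) (nat_lit 912) (nat_lit 6553332816) (nat_lit 988) (nat_lit 491856684) (nat_lit 234) (nat_lit 5) (nat_lit 246) (nat_lit 5) (nat_lit 247) (nat_lit 5) (nat_lit 284) (nat_lit 264) (nat_lit 232)) (XT.lf (nat_lit 0) (nat_lit 1598859113) (nat_lit 988) (nat_lit 2898569269) (nat_lit 76) (nat_lit 3038314315) (nat_lit 233) (nat_lit 5) (nat_lit 246) (nat_lit 5) (nat_lit 234) (nat_lit 5) (nat_lit 285) (nat_lit 264) (nat_lit 231))) (XT.nd (nat_lit 78) (nat_lit 0) (nat_lit 0) (XT.lf (nat_lit 0) (nat_lit 1341579156) (nat_lit 988) (nat_lit 2352795214) (nat_lit 1064) (nat_lit 3924164319) (nat_lit 220) (nat_lit 5) (nat_lit 233) (nat_lit 5) (nat_lit 234) (nat_lit 5) (nat_lit 286) (nat_lit 264) (nat_lit 230)) (XT.lf (nat_lit 0) (nat_lit 5716681842) (nat_lit 988) (nat_lit 105688912) (nat_lit 1064) (nat_lit 1882441079) (nat_lit 220) (nat_lit 5) (nat_lit 233) (nat_lit 5) (nat_lit 234) (nat_lit 5)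 (nat_lit 287) (nat_lit 264) (nat_lit 229)))))) (XT.nd (nat_lit 546) (nat_lit 2204) (nat_lit 0) (XT.nd (nat_lit 234) (nat_lit 1368) (nat_lit 0) (XT.nd (nat_lit 78) (nat_lit 1140) (nat_lit 0) (XT.lf (nat_lit 0) (nat_lit 202508127) (nat_lit 1140) (nat_lit 5393175386) (nat_lit 76) (nat_lit 2198414779) (nat_lit 205) (nat_lit 5) (nat_lit 220) (nat_lit 5) (nat_lit 206) (nat_lit 5) (nat_lit 288) (nat_lit 264) (nat_lit 228)) (XT.nd (nat_lit 78) (nat_lit 1140) (nat_lit 0) (XT.lf (nat_lit 0) (nat_lit 2276202641) (nat_lit 1140) (nat_lit 995701338) (nat_lit 76) (nat_lit 4614754069) (nat_lit 205) (nat_lit 5) (nat_lit 220) (nat_lit 5) (nat_lit 206) (nat_lit 5) (nat_lit 289) (nat_lit 264) (nat_lit 227)) (XT.lf (nat_lit 0) (nat_lit 3551782516) (nat_lit 1140) (nat_lit 838846620) (nat_lit 1216) (nat_lit 3592082452) (nat_lit 190) (nat_lit 5) (nat_lit 205) (nat_lit 5) (nat_lit 206) (nat_lit 5) (nat_lit 290) (nat_lit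 264) (nat_lit 226)))) (XT.nd (nat_lit 156) (nat_lit 608) (nat_lit 0) (XT.nd (nat_lit 78) (nat_lit 76) (nat_lit 0) (XT.lf (nat_lit 0) (nat_lit 108282267) (nat_lit 684) (nat_lit 6432975316) (nat_lit 760) (nat_lit 1541276587) (nat_lit 181) (nat_lit 5) (nat_lit 190) (nat_lit 5) (nat_lit 191) (nat_lit 5) (nat_lit 291) (nat_lit 264) (nat_lit 225)) (XT.lf (nat_lit 0) (nat_lit 559441327) (nat_lit 760) (nat_lit 3376834947) (nat_lit 76) (nat_lit 4248991004) (nat_lit 180) (nat_lit 5) (nat_lit 190) (nat_lit 5) (nat_lit 181) (nat_lit 5) (nat_lit 292) (nat_lit 264) (nat_lit 224))) (XT.nd (nat_lit 78) (nat_lit 0) (nat_lit 0) (XT.lf (nat_lit 0) (nat_lit 1317410275) (nat_lit 608) (nat_lit 1335066871) (nat_lit 684) (nat_lit 5639403719) (nat_lit 172) (nat_lit 5) (nat_lit 180) (nat_lit 5) (nat_lit 181) (nat_lit 5) (nat_lit 293) (nat_lit 264) (nat_lit 223)) (XT.lf (nat_lit 0) (nat_lit 4804311251) (nat_lit 684) (nat_lit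 2244866415) (nat_lit 76) (nat_lit 1352697626) (nat_lit 172) (nat_lit 5) (nat_lit 181) (nat_lit 5) (nat_lit 173) (nat_lit 5) (nat_lit 294) (nat_lit 264) (nat_lit 222))))) (XT.nd (nat_lit 234) (nat_lit 1064) (nat_lit 0) (XT.nd (nat_lit 78) (nat_lit 608) (nat_lit 0) (XT.lf (nat_lit 0) (nat_lit 2613292926) (nat_lit 532) (nat_lit 4395891274) (nat_lit 608) (nat_lit 1506391660) (nat_lit 165) (nat_lit 5) (nat_lit 172) (nat_lit 5) (nat_lit 173) (nat_lit 5) (nat_lit 295) (nat_lit 264) (nat_lit 221)) (XT.nd (nat_lit 78) (nat_lit 532) (nat_lit 0) (XT.lf (nat_lit 0) (nat_lit 608342148) (nat_lit 608) (nat_lit 1026890815) (nat_lit 76) (nat_lit 6998121236) (nat_lit 164) (nat_lit 5) (nat_lit 172) (nat_lit 5) (nat_lit 165) (nat_lit 5) (nat_lit 296) (nat_lit 264) (nat_lit 220)) (XT.lf (nat_lit 0) (nat_lit 2758898494) (nat_lit 608) (nat_lit 4758768710) (nat_lit 76) (nat_lit 1236527176) (nat_lit 157) (nat_lit 5) (nat_lit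 165) (nat_lit 5) (nat_lit 158) (nat_lit 5) (nat_lit 297) (nat_lit 264) (nat_lit 219)))) (XT.nd (nat_lit 156) (nat_lit 608) (nat_lit 0) (XT.nd (nat_lit 78) (nat_lit 0) (nat_lit 0) (XT.lf (nat_lit 0) (nat_lit 248576073) (nat_lit 456) (nat_lit 4707351488) (nat_lit 532) (nat_lit 3923327566) (nat_lit 151) (nat_lit 5) (nat_lit 157) (nat_lit 5) (nat_lit 158) (nat_lit 5) (nat_lit 298) (nat_lit 264) (nat_lit 218)) (XT.lf (nat_lit 0) (nat_lit 5453097548) (nat_lit 456) (nat_lit 1767613466) (nat_lit 532) (nat_lit 1787353843) (nat_lit 151) (nat_lit 5) (nat_lit 157) (nat_lit 5) (nat_lit 158) (nat_lit 5) (nat_lit 299) (nat_lit 264) (nat_lit 217))) (XT.nd (nat_lit 78) (nat_lit 0) (nat_lit 0) (XT.lf (nat_lit 0) (nat_lit 387425293) (nat_lit 608) (nat_lit 7502622829) (nat_lit 76) (nat_lit 1251137815) (nat_lit 143) (nat_lit 5) (nat_lit 151) (nat_lit 5) (nat_lit 144) (nat_lit 5) (nat_lit 300) (nat_lit 264) (nat_lit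 216)) (XT.lf (nat_lit 0) (nat_lit 2600715405) (nat_lit 608) (nat_lit 2302920203) (nat_lit 76) (nat_lit 4373906409) (nat_lit 143) (nat_lit 5) (nat_lit 151) (nat_lit 5) (nat_lit 144) (nat_lit 5) (nat_lit 301) (nat_lit 264) (nat_lit 215))))))) (XT.nd (nat_lit 1092) (nat_lit 2432) (nat_lit 0) (XT.nd (nat_lit 546) (nat_lit 1596) (nat_lit 0) (XT.nd (nat_lit 234) (nat_lit 912) (nat_lit 0) (XT.nd (nat_lit 78) (nat_lit 456) (nat_lit 0) (XT.lf (nat_lit 0) (nat_lit 3063112697) (nat_lit 456) (nat_lit 1803470884) (nat_lit 532) (nat_lit 4551866434) (nat_lit 137) (nat_lit 5) (nat_lit 143) (nat_lit 5) (nat_lit 144) (nat_lit 5) (nat_lit 302) (nat_lit 264) (nat_lit 214)) (XT.nd (nat_lit 78) (nat_lit 456) (nat_lit 0) (XT.lf (nat_lit 0) (nat_lit 7194733917) (nat_lit 532) (nat_lit 989348123) (nat_lit 76) (nat_lit 1379719288) (nat_lit 137) (nat_lit 5) (nat_lit 144) (nat_lit 5) (nat_lit 138) (nat_lit 5) (nat_lit 303)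 (nat_lit 264) (nat_lit 213)) (XT.lf (nat_lit 0) (nat_lit 4560003165) (nat_lit 456) (nat_lit 5053116500) (nat_lit 532) (nat_lit 99825727) (nat_lit 131) (nat_lit 5) (nat_lit 137) (nat_lit 5) (nat_lit 138) (nat_lit 5) (nat_lit 304) (nat_lit 264) (nat_lit 212)))) (XT.nd (nat_lit 156) (nat_lit 456) (nat_lit 0) (XT.nd (nat_lit 78) (nat_lit 0) (nat_lit 0) (XT.lf (nat_lit 0) (nat_lit 366268637) (nat_lit 380) (nat_lit 1800169931) (nat_lit 456) (nat_lit 7700343176) (nat_lit 125) (nat_lit 5) (nat_lit 130) (nat_lit 5) (nat_lit 131) (nat_lit 5) (nat_lit 305) (nat_lit 264) (nat_lit 211)) (XT.lf (nat_lit 0) (nat_lit 4525780272) (nat_lit 456) (nat_lit 3933202289) (nat_lit 76) (nat_lit 1565448308) (nat_lit 125) (nat_lit 5) (nat_lit 131) (nat_lit 5) (nat_lit 126) (nat_lit 5) (nat_lit 306) (nat_lit 264) (nat_lit 210))) (XT.nd (nat_lit 78) (nat_lit 0) (nat_lit 0) (XT.lf (nat_lit 0) (nat_lit 1769474363) (nat_lit 456)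 (nat_lit 5182079058) (nat_lit 532) (nat_lit 3235425552) (nat_lit 119) (nat_lit 5) (nat_lit 125) (nat_lit 5) (nat_lit 126) (nat_lit 5) (nat_lit 307) (nat_lit 264) (nat_lit 209)) (XT.lf (nat_lit 0) (nat_lit 7675973370) (nat_lit 456) (nat_lit 1775343399) (nat_lit 532) (nat_lit 903088145) (nat_lit 119) (nat_lit 5) (nat_lit 125) (nat_lit 5) (nat_lit 126) (nat_lit 5) (nat_lit 308) (nat_lit 264) (nat_lit 208))))) (XT.nd (nat_lit 234) (nat_lit 760) (nat_lit 0) (XT.nd (nat_lit 78) (nat_lit 380) (nat_lit 0) (XT.lf (nat_lit 0) (nat_lit 1480291873) (nat_lit 456) (nat_lit 7309445392) (nat_lit 76) (nat_lit 1736409920) (nat_lit 113) (nat_lit 5) (nat_lit 119) (nat_lit 5) (nat_lit 114) (nat_lit 5) (nat_lit 309) (nat_lit 264) (nat_lit 207)) (XT.nd (nat_lit 78) (nat_lit 380) (nat_lit 0) (XT.lf (nat_lit 0) (nat_lit 3924686543) (nat_lit 456) (nat_lit 1433292830) (nat_lit 76) (nat_lit 5344598864) (nat_lit 113) (nat_lit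 5) (nat_lit 119) (nat_lit 5) (nat_lit 114) (nat_lit 5) (nat_lit 310) (nat_lit 264) (nat_lit 206)) (XT.lf (nat_lit 0) (nat_lit 4663673702) (nat_lit 380) (nat_lit 1787425814) (nat_lit 456) (nat_lit 4432975785) (nat_lit 108) (nat_lit 5) (nat_lit 113) (nat_lit 5) (nat_lit 114) (nat_lit 5) (nat_lit 311) (nat_lit 264) (nat_lit 205)))) (XT.nd (nat_lit 156) (nat_lit 380) (nat_lit 0) (XT.nd (nat_lit 78) (nat_lit 380) (nat_lit 0) (XT.lf (nat_lit 0) (nat_lit 9050457744) (nat_lit 456) (nat_lit 162984154) (nat_lit 76) (nat_lit 1857693489) (nat_lit 108) (nat_lit 5) (nat_lit 114) (nat_lit 5) (nat_lit 109) (nat_lit 5) (nat_lit 312) (nat_lit 264) (nat_lit 204)) (XT.lf (nat_lit 0) (nat_lit 497370769) (nat_lit 380) (nat_lit 5134976926) (nat_lit 76) (nat_lit 5630083532) (nat_lit 103) (nat_lit 5) (nat_lit 108) (nat_lit 5) (nat_lit 104) (nat_lit 5) (nat_lit 313) (nat_lit 264) (nat_lit 203))) (XT.nd (nat_lit 78) (nat_lit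 0) (nat_lit 0) (XT.lf (nat_lit 0) (nat_lit 1106177576) (nat_lit 380) (nat_lit 1922074702) (nat_lit 456) (nat_lit 8431306225) (nat_lit 98) (nat_lit 5) (nat_lit 103) (nat_lit 5) (nat_lit 104) (nat_lit 5) (nat_lit 314) (nat_lit 264) (nat_lit 202)) (XT.lf (nat_lit 0) (nat_lit 5671748669) (nat_lit 456) (nat_lit 4086384974) (nat_lit 76) (nat_lit 1903394352) (nat_lit 98) (nat_lit 5) (nat_lit 104) (nat_lit 5) (nat_lit 99) (nat_lit 5) (nat_lit 315) (nat_lit 264) (nat_lit 201)))))) (XT.nd (nat_lit 546) (nat_lit 1064) (nat_lit 0) (XT.nd (nat_lit 234) (nat_lit 684) (nat_lit 0) (XT.nd (nat_lit 78) (nat_lit 380) (nat_lit 0) (XT.lf (nat_lit 0) (nat_lit 2350409682) (nat_lit 304) (nat_lit 6052815375) (nat_lit 380) (nat_lit 3466099463) (nat_lit 94) (nat_lit 5) (nat_lit 98) (nat_lit 5) (nat_lit 99) (nat_lit 5) (nat_lit 316) (nat_lit 264) (nat_lit 200)) (XT.nd (nat_lit 78) (nat_lit 380) (nat_lit 0) (XT.lf (nat_lit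 0) (nat_lit 9019470997) (nat_lit 304) (nat_lit 2206021219) (nat_lit 380) (nat_lit 857624714) (nat_lit 94) (nat_lit 5) (nat_lit 98) (nat_lit 5) (nat_lit 99) (nat_lit 5) (nat_lit 317) (nat_lit 264) (nat_lit 199)) (XT.lf (nat_lit 0) (nat_lit 1813427570) (nat_lit 380) (nat_lit 8726156196) (nat_lit 76) (nat_lit 1762637209) (nat_lit 89) (nat_lit 5) (nat_lit 94) (nat_lit 5) (nat_lit 90) (nat_lit 5) (nat_lit 318) (nat_lit 264) (nat_lit 198)))) (XT.nd (nat_lit 156) (nat_lit 380) (nat_lit 0) (XT.nd (nat_lit 78) (nat_lit 304) (nat_lit 0) (XT.lf (nat_lit 0) (nat_lit 4569037989) (nat_lit 380) (nat_lit 2124220344) (nat_lit 76) (nat_lit 5833760209) (nat_lit 89) (nat_lit 5) (nat_lit 94) (nat_lit 5) (nat_lit 90) (nat_lit 5) (nat_lit 319) (nat_lit 264) (nat_lit 197)) (XT.lf (nat_lit 0) (nat_lit 4724886312) (nat_lit 304) (nat_lit 2697343135) (nat_lit 380) (nat_lit 5335907536) (nat_lit 85) (nat_lit 5) (nat_lit 89)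 (nat_lit 5) (nat_lit 90) (nat_lit 5) (nat_lit 320) (nat_lit 264) (nat_lit 196))) (XT.nd (nat_lit 78) (nat_lit 380) (nat_lit 0) (XT.lf (nat_lit 0) (nat_lit 10366165651) (nat_lit 380) (nat_lit 1229849613) (nat_lit 76) (nat_lit 1400042863) (nat_lit 85) (nat_lit 5) (nat_lit 90) (nat_lit 5) (nat_lit 86) (nat_lit 5) (nat_lit 321) (nat_lit 264) (nat_lit 195)) (XT.lf (nat_lit 0) (nat_lit 208143493) (nat_lit 380) (nat_lit 7419217330) (nat_lit 76) (nat_lit 5612115683) (nat_lit 80) (nat_lit 5) (nat_lit 85) (nat_lit 5) (nat_lit 81) (nat_lit 5) (nat_lit 322) (nat_lit 264) (nat_lit 194))))) (XT.nd (nat_lit 234) (nat_lit 532) (nat_lit 0) (XT.nd (nat_lit 78) (nat_lit 532) (nat_lit 0) (XT.lf (nat_lit 0) (nat_lit 3061877297) (nat_lit 380) (nat_lit 451293313) (nat_lit 76) (nat_lit 9976764834) (nat_lit 80) (nat_lit 5) (nat_lit 85) (nat_lit 5) (nat_lit 81) (nat_lit 5) (nat_lit 323) (nat_lit 264) (nat_lit 193)) (XT.nd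 (nat_lit 78) (nat_lit 304) (nat_lit 0) (XT.lf (nat_lit 0) (nat_lit 6045967789) (nat_lit 304) (nat_lit 6936751265) (nat_lit 76) (nat_lit 763867744) (nat_lit 77) (nat_lit 5) (nat_lit 81) (nat_lit 5) (nat_lit 78) (nat_lit 5) (nat_lit 324) (nat_lit 264) (nat_lit 192)) (XT.lf (nat_lit 0) (nat_lit 215134884) (nat_lit 304) (nat_lit 8917929493) (nat_lit 380) (nat_lit 4877489188) (nat_lit 73) (nat_lit 5) (nat_lit 77) (nat_lit 5) (nat_lit 78) (nat_lit 5) (nat_lit 325) (nat_lit 264) (nat_lit 191)))) (XT.nd (nat_lit 156) (nat_lit 228) (nat_lit 0) (XT.nd (nat_lit 78) (nat_lit 304) (nat_lit 0) (XT.lf (nat_lit 0) (nat_lit 7682698386) (nat_lit 304) (nat_lit 4672572110) (nat_lit 380) (nat_lit 1925913723) (nat_lit 73) (nat_lit 5) (nat_lit 77) (nat_lit 5) (nat_lit 78) (nat_lit 5) (nat_lit 326) (nat_lit 264) (nat_lit 190)) (XT.lf (nat_lit 0) (nat_lit 778397799) (nat_lit 228) (nat_lit 294519245) (nat_lit 304) (nat_lit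 13487300570) (nat_lit 69) (nat_lit 5) (nat_lit 72) (nat_lit 5) (nat_lit 73) (nat_lit 5) (nat_lit 327) (nat_lit 264) (nat_lit 189))) (XT.nd (nat_lit 78) (nat_lit 228) (nat_lit 0) (XT.lf (nat_lit 0) (nat_lit 4204052613) (nat_lit 304) (nat_lit 6434744505) (nat_lit 76) (nat_lit 4205839477) (nat_lit 69) (nat_lit 5) (nat_lit 73) (nat_lit 5) (nat_lit 70) (nat_lit 5) (nat_lit 328) (nat_lit 264) (nat_lit 188)) (XT.lf (nat_lit 0) (nat_lit 1111984351) (nat_lit 228) (nat_lit 6304763769) (nat_lit 304) (nat_lit 7721228827) (nat_lit 66) (nat_lit 5) (nat_lit 69) (nat_lit 5) (nat_lit 70) (nat_lit 5) (nat_lit 329) (nat_lit 264) (nat_lit 187))))))))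
noncomputable def xc115 : XT := (XT.nd (nat_lit 2184) (nat_lit 1292) (nat_lit 0) (XT.nd (nat_lit 1092) (nat_lit 1064) (nat_lit 0) (XT.nd (nat_lit 546) (nat_lit 760) (nat_lit 0) (XT.nd (nat_lit 234) (nat_lit 380) (nat_lit 0) (XT.nd (nat_lit 78) (nat_lit 304) (nat_lit 0) (XT.lf (nat_lit 0) (nat_lit 8977867190) (nat_lit 228) (nat_lit 1787336675) (nat_lit 304) (nat_lit 4673749325) (nat_lit 66) (nat_lit 5) (nat_lit 69) (nat_lit 5) (nat_lit 70) (nat_lit 5) (nat_lit 330) (nat_lit 264) (nat_lit 186)) (XT.nd (nat_lit 78) (nat_lit 76) (nat_lit 0) (XT.lf (nat_lit 0) (nat_lit 1289740141) (nat_lit 228) (nat_lit 12939337109) (nat_lit 304) (nat_lit 1519449119) (nat_lit 63) (nat_lit 5) (nat_lit 66) (nat_lit 5) (nat_lit 67) (nat_lit 5) (nat_lit 331) (nat_lit 264) (nat_lit 185)) (XT.lf (nat_lit 0) (nat_lit 1754438719) (nat_lit 304) (nat_lit 6733640578) (nat_lit 76) (nat_lit 7577063105) (nat_lit 62) (nat_lit 5) (nat_lit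 66) (nat_lit 5) (nat_lit 63) (nat_lit 5) (nat_lit 332) (nat_lit 264) (nat_lit 184)))) (XT.nd (nat_lit 156) (nat_lit 152) (nat_lit 0) (XT.nd (nat_lit 78) (nat_lit 0) (nat_lit 0) (XT.lf (nat_lit 0) (nat_lit 1193860494) (nat_lit 228) (nat_lit 3889464369) (nat_lit 304) (nat_lit 11307876261) (nat_lit 59) (nat_lit 5) (nat_lit 62) (nat_lit 5) (nat_lit 63) (nat_lit 5) (nat_lit 333) (nat_lit 264) (nat_lit 183)) (XT.lf (nat_lit 0) (nat_lit 8564950957) (nat_lit 304) (nat_lit 7274480036) (nat_lit 76) (nat_lit 886039132) (nat_lit 59) (nat_lit 5) (nat_lit 63) (nat_lit 5) (nat_lit 60) (nat_lit 5) (nat_lit 334) (nat_lit 264) (nat_lit 182))) (XT.nd (nat_lit 78) (nat_lit 0) (nat_lit 0) (XT.lf (nat_lit 0) (nat_lit 826914469) (nat_lit 152) (nat_lit 11347327618) (nat_lit 228) (nat_lit 4894842911) (nat_lit 57) (nat_lit 5) (nat_lit 59) (nat_lit 5) (nat_lit 60) (nat_lit 5) (nat_lit 335) (nat_lit 264) (nat_lit 181)) (XT.lf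 (nat_lit 0) (nat_lit 9284052654) (nat_lit 152) (nat_lit 6658302066) (nat_lit 228) (nat_lit 1479151190) (nat_lit 57) (nat_lit 5) (nat_lit 59) (nat_lit 5) (nat_lit 60) (nat_lit 5) (nat_lit 336) (nat_lit 264) (nat_lit 180))))) (XT.nd (nat_lit 234) (nat_lit 456) (nat_lit 0) (XT.nd (nat_lit 78) (nat_lit 0) (nat_lit 0) (XT.lf (nat_lit 0) (nat_lit 158072219) (nat_lit 228) (nat_lit 1820188828) (nat_lit 304) (nat_lit 15806292326) (nat_lit 53) (nat_lit 5) (nat_lit 56) (nat_lit 5) (nat_lit 57) (nat_lit 5) (nat_lit 337) (nat_lit 264) (nat_lit 179)) (XT.nd (nat_lit 78) (nat_lit 0) (nat_lit 0) (XT.lf (nat_lit 0) (nat_lit 5600762194) (nat_lit 304) (nat_lit 9368634185) (nat_lit 76) (nat_lit 3185936346) (nat_lit 53) (nat_lit 5) (nat_lit 57) (nat_lit 5) (nat_lit 54) (nat_lit 5) (nat_lit 338) (nat_lit 264) (nat_lit 178)) (XT.lf (nat_lit 0) (nat_lit 9328314185) (nat_lit 304) (nat_lit 916040833) (nat_lit 76) (nat_lit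 8293001492) (nat_lit 53) (nat_lit 5) (nat_lit 57) (nat_lit 5) (nat_lit 54) (nat_lit 5) (nat_lit 339) (nat_lit 264) (nat_lit 177)))) (XT.nd (nat_lit 156) (nat_lit 304) (nat_lit 0) (XT.nd (nat_lit 78) (nat_lit 0) (nat_lit 0) (XT.lf (nat_lit 0) (nat_lit 7910544649) (nat_lit 152) (nat_lit 5312173681) (nat_lit 228) (nat_lit 5706483878) (nat_lit 51) (nat_lit 5) (nat_lit 53) (nat_lit 5) (nat_lit 54) (nat_lit 5) (nat_lit 340) (nat_lit 264) (nat_lit 176)) (XT.lf (nat_lit 0) (nat_lit 16987089578) (nat_lit 152) (nat_lit 235388800) (nat_lit 228) (nat_lit 2110680805) (nat_lit 51) (nat_lit 5) (nat_lit 53) (nat_lit 5) (nat_lit 54) (nat_lit 5) (nat_lit 341) (nat_lit 264) (nat_lit 175))) (XT.nd (nat_lit 78) (nat_lit 0) (nat_lit 0) (XT.lf (nat_lit 0) (nat_lit 1654345997) (nat_lit 304) (nat_lit 13127683734) (nat_lit 76) (nat_lit 4963983662) (nat_lit 47) (nat_lit 5) (nat_lit 51) (nat_lit 5) (nat_lit 48) (nat_lit 5)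 (nat_lit 342) (nat_lit 264) (nat_lit 174)) (XT.lf (nat_lit 0) (nat_lit 5495979601) (nat_lit 304) (nat_lit 4327471449) (nat_lit 76) (nat_lit 10347003519) (nat_lit 47) (nat_lit 5) (nat_lit 51) (nat_lit 5) (nat_lit 48) (nat_lit 5) (nat_lit 343) (nat_lit 264) (nat_lit 173)))))) (XT.nd (nat_lit 546) (nat_lit 532) (nat_lit 0) (XT.nd (nat_lit 234) (nat_lit 228) (nat_lit 0) (XT.nd (nat_lit 78) (nat_lit 152) (nat_lit 0) (XT.lf (nat_lit 0) (nat_lit 4798124439) (nat_lit 152) (nat_lit 4681270713) (nat_lit 228) (nat_lit 11127448165) (nat_lit 45) (nat_lit 5) (nat_lit 47) (nat_lit 5) (nat_lit 48) (nat_lit 5) (nat_lit 344) (nat_lit 264) (nat_lit 172)) (XT.nd (nat_lit 78) (nat_lit 152) (nat_lit 0) (XT.lf (nat_lit 0) (nat_lit 13612911061) (nat_lit 228) (nat_lit 6807565591) (nat_lit 76) (nat_lit 634939160) (nat_lit 45) (nat_lit 5) (nat_lit 48) (nat_lit 5) (nat_lit 46) (nat_lit 5) (nat_lit 345) (nat_lit 264) (nat_lit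 171)) (XT.lf (nat_lit 0) (nat_lit 2433295380) (nat_lit 152) (nat_lit 15487995841) (nat_lit 228) (nat_lit 3594638230) (nat_lit 43) (nat_lit 5) (nat_lit 45) (nat_lit 5) (nat_lit 46) (nat_lit 5) (nat_lit 346) (nat_lit 264) (nat_lit 170)))) (XT.nd (nat_lit 156) (nat_lit 152) (nat_lit 0) (XT.nd (nat_lit 78) (nat_lit 0) (nat_lit 0) (XT.lf (nat_lit 0) (nat_lit 412069997) (nat_lit 228) (nat_lit 9933025489) (nat_lit 76) (nat_lit 11643547880) (nat_lit 42) (nat_lit 5) (nat_lit 45) (nat_lit 5) (nat_lit 43) (nat_lit 5) (nat_lit 347) (nat_lit 264) (nat_lit 169)) (XT.lf (nat_lit 0) (nat_lit 4448455066) (nat_lit 228) (nat_lit 575136050) (nat_lit 76) (nat_lit 17451437046) (nat_lit 42) (nat_lit 5) (nat_lit 45) (nat_lit 5) (nat_lit 43) (nat_lit 5) (nat_lit 348) (nat_lit 264) (nat_lit 168))) (XT.nd (nat_lit 78) (nat_lit 0) (nat_lit 0) (XT.lf (nat_lit 0) (nat_lit 8681914624) (nat_lit 228) (nat_lit 13765493972) (nat_lit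 76) (nat_lit 526325062) (nat_lit 40) (nat_lit 5) (nat_lit 43) (nat_lit 5) (nat_lit 41) (nat_lit 5) (nat_lit 349) (nat_lit 264) (nat_lit 167)) (XT.lf (nat_lit 0) (nat_lit 13080357552) (nat_lit 228) (nat_lit 4269968500) (nat_lit 76) (nat_lit 6135943275) (nat_lit 40) (nat_lit 5) (nat_lit 43) (nat_lit 5) (nat_lit 41) (nat_lit 5) (nat_lit 350) (nat_lit 264) (nat_lit 166))))) (XT.nd (nat_lit 234) (nat_lit 152) (nat_lit 0) (XT.nd (nat_lit 78) (nat_lit 228) (nat_lit 0) (XT.lf (nat_lit 0) (nat_lit 5590530822) (nat_lit 152) (nat_lit 12056851679) (nat_lit 228) (nat_lit 6365707852) (nat_lit 38) (nat_lit 5) (nat_lit 40) (nat_lit 5) (nat_lit 41) (nat_lit 5) (nat_lit 351) (nat_lit 264) (nat_lit 165)) (XT.nd (nat_lit 78) (nat_lit 228) (nat_lit 0) (XT.lf (nat_lit 0) (nat_lit 15805676139) (nat_lit 152) (nat_lit 6571972005) (nat_lit 228) (nat_lit 2177288881) (nat_lit 38) (nat_lit 5) (nat_lit 40) (nat_lit 5) (nat_lit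 41) (nat_lit 5) (nat_lit 352) (nat_lit 264) (nat_lit 164)) (XT.lf (nat_lit 0) (nat_lit 1188691897) (nat_lit 152) (nat_lit 901254524) (nat_lit 228) (nat_lit 23022638129) (nat_lit 35) (nat_lit 5) (nat_lit 37) (nat_lit 5) (nat_lit 38) (nat_lit 5) (nat_lit 353) (nat_lit 264) (nat_lit 163)))) (XT.nd (nat_lit 156) (nat_lit 152) (nat_lit 0) (XT.nd (nat_lit 78) (nat_lit 0) (nat_lit 0) (XT.lf (nat_lit 0) (nat_lit 6561681390) (nat_lit 228) (nat_lit 14178401350) (nat_lit 76) (nat_lit 4942631962) (nat_lit 35) (nat_lit 5) (nat_lit 38) (nat_lit 5) (nat_lit 36) (nat_lit 5) (nat_lit 354) (nat_lit 264) (nat_lit 162)) (XT.lf (nat_lit 0) (nat_lit 11160507753) (nat_lit 228) (nat_lit 4176954561) (nat_lit 76) (nat_lit 10932705297) (nat_lit 35) (nat_lit 5) (nat_lit 38) (nat_lit 5) (nat_lit 36) (nat_lit 5) (nat_lit 355) (nat_lit 264) (nat_lit 161))) (XT.nd (nat_lit 78) (nat_lit 0) (nat_lit 0) (XT.lf (nat_lit 0) (nat_lit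 6219209430) (nat_lit 152) (nat_lit 9722353906) (nat_lit 228) (nat_lit 10932359660) (nat_lit 33) (nat_lit 5) (nat_lit 35) (nat_lit 5) (nat_lit 36) (nat_lit 5) (nat_lit 356) (nat_lit 264) (nat_lit 160)) (XT.lf (nat_lit 0) (nat_lit 16986458059) (nat_lit 152) (nat_lit 3906451157) (nat_lit 228) (nat_lit 6602082696) (nat_lit 33) (nat_lit 5) (nat_lit 35) (nat_lit 5) (nat_lit 36) (nat_lit 5) (nat_lit 357) (nat_lit 264) (nat_lit 159))))))) (XT.nd (nat_lit 1092) (nat_lit 608) (nat_lit 0) (XT.nd (nat_lit 546) (nat_lit 304) (nat_lit 0) (XT.nd (nat_lit 234) (nat_lit 228) (nat_lit 0) (XT.nd (nat_lit 78) (nat_lit 152) (nat_lit 0) (XT.lf (nat_lit 0) (nat_lit 25997849649) (nat_lit 228) (nat_lit 104003917) (nat_lit 76) (nat_lit 2032694139) (nat_lit 33) (nat_lit 5) (nat_lit 36) (nat_lit 5) (nat_lit 34) (nat_lit 4) (nat_lit 358) (nat_lit 264) (nat_lit 158)) (XT.nd (nat_lit 78) (nat_lit 0) (nat_lit 0) (XT.lf (nat_lit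 0) (nat_lit 2543404951) (nat_lit 152) (nat_lit 18055726137) (nat_lit 76) (nat_lit 8189590613) (nat_lit 31) (nat_lit 5) (nat_lit 33) (nat_lit 5) (nat_lit 32) (nat_lit 5) (nat_lit 359) (nat_lit 264) (nat_lit 157)) (XT.lf (nat_lit 0) (nat_lit 7307519729) (nat_lit 152) (nat_lit 7611711107) (nat_lit 76) (nat_lit 14543064679) (nat_lit 31) (nat_lit 5) (nat_lit 33) (nat_lit 5) (nat_lit 32) (nat_lit 5) (nat_lit 360) (nat_lit 264) (nat_lit 156)))) (XT.nd (nat_lit 156) (nat_lit 76) (nat_lit 0) (XT.nd (nat_lit 78) (nat_lit 0) (nat_lit 0) (XT.lf (nat_lit 0) (nat_lit 3183183554) (nat_lit 152) (nat_lit 9047889182) (nat_lit 228) (nat_lit 17924514081) (nat_lit 29) (nat_lit 5) (nat_lit 31) (nat_lit 5) (nat_lit 32) (nat_lit 5) (nat_lit 361) (nat_lit 264) (nat_lit 155)) (XT.lf (nat_lit 0) (nat_lit 14433642223) (nat_lit 152) (nat_lit 2931646023) (nat_lit 228) (nat_lit 13502505484) (nat_lit 29) (nat_lit 5) (nat_lit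 31) (nat_lit 5) (nat_lit 32) (nat_lit 5) (nat_lit 362) (nat_lit 264) (nat_lit 154))) (XT.nd (nat_lit 78) (nat_lit 76) (nat_lit 0) (XT.lf (nat_lit 0) (nat_lit 22672306801) (nat_lit 228) (nat_lit 5636048843) (nat_lit 76) (nat_lit 3292453296) (nat_lit 29) (nat_lit 5) (nat_lit 32) (nat_lit 5) (nat_lit 30) (nat_lit 4) (nat_lit 363) (nat_lit 264) (nat_lit 153)) (XT.lf (nat_lit 0) (nat_lit 5541889078) (nat_lit 76) (nat_lit 22665741655) (nat_lit 152) (nat_lit 4146116260) (nat_lit 28) (nat_lit 5) (nat_lit 29) (nat_lit 5) (nat_lit 30) (nat_lit 4) (nat_lit 364) (nat_lit 264) (nat_lit 152))))) (XT.nd (nat_lit 234) (nat_lit 76) (nat_lit 0) (XT.nd (nat_lit 78) (nat_lit 152) (nat_lit 0) (XT.lf (nat_lit 0) (nat_lit 808828193) (nat_lit 152) (nat_lit 15988189303) (nat_lit 76) (nat_lit 16330706685) (nat_lit 27) (nat_lit 5) (nat_lit 29) (nat_lit 5) (nat_lit 28) (nat_lit 5) (nat_lit 365) (nat_lit 264) (nat_lit 151))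 (XT.nd (nat_lit 78) (nat_lit 152) (nat_lit 0) (XT.lf (nat_lit 0) (nat_lit 5816297875) (nat_lit 152) (nat_lit 4903446993) (nat_lit 76) (nat_lit 23204332792) (nat_lit 27) (nat_lit 5) (nat_lit 29) (nat_lit 5) (nat_lit 28) (nat_lit 5) (nat_lit 366) (nat_lit 264) (nat_lit 150)) (XT.lf (nat_lit 0) (nat_lit 6621111450) (nat_lit 152) (nat_lit 4404108631) (nat_lit 228) (nat_lit 23717569458) (nat_lit 25) (nat_lit 5) (nat_lit 27) (nat_lit 5) (nat_lit 28) (nat_lit 5) (nat_lit 367) (nat_lit 264) (nat_lit 149)))) (XT.nd (nat_lit 156) (nat_lit 76) (nat_lit 0) (XT.nd (nat_lit 78) (nat_lit 0) (nat_lit 0) (XT.lf (nat_lit 0) (nat_lit 16448255872) (nat_lit 228) (nat_lit 17035335653) (nat_lit 76) (nat_lit 2100740384) (nat_lit 25) (nat_lit 5) (nat_lit 28) (nat_lit 5) (nat_lit 26) (nat_lit 4) (nat_lit 368) (nat_lit 264) (nat_lit 148)) (XT.lf (nat_lit 0) (nat_lit 22065592046) (nat_lit 228) (nat_lit 5681361885) (nat_lit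 76) (nat_lit 8703222719) (nat_lit 25) (nat_lit 5) (nat_lit 28) (nat_lit 5) (nat_lit 26) (nat_lit 4) (nat_lit 369) (nat_lit 264) (nat_lit 147))) (XT.nd (nat_lit 78) (nat_lit 0) (nat_lit 0) (XT.lf (nat_lit 0) (nat_lit 6111761630) (nat_lit 76) (nat_lit 21786790331) (nat_lit 152) (nat_lit 9442035917) (nat_lit 24) (nat_lit 5) (nat_lit 25) (nat_lit 5) (nat_lit 26) (nat_lit 4) (nat_lit 370) (nat_lit 264) (nat_lit 146)) (XT.lf (nat_lit 0) (nat_lit 18354612506) (nat_lit 76) (nat_lit 15597754326) (nat_lit 152) (nat_lit 4303972755) (nat_lit 24) (nat_lit 5) (nat_lit 25) (nat_lit 5) (nat_lit 26) (nat_lit 4) (nat_lit 371) (nat_lit 264) (nat_lit 145)))))) (XT.nd (nat_lit 546) (nat_lit 304) (nat_lit 0) (XT.nd (nat_lit 234) (nat_lit 76) (nat_lit 0) (XT.nd (nat_lit 78) (nat_lit 152) (nat_lit 0) (XT.lf (nat_lit 0) (nat_lit 957664437) (nat_lit 152) (nat_lit 8264473666) (nat_lit 76) (nat_lit 29977483169) (nat_lit 23)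 (nat_lit 5) (nat_lit 25) (nat_lit 5) (nat_lit 24) (nat_lit 5) (nat_lit 372) (nat_lit 264) (nat_lit 144)) (XT.nd (nat_lit 78) (nat_lit 0) (nat_lit 0) (XT.lf (nat_lit 0) (nat_lit 3732547125) (nat_lit 152) (nat_lit 2583022318) (nat_lit 228) (nat_lit 33853609607) (nat_lit 21) (nat_lit 5) (nat_lit 23) (nat_lit 5) (nat_lit 24) (nat_lit 5) (nat_lit 373) (nat_lit 264) (nat_lit 143)) (XT.lf (nat_lit 0) (nat_lit 11948492387) (nat_lit 228) (nat_lit 24967784548) (nat_lit 76) (nat_lit 4248121871) (nat_lit 21) (nat_lit 5) (nat_lit 24) (nat_lit 5) (nat_lit 22) (nat_lit 4) (nat_lit 374) (nat_lit 264) (nat_lit 142)))) (XT.nd (nat_lit 156) (nat_lit 76) (nat_lit 0) (XT.nd (nat_lit 78) (nat_lit 0) (nat_lit 0) (XT.lf (nat_lit 0) (nat_lit 17765390402) (nat_lit 228) (nat_lit 13199500858) (nat_lit 76) (nat_lit 11224137836) (nat_lit 21) (nat_lit 5) (nat_lit 24) (nat_lit 5) (nat_lit 22) (nat_lit 4) (nat_lit 375) (nat_lit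 264) (nat_lit 141)) (XT.lf (nat_lit 0) (nat_lit 23746516623) (nat_lit 228) (nat_lit 1096668298) (nat_lit 76) (nat_lit 18401525194) (nat_lit 21) (nat_lit 5) (nat_lit 24) (nat_lit 5) (nat_lit 22) (nat_lit 4) (nat_lit 376) (nat_lit 264) (nat_lit 140))) (XT.nd (nat_lit 78) (nat_lit 0) (nat_lit 0) (XT.lf (nat_lit 0) (nat_lit 11577201319) (nat_lit 76) (nat_lit 18431183100) (nat_lit 152) (nat_lit 14320641268) (nat_lit 20) (nat_lit 5) (nat_lit 21) (nat_lit 5) (nat_lit 22) (nat_lit 4) (nat_lit 377) (nat_lit 264) (nat_lit 139)) (XT.lf (nat_lit 0) (nat_lit 24635982920) (nat_lit 76) (nat_lit 11823339879) (nat_lit 152) (nat_lit 8986514752) (nat_lit 20) (nat_lit 5) (nat_lit 21) (nat_lit 5) (nat_lit 22) (nat_lit 4) (nat_lit 378) (nat_lit 264) (nat_lit 138))))) (XT.nd (nat_lit 234) (nat_lit 76) (nat_lit 0) (XT.nd (nat_lit 78) (nat_lit 228) (nat_lit 0) (XT.lf (nat_lit 0) (nat_lit 38069261241) (nat_lit 76) (nat_lit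 5024955613) (nat_lit 152) (nat_lit 3502227255) (nat_lit 20) (nat_lit 5) (nat_lit 21) (nat_lit 5) (nat_lit 22) (nat_lit 4) (nat_lit 379) (nat_lit 264) (nat_lit 137)) (XT.nd (nat_lit 78) (nat_lit 0) (nat_lit 0) (XT.lf (nat_lit 0) (nat_lit 2154911079) (nat_lit 228) (nat_lit 43631860565) (nat_lit 76) (nat_lit 1992674878) (nat_lit 17) (nat_lit 5) (nat_lit 20) (nat_lit 5) (nat_lit 18) (nat_lit 4) (nat_lit 380) (nat_lit 264) (nat_lit 136)) (XT.lf (nat_lit 0) (nat_lit 8038735871) (nat_lit 228) (nat_lit 31720235573) (nat_lit 76) (nat_lit 9234109284) (nat_lit 17) (nat_lit 5) (nat_lit 20) (nat_lit 5) (nat_lit 18) (nat_lit 4) (nat_lit 381) (nat_lit 264) (nat_lit 135)))) (XT.nd (nat_lit 156) (nat_lit 76) (nat_lit 0) (XT.nd (nat_lit 78) (nat_lit 0) (nat_lit 0) (XT.lf (nat_lit 0) (nat_lit 14089998895) (nat_lit 228) (nat_lit 19467763223) (nat_lit 76) (nat_lit 16685636950) (nat_lit 17) (nat_lit 5) (nat_lit 20)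 (nat_lit 5) (nat_lit 18) (nat_lit 4) (nat_lit 382) (nat_lit 264) (nat_lit 134)) (XT.lf (nat_lit 0) (nat_lit 20313987661) (nat_lit 228) (nat_lit 6863737472) (nat_lit 76) (nat_lit 24353768919) (nat_lit 17) (nat_lit 5) (nat_lit 20) (nat_lit 5) (nat_lit 18) (nat_lit 4) (nat_lit 383) (nat_lit 264) (nat_lit 133))) (XT.nd (nat_lit 78) (nat_lit 0) (nat_lit 0) (XT.lf (nat_lit 0) (nat_lit 6224313685) (nat_lit 76) (nat_lit 20551658833) (nat_lit 152) (nat_lit 26080723726) (nat_lit 16) (nat_lit 5) (nat_lit 17) (nat_lit 5) (nat_lit 18) (nat_lit 4) (nat_lit 384) (nat_lit 264) (nat_lit 132)) (XT.lf (nat_lit 0) (nat_lit 19830304614) (nat_lit 76) (nat_lit 13662368253) (nat_lit 152) (nat_lit 20727158530) (nat_lit 16) (nat_lit 5) (nat_lit 17) (nat_lit 5) (nat_lit 18) (nat_lit 4) (nat_lit 385) (nat_lit 264) (nat_lit 131))))))))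
noncomputable def xc116 : XT := (XT.nd (nat_lit 31356) (nat_lit 0) (nat_lit 12388) (XT.nd (nat_lit 1014) (nat_lit 228) (nat_lit 0) (XT.nd (nat_lit 468) (nat_lit 152) (nat_lit 0) (XT.nd (nat_lit 234) (nat_lit 76) (nat_lit 0) (XT.nd (nat_lit 78) (nat_lit 76) (nat_lit 0) (XT.lf (nat_lit 0) (nat_lit 33829522209) (nat_lit 76) (nat_lit 6573143915) (nat_lit 152) (nat_lit 15221443221) (nat_lit 16) (nat_lit 5) (nat_lit 17) (nat_lit 5) (nat_lit 18) (nat_lit 4) (nat_lit 386) (nat_lit 264) (nat_lit 130)) (XT.nd (nat_lit 78) (nat_lit 76) (nat_lit 0) (XT.lf (nat_lit 0) (nat_lit 47518932461) (nat_lit 152) (nat_lit 8843500643) (nat_lit 0) (nat_lit 708115755) (nat_lit 16) (nat_lit 5) (nat_lit 18) (nat_lit 4) (nat_lit 16) (nat_lit 4) (nat_lit 387) (nat_lit 264) (nat_lit 129)) (XT.lf (nat_lit 0) (nat_lit 4504672149) (nat_lit 76) (nat_lit 50444598898) (nat_lit 76) (nat_lit 3608095339) (nat_lit 15) (nat_lit 4) (nat_lit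 16) (nat_lit 5) (nat_lit 16) (nat_lit 4) (nat_lit 388) (nat_lit 264) (nat_lit 128)))) (XT.nd (nat_lit 78) (nat_lit 0) (nat_lit 0) (XT.lf (nat_lit 0) (nat_lit 2547080328) (nat_lit 152) (nat_lit 41690869183) (nat_lit 76) (nat_lit 15847644213) (nat_lit 14) (nat_lit 5) (nat_lit 16) (nat_lit 5) (nat_lit 15) (nat_lit 4) (nat_lit 389) (nat_lit 264) (nat_lit 127)) (XT.nd (nat_lit 78) (nat_lit 0) (nat_lit 0) (XT.lf (nat_lit 0) (nat_lit 8806833613) (nat_lit 152) (nat_lit 29007782337) (nat_lit 76) (nat_lit 23844209132) (nat_lit 14) (nat_lit 5) (nat_lit 16) (nat_lit 5) (nat_lit 15) (nat_lit 4) (nat_lit 390) (nat_lit 264) (nat_lit 126)) (XT.lf (nat_lit 0) (nat_lit 15247041138) (nat_lit 152) (nat_lit 15957668171) (nat_lit 76) (nat_lit 32074766315) (nat_lit 14) (nat_lit 5) (nat_lit 16) (nat_lit 5) (nat_lit 15) (nat_lit 4) (nat_lit 391) (nat_lit 264) (nat_lit 125))))) (XT.nd (nat_lit 234) (nat_lit 76) (nat_lit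 0) (XT.nd (nat_lit 78) (nat_lit 76) (nat_lit 0) (XT.lf (nat_lit 0) (nat_lit 21873330268) (nat_lit 152) (nat_lit 2529123672) (nat_lit 76) (nat_lit 40546507511) (nat_lit 14) (nat_lit 5) (nat_lit 16) (nat_lit 5) (nat_lit 15) (nat_lit 4) (nat_lit 392) (nat_lit 264) (nat_lit 124)) (XT.nd (nat_lit 78) (nat_lit 0) (nat_lit 0) (XT.lf (nat_lit 0) (nat_lit 11514269713) (nat_lit 76) (nat_lit 17287903457) (nat_lit 152) (nat_lit 37863247703) (nat_lit 13) (nat_lit 5) (nat_lit 14) (nat_lit 5) (nat_lit 15) (nat_lit 4) (nat_lit 393) (nat_lit 264) (nat_lit 123)) (XT.lf (nat_lit 0) (nat_lit 26018241569) (nat_lit 76) (nat_lit 9939342532) (nat_lit 152) (nat_lit 32475230808) (nat_lit 13) (nat_lit 5) (nat_lit 14) (nat_lit 5) (nat_lit 15) (nat_lit 4) (nat_lit 394) (nat_lit 264) (nat_lit 122)))) (XT.nd (nat_lit 156) (nat_lit 76) (nat_lit 0) (XT.nd (nat_lit 78) (nat_lit 0) (nat_lit 0) (XT.lf (nat_lit 0) (nat_lit 40945130746)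 (nat_lit 76) (nat_lit 2375889285) (nat_lit 152) (nat_lit 26932411714) (nat_lit 13) (nat_lit 5) (nat_lit 14) (nat_lit 5) (nat_lit 15) (nat_lit 4) (nat_lit 395) (nat_lit 264) (nat_lit 121)) (XT.lf (nat_lit 0) (nat_lit 50950910276) (nat_lit 152) (nat_lit 15872877297) (nat_lit 0) (nat_lit 5303514782) (nat_lit 13) (nat_lit 5) (nat_lit 15) (nat_lit 4) (nat_lit 13) (nat_lit 4) (nat_lit 396) (nat_lit 264) (nat_lit 120))) (XT.nd (nat_lit 78) (nat_lit 76) (nat_lit 0) (XT.lf (nat_lit 0) (nat_lit 58826914146) (nat_lit 152) (nat_lit 2069554960) (nat_lit 0) (nat_lit 13160405222) (nat_lit 13) (nat_lit 5) (nat_lit 15) (nat_lit 4) (nat_lit 13) (nat_lit 4) (nat_lit 397) (nat_lit 264) (nat_lit 119)) (XT.lf (nat_lit 0) (nat_lit 12378107121) (nat_lit 76) (nat_lit 54673953903) (nat_lit 76) (nat_lit 8988888250) (nat_lit 12) (nat_lit 4) (nat_lit 13) (nat_lit 5) (nat_lit 13) (nat_lit 4) (nat_lit 398) (nat_lit 264) (nat_lit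 118)))))) (XT.nd (nat_lit 546) (nat_lit 76) (nat_lit 0) (XT.nd (nat_lit 234) (nat_lit 76) (nat_lit 0) (XT.nd (nat_lit 78) (nat_lit 76) (nat_lit 0) (XT.lf (nat_lit 0) (nat_lit 27290432331) (nat_lit 76) (nat_lit 48248376149) (nat_lit 76) (nat_lit 2545294254) (nat_lit 12) (nat_lit 4) (nat_lit 13) (nat_lit 5) (nat_lit 13) (nat_lit 4) (nat_lit 399) (nat_lit 264) (nat_lit 117)) (XT.nd (nat_lit 78) (nat_lit 0) (nat_lit 0) (XT.lf (nat_lit 0) (nat_lit 4005829813) (nat_lit 152) (nat_lit 37588738870) (nat_lit 76) (nat_lit 38592981815) (nat_lit 11) (nat_lit 5) (nat_lit 13) (nat_lit 5) (nat_lit 12) (nat_lit 4) (nat_lit 400) (nat_lit 264) (nat_lit 116)) (XT.lf (nat_lit 0) (nat_lit 10696566849) (nat_lit 152) (nat_lit 24023524723) (nat_lit 76) (nat_lit 47633428492) (nat_lit 11) (nat_lit 5) (nat_lit 13) (nat_lit 5) (nat_lit 12) (nat_lit 4) (nat_lit 401) (nat_lit 264) (nat_lit 115)))) (XT.nd (nat_lit 156) (nat_lit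 0) (nat_lit 0) (XT.nd (nat_lit 78) (nat_lit 76) (nat_lit 0) (XT.lf (nat_lit 0) (nat_lit 17582430985) (nat_lit 152) (nat_lit 10061707939) (nat_lit 76) (nat_lit 56940499109) (nat_lit 11) (nat_lit 5) (nat_lit 13) (nat_lit 5) (nat_lit 12) (nat_lit 4) (nat_lit 402) (nat_lit 264) (nat_lit 114)) (XT.lf (nat_lit 0) (nat_lit 4394666909) (nat_lit 76) (nat_lit 20317016316) (nat_lit 152) (nat_lit 62169903378) (nat_lit 10) (nat_lit 5) (nat_lit 11) (nat_lit 5) (nat_lit 12) (nat_lit 4) (nat_lit 403) (nat_lit 264) (nat_lit 113))) (XT.nd (nat_lit 78) (nat_lit 0) (nat_lit 0) (XT.lf (nat_lit 0) (nat_lit 19481034482) (nat_lit 76) (nat_lit 12670012556) (nat_lit 152) (nat_lit 57093510953) (nat_lit 10) (nat_lit 5) (nat_lit 11) (nat_lit 5) (nat_lit 12) (nat_lit 4) (nat_lit 404) (nat_lit 264) (nat_lit 112)) (XT.lf (nat_lit 0) (nat_lit 35010329326) (nat_lit 76) (nat_lit 4798049319) (nat_lit 152) (nat_lit 51870197613) (nat_lit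 10) (nat_lit 5) (nat_lit 11) (nat_lit 5) (nat_lit 12) (nat_lit 4) (nat_lit 405) (nat_lit 264) (nat_lit 111))))) (XT.nd (nat_lit 234) (nat_lit 76) (nat_lit 0) (XT.nd (nat_lit 78) (nat_lit 0) (nat_lit 0) (XT.lf (nat_lit 0) (nat_lit 47722145828) (nat_lit 152) (nat_lit 43221424397) (nat_lit 0) (nat_lit 3241244684) (nat_lit 10) (nat_lit 5) (nat_lit 12) (nat_lit 4) (nat_lit 10) (nat_lit 4) (nat_lit 406) (nat_lit 264) (nat_lit 110)) (XT.nd (nat_lit 78) (nat_lit 0) (nat_lit 0) (XT.lf (nat_lit 0) (nat_lit 55915877272) (nat_lit 152) (nat_lit 29427919996) (nat_lit 0) (nat_lit 11421168178) (nat_lit 10) (nat_lit 5) (nat_lit 12) (nat_lit 4) (nat_lit 10) (nat_lit 4) (nat_lit 407) (nat_lit 264) (nat_lit 109)) (XT.lf (nat_lit 0) (nat_lit 64350610763) (nat_lit 152) (nat_lit 15229559369) (nat_lit 0) (nat_lit 19842495894) (nat_lit 10) (nat_lit 5) (nat_lit 12) (nat_lit 4) (nat_lit 10) (nat_lit 4) (nat_lit 408) (nat_lit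 264) (nat_lit 108)))) (XT.nd (nat_lit 29406) (nat_lit 0) (nat_lit 22496) (XT.nd (nat_lit 78) (nat_lit 76) (nat_lit 0) (XT.lf (nat_lit 0) (nat_lit 73033716458) (nat_lit 152) (nat_lit 613936181) (nat_lit 0) (nat_lit 28512586272) (nat_lit 10) (nat_lit 5) (nat_lit 12) (nat_lit 4) (nat_lit 10) (nat_lit 4) (nat_lit 409) (nat_lit 264) (nat_lit 107)) (XT.lf (nat_lit 0) (nat_lit 14718940036) (nat_lit 76) (nat_lit 67395328954) (nat_lit 76) (nat_lit 22861562540) (nat_lit 9) (nat_lit 4) (nat_lit 10) (nat_lit 5) (nat_lit 10) (nat_lit 4) (nat_lit 410) (nat_lit 264) (nat_lit 106))) (XT.nd (nat_lit 78) (nat_lit 0) (nat_lit 0) (XT.lf (nat_lit 0) (nat_lit 238988902) (nat_lit 0) (nat_lit 238988902) (nat_lit 380) (nat_lit 2797819200) (nat_lit 305) (nat_lit 5) (nat_lit 305) (nat_lit 3) (nat_lit 310) (nat_lit 3) (nat_lit 265) (nat_lit 265) (nat_lit 250)) (XT.lf (nat_lit 0) (nat_lit 3333300131) (nat_lit 380) (nat_lit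 3013896588) (nat_lit 456) (nat_lit 227395703) (nat_lit 305) (nat_lit 5) (nat_lit 310) (nat_lit 3) (nat_lit 311) (nat_lit 5) (nat_lit 266) (nat_lit 265) (nat_lit 249))))))) (XT.nd (nat_lit 1092) (nat_lit 7296) (nat_lit 0) (XT.nd (nat_lit 546) (nat_lit 1824) (nat_lit 0) (XT.nd (nat_lit 234) (nat_lit 532) (nat_lit 0) (XT.nd (nat_lit 78) (nat_lit 456) (nat_lit 0) (XT.lf (nat_lit 76) (nat_lit 85097474) (nat_lit 0) (nat_lit 5610726325) (nat_lit 456) (nat_lit 905212372) (nat_lit 306) (nat_lit 5) (nat_lit 305) (nat_lit 5) (nat_lit 311) (nat_lit 5) (nat_lit 267) (nat_lit 265) (nat_lit 248)) (XT.nd (nat_lit 78) (nat_lit 0) (nat_lit 0) (XT.lf (nat_lit 0) (nat_lit 1411856145) (nat_lit 456) (nat_lit 3354170045) (nat_lit 532) (nat_lit 1863769669) (nat_lit 299) (nat_lit 5) (nat_lit 305) (nat_lit 5) (nat_lit 306) (nat_lit 5) (nat_lit 268) (nat_lit 265) (nat_lit 247)) (XT.lf (nat_lit 0) (nat_lit 3692339316) (nat_lit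 456) (nat_lit 155951366) (nat_lit 532) (nat_lit 2813652511) (nat_lit 299) (nat_lit 5) (nat_lit 305) (nat_lit 5) (nat_lit 306) (nat_lit 5) (nat_lit 269) (nat_lit 265) (nat_lit 246)))) (XT.nd (nat_lit 156) (nat_lit 0) (nat_lit 0) (XT.nd (nat_lit 78) (nat_lit 532) (nat_lit 0) (XT.lf (nat_lit 76) (nat_lit 3151714659) (nat_lit 0) (nat_lit 2834475298) (nat_lit 532) (nat_lit 710668463) (nat_lit 300) (nat_lit 5) (nat_lit 299) (nat_lit 5) (nat_lit 306) (nat_lit 5) (nat_lit 270) (nat_lit 265) (nat_lit 245)) (XT.lf (nat_lit 0) (nat_lit 1501806702) (nat_lit 532) (nat_lit 235866931) (nat_lit 608) (nat_lit 4997305586) (nat_lit 292) (nat_lit 5) (nat_lit 299) (nat_lit 5) (nat_lit 300) (nat_lit 5) (nat_lit 271) (nat_lit 265) (nat_lit 244))) (XT.nd (nat_lit 78) (nat_lit 0) (nat_lit 76) (XT.lf (nat_lit 76) (nat_lit 3179787717) (nat_lit 0) (nat_lit 535321570) (nat_lit 608) (nat_lit 3060600315) (nat_lit 293) (nat_lit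 5) (nat_lit 292) (nat_lit 5) (nat_lit 300) (nat_lit 5) (nat_lit 272) (nat_lit 265) (nat_lit 243)) (XT.lf (nat_lit 0) (nat_lit 5924385124) (nat_lit 532) (nat_lit 171913327) (nat_lit 608) (nat_lit 723611327) (nat_lit 293) (nat_lit 5) (nat_lit 300) (nat_lit 5) (nat_lit 301) (nat_lit 5) (nat_lit 273) (nat_lit 265) (nat_lit 242))))) (XT.nd (nat_lit 234) (nat_lit 1292) (nat_lit 0) (XT.nd (nat_lit 78) (nat_lit 0) (nat_lit 0) (XT.lf (nat_lit 0) (nat_lit 1268329755) (nat_lit 608) (nat_lit 3512807586) (nat_lit 684) (nat_lit 2085245103) (nat_lit 285) (nat_lit 5) (nat_lit 293) (nat_lit 5) (nat_lit 294) (nat_lit 5) (nat_lit 274) (nat_lit 265) (nat_lit 241)) (XT.nd (nat_lit 78) (nat_lit 0) (nat_lit 0) (XT.lf (nat_lit 76) (nat_lit 15587252) (nat_lit 0) (nat_lit 3389058373) (nat_lit 684) (nat_lit 3511694958) (nat_lit 286) (nat_lit 5) (nat_lit 285) (nat_lit 5) (nat_lit 294) (nat_lit 5) (nat_lit 275) (nat_lit 265)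 (nat_lit 240)) (XT.lf (nat_lit 76) (nat_lit 3672345445) (nat_lit 0) (nat_lit 1893568192) (nat_lit 684) (nat_lit 1403177989) (nat_lit 286) (nat_lit 5) (nat_lit 285) (nat_lit 5) (nat_lit 294) (nat_lit 5) (nat_lit 276) (nat_lit 265) (nat_lit 239)))) (XT.nd (nat_lit 156) (nat_lit 608) (nat_lit 0) (XT.nd (nat_lit 78) (nat_lit 0) (nat_lit 76) (XT.lf (nat_lit 76) (nat_lit 365497910) (nat_lit 0) (nat_lit 318343754) (nat_lit 760) (nat_lit 6341567683) (nat_lit 277) (nat_lit 5) (nat_lit 276) (nat_lit 5) (nat_lit 286) (nat_lit 5) (nat_lit 277) (nat_lit 265) (nat_lit 238)) (XT.lf (nat_lit 0) (nat_lit 2780035311) (nat_lit 684) (nat_lit 2955601833) (nat_lit 76) (nat_lit 1348229545) (nat_lit 277) (nat_lit 5) (nat_lit 286) (nat_lit 5) (nat_lit 278) (nat_lit 5) (nat_lit 278) (nat_lit 265) (nat_lit 237))) (XT.nd (nat_lit 78) (nat_lit 0) (nat_lit 0) (XT.lf (nat_lit 0) (nat_lit 822626166) (nat_lit 684) (nat_lit 4058236884)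 (nat_lit 760) (nat_lit 2265068907) (nat_lit 268) (nat_lit 5) (nat_lit 277) (nat_lit 5) (nat_lit 278) (nat_lit 5) (nat_lit 279) (nat_lit 265) (nat_lit 236)) (XT.lf (nat_lit 0) (nat_lit 4725167860) (nat_lit 684) (nat_lit 2281624119) (nat_lit 760) (nat_lit 204308461) (nat_lit 268) (nat_lit 5) (nat_lit 277) (nat_lit 5) (nat_lit 278) (nat_lit 5) (nat_lit 280) (nat_lit 265) (nat_lit 235)))))) (XT.nd (nat_lit 546) (nat_lit 3648) (nat_lit 0) (XT.nd (nat_lit 234) (nat_lit 1976) (nat_lit 0) (XT.nd (nat_lit 78) (nat_lit 836) (nat_lit 0) (XT.lf (nat_lit 0) (nat_lit 1426358761) (nat_lit 760) (nat_lit 401649047) (nat_lit 836) (nat_lit 5451345618) (nat_lit 257) (nat_lit 5) (nat_lit 267) (nat_lit 5) (nat_lit 268) (nat_lit 5) (nat_lit 281) (nat_lit 265) (nat_lit 234)) (XT.nd (nat_lit 78) (nat_lit 836) (nat_lit 0) (XT.lf (nat_lit 0) (nat_lit 3892365549) (nat_lit 836) (nat_lit 1910258240) (nat_lit 76) (nat_lit 1547808937)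 (nat_lit 257) (nat_lit 5) (nat_lit 268) (nat_lit 5) (nat_lit 258) (nat_lit 5) (nat_lit 282) (nat_lit 265) (nat_lit 233)) (XT.lf (nat_lit 0) (nat_lit 2138700574) (nat_lit 836) (nat_lit 3841453787) (nat_lit 912) (nat_lit 1444737035) (nat_lit 246) (nat_lit 5) (nat_lit 257) (nat_lit 5) (nat_lit 258) (nat_lit 5) (nat_lit 283) (nat_lit 265) (nat_lit 232)))) (XT.nd (nat_lit 156) (nat_lit 988) (nat_lit 0) (XT.nd (nat_lit 78) (nat_lit 912) (nat_lit 0) (XT.lf (nat_lit 0) (nat_lit 573828653) (nat_lit 912) (nat_lit 1209612171) (nat_lit 76) (nat_lit 5719335046) (nat_lit 245) (nat_lit 5) (nat_lit 257) (nat_lit 5) (nat_lit 246) (nat_lit 5) (nat_lit 284) (nat_lit 265) (nat_lit 231)) (XT.lf (nat_lit 0) (nat_lit 2595810781) (nat_lit 988) (nat_lit 4603368550) (nat_lit 76) (nat_lit 384315693) (nat_lit 233) (nat_lit 5) (nat_lit 246) (nat_lit 5) (nat_lit 234) (nat_lit 5) (nat_lit 285) (nat_lit 265) (nat_lit 230))) (XT.nd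 (nat_lit 78) (nat_lit 988) (nat_lit 0) (XT.lf (nat_lit 0) (nat_lit 4649288317) (nat_lit 988) (nat_lit 414354728) (nat_lit 76) (nat_lit 2603949369) (nat_lit 233) (nat_lit 5) (nat_lit 246) (nat_lit 5) (nat_lit 234) (nat_lit 5) (nat_lit 286) (nat_lit 265) (nat_lit 229)) (XT.lf (nat_lit 0) (nat_lit 3927790585) (nat_lit 988) (nat_lit 2816901421) (nat_lit 1064) (nat_lit 1010190427) (nat_lit 220) (nat_lit 5) (nat_lit 233) (nat_lit 5) (nat_lit 234) (nat_lit 5) (nat_lit 287) (nat_lit 265) (nat_lit 228))))) (XT.nd (nat_lit 234) (nat_lit 1368) (nat_lit 0) (XT.nd (nat_lit 78) (nat_lit 1140) (nat_lit 0) (XT.lf (nat_lit 0) (nat_lit 513935520) (nat_lit 1064) (nat_lit 475886271) (nat_lit 1140) (nat_lit 6856169900) (nat_lit 205) (nat_lit 5) (nat_lit 219) (nat_lit 5) (nat_lit 220) (nat_lit 5) (nat_lit 288) (nat_lit 265) (nat_lit 227)) (XT.nd (nat_lit 78) (nat_lit 1140) (nat_lit 0) (XT.lf (nat_lit 0) (nat_lit 3031542405)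 (nat_lit 1140) (nat_lit 2955240364) (nat_lit 76) (nat_lit 1952763670) (nat_lit 205) (nat_lit 5) (nat_lit 220) (nat_lit 5) (nat_lit 206) (nat_lit 5) (nat_lit 289) (nat_lit 265) (nat_lit 226)) (XT.lf (nat_lit 0) (nat_lit 1528259452) (nat_lit 1140) (nat_lit 3571656759) (nat_lit 1216) (nat_lit 2937100083) (nat_lit 190) (nat_lit 5) (nat_lit 205) (nat_lit 5) (nat_lit 206) (nat_lit 5) (nat_lit 290) (nat_lit 265) (nat_lit 225)))) (XT.nd (nat_lit 156) (nat_lit 608) (nat_lit 0) (XT.nd (nat_lit 78) (nat_lit 760) (nat_lit 0) (XT.lf (nat_lit 0) (nat_lit 6157600781) (nat_lit 1140) (nat_lit 1049681329) (nat_lit 1216) (nat_lit 930888365) (nat_lit 190) (nat_lit 5) (nat_lit 205) (nat_lit 5) (nat_lit 206) (nat_lit 5) (nat_lit 291) (nat_lit 265) (nat_lit 224)) (XT.lf (nat_lit 0) (nat_lit 1102411382) (nat_lit 760) (nat_lit 5582297851) (nat_lit 76) (nat_lit 1557715332) (nat_lit 180) (nat_lit 5) (nat_lit 190) (nat_lit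 5) (nat_lit 181) (nat_lit 5) (nat_lit 292) (nat_lit 265) (nat_lit 223))) (XT.nd (nat_lit 78) (nat_lit 608) (nat_lit 0) (XT.lf (nat_lit 0) (nat_lit 3157727610) (nat_lit 760) (nat_lit 938410437) (nat_lit 76) (nat_lit 4254062555) (nat_lit 180) (nat_lit 5) (nat_lit 190) (nat_lit 5) (nat_lit 181) (nat_lit 5) (nat_lit 293) (nat_lit 265) (nat_lit 222)) (XT.lf (nat_lit 0) (nat_lit 3871762832) (nat_lit 608) (nat_lit 1390776349) (nat_lit 684) (nat_lit 3199096485) (nat_lit 172) (nat_lit 5) (nat_lit 180) (nat_lit 5) (nat_lit 181) (nat_lit 5) (nat_lit 294) (nat_lit 265) (nat_lit 221))))))))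
noncomputable def xc117 : XT := (XT.nd (nat_lit 2184) (nat_lit 3116) (nat_lit 0) (XT.nd (nat_lit 1092) (nat_lit 2888) (nat_lit 0) (XT.nd (nat_lit 546) (nat_lit 1824) (nat_lit 0) (XT.nd (nat_lit 234) (nat_lit 1064) (nat_lit 0) (XT.nd (nat_lit 78) (nat_lit 608) (nat_lit 0) (XT.lf (nat_lit 0) (nat_lit 210321214) (nat_lit 532) (nat_lit 7196779180) (nat_lit 608) (nat_lit 1170074282) (nat_lit 165) (nat_lit 5) (nat_lit 172) (nat_lit 5) (nat_lit 173) (nat_lit 5) (nat_lit 295) (nat_lit 265) (nat_lit 220)) (XT.nd (nat_lit 78) (nat_lit 532) (nat_lit 0) (XT.lf (nat_lit 0) (nat_lit 914455474) (nat_lit 608) (nat_lit 3519396167) (nat_lit 76) (nat_lit 4261741045) (nat_lit 164) (nat_lit 5) (nat_lit 172) (nat_lit 5) (nat_lit 165) (nat_lit 5) (nat_lit 296) (nat_lit 265) (nat_lit 219)) (XT.lf (nat_lit 0) (nat_lit 1441341315) (nat_lit 532) (nat_lit 1563923534) (nat_lit 608) (nat_lit 5812987049) (nat_lit 157) (nat_lit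 5) (nat_lit 164) (nat_lit 5) (nat_lit 165) (nat_lit 5) (nat_lit 297) (nat_lit 265) (nat_lit 218)))) (XT.nd (nat_lit 156) (nat_lit 608) (nat_lit 0) (XT.nd (nat_lit 78) (nat_lit 456) (nat_lit 0) (XT.lf (nat_lit 0) (nat_lit 5162346736) (nat_lit 608) (nat_lit 2383819714) (nat_lit 76) (nat_lit 1398370456) (nat_lit 157) (nat_lit 5) (nat_lit 165) (nat_lit 5) (nat_lit 158) (nat_lit 5) (nat_lit 298) (nat_lit 265) (nat_lit 217)) (XT.lf (nat_lit 0) (nat_lit 2749061961) (nat_lit 456) (nat_lit 4632596572) (nat_lit 532) (nat_lit 1693077346) (nat_lit 151) (nat_lit 5) (nat_lit 157) (nat_lit 5) (nat_lit 158) (nat_lit 5) (nat_lit 299) (nat_lit 265) (nat_lit 216))) (XT.nd (nat_lit 78) (nat_lit 532) (nat_lit 0) (XT.lf (nat_lit 0) (nat_lit 430030248) (nat_lit 532) (nat_lit 1176584246) (nat_lit 76) (nat_lit 7602733886) (nat_lit 150) (nat_lit 5) (nat_lit 157) (nat_lit 5) (nat_lit 151) (nat_lit 5) (nat_lit 300) (nat_lit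 265) (nat_lit 215)) (XT.lf (nat_lit 0) (nat_lit 2594914367) (nat_lit 608) (nat_lit 5218785731) (nat_lit 76) (nat_lit 1533479505) (nat_lit 143) (nat_lit 5) (nat_lit 151) (nat_lit 5) (nat_lit 144) (nat_lit 5) (nat_lit 301) (nat_lit 265) (nat_lit 214))))) (XT.nd (nat_lit 234) (nat_lit 912) (nat_lit 0) (XT.nd (nat_lit 78) (nat_lit 456) (nat_lit 0) (XT.lf (nat_lit 0) (nat_lit 65103153) (nat_lit 456) (nat_lit 4746168569) (nat_lit 532) (nat_lit 4678323498) (nat_lit 137) (nat_lit 5) (nat_lit 143) (nat_lit 5) (nat_lit 144) (nat_lit 5) (nat_lit 302) (nat_lit 265) (nat_lit 213)) (XT.nd (nat_lit 78) (nat_lit 456) (nat_lit 0) (XT.lf (nat_lit 0) (nat_lit 5566965854) (nat_lit 456) (nat_lit 1538615073) (nat_lit 532) (nat_lit 2530402484) (nat_lit 137) (nat_lit 5) (nat_lit 143) (nat_lit 5) (nat_lit 144) (nat_lit 5) (nat_lit 303) (nat_lit 265) (nat_lit 212)) (XT.lf (nat_lit 0) (nat_lit 1410350551) (nat_lit 456) (nat_lit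 8048797949) (nat_lit 532) (nat_lit 327944535) (nat_lit 131) (nat_lit 5) (nat_lit 137) (nat_lit 5) (nat_lit 138) (nat_lit 5) (nat_lit 304) (nat_lit 265) (nat_lit 211)))) (XT.nd (nat_lit 156) (nat_lit 456) (nat_lit 0) (XT.nd (nat_lit 78) (nat_lit 380) (nat_lit 0) (XT.lf (nat_lit 0) (nat_lit 1919640034) (nat_lit 532) (nat_lit 2885979784) (nat_lit 76) (nat_lit 5136089096) (nat_lit 130) (nat_lit 5) (nat_lit 137) (nat_lit 5) (nat_lit 131) (nat_lit 5) (nat_lit 305) (nat_lit 265) (nat_lit 210)) (XT.lf (nat_lit 0) (nat_lit 2774088029) (nat_lit 380) (nat_lit 1441989462) (nat_lit 456) (nat_lit 5885186909) (nat_lit 125) (nat_lit 5) (nat_lit 130) (nat_lit 5) (nat_lit 131) (nat_lit 5) (nat_lit 306) (nat_lit 265) (nat_lit 209))) (XT.nd (nat_lit 78) (nat_lit 456) (nat_lit 0) (XT.lf (nat_lit 0) (nat_lit 6592241007) (nat_lit 456) (nat_lit 1668295494) (nat_lit 76) (nat_lit 2004782963) (nat_lit 125) (nat_lit 5) (nat_lit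 131) (nat_lit 5) (nat_lit 126) (nat_lit 5) (nat_lit 307) (nat_lit 265) (nat_lit 208)) (XT.lf (nat_lit 0) (nat_lit 4182099665) (nat_lit 456) (nat_lit 4875135426) (nat_lit 532) (nat_lit 1376571518) (nat_lit 119) (nat_lit 5) (nat_lit 125) (nat_lit 5) (nat_lit 126) (nat_lit 5) (nat_lit 308) (nat_lit 265) (nat_lit 207)))))) (XT.nd (nat_lit 546) (nat_lit 1292) (nat_lit 0) (XT.nd (nat_lit 234) (nat_lit 760) (nat_lit 0) (XT.nd (nat_lit 78) (nat_lit 760) (nat_lit 0) (XT.lf (nat_lit 0) (nat_lit 949863415) (nat_lit 532) (nat_lit 420210659) (nat_lit 76) (nat_lit 9237613971) (nat_lit 118) (nat_lit 5) (nat_lit 125) (nat_lit 5) (nat_lit 119) (nat_lit 5) (nat_lit 309) (nat_lit 265) (nat_lit 206)) (XT.nd (nat_lit 78) (nat_lit 380) (nat_lit 0) (XT.lf (nat_lit 0) (nat_lit 3359122854) (nat_lit 456) (nat_lit 5169916393) (nat_lit 76) (nat_lit 2256150494) (nat_lit 113) (nat_lit 5) (nat_lit 119) (nat_lit 5) (nat_lit 114)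 (nat_lit 5) (nat_lit 310) (nat_lit 265) (nat_lit 205)) (XT.lf (nat_lit 0) (nat_lit 830014036) (nat_lit 380) (nat_lit 5001384156) (nat_lit 456) (nat_lit 5136928849) (nat_lit 108) (nat_lit 5) (nat_lit 113) (nat_lit 5) (nat_lit 114) (nat_lit 5) (nat_lit 311) (nat_lit 265) (nat_lit 204)))) (XT.nd (nat_lit 156) (nat_lit 456) (nat_lit 0) (XT.nd (nat_lit 78) (nat_lit 304) (nat_lit 0) (XT.lf (nat_lit 0) (nat_lit 7071240952) (nat_lit 380) (nat_lit 1324308541) (nat_lit 456) (nat_lit 2760909478) (nat_lit 108) (nat_lit 5) (nat_lit 113) (nat_lit 5) (nat_lit 114) (nat_lit 5) (nat_lit 312) (nat_lit 265) (nat_lit 203)) (XT.lf (nat_lit 0) (nat_lit 2122899707) (nat_lit 304) (nat_lit 8924220334) (nat_lit 380) (nat_lit 302830797) (nat_lit 104) (nat_lit 5) (nat_lit 108) (nat_lit 5) (nat_lit 109) (nat_lit 5) (nat_lit 313) (nat_lit 265) (nat_lit 202))) (XT.nd (nat_lit 78) (nat_lit 380) (nat_lit 0) (XT.lf (nat_lit 0)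 (nat_lit 2206879262) (nat_lit 380) (nat_lit 3026530722) (nat_lit 76) (nat_lit 6314582194) (nat_lit 103) (nat_lit 5) (nat_lit 108) (nat_lit 5) (nat_lit 104) (nat_lit 5) (nat_lit 314) (nat_lit 265) (nat_lit 201)) (XT.lf (nat_lit 0) (nat_lit 3379677087) (nat_lit 380) (nat_lit 1406188486) (nat_lit 456) (nat_lit 6966045291) (nat_lit 98) (nat_lit 5) (nat_lit 103) (nat_lit 5) (nat_lit 104) (nat_lit 5) (nat_lit 315) (nat_lit 265) (nat_lit 200))))) (XT.nd (nat_lit 234) (nat_lit 912) (nat_lit 0) (XT.nd (nat_lit 78) (nat_lit 380) (nat_lit 0) (XT.lf (nat_lit 0) (nat_lit 7465472998) (nat_lit 456) (nat_lit 1989330621) (nat_lit 76) (nat_lit 2506473328) (nat_lit 98) (nat_lit 5) (nat_lit 104) (nat_lit 5) (nat_lit 99) (nat_lit 5) (nat_lit 316) (nat_lit 265) (nat_lit 199)) (XT.nd (nat_lit 78) (nat_lit 76) (nat_lit 0) (XT.lf (nat_lit 0) (nat_lit 4618806640) (nat_lit 304) (nat_lit 5633925949) (nat_lit 380) (nat_lit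 1923400091) (nat_lit 94) (nat_lit 5) (nat_lit 98) (nat_lit 5) (nat_lit 99) (nat_lit 5) (nat_lit 317) (nat_lit 265) (nat_lit 198)) (XT.lf (nat_lit 0) (nat_lit 701407886) (nat_lit 380) (nat_lit 980726768) (nat_lit 76) (nat_lit 10715433005) (nat_lit 93) (nat_lit 5) (nat_lit 98) (nat_lit 5) (nat_lit 94) (nat_lit 5) (nat_lit 318) (nat_lit 265) (nat_lit 197)))) (XT.nd (nat_lit 156) (nat_lit 608) (nat_lit 0) (XT.nd (nat_lit 78) (nat_lit 0) (nat_lit 0) (XT.lf (nat_lit 0) (nat_lit 3416110958) (nat_lit 380) (nat_lit 6801125541) (nat_lit 76) (nat_lit 2406367932) (nat_lit 89) (nat_lit 5) (nat_lit 94) (nat_lit 5) (nat_lit 90) (nat_lit 5) (nat_lit 319) (nat_lit 265) (nat_lit 196)) (XT.lf (nat_lit 0) (nat_lit 6209294139) (nat_lit 380) (nat_lit 64825264) (nat_lit 76) (nat_lit 6582415352) (nat_lit 89) (nat_lit 5) (nat_lit 94) (nat_lit 5) (nat_lit 90) (nat_lit 5) (nat_lit 320) (nat_lit 265) (nat_lit 195))) (XT.nd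 (nat_lit 78) (nat_lit 304) (nat_lit 0) (XT.lf (nat_lit 0) (nat_lit 6968939673) (nat_lit 304) (nat_lit 2155568239) (nat_lit 380) (nat_lit 3970820956) (nat_lit 85) (nat_lit 5) (nat_lit 89) (nat_lit 5) (nat_lit 90) (nat_lit 5) (nat_lit 321) (nat_lit 265) (nat_lit 194)) (XT.lf (nat_lit 0) (nat_lit 828918698) (nat_lit 304) (nat_lit 11298527479) (nat_lit 380) (nat_lit 1213854848) (nat_lit 81) (nat_lit 5) (nat_lit 85) (nat_lit 5) (nat_lit 86) (nat_lit 5) (nat_lit 322) (nat_lit 265) (nat_lit 193))))))) (XT.nd (nat_lit 1092) (nat_lit 1292) (nat_lit 0) (XT.nd (nat_lit 546) (nat_lit 912) (nat_lit 0) (XT.nd (nat_lit 234) (nat_lit 608) (nat_lit 0) (XT.nd (nat_lit 78) (nat_lit 228) (nat_lit 0) (XT.lf (nat_lit 0) (nat_lit 1649635252) (nat_lit 380) (nat_lit 5553063031) (nat_lit 76) (nat_lit 6389839981) (nat_lit 80) (nat_lit 5) (nat_lit 85) (nat_lit 5) (nat_lit 81) (nat_lit 5) (nat_lit 323) (nat_lit 265) (nat_lit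 192)) (XT.nd (nat_lit 78) (nat_lit 0) (nat_lit 0) (XT.lf (nat_lit 0) (nat_lit 1594169882) (nat_lit 228) (nat_lit 2968332001) (nat_lit 304) (nat_lit 9288834487) (nat_lit 77) (nat_lit 5) (nat_lit 80) (nat_lit 5) (nat_lit 81) (nat_lit 5) (nat_lit 324) (nat_lit 265) (nat_lit 191)) (XT.lf (nat_lit 0) (nat_lit 7605619647) (nat_lit 304) (nat_lit 5100784526) (nat_lit 76) (nat_lit 1410228073) (nat_lit 77) (nat_lit 5) (nat_lit 81) (nat_lit 5) (nat_lit 78) (nat_lit 5) (nat_lit 325) (nat_lit 265) (nat_lit 190)))) (XT.nd (nat_lit 156) (nat_lit 304) (nat_lit 0) (XT.nd (nat_lit 78) (nat_lit 0) (nat_lit 0) (XT.lf (nat_lit 0) (nat_lit 2245618312) (nat_lit 304) (nat_lit 8519023161) (nat_lit 380) (nat_lit 3624526415) (nat_lit 73) (nat_lit 5) (nat_lit 77) (nat_lit 5) (nat_lit 78) (nat_lit 5) (nat_lit 326) (nat_lit 265) (nat_lit 189)) (XT.lf (nat_lit 0) (nat_lit 9878256406) (nat_lit 304) (nat_lit 4165716053) (nat_lit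 380) (nat_lit 625159631) (nat_lit 73) (nat_lit 5) (nat_lit 77) (nat_lit 5) (nat_lit 78) (nat_lit 5) (nat_lit 327) (nat_lit 265) (nat_lit 188))) (XT.nd (nat_lit 78) (nat_lit 0) (nat_lit 0) (XT.lf (nat_lit 0) (nat_lit 2420730676) (nat_lit 304) (nat_lit 12185481166) (nat_lit 76) (nat_lit 350451502) (nat_lit 69) (nat_lit 5) (nat_lit 73) (nat_lit 5) (nat_lit 70) (nat_lit 5) (nat_lit 328) (nat_lit 265) (nat_lit 187)) (XT.lf (nat_lit 0) (nat_lit 5610312203) (nat_lit 304) (nat_lit 4679362363) (nat_lit 76) (nat_lit 4961030953) (nat_lit 69) (nat_lit 5) (nat_lit 73) (nat_lit 5) (nat_lit 70) (nat_lit 5) (nat_lit 329) (nat_lit 265) (nat_lit 186))))) (XT.nd (nat_lit 234) (nat_lit 456) (nat_lit 0) (XT.nd (nat_lit 78) (nat_lit 228) (nat_lit 0) (XT.lf (nat_lit 0) (nat_lit 3074666158) (nat_lit 228) (nat_lit 5825982669) (nat_lit 304) (nat_lit 6652784670) (nat_lit 66) (nat_lit 5) (nat_lit 69) (nat_lit 5) (nat_lit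 70) (nat_lit 5) (nat_lit 330) (nat_lit 265) (nat_lit 185)) (XT.nd (nat_lit 78) (nat_lit 228) (nat_lit 0) (XT.lf (nat_lit 0) (nat_lit 11120331629) (nat_lit 228) (nat_lit 1192486861) (nat_lit 304) (nat_lit 3551747220) (nat_lit 66) (nat_lit 5) (nat_lit 69) (nat_lit 5) (nat_lit 70) (nat_lit 5) (nat_lit 331) (nat_lit 265) (nat_lit 184)) (XT.lf (nat_lit 0) (nat_lit 3214212267) (nat_lit 228) (nat_lit 12654905346) (nat_lit 304) (nat_lit 314676961) (nat_lit 63) (nat_lit 5) (nat_lit 66) (nat_lit 5) (nat_lit 67) (nat_lit 5) (nat_lit 332) (nat_lit 265) (nat_lit 183)))) (XT.nd (nat_lit 156) (nat_lit 152) (nat_lit 0) (XT.nd (nat_lit 78) (nat_lit 228) (nat_lit 0) (XT.lf (nat_lit 0) (nat_lit 2997321092) (nat_lit 304) (nat_lit 5080360161) (nat_lit 76) (nat_lit 8432960896) (nat_lit 62) (nat_lit 5) (nat_lit 66) (nat_lit 5) (nat_lit 63) (nat_lit 5) (nat_lit 333) (nat_lit 265) (nat_lit 182)) (XT.lf (nat_lit 0) (nat_lit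 3066776829) (nat_lit 228) (nat_lit 3342288873) (nat_lit 304) (nat_lit 10437948933) (nat_lit 59) (nat_lit 5) (nat_lit 62) (nat_lit 5) (nat_lit 63) (nat_lit 5) (nat_lit 334) (nat_lit 265) (nat_lit 181))) (XT.nd (nat_lit 78) (nat_lit 152) (nat_lit 0) (XT.lf (nat_lit 0) (nat_lit 9967164065) (nat_lit 304) (nat_lit 5680441019) (nat_lit 76) (nat_lit 1544567043) (nat_lit 59) (nat_lit 5) (nat_lit 63) (nat_lit 5) (nat_lit 60) (nat_lit 5) (nat_lit 335) (nat_lit 265) (nat_lit 180)) (XT.lf (nat_lit 0) (nat_lit 2646227935) (nat_lit 152) (nat_lit 11022398664) (nat_lit 228) (nat_lit 3877972577) (nat_lit 57) (nat_lit 5) (nat_lit 59) (nat_lit 5) (nat_lit 60) (nat_lit 5) (nat_lit 336) (nat_lit 265) (nat_lit 179)))))) (XT.nd (nat_lit 546) (nat_lit 532) (nat_lit 0) (XT.nd (nat_lit 234) (nat_lit 456) (nat_lit 0) (XT.nd (nat_lit 78) (nat_lit 304) (nat_lit 0) (XT.lf (nat_lit 0) (nat_lit 11304813099) (nat_lit 152) (nat_lit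 6212081435) (nat_lit 228) (nat_lit 393704735) (nat_lit 57) (nat_lit 5) (nat_lit 59) (nat_lit 5) (nat_lit 60) (nat_lit 5) (nat_lit 337) (nat_lit 265) (nat_lit 178)) (XT.nd (nat_lit 78) (nat_lit 0) (nat_lit 0) (XT.lf (nat_lit 0) (nat_lit 1910441302) (nat_lit 228) (nat_lit 1219475684) (nat_lit 304) (nat_lit 15154778104) (nat_lit 53) (nat_lit 5) (nat_lit 56) (nat_lit 5) (nat_lit 57) (nat_lit 5) (nat_lit 338) (nat_lit 265) (nat_lit 177)) (XT.lf (nat_lit 0) (nat_lit 6835394218) (nat_lit 304) (nat_lit 7926661680) (nat_lit 76) (nat_lit 3905331114) (nat_lit 53) (nat_lit 5) (nat_lit 57) (nat_lit 5) (nat_lit 54) (nat_lit 5) (nat_lit 339) (nat_lit 265) (nat_lit 176)))) (XT.nd (nat_lit 156) (nat_lit 304) (nat_lit 0) (XT.nd (nat_lit 78) (nat_lit 0) (nat_lit 0) (XT.lf (nat_lit 0) (nat_lit 743839066) (nat_lit 152) (nat_lit 9907017652) (nat_lit 228) (nat_lit 8410749966) (nat_lit 51) (nat_lit 5) (nat_lit 53) (nat_lit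 5) (nat_lit 54) (nat_lit 5) (nat_lit 340) (nat_lit 265) (nat_lit 175)) (XT.lf (nat_lit 0) (nat_lit 9804306681) (nat_lit 152) (nat_lit 4836397397) (nat_lit 228) (nat_lit 4825162519) (nat_lit 51) (nat_lit 5) (nat_lit 53) (nat_lit 5) (nat_lit 54) (nat_lit 5) (nat_lit 341) (nat_lit 265) (nat_lit 174))) (XT.nd (nat_lit 78) (nat_lit 304) (nat_lit 0) (XT.lf (nat_lit 0) (nat_lit 18734307164) (nat_lit 228) (nat_lit 781546353) (nat_lit 76) (nat_lit 366889934) (nat_lit 51) (nat_lit 5) (nat_lit 54) (nat_lit 5) (nat_lit 52) (nat_lit 5) (nat_lit 342) (nat_lit 265) (nat_lit 173)) (XT.lf (nat_lit 0) (nat_lit 2698219328) (nat_lit 304) (nat_lit 11884633773) (nat_lit 76) (nat_lit 5725189440) (nat_lit 47) (nat_lit 5) (nat_lit 51) (nat_lit 5) (nat_lit 48) (nat_lit 5) (nat_lit 343) (nat_lit 265) (nat_lit 172))))) (XT.nd (nat_lit 234) (nat_lit 380) (nat_lit 0) (XT.nd (nat_lit 78) (nat_lit 152) (nat_lit 0) (XT.lf (nat_lit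 0) (nat_lit 6626143407) (nat_lit 304) (nat_lit 2868091250) (nat_lit 76) (nat_lit 11251866312) (nat_lit 47) (nat_lit 5) (nat_lit 51) (nat_lit 5) (nat_lit 48) (nat_lit 5) (nat_lit 344) (nat_lit 265) (nat_lit 171)) (XT.nd (nat_lit 78) (nat_lit 0) (nat_lit 0) (XT.lf (nat_lit 0) (nat_lit 6515692079) (nat_lit 152) (nat_lit 4200380901) (nat_lit 228) (nat_lit 10479912869) (nat_lit 45) (nat_lit 5) (nat_lit 47) (nat_lit 5) (nat_lit 48) (nat_lit 5) (nat_lit 345) (nat_lit 265) (nat_lit 170)) (XT.lf (nat_lit 0) (nat_lit 14951656216) (nat_lit 228) (nat_lit 5461584705) (nat_lit 76) (nat_lit 1245447129) (nat_lit 45) (nat_lit 5) (nat_lit 48) (nat_lit 5) (nat_lit 46) (nat_lit 5) (nat_lit 346) (nat_lit 265) (nat_lit 169)))) (XT.nd (nat_lit 156) (nat_lit 152) (nat_lit 0) (XT.nd (nat_lit 78) (nat_lit 76) (nat_lit 0) (XT.lf (nat_lit 0) (nat_lit 4041303979) (nat_lit 152) (nat_lit 15335641454) (nat_lit 228) (nat_lit 2756455901)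 (nat_lit 43) (nat_lit 5) (nat_lit 45) (nat_lit 5) (nat_lit 46) (nat_lit 5) (nat_lit 347) (nat_lit 265) (nat_lit 168)) (XT.lf (nat_lit 0) (nat_lit 1324976941) (nat_lit 228) (nat_lit 8722354117) (nat_lit 76) (nat_lit 12573516451) (nat_lit 42) (nat_lit 5) (nat_lit 45) (nat_lit 5) (nat_lit 43) (nat_lit 5) (nat_lit 348) (nat_lit 265) (nat_lit 167))) (XT.nd (nat_lit 78) (nat_lit 0) (nat_lit 0) (XT.lf (nat_lit 0) (nat_lit 889691474) (nat_lit 152) (nat_lit 4575084884) (nat_lit 228) (nat_lit 17657590587) (nat_lit 40) (nat_lit 5) (nat_lit 42) (nat_lit 5) (nat_lit 43) (nat_lit 5) (nat_lit 349) (nat_lit 265) (nat_lit 166)) (XT.lf (nat_lit 0) (nat_lit 9810811773) (nat_lit 228) (nat_lit 12707448975) (nat_lit 76) (nat_lit 1118218106) (nat_lit 40) (nat_lit 5) (nat_lit 43) (nat_lit 5) (nat_lit 41) (nat_lit 5) (nat_lit 350) (nat_lit 265) (nat_lit 165))))))))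
noncomputable def xc118 : XT := (XT.nd (nat_lit 2106) (nat_lit 836) (nat_lit 0) (XT.nd (nat_lit 1014) (nat_lit 608) (nat_lit 0) (XT.nd (nat_lit 468) (nat_lit 456) (nat_lit 0) (XT.nd (nat_lit 234) (nat_lit 228) (nat_lit 0) (XT.nd (nat_lit 78) (nat_lit 152) (nat_lit 0) (XT.lf (nat_lit 0) (nat_lit 14315913628) (nat_lit 228) (nat_lit 2969902685) (nat_lit 76) (nat_lit 6879345158) (nat_lit 40) (nat_lit 5) (nat_lit 43) (nat_lit 5) (nat_lit 41) (nat_lit 5) (nat_lit 351) (nat_lit 265) (nat_lit 164)) (XT.nd (nat_lit 78) (nat_lit 0) (nat_lit 0) (XT.lf (nat_lit 0) (nat_lit 7172410001) (nat_lit 152) (nat_lit 11836575496) (nat_lit 228) (nat_lit 5699142243) (nat_lit 38) (nat_lit 5) (nat_lit 40) (nat_lit 5) (nat_lit 41) (nat_lit 5) (nat_lit 352) (nat_lit 265) (nat_lit 163)) (XT.lf (nat_lit 0) (nat_lit 17652820456) (nat_lit 152) (nat_lit 6204100356) (nat_lit 228) (nat_lit 1410047504) (nat_lit 38) (nat_lit 5) (nat_lit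 40) (nat_lit 5) (nat_lit 41) (nat_lit 5) (nat_lit 353) (nat_lit 265) (nat_lit 162)))) (XT.nd (nat_lit 78) (nat_lit 0) (nat_lit 0) (XT.lf (nat_lit 0) (nat_lit 2600317021) (nat_lit 152) (nat_lit 358092072) (nat_lit 228) (nat_lit 22883023270) (nat_lit 35) (nat_lit 5) (nat_lit 37) (nat_lit 5) (nat_lit 38) (nat_lit 5) (nat_lit 354) (nat_lit 265) (nat_lit 161)) (XT.nd (nat_lit 78) (nat_lit 0) (nat_lit 0) (XT.lf (nat_lit 0) (nat_lit 7546148717) (nat_lit 228) (nat_lit 13249371859) (nat_lit 76) (nat_lit 5633700659) (nat_lit 35) (nat_lit 5) (nat_lit 38) (nat_lit 5) (nat_lit 36) (nat_lit 5) (nat_lit 355) (nat_lit 265) (nat_lit 160)) (XT.lf (nat_lit 0) (nat_lit 12259999573) (nat_lit 228) (nat_lit 2987329671) (nat_lit 76) (nat_lit 11787666783) (nat_lit 35) (nat_lit 5) (nat_lit 38) (nat_lit 5) (nat_lit 36) (nat_lit 5) (nat_lit 356) (nat_lit 265) (nat_lit 159))))) (XT.nd (nat_lit 234) (nat_lit 228) (nat_lit 0)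 (XT.nd (nat_lit 78) (nat_lit 76) (nat_lit 0) (XT.lf (nat_lit 0) (nat_lit 7707827734) (nat_lit 152) (nat_lit 9466902981) (nat_lit 228) (nat_lit 10482435840) (nat_lit 33) (nat_lit 5) (nat_lit 35) (nat_lit 5) (nat_lit 36) (nat_lit 5) (nat_lit 357) (nat_lit 265) (nat_lit 158)) (XT.nd (nat_lit 78) (nat_lit 76) (nat_lit 0) (XT.lf (nat_lit 0) (nat_lit 18760170268) (nat_lit 152) (nat_lit 3492458728) (nat_lit 228) (nat_lit 6044907692) (nat_lit 33) (nat_lit 5) (nat_lit 35) (nat_lit 5) (nat_lit 36) (nat_lit 5) (nat_lit 358) (nat_lit 265) (nat_lit 157)) (XT.lf (nat_lit 0) (nat_lit 1159499417) (nat_lit 76) (nat_lit 26345973857) (nat_lit 152) (nat_lit 1450972443) (nat_lit 32) (nat_lit 5) (nat_lit 33) (nat_lit 5) (nat_lit 34) (nat_lit 4) (nat_lit 359) (nat_lit 265) (nat_lit 156)))) (XT.nd (nat_lit 156) (nat_lit 152) (nat_lit 0) (XT.nd (nat_lit 78) (nat_lit 0) (nat_lit 0) (XT.lf (nat_lit 0) (nat_lit 3334518140)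 (nat_lit 152) (nat_lit 17351080284) (nat_lit 76) (nat_lit 8945050489) (nat_lit 31) (nat_lit 5) (nat_lit 33) (nat_lit 5) (nat_lit 32) (nat_lit 5) (nat_lit 360) (nat_lit 265) (nat_lit 155)) (XT.lf (nat_lit 0) (nat_lit 8220736622) (nat_lit 152) (nat_lit 6630045318) (nat_lit 76) (nat_lit 15474281045) (nat_lit 31) (nat_lit 5) (nat_lit 33) (nat_lit 5) (nat_lit 32) (nat_lit 5) (nat_lit 361) (nat_lit 265) (nat_lit 154))) (XT.nd (nat_lit 78) (nat_lit 0) (nat_lit 0) (XT.lf (nat_lit 0) (nat_lit 4476833270) (nat_lit 152) (nat_lit 8806467001) (nat_lit 228) (nat_lit 17756121836) (nat_lit 29) (nat_lit 5) (nat_lit 31) (nat_lit 5) (nat_lit 32) (nat_lit 5) (nat_lit 362) (nat_lit 265) (nat_lit 153)) (XT.lf (nat_lit 0) (nat_lit 16029908003) (nat_lit 152) (nat_lit 2521674184) (nat_lit 228) (nat_lit 13222019806) (nat_lit 29) (nat_lit 5) (nat_lit 31) (nat_lit 5) (nat_lit 32) (nat_lit 5) (nat_lit 363) (nat_lit 265) (nat_lit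 152)))))) (XT.nd (nat_lit 546) (nat_lit 304) (nat_lit 0) (XT.nd (nat_lit 234) (nat_lit 152) (nat_lit 0) (XT.nd (nat_lit 78) (nat_lit 152) (nat_lit 0) (XT.lf (nat_lit 0) (nat_lit 24003079518) (nat_lit 228) (nat_lit 4660765514) (nat_lit 76) (nat_lit 3865212315) (nat_lit 29) (nat_lit 5) (nat_lit 32) (nat_lit 5) (nat_lit 30) (nat_lit 4) (nat_lit 364) (nat_lit 265) (nat_lit 151)) (XT.nd (nat_lit 78) (nat_lit 76) (nat_lit 0) (XT.lf (nat_lit 0) (nat_lit 6841291282) (nat_lit 76) (nat_lit 22855114757) (nat_lit 152) (nat_lit 3608426724) (nat_lit 28) (nat_lit 5) (nat_lit 29) (nat_lit 5) (nat_lit 30) (nat_lit 4) (nat_lit 365) (nat_lit 265) (nat_lit 150)) (XT.lf (nat_lit 0) (nat_lit 1463339247) (nat_lit 152) (nat_lit 15354914671) (nat_lit 76) (nat_lit 17284158720) (nat_lit 27) (nat_lit 5) (nat_lit 29) (nat_lit 5) (nat_lit 28) (nat_lit 5) (nat_lit 366) (nat_lit 265) (nat_lit 149)))) (XT.nd (nat_lit 156) (nat_lit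 0) (nat_lit 0) (XT.nd (nat_lit 78) (nat_lit 152) (nat_lit 0) (XT.lf (nat_lit 0) (nat_lit 6602676334) (nat_lit 152) (nat_lit 3970045246) (nat_lit 76) (nat_lit 24350492712) (nat_lit 27) (nat_lit 5) (nat_lit 29) (nat_lit 5) (nat_lit 28) (nat_lit 5) (nat_lit 367) (nat_lit 265) (nat_lit 148)) (XT.lf (nat_lit 0) (nat_lit 7889656763) (nat_lit 152) (nat_lit 4070672067) (nat_lit 228) (nat_lit 23806391489) (nat_lit 25) (nat_lit 5) (nat_lit 27) (nat_lit 5) (nat_lit 28) (nat_lit 5) (nat_lit 368) (nat_lit 265) (nat_lit 147))) (XT.nd (nat_lit 78) (nat_lit 0) (nat_lit 0) (XT.lf (nat_lit 0) (nat_lit 17532798103) (nat_lit 228) (nat_lit 16494172780) (nat_lit 76) (nat_lit 2606942279) (nat_lit 25) (nat_lit 5) (nat_lit 28) (nat_lit 5) (nat_lit 26) (nat_lit 4) (nat_lit 369) (nat_lit 265) (nat_lit 146)) (XT.lf (nat_lit 0) (nat_lit 23301438016) (nat_lit 228) (nat_lit 4830227070) (nat_lit 76) (nat_lit 9394590938) (nat_lit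 25) (nat_lit 5) (nat_lit 28) (nat_lit 5) (nat_lit 26) (nat_lit 4) (nat_lit 370) (nat_lit 265) (nat_lit 145))))) (XT.nd (nat_lit 234) (nat_lit 152) (nat_lit 0) (XT.nd (nat_lit 78) (nat_lit 76) (nat_lit 0) (XT.lf (nat_lit 0) (nat_lit 7306674703) (nat_lit 76) (nat_lit 21995720862) (nat_lit 152) (nat_lit 9141199863) (nat_lit 24) (nat_lit 5) (nat_lit 25) (nat_lit 5) (nat_lit 26) (nat_lit 4) (nat_lit 371) (nat_lit 265) (nat_lit 144)) (XT.nd (nat_lit 78) (nat_lit 76) (nat_lit 0) (XT.lf (nat_lit 0) (nat_lit 19887348187) (nat_lit 76) (nat_lit 15633965423) (nat_lit 152) (nat_lit 3866007344) (nat_lit 24) (nat_lit 5) (nat_lit 25) (nat_lit 5) (nat_lit 26) (nat_lit 4) (nat_lit 372) (nat_lit 265) (nat_lit 143)) (XT.lf (nat_lit 0) (nat_lit 1526218380) (nat_lit 152) (nat_lit 7547985583) (nat_lit 76) (nat_lit 31285025019) (nat_lit 23) (nat_lit 5) (nat_lit 25) (nat_lit 5) (nat_lit 24) (nat_lit 5) (nat_lit 373) (nat_lit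 265) (nat_lit 142)))) (XT.nd (nat_lit 156) (nat_lit 0) (nat_lit 0) (XT.nd (nat_lit 78) (nat_lit 0) (nat_lit 0) (XT.lf (nat_lit 0) (nat_lit 4799490712) (nat_lit 152) (nat_lit 2238826524) (nat_lit 228) (nat_lit 34319757979) (nat_lit 21) (nat_lit 5) (nat_lit 23) (nat_lit 5) (nat_lit 24) (nat_lit 5) (nat_lit 374) (nat_lit 265) (nat_lit 141)) (XT.lf (nat_lit 0) (nat_lit 12828630865) (nat_lit 228) (nat_lit 24777892967) (nat_lit 76) (nat_lit 4776980908) (nat_lit 21) (nat_lit 5) (nat_lit 24) (nat_lit 5) (nat_lit 22) (nat_lit 4) (nat_lit 375) (nat_lit 265) (nat_lit 140))) (XT.nd (nat_lit 78) (nat_lit 0) (nat_lit 0) (XT.lf (nat_lit 0) (nat_lit 18804841149) (nat_lit 228) (nat_lit 12683908100) (nat_lit 76) (nat_lit 11950585642) (nat_lit 21) (nat_lit 5) (nat_lit 24) (nat_lit 5) (nat_lit 22) (nat_lit 4) (nat_lit 376) (nat_lit 265) (nat_lit 139)) (XT.lf (nat_lit 0) (nat_lit 24950649050) (nat_lit 228) (nat_lit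 244541372) (nat_lit 76) (nat_lit 19331943445) (nat_lit 21) (nat_lit 5) (nat_lit 24) (nat_lit 5) (nat_lit 22) (nat_lit 4) (nat_lit 377) (nat_lit 265) (nat_lit 138))))))) (XT.nd (nat_lit 1092) (nat_lit 304) (nat_lit 0) (XT.nd (nat_lit 546) (nat_lit 228) (nat_lit 0) (XT.nd (nat_lit 234) (nat_lit 228) (nat_lit 0) (XT.nd (nat_lit 78) (nat_lit 0) (nat_lit 0) (XT.lf (nat_lit 0) (nat_lit 12800867598) (nat_lit 76) (nat_lit 18593606861) (nat_lit 152) (nat_lit 14249686219) (nat_lit 20) (nat_lit 5) (nat_lit 21) (nat_lit 5) (nat_lit 22) (nat_lit 4) (nat_lit 378) (nat_lit 265) (nat_lit 137)) (XT.nd (nat_lit 78) (nat_lit 0) (nat_lit 0) (XT.lf (nat_lit 0) (nat_lit 26225887883) (nat_lit 76) (nat_lit 11798902471) (nat_lit 152) (nat_lit 8770115740) (nat_lit 20) (nat_lit 5) (nat_lit 21) (nat_lit 5) (nat_lit 22) (nat_lit 4) (nat_lit 379) (nat_lit 265) (nat_lit 136)) (XT.lf (nat_lit 0) (nat_lit 40037383230) (nat_lit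 76) (nat_lit 4807609520) (nat_lit 152) (nat_lit 3135454797) (nat_lit 20) (nat_lit 5) (nat_lit 21) (nat_lit 5) (nat_lit 22) (nat_lit 4) (nat_lit 380) (nat_lit 265) (nat_lit 135)))) (XT.nd (nat_lit 156) (nat_lit 0) (nat_lit 0) (XT.nd (nat_lit 78) (nat_lit 0) (nat_lit 0) (XT.lf (nat_lit 0) (nat_lit 2680224938) (nat_lit 228) (nat_lit 44103309774) (nat_lit 76) (nat_lit 2415332496) (nat_lit 17) (nat_lit 5) (nat_lit 20) (nat_lit 5) (nat_lit 18) (nat_lit 4) (nat_lit 381) (nat_lit 265) (nat_lit 134)) (XT.lf (nat_lit 0) (nat_lit 8727147002) (nat_lit 228) (nat_lit 31858729429) (nat_lit 76) (nat_lit 9863440691) (nat_lit 17) (nat_lit 5) (nat_lit 20) (nat_lit 5) (nat_lit 18) (nat_lit 4) (nat_lit 382) (nat_lit 265) (nat_lit 133))) (XT.nd (nat_lit 78) (nat_lit 0) (nat_lit 0) (XT.lf (nat_lit 0) (nat_lit 14946921245) (nat_lit 228) (nat_lit 19262365818) (nat_lit 76) (nat_lit 17528252785) (nat_lit 17) (nat_lit 5)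 (nat_lit 20) (nat_lit 5) (nat_lit 18) (nat_lit 4) (nat_lit 383) (nat_lit 265) (nat_lit 132)) (XT.lf (nat_lit 0) (nat_lit 21344982421) (nat_lit 228) (nat_lit 6303212410) (nat_lit 76) (nat_lit 25416466187) (nat_lit 17) (nat_lit 5) (nat_lit 20) (nat_lit 5) (nat_lit 18) (nat_lit 4) (nat_lit 384) (nat_lit 265) (nat_lit 131))))) (XT.nd (nat_lit 234) (nat_lit 152) (nat_lit 0) (XT.nd (nat_lit 78) (nat_lit 0) (nat_lit 0) (XT.lf (nat_lit 0) (nat_lit 7169966192) (nat_lit 76) (nat_lit 20825876977) (nat_lit 152) (nat_lit 26433929419) (nat_lit 16) (nat_lit 5) (nat_lit 17) (nat_lit 5) (nat_lit 18) (nat_lit 4) (nat_lit 385) (nat_lit 265) (nat_lit 130)) (XT.nd (nat_lit 78) (nat_lit 0) (nat_lit 0) (XT.lf (nat_lit 0) (nat_lit 21162032293) (nat_lit 76) (nat_lit 13739878504) (nat_lit 152) (nat_lit 20932258705) (nat_lit 16) (nat_lit 5) (nat_lit 17) (nat_lit 5) (nat_lit 18) (nat_lit 4) (nat_lit 386) (nat_lit 265) (nat_lit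 129)) (XT.lf (nat_lit 0) (nat_lit 35559765682) (nat_lit 76) (nat_lit 6447657847) (nat_lit 152) (nat_lit 15273509254) (nat_lit 16) (nat_lit 5) (nat_lit 17) (nat_lit 5) (nat_lit 18) (nat_lit 4) (nat_lit 387) (nat_lit 265) (nat_lit 128)))) (XT.nd (nat_lit 156) (nat_lit 76) (nat_lit 0) (XT.nd (nat_lit 78) (nat_lit 76) (nat_lit 0) (XT.lf (nat_lit 0) (nat_lit 49328752107) (nat_lit 152) (nat_lit 8405741732) (nat_lit 0) (nat_lit 1036527897) (nat_lit 16) (nat_lit 5) (nat_lit 18) (nat_lit 4) (nat_lit 16) (nat_lit 4) (nat_lit 388) (nat_lit 265) (nat_lit 127)) (XT.lf (nat_lit 0) (nat_lit 5335983459) (nat_lit 76) (nat_lit 51641517617) (nat_lit 76) (nat_lit 3325081085) (nat_lit 15) (nat_lit 4) (nat_lit 16) (nat_lit 5) (nat_lit 16) (nat_lit 4) (nat_lit 389) (nat_lit 265) (nat_lit 126))) (XT.nd (nat_lit 78) (nat_lit 0) (nat_lit 0) (XT.lf (nat_lit 0) (nat_lit 2995941553) (nat_lit 152) (nat_lit 42258182288) (nat_lit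 76) (nat_lit 16622758039) (nat_lit 14) (nat_lit 5) (nat_lit 16) (nat_lit 5) (nat_lit 15) (nat_lit 4) (nat_lit 390) (nat_lit 265) (nat_lit 125)) (XT.lf (nat_lit 0) (nat_lit 9432639412) (nat_lit 152) (nat_lit 29214508069) (nat_lit 76) (nat_lit 24850491230) (nat_lit 14) (nat_lit 5) (nat_lit 16) (nat_lit 5) (nat_lit 15) (nat_lit 4) (nat_lit 391) (nat_lit 265) (nat_lit 124)))))) (XT.nd (nat_lit 546) (nat_lit 228) (nat_lit 0) (XT.nd (nat_lit 234) (nat_lit 0) (nat_lit 0) (XT.nd (nat_lit 78) (nat_lit 76) (nat_lit 0) (XT.lf (nat_lit 0) (nat_lit 16055521101) (nat_lit 152) (nat_lit 15792215946) (nat_lit 76) (nat_lit 33319490687) (nat_lit 14) (nat_lit 5) (nat_lit 16) (nat_lit 5) (nat_lit 15) (nat_lit 4) (nat_lit 392) (nat_lit 265) (nat_lit 123)) (XT.nd (nat_lit 78) (nat_lit 76) (nat_lit 0) (XT.lf (nat_lit 0) (nat_lit 22870373603) (nat_lit 152) (nat_lit 1979577702) (nat_lit 76) (nat_lit 42037156506) (nat_lit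 14) (nat_lit 5) (nat_lit 16) (nat_lit 5) (nat_lit 15) (nat_lit 4) (nat_lit 393) (nat_lit 265) (nat_lit 122)) (XT.lf (nat_lit 0) (nat_lit 12478985919) (nat_lit 76) (nat_lit 17524121370) (nat_lit 152) (nat_lit 38652075792) (nat_lit 13) (nat_lit 5) (nat_lit 14) (nat_lit 5) (nat_lit 15) (nat_lit 4) (nat_lit 394) (nat_lit 265) (nat_lit 121)))) (XT.nd (nat_lit 156) (nat_lit 0) (nat_lit 0) (XT.nd (nat_lit 78) (nat_lit 0) (nat_lit 0) (XT.lf (nat_lit 0) (nat_lit 27400039412) (nat_lit 76) (nat_lit 9963329420) (nat_lit 152) (nat_lit 33112527206) (nat_lit 13) (nat_lit 5) (nat_lit 14) (nat_lit 5) (nat_lit 15) (nat_lit 4) (nat_lit 395) (nat_lit 265) (nat_lit 120)) (XT.lf (nat_lit 0) (nat_lit 42757223112) (nat_lit 76) (nat_lit 2180958791) (nat_lit 152) (nat_lit 27413237923) (nat_lit 13) (nat_lit 5) (nat_lit 14) (nat_lit 5) (nat_lit 15) (nat_lit 4) (nat_lit 396) (nat_lit 265) (nat_lit 119))) (XT.nd (nat_lit 78)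 (nat_lit 0) (nat_lit 0) (XT.lf (nat_lit 0) (nat_lit 52790204784) (nat_lit 152) (nat_lit 15775476849) (nat_lit 0) (nat_lit 5716030432) (nat_lit 13) (nat_lit 5) (nat_lit 15) (nat_lit 4) (nat_lit 13) (nat_lit 4) (nat_lit 397) (nat_lit 265) (nat_lit 118)) (XT.lf (nat_lit 0) (nat_lit 60893437299) (nat_lit 152) (nat_lit 1574761253) (nat_lit 0) (nat_lit 13801246705) (nat_lit 13) (nat_lit 5) (nat_lit 15) (nat_lit 4) (nat_lit 13) (nat_lit 4) (nat_lit 398) (nat_lit 265) (nat_lit 117))))) (XT.nd (nat_lit 234) (nat_lit 76) (nat_lit 0) (XT.nd (nat_lit 78) (nat_lit 76) (nat_lit 0) (XT.lf (nat_lit 0) (nat_lit 13300871079) (nat_lit 76) (nat_lit 56060980261) (nat_lit 76) (nat_lit 8951298170) (nat_lit 12) (nat_lit 4) (nat_lit 13) (nat_lit 5) (nat_lit 13) (nat_lit 4) (nat_lit 399) (nat_lit 265) (nat_lit 116)) (XT.nd (nat_lit 78) (nat_lit 76) (nat_lit 0) (XT.lf (nat_lit 0) (nat_lit 28644505247) (nat_lit 76) (nat_lit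 49450009706) (nat_lit 76) (nat_lit 2323345580) (nat_lit 12) (nat_lit 4) (nat_lit 13) (nat_lit 5) (nat_lit 13) (nat_lit 4) (nat_lit 400) (nat_lit 265) (nat_lit 115)) (XT.lf (nat_lit 0) (nat_lit 4409972132) (nat_lit 152) (nat_lit 38190908109) (nat_lit 76) (nat_lit 39983703268) (nat_lit 11) (nat_lit 5) (nat_lit 13) (nat_lit 5) (nat_lit 12) (nat_lit 4) (nat_lit 401) (nat_lit 265) (nat_lit 114)))) (XT.nd (nat_lit 156) (nat_lit 76) (nat_lit 0) (XT.nd (nat_lit 78) (nat_lit 0) (nat_lit 0) (XT.lf (nat_lit 0) (nat_lit 11293160383) (nat_lit 152) (nat_lit 24234043157) (nat_lit 76) (nat_lit 49288578918) (nat_lit 11) (nat_lit 5) (nat_lit 13) (nat_lit 5) (nat_lit 12) (nat_lit 4) (nat_lit 402) (nat_lit 265) (nat_lit 113)) (XT.lf (nat_lit 0) (nat_lit 18377570448) (nat_lit 152) (nat_lit 9868231693) (nat_lit 76) (nat_lit 58868274831) (nat_lit 11) (nat_lit 5) (nat_lit 13) (nat_lit 5) (nat_lit 12) (nat_lit 4) (nat_lit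 403) (nat_lit 265) (nat_lit 112))) (XT.nd (nat_lit 78) (nat_lit 0) (nat_lit 0) (XT.lf (nat_lit 0) (nat_lit 5016978248) (nat_lit 76) (nat_lit 20700640605) (nat_lit 152) (nat_lit 63762409634) (nat_lit 10) (nat_lit 5) (nat_lit 11) (nat_lit 5) (nat_lit 12) (nat_lit 4) (nat_lit 404) (nat_lit 265) (nat_lit 111)) (XT.lf (nat_lit 0) (nat_lit 20541651275) (nat_lit 76) (nat_lit 12830805942) (nat_lit 152) (nat_lit 58541664975) (nat_lit 10) (nat_lit 5) (nat_lit 11) (nat_lit 5) (nat_lit 12) (nat_lit 4) (nat_lit 405) (nat_lit 265) (nat_lit 110))))))))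
noncomputable def xc119 : XT := (XT.nd (nat_lit 31512) (nat_lit 0) (nat_lit 6688) (XT.nd (nat_lit 30420) (nat_lit 0) (nat_lit 15884) (XT.nd (nat_lit 29874) (nat_lit 0) (nat_lit 20824) (XT.nd (nat_lit 234) (nat_lit 0) (nat_lit 0) (XT.nd (nat_lit 78) (nat_lit 0) (nat_lit 0) (XT.lf (nat_lit 0) (nat_lit 36522955476) (nat_lit 76) (nat_lit 4729071390) (nat_lit 152) (nat_lit 53169360525) (nat_lit 10) (nat_lit 5) (nat_lit 11) (nat_lit 5) (nat_lit 12) (nat_lit 4) (nat_lit 406) (nat_lit 265) (nat_lit 109)) (XT.nd (nat_lit 78) (nat_lit 0) (nat_lit 0) (XT.lf (nat_lit 0) (nat_lit 49397930177) (nat_lit 152) (nat_lit 44063877116) (nat_lit 0) (nat_lit 3541166086) (nat_lit 10) (nat_lit 5) (nat_lit 12) (nat_lit 4) (nat_lit 10) (nat_lit 4) (nat_lit 407) (nat_lit 265) (nat_lit 108)) (XT.lf (nat_lit 0) (nat_lit 57830363274) (nat_lit 152) (nat_lit 29869796419) (nat_lit 0) (nat_lit 11960583867) (nat_lit 10) (nat_lit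 5) (nat_lit 12) (nat_lit 4) (nat_lit 10) (nat_lit 4) (nat_lit 408) (nat_lit 265) (nat_lit 107)))) (XT.nd (nat_lit 29484) (nat_lit 0) (nat_lit 21888) (XT.nd (nat_lit 78) (nat_lit 0) (nat_lit 0) (XT.lf (nat_lit 0) (nat_lit 66511235575) (nat_lit 152) (nat_lit 15258328502) (nat_lit 0) (nat_lit 20628819939) (nat_lit 10) (nat_lit 5) (nat_lit 12) (nat_lit 4) (nat_lit 10) (nat_lit 4) (nat_lit 409) (nat_lit 265) (nat_lit 106)) (XT.lf (nat_lit 0) (nat_lit 75448132310) (nat_lit 152) (nat_lit 216706064) (nat_lit 0) (nat_lit 29553448490) (nat_lit 10) (nat_lit 5) (nat_lit 12) (nat_lit 4) (nat_lit 10) (nat_lit 4) (nat_lit 410) (nat_lit 265) (nat_lit 105))) (XT.nd (nat_lit 78) (nat_lit 532) (nat_lit 0) (XT.lf (nat_lit 0) (nat_lit 1415199867) (nat_lit 0) (nat_lit 1415199867) (nat_lit 380) (nat_lit 469185514) (nat_lit 305) (nat_lit 5) (nat_lit 305) (nat_lit 3) (nat_lit 310) (nat_lit 3) (nat_lit 266) (nat_lit 266)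 (nat_lit 248)) (XT.lf (nat_lit 0) (nat_lit 1317481894) (nat_lit 532) (nat_lit 700318261) (nat_lit 532) (nat_lit 4609079073) (nat_lit 298) (nat_lit 3) (nat_lit 305) (nat_lit 3) (nat_lit 305) (nat_lit 5) (nat_lit 267) (nat_lit 266) (nat_lit 247))))) (XT.nd (nat_lit 234) (nat_lit 608) (nat_lit 0) (XT.nd (nat_lit 78) (nat_lit 456) (nat_lit 0) (XT.lf (nat_lit 76) (nat_lit 2453444479) (nat_lit 0) (nat_lit 1104425992) (nat_lit 532) (nat_lit 3099355037) (nat_lit 299) (nat_lit 5) (nat_lit 298) (nat_lit 3) (nat_lit 305) (nat_lit 5) (nat_lit 268) (nat_lit 266) (nat_lit 246)) (XT.nd (nat_lit 78) (nat_lit 456) (nat_lit 0) (XT.lf (nat_lit 76) (nat_lit 5671292259) (nat_lit 0) (nat_lit 115514358) (nat_lit 532) (nat_lit 904187544) (nat_lit 299) (nat_lit 5) (nat_lit 298) (nat_lit 3) (nat_lit 305) (nat_lit 5) (nat_lit 269) (nat_lit 266) (nat_lit 245)) (XT.lf (nat_lit 0) (nat_lit 1277130246) (nat_lit 532) (nat_lit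 4491528745) (nat_lit 608) (nat_lit 958465773) (nat_lit 292) (nat_lit 5) (nat_lit 299) (nat_lit 5) (nat_lit 300) (nat_lit 5) (nat_lit 270) (nat_lit 266) (nat_lit 244)))) (XT.nd (nat_lit 156) (nat_lit 608) (nat_lit 0) (XT.nd (nat_lit 78) (nat_lit 0) (nat_lit 0) (XT.lf (nat_lit 0) (nat_lit 3435427776) (nat_lit 532) (nat_lit 1212685893) (nat_lit 608) (nat_lit 2118204800) (nat_lit 292) (nat_lit 5) (nat_lit 299) (nat_lit 5) (nat_lit 300) (nat_lit 5) (nat_lit 271) (nat_lit 266) (nat_lit 243)) (XT.lf (nat_lit 76) (nat_lit 2160156941) (nat_lit 0) (nat_lit 3439636248) (nat_lit 608) (nat_lit 1208790334) (nat_lit 293) (nat_lit 5) (nat_lit 292) (nat_lit 5) (nat_lit 300) (nat_lit 5) (nat_lit 272) (nat_lit 266) (nat_lit 242))) (XT.nd (nat_lit 78) (nat_lit 0) (nat_lit 0) (XT.lf (nat_lit 0) (nat_lit 891804479) (nat_lit 608) (nat_lit 1249968503) (nat_lit 684) (nat_lit 4712172288) (nat_lit 284) (nat_lit 5) (nat_lit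 292) (nat_lit 5) (nat_lit 293) (nat_lit 5) (nat_lit 273) (nat_lit 266) (nat_lit 241)) (XT.lf (nat_lit 76) (nat_lit 2235742515) (nat_lit 0) (nat_lit 740684742) (nat_lit 684) (nat_lit 3925646036) (nat_lit 285) (nat_lit 5) (nat_lit 284) (nat_lit 5) (nat_lit 293) (nat_lit 5) (nat_lit 274) (nat_lit 266) (nat_lit 240)))))) (XT.nd (nat_lit 546) (nat_lit 3648) (nat_lit 0) (XT.nd (nat_lit 234) (nat_lit 684) (nat_lit 0) (XT.nd (nat_lit 78) (nat_lit 684) (nat_lit 0) (XT.lf (nat_lit 0) (nat_lit 5068954166) (nat_lit 608) (nat_lit 1155027442) (nat_lit 684) (nat_lit 729422626) (nat_lit 285) (nat_lit 5) (nat_lit 293) (nat_lit 5) (nat_lit 294) (nat_lit 5) (nat_lit 275) (nat_lit 266) (nat_lit 239)) (XT.nd (nat_lit 78) (nat_lit 0) (nat_lit 0) (XT.lf (nat_lit 0) (nat_lit 172165939) (nat_lit 684) (nat_lit 4554240226) (nat_lit 760) (nat_lit 2281166092) (nat_lit 276) (nat_lit 5) (nat_lit 285) (nat_lit 5) (nat_lit 286)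 (nat_lit 5) (nat_lit 276) (nat_lit 266) (nat_lit 238)) (XT.lf (nat_lit 0) (nat_lit 2193249698) (nat_lit 684) (nat_lit 936351396) (nat_lit 760) (nat_lit 3935094997) (nat_lit 276) (nat_lit 5) (nat_lit 285) (nat_lit 5) (nat_lit 286) (nat_lit 5) (nat_lit 277) (nat_lit 266) (nat_lit 237)))) (XT.nd (nat_lit 156) (nat_lit 684) (nat_lit 0) (XT.nd (nat_lit 78) (nat_lit 0) (nat_lit 76) (XT.lf (nat_lit 76) (nat_lit 2797892614) (nat_lit 0) (nat_lit 1434906136) (nat_lit 760) (nat_lit 2892106561) (nat_lit 277) (nat_lit 5) (nat_lit 276) (nat_lit 5) (nat_lit 286) (nat_lit 5) (nat_lit 278) (nat_lit 266) (nat_lit 236)) (XT.lf (nat_lit 0) (nat_lit 6278776719) (nat_lit 684) (nat_lit 575010315) (nat_lit 76) (nat_lit 334880047) (nat_lit 277) (nat_lit 5) (nat_lit 286) (nat_lit 5) (nat_lit 278) (nat_lit 5) (nat_lit 279) (nat_lit 266) (nat_lit 235))) (XT.nd (nat_lit 78) (nat_lit 0) (nat_lit 0) (XT.lf (nat_lit 0) (nat_lit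 1089938222) (nat_lit 760) (nat_lit 3973356127) (nat_lit 76) (nat_lit 2191411635) (nat_lit 267) (nat_lit 5) (nat_lit 277) (nat_lit 5) (nat_lit 268) (nat_lit 5) (nat_lit 280) (nat_lit 266) (nat_lit 234)) (XT.lf (nat_lit 0) (nat_lit 3072730385) (nat_lit 760) (nat_lit 114582446) (nat_lit 76) (nat_lit 4137000022) (nat_lit 267) (nat_lit 5) (nat_lit 277) (nat_lit 5) (nat_lit 268) (nat_lit 5) (nat_lit 281) (nat_lit 266) (nat_lit 233))))) (XT.nd (nat_lit 234) (nat_lit 1976) (nat_lit 0) (XT.nd (nat_lit 78) (nat_lit 912) (nat_lit 0) (XT.lf (nat_lit 0) (nat_lit 3889094924) (nat_lit 760) (nat_lit 1200570165) (nat_lit 836) (nat_lit 2307195074) (nat_lit 257) (nat_lit 5) (nat_lit 267) (nat_lit 5) (nat_lit 268) (nat_lit 5) (nat_lit 282) (nat_lit 266) (nat_lit 232)) (XT.nd (nat_lit 78) (nat_lit 76) (nat_lit 0) (XT.lf (nat_lit 0) (nat_lit 496870678) (nat_lit 836) (nat_lit 6623113088) (nat_lit 912) (nat_lit 353103172)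 (nat_lit 246) (nat_lit 5) (nat_lit 257) (nat_lit 5) (nat_lit 258) (nat_lit 5) (nat_lit 283) (nat_lit 266) (nat_lit 231)) (XT.lf (nat_lit 0) (nat_lit 1614330929) (nat_lit 912) (nat_lit 2934358123) (nat_lit 76) (nat_lit 3002903927) (nat_lit 245) (nat_lit 5) (nat_lit 257) (nat_lit 5) (nat_lit 246) (nat_lit 5) (nat_lit 284) (nat_lit 266) (nat_lit 230)))) (XT.nd (nat_lit 156) (nat_lit 1064) (nat_lit 0) (XT.nd (nat_lit 78) (nat_lit 0) (nat_lit 0) (XT.lf (nat_lit 0) (nat_lit 1200945990) (nat_lit 912) (nat_lit 2385498343) (nat_lit 988) (nat_lit 4047404127) (nat_lit 233) (nat_lit 5) (nat_lit 245) (nat_lit 5) (nat_lit 246) (nat_lit 5) (nat_lit 285) (nat_lit 266) (nat_lit 229)) (XT.lf (nat_lit 0) (nat_lit 5473180334) (nat_lit 912) (nat_lit 116639014) (nat_lit 988) (nat_lit 2129668672) (nat_lit 233) (nat_lit 5) (nat_lit 245) (nat_lit 5) (nat_lit 246) (nat_lit 5) (nat_lit 286) (nat_lit 266) (nat_lit 228)))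 (XT.nd (nat_lit 78) (nat_lit 76) (nat_lit 0) (XT.lf (nat_lit 0) (nat_lit 2036530524) (nat_lit 988) (nat_lit 5601922566) (nat_lit 1064) (nat_lit 169766002) (nat_lit 220) (nat_lit 5) (nat_lit 233) (nat_lit 5) (nat_lit 234) (nat_lit 5) (nat_lit 287) (nat_lit 266) (nat_lit 227)) (XT.lf (nat_lit 0) (nat_lit 1781711219) (nat_lit 1064) (nat_lit 1472638011) (nat_lit 76) (nat_lit 4645736595) (nat_lit 219) (nat_lit 5) (nat_lit 233) (nat_lit 5) (nat_lit 220) (nat_lit 5) (nat_lit 288) (nat_lit 266) (nat_lit 226))))))) (XT.nd (nat_lit 1092) (nat_lit 3420) (nat_lit 0) (XT.nd (nat_lit 546) (nat_lit 2204) (nat_lit 0) (XT.nd (nat_lit 234) (nat_lit 1368) (nat_lit 0) (XT.nd (nat_lit 78) (nat_lit 1140) (nat_lit 0) (XT.lf (nat_lit 0) (nat_lit 2964507854) (nat_lit 1064) (nat_lit 798711474) (nat_lit 1140) (nat_lit 4232262355) (nat_lit 205) (nat_lit 5) (nat_lit 219) (nat_lit 5) (nat_lit 220) (nat_lit 5) (nat_lit 289)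 (nat_lit 266) (nat_lit 225)) (XT.nd (nat_lit 78) (nat_lit 1140) (nat_lit 0) (XT.lf (nat_lit 0) (nat_lit 5783398315) (nat_lit 1140) (nat_lit 593402444) (nat_lit 76) (nat_lit 1717630346) (nat_lit 205) (nat_lit 5) (nat_lit 220) (nat_lit 5) (nat_lit 206) (nat_lit 5) (nat_lit 290) (nat_lit 266) (nat_lit 224)) (XT.lf (nat_lit 0) (nat_lit 4000577904) (nat_lit 1140) (nat_lit 3859067929) (nat_lit 1216) (nat_lit 336905746) (nat_lit 190) (nat_lit 5) (nat_lit 205) (nat_lit 5) (nat_lit 206) (nat_lit 5) (nat_lit 291) (nat_lit 266) (nat_lit 223)))) (XT.nd (nat_lit 156) (nat_lit 608) (nat_lit 0) (XT.nd (nat_lit 78) (nat_lit 0) (nat_lit 0) (XT.lf (nat_lit 0) (nat_lit 386682507) (nat_lit 684) (nat_lit 1236005926) (nat_lit 760) (nat_lit 6679840250) (nat_lit 180) (nat_lit 5) (nat_lit 189) (nat_lit 5) (nat_lit 190) (nat_lit 5) (nat_lit 292) (nat_lit 266) (nat_lit 222)) (XT.lf (nat_lit 0) (nat_lit 3641797358) (nat_lit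 760) (nat_lit 3284009933) (nat_lit 76) (nat_lit 1485613608) (nat_lit 180) (nat_lit 5) (nat_lit 190) (nat_lit 5) (nat_lit 181) (nat_lit 5) (nat_lit 293) (nat_lit 266) (nat_lit 221))) (XT.nd (nat_lit 78) (nat_lit 0) (nat_lit 0) (XT.lf (nat_lit 0) (nat_lit 1455783522) (nat_lit 608) (nat_lit 4243984006) (nat_lit 684) (nat_lit 2824522768) (nat_lit 172) (nat_lit 5) (nat_lit 180) (nat_lit 5) (nat_lit 181) (nat_lit 5) (nat_lit 294) (nat_lit 266) (nat_lit 220)) (XT.lf (nat_lit 0) (nat_lit 6358384423) (nat_lit 608) (nat_lit 1447258309) (nat_lit 684) (nat_lit 835375397) (nat_lit 172) (nat_lit 5) (nat_lit 180) (nat_lit 5) (nat_lit 181) (nat_lit 5) (nat_lit 295) (nat_lit 266) (nat_lit 219))))) (XT.nd (nat_lit 234) (nat_lit 1064) (nat_lit 0) (XT.nd (nat_lit 78) (nat_lit 532) (nat_lit 0) (XT.lf (nat_lit 0) (nat_lit 1183158206) (nat_lit 608) (nat_lit 6135361078) (nat_lit 76) (nat_lit 1442630904) (nat_lit 164)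 (nat_lit 5) (nat_lit 172) (nat_lit 5) (nat_lit 165) (nat_lit 5) (nat_lit 296) (nat_lit 266) (nat_lit 218)) (XT.nd (nat_lit 78) (nat_lit 532) (nat_lit 0) (XT.lf (nat_lit 0) (nat_lit 3237828345) (nat_lit 608) (nat_lit 1226033300) (nat_lit 76) (nat_lit 4421057777) (nat_lit 164) (nat_lit 5) (nat_lit 172) (nat_lit 5) (nat_lit 165) (nat_lit 5) (nat_lit 297) (nat_lit 266) (nat_lit 217)) (XT.lf (nat_lit 0) (nat_lit 3860007240) (nat_lit 532) (nat_lit 1487316791) (nat_lit 608) (nat_lit 3665333079) (nat_lit 157) (nat_lit 5) (nat_lit 164) (nat_lit 5) (nat_lit 165) (nat_lit 5) (nat_lit 298) (nat_lit 266) (nat_lit 216)))) (XT.nd (nat_lit 156) (nat_lit 532) (nat_lit 0) (XT.nd (nat_lit 78) (nat_lit 532) (nat_lit 0) (XT.lf (nat_lit 0) (nat_lit 7504681826) (nat_lit 608) (nat_lit 82149220) (nat_lit 76) (nat_lit 1557908018) (nat_lit 157) (nat_lit 5) (nat_lit 165) (nat_lit 5) (nat_lit 158) (nat_lit 5) (nat_lit 299)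 (nat_lit 266) (nat_lit 215)) (XT.lf (nat_lit 0) (nat_lit 460140739) (nat_lit 532) (nat_lit 4103209624) (nat_lit 76) (nat_lit 4716665126) (nat_lit 150) (nat_lit 5) (nat_lit 157) (nat_lit 5) (nat_lit 151) (nat_lit 5) (nat_lit 300) (nat_lit 266) (nat_lit 214))) (XT.nd (nat_lit 78) (nat_lit 0) (nat_lit 0) (XT.lf (nat_lit 0) (nat_lit 1135985759) (nat_lit 532) (nat_lit 1424643078) (nat_lit 608) (nat_lit 6859172052) (nat_lit 143) (nat_lit 5) (nat_lit 150) (nat_lit 5) (nat_lit 151) (nat_lit 5) (nat_lit 301) (nat_lit 266) (nat_lit 213)) (XT.lf (nat_lit 0) (nat_lit 4742576404) (nat_lit 608) (nat_lit 3010455549) (nat_lit 76) (nat_lit 1810238490) (nat_lit 143) (nat_lit 5) (nat_lit 151) (nat_lit 5) (nat_lit 144) (nat_lit 5) (nat_lit 302) (nat_lit 266) (nat_lit 212)))))) (XT.nd (nat_lit 546) (nat_lit 1520) (nat_lit 0) (XT.nd (nat_lit 234) (nat_lit 912) (nat_lit 0) (XT.nd (nat_lit 78) (nat_lit 532) (nat_lit 0)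 (XT.lf (nat_lit 0) (nat_lit 2408764768) (nat_lit 456) (nat_lit 4578883784) (nat_lit 532) (nat_lit 2723508209) (nat_lit 137) (nat_lit 5) (nat_lit 143) (nat_lit 5) (nat_lit 144) (nat_lit 5) (nat_lit 303) (nat_lit 266) (nat_lit 211)) (XT.nd (nat_lit 78) (nat_lit 532) (nat_lit 0) (XT.lf (nat_lit 0) (nat_lit 8007478248) (nat_lit 456) (nat_lit 1284123193) (nat_lit 532) (nat_lit 572173788) (nat_lit 137) (nat_lit 5) (nat_lit 143) (nat_lit 5) (nat_lit 144) (nat_lit 5) (nat_lit 304) (nat_lit 266) (nat_lit 210)) (XT.lf (nat_lit 0) (nat_lit 1630414445) (nat_lit 532) (nat_lit 6274737263) (nat_lit 76) (nat_lit 2114821926) (nat_lit 130) (nat_lit 5) (nat_lit 137) (nat_lit 5) (nat_lit 131) (nat_lit 5) (nat_lit 305) (nat_lit 266) (nat_lit 209)))) (XT.nd (nat_lit 156) (nat_lit 532) (nat_lit 0) (XT.nd (nat_lit 78) (nat_lit 380) (nat_lit 0) (XT.lf (nat_lit 0) (nat_lit 3881701038) (nat_lit 532) (nat_lit 690947022) (nat_lit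 76) (nat_lit 5608254256) (nat_lit 130) (nat_lit 5) (nat_lit 137) (nat_lit 5) (nat_lit 131) (nat_lit 5) (nat_lit 306) (nat_lit 266) (nat_lit 208)) (XT.lf (nat_lit 0) (nat_lit 5116554079) (nat_lit 380) (nat_lit 1096724716) (nat_lit 456) (nat_lit 4133034285) (nat_lit 125) (nat_lit 5) (nat_lit 130) (nat_lit 5) (nat_lit 131) (nat_lit 5) (nat_lit 307) (nat_lit 266) (nat_lit 207))) (XT.nd (nat_lit 78) (nat_lit 76) (nat_lit 0) (XT.lf (nat_lit 0) (nat_lit 538273792) (nat_lit 456) (nat_lit 8076766637) (nat_lit 532) (nat_lit 1901674370) (nat_lit 119) (nat_lit 5) (nat_lit 125) (nat_lit 5) (nat_lit 126) (nat_lit 5) (nat_lit 308) (nat_lit 266) (nat_lit 206)) (XT.lf (nat_lit 0) (nat_lit 417462194) (nat_lit 532) (nat_lit 4163849737) (nat_lit 76) (nat_lit 6109978672) (nat_lit 118) (nat_lit 5) (nat_lit 125) (nat_lit 5) (nat_lit 119) (nat_lit 5) (nat_lit 309) (nat_lit 266) (nat_lit 205))))) (XT.nd (nat_lit 234) (nat_lit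 760) (nat_lit 0) (XT.nd (nat_lit 78) (nat_lit 380) (nat_lit 0) (XT.lf (nat_lit 0) (nat_lit 1798173805) (nat_lit 380) (nat_lit 952483410) (nat_lit 456) (nat_lit 8120433123) (nat_lit 113) (nat_lit 5) (nat_lit 118) (nat_lit 5) (nat_lit 119) (nat_lit 5) (nat_lit 310) (nat_lit 266) (nat_lit 204)) (XT.nd (nat_lit 78) (nat_lit 380) (nat_lit 0) (XT.lf (nat_lit 0) (nat_lit 5189015425) (nat_lit 456) (nat_lit 3101607003) (nat_lit 76) (nat_lit 2764638361) (nat_lit 113) (nat_lit 5) (nat_lit 119) (nat_lit 5) (nat_lit 114) (nat_lit 5) (nat_lit 311) (nat_lit 266) (nat_lit 203)) (XT.lf (nat_lit 0) (nat_lit 3056523233) (nat_lit 380) (nat_lit 4649736315) (nat_lit 456) (nat_lit 3538555569) (nat_lit 108) (nat_lit 5) (nat_lit 113) (nat_lit 5) (nat_lit 114) (nat_lit 5) (nat_lit 312) (nat_lit 266) (nat_lit 202)))) (XT.nd (nat_lit 156) (nat_lit 380) (nat_lit 0) (XT.nd (nat_lit 78) (nat_lit 380) (nat_lit 0) (XT.lf (nat_lit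 0) (nat_lit 9420862429) (nat_lit 380) (nat_lit 876960743) (nat_lit 456) (nat_lit 1142298758) (nat_lit 108) (nat_lit 5) (nat_lit 113) (nat_lit 5) (nat_lit 114) (nat_lit 5) (nat_lit 313) (nat_lit 266) (nat_lit 201)) (XT.lf (nat_lit 0) (nat_lit 1339401333) (nat_lit 380) (nat_lit 7304266757) (nat_lit 76) (nat_lit 2996082887) (nat_lit 103) (nat_lit 5) (nat_lit 108) (nat_lit 5) (nat_lit 104) (nat_lit 5) (nat_lit 314) (nat_lit 266) (nat_lit 200))) (XT.nd (nat_lit 78) (nat_lit 380) (nat_lit 0) (XT.lf (nat_lit 0) (nat_lit 3870396762) (nat_lit 380) (nat_lit 984707630) (nat_lit 76) (nat_lit 6990018487) (nat_lit 103) (nat_lit 5) (nat_lit 108) (nat_lit 5) (nat_lit 104) (nat_lit 5) (nat_lit 315) (nat_lit 266) (nat_lit 199)) (XT.lf (nat_lit 0) (nat_lit 5592778384) (nat_lit 380) (nat_lit 907749712) (nat_lit 456) (nat_lit 5555458245) (nat_lit 98) (nat_lit 5) (nat_lit 103) (nat_lit 5) (nat_lit 104) (nat_lit 5) (nat_lit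 316) (nat_lit 266) (nat_lit 198))))))))
noncomputable def xc120 : XT := (XT.nd (nat_lit 2106) (nat_lit 1748) (nat_lit 0) (XT.nd (nat_lit 1014) (nat_lit 1596) (nat_lit 0) (XT.nd (nat_lit 468) (nat_lit 1216) (nat_lit 0) (XT.nd (nat_lit 234) (nat_lit 304) (nat_lit 0) (XT.nd (nat_lit 78) (nat_lit 380) (nat_lit 0) (XT.lf (nat_lit 0) (nat_lit 44078741) (nat_lit 304) (nat_lit 9176154361) (nat_lit 380) (nat_lit 3052648322) (nat_lit 94) (nat_lit 5) (nat_lit 98) (nat_lit 5) (nat_lit 99) (nat_lit 5) (nat_lit 317) (nat_lit 266) (nat_lit 197)) (XT.nd (nat_lit 78) (nat_lit 380) (nat_lit 0) (XT.lf (nat_lit 0) (nat_lit 6829087936) (nat_lit 304) (nat_lit 5236939497) (nat_lit 380) (nat_lit 428946041) (nat_lit 94) (nat_lit 5) (nat_lit 98) (nat_lit 5) (nat_lit 99) (nat_lit 5) (nat_lit 318) (nat_lit 266) (nat_lit 196)) (XT.lf (nat_lit 0) (nat_lit 1052367500) (nat_lit 304) (nat_lit 1157740271) (nat_lit 380) (nat_lit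 10513558395) (nat_lit 89) (nat_lit 5) (nat_lit 93) (nat_lit 5) (nat_lit 94) (nat_lit 5) (nat_lit 319) (nat_lit 266) (nat_lit 195)))) (XT.nd (nat_lit 78) (nat_lit 304) (nat_lit 0) (XT.lf (nat_lit 0) (nat_lit 4977997209) (nat_lit 380) (nat_lit 4943876113) (nat_lit 76) (nat_lit 3035493276) (nat_lit 89) (nat_lit 5) (nat_lit 94) (nat_lit 5) (nat_lit 90) (nat_lit 5) (nat_lit 320) (nat_lit 266) (nat_lit 194)) (XT.nd (nat_lit 78) (nat_lit 0) (nat_lit 0) (XT.lf (nat_lit 0) (nat_lit 1972975658) (nat_lit 304) (nat_lit 5858458795) (nat_lit 380) (nat_lit 5366590522) (nat_lit 85) (nat_lit 5) (nat_lit 89) (nat_lit 5) (nat_lit 90) (nat_lit 5) (nat_lit 321) (nat_lit 266) (nat_lit 193)) (XT.lf (nat_lit 0) (nat_lit 9159633626) (nat_lit 304) (nat_lit 1633285347) (nat_lit 380) (nat_lit 2652332420) (nat_lit 85) (nat_lit 5) (nat_lit 89) (nat_lit 5) (nat_lit 90) (nat_lit 5) (nat_lit 322) (nat_lit 266) (nat_lit 192)))))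 (XT.nd (nat_lit 234) (nat_lit 608) (nat_lit 0) (XT.nd (nat_lit 78) (nat_lit 228) (nat_lit 0) (XT.lf (nat_lit 0) (nat_lit 167570917) (nat_lit 380) (nat_lit 10847841433) (nat_lit 76) (nat_lit 2683650843) (nat_lit 80) (nat_lit 5) (nat_lit 85) (nat_lit 5) (nat_lit 81) (nat_lit 5) (nat_lit 323) (nat_lit 266) (nat_lit 191)) (XT.nd (nat_lit 78) (nat_lit 228) (nat_lit 0) (XT.lf (nat_lit 0) (nat_lit 3051982689) (nat_lit 380) (nat_lit 3750825796) (nat_lit 76) (nat_lit 7155916204) (nat_lit 80) (nat_lit 5) (nat_lit 85) (nat_lit 5) (nat_lit 81) (nat_lit 5) (nat_lit 324) (nat_lit 266) (nat_lit 190)) (XT.lf (nat_lit 0) (nat_lit 3591521858) (nat_lit 228) (nat_lit 2440049864) (nat_lit 304) (nat_lit 8194364167) (nat_lit 77) (nat_lit 5) (nat_lit 80) (nat_lit 5) (nat_lit 81) (nat_lit 5) (nat_lit 325) (nat_lit 266) (nat_lit 189)))) (XT.nd (nat_lit 156) (nat_lit 304) (nat_lit 0) (XT.nd (nat_lit 78) (nat_lit 304) (nat_lit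 0) (XT.lf (nat_lit 0) (nat_lit 9132942563) (nat_lit 304) (nat_lit 3327076725) (nat_lit 76) (nat_lit 2040190958) (nat_lit 77) (nat_lit 5) (nat_lit 81) (nat_lit 5) (nat_lit 78) (nat_lit 5) (nat_lit 326) (nat_lit 266) (nat_lit 188)) (XT.lf (nat_lit 0) (nat_lit 4220828676) (nat_lit 304) (nat_lit 8146406264) (nat_lit 380) (nat_lit 2414299583) (nat_lit 73) (nat_lit 5) (nat_lit 77) (nat_lit 5) (nat_lit 78) (nat_lit 5) (nat_lit 327) (nat_lit 266) (nat_lit 187))) (XT.nd (nat_lit 78) (nat_lit 228) (nat_lit 0) (XT.lf (nat_lit 0) (nat_lit 624208837) (nat_lit 380) (nat_lit 3050284545) (nat_lit 76) (nat_lit 11396365582) (nat_lit 72) (nat_lit 5) (nat_lit 77) (nat_lit 5) (nat_lit 73) (nat_lit 5) (nat_lit 328) (nat_lit 266) (nat_lit 186)) (XT.lf (nat_lit 0) (nat_lit 3736205034) (nat_lit 304) (nat_lit 10659371351) (nat_lit 76) (nat_lit 971660476) (nat_lit 69) (nat_lit 5) (nat_lit 73) (nat_lit 5) (nat_lit 70) (nat_lit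 5) (nat_lit 329) (nat_lit 266) (nat_lit 185)))))) (XT.nd (nat_lit 546) (nat_lit 836) (nat_lit 0) (XT.nd (nat_lit 234) (nat_lit 532) (nat_lit 0) (XT.nd (nat_lit 78) (nat_lit 228) (nat_lit 0) (XT.lf (nat_lit 0) (nat_lit 6985274422) (nat_lit 304) (nat_lit 2983166292) (nat_lit 76) (nat_lit 5702770065) (nat_lit 69) (nat_lit 5) (nat_lit 73) (nat_lit 5) (nat_lit 70) (nat_lit 5) (nat_lit 330) (nat_lit 266) (nat_lit 184)) (XT.nd (nat_lit 78) (nat_lit 0) (nat_lit 0) (XT.lf (nat_lit 0) (nat_lit 4985477428) (nat_lit 228) (nat_lit 5371179708) (nat_lit 304) (nat_lit 5626917157) (nat_lit 66) (nat_lit 5) (nat_lit 69) (nat_lit 5) (nat_lit 70) (nat_lit 5) (nat_lit 331) (nat_lit 266) (nat_lit 183)) (XT.lf (nat_lit 0) (nat_lit 13219544768) (nat_lit 228) (nat_lit 617016377) (nat_lit 304) (nat_lit 2468541333) (nat_lit 66) (nat_lit 5) (nat_lit 69) (nat_lit 5) (nat_lit 70) (nat_lit 5) (nat_lit 332) (nat_lit 266) (nat_lit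 182)))) (XT.nd (nat_lit 156) (nat_lit 228) (nat_lit 0) (XT.nd (nat_lit 78) (nat_lit 0) (nat_lit 0) (XT.lf (nat_lit 0) (nat_lit 837789184) (nat_lit 304) (nat_lit 11554302091) (nat_lit 76) (nat_lit 4241917862) (nat_lit 62) (nat_lit 5) (nat_lit 66) (nat_lit 5) (nat_lit 63) (nat_lit 5) (nat_lit 333) (nat_lit 266) (nat_lit 181)) (XT.lf (nat_lit 0) (nat_lit 4209164764) (nat_lit 304) (nat_lit 3483982546) (nat_lit 76) (nat_lit 9278452218) (nat_lit 62) (nat_lit 5) (nat_lit 66) (nat_lit 5) (nat_lit 63) (nat_lit 5) (nat_lit 334) (nat_lit 266) (nat_lit 180))) (XT.nd (nat_lit 78) (nat_lit 0) (nat_lit 0) (XT.lf (nat_lit 0) (nat_lit 4890423569) (nat_lit 228) (nat_lit 2816806359) (nat_lit 304) (nat_lit 9611334723) (nat_lit 59) (nat_lit 5) (nat_lit 62) (nat_lit 5) (nat_lit 63) (nat_lit 5) (nat_lit 335) (nat_lit 266) (nat_lit 179)) (XT.lf (nat_lit 0) (nat_lit 11345700694) (nat_lit 304) (nat_lit 4142612740) (nat_lit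 76) (nat_lit 2186574462) (nat_lit 59) (nat_lit 5) (nat_lit 63) (nat_lit 5) (nat_lit 60) (nat_lit 5) (nat_lit 336) (nat_lit 266) (nat_lit 178))))) (XT.nd (nat_lit 234) (nat_lit 380) (nat_lit 0) (XT.nd (nat_lit 78) (nat_lit 304) (nat_lit 0) (XT.lf (nat_lit 0) (nat_lit 4417108817) (nat_lit 152) (nat_lit 10725915582) (nat_lit 228) (nat_lit 2897398171) (nat_lit 57) (nat_lit 5) (nat_lit 59) (nat_lit 5) (nat_lit 60) (nat_lit 5) (nat_lit 337) (nat_lit 266) (nat_lit 177)) (XT.nd (nat_lit 78) (nat_lit 228) (nat_lit 0) (XT.lf (nat_lit 0) (nat_lit 646580546) (nat_lit 228) (nat_lit 5136445747) (nat_lit 76) (nat_lit 12633074977) (nat_lit 56) (nat_lit 5) (nat_lit 59) (nat_lit 5) (nat_lit 57) (nat_lit 5) (nat_lit 338) (nat_lit 266) (nat_lit 176)) (XT.lf (nat_lit 0) (nat_lit 3615060523) (nat_lit 228) (nat_lit 638359127) (nat_lit 304) (nat_lit 14548338411) (nat_lit 53) (nat_lit 5) (nat_lit 56) (nat_lit 5) (nat_lit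 57) (nat_lit 5) (nat_lit 339) (nat_lit 266) (nat_lit 175)))) (XT.nd (nat_lit 156) (nat_lit 228) (nat_lit 0) (XT.nd (nat_lit 78) (nat_lit 152) (nat_lit 0) (XT.lf (nat_lit 0) (nat_lit 8045837474) (nat_lit 304) (nat_lit 6540339060) (nat_lit 76) (nat_lit 4610498096) (nat_lit 53) (nat_lit 5) (nat_lit 57) (nat_lit 5) (nat_lit 54) (nat_lit 5) (nat_lit 340) (nat_lit 266) (nat_lit 174)) (XT.lf (nat_lit 0) (nat_lit 2374353940) (nat_lit 152) (nat_lit 9587585954) (nat_lit 228) (nat_lit 7641212392) (nat_lit 51) (nat_lit 5) (nat_lit 53) (nat_lit 5) (nat_lit 54) (nat_lit 5) (nat_lit 341) (nat_lit 266) (nat_lit 173))) (XT.nd (nat_lit 78) (nat_lit 228) (nat_lit 0) (XT.lf (nat_lit 0) (nat_lit 11659794816) (nat_lit 152) (nat_lit 4382807545) (nat_lit 228) (nat_lit 3977820236) (nat_lit 51) (nat_lit 5) (nat_lit 53) (nat_lit 5) (nat_lit 54) (nat_lit 5) (nat_lit 342) (nat_lit 266) (nat_lit 172)) (XT.lf (nat_lit 0) (nat_lit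 748470907) (nat_lit 228) (nat_lit 19495285528) (nat_lit 304) (nat_lit 206522753) (nat_lit 48) (nat_lit 5) (nat_lit 51) (nat_lit 5) (nat_lit 52) (nat_lit 5) (nat_lit 343) (nat_lit 266) (nat_lit 171))))))) (XT.nd (nat_lit 1092) (nat_lit 760) (nat_lit 0) (XT.nd (nat_lit 546) (nat_lit 380) (nat_lit 0) (XT.nd (nat_lit 234) (nat_lit 380) (nat_lit 0) (XT.nd (nat_lit 78) (nat_lit 152) (nat_lit 0) (XT.lf (nat_lit 0) (nat_lit 3716335246) (nat_lit 304) (nat_lit 10698255950) (nat_lit 76) (nat_lit 6474083655) (nat_lit 47) (nat_lit 5) (nat_lit 51) (nat_lit 5) (nat_lit 48) (nat_lit 5) (nat_lit 344) (nat_lit 266) (nat_lit 170)) (XT.nd (nat_lit 78) (nat_lit 152) (nat_lit 0) (XT.lf (nat_lit 0) (nat_lit 7734800854) (nat_lit 304) (nat_lit 1456156476) (nat_lit 76) (nat_lit 12149750973) (nat_lit 47) (nat_lit 5) (nat_lit 51) (nat_lit 5) (nat_lit 48) (nat_lit 5) (nat_lit 345) (nat_lit 266) (nat_lit 169)) (XT.lf (nat_lit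 0) (nat_lit 8194454299) (nat_lit 152) (nat_lit 3740731160) (nat_lit 228) (nat_lit 9869285521) (nat_lit 45) (nat_lit 5) (nat_lit 47) (nat_lit 5) (nat_lit 48) (nat_lit 5) (nat_lit 346) (nat_lit 266) (nat_lit 168)))) (XT.nd (nat_lit 156) (nat_lit 228) (nat_lit 0) (XT.nd (nat_lit 78) (nat_lit 152) (nat_lit 0) (XT.lf (nat_lit 0) (nat_lit 16277157381) (nat_lit 228) (nat_lit 4164212665) (nat_lit 76) (nat_lit 1840318124) (nat_lit 45) (nat_lit 5) (nat_lit 48) (nat_lit 5) (nat_lit 46) (nat_lit 5) (nat_lit 347) (nat_lit 266) (nat_lit 167)) (XT.lf (nat_lit 0) (nat_lit 5609436997) (nat_lit 152) (nat_lit 15214134430) (nat_lit 228) (nat_lit 1947433605) (nat_lit 43) (nat_lit 5) (nat_lit 45) (nat_lit 5) (nat_lit 46) (nat_lit 5) (nat_lit 348) (nat_lit 266) (nat_lit 166))) (XT.nd (nat_lit 78) (nat_lit 152) (nat_lit 0) (XT.lf (nat_lit 0) (nat_lit 2213576135) (nat_lit 228) (nat_lit 7561965982) (nat_lit 76) (nat_lit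 13498051698) (nat_lit 42) (nat_lit 5) (nat_lit 45) (nat_lit 5) (nat_lit 43) (nat_lit 5) (nat_lit 349) (nat_lit 266) (nat_lit 165)) (XT.lf (nat_lit 0) (nat_lit 2324499224) (nat_lit 152) (nat_lit 4141882210) (nat_lit 228) (nat_lit 17324125091) (nat_lit 40) (nat_lit 5) (nat_lit 42) (nat_lit 5) (nat_lit 43) (nat_lit 5) (nat_lit 350) (nat_lit 266) (nat_lit 164))))) (XT.nd (nat_lit 234) (nat_lit 228) (nat_lit 0) (XT.nd (nat_lit 78) (nat_lit 152) (nat_lit 0) (XT.lf (nat_lit 0) (nat_lit 10923723844) (nat_lit 228) (nat_lit 11702104609) (nat_lit 76) (nat_lit 1694797256) (nat_lit 40) (nat_lit 5) (nat_lit 43) (nat_lit 5) (nat_lit 41) (nat_lit 5) (nat_lit 351) (nat_lit 266) (nat_lit 163)) (XT.nd (nat_lit 78) (nat_lit 152) (nat_lit 0) (XT.lf (nat_lit 0) (nat_lit 15540136394) (nat_lit 228) (nat_lit 1712817401) (nat_lit 76) (nat_lit 7612941636) (nat_lit 40) (nat_lit 5) (nat_lit 43) (nat_lit 5) (nat_lit 41) (nat_lit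 5) (nat_lit 352) (nat_lit 266) (nat_lit 162)) (XT.lf (nat_lit 0) (nat_lit 8720566799) (nat_lit 152) (nat_lit 11643099160) (nat_lit 228) (nat_lit 5061805788) (nat_lit 38) (nat_lit 5) (nat_lit 40) (nat_lit 5) (nat_lit 41) (nat_lit 5) (nat_lit 353) (nat_lit 266) (nat_lit 161)))) (XT.nd (nat_lit 156) (nat_lit 0) (nat_lit 0) (XT.nd (nat_lit 78) (nat_lit 228) (nat_lit 0) (XT.lf (nat_lit 0) (nat_lit 19476564776) (nat_lit 152) (nat_lit 5857627637) (nat_lit 228) (nat_lit 667581237) (nat_lit 38) (nat_lit 5) (nat_lit 40) (nat_lit 5) (nat_lit 41) (nat_lit 5) (nat_lit 354) (nat_lit 266) (nat_lit 160)) (XT.lf (nat_lit 0) (nat_lit 3808292488) (nat_lit 228) (nat_lit 22619869810) (nat_lit 76) (nat_lit 165342789) (nat_lit 35) (nat_lit 5) (nat_lit 38) (nat_lit 5) (nat_lit 36) (nat_lit 5) (nat_lit 355) (nat_lit 266) (nat_lit 159))) (XT.nd (nat_lit 78) (nat_lit 0) (nat_lit 0) (XT.lf (nat_lit 0) (nat_lit 8514937632)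 (nat_lit 228) (nat_lit 12370218523) (nat_lit 76) (nat_lit 6314343065) (nat_lit 35) (nat_lit 5) (nat_lit 38) (nat_lit 5) (nat_lit 36) (nat_lit 5) (nat_lit 356) (nat_lit 266) (nat_lit 158)) (XT.lf (nat_lit 0) (nat_lit 13348580583) (nat_lit 228) (nat_lit 1837498599) (nat_lit 76) (nat_lit 12638026288) (nat_lit 35) (nat_lit 5) (nat_lit 38) (nat_lit 5) (nat_lit 36) (nat_lit 5) (nat_lit 357) (nat_lit 266) (nat_lit 157)))))) (XT.nd (nat_lit 546) (nat_lit 304) (nat_lit 0) (XT.nd (nat_lit 234) (nat_lit 228) (nat_lit 0) (XT.nd (nat_lit 78) (nat_lit 76) (nat_lit 0) (XT.lf (nat_lit 0) (nat_lit 9166362049) (nat_lit 152) (nat_lit 9235195543) (nat_lit 228) (nat_lit 10063668637) (nat_lit 33) (nat_lit 5) (nat_lit 35) (nat_lit 5) (nat_lit 36) (nat_lit 5) (nat_lit 358) (nat_lit 266) (nat_lit 156)) (XT.nd (nat_lit 78) (nat_lit 76) (nat_lit 0) (XT.lf (nat_lit 0) (nat_lit 20514528271) (nat_lit 152) (nat_lit 3096538774)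 (nat_lit 228) (nat_lit 5514371158) (nat_lit 33) (nat_lit 5) (nat_lit 35) (nat_lit 5) (nat_lit 36) (nat_lit 5) (nat_lit 359) (nat_lit 266) (nat_lit 155)) (XT.lf (nat_lit 0) (nat_lit 2390208077) (nat_lit 76) (nat_lit 26627335203) (nat_lit 152) (nat_lit 786698528) (nat_lit 32) (nat_lit 5) (nat_lit 33) (nat_lit 5) (nat_lit 34) (nat_lit 4) (nat_lit 360) (nat_lit 266) (nat_lit 154)))) (XT.nd (nat_lit 156) (nat_lit 152) (nat_lit 0) (XT.nd (nat_lit 78) (nat_lit 0) (nat_lit 0) (XT.lf (nat_lit 0) (nat_lit 4108331646) (nat_lit 152) (nat_lit 16696838788) (nat_lit 76) (nat_lit 9693911155) (nat_lit 31) (nat_lit 5) (nat_lit 33) (nat_lit 5) (nat_lit 32) (nat_lit 5) (nat_lit 361) (nat_lit 266) (nat_lit 153)) (XT.lf (nat_lit 0) (nat_lit 9121512082) (nat_lit 152) (nat_lit 5688389487) (nat_lit 76) (nat_lit 16405023216) (nat_lit 31) (nat_lit 5) (nat_lit 33) (nat_lit 5) (nat_lit 32) (nat_lit 5) (nat_lit 362) (nat_lit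 266) (nat_lit 152))) (XT.nd (nat_lit 78) (nat_lit 0) (nat_lit 0) (XT.lf (nat_lit 0) (nat_lit 5740513525) (nat_lit 152) (nat_lit 8587242351) (nat_lit 228) (nat_lit 17623212441) (nat_lit 29) (nat_lit 5) (nat_lit 31) (nat_lit 5) (nat_lit 32) (nat_lit 5) (nat_lit 363) (nat_lit 266) (nat_lit 151)) (XT.lf (nat_lit 0) (nat_lit 17607286075) (nat_lit 152) (nat_lit 2127985905) (nat_lit 228) (nat_lit 12972473555) (nat_lit 29) (nat_lit 5) (nat_lit 31) (nat_lit 5) (nat_lit 32) (nat_lit 5) (nat_lit 364) (nat_lit 266) (nat_lit 150))))) (XT.nd (nat_lit 234) (nat_lit 152) (nat_lit 0) (XT.nd (nat_lit 78) (nat_lit 152) (nat_lit 0) (XT.lf (nat_lit 0) (nat_lit 25336428113) (nat_lit 228) (nat_lit 3721914905) (nat_lit 76) (nat_lit 4427945403) (nat_lit 29) (nat_lit 5) (nat_lit 32) (nat_lit 5) (nat_lit 30) (nat_lit 4) (nat_lit 365) (nat_lit 266) (nat_lit 149)) (XT.nd (nat_lit 78) (nat_lit 76) (nat_lit 0) (XT.lf (nat_lit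 0) (nat_lit 8114628364) (nat_lit 76) (nat_lit 23078331449) (nat_lit 152) (nat_lit 3092612202) (nat_lit 28) (nat_lit 5) (nat_lit 29) (nat_lit 5) (nat_lit 30) (nat_lit 4) (nat_lit 366) (nat_lit 266) (nat_lit 148)) (XT.lf (nat_lit 0) (nat_lit 2101306922) (nat_lit 152) (nat_lit 14766527978) (nat_lit 76) (nat_lit 18239605749) (nat_lit 27) (nat_lit 5) (nat_lit 29) (nat_lit 5) (nat_lit 28) (nat_lit 5) (nat_lit 367) (nat_lit 266) (nat_lit 147)))) (XT.nd (nat_lit 156) (nat_lit 0) (nat_lit 0) (XT.nd (nat_lit 78) (nat_lit 152) (nat_lit 0) (XT.lf (nat_lit 0) (nat_lit 7377521185) (nat_lit 152) (nat_lit 3070666863) (nat_lit 76) (nat_lit 25505203870) (nat_lit 27) (nat_lit 5) (nat_lit 29) (nat_lit 5) (nat_lit 28) (nat_lit 5) (nat_lit 368) (nat_lit 266) (nat_lit 146)) (XT.lf (nat_lit 0) (nat_lit 9134841111) (nat_lit 152) (nat_lit 3753957444) (nat_lit 228) (nat_lit 23933623998) (nat_lit 25) (nat_lit 5) (nat_lit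 27) (nat_lit 5) (nat_lit 28) (nat_lit 5) (nat_lit 369) (nat_lit 266) (nat_lit 145))) (XT.nd (nat_lit 78) (nat_lit 0) (nat_lit 0) (XT.lf (nat_lit 0) (nat_lit 18615945355) (nat_lit 228) (nat_lit 15997176923) (nat_lit 76) (nat_lit 3102889904) (nat_lit 25) (nat_lit 5) (nat_lit 28) (nat_lit 5) (nat_lit 26) (nat_lit 4) (nat_lit 370) (nat_lit 266) (nat_lit 144)) (XT.lf (nat_lit 0) (nat_lit 24541416408) (nat_lit 228) (nat_lit 4012200833) (nat_lit 76) (nat_lit 10082000858) (nat_lit 25) (nat_lit 5) (nat_lit 28) (nat_lit 5) (nat_lit 26) (nat_lit 4) (nat_lit 371) (nat_lit 266) (nat_lit 143))))))))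
noncomputable def xc121 : XT := (XT.nd (nat_lit 2184) (nat_lit 228) (nat_lit 0) (XT.nd (nat_lit 1092) (nat_lit 304) (nat_lit 0) (XT.nd (nat_lit 546) (nat_lit 228) (nat_lit 0) (XT.nd (nat_lit 234) (nat_lit 228) (nat_lit 0) (XT.nd (nat_lit 78) (nat_lit 76) (nat_lit 0) (XT.lf (nat_lit 0) (nat_lit 8479367473) (nat_lit 76) (nat_lit 22236445369) (nat_lit 152) (nat_lit 8864868292) (nat_lit 24) (nat_lit 5) (nat_lit 25) (nat_lit 5) (nat_lit 26) (nat_lit 4) (nat_lit 372) (nat_lit 266) (nat_lit 142)) (XT.nd (nat_lit 78) (nat_lit 76) (nat_lit 0) (XT.lf (nat_lit 0) (nat_lit 21409689534) (nat_lit 76) (nat_lit 15696045435) (nat_lit 152) (nat_lit 3447455946) (nat_lit 24) (nat_lit 5) (nat_lit 25) (nat_lit 5) (nat_lit 26) (nat_lit 4) (nat_lit 373) (nat_lit 266) (nat_lit 141)) (XT.lf (nat_lit 0) (nat_lit 2080840836) (nat_lit 152) (nat_lit 6865364641) (nat_lit 76) (nat_lit 32608359778) (nat_lit 23) (nat_lit 5) (nat_lit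 25) (nat_lit 5) (nat_lit 24) (nat_lit 5) (nat_lit 374) (nat_lit 266) (nat_lit 140)))) (XT.nd (nat_lit 156) (nat_lit 76) (nat_lit 0) (XT.nd (nat_lit 78) (nat_lit 0) (nat_lit 0) (XT.lf (nat_lit 0) (nat_lit 5843623584) (nat_lit 152) (nat_lit 1908511384) (nat_lit 228) (nat_lit 34831432050) (nat_lit 21) (nat_lit 5) (nat_lit 23) (nat_lit 5) (nat_lit 24) (nat_lit 5) (nat_lit 375) (nat_lit 266) (nat_lit 139)) (XT.lf (nat_lit 0) (nat_lit 13705226719) (nat_lit 228) (nat_lit 24636202781) (nat_lit 76) (nat_lit 5298662830) (nat_lit 21) (nat_lit 5) (nat_lit 24) (nat_lit 5) (nat_lit 22) (nat_lit 4) (nat_lit 376) (nat_lit 266) (nat_lit 138))) (XT.nd (nat_lit 78) (nat_lit 76) (nat_lit 0) (XT.lf (nat_lit 0) (nat_lit 19846400877) (nat_lit 228) (nat_lit 12205175853) (nat_lit 76) (nat_lit 12676455148) (nat_lit 21) (nat_lit 5) (nat_lit 24) (nat_lit 5) (nat_lit 22) (nat_lit 4) (nat_lit 377) (nat_lit 266) (nat_lit 137))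 (XT.lf (nat_lit 0) (nat_lit 593935003) (nat_lit 76) (nat_lit 25574452001) (nat_lit 152) (nat_lit 19680328378) (nat_lit 20) (nat_lit 5) (nat_lit 21) (nat_lit 5) (nat_lit 22) (nat_lit 4) (nat_lit 378) (nat_lit 266) (nat_lit 136))))) (XT.nd (nat_lit 234) (nat_lit 228) (nat_lit 0) (XT.nd (nat_lit 78) (nat_lit 0) (nat_lit 0) (XT.lf (nat_lit 0) (nat_lit 14010937777) (nat_lit 76) (nat_lit 18783320306) (nat_lit 152) (nat_lit 14205337529) (nat_lit 20) (nat_lit 5) (nat_lit 21) (nat_lit 5) (nat_lit 22) (nat_lit 4) (nat_lit 379) (nat_lit 266) (nat_lit 135)) (XT.nd (nat_lit 78) (nat_lit 0) (nat_lit 0) (XT.lf (nat_lit 0) (nat_lit 27814649132) (nat_lit 76) (nat_lit 11795495991) (nat_lit 152) (nat_lit 8575122828) (nat_lit 20) (nat_lit 5) (nat_lit 21) (nat_lit 5) (nat_lit 22) (nat_lit 4) (nat_lit 380) (nat_lit 266) (nat_lit 134)) (XT.lf (nat_lit 0) (nat_lit 42017130564) (nat_lit 76) (nat_lit 4604873190) (nat_lit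 152) (nat_lit 2784764669) (nat_lit 20) (nat_lit 5) (nat_lit 21) (nat_lit 5) (nat_lit 22) (nat_lit 4) (nat_lit 381) (nat_lit 266) (nat_lit 133)))) (XT.nd (nat_lit 156) (nat_lit 0) (nat_lit 0) (XT.nd (nat_lit 78) (nat_lit 0) (nat_lit 0) (XT.lf (nat_lit 0) (nat_lit 3194854070) (nat_lit 228) (nat_lit 44636978764) (nat_lit 76) (nat_lit 2829839197) (nat_lit 17) (nat_lit 5) (nat_lit 20) (nat_lit 5) (nat_lit 18) (nat_lit 4) (nat_lit 382) (nat_lit 266) (nat_lit 132)) (XT.lf (nat_lit 0) (nat_lit 9410536542) (nat_lit 228) (nat_lit 32048054125) (nat_lit 76) (nat_lit 10491428112) (nat_lit 17) (nat_lit 5) (nat_lit 20) (nat_lit 5) (nat_lit 18) (nat_lit 4) (nat_lit 383) (nat_lit 266) (nat_lit 131))) (XT.nd (nat_lit 78) (nat_lit 0) (nat_lit 0) (XT.lf (nat_lit 0) (nat_lit 15804625125) (nat_lit 228) (nat_lit 19096123019) (nat_lit 76) (nat_lit 18376512213) (nat_lit 17) (nat_lit 5) (nat_lit 20) (nat_lit 5) (nat_lit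 18) (nat_lit 4) (nat_lit 384) (nat_lit 266) (nat_lit 130)) (XT.lf (nat_lit 0) (nat_lit 22382706887) (nat_lit 228) (nat_lit 5769868225) (nat_lit 76) (nat_lit 26491981381) (nat_lit 17) (nat_lit 5) (nat_lit 20) (nat_lit 5) (nat_lit 18) (nat_lit 4) (nat_lit 385) (nat_lit 266) (nat_lit 129)))))) (XT.nd (nat_lit 546) (nat_lit 76) (nat_lit 0) (XT.nd (nat_lit 234) (nat_lit 152) (nat_lit 0) (XT.nd (nat_lit 78) (nat_lit 0) (nat_lit 0) (XT.lf (nat_lit 0) (nat_lit 8100422984) (nat_lit 76) (nat_lit 21127972901) (nat_lit 152) (nat_lit 26822370038) (nat_lit 16) (nat_lit 5) (nat_lit 17) (nat_lit 5) (nat_lit 18) (nat_lit 4) (nat_lit 386) (nat_lit 266) (nat_lit 128)) (XT.nd (nat_lit 78) (nat_lit 0) (nat_lit 0) (XT.lf (nat_lit 0) (nat_lit 22491415404) (nat_lit 76) (nat_lit 13838792931) (nat_lit 152) (nat_lit 21167433006) (nat_lit 16) (nat_lit 5) (nat_lit 17) (nat_lit 5) (nat_lit 18) (nat_lit 4) (nat_lit 387) (nat_lit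 266) (nat_lit 127)) (XT.lf (nat_lit 0) (nat_lit 37300851994) (nat_lit 76) (nat_lit 6336930371) (nat_lit 152) (nat_lit 15350361658) (nat_lit 16) (nat_lit 5) (nat_lit 17) (nat_lit 5) (nat_lit 18) (nat_lit 4) (nat_lit 388) (nat_lit 266) (nat_lit 126)))) (XT.nd (nat_lit 156) (nat_lit 76) (nat_lit 0) (XT.nd (nat_lit 78) (nat_lit 76) (nat_lit 0) (XT.lf (nat_lit 0) (nat_lit 51170808724) (nat_lit 152) (nat_lit 7995208800) (nat_lit 0) (nat_lit 1357159664) (nat_lit 16) (nat_lit 5) (nat_lit 18) (nat_lit 4) (nat_lit 16) (nat_lit 4) (nat_lit 389) (nat_lit 266) (nat_lit 125)) (XT.lf (nat_lit 0) (nat_lit 6152271038) (nat_lit 76) (nat_lit 52892507658) (nat_lit 76) (nat_lit 3056036162) (nat_lit 15) (nat_lit 4) (nat_lit 16) (nat_lit 5) (nat_lit 16) (nat_lit 4) (nat_lit 390) (nat_lit 266) (nat_lit 124))) (XT.nd (nat_lit 78) (nat_lit 0) (nat_lit 0) (XT.lf (nat_lit 0) (nat_lit 3436888528) (nat_lit 152) (nat_lit 42881745487)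 (nat_lit 76) (nat_lit 17403922163) (nat_lit 14) (nat_lit 5) (nat_lit 16) (nat_lit 5) (nat_lit 15) (nat_lit 4) (nat_lit 391) (nat_lit 266) (nat_lit 123)) (XT.lf (nat_lit 0) (nat_lit 10056462021) (nat_lit 152) (nat_lit 29465523631) (nat_lit 76) (nat_lit 25870259737) (nat_lit 14) (nat_lit 5) (nat_lit 16) (nat_lit 5) (nat_lit 15) (nat_lit 4) (nat_lit 392) (nat_lit 266) (nat_lit 122))))) (XT.nd (nat_lit 234) (nat_lit 0) (nat_lit 0) (XT.nd (nat_lit 78) (nat_lit 76) (nat_lit 0) (XT.lf (nat_lit 0) (nat_lit 16868102682) (nat_lit 152) (nat_lit 15658778851) (nat_lit 76) (nat_lit 34585341204) (nat_lit 14) (nat_lit 5) (nat_lit 16) (nat_lit 5) (nat_lit 15) (nat_lit 4) (nat_lit 393) (nat_lit 266) (nat_lit 121)) (XT.nd (nat_lit 78) (nat_lit 76) (nat_lit 0) (XT.lf (nat_lit 0) (nat_lit 23877762430) (nat_lit 152) (nat_lit 1449447001) (nat_lit 76) (nat_lit 43556781683) (nat_lit 14) (nat_lit 5) (nat_lit 16) (nat_lit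 5) (nat_lit 15) (nat_lit 4) (nat_lit 394) (nat_lit 266) (nat_lit 120)) (XT.lf (nat_lit 0) (nat_lit 13437093940) (nat_lit 76) (nat_lit 17783637838) (nat_lit 152) (nat_lit 39484491923) (nat_lit 13) (nat_lit 5) (nat_lit 14) (nat_lit 5) (nat_lit 15) (nat_lit 4) (nat_lit 395) (nat_lit 266) (nat_lit 119)))) (XT.nd (nat_lit 156) (nat_lit 0) (nat_lit 0) (XT.nd (nat_lit 78) (nat_lit 0) (nat_lit 0) (XT.lf (nat_lit 0) (nat_lit 28788776947) (nat_lit 76) (nat_lit 10003775736) (nat_lit 152) (nat_lit 33788285409) (nat_lit 13) (nat_lit 5) (nat_lit 14) (nat_lit 5) (nat_lit 15) (nat_lit 4) (nat_lit 396) (nat_lit 266) (nat_lit 118)) (XT.lf (nat_lit 0) (nat_lit 44590169274) (nat_lit 76) (nat_lit 1995461762) (nat_lit 152) (nat_lit 27927268446) (nat_lit 13) (nat_lit 5) (nat_lit 14) (nat_lit 5) (nat_lit 15) (nat_lit 4) (nat_lit 397) (nat_lit 266) (nat_lit 117))) (XT.nd (nat_lit 78) (nat_lit 0) (nat_lit 0) (XT.lf (nat_lit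 0) (nat_lit 54666838819) (nat_lit 152) (nat_lit 15708080615) (nat_lit 0) (nat_lit 6126374769) (nat_lit 13) (nat_lit 5) (nat_lit 15) (nat_lit 4) (nat_lit 13) (nat_lit 4) (nat_lit 398) (nat_lit 266) (nat_lit 116)) (XT.lf (nat_lit 0) (nat_lit 63004636429) (nat_lit 152) (nat_lit 1097090945) (nat_lit 0) (nat_lit 14447190343) (nat_lit 13) (nat_lit 5) (nat_lit 15) (nat_lit 4) (nat_lit 13) (nat_lit 4) (nat_lit 399) (nat_lit 266) (nat_lit 115))))))) (XT.nd (nat_lit 30498) (nat_lit 0) (nat_lit 18696) (XT.nd (nat_lit 546) (nat_lit 0) (nat_lit 0) (XT.nd (nat_lit 234) (nat_lit 76) (nat_lit 0) (XT.nd (nat_lit 78) (nat_lit 76) (nat_lit 0) (XT.lf (nat_lit 0) (nat_lit 14219664149) (nat_lit 76) (nat_lit 57504151681) (nat_lit 76) (nat_lit 8930218182) (nat_lit 12) (nat_lit 4) (nat_lit 13) (nat_lit 5) (nat_lit 13) (nat_lit 4) (nat_lit 400) (nat_lit 266) (nat_lit 114)) (XT.nd (nat_lit 78) (nat_lit 76) (nat_lit 0) (XT.lf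 (nat_lit 0) (nat_lit 30008468499) (nat_lit 76) (nat_lit 50701803213) (nat_lit 76) (nat_lit 2111862517) (nat_lit 12) (nat_lit 4) (nat_lit 13) (nat_lit 5) (nat_lit 13) (nat_lit 4) (nat_lit 401) (nat_lit 266) (nat_lit 113)) (XT.lf (nat_lit 0) (nat_lit 4809937830) (nat_lit 152) (nat_lit 38841307869) (nat_lit 76) (nat_lit 41402775115) (nat_lit 11) (nat_lit 5) (nat_lit 13) (nat_lit 5) (nat_lit 12) (nat_lit 4) (nat_lit 402) (nat_lit 266) (nat_lit 112)))) (XT.nd (nat_lit 156) (nat_lit 76) (nat_lit 0) (XT.nd (nat_lit 78) (nat_lit 0) (nat_lit 0) (XT.lf (nat_lit 0) (nat_lit 11891825616) (nat_lit 152) (nat_lit 24480163982) (nat_lit 76) (nat_lit 50980402061) (nat_lit 11) (nat_lit 5) (nat_lit 13) (nat_lit 5) (nat_lit 12) (nat_lit 4) (nat_lit 403) (nat_lit 266) (nat_lit 111)) (XT.lf (nat_lit 0) (nat_lit 19181198941) (nat_lit 152) (nat_lit 9697384984) (nat_lit 76) (nat_lit 60841280140) (nat_lit 11) (nat_lit 5)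 (nat_lit 13) (nat_lit 5) (nat_lit 12) (nat_lit 4) (nat_lit 404) (nat_lit 266) (nat_lit 110))) (XT.nd (nat_lit 78) (nat_lit 0) (nat_lit 0) (XT.lf (nat_lit 0) (nat_lit 5629803866) (nat_lit 76) (nat_lit 21108740414) (nat_lit 152) (nat_lit 65418338907) (nat_lit 10) (nat_lit 5) (nat_lit 11) (nat_lit 5) (nat_lit 12) (nat_lit 4) (nat_lit 405) (nat_lit 266) (nat_lit 109)) (XT.lf (nat_lit 0) (nat_lit 21606751562) (nat_lit 76) (nat_lit 13009012248) (nat_lit 152) (nat_lit 60048455686) (nat_lit 10) (nat_lit 5) (nat_lit 11) (nat_lit 5) (nat_lit 12) (nat_lit 4) (nat_lit 406) (nat_lit 266) (nat_lit 108))))) (XT.nd (nat_lit 234) (nat_lit 0) (nat_lit 0) (XT.nd (nat_lit 78) (nat_lit 0) (nat_lit 0) (XT.lf (nat_lit 0) (nat_lit 38054421566) (nat_lit 76) (nat_lit 4670246568) (nat_lit 152) (nat_lit 54522247905) (nat_lit 10) (nat_lit 5) (nat_lit 11) (nat_lit 5) (nat_lit 12) (nat_lit 4) (nat_lit 407) (nat_lit 266) (nat_lit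 107)) (XT.nd (nat_lit 78) (nat_lit 0) (nat_lit 0) (XT.lf (nat_lit 0) (nat_lit 51109974572) (nat_lit 152) (nat_lit 44957675781) (nat_lit 0) (nat_lit 3838450237) (nat_lit 10) (nat_lit 5) (nat_lit 12) (nat_lit 4) (nat_lit 10) (nat_lit 4) (nat_lit 408) (nat_lit 266) (nat_lit 106)) (XT.lf (nat_lit 0) (nat_lit 59788678531) (nat_lit 152) (nat_lit 30350242109) (nat_lit 0) (nat_lit 12504886012) (nat_lit 10) (nat_lit 5) (nat_lit 12) (nat_lit 4) (nat_lit 10) (nat_lit 4) (nat_lit 409) (nat_lit 266) (nat_lit 105)))) (XT.nd (nat_lit 29562) (nat_lit 0) (nat_lit 21356) (XT.nd (nat_lit 29484) (nat_lit 0) (nat_lit 21888) (XT.lf (nat_lit 0) (nat_lit 68723470078) (nat_lit 152) (nat_lit 15312536413) (nat_lit 0) (nat_lit 21427766701) (nat_lit 10) (nat_lit 5) (nat_lit 12) (nat_lit 4) (nat_lit 10) (nat_lit 4) (nat_lit 410) (nat_lit 266) (nat_lit 104)) (XT.lf (nat_lit 0) (nat_lit 1755870625) (nat_lit 532) (nat_lit 785987933)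 (nat_lit 532) (nat_lit 785987933) (nat_lit 298) (nat_lit 3) (nat_lit 305) (nat_lit 3) (nat_lit 305) (nat_lit 5) (nat_lit 267) (nat_lit 267) (nat_lit 246))) (XT.nd (nat_lit 78) (nat_lit 532) (nat_lit 0) (XT.lf (nat_lit 76) (nat_lit 1542328990) (nat_lit 0) (nat_lit 4159020726) (nat_lit 532) (nat_lit 986287858) (nat_lit 299) (nat_lit 5) (nat_lit 298) (nat_lit 3) (nat_lit 305) (nat_lit 5) (nat_lit 268) (nat_lit 267) (nat_lit 245)) (XT.lf (nat_lit 0) (nat_lit 1143808430) (nat_lit 532) (nat_lit 1995212322) (nat_lit 608) (nat_lit 3583351916) (nat_lit 291) (nat_lit 5) (nat_lit 298) (nat_lit 3) (nat_lit 299) (nat_lit 5) (nat_lit 269) (nat_lit 267) (nat_lit 244)))))) (XT.nd (nat_lit 546) (nat_lit 1444) (nat_lit 0) (XT.nd (nat_lit 234) (nat_lit 684) (nat_lit 0) (XT.nd (nat_lit 78) (nat_lit 532) (nat_lit 0) (XT.lf (nat_lit 76) (nat_lit 1219341936) (nat_lit 0) (nat_lit 2028608306) (nat_lit 608) (nat_lit 3512146793)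 (nat_lit 292) (nat_lit 5) (nat_lit 291) (nat_lit 5) (nat_lit 299) (nat_lit 5) (nat_lit 270) (nat_lit 267) (nat_lit 243)) (XT.nd (nat_lit 78) (nat_lit 532) (nat_lit 0) (XT.lf (nat_lit 76) (nat_lit 4527591394) (nat_lit 0) (nat_lit 827979340) (nat_lit 608) (nat_lit 1445306873) (nat_lit 292) (nat_lit 5) (nat_lit 291) (nat_lit 5) (nat_lit 299) (nat_lit 5) (nat_lit 271) (nat_lit 267) (nat_lit 242)) (XT.lf (nat_lit 0) (nat_lit 606470963) (nat_lit 608) (nat_lit 5786972312) (nat_lit 684) (nat_lit 451280421) (nat_lit 284) (nat_lit 5) (nat_lit 292) (nat_lit 5) (nat_lit 293) (nat_lit 5) (nat_lit 272) (nat_lit 267) (nat_lit 241)))) (XT.nd (nat_lit 156) (nat_lit 684) (nat_lit 0) (XT.nd (nat_lit 78) (nat_lit 0) (nat_lit 0) (XT.lf (nat_lit 0) (nat_lit 2645948014) (nat_lit 608) (nat_lit 2422971289) (nat_lit 684) (nat_lit 1822004354) (nat_lit 284) (nat_lit 5) (nat_lit 292) (nat_lit 5) (nat_lit 293) (nat_lit 5) (nat_lit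 273) (nat_lit 267) (nat_lit 240)) (XT.lf (nat_lit 76) (nat_lit 1016781145) (nat_lit 0) (nat_lit 3665635440) (nat_lit 684) (nat_lit 2258138855) (nat_lit 285) (nat_lit 5) (nat_lit 284) (nat_lit 5) (nat_lit 293) (nat_lit 5) (nat_lit 274) (nat_lit 267) (nat_lit 239))) (XT.nd (nat_lit 78) (nat_lit 684) (nat_lit 0) (XT.lf (nat_lit 76) (nat_lit 4564826278) (nat_lit 0) (nat_lit 2167379430) (nat_lit 684) (nat_lit 261020217) (nat_lit 285) (nat_lit 5) (nat_lit 284) (nat_lit 5) (nat_lit 293) (nat_lit 5) (nat_lit 275) (nat_lit 267) (nat_lit 238)) (XT.lf (nat_lit 76) (nat_lit 1131866628) (nat_lit 0) (nat_lit 569036857) (nat_lit 760) (nat_lit 5347966816) (nat_lit 276) (nat_lit 5) (nat_lit 275) (nat_lit 5) (nat_lit 285) (nat_lit 5) (nat_lit 276) (nat_lit 267) (nat_lit 237))))) (XT.nd (nat_lit 234) (nat_lit 760) (nat_lit 0) (XT.nd (nat_lit 78) (nat_lit 760) (nat_lit 0) (XT.lf (nat_lit 0) (nat_lit 3682496489) (nat_lit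 684) (nat_lit 2316688483) (nat_lit 760) (nat_lit 1108046425) (nat_lit 276) (nat_lit 5) (nat_lit 285) (nat_lit 5) (nat_lit 286) (nat_lit 5) (nat_lit 277) (nat_lit 267) (nat_lit 236)) (XT.nd (nat_lit 78) (nat_lit 760) (nat_lit 0) (XT.lf (nat_lit 76) (nat_lit 1367266461) (nat_lit 0) (nat_lit 4307997099) (nat_lit 760) (nat_lit 1493631524) (nat_lit 277) (nat_lit 5) (nat_lit 276) (nat_lit 5) (nat_lit 286) (nat_lit 5) (nat_lit 278) (nat_lit 267) (nat_lit 235)) (XT.lf (nat_lit 0) (nat_lit 443085976) (nat_lit 760) (nat_lit 2073858091) (nat_lit 836) (nat_lit 4716698909) (nat_lit 266) (nat_lit 5) (nat_lit 276) (nat_lit 5) (nat_lit 277) (nat_lit 5) (nat_lit 279) (nat_lit 267) (nat_lit 234)))) (XT.nd (nat_lit 156) (nat_lit 760) (nat_lit 0) (XT.nd (nat_lit 78) (nat_lit 0) (nat_lit 76) (XT.lf (nat_lit 76) (nat_lit 1739872015) (nat_lit 0) (nat_lit 620390112) (nat_lit 836) (nat_lit 4941150956) (nat_lit 267) (nat_lit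 5) (nat_lit 266) (nat_lit 5) (nat_lit 277) (nat_lit 5) (nat_lit 280) (nat_lit 267) (nat_lit 233)) (XT.lf (nat_lit 0) (nat_lit 4306191420) (nat_lit 760) (nat_lit 1719833261) (nat_lit 76) (nat_lit 1346146477) (nat_lit 267) (nat_lit 5) (nat_lit 277) (nat_lit 5) (nat_lit 268) (nat_lit 5) (nat_lit 281) (nat_lit 267) (nat_lit 232))) (XT.nd (nat_lit 78) (nat_lit 76) (nat_lit 0) (XT.lf (nat_lit 0) (nat_lit 2229092806) (nat_lit 760) (nat_lit 4048077042) (nat_lit 836) (nat_lit 1168971311) (nat_lit 257) (nat_lit 5) (nat_lit 267) (nat_lit 5) (nat_lit 268) (nat_lit 5) (nat_lit 282) (nat_lit 267) (nat_lit 231)) (XT.lf (nat_lit 0) (nat_lit 726937514) (nat_lit 836) (nat_lit 1244011108) (nat_lit 76) (nat_lit 5552520249) (nat_lit 256) (nat_lit 5) (nat_lit 267) (nat_lit 5) (nat_lit 257) (nat_lit 5) (nat_lit 283) (nat_lit 267) (nat_lit 230))))))))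
noncomputable def xc122 : XT := (XT.nd (nat_lit 2106) (nat_lit 4636) (nat_lit 0) (XT.nd (nat_lit 1014) (nat_lit 4028) (nat_lit 0) (XT.nd (nat_lit 468) (nat_lit 2584) (nat_lit 0) (XT.nd (nat_lit 234) (nat_lit 2128) (nat_lit 0) (XT.nd (nat_lit 78) (nat_lit 912) (nat_lit 0) (XT.lf (nat_lit 0) (nat_lit 2627257349) (nat_lit 912) (nat_lit 4758594933) (nat_lit 76) (nat_lit 217867788) (nat_lit 245) (nat_lit 5) (nat_lit 257) (nat_lit 5) (nat_lit 246) (nat_lit 5) (nat_lit 284) (nat_lit 267) (nat_lit 229)) (XT.nd (nat_lit 78) (nat_lit 912) (nat_lit 0) (XT.lf (nat_lit 0) (nat_lit 4559709006) (nat_lit 912) (nat_lit 669561930) (nat_lit 76) (nat_lit 2457933562) (nat_lit 245) (nat_lit 5) (nat_lit 257) (nat_lit 5) (nat_lit 246) (nat_lit 5) (nat_lit 285) (nat_lit 267) (nat_lit 228)) (XT.lf (nat_lit 0) (nat_lit 3566734376) (nat_lit 912) (nat_lit 2962269385) (nat_lit 988) (nat_lit 1244900661) (nat_lit 233) (nat_lit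 5) (nat_lit 245) (nat_lit 5) (nat_lit 246) (nat_lit 5) (nat_lit 286) (nat_lit 267) (nat_lit 227)))) (XT.nd (nat_lit 78) (nat_lit 1064) (nat_lit 0) (XT.lf (nat_lit 0) (nat_lit 28937010) (nat_lit 988) (nat_lit 603954872) (nat_lit 1064) (nat_lit 7231617931) (nat_lit 219) (nat_lit 5) (nat_lit 232) (nat_lit 5) (nat_lit 233) (nat_lit 5) (nat_lit 287) (nat_lit 267) (nat_lit 226)) (XT.nd (nat_lit 78) (nat_lit 1064) (nat_lit 0) (XT.lf (nat_lit 0) (nat_lit 2548847837) (nat_lit 1064) (nat_lit 3555522736) (nat_lit 76) (nat_lit 1852958006) (nat_lit 219) (nat_lit 5) (nat_lit 233) (nat_lit 5) (nat_lit 220) (nat_lit 5) (nat_lit 288) (nat_lit 267) (nat_lit 225)) (XT.lf (nat_lit 0) (nat_lit 817222658) (nat_lit 1064) (nat_lit 3666858349) (nat_lit 1140) (nat_lit 3570065401) (nat_lit 205) (nat_lit 5) (nat_lit 219) (nat_lit 5) (nat_lit 220) (nat_lit 5) (nat_lit 289) (nat_lit 267) (nat_lit 224))))) (XT.nd (nat_lit 234)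 (nat_lit 1368) (nat_lit 0) (XT.nd (nat_lit 78) (nat_lit 1216) (nat_lit 0) (XT.lf (nat_lit 0) (nat_lit 5348809542) (nat_lit 1064) (nat_lit 1113509481) (nat_lit 1140) (nat_lit 1692067777) (nat_lit 205) (nat_lit 5) (nat_lit 219) (nat_lit 5) (nat_lit 220) (nat_lit 5) (nat_lit 290) (nat_lit 267) (nat_lit 223)) (XT.nd (nat_lit 78) (nat_lit 0) (nat_lit 0) (XT.lf (nat_lit 0) (nat_lit 219110652) (nat_lit 1216) (nat_lit 6527964642) (nat_lit 76) (nat_lit 1511104839) (nat_lit 189) (nat_lit 5) (nat_lit 205) (nat_lit 5) (nat_lit 190) (nat_lit 5) (nat_lit 291) (nat_lit 267) (nat_lit 222)) (XT.lf (nat_lit 0) (nat_lit 2144298831) (nat_lit 1216) (nat_lit 1978801643) (nat_lit 76) (nat_lit 4241824521) (nat_lit 189) (nat_lit 5) (nat_lit 205) (nat_lit 5) (nat_lit 190) (nat_lit 5) (nat_lit 292) (nat_lit 267) (nat_lit 221)))) (XT.nd (nat_lit 156) (nat_lit 684) (nat_lit 0) (XT.nd (nat_lit 78) (nat_lit 0) (nat_lit 0) (XT.lf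 (nat_lit 0) (nat_lit 2715060136) (nat_lit 684) (nat_lit 1390754255) (nat_lit 760) (nat_lit 4369759711) (nat_lit 180) (nat_lit 5) (nat_lit 189) (nat_lit 5) (nat_lit 190) (nat_lit 5) (nat_lit 293) (nat_lit 267) (nat_lit 220)) (XT.lf (nat_lit 0) (nat_lit 6113492258) (nat_lit 760) (nat_lit 1058317908) (nat_lit 76) (nat_lit 1418170344) (nat_lit 180) (nat_lit 5) (nat_lit 190) (nat_lit 5) (nat_lit 181) (nat_lit 5) (nat_lit 294) (nat_lit 267) (nat_lit 219))) (XT.nd (nat_lit 78) (nat_lit 76) (nat_lit 0) (XT.lf (nat_lit 0) (nat_lit 3800882955) (nat_lit 608) (nat_lit 4385632331) (nat_lit 684) (nat_lit 521206041) (nat_lit 172) (nat_lit 5) (nat_lit 180) (nat_lit 5) (nat_lit 181) (nat_lit 5) (nat_lit 295) (nat_lit 267) (nat_lit 218)) (XT.lf (nat_lit 0) (nat_lit 1429608807) (nat_lit 684) (nat_lit 60542465) (nat_lit 76) (nat_lit 7339485006) (nat_lit 171) (nat_lit 5) (nat_lit 180) (nat_lit 5) (nat_lit 172) (nat_lit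 5) (nat_lit 296) (nat_lit 267) (nat_lit 217)))))) (XT.nd (nat_lit 546) (nat_lit 1900) (nat_lit 0) (XT.nd (nat_lit 234) (nat_lit 1064) (nat_lit 0) (XT.nd (nat_lit 78) (nat_lit 532) (nat_lit 0) (XT.lf (nat_lit 0) (nat_lit 3447720143) (nat_lit 608) (nat_lit 3990349336) (nat_lit 76) (nat_lit 1516457891) (nat_lit 164) (nat_lit 5) (nat_lit 172) (nat_lit 5) (nat_lit 165) (nat_lit 5) (nat_lit 297) (nat_lit 267) (nat_lit 216)) (XT.nd (nat_lit 78) (nat_lit 0) (nat_lit 0) (XT.lf (nat_lit 0) (nat_lit 1018291749) (nat_lit 532) (nat_lit 4490602794) (nat_lit 608) (nat_lit 3574844515) (nat_lit 157) (nat_lit 5) (nat_lit 164) (nat_lit 5) (nat_lit 165) (nat_lit 5) (nat_lit 298) (nat_lit 267) (nat_lit 215)) (XT.lf (nat_lit 0) (nat_lit 6214873990) (nat_lit 532) (nat_lit 1415502654) (nat_lit 608) (nat_lit 1586544291) (nat_lit 157) (nat_lit 5) (nat_lit 164) (nat_lit 5) (nat_lit 165) (nat_lit 5) (nat_lit 299) (nat_lit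 267) (nat_lit 214)))) (XT.nd (nat_lit 156) (nat_lit 532) (nat_lit 0) (XT.nd (nat_lit 78) (nat_lit 0) (nat_lit 0) (XT.lf (nat_lit 0) (nat_lit 449644701) (nat_lit 532) (nat_lit 7163457036) (nat_lit 76) (nat_lit 1740991427) (nat_lit 150) (nat_lit 5) (nat_lit 157) (nat_lit 5) (nat_lit 151) (nat_lit 5) (nat_lit 300) (nat_lit 267) (nat_lit 213)) (XT.lf (nat_lit 0) (nat_lit 2519360389) (nat_lit 532) (nat_lit 1968344400) (nat_lit 76) (nat_lit 5007118593) (nat_lit 150) (nat_lit 5) (nat_lit 157) (nat_lit 5) (nat_lit 151) (nat_lit 5) (nat_lit 301) (nat_lit 267) (nat_lit 212))) (XT.nd (nat_lit 78) (nat_lit 0) (nat_lit 0) (XT.lf (nat_lit 0) (nat_lit 3405889967) (nat_lit 532) (nat_lit 1238890070) (nat_lit 608) (nat_lit 4995229753) (nat_lit 143) (nat_lit 5) (nat_lit 150) (nat_lit 5) (nat_lit 151) (nat_lit 5) (nat_lit 302) (nat_lit 267) (nat_lit 211)) (XT.lf (nat_lit 0) (nat_lit 6835852476) (nat_lit 608) (nat_lit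 871630038) (nat_lit 76) (nat_lit 2082053987) (nat_lit 143) (nat_lit 5) (nat_lit 151) (nat_lit 5) (nat_lit 144) (nat_lit 5) (nat_lit 303) (nat_lit 267) (nat_lit 210))))) (XT.nd (nat_lit 234) (nat_lit 912) (nat_lit 0) (XT.nd (nat_lit 78) (nat_lit 532) (nat_lit 0) (XT.lf (nat_lit 0) (nat_lit 4688312583) (nat_lit 456) (nat_lit 4424356771) (nat_lit 532) (nat_lit 830319504) (nat_lit 137) (nat_lit 5) (nat_lit 143) (nat_lit 5) (nat_lit 144) (nat_lit 5) (nat_lit 304) (nat_lit 267) (nat_lit 209)) (XT.nd (nat_lit 78) (nat_lit 0) (nat_lit 0) (XT.lf (nat_lit 0) (nat_lit 281505972) (nat_lit 456) (nat_lit 1023319079) (nat_lit 532) (nat_lit 8796629757) (nat_lit 130) (nat_lit 5) (nat_lit 136) (nat_lit 5) (nat_lit 137) (nat_lit 5) (nat_lit 305) (nat_lit 267) (nat_lit 208)) (XT.lf (nat_lit 0) (nat_lit 3528328629) (nat_lit 532) (nat_lit 4247821947) (nat_lit 76) (nat_lit 2487084532) (nat_lit 130) (nat_lit 5) (nat_lit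 137) (nat_lit 5) (nat_lit 131) (nat_lit 5) (nat_lit 306) (nat_lit 267) (nat_lit 207)))) (XT.nd (nat_lit 156) (nat_lit 532) (nat_lit 0) (XT.nd (nat_lit 78) (nat_lit 0) (nat_lit 0) (XT.lf (nat_lit 0) (nat_lit 1467601033) (nat_lit 380) (nat_lit 4339805845) (nat_lit 456) (nat_lit 4622831580) (nat_lit 125) (nat_lit 5) (nat_lit 130) (nat_lit 5) (nat_lit 131) (nat_lit 5) (nat_lit 307) (nat_lit 267) (nat_lit 206)) (XT.lf (nat_lit 0) (nat_lit 7399604297) (nat_lit 380) (nat_lit 763404920) (nat_lit 456) (nat_lit 2439032825) (nat_lit 125) (nat_lit 5) (nat_lit 130) (nat_lit 5) (nat_lit 131) (nat_lit 5) (nat_lit 308) (nat_lit 267) (nat_lit 205))) (XT.nd (nat_lit 78) (nat_lit 76) (nat_lit 0) (XT.lf (nat_lit 0) (nat_lit 2713736337) (nat_lit 456) (nat_lit 7895902638) (nat_lit 532) (nat_lit 168783655) (nat_lit 119) (nat_lit 5) (nat_lit 125) (nat_lit 5) (nat_lit 126) (nat_lit 5) (nat_lit 309) (nat_lit 267) (nat_lit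 204)) (XT.lf (nat_lit 0) (nat_lit 2133881935) (nat_lit 532) (nat_lit 2156821601) (nat_lit 76) (nat_lit 6668597830) (nat_lit 118) (nat_lit 5) (nat_lit 125) (nat_lit 5) (nat_lit 119) (nat_lit 5) (nat_lit 310) (nat_lit 267) (nat_lit 203))))))) (XT.nd (nat_lit 1092) (nat_lit 1748) (nat_lit 0) (XT.nd (nat_lit 546) (nat_lit 1368) (nat_lit 0) (XT.nd (nat_lit 234) (nat_lit 760) (nat_lit 0) (XT.nd (nat_lit 78) (nat_lit 380) (nat_lit 0) (XT.lf (nat_lit 0) (nat_lit 3963161239) (nat_lit 380) (nat_lit 544576162) (nat_lit 456) (nat_lit 6637684679) (nat_lit 113) (nat_lit 5) (nat_lit 118) (nat_lit 5) (nat_lit 119) (nat_lit 5) (nat_lit 311) (nat_lit 267) (nat_lit 202)) (XT.nd (nat_lit 78) (nat_lit 380) (nat_lit 0) (XT.lf (nat_lit 0) (nat_lit 6974546275) (nat_lit 456) (nat_lit 1098880981) (nat_lit 76) (nat_lit 3263076949) (nat_lit 113) (nat_lit 5) (nat_lit 119) (nat_lit 5) (nat_lit 114) (nat_lit 5) (nat_lit 312)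 (nat_lit 267) (nat_lit 201)) (XT.lf (nat_lit 0) (nat_lit 5223446355) (nat_lit 380) (nat_lit 4316338060) (nat_lit 456) (nat_lit 1992830678) (nat_lit 108) (nat_lit 5) (nat_lit 113) (nat_lit 5) (nat_lit 114) (nat_lit 5) (nat_lit 313) (nat_lit 267) (nat_lit 200)))) (XT.nd (nat_lit 156) (nat_lit 380) (nat_lit 0) (XT.nd (nat_lit 78) (nat_lit 304) (nat_lit 0) (XT.lf (nat_lit 0) (nat_lit 418864556) (nat_lit 456) (nat_lit 21058459) (nat_lit 76) (nat_lit 11295177942) (nat_lit 107) (nat_lit 5) (nat_lit 113) (nat_lit 5) (nat_lit 108) (nat_lit 5) (nat_lit 314) (nat_lit 267) (nat_lit 199)) (XT.lf (nat_lit 0) (nat_lit 2930370871) (nat_lit 380) (nat_lit 5452890862) (nat_lit 76) (nat_lit 3557808895) (nat_lit 103) (nat_lit 5) (nat_lit 108) (nat_lit 5) (nat_lit 104) (nat_lit 5) (nat_lit 315) (nat_lit 267) (nat_lit 198))) (XT.nd (nat_lit 78) (nat_lit 0) (nat_lit 0) (XT.lf (nat_lit 0) (nat_lit 1015770438) (nat_lit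 380) (nat_lit 4486121363) (nat_lit 456) (nat_lit 6651813315) (nat_lit 98) (nat_lit 5) (nat_lit 103) (nat_lit 5) (nat_lit 104) (nat_lit 5) (nat_lit 316) (nat_lit 267) (nat_lit 197)) (XT.lf (nat_lit 0) (nat_lit 7751051871) (nat_lit 380) (nat_lit 425391828) (nat_lit 456) (nat_lit 4195523439) (nat_lit 98) (nat_lit 5) (nat_lit 103) (nat_lit 5) (nat_lit 104) (nat_lit 5) (nat_lit 317) (nat_lit 267) (nat_lit 196))))) (XT.nd (nat_lit 234) (nat_lit 684) (nat_lit 0) (XT.nd (nat_lit 78) (nat_lit 380) (nat_lit 0) (XT.lf (nat_lit 0) (nat_lit 2056776925) (nat_lit 304) (nat_lit 8901920322) (nat_lit 380) (nat_lit 1637280148) (nat_lit 94) (nat_lit 5) (nat_lit 98) (nat_lit 5) (nat_lit 99) (nat_lit 5) (nat_lit 318) (nat_lit 267) (nat_lit 195)) (XT.nd (nat_lit 78) (nat_lit 304) (nat_lit 0) (XT.lf (nat_lit 0) (nat_lit 1001313422) (nat_lit 380) (nat_lit 3849109686) (nat_lit 76) (nat_lit 7975327909) (nat_lit 93) (nat_lit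 5) (nat_lit 98) (nat_lit 5) (nat_lit 94) (nat_lit 5) (nat_lit 319) (nat_lit 267) (nat_lit 194)) (XT.lf (nat_lit 0) (nat_lit 3047007626) (nat_lit 304) (nat_lit 640998312) (nat_lit 380) (nat_lit 9373892387) (nat_lit 89) (nat_lit 5) (nat_lit 93) (nat_lit 5) (nat_lit 94) (nat_lit 5) (nat_lit 320) (nat_lit 267) (nat_lit 193)))) (XT.nd (nat_lit 156) (nat_lit 380) (nat_lit 0) (XT.nd (nat_lit 78) (nat_lit 304) (nat_lit 0) (XT.lf (nat_lit 0) (nat_lit 6502964350) (nat_lit 380) (nat_lit 3149235290) (nat_lit 76) (nat_lit 3651522074) (nat_lit 89) (nat_lit 5) (nat_lit 94) (nat_lit 5) (nat_lit 90) (nat_lit 5) (nat_lit 321) (nat_lit 267) (nat_lit 192)) (XT.lf (nat_lit 0) (nat_lit 3956073435) (nat_lit 304) (nat_lit 5464358249) (nat_lit 380) (nat_lit 4131847301) (nat_lit 85) (nat_lit 5) (nat_lit 89) (nat_lit 5) (nat_lit 90) (nat_lit 5) (nat_lit 322) (nat_lit 267) (nat_lit 191))) (XT.nd (nat_lit 78) (nat_lit 380)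 (nat_lit 0) (XT.lf (nat_lit 0) (nat_lit 11302294972) (nat_lit 304) (nat_lit 1129027296) (nat_lit 380) (nat_lit 1376814105) (nat_lit 85) (nat_lit 5) (nat_lit 89) (nat_lit 5) (nat_lit 90) (nat_lit 5) (nat_lit 323) (nat_lit 267) (nat_lit 190)) (XT.lf (nat_lit 0) (nat_lit 1486052782) (nat_lit 380) (nat_lit 9261792088) (nat_lit 76) (nat_lit 3321811848) (nat_lit 80) (nat_lit 5) (nat_lit 85) (nat_lit 5) (nat_lit 81) (nat_lit 5) (nat_lit 324) (nat_lit 267) (nat_lit 189)))))) (XT.nd (nat_lit 546) (nat_lit 912) (nat_lit 0) (XT.nd (nat_lit 234) (nat_lit 608) (nat_lit 0) (XT.nd (nat_lit 78) (nat_lit 228) (nat_lit 0) (XT.lf (nat_lit 0) (nat_lit 4418740944) (nat_lit 380) (nat_lit 2007540291) (nat_lit 76) (nat_lit 7912002894) (nat_lit 80) (nat_lit 5) (nat_lit 85) (nat_lit 5) (nat_lit 81) (nat_lit 5) (nat_lit 325) (nat_lit 267) (nat_lit 188)) (XT.nd (nat_lit 78) (nat_lit 0) (nat_lit 0) (XT.lf (nat_lit 0) (nat_lit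 5536883574) (nat_lit 228) (nat_lit 1931356651) (nat_lit 304) (nat_lit 7145883324) (nat_lit 77) (nat_lit 5) (nat_lit 80) (nat_lit 5) (nat_lit 81) (nat_lit 5) (nat_lit 326) (nat_lit 267) (nat_lit 187)) (XT.lf (nat_lit 0) (nat_lit 10631508393) (nat_lit 304) (nat_lit 1610759949) (nat_lit 76) (nat_lit 2655318868) (nat_lit 77) (nat_lit 5) (nat_lit 81) (nat_lit 5) (nat_lit 78) (nat_lit 5) (nat_lit 327) (nat_lit 267) (nat_lit 186)))) (XT.nd (nat_lit 156) (nat_lit 228) (nat_lit 0) (XT.nd (nat_lit 78) (nat_lit 76) (nat_lit 0) (XT.lf (nat_lit 0) (nat_lit 6145777426) (nat_lit 304) (nat_lit 7798671397) (nat_lit 380) (nat_lit 1243479796) (nat_lit 73) (nat_lit 5) (nat_lit 77) (nat_lit 5) (nat_lit 78) (nat_lit 5) (nat_lit 328) (nat_lit 267) (nat_lit 185)) (XT.lf (nat_lit 0) (nat_lit 1826419095) (nat_lit 380) (nat_lit 1371477585) (nat_lit 76) (nat_lit 12288767213) (nat_lit 72) (nat_lit 5) (nat_lit 77) (nat_lit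 5) (nat_lit 73) (nat_lit 5) (nat_lit 329) (nat_lit 267) (nat_lit 184))) (XT.nd (nat_lit 78) (nat_lit 0) (nat_lit 0) (XT.lf (nat_lit 0) (nat_lit 5019798809) (nat_lit 304) (nat_lit 9196068083) (nat_lit 76) (nat_lit 1576449303) (nat_lit 69) (nat_lit 5) (nat_lit 73) (nat_lit 5) (nat_lit 70) (nat_lit 5) (nat_lit 330) (nat_lit 267) (nat_lit 183)) (XT.lf (nat_lit 0) (nat_lit 8332218697) (nat_lit 304) (nat_lit 1341511369) (nat_lit 76) (nat_lit 6432725995) (nat_lit 69) (nat_lit 5) (nat_lit 73) (nat_lit 5) (nat_lit 70) (nat_lit 5) (nat_lit 331) (nat_lit 267) (nat_lit 182))))) (XT.nd (nat_lit 234) (nat_lit 380) (nat_lit 0) (XT.nd (nat_lit 78) (nat_lit 304) (nat_lit 0) (XT.lf (nat_lit 0) (nat_lit 6849219605) (nat_lit 228) (nat_lit 4938873265) (nat_lit 304) (nat_lit 4640619523) (nat_lit 66) (nat_lit 5) (nat_lit 69) (nat_lit 5) (nat_lit 70) (nat_lit 5) (nat_lit 332) (nat_lit 267) (nat_lit 181)) (XT.nd (nat_lit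 78) (nat_lit 304) (nat_lit 0) (XT.lf (nat_lit 0) (nat_lit 15280381455) (nat_lit 228) (nat_lit 59369748) (nat_lit 304) (nat_lit 1421136263) (nat_lit 66) (nat_lit 5) (nat_lit 69) (nat_lit 5) (nat_lit 70) (nat_lit 5) (nat_lit 333) (nat_lit 267) (nat_lit 180)) (XT.lf (nat_lit 0) (nat_lit 1952169498) (nat_lit 304) (nat_lit 10203078319) (nat_lit 76) (nat_lit 4944420539) (nat_lit 62) (nat_lit 5) (nat_lit 66) (nat_lit 5) (nat_lit 63) (nat_lit 5) (nat_lit 334) (nat_lit 267) (nat_lit 179)))) (XT.nd (nat_lit 156) (nat_lit 152) (nat_lit 0) (XT.nd (nat_lit 78) (nat_lit 228) (nat_lit 0) (XT.lf (nat_lit 0) (nat_lit 5392960715) (nat_lit 304) (nat_lit 1940101212) (nat_lit 76) (nat_lit 10115296212) (nat_lit 62) (nat_lit 5) (nat_lit 66) (nat_lit 5) (nat_lit 63) (nat_lit 5) (nat_lit 335) (nat_lit 267) (nat_lit 178)) (XT.lf (nat_lit 0) (nat_lit 6669376294) (nat_lit 228) (nat_lit 2311480047) (nat_lit 304) (nat_lit 8825348552)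 (nat_lit 59) (nat_lit 5) (nat_lit 62) (nat_lit 5) (nat_lit 63) (nat_lit 5) (nat_lit 336) (nat_lit 267) (nat_lit 177))) (XT.nd (nat_lit 78) (nat_lit 152) (nat_lit 0) (XT.lf (nat_lit 0) (nat_lit 12703624460) (nat_lit 304) (nat_lit 2656709663) (nat_lit 76) (nat_lit 2813648186) (nat_lit 59) (nat_lit 5) (nat_lit 63) (nat_lit 5) (nat_lit 60) (nat_lit 5) (nat_lit 337) (nat_lit 267) (nat_lit 176)) (XT.lf (nat_lit 0) (nat_lit 6144017448) (nat_lit 152) (nat_lit 10456539274) (nat_lit 228) (nat_lit 1950373860) (nat_lit 57) (nat_lit 5) (nat_lit 59) (nat_lit 5) (nat_lit 60) (nat_lit 5) (nat_lit 338) (nat_lit 267) (nat_lit 175))))))))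
noncomputable def xc123 : XT := (XT.nd (nat_lit 2184) (nat_lit 1140) (nat_lit 0) (XT.nd (nat_lit 1092) (nat_lit 836) (nat_lit 0) (XT.nd (nat_lit 546) (nat_lit 532) (nat_lit 0) (XT.nd (nat_lit 234) (nat_lit 456) (nat_lit 0) (XT.nd (nat_lit 78) (nat_lit 228) (nat_lit 0) (XT.lf (nat_lit 0) (nat_lit 1650220915) (nat_lit 228) (nat_lit 3722421538) (nat_lit 76) (nat_lit 13565842016) (nat_lit 56) (nat_lit 5) (nat_lit 59) (nat_lit 5) (nat_lit 57) (nat_lit 5) (nat_lit 339) (nat_lit 267) (nat_lit 174)) (XT.nd (nat_lit 78) (nat_lit 0) (nat_lit 0) (XT.lf (nat_lit 0) (nat_lit 5276256218) (nat_lit 228) (nat_lit 75267627) (nat_lit 304) (nat_lit 13984616035) (nat_lit 53) (nat_lit 5) (nat_lit 56) (nat_lit 5) (nat_lit 57) (nat_lit 5) (nat_lit 340) (nat_lit 267) (nat_lit 173)) (XT.lf (nat_lit 0) (nat_lit 9234881020) (nat_lit 304) (nat_lit 5205658034) (nat_lit 76) (nat_lit 5303066078) (nat_lit 53) (nat_lit 5) (nat_lit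 57) (nat_lit 5) (nat_lit 54) (nat_lit 5) (nat_lit 341) (nat_lit 267) (nat_lit 172)))) (XT.nd (nat_lit 156) (nat_lit 304) (nat_lit 0) (XT.nd (nat_lit 78) (nat_lit 0) (nat_lit 0) (XT.lf (nat_lit 0) (nat_lit 3961467018) (nat_lit 152) (nat_lit 9293969091) (nat_lit 228) (nat_lit 6907247640) (nat_lit 51) (nat_lit 5) (nat_lit 53) (nat_lit 5) (nat_lit 54) (nat_lit 5) (nat_lit 342) (nat_lit 267) (nat_lit 171)) (XT.lf (nat_lit 0) (nat_lit 13481319204) (nat_lit 152) (nat_lit 3949976780) (nat_lit 228) (nat_lit 3162008121) (nat_lit 51) (nat_lit 5) (nat_lit 53) (nat_lit 5) (nat_lit 54) (nat_lit 5) (nat_lit 343) (nat_lit 267) (nat_lit 170))) (XT.nd (nat_lit 78) (nat_lit 0) (nat_lit 0) (XT.lf (nat_lit 0) (nat_lit 701305610) (nat_lit 304) (nat_lit 18792840239) (nat_lit 76) (nat_lit 1541927362) (nat_lit 47) (nat_lit 5) (nat_lit 51) (nat_lit 5) (nat_lit 48) (nat_lit 5) (nat_lit 344) (nat_lit 267) (nat_lit 169)) (XT.lf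 (nat_lit 0) (nat_lit 4711197288) (nat_lit 304) (nat_lit 9564856529) (nat_lit 76) (nat_lit 7212314583) (nat_lit 47) (nat_lit 5) (nat_lit 51) (nat_lit 5) (nat_lit 48) (nat_lit 5) (nat_lit 345) (nat_lit 267) (nat_lit 168))))) (XT.nd (nat_lit 234) (nat_lit 380) (nat_lit 0) (XT.nd (nat_lit 78) (nat_lit 152) (nat_lit 0) (XT.lf (nat_lit 0) (nat_lit 8824487583) (nat_lit 304) (nat_lit 87853696) (nat_lit 76) (nat_lit 13042407015) (nat_lit 47) (nat_lit 5) (nat_lit 51) (nat_lit 5) (nat_lit 48) (nat_lit 5) (nat_lit 346) (nat_lit 267) (nat_lit 167)) (XT.nd (nat_lit 78) (nat_lit 0) (nat_lit 0) (XT.lf (nat_lit 0) (nat_lit 9838432388) (nat_lit 152) (nat_lit 3300911274) (nat_lit 228) (nat_lit 9293439557) (nat_lit 45) (nat_lit 5) (nat_lit 47) (nat_lit 5) (nat_lit 48) (nat_lit 5) (nat_lit 347) (nat_lit 267) (nat_lit 166)) (XT.lf (nat_lit 0) (nat_lit 17592082979) (nat_lit 228) (nat_lit 2911799445) (nat_lit 76) (nat_lit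 2421032034) (nat_lit 45) (nat_lit 5) (nat_lit 48) (nat_lit 5) (nat_lit 46) (nat_lit 5) (nat_lit 348) (nat_lit 267) (nat_lit 165)))) (XT.nd (nat_lit 156) (nat_lit 152) (nat_lit 0) (XT.nd (nat_lit 78) (nat_lit 76) (nat_lit 0) (XT.lf (nat_lit 0) (nat_lit 7141556378) (nat_lit 152) (nat_lit 15122367052) (nat_lit 228) (nat_lit 1165328785) (nat_lit 43) (nat_lit 5) (nat_lit 45) (nat_lit 5) (nat_lit 46) (nat_lit 5) (nat_lit 349) (nat_lit 267) (nat_lit 164)) (XT.lf (nat_lit 0) (nat_lit 3080105850) (nat_lit 228) (nat_lit 6448398193) (nat_lit 76) (nat_lit 14418904035) (nat_lit 42) (nat_lit 5) (nat_lit 45) (nat_lit 5) (nat_lit 43) (nat_lit 5) (nat_lit 350) (nat_lit 267) (nat_lit 163))) (XT.nd (nat_lit 78) (nat_lit 0) (nat_lit 0) (XT.lf (nat_lit 0) (nat_lit 3721519530) (nat_lit 152) (nat_lit 3728429919) (nat_lit 228) (nat_lit 17030206451) (nat_lit 40) (nat_lit 5) (nat_lit 42) (nat_lit 5) (nat_lit 43) (nat_lit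 5) (nat_lit 351) (nat_lit 267) (nat_lit 162)) (XT.lf (nat_lit 0) (nat_lit 12023032994) (nat_lit 228) (nat_lit 10746194578) (nat_lit 76) (nat_lit 2257501487) (nat_lit 40) (nat_lit 5) (nat_lit 43) (nat_lit 5) (nat_lit 41) (nat_lit 5) (nat_lit 352) (nat_lit 267) (nat_lit 161)))))) (XT.nd (nat_lit 546) (nat_lit 304) (nat_lit 0) (XT.nd (nat_lit 234) (nat_lit 304) (nat_lit 0) (XT.nd (nat_lit 78) (nat_lit 228) (nat_lit 0) (XT.lf (nat_lit 0) (nat_lit 16755464208) (nat_lit 228) (nat_lit 495295934) (nat_lit 76) (nat_lit 8338281646) (nat_lit 40) (nat_lit 5) (nat_lit 43) (nat_lit 5) (nat_lit 41) (nat_lit 5) (nat_lit 353) (nat_lit 267) (nat_lit 160)) (XT.nd (nat_lit 78) (nat_lit 76) (nat_lit 0) (XT.lf (nat_lit 0) (nat_lit 10238649538) (nat_lit 152) (nat_lit 11475308902) (nat_lit 228) (nat_lit 4451749582) (nat_lit 38) (nat_lit 5) (nat_lit 40) (nat_lit 5) (nat_lit 41) (nat_lit 5) (nat_lit 354) (nat_lit 267) (nat_lit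 159)) (XT.lf (nat_lit 0) (nat_lit 51093283) (nat_lit 228) (nat_lit 5479724685) (nat_lit 76) (nat_lit 21229122139) (nat_lit 37) (nat_lit 5) (nat_lit 40) (nat_lit 5) (nat_lit 38) (nat_lit 5) (nat_lit 355) (nat_lit 267) (nat_lit 158)))) (XT.nd (nat_lit 156) (nat_lit 152) (nat_lit 0) (XT.nd (nat_lit 78) (nat_lit 0) (nat_lit 0) (XT.lf (nat_lit 0) (nat_lit 4643322286) (nat_lit 228) (nat_lit 22059014942) (nat_lit 76) (nat_lit 667032574) (nat_lit 35) (nat_lit 5) (nat_lit 38) (nat_lit 5) (nat_lit 36) (nat_lit 5) (nat_lit 356) (nat_lit 267) (nat_lit 157)) (XT.lf (nat_lit 0) (nat_lit 9470173163) (nat_lit 228) (nat_lit 11537974630) (nat_lit 76) (nat_lit 6986035008) (nat_lit 35) (nat_lit 5) (nat_lit 38) (nat_lit 5) (nat_lit 36) (nat_lit 5) (nat_lit 357) (nat_lit 267) (nat_lit 156))) (XT.nd (nat_lit 78) (nat_lit 152) (nat_lit 0) (XT.lf (nat_lit 0) (nat_lit 14428443245) (nat_lit 228) (nat_lit 724322150) (nat_lit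 76) (nat_lit 13485382273) (nat_lit 35) (nat_lit 5) (nat_lit 38) (nat_lit 5) (nat_lit 36) (nat_lit 5) (nat_lit 358) (nat_lit 267) (nat_lit 155)) (XT.lf (nat_lit 0) (nat_lit 10598200382) (nat_lit 152) (nat_lit 9026141005) (nat_lit 228) (nat_lit 9674429411) (nat_lit 33) (nat_lit 5) (nat_lit 35) (nat_lit 5) (nat_lit 36) (nat_lit 5) (nat_lit 359) (nat_lit 267) (nat_lit 154))))) (XT.nd (nat_lit 234) (nat_lit 152) (nat_lit 0) (XT.nd (nat_lit 78) (nat_lit 152) (nat_lit 0) (XT.lf (nat_lit 0) (nat_lit 22253117004) (nat_lit 152) (nat_lit 2717483088) (nat_lit 228) (nat_lit 5008783569) (nat_lit 33) (nat_lit 5) (nat_lit 35) (nat_lit 5) (nat_lit 36) (nat_lit 5) (nat_lit 360) (nat_lit 267) (nat_lit 153)) (XT.nd (nat_lit 78) (nat_lit 76) (nat_lit 0) (XT.lf (nat_lit 0) (nat_lit 3589187086) (nat_lit 76) (nat_lit 26946357097) (nat_lit 152) (nat_lit 143127188) (nat_lit 32) (nat_lit 5) (nat_lit 33) (nat_lit 5) (nat_lit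 34) (nat_lit 4) (nat_lit 361) (nat_lit 267) (nat_lit 152)) (XT.lf (nat_lit 0) (nat_lit 4866681946) (nat_lit 152) (nat_lit 16090406874) (nat_lit 76) (nat_lit 10437654450) (nat_lit 31) (nat_lit 5) (nat_lit 33) (nat_lit 5) (nat_lit 32) (nat_lit 5) (nat_lit 362) (nat_lit 267) (nat_lit 151)))) (XT.nd (nat_lit 156) (nat_lit 0) (nat_lit 0) (XT.nd (nat_lit 78) (nat_lit 152) (nat_lit 0) (XT.lf (nat_lit 0) (nat_lit 10011759726) (nat_lit 152) (nat_lit 4783956631) (nat_lit 76) (nat_lit 17336907854) (nat_lit 31) (nat_lit 5) (nat_lit 33) (nat_lit 5) (nat_lit 32) (nat_lit 5) (nat_lit 363) (nat_lit 267) (nat_lit 150)) (XT.lf (nat_lit 0) (nat_lit 6977273427) (nat_lit 152) (nat_lit 8389191170) (nat_lit 228) (nat_lit 17524523527) (nat_lit 29) (nat_lit 5) (nat_lit 31) (nat_lit 5) (nat_lit 32) (nat_lit 5) (nat_lit 364) (nat_lit 267) (nat_lit 149))) (XT.nd (nat_lit 78) (nat_lit 0) (nat_lit 0) (XT.lf (nat_lit 0) (nat_lit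 19169043004) (nat_lit 152) (nat_lit 1749428927) (nat_lit 228) (nat_lit 12752535833) (nat_lit 29) (nat_lit 5) (nat_lit 31) (nat_lit 5) (nat_lit 32) (nat_lit 5) (nat_lit 365) (nat_lit 267) (nat_lit 148)) (XT.lf (nat_lit 0) (nat_lit 26674573750) (nat_lit 228) (nat_lit 2816819054) (nat_lit 76) (nat_lit 4981913673) (nat_lit 29) (nat_lit 5) (nat_lit 32) (nat_lit 5) (nat_lit 30) (nat_lit 4) (nat_lit 366) (nat_lit 267) (nat_lit 147))))))) (XT.nd (nat_lit 1092) (nat_lit 456) (nat_lit 0) (XT.nd (nat_lit 546) (nat_lit 304) (nat_lit 0) (XT.nd (nat_lit 234) (nat_lit 228) (nat_lit 0) (XT.nd (nat_lit 78) (nat_lit 76) (nat_lit 0) (XT.lf (nat_lit 0) (nat_lit 9364852343) (nat_lit 76) (nat_lit 23334790404) (nat_lit 152) (nat_lit 2597147261) (nat_lit 28) (nat_lit 5) (nat_lit 29) (nat_lit 5) (nat_lit 30) (nat_lit 4) (nat_lit 367) (nat_lit 267) (nat_lit 146)) (XT.nd (nat_lit 78) (nat_lit 0) (nat_lit 0) (XT.lf (nat_lit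 0) (nat_lit 2724311722) (nat_lit 152) (nat_lit 14220708535) (nat_lit 76) (nat_lit 19198635064) (nat_lit 27) (nat_lit 5) (nat_lit 29) (nat_lit 5) (nat_lit 28) (nat_lit 5) (nat_lit 368) (nat_lit 267) (nat_lit 145)) (XT.lf (nat_lit 0) (nat_lit 8142502736) (nat_lit 152) (nat_lit 2202772032) (nat_lit 76) (nat_lit 26670205755) (nat_lit 27) (nat_lit 5) (nat_lit 29) (nat_lit 5) (nat_lit 28) (nat_lit 5) (nat_lit 369) (nat_lit 267) (nat_lit 144)))) (XT.nd (nat_lit 156) (nat_lit 76) (nat_lit 0) (XT.nd (nat_lit 78) (nat_lit 0) (nat_lit 0) (XT.lf (nat_lit 0) (nat_lit 10359489271) (nat_lit 152) (nat_lit 3452932294) (nat_lit 228) (nat_lit 24098367344) (nat_lit 25) (nat_lit 5) (nat_lit 27) (nat_lit 5) (nat_lit 28) (nat_lit 5) (nat_lit 370) (nat_lit 267) (nat_lit 143)) (XT.lf (nat_lit 0) (nat_lit 19699603572) (nat_lit 228) (nat_lit 15542205775) (nat_lit 76) (nat_lit 3589736010) (nat_lit 25) (nat_lit 5) (nat_lit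 28) (nat_lit 5) (nat_lit 26) (nat_lit 4) (nat_lit 371) (nat_lit 267) (nat_lit 142))) (XT.nd (nat_lit 78) (nat_lit 76) (nat_lit 0) (XT.lf (nat_lit 0) (nat_lit 25787542256) (nat_lit 228) (nat_lit 3224910105) (nat_lit 76) (nat_lit 10766751572) (nat_lit 25) (nat_lit 5) (nat_lit 28) (nat_lit 5) (nat_lit 26) (nat_lit 4) (nat_lit 372) (nat_lit 267) (nat_lit 141)) (XT.lf (nat_lit 0) (nat_lit 9632506654) (nat_lit 76) (nat_lit 22508452370) (nat_lit 152) (nat_lit 8611851605) (nat_lit 24) (nat_lit 5) (nat_lit 25) (nat_lit 5) (nat_lit 26) (nat_lit 4) (nat_lit 373) (nat_lit 267) (nat_lit 140))))) (XT.nd (nat_lit 234) (nat_lit 76) (nat_lit 0) (XT.nd (nat_lit 78) (nat_lit 228) (nat_lit 0) (XT.lf (nat_lit 0) (nat_lit 22924560955) (nat_lit 76) (nat_lit 15783347808) (nat_lit 152) (nat_lit 3047032307) (nat_lit 24) (nat_lit 5) (nat_lit 25) (nat_lit 5) (nat_lit 26) (nat_lit 4) (nat_lit 374) (nat_lit 267) (nat_lit 139))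 (XT.nd (nat_lit 78) (nat_lit 152) (nat_lit 0) (XT.lf (nat_lit 0) (nat_lit 2622892702) (nat_lit 152) (nat_lit 6214448864) (nat_lit 76) (nat_lit 33949306403) (nat_lit 23) (nat_lit 5) (nat_lit 25) (nat_lit 5) (nat_lit 24) (nat_lit 5) (nat_lit 375) (nat_lit 267) (nat_lit 138)) (XT.lf (nat_lit 0) (nat_lit 6867408256) (nat_lit 152) (nat_lit 1591103765) (nat_lit 228) (nat_lit 35388186993) (nat_lit 21) (nat_lit 5) (nat_lit 23) (nat_lit 5) (nat_lit 24) (nat_lit 5) (nat_lit 376) (nat_lit 267) (nat_lit 137)))) (XT.nd (nat_lit 156) (nat_lit 76) (nat_lit 0) (XT.nd (nat_lit 78) (nat_lit 0) (nat_lit 0) (XT.lf (nat_lit 0) (nat_lit 14579892737) (nat_lit 228) (nat_lit 24541066059) (nat_lit 76) (nat_lit 5814275082) (nat_lit 21) (nat_lit 5) (nat_lit 24) (nat_lit 5) (nat_lit 22) (nat_lit 4) (nat_lit 377) (nat_lit 267) (nat_lit 136)) (XT.lf (nat_lit 0) (nat_lit 20891801851) (nat_lit 228) (nat_lit 11761406074) (nat_lit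 76) (nat_lit 13403013236) (nat_lit 21) (nat_lit 5) (nat_lit 24) (nat_lit 5) (nat_lit 22) (nat_lit 4) (nat_lit 378) (nat_lit 267) (nat_lit 135))) (XT.nd (nat_lit 78) (nat_lit 0) (nat_lit 0) (XT.lf (nat_lit 0) (nat_lit 1413737666) (nat_lit 76) (nat_lit 25984312006) (nat_lit 152) (nat_lit 19812641844) (nat_lit 20) (nat_lit 5) (nat_lit 21) (nat_lit 5) (nat_lit 22) (nat_lit 4) (nat_lit 379) (nat_lit 267) (nat_lit 134)) (XT.lf (nat_lit 0) (nat_lit 15209891748) (nat_lit 76) (nat_lit 18999855299) (nat_lit 152) (nat_lit 14186743884) (nat_lit 20) (nat_lit 5) (nat_lit 21) (nat_lit 5) (nat_lit 22) (nat_lit 4) (nat_lit 380) (nat_lit 267) (nat_lit 133)))))) (XT.nd (nat_lit 546) (nat_lit 152) (nat_lit 0) (XT.nd (nat_lit 234) (nat_lit 76) (nat_lit 0) (XT.nd (nat_lit 78) (nat_lit 228) (nat_lit 0) (XT.lf (nat_lit 0) (nat_lit 29405036021) (nat_lit 76) (nat_lit 11812502020) (nat_lit 152) (nat_lit 8400576735) (nat_lit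 20) (nat_lit 5) (nat_lit 21) (nat_lit 5) (nat_lit 22) (nat_lit 4) (nat_lit 381) (nat_lit 267) (nat_lit 132)) (XT.nd (nat_lit 78) (nat_lit 228) (nat_lit 0) (XT.lf (nat_lit 0) (nat_lit 44011574010) (nat_lit 76) (nat_lit 4415971958) (nat_lit 152) (nat_lit 2449084524) (nat_lit 20) (nat_lit 5) (nat_lit 21) (nat_lit 5) (nat_lit 22) (nat_lit 4) (nat_lit 382) (nat_lit 267) (nat_lit 131)) (XT.lf (nat_lit 0) (nat_lit 3699995935) (nat_lit 228) (nat_lit 45231974354) (nat_lit 76) (nat_lit 3237146218) (nat_lit 17) (nat_lit 5) (nat_lit 20) (nat_lit 5) (nat_lit 18) (nat_lit 4) (nat_lit 383) (nat_lit 267) (nat_lit 130)))) (XT.nd (nat_lit 156) (nat_lit 76) (nat_lit 0) (XT.nd (nat_lit 78) (nat_lit 0) (nat_lit 0) (XT.lf (nat_lit 0) (nat_lit 10090227631) (nat_lit 228) (nat_lit 32287055191) (nat_lit 76) (nat_lit 11119192164) (nat_lit 17) (nat_lit 5) (nat_lit 20) (nat_lit 5) (nat_lit 18) (nat_lit 4) (nat_lit 384) (nat_lit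 267) (nat_lit 129)) (XT.lf (nat_lit 0) (nat_lit 16664564843) (nat_lit 228) (nat_lit 18967608110) (nat_lit 76) (nat_lit 19231711666) (nat_lit 17) (nat_lit 5) (nat_lit 20) (nat_lit 5) (nat_lit 18) (nat_lit 4) (nat_lit 385) (nat_lit 267) (nat_lit 128))) (XT.nd (nat_lit 78) (nat_lit 76) (nat_lit 0) (XT.lf (nat_lit 0) (nat_lit 23428752136) (nat_lit 228) (nat_lit 5261994758) (nat_lit 76) (nat_lit 27581793333) (nat_lit 17) (nat_lit 5) (nat_lit 20) (nat_lit 5) (nat_lit 18) (nat_lit 4) (nat_lit 386) (nat_lit 267) (nat_lit 127)) (XT.lf (nat_lit 0) (nat_lit 9017729016) (nat_lit 76) (nat_lit 21457654877) (nat_lit 152) (nat_lit 27245688266) (nat_lit 16) (nat_lit 5) (nat_lit 17) (nat_lit 5) (nat_lit 18) (nat_lit 4) (nat_lit 387) (nat_lit 267) (nat_lit 126))))) (XT.nd (nat_lit 234) (nat_lit 152) (nat_lit 0) (XT.nd (nat_lit 78) (nat_lit 0) (nat_lit 0) (XT.lf (nat_lit 0) (nat_lit 23820811596) (nat_lit 76) (nat_lit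 13958658456) (nat_lit 152) (nat_lit 21432210488) (nat_lit 16) (nat_lit 5) (nat_lit 17) (nat_lit 5) (nat_lit 18) (nat_lit 4) (nat_lit 388) (nat_lit 267) (nat_lit 125)) (XT.nd (nat_lit 78) (nat_lit 0) (nat_lit 0) (XT.lf (nat_lit 0) (nat_lit 39055463700) (nat_lit 76) (nat_lit 6240340939) (nat_lit 152) (nat_lit 15451410849) (nat_lit 16) (nat_lit 5) (nat_lit 17) (nat_lit 5) (nat_lit 18) (nat_lit 4) (nat_lit 389) (nat_lit 267) (nat_lit 124)) (XT.lf (nat_lit 0) (nat_lit 53047335620) (nat_lit 152) (nat_lit 7610401869) (nat_lit 0) (nat_lit 1670789838) (nat_lit 16) (nat_lit 5) (nat_lit 18) (nat_lit 4) (nat_lit 16) (nat_lit 4) (nat_lit 390) (nat_lit 267) (nat_lit 123)))) (XT.nd (nat_lit 156) (nat_lit 0) (nat_lit 0) (XT.nd (nat_lit 78) (nat_lit 76) (nat_lit 0) (XT.lf (nat_lit 0) (nat_lit 6955378215) (nat_lit 76) (nat_lit 54198148484) (nat_lit 76) (nat_lit 2800090368) (nat_lit 15) (nat_lit 4) (nat_lit 16) (nat_lit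 5) (nat_lit 16) (nat_lit 4) (nat_lit 391) (nat_lit 267) (nat_lit 122)) (XT.lf (nat_lit 0) (nat_lit 3870911132) (nat_lit 152) (nat_lit 43560994279) (nat_lit 76) (nat_lit 18192305624) (nat_lit 14) (nat_lit 5) (nat_lit 16) (nat_lit 5) (nat_lit 15) (nat_lit 4) (nat_lit 392) (nat_lit 267) (nat_lit 121))) (XT.nd (nat_lit 78) (nat_lit 0) (nat_lit 0) (XT.lf (nat_lit 0) (nat_lit 10679433501) (nat_lit 152) (nat_lit 29759971308) (nat_lit 76) (nat_lit 26904878011) (nat_lit 14) (nat_lit 5) (nat_lit 16) (nat_lit 5) (nat_lit 15) (nat_lit 4) (nat_lit 393) (nat_lit 267) (nat_lit 120)) (XT.lf (nat_lit 0) (nat_lit 17686065781) (nat_lit 152) (nat_lit 15556194613) (nat_lit 76) (nat_lit 35873882490) (nat_lit 14) (nat_lit 5) (nat_lit 16) (nat_lit 5) (nat_lit 15) (nat_lit 4) (nat_lit 394) (nat_lit 267) (nat_lit 119))))))))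
noncomputable def xc124 : XT := (XT.nd (nat_lit 31590) (nat_lit 0) (nat_lit 9120) (XT.nd (nat_lit 1014) (nat_lit 0) (nat_lit 0) (XT.nd (nat_lit 468) (nat_lit 228) (nat_lit 0) (XT.nd (nat_lit 234) (nat_lit 0) (nat_lit 0) (XT.nd (nat_lit 78) (nat_lit 76) (nat_lit 0) (XT.lf (nat_lit 0) (nat_lit 24896930273) (nat_lit 152) (nat_lit 937253126) (nat_lit 76) (nat_lit 45107156056) (nat_lit 14) (nat_lit 5) (nat_lit 16) (nat_lit 5) (nat_lit 15) (nat_lit 4) (nat_lit 395) (nat_lit 267) (nat_lit 118)) (XT.nd (nat_lit 78) (nat_lit 0) (nat_lit 0) (XT.lf (nat_lit 0) (nat_lit 14390436227) (nat_lit 76) (nat_lit 18066221180) (nat_lit 152) (nat_lit 40360660066) (nat_lit 13) (nat_lit 5) (nat_lit 14) (nat_lit 5) (nat_lit 15) (nat_lit 4) (nat_lit 396) (nat_lit 267) (nat_lit 117)) (XT.lf (nat_lit 0) (nat_lit 30186643623) (nat_lit 76) (nat_lit 10060271733) (nat_lit 152) (nat_lit 34502548908) (nat_lit 13) (nat_lit 5) (nat_lit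 14) (nat_lit 5) (nat_lit 15) (nat_lit 4) (nat_lit 397) (nat_lit 267) (nat_lit 116)))) (XT.nd (nat_lit 78) (nat_lit 0) (nat_lit 0) (XT.lf (nat_lit 0) (nat_lit 46446518398) (nat_lit 76) (nat_lit 1818803989) (nat_lit 152) (nat_lit 28474421389) (nat_lit 13) (nat_lit 5) (nat_lit 14) (nat_lit 5) (nat_lit 15) (nat_lit 4) (nat_lit 398) (nat_lit 267) (nat_lit 115)) (XT.nd (nat_lit 78) (nat_lit 0) (nat_lit 0) (XT.lf (nat_lit 0) (nat_lit 56582956616) (nat_lit 152) (nat_lit 15669698621) (nat_lit 0) (nat_lit 6535317699) (nat_lit 13) (nat_lit 5) (nat_lit 15) (nat_lit 4) (nat_lit 13) (nat_lit 4) (nat_lit 399) (nat_lit 267) (nat_lit 114)) (XT.lf (nat_lit 0) (nat_lit 65162846038) (nat_lit 152) (nat_lit 635222690) (nat_lit 0) (nat_lit 15099199924) (nat_lit 13) (nat_lit 5) (nat_lit 15) (nat_lit 4) (nat_lit 13) (nat_lit 4) (nat_lit 400) (nat_lit 267) (nat_lit 113))))) (XT.nd (nat_lit 234) (nat_lit 76) (nat_lit 0)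 (XT.nd (nat_lit 78) (nat_lit 76) (nat_lit 0) (XT.lf (nat_lit 0) (nat_lit 15136184263) (nat_lit 76) (nat_lit 59004318188) (nat_lit 76) (nat_lit 8925131105) (nat_lit 12) (nat_lit 4) (nat_lit 13) (nat_lit 5) (nat_lit 13) (nat_lit 4) (nat_lit 401) (nat_lit 267) (nat_lit 112)) (XT.nd (nat_lit 78) (nat_lit 76) (nat_lit 0) (XT.lf (nat_lit 0) (nat_lit 31384382932) (nat_lit 76) (nat_lit 52004451442) (nat_lit 76) (nat_lit 1910176041) (nat_lit 12) (nat_lit 4) (nat_lit 13) (nat_lit 5) (nat_lit 13) (nat_lit 4) (nat_lit 402) (nat_lit 267) (nat_lit 111)) (XT.lf (nat_lit 0) (nat_lit 5206537344) (nat_lit 152) (nat_lit 39539653445) (nat_lit 76) (nat_lit 42851815432) (nat_lit 11) (nat_lit 5) (nat_lit 13) (nat_lit 5) (nat_lit 12) (nat_lit 4) (nat_lit 403) (nat_lit 267) (nat_lit 110)))) (XT.nd (nat_lit 156) (nat_lit 76) (nat_lit 0) (XT.nd (nat_lit 78) (nat_lit 0) (nat_lit 0) (XT.lf (nat_lit 0) (nat_lit 12493533180)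 (nat_lit 152) (nat_lit 24761274086) (nat_lit 76) (nat_lit 52710743311) (nat_lit 11) (nat_lit 5) (nat_lit 13) (nat_lit 5) (nat_lit 12) (nat_lit 4) (nat_lit 404) (nat_lit 267) (nat_lit 109)) (XT.lf (nat_lit 0) (nat_lit 19994453157) (nat_lit 152) (nat_lit 9548214480) (nat_lit 76) (nat_lit 62861595426) (nat_lit 11) (nat_lit 5) (nat_lit 13) (nat_lit 5) (nat_lit 12) (nat_lit 4) (nat_lit 405) (nat_lit 267) (nat_lit 108))) (XT.nd (nat_lit 78) (nat_lit 0) (nat_lit 0) (XT.lf (nat_lit 0) (nat_lit 6234475408) (nat_lit 76) (nat_lit 21541305663) (nat_lit 152) (nat_lit 67138695638) (nat_lit 10) (nat_lit 5) (nat_lit 11) (nat_lit 5) (nat_lit 12) (nat_lit 4) (nat_lit 406) (nat_lit 267) (nat_lit 107)) (XT.lf (nat_lit 0) (nat_lit 22678038988) (nat_lit 76) (nat_lit 13204431194) (nat_lit 152) (nat_lit 61614770098) (nat_lit 10) (nat_lit 5) (nat_lit 11) (nat_lit 5) (nat_lit 12) (nat_lit 4) (nat_lit 407) (nat_lit 267)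 (nat_lit 106)))))) (XT.nd (nat_lit 30030) (nat_lit 0) (nat_lit 20140) (XT.nd (nat_lit 29718) (nat_lit 0) (nat_lit 20748) (XT.nd (nat_lit 78) (nat_lit 0) (nat_lit 0) (XT.lf (nat_lit 0) (nat_lit 39606816232) (nat_lit 76) (nat_lit 4621177829) (nat_lit 152) (nat_lit 55929624800) (nat_lit 10) (nat_lit 5) (nat_lit 11) (nat_lit 5) (nat_lit 12) (nat_lit 4) (nat_lit 408) (nat_lit 267) (nat_lit 105)) (XT.nd (nat_lit 78) (nat_lit 0) (nat_lit 0) (XT.lf (nat_lit 0) (nat_lit 52860171245) (nat_lit 152) (nat_lit 45902864111) (nat_lit 0) (nat_lit 4133685908) (nat_lit 10) (nat_lit 5) (nat_lit 12) (nat_lit 4) (nat_lit 10) (nat_lit 4) (nat_lit 409) (nat_lit 267) (nat_lit 104)) (XT.lf (nat_lit 0) (nat_lit 61792918921) (nat_lit 152) (nat_lit 30868961078) (nat_lit 0) (nat_lit 13054869644) (nat_lit 10) (nat_lit 5) (nat_lit 12) (nat_lit 4) (nat_lit 10) (nat_lit 4) (nat_lit 410) (nat_lit 267) (nat_lit 103)))) (XT.nd (nat_lit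 156) (nat_lit 608) (nat_lit 0) (XT.nd (nat_lit 78) (nat_lit 0) (nat_lit 0) (XT.lf (nat_lit 0) (nat_lit 271992062) (nat_lit 0) (nat_lit 271992062) (nat_lit 532) (nat_lit 2816581612) (nat_lit 291) (nat_lit 5) (nat_lit 291) (nat_lit 3) (nat_lit 298) (nat_lit 3) (nat_lit 268) (nat_lit 268) (nat_lit 244)) (XT.lf (nat_lit 0) (nat_lit 3153315994) (nat_lit 532) (nat_lit 3053013824) (nat_lit 608) (nat_lit 550685951) (nat_lit 291) (nat_lit 5) (nat_lit 298) (nat_lit 3) (nat_lit 299) (nat_lit 5) (nat_lit 269) (nat_lit 268) (nat_lit 243))) (XT.nd (nat_lit 78) (nat_lit 608) (nat_lit 0) (XT.lf (nat_lit 76) (nat_lit 118989920) (nat_lit 0) (nat_lit 5088790235) (nat_lit 608) (nat_lit 1588516865) (nat_lit 292) (nat_lit 5) (nat_lit 291) (nat_lit 5) (nat_lit 299) (nat_lit 5) (nat_lit 270) (nat_lit 268) (nat_lit 242)) (XT.lf (nat_lit 0) (nat_lit 430385867) (nat_lit 608) (nat_lit 3436139193) (nat_lit 684) (nat_lit 2971635428)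 (nat_lit 283) (nat_lit 5) (nat_lit 291) (nat_lit 5) (nat_lit 292) (nat_lit 5) (nat_lit 271) (nat_lit 268) (nat_lit 241))))) (XT.nd (nat_lit 234) (nat_lit 608) (nat_lit 0) (XT.nd (nat_lit 78) (nat_lit 0) (nat_lit 0) (XT.lf (nat_lit 0) (nat_lit 2401845673) (nat_lit 608) (nat_lit 156238104) (nat_lit 684) (nat_lit 4325130359) (nat_lit 283) (nat_lit 5) (nat_lit 291) (nat_lit 5) (nat_lit 292) (nat_lit 5) (nat_lit 272) (nat_lit 268) (nat_lit 240)) (XT.nd (nat_lit 78) (nat_lit 0) (nat_lit 76) (XT.lf (nat_lit 76) (nat_lit 3243830718) (nat_lit 0) (nat_lit 1145933840) (nat_lit 684) (nat_lit 2541255417) (nat_lit 284) (nat_lit 5) (nat_lit 283) (nat_lit 5) (nat_lit 292) (nat_lit 5) (nat_lit 273) (nat_lit 268) (nat_lit 239)) (XT.lf (nat_lit 0) (nat_lit 6370068251) (nat_lit 608) (nat_lit 277788932) (nat_lit 684) (nat_lit 334536933) (nat_lit 284) (nat_lit 5) (nat_lit 292) (nat_lit 5) (nat_lit 293) (nat_lit 5) (nat_lit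 274) (nat_lit 268) (nat_lit 238)))) (XT.nd (nat_lit 156) (nat_lit 0) (nat_lit 0) (XT.nd (nat_lit 78) (nat_lit 0) (nat_lit 0) (XT.lf (nat_lit 0) (nat_lit 1320073282) (nat_lit 684) (nat_lit 3805768202) (nat_lit 760) (nat_lit 1910008803) (nat_lit 275) (nat_lit 5) (nat_lit 284) (nat_lit 5) (nat_lit 285) (nat_lit 5) (nat_lit 275) (nat_lit 268) (nat_lit 237)) (XT.lf (nat_lit 0) (nat_lit 3232094403) (nat_lit 684) (nat_lit 291520179) (nat_lit 760) (nat_lit 3569201621) (nat_lit 275) (nat_lit 5) (nat_lit 284) (nat_lit 5) (nat_lit 285) (nat_lit 5) (nat_lit 276) (nat_lit 268) (nat_lit 236))) (XT.nd (nat_lit 78) (nat_lit 0) (nat_lit 0) (XT.lf (nat_lit 76) (nat_lit 3351331030) (nat_lit 0) (nat_lit 1815490507) (nat_lit 760) (nat_lit 1985812746) (nat_lit 276) (nat_lit 5) (nat_lit 275) (nat_lit 5) (nat_lit 285) (nat_lit 5) (nat_lit 277) (nat_lit 268) (nat_lit 235)) (XT.lf (nat_lit 76) (nat_lit 7067636789) (nat_lit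 0) (nat_lit 29573602) (nat_lit 760) (nat_lit 119008448) (nat_lit 276) (nat_lit 5) (nat_lit 275) (nat_lit 5) (nat_lit 285) (nat_lit 5) (nat_lit 278) (nat_lit 268) (nat_lit 234))))))) (XT.nd (nat_lit 1092) (nat_lit 4484) (nat_lit 0) (XT.nd (nat_lit 546) (nat_lit 4256) (nat_lit 0) (XT.nd (nat_lit 234) (nat_lit 1596) (nat_lit 0) (XT.nd (nat_lit 78) (nat_lit 0) (nat_lit 0) (XT.lf (nat_lit 0) (nat_lit 1757431750) (nat_lit 760) (nat_lit 3675131509) (nat_lit 836) (nat_lit 1849057345) (nat_lit 266) (nat_lit 5) (nat_lit 276) (nat_lit 5) (nat_lit 277) (nat_lit 5) (nat_lit 279) (nat_lit 268) (nat_lit 233)) (XT.nd (nat_lit 78) (nat_lit 0) (nat_lit 0) (XT.lf (nat_lit 76) (nat_lit 84762261) (nat_lit 0) (nat_lit 3543160891) (nat_lit 836) (nat_lit 3722913421) (nat_lit 267) (nat_lit 5) (nat_lit 266) (nat_lit 5) (nat_lit 277) (nat_lit 5) (nat_lit 280) (nat_lit 268) (nat_lit 232)) (XT.lf (nat_lit 76) (nat_lit 3989493568)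 (nat_lit 0) (nat_lit 1541077877) (nat_lit 836) (nat_lit 1892365633) (nat_lit 267) (nat_lit 5) (nat_lit 266) (nat_lit 5) (nat_lit 277) (nat_lit 5) (nat_lit 281) (nat_lit 268) (nat_lit 231)))) (XT.nd (nat_lit 156) (nat_lit 836) (nat_lit 0) (XT.nd (nat_lit 78) (nat_lit 76) (nat_lit 0) (XT.lf (nat_lit 0) (nat_lit 474347479) (nat_lit 760) (nat_lit 6966395370) (nat_lit 836) (nat_lit 58031160) (nat_lit 257) (nat_lit 5) (nat_lit 267) (nat_lit 5) (nat_lit 268) (nat_lit 5) (nat_lit 282) (nat_lit 268) (nat_lit 230)) (XT.lf (nat_lit 0) (nat_lit 1787392680) (nat_lit 836) (nat_lit 3084176536) (nat_lit 76) (nat_lit 2705116597) (nat_lit 256) (nat_lit 5) (nat_lit 267) (nat_lit 5) (nat_lit 257) (nat_lit 5) (nat_lit 283) (nat_lit 268) (nat_lit 229))) (XT.nd (nat_lit 78) (nat_lit 0) (nat_lit 0) (XT.lf (nat_lit 0) (nat_lit 948645381) (nat_lit 836) (nat_lit 2690712388) (nat_lit 912) (nat_lit 4019068979) (nat_lit 245)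 (nat_lit 5) (nat_lit 256) (nat_lit 5) (nat_lit 257) (nat_lit 5) (nat_lit 284) (nat_lit 268) (nat_lit 228)) (XT.lf (nat_lit 0) (nat_lit 5122529232) (nat_lit 836) (nat_lit 399961531) (nat_lit 912) (nat_lit 2220937927) (nat_lit 245) (nat_lit 5) (nat_lit 256) (nat_lit 5) (nat_lit 257) (nat_lit 5) (nat_lit 285) (nat_lit 268) (nat_lit 227))))) (XT.nd (nat_lit 234) (nat_lit 2280) (nat_lit 0) (XT.nd (nat_lit 78) (nat_lit 1064) (nat_lit 0) (XT.lf (nat_lit 0) (nat_lit 1558528767) (nat_lit 912) (nat_lit 5883604516) (nat_lit 988) (nat_lit 389521748) (nat_lit 233) (nat_lit 5) (nat_lit 245) (nat_lit 5) (nat_lit 246) (nat_lit 5) (nat_lit 286) (nat_lit 268) (nat_lit 226)) (XT.nd (nat_lit 78) (nat_lit 988) (nat_lit 0) (XT.lf (nat_lit 0) (nat_lit 1445072836) (nat_lit 988) (nat_lit 2067677423) (nat_lit 76) (nat_lit 4410093419) (nat_lit 232) (nat_lit 5) (nat_lit 245) (nat_lit 5) (nat_lit 233) (nat_lit 5) (nat_lit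 287) (nat_lit 268) (nat_lit 225)) (XT.lf (nat_lit 0) (nat_lit 2261095116) (nat_lit 988) (nat_lit 1035823549) (nat_lit 1064) (nat_lit 4720700805) (nat_lit 219) (nat_lit 5) (nat_lit 232) (nat_lit 5) (nat_lit 233) (nat_lit 5) (nat_lit 288) (nat_lit 268) (nat_lit 224)))) (XT.nd (nat_lit 156) (nat_lit 1216) (nat_lit 0) (XT.nd (nat_lit 78) (nat_lit 1064) (nat_lit 0) (XT.lf (nat_lit 0) (nat_lit 5189451921) (nat_lit 1064) (nat_lit 1411612833) (nat_lit 76) (nat_lit 1514686282) (nat_lit 219) (nat_lit 5) (nat_lit 233) (nat_lit 5) (nat_lit 220) (nat_lit 5) (nat_lit 289) (nat_lit 268) (nat_lit 223)) (XT.lf (nat_lit 0) (nat_lit 3070250456) (nat_lit 1064) (nat_lit 4059229792) (nat_lit 1140) (nat_lit 1087689257) (nat_lit 205) (nat_lit 5) (nat_lit 219) (nat_lit 5) (nat_lit 220) (nat_lit 5) (nat_lit 290) (nat_lit 268) (nat_lit 222))) (XT.nd (nat_lit 78) (nat_lit 1140) (nat_lit 0) (XT.lf (nat_lit 0) (nat_lit 756177193)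 (nat_lit 1140) (nat_lit 657243113) (nat_lit 76) (nat_lit 6909063755) (nat_lit 204) (nat_lit 5) (nat_lit 219) (nat_lit 5) (nat_lit 205) (nat_lit 5) (nat_lit 291) (nat_lit 268) (nat_lit 221)) (XT.lf (nat_lit 0) (nat_lit 2637858999) (nat_lit 1216) (nat_lit 4452235094) (nat_lit 76) (nat_lit 1340469113) (nat_lit 189) (nat_lit 5) (nat_lit 205) (nat_lit 5) (nat_lit 190) (nat_lit 5) (nat_lit 292) (nat_lit 268) (nat_lit 220)))))) (XT.nd (nat_lit 546) (nat_lit 2052) (nat_lit 0) (XT.nd (nat_lit 234) (nat_lit 1140) (nat_lit 0) (XT.nd (nat_lit 78) (nat_lit 608) (nat_lit 0) (XT.lf (nat_lit 0) (nat_lit 170569022) (nat_lit 684) (nat_lit 4381615890) (nat_lit 760) (nat_lit 3990471333) (nat_lit 180) (nat_lit 5) (nat_lit 189) (nat_lit 5) (nat_lit 190) (nat_lit 5) (nat_lit 293) (nat_lit 268) (nat_lit 219)) (XT.nd (nat_lit 78) (nat_lit 608) (nat_lit 0) (XT.lf (nat_lit 0) (nat_lit 4980296608) (nat_lit 684) (nat_lit 1543390402)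 (nat_lit 760) (nat_lit 2134488334) (nat_lit 180) (nat_lit 5) (nat_lit 189) (nat_lit 5) (nat_lit 190) (nat_lit 5) (nat_lit 294) (nat_lit 268) (nat_lit 218)) (XT.lf (nat_lit 0) (nat_lit 1122632178) (nat_lit 608) (nat_lit 7411883477) (nat_lit 684) (nat_lit 243292959) (nat_lit 172) (nat_lit 5) (nat_lit 180) (nat_lit 5) (nat_lit 181) (nat_lit 5) (nat_lit 295) (nat_lit 268) (nat_lit 217)))) (XT.nd (nat_lit 156) (nat_lit 532) (nat_lit 0) (XT.nd (nat_lit 78) (nat_lit 532) (nat_lit 0) (XT.lf (nat_lit 0) (nat_lit 1680677433) (nat_lit 684) (nat_lit 2833058594) (nat_lit 76) (nat_lit 4386575128) (nat_lit 171) (nat_lit 5) (nat_lit 180) (nat_lit 5) (nat_lit 172) (nat_lit 5) (nat_lit 296) (nat_lit 268) (nat_lit 216)) (XT.lf (nat_lit 0) (nat_lit 2130500904) (nat_lit 532) (nat_lit 1505236943) (nat_lit 608) (nat_lit 5391380289) (nat_lit 164) (nat_lit 5) (nat_lit 171) (nat_lit 5) (nat_lit 172) (nat_lit 5) (nat_lit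 297) (nat_lit 268) (nat_lit 215))) (XT.nd (nat_lit 78) (nat_lit 532) (nat_lit 0) (XT.lf (nat_lit 0) (nat_lit 5652261363) (nat_lit 608) (nat_lit 1914685535) (nat_lit 76) (nat_lit 1590746104) (nat_lit 164) (nat_lit 5) (nat_lit 172) (nat_lit 5) (nat_lit 165) (nat_lit 5) (nat_lit 298) (nat_lit 268) (nat_lit 214)) (XT.lf (nat_lit 0) (nat_lit 3222691505) (nat_lit 532) (nat_lit 4512278508) (nat_lit 608) (nat_lit 1557091035) (nat_lit 157) (nat_lit 5) (nat_lit 164) (nat_lit 5) (nat_lit 165) (nat_lit 5) (nat_lit 299) (nat_lit 268) (nat_lit 213))))) (XT.nd (nat_lit 234) (nat_lit 988) (nat_lit 0) (XT.nd (nat_lit 78) (nat_lit 988) (nat_lit 0) (XT.lf (nat_lit 0) (nat_lit 420594373) (nat_lit 608) (nat_lit 923376308) (nat_lit 76) (nat_lit 8087013613) (nat_lit 156) (nat_lit 5) (nat_lit 164) (nat_lit 5) (nat_lit 157) (nat_lit 5) (nat_lit 300) (nat_lit 268) (nat_lit 212)) (XT.nd (nat_lit 78) (nat_lit 532) (nat_lit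 0) (XT.lf (nat_lit 0) (nat_lit 2448974264) (nat_lit 532) (nat_lit 5186165103) (nat_lit 76) (nat_lit 1937836231) (nat_lit 150) (nat_lit 5) (nat_lit 157) (nat_lit 5) (nat_lit 151) (nat_lit 5) (nat_lit 301) (nat_lit 268) (nat_lit 211)) (XT.lf (nat_lit 0) (nat_lit 102959667) (nat_lit 532) (nat_lit 4420971460) (nat_lit 608) (nat_lit 5195765166) (nat_lit 143) (nat_lit 5) (nat_lit 150) (nat_lit 5) (nat_lit 151) (nat_lit 5) (nat_lit 302) (nat_lit 268) (nat_lit 210)))) (XT.nd (nat_lit 156) (nat_lit 532) (nat_lit 0) (XT.nd (nat_lit 78) (nat_lit 456) (nat_lit 0) (XT.lf (nat_lit 0) (nat_lit 5615545821) (nat_lit 532) (nat_lit 1060680865) (nat_lit 608) (nat_lit 3194179434) (nat_lit 143) (nat_lit 5) (nat_lit 150) (nat_lit 5) (nat_lit 151) (nat_lit 5) (nat_lit 303) (nat_lit 268) (nat_lit 209)) (XT.lf (nat_lit 0) (nat_lit 1227348520) (nat_lit 456) (nat_lit 7664381024) (nat_lit 532) (nat_lit 1133987585) (nat_lit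 137) (nat_lit 5) (nat_lit 143) (nat_lit 5) (nat_lit 144) (nat_lit 5) (nat_lit 304) (nat_lit 268) (nat_lit 208))) (XT.nd (nat_lit 78) (nat_lit 456) (nat_lit 0) (XT.lf (nat_lit 0) (nat_lit 986661374) (nat_lit 532) (nat_lit 3285325110) (nat_lit 76) (nat_lit 5912914931) (nat_lit 136) (nat_lit 5) (nat_lit 143) (nat_lit 5) (nat_lit 137) (nat_lit 5) (nat_lit 305) (nat_lit 268) (nat_lit 207)) (XT.lf (nat_lit 0) (nat_lit 2387949360) (nat_lit 456) (nat_lit 748228329) (nat_lit 532) (nat_lit 7212741244) (nat_lit 130) (nat_lit 5) (nat_lit 136) (nat_lit 5) (nat_lit 137) (nat_lit 5) (nat_lit 306) (nat_lit 268) (nat_lit 206))))))))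
noncomputable def xc125 : XT := (XT.nd (nat_lit 2184) (nat_lit 2432) (nat_lit 0) (XT.nd (nat_lit 1092) (nat_lit 2280) (nat_lit 0) (XT.nd (nat_lit 546) (nat_lit 1140) (nat_lit 0) (XT.nd (nat_lit 234) (nat_lit 1292) (nat_lit 0) (XT.nd (nat_lit 78) (nat_lit 380) (nat_lit 0) (XT.lf (nat_lit 0) (nat_lit 5377039974) (nat_lit 532) (nat_lit 2287258271) (nat_lit 76) (nat_lit 2852787603) (nat_lit 130) (nat_lit 5) (nat_lit 137) (nat_lit 5) (nat_lit 131) (nat_lit 5) (nat_lit 307) (nat_lit 268) (nat_lit 205)) (XT.nd (nat_lit 78) (nat_lit 0) (nat_lit 0) (XT.lf (nat_lit 0) (nat_lit 3579156827) (nat_lit 380) (nat_lit 4114445129) (nat_lit 456) (nat_lit 2996475277) (nat_lit 125) (nat_lit 5) (nat_lit 130) (nat_lit 5) (nat_lit 131) (nat_lit 5) (nat_lit 308) (nat_lit 268) (nat_lit 204)) (XT.lf (nat_lit 0) (nat_lit 9628900934) (nat_lit 380) (nat_lit 441108144) (nat_lit 456) (nat_lit 798571527) (nat_lit 125) (nat_lit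 5) (nat_lit 130) (nat_lit 5) (nat_lit 131) (nat_lit 5) (nat_lit 309) (nat_lit 268) (nat_lit 203)))) (XT.nd (nat_lit 156) (nat_lit 760) (nat_lit 0) (XT.nd (nat_lit 78) (nat_lit 0) (nat_lit 0) (XT.lf (nat_lit 0) (nat_lit 1483813059) (nat_lit 532) (nat_lit 6235107574) (nat_lit 76) (nat_lit 3331712620) (nat_lit 118) (nat_lit 5) (nat_lit 125) (nat_lit 5) (nat_lit 119) (nat_lit 5) (nat_lit 310) (nat_lit 268) (nat_lit 202)) (XT.lf (nat_lit 0) (nat_lit 3803983675) (nat_lit 532) (nat_lit 211964907) (nat_lit 76) (nat_lit 7222430671) (nat_lit 118) (nat_lit 5) (nat_lit 125) (nat_lit 5) (nat_lit 119) (nat_lit 5) (nat_lit 311) (nat_lit 268) (nat_lit 201))) (XT.nd (nat_lit 78) (nat_lit 380) (nat_lit 0) (XT.lf (nat_lit 0) (nat_lit 6071915837) (nat_lit 380) (nat_lit 149487534) (nat_lit 456) (nat_lit 5209553991) (nat_lit 113) (nat_lit 5) (nat_lit 118) (nat_lit 5) (nat_lit 119) (nat_lit 5) (nat_lit 312) (nat_lit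 268) (nat_lit 200)) (XT.lf (nat_lit 0) (nat_lit 860410513) (nat_lit 380) (nat_lit 7867942675) (nat_lit 456) (nat_lit 2900477605) (nat_lit 108) (nat_lit 5) (nat_lit 113) (nat_lit 5) (nat_lit 114) (nat_lit 5) (nat_lit 313) (nat_lit 268) (nat_lit 199))))) (XT.nd (nat_lit 234) (nat_lit 760) (nat_lit 0) (XT.nd (nat_lit 78) (nat_lit 380) (nat_lit 0) (XT.lf (nat_lit 0) (nat_lit 7336250627) (nat_lit 380) (nat_lit 4000083698) (nat_lit 456) (nat_lit 495558799) (nat_lit 108) (nat_lit 5) (nat_lit 113) (nat_lit 5) (nat_lit 114) (nat_lit 5) (nat_lit 314) (nat_lit 268) (nat_lit 198)) (XT.nd (nat_lit 78) (nat_lit 0) (nat_lit 0) (XT.lf (nat_lit 0) (nat_lit 1932478995) (nat_lit 380) (nat_lit 10094726521) (nat_lit 76) (nat_lit 13607062) (nat_lit 103) (nat_lit 5) (nat_lit 108) (nat_lit 5) (nat_lit 104) (nat_lit 5) (nat_lit 315) (nat_lit 268) (nat_lit 197)) (XT.lf (nat_lit 0) (nat_lit 4480047948) (nat_lit 380) (nat_lit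 3664829085) (nat_lit 76) (nat_lit 4109300935) (nat_lit 103) (nat_lit 5) (nat_lit 108) (nat_lit 5) (nat_lit 104) (nat_lit 5) (nat_lit 316) (nat_lit 268) (nat_lit 196)))) (XT.nd (nat_lit 156) (nat_lit 380) (nat_lit 0) (XT.nd (nat_lit 78) (nat_lit 0) (nat_lit 0) (XT.lf (nat_lit 0) (nat_lit 2978758246) (nat_lit 380) (nat_lit 4125957067) (nat_lit 456) (nat_lit 5369233197) (nat_lit 98) (nat_lit 5) (nat_lit 103) (nat_lit 5) (nat_lit 104) (nat_lit 5) (nat_lit 317) (nat_lit 268) (nat_lit 195)) (XT.lf (nat_lit 0) (nat_lit 9818032567) (nat_lit 456) (nat_lit 2840644872) (nat_lit 76) (nat_lit 41361053) (nat_lit 98) (nat_lit 5) (nat_lit 104) (nat_lit 5) (nat_lit 99) (nat_lit 5) (nat_lit 318) (nat_lit 268) (nat_lit 194))) (XT.nd (nat_lit 78) (nat_lit 76) (nat_lit 0) (XT.lf (nat_lit 0) (nat_lit 4014394854) (nat_lit 304) (nat_lit 8651003881) (nat_lit 380) (nat_lit 265955887) (nat_lit 94) (nat_lit 5) (nat_lit 98)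 (nat_lit 5) (nat_lit 99) (nat_lit 5) (nat_lit 319) (nat_lit 268) (nat_lit 193)) (XT.lf (nat_lit 0) (nat_lit 2383512741) (nat_lit 380) (nat_lit 2095881469) (nat_lit 76) (nat_lit 8689467473) (nat_lit 93) (nat_lit 5) (nat_lit 98) (nat_lit 5) (nat_lit 94) (nat_lit 5) (nat_lit 320) (nat_lit 268) (nat_lit 192)))))) (XT.nd (nat_lit 546) (nat_lit 1064) (nat_lit 0) (XT.nd (nat_lit 234) (nat_lit 608) (nat_lit 0) (XT.nd (nat_lit 78) (nat_lit 304) (nat_lit 0) (XT.lf (nat_lit 0) (nat_lit 4988798758) (nat_lit 304) (nat_lit 140410968) (nat_lit 380) (nat_lit 8283563527) (nat_lit 89) (nat_lit 5) (nat_lit 93) (nat_lit 5) (nat_lit 94) (nat_lit 5) (nat_lit 321) (nat_lit 268) (nat_lit 191)) (XT.nd (nat_lit 78) (nat_lit 304) (nat_lit 0) (XT.lf (nat_lit 0) (nat_lit 7994713875) (nat_lit 380) (nat_lit 1412288928) (nat_lit 76) (nat_lit 4255896654) (nat_lit 89) (nat_lit 5) (nat_lit 94) (nat_lit 5) (nat_lit 90) (nat_lit 5)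 (nat_lit 322) (nat_lit 268) (nat_lit 190)) (XT.lf (nat_lit 0) (nat_lit 5888223927) (nat_lit 304) (nat_lit 5091146655) (nat_lit 380) (nat_lit 2940183023) (nat_lit 85) (nat_lit 5) (nat_lit 89) (nat_lit 5) (nat_lit 90) (nat_lit 5) (nat_lit 323) (nat_lit 268) (nat_lit 189)))) (XT.nd (nat_lit 156) (nat_lit 228) (nat_lit 0) (XT.nd (nat_lit 78) (nat_lit 380) (nat_lit 0) (XT.lf (nat_lit 0) (nat_lit 13402012645) (nat_lit 304) (nat_lit 641400696) (nat_lit 380) (nat_lit 140817852) (nat_lit 85) (nat_lit 5) (nat_lit 89) (nat_lit 5) (nat_lit 90) (nat_lit 5) (nat_lit 324) (nat_lit 268) (nat_lit 188)) (XT.lf (nat_lit 0) (nat_lit 2768691427) (nat_lit 380) (nat_lit 7737888298) (nat_lit 76) (nat_lit 3947106206) (nat_lit 80) (nat_lit 5) (nat_lit 85) (nat_lit 5) (nat_lit 81) (nat_lit 5) (nat_lit 325) (nat_lit 268) (nat_lit 187))) (XT.nd (nat_lit 78) (nat_lit 228) (nat_lit 0) (XT.lf (nat_lit 0) (nat_lit 5753300320)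 (nat_lit 380) (nat_lit 318487322) (nat_lit 76) (nat_lit 8659693081) (nat_lit 80) (nat_lit 5) (nat_lit 85) (nat_lit 5) (nat_lit 81) (nat_lit 5) (nat_lit 326) (nat_lit 268) (nat_lit 186)) (XT.lf (nat_lit 0) (nat_lit 7435119463) (nat_lit 228) (nat_lit 1440805778) (nat_lit 304) (nat_lit 6140246846) (nat_lit 77) (nat_lit 5) (nat_lit 80) (nat_lit 5) (nat_lit 81) (nat_lit 5) (nat_lit 327) (nat_lit 268) (nat_lit 185))))) (XT.nd (nat_lit 234) (nat_lit 456) (nat_lit 0) (XT.nd (nat_lit 78) (nat_lit 304) (nat_lit 0) (XT.lf (nat_lit 0) (nat_lit 53843775) (nat_lit 304) (nat_lit 12051409241) (nat_lit 380) (nat_lit 3203777020) (nat_lit 73) (nat_lit 5) (nat_lit 77) (nat_lit 5) (nat_lit 78) (nat_lit 5) (nat_lit 328) (nat_lit 268) (nat_lit 184)) (XT.nd (nat_lit 78) (nat_lit 304) (nat_lit 0) (XT.lf (nat_lit 0) (nat_lit 8025243491) (nat_lit 304) (nat_lit 7474495000) (nat_lit 380) (nat_lit 108902981) (nat_lit 73) (nat_lit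 5) (nat_lit 77) (nat_lit 5) (nat_lit 78) (nat_lit 5) (nat_lit 329) (nat_lit 268) (nat_lit 183)) (XT.lf (nat_lit 0) (nat_lit 261166530) (nat_lit 228) (nat_lit 2738102800) (nat_lit 304) (nat_lit 12917683290) (nat_lit 69) (nat_lit 5) (nat_lit 72) (nat_lit 5) (nat_lit 73) (nat_lit 5) (nat_lit 330) (nat_lit 268) (nat_lit 182)))) (XT.nd (nat_lit 156) (nat_lit 228) (nat_lit 0) (XT.nd (nat_lit 78) (nat_lit 228) (nat_lit 0) (XT.lf (nat_lit 0) (nat_lit 6274651067) (nat_lit 304) (nat_lit 7791222055) (nat_lit 76) (nat_lit 2166337761) (nat_lit 69) (nat_lit 5) (nat_lit 73) (nat_lit 5) (nat_lit 70) (nat_lit 5) (nat_lit 331) (nat_lit 268) (nat_lit 181)) (XT.lf (nat_lit 0) (nat_lit 254993964) (nat_lit 228) (nat_lit 9401737882) (nat_lit 304) (nat_lit 6899956209) (nat_lit 66) (nat_lit 5) (nat_lit 69) (nat_lit 5) (nat_lit 70) (nat_lit 5) (nat_lit 332) (nat_lit 268) (nat_lit 180))) (XT.nd (nat_lit 78) (nat_lit 228)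 (nat_lit 0) (XT.lf (nat_lit 0) (nat_lit 8670473226) (nat_lit 228) (nat_lit 4527663618) (nat_lit 304) (nat_lit 3691040720) (nat_lit 66) (nat_lit 5) (nat_lit 69) (nat_lit 5) (nat_lit 70) (nat_lit 5) (nat_lit 333) (nat_lit 268) (nat_lit 179)) (XT.lf (nat_lit 0) (nat_lit 72019728) (nat_lit 228) (nat_lit 16758881159) (nat_lit 304) (nat_lit 401200833) (nat_lit 63) (nat_lit 5) (nat_lit 66) (nat_lit 5) (nat_lit 67) (nat_lit 5) (nat_lit 334) (nat_lit 268) (nat_lit 178))))))) (XT.nd (nat_lit 1092) (nat_lit 1064) (nat_lit 0) (XT.nd (nat_lit 546) (nat_lit 608) (nat_lit 0) (XT.nd (nat_lit 234) (nat_lit 456) (nat_lit 0) (XT.nd (nat_lit 78) (nat_lit 228) (nat_lit 0) (XT.lf (nat_lit 0) (nat_lit 3037454009) (nat_lit 304) (nat_lit 8908781532) (nat_lit 76) (nat_lit 5634976872) (nat_lit 62) (nat_lit 5) (nat_lit 66) (nat_lit 5) (nat_lit 63) (nat_lit 5) (nat_lit 335) (nat_lit 268) (nat_lit 177)) (XT.nd (nat_lit 78)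 (nat_lit 228) (nat_lit 0) (XT.lf (nat_lit 0) (nat_lit 6551564514) (nat_lit 304) (nat_lit 444528388) (nat_lit 76) (nat_lit 10945185892) (nat_lit 62) (nat_lit 5) (nat_lit 66) (nat_lit 5) (nat_lit 63) (nat_lit 5) (nat_lit 336) (nat_lit 268) (nat_lit 176)) (XT.lf (nat_lit 0) (nat_lit 8408000347) (nat_lit 228) (nat_lit 1824852630) (nat_lit 304) (nat_lit 8077453517) (nat_lit 59) (nat_lit 5) (nat_lit 62) (nat_lit 5) (nat_lit 63) (nat_lit 5) (nat_lit 337) (nat_lit 268) (nat_lit 175)))) (XT.nd (nat_lit 156) (nat_lit 304) (nat_lit 0) (XT.nd (nat_lit 78) (nat_lit 152) (nat_lit 0) (XT.lf (nat_lit 0) (nat_lit 14043874248) (nat_lit 304) (nat_lit 1218660497) (nat_lit 76) (nat_lit 3427303075) (nat_lit 59) (nat_lit 5) (nat_lit 63) (nat_lit 5) (nat_lit 60) (nat_lit 5) (nat_lit 338) (nat_lit 268) (nat_lit 174)) (XT.lf (nat_lit 0) (nat_lit 7831208521) (nat_lit 152) (nat_lit 10213016321) (nat_lit 228) (nat_lit 1034291564)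 (nat_lit 57) (nat_lit 5) (nat_lit 59) (nat_lit 5) (nat_lit 60) (nat_lit 5) (nat_lit 339) (nat_lit 268) (nat_lit 173))) (XT.nd (nat_lit 78) (nat_lit 228) (nat_lit 0) (XT.lf (nat_lit 0) (nat_lit 2627470923) (nat_lit 228) (nat_lit 2355992967) (nat_lit 76) (nat_lit 14494803128) (nat_lit 56) (nat_lit 5) (nat_lit 59) (nat_lit 5) (nat_lit 57) (nat_lit 5) (nat_lit 340) (nat_lit 268) (nat_lit 172)) (XT.lf (nat_lit 0) (nat_lit 6431390766) (nat_lit 304) (nat_lit 12994632815) (nat_lit 76) (nat_lit 462096894) (nat_lit 53) (nat_lit 5) (nat_lit 57) (nat_lit 5) (nat_lit 54) (nat_lit 5) (nat_lit 341) (nat_lit 268) (nat_lit 171))))) (XT.nd (nat_lit 234) (nat_lit 456) (nat_lit 0) (XT.nd (nat_lit 78) (nat_lit 152) (nat_lit 0) (XT.lf (nat_lit 0) (nat_lit 10405195829) (nat_lit 304) (nat_lit 3918815995) (nat_lit 76) (nat_lit 5984594707) (nat_lit 53) (nat_lit 5) (nat_lit 57) (nat_lit 5) (nat_lit 54) (nat_lit 5) (nat_lit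 342) (nat_lit 268) (nat_lit 170)) (XT.nd (nat_lit 78) (nat_lit 0) (nat_lit 0) (XT.lf (nat_lit 0) (nat_lit 5509175635) (nat_lit 152) (nat_lit 9024909532) (nat_lit 228) (nat_lit 6206555630) (nat_lit 51) (nat_lit 5) (nat_lit 53) (nat_lit 5) (nat_lit 54) (nat_lit 5) (nat_lit 343) (nat_lit 268) (nat_lit 169)) (XT.lf (nat_lit 0) (nat_lit 15273005970) (nat_lit 152) (nat_lit 3536555081) (nat_lit 228) (nat_lit 2375402889) (nat_lit 51) (nat_lit 5) (nat_lit 53) (nat_lit 5) (nat_lit 54) (nat_lit 5) (nat_lit 344) (nat_lit 268) (nat_lit 168)))) (XT.nd (nat_lit 156) (nat_lit 152) (nat_lit 0) (XT.nd (nat_lit 78) (nat_lit 0) (nat_lit 0) (XT.lf (nat_lit 0) (nat_lit 1579987482) (nat_lit 304) (nat_lit 17944637972) (nat_lit 76) (nat_lit 2116348696) (nat_lit 47) (nat_lit 5) (nat_lit 51) (nat_lit 5) (nat_lit 48) (nat_lit 5) (nat_lit 345) (nat_lit 268) (nat_lit 167)) (XT.lf (nat_lit 0) (nat_lit 5685196025) (nat_lit 304)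 (nat_lit 8480940600) (nat_lit 76) (nat_lit 7941464130) (nat_lit 47) (nat_lit 5) (nat_lit 51) (nat_lit 5) (nat_lit 48) (nat_lit 5) (nat_lit 346) (nat_lit 268) (nat_lit 166))) (XT.nd (nat_lit 78) (nat_lit 0) (nat_lit 0) (XT.lf (nat_lit 0) (nat_lit 1265131583) (nat_lit 152) (nat_lit 8644662349) (nat_lit 228) (nat_lit 12678553628) (nat_lit 45) (nat_lit 5) (nat_lit 47) (nat_lit 5) (nat_lit 48) (nat_lit 5) (nat_lit 347) (nat_lit 268) (nat_lit 165)) (XT.lf (nat_lit 0) (nat_lit 11451470608) (nat_lit 152) (nat_lit 2879586249) (nat_lit 228) (nat_lit 8750370248) (nat_lit 45) (nat_lit 5) (nat_lit 47) (nat_lit 5) (nat_lit 48) (nat_lit 5) (nat_lit 348) (nat_lit 268) (nat_lit 164)))))) (XT.nd (nat_lit 546) (nat_lit 532) (nat_lit 0) (XT.nd (nat_lit 234) (nat_lit 304) (nat_lit 0) (XT.nd (nat_lit 78) (nat_lit 228) (nat_lit 0) (XT.lf (nat_lit 0) (nat_lit 18899005499) (nat_lit 228) (nat_lit 1700878756) (nat_lit 76)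 (nat_lit 2989001261) (nat_lit 45) (nat_lit 5) (nat_lit 48) (nat_lit 5) (nat_lit 46) (nat_lit 5) (nat_lit 349) (nat_lit 268) (nat_lit 163)) (XT.nd (nat_lit 78) (nat_lit 76) (nat_lit 0) (XT.lf (nat_lit 0) (nat_lit 8641349558) (nat_lit 152) (nat_lit 15059315083) (nat_lit 228) (nat_lit 408010556) (nat_lit 43) (nat_lit 5) (nat_lit 45) (nat_lit 5) (nat_lit 46) (nat_lit 5) (nat_lit 350) (nat_lit 268) (nat_lit 162)) (XT.lf (nat_lit 0) (nat_lit 3926701154) (nat_lit 228) (nat_lit 5378369351) (nat_lit 76) (nat_lit 15337766553) (nat_lit 42) (nat_lit 5) (nat_lit 45) (nat_lit 5) (nat_lit 43) (nat_lit 5) (nat_lit 351) (nat_lit 268) (nat_lit 161)))) (XT.nd (nat_lit 156) (nat_lit 152) (nat_lit 0) (XT.nd (nat_lit 78) (nat_lit 0) (nat_lit 0) (XT.lf (nat_lit 0) (nat_lit 5084258838) (nat_lit 152) (nat_lit 3333440741) (nat_lit 228) (nat_lit 16774176654) (nat_lit 40) (nat_lit 5) (nat_lit 42) (nat_lit 5) (nat_lit 43)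 (nat_lit 5) (nat_lit 352) (nat_lit 268) (nat_lit 160)) (XT.lf (nat_lit 0) (nat_lit 13111028569) (nat_lit 228) (nat_lit 9836632853) (nat_lit 76) (nat_lit 2807703969) (nat_lit 40) (nat_lit 5) (nat_lit 43) (nat_lit 5) (nat_lit 41) (nat_lit 5) (nat_lit 353) (nat_lit 268) (nat_lit 159))) (XT.nd (nat_lit 78) (nat_lit 0) (nat_lit 0) (XT.lf (nat_lit 0) (nat_lit 699561751) (nat_lit 152) (nat_lit 17271411954) (nat_lit 228) (nat_lit 8364017656) (nat_lit 38) (nat_lit 5) (nat_lit 40) (nat_lit 5) (nat_lit 41) (nat_lit 5) (nat_lit 354) (nat_lit 268) (nat_lit 158)) (XT.lf (nat_lit 0) (nat_lit 11730148485) (nat_lit 152) (nat_lit 11332167629) (nat_lit 228) (nat_lit 3867128462) (nat_lit 38) (nat_lit 5) (nat_lit 40) (nat_lit 5) (nat_lit 41) (nat_lit 5) (nat_lit 355) (nat_lit 268) (nat_lit 157))))) (XT.nd (nat_lit 234) (nat_lit 304) (nat_lit 0) (XT.nd (nat_lit 78) (nat_lit 152) (nat_lit 0) (XT.lf (nat_lit 0) (nat_lit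 736276037) (nat_lit 228) (nat_lit 4480358539) (nat_lit 76) (nat_lit 22325286462) (nat_lit 37) (nat_lit 5) (nat_lit 40) (nat_lit 5) (nat_lit 38) (nat_lit 5) (nat_lit 356) (nat_lit 268) (nat_lit 156)) (XT.nd (nat_lit 78) (nat_lit 0) (nat_lit 0) (XT.lf (nat_lit 0) (nat_lit 5462027198) (nat_lit 228) (nat_lit 21552483984) (nat_lit 76) (nat_lit 1155258747) (nat_lit 35) (nat_lit 5) (nat_lit 38) (nat_lit 5) (nat_lit 36) (nat_lit 5) (nat_lit 357) (nat_lit 268) (nat_lit 155)) (XT.lf (nat_lit 0) (nat_lit 10413895099) (nat_lit 228) (nat_lit 10749840658) (nat_lit 76) (nat_lit 7650193919) (nat_lit 35) (nat_lit 5) (nat_lit 38) (nat_lit 5) (nat_lit 36) (nat_lit 5) (nat_lit 358) (nat_lit 268) (nat_lit 154)))) (XT.nd (nat_lit 156) (nat_lit 152) (nat_lit 0) (XT.nd (nat_lit 78) (nat_lit 0) (nat_lit 0) (XT.lf (nat_lit 0) (nat_lit 362253175) (nat_lit 152) (nat_lit 15142930169) (nat_lit 228) (nat_lit 13972510492) (nat_lit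 33) (nat_lit 5) (nat_lit 35) (nat_lit 5) (nat_lit 36) (nat_lit 5) (nat_lit 359) (nat_lit 268) (nat_lit 153)) (XT.lf (nat_lit 0) (nat_lit 12006586087) (nat_lit 152) (nat_lit 8838719556) (nat_lit 228) (nat_lit 9313187804) (nat_lit 33) (nat_lit 5) (nat_lit 35) (nat_lit 5) (nat_lit 36) (nat_lit 5) (nat_lit 360) (nat_lit 268) (nat_lit 152))) (XT.nd (nat_lit 78) (nat_lit 152) (nat_lit 0) (XT.lf (nat_lit 0) (nat_lit 23979389829) (nat_lit 152) (nat_lit 2354147699) (nat_lit 228) (nat_lit 4526547571) (nat_lit 33) (nat_lit 5) (nat_lit 35) (nat_lit 5) (nat_lit 36) (nat_lit 5) (nat_lit 361) (nat_lit 268) (nat_lit 151)) (XT.lf (nat_lit 0) (nat_lit 472057992) (nat_lit 152) (nat_lit 26825667172) (nat_lit 76) (nat_lit 4282600544) (nat_lit 31) (nat_lit 5) (nat_lit 33) (nat_lit 5) (nat_lit 32) (nat_lit 5) (nat_lit 362) (nat_lit 268) (nat_lit 150))))))))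
noncomputable def xc126 : XT := (XT.nd (nat_lit 2184) (nat_lit 456) (nat_lit 0) (XT.nd (nat_lit 1092) (nat_lit 532) (nat_lit 0) (XT.nd (nat_lit 546) (nat_lit 304) (nat_lit 0) (XT.nd (nat_lit 234) (nat_lit 152) (nat_lit 0) (XT.nd (nat_lit 78) (nat_lit 152) (nat_lit 0) (XT.lf (nat_lit 0) (nat_lit 5611325397) (nat_lit 152) (nat_lit 15529347681) (nat_lit 76) (nat_lit 11177710241) (nat_lit 31) (nat_lit 5) (nat_lit 33) (nat_lit 5) (nat_lit 32) (nat_lit 5) (nat_lit 363) (nat_lit 268) (nat_lit 149)) (XT.nd (nat_lit 78) (nat_lit 152) (nat_lit 0) (XT.lf (nat_lit 0) (nat_lit 10893319307) (nat_lit 152) (nat_lit 3914105039) (nat_lit 76) (nat_lit 18271506505) (nat_lit 31) (nat_lit 5) (nat_lit 33) (nat_lit 5) (nat_lit 32) (nat_lit 5) (nat_lit 364) (nat_lit 268) (nat_lit 148)) (XT.lf (nat_lit 0) (nat_lit 8190026918) (nat_lit 152) (nat_lit 8211355687) (nat_lit 228) (nat_lit 17458888429) (nat_lit 29) (nat_lit 5)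 (nat_lit 31) (nat_lit 5) (nat_lit 32) (nat_lit 5) (nat_lit 365) (nat_lit 268) (nat_lit 147)))) (XT.nd (nat_lit 156) (nat_lit 152) (nat_lit 0) (XT.nd (nat_lit 78) (nat_lit 0) (nat_lit 0) (XT.lf (nat_lit 0) (nat_lit 20718323311) (nat_lit 152) (nat_lit 1384910612) (nat_lit 228) (nat_lit 12560965496) (nat_lit 29) (nat_lit 5) (nat_lit 31) (nat_lit 5) (nat_lit 32) (nat_lit 5) (nat_lit 366) (nat_lit 268) (nat_lit 146)) (XT.lf (nat_lit 0) (nat_lit 28019681162) (nat_lit 228) (nat_lit 1942936127) (nat_lit 76) (nat_lit 5528326411) (nat_lit 29) (nat_lit 5) (nat_lit 32) (nat_lit 5) (nat_lit 30) (nat_lit 4) (nat_lit 367) (nat_lit 268) (nat_lit 145))) (XT.nd (nat_lit 78) (nat_lit 76) (nat_lit 0) (XT.lf (nat_lit 0) (nat_lit 10594789457) (nat_lit 76) (nat_lit 23623965053) (nat_lit 152) (nat_lit 2120585945) (nat_lit 28) (nat_lit 5) (nat_lit 29) (nat_lit 5) (nat_lit 30) (nat_lit 4) (nat_lit 368) (nat_lit 268) (nat_lit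 144)) (XT.lf (nat_lit 0) (nat_lit 3333862351) (nat_lit 152) (nat_lit 13715276551) (nat_lit 76) (nat_lit 20162793892) (nat_lit 27) (nat_lit 5) (nat_lit 29) (nat_lit 5) (nat_lit 28) (nat_lit 5) (nat_lit 369) (nat_lit 268) (nat_lit 143))))) (XT.nd (nat_lit 234) (nat_lit 152) (nat_lit 0) (XT.nd (nat_lit 78) (nat_lit 152) (nat_lit 0) (XT.lf (nat_lit 0) (nat_lit 8899225660) (nat_lit 152) (nat_lit 1363949134) (nat_lit 76) (nat_lit 27847204914) (nat_lit 27) (nat_lit 5) (nat_lit 29) (nat_lit 5) (nat_lit 28) (nat_lit 5) (nat_lit 370) (nat_lit 268) (nat_lit 142)) (XT.nd (nat_lit 78) (nat_lit 0) (nat_lit 0) (XT.lf (nat_lit 0) (nat_lit 11566308379) (nat_lit 152) (nat_lit 3166621241) (nat_lit 228) (nat_lit 24299812686) (nat_lit 25) (nat_lit 5) (nat_lit 27) (nat_lit 5) (nat_lit 28) (nat_lit 5) (nat_lit 371) (nat_lit 268) (nat_lit 141)) (XT.lf (nat_lit 0) (nat_lit 20785624064) (nat_lit 228) (nat_lit 15127251800)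 (nat_lit 76) (nat_lit 4068584099) (nat_lit 25) (nat_lit 5) (nat_lit 28) (nat_lit 5) (nat_lit 26) (nat_lit 4) (nat_lit 372) (nat_lit 268) (nat_lit 140)))) (XT.nd (nat_lit 156) (nat_lit 76) (nat_lit 0) (XT.nd (nat_lit 78) (nat_lit 76) (nat_lit 0) (XT.lf (nat_lit 0) (nat_lit 27041782489) (nat_lit 228) (nat_lit 2466103866) (nat_lit 76) (nat_lit 11450099758) (nat_lit 25) (nat_lit 5) (nat_lit 28) (nat_lit 5) (nat_lit 26) (nat_lit 4) (nat_lit 373) (nat_lit 268) (nat_lit 139)) (XT.lf (nat_lit 0) (nat_lit 10768647616) (nat_lit 76) (nat_lit 22811299154) (nat_lit 152) (nat_lit 8381035001) (nat_lit 24) (nat_lit 5) (nat_lit 25) (nat_lit 5) (nat_lit 26) (nat_lit 4) (nat_lit 374) (nat_lit 268) (nat_lit 138))) (XT.nd (nat_lit 78) (nat_lit 76) (nat_lit 0) (XT.lf (nat_lit 0) (nat_lit 24434788816) (nat_lit 76) (nat_lit 15895288255) (nat_lit 152) (nat_lit 2663518857) (nat_lit 24) (nat_lit 5) (nat_lit 25) (nat_lit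 5) (nat_lit 26) (nat_lit 4) (nat_lit 375) (nat_lit 268) (nat_lit 137)) (XT.lf (nat_lit 0) (nat_lit 3153673593) (nat_lit 152) (nat_lit 5593193842) (nat_lit 76) (nat_lit 35309661203) (nat_lit 23) (nat_lit 5) (nat_lit 25) (nat_lit 5) (nat_lit 24) (nat_lit 5) (nat_lit 376) (nat_lit 268) (nat_lit 136)))))) (XT.nd (nat_lit 546) (nat_lit 304) (nat_lit 0) (XT.nd (nat_lit 234) (nat_lit 76) (nat_lit 0) (XT.nd (nat_lit 78) (nat_lit 0) (nat_lit 0) (XT.lf (nat_lit 0) (nat_lit 7873200477) (nat_lit 152) (nat_lit 1285681103) (nat_lit 228) (nat_lit 35989668573) (nat_lit 21) (nat_lit 5) (nat_lit 23) (nat_lit 5) (nat_lit 24) (nat_lit 5) (nat_lit 377) (nat_lit 268) (nat_lit 135)) (XT.nd (nat_lit 78) (nat_lit 0) (nat_lit 0) (XT.lf (nat_lit 0) (nat_lit 15454191411) (nat_lit 228) (nat_lit 24490963036) (nat_lit 76) (nat_lit 6324882396) (nat_lit 21) (nat_lit 5) (nat_lit 24) (nat_lit 5) (nat_lit 22) (nat_lit 4) (nat_lit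 378) (nat_lit 268) (nat_lit 134)) (XT.lf (nat_lit 0) (nat_lit 21942732500) (nat_lit 228) (nat_lit 11350816213) (nat_lit 76) (nat_lit 14131491071) (nat_lit 21) (nat_lit 5) (nat_lit 24) (nat_lit 5) (nat_lit 22) (nat_lit 4) (nat_lit 379) (nat_lit 268) (nat_lit 133)))) (XT.nd (nat_lit 156) (nat_lit 0) (nat_lit 0) (XT.nd (nat_lit 78) (nat_lit 0) (nat_lit 0) (XT.lf (nat_lit 0) (nat_lit 2212097211) (nat_lit 76) (nat_lit 26426982516) (nat_lit 152) (nat_lit 19975221322) (nat_lit 20) (nat_lit 5) (nat_lit 21) (nat_lit 5) (nat_lit 22) (nat_lit 4) (nat_lit 380) (nat_lit 268) (nat_lit 132)) (XT.lf (nat_lit 0) (nat_lit 16400118030) (nat_lit 76) (nat_lit 19242803530) (nat_lit 152) (nat_lit 14193123115) (nat_lit 20) (nat_lit 5) (nat_lit 21) (nat_lit 5) (nat_lit 22) (nat_lit 4) (nat_lit 381) (nat_lit 268) (nat_lit 131))) (XT.nd (nat_lit 78) (nat_lit 0) (nat_lit 0) (XT.lf (nat_lit 0) (nat_lit 30999740043) (nat_lit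 76) (nat_lit 11849355306) (nat_lit 152) (nat_lit 8245581333) (nat_lit 20) (nat_lit 5) (nat_lit 21) (nat_lit 5) (nat_lit 22) (nat_lit 4) (nat_lit 382) (nat_lit 268) (nat_lit 130)) (XT.lf (nat_lit 0) (nat_lit 46023720202) (nat_lit 76) (nat_lit 4240177549) (nat_lit 152) (nat_lit 2127399094) (nat_lit 20) (nat_lit 5) (nat_lit 21) (nat_lit 5) (nat_lit 22) (nat_lit 4) (nat_lit 383) (nat_lit 268) (nat_lit 129))))) (XT.nd (nat_lit 234) (nat_lit 76) (nat_lit 0) (XT.nd (nat_lit 78) (nat_lit 0) (nat_lit 0) (XT.lf (nat_lit 0) (nat_lit 4196796777) (nat_lit 228) (nat_lit 45887534985) (nat_lit 76) (nat_lit 3638164691) (nat_lit 17) (nat_lit 5) (nat_lit 20) (nat_lit 5) (nat_lit 18) (nat_lit 4) (nat_lit 384) (nat_lit 268) (nat_lit 128)) (XT.nd (nat_lit 78) (nat_lit 0) (nat_lit 0) (XT.lf (nat_lit 0) (nat_lit 10767498503) (nat_lit 228) (nat_lit 32574697334) (nat_lit 76) (nat_lit 11747820439) (nat_lit 17) (nat_lit 5)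 (nat_lit 20) (nat_lit 5) (nat_lit 18) (nat_lit 4) (nat_lit 385) (nat_lit 268) (nat_lit 127)) (XT.lf (nat_lit 0) (nat_lit 17528156199) (nat_lit 228) (nat_lit 18875500903) (nat_lit 76) (nat_lit 20095121764) (nat_lit 17) (nat_lit 5) (nat_lit 20) (nat_lit 5) (nat_lit 18) (nat_lit 4) (nat_lit 386) (nat_lit 268) (nat_lit 126)))) (XT.nd (nat_lit 156) (nat_lit 0) (nat_lit 0) (XT.nd (nat_lit 78) (nat_lit 76) (nat_lit 0) (XT.lf (nat_lit 0) (nat_lit 24484677234) (nat_lit 228) (nat_lit 4777975523) (nat_lit 76) (nat_lit 28687362423) (nat_lit 17) (nat_lit 5) (nat_lit 20) (nat_lit 5) (nat_lit 18) (nat_lit 4) (nat_lit 387) (nat_lit 268) (nat_lit 125)) (XT.lf (nat_lit 0) (nat_lit 9923847032) (nat_lit 76) (nat_lit 21814687180) (nat_lit 152) (nat_lit 27703597255) (nat_lit 16) (nat_lit 5) (nat_lit 17) (nat_lit 5) (nat_lit 18) (nat_lit 4) (nat_lit 388) (nat_lit 268) (nat_lit 124))) (XT.nd (nat_lit 78) (nat_lit 0) (nat_lit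 0) (XT.lf (nat_lit 0) (nat_lit 25152509871) (nat_lit 76) (nat_lit 14099071274) (nat_lit 152) (nat_lit 21726184901) (nat_lit 16) (nat_lit 5) (nat_lit 17) (nat_lit 5) (nat_lit 18) (nat_lit 4) (nat_lit 389) (nat_lit 268) (nat_lit 123)) (XT.lf (nat_lit 0) (nat_lit 40826228511) (nat_lit 76) (nat_lit 6157311425) (nat_lit 152) (nat_lit 15576126086) (nat_lit 16) (nat_lit 5) (nat_lit 17) (nat_lit 5) (nat_lit 18) (nat_lit 4) (nat_lit 390) (nat_lit 268) (nat_lit 122))))))) (XT.nd (nat_lit 1092) (nat_lit 76) (nat_lit 0) (XT.nd (nat_lit 546) (nat_lit 152) (nat_lit 0) (XT.nd (nat_lit 234) (nat_lit 76) (nat_lit 0) (XT.nd (nat_lit 78) (nat_lit 152) (nat_lit 0) (XT.lf (nat_lit 0) (nat_lit 54960560414) (nat_lit 152) (nat_lit 7249908952) (nat_lit 0) (nat_lit 1978162458) (nat_lit 16) (nat_lit 5) (nat_lit 18) (nat_lit 4) (nat_lit 16) (nat_lit 4) (nat_lit 391) (nat_lit 268) (nat_lit 121)) (XT.nd (nat_lit 78) (nat_lit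 76) (nat_lit 0) (XT.lf (nat_lit 0) (nat_lit 7747071937) (nat_lit 76) (nat_lit 55559096800) (nat_lit 76) (nat_lit 2556421405) (nat_lit 15) (nat_lit 4) (nat_lit 16) (nat_lit 5) (nat_lit 16) (nat_lit 4) (nat_lit 392) (nat_lit 268) (nat_lit 120)) (XT.lf (nat_lit 0) (nat_lit 4298958485) (nat_lit 152) (nat_lit 44295476503) (nat_lit 76) (nat_lit 18989055843) (nat_lit 14) (nat_lit 5) (nat_lit 16) (nat_lit 5) (nat_lit 15) (nat_lit 4) (nat_lit 393) (nat_lit 268) (nat_lit 119)))) (XT.nd (nat_lit 156) (nat_lit 76) (nat_lit 0) (XT.nd (nat_lit 78) (nat_lit 0) (nat_lit 0) (XT.lf (nat_lit 0) (nat_lit 11302651476) (nat_lit 152) (nat_lit 30097093163) (nat_lit 76) (nat_lit 27955695274) (nat_lit 14) (nat_lit 5) (nat_lit 16) (nat_lit 5) (nat_lit 15) (nat_lit 4) (nat_lit 394) (nat_lit 268) (nat_lit 118)) (XT.lf (nat_lit 0) (nat_lit 18510662288) (nat_lit 152) (nat_lit 15483387942) (nat_lit 76) (nat_lit 37186672676) (nat_lit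 14) (nat_lit 5) (nat_lit 16) (nat_lit 5) (nat_lit 15) (nat_lit 4) (nat_lit 395) (nat_lit 268) (nat_lit 117))) (XT.nd (nat_lit 78) (nat_lit 76) (nat_lit 0) (XT.lf (nat_lit 0) (nat_lit 25929289184) (nat_lit 152) (nat_lit 441591584) (nat_lit 76) (nat_lit 46690053952) (nat_lit 14) (nat_lit 5) (nat_lit 16) (nat_lit 5) (nat_lit 15) (nat_lit 4) (nat_lit 396) (nat_lit 268) (nat_lit 116)) (XT.lf (nat_lit 0) (nat_lit 15340793360) (nat_lit 76) (nat_lit 18371686190) (nat_lit 152) (nat_lit 41280814758) (nat_lit 13) (nat_lit 5) (nat_lit 14) (nat_lit 5) (nat_lit 15) (nat_lit 4) (nat_lit 397) (nat_lit 268) (nat_lit 115))))) (XT.nd (nat_lit 234) (nat_lit 152) (nat_lit 0) (XT.nd (nat_lit 78) (nat_lit 0) (nat_lit 0) (XT.lf (nat_lit 0) (nat_lit 31595780841) (nat_lit 76) (nat_lit 10132447239) (nat_lit 152) (nat_lit 35255426239) (nat_lit 13) (nat_lit 5) (nat_lit 14) (nat_lit 5) (nat_lit 15) (nat_lit 4) (nat_lit 398)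 (nat_lit 268) (nat_lit 114)) (XT.nd (nat_lit 78) (nat_lit 0) (nat_lit 0) (XT.lf (nat_lit 0) (nat_lit 48328785706) (nat_lit 76) (nat_lit 1650423792) (nat_lit 152) (nat_lit 29054674288) (nat_lit 13) (nat_lit 5) (nat_lit 14) (nat_lit 5) (nat_lit 15) (nat_lit 4) (nat_lit 399) (nat_lit 268) (nat_lit 113)) (XT.lf (nat_lit 0) (nat_lit 58540707952) (nat_lit 152) (nat_lit 15659419693) (nat_lit 0) (nat_lit 6943604288) (nat_lit 13) (nat_lit 5) (nat_lit 15) (nat_lit 4) (nat_lit 13) (nat_lit 4) (nat_lit 400) (nat_lit 268) (nat_lit 112)))) (XT.nd (nat_lit 156) (nat_lit 76) (nat_lit 0) (XT.nd (nat_lit 78) (nat_lit 76) (nat_lit 0) (XT.lf (nat_lit 0) (nat_lit 67370413592) (nat_lit 152) (nat_lit 187900841) (nat_lit 0) (nat_lit 15758221609) (nat_lit 13) (nat_lit 5) (nat_lit 15) (nat_lit 4) (nat_lit 13) (nat_lit 4) (nat_lit 401) (nat_lit 268) (nat_lit 111)) (XT.lf (nat_lit 0) (nat_lit 16052075983) (nat_lit 76) (nat_lit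 60562403203) (nat_lit 76) (nat_lit 8935562367) (nat_lit 12) (nat_lit 4) (nat_lit 13) (nat_lit 5) (nat_lit 13) (nat_lit 4) (nat_lit 402) (nat_lit 268) (nat_lit 110))) (XT.nd (nat_lit 78) (nat_lit 76) (nat_lit 0) (XT.lf (nat_lit 0) (nat_lit 32774269947) (nat_lit 76) (nat_lit 53358716509) (nat_lit 76) (nat_lit 1717653486) (nat_lit 12) (nat_lit 4) (nat_lit 13) (nat_lit 5) (nat_lit 13) (nat_lit 4) (nat_lit 403) (nat_lit 268) (nat_lit 109)) (XT.lf (nat_lit 0) (nat_lit 5600551712) (nat_lit 152) (nat_lit 40285750995) (nat_lit 76) (nat_lit 44332446776) (nat_lit 11) (nat_lit 5) (nat_lit 13) (nat_lit 5) (nat_lit 12) (nat_lit 4) (nat_lit 404) (nat_lit 268) (nat_lit 108)))))) (XT.nd (nat_lit 30108) (nat_lit 0) (nat_lit 20064) (XT.nd (nat_lit 234) (nat_lit 0) (nat_lit 0) (XT.nd (nat_lit 78) (nat_lit 76) (nat_lit 0) (XT.lf (nat_lit 0) (nat_lit 13099230678) (nat_lit 152) (nat_lit 25076838471) (nat_lit 76) (nat_lit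 54481460640) (nat_lit 11) (nat_lit 5) (nat_lit 13) (nat_lit 5) (nat_lit 12) (nat_lit 4) (nat_lit 405) (nat_lit 268) (nat_lit 107)) (XT.nd (nat_lit 78) (nat_lit 76) (nat_lit 0) (XT.lf (nat_lit 0) (nat_lit 20818453260) (nat_lit 152) (nat_lit 9419831945) (nat_lit 76) (nat_lit 64931321959) (nat_lit 11) (nat_lit 5) (nat_lit 13) (nat_lit 5) (nat_lit 12) (nat_lit 4) (nat_lit 406) (nat_lit 268) (nat_lit 106)) (XT.lf (nat_lit 0) (nat_lit 6832271688) (nat_lit 76) (nat_lit 21998368696) (nat_lit 152) (nat_lit 68924565965) (nat_lit 10) (nat_lit 5) (nat_lit 11) (nat_lit 5) (nat_lit 12) (nat_lit 4) (nat_lit 407) (nat_lit 268) (nat_lit 105)))) (XT.nd (nat_lit 156) (nat_lit 0) (nat_lit 0) (XT.nd (nat_lit 78) (nat_lit 0) (nat_lit 0) (XT.lf (nat_lit 0) (nat_lit 23757178234) (nat_lit 76) (nat_lit 13416897978) (nat_lit 152) (nat_lit 63241571898) (nat_lit 10) (nat_lit 5) (nat_lit 11) (nat_lit 5) (nat_lit 12) (nat_lit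 4) (nat_lit 408) (nat_lit 268) (nat_lit 104)) (XT.lf (nat_lit 0) (nat_lit 41182203318) (nat_lit 76) (nat_lit 4581496511) (nat_lit 152) (nat_lit 57392327814) (nat_lit 10) (nat_lit 5) (nat_lit 11) (nat_lit 5) (nat_lit 12) (nat_lit 4) (nat_lit 409) (nat_lit 268) (nat_lit 103))) (XT.nd (nat_lit 29640) (nat_lit 0) (nat_lit 21356) (XT.lf (nat_lit 0) (nat_lit 54650423018) (nat_lit 152) (nat_lit 46899573049) (nat_lit 0) (nat_lit 4427441196) (nat_lit 10) (nat_lit 5) (nat_lit 12) (nat_lit 4) (nat_lit 10) (nat_lit 4) (nat_lit 410) (nat_lit 268) (nat_lit 102)) (XT.lf (nat_lit 0) (nat_lit 1292144186) (nat_lit 0) (nat_lit 1292144186) (nat_lit 532) (nat_lit 812946242) (nat_lit 291) (nat_lit 5) (nat_lit 291) (nat_lit 3) (nat_lit 298) (nat_lit 3) (nat_lit 269) (nat_lit 269) (nat_lit 242))))) (XT.nd (nat_lit 234) (nat_lit 608) (nat_lit 0) (XT.nd (nat_lit 78) (nat_lit 0) (nat_lit 0) (XT.lf (nat_lit 0) (nat_lit 330510579)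 (nat_lit 684) (nat_lit 1052690572) (nat_lit 684) (nat_lit 5452035302) (nat_lit 282) (nat_lit 3) (nat_lit 291) (nat_lit 3) (nat_lit 291) (nat_lit 5) (nat_lit 270) (nat_lit 269) (nat_lit 241)) (XT.nd (nat_lit 78) (nat_lit 0) (nat_lit 76) (XT.lf (nat_lit 76) (nat_lit 2186873738) (nat_lit 0) (nat_lit 71026774) (nat_lit 684) (nat_lit 4620617675) (nat_lit 283) (nat_lit 5) (nat_lit 282) (nat_lit 3) (nat_lit 291) (nat_lit 5) (nat_lit 271) (nat_lit 269) (nat_lit 240)) (XT.lf (nat_lit 0) (nat_lit 4192290177) (nat_lit 608) (nat_lit 1431517810) (nat_lit 684) (nat_lit 1300935086) (nat_lit 283) (nat_lit 5) (nat_lit 291) (nat_lit 5) (nat_lit 292) (nat_lit 5) (nat_lit 272) (nat_lit 269) (nat_lit 239)))) (XT.nd (nat_lit 156) (nat_lit 0) (nat_lit 0) (XT.nd (nat_lit 78) (nat_lit 684) (nat_lit 0) (XT.lf (nat_lit 76) (nat_lit 1922913804) (nat_lit 0) (nat_lit 4209270234) (nat_lit 684) (nat_lit 841863035) (nat_lit 284)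 (nat_lit 5) (nat_lit 283) (nat_lit 5) (nat_lit 292) (nat_lit 5) (nat_lit 273) (nat_lit 269) (nat_lit 238)) (XT.lf (nat_lit 0) (nat_lit 1027657922) (nat_lit 684) (nat_lit 1669285257) (nat_lit 760) (nat_lit 4329364543) (nat_lit 274) (nat_lit 5) (nat_lit 283) (nat_lit 5) (nat_lit 284) (nat_lit 5) (nat_lit 274) (nat_lit 269) (nat_lit 237))) (XT.nd (nat_lit 78) (nat_lit 0) (nat_lit 76) (XT.lf (nat_lit 76) (nat_lit 1800583371) (nat_lit 0) (nat_lit 1084317334) (nat_lit 760) (nat_lit 4196635375) (nat_lit 275) (nat_lit 5) (nat_lit 274) (nat_lit 5) (nat_lit 284) (nat_lit 5) (nat_lit 275) (nat_lit 269) (nat_lit 236)) (XT.lf (nat_lit 0) (nat_lit 4753557984) (nat_lit 684) (nat_lit 1777079986) (nat_lit 760) (nat_lit 609215951) (nat_lit 275) (nat_lit 5) (nat_lit 284) (nat_lit 5) (nat_lit 285) (nat_lit 5) (nat_lit 276) (nat_lit 269) (nat_lit 235))))))))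
noncomputable def xc127 : XT := (XT.nd (nat_lit 2184) (nat_lit 5624) (nat_lit 0) (XT.nd (nat_lit 1092) (nat_lit 4712) (nat_lit 0) (XT.nd (nat_lit 546) (nat_lit 3800) (nat_lit 0) (XT.nd (nat_lit 234) (nat_lit 760) (nat_lit 0) (XT.nd (nat_lit 78) (nat_lit 760) (nat_lit 0) (XT.lf (nat_lit 76) (nat_lit 1815611155) (nat_lit 0) (nat_lit 4825930402) (nat_lit 760) (nat_lit 559582273) (nat_lit 276) (nat_lit 5) (nat_lit 275) (nat_lit 5) (nat_lit 285) (nat_lit 5) (nat_lit 277) (nat_lit 269) (nat_lit 234)) (XT.nd (nat_lit 78) (nat_lit 0) (nat_lit 0) (XT.lf (nat_lit 0) (nat_lit 1250114954) (nat_lit 760) (nat_lit 1766027516) (nat_lit 836) (nat_lit 4249183576) (nat_lit 265) (nat_lit 5) (nat_lit 275) (nat_lit 5) (nat_lit 276) (nat_lit 5) (nat_lit 278) (nat_lit 269) (nat_lit 233)) (XT.lf (nat_lit 76) (nat_lit 1953890822) (nat_lit 0) (nat_lit 1105470648) (nat_lit 836) (nat_lit 4273323483) (nat_lit 266) (nat_lit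 5) (nat_lit 265) (nat_lit 5) (nat_lit 276) (nat_lit 5) (nat_lit 279) (nat_lit 269) (nat_lit 232)))) (XT.nd (nat_lit 156) (nat_lit 836) (nat_lit 0) (XT.nd (nat_lit 78) (nat_lit 0) (nat_lit 0) (XT.lf (nat_lit 0) (nat_lit 4888533159) (nat_lit 760) (nat_lit 1630839746) (nat_lit 836) (nat_lit 883811609) (nat_lit 266) (nat_lit 5) (nat_lit 276) (nat_lit 5) (nat_lit 277) (nat_lit 5) (nat_lit 280) (nat_lit 269) (nat_lit 231)) (XT.lf (nat_lit 76) (nat_lit 2220727840) (nat_lit 0) (nat_lit 4525257720) (nat_lit 836) (nat_lit 730698055) (nat_lit 267) (nat_lit 5) (nat_lit 266) (nat_lit 5) (nat_lit 277) (nat_lit 5) (nat_lit 281) (nat_lit 269) (nat_lit 230))) (XT.nd (nat_lit 78) (nat_lit 0) (nat_lit 0) (XT.lf (nat_lit 0) (nat_lit 1043591709) (nat_lit 836) (nat_lit 1383473480) (nat_lit 912) (nat_lit 5126332622) (nat_lit 255) (nat_lit 5) (nat_lit 266) (nat_lit 5) (nat_lit 267) (nat_lit 5) (nat_lit 282) (nat_lit 269)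 (nat_lit 229)) (XT.lf (nat_lit 76) (nat_lit 2608014314) (nat_lit 0) (nat_lit 216958669) (nat_lit 912) (nat_lit 4808246296) (nat_lit 256) (nat_lit 5) (nat_lit 255) (nat_lit 5) (nat_lit 267) (nat_lit 5) (nat_lit 283) (nat_lit 269) (nat_lit 228))))) (XT.nd (nat_lit 234) (nat_lit 2964) (nat_lit 0) (XT.nd (nat_lit 78) (nat_lit 912) (nat_lit 0) (XT.lf (nat_lit 0) (nat_lit 4638580645) (nat_lit 836) (nat_lit 1029648109) (nat_lit 76) (nat_lit 2047920137) (nat_lit 256) (nat_lit 5) (nat_lit 267) (nat_lit 5) (nat_lit 257) (nat_lit 5) (nat_lit 284) (nat_lit 269) (nat_lit 227)) (XT.nd (nat_lit 78) (nat_lit 76) (nat_lit 0) (XT.lf (nat_lit 0) (nat_lit 3103108919) (nat_lit 836) (nat_lit 3381949711) (nat_lit 912) (nat_lit 1317228705) (nat_lit 245) (nat_lit 5) (nat_lit 256) (nat_lit 5) (nat_lit 257) (nat_lit 5) (nat_lit 285) (nat_lit 269) (nat_lit 226)) (XT.lf (nat_lit 0) (nat_lit 443807454) (nat_lit 912) (nat_lit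 556405270) (nat_lit 76) (nat_lit 6891997795) (nat_lit 244) (nat_lit 5) (nat_lit 256) (nat_lit 5) (nat_lit 245) (nat_lit 5) (nat_lit 286) (nat_lit 269) (nat_lit 225)))) (XT.nd (nat_lit 156) (nat_lit 2052) (nat_lit 0) (XT.nd (nat_lit 78) (nat_lit 0) (nat_lit 0) (XT.lf (nat_lit 0) (nat_lit 2230213102) (nat_lit 988) (nat_lit 4269713910) (nat_lit 76) (nat_lit 1484611186) (nat_lit 232) (nat_lit 5) (nat_lit 245) (nat_lit 5) (nat_lit 233) (nat_lit 5) (nat_lit 287) (nat_lit 269) (nat_lit 224)) (XT.lf (nat_lit 0) (nat_lit 4035601236) (nat_lit 988) (nat_lit 5679113) (nat_lit 76) (nat_lit 4039460111) (nat_lit 232) (nat_lit 5) (nat_lit 245) (nat_lit 5) (nat_lit 233) (nat_lit 5) (nat_lit 288) (nat_lit 269) (nat_lit 223))) (XT.nd (nat_lit 78) (nat_lit 1064) (nat_lit 0) (XT.lf (nat_lit 0) (nat_lit 4432132791) (nat_lit 988) (nat_lit 1456897342) (nat_lit 1064) (nat_lit 2291046813) (nat_lit 219) (nat_lit 5) (nat_lit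 232) (nat_lit 5) (nat_lit 233) (nat_lit 5) (nat_lit 289) (nat_lit 269) (nat_lit 222)) (XT.lf (nat_lit 0) (nat_lit 680705129) (nat_lit 1064) (nat_lit 7087920303) (nat_lit 1140) (nat_lit 514713834) (nat_lit 205) (nat_lit 5) (nat_lit 219) (nat_lit 5) (nat_lit 220) (nat_lit 5) (nat_lit 290) (nat_lit 269) (nat_lit 221)))))) (XT.nd (nat_lit 546) (nat_lit 2128) (nat_lit 0) (XT.nd (nat_lit 234) (nat_lit 1368) (nat_lit 0) (XT.nd (nat_lit 78) (nat_lit 1140) (nat_lit 0) (XT.lf (nat_lit 0) (nat_lit 1294743597) (nat_lit 1140) (nat_lit 3139345463) (nat_lit 76) (nat_lit 3955125465) (nat_lit 204) (nat_lit 5) (nat_lit 219) (nat_lit 5) (nat_lit 205) (nat_lit 5) (nat_lit 291) (nat_lit 269) (nat_lit 220)) (XT.nd (nat_lit 78) (nat_lit 0) (nat_lit 0) (XT.lf (nat_lit 0) (nat_lit 1439688397) (nat_lit 1140) (nat_lit 1676510419) (nat_lit 1216) (nat_lit 5382929891) (nat_lit 189) (nat_lit 5) (nat_lit 204) (nat_lit 5) (nat_lit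 205) (nat_lit 5) (nat_lit 292) (nat_lit 269) (nat_lit 219)) (XT.lf (nat_lit 0) (nat_lit 4990701081) (nat_lit 1216) (nat_lit 2444630983) (nat_lit 76) (nat_lit 1177111812) (nat_lit 189) (nat_lit 5) (nat_lit 205) (nat_lit 5) (nat_lit 190) (nat_lit 5) (nat_lit 293) (nat_lit 269) (nat_lit 218)))) (XT.nd (nat_lit 156) (nat_lit 608) (nat_lit 0) (XT.nd (nat_lit 78) (nat_lit 76) (nat_lit 0) (XT.lf (nat_lit 0) (nat_lit 2295865382) (nat_lit 684) (nat_lit 4620747394) (nat_lit 760) (nat_lit 1812744533) (nat_lit 180) (nat_lit 5) (nat_lit 189) (nat_lit 5) (nat_lit 190) (nat_lit 5) (nat_lit 294) (nat_lit 269) (nat_lit 217)) (XT.lf (nat_lit 0) (nat_lit 31377721) (nat_lit 760) (nat_lit 1662544168) (nat_lit 76) (nat_lit 7156437426) (nat_lit 179) (nat_lit 5) (nat_lit 189) (nat_lit 5) (nat_lit 180) (nat_lit 5) (nat_lit 295) (nat_lit 269) (nat_lit 216))) (XT.nd (nat_lit 78) (nat_lit 0) (nat_lit 0) (XT.lf (nat_lit 0)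 (nat_lit 1897059297) (nat_lit 684) (nat_lit 5731136990) (nat_lit 76) (nat_lit 1346226009) (nat_lit 171) (nat_lit 5) (nat_lit 180) (nat_lit 5) (nat_lit 172) (nat_lit 5) (nat_lit 296) (nat_lit 269) (nat_lit 215)) (XT.lf (nat_lit 0) (nat_lit 3811448336) (nat_lit 684) (nat_lit 829423267) (nat_lit 76) (nat_lit 4461601468) (nat_lit 171) (nat_lit 5) (nat_lit 180) (nat_lit 5) (nat_lit 172) (nat_lit 5) (nat_lit 297) (nat_lit 269) (nat_lit 214))))) (XT.nd (nat_lit 234) (nat_lit 988) (nat_lit 0) (XT.nd (nat_lit 78) (nat_lit 608) (nat_lit 0) (XT.lf (nat_lit 0) (nat_lit 4262566280) (nat_lit 532) (nat_lit 1521881874) (nat_lit 608) (nat_lit 3449928458) (nat_lit 164) (nat_lit 5) (nat_lit 171) (nat_lit 5) (nat_lit 172) (nat_lit 5) (nat_lit 298) (nat_lit 269) (nat_lit 213)) (XT.nd (nat_lit 78) (nat_lit 76) (nat_lit 0) (XT.lf (nat_lit 0) (nat_lit 99159676) (nat_lit 532) (nat_lit 7704120039) (nat_lit 608) (nat_lit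 1567403549) (nat_lit 157) (nat_lit 5) (nat_lit 164) (nat_lit 5) (nat_lit 165) (nat_lit 5) (nat_lit 299) (nat_lit 269) (nat_lit 212)) (XT.lf (nat_lit 0) (nat_lit 391421371) (nat_lit 608) (nat_lit 4145719627) (nat_lit 76) (nat_lit 4973061353) (nat_lit 156) (nat_lit 5) (nat_lit 164) (nat_lit 5) (nat_lit 157) (nat_lit 5) (nat_lit 300) (nat_lit 269) (nat_lit 211)))) (XT.nd (nat_lit 156) (nat_lit 532) (nat_lit 0) (XT.nd (nat_lit 78) (nat_lit 0) (nat_lit 0) (XT.lf (nat_lit 0) (nat_lit 1099815074) (nat_lit 456) (nat_lit 1250696554) (nat_lit 532) (nat_lit 7303781119) (nat_lit 150) (nat_lit 5) (nat_lit 156) (nat_lit 5) (nat_lit 157) (nat_lit 5) (nat_lit 301) (nat_lit 269) (nat_lit 210)) (XT.lf (nat_lit 0) (nat_lit 4394288361) (nat_lit 532) (nat_lit 3275395411) (nat_lit 76) (nat_lit 2132284883) (nat_lit 150) (nat_lit 5) (nat_lit 157) (nat_lit 5) (nat_lit 151) (nat_lit 5) (nat_lit 302) (nat_lit 269) (nat_lit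 209))) (XT.nd (nat_lit 78) (nat_lit 0) (nat_lit 0) (XT.lf (nat_lit 0) (nat_lit 2152144724) (nat_lit 532) (nat_lit 4344497781) (nat_lit 608) (nat_lit 3457553450) (nat_lit 143) (nat_lit 5) (nat_lit 150) (nat_lit 5) (nat_lit 151) (nat_lit 5) (nat_lit 303) (nat_lit 269) (nat_lit 208)) (XT.lf (nat_lit 0) (nat_lit 7770513426) (nat_lit 532) (nat_lit 889488841) (nat_lit 608) (nat_lit 1451087660) (nat_lit 143) (nat_lit 5) (nat_lit 150) (nat_lit 5) (nat_lit 151) (nat_lit 5) (nat_lit 304) (nat_lit 269) (nat_lit 207))))))) (XT.nd (nat_lit 1092) (nat_lit 2204) (nat_lit 0) (XT.nd (nat_lit 546) (nat_lit 1520) (nat_lit 0) (XT.nd (nat_lit 234) (nat_lit 912) (nat_lit 0) (XT.nd (nat_lit 78) (nat_lit 456) (nat_lit 0) (XT.lf (nat_lit 0) (nat_lit 626825459) (nat_lit 532) (nat_lit 6994033361) (nat_lit 76) (nat_lit 2650992148) (nat_lit 136) (nat_lit 5) (nat_lit 143) (nat_lit 5) (nat_lit 137) (nat_lit 5) (nat_lit 305)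 (nat_lit 269) (nat_lit 206)) (XT.nd (nat_lit 78) (nat_lit 456) (nat_lit 0) (XT.lf (nat_lit 0) (nat_lit 2736689026) (nat_lit 532) (nat_lit 1386740488) (nat_lit 76) (nat_lit 6313645641) (nat_lit 136) (nat_lit 5) (nat_lit 143) (nat_lit 5) (nat_lit 137) (nat_lit 5) (nat_lit 306) (nat_lit 269) (nat_lit 205)) (XT.lf (nat_lit 0) (nat_lit 4437152370) (nat_lit 456) (nat_lit 482438473) (nat_lit 532) (nat_lit 5687406630) (nat_lit 130) (nat_lit 5) (nat_lit 136) (nat_lit 5) (nat_lit 137) (nat_lit 5) (nat_lit 307) (nat_lit 269) (nat_lit 204)))) (XT.nd (nat_lit 156) (nat_lit 532) (nat_lit 0) (XT.nd (nat_lit 78) (nat_lit 380) (nat_lit 0) (XT.lf (nat_lit 0) (nat_lit 7181165280) (nat_lit 532) (nat_lit 387737331) (nat_lit 76) (nat_lit 3212751979) (nat_lit 130) (nat_lit 5) (nat_lit 137) (nat_lit 5) (nat_lit 131) (nat_lit 5) (nat_lit 308) (nat_lit 269) (nat_lit 203)) (XT.lf (nat_lit 0) (nat_lit 5635374743) (nat_lit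 380) (nat_lit 3902733897) (nat_lit 456) (nat_lit 1422648872) (nat_lit 125) (nat_lit 5) (nat_lit 130) (nat_lit 5) (nat_lit 131) (nat_lit 5) (nat_lit 309) (nat_lit 269) (nat_lit 202))) (XT.nd (nat_lit 78) (nat_lit 0) (nat_lit 0) (XT.lf (nat_lit 0) (nat_lit 669214346) (nat_lit 456) (nat_lit 114483559) (nat_lit 532) (nat_lit 10361953439) (nat_lit 118) (nat_lit 5) (nat_lit 124) (nat_lit 5) (nat_lit 125) (nat_lit 5) (nat_lit 310) (nat_lit 269) (nat_lit 201)) (XT.lf (nat_lit 0) (nat_lit 3087633549) (nat_lit 532) (nat_lit 4471130372) (nat_lit 76) (nat_lit 3775134781) (nat_lit 118) (nat_lit 5) (nat_lit 125) (nat_lit 5) (nat_lit 119) (nat_lit 5) (nat_lit 311) (nat_lit 269) (nat_lit 200))))) (XT.nd (nat_lit 234) (nat_lit 760) (nat_lit 0) (XT.nd (nat_lit 78) (nat_lit 380) (nat_lit 0) (XT.lf (nat_lit 0) (nat_lit 1709233752) (nat_lit 380) (nat_lit 3739189049) (nat_lit 456) (nat_lit 6079766818) (nat_lit 113)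 (nat_lit 5) (nat_lit 118) (nat_lit 5) (nat_lit 119) (nat_lit 5) (nat_lit 312) (nat_lit 269) (nat_lit 199)) (XT.nd (nat_lit 78) (nat_lit 380) (nat_lit 0) (XT.lf (nat_lit 0) (nat_lit 7898118537) (nat_lit 456) (nat_lit 3600402389) (nat_lit 76) (nat_lit 229273234) (nat_lit 113) (nat_lit 5) (nat_lit 119) (nat_lit 5) (nat_lit 114) (nat_lit 5) (nat_lit 313) (nat_lit 269) (nat_lit 198)) (XT.lf (nat_lit 0) (nat_lit 2785349898) (nat_lit 380) (nat_lit 7671219301) (nat_lit 456) (nat_lit 1475786302) (nat_lit 108) (nat_lit 5) (nat_lit 113) (nat_lit 5) (nat_lit 114) (nat_lit 5) (nat_lit 314) (nat_lit 269) (nat_lit 197)))) (XT.nd (nat_lit 156) (nat_lit 380) (nat_lit 0) (XT.nd (nat_lit 78) (nat_lit 304) (nat_lit 0) (XT.lf (nat_lit 0) (nat_lit 938570414) (nat_lit 456) (nat_lit 2751881127) (nat_lit 76) (nat_lit 8452102699) (nat_lit 107) (nat_lit 5) (nat_lit 113) (nat_lit 5) (nat_lit 108) (nat_lit 5) (nat_lit 315)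 (nat_lit 269) (nat_lit 196)) (XT.lf (nat_lit 0) (nat_lit 3409643608) (nat_lit 380) (nat_lit 8502763944) (nat_lit 76) (nat_lit 445818937) (nat_lit 103) (nat_lit 5) (nat_lit 108) (nat_lit 5) (nat_lit 104) (nat_lit 5) (nat_lit 316) (nat_lit 269) (nat_lit 195))) (XT.nd (nat_lit 78) (nat_lit 380) (nat_lit 0) (XT.lf (nat_lit 0) (nat_lit 5992303993) (nat_lit 380) (nat_lit 1935158063) (nat_lit 76) (nat_lit 4651806820) (nat_lit 103) (nat_lit 5) (nat_lit 108) (nat_lit 5) (nat_lit 104) (nat_lit 5) (nat_lit 317) (nat_lit 269) (nat_lit 194)) (XT.lf (nat_lit 0) (nat_lit 4889701439) (nat_lit 380) (nat_lit 3783388397) (nat_lit 456) (nat_lit 4133256260) (nat_lit 98) (nat_lit 5) (nat_lit 103) (nat_lit 5) (nat_lit 104) (nat_lit 5) (nat_lit 318) (nat_lit 269) (nat_lit 193)))))) (XT.nd (nat_lit 546) (nat_lit 836) (nat_lit 0) (XT.nd (nat_lit 234) (nat_lit 988) (nat_lit 0) (XT.nd (nat_lit 78) (nat_lit 380) (nat_lit 0)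 (XT.lf (nat_lit 0) (nat_lit 11432686049) (nat_lit 456) (nat_lit 1121088977) (nat_lit 76) (nat_lit 486531267) (nat_lit 98) (nat_lit 5) (nat_lit 104) (nat_lit 5) (nat_lit 99) (nat_lit 5) (nat_lit 319) (nat_lit 269) (nat_lit 192)) (XT.nd (nat_lit 78) (nat_lit 0) (nat_lit 0) (XT.lf (nat_lit 0) (nat_lit 1044187503) (nat_lit 380) (nat_lit 7367562028) (nat_lit 76) (nat_lit 4867176316) (nat_lit 93) (nat_lit 5) (nat_lit 98) (nat_lit 5) (nat_lit 94) (nat_lit 5) (nat_lit 320) (nat_lit 269) (nat_lit 191)) (XT.lf (nat_lit 0) (nat_lit 3729558528) (nat_lit 380) (nat_lit 397327518) (nat_lit 76) (nat_lit 9397771186) (nat_lit 93) (nat_lit 5) (nat_lit 98) (nat_lit 5) (nat_lit 94) (nat_lit 5) (nat_lit 321) (nat_lit 269) (nat_lit 190)))) (XT.nd (nat_lit 156) (nat_lit 380) (nat_lit 0) (XT.nd (nat_lit 78) (nat_lit 304) (nat_lit 0) (XT.lf (nat_lit 0) (nat_lit 6540589592) (nat_lit 380) (nat_lit 6897222532) (nat_lit 76)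 (nat_lit 338615249) (nat_lit 89) (nat_lit 5) (nat_lit 94) (nat_lit 5) (nat_lit 90) (nat_lit 5) (nat_lit 322) (nat_lit 269) (nat_lit 189)) (XT.lf (nat_lit 0) (nat_lit 277040689) (nat_lit 304) (nat_lit 9182404659) (nat_lit 380) (nat_lit 4575619663) (nat_lit 85) (nat_lit 5) (nat_lit 89) (nat_lit 5) (nat_lit 90) (nat_lit 5) (nat_lit 323) (nat_lit 269) (nat_lit 188))) (XT.nd (nat_lit 78) (nat_lit 380) (nat_lit 0) (XT.lf (nat_lit 0) (nat_lit 7774238435) (nat_lit 304) (nat_lit 4737572881) (nat_lit 380) (nat_lit 1788290770) (nat_lit 85) (nat_lit 5) (nat_lit 89) (nat_lit 5) (nat_lit 90) (nat_lit 5) (nat_lit 324) (nat_lit 269) (nat_lit 187)) (XT.lf (nat_lit 0) (nat_lit 897182746) (nat_lit 304) (nat_lit 149713871) (nat_lit 380) (nat_lit 13526338062) (nat_lit 80) (nat_lit 5) (nat_lit 84) (nat_lit 5) (nat_lit 85) (nat_lit 5) (nat_lit 325) (nat_lit 269) (nat_lit 186))))) (XT.nd (nat_lit 234) (nat_lit 608) (nat_lit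 0) (XT.nd (nat_lit 78) (nat_lit 228) (nat_lit 0) (XT.lf (nat_lit 0) (nat_lit 4018739692) (nat_lit 380) (nat_lit 6271695649) (nat_lit 76) (nat_lit 4560985509) (nat_lit 80) (nat_lit 5) (nat_lit 85) (nat_lit 5) (nat_lit 81) (nat_lit 5) (nat_lit 326) (nat_lit 269) (nat_lit 185)) (XT.nd (nat_lit 78) (nat_lit 0) (nat_lit 0) (XT.lf (nat_lit 0) (nat_lit 1347108391) (nat_lit 228) (nat_lit 5724737762) (nat_lit 304) (nat_lit 8066359777) (nat_lit 77) (nat_lit 5) (nat_lit 80) (nat_lit 5) (nat_lit 81) (nat_lit 5) (nat_lit 327) (nat_lit 269) (nat_lit 184)) (XT.lf (nat_lit 0) (nat_lit 9290871116) (nat_lit 228) (nat_lit 967024039) (nat_lit 304) (nat_lit 5174475010) (nat_lit 77) (nat_lit 5) (nat_lit 80) (nat_lit 5) (nat_lit 81) (nat_lit 5) (nat_lit 328) (nat_lit 269) (nat_lit 183)))) (XT.nd (nat_lit 156) (nat_lit 228) (nat_lit 0) (XT.nd (nat_lit 78) (nat_lit 76) (nat_lit 0) (XT.lf (nat_lit 0) (nat_lit 1701180197)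 (nat_lit 304) (nat_lit 11871071382) (nat_lit 380) (nat_lit 2162141585) (nat_lit 73) (nat_lit 5) (nat_lit 77) (nat_lit 5) (nat_lit 78) (nat_lit 5) (nat_lit 329) (nat_lit 269) (nat_lit 182)) (XT.lf (nat_lit 0) (nat_lit 973074276) (nat_lit 380) (nat_lit 6189732213) (nat_lit 76) (nat_lit 8880887861) (nat_lit 72) (nat_lit 5) (nat_lit 77) (nat_lit 5) (nat_lit 73) (nat_lit 5) (nat_lit 330) (nat_lit 269) (nat_lit 181))) (XT.nd (nat_lit 78) (nat_lit 0) (nat_lit 0) (XT.lf (nat_lit 0) (nat_lit 1873207757) (nat_lit 228) (nat_lit 2282970464) (nat_lit 304) (nat_lit 12205549764) (nat_lit 69) (nat_lit 5) (nat_lit 72) (nat_lit 5) (nat_lit 73) (nat_lit 5) (nat_lit 331) (nat_lit 269) (nat_lit 180)) (XT.lf (nat_lit 0) (nat_lit 7503759950) (nat_lit 304) (nat_lit 6440711314) (nat_lit 76) (nat_lit 2742775701) (nat_lit 69) (nat_lit 5) (nat_lit 73) (nat_lit 5) (nat_lit 70) (nat_lit 5) (nat_lit 332) (nat_lit 269) (nat_lit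 179))))))))
noncomputable def xc128 : XT := (XT.nd (nat_lit 2106) (nat_lit 1368) (nat_lit 0) (XT.nd (nat_lit 1014) (nat_lit 1216) (nat_lit 0) (XT.nd (nat_lit 468) (nat_lit 608) (nat_lit 0) (XT.nd (nat_lit 234) (nat_lit 228) (nat_lit 0) (XT.nd (nat_lit 78) (nat_lit 304) (nat_lit 0) (XT.lf (nat_lit 0) (nat_lit 1831359349) (nat_lit 228) (nat_lit 9140706674) (nat_lit 304) (nat_lit 6049870053) (nat_lit 66) (nat_lit 5) (nat_lit 69) (nat_lit 5) (nat_lit 70) (nat_lit 5) (nat_lit 333) (nat_lit 269) (nat_lit 178)) (XT.nd (nat_lit 78) (nat_lit 304) (nat_lit 0) (XT.lf (nat_lit 0) (nat_lit 10453612244) (nat_lit 228) (nat_lit 4136228143) (nat_lit 304) (nat_lit 2775475978) (nat_lit 66) (nat_lit 5) (nat_lit 69) (nat_lit 5) (nat_lit 70) (nat_lit 5) (nat_lit 334) (nat_lit 269) (nat_lit 177)) (XT.lf (nat_lit 0) (nat_lit 591641858) (nat_lit 304) (nat_lit 16117136306) (nat_lit 76) (nat_lit 1009875686) (nat_lit 62)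 (nat_lit 5) (nat_lit 66) (nat_lit 5) (nat_lit 63) (nat_lit 5) (nat_lit 335) (nat_lit 269) (nat_lit 176)))) (XT.nd (nat_lit 78) (nat_lit 228) (nat_lit 0) (XT.lf (nat_lit 0) (nat_lit 4096359161) (nat_lit 304) (nat_lit 7667524726) (nat_lit 76) (nat_lit 6315124035) (nat_lit 62) (nat_lit 5) (nat_lit 66) (nat_lit 5) (nat_lit 63) (nat_lit 5) (nat_lit 336) (nat_lit 269) (nat_lit 175)) (XT.nd (nat_lit 78) (nat_lit 0) (nat_lit 0) (XT.lf (nat_lit 0) (nat_lit 1026754202) (nat_lit 228) (nat_lit 6670820756) (nat_lit 304) (nat_lit 10752868568) (nat_lit 59) (nat_lit 5) (nat_lit 62) (nat_lit 5) (nat_lit 63) (nat_lit 5) (nat_lit 337) (nat_lit 269) (nat_lit 174)) (XT.lf (nat_lit 0) (nat_lit 10110464473) (nat_lit 228) (nat_lit 1355541447) (nat_lit 304) (nat_lit 7365252198) (nat_lit 59) (nat_lit 5) (nat_lit 62) (nat_lit 5) (nat_lit 63) (nat_lit 5) (nat_lit 338) (nat_lit 269) (nat_lit 173))))) (XT.nd (nat_lit 234) (nat_lit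 380) (nat_lit 0) (XT.nd (nat_lit 78) (nat_lit 76) (nat_lit 0) (XT.lf (nat_lit 0) (nat_lit 178895963) (nat_lit 152) (nat_lit 15192096604) (nat_lit 228) (nat_lit 3851810450) (nat_lit 57) (nat_lit 5) (nat_lit 59) (nat_lit 5) (nat_lit 60) (nat_lit 5) (nat_lit 339) (nat_lit 269) (nat_lit 172)) (XT.nd (nat_lit 78) (nat_lit 76) (nat_lit 0) (XT.lf (nat_lit 0) (nat_lit 9482744409) (nat_lit 152) (nat_lit 9994174337) (nat_lit 228) (nat_lit 146672453) (nat_lit 57) (nat_lit 5) (nat_lit 59) (nat_lit 5) (nat_lit 60) (nat_lit 5) (nat_lit 340) (nat_lit 269) (nat_lit 171)) (XT.lf (nat_lit 0) (nat_lit 3580782166) (nat_lit 228) (nat_lit 1033420595) (nat_lit 76) (nat_lit 15421668950) (nat_lit 56) (nat_lit 5) (nat_lit 59) (nat_lit 5) (nat_lit 57) (nat_lit 5) (nat_lit 341) (nat_lit 269) (nat_lit 170)))) (XT.nd (nat_lit 156) (nat_lit 152) (nat_lit 0) (XT.nd (nat_lit 78) (nat_lit 0) (nat_lit 0) (XT.lf (nat_lit 0) (nat_lit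 7491583342) (nat_lit 304) (nat_lit 11983489489) (nat_lit 76) (nat_lit 983179846) (nat_lit 53) (nat_lit 5) (nat_lit 57) (nat_lit 5) (nat_lit 54) (nat_lit 5) (nat_lit 342) (nat_lit 269) (nat_lit 169)) (XT.lf (nat_lit 0) (nat_lit 11559342823) (nat_lit 304) (nat_lit 2676203475) (nat_lit 76) (nat_lit 6656579194) (nat_lit 53) (nat_lit 5) (nat_lit 57) (nat_lit 5) (nat_lit 54) (nat_lit 5) (nat_lit 343) (nat_lit 269) (nat_lit 168))) (XT.nd (nat_lit 78) (nat_lit 0) (nat_lit 0) (XT.lf (nat_lit 0) (nat_lit 7021292836) (nat_lit 152) (nat_lit 8779228660) (nat_lit 228) (nat_lit 5536960575) (nat_lit 51) (nat_lit 5) (nat_lit 53) (nat_lit 5) (nat_lit 54) (nat_lit 5) (nat_lit 344) (nat_lit 269) (nat_lit 167)) (XT.lf (nat_lit 0) (nat_lit 17038809675) (nat_lit 152) (nat_lit 3141265173) (nat_lit 228) (nat_lit 1615799225) (nat_lit 51) (nat_lit 5) (nat_lit 53) (nat_lit 5) (nat_lit 54) (nat_lit 5) (nat_lit 345) (nat_lit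 269) (nat_lit 166)))))) (XT.nd (nat_lit 546) (nat_lit 532) (nat_lit 0) (XT.nd (nat_lit 234) (nat_lit 228) (nat_lit 0) (XT.nd (nat_lit 78) (nat_lit 152) (nat_lit 0) (XT.lf (nat_lit 0) (nat_lit 2435797610) (nat_lit 304) (nat_lit 17152043494) (nat_lit 76) (nat_lit 2677683924) (nat_lit 47) (nat_lit 5) (nat_lit 51) (nat_lit 5) (nat_lit 48) (nat_lit 5) (nat_lit 346) (nat_lit 269) (nat_lit 165)) (XT.nd (nat_lit 78) (nat_lit 152) (nat_lit 0) (XT.lf (nat_lit 0) (nat_lit 6640616473) (nat_lit 304) (nat_lit 7443200257) (nat_lit 76) (nat_lit 8663052488) (nat_lit 47) (nat_lit 5) (nat_lit 51) (nat_lit 5) (nat_lit 48) (nat_lit 5) (nat_lit 347) (nat_lit 269) (nat_lit 164)) (XT.lf (nat_lit 0) (nat_lit 2582585772) (nat_lit 152) (nat_lit 8398805751) (nat_lit 228) (nat_lit 12260975775) (nat_lit 45) (nat_lit 5) (nat_lit 47) (nat_lit 5) (nat_lit 48) (nat_lit 5) (nat_lit 348) (nat_lit 269) (nat_lit 163)))) (XT.nd (nat_lit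 156) (nat_lit 228) (nat_lit 0) (XT.nd (nat_lit 78) (nat_lit 0) (nat_lit 0) (XT.lf (nat_lit 0) (nat_lit 13037247970) (nat_lit 152) (nat_lit 2475491829) (nat_lit 228) (nat_lit 8238187704) (nat_lit 45) (nat_lit 5) (nat_lit 47) (nat_lit 5) (nat_lit 48) (nat_lit 5) (nat_lit 349) (nat_lit 269) (nat_lit 162)) (XT.lf (nat_lit 0) (nat_lit 20200408721) (nat_lit 228) (nat_lit 528156723) (nat_lit 76) (nat_lit 3545575121) (nat_lit 45) (nat_lit 5) (nat_lit 48) (nat_lit 5) (nat_lit 46) (nat_lit 5) (nat_lit 350) (nat_lit 269) (nat_lit 161))) (XT.nd (nat_lit 78) (nat_lit 0) (nat_lit 0) (XT.lf (nat_lit 0) (nat_lit 320175102) (nat_lit 228) (nat_lit 14700625324) (nat_lit 76) (nat_lit 9788932663) (nat_lit 42) (nat_lit 5) (nat_lit 45) (nat_lit 5) (nat_lit 43) (nat_lit 5) (nat_lit 351) (nat_lit 269) (nat_lit 160)) (XT.lf (nat_lit 0) (nat_lit 4755400605) (nat_lit 228) (nat_lit 4348768609) (nat_lit 76) (nat_lit 16256279601)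 (nat_lit 42) (nat_lit 5) (nat_lit 45) (nat_lit 5) (nat_lit 43) (nat_lit 5) (nat_lit 352) (nat_lit 269) (nat_lit 159))))) (XT.nd (nat_lit 234) (nat_lit 228) (nat_lit 0) (XT.nd (nat_lit 78) (nat_lit 152) (nat_lit 0) (XT.lf (nat_lit 0) (nat_lit 6416062427) (nat_lit 152) (nat_lit 2955696697) (nat_lit 228) (nat_lit 16554491227) (nat_lit 40) (nat_lit 5) (nat_lit 42) (nat_lit 5) (nat_lit 43) (nat_lit 5) (nat_lit 353) (nat_lit 269) (nat_lit 158)) (XT.nd (nat_lit 78) (nat_lit 152) (nat_lit 0) (XT.lf (nat_lit 0) (nat_lit 14189913752) (nat_lit 228) (nat_lit 8970503106) (nat_lit 76) (nat_lit 3346716347) (nat_lit 40) (nat_lit 5) (nat_lit 43) (nat_lit 5) (nat_lit 41) (nat_lit 5) (nat_lit 354) (nat_lit 269) (nat_lit 157)) (XT.lf (nat_lit 0) (nat_lit 1870392741) (nat_lit 152) (nat_lit 17316349906) (nat_lit 228) (nat_lit 7917682256) (nat_lit 38) (nat_lit 5) (nat_lit 40) (nat_lit 5) (nat_lit 41) (nat_lit 5) (nat_lit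 355) (nat_lit 269) (nat_lit 156)))) (XT.nd (nat_lit 156) (nat_lit 152) (nat_lit 0) (XT.nd (nat_lit 78) (nat_lit 76) (nat_lit 0) (XT.lf (nat_lit 0) (nat_lit 13198406471) (nat_lit 152) (nat_lit 11212710904) (nat_lit 228) (nat_lit 3306194812) (nat_lit 38) (nat_lit 5) (nat_lit 40) (nat_lit 5) (nat_lit 41) (nat_lit 5) (nat_lit 356) (nat_lit 269) (nat_lit 155)) (XT.lf (nat_lit 0) (nat_lit 1402769968) (nat_lit 228) (nat_lit 3517815873) (nat_lit 76) (nat_lit 23427970552) (nat_lit 37) (nat_lit 5) (nat_lit 40) (nat_lit 5) (nat_lit 38) (nat_lit 5) (nat_lit 357) (nat_lit 269) (nat_lit 154))) (XT.nd (nat_lit 78) (nat_lit 0) (nat_lit 0) (XT.lf (nat_lit 0) (nat_lit 6266292618) (nat_lit 228) (nat_lit 21097822377) (nat_lit 76) (nat_lit 1631254237) (nat_lit 35) (nat_lit 5) (nat_lit 38) (nat_lit 5) (nat_lit 36) (nat_lit 5) (nat_lit 358) (nat_lit 269) (nat_lit 153)) (XT.lf (nat_lit 0) (nat_lit 11348063994) (nat_lit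 228) (nat_lit 10003174590) (nat_lit 76) (nat_lit 8308182968) (nat_lit 35) (nat_lit 5) (nat_lit 38) (nat_lit 5) (nat_lit 36) (nat_lit 5) (nat_lit 359) (nat_lit 269) (nat_lit 152))))))) (XT.nd (nat_lit 1092) (nat_lit 608) (nat_lit 0) (XT.nd (nat_lit 546) (nat_lit 304) (nat_lit 0) (XT.nd (nat_lit 234) (nat_lit 304) (nat_lit 0) (XT.nd (nat_lit 78) (nat_lit 0) (nat_lit 0) (XT.lf (nat_lit 0) (nat_lit 1431800085) (nat_lit 152) (nat_lit 15152358192) (nat_lit 228) (nat_lit 13759186303) (nat_lit 33) (nat_lit 5) (nat_lit 35) (nat_lit 5) (nat_lit 36) (nat_lit 5) (nat_lit 360) (nat_lit 269) (nat_lit 151)) (XT.nd (nat_lit 78) (nat_lit 0) (nat_lit 0) (XT.lf (nat_lit 0) (nat_lit 13394627665) (nat_lit 152) (nat_lit 8671978345) (nat_lit 228) (nat_lit 8978506249) (nat_lit 33) (nat_lit 5) (nat_lit 35) (nat_lit 5) (nat_lit 36) (nat_lit 5) (nat_lit 361) (nat_lit 269) (nat_lit 150)) (XT.lf (nat_lit 0) (nat_lit 25696678315)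 (nat_lit 152) (nat_lit 2005449025) (nat_lit 228) (nat_lit 4066152553) (nat_lit 33) (nat_lit 5) (nat_lit 35) (nat_lit 5) (nat_lit 36) (nat_lit 5) (nat_lit 362) (nat_lit 269) (nat_lit 149)))) (XT.nd (nat_lit 156) (nat_lit 152) (nat_lit 0) (XT.nd (nat_lit 78) (nat_lit 0) (nat_lit 0) (XT.lf (nat_lit 0) (nat_lit 1067426521) (nat_lit 152) (nat_lit 26617066896) (nat_lit 76) (nat_lit 4825569975) (nat_lit 31) (nat_lit 5) (nat_lit 33) (nat_lit 5) (nat_lit 32) (nat_lit 5) (nat_lit 363) (nat_lit 269) (nat_lit 148)) (XT.lf (nat_lit 0) (nat_lit 6343943595) (nat_lit 152) (nat_lit 15011373460) (nat_lit 76) (nat_lit 11915460397) (nat_lit 31) (nat_lit 5) (nat_lit 33) (nat_lit 5) (nat_lit 32) (nat_lit 5) (nat_lit 364) (nat_lit 269) (nat_lit 147))) (XT.nd (nat_lit 78) (nat_lit 152) (nat_lit 0) (XT.lf (nat_lit 0) (nat_lit 11767962028) (nat_lit 152) (nat_lit 3076329500) (nat_lit 76) (nat_lit 19210349612) (nat_lit 31)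 (nat_lit 5) (nat_lit 33) (nat_lit 5) (nat_lit 32) (nat_lit 5) (nat_lit 365) (nat_lit 269) (nat_lit 146)) (XT.lf (nat_lit 0) (nat_lit 9381561723) (nat_lit 152) (nat_lit 8052840841) (nat_lit 228) (nat_lit 17425231380) (nat_lit 29) (nat_lit 5) (nat_lit 31) (nat_lit 5) (nat_lit 32) (nat_lit 5) (nat_lit 366) (nat_lit 269) (nat_lit 145))))) (XT.nd (nat_lit 234) (nat_lit 228) (nat_lit 0) (XT.nd (nat_lit 78) (nat_lit 76) (nat_lit 0) (XT.lf (nat_lit 0) (nat_lit 22258158445) (nat_lit 152) (nat_lit 1033394322) (nat_lit 228) (nat_lit 12396606402) (nat_lit 29) (nat_lit 5) (nat_lit 31) (nat_lit 5) (nat_lit 32) (nat_lit 5) (nat_lit 367) (nat_lit 269) (nat_lit 144)) (XT.nd (nat_lit 78) (nat_lit 76) (nat_lit 0) (XT.lf (nat_lit 0) (nat_lit 29373864017) (nat_lit 228) (nat_lit 1097852074) (nat_lit 76) (nat_lit 6068344671) (nat_lit 29) (nat_lit 5) (nat_lit 32) (nat_lit 5) (nat_lit 30) (nat_lit 4) (nat_lit 368) (nat_lit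 269) (nat_lit 143)) (XT.lf (nat_lit 0) (nat_lit 11807148687) (nat_lit 76) (nat_lit 23945400507) (nat_lit 152) (nat_lit 1661556965) (nat_lit 28) (nat_lit 5) (nat_lit 29) (nat_lit 5) (nat_lit 30) (nat_lit 4) (nat_lit 369) (nat_lit 269) (nat_lit 142)))) (XT.nd (nat_lit 156) (nat_lit 152) (nat_lit 0) (XT.nd (nat_lit 78) (nat_lit 0) (nat_lit 0) (XT.lf (nat_lit 0) (nat_lit 3931400398) (nat_lit 152) (nat_lit 13248185277) (nat_lit 76) (nat_lit 21133593229) (nat_lit 27) (nat_lit 5) (nat_lit 29) (nat_lit 5) (nat_lit 28) (nat_lit 5) (nat_lit 370) (nat_lit 269) (nat_lit 141)) (XT.lf (nat_lit 0) (nat_lit 9649233669) (nat_lit 152) (nat_lit 551906860) (nat_lit 76) (nat_lit 29037878849) (nat_lit 27) (nat_lit 5) (nat_lit 29) (nat_lit 5) (nat_lit 28) (nat_lit 5) (nat_lit 371) (nat_lit 269) (nat_lit 140))) (XT.nd (nat_lit 78) (nat_lit 0) (nat_lit 0) (XT.lf (nat_lit 0) (nat_lit 12757896019) (nat_lit 152) (nat_lit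 2894102654) (nat_lit 228) (nat_lit 24537237947) (nat_lit 25) (nat_lit 5) (nat_lit 27) (nat_lit 5) (nat_lit 28) (nat_lit 5) (nat_lit 372) (nat_lit 269) (nat_lit 139)) (XT.lf (nat_lit 0) (nat_lit 21875808286) (nat_lit 228) (nat_lit 14750434847) (nat_lit 76) (nat_lit 4540491756) (nat_lit 25) (nat_lit 5) (nat_lit 28) (nat_lit 5) (nat_lit 26) (nat_lit 4) (nat_lit 373) (nat_lit 269) (nat_lit 138)))))) (XT.nd (nat_lit 546) (nat_lit 304) (nat_lit 0) (XT.nd (nat_lit 234) (nat_lit 228) (nat_lit 0) (XT.nd (nat_lit 78) (nat_lit 76) (nat_lit 0) (XT.lf (nat_lit 0) (nat_lit 28306060721) (nat_lit 228) (nat_lit 1733645713) (nat_lit 76) (nat_lit 12133263075) (nat_lit 25) (nat_lit 5) (nat_lit 28) (nat_lit 5) (nat_lit 26) (nat_lit 4) (nat_lit 374) (nat_lit 269) (nat_lit 137)) (XT.nd (nat_lit 78) (nat_lit 0) (nat_lit 0) (XT.lf (nat_lit 0) (nat_lit 11890242027) (nat_lit 76) (nat_lit 23144609015) (nat_lit 152) (nat_lit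 8171374382) (nat_lit 24) (nat_lit 5) (nat_lit 25) (nat_lit 5) (nat_lit 26) (nat_lit 4) (nat_lit 375) (nat_lit 269) (nat_lit 136)) (XT.lf (nat_lit 0) (nat_lit 25943109162) (nat_lit 76) (nat_lit 16031341938) (nat_lit 152) (nat_lit 2295762608) (nat_lit 24) (nat_lit 5) (nat_lit 25) (nat_lit 5) (nat_lit 26) (nat_lit 4) (nat_lit 376) (nat_lit 269) (nat_lit 135)))) (XT.nd (nat_lit 156) (nat_lit 0) (nat_lit 0) (XT.nd (nat_lit 78) (nat_lit 152) (nat_lit 0) (XT.lf (nat_lit 0) (nat_lit 3674425860) (nat_lit 152) (nat_lit 4999665793) (nat_lit 76) (nat_lit 36691201589) (nat_lit 23) (nat_lit 5) (nat_lit 25) (nat_lit 5) (nat_lit 24) (nat_lit 5) (nat_lit 377) (nat_lit 269) (nat_lit 134)) (XT.lf (nat_lit 0) (nat_lit 8863256397) (nat_lit 152) (nat_lit 991368348) (nat_lit 228) (nat_lit 36635609899) (nat_lit 21) (nat_lit 5) (nat_lit 23) (nat_lit 5) (nat_lit 24) (nat_lit 5) (nat_lit 378) (nat_lit 269) (nat_lit 133)))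 (XT.nd (nat_lit 78) (nat_lit 0) (nat_lit 0) (XT.lf (nat_lit 0) (nat_lit 16329639089) (nat_lit 228) (nat_lit 24484495769) (nat_lit 76) (nat_lit 6831509876) (nat_lit 21) (nat_lit 5) (nat_lit 24) (nat_lit 5) (nat_lit 22) (nat_lit 4) (nat_lit 379) (nat_lit 269) (nat_lit 132)) (XT.lf (nat_lit 0) (nat_lit 23000841597) (nat_lit 228) (nat_lit 10971732779) (nat_lit 76) (nat_lit 14863087268) (nat_lit 21) (nat_lit 5) (nat_lit 24) (nat_lit 5) (nat_lit 22) (nat_lit 4) (nat_lit 380) (nat_lit 269) (nat_lit 131))))) (XT.nd (nat_lit 234) (nat_lit 228) (nat_lit 0) (XT.nd (nat_lit 78) (nat_lit 0) (nat_lit 0) (XT.lf (nat_lit 0) (nat_lit 2991013068) (nat_lit 76) (nat_lit 26902270217) (nat_lit 152) (nat_lit 20167465257) (nat_lit 20) (nat_lit 5) (nat_lit 21) (nat_lit 5) (nat_lit 22) (nat_lit 4) (nat_lit 381) (nat_lit 269) (nat_lit 130)) (XT.nd (nat_lit 78) (nat_lit 0) (nat_lit 0) (XT.lf (nat_lit 0) (nat_lit 17583920542)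 (nat_lit 76) (nat_lit 19511814069) (nat_lit 152) (nat_lit 14223758843) (nat_lit 20) (nat_lit 5) (nat_lit 21) (nat_lit 5) (nat_lit 22) (nat_lit 4) (nat_lit 382) (nat_lit 269) (nat_lit 129)) (XT.lf (nat_lit 0) (nat_lit 32601381731) (nat_lit 76) (nat_lit 11905541240) (nat_lit 152) (nat_lit 8109300263) (nat_lit 20) (nat_lit 5) (nat_lit 21) (nat_lit 5) (nat_lit 22) (nat_lit 4) (nat_lit 383) (nat_lit 269) (nat_lit 128)))) (XT.nd (nat_lit 156) (nat_lit 0) (nat_lit 0) (XT.nd (nat_lit 78) (nat_lit 228) (nat_lit 0) (XT.lf (nat_lit 0) (nat_lit 48056518689) (nat_lit 76) (nat_lit 4076805472) (nat_lit 152) (nat_lit 1818746786) (nat_lit 20) (nat_lit 5) (nat_lit 21) (nat_lit 5) (nat_lit 22) (nat_lit 4) (nat_lit 384) (nat_lit 269) (nat_lit 127)) (XT.lf (nat_lit 0) (nat_lit 4686355090) (nat_lit 228) (nat_lit 46603025585) (nat_lit 76) (nat_lit 4033768380) (nat_lit 17) (nat_lit 5) (nat_lit 20) (nat_lit 5) (nat_lit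 18) (nat_lit 4) (nat_lit 385) (nat_lit 269) (nat_lit 126))) (XT.nd (nat_lit 78) (nat_lit 0) (nat_lit 0) (XT.lf (nat_lit 0) (nat_lit 11443585993) (nat_lit 228) (nat_lit 32910059176) (nat_lit 76) (nat_lit 12378370342) (nat_lit 17) (nat_lit 5) (nat_lit 20) (nat_lit 5) (nat_lit 18) (nat_lit 4) (nat_lit 386) (nat_lit 269) (nat_lit 125)) (XT.lf (nat_lit 0) (nat_lit 18396780044) (nat_lit 228) (nat_lit 18818582360) (nat_lit 76) (nat_lit 20967990261) (nat_lit 17) (nat_lit 5) (nat_lit 20) (nat_lit 5) (nat_lit 18) (nat_lit 4) (nat_lit 387) (nat_lit 269) (nat_lit 124))))))))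
noncomputable def xc129 : XT := (XT.nd (nat_lit 31824) (nat_lit 0) (nat_lit 10640) (XT.nd (nat_lit 1092) (nat_lit 228) (nat_lit 0) (XT.nd (nat_lit 546) (nat_lit 76) (nat_lit 0) (XT.nd (nat_lit 234) (nat_lit 152) (nat_lit 0) (XT.nd (nat_lit 78) (nat_lit 76) (nat_lit 0) (XT.lf (nat_lit 0) (nat_lit 25552012852) (nat_lit 228) (nat_lit 4316282196) (nat_lit 76) (nat_lit 29810133629) (nat_lit 17) (nat_lit 5) (nat_lit 20) (nat_lit 5) (nat_lit 18) (nat_lit 4) (nat_lit 388) (nat_lit 269) (nat_lit 123)) (XT.nd (nat_lit 78) (nat_lit 0) (nat_lit 0) (XT.lf (nat_lit 0) (nat_lit 10820663343) (nat_lit 76) (nat_lit 22198888053) (nat_lit 152) (nat_lit 28195878084) (nat_lit 16) (nat_lit 5) (nat_lit 17) (nat_lit 5) (nat_lit 18) (nat_lit 4) (nat_lit 389) (nat_lit 269) (nat_lit 122)) (XT.lf (nat_lit 0) (nat_lit 26488736527) (nat_lit 76) (nat_lit 14259674730) (nat_lit 152) (nat_lit 22049012109) (nat_lit 16) (nat_lit 5)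 (nat_lit 17) (nat_lit 5) (nat_lit 18) (nat_lit 4) (nat_lit 390) (nat_lit 269) (nat_lit 121)))) (XT.nd (nat_lit 156) (nat_lit 152) (nat_lit 0) (XT.nd (nat_lit 78) (nat_lit 0) (nat_lit 0) (XT.lf (nat_lit 0) (nat_lit 42615725425) (nat_lit 76) (nat_lit 6087303891) (nat_lit 152) (nat_lit 15724032841) (nat_lit 16) (nat_lit 5) (nat_lit 17) (nat_lit 5) (nat_lit 18) (nat_lit 4) (nat_lit 391) (nat_lit 269) (nat_lit 120)) (XT.lf (nat_lit 0) (nat_lit 56912709045) (nat_lit 152) (nat_lit 6912401062) (nat_lit 0) (nat_lit 2279989115) (nat_lit 16) (nat_lit 5) (nat_lit 18) (nat_lit 4) (nat_lit 16) (nat_lit 4) (nat_lit 392) (nat_lit 269) (nat_lit 119))) (XT.nd (nat_lit 78) (nat_lit 76) (nat_lit 0) (XT.lf (nat_lit 0) (nat_lit 8529048027) (nat_lit 76) (nat_lit 56976085428) (nat_lit 76) (nat_lit 2324252068) (nat_lit 15) (nat_lit 4) (nat_lit 16) (nat_lit 5) (nat_lit 16) (nat_lit 4) (nat_lit 393) (nat_lit 269) (nat_lit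 118)) (XT.lf (nat_lit 0) (nat_lit 4721941773) (nat_lit 152) (nat_lit 45084848289) (nat_lit 76) (nat_lit 19795301230) (nat_lit 14) (nat_lit 5) (nat_lit 16) (nat_lit 5) (nat_lit 15) (nat_lit 4) (nat_lit 394) (nat_lit 269) (nat_lit 117))))) (XT.nd (nat_lit 234) (nat_lit 0) (nat_lit 0) (XT.nd (nat_lit 78) (nat_lit 76) (nat_lit 0) (XT.lf (nat_lit 0) (nat_lit 11927182024) (nat_lit 152) (nat_lit 30476226822) (nat_lit 76) (nat_lit 29024049347) (nat_lit 14) (nat_lit 5) (nat_lit 16) (nat_lit 5) (nat_lit 15) (nat_lit 4) (nat_lit 395) (nat_lit 269) (nat_lit 116)) (XT.nd (nat_lit 78) (nat_lit 76) (nat_lit 0) (XT.lf (nat_lit 0) (nat_lit 19343119054) (nat_lit 152) (nat_lit 15439366147) (nat_lit 76) (nat_lit 38525266269) (nat_lit 14) (nat_lit 5) (nat_lit 16) (nat_lit 5) (nat_lit 15) (nat_lit 4) (nat_lit 396) (nat_lit 269) (nat_lit 115)) (XT.lf (nat_lit 0) (nat_lit 39646381) (nat_lit 76) (nat_lit 26936967532) (nat_lit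 152) (nat_lit 48267988753) (nat_lit 13) (nat_lit 5) (nat_lit 14) (nat_lit 5) (nat_lit 15) (nat_lit 4) (nat_lit 397) (nat_lit 269) (nat_lit 114)))) (XT.nd (nat_lit 156) (nat_lit 0) (nat_lit 0) (XT.nd (nat_lit 78) (nat_lit 0) (nat_lit 0) (XT.lf (nat_lit 0) (nat_lit 16289888917) (nat_lit 76) (nat_lit 18699892459) (nat_lit 152) (nat_lit 42245259457) (nat_lit 13) (nat_lit 5) (nat_lit 14) (nat_lit 5) (nat_lit 15) (nat_lit 4) (nat_lit 398) (nat_lit 269) (nat_lit 113)) (XT.lf (nat_lit 0) (nat_lit 33018287039) (nat_lit 76) (nat_lit 10219969863) (nat_lit 152) (nat_lit 36047089275) (nat_lit 13) (nat_lit 5) (nat_lit 14) (nat_lit 5) (nat_lit 15) (nat_lit 4) (nat_lit 399) (nat_lit 269) (nat_lit 112))) (XT.nd (nat_lit 78) (nat_lit 0) (nat_lit 0) (XT.lf (nat_lit 0) (nat_lit 50239457795) (nat_lit 76) (nat_lit 1489790104) (nat_lit 152) (nat_lit 29668062331) (nat_lit 13) (nat_lit 5) (nat_lit 14) (nat_lit 5) (nat_lit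 15) (nat_lit 4) (nat_lit 400) (nat_lit 269) (nat_lit 111)) (XT.lf (nat_lit 0) (nat_lit 60542251688) (nat_lit 152) (nat_lit 15676407594) (nat_lit 0) (nat_lit 7351956774) (nat_lit 13) (nat_lit 5) (nat_lit 15) (nat_lit 4) (nat_lit 13) (nat_lit 4) (nat_lit 401) (nat_lit 269) (nat_lit 110)))))) (XT.nd (nat_lit 546) (nat_lit 0) (nat_lit 0) (XT.nd (nat_lit 234) (nat_lit 152) (nat_lit 0) (XT.nd (nat_lit 78) (nat_lit 0) (nat_lit 0) (XT.lf (nat_lit 0) (nat_lit 250965877) (nat_lit 76) (nat_lit 69381149742) (nat_lit 76) (nat_lit 16176632640) (nat_lit 12) (nat_lit 4) (nat_lit 13) (nat_lit 5) (nat_lit 13) (nat_lit 4) (nat_lit 402) (nat_lit 269) (nat_lit 109)) (XT.nd (nat_lit 78) (nat_lit 0) (nat_lit 0) (XT.lf (nat_lit 0) (nat_lit 16968934890) (nat_lit 76) (nat_lit 62179402991) (nat_lit 76) (nat_lit 8961077940) (nat_lit 12) (nat_lit 4) (nat_lit 13) (nat_lit 5) (nat_lit 13) (nat_lit 4) (nat_lit 403) (nat_lit 269)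 (nat_lit 108)) (XT.lf (nat_lit 0) (nat_lit 34180116130) (nat_lit 76) (nat_lit 54765427220) (nat_lit 76) (nat_lit 1533696394) (nat_lit 12) (nat_lit 4) (nat_lit 13) (nat_lit 5) (nat_lit 13) (nat_lit 4) (nat_lit 404) (nat_lit 269) (nat_lit 107)))) (XT.nd (nat_lit 156) (nat_lit 76) (nat_lit 0) (XT.nd (nat_lit 78) (nat_lit 0) (nat_lit 0) (XT.lf (nat_lit 0) (nat_lit 5992734771) (nat_lit 152) (nat_lit 41079494555) (nat_lit 76) (nat_lit 45846298850) (nat_lit 11) (nat_lit 5) (nat_lit 13) (nat_lit 5) (nat_lit 12) (nat_lit 4) (nat_lit 405) (nat_lit 269) (nat_lit 106)) (XT.lf (nat_lit 0) (nat_lit 13709844984) (nat_lit 152) (nat_lit 25426397052) (nat_lit 76) (nat_lit 56294427441) (nat_lit 11) (nat_lit 5) (nat_lit 13) (nat_lit 5) (nat_lit 12) (nat_lit 4) (nat_lit 406) (nat_lit 269) (nat_lit 105))) (XT.nd (nat_lit 78) (nat_lit 76) (nat_lit 0) (XT.lf (nat_lit 0) (nat_lit 21654305291) (nat_lit 152) (nat_lit 9311410814)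 (nat_lit 76) (nat_lit 67052584900) (nat_lit 11) (nat_lit 5) (nat_lit 13) (nat_lit 5) (nat_lit 12) (nat_lit 4) (nat_lit 407) (nat_lit 269) (nat_lit 104)) (XT.lf (nat_lit 0) (nat_lit 7424422438) (nat_lit 76) (nat_lit 22480003104) (nat_lit 152) (nat_lit 70777117213) (nat_lit 10) (nat_lit 5) (nat_lit 11) (nat_lit 5) (nat_lit 12) (nat_lit 4) (nat_lit 408) (nat_lit 269) (nat_lit 103))))) (XT.nd (nat_lit 29874) (nat_lit 0) (nat_lit 19988) (XT.nd (nat_lit 78) (nat_lit 0) (nat_lit 0) (XT.lf (nat_lit 0) (nat_lit 24845799016) (nat_lit 76) (nat_lit 13646281954) (nat_lit 152) (nat_lit 64929900870) (nat_lit 10) (nat_lit 5) (nat_lit 11) (nat_lit 5) (nat_lit 12) (nat_lit 4) (nat_lit 409) (nat_lit 269) (nat_lit 102)) (XT.nd (nat_lit 29718) (nat_lit 0) (nat_lit 20672) (XT.lf (nat_lit 0) (nat_lit 42782626151) (nat_lit 76) (nat_lit 4550860859) (nat_lit 152) (nat_lit 58911264458) (nat_lit 10) (nat_lit 5) (nat_lit 11)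 (nat_lit 5) (nat_lit 12) (nat_lit 4) (nat_lit 410) (nat_lit 269) (nat_lit 101)) (XT.lf (nat_lit 0) (nat_lit 1108862287) (nat_lit 684) (nat_lit 1164748749) (nat_lit 684) (nat_lit 1164748749) (nat_lit 282) (nat_lit 3) (nat_lit 291) (nat_lit 3) (nat_lit 291) (nat_lit 5) (nat_lit 270) (nat_lit 270) (nat_lit 240)))) (XT.nd (nat_lit 156) (nat_lit 684) (nat_lit 0) (XT.nd (nat_lit 78) (nat_lit 0) (nat_lit 0) (XT.lf (nat_lit 76) (nat_lit 865521886) (nat_lit 0) (nat_lit 3230520058) (nat_lit 684) (nat_lit 2825490673) (nat_lit 283) (nat_lit 5) (nat_lit 282) (nat_lit 3) (nat_lit 291) (nat_lit 5) (nat_lit 271) (nat_lit 270) (nat_lit 239)) (XT.lf (nat_lit 76) (nat_lit 4166433641) (nat_lit 0) (nat_lit 1815753556) (nat_lit 684) (nat_lit 987075048) (nat_lit 283) (nat_lit 5) (nat_lit 282) (nat_lit 3) (nat_lit 291) (nat_lit 5) (nat_lit 272) (nat_lit 270) (nat_lit 238))) (XT.nd (nat_lit 78) (nat_lit 0) (nat_lit 76)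 (XT.lf (nat_lit 76) (nat_lit 511078014) (nat_lit 0) (nat_lit 311888802) (nat_lit 760) (nat_lit 6197280504) (nat_lit 274) (nat_lit 5) (nat_lit 273) (nat_lit 5) (nat_lit 283) (nat_lit 5) (nat_lit 273) (nat_lit 270) (nat_lit 237)) (XT.lf (nat_lit 0) (nat_lit 2639194196) (nat_lit 684) (nat_lit 3152236132) (nat_lit 760) (nat_lit 1281993379) (nat_lit 274) (nat_lit 5) (nat_lit 283) (nat_lit 5) (nat_lit 284) (nat_lit 5) (nat_lit 274) (nat_lit 270) (nat_lit 236))))))) (XT.nd (nat_lit 1092) (nat_lit 6232) (nat_lit 0) (XT.nd (nat_lit 546) (nat_lit 1672) (nat_lit 0) (XT.nd (nat_lit 234) (nat_lit 760) (nat_lit 0) (XT.nd (nat_lit 78) (nat_lit 760) (nat_lit 0) (XT.lf (nat_lit 76) (nat_lit 268492783) (nat_lit 0) (nat_lit 4180335510) (nat_lit 760) (nat_lit 2681303042) (nat_lit 275) (nat_lit 5) (nat_lit 274) (nat_lit 5) (nat_lit 284) (nat_lit 5) (nat_lit 275) (nat_lit 270) (nat_lit 235)) (XT.nd (nat_lit 78) (nat_lit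 760) (nat_lit 0) (XT.lf (nat_lit 76) (nat_lit 3817780785) (nat_lit 0) (nat_lit 2461625332) (nat_lit 760) (nat_lit 910234965) (nat_lit 275) (nat_lit 5) (nat_lit 274) (nat_lit 5) (nat_lit 284) (nat_lit 5) (nat_lit 276) (nat_lit 270) (nat_lit 234)) (XT.lf (nat_lit 76) (nat_lit 178384219) (nat_lit 0) (nat_lit 655460353) (nat_lit 836) (nat_lit 6418791317) (nat_lit 265) (nat_lit 5) (nat_lit 264) (nat_lit 5) (nat_lit 275) (nat_lit 5) (nat_lit 277) (nat_lit 270) (nat_lit 233)))) (XT.nd (nat_lit 156) (nat_lit 836) (nat_lit 0) (XT.nd (nat_lit 78) (nat_lit 0) (nat_lit 0) (XT.lf (nat_lit 0) (nat_lit 2595643534) (nat_lit 760) (nat_lit 3473913052) (nat_lit 836) (nat_lit 1248274832) (nat_lit 265) (nat_lit 5) (nat_lit 275) (nat_lit 5) (nat_lit 276) (nat_lit 5) (nat_lit 278) (nat_lit 270) (nat_lit 232)) (XT.lf (nat_lit 76) (nat_lit 192143581) (nat_lit 0) (nat_lit 4166026897) (nat_lit 836) (nat_lit 3028465433) (nat_lit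 266) (nat_lit 5) (nat_lit 265) (nat_lit 5) (nat_lit 276) (nat_lit 5) (nat_lit 279) (nat_lit 270) (nat_lit 231))) (XT.nd (nat_lit 78) (nat_lit 836) (nat_lit 0) (XT.lf (nat_lit 76) (nat_lit 4000229640) (nat_lit 0) (nat_lit 2149345190) (nat_lit 836) (nat_lit 1308736383) (nat_lit 266) (nat_lit 5) (nat_lit 265) (nat_lit 5) (nat_lit 276) (nat_lit 5) (nat_lit 280) (nat_lit 270) (nat_lit 230)) (XT.lf (nat_lit 76) (nat_lit 353615579) (nat_lit 0) (nat_lit 45333601) (nat_lit 912) (nat_lit 7134774194) (nat_lit 255) (nat_lit 5) (nat_lit 254) (nat_lit 5) (nat_lit 266) (nat_lit 5) (nat_lit 281) (nat_lit 270) (nat_lit 229))))) (XT.nd (nat_lit 234) (nat_lit 1748) (nat_lit 0) (XT.nd (nat_lit 78) (nat_lit 0) (nat_lit 0) (XT.lf (nat_lit 0) (nat_lit 2130701908) (nat_lit 836) (nat_lit 3334325015) (nat_lit 912) (nat_lit 2146087376) (nat_lit 255) (nat_lit 5) (nat_lit 266) (nat_lit 5) (nat_lit 267) (nat_lit 5) (nat_lit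 282) (nat_lit 270) (nat_lit 228)) (XT.nd (nat_lit 78) (nat_lit 0) (nat_lit 0) (XT.lf (nat_lit 76) (nat_lit 598422805) (nat_lit 0) (nat_lit 3267311195) (nat_lit 912) (nat_lit 3826630198) (nat_lit 256) (nat_lit 5) (nat_lit 255) (nat_lit 5) (nat_lit 267) (nat_lit 5) (nat_lit 283) (nat_lit 270) (nat_lit 227)) (XT.lf (nat_lit 76) (nat_lit 4678255074) (nat_lit 0) (nat_lit 954578662) (nat_lit 912) (nat_lit 2143892162) (nat_lit 256) (nat_lit 5) (nat_lit 255) (nat_lit 5) (nat_lit 267) (nat_lit 5) (nat_lit 284) (nat_lit 270) (nat_lit 226)))) (XT.nd (nat_lit 156) (nat_lit 912) (nat_lit 0) (XT.nd (nat_lit 78) (nat_lit 76) (nat_lit 0) (XT.lf (nat_lit 0) (nat_lit 982437395) (nat_lit 836) (nat_lit 6441718900) (nat_lit 912) (nat_lit 440398485) (nat_lit 245) (nat_lit 5) (nat_lit 256) (nat_lit 5) (nat_lit 257) (nat_lit 5) (nat_lit 285) (nat_lit 270) (nat_lit 225)) (XT.lf (nat_lit 0) (nat_lit 1278209879) (nat_lit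 912) (nat_lit 2767760747) (nat_lit 76) (nat_lit 3909047733) (nat_lit 244) (nat_lit 5) (nat_lit 256) (nat_lit 5) (nat_lit 245) (nat_lit 5) (nat_lit 286) (nat_lit 270) (nat_lit 224))) (XT.nd (nat_lit 78) (nat_lit 0) (nat_lit 0) (XT.lf (nat_lit 0) (nat_lit 1454658245) (nat_lit 912) (nat_lit 1548951792) (nat_lit 988) (nat_lit 5045598907) (nat_lit 232) (nat_lit 5) (nat_lit 244) (nat_lit 5) (nat_lit 245) (nat_lit 5) (nat_lit 287) (nat_lit 270) (nat_lit 223)) (XT.lf (nat_lit 0) (nat_lit 4770106111) (nat_lit 988) (nat_lit 2335641607) (nat_lit 76) (nat_lit 1040862036) (nat_lit 232) (nat_lit 5) (nat_lit 245) (nat_lit 5) (nat_lit 233) (nat_lit 5) (nat_lit 288) (nat_lit 270) (nat_lit 222)))))) (XT.nd (nat_lit 546) (nat_lit 2204) (nat_lit 0) (XT.nd (nat_lit 234) (nat_lit 1900) (nat_lit 0) (XT.nd (nat_lit 78) (nat_lit 1140) (nat_lit 0) (XT.lf (nat_lit 0) (nat_lit 2035980525) (nat_lit 988) (nat_lit 4541217719)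 (nat_lit 1064) (nat_lit 1670168960) (nat_lit 219) (nat_lit 5) (nat_lit 232) (nat_lit 5) (nat_lit 233) (nat_lit 5) (nat_lit 289) (nat_lit 270) (nat_lit 221)) (XT.nd (nat_lit 78) (nat_lit 1064) (nat_lit 0) (XT.lf (nat_lit 0) (nat_lit 62648270) (nat_lit 1064) (nat_lit 1804934910) (nat_lit 76) (nat_lit 6484288140) (nat_lit 218) (nat_lit 5) (nat_lit 232) (nat_lit 5) (nat_lit 219) (nat_lit 5) (nat_lit 290) (nat_lit 270) (nat_lit 220)) (XT.lf (nat_lit 0) (nat_lit 1803687130) (nat_lit 1140) (nat_lit 5737061686) (nat_lit 76) (nat_lit 918628812) (nat_lit 204) (nat_lit 5) (nat_lit 219) (nat_lit 5) (nat_lit 205) (nat_lit 5) (nat_lit 291) (nat_lit 270) (nat_lit 219)))) (XT.nd (nat_lit 156) (nat_lit 760) (nat_lit 0) (XT.nd (nat_lit 78) (nat_lit 1140) (nat_lit 0) (XT.lf (nat_lit 0) (nat_lit 3589408372) (nat_lit 1140) (nat_lit 1205802236) (nat_lit 76) (nat_lit 3775180642) (nat_lit 204) (nat_lit 5) (nat_lit 219)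 (nat_lit 5) (nat_lit 205) (nat_lit 5) (nat_lit 292) (nat_lit 270) (nat_lit 218)) (XT.lf (nat_lit 0) (nat_lit 3490722997) (nat_lit 1140) (nat_lit 1928381308) (nat_lit 1216) (nat_lit 3265972924) (nat_lit 189) (nat_lit 5) (nat_lit 204) (nat_lit 5) (nat_lit 205) (nat_lit 5) (nat_lit 293) (nat_lit 270) (nat_lit 217))) (XT.nd (nat_lit 78) (nat_lit 760) (nat_lit 0) (XT.lf (nat_lit 0) (nat_lit 7283608383) (nat_lit 1216) (nat_lit 499710733) (nat_lit 76) (nat_lit 1020539621) (nat_lit 189) (nat_lit 5) (nat_lit 205) (nat_lit 5) (nat_lit 190) (nat_lit 5) (nat_lit 294) (nat_lit 270) (nat_lit 216)) (XT.lf (nat_lit 0) (nat_lit 292608087) (nat_lit 760) (nat_lit 4565308542) (nat_lit 76) (nat_lit 4067650812) (nat_lit 179) (nat_lit 5) (nat_lit 189) (nat_lit 5) (nat_lit 180) (nat_lit 5) (nat_lit 295) (nat_lit 270) (nat_lit 215))))) (XT.nd (nat_lit 234) (nat_lit 1064) (nat_lit 0) (XT.nd (nat_lit 78) (nat_lit 532) (nat_lit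 0) (XT.lf (nat_lit 0) (nat_lit 276707392) (nat_lit 608) (nat_lit 1819728421) (nat_lit 684) (nat_lit 6955073878) (nat_lit 171) (nat_lit 5) (nat_lit 179) (nat_lit 5) (nat_lit 180) (nat_lit 5) (nat_lit 296) (nat_lit 270) (nat_lit 214)) (XT.nd (nat_lit 78) (nat_lit 532) (nat_lit 0) (XT.lf (nat_lit 0) (nat_lit 3973728921) (nat_lit 684) (nat_lit 3875277814) (nat_lit 76) (nat_lit 1331689572) (nat_lit 171) (nat_lit 5) (nat_lit 180) (nat_lit 5) (nat_lit 172) (nat_lit 5) (nat_lit 297) (nat_lit 270) (nat_lit 213)) (XT.lf (nat_lit 0) (nat_lit 1136604630) (nat_lit 532) (nat_lit 4761042841) (nat_lit 608) (nat_lit 3416447108) (nat_lit 164) (nat_lit 5) (nat_lit 171) (nat_lit 5) (nat_lit 172) (nat_lit 5) (nat_lit 298) (nat_lit 270) (nat_lit 212)))) (XT.nd (nat_lit 156) (nat_lit 456) (nat_lit 0) (XT.nd (nat_lit 78) (nat_lit 608) (nat_lit 0) (XT.lf (nat_lit 0) (nat_lit 6339873326) (nat_lit 532) (nat_lit 1540662869)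 (nat_lit 608) (nat_lit 1570964968) (nat_lit 164) (nat_lit 5) (nat_lit 171) (nat_lit 5) (nat_lit 172) (nat_lit 5) (nat_lit 299) (nat_lit 270) (nat_lit 211)) (XT.lf (nat_lit 0) (nat_lit 323804933) (nat_lit 608) (nat_lit 7504719130) (nat_lit 76) (nat_lit 1764441353) (nat_lit 156) (nat_lit 5) (nat_lit 164) (nat_lit 5) (nat_lit 157) (nat_lit 5) (nat_lit 300) (nat_lit 270) (nat_lit 210))) (XT.nd (nat_lit 78) (nat_lit 456) (nat_lit 0) (XT.lf (nat_lit 0) (nat_lit 2254355595) (nat_lit 608) (nat_lit 2299769547) (nat_lit 76) (nat_lit 5183806666) (nat_lit 156) (nat_lit 5) (nat_lit 164) (nat_lit 5) (nat_lit 157) (nat_lit 5) (nat_lit 301) (nat_lit 270) (nat_lit 209)) (XT.lf (nat_lit 0) (nat_lit 3083814316) (nat_lit 456) (nat_lit 1153240293) (nat_lit 532) (nat_lit 5650404668) (nat_lit 150) (nat_lit 5) (nat_lit 156) (nat_lit 5) (nat_lit 157) (nat_lit 5) (nat_lit 302) (nat_lit 270) (nat_lit 208))))))))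
noncomputable def xc130 : XT := (XT.nd (nat_lit 2106) (nat_lit 2964) (nat_lit 0) (XT.nd (nat_lit 1014) (nat_lit 2356) (nat_lit 0) (XT.nd (nat_lit 468) (nat_lit 1672) (nat_lit 0) (XT.nd (nat_lit 234) (nat_lit 912) (nat_lit 0) (XT.nd (nat_lit 78) (nat_lit 608) (nat_lit 0) (XT.lf (nat_lit 0) (nat_lit 6290510328) (nat_lit 532) (nat_lit 1425919837) (nat_lit 76) (nat_lit 2324742038) (nat_lit 150) (nat_lit 5) (nat_lit 157) (nat_lit 5) (nat_lit 151) (nat_lit 5) (nat_lit 303) (nat_lit 270) (nat_lit 207)) (XT.nd (nat_lit 78) (nat_lit 76) (nat_lit 0) (XT.lf (nat_lit 0) (nat_lit 4145351037) (nat_lit 532) (nat_lit 4277733250) (nat_lit 608) (nat_lit 1775923591) (nat_lit 143) (nat_lit 5) (nat_lit 150) (nat_lit 5) (nat_lit 151) (nat_lit 5) (nat_lit 304) (nat_lit 270) (nat_lit 206)) (XT.lf (nat_lit 0) (nat_lit 234076908) (nat_lit 608) (nat_lit 488374176) (nat_lit 76) (nat_lit 9639656135) (nat_lit 142) (nat_lit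 5) (nat_lit 150) (nat_lit 5) (nat_lit 143) (nat_lit 5) (nat_lit 305) (nat_lit 270) (nat_lit 205)))) (XT.nd (nat_lit 78) (nat_lit 456) (nat_lit 0) (XT.lf (nat_lit 0) (nat_lit 2315948485) (nat_lit 532) (nat_lit 5264879240) (nat_lit 76) (nat_lit 2947360031) (nat_lit 136) (nat_lit 5) (nat_lit 143) (nat_lit 5) (nat_lit 137) (nat_lit 5) (nat_lit 306) (nat_lit 270) (nat_lit 204)) (XT.nd (nat_lit 78) (nat_lit 0) (nat_lit 0) (XT.lf (nat_lit 0) (nat_lit 463196038) (nat_lit 456) (nat_lit 3981714398) (nat_lit 532) (nat_lit 6254833941) (nat_lit 130) (nat_lit 5) (nat_lit 136) (nat_lit 5) (nat_lit 137) (nat_lit 5) (nat_lit 307) (nat_lit 270) (nat_lit 203)) (XT.lf (nat_lit 0) (nat_lit 6434311176) (nat_lit 456) (nat_lit 225220887) (nat_lit 532) (nat_lit 4216293651) (nat_lit 130) (nat_lit 5) (nat_lit 136) (nat_lit 5) (nat_lit 137) (nat_lit 5) (nat_lit 308) (nat_lit 270) (nat_lit 202))))) (XT.nd (nat_lit 234) (nat_lit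 760) (nat_lit 0) (XT.nd (nat_lit 78) (nat_lit 532) (nat_lit 0) (XT.lf (nat_lit 0) (nat_lit 1484763100) (nat_lit 380) (nat_lit 7474619445) (nat_lit 456) (nat_lit 2097274059) (nat_lit 125) (nat_lit 5) (nat_lit 130) (nat_lit 5) (nat_lit 131) (nat_lit 5) (nat_lit 309) (nat_lit 270) (nat_lit 201)) (XT.nd (nat_lit 78) (nat_lit 456) (nat_lit 0) (XT.lf (nat_lit 0) (nat_lit 100880237) (nat_lit 456) (nat_lit 3602011069) (nat_lit 76) (nat_lit 7539508694) (nat_lit 124) (nat_lit 5) (nat_lit 130) (nat_lit 5) (nat_lit 125) (nat_lit 5) (nat_lit 310) (nat_lit 270) (nat_lit 200)) (XT.lf (nat_lit 0) (nat_lit 2319964758) (nat_lit 532) (nat_lit 8895392307) (nat_lit 76) (nat_lit 217849719) (nat_lit 118) (nat_lit 5) (nat_lit 125) (nat_lit 5) (nat_lit 119) (nat_lit 5) (nat_lit 311) (nat_lit 270) (nat_lit 199)))) (XT.nd (nat_lit 156) (nat_lit 380) (nat_lit 0) (XT.nd (nat_lit 78) (nat_lit 380) (nat_lit 0) (XT.lf (nat_lit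 0) (nat_lit 4650058105) (nat_lit 532) (nat_lit 2766230982) (nat_lit 76) (nat_lit 4212142980) (nat_lit 118) (nat_lit 5) (nat_lit 125) (nat_lit 5) (nat_lit 119) (nat_lit 5) (nat_lit 312) (nat_lit 270) (nat_lit 198)) (XT.lf (nat_lit 0) (nat_lit 3581514328) (nat_lit 380) (nat_lit 3474851728) (nat_lit 456) (nat_lit 4772985282) (nat_lit 113) (nat_lit 5) (nat_lit 118) (nat_lit 5) (nat_lit 119) (nat_lit 5) (nat_lit 313) (nat_lit 270) (nat_lit 197))) (XT.nd (nat_lit 78) (nat_lit 380) (nat_lit 0) (XT.lf (nat_lit 0) (nat_lit 9540993981) (nat_lit 456) (nat_lit 1900581199) (nat_lit 76) (nat_lit 594564895) (nat_lit 113) (nat_lit 5) (nat_lit 119) (nat_lit 5) (nat_lit 114) (nat_lit 5) (nat_lit 314) (nat_lit 270) (nat_lit 196)) (XT.lf (nat_lit 0) (nat_lit 4659019802) (nat_lit 380) (nat_lit 7493436515) (nat_lit 456) (nat_lit 95132348) (nat_lit 108) (nat_lit 5) (nat_lit 113) (nat_lit 5) (nat_lit 114) (nat_lit 5)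 (nat_lit 315) (nat_lit 270) (nat_lit 195)))))) (XT.nd (nat_lit 546) (nat_lit 912) (nat_lit 0) (XT.nd (nat_lit 234) (nat_lit 1064) (nat_lit 0) (XT.nd (nat_lit 78) (nat_lit 304) (nat_lit 0) (XT.lf (nat_lit 0) (nat_lit 2323156725) (nat_lit 456) (nat_lit 1068272869) (nat_lit 76) (nat_lit 9073509604) (nat_lit 107) (nat_lit 5) (nat_lit 113) (nat_lit 5) (nat_lit 108) (nat_lit 5) (nat_lit 316) (nat_lit 270) (nat_lit 194)) (XT.nd (nat_lit 78) (nat_lit 0) (nat_lit 0) (XT.lf (nat_lit 0) (nat_lit 4849655835) (nat_lit 380) (nat_lit 6971812013) (nat_lit 76) (nat_lit 866209871) (nat_lit 103) (nat_lit 5) (nat_lit 108) (nat_lit 5) (nat_lit 104) (nat_lit 5) (nat_lit 317) (nat_lit 270) (nat_lit 193)) (XT.lf (nat_lit 0) (nat_lit 7470833227) (nat_lit 380) (nat_lit 259198387) (nat_lit 76) (nat_lit 5186522546) (nat_lit 103) (nat_lit 5) (nat_lit 108) (nat_lit 5) (nat_lit 104) (nat_lit 5) (nat_lit 318) (nat_lit 270) (nat_lit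 192)))) (XT.nd (nat_lit 156) (nat_lit 380) (nat_lit 0) (XT.nd (nat_lit 78) (nat_lit 304) (nat_lit 0) (XT.lf (nat_lit 0) (nat_lit 6753406757) (nat_lit 380) (nat_lit 3457312915) (nat_lit 456) (nat_lit 2940396626) (nat_lit 98) (nat_lit 5) (nat_lit 103) (nat_lit 5) (nat_lit 104) (nat_lit 5) (nat_lit 319) (nat_lit 270) (nat_lit 191)) (XT.lf (nat_lit 0) (nat_lit 557327580) (nat_lit 304) (nat_lit 12468029070) (nat_lit 380) (nat_lit 367603018) (nat_lit 94) (nat_lit 5) (nat_lit 98) (nat_lit 5) (nat_lit 99) (nat_lit 5) (nat_lit 320) (nat_lit 270) (nat_lit 190))) (XT.nd (nat_lit 78) (nat_lit 304) (nat_lit 0) (XT.lf (nat_lit 0) (nat_lit 2312930997) (nat_lit 380) (nat_lit 5878462291) (nat_lit 76) (nat_lit 5447773827) (nat_lit 93) (nat_lit 5) (nat_lit 98) (nat_lit 5) (nat_lit 94) (nat_lit 5) (nat_lit 321) (nat_lit 270) (nat_lit 189)) (XT.lf (nat_lit 0) (nat_lit 1275968482) (nat_lit 304) (nat_lit 3779118763)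 (nat_lit 380) (nat_lit 8837925716) (nat_lit 89) (nat_lit 5) (nat_lit 93) (nat_lit 5) (nat_lit 94) (nat_lit 5) (nat_lit 322) (nat_lit 270) (nat_lit 188))))) (XT.nd (nat_lit 234) (nat_lit 608) (nat_lit 0) (XT.nd (nat_lit 78) (nat_lit 304) (nat_lit 0) (XT.lf (nat_lit 0) (nat_lit 7923435408) (nat_lit 380) (nat_lit 5428127340) (nat_lit 76) (nat_lit 801612263) (nat_lit 89) (nat_lit 5) (nat_lit 94) (nat_lit 5) (nat_lit 90) (nat_lit 5) (nat_lit 323) (nat_lit 270) (nat_lit 187)) (XT.nd (nat_lit 78) (nat_lit 0) (nat_lit 0) (XT.lf (nat_lit 0) (nat_lit 1944932289) (nat_lit 304) (nat_lit 8966315465) (nat_lit 380) (nat_lit 3508909860) (nat_lit 85) (nat_lit 5) (nat_lit 89) (nat_lit 5) (nat_lit 90) (nat_lit 5) (nat_lit 324) (nat_lit 270) (nat_lit 186)) (XT.lf (nat_lit 0) (nat_lit 9618708675) (nat_lit 304) (nat_lit 4402456055) (nat_lit 380) (nat_lit 673028432) (nat_lit 85) (nat_lit 5) (nat_lit 89) (nat_lit 5) (nat_lit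 90) (nat_lit 5) (nat_lit 325) (nat_lit 270) (nat_lit 185)))) (XT.nd (nat_lit 156) (nat_lit 228) (nat_lit 0) (XT.nd (nat_lit 78) (nat_lit 0) (nat_lit 0) (XT.lf (nat_lit 0) (nat_lit 2209818795) (nat_lit 380) (nat_lit 12435987780) (nat_lit 76) (nat_lit 329838877) (nat_lit 80) (nat_lit 5) (nat_lit 85) (nat_lit 5) (nat_lit 81) (nat_lit 5) (nat_lit 326) (nat_lit 270) (nat_lit 184)) (XT.lf (nat_lit 0) (nat_lit 5239299547) (nat_lit 380) (nat_lit 4859008269) (nat_lit 76) (nat_lit 5164839409) (nat_lit 80) (nat_lit 5) (nat_lit 85) (nat_lit 5) (nat_lit 81) (nat_lit 5) (nat_lit 327) (nat_lit 270) (nat_lit 183))) (XT.nd (nat_lit 78) (nat_lit 0) (nat_lit 0) (XT.lf (nat_lit 0) (nat_lit 2972665399) (nat_lit 228) (nat_lit 5394532407) (nat_lit 304) (nat_lit 7191865869) (nat_lit 77) (nat_lit 5) (nat_lit 80) (nat_lit 5) (nat_lit 81) (nat_lit 5) (nat_lit 328) (nat_lit 270) (nat_lit 182)) (XT.lf (nat_lit 0) (nat_lit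 11108571771) (nat_lit 228) (nat_lit 508707102) (nat_lit 304) (nat_lit 4245743531) (nat_lit 77) (nat_lit 5) (nat_lit 80) (nat_lit 5) (nat_lit 81) (nat_lit 5) (nat_lit 329) (nat_lit 270) (nat_lit 181))))))) (XT.nd (nat_lit 1092) (nat_lit 1140) (nat_lit 0) (XT.nd (nat_lit 546) (nat_lit 684) (nat_lit 0) (XT.nd (nat_lit 234) (nat_lit 532) (nat_lit 0) (XT.nd (nat_lit 78) (nat_lit 304) (nat_lit 0) (XT.lf (nat_lit 0) (nat_lit 3303465588) (nat_lit 304) (nat_lit 11716429525) (nat_lit 380) (nat_lit 1154568518) (nat_lit 73) (nat_lit 5) (nat_lit 77) (nat_lit 5) (nat_lit 78) (nat_lit 5) (nat_lit 330) (nat_lit 270) (nat_lit 180)) (XT.nd (nat_lit 78) (nat_lit 228) (nat_lit 0) (XT.lf (nat_lit 0) (nat_lit 2023150192) (nat_lit 380) (nat_lit 4848334481) (nat_lit 76) (nat_lit 9622189831) (nat_lit 72) (nat_lit 5) (nat_lit 77) (nat_lit 5) (nat_lit 73) (nat_lit 5) (nat_lit 331) (nat_lit 270) (nat_lit 179)) (XT.lf (nat_lit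 0) (nat_lit 3441522221) (nat_lit 228) (nat_lit 1845025965) (nat_lit 304) (nat_lit 11535177445) (nat_lit 69) (nat_lit 5) (nat_lit 72) (nat_lit 5) (nat_lit 73) (nat_lit 5) (nat_lit 332) (nat_lit 270) (nat_lit 178)))) (XT.nd (nat_lit 156) (nat_lit 304) (nat_lit 0) (XT.nd (nat_lit 78) (nat_lit 228) (nat_lit 0) (XT.lf (nat_lit 0) (nat_lit 8709991940) (nat_lit 304) (nat_lit 5140627532) (nat_lit 76) (nat_lit 3307147582) (nat_lit 69) (nat_lit 5) (nat_lit 73) (nat_lit 5) (nat_lit 70) (nat_lit 5) (nat_lit 333) (nat_lit 270) (nat_lit 177)) (XT.lf (nat_lit 0) (nat_lit 3364965005) (nat_lit 228) (nat_lit 8903019735) (nat_lit 304) (nat_lit 5234962306) (nat_lit 66) (nat_lit 5) (nat_lit 69) (nat_lit 5) (nat_lit 70) (nat_lit 5) (nat_lit 334) (nat_lit 270) (nat_lit 176))) (XT.nd (nat_lit 78) (nat_lit 304) (nat_lit 0) (XT.lf (nat_lit 0) (nat_lit 12202817577) (nat_lit 228) (nat_lit 3763316794) (nat_lit 304) (nat_lit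 1891357880) (nat_lit 66) (nat_lit 5) (nat_lit 69) (nat_lit 5) (nat_lit 70) (nat_lit 5) (nat_lit 335) (nat_lit 270) (nat_lit 175)) (XT.lf (nat_lit 0) (nat_lit 1548984833) (nat_lit 304) (nat_lit 15136067626) (nat_lit 76) (nat_lit 1536383468) (nat_lit 62) (nat_lit 5) (nat_lit 66) (nat_lit 5) (nat_lit 63) (nat_lit 5) (nat_lit 336) (nat_lit 270) (nat_lit 174))))) (XT.nd (nat_lit 234) (nat_lit 456) (nat_lit 0) (XT.nd (nat_lit 78) (nat_lit 228) (nat_lit 0) (XT.lf (nat_lit 0) (nat_lit 5131476847) (nat_lit 304) (nat_lit 6475625448) (nat_lit 76) (nat_lit 6986336506) (nat_lit 62) (nat_lit 5) (nat_lit 66) (nat_lit 5) (nat_lit 63) (nat_lit 5) (nat_lit 337) (nat_lit 270) (nat_lit 173)) (XT.nd (nat_lit 78) (nat_lit 0) (nat_lit 0) (XT.lf (nat_lit 0) (nat_lit 2465541405) (nat_lit 228) (nat_lit 6362152406) (nat_lit 304) (nat_lit 10148731397) (nat_lit 59) (nat_lit 5) (nat_lit 62) (nat_lit 5) (nat_lit 63) (nat_lit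 5) (nat_lit 338) (nat_lit 270) (nat_lit 172)) (XT.lf (nat_lit 0) (nat_lit 11780753725) (nat_lit 228) (nat_lit 902233931) (nat_lit 304) (nat_lit 6686478475) (nat_lit 59) (nat_lit 5) (nat_lit 62) (nat_lit 5) (nat_lit 63) (nat_lit 5) (nat_lit 339) (nat_lit 270) (nat_lit 171)))) (XT.nd (nat_lit 156) (nat_lit 228) (nat_lit 0) (XT.nd (nat_lit 78) (nat_lit 76) (nat_lit 0) (XT.lf (nat_lit 0) (nat_lit 1559602291) (nat_lit 152) (nat_lit 15137925062) (nat_lit 228) (nat_lit 3075473640) (nat_lit 57) (nat_lit 5) (nat_lit 59) (nat_lit 5) (nat_lit 60) (nat_lit 5) (nat_lit 340) (nat_lit 270) (nat_lit 170)) (XT.lf (nat_lit 0) (nat_lit 700891960) (nat_lit 228) (nat_lit 9090947992) (nat_lit 76) (nat_lit 10394538164) (nat_lit 56) (nat_lit 5) (nat_lit 59) (nat_lit 5) (nat_lit 57) (nat_lit 5) (nat_lit 341) (nat_lit 270) (nat_lit 169))) (XT.nd (nat_lit 78) (nat_lit 0) (nat_lit 0) (XT.lf (nat_lit 0) (nat_lit 253803188)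 (nat_lit 228) (nat_lit 4261130132) (nat_lit 304) (nat_lit 16096733211) (nat_lit 53) (nat_lit 5) (nat_lit 56) (nat_lit 5) (nat_lit 57) (nat_lit 5) (nat_lit 342) (nat_lit 270) (nat_lit 168)) (XT.lf (nat_lit 0) (nat_lit 8533797948) (nat_lit 304) (nat_lit 11022433979) (nat_lit 76) (nat_lit 1490778782) (nat_lit 53) (nat_lit 5) (nat_lit 57) (nat_lit 5) (nat_lit 54) (nat_lit 5) (nat_lit 343) (nat_lit 270) (nat_lit 167)))))) (XT.nd (nat_lit 546) (nat_lit 532) (nat_lit 0) (XT.nd (nat_lit 234) (nat_lit 456) (nat_lit 0) (XT.nd (nat_lit 78) (nat_lit 152) (nat_lit 0) (XT.lf (nat_lit 0) (nat_lit 12699780492) (nat_lit 304) (nat_lit 1474392302) (nat_lit 76) (nat_lit 7320454764) (nat_lit 53) (nat_lit 5) (nat_lit 57) (nat_lit 5) (nat_lit 54) (nat_lit 5) (nat_lit 344) (nat_lit 270) (nat_lit 166)) (XT.nd (nat_lit 78) (nat_lit 0) (nat_lit 0) (XT.lf (nat_lit 0) (nat_lit 8501459316) (nat_lit 152) (nat_lit 8555822451)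 (nat_lit 228) (nat_lit 4896403614) (nat_lit 51) (nat_lit 5) (nat_lit 53) (nat_lit 5) (nat_lit 54) (nat_lit 5) (nat_lit 345) (nat_lit 270) (nat_lit 165)) (XT.lf (nat_lit 0) (nat_lit 18782525126) (nat_lit 152) (nat_lit 2762898207) (nat_lit 228) (nat_lit 881102544) (nat_lit 51) (nat_lit 5) (nat_lit 53) (nat_lit 5) (nat_lit 54) (nat_lit 5) (nat_lit 346) (nat_lit 270) (nat_lit 164)))) (XT.nd (nat_lit 156) (nat_lit 152) (nat_lit 0) (XT.nd (nat_lit 78) (nat_lit 0) (nat_lit 0) (XT.lf (nat_lit 0) (nat_lit 3270875972) (nat_lit 304) (nat_lit 16412072216) (nat_lit 76) (nat_lit 3227280882) (nat_lit 47) (nat_lit 5) (nat_lit 51) (nat_lit 5) (nat_lit 48) (nat_lit 5) (nat_lit 347) (nat_lit 270) (nat_lit 163)) (XT.lf (nat_lit 0) (nat_lit 7579645097) (nat_lit 304) (nat_lit 6448503466) (nat_lit 76) (nat_lit 9378542549) (nat_lit 47) (nat_lit 5) (nat_lit 51) (nat_lit 5) (nat_lit 48) (nat_lit 5) (nat_lit 348) (nat_lit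 270) (nat_lit 162))) (XT.nd (nat_lit 78) (nat_lit 0) (nat_lit 0) (XT.lf (nat_lit 0) (nat_lit 3866115038) (nat_lit 152) (nat_lit 8174573799) (nat_lit 228) (nat_lit 11876675289) (nat_lit 45) (nat_lit 5) (nat_lit 47) (nat_lit 5) (nat_lit 48) (nat_lit 5) (nat_lit 349) (nat_lit 270) (nat_lit 161)) (XT.lf (nat_lit 0) (nat_lit 14599289383) (nat_lit 152) (nat_lit 2087430249) (nat_lit 228) (nat_lit 7755110268) (nat_lit 45) (nat_lit 5) (nat_lit 47) (nat_lit 5) (nat_lit 48) (nat_lit 5) (nat_lit 350) (nat_lit 270) (nat_lit 160))))) (XT.nd (nat_lit 234) (nat_lit 304) (nat_lit 0) (XT.nd (nat_lit 78) (nat_lit 76) (nat_lit 0) (XT.lf (nat_lit 0) (nat_lit 621629026) (nat_lit 152) (nat_lit 20883041029) (nat_lit 228) (nat_lit 3476390460) (nat_lit 43) (nat_lit 5) (nat_lit 45) (nat_lit 5) (nat_lit 46) (nat_lit 5) (nat_lit 351) (nat_lit 270) (nat_lit 159)) (XT.nd (nat_lit 78) (nat_lit 0) (nat_lit 0) (XT.lf (nat_lit 0)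 (nat_lit 1019972992) (nat_lit 228) (nat_lit 13985380178) (nat_lit 76) (nat_lit 10527629819) (nat_lit 42) (nat_lit 5) (nat_lit 45) (nat_lit 5) (nat_lit 43) (nat_lit 5) (nat_lit 352) (nat_lit 270) (nat_lit 158)) (XT.lf (nat_lit 0) (nat_lit 5568152562) (nat_lit 228) (nat_lit 3356645352) (nat_lit 76) (nat_lit 17176035150) (nat_lit 42) (nat_lit 5) (nat_lit 45) (nat_lit 5) (nat_lit 43) (nat_lit 5) (nat_lit 353) (nat_lit 270) (nat_lit 157)))) (XT.nd (nat_lit 156) (nat_lit 152) (nat_lit 0) (XT.nd (nat_lit 78) (nat_lit 0) (nat_lit 0) (XT.lf (nat_lit 0) (nat_lit 7720124867) (nat_lit 152) (nat_lit 2594044979) (nat_lit 228) (nat_lit 16369713269) (nat_lit 40) (nat_lit 5) (nat_lit 42) (nat_lit 5) (nat_lit 43) (nat_lit 5) (nat_lit 354) (nat_lit 270) (nat_lit 156)) (XT.lf (nat_lit 0) (nat_lit 15261811869) (nat_lit 228) (nat_lit 8145048746) (nat_lit 76) (nat_lit 3875792792) (nat_lit 40) (nat_lit 5) (nat_lit 43)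 (nat_lit 5) (nat_lit 41) (nat_lit 5) (nat_lit 355) (nat_lit 270) (nat_lit 155))) (XT.nd (nat_lit 78) (nat_lit 0) (nat_lit 0) (XT.lf (nat_lit 0) (nat_lit 3010342904) (nat_lit 152) (nat_lit 17389799864) (nat_lit 228) (nat_lit 7497982137) (nat_lit 38) (nat_lit 5) (nat_lit 40) (nat_lit 5) (nat_lit 41) (nat_lit 5) (nat_lit 356) (nat_lit 270) (nat_lit 154)) (XT.lf (nat_lit 0) (nat_lit 14646628937) (nat_lit 152) (nat_lit 11116043164) (nat_lit 228) (nat_lit 2767292708) (nat_lit 38) (nat_lit 5) (nat_lit 40) (nat_lit 5) (nat_lit 41) (nat_lit 5) (nat_lit 357) (nat_lit 270) (nat_lit 153))))))))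
noncomputable def xc131 : XT := (XT.nd (nat_lit 2184) (nat_lit 760) (nat_lit 0) (XT.nd (nat_lit 1092) (nat_lit 532) (nat_lit 0) (XT.nd (nat_lit 546) (nat_lit 304) (nat_lit 0) (XT.nd (nat_lit 234) (nat_lit 304) (nat_lit 0) (XT.nd (nat_lit 78) (nat_lit 152) (nat_lit 0) (XT.lf (nat_lit 0) (nat_lit 2052267197) (nat_lit 228) (nat_lit 2589366540) (nat_lit 76) (nat_lit 24538883470) (nat_lit 37) (nat_lit 5) (nat_lit 40) (nat_lit 5) (nat_lit 38) (nat_lit 5) (nat_lit 358) (nat_lit 270) (nat_lit 152)) (XT.nd (nat_lit 78) (nat_lit 0) (nat_lit 0) (XT.lf (nat_lit 0) (nat_lit 7057924156) (nat_lit 228) (nat_lit 20692736380) (nat_lit 76) (nat_lit 2096195002) (nat_lit 35) (nat_lit 5) (nat_lit 38) (nat_lit 5) (nat_lit 36) (nat_lit 5) (nat_lit 359) (nat_lit 270) (nat_lit 151)) (XT.lf (nat_lit 0) (nat_lit 12274566846) (nat_lit 228) (nat_lit 9295482772) (nat_lit 76) (nat_lit 8961314997) (nat_lit 35) (nat_lit 5) (nat_lit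 38) (nat_lit 5) (nat_lit 36) (nat_lit 5) (nat_lit 360) (nat_lit 270) (nat_lit 150)))) (XT.nd (nat_lit 156) (nat_lit 152) (nat_lit 0) (XT.nd (nat_lit 78) (nat_lit 0) (nat_lit 0) (XT.lf (nat_lit 0) (nat_lit 2472660879) (nat_lit 152) (nat_lit 15187605833) (nat_lit 228) (nat_lit 13575770446) (nat_lit 33) (nat_lit 5) (nat_lit 35) (nat_lit 5) (nat_lit 36) (nat_lit 5) (nat_lit 361) (nat_lit 270) (nat_lit 149)) (XT.lf (nat_lit 0) (nat_lit 14765308039) (nat_lit 152) (nat_lit 8525027885) (nat_lit 228) (nat_lit 8669034791) (nat_lit 33) (nat_lit 5) (nat_lit 35) (nat_lit 5) (nat_lit 36) (nat_lit 5) (nat_lit 362) (nat_lit 270) (nat_lit 148))) (XT.nd (nat_lit 78) (nat_lit 152) (nat_lit 0) (XT.lf (nat_lit 0) (nat_lit 27408201523) (nat_lit 152) (nat_lit 1670360253) (nat_lit 228) (nat_lit 3626169512) (nat_lit 33) (nat_lit 5) (nat_lit 35) (nat_lit 5) (nat_lit 36) (nat_lit 5) (nat_lit 363) (nat_lit 270) (nat_lit 147))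 (XT.lf (nat_lit 0) (nat_lit 1647292458) (nat_lit 152) (nat_lit 26460380213) (nat_lit 76) (nat_lit 5361034986) (nat_lit 31) (nat_lit 5) (nat_lit 33) (nat_lit 5) (nat_lit 32) (nat_lit 5) (nat_lit 364) (nat_lit 270) (nat_lit 146))))) (XT.nd (nat_lit 234) (nat_lit 152) (nat_lit 0) (XT.nd (nat_lit 78) (nat_lit 152) (nat_lit 0) (XT.lf (nat_lit 0) (nat_lit 7066148448) (nat_lit 152) (nat_lit 14534337295) (nat_lit 76) (nat_lit 12652242570) (nat_lit 31) (nat_lit 5) (nat_lit 33) (nat_lit 5) (nat_lit 32) (nat_lit 5) (nat_lit 365) (nat_lit 270) (nat_lit 145)) (XT.nd (nat_lit 78) (nat_lit 152) (nat_lit 0) (XT.lf (nat_lit 0) (nat_lit 12637395593) (nat_lit 152) (nat_lit 2268253007) (nat_lit 76) (nat_lit 20154930353) (nat_lit 31) (nat_lit 5) (nat_lit 33) (nat_lit 5) (nat_lit 32) (nat_lit 5) (nat_lit 366) (nat_lit 270) (nat_lit 144)) (XT.lf (nat_lit 0) (nat_lit 10554547831) (nat_lit 152) (nat_lit 7912810912) (nat_lit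 228) (nat_lit 17422563021) (nat_lit 29) (nat_lit 5) (nat_lit 31) (nat_lit 5) (nat_lit 32) (nat_lit 5) (nat_lit 367) (nat_lit 270) (nat_lit 143)))) (XT.nd (nat_lit 156) (nat_lit 152) (nat_lit 0) (XT.nd (nat_lit 78) (nat_lit 0) (nat_lit 0) (XT.lf (nat_lit 0) (nat_lit 23791475292) (nat_lit 152) (nat_lit 693896002) (nat_lit 228) (nat_lit 12258382943) (nat_lit 29) (nat_lit 5) (nat_lit 31) (nat_lit 5) (nat_lit 32) (nat_lit 5) (nat_lit 368) (nat_lit 270) (nat_lit 142)) (XT.lf (nat_lit 0) (nat_lit 30739190052) (nat_lit 228) (nat_lit 279272756) (nat_lit 76) (nat_lit 6603084678) (nat_lit 29) (nat_lit 5) (nat_lit 32) (nat_lit 5) (nat_lit 30) (nat_lit 4) (nat_lit 369) (nat_lit 270) (nat_lit 141))) (XT.nd (nat_lit 78) (nat_lit 76) (nat_lit 0) (XT.lf (nat_lit 0) (nat_lit 13004529843) (nat_lit 76) (nat_lit 24298710681) (nat_lit 152) (nat_lit 1218759166) (nat_lit 28) (nat_lit 5) (nat_lit 29) (nat_lit 5) (nat_lit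 30) (nat_lit 4) (nat_lit 370) (nat_lit 270) (nat_lit 140)) (XT.lf (nat_lit 0) (nat_lit 4518304778) (nat_lit 152) (nat_lit 12817513604) (nat_lit 76) (nat_lit 22112511499) (nat_lit 27) (nat_lit 5) (nat_lit 29) (nat_lit 5) (nat_lit 28) (nat_lit 5) (nat_lit 371) (nat_lit 270) (nat_lit 139)))))) (XT.nd (nat_lit 546) (nat_lit 228) (nat_lit 0) (XT.nd (nat_lit 234) (nat_lit 152) (nat_lit 0) (XT.nd (nat_lit 78) (nat_lit 0) (nat_lit 0) (XT.lf (nat_lit 0) (nat_lit 240220819) (nat_lit 152) (nat_lit 10156102279) (nat_lit 228) (nat_lit 30005968081) (nat_lit 25) (nat_lit 5) (nat_lit 27) (nat_lit 5) (nat_lit 28) (nat_lit 5) (nat_lit 372) (nat_lit 270) (nat_lit 138)) (XT.nd (nat_lit 78) (nat_lit 0) (nat_lit 0) (XT.lf (nat_lit 0) (nat_lit 13936747885) (nat_lit 152) (nat_lit 2634505502) (nat_lit 228) (nat_lit 24810004045) (nat_lit 25) (nat_lit 5) (nat_lit 27) (nat_lit 5) (nat_lit 28) (nat_lit 5) (nat_lit 373) (nat_lit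 270) (nat_lit 137)) (XT.lf (nat_lit 0) (nat_lit 22971912396) (nat_lit 228) (nat_lit 14409995204) (nat_lit 76) (nat_lit 5006473815) (nat_lit 25) (nat_lit 5) (nat_lit 28) (nat_lit 5) (nat_lit 26) (nat_lit 4) (nat_lit 374) (nat_lit 270) (nat_lit 136)))) (XT.nd (nat_lit 156) (nat_lit 76) (nat_lit 0) (XT.nd (nat_lit 78) (nat_lit 76) (nat_lit 0) (XT.lf (nat_lit 0) (nat_lit 29582261826) (nat_lit 228) (nat_lit 1025506844) (nat_lit 76) (nat_lit 12817423401) (nat_lit 25) (nat_lit 5) (nat_lit 28) (nat_lit 5) (nat_lit 26) (nat_lit 4) (nat_lit 375) (nat_lit 270) (nat_lit 135)) (XT.lf (nat_lit 0) (nat_lit 12999645095) (nat_lit 76) (nat_lit 23508068679) (nat_lit 152) (nat_lit 7981892492) (nat_lit 24) (nat_lit 5) (nat_lit 25) (nat_lit 5) (nat_lit 26) (nat_lit 4) (nat_lit 376) (nat_lit 270) (nat_lit 134))) (XT.nd (nat_lit 78) (nat_lit 76) (nat_lit 0) (XT.lf (nat_lit 0) (nat_lit 27452175065) (nat_lit 76) (nat_lit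 16191040831) (nat_lit 152) (nat_lit 1942671291) (nat_lit 24) (nat_lit 5) (nat_lit 25) (nat_lit 5) (nat_lit 26) (nat_lit 4) (nat_lit 377) (nat_lit 270) (nat_lit 133)) (XT.lf (nat_lit 0) (nat_lit 4186338397) (nat_lit 152) (nat_lit 4432035006) (nat_lit 76) (nat_lit 38095689686) (nat_lit 23) (nat_lit 5) (nat_lit 25) (nat_lit 5) (nat_lit 24) (nat_lit 5) (nat_lit 378) (nat_lit 270) (nat_lit 132))))) (XT.nd (nat_lit 234) (nat_lit 76) (nat_lit 0) (XT.nd (nat_lit 78) (nat_lit 0) (nat_lit 0) (XT.lf (nat_lit 0) (nat_lit 9839739351) (nat_lit 152) (nat_lit 707335067) (nat_lit 228) (nat_lit 37325828416) (nat_lit 21) (nat_lit 5) (nat_lit 23) (nat_lit 5) (nat_lit 24) (nat_lit 5) (nat_lit 379) (nat_lit 270) (nat_lit 131)) (XT.nd (nat_lit 78) (nat_lit 0) (nat_lit 0) (XT.lf (nat_lit 0) (nat_lit 17207709933) (nat_lit 228) (nat_lit 24520382176) (nat_lit 76) (nat_lit 7335145914) (nat_lit 21) (nat_lit 5) (nat_lit 24)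 (nat_lit 5) (nat_lit 22) (nat_lit 4) (nat_lit 380) (nat_lit 270) (nat_lit 130)) (XT.lf (nat_lit 0) (nat_lit 24067742255) (nat_lit 228) (nat_lit 10622585280) (nat_lit 76) (nat_lit 15598970897) (nat_lit 21) (nat_lit 5) (nat_lit 24) (nat_lit 5) (nat_lit 22) (nat_lit 4) (nat_lit 381) (nat_lit 270) (nat_lit 129)))) (XT.nd (nat_lit 156) (nat_lit 0) (nat_lit 0) (XT.nd (nat_lit 78) (nat_lit 0) (nat_lit 0) (XT.lf (nat_lit 0) (nat_lit 3752392947) (nat_lit 76) (nat_lit 27410043598) (nat_lit 152) (nat_lit 20388840705) (nat_lit 20) (nat_lit 5) (nat_lit 21) (nat_lit 5) (nat_lit 22) (nat_lit 4) (nat_lit 382) (nat_lit 270) (nat_lit 128)) (XT.lf (nat_lit 0) (nat_lit 18763525039) (nat_lit 76) (nat_lit 19806591087) (nat_lit 152) (nat_lit 14277997327) (nat_lit 20) (nat_lit 5) (nat_lit 21) (nat_lit 5) (nat_lit 22) (nat_lit 4) (nat_lit 383) (nat_lit 270) (nat_lit 127))) (XT.nd (nat_lit 78) (nat_lit 0) (nat_lit 0) (XT.lf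 (nat_lit 0) (nat_lit 34212517242) (nat_lit 76) (nat_lit 11980593493) (nat_lit 152) (nat_lit 7990953755) (nat_lit 20) (nat_lit 5) (nat_lit 21) (nat_lit 5) (nat_lit 22) (nat_lit 4) (nat_lit 384) (nat_lit 270) (nat_lit 126)) (XT.lf (nat_lit 0) (nat_lit 50112868676) (nat_lit 76) (nat_lit 3925212564) (nat_lit 152) (nat_lit 1522216455) (nat_lit 20) (nat_lit 5) (nat_lit 21) (nat_lit 5) (nat_lit 22) (nat_lit 4) (nat_lit 385) (nat_lit 270) (nat_lit 125))))))) (XT.nd (nat_lit 1092) (nat_lit 228) (nat_lit 0) (XT.nd (nat_lit 546) (nat_lit 228) (nat_lit 0) (XT.nd (nat_lit 234) (nat_lit 76) (nat_lit 0) (XT.nd (nat_lit 78) (nat_lit 0) (nat_lit 0) (XT.lf (nat_lit 0) (nat_lit 5169724903) (nat_lit 228) (nat_lit 47377932782) (nat_lit 76) (nat_lit 4424796275) (nat_lit 17) (nat_lit 5) (nat_lit 20) (nat_lit 5) (nat_lit 18) (nat_lit 4) (nat_lit 386) (nat_lit 270) (nat_lit 124)) (XT.nd (nat_lit 78) (nat_lit 0) (nat_lit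 0) (XT.lf (nat_lit 0) (nat_lit 12119688873) (nat_lit 228) (nat_lit 33292328358) (nat_lit 76) (nat_lit 13011871786) (nat_lit 17) (nat_lit 5) (nat_lit 20) (nat_lit 5) (nat_lit 18) (nat_lit 4) (nat_lit 387) (nat_lit 270) (nat_lit 123)) (XT.lf (nat_lit 0) (nat_lit 19271785679) (nat_lit 228) (nat_lit 18795729547) (nat_lit 76) (nat_lit 21851544856) (nat_lit 17) (nat_lit 5) (nat_lit 20) (nat_lit 5) (nat_lit 18) (nat_lit 4) (nat_lit 388) (nat_lit 270) (nat_lit 122)))) (XT.nd (nat_lit 156) (nat_lit 0) (nat_lit 0) (XT.nd (nat_lit 78) (nat_lit 76) (nat_lit 0) (XT.lf (nat_lit 0) (nat_lit 26632264726) (nat_lit 228) (nat_lit 3875469415) (nat_lit 76) (nat_lit 30951539471) (nat_lit 17) (nat_lit 5) (nat_lit 20) (nat_lit 5) (nat_lit 18) (nat_lit 4) (nat_lit 389) (nat_lit 270) (nat_lit 121)) (XT.lf (nat_lit 0) (nat_lit 11709993302) (nat_lit 76) (nat_lit 22610127818) (nat_lit 152) (nat_lit 28722377399) (nat_lit 16)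 (nat_lit 5) (nat_lit 17) (nat_lit 5) (nat_lit 18) (nat_lit 4) (nat_lit 390) (nat_lit 270) (nat_lit 120))) (XT.nd (nat_lit 78) (nat_lit 0) (nat_lit 0) (XT.lf (nat_lit 0) (nat_lit 27831660816) (nat_lit 76) (nat_lit 14440157325) (nat_lit 152) (nat_lit 22400407688) (nat_lit 16) (nat_lit 5) (nat_lit 17) (nat_lit 5) (nat_lit 18) (nat_lit 4) (nat_lit 391) (nat_lit 270) (nat_lit 119)) (XT.lf (nat_lit 0) (nat_lit 44426490578) (nat_lit 76) (nat_lit 6029818497) (nat_lit 152) (nat_lit 15894710346) (nat_lit 16) (nat_lit 5) (nat_lit 17) (nat_lit 5) (nat_lit 18) (nat_lit 4) (nat_lit 392) (nat_lit 270) (nat_lit 118))))) (XT.nd (nat_lit 234) (nat_lit 76) (nat_lit 0) (XT.nd (nat_lit 78) (nat_lit 152) (nat_lit 0) (XT.lf (nat_lit 0) (nat_lit 58906009647) (nat_lit 152) (nat_lit 6596627502) (nat_lit 0) (nat_lit 2576951126) (nat_lit 16) (nat_lit 5) (nat_lit 18) (nat_lit 4) (nat_lit 16) (nat_lit 4) (nat_lit 393) (nat_lit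 270) (nat_lit 117)) (XT.nd (nat_lit 78) (nat_lit 76) (nat_lit 0) (XT.lf (nat_lit 0) (nat_lit 9302936181) (nat_lit 76) (nat_lit 58449922354) (nat_lit 76) (nat_lit 2102847592) (nat_lit 15) (nat_lit 4) (nat_lit 16) (nat_lit 5) (nat_lit 16) (nat_lit 4) (nat_lit 394) (nat_lit 270) (nat_lit 116)) (XT.lf (nat_lit 0) (nat_lit 5140736923) (nat_lit 152) (nat_lit 45928870305) (nat_lit 76) (nat_lit 20612153679) (nat_lit 14) (nat_lit 5) (nat_lit 16) (nat_lit 5) (nat_lit 15) (nat_lit 4) (nat_lit 395) (nat_lit 270) (nat_lit 115)))) (XT.nd (nat_lit 156) (nat_lit 76) (nat_lit 0) (XT.nd (nat_lit 78) (nat_lit 0) (nat_lit 0) (XT.lf (nat_lit 0) (nat_lit 12554062432) (nat_lit 152) (nat_lit 30896801556) (nat_lit 76) (nat_lit 30111269286) (nat_lit 14) (nat_lit 5) (nat_lit 16) (nat_lit 5) (nat_lit 15) (nat_lit 4) (nat_lit 396) (nat_lit 270) (nat_lit 114)) (XT.lf (nat_lit 0) (nat_lit 20184640730) (nat_lit 152) (nat_lit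 15423215024) (nat_lit 76) (nat_lit 39891216935) (nat_lit 14) (nat_lit 5) (nat_lit 16) (nat_lit 5) (nat_lit 15) (nat_lit 4) (nat_lit 397) (nat_lit 270) (nat_lit 113))) (XT.nd (nat_lit 78) (nat_lit 0) (nat_lit 0) (XT.lf (nat_lit 0) (nat_lit 515468546) (nat_lit 76) (nat_lit 27528625765) (nat_lit 152) (nat_lit 49450028664) (nat_lit 13) (nat_lit 5) (nat_lit 14) (nat_lit 5) (nat_lit 15) (nat_lit 4) (nat_lit 398) (nat_lit 270) (nat_lit 112)) (XT.lf (nat_lit 0) (nat_lit 17239394102) (nat_lit 76) (nat_lit 19050742831) (nat_lit 152) (nat_lit 43254365055) (nat_lit 13) (nat_lit 5) (nat_lit 14) (nat_lit 5) (nat_lit 15) (nat_lit 4) (nat_lit 399) (nat_lit 270) (nat_lit 111)))))) (XT.nd (nat_lit 546) (nat_lit 76) (nat_lit 0) (XT.nd (nat_lit 234) (nat_lit 152) (nat_lit 0) (XT.nd (nat_lit 78) (nat_lit 0) (nat_lit 0) (XT.lf (nat_lit 0) (nat_lit 34456222560) (nat_lit 76) (nat_lit 10322543327) (nat_lit 152) (nat_lit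 36877771676) (nat_lit 13) (nat_lit 5) (nat_lit 14) (nat_lit 5) (nat_lit 15) (nat_lit 4) (nat_lit 400) (nat_lit 270) (nat_lit 110)) (XT.nd (nat_lit 78) (nat_lit 0) (nat_lit 0) (XT.lf (nat_lit 0) (nat_lit 52180997752) (nat_lit 76) (nat_lit 1336400670) (nat_lit 152) (nat_lit 30314676747) (nat_lit 13) (nat_lit 5) (nat_lit 14) (nat_lit 5) (nat_lit 15) (nat_lit 4) (nat_lit 401) (nat_lit 270) (nat_lit 109)) (XT.lf (nat_lit 0) (nat_lit 62589759221) (nat_lit 152) (nat_lit 15719897399) (nat_lit 0) (nat_lit 7761076470) (nat_lit 13) (nat_lit 5) (nat_lit 15) (nat_lit 4) (nat_lit 13) (nat_lit 4) (nat_lit 402) (nat_lit 270) (nat_lit 108)))) (XT.nd (nat_lit 156) (nat_lit 76) (nat_lit 0) (XT.nd (nat_lit 78) (nat_lit 0) (nat_lit 0) (XT.lf (nat_lit 0) (nat_lit 681112938) (nat_lit 76) (nat_lit 71268533450) (nat_lit 76) (nat_lit 16426444923) (nat_lit 12) (nat_lit 4) (nat_lit 13) (nat_lit 5) (nat_lit 13) (nat_lit 4)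 (nat_lit 403) (nat_lit 270) (nat_lit 107)) (XT.lf (nat_lit 0) (nat_lit 17888311757) (nat_lit 76) (nat_lit 63856386261) (nat_lit 76) (nat_lit 9001282418) (nat_lit 12) (nat_lit 4) (nat_lit 13) (nat_lit 5) (nat_lit 13) (nat_lit 4) (nat_lit 404) (nat_lit 270) (nat_lit 106))) (XT.nd (nat_lit 78) (nat_lit 76) (nat_lit 0) (XT.lf (nat_lit 0) (nat_lit 35603877692) (nat_lit 76) (nat_lit 56225478561) (nat_lit 76) (nat_lit 1357738489) (nat_lit 12) (nat_lit 4) (nat_lit 13) (nat_lit 5) (nat_lit 13) (nat_lit 4) (nat_lit 405) (nat_lit 270) (nat_lit 105)) (XT.lf (nat_lit 0) (nat_lit 6383815248) (nat_lit 152) (nat_lit 41920863302) (nat_lit 76) (nat_lit 47395011098) (nat_lit 11) (nat_lit 5) (nat_lit 13) (nat_lit 5) (nat_lit 12) (nat_lit 4) (nat_lit 406) (nat_lit 270) (nat_lit 104))))) (XT.nd (nat_lit 234) (nat_lit 0) (nat_lit 0) (XT.nd (nat_lit 78) (nat_lit 76) (nat_lit 0) (XT.lf (nat_lit 0) (nat_lit 14326284444)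 (nat_lit 152) (nat_lit 25809561693) (nat_lit 76) (nat_lit 58151535296) (nat_lit 11) (nat_lit 5) (nat_lit 13) (nat_lit 5) (nat_lit 12) (nat_lit 4) (nat_lit 407) (nat_lit 270) (nat_lit 103)) (XT.nd (nat_lit 78) (nat_lit 76) (nat_lit 0) (XT.lf (nat_lit 0) (nat_lit 22503103488) (nat_lit 152) (nat_lit 9222182972) (nat_lit 76) (nat_lit 69227536265) (nat_lit 11) (nat_lit 5) (nat_lit 13) (nat_lit 5) (nat_lit 12) (nat_lit 4) (nat_lit 408) (nat_lit 270) (nat_lit 102)) (XT.lf (nat_lit 0) (nat_lit 8012111844) (nat_lit 76) (nat_lit 22986322650) (nat_lit 152) (nat_lit 72697597540) (nat_lit 10) (nat_lit 5) (nat_lit 11) (nat_lit 5) (nat_lit 12) (nat_lit 4) (nat_lit 409) (nat_lit 270) (nat_lit 101)))) (XT.nd (nat_lit 29874) (nat_lit 0) (nat_lit 19988) (XT.nd (nat_lit 29796) (nat_lit 0) (nat_lit 20672) (XT.lf (nat_lit 0) (nat_lit 25945499913) (nat_lit 76) (nat_lit 13892485415) (nat_lit 152) (nat_lit 66680872469)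 (nat_lit 10) (nat_lit 5) (nat_lit 11) (nat_lit 5) (nat_lit 12) (nat_lit 4) (nat_lit 410) (nat_lit 270) (nat_lit 100)) (XT.lf (nat_lit 0) (nat_lit 2961203944) (nat_lit 684) (nat_lit 261388431) (nat_lit 684) (nat_lit 261388431) (nat_lit 282) (nat_lit 3) (nat_lit 291) (nat_lit 3) (nat_lit 291) (nat_lit 5) (nat_lit 271) (nat_lit 271) (nat_lit 238))) (XT.nd (nat_lit 78) (nat_lit 0) (nat_lit 0) (XT.lf (nat_lit 0) (nat_lit 737362042) (nat_lit 684) (nat_lit 4274468463) (nat_lit 760) (nat_lit 2004887057) (nat_lit 273) (nat_lit 5) (nat_lit 282) (nat_lit 3) (nat_lit 283) (nat_lit 5) (nat_lit 272) (nat_lit 271) (nat_lit 237)) (XT.lf (nat_lit 0) (nat_lit 2489392582) (nat_lit 684) (nat_lit 998259437) (nat_lit 760) (nat_lit 3580981003) (nat_lit 273) (nat_lit 5) (nat_lit 282) (nat_lit 3) (nat_lit 283) (nat_lit 5) (nat_lit 273) (nat_lit 271) (nat_lit 236))))))))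
noncomputable def xc132 : XT := (XT.nd (nat_lit 2106) (nat_lit 6308) (nat_lit 0) (XT.nd (nat_lit 1014) (nat_lit 6080) (nat_lit 0) (XT.nd (nat_lit 468) (nat_lit 1596) (nat_lit 0) (XT.nd (nat_lit 234) (nat_lit 0) (nat_lit 0) (XT.nd (nat_lit 78) (nat_lit 684) (nat_lit 0) (XT.lf (nat_lit 76) (nat_lit 2386870957) (nat_lit 0) (nat_lit 1863368410) (nat_lit 760) (nat_lit 2873282467) (nat_lit 274) (nat_lit 5) (nat_lit 273) (nat_lit 5) (nat_lit 283) (nat_lit 5) (nat_lit 274) (nat_lit 271) (nat_lit 235)) (XT.nd (nat_lit 78) (nat_lit 684) (nat_lit 0) (XT.lf (nat_lit 76) (nat_lit 5858429621) (nat_lit 0) (nat_lit 150473952) (nat_lit 760) (nat_lit 1172904510) (nat_lit 274) (nat_lit 5) (nat_lit 273) (nat_lit 5) (nat_lit 283) (nat_lit 5) (nat_lit 275) (nat_lit 271) (nat_lit 234)) (XT.lf (nat_lit 0) (nat_lit 540414663) (nat_lit 760) (nat_lit 5065483957) (nat_lit 836) (nat_lit 1636675690) (nat_lit 264) (nat_lit 5)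 (nat_lit 274) (nat_lit 5) (nat_lit 275) (nat_lit 5) (nat_lit 276) (nat_lit 271) (nat_lit 233)))) (XT.nd (nat_lit 78) (nat_lit 0) (nat_lit 0) (XT.lf (nat_lit 0) (nat_lit 2234408399) (nat_lit 760) (nat_lit 1546085241) (nat_lit 836) (nat_lit 3525828019) (nat_lit 264) (nat_lit 5) (nat_lit 274) (nat_lit 5) (nat_lit 275) (nat_lit 5) (nat_lit 277) (nat_lit 271) (nat_lit 232)) (XT.nd (nat_lit 78) (nat_lit 0) (nat_lit 76) (XT.lf (nat_lit 76) (nat_lit 2082851260) (nat_lit 0) (nat_lit 1856065655) (nat_lit 836) (nat_lit 3434362987) (nat_lit 265) (nat_lit 5) (nat_lit 264) (nat_lit 5) (nat_lit 275) (nat_lit 5) (nat_lit 278) (nat_lit 271) (nat_lit 231)) (XT.lf (nat_lit 0) (nat_lit 5652838155) (nat_lit 760) (nat_lit 1629195967) (nat_lit 836) (nat_lit 161551164) (nat_lit 265) (nat_lit 5) (nat_lit 275) (nat_lit 5) (nat_lit 276) (nat_lit 5) (nat_lit 279) (nat_lit 271) (nat_lit 230))))) (XT.nd (nat_lit 234) (nat_lit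 836) (nat_lit 0) (XT.nd (nat_lit 78) (nat_lit 836) (nat_lit 0) (XT.lf (nat_lit 76) (nat_lit 2127735164) (nat_lit 0) (nat_lit 5272279959) (nat_lit 836) (nat_lit 116613760) (nat_lit 266) (nat_lit 5) (nat_lit 265) (nat_lit 5) (nat_lit 276) (nat_lit 5) (nat_lit 280) (nat_lit 271) (nat_lit 229)) (XT.nd (nat_lit 78) (nat_lit 0) (nat_lit 0) (XT.lf (nat_lit 0) (nat_lit 1536667028) (nat_lit 836) (nat_lit 1614332702) (nat_lit 912) (nat_lit 4441670890) (nat_lit 254) (nat_lit 5) (nat_lit 265) (nat_lit 5) (nat_lit 266) (nat_lit 5) (nat_lit 281) (nat_lit 271) (nat_lit 228)) (XT.lf (nat_lit 76) (nat_lit 2279791563) (nat_lit 0) (nat_lit 924647658) (nat_lit 912) (nat_lit 4467579696) (nat_lit 255) (nat_lit 5) (nat_lit 254) (nat_lit 5) (nat_lit 266) (nat_lit 5) (nat_lit 282) (nat_lit 271) (nat_lit 227)))) (XT.nd (nat_lit 156) (nat_lit 912) (nat_lit 0) (XT.nd (nat_lit 78) (nat_lit 0) (nat_lit 0) (XT.lf (nat_lit 0)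 (nat_lit 4898586203) (nat_lit 836) (nat_lit 1481225537) (nat_lit 912) (nat_lit 1374720479) (nat_lit 255) (nat_lit 5) (nat_lit 266) (nat_lit 5) (nat_lit 267) (nat_lit 5) (nat_lit 283) (nat_lit 271) (nat_lit 226)) (XT.lf (nat_lit 76) (nat_lit 2550356392) (nat_lit 0) (nat_lit 4075147262) (nat_lit 912) (nat_lit 1214631509) (nat_lit 256) (nat_lit 5) (nat_lit 255) (nat_lit 5) (nat_lit 267) (nat_lit 5) (nat_lit 284) (nat_lit 271) (nat_lit 225))) (XT.nd (nat_lit 78) (nat_lit 0) (nat_lit 76) (XT.lf (nat_lit 0) (nat_lit 430597639) (nat_lit 912) (nat_lit 1237412647) (nat_lit 988) (nat_lit 6261308257) (nat_lit 243) (nat_lit 5) (nat_lit 255) (nat_lit 5) (nat_lit 256) (nat_lit 5) (nat_lit 285) (nat_lit 271) (nat_lit 224)) (XT.lf (nat_lit 0) (nat_lit 2087746427) (nat_lit 912) (nat_lit 5084850474) (nat_lit 76) (nat_lit 848676934) (nat_lit 244) (nat_lit 5) (nat_lit 256) (nat_lit 5) (nat_lit 245) (nat_lit 5) (nat_lit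 286) (nat_lit 271) (nat_lit 223)))))) (XT.nd (nat_lit 546) (nat_lit 1976) (nat_lit 0) (XT.nd (nat_lit 234) (nat_lit 3268) (nat_lit 0) (XT.nd (nat_lit 78) (nat_lit 912) (nat_lit 0) (XT.lf (nat_lit 0) (nat_lit 3775299179) (nat_lit 912) (nat_lit 909657596) (nat_lit 76) (nat_lit 3431674853) (nat_lit 244) (nat_lit 5) (nat_lit 256) (nat_lit 5) (nat_lit 245) (nat_lit 5) (nat_lit 287) (nat_lit 271) (nat_lit 222)) (XT.nd (nat_lit 78) (nat_lit 0) (nat_lit 0) (XT.lf (nat_lit 0) (nat_lit 3420403220) (nat_lit 912) (nat_lit 2078920699) (nat_lit 988) (nat_lit 2716013522) (nat_lit 232) (nat_lit 5) (nat_lit 244) (nat_lit 5) (nat_lit 245) (nat_lit 5) (nat_lit 288) (nat_lit 271) (nat_lit 221)) (XT.lf (nat_lit 0) (nat_lit 7244236363) (nat_lit 988) (nat_lit 461923769) (nat_lit 76) (nat_lit 611830110) (nat_lit 232) (nat_lit 5) (nat_lit 245) (nat_lit 5) (nat_lit 233) (nat_lit 5) (nat_lit 289) (nat_lit 271) (nat_lit 220))))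 (XT.nd (nat_lit 156) (nat_lit 1140) (nat_lit 0) (XT.nd (nat_lit 78) (nat_lit 1064) (nat_lit 0) (XT.lf (nat_lit 0) (nat_lit 620458515) (nat_lit 1064) (nat_lit 4407634731) (nat_lit 76) (nat_lit 3395066362) (nat_lit 218) (nat_lit 5) (nat_lit 232) (nat_lit 5) (nat_lit 219) (nat_lit 5) (nat_lit 290) (nat_lit 271) (nat_lit 219)) (XT.lf (nat_lit 0) (nat_lit 58126266) (nat_lit 1064) (nat_lit 2246925053) (nat_lit 1140) (nat_lit 6227335397) (nat_lit 204) (nat_lit 5) (nat_lit 218) (nat_lit 5) (nat_lit 219) (nat_lit 5) (nat_lit 291) (nat_lit 271) (nat_lit 218))) (XT.nd (nat_lit 78) (nat_lit 1140) (nat_lit 0) (XT.lf (nat_lit 0) (nat_lit 4047916644) (nat_lit 1140) (nat_lit 3940509856) (nat_lit 76) (nat_lit 656286136) (nat_lit 204) (nat_lit 5) (nat_lit 219) (nat_lit 5) (nat_lit 205) (nat_lit 5) (nat_lit 292) (nat_lit 271) (nat_lit 217)) (XT.lf (nat_lit 0) (nat_lit 682668989) (nat_lit 1140) (nat_lit 5147312895)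 (nat_lit 1216) (nat_lit 2930871498) (nat_lit 189) (nat_lit 5) (nat_lit 204) (nat_lit 5) (nat_lit 205) (nat_lit 5) (nat_lit 293) (nat_lit 271) (nat_lit 216))))) (XT.nd (nat_lit 234) (nat_lit 1216) (nat_lit 0) (XT.nd (nat_lit 78) (nat_lit 760) (nat_lit 0) (XT.lf (nat_lit 0) (nat_lit 5488030179) (nat_lit 1140) (nat_lit 2176237061) (nat_lit 1216) (nat_lit 1216299304) (nat_lit 189) (nat_lit 5) (nat_lit 204) (nat_lit 5) (nat_lit 205) (nat_lit 5) (nat_lit 294) (nat_lit 271) (nat_lit 215)) (XT.nd (nat_lit 78) (nat_lit 0) (nat_lit 0) (XT.lf (nat_lit 0) (nat_lit 521058481) (nat_lit 760) (nat_lit 7594241245) (nat_lit 76) (nat_lit 888998606) (nat_lit 179) (nat_lit 5) (nat_lit 189) (nat_lit 5) (nat_lit 180) (nat_lit 5) (nat_lit 295) (nat_lit 271) (nat_lit 214)) (XT.lf (nat_lit 0) (nat_lit 2302800777) (nat_lit 760) (nat_lit 2776317966) (nat_lit 76) (nat_lit 4051807366) (nat_lit 179) (nat_lit 5) (nat_lit 189)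 (nat_lit 5) (nat_lit 180) (nat_lit 5) (nat_lit 296) (nat_lit 271) (nat_lit 213)))) (XT.nd (nat_lit 156) (nat_lit 608) (nat_lit 0) (XT.nd (nat_lit 78) (nat_lit 0) (nat_lit 0) (XT.lf (nat_lit 0) (nat_lit 2192076586) (nat_lit 608) (nat_lit 1928705029) (nat_lit 684) (nat_lit 5141132773) (nat_lit 171) (nat_lit 5) (nat_lit 179) (nat_lit 5) (nat_lit 180) (nat_lit 5) (nat_lit 297) (nat_lit 271) (nat_lit 212)) (XT.lf (nat_lit 0) (nat_lit 5996756271) (nat_lit 684) (nat_lit 2080146492) (nat_lit 76) (nat_lit 1319869859) (nat_lit 171) (nat_lit 5) (nat_lit 180) (nat_lit 5) (nat_lit 172) (nat_lit 5) (nat_lit 298) (nat_lit 271) (nat_lit 211))) (XT.nd (nat_lit 78) (nat_lit 76) (nat_lit 0) (XT.lf (nat_lit 0) (nat_lit 3063353311) (nat_lit 532) (nat_lit 4877781445) (nat_lit 608) (nat_lit 1594220770) (nat_lit 164) (nat_lit 5) (nat_lit 171) (nat_lit 5) (nat_lit 172) (nat_lit 5) (nat_lit 299) (nat_lit 271) (nat_lit 210))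 (XT.lf (nat_lit 0) (nat_lit 245676589) (nat_lit 608) (nat_lit 1313392613) (nat_lit 76) (nat_lit 8119436882) (nat_lit 163) (nat_lit 5) (nat_lit 171) (nat_lit 5) (nat_lit 164) (nat_lit 5) (nat_lit 300) (nat_lit 271) (nat_lit 209))))))) (XT.nd (nat_lit 1092) (nat_lit 2508) (nat_lit 0) (XT.nd (nat_lit 546) (nat_lit 1748) (nat_lit 0) (XT.nd (nat_lit 234) (nat_lit 1064) (nat_lit 0) (XT.nd (nat_lit 78) (nat_lit 456) (nat_lit 0) (XT.lf (nat_lit 0) (nat_lit 2130792462) (nat_lit 608) (nat_lit 5816927045) (nat_lit 76) (nat_lit 1877135247) (nat_lit 156) (nat_lit 5) (nat_lit 164) (nat_lit 5) (nat_lit 157) (nat_lit 5) (nat_lit 301) (nat_lit 271) (nat_lit 208)) (XT.nd (nat_lit 78) (nat_lit 456) (nat_lit 0) (XT.lf (nat_lit 0) (nat_lit 4066911875) (nat_lit 608) (nat_lit 511545489) (nat_lit 76) (nat_lit 5397340918) (nat_lit 156) (nat_lit 5) (nat_lit 164) (nat_lit 5) (nat_lit 157) (nat_lit 5) (nat_lit 302) (nat_lit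 271) (nat_lit 207)) (XT.lf (nat_lit 0) (nat_lit 5015337880) (nat_lit 456) (nat_lit 1060608586) (nat_lit 532) (nat_lit 4054915503) (nat_lit 150) (nat_lit 5) (nat_lit 156) (nat_lit 5) (nat_lit 157) (nat_lit 5) (nat_lit 303) (nat_lit 271) (nat_lit 206)))) (XT.nd (nat_lit 156) (nat_lit 532) (nat_lit 0) (XT.nd (nat_lit 78) (nat_lit 0) (nat_lit 0) (XT.lf (nat_lit 0) (nat_lit 374540542) (nat_lit 532) (nat_lit 7771395330) (nat_lit 608) (nat_lit 2144656907) (nat_lit 143) (nat_lit 5) (nat_lit 150) (nat_lit 5) (nat_lit 151) (nat_lit 5) (nat_lit 304) (nat_lit 271) (nat_lit 205)) (XT.lf (nat_lit 0) (nat_lit 6087641600) (nat_lit 532) (nat_lit 4220280097) (nat_lit 608) (nat_lit 146331601) (nat_lit 143) (nat_lit 5) (nat_lit 150) (nat_lit 5) (nat_lit 151) (nat_lit 5) (nat_lit 305) (nat_lit 271) (nat_lit 204))) (XT.nd (nat_lit 78) (nat_lit 0) (nat_lit 0) (XT.lf (nat_lit 0) (nat_lit 1321279931) (nat_lit 456) (nat_lit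 534491933) (nat_lit 532) (nat_lit 8767098982) (nat_lit 136) (nat_lit 5) (nat_lit 142) (nat_lit 5) (nat_lit 143) (nat_lit 5) (nat_lit 306) (nat_lit 271) (nat_lit 203)) (XT.lf (nat_lit 0) (nat_lit 3959862101) (nat_lit 532) (nat_lit 3595155599) (nat_lit 76) (nat_lit 3240171555) (nat_lit 136) (nat_lit 5) (nat_lit 143) (nat_lit 5) (nat_lit 137) (nat_lit 5) (nat_lit 307) (nat_lit 271) (nat_lit 202))))) (XT.nd (nat_lit 234) (nat_lit 912) (nat_lit 0) (XT.nd (nat_lit 78) (nat_lit 380) (nat_lit 0) (XT.lf (nat_lit 0) (nat_lit 2286843603) (nat_lit 456) (nat_lit 3837388412) (nat_lit 532) (nat_lit 4848561310) (nat_lit 130) (nat_lit 5) (nat_lit 136) (nat_lit 5) (nat_lit 137) (nat_lit 5) (nat_lit 308) (nat_lit 271) (nat_lit 201)) (XT.nd (nat_lit 78) (nat_lit 380) (nat_lit 0) (XT.lf (nat_lit 0) (nat_lit 8360495743) (nat_lit 532) (nat_lit 2771404360) (nat_lit 76) (nat_lit 23646455) (nat_lit 130) (nat_lit 5) (nat_lit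 137) (nat_lit 5) (nat_lit 131) (nat_lit 5) (nat_lit 309) (nat_lit 271) (nat_lit 200)) (XT.lf (nat_lit 0) (nat_lit 3312773603) (nat_lit 380) (nat_lit 7392153256) (nat_lit 456) (nat_lit 637652193) (nat_lit 125) (nat_lit 5) (nat_lit 130) (nat_lit 5) (nat_lit 131) (nat_lit 5) (nat_lit 310) (nat_lit 271) (nat_lit 199)))) (XT.nd (nat_lit 156) (nat_lit 380) (nat_lit 0) (XT.nd (nat_lit 78) (nat_lit 456) (nat_lit 0) (XT.lf (nat_lit 0) (nat_lit 1553256010) (nat_lit 456) (nat_lit 1948314825) (nat_lit 76) (nat_lit 8033230953) (nat_lit 124) (nat_lit 5) (nat_lit 130) (nat_lit 5) (nat_lit 125) (nat_lit 5) (nat_lit 311) (nat_lit 271) (nat_lit 198)) (XT.lf (nat_lit 0) (nat_lit 3816549671) (nat_lit 532) (nat_lit 7376784852) (nat_lit 76) (nat_lit 538709633) (nat_lit 118) (nat_lit 5) (nat_lit 125) (nat_lit 5) (nat_lit 119) (nat_lit 5) (nat_lit 312) (nat_lit 271) (nat_lit 197))) (XT.nd (nat_lit 78) (nat_lit 380) (nat_lit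 0) (XT.lf (nat_lit 0) (nat_lit 6174983121) (nat_lit 532) (nat_lit 1115752645) (nat_lit 76) (nat_lit 4643676611) (nat_lit 118) (nat_lit 5) (nat_lit 125) (nat_lit 5) (nat_lit 119) (nat_lit 5) (nat_lit 313) (nat_lit 271) (nat_lit 196)) (XT.lf (nat_lit 0) (nat_lit 5405430267) (nat_lit 380) (nat_lit 3224197673) (nat_lit 456) (nat_lit 3512485011) (nat_lit 113) (nat_lit 5) (nat_lit 118) (nat_lit 5) (nat_lit 119) (nat_lit 5) (nat_lit 314) (nat_lit 271) (nat_lit 195)))))) (XT.nd (nat_lit 546) (nat_lit 988) (nat_lit 0) (XT.nd (nat_lit 234) (nat_lit 760) (nat_lit 0) (XT.nd (nat_lit 78) (nat_lit 760) (nat_lit 0) (XT.lf (nat_lit 0) (nat_lit 11152449446) (nat_lit 456) (nat_lit 253542398) (nat_lit 76) (nat_lit 950240907) (nat_lit 113) (nat_lit 5) (nat_lit 119) (nat_lit 5) (nat_lit 114) (nat_lit 5) (nat_lit 315) (nat_lit 271) (nat_lit 194)) (XT.nd (nat_lit 78) (nat_lit 304) (nat_lit 0) (XT.lf (nat_lit 0) (nat_lit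 1220847298) (nat_lit 456) (nat_lit 6100561023) (nat_lit 76) (nat_lit 5252964737) (nat_lit 107) (nat_lit 5) (nat_lit 113) (nat_lit 5) (nat_lit 108) (nat_lit 5) (nat_lit 316) (nat_lit 271) (nat_lit 193)) (XT.lf (nat_lit 0) (nat_lit 575692390) (nat_lit 304) (nat_lit 3101257557) (nat_lit 380) (nat_lit 9122284493) (nat_lit 103) (nat_lit 5) (nat_lit 107) (nat_lit 5) (nat_lit 108) (nat_lit 5) (nat_lit 317) (nat_lit 271) (nat_lit 192)))) (XT.nd (nat_lit 156) (nat_lit 380) (nat_lit 0) (XT.nd (nat_lit 78) (nat_lit 380) (nat_lit 0) (XT.lf (nat_lit 0) (nat_lit 6256077660) (nat_lit 380) (nat_lit 5497457230) (nat_lit 76) (nat_lit 1275848130) (nat_lit 103) (nat_lit 5) (nat_lit 108) (nat_lit 5) (nat_lit 104) (nat_lit 5) (nat_lit 318) (nat_lit 271) (nat_lit 191)) (XT.lf (nat_lit 0) (nat_lit 1394716499) (nat_lit 380) (nat_lit 7537854564) (nat_lit 456) (nat_lit 4333286225) (nat_lit 98) (nat_lit 5) (nat_lit 103) (nat_lit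 5) (nat_lit 104) (nat_lit 5) (nat_lit 319) (nat_lit 271) (nat_lit 190))) (XT.nd (nat_lit 78) (nat_lit 380) (nat_lit 0) (XT.lf (nat_lit 0) (nat_lit 8574459593) (nat_lit 380) (nat_lit 3146688695) (nat_lit 456) (nat_lit 1787344200) (nat_lit 98) (nat_lit 5) (nat_lit 103) (nat_lit 5) (nat_lit 104) (nat_lit 5) (nat_lit 320) (nat_lit 271) (nat_lit 189)) (XT.lf (nat_lit 0) (nat_lit 830133918) (nat_lit 380) (nat_lit 11556744333) (nat_lit 76) (nat_lit 1370963370) (nat_lit 93) (nat_lit 5) (nat_lit 98) (nat_lit 5) (nat_lit 94) (nat_lit 5) (nat_lit 321) (nat_lit 271) (nat_lit 188))))) (XT.nd (nat_lit 234) (nat_lit 684) (nat_lit 0) (XT.nd (nat_lit 78) (nat_lit 304) (nat_lit 0) (XT.lf (nat_lit 0) (nat_lit 3548703948) (nat_lit 380) (nat_lit 4442857824) (nat_lit 76) (nat_lit 6020842467) (nat_lit 93) (nat_lit 5) (nat_lit 98) (nat_lit 5) (nat_lit 94) (nat_lit 5) (nat_lit 322) (nat_lit 271) (nat_lit 187)) (XT.nd (nat_lit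 78) (nat_lit 0) (nat_lit 0) (XT.lf (nat_lit 0) (nat_lit 2910402358) (nat_lit 304) (nat_lit 3444093363) (nat_lit 380) (nat_lit 7919956178) (nat_lit 89) (nat_lit 5) (nat_lit 93) (nat_lit 5) (nat_lit 94) (nat_lit 5) (nat_lit 323) (nat_lit 271) (nat_lit 186)) (XT.lf (nat_lit 0) (nat_lit 9279649289) (nat_lit 380) (nat_lit 4011169230) (nat_lit 76) (nat_lit 1252504403) (nat_lit 89) (nat_lit 5) (nat_lit 94) (nat_lit 5) (nat_lit 90) (nat_lit 5) (nat_lit 324) (nat_lit 271) (nat_lit 185)))) (XT.nd (nat_lit 156) (nat_lit 304) (nat_lit 0) (XT.nd (nat_lit 78) (nat_lit 76) (nat_lit 0) (XT.lf (nat_lit 0) (nat_lit 3567593933) (nat_lit 304) (nat_lit 8771961227) (nat_lit 380) (nat_lit 2479312049) (nat_lit 85) (nat_lit 5) (nat_lit 89) (nat_lit 5) (nat_lit 90) (nat_lit 5) (nat_lit 325) (nat_lit 271) (nat_lit 184)) (XT.lf (nat_lit 0) (nat_lit 400618406) (nat_lit 380) (nat_lit 3680017615) (nat_lit 76) (nat_lit 11021357210)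 (nat_lit 84) (nat_lit 5) (nat_lit 89) (nat_lit 5) (nat_lit 85) (nat_lit 5) (nat_lit 326) (nat_lit 271) (nat_lit 183))) (XT.nd (nat_lit 78) (nat_lit 0) (nat_lit 0) (XT.lf (nat_lit 0) (nat_lit 3344072256) (nat_lit 380) (nat_lit 11254855521) (nat_lit 76) (nat_lit 793155728) (nat_lit 80) (nat_lit 5) (nat_lit 85) (nat_lit 5) (nat_lit 81) (nat_lit 5) (nat_lit 327) (nat_lit 271) (nat_lit 182)) (XT.lf (nat_lit 0) (nat_lit 6433331832) (nat_lit 380) (nat_lit 3495834932) (nat_lit 76) (nat_lit 5759999819) (nat_lit 80) (nat_lit 5) (nat_lit 85) (nat_lit 5) (nat_lit 81) (nat_lit 5) (nat_lit 328) (nat_lit 271) (nat_lit 181))))))))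
noncomputable def xc133 : XT := (XT.nd (nat_lit 2184) (nat_lit 1520) (nat_lit 0) (XT.nd (nat_lit 1092) (nat_lit 1216) (nat_lit 0) (XT.nd (nat_lit 546) (nat_lit 760) (nat_lit 0) (XT.nd (nat_lit 234) (nat_lit 532) (nat_lit 0) (XT.nd (nat_lit 78) (nat_lit 304) (nat_lit 0) (XT.lf (nat_lit 0) (nat_lit 4555995382) (nat_lit 228) (nat_lit 5083234731) (nat_lit 304) (nat_lit 6355227933) (nat_lit 77) (nat_lit 5) (nat_lit 80) (nat_lit 5) (nat_lit 81) (nat_lit 5) (nat_lit 329) (nat_lit 271) (nat_lit 180)) (XT.nd (nat_lit 78) (nat_lit 304) (nat_lit 0) (XT.lf (nat_lit 0) (nat_lit 12892460012) (nat_lit 228) (nat_lit 64615259) (nat_lit 304) (nat_lit 3351374175) (nat_lit 77) (nat_lit 5) (nat_lit 80) (nat_lit 5) (nat_lit 81) (nat_lit 5) (nat_lit 330) (nat_lit 271) (nat_lit 179)) (XT.lf (nat_lit 0) (nat_lit 4864771445) (nat_lit 304) (nat_lit 11586468929) (nat_lit 380) (nat_lit 178330549) (nat_lit 73) (nat_lit 5) (nat_lit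 77) (nat_lit 5) (nat_lit 78) (nat_lit 5) (nat_lit 331) (nat_lit 271) (nat_lit 178)))) (XT.nd (nat_lit 156) (nat_lit 228) (nat_lit 0) (XT.nd (nat_lit 78) (nat_lit 228) (nat_lit 0) (XT.lf (nat_lit 0) (nat_lit 3046125487) (nat_lit 380) (nat_lit 3554356013) (nat_lit 76) (nat_lit 10358471074) (nat_lit 72) (nat_lit 5) (nat_lit 77) (nat_lit 5) (nat_lit 73) (nat_lit 5) (nat_lit 332) (nat_lit 271) (nat_lit 177)) (XT.lf (nat_lit 0) (nat_lit 4970084346) (nat_lit 228) (nat_lit 1423014492) (nat_lit 304) (nat_lit 10904195525) (nat_lit 69) (nat_lit 5) (nat_lit 72) (nat_lit 5) (nat_lit 73) (nat_lit 5) (nat_lit 333) (nat_lit 271) (nat_lit 176))) (XT.nd (nat_lit 78) (nat_lit 228) (nat_lit 0) (XT.lf (nat_lit 0) (nat_lit 9896090634) (nat_lit 304) (nat_lit 3887263060) (nat_lit 76) (nat_lit 3860776762) (nat_lit 69) (nat_lit 5) (nat_lit 73) (nat_lit 5) (nat_lit 70) (nat_lit 5) (nat_lit 334) (nat_lit 271) (nat_lit 175))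 (XT.lf (nat_lit 0) (nat_lit 4859697417) (nat_lit 228) (nat_lit 8687587809) (nat_lit 304) (nat_lit 4452804983) (nat_lit 66) (nat_lit 5) (nat_lit 69) (nat_lit 5) (nat_lit 70) (nat_lit 5) (nat_lit 335) (nat_lit 271) (nat_lit 174))))) (XT.nd (nat_lit 234) (nat_lit 456) (nat_lit 0) (XT.nd (nat_lit 78) (nat_lit 304) (nat_lit 0) (XT.lf (nat_lit 0) (nat_lit 13922089932) (nat_lit 228) (nat_lit 3407747834) (nat_lit 304) (nat_lit 1036247945) (nat_lit 66) (nat_lit 5) (nat_lit 69) (nat_lit 5) (nat_lit 70) (nat_lit 5) (nat_lit 336) (nat_lit 271) (nat_lit 173)) (XT.nd (nat_lit 78) (nat_lit 0) (nat_lit 0) (XT.lf (nat_lit 0) (nat_lit 2481111574) (nat_lit 304) (nat_lit 14209639927) (nat_lit 76) (nat_lit 2050201914) (nat_lit 62) (nat_lit 5) (nat_lit 66) (nat_lit 5) (nat_lit 63) (nat_lit 5) (nat_lit 337) (nat_lit 271) (nat_lit 172)) (XT.lf (nat_lit 0) (nat_lit 6145282508) (nat_lit 304) (nat_lit 5329593505) (nat_lit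 76) (nat_lit 7650030427) (nat_lit 62) (nat_lit 5) (nat_lit 66) (nat_lit 5) (nat_lit 63) (nat_lit 5) (nat_lit 338) (nat_lit 271) (nat_lit 171)))) (XT.nd (nat_lit 156) (nat_lit 228) (nat_lit 0) (XT.nd (nat_lit 78) (nat_lit 0) (nat_lit 0) (XT.lf (nat_lit 0) (nat_lit 3866668151) (nat_lit 228) (nat_lit 6073430804) (nat_lit 304) (nat_lit 9579667816) (nat_lit 59) (nat_lit 5) (nat_lit 62) (nat_lit 5) (nat_lit 63) (nat_lit 5) (nat_lit 339) (nat_lit 271) (nat_lit 170)) (XT.lf (nat_lit 0) (nat_lit 13422681680) (nat_lit 228) (nat_lit 463683303) (nat_lit 304) (nat_lit 6038989796) (nat_lit 59) (nat_lit 5) (nat_lit 62) (nat_lit 5) (nat_lit 63) (nat_lit 5) (nat_lit 340) (nat_lit 271) (nat_lit 169))) (XT.nd (nat_lit 78) (nat_lit 76) (nat_lit 0) (XT.lf (nat_lit 0) (nat_lit 2902779697) (nat_lit 152) (nat_lit 15111400697) (nat_lit 228) (nat_lit 2327044925) (nat_lit 57) (nat_lit 5) (nat_lit 59) (nat_lit 5) (nat_lit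 60) (nat_lit 5) (nat_lit 341) (nat_lit 271) (nat_lit 168)) (XT.lf (nat_lit 0) (nat_lit 1522198308) (nat_lit 228) (nat_lit 8088653337) (nat_lit 76) (nat_lit 11156643890) (nat_lit 56) (nat_lit 5) (nat_lit 59) (nat_lit 5) (nat_lit 57) (nat_lit 5) (nat_lit 342) (nat_lit 271) (nat_lit 167)))))) (XT.nd (nat_lit 546) (nat_lit 532) (nat_lit 0) (XT.nd (nat_lit 234) (nat_lit 456) (nat_lit 0) (XT.nd (nat_lit 78) (nat_lit 0) (nat_lit 0) (XT.lf (nat_lit 0) (nat_lit 1523940151) (nat_lit 228) (nat_lit 3915547785) (nat_lit 304) (nat_lit 15766403414) (nat_lit 53) (nat_lit 5) (nat_lit 56) (nat_lit 5) (nat_lit 57) (nat_lit 5) (nat_lit 343) (nat_lit 271) (nat_lit 166)) (XT.nd (nat_lit 78) (nat_lit 0) (nat_lit 0) (XT.lf (nat_lit 0) (nat_lit 9560353036) (nat_lit 304) (nat_lit 10108352361) (nat_lit 76) (nat_lit 1986160586) (nat_lit 53) (nat_lit 5) (nat_lit 57) (nat_lit 5) (nat_lit 54) (nat_lit 5) (nat_lit 344) (nat_lit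 271) (nat_lit 165)) (XT.lf (nat_lit 0) (nat_lit 13828872110) (nat_lit 304) (nat_lit 310124424) (nat_lit 76) (nat_lit 7977600874) (nat_lit 53) (nat_lit 5) (nat_lit 57) (nat_lit 5) (nat_lit 54) (nat_lit 5) (nat_lit 345) (nat_lit 271) (nat_lit 164)))) (XT.nd (nat_lit 156) (nat_lit 304) (nat_lit 0) (XT.nd (nat_lit 78) (nat_lit 0) (nat_lit 0) (XT.lf (nat_lit 0) (nat_lit 9953154708) (nat_lit 152) (nat_lit 8353657396) (nat_lit 228) (nat_lit 4282935861) (nat_lit 51) (nat_lit 5) (nat_lit 53) (nat_lit 5) (nat_lit 54) (nat_lit 5) (nat_lit 346) (nat_lit 271) (nat_lit 163)) (XT.lf (nat_lit 0) (nat_lit 20507798561) (nat_lit 152) (nat_lit 2400309688) (nat_lit 228) (nat_lit 169322162) (nat_lit 51) (nat_lit 5) (nat_lit 53) (nat_lit 5) (nat_lit 54) (nat_lit 5) (nat_lit 347) (nat_lit 271) (nat_lit 162))) (XT.nd (nat_lit 78) (nat_lit 0) (nat_lit 0) (XT.lf (nat_lit 0) (nat_lit 4087264513) (nat_lit 304) (nat_lit 15721917102)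 (nat_lit 76) (nat_lit 3766427936) (nat_lit 47) (nat_lit 5) (nat_lit 51) (nat_lit 5) (nat_lit 48) (nat_lit 5) (nat_lit 348) (nat_lit 271) (nat_lit 161)) (XT.lf (nat_lit 0) (nat_lit 8504376452) (nat_lit 304) (nat_lit 5493883540) (nat_lit 76) (nat_lit 10089344094) (nat_lit 47) (nat_lit 5) (nat_lit 51) (nat_lit 5) (nat_lit 48) (nat_lit 5) (nat_lit 349) (nat_lit 271) (nat_lit 160))))) (XT.nd (nat_lit 234) (nat_lit 228) (nat_lit 0) (XT.nd (nat_lit 78) (nat_lit 152) (nat_lit 0) (XT.lf (nat_lit 0) (nat_lit 5118917881) (nat_lit 152) (nat_lit 7970950495) (nat_lit 228) (nat_lit 11524021114) (nat_lit 45) (nat_lit 5) (nat_lit 47) (nat_lit 5) (nat_lit 48) (nat_lit 5) (nat_lit 350) (nat_lit 271) (nat_lit 159)) (XT.nd (nat_lit 78) (nat_lit 152) (nat_lit 0) (XT.lf (nat_lit 0) (nat_lit 16140976212) (nat_lit 152) (nat_lit 1714266245) (nat_lit 228) (nat_lit 7299458300) (nat_lit 45) (nat_lit 5) (nat_lit 47) (nat_lit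 5) (nat_lit 48) (nat_lit 5) (nat_lit 351) (nat_lit 271) (nat_lit 158)) (XT.lf (nat_lit 0) (nat_lit 1749201591) (nat_lit 152) (nat_lit 21063802478) (nat_lit 228) (nat_lit 2897256132) (nat_lit 43) (nat_lit 5) (nat_lit 45) (nat_lit 5) (nat_lit 46) (nat_lit 5) (nat_lit 352) (nat_lit 271) (nat_lit 157)))) (XT.nd (nat_lit 156) (nat_lit 152) (nat_lit 0) (XT.nd (nat_lit 78) (nat_lit 0) (nat_lit 0) (XT.lf (nat_lit 0) (nat_lit 1701144938) (nat_lit 228) (nat_lit 13315051957) (nat_lit 76) (nat_lit 11262941395) (nat_lit 42) (nat_lit 5) (nat_lit 45) (nat_lit 5) (nat_lit 43) (nat_lit 5) (nat_lit 353) (nat_lit 271) (nat_lit 156)) (XT.lf (nat_lit 0) (nat_lit 6366821173) (nat_lit 228) (nat_lit 2399199444) (nat_lit 76) (nat_lit 18098580943) (nat_lit 42) (nat_lit 5) (nat_lit 45) (nat_lit 5) (nat_lit 43) (nat_lit 5) (nat_lit 354) (nat_lit 271) (nat_lit 155))) (XT.nd (nat_lit 78) (nat_lit 0) (nat_lit 0) (XT.lf (nat_lit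 0) (nat_lit 8999499909) (nat_lit 152) (nat_lit 2247394070) (nat_lit 228) (nat_lit 16218507850) (nat_lit 40) (nat_lit 5) (nat_lit 42) (nat_lit 5) (nat_lit 43) (nat_lit 5) (nat_lit 355) (nat_lit 271) (nat_lit 154)) (XT.lf (nat_lit 0) (nat_lit 16328772365) (nat_lit 228) (nat_lit 7357663520) (nat_lit 76) (nat_lit 4396133834) (nat_lit 40) (nat_lit 5) (nat_lit 43) (nat_lit 5) (nat_lit 41) (nat_lit 5) (nat_lit 356) (nat_lit 271) (nat_lit 153))))))) (XT.nd (nat_lit 1092) (nat_lit 608) (nat_lit 0) (XT.nd (nat_lit 546) (nat_lit 380) (nat_lit 0) (XT.nd (nat_lit 234) (nat_lit 304) (nat_lit 0) (XT.nd (nat_lit 78) (nat_lit 76) (nat_lit 0) (XT.lf (nat_lit 0) (nat_lit 4122274814) (nat_lit 152) (nat_lit 17491057873) (nat_lit 228) (nat_lit 7103418739) (nat_lit 38) (nat_lit 5) (nat_lit 40) (nat_lit 5) (nat_lit 41) (nat_lit 5) (nat_lit 357) (nat_lit 271) (nat_lit 152)) (XT.nd (nat_lit 78) (nat_lit 76) (nat_lit 0)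 (XT.lf (nat_lit 0) (nat_lit 16077893459) (nat_lit 152) (nat_lit 11041334181) (nat_lit 228) (nat_lit 2248852400) (nat_lit 38) (nat_lit 5) (nat_lit 40) (nat_lit 5) (nat_lit 41) (nat_lit 5) (nat_lit 358) (nat_lit 271) (nat_lit 151)) (XT.lf (nat_lit 0) (nat_lit 2686381288) (nat_lit 228) (nat_lit 1692418628) (nat_lit 76) (nat_lit 25659698670) (nat_lit 37) (nat_lit 5) (nat_lit 40) (nat_lit 5) (nat_lit 38) (nat_lit 5) (nat_lit 359) (nat_lit 271) (nat_lit 150)))) (XT.nd (nat_lit 156) (nat_lit 152) (nat_lit 0) (XT.nd (nat_lit 78) (nat_lit 0) (nat_lit 0) (XT.lf (nat_lit 0) (nat_lit 7838653076) (nat_lit 228) (nat_lit 20335084436) (nat_lit 76) (nat_lit 2551203707) (nat_lit 35) (nat_lit 5) (nat_lit 38) (nat_lit 5) (nat_lit 36) (nat_lit 5) (nat_lit 360) (nat_lit 271) (nat_lit 149)) (XT.lf (nat_lit 0) (nat_lit 13195222488) (nat_lit 228) (nat_lit 8624411298) (nat_lit 76) (nat_lit 9610856249) (nat_lit 35) (nat_lit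 5) (nat_lit 38) (nat_lit 5) (nat_lit 36) (nat_lit 5) (nat_lit 361) (nat_lit 271) (nat_lit 148))) (XT.nd (nat_lit 78) (nat_lit 0) (nat_lit 0) (XT.lf (nat_lit 0) (nat_lit 3487463564) (nat_lit 152) (nat_lit 15247981765) (nat_lit 228) (nat_lit 13421075942) (nat_lit 33) (nat_lit 5) (nat_lit 35) (nat_lit 5) (nat_lit 36) (nat_lit 5) (nat_lit 362) (nat_lit 271) (nat_lit 147)) (XT.lf (nat_lit 0) (nat_lit 16121493357) (nat_lit 152) (nat_lit 8397038679) (nat_lit 228) (nat_lit 8383506206) (nat_lit 33) (nat_lit 5) (nat_lit 35) (nat_lit 5) (nat_lit 36) (nat_lit 5) (nat_lit 363) (nat_lit 271) (nat_lit 146))))) (XT.nd (nat_lit 234) (nat_lit 228) (nat_lit 0) (XT.nd (nat_lit 78) (nat_lit 152) (nat_lit 0) (XT.lf (nat_lit 0) (nat_lit 29117074828) (nat_lit 152) (nat_lit 1347907913) (nat_lit 228) (nat_lit 3205246221) (nat_lit 33) (nat_lit 5) (nat_lit 35) (nat_lit 5) (nat_lit 36) (nat_lit 5) (nat_lit 364) (nat_lit 271)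 (nat_lit 145)) (XT.nd (nat_lit 78) (nat_lit 0) (nat_lit 0) (XT.lf (nat_lit 0) (nat_lit 2213105936) (nat_lit 152) (nat_lit 26353825241) (nat_lit 76) (nat_lit 5890136289) (nat_lit 31) (nat_lit 5) (nat_lit 33) (nat_lit 5) (nat_lit 32) (nat_lit 5) (nat_lit 365) (nat_lit 271) (nat_lit 144)) (XT.lf (nat_lit 0) (nat_lit 7779486983) (nat_lit 152) (nat_lit 14096225299) (nat_lit 76) (nat_lit 13389353783) (nat_lit 31) (nat_lit 5) (nat_lit 33) (nat_lit 5) (nat_lit 32) (nat_lit 5) (nat_lit 366) (nat_lit 271) (nat_lit 143)))) (XT.nd (nat_lit 156) (nat_lit 76) (nat_lit 0) (XT.nd (nat_lit 78) (nat_lit 152) (nat_lit 0) (XT.lf (nat_lit 0) (nat_lit 13503268996) (nat_lit 152) (nat_lit 1487618933) (nat_lit 76) (nat_lit 21106708298) (nat_lit 31) (nat_lit 5) (nat_lit 33) (nat_lit 5) (nat_lit 32) (nat_lit 5) (nat_lit 367) (nat_lit 271) (nat_lit 142)) (XT.lf (nat_lit 0) (nat_lit 11711545522) (nat_lit 152) (nat_lit 7790486356)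 (nat_lit 228) (nat_lit 17449976173) (nat_lit 29) (nat_lit 5) (nat_lit 31) (nat_lit 5) (nat_lit 32) (nat_lit 5) (nat_lit 368) (nat_lit 271) (nat_lit 141))) (XT.nd (nat_lit 78) (nat_lit 76) (nat_lit 0) (XT.lf (nat_lit 0) (nat_lit 25321104265) (nat_lit 152) (nat_lit 365480957) (nat_lit 228) (nat_lit 12145295850) (nat_lit 29) (nat_lit 5) (nat_lit 31) (nat_lit 5) (nat_lit 32) (nat_lit 5) (nat_lit 369) (nat_lit 271) (nat_lit 140)) (XT.lf (nat_lit 0) (nat_lit 525232684) (nat_lit 76) (nat_lit 31597502141) (nat_lit 152) (nat_lit 6613437230) (nat_lit 28) (nat_lit 5) (nat_lit 29) (nat_lit 5) (nat_lit 30) (nat_lit 4) (nat_lit 370) (nat_lit 271) (nat_lit 139)))))) (XT.nd (nat_lit 546) (nat_lit 304) (nat_lit 0) (XT.nd (nat_lit 234) (nat_lit 76) (nat_lit 0) (XT.nd (nat_lit 78) (nat_lit 228) (nat_lit 0) (XT.lf (nat_lit 0) (nat_lit 14189431215) (nat_lit 76) (nat_lit 24683575630) (nat_lit 152) (nat_lit 790957242)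 (nat_lit 28) (nat_lit 5) (nat_lit 29) (nat_lit 5) (nat_lit 30) (nat_lit 4) (nat_lit 371) (nat_lit 271) (nat_lit 138)) (XT.nd (nat_lit 78) (nat_lit 152) (nat_lit 0) (XT.lf (nat_lit 0) (nat_lit 5095895932) (nat_lit 152) (nat_lit 12421459097) (nat_lit 76) (nat_lit 23100998045) (nat_lit 27) (nat_lit 5) (nat_lit 29) (nat_lit 5) (nat_lit 28) (nat_lit 5) (nat_lit 372) (nat_lit 271) (nat_lit 137)) (XT.lf (nat_lit 0) (nat_lit 1020354614) (nat_lit 152) (nat_lit 10124455026) (nat_lit 228) (nat_lit 30456291744) (nat_lit 25) (nat_lit 5) (nat_lit 27) (nat_lit 5) (nat_lit 28) (nat_lit 5) (nat_lit 373) (nat_lit 271) (nat_lit 136)))) (XT.nd (nat_lit 156) (nat_lit 76) (nat_lit 0) (XT.nd (nat_lit 78) (nat_lit 0) (nat_lit 0) (XT.lf (nat_lit 0) (nat_lit 15105265051) (nat_lit 152) (nat_lit 2387006374) (nat_lit 228) (nat_lit 25117551371) (nat_lit 25) (nat_lit 5) (nat_lit 27) (nat_lit 5) (nat_lit 28) (nat_lit 5) (nat_lit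 374) (nat_lit 271) (nat_lit 135)) (XT.lf (nat_lit 0) (nat_lit 24075651596) (nat_lit 228) (nat_lit 14104287060) (nat_lit 76) (nat_lit 5467505343) (nat_lit 25) (nat_lit 5) (nat_lit 28) (nat_lit 5) (nat_lit 26) (nat_lit 4) (nat_lit 375) (nat_lit 271) (nat_lit 134))) (XT.nd (nat_lit 78) (nat_lit 76) (nat_lit 0) (XT.lf (nat_lit 0) (nat_lit 30872236310) (nat_lit 228) (nat_lit 339759427) (nat_lit 76) (nat_lit 13503729902) (nat_lit 25) (nat_lit 5) (nat_lit 28) (nat_lit 5) (nat_lit 26) (nat_lit 4) (nat_lit 376) (nat_lit 271) (nat_lit 133)) (XT.lf (nat_lit 0) (nat_lit 14099122436) (nat_lit 76) (nat_lit 23901425919) (nat_lit 152) (nat_lit 7811675291) (nat_lit 24) (nat_lit 5) (nat_lit 25) (nat_lit 5) (nat_lit 26) (nat_lit 4) (nat_lit 377) (nat_lit 271) (nat_lit 132))))) (XT.nd (nat_lit 234) (nat_lit 76) (nat_lit 0) (XT.nd (nat_lit 78) (nat_lit 228) (nat_lit 0) (XT.lf (nat_lit 0) (nat_lit 28964563607) (nat_lit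 76) (nat_lit 16373971259) (nat_lit 152) (nat_lit 1603209705) (nat_lit 24) (nat_lit 5) (nat_lit 25) (nat_lit 5) (nat_lit 26) (nat_lit 4) (nat_lit 378) (nat_lit 271) (nat_lit 131)) (XT.nd (nat_lit 78) (nat_lit 152) (nat_lit 0) (XT.lf (nat_lit 0) (nat_lit 4690550249) (nat_lit 152) (nat_lit 3888569664) (nat_lit 76) (nat_lit 39524875816) (nat_lit 23) (nat_lit 5) (nat_lit 25) (nat_lit 5) (nat_lit 24) (nat_lit 5) (nat_lit 379) (nat_lit 271) (nat_lit 130)) (XT.lf (nat_lit 0) (nat_lit 10804726293) (nat_lit 152) (nat_lit 432792717) (nat_lit 228) (nat_lit 38060223139) (nat_lit 21) (nat_lit 5) (nat_lit 23) (nat_lit 5) (nat_lit 24) (nat_lit 5) (nat_lit 380) (nat_lit 271) (nat_lit 129)))) (XT.nd (nat_lit 156) (nat_lit 76) (nat_lit 0) (XT.nd (nat_lit 78) (nat_lit 0) (nat_lit 0) (XT.lf (nat_lit 0) (nat_lit 18089839687) (nat_lit 228) (nat_lit 24597450455) (nat_lit 76) (nat_lit 7836744963) (nat_lit 21) (nat_lit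 5) (nat_lit 24) (nat_lit 5) (nat_lit 22) (nat_lit 4) (nat_lit 381) (nat_lit 271) (nat_lit 128)) (XT.lf (nat_lit 0) (nat_lit 25145015741) (nat_lit 228) (nat_lit 10301900522) (nat_lit 76) (nat_lit 16340284366) (nat_lit 21) (nat_lit 5) (nat_lit 24) (nat_lit 5) (nat_lit 22) (nat_lit 4) (nat_lit 382) (nat_lit 271) (nat_lit 127))) (XT.nd (nat_lit 78) (nat_lit 0) (nat_lit 0) (XT.lf (nat_lit 0) (nat_lit 4498058795) (nat_lit 76) (nat_lit 27950230922) (nat_lit 152) (nat_lit 20638880410) (nat_lit 20) (nat_lit 5) (nat_lit 21) (nat_lit 5) (nat_lit 22) (nat_lit 4) (nat_lit 383) (nat_lit 271) (nat_lit 126)) (XT.lf (nat_lit 0) (nat_lit 19941085217) (nat_lit 76) (nat_lit 20126891748) (nat_lit 152) (nat_lit 14355244513) (nat_lit 20) (nat_lit 5) (nat_lit 21) (nat_lit 5) (nat_lit 22) (nat_lit 4) (nat_lit 384) (nat_lit 271) (nat_lit 125))))))))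
noncomputable def xc134 : XT := (XT.nd (nat_lit 31902) (nat_lit 0) (nat_lit 11628) (XT.nd (nat_lit 1014) (nat_lit 304) (nat_lit 0) (XT.nd (nat_lit 468) (nat_lit 228) (nat_lit 0) (XT.nd (nat_lit 234) (nat_lit 0) (nat_lit 0) (XT.nd (nat_lit 78) (nat_lit 228) (nat_lit 0) (XT.lf (nat_lit 0) (nat_lit 35835644630) (nat_lit 76) (nat_lit 12074091810) (nat_lit 152) (nat_lit 7889815635) (nat_lit 20) (nat_lit 5) (nat_lit 21) (nat_lit 5) (nat_lit 22) (nat_lit 4) (nat_lit 385) (nat_lit 271) (nat_lit 124)) (XT.nd (nat_lit 78) (nat_lit 228) (nat_lit 0) (XT.lf (nat_lit 0) (nat_lit 52195625484) (nat_lit 76) (nat_lit 3784794682) (nat_lit 152) (nat_lit 1236944374) (nat_lit 20) (nat_lit 5) (nat_lit 21) (nat_lit 5) (nat_lit 22) (nat_lit 4) (nat_lit 386) (nat_lit 271) (nat_lit 123)) (XT.lf (nat_lit 0) (nat_lit 5647918883) (nat_lit 228) (nat_lit 48211860481) (nat_lit 76) (nat_lit 4812055051) (nat_lit 17) (nat_lit 5)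 (nat_lit 20) (nat_lit 5) (nat_lit 18) (nat_lit 4) (nat_lit 387) (nat_lit 271) (nat_lit 122)))) (XT.nd (nat_lit 78) (nat_lit 0) (nat_lit 0) (XT.lf (nat_lit 0) (nat_lit 12796971028) (nat_lit 228) (nat_lit 33720796962) (nat_lit 76) (nat_lit 13649329773) (nat_lit 17) (nat_lit 5) (nat_lit 20) (nat_lit 5) (nat_lit 18) (nat_lit 4) (nat_lit 388) (nat_lit 271) (nat_lit 121)) (XT.nd (nat_lit 78) (nat_lit 0) (nat_lit 0) (XT.lf (nat_lit 0) (nat_lit 20154494093) (nat_lit 228) (nat_lit 18805910902) (nat_lit 76) (nat_lit 22746995894) (nat_lit 17) (nat_lit 5) (nat_lit 20) (nat_lit 5) (nat_lit 18) (nat_lit 4) (nat_lit 389) (nat_lit 271) (nat_lit 120)) (XT.lf (nat_lit 0) (nat_lit 27726916982) (nat_lit 228) (nat_lit 3454169875) (nat_lit 76) (nat_lit 32113002832) (nat_lit 17) (nat_lit 5) (nat_lit 20) (nat_lit 5) (nat_lit 18) (nat_lit 4) (nat_lit 390) (nat_lit 271) (nat_lit 119))))) (XT.nd (nat_lit 234) (nat_lit 152)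 (nat_lit 0) (XT.nd (nat_lit 78) (nat_lit 0) (nat_lit 0) (XT.lf (nat_lit 0) (nat_lit 12593586492) (nat_lit 76) (nat_lit 23048327141) (nat_lit 152) (nat_lit 29283005241) (nat_lit 16) (nat_lit 5) (nat_lit 17) (nat_lit 5) (nat_lit 18) (nat_lit 4) (nat_lit 391) (nat_lit 271) (nat_lit 118)) (XT.nd (nat_lit 78) (nat_lit 0) (nat_lit 0) (XT.lf (nat_lit 0) (nat_lit 29183400340) (nat_lit 76) (nat_lit 14640250869) (nat_lit 152) (nat_lit 22780144696) (nat_lit 16) (nat_lit 5) (nat_lit 17) (nat_lit 5) (nat_lit 18) (nat_lit 4) (nat_lit 392) (nat_lit 271) (nat_lit 117)) (XT.lf (nat_lit 0) (nat_lit 46261022868) (nat_lit 76) (nat_lit 5984391522) (nat_lit 152) (nat_lit 16087789304) (nat_lit 16) (nat_lit 5) (nat_lit 17) (nat_lit 5) (nat_lit 18) (nat_lit 4) (nat_lit 393) (nat_lit 271) (nat_lit 116)))) (XT.nd (nat_lit 156) (nat_lit 76) (nat_lit 0) (XT.nd (nat_lit 78) (nat_lit 76) (nat_lit 0) (XT.lf (nat_lit 0) (nat_lit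 60942696328) (nat_lit 152) (nat_lit 6301411432) (nat_lit 0) (nat_lit 2869701584) (nat_lit 16) (nat_lit 5) (nat_lit 18) (nat_lit 4) (nat_lit 16) (nat_lit 4) (nat_lit 394) (nat_lit 271) (nat_lit 115)) (XT.lf (nat_lit 0) (nat_lit 10070304702) (nat_lit 76) (nat_lit 59981489931) (nat_lit 76) (nat_lit 1891513151) (nat_lit 15) (nat_lit 4) (nat_lit 16) (nat_lit 5) (nat_lit 16) (nat_lit 4) (nat_lit 395) (nat_lit 271) (nat_lit 114))) (XT.nd (nat_lit 78) (nat_lit 0) (nat_lit 0) (XT.lf (nat_lit 0) (nat_lit 5556187135) (nat_lit 152) (nat_lit 46827404306) (nat_lit 76) (nat_lit 21440710967) (nat_lit 14) (nat_lit 5) (nat_lit 16) (nat_lit 5) (nat_lit 15) (nat_lit 4) (nat_lit 396) (nat_lit 271) (nat_lit 113)) (XT.lf (nat_lit 0) (nat_lit 13184303825) (nat_lit 152) (nat_lit 31358334624) (nat_lit 76) (nat_lit 31218677926) (nat_lit 14) (nat_lit 5) (nat_lit 16) (nat_lit 5) (nat_lit 15) (nat_lit 4) (nat_lit 397) (nat_lit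 271) (nat_lit 112)))))) (XT.nd (nat_lit 546) (nat_lit 152) (nat_lit 0) (XT.nd (nat_lit 234) (nat_lit 76) (nat_lit 0) (XT.nd (nat_lit 78) (nat_lit 76) (nat_lit 0) (XT.lf (nat_lit 0) (nat_lit 21036412495) (nat_lit 152) (nat_lit 15434094992) (nat_lit 76) (nat_lit 41286080202) (nat_lit 14) (nat_lit 5) (nat_lit 16) (nat_lit 5) (nat_lit 15) (nat_lit 4) (nat_lit 398) (nat_lit 271) (nat_lit 111)) (XT.nd (nat_lit 78) (nat_lit 0) (nat_lit 0) (XT.lf (nat_lit 0) (nat_lit 978319513) (nat_lit 76) (nat_lit 28150458905) (nat_lit 152) (nat_lit 50682799247) (nat_lit 13) (nat_lit 5) (nat_lit 14) (nat_lit 5) (nat_lit 15) (nat_lit 4) (nat_lit 399) (nat_lit 271) (nat_lit 110)) (XT.lf (nat_lit 0) (nat_lit 18190932148) (nat_lit 76) (nat_lit 19424181979) (nat_lit 152) (nat_lit 44308568553) (nat_lit 13) (nat_lit 5) (nat_lit 14) (nat_lit 5) (nat_lit 15) (nat_lit 4) (nat_lit 400) (nat_lit 271) (nat_lit 109)))) (XT.nd (nat_lit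 156) (nat_lit 76) (nat_lit 0) (XT.nd (nat_lit 78) (nat_lit 0) (nat_lit 0) (XT.lf (nat_lit 0) (nat_lit 35911614309) (nat_lit 76) (nat_lit 10439905901) (nat_lit 152) (nat_lit 37747767493) (nat_lit 13) (nat_lit 5) (nat_lit 14) (nat_lit 5) (nat_lit 15) (nat_lit 4) (nat_lit 401) (nat_lit 271) (nat_lit 108)) (XT.lf (nat_lit 0) (nat_lit 54155850084) (nat_lit 76) (nat_lit 1189780334) (nat_lit 152) (nat_lit 30994663328) (nat_lit 13) (nat_lit 5) (nat_lit 14) (nat_lit 5) (nat_lit 15) (nat_lit 4) (nat_lit 402) (nat_lit 271) (nat_lit 107))) (XT.nd (nat_lit 78) (nat_lit 76) (nat_lit 0) (XT.lf (nat_lit 0) (nat_lit 64685417859) (nat_lit 152) (nat_lit 15789192104) (nat_lit 0) (nat_lit 8171645584) (nat_lit 13) (nat_lit 5) (nat_lit 15) (nat_lit 4) (nat_lit 13) (nat_lit 4) (nat_lit 403) (nat_lit 271) (nat_lit 106)) (XT.lf (nat_lit 0) (nat_lit 1099904404) (nat_lit 76) (nat_lit 73223677978) (nat_lit 76) (nat_lit 16697269474)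 (nat_lit 12) (nat_lit 4) (nat_lit 13) (nat_lit 5) (nat_lit 13) (nat_lit 4) (nat_lit 404) (nat_lit 271) (nat_lit 105))))) (XT.nd (nat_lit 234) (nat_lit 76) (nat_lit 0) (XT.nd (nat_lit 78) (nat_lit 76) (nat_lit 0) (XT.lf (nat_lit 0) (nat_lit 18811716525) (nat_lit 76) (nat_lit 65594493893) (nat_lit 76) (nat_lit 9055817204) (nat_lit 12) (nat_lit 4) (nat_lit 13) (nat_lit 5) (nat_lit 13) (nat_lit 4) (nat_lit 405) (nat_lit 271) (nat_lit 104)) (XT.nd (nat_lit 78) (nat_lit 76) (nat_lit 0) (XT.lf (nat_lit 0) (nat_lit 37047484717) (nat_lit 76) (nat_lit 57739831310) (nat_lit 76) (nat_lit 1189243764) (nat_lit 12) (nat_lit 4) (nat_lit 13) (nat_lit 5) (nat_lit 13) (nat_lit 4) (nat_lit 406) (nat_lit 271) (nat_lit 103)) (XT.lf (nat_lit 0) (nat_lit 6774498744) (nat_lit 152) (nat_lit 42809919035) (nat_lit 76) (nat_lit 48980235249) (nat_lit 11) (nat_lit 5) (nat_lit 13) (nat_lit 5) (nat_lit 12) (nat_lit 4) (nat_lit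 407) (nat_lit 271) (nat_lit 102)))) (XT.nd (nat_lit 156) (nat_lit 76) (nat_lit 0) (XT.nd (nat_lit 78) (nat_lit 0) (nat_lit 0) (XT.lf (nat_lit 0) (nat_lit 14949440976) (nat_lit 152) (nat_lit 26226013430) (nat_lit 76) (nat_lit 60054696711) (nat_lit 11) (nat_lit 5) (nat_lit 13) (nat_lit 5) (nat_lit 12) (nat_lit 4) (nat_lit 408) (nat_lit 271) (nat_lit 101)) (XT.lf (nat_lit 0) (nat_lit 23365932514) (nat_lit 152) (nat_lit 9151435730) (nat_lit 76) (nat_lit 71458357844) (nat_lit 11) (nat_lit 5) (nat_lit 13) (nat_lit 5) (nat_lit 12) (nat_lit 4) (nat_lit 409) (nat_lit 271) (nat_lit 100))) (XT.nd (nat_lit 29874) (nat_lit 0) (nat_lit 19988) (XT.lf (nat_lit 0) (nat_lit 8596481923) (nat_lit 76) (nat_lit 23517480293) (nat_lit 152) (nat_lit 74687335732) (nat_lit 10) (nat_lit 5) (nat_lit 11) (nat_lit 5) (nat_lit 12) (nat_lit 4) (nat_lit 410) (nat_lit 271) (nat_lit 99)) (XT.lf (nat_lit 0) (nat_lit 609178804) (nat_lit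 0) (nat_lit 609178804) (nat_lit 684) (nat_lit 2315202059) (nat_lit 273) (nat_lit 5) (nat_lit 273) (nat_lit 3) (nat_lit 282) (nat_lit 3) (nat_lit 272) (nat_lit 272) (nat_lit 236))))))) (XT.nd (nat_lit 1092) (nat_lit 6080) (nat_lit 0) (XT.nd (nat_lit 546) (nat_lit 1520) (nat_lit 0) (XT.nd (nat_lit 234) (nat_lit 0) (nat_lit 0) (XT.nd (nat_lit 78) (nat_lit 760) (nat_lit 0) (XT.lf (nat_lit 0) (nat_lit 4144182564) (nat_lit 684) (nat_lit 2578546201) (nat_lit 760) (nat_lit 397693934) (nat_lit 273) (nat_lit 5) (nat_lit 282) (nat_lit 3) (nat_lit 283) (nat_lit 5) (nat_lit 273) (nat_lit 272) (nat_lit 235)) (XT.nd (nat_lit 78) (nat_lit 760) (nat_lit 0) (XT.lf (nat_lit 76) (nat_lit 757601869) (nat_lit 0) (nat_lit 5099871199) (nat_lit 760) (nat_lit 1319314655) (nat_lit 274) (nat_lit 5) (nat_lit 273) (nat_lit 5) (nat_lit 283) (nat_lit 5) (nat_lit 274) (nat_lit 272) (nat_lit 234)) (XT.lf (nat_lit 0) (nat_lit 342142637)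 (nat_lit 760) (nat_lit 3027270633) (nat_lit 836) (nat_lit 3866542032) (nat_lit 263) (nat_lit 5) (nat_lit 273) (nat_lit 5) (nat_lit 274) (nat_lit 5) (nat_lit 275) (nat_lit 272) (nat_lit 233)))) (XT.nd (nat_lit 156) (nat_lit 0) (nat_lit 76) (XT.nd (nat_lit 78) (nat_lit 0) (nat_lit 76) (XT.lf (nat_lit 76) (nat_lit 426794830) (nat_lit 0) (nat_lit 1542182052) (nat_lit 836) (nat_lit 5329359647) (nat_lit 264) (nat_lit 5) (nat_lit 263) (nat_lit 5) (nat_lit 274) (nat_lit 5) (nat_lit 276) (nat_lit 272) (nat_lit 232)) (XT.lf (nat_lit 0) (nat_lit 3618428649) (nat_lit 760) (nat_lit 3355391545) (nat_lit 836) (nat_lit 389643945) (nat_lit 264) (nat_lit 5) (nat_lit 274) (nat_lit 5) (nat_lit 275) (nat_lit 5) (nat_lit 277) (nat_lit 272) (nat_lit 231))) (XT.nd (nat_lit 78) (nat_lit 0) (nat_lit 0) (XT.lf (nat_lit 76) (nat_lit 219640440) (nat_lit 0) (nat_lit 5056534390) (nat_lit 836) (nat_lit 2155693140) (nat_lit 265)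 (nat_lit 5) (nat_lit 264) (nat_lit 5) (nat_lit 275) (nat_lit 5) (nat_lit 278) (nat_lit 272) (nat_lit 230)) (XT.lf (nat_lit 76) (nat_lit 3935435313) (nat_lit 0) (nat_lit 3024898244) (nat_lit 836) (nat_lit 542774148) (nat_lit 265) (nat_lit 5) (nat_lit 264) (nat_lit 5) (nat_lit 275) (nat_lit 5) (nat_lit 279) (nat_lit 272) (nat_lit 229))))) (XT.nd (nat_lit 234) (nat_lit 760) (nat_lit 0) (XT.nd (nat_lit 78) (nat_lit 0) (nat_lit 76) (XT.lf (nat_lit 76) (nat_lit 142813992) (nat_lit 0) (nat_lit 899098010) (nat_lit 912) (nat_lit 6535973243) (nat_lit 254) (nat_lit 5) (nat_lit 253) (nat_lit 5) (nat_lit 265) (nat_lit 5) (nat_lit 280) (nat_lit 272) (nat_lit 228)) (XT.nd (nat_lit 78) (nat_lit 0) (nat_lit 0) (XT.lf (nat_lit 0) (nat_lit 2657339606) (nat_lit 836) (nat_lit 3671218044) (nat_lit 912) (nat_lit 1326440987) (nat_lit 254) (nat_lit 5) (nat_lit 265) (nat_lit 5) (nat_lit 266) (nat_lit 5) (nat_lit 281) (nat_lit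 272) (nat_lit 227)) (XT.lf (nat_lit 76) (nat_lit 163919367) (nat_lit 0) (nat_lit 4114702937) (nat_lit 912) (nat_lit 3457156165) (nat_lit 255) (nat_lit 5) (nat_lit 254) (nat_lit 5) (nat_lit 266) (nat_lit 5) (nat_lit 282) (nat_lit 272) (nat_lit 226)))) (XT.nd (nat_lit 156) (nat_lit 836) (nat_lit 0) (XT.nd (nat_lit 78) (nat_lit 0) (nat_lit 76) (XT.lf (nat_lit 76) (nat_lit 4153791415) (nat_lit 0) (nat_lit 1779942982) (nat_lit 912) (nat_lit 1885764196) (nat_lit 255) (nat_lit 5) (nat_lit 254) (nat_lit 5) (nat_lit 266) (nat_lit 5) (nat_lit 283) (nat_lit 272) (nat_lit 225)) (XT.lf (nat_lit 76) (nat_lit 321625387) (nat_lit 0) (nat_lit 7275754747) (nat_lit 912) (nat_lit 309654290) (nat_lit 256) (nat_lit 5) (nat_lit 255) (nat_lit 5) (nat_lit 267) (nat_lit 5) (nat_lit 284) (nat_lit 272) (nat_lit 224))) (XT.nd (nat_lit 78) (nat_lit 0) (nat_lit 0) (XT.lf (nat_lit 0) (nat_lit 1293455501) (nat_lit 912) (nat_lit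 3559955161) (nat_lit 988) (nat_lit 3143312706) (nat_lit 243) (nat_lit 5) (nat_lit 255) (nat_lit 5) (nat_lit 256) (nat_lit 5) (nat_lit 285) (nat_lit 272) (nat_lit 223)) (XT.lf (nat_lit 76) (nat_lit 558193177) (nat_lit 0) (nat_lit 2337399800) (nat_lit 988) (nat_lit 5194767809) (nat_lit 244) (nat_lit 5) (nat_lit 243) (nat_lit 5) (nat_lit 256) (nat_lit 5) (nat_lit 286) (nat_lit 272) (nat_lit 222)))))) (XT.nd (nat_lit 546) (nat_lit 3116) (nat_lit 0) (XT.nd (nat_lit 234) (nat_lit 2128) (nat_lit 0) (XT.nd (nat_lit 78) (nat_lit 912) (nat_lit 0) (XT.lf (nat_lit 0) (nat_lit 4537507950) (nat_lit 912) (nat_lit 3352797956) (nat_lit 76) (nat_lit 296812667) (nat_lit 244) (nat_lit 5) (nat_lit 256) (nat_lit 5) (nat_lit 245) (nat_lit 5) (nat_lit 287) (nat_lit 272) (nat_lit 221)) (XT.nd (nat_lit 78) (nat_lit 0) (nat_lit 0) (XT.lf (nat_lit 0) (nat_lit 910527166) (nat_lit 912) (nat_lit 5304384629) (nat_lit 988) (nat_lit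 2072341179) (nat_lit 232) (nat_lit 5) (nat_lit 244) (nat_lit 5) (nat_lit 245) (nat_lit 5) (nat_lit 288) (nat_lit 272) (nat_lit 220)) (XT.lf (nat_lit 0) (nat_lit 5334783841) (nat_lit 912) (nat_lit 2597033775) (nat_lit 988) (nat_lit 458957448) (nat_lit 232) (nat_lit 5) (nat_lit 244) (nat_lit 5) (nat_lit 245) (nat_lit 5) (nat_lit 289) (nat_lit 272) (nat_lit 219)))) (XT.nd (nat_lit 156) (nat_lit 1064) (nat_lit 0) (XT.nd (nat_lit 78) (nat_lit 0) (nat_lit 0) (XT.lf (nat_lit 0) (nat_lit 1150869041) (nat_lit 1064) (nat_lit 7126167971) (nat_lit 76) (nat_lit 220929214) (nat_lit 218) (nat_lit 5) (nat_lit 232) (nat_lit 5) (nat_lit 219) (nat_lit 5) (nat_lit 290) (nat_lit 272) (nat_lit 218)) (XT.lf (nat_lit 0) (nat_lit 2813795431) (nat_lit 1064) (nat_lit 2679596810) (nat_lit 76) (nat_lit 3114477706) (nat_lit 218) (nat_lit 5) (nat_lit 232) (nat_lit 5) (nat_lit 219) (nat_lit 5) (nat_lit 291) (nat_lit 272) (nat_lit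 217))) (XT.nd (nat_lit 78) (nat_lit 0) (nat_lit 0) (XT.lf (nat_lit 0) (nat_lit 1901899106) (nat_lit 1064) (nat_lit 2601392172) (nat_lit 1140) (nat_lit 4218531520) (nat_lit 204) (nat_lit 5) (nat_lit 218) (nat_lit 5) (nat_lit 219) (nat_lit 5) (nat_lit 292) (nat_lit 272) (nat_lit 216)) (XT.lf (nat_lit 0) (nat_lit 6233751260) (nat_lit 1140) (nat_lit 2203070820) (nat_lit 76) (nat_lit 402714714) (nat_lit 204) (nat_lit 5) (nat_lit 219) (nat_lit 5) (nat_lit 205) (nat_lit 5) (nat_lit 293) (nat_lit 272) (nat_lit 215))))) (XT.nd (nat_lit 234) (nat_lit 1216) (nat_lit 0) (XT.nd (nat_lit 78) (nat_lit 760) (nat_lit 0) (XT.lf (nat_lit 0) (nat_lit 2540610701) (nat_lit 1140) (nat_lit 5486202490) (nat_lit 1216) (nat_lit 933697830) (nat_lit 189) (nat_lit 5) (nat_lit 204) (nat_lit 5) (nat_lit 205) (nat_lit 5) (nat_lit 294) (nat_lit 272) (nat_lit 214)) (XT.nd (nat_lit 78) (nat_lit 684) (nat_lit 0) (XT.lf (nat_lit 0)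 (nat_lit 756524153) (nat_lit 1216) (nat_lit 1656457898) (nat_lit 76) (nat_lit 6672450863) (nat_lit 188) (nat_lit 5) (nat_lit 204) (nat_lit 5) (nat_lit 189) (nat_lit 5) (nat_lit 295) (nat_lit 272) (nat_lit 213)) (XT.lf (nat_lit 0) (nat_lit 2479811058) (nat_lit 760) (nat_lit 5952214276) (nat_lit 76) (nat_lit 781811312) (nat_lit 179) (nat_lit 5) (nat_lit 189) (nat_lit 5) (nat_lit 180) (nat_lit 5) (nat_lit 296) (nat_lit 272) (nat_lit 212)))) (XT.nd (nat_lit 156) (nat_lit 608) (nat_lit 0) (XT.nd (nat_lit 78) (nat_lit 608) (nat_lit 0) (XT.lf (nat_lit 0) (nat_lit 4258409870) (nat_lit 760) (nat_lit 1044215071) (nat_lit 76) (nat_lit 4043403089) (nat_lit 179) (nat_lit 5) (nat_lit 189) (nat_lit 5) (nat_lit 180) (nat_lit 5) (nat_lit 297) (nat_lit 272) (nat_lit 211)) (XT.lf (nat_lit 0) (nat_lit 4055433352) (nat_lit 608) (nat_lit 2037829027) (nat_lit 684) (nat_lit 3388878566) (nat_lit 171) (nat_lit 5) (nat_lit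 179) (nat_lit 5) (nat_lit 180) (nat_lit 5) (nat_lit 298) (nat_lit 272) (nat_lit 210))) (XT.nd (nat_lit 78) (nat_lit 608) (nat_lit 0) (XT.lf (nat_lit 0) (nat_lit 7971187644) (nat_lit 684) (nat_lit 340882816) (nat_lit 76) (nat_lit 1310667388) (nat_lit 171) (nat_lit 5) (nat_lit 180) (nat_lit 5) (nat_lit 172) (nat_lit 5) (nat_lit 299) (nat_lit 272) (nat_lit 209)) (XT.lf (nat_lit 0) (nat_lit 168825609) (nat_lit 608) (nat_lit 4828989617) (nat_lit 76) (nat_lit 4768728152) (nat_lit 163) (nat_lit 5) (nat_lit 171) (nat_lit 5) (nat_lit 164) (nat_lit 5) (nat_lit 300) (nat_lit 272) (nat_lit 208))))))))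
noncomputable def xc135 : XT := (XT.nd (nat_lit 2184) (nat_lit 3040) (nat_lit 0) (XT.nd (nat_lit 1092) (nat_lit 2508) (nat_lit 0) (XT.nd (nat_lit 546) (nat_lit 1748) (nat_lit 0) (XT.nd (nat_lit 234) (nat_lit 1064) (nat_lit 0) (XT.nd (nat_lit 78) (nat_lit 456) (nat_lit 0) (XT.lf (nat_lit 0) (nat_lit 423813900) (nat_lit 532) (nat_lit 1560327085) (nat_lit 608) (nat_lit 7930863747) (nat_lit 156) (nat_lit 5) (nat_lit 163) (nat_lit 5) (nat_lit 164) (nat_lit 5) (nat_lit 301) (nat_lit 272) (nat_lit 207)) (XT.nd (nat_lit 78) (nat_lit 456) (nat_lit 0) (XT.lf (nat_lit 0) (nat_lit 3888818772) (nat_lit 608) (nat_lit 4188311414) (nat_lit 76) (nat_lit 1989779452) (nat_lit 156) (nat_lit 5) (nat_lit 164) (nat_lit 5) (nat_lit 157) (nat_lit 5) (nat_lit 302) (nat_lit 272) (nat_lit 206)) (XT.lf (nat_lit 0) (nat_lit 1248067725) (nat_lit 456) (nat_lit 4597608440) (nat_lit 532) (nat_lit 4377880074) (nat_lit 150) (nat_lit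 5) (nat_lit 156) (nat_lit 5) (nat_lit 157) (nat_lit 5) (nat_lit 303) (nat_lit 272) (nat_lit 205)))) (XT.nd (nat_lit 156) (nat_lit 532) (nat_lit 0) (XT.nd (nat_lit 78) (nat_lit 532) (nat_lit 0) (XT.lf (nat_lit 0) (nat_lit 6899240502) (nat_lit 456) (nat_lit 972501387) (nat_lit 532) (nat_lit 2512879958) (nat_lit 150) (nat_lit 5) (nat_lit 156) (nat_lit 5) (nat_lit 157) (nat_lit 5) (nat_lit 304) (nat_lit 272) (nat_lit 204)) (XT.lf (nat_lit 0) (nat_lit 2150757372) (nat_lit 532) (nat_lit 7824163259) (nat_lit 608) (nat_lit 575142538) (nat_lit 143) (nat_lit 5) (nat_lit 150) (nat_lit 5) (nat_lit 151) (nat_lit 5) (nat_lit 305) (nat_lit 272) (nat_lit 203))) (XT.nd (nat_lit 78) (nat_lit 456) (nat_lit 0) (XT.lf (nat_lit 0) (nat_lit 1407531899) (nat_lit 608) (nat_lit 2750022967) (nat_lit 76) (nat_lit 6562099048) (nat_lit 142) (nat_lit 5) (nat_lit 150) (nat_lit 5) (nat_lit 143) (nat_lit 5) (nat_lit 306) (nat_lit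 272) (nat_lit 202)) (XT.lf (nat_lit 0) (nat_lit 3089937581) (nat_lit 456) (nat_lit 348139799) (nat_lit 532) (nat_lit 7456116467) (nat_lit 136) (nat_lit 5) (nat_lit 142) (nat_lit 5) (nat_lit 143) (nat_lit 5) (nat_lit 307) (nat_lit 272) (nat_lit 201))))) (XT.nd (nat_lit 234) (nat_lit 1292) (nat_lit 0) (XT.nd (nat_lit 78) (nat_lit 456) (nat_lit 0) (XT.lf (nat_lit 0) (nat_lit 5562714106) (nat_lit 532) (nat_lit 1980255985) (nat_lit 76) (nat_lit 3530034561) (nat_lit 136) (nat_lit 5) (nat_lit 143) (nat_lit 5) (nat_lit 137) (nat_lit 5) (nat_lit 308) (nat_lit 272) (nat_lit 200)) (XT.nd (nat_lit 78) (nat_lit 0) (nat_lit 0) (XT.lf (nat_lit 0) (nat_lit 4061313446) (nat_lit 456) (nat_lit 3703874550) (nat_lit 532) (nat_lit 3491597894) (nat_lit 130) (nat_lit 5) (nat_lit 136) (nat_lit 5) (nat_lit 137) (nat_lit 5) (nat_lit 309) (nat_lit 272) (nat_lit 199)) (XT.lf (nat_lit 0) (nat_lit 10028416495) (nat_lit 532)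 (nat_lit 1156812769) (nat_lit 76) (nat_lit 261039091) (nat_lit 130) (nat_lit 5) (nat_lit 137) (nat_lit 5) (nat_lit 131) (nat_lit 5) (nat_lit 310) (nat_lit 272) (nat_lit 198)))) (XT.nd (nat_lit 156) (nat_lit 836) (nat_lit 0) (XT.nd (nat_lit 78) (nat_lit 0) (nat_lit 0) (XT.lf (nat_lit 0) (nat_lit 763169725) (nat_lit 456) (nat_lit 6553942947) (nat_lit 76) (nat_lit 4322369841) (nat_lit 124) (nat_lit 5) (nat_lit 130) (nat_lit 5) (nat_lit 125) (nat_lit 5) (nat_lit 311) (nat_lit 272) (nat_lit 197)) (XT.lf (nat_lit 0) (nat_lit 2966004473) (nat_lit 456) (nat_lit 346139728) (nat_lit 76) (nat_lit 8526407163) (nat_lit 124) (nat_lit 5) (nat_lit 130) (nat_lit 5) (nat_lit 125) (nat_lit 5) (nat_lit 312) (nat_lit 272) (nat_lit 196))) (XT.nd (nat_lit 78) (nat_lit 380) (nat_lit 0) (XT.lf (nat_lit 0) (nat_lit 5276117300) (nat_lit 532) (nat_lit 5915112410) (nat_lit 76) (nat_lit 851151836) (nat_lit 118) (nat_lit 5)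 (nat_lit 125) (nat_lit 5) (nat_lit 119) (nat_lit 5) (nat_lit 313) (nat_lit 272) (nat_lit 195)) (XT.lf (nat_lit 0) (nat_lit 494379162) (nat_lit 380) (nat_lit 7176500036) (nat_lit 456) (nat_lit 4581011395) (nat_lit 113) (nat_lit 5) (nat_lit 118) (nat_lit 5) (nat_lit 119) (nat_lit 5) (nat_lit 314) (nat_lit 272) (nat_lit 194)))))) (XT.nd (nat_lit 546) (nat_lit 1368) (nat_lit 0) (XT.nd (nat_lit 234) (nat_lit 684) (nat_lit 0) (XT.nd (nat_lit 78) (nat_lit 456) (nat_lit 0) (XT.lf (nat_lit 0) (nat_lit 7185531255) (nat_lit 380) (nat_lit 2986396686) (nat_lit 456) (nat_lit 2294747269) (nat_lit 113) (nat_lit 5) (nat_lit 118) (nat_lit 5) (nat_lit 119) (nat_lit 5) (nat_lit 315) (nat_lit 272) (nat_lit 193)) (XT.nd (nat_lit 78) (nat_lit 0) (nat_lit 0) (XT.lf (nat_lit 0) (nat_lit 60277031) (nat_lit 456) (nat_lit 11316618973) (nat_lit 76) (nat_lit 1310971941) (nat_lit 107) (nat_lit 5) (nat_lit 113) (nat_lit 5) (nat_lit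 108) (nat_lit 5) (nat_lit 316) (nat_lit 272) (nat_lit 192)) (XT.lf (nat_lit 0) (nat_lit 2498797584) (nat_lit 456) (nat_lit 4667286967) (nat_lit 76) (nat_lit 5747182886) (nat_lit 107) (nat_lit 5) (nat_lit 113) (nat_lit 5) (nat_lit 108) (nat_lit 5) (nat_lit 317) (nat_lit 272) (nat_lit 191)))) (XT.nd (nat_lit 156) (nat_lit 380) (nat_lit 0) (XT.nd (nat_lit 78) (nat_lit 0) (nat_lit 0) (XT.lf (nat_lit 0) (nat_lit 2193408059) (nat_lit 304) (nat_lit 2814404616) (nat_lit 380) (nat_lit 8137717059) (nat_lit 103) (nat_lit 5) (nat_lit 107) (nat_lit 5) (nat_lit 108) (nat_lit 5) (nat_lit 318) (nat_lit 272) (nat_lit 190)) (XT.lf (nat_lit 0) (nat_lit 7632309476) (nat_lit 380) (nat_lit 4075512116) (nat_lit 76) (nat_lit 1675752343) (nat_lit 103) (nat_lit 5) (nat_lit 108) (nat_lit 5) (nat_lit 104) (nat_lit 5) (nat_lit 319) (nat_lit 272) (nat_lit 189))) (XT.nd (nat_lit 78) (nat_lit 0) (nat_lit 0) (XT.lf (nat_lit 0)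 (nat_lit 3007869287) (nat_lit 380) (nat_lit 7361714853) (nat_lit 456) (nat_lit 3258173816) (nat_lit 98) (nat_lit 5) (nat_lit 103) (nat_lit 5) (nat_lit 104) (nat_lit 5) (nat_lit 320) (nat_lit 272) (nat_lit 188)) (XT.lf (nat_lit 0) (nat_lit 10357238325) (nat_lit 380) (nat_lit 2850530765) (nat_lit 456) (nat_lit 670953851) (nat_lit 98) (nat_lit 5) (nat_lit 103) (nat_lit 5) (nat_lit 104) (nat_lit 5) (nat_lit 321) (nat_lit 272) (nat_lit 187))))) (XT.nd (nat_lit 234) (nat_lit 684) (nat_lit 0) (XT.nd (nat_lit 78) (nat_lit 304) (nat_lit 0) (XT.lf (nat_lit 0) (nat_lit 1987450578) (nat_lit 380) (nat_lit 10338438570) (nat_lit 76) (nat_lit 1809796567) (nat_lit 93) (nat_lit 5) (nat_lit 98) (nat_lit 5) (nat_lit 94) (nat_lit 5) (nat_lit 322) (nat_lit 272) (nat_lit 186)) (XT.nd (nat_lit 78) (nat_lit 304) (nat_lit 0) (XT.lf (nat_lit 0) (nat_lit 4754594816) (nat_lit 380) (nat_lit 3056718227) (nat_lit 76) (nat_lit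 6587588416) (nat_lit 93) (nat_lit 5) (nat_lit 98) (nat_lit 5) (nat_lit 94) (nat_lit 5) (nat_lit 323) (nat_lit 272) (nat_lit 185)) (XT.lf (nat_lit 0) (nat_lit 4502243435) (nat_lit 304) (nat_lit 3124757135) (nat_lit 380) (nat_lit 7042362753) (nat_lit 89) (nat_lit 5) (nat_lit 93) (nat_lit 5) (nat_lit 94) (nat_lit 5) (nat_lit 324) (nat_lit 272) (nat_lit 184)))) (XT.nd (nat_lit 156) (nat_lit 380) (nat_lit 0) (XT.nd (nat_lit 78) (nat_lit 304) (nat_lit 0) (XT.lf (nat_lit 0) (nat_lit 10612342491) (nat_lit 380) (nat_lit 2642389470) (nat_lit 76) (nat_lit 1692420728) (nat_lit 89) (nat_lit 5) (nat_lit 94) (nat_lit 5) (nat_lit 90) (nat_lit 5) (nat_lit 325) (nat_lit 272) (nat_lit 183)) (XT.lf (nat_lit 0) (nat_lit 5149137423) (nat_lit 304) (nat_lit 8598374186) (nat_lit 380) (nat_lit 1483972203) (nat_lit 85) (nat_lit 5) (nat_lit 89) (nat_lit 5) (nat_lit 90) (nat_lit 5) (nat_lit 326) (nat_lit 272) (nat_lit 182)))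 (XT.nd (nat_lit 78) (nat_lit 304) (nat_lit 0) (XT.lf (nat_lit 0) (nat_lit 1430933204) (nat_lit 380) (nat_lit 2337813978) (nat_lit 76) (nat_lit 11754987499) (nat_lit 84) (nat_lit 5) (nat_lit 89) (nat_lit 5) (nat_lit 85) (nat_lit 5) (nat_lit 327) (nat_lit 272) (nat_lit 181)) (XT.lf (nat_lit 0) (nat_lit 4451048112) (nat_lit 380) (nat_lit 10127507414) (nat_lit 76) (nat_lit 1244343824) (nat_lit 80) (nat_lit 5) (nat_lit 85) (nat_lit 5) (nat_lit 81) (nat_lit 5) (nat_lit 328) (nat_lit 272) (nat_lit 180))))))) (XT.nd (nat_lit 1092) (nat_lit 1292) (nat_lit 0) (XT.nd (nat_lit 546) (nat_lit 912) (nat_lit 0) (XT.nd (nat_lit 234) (nat_lit 608) (nat_lit 0) (XT.nd (nat_lit 78) (nat_lit 228) (nat_lit 0) (XT.lf (nat_lit 0) (nat_lit 7603665465) (nat_lit 380) (nat_lit 2178385930) (nat_lit 76) (nat_lit 6347744886) (nat_lit 80) (nat_lit 5) (nat_lit 85) (nat_lit 5) (nat_lit 81) (nat_lit 5) (nat_lit 329) (nat_lit 272)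 (nat_lit 179)) (XT.nd (nat_lit 78) (nat_lit 0) (nat_lit 0) (XT.lf (nat_lit 0) (nat_lit 6101054940) (nat_lit 228) (nat_lit 4789757932) (nat_lit 304) (nat_lit 5553902576) (nat_lit 77) (nat_lit 5) (nat_lit 80) (nat_lit 5) (nat_lit 81) (nat_lit 5) (nat_lit 330) (nat_lit 272) (nat_lit 178)) (XT.lf (nat_lit 0) (nat_lit 14283684501) (nat_lit 304) (nat_lit 2125917650) (nat_lit 76) (nat_lit 359280214) (nat_lit 77) (nat_lit 5) (nat_lit 81) (nat_lit 5) (nat_lit 78) (nat_lit 5) (nat_lit 331) (nat_lit 272) (nat_lit 177)))) (XT.nd (nat_lit 156) (nat_lit 228) (nat_lit 0) (XT.nd (nat_lit 78) (nat_lit 0) (nat_lit 0) (XT.lf (nat_lit 0) (nat_lit 754156994) (nat_lit 380) (nat_lit 10718474413) (nat_lit 76) (nat_lit 5627207606) (nat_lit 72) (nat_lit 5) (nat_lit 77) (nat_lit 5) (nat_lit 73) (nat_lit 5) (nat_lit 332) (nat_lit 272) (nat_lit 176)) (XT.lf (nat_lit 0) (nat_lit 4044551186) (nat_lit 380) (nat_lit 2304187275)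 (nat_lit 76) (nat_lit 11091145790) (nat_lit 72) (nat_lit 5) (nat_lit 77) (nat_lit 5) (nat_lit 73) (nat_lit 5) (nat_lit 333) (nat_lit 272) (nat_lit 175))) (XT.nd (nat_lit 78) (nat_lit 0) (nat_lit 0) (XT.lf (nat_lit 0) (nat_lit 6462684339) (nat_lit 228) (nat_lit 1015745221) (nat_lit 304) (nat_lit 10310370082) (nat_lit 69) (nat_lit 5) (nat_lit 72) (nat_lit 5) (nat_lit 73) (nat_lit 5) (nat_lit 334) (nat_lit 272) (nat_lit 174)) (XT.lf (nat_lit 0) (nat_lit 11064685047) (nat_lit 304) (nat_lit 2677098693) (nat_lit 76) (nat_lit 4404929552) (nat_lit 69) (nat_lit 5) (nat_lit 73) (nat_lit 5) (nat_lit 70) (nat_lit 5) (nat_lit 335) (nat_lit 272) (nat_lit 173))))) (XT.nd (nat_lit 234) (nat_lit 380) (nat_lit 0) (XT.nd (nat_lit 78) (nat_lit 304) (nat_lit 0) (XT.lf (nat_lit 0) (nat_lit 6319262929) (nat_lit 228) (nat_lit 8493391692) (nat_lit 304) (nat_lit 3701097219) (nat_lit 66) (nat_lit 5) (nat_lit 69) (nat_lit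 5) (nat_lit 70) (nat_lit 5) (nat_lit 336) (nat_lit 272) (nat_lit 172)) (XT.nd (nat_lit 78) (nat_lit 304) (nat_lit 0) (XT.lf (nat_lit 0) (nat_lit 15615261940) (nat_lit 228) (nat_lit 3068403811) (nat_lit 304) (nat_lit 207828671) (nat_lit 66) (nat_lit 5) (nat_lit 69) (nat_lit 5) (nat_lit 70) (nat_lit 5) (nat_lit 337) (nat_lit 272) (nat_lit 171)) (XT.lf (nat_lit 0) (nat_lit 3390361771) (nat_lit 304) (nat_lit 13334666303) (nat_lit 76) (nat_lit 2552585472) (nat_lit 62) (nat_lit 5) (nat_lit 66) (nat_lit 5) (nat_lit 63) (nat_lit 5) (nat_lit 338) (nat_lit 272) (nat_lit 170)))) (XT.nd (nat_lit 156) (nat_lit 152) (nat_lit 0) (XT.nd (nat_lit 78) (nat_lit 228) (nat_lit 0) (XT.lf (nat_lit 0) (nat_lit 7140142780) (nat_lit 304) (nat_lit 4226119348) (nat_lit 76) (nat_lit 8307567749) (nat_lit 62) (nat_lit 5) (nat_lit 66) (nat_lit 5) (nat_lit 63) (nat_lit 5) (nat_lit 339) (nat_lit 272) (nat_lit 169)) (XT.lf (nat_lit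 0) (nat_lit 5233644256) (nat_lit 228) (nat_lit 5803577761) (nat_lit 304) (nat_lit 9043676265) (nat_lit 59) (nat_lit 5) (nat_lit 62) (nat_lit 5) (nat_lit 63) (nat_lit 5) (nat_lit 340) (nat_lit 272) (nat_lit 168))) (XT.nd (nat_lit 78) (nat_lit 152) (nat_lit 0) (XT.lf (nat_lit 0) (nat_lit 15039901995) (nat_lit 228) (nat_lit 38704515) (nat_lit 304) (nat_lit 5420759893) (nat_lit 59) (nat_lit 5) (nat_lit 62) (nat_lit 5) (nat_lit 63) (nat_lit 5) (nat_lit 341) (nat_lit 272) (nat_lit 167)) (XT.lf (nat_lit 0) (nat_lit 4211834375) (nat_lit 152) (nat_lit 15111672572) (nat_lit 228) (nat_lit 1604422561) (nat_lit 57) (nat_lit 5) (nat_lit 59) (nat_lit 5) (nat_lit 60) (nat_lit 5) (nat_lit 342) (nat_lit 272) (nat_lit 166)))))) (XT.nd (nat_lit 546) (nat_lit 532) (nat_lit 0) (XT.nd (nat_lit 234) (nat_lit 456) (nat_lit 0) (XT.nd (nat_lit 78) (nat_lit 228) (nat_lit 0) (XT.lf (nat_lit 0) (nat_lit 2322204525) (nat_lit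 228) (nat_lit 7129481385) (nat_lit 76) (nat_lit 11915765471) (nat_lit 56) (nat_lit 5) (nat_lit 59) (nat_lit 5) (nat_lit 57) (nat_lit 5) (nat_lit 343) (nat_lit 272) (nat_lit 165)) (XT.nd (nat_lit 78) (nat_lit 0) (nat_lit 0) (XT.lf (nat_lit 0) (nat_lit 2759707246) (nat_lit 228) (nat_lit 3586773998) (nat_lit 304) (nat_lit 15472846555) (nat_lit 53) (nat_lit 5) (nat_lit 56) (nat_lit 5) (nat_lit 57) (nat_lit 5) (nat_lit 344) (nat_lit 272) (nat_lit 164)) (XT.lf (nat_lit 0) (nat_lit 10573472563) (nat_lit 304) (nat_lit 9238302302) (nat_lit 76) (nat_lit 2470534206) (nat_lit 53) (nat_lit 5) (nat_lit 57) (nat_lit 5) (nat_lit 54) (nat_lit 5) (nat_lit 345) (nat_lit 272) (nat_lit 163)))) (XT.nd (nat_lit 156) (nat_lit 304) (nat_lit 0) (XT.nd (nat_lit 78) (nat_lit 0) (nat_lit 0) (XT.lf (nat_lit 0) (nat_lit 836012278) (nat_lit 152) (nat_lit 14120916563) (nat_lit 228) (nat_lit 7801369196) (nat_lit 51) (nat_lit 5)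 (nat_lit 53) (nat_lit 5) (nat_lit 54) (nat_lit 5) (nat_lit 346) (nat_lit 272) (nat_lit 162)) (XT.lf (nat_lit 0) (nat_lit 11379708263) (nat_lit 152) (nat_lit 8171766666) (nat_lit 228) (nat_lit 3694711841) (nat_lit 51) (nat_lit 5) (nat_lit 53) (nat_lit 5) (nat_lit 54) (nat_lit 5) (nat_lit 347) (nat_lit 272) (nat_lit 161))) (XT.nd (nat_lit 78) (nat_lit 228) (nat_lit 0) (XT.lf (nat_lit 0) (nat_lit 511260080) (nat_lit 228) (nat_lit 1535992822) (nat_lit 76) (nat_lit 21701715455) (nat_lit 50) (nat_lit 5) (nat_lit 53) (nat_lit 5) (nat_lit 51) (nat_lit 5) (nat_lit 348) (nat_lit 272) (nat_lit 160)) (XT.lf (nat_lit 0) (nat_lit 4886913519) (nat_lit 304) (nat_lit 15078938664) (nat_lit 76) (nat_lit 4296357928) (nat_lit 47) (nat_lit 5) (nat_lit 51) (nat_lit 5) (nat_lit 48) (nat_lit 5) (nat_lit 349) (nat_lit 272) (nat_lit 159))))) (XT.nd (nat_lit 234) (nat_lit 380) (nat_lit 0) (XT.nd (nat_lit 78) (nat_lit 152)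 (nat_lit 0) (XT.lf (nat_lit 0) (nat_lit 9416819464) (nat_lit 304) (nat_lit 4576529220) (nat_lit 76) (nat_lit 10796817771) (nat_lit 47) (nat_lit 5) (nat_lit 51) (nat_lit 5) (nat_lit 48) (nat_lit 5) (nat_lit 350) (nat_lit 272) (nat_lit 158)) (XT.nd (nat_lit 78) (nat_lit 0) (nat_lit 0) (XT.lf (nat_lit 0) (nat_lit 6344046726) (nat_lit 152) (nat_lit 7786984921) (nat_lit 228) (nat_lit 11201484198) (nat_lit 45) (nat_lit 5) (nat_lit 47) (nat_lit 5) (nat_lit 48) (nat_lit 5) (nat_lit 351) (nat_lit 272) (nat_lit 157)) (XT.lf (nat_lit 0) (nat_lit 17665556284) (nat_lit 152) (nat_lit 1354923273) (nat_lit 228) (nat_lit 6869648312) (nat_lit 45) (nat_lit 5) (nat_lit 47) (nat_lit 5) (nat_lit 48) (nat_lit 5) (nat_lit 352) (nat_lit 272) (nat_lit 156)))) (XT.nd (nat_lit 156) (nat_lit 152) (nat_lit 0) (XT.nd (nat_lit 78) (nat_lit 76) (nat_lit 0) (XT.lf (nat_lit 0) (nat_lit 2846944577) (nat_lit 152) (nat_lit 21275573482)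 (nat_lit 228) (nat_lit 2339979224) (nat_lit 43) (nat_lit 5) (nat_lit 45) (nat_lit 5) (nat_lit 46) (nat_lit 5) (nat_lit 353) (nat_lit 272) (nat_lit 155)) (XT.lf (nat_lit 0) (nat_lit 2365406504) (nat_lit 228) (nat_lit 12687178012) (nat_lit 76) (nat_lit 11996232295) (nat_lit 42) (nat_lit 5) (nat_lit 45) (nat_lit 5) (nat_lit 43) (nat_lit 5) (nat_lit 354) (nat_lit 272) (nat_lit 154))) (XT.nd (nat_lit 78) (nat_lit 152) (nat_lit 0) (XT.lf (nat_lit 0) (nat_lit 7153192040) (nat_lit 228) (nat_lit 1473772025) (nat_lit 76) (nat_lit 19025424448) (nat_lit 42) (nat_lit 5) (nat_lit 45) (nat_lit 5) (nat_lit 43) (nat_lit 5) (nat_lit 355) (nat_lit 272) (nat_lit 153)) (XT.lf (nat_lit 0) (nat_lit 10257109843) (nat_lit 152) (nat_lit 1914710077) (nat_lit 228) (nat_lit 16099636732) (nat_lit 40) (nat_lit 5) (nat_lit 42) (nat_lit 5) (nat_lit 43) (nat_lit 5) (nat_lit 356) (nat_lit 272) (nat_lit 152))))))))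
noncomputable def xc136 : XT := (XT.nd (nat_lit 2106) (nat_lit 760) (nat_lit 0) (XT.nd (nat_lit 1014) (nat_lit 608) (nat_lit 0) (XT.nd (nat_lit 468) (nat_lit 456) (nat_lit 0) (XT.nd (nat_lit 234) (nat_lit 228) (nat_lit 0) (XT.nd (nat_lit 78) (nat_lit 152) (nat_lit 0) (XT.lf (nat_lit 0) (nat_lit 17392776491) (nat_lit 228) (nat_lit 6605882643) (nat_lit 76) (nat_lit 4908889993) (nat_lit 40) (nat_lit 5) (nat_lit 43) (nat_lit 5) (nat_lit 41) (nat_lit 5) (nat_lit 357) (nat_lit 272) (nat_lit 151)) (XT.nd (nat_lit 78) (nat_lit 0) (nat_lit 0) (XT.lf (nat_lit 0) (nat_lit 5208919421) (nat_lit 152) (nat_lit 17619488368) (nat_lit 228) (nat_lit 6732580437) (nat_lit 38) (nat_lit 5) (nat_lit 40) (nat_lit 5) (nat_lit 41) (nat_lit 5) (nat_lit 358) (nat_lit 272) (nat_lit 150)) (XT.lf (nat_lit 0) (nat_lit 17495158770) (nat_lit 152) (nat_lit 10987815719) (nat_lit 228) (nat_lit 1749385094) (nat_lit 38) (nat_lit 5) (nat_lit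 40) (nat_lit 5) (nat_lit 41) (nat_lit 5) (nat_lit 359) (nat_lit 272) (nat_lit 149)))) (XT.nd (nat_lit 78) (nat_lit 152) (nat_lit 0) (XT.lf (nat_lit 0) (nat_lit 3306652313) (nat_lit 228) (nat_lit 824509965) (nat_lit 76) (nat_lit 26792057917) (nat_lit 37) (nat_lit 5) (nat_lit 40) (nat_lit 5) (nat_lit 38) (nat_lit 5) (nat_lit 360) (nat_lit 272) (nat_lit 148)) (XT.nd (nat_lit 78) (nat_lit 0) (nat_lit 0) (XT.lf (nat_lit 0) (nat_lit 8610141442) (nat_lit 228) (nat_lit 20022869050) (nat_lit 76) (nat_lit 2997353217) (nat_lit 35) (nat_lit 5) (nat_lit 38) (nat_lit 5) (nat_lit 36) (nat_lit 5) (nat_lit 361) (nat_lit 272) (nat_lit 147)) (XT.lf (nat_lit 0) (nat_lit 14111786709) (nat_lit 228) (nat_lit 7987737891) (nat_lit 76) (nat_lit 10258029896) (nat_lit 35) (nat_lit 5) (nat_lit 38) (nat_lit 5) (nat_lit 36) (nat_lit 5) (nat_lit 362) (nat_lit 272) (nat_lit 146))))) (XT.nd (nat_lit 234) (nat_lit 304) (nat_lit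 0) (XT.nd (nat_lit 78) (nat_lit 0) (nat_lit 0) (XT.lf (nat_lit 0) (nat_lit 4478714730) (nat_lit 152) (nat_lit 15332858070) (nat_lit 228) (nat_lit 13293999844) (nat_lit 33) (nat_lit 5) (nat_lit 35) (nat_lit 5) (nat_lit 36) (nat_lit 5) (nat_lit 363) (nat_lit 272) (nat_lit 145)) (XT.nd (nat_lit 78) (nat_lit 0) (nat_lit 0) (XT.lf (nat_lit 0) (nat_lit 17465941322) (nat_lit 152) (nat_lit 8287238046) (nat_lit 228) (nat_lit 8120731414) (nat_lit 33) (nat_lit 5) (nat_lit 35) (nat_lit 5) (nat_lit 36) (nat_lit 5) (nat_lit 364) (nat_lit 272) (nat_lit 144)) (XT.lf (nat_lit 0) (nat_lit 30826318300) (nat_lit 152) (nat_lit 1037168651) (nat_lit 228) (nat_lit 2802102658) (nat_lit 33) (nat_lit 5) (nat_lit 35) (nat_lit 5) (nat_lit 36) (nat_lit 5) (nat_lit 365) (nat_lit 272) (nat_lit 143)))) (XT.nd (nat_lit 156) (nat_lit 152) (nat_lit 0) (XT.nd (nat_lit 78) (nat_lit 0) (nat_lit 0) (XT.lf (nat_lit 0) (nat_lit 2766250650)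 (nat_lit 152) (nat_lit 26295758334) (nat_lit 76) (nat_lit 6413970412) (nat_lit 31) (nat_lit 5) (nat_lit 33) (nat_lit 5) (nat_lit 32) (nat_lit 5) (nat_lit 366) (nat_lit 272) (nat_lit 142)) (XT.lf (nat_lit 0) (nat_lit 8485445899) (nat_lit 152) (nat_lit 13695149277) (nat_lit 76) (nat_lit 14128053847) (nat_lit 31) (nat_lit 5) (nat_lit 33) (nat_lit 5) (nat_lit 32) (nat_lit 5) (nat_lit 367) (nat_lit 272) (nat_lit 141))) (XT.nd (nat_lit 78) (nat_lit 152) (nat_lit 0) (XT.lf (nat_lit 0) (nat_lit 14367177072) (nat_lit 152) (nat_lit 732283636) (nat_lit 76) (nat_lit 22067112898) (nat_lit 31) (nat_lit 5) (nat_lit 33) (nat_lit 5) (nat_lit 32) (nat_lit 5) (nat_lit 368) (nat_lit 272) (nat_lit 140)) (XT.lf (nat_lit 0) (nat_lit 12855012970) (nat_lit 152) (nat_lit 7685140825) (nat_lit 228) (nat_lit 17506641884) (nat_lit 29) (nat_lit 5) (nat_lit 31) (nat_lit 5) (nat_lit 32) (nat_lit 5) (nat_lit 369) (nat_lit 272)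 (nat_lit 139)))))) (XT.nd (nat_lit 546) (nat_lit 304) (nat_lit 0) (XT.nd (nat_lit 234) (nat_lit 228) (nat_lit 0) (XT.nd (nat_lit 78) (nat_lit 76) (nat_lit 0) (XT.lf (nat_lit 0) (nat_lit 26849786987) (nat_lit 152) (nat_lit 47260801) (nat_lit 228) (nat_lit 12056418246) (nat_lit 29) (nat_lit 5) (nat_lit 31) (nat_lit 5) (nat_lit 32) (nat_lit 5) (nat_lit 370) (nat_lit 272) (nat_lit 138)) (XT.nd (nat_lit 78) (nat_lit 0) (nat_lit 0) (XT.lf (nat_lit 0) (nat_lit 1312606633) (nat_lit 76) (nat_lit 32211353058) (nat_lit 152) (nat_lit 6361000834) (nat_lit 28) (nat_lit 5) (nat_lit 29) (nat_lit 5) (nat_lit 30) (nat_lit 4) (nat_lit 371) (nat_lit 272) (nat_lit 137)) (XT.lf (nat_lit 0) (nat_lit 15364256839) (nat_lit 76) (nat_lit 25099739066) (nat_lit 152) (nat_lit 376977695) (nat_lit 28) (nat_lit 5) (nat_lit 29) (nat_lit 5) (nat_lit 30) (nat_lit 4) (nat_lit 372) (nat_lit 272) (nat_lit 136)))) (XT.nd (nat_lit 156)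 (nat_lit 0) (nat_lit 0) (XT.nd (nat_lit 78) (nat_lit 152) (nat_lit 0) (XT.lf (nat_lit 0) (nat_lit 5665439800) (nat_lit 152) (nat_lit 12058331435) (nat_lit 76) (nat_lit 24100476474) (nat_lit 27) (nat_lit 5) (nat_lit 29) (nat_lit 5) (nat_lit 28) (nat_lit 5) (nat_lit 373) (nat_lit 272) (nat_lit 135)) (XT.lf (nat_lit 0) (nat_lit 1779523242) (nat_lit 152) (nat_lit 10111165091) (nat_lit 228) (nat_lit 30945948656) (nat_lit 25) (nat_lit 5) (nat_lit 27) (nat_lit 5) (nat_lit 28) (nat_lit 5) (nat_lit 374) (nat_lit 272) (nat_lit 134))) (XT.nd (nat_lit 78) (nat_lit 0) (nat_lit 0) (XT.lf (nat_lit 0) (nat_lit 16265760856) (nat_lit 152) (nat_lit 2150826677) (nat_lit 228) (nat_lit 25459396514) (nat_lit 25) (nat_lit 5) (nat_lit 27) (nat_lit 5) (nat_lit 28) (nat_lit 5) (nat_lit 375) (nat_lit 272) (nat_lit 133)) (XT.lf (nat_lit 0) (nat_lit 25188704279) (nat_lit 228) (nat_lit 13831772349) (nat_lit 76) (nat_lit 5924524483)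 (nat_lit 25) (nat_lit 5) (nat_lit 28) (nat_lit 5) (nat_lit 26) (nat_lit 4) (nat_lit 376) (nat_lit 272) (nat_lit 132))))) (XT.nd (nat_lit 234) (nat_lit 228) (nat_lit 0) (XT.nd (nat_lit 78) (nat_lit 0) (nat_lit 0) (XT.lf (nat_lit 0) (nat_lit 331906345) (nat_lit 76) (nat_lit 31849088643) (nat_lit 152) (nat_lit 13864586116) (nat_lit 24) (nat_lit 5) (nat_lit 25) (nat_lit 5) (nat_lit 26) (nat_lit 4) (nat_lit 377) (nat_lit 272) (nat_lit 131)) (XT.nd (nat_lit 78) (nat_lit 0) (nat_lit 0) (XT.lf (nat_lit 0) (nat_lit 15190856585) (nat_lit 76) (nat_lit 24324487340) (nat_lit 152) (nat_lit 7659868536) (nat_lit 24) (nat_lit 5) (nat_lit 25) (nat_lit 5) (nat_lit 26) (nat_lit 4) (nat_lit 378) (nat_lit 272) (nat_lit 130)) (XT.lf (nat_lit 0) (nat_lit 30482782530) (nat_lit 76) (nat_lit 16579771604) (nat_lit 152) (nat_lit 1276396274) (nat_lit 24) (nat_lit 5) (nat_lit 25) (nat_lit 5) (nat_lit 26) (nat_lit 4) (nat_lit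 379) (nat_lit 272) (nat_lit 129)))) (XT.nd (nat_lit 156) (nat_lit 0) (nat_lit 0) (XT.nd (nat_lit 78) (nat_lit 152) (nat_lit 0) (XT.lf (nat_lit 0) (nat_lit 5188154021) (nat_lit 152) (nat_lit 3367630003) (nat_lit 76) (nat_lit 40980501852) (nat_lit 23) (nat_lit 5) (nat_lit 25) (nat_lit 5) (nat_lit 24) (nat_lit 5) (nat_lit 380) (nat_lit 272) (nat_lit 128)) (XT.lf (nat_lit 0) (nat_lit 11760213884) (nat_lit 152) (nat_lit 166992069) (nat_lit 228) (nat_lit 38838772099) (nat_lit 21) (nat_lit 5) (nat_lit 23) (nat_lit 5) (nat_lit 24) (nat_lit 5) (nat_lit 381) (nat_lit 272) (nat_lit 127))) (XT.nd (nat_lit 78) (nat_lit 0) (nat_lit 0) (XT.lf (nat_lit 0) (nat_lit 18977429265) (nat_lit 228) (nat_lit 24714633855) (nat_lit 76) (nat_lit 8337230167) (nat_lit 21) (nat_lit 5) (nat_lit 24) (nat_lit 5) (nat_lit 22) (nat_lit 4) (nat_lit 382) (nat_lit 272) (nat_lit 126)) (XT.lf (nat_lit 0) (nat_lit 26234215134) (nat_lit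 228) (nat_lit 10008297233) (nat_lit 76) (nat_lit 17088146154) (nat_lit 21) (nat_lit 5) (nat_lit 24) (nat_lit 5) (nat_lit 22) (nat_lit 4) (nat_lit 383) (nat_lit 272) (nat_lit 125))))))) (XT.nd (nat_lit 1092) (nat_lit 228) (nat_lit 0) (XT.nd (nat_lit 546) (nat_lit 228) (nat_lit 0) (XT.nd (nat_lit 234) (nat_lit 228) (nat_lit 0) (XT.nd (nat_lit 78) (nat_lit 0) (nat_lit 0) (XT.lf (nat_lit 0) (nat_lit 5229752429) (nat_lit 76) (nat_lit 28522818362) (nat_lit 152) (nat_lit 20917180090) (nat_lit 20) (nat_lit 5) (nat_lit 21) (nat_lit 5) (nat_lit 22) (nat_lit 4) (nat_lit 384) (nat_lit 272) (nat_lit 124)) (XT.nd (nat_lit 78) (nat_lit 0) (nat_lit 0) (XT.lf (nat_lit 0) (nat_lit 21118688521) (nat_lit 76) (nat_lit 20472524241) (nat_lit 152) (nat_lit 14454963273) (nat_lit 20) (nat_lit 5) (nat_lit 21) (nat_lit 5) (nat_lit 22) (nat_lit 4) (nat_lit 385) (nat_lit 272) (nat_lit 123)) (XT.lf (nat_lit 0) (nat_lit 37473209840)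 (nat_lit 76) (nat_lit 12185659944) (nat_lit 152) (nat_lit 7805210517) (nat_lit 20) (nat_lit 5) (nat_lit 21) (nat_lit 5) (nat_lit 22) (nat_lit 4) (nat_lit 386) (nat_lit 272) (nat_lit 122)))) (XT.nd (nat_lit 156) (nat_lit 0) (nat_lit 0) (XT.nd (nat_lit 78) (nat_lit 228) (nat_lit 0) (XT.lf (nat_lit 0) (nat_lit 54307606745) (nat_lit 76) (nat_lit 3654984521) (nat_lit 152) (nat_lit 962111358) (nat_lit 20) (nat_lit 5) (nat_lit 21) (nat_lit 5) (nat_lit 22) (nat_lit 4) (nat_lit 387) (nat_lit 272) (nat_lit 121)) (XT.lf (nat_lit 0) (nat_lit 6121911293) (nat_lit 228) (nat_lit 49104525765) (nat_lit 76) (nat_lit 5196321395) (nat_lit 17) (nat_lit 5) (nat_lit 20) (nat_lit 5) (nat_lit 18) (nat_lit 4) (nat_lit 388) (nat_lit 272) (nat_lit 120))) (XT.nd (nat_lit 78) (nat_lit 0) (nat_lit 0) (XT.lf (nat_lit 0) (nat_lit 13476564473) (nat_lit 228) (nat_lit 34194857249) (nat_lit 76) (nat_lit 14291726842) (nat_lit 17) (nat_lit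 5) (nat_lit 20) (nat_lit 5) (nat_lit 18) (nat_lit 4) (nat_lit 389) (nat_lit 272) (nat_lit 119)) (XT.lf (nat_lit 0) (nat_lit 21046201065) (nat_lit 228) (nat_lit 18848181800) (nat_lit 76) (nat_lit 23655538952) (nat_lit 17) (nat_lit 5) (nat_lit 20) (nat_lit 5) (nat_lit 18) (nat_lit 4) (nat_lit 390) (nat_lit 272) (nat_lit 118))))) (XT.nd (nat_lit 234) (nat_lit 152) (nat_lit 0) (XT.nd (nat_lit 78) (nat_lit 76) (nat_lit 0) (XT.lf (nat_lit 0) (nat_lit 28837435317) (nat_lit 228) (nat_lit 3051089700) (nat_lit 76) (nat_lit 33295939694) (nat_lit 17) (nat_lit 5) (nat_lit 20) (nat_lit 5) (nat_lit 18) (nat_lit 4) (nat_lit 391) (nat_lit 272) (nat_lit 117)) (XT.nd (nat_lit 78) (nat_lit 0) (nat_lit 0) (XT.lf (nat_lit 0) (nat_lit 13473131659) (nat_lit 76) (nat_lit 23513455425) (nat_lit 152) (nat_lit 29877733046) (nat_lit 16) (nat_lit 5) (nat_lit 17) (nat_lit 5) (nat_lit 18) (nat_lit 4) (nat_lit 392) (nat_lit 272)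 (nat_lit 116)) (XT.lf (nat_lit 0) (nat_lit 30546026207) (nat_lit 76) (nat_lit 14859728754) (nat_lit 152) (nat_lit 23188051607) (nat_lit 16) (nat_lit 5) (nat_lit 17) (nat_lit 5) (nat_lit 18) (nat_lit 4) (nat_lit 393) (nat_lit 272) (nat_lit 115)))) (XT.nd (nat_lit 156) (nat_lit 152) (nat_lit 0) (XT.nd (nat_lit 78) (nat_lit 0) (nat_lit 0) (XT.lf (nat_lit 0) (nat_lit 48121789338) (nat_lit 76) (nat_lit 5950593519) (nat_lit 152) (nat_lit 16302949750) (nat_lit 16) (nat_lit 5) (nat_lit 17) (nat_lit 5) (nat_lit 18) (nat_lit 4) (nat_lit 394) (nat_lit 272) (nat_lit 114)) (XT.lf (nat_lit 0) (nat_lit 63025012840) (nat_lit 152) (nat_lit 6025645692) (nat_lit 0) (nat_lit 3158867308) (nat_lit 16) (nat_lit 5) (nat_lit 18) (nat_lit 4) (nat_lit 16) (nat_lit 4) (nat_lit 395) (nat_lit 272) (nat_lit 113))) (XT.nd (nat_lit 78) (nat_lit 76) (nat_lit 0) (XT.lf (nat_lit 0) (nat_lit 10832664983) (nat_lit 76) (nat_lit 61571744230)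 (nat_lit 76) (nat_lit 1689591500) (nat_lit 15) (nat_lit 4) (nat_lit 16) (nat_lit 5) (nat_lit 16) (nat_lit 4) (nat_lit 396) (nat_lit 272) (nat_lit 112)) (XT.lf (nat_lit 0) (nat_lit 5969105293) (nat_lit 152) (nat_lit 47780409952) (nat_lit 76) (nat_lit 22282059055) (nat_lit 14) (nat_lit 5) (nat_lit 16) (nat_lit 5) (nat_lit 15) (nat_lit 4) (nat_lit 397) (nat_lit 272) (nat_lit 111)))))) (XT.nd (nat_lit 546) (nat_lit 152) (nat_lit 0) (XT.nd (nat_lit 234) (nat_lit 0) (nat_lit 0) (XT.nd (nat_lit 78) (nat_lit 76) (nat_lit 0) (XT.lf (nat_lit 0) (nat_lit 13818893661) (nat_lit 152) (nat_lit 31860427883) (nat_lit 76) (nat_lit 32347594340) (nat_lit 14) (nat_lit 5) (nat_lit 16) (nat_lit 5) (nat_lit 15) (nat_lit 4) (nat_lit 398) (nat_lit 272) (nat_lit 110)) (XT.nd (nat_lit 78) (nat_lit 76) (nat_lit 0) (XT.lf (nat_lit 0) (nat_lit 21899602658) (nat_lit 152) (nat_lit 15471237472) (nat_lit 76) (nat_lit 42711416080)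 (nat_lit 14) (nat_lit 5) (nat_lit 16) (nat_lit 5) (nat_lit 15) (nat_lit 4) (nat_lit 399) (nat_lit 272) (nat_lit 109)) (XT.lf (nat_lit 0) (nat_lit 1429374169) (nat_lit 76) (nat_lit 28802658947) (nat_lit 152) (nat_lit 51966945891) (nat_lit 13) (nat_lit 5) (nat_lit 14) (nat_lit 5) (nat_lit 15) (nat_lit 4) (nat_lit 400) (nat_lit 272) (nat_lit 108)))) (XT.nd (nat_lit 156) (nat_lit 0) (nat_lit 0) (XT.nd (nat_lit 78) (nat_lit 0) (nat_lit 0) (XT.lf (nat_lit 0) (nat_lit 19146082512) (nat_lit 76) (nat_lit 19820195082) (nat_lit 152) (nat_lit 45408371888) (nat_lit 13) (nat_lit 5) (nat_lit 14) (nat_lit 5) (nat_lit 15) (nat_lit 4) (nat_lit 401) (nat_lit 272) (nat_lit 107)) (XT.lf (nat_lit 0) (nat_lit 37386460213) (nat_lit 76) (nat_lit 10571828946) (nat_lit 152) (nat_lit 38657429914) (nat_lit 13) (nat_lit 5) (nat_lit 14) (nat_lit 5) (nat_lit 15) (nat_lit 4) (nat_lit 402) (nat_lit 272) (nat_lit 106))) (XT.nd (nat_lit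 78) (nat_lit 0) (nat_lit 0) (XT.lf (nat_lit 0) (nat_lit 56166445466) (nat_lit 76) (nat_lit 1049479442) (nat_lit 152) (nat_lit 31708221088) (nat_lit 13) (nat_lit 5) (nat_lit 14) (nat_lit 5) (nat_lit 15) (nat_lit 4) (nat_lit 403) (nat_lit 272) (nat_lit 105)) (XT.lf (nat_lit 0) (nat_lit 66831434124) (nat_lit 152) (nat_lit 15883659443) (nat_lit 0) (nat_lit 8584328951) (nat_lit 13) (nat_lit 5) (nat_lit 15) (nat_lit 4) (nat_lit 13) (nat_lit 4) (nat_lit 404) (nat_lit 272) (nat_lit 104))))) (XT.nd (nat_lit 234) (nat_lit 76) (nat_lit 0) (XT.nd (nat_lit 78) (nat_lit 0) (nat_lit 0) (XT.lf (nat_lit 0) (nat_lit 1508392231) (nat_lit 76) (nat_lit 75247976709) (nat_lit 76) (nat_lit 16988960678) (nat_lit 12) (nat_lit 4) (nat_lit 13) (nat_lit 5) (nat_lit 13) (nat_lit 4) (nat_lit 405) (nat_lit 272) (nat_lit 103)) (XT.nd (nat_lit 78) (nat_lit 0) (nat_lit 0) (XT.lf (nat_lit 0) (nat_lit 19740622094) (nat_lit 76) (nat_lit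 67394938798) (nat_lit 76) (nat_lit 9124358827) (nat_lit 12) (nat_lit 4) (nat_lit 13) (nat_lit 5) (nat_lit 13) (nat_lit 4) (nat_lit 406) (nat_lit 272) (nat_lit 102)) (XT.lf (nat_lit 0) (nat_lit 38512845252) (nat_lit 76) (nat_lit 59309511773) (nat_lit 76) (nat_lit 1027704676) (nat_lit 12) (nat_lit 4) (nat_lit 13) (nat_lit 5) (nat_lit 13) (nat_lit 4) (nat_lit 407) (nat_lit 272) (nat_lit 101)))) (XT.nd (nat_lit 156) (nat_lit 0) (nat_lit 0) (XT.nd (nat_lit 78) (nat_lit 0) (nat_lit 0) (XT.lf (nat_lit 0) (nat_lit 7165469627) (nat_lit 152) (nat_lit 43746803875) (nat_lit 76) (nat_lit 50603637798) (nat_lit 11) (nat_lit 5) (nat_lit 13) (nat_lit 5) (nat_lit 12) (nat_lit 4) (nat_lit 408) (nat_lit 272) (nat_lit 100)) (XT.lf (nat_lit 0) (nat_lit 15580192089) (nat_lit 152) (nat_lit 26675499920) (nat_lit 76) (nat_lit 62005847798) (nat_lit 11) (nat_lit 5) (nat_lit 13) (nat_lit 5) (nat_lit 12) (nat_lit 4) (nat_lit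 409) (nat_lit 272) (nat_lit 99))) (XT.nd (nat_lit 29952) (nat_lit 0) (nat_lit 19912) (XT.lf (nat_lit 0) (nat_lit 24243869600) (nat_lit 152) (nat_lit 9098508983) (nat_lit 76) (nat_lit 73747264100) (nat_lit 11) (nat_lit 5) (nat_lit 13) (nat_lit 5) (nat_lit 12) (nat_lit 4) (nat_lit 410) (nat_lit 272) (nat_lit 98)) (XT.lf (nat_lit 0) (nat_lit 1452950801) (nat_lit 0) (nat_lit 1452950801) (nat_lit 684) (nat_lit 681583892) (nat_lit 273) (nat_lit 5) (nat_lit 273) (nat_lit 3) (nat_lit 282) (nat_lit 3) (nat_lit 273) (nat_lit 273) (nat_lit 234))))))))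
noncomputable def xc137 : XT := (XT.nd (nat_lit 2184) (nat_lit 6308) (nat_lit 0) (XT.nd (nat_lit 1092) (nat_lit 6004) (nat_lit 0) (XT.nd (nat_lit 546) (nat_lit 836) (nat_lit 0) (XT.nd (nat_lit 234) (nat_lit 684) (nat_lit 0) (XT.nd (nat_lit 78) (nat_lit 0) (nat_lit 76) (XT.lf (nat_lit 0) (nat_lit 232646384) (nat_lit 836) (nat_lit 950133339) (nat_lit 836) (nat_lit 6050179628) (nat_lit 262) (nat_lit 3) (nat_lit 273) (nat_lit 3) (nat_lit 273) (nat_lit 5) (nat_lit 274) (nat_lit 273) (nat_lit 233)) (XT.nd (nat_lit 78) (nat_lit 0) (nat_lit 0) (XT.lf (nat_lit 0) (nat_lit 1817014518) (nat_lit 760) (nat_lit 4828765482) (nat_lit 836) (nat_lit 647552126) (nat_lit 263) (nat_lit 5) (nat_lit 273) (nat_lit 5) (nat_lit 274) (nat_lit 5) (nat_lit 275) (nat_lit 273) (nat_lit 232)) (XT.lf (nat_lit 0) (nat_lit 3410068757) (nat_lit 760) (nat_lit 1399706784) (nat_lit 836) (nat_lit 2546995212) (nat_lit 263) (nat_lit 5)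 (nat_lit 273) (nat_lit 5) (nat_lit 274) (nat_lit 5) (nat_lit 276) (nat_lit 273) (nat_lit 231)))) (XT.nd (nat_lit 156) (nat_lit 760) (nat_lit 0) (XT.nd (nat_lit 78) (nat_lit 0) (nat_lit 0) (XT.lf (nat_lit 76) (nat_lit 2141133762) (nat_lit 0) (nat_lit 2871872352) (nat_lit 836) (nat_lit 2410330400) (nat_lit 264) (nat_lit 5) (nat_lit 263) (nat_lit 5) (nat_lit 274) (nat_lit 5) (nat_lit 277) (nat_lit 273) (nat_lit 230)) (XT.lf (nat_lit 76) (nat_lit 5784343263) (nat_lit 0) (nat_lit 836722950) (nat_lit 836) (nat_lit 872206189) (nat_lit 264) (nat_lit 5) (nat_lit 263) (nat_lit 5) (nat_lit 274) (nat_lit 5) (nat_lit 278) (nat_lit 273) (nat_lit 229))) (XT.nd (nat_lit 78) (nat_lit 0) (nat_lit 0) (XT.lf (nat_lit 0) (nat_lit 673627354) (nat_lit 836) (nat_lit 5608529508) (nat_lit 912) (nat_lit 1283759706) (nat_lit 253) (nat_lit 5) (nat_lit 264) (nat_lit 5) (nat_lit 265) (nat_lit 5) (nat_lit 279) (nat_lit 273) (nat_lit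 228)) (XT.lf (nat_lit 0) (nat_lit 2219486793) (nat_lit 836) (nat_lit 1922997153) (nat_lit 912) (nat_lit 3498938651) (nat_lit 253) (nat_lit 5) (nat_lit 264) (nat_lit 5) (nat_lit 265) (nat_lit 5) (nat_lit 280) (nat_lit 273) (nat_lit 227))))) (XT.nd (nat_lit 234) (nat_lit 836) (nat_lit 0) (XT.nd (nat_lit 78) (nat_lit 0) (nat_lit 76) (XT.lf (nat_lit 76) (nat_lit 1876308925) (nat_lit 0) (nat_lit 1900506883) (nat_lit 912) (nat_lit 3943499988) (nat_lit 254) (nat_lit 5) (nat_lit 253) (nat_lit 5) (nat_lit 265) (nat_lit 5) (nat_lit 281) (nat_lit 273) (nat_lit 226)) (XT.nd (nat_lit 78) (nat_lit 0) (nat_lit 0) (XT.lf (nat_lit 0) (nat_lit 5352865204) (nat_lit 836) (nat_lit 2010982358) (nat_lit 912) (nat_lit 438640841) (nat_lit 254) (nat_lit 5) (nat_lit 265) (nat_lit 5) (nat_lit 266) (nat_lit 5) (nat_lit 282) (nat_lit 273) (nat_lit 225)) (XT.lf (nat_lit 76) (nat_lit 1921852584) (nat_lit 0) (nat_lit 5041596350)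 (nat_lit 912) (nat_lit 924130179) (nat_lit 255) (nat_lit 5) (nat_lit 254) (nat_lit 5) (nat_lit 266) (nat_lit 5) (nat_lit 283) (nat_lit 273) (nat_lit 224)))) (XT.nd (nat_lit 156) (nat_lit 0) (nat_lit 76) (XT.nd (nat_lit 78) (nat_lit 0) (nat_lit 0) (XT.lf (nat_lit 0) (nat_lit 605553573) (nat_lit 912) (nat_lit 2001723596) (nat_lit 988) (nat_lit 5368693609) (nat_lit 242) (nat_lit 5) (nat_lit 254) (nat_lit 5) (nat_lit 255) (nat_lit 5) (nat_lit 284) (nat_lit 273) (nat_lit 223)) (XT.lf (nat_lit 76) (nat_lit 2079042178) (nat_lit 0) (nat_lit 55482695) (nat_lit 988) (nat_lit 5933120218) (nat_lit 243) (nat_lit 5) (nat_lit 242) (nat_lit 5) (nat_lit 255) (nat_lit 5) (nat_lit 285) (nat_lit 273) (nat_lit 222))) (XT.nd (nat_lit 78) (nat_lit 0) (nat_lit 0) (XT.lf (nat_lit 0) (nat_lit 3707707433) (nat_lit 912) (nat_lit 1897981151) (nat_lit 988) (nat_lit 2556493434) (nat_lit 243) (nat_lit 5) (nat_lit 255) (nat_lit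 5) (nat_lit 256) (nat_lit 5) (nat_lit 286) (nat_lit 273) (nat_lit 221)) (XT.lf (nat_lit 76) (nat_lit 2326370728) (nat_lit 0) (nat_lit 2979186325) (nat_lit 988) (nat_lit 2954734675) (nat_lit 244) (nat_lit 5) (nat_lit 243) (nat_lit 5) (nat_lit 256) (nat_lit 5) (nat_lit 287) (nat_lit 273) (nat_lit 220)))))) (XT.nd (nat_lit 546) (nat_lit 3116) (nat_lit 0) (XT.nd (nat_lit 234) (nat_lit 2052) (nat_lit 0) (XT.nd (nat_lit 78) (nat_lit 912) (nat_lit 0) (XT.lf (nat_lit 76) (nat_lit 6682856560) (nat_lit 0) (nat_lit 243212690) (nat_lit 988) (nat_lit 1436092718) (nat_lit 244) (nat_lit 5) (nat_lit 243) (nat_lit 5) (nat_lit 256) (nat_lit 5) (nat_lit 288) (nat_lit 273) (nat_lit 219)) (XT.nd (nat_lit 78) (nat_lit 0) (nat_lit 0) (XT.lf (nat_lit 0) (nat_lit 133260212) (nat_lit 988) (nat_lit 5771381605) (nat_lit 76) (nat_lit 2562235670) (nat_lit 231) (nat_lit 5) (nat_lit 244) (nat_lit 5) (nat_lit 232) (nat_lit 5)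 (nat_lit 289) (nat_lit 273) (nat_lit 218)) (XT.lf (nat_lit 0) (nat_lit 1697779604) (nat_lit 988) (nat_lit 1389604741) (nat_lit 76) (nat_lit 5487669106) (nat_lit 231) (nat_lit 5) (nat_lit 244) (nat_lit 5) (nat_lit 232) (nat_lit 5) (nat_lit 290) (nat_lit 273) (nat_lit 217)))) (XT.nd (nat_lit 156) (nat_lit 1064) (nat_lit 0) (XT.nd (nat_lit 78) (nat_lit 0) (nat_lit 0) (XT.lf (nat_lit 0) (nat_lit 3151580777) (nat_lit 988) (nat_lit 146605304) (nat_lit 1064) (nat_lit 5388672535) (nat_lit 218) (nat_lit 5) (nat_lit 231) (nat_lit 5) (nat_lit 232) (nat_lit 5) (nat_lit 291) (nat_lit 273) (nat_lit 216)) (XT.lf (nat_lit 0) (nat_lit 4948094449) (nat_lit 1064) (nat_lit 1006504685) (nat_lit 76) (nat_lit 2847425049) (nat_lit 218) (nat_lit 5) (nat_lit 232) (nat_lit 5) (nat_lit 219) (nat_lit 5) (nat_lit 292) (nat_lit 273) (nat_lit 215))) (XT.nd (nat_lit 78) (nat_lit 0) (nat_lit 0) (XT.lf (nat_lit 0) (nat_lit 3695245128)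 (nat_lit 1064) (nat_lit 2950014924) (nat_lit 1140) (nat_lit 2275501322) (nat_lit 204) (nat_lit 5) (nat_lit 218) (nat_lit 5) (nat_lit 219) (nat_lit 5) (nat_lit 293) (nat_lit 273) (nat_lit 214)) (XT.lf (nat_lit 0) (nat_lit 8366656074) (nat_lit 1140) (nat_lit 520030763) (nat_lit 76) (nat_lit 157222392) (nat_lit 204) (nat_lit 5) (nat_lit 219) (nat_lit 5) (nat_lit 205) (nat_lit 5) (nat_lit 294) (nat_lit 273) (nat_lit 213))))) (XT.nd (nat_lit 234) (nat_lit 1216) (nat_lit 0) (XT.nd (nat_lit 78) (nat_lit 684) (nat_lit 0) (XT.lf (nat_lit 0) (nat_lit 984112030) (nat_lit 1216) (nat_lit 4830619796) (nat_lit 76) (nat_lit 3354763217) (nat_lit 188) (nat_lit 5) (nat_lit 204) (nat_lit 5) (nat_lit 189) (nat_lit 5) (nat_lit 295) (nat_lit 273) (nat_lit 212)) (XT.nd (nat_lit 78) (nat_lit 0) (nat_lit 0) (XT.lf (nat_lit 0) (nat_lit 15146847) (nat_lit 684) (nat_lit 2635145226) (nat_lit 760) (nat_lit 6649341553) (nat_lit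 179) (nat_lit 5) (nat_lit 188) (nat_lit 5) (nat_lit 189) (nat_lit 5) (nat_lit 296) (nat_lit 273) (nat_lit 211)) (XT.lf (nat_lit 0) (nat_lit 4385783128) (nat_lit 760) (nat_lit 4368263778) (nat_lit 76) (nat_lit 679092352) (nat_lit 179) (nat_lit 5) (nat_lit 189) (nat_lit 5) (nat_lit 180) (nat_lit 5) (nat_lit 297) (nat_lit 273) (nat_lit 210)))) (XT.nd (nat_lit 156) (nat_lit 608) (nat_lit 0) (XT.nd (nat_lit 78) (nat_lit 0) (nat_lit 0) (XT.lf (nat_lit 0) (nat_lit 648290439) (nat_lit 608) (nat_lit 5522334305) (nat_lit 684) (nat_lit 3400148158) (nat_lit 171) (nat_lit 5) (nat_lit 179) (nat_lit 5) (nat_lit 180) (nat_lit 5) (nat_lit 298) (nat_lit 273) (nat_lit 209)) (XT.lf (nat_lit 0) (nat_lit 5871501545) (nat_lit 608) (nat_lit 2147284047) (nat_lit 684) (nat_lit 1693496955) (nat_lit 171) (nat_lit 5) (nat_lit 179) (nat_lit 5) (nat_lit 180) (nat_lit 5) (nat_lit 299) (nat_lit 273) (nat_lit 208))) (XT.nd (nat_lit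 78) (nat_lit 0) (nat_lit 0) (XT.lf (nat_lit 0) (nat_lit 55641622) (nat_lit 608) (nat_lit 8484896097) (nat_lit 76) (nat_lit 1317742798) (nat_lit 163) (nat_lit 5) (nat_lit 171) (nat_lit 5) (nat_lit 164) (nat_lit 5) (nat_lit 300) (nat_lit 273) (nat_lit 207)) (XT.lf (nat_lit 0) (nat_lit 1850608959) (nat_lit 608) (nat_lit 3257026144) (nat_lit 76) (nat_lit 4899735337) (nat_lit 163) (nat_lit 5) (nat_lit 171) (nat_lit 5) (nat_lit 164) (nat_lit 5) (nat_lit 301) (nat_lit 273) (nat_lit 206))))))) (XT.nd (nat_lit 1092) (nat_lit 2508) (nat_lit 0) (XT.nd (nat_lit 546) (nat_lit 1748) (nat_lit 0) (XT.nd (nat_lit 234) (nat_lit 1064) (nat_lit 0) (XT.nd (nat_lit 78) (nat_lit 456) (nat_lit 0) (XT.lf (nat_lit 0) (nat_lit 2136529781) (nat_lit 532) (nat_lit 1551359007) (nat_lit 608) (nat_lit 6473426097) (nat_lit 156) (nat_lit 5) (nat_lit 163) (nat_lit 5) (nat_lit 164) (nat_lit 5) (nat_lit 302) (nat_lit 273) (nat_lit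 205)) (XT.nd (nat_lit 78) (nat_lit 456) (nat_lit 0) (XT.lf (nat_lit 0) (nat_lit 5602337456) (nat_lit 608) (nat_lit 2614343977) (nat_lit 76) (nat_lit 2102569402) (nat_lit 156) (nat_lit 5) (nat_lit 164) (nat_lit 5) (nat_lit 157) (nat_lit 5) (nat_lit 303) (nat_lit 273) (nat_lit 204)) (XT.lf (nat_lit 0) (nat_lit 2968463627) (nat_lit 456) (nat_lit 4619104212) (nat_lit 532) (nat_lit 2893990253) (nat_lit 150) (nat_lit 5) (nat_lit 156) (nat_lit 5) (nat_lit 157) (nat_lit 5) (nat_lit 304) (nat_lit 273) (nat_lit 203)))) (XT.nd (nat_lit 156) (nat_lit 456) (nat_lit 0) (XT.nd (nat_lit 78) (nat_lit 608) (nat_lit 0) (XT.lf (nat_lit 0) (nat_lit 8740153514) (nat_lit 456) (nat_lit 888635185) (nat_lit 532) (nat_lit 1020085557) (nat_lit 150) (nat_lit 5) (nat_lit 156) (nat_lit 5) (nat_lit 157) (nat_lit 5) (nat_lit 305) (nat_lit 273) (nat_lit 202)) (XT.lf (nat_lit 0) (nat_lit 929174949) (nat_lit 608) (nat_lit 6950310632)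 (nat_lit 76) (nat_lit 2940385804) (nat_lit 142) (nat_lit 5) (nat_lit 150) (nat_lit 5) (nat_lit 143) (nat_lit 5) (nat_lit 306) (nat_lit 273) (nat_lit 201))) (XT.nd (nat_lit 78) (nat_lit 456) (nat_lit 0) (XT.lf (nat_lit 0) (nat_lit 2915788894) (nat_lit 608) (nat_lit 1186620880) (nat_lit 76) (nat_lit 6893334230) (nat_lit 142) (nat_lit 5) (nat_lit 150) (nat_lit 5) (nat_lit 143) (nat_lit 5) (nat_lit 307) (nat_lit 273) (nat_lit 200)) (XT.lf (nat_lit 0) (nat_lit 4812402183) (nat_lit 456) (nat_lit 167814935) (nat_lit 532) (nat_lit 6196158256) (nat_lit 136) (nat_lit 5) (nat_lit 142) (nat_lit 5) (nat_lit 143) (nat_lit 5) (nat_lit 308) (nat_lit 273) (nat_lit 199))))) (XT.nd (nat_lit 234) (nat_lit 912) (nat_lit 0) (XT.nd (nat_lit 78) (nat_lit 836) (nat_lit 0) (XT.lf (nat_lit 0) (nat_lit 7128460778) (nat_lit 532) (nat_lit 415802526) (nat_lit 76) (nat_lit 3817534108) (nat_lit 136) (nat_lit 5) (nat_lit 143) (nat_lit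 5) (nat_lit 137) (nat_lit 5) (nat_lit 309) (nat_lit 273) (nat_lit 198)) (XT.nd (nat_lit 78) (nat_lit 380) (nat_lit 0) (XT.lf (nat_lit 0) (nat_lit 5791093781) (nat_lit 456) (nat_lit 3580627967) (nat_lit 532) (nat_lit 2180170645) (nat_lit 130) (nat_lit 5) (nat_lit 136) (nat_lit 5) (nat_lit 137) (nat_lit 5) (nat_lit 310) (nat_lit 273) (nat_lit 197)) (XT.lf (nat_lit 0) (nat_lit 416894827) (nat_lit 380) (nat_lit 11252139816) (nat_lit 456) (nat_lit 79079542) (nat_lit 125) (nat_lit 5) (nat_lit 130) (nat_lit 5) (nat_lit 131) (nat_lit 5) (nat_lit 311) (nat_lit 273) (nat_lit 196)))) (XT.nd (nat_lit 156) (nat_lit 380) (nat_lit 0) (XT.nd (nat_lit 78) (nat_lit 456) (nat_lit 0) (XT.lf (nat_lit 0) (nat_lit 2112424801) (nat_lit 456) (nat_lit 5138304399) (nat_lit 76) (nat_lit 4696875190) (nat_lit 124) (nat_lit 5) (nat_lit 130) (nat_lit 5) (nat_lit 125) (nat_lit 5) (nat_lit 312) (nat_lit 273) (nat_lit 195)) (XT.lf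 (nat_lit 0) (nat_lit 1232830951) (nat_lit 456) (nat_lit 3121732521) (nat_lit 532) (nat_lit 7798922309) (nat_lit 118) (nat_lit 5) (nat_lit 124) (nat_lit 5) (nat_lit 125) (nat_lit 5) (nat_lit 313) (nat_lit 273) (nat_lit 194))) (XT.nd (nat_lit 78) (nat_lit 380) (nat_lit 0) (XT.lf (nat_lit 0) (nat_lit 6702259371) (nat_lit 532) (nat_lit 4506199502) (nat_lit 76) (nat_lit 1155959569) (nat_lit 118) (nat_lit 5) (nat_lit 125) (nat_lit 5) (nat_lit 119) (nat_lit 5) (nat_lit 314) (nat_lit 273) (nat_lit 193)) (XT.lf (nat_lit 0) (nat_lit 2080024207) (nat_lit 380) (nat_lit 7067011622) (nat_lit 456) (nat_lit 3433866697) (nat_lit 113) (nat_lit 5) (nat_lit 118) (nat_lit 5) (nat_lit 119) (nat_lit 5) (nat_lit 315) (nat_lit 273) (nat_lit 192)))))) (XT.nd (nat_lit 546) (nat_lit 1292) (nat_lit 0) (XT.nd (nat_lit 234) (nat_lit 760) (nat_lit 0) (XT.nd (nat_lit 78) (nat_lit 456) (nat_lit 0) (XT.lf (nat_lit 0) (nat_lit 8926159008)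 (nat_lit 380) (nat_lit 2760664883) (nat_lit 456) (nat_lit 1116429454) (nat_lit 113) (nat_lit 5) (nat_lit 118) (nat_lit 5) (nat_lit 119) (nat_lit 5) (nat_lit 316) (nat_lit 273) (nat_lit 191)) (XT.nd (nat_lit 78) (nat_lit 0) (nat_lit 0) (XT.lf (nat_lit 0) (nat_lit 1267255116) (nat_lit 456) (nat_lit 10086903089) (nat_lit 76) (nat_lit 1677125572) (nat_lit 107) (nat_lit 5) (nat_lit 113) (nat_lit 5) (nat_lit 108) (nat_lit 5) (nat_lit 317) (nat_lit 273) (nat_lit 190)) (XT.lf (nat_lit 0) (nat_lit 3743829254) (nat_lit 456) (nat_lit 3283796398) (nat_lit 76) (nat_lit 6236903687) (nat_lit 107) (nat_lit 5) (nat_lit 113) (nat_lit 5) (nat_lit 108) (nat_lit 5) (nat_lit 318) (nat_lit 273) (nat_lit 189)))) (XT.nd (nat_lit 156) (nat_lit 456) (nat_lit 0) (XT.nd (nat_lit 78) (nat_lit 0) (nat_lit 0) (XT.lf (nat_lit 0) (nat_lit 3767783115) (nat_lit 304) (nat_lit 2540753365) (nat_lit 380) (nat_lit 7195840493) (nat_lit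 103) (nat_lit 5) (nat_lit 107) (nat_lit 5) (nat_lit 108) (nat_lit 5) (nat_lit 319) (nat_lit 273) (nat_lit 188)) (XT.lf (nat_lit 0) (nat_lit 8981600645) (nat_lit 380) (nat_lit 2702001411) (nat_lit 76) (nat_lit 2066894713) (nat_lit 103) (nat_lit 5) (nat_lit 108) (nat_lit 5) (nat_lit 104) (nat_lit 5) (nat_lit 320) (nat_lit 273) (nat_lit 187))) (XT.nd (nat_lit 78) (nat_lit 76) (nat_lit 0) (XT.lf (nat_lit 0) (nat_lit 4579216963) (nat_lit 380) (nat_lit 7203383202) (nat_lit 456) (nat_lit 2219986337) (nat_lit 98) (nat_lit 5) (nat_lit 103) (nat_lit 5) (nat_lit 104) (nat_lit 5) (nat_lit 321) (nat_lit 273) (nat_lit 186)) (XT.lf (nat_lit 0) (nat_lit 403729794) (nat_lit 456) (nat_lit 2160101086) (nat_lit 76) (nat_lit 11698121226) (nat_lit 97) (nat_lit 5) (nat_lit 103) (nat_lit 5) (nat_lit 98) (nat_lit 5) (nat_lit 322) (nat_lit 273) (nat_lit 185))))) (XT.nd (nat_lit 234) (nat_lit 684) (nat_lit 0) (XT.nd (nat_lit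 78) (nat_lit 304) (nat_lit 0) (XT.lf (nat_lit 0) (nat_lit 3114481619) (nat_lit 380) (nat_lit 9173421502) (nat_lit 76) (nat_lit 2238964906) (nat_lit 93) (nat_lit 5) (nat_lit 98) (nat_lit 5) (nat_lit 94) (nat_lit 5) (nat_lit 323) (nat_lit 273) (nat_lit 184)) (XT.nd (nat_lit 78) (nat_lit 304) (nat_lit 0) (XT.lf (nat_lit 0) (nat_lit 5933550645) (nat_lit 380) (nat_lit 1716215671) (nat_lit 76) (nat_lit 7149171838) (nat_lit 93) (nat_lit 5) (nat_lit 98) (nat_lit 5) (nat_lit 94) (nat_lit 5) (nat_lit 324) (nat_lit 273) (nat_lit 183)) (XT.lf (nat_lit 0) (nat_lit 6055473624) (nat_lit 304) (nat_lit 2820103177) (nat_lit 380) (nat_lit 6202458114) (nat_lit 89) (nat_lit 5) (nat_lit 93) (nat_lit 5) (nat_lit 94) (nat_lit 5) (nat_lit 325) (nat_lit 273) (nat_lit 182)))) (XT.nd (nat_lit 156) (nat_lit 380) (nat_lit 0) (XT.nd (nat_lit 78) (nat_lit 304) (nat_lit 0) (XT.lf (nat_lit 0) (nat_lit 11924495141) (nat_lit 380)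 (nat_lit 1318027601) (nat_lit 76) (nat_lit 2122438512) (nat_lit 89) (nat_lit 5) (nat_lit 94) (nat_lit 5) (nat_lit 90) (nat_lit 5) (nat_lit 326) (nat_lit 273) (nat_lit 181)) (XT.lf (nat_lit 0) (nat_lit 6693483986) (nat_lit 304) (nat_lit 8444650533) (nat_lit 380) (nat_lit 520178420) (nat_lit 85) (nat_lit 5) (nat_lit 89) (nat_lit 5) (nat_lit 90) (nat_lit 5) (nat_lit 327) (nat_lit 273) (nat_lit 180))) (XT.nd (nat_lit 78) (nat_lit 304) (nat_lit 0) (XT.lf (nat_lit 0) (nat_lit 2433703075) (nat_lit 380) (nat_lit 1038729654) (nat_lit 76) (nat_lit 12487493446) (nat_lit 84) (nat_lit 5) (nat_lit 89) (nat_lit 5) (nat_lit 85) (nat_lit 5) (nat_lit 328) (nat_lit 273) (nat_lit 179)) (XT.lf (nat_lit 0) (nat_lit 5533447203) (nat_lit 380) (nat_lit 9050435501) (nat_lit 76) (nat_lit 1684533433) (nat_lit 80) (nat_lit 5) (nat_lit 85) (nat_lit 5) (nat_lit 81) (nat_lit 5) (nat_lit 329) (nat_lit 273) (nat_lit 178))))))))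
noncomputable def xc138 : XT := (XT.nd (nat_lit 2106) (nat_lit 1596) (nat_lit 0) (XT.nd (nat_lit 1014) (nat_lit 1292) (nat_lit 0) (XT.nd (nat_lit 468) (nat_lit 760) (nat_lit 0) (XT.nd (nat_lit 234) (nat_lit 608) (nat_lit 0) (XT.nd (nat_lit 78) (nat_lit 228) (nat_lit 0) (XT.lf (nat_lit 0) (nat_lit 8753006155) (nat_lit 380) (nat_lit 903060677) (nat_lit 76) (nat_lit 6929302760) (nat_lit 80) (nat_lit 5) (nat_lit 85) (nat_lit 5) (nat_lit 81) (nat_lit 5) (nat_lit 330) (nat_lit 273) (nat_lit 177)) (XT.nd (nat_lit 78) (nat_lit 0) (nat_lit 0) (XT.lf (nat_lit 0) (nat_lit 7611619529) (nat_lit 228) (nat_lit 4513077551) (nat_lit 304) (nat_lit 4785481293) (nat_lit 77) (nat_lit 5) (nat_lit 80) (nat_lit 5) (nat_lit 81) (nat_lit 5) (nat_lit 331) (nat_lit 273) (nat_lit 176)) (XT.lf (nat_lit 0) (nat_lit 15596855915) (nat_lit 304) (nat_lit 877684893) (nat_lit 76) (nat_lit 770223790) (nat_lit 77) (nat_lit 5) (nat_lit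 81) (nat_lit 5) (nat_lit 78) (nat_lit 5) (nat_lit 332) (nat_lit 273) (nat_lit 175)))) (XT.nd (nat_lit 78) (nat_lit 228) (nat_lit 0) (XT.lf (nat_lit 0) (nat_lit 1657404941) (nat_lit 380) (nat_lit 9722747657) (nat_lit 76) (nat_lit 6205655469) (nat_lit 72) (nat_lit 5) (nat_lit 77) (nat_lit 5) (nat_lit 73) (nat_lit 5) (nat_lit 333) (nat_lit 273) (nat_lit 174)) (XT.nd (nat_lit 78) (nat_lit 228) (nat_lit 0) (XT.lf (nat_lit 0) (nat_lit 5020861739) (nat_lit 380) (nat_lit 1094399313) (nat_lit 76) (nat_lit 11821580779) (nat_lit 72) (nat_lit 5) (nat_lit 77) (nat_lit 5) (nat_lit 73) (nat_lit 5) (nat_lit 334) (nat_lit 273) (nat_lit 173)) (XT.lf (nat_lit 0) (nat_lit 7922940082) (nat_lit 228) (nat_lit 622087400) (nat_lit 304) (nat_lit 9751596249) (nat_lit 69) (nat_lit 5) (nat_lit 72) (nat_lit 5) (nat_lit 73) (nat_lit 5) (nat_lit 335) (nat_lit 273) (nat_lit 172))))) (XT.nd (nat_lit 234) (nat_lit 456) (nat_lit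 0) (XT.nd (nat_lit 78) (nat_lit 304) (nat_lit 0) (XT.lf (nat_lit 0) (nat_lit 12218297476) (nat_lit 304) (nat_lit 1506792124) (nat_lit 76) (nat_lit 4940819060) (nat_lit 69) (nat_lit 5) (nat_lit 73) (nat_lit 5) (nat_lit 70) (nat_lit 5) (nat_lit 336) (nat_lit 273) (nat_lit 171)) (XT.nd (nat_lit 78) (nat_lit 76) (nat_lit 0) (XT.lf (nat_lit 0) (nat_lit 7747199370) (nat_lit 228) (nat_lit 8319478435) (nat_lit 304) (nat_lit 2977657599) (nat_lit 66) (nat_lit 5) (nat_lit 69) (nat_lit 5) (nat_lit 70) (nat_lit 5) (nat_lit 337) (nat_lit 273) (nat_lit 170)) (XT.lf (nat_lit 0) (nat_lit 584471843) (nat_lit 304) (nat_lit 2153853900) (nat_lit 76) (nat_lit 16695635793) (nat_lit 65) (nat_lit 5) (nat_lit 69) (nat_lit 5) (nat_lit 66) (nat_lit 5) (nat_lit 338) (nat_lit 273) (nat_lit 169)))) (XT.nd (nat_lit 156) (nat_lit 228) (nat_lit 0) (XT.nd (nat_lit 78) (nat_lit 0) (nat_lit 0) (XT.lf (nat_lit 0) (nat_lit 4278967572)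 (nat_lit 304) (nat_lit 12508141280) (nat_lit 76) (nat_lit 3044732366) (nat_lit 62) (nat_lit 5) (nat_lit 66) (nat_lit 5) (nat_lit 63) (nat_lit 5) (nat_lit 339) (nat_lit 273) (nat_lit 168)) (XT.lf (nat_lit 0) (nat_lit 8118322740) (nat_lit 304) (nat_lit 3162063110) (nat_lit 76) (nat_lit 8960260150) (nat_lit 62) (nat_lit 5) (nat_lit 66) (nat_lit 5) (nat_lit 63) (nat_lit 5) (nat_lit 340) (nat_lit 273) (nat_lit 167))) (XT.nd (nat_lit 78) (nat_lit 0) (nat_lit 0) (XT.lf (nat_lit 0) (nat_lit 6569818502) (nat_lit 228) (nat_lit 5551578990) (nat_lit 304) (nat_lit 8538870440) (nat_lit 59) (nat_lit 5) (nat_lit 62) (nat_lit 5) (nat_lit 63) (nat_lit 5) (nat_lit 341) (nat_lit 273) (nat_lit 166)) (XT.lf (nat_lit 0) (nat_lit 16265683246) (nat_lit 304) (nat_lit 4459635783) (nat_lit 76) (nat_lit 366534834) (nat_lit 59) (nat_lit 5) (nat_lit 63) (nat_lit 5) (nat_lit 60) (nat_lit 5) (nat_lit 342) (nat_lit 273) (nat_lit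 165)))))) (XT.nd (nat_lit 546) (nat_lit 608) (nat_lit 0) (XT.nd (nat_lit 234) (nat_lit 228) (nat_lit 0) (XT.nd (nat_lit 78) (nat_lit 304) (nat_lit 0) (XT.lf (nat_lit 0) (nat_lit 5490014542) (nat_lit 152) (nat_lit 15137960684) (nat_lit 228) (nat_lit 905610463) (nat_lit 57) (nat_lit 5) (nat_lit 59) (nat_lit 5) (nat_lit 60) (nat_lit 5) (nat_lit 343) (nat_lit 273) (nat_lit 164)) (XT.nd (nat_lit 78) (nat_lit 228) (nat_lit 0) (XT.lf (nat_lit 0) (nat_lit 3102908711) (nat_lit 228) (nat_lit 6210524321) (nat_lit 76) (nat_lit 12673297126) (nat_lit 56) (nat_lit 5) (nat_lit 59) (nat_lit 5) (nat_lit 57) (nat_lit 5) (nat_lit 344) (nat_lit 273) (nat_lit 163)) (XT.lf (nat_lit 0) (nat_lit 3964233679) (nat_lit 228) (nat_lit 3273753012) (nat_lit 304) (nat_lit 15214486037) (nat_lit 53) (nat_lit 5) (nat_lit 56) (nat_lit 5) (nat_lit 57) (nat_lit 5) (nat_lit 345) (nat_lit 273) (nat_lit 162)))) (XT.nd (nat_lit 156) (nat_lit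 76) (nat_lit 0) (XT.nd (nat_lit 78) (nat_lit 152) (nat_lit 0) (XT.lf (nat_lit 0) (nat_lit 11575292571) (nat_lit 304) (nat_lit 8409502998) (nat_lit 76) (nat_lit 2945054420) (nat_lit 53) (nat_lit 5) (nat_lit 57) (nat_lit 5) (nat_lit 54) (nat_lit 5) (nat_lit 346) (nat_lit 273) (nat_lit 161)) (XT.lf (nat_lit 0) (nat_lit 1956198388) (nat_lit 152) (nat_lit 14124640709) (nat_lit 228) (nat_lit 7339573286) (nat_lit 51) (nat_lit 5) (nat_lit 53) (nat_lit 5) (nat_lit 54) (nat_lit 5) (nat_lit 347) (nat_lit 273) (nat_lit 160))) (XT.nd (nat_lit 78) (nat_lit 76) (nat_lit 0) (XT.lf (nat_lit 0) (nat_lit 12784308969) (nat_lit 152) (nat_lit 8009246509) (nat_lit 228) (nat_lit 3129983307) (nat_lit 51) (nat_lit 5) (nat_lit 53) (nat_lit 5) (nat_lit 54) (nat_lit 5) (nat_lit 348) (nat_lit 273) (nat_lit 159)) (XT.lf (nat_lit 0) (nat_lit 1169692142) (nat_lit 228) (nat_lit 536685175) (nat_lit 76) (nat_lit 22735420861) (nat_lit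 50) (nat_lit 5) (nat_lit 53) (nat_lit 5) (nat_lit 51) (nat_lit 5) (nat_lit 349) (nat_lit 273) (nat_lit 158))))) (XT.nd (nat_lit 234) (nat_lit 228) (nat_lit 0) (XT.nd (nat_lit 78) (nat_lit 152) (nat_lit 0) (XT.lf (nat_lit 0) (nat_lit 5671687641) (nat_lit 304) (nat_lit 14480655536) (nat_lit 76) (nat_lit 4818251922) (nat_lit 47) (nat_lit 5) (nat_lit 51) (nat_lit 5) (nat_lit 48) (nat_lit 5) (nat_lit 350) (nat_lit 273) (nat_lit 157)) (XT.nd (nat_lit 78) (nat_lit 152) (nat_lit 0) (XT.lf (nat_lit 0) (nat_lit 10318903384) (nat_lit 304) (nat_lit 3693775303) (nat_lit 76) (nat_lit 11502278864) (nat_lit 47) (nat_lit 5) (nat_lit 51) (nat_lit 5) (nat_lit 48) (nat_lit 5) (nat_lit 351) (nat_lit 273) (nat_lit 156)) (XT.lf (nat_lit 0) (nat_lit 7544417433) (nat_lit 152) (nat_lit 7621787711) (nat_lit 228) (nat_lit 10907631892) (nat_lit 45) (nat_lit 5) (nat_lit 47) (nat_lit 5) (nat_lit 48) (nat_lit 5) (nat_lit 352)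 (nat_lit 273) (nat_lit 155)))) (XT.nd (nat_lit 156) (nat_lit 76) (nat_lit 0) (XT.nd (nat_lit 78) (nat_lit 152) (nat_lit 0) (XT.lf (nat_lit 0) (nat_lit 19176153366) (nat_lit 152) (nat_lit 1008379945) (nat_lit 228) (nat_lit 6464187438) (nat_lit 45) (nat_lit 5) (nat_lit 47) (nat_lit 5) (nat_lit 48) (nat_lit 5) (nat_lit 353) (nat_lit 273) (nat_lit 154)) (XT.lf (nat_lit 0) (nat_lit 3917617254) (nat_lit 152) (nat_lit 21517815548) (nat_lit 228) (nat_lit 1802963414) (nat_lit 43) (nat_lit 5) (nat_lit 45) (nat_lit 5) (nat_lit 46) (nat_lit 5) (nat_lit 354) (nat_lit 273) (nat_lit 153))) (XT.nd (nat_lit 78) (nat_lit 0) (nat_lit 0) (XT.lf (nat_lit 0) (nat_lit 3014394167) (nat_lit 228) (nat_lit 12099440535) (nat_lit 76) (nat_lit 12728824193) (nat_lit 42) (nat_lit 5) (nat_lit 45) (nat_lit 5) (nat_lit 43) (nat_lit 5) (nat_lit 355) (nat_lit 273) (nat_lit 152)) (XT.lf (nat_lit 0) (nat_lit 7928977575) (nat_lit 228)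 (nat_lit 577836820) (nat_lit 76) (nat_lit 19958036627) (nat_lit 42) (nat_lit 5) (nat_lit 45) (nat_lit 5) (nat_lit 43) (nat_lit 5) (nat_lit 356) (nat_lit 273) (nat_lit 151))))))) (XT.nd (nat_lit 1092) (nat_lit 608) (nat_lit 0) (XT.nd (nat_lit 546) (nat_lit 456) (nat_lit 0) (XT.nd (nat_lit 234) (nat_lit 228) (nat_lit 0) (XT.nd (nat_lit 78) (nat_lit 152) (nat_lit 0) (XT.lf (nat_lit 0) (nat_lit 11495754363) (nat_lit 152) (nat_lit 1595013276) (nat_lit 228) (nat_lit 16011953430) (nat_lit 40) (nat_lit 5) (nat_lit 42) (nat_lit 5) (nat_lit 43) (nat_lit 5) (nat_lit 357) (nat_lit 273) (nat_lit 150)) (XT.nd (nat_lit 78) (nat_lit 152) (nat_lit 0) (XT.lf (nat_lit 0) (nat_lit 18455742702) (nat_lit 228) (nat_lit 5887374438) (nat_lit 76) (nat_lit 5415165218) (nat_lit 40) (nat_lit 5) (nat_lit 43) (nat_lit 5) (nat_lit 41) (nat_lit 5) (nat_lit 358) (nat_lit 273) (nat_lit 149)) (XT.lf (nat_lit 0) (nat_lit 6272884584)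 (nat_lit 152) (nat_lit 17774521091) (nat_lit 228) (nat_lit 6384137581) (nat_lit 38) (nat_lit 5) (nat_lit 40) (nat_lit 5) (nat_lit 41) (nat_lit 5) (nat_lit 359) (nat_lit 273) (nat_lit 148)))) (XT.nd (nat_lit 156) (nat_lit 0) (nat_lit 0) (XT.nd (nat_lit 78) (nat_lit 228) (nat_lit 0) (XT.lf (nat_lit 0) (nat_lit 18901273320) (nat_lit 152) (nat_lit 10954778415) (nat_lit 228) (nat_lit 1267478036) (nat_lit 38) (nat_lit 5) (nat_lit 40) (nat_lit 5) (nat_lit 41) (nat_lit 5) (nat_lit 360) (nat_lit 273) (nat_lit 147)) (XT.lf (nat_lit 0) (nat_lit 17032257) (nat_lit 152) (nat_lit 3897683121) (nat_lit 228) (nat_lit 27920706506) (nat_lit 35) (nat_lit 5) (nat_lit 37) (nat_lit 5) (nat_lit 38) (nat_lit 5) (nat_lit 361) (nat_lit 273) (nat_lit 146))) (XT.nd (nat_lit 78) (nat_lit 0) (nat_lit 0) (XT.lf (nat_lit 0) (nat_lit 9373986993) (nat_lit 228) (nat_lit 19754229154) (nat_lit 76) (nat_lit 3435669892) (nat_lit 35)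 (nat_lit 5) (nat_lit 38) (nat_lit 5) (nat_lit 36) (nat_lit 5) (nat_lit 362) (nat_lit 273) (nat_lit 145)) (XT.lf (nat_lit 0) (nat_lit 15025957114) (nat_lit 228) (nat_lit 7383364233) (nat_lit 76) (nat_lit 10904019413) (nat_lit 35) (nat_lit 5) (nat_lit 38) (nat_lit 5) (nat_lit 36) (nat_lit 5) (nat_lit 363) (nat_lit 273) (nat_lit 144))))) (XT.nd (nat_lit 234) (nat_lit 304) (nat_lit 0) (XT.nd (nat_lit 78) (nat_lit 0) (nat_lit 0) (XT.lf (nat_lit 0) (nat_lit 5448807399) (nat_lit 152) (nat_lit 15441667313) (nat_lit 228) (nat_lit 13193518889) (nat_lit 33) (nat_lit 5) (nat_lit 35) (nat_lit 5) (nat_lit 36) (nat_lit 5) (nat_lit 364) (nat_lit 273) (nat_lit 143)) (XT.nd (nat_lit 78) (nat_lit 0) (nat_lit 0) (XT.lf (nat_lit 0) (nat_lit 18801309103) (nat_lit 152) (nat_lit 8194907130) (nat_lit 228) (nat_lit 7879595153) (nat_lit 33) (nat_lit 5) (nat_lit 35) (nat_lit 5) (nat_lit 36) (nat_lit 5) (nat_lit 365) (nat_lit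 273) (nat_lit 142)) (XT.lf (nat_lit 0) (nat_lit 32538864685) (nat_lit 152) (nat_lit 737266180) (nat_lit 228) (nat_lit 2415526705) (nat_lit 33) (nat_lit 5) (nat_lit 35) (nat_lit 5) (nat_lit 36) (nat_lit 5) (nat_lit 366) (nat_lit 273) (nat_lit 141)))) (XT.nd (nat_lit 156) (nat_lit 152) (nat_lit 0) (XT.nd (nat_lit 78) (nat_lit 0) (nat_lit 0) (XT.lf (nat_lit 0) (nat_lit 3308048175) (nat_lit 152) (nat_lit 26284667219) (nat_lit 76) (nat_lit 6933592875) (nat_lit 31) (nat_lit 5) (nat_lit 33) (nat_lit 5) (nat_lit 32) (nat_lit 5) (nat_lit 367) (nat_lit 273) (nat_lit 140)) (XT.lf (nat_lit 0) (nat_lit 9185455884) (nat_lit 152) (nat_lit 13329339809) (nat_lit 76) (nat_lit 14869568618) (nat_lit 31) (nat_lit 5) (nat_lit 33) (nat_lit 5) (nat_lit 32) (nat_lit 5) (nat_lit 368) (nat_lit 273) (nat_lit 139))) (XT.nd (nat_lit 78) (nat_lit 152) (nat_lit 0) (XT.lf (nat_lit 0) (nat_lit 15230664819) (nat_lit 152) (nat_lit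 209478) (nat_lit 76) (nat_lit 23037546824) (nat_lit 31) (nat_lit 5) (nat_lit 33) (nat_lit 5) (nat_lit 32) (nat_lit 5) (nat_lit 369) (nat_lit 273) (nat_lit 138)) (XT.lf (nat_lit 0) (nat_lit 13987313450) (nat_lit 152) (nat_lit 7596098366) (nat_lit 228) (nat_lit 17591805724) (nat_lit 29) (nat_lit 5) (nat_lit 31) (nat_lit 5) (nat_lit 32) (nat_lit 5) (nat_lit 370) (nat_lit 273) (nat_lit 137)))))) (XT.nd (nat_lit 546) (nat_lit 304) (nat_lit 0) (XT.nd (nat_lit 234) (nat_lit 152) (nat_lit 0) (XT.nd (nat_lit 78) (nat_lit 152) (nat_lit 0) (XT.lf (nat_lit 0) (nat_lit 28121088931) (nat_lit 228) (nat_lit 11731797274) (nat_lit 76) (nat_lit 256504474) (nat_lit 29) (nat_lit 5) (nat_lit 32) (nat_lit 5) (nat_lit 30) (nat_lit 4) (nat_lit 371) (nat_lit 273) (nat_lit 136)) (XT.nd (nat_lit 78) (nat_lit 76) (nat_lit 0) (XT.lf (nat_lit 0) (nat_lit 2079307830) (nat_lit 76) (nat_lit 32862796725) (nat_lit 152) (nat_lit 6126871378)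 (nat_lit 28) (nat_lit 5) (nat_lit 29) (nat_lit 5) (nat_lit 30) (nat_lit 4) (nat_lit 372) (nat_lit 273) (nat_lit 135)) (XT.lf (nat_lit 0) (nat_lit 23820910) (nat_lit 152) (nat_lit 25522944614) (nat_lit 76) (nat_lit 16507261922) (nat_lit 27) (nat_lit 5) (nat_lit 29) (nat_lit 5) (nat_lit 28) (nat_lit 5) (nat_lit 373) (nat_lit 273) (nat_lit 134)))) (XT.nd (nat_lit 156) (nat_lit 0) (nat_lit 0) (XT.nd (nat_lit 78) (nat_lit 152) (nat_lit 0) (XT.lf (nat_lit 0) (nat_lit 6228151594) (nat_lit 152) (nat_lit 11726546234) (nat_lit 76) (nat_lit 25112347859) (nat_lit 27) (nat_lit 5) (nat_lit 29) (nat_lit 5) (nat_lit 28) (nat_lit 5) (nat_lit 374) (nat_lit 273) (nat_lit 133)) (XT.lf (nat_lit 0) (nat_lit 2519644719) (nat_lit 152) (nat_lit 10115674909) (nat_lit 228) (nat_lit 31474636438) (nat_lit 25) (nat_lit 5) (nat_lit 27) (nat_lit 5) (nat_lit 28) (nat_lit 5) (nat_lit 375) (nat_lit 273) (nat_lit 132))) (XT.nd (nat_lit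 78) (nat_lit 0) (nat_lit 0) (XT.lf (nat_lit 0) (nat_lit 17420467448) (nat_lit 152) (nat_lit 1925229987) (nat_lit 228) (nat_lit 25835129208) (nat_lit 25) (nat_lit 5) (nat_lit 27) (nat_lit 5) (nat_lit 28) (nat_lit 5) (nat_lit 376) (nat_lit 273) (nat_lit 131)) (XT.lf (nat_lit 0) (nat_lit 26312715992) (nat_lit 228) (nat_lit 13591014969) (nat_lit 76) (nat_lit 6378435145) (nat_lit 25) (nat_lit 5) (nat_lit 28) (nat_lit 5) (nat_lit 26) (nat_lit 4) (nat_lit 377) (nat_lit 273) (nat_lit 130))))) (XT.nd (nat_lit 234) (nat_lit 228) (nat_lit 0) (XT.nd (nat_lit 78) (nat_lit 0) (nat_lit 0) (XT.lf (nat_lit 0) (nat_lit 991145550) (nat_lit 76) (nat_lit 32519142510) (nat_lit 152) (nat_lit 13905613977) (nat_lit 24) (nat_lit 5) (nat_lit 25) (nat_lit 5) (nat_lit 26) (nat_lit 4) (nat_lit 378) (nat_lit 273) (nat_lit 129)) (XT.nd (nat_lit 78) (nat_lit 0) (nat_lit 0) (XT.lf (nat_lit 0) (nat_lit 16276953172) (nat_lit 76)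 (nat_lit 24777116336) (nat_lit 152) (nat_lit 7525674570) (nat_lit 24) (nat_lit 5) (nat_lit 25) (nat_lit 5) (nat_lit 26) (nat_lit 4) (nat_lit 379) (nat_lit 273) (nat_lit 128)) (XT.lf (nat_lit 0) (nat_lit 32009276578) (nat_lit 76) (nat_lit 16808130166) (nat_lit 152) (nat_lit 961299792) (nat_lit 24) (nat_lit 5) (nat_lit 25) (nat_lit 5) (nat_lit 26) (nat_lit 4) (nat_lit 380) (nat_lit 273) (nat_lit 127)))) (XT.nd (nat_lit 156) (nat_lit 0) (nat_lit 0) (XT.nd (nat_lit 78) (nat_lit 152) (nat_lit 0) (XT.lf (nat_lit 0) (nat_lit 5680199118) (nat_lit 152) (nat_lit 2867662814) (nat_lit 76) (nat_lit 42464304467) (nat_lit 23) (nat_lit 5) (nat_lit 25) (nat_lit 5) (nat_lit 24) (nat_lit 5) (nat_lit 381) (nat_lit 273) (nat_lit 126)) (XT.lf (nat_lit 0) (nat_lit 12618217666) (nat_lit 228) (nat_lit 39571623403) (nat_lit 76) (nat_lit 89007800) (nat_lit 21) (nat_lit 5) (nat_lit 24) (nat_lit 5) (nat_lit 22) (nat_lit 4)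 (nat_lit 382) (nat_lit 273) (nat_lit 125))) (XT.nd (nat_lit 78) (nat_lit 0) (nat_lit 0) (XT.lf (nat_lit 0) (nat_lit 19871848182) (nat_lit 228) (nat_lit 24870965779) (nat_lit 76) (nat_lit 8837495866) (nat_lit 21) (nat_lit 5) (nat_lit 24) (nat_lit 5) (nat_lit 22) (nat_lit 4) (nat_lit 383) (nat_lit 273) (nat_lit 124)) (XT.lf (nat_lit 0) (nat_lit 27336868810) (nat_lit 228) (nat_lit 9740481012) (nat_lit 76) (nat_lit 17843653446) (nat_lit 21) (nat_lit 5) (nat_lit 24) (nat_lit 5) (nat_lit 22) (nat_lit 4) (nat_lit 384) (nat_lit 273) (nat_lit 123))))))))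
noncomputable def xc139 : XT := (XT.nd (nat_lit 32136) (nat_lit 0) (nat_lit 11020) (XT.nd (nat_lit 1092) (nat_lit 228) (nat_lit 0) (XT.nd (nat_lit 546) (nat_lit 228) (nat_lit 0) (XT.nd (nat_lit 234) (nat_lit 228) (nat_lit 0) (XT.nd (nat_lit 78) (nat_lit 0) (nat_lit 0) (XT.lf (nat_lit 0) (nat_lit 5949140873) (nat_lit 76) (nat_lit 29127848292) (nat_lit 152) (nat_lit 21223395906) (nat_lit 20) (nat_lit 5) (nat_lit 21) (nat_lit 5) (nat_lit 22) (nat_lit 4) (nat_lit 385) (nat_lit 273) (nat_lit 122)) (XT.nd (nat_lit 78) (nat_lit 0) (nat_lit 0) (XT.lf (nat_lit 0) (nat_lit 22298361673) (nat_lit 76) (nat_lit 20843345967) (nat_lit 152) (nat_lit 14576670825) (nat_lit 20) (nat_lit 5) (nat_lit 21) (nat_lit 5) (nat_lit 22) (nat_lit 4) (nat_lit 386) (nat_lit 273) (nat_lit 121)) (XT.lf (nat_lit 0) (nat_lit 39127612443) (nat_lit 76) (nat_lit 12314963722) (nat_lit 152) (nat_lit 7736511156) (nat_lit 20) (nat_lit 5)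 (nat_lit 21) (nat_lit 5) (nat_lit 22) (nat_lit 4) (nat_lit 387) (nat_lit 273) (nat_lit 120)))) (XT.nd (nat_lit 156) (nat_lit 0) (nat_lit 0) (XT.nd (nat_lit 78) (nat_lit 228) (nat_lit 0) (XT.lf (nat_lit 0) (nat_lit 56451598353) (nat_lit 76) (nat_lit 3535249571) (nat_lit 152) (nat_lit 696940062) (nat_lit 20) (nat_lit 5) (nat_lit 21) (nat_lit 5) (nat_lit 22) (nat_lit 4) (nat_lit 388) (nat_lit 273) (nat_lit 119)) (XT.lf (nat_lit 0) (nat_lit 6592640782) (nat_lit 228) (nat_lit 50055755108) (nat_lit 76) (nat_lit 5578344217) (nat_lit 17) (nat_lit 5) (nat_lit 20) (nat_lit 5) (nat_lit 18) (nat_lit 4) (nat_lit 389) (nat_lit 273) (nat_lit 118))) (XT.nd (nat_lit 78) (nat_lit 0) (nat_lit 0) (XT.lf (nat_lit 0) (nat_lit 14159572232) (nat_lit 228) (nat_lit 34713997695) (nat_lit 76) (nat_lit 14940025425) (nat_lit 17) (nat_lit 5) (nat_lit 20) (nat_lit 5) (nat_lit 18) (nat_lit 4) (nat_lit 390) (nat_lit 273) (nat_lit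 117)) (XT.lf (nat_lit 0) (nat_lit 21948180131) (nat_lit 228) (nat_lit 18921680388) (nat_lit 76) (nat_lit 24578357332) (nat_lit 17) (nat_lit 5) (nat_lit 20) (nat_lit 5) (nat_lit 18) (nat_lit 4) (nat_lit 391) (nat_lit 273) (nat_lit 116))))) (XT.nd (nat_lit 234) (nat_lit 152) (nat_lit 0) (XT.nd (nat_lit 78) (nat_lit 76) (nat_lit 0) (XT.lf (nat_lit 0) (nat_lit 29965270060) (nat_lit 228) (nat_lit 2665004076) (nat_lit 76) (nat_lit 34501761780) (nat_lit 17) (nat_lit 5) (nat_lit 20) (nat_lit 5) (nat_lit 18) (nat_lit 4) (nat_lit 392) (nat_lit 273) (nat_lit 115)) (XT.nd (nat_lit 78) (nat_lit 0) (nat_lit 0) (XT.lf (nat_lit 0) (nat_lit 14350261392) (nat_lit 76) (nat_lit 24005529340) (nat_lit 152) (nat_lit 30506591804) (nat_lit 16) (nat_lit 5) (nat_lit 17) (nat_lit 5) (nat_lit 18) (nat_lit 4) (nat_lit 393) (nat_lit 273) (nat_lit 114)) (XT.lf (nat_lit 0) (nat_lit 31921567948) (nat_lit 76) (nat_lit 15098404356)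 (nat_lit 152) (nat_lit 23624010405) (nat_lit 16) (nat_lit 5) (nat_lit 17) (nat_lit 5) (nat_lit 18) (nat_lit 4) (nat_lit 394) (nat_lit 273) (nat_lit 113)))) (XT.nd (nat_lit 156) (nat_lit 152) (nat_lit 0) (XT.nd (nat_lit 78) (nat_lit 0) (nat_lit 0) (XT.lf (nat_lit 0) (nat_lit 50011230352) (nat_lit 76) (nat_lit 5928027576) (nat_lit 152) (nat_lit 16539919068) (nat_lit 16) (nat_lit 5) (nat_lit 17) (nat_lit 5) (nat_lit 18) (nat_lit 4) (nat_lit 395) (nat_lit 273) (nat_lit 112)) (XT.lf (nat_lit 0) (nat_lit 65155216164) (nat_lit 152) (nat_lit 5768288866) (nat_lit 0) (nat_lit 3445050687) (nat_lit 16) (nat_lit 5) (nat_lit 18) (nat_lit 4) (nat_lit 16) (nat_lit 4) (nat_lit 396) (nat_lit 273) (nat_lit 111))) (XT.nd (nat_lit 78) (nat_lit 76) (nat_lit 0) (XT.lf (nat_lit 0) (nat_lit 11591475775) (nat_lit 76) (nat_lit 63221714543) (nat_lit 76) (nat_lit 1496460747) (nat_lit 15) (nat_lit 4) (nat_lit 16) (nat_lit 5)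 (nat_lit 16) (nat_lit 4) (nat_lit 397) (nat_lit 273) (nat_lit 110)) (XT.lf (nat_lit 0) (nat_lit 6380276239) (nat_lit 152) (nat_lit 48787941882) (nat_lit 76) (nat_lit 23137274299) (nat_lit 14) (nat_lit 5) (nat_lit 16) (nat_lit 5) (nat_lit 15) (nat_lit 4) (nat_lit 398) (nat_lit 273) (nat_lit 109)))))) (XT.nd (nat_lit 546) (nat_lit 152) (nat_lit 0) (XT.nd (nat_lit 234) (nat_lit 0) (nat_lit 0) (XT.nd (nat_lit 78) (nat_lit 76) (nat_lit 0) (XT.lf (nat_lit 0) (nat_lit 14458798129) (nat_lit 152) (nat_lit 32402764633) (nat_lit 76) (nat_lit 33499336221) (nat_lit 14) (nat_lit 5) (nat_lit 16) (nat_lit 5) (nat_lit 15) (nat_lit 4) (nat_lit 399) (nat_lit 273) (nat_lit 108)) (XT.nd (nat_lit 78) (nat_lit 76) (nat_lit 0) (XT.lf (nat_lit 0) (nat_lit 22775365163) (nat_lit 152) (nat_lit 15533941503) (nat_lit 76) (nat_lit 44168791621) (nat_lit 14) (nat_lit 5) (nat_lit 16) (nat_lit 5) (nat_lit 15) (nat_lit 4) (nat_lit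 400) (nat_lit 273) (nat_lit 107)) (XT.lf (nat_lit 0) (nat_lit 1869752869) (nat_lit 76) (nat_lit 29485464583) (nat_lit 152) (nat_lit 53303183664) (nat_lit 13) (nat_lit 5) (nat_lit 14) (nat_lit 5) (nat_lit 15) (nat_lit 4) (nat_lit 401) (nat_lit 273) (nat_lit 106)))) (XT.nd (nat_lit 156) (nat_lit 0) (nat_lit 0) (XT.nd (nat_lit 78) (nat_lit 0) (nat_lit 0) (XT.lf (nat_lit 0) (nat_lit 20106384866) (nat_lit 76) (nat_lit 20238806633) (nat_lit 152) (nat_lit 46554340905) (nat_lit 13) (nat_lit 5) (nat_lit 14) (nat_lit 5) (nat_lit 15) (nat_lit 4) (nat_lit 402) (nat_lit 273) (nat_lit 105)) (XT.lf (nat_lit 0) (nat_lit 38882733513) (nat_lit 76) (nat_lit 10718115560) (nat_lit 152) (nat_lit 39607170152) (nat_lit 13) (nat_lit 5) (nat_lit 14) (nat_lit 5) (nat_lit 15) (nat_lit 4) (nat_lit 403) (nat_lit 273) (nat_lit 104))) (XT.nd (nat_lit 78) (nat_lit 0) (nat_lit 0) (XT.lf (nat_lit 0) (nat_lit 58215205329) (nat_lit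 76) (nat_lit 915072316) (nat_lit 152) (nat_lit 32455601061) (nat_lit 13) (nat_lit 5) (nat_lit 14) (nat_lit 5) (nat_lit 15) (nat_lit 4) (nat_lit 404) (nat_lit 273) (nat_lit 103)) (XT.lf (nat_lit 0) (nat_lit 69030036993) (nat_lit 152) (nat_lit 16002728917) (nat_lit 0) (nat_lit 8999775683) (nat_lit 13) (nat_lit 5) (nat_lit 15) (nat_lit 4) (nat_lit 13) (nat_lit 4) (nat_lit 405) (nat_lit 273) (nat_lit 102))))) (XT.nd (nat_lit 234) (nat_lit 76) (nat_lit 0) (XT.nd (nat_lit 78) (nat_lit 0) (nat_lit 0) (XT.lf (nat_lit 0) (nat_lit 1907579991) (nat_lit 76) (nat_lit 77342901534) (nat_lit 76) (nat_lit 17301413098) (nat_lit 12) (nat_lit 4) (nat_lit 13) (nat_lit 5) (nat_lit 13) (nat_lit 4) (nat_lit 406) (nat_lit 273) (nat_lit 101)) (XT.nd (nat_lit 78) (nat_lit 0) (nat_lit 0) (XT.lf (nat_lit 0) (nat_lit 20676467934) (nat_lit 76) (nat_lit 69259005917) (nat_lit 76) (nat_lit 9206617358) (nat_lit 12) (nat_lit 4) (nat_lit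 13) (nat_lit 5) (nat_lit 13) (nat_lit 4) (nat_lit 407) (nat_lit 273) (nat_lit 100)) (XT.lf (nat_lit 0) (nat_lit 40001849228) (nat_lit 76) (nat_lit 60935611645) (nat_lit 76) (nat_lit 872640443) (nat_lit 12) (nat_lit 4) (nat_lit 13) (nat_lit 5) (nat_lit 13) (nat_lit 4) (nat_lit 408) (nat_lit 273) (nat_lit 99)))) (XT.nd (nat_lit 30108) (nat_lit 0) (nat_lit 19076) (XT.nd (nat_lit 78) (nat_lit 0) (nat_lit 0) (XT.lf (nat_lit 0) (nat_lit 7557392827) (nat_lit 152) (nat_lit 44731738172) (nat_lit 76) (nat_lit 52266902452) (nat_lit 11) (nat_lit 5) (nat_lit 13) (nat_lit 5) (nat_lit 12) (nat_lit 4) (nat_lit 409) (nat_lit 273) (nat_lit 98)) (XT.lf (nat_lit 0) (nat_lit 16219402814) (nat_lit 152) (nat_lit 27157833054) (nat_lit 76) (nat_lit 64006950922) (nat_lit 11) (nat_lit 5) (nat_lit 13) (nat_lit 5) (nat_lit 12) (nat_lit 4) (nat_lit 410) (nat_lit 273) (nat_lit 97))) (XT.nd (nat_lit 78) (nat_lit 0) (nat_lit 0)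 (XT.lf (nat_lit 0) (nat_lit 885653157) (nat_lit 836) (nat_lit 1380052556) (nat_lit 836) (nat_lit 1380052556) (nat_lit 262) (nat_lit 3) (nat_lit 273) (nat_lit 3) (nat_lit 273) (nat_lit 5) (nat_lit 274) (nat_lit 274) (nat_lit 232)) (XT.lf (nat_lit 76) (nat_lit 609508448) (nat_lit 0) (nat_lit 2692258636) (nat_lit 836) (nat_lit 4051783454) (nat_lit 263) (nat_lit 5) (nat_lit 262) (nat_lit 3) (nat_lit 273) (nat_lit 5) (nat_lit 275) (nat_lit 274) (nat_lit 231))))))) (XT.nd (nat_lit 1092) (nat_lit 5624) (nat_lit 0) (XT.nd (nat_lit 546) (nat_lit 1672) (nat_lit 0) (XT.nd (nat_lit 234) (nat_lit 0) (nat_lit 0) (XT.nd (nat_lit 78) (nat_lit 760) (nat_lit 0) (XT.lf (nat_lit 76) (nat_lit 4106037451) (nat_lit 0) (nat_lit 741216255) (nat_lit 836) (nat_lit 2571205206) (nat_lit 263) (nat_lit 5) (nat_lit 262) (nat_lit 3) (nat_lit 273) (nat_lit 5) (nat_lit 276) (nat_lit 274) (nat_lit 230)) (XT.nd (nat_lit 78) (nat_lit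 836) (nat_lit 0) (XT.lf (nat_lit 76) (nat_lit 181585207) (nat_lit 0) (nat_lit 6214670663) (nat_lit 836) (nat_lit 1090428333) (nat_lit 264) (nat_lit 5) (nat_lit 263) (nat_lit 5) (nat_lit 274) (nat_lit 5) (nat_lit 277) (nat_lit 274) (nat_lit 229)) (XT.lf (nat_lit 0) (nat_lit 411341196) (nat_lit 836) (nat_lit 3752284589) (nat_lit 912) (nat_lit 3393732850) (nat_lit 252) (nat_lit 5) (nat_lit 263) (nat_lit 5) (nat_lit 264) (nat_lit 5) (nat_lit 278) (nat_lit 274) (nat_lit 228)))) (XT.nd (nat_lit 156) (nat_lit 0) (nat_lit 76) (XT.nd (nat_lit 78) (nat_lit 0) (nat_lit 76) (XT.lf (nat_lit 0) (nat_lit 1881814663) (nat_lit 836) (nat_lit 135522873) (nat_lit 912) (nat_lit 5614201901) (nat_lit 252) (nat_lit 5) (nat_lit 263) (nat_lit 5) (nat_lit 264) (nat_lit 5) (nat_lit 279) (nat_lit 274) (nat_lit 227)) (XT.lf (nat_lit 0) (nat_lit 3380860392) (nat_lit 836) (nat_lit 4081318005) (nat_lit 912) (nat_lit 246308330)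 (nat_lit 253) (nat_lit 5) (nat_lit 264) (nat_lit 5) (nat_lit 265) (nat_lit 5) (nat_lit 280) (nat_lit 274) (nat_lit 226))) (XT.nd (nat_lit 78) (nat_lit 0) (nat_lit 0) (XT.lf (nat_lit 0) (nat_lit 4894832773) (nat_lit 836) (nat_lit 334602224) (nat_lit 912) (nat_lit 2559281405) (nat_lit 253) (nat_lit 5) (nat_lit 264) (nat_lit 5) (nat_lit 265) (nat_lit 5) (nat_lit 281) (nat_lit 274) (nat_lit 225)) (XT.lf (nat_lit 76) (nat_lit 3562544949) (nat_lit 0) (nat_lit 2876021414) (nat_lit 912) (nat_lit 1433326855) (nat_lit 254) (nat_lit 5) (nat_lit 253) (nat_lit 5) (nat_lit 265) (nat_lit 5) (nat_lit 282) (nat_lit 274) (nat_lit 224))))) (XT.nd (nat_lit 234) (nat_lit 836) (nat_lit 0) (XT.nd (nat_lit 78) (nat_lit 0) (nat_lit 76) (XT.lf (nat_lit 0) (nat_lit 23773193) (nat_lit 912) (nat_lit 406941886) (nat_lit 988) (nat_lit 7528272844) (nat_lit 241) (nat_lit 5) (nat_lit 253) (nat_lit 5) (nat_lit 254) (nat_lit 5) (nat_lit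 283) (nat_lit 274) (nat_lit 223)) (XT.nd (nat_lit 78) (nat_lit 0) (nat_lit 0) (XT.lf (nat_lit 0) (nat_lit 1503602251) (nat_lit 912) (nat_lit 4431389429) (nat_lit 988) (nat_lit 2113107842) (nat_lit 242) (nat_lit 5) (nat_lit 254) (nat_lit 5) (nat_lit 255) (nat_lit 5) (nat_lit 284) (nat_lit 274) (nat_lit 222)) (XT.lf (nat_lit 0) (nat_lit 2989625263) (nat_lit 912) (nat_lit 407251913) (nat_lit 988) (nat_lit 4744215970) (nat_lit 242) (nat_lit 5) (nat_lit 254) (nat_lit 5) (nat_lit 255) (nat_lit 5) (nat_lit 285) (nat_lit 274) (nat_lit 221)))) (XT.nd (nat_lit 156) (nat_lit 912) (nat_lit 0) (XT.nd (nat_lit 78) (nat_lit 0) (nat_lit 76) (XT.lf (nat_lit 76) (nat_lit 3779716017) (nat_lit 0) (nat_lit 731588195) (nat_lit 988) (nat_lit 3725900931) (nat_lit 243) (nat_lit 5) (nat_lit 242) (nat_lit 5) (nat_lit 255) (nat_lit 5) (nat_lit 286) (nat_lit 274) (nat_lit 220)) (XT.lf (nat_lit 0) (nat_lit 6058026474) (nat_lit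 912) (nat_lit 287682708) (nat_lit 988) (nat_lit 1991168581) (nat_lit 243) (nat_lit 5) (nat_lit 255) (nat_lit 5) (nat_lit 256) (nat_lit 5) (nat_lit 287) (nat_lit 274) (nat_lit 219))) (XT.nd (nat_lit 78) (nat_lit 988) (nat_lit 0) (XT.lf (nat_lit 76) (nat_lit 4047054258) (nat_lit 0) (nat_lit 3607410562) (nat_lit 988) (nat_lit 785033641) (nat_lit 244) (nat_lit 5) (nat_lit 243) (nat_lit 5) (nat_lit 256) (nat_lit 5) (nat_lit 288) (nat_lit 274) (nat_lit 218)) (XT.lf (nat_lit 0) (nat_lit 699469771) (nat_lit 988) (nat_lit 67130053) (nat_lit 1064) (nat_lit 7779617375) (nat_lit 230) (nat_lit 5) (nat_lit 243) (nat_lit 5) (nat_lit 244) (nat_lit 5) (nat_lit 289) (nat_lit 274) (nat_lit 217)))))) (XT.nd (nat_lit 546) (nat_lit 2432) (nat_lit 0) (XT.nd (nat_lit 234) (nat_lit 2280) (nat_lit 0) (XT.nd (nat_lit 78) (nat_lit 988) (nat_lit 0) (XT.lf (nat_lit 0) (nat_lit 2235589267) (nat_lit 988) (nat_lit 4242074426)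 (nat_lit 76) (nat_lit 2177607314) (nat_lit 231) (nat_lit 5) (nat_lit 244) (nat_lit 5) (nat_lit 232) (nat_lit 5) (nat_lit 290) (nat_lit 274) (nat_lit 216)) (XT.nd (nat_lit 78) (nat_lit 0) (nat_lit 0) (XT.lf (nat_lit 0) (nat_lit 225979536) (nat_lit 988) (nat_lit 3562120514) (nat_lit 1064) (nat_lit 4980438085) (nat_lit 218) (nat_lit 5) (nat_lit 231) (nat_lit 5) (nat_lit 232) (nat_lit 5) (nat_lit 291) (nat_lit 274) (nat_lit 215)) (XT.lf (nat_lit 0) (nat_lit 4882786409) (nat_lit 988) (nat_lit 507956266) (nat_lit 1064) (nat_lit 3494403362) (nat_lit 218) (nat_lit 5) (nat_lit 231) (nat_lit 5) (nat_lit 232) (nat_lit 5) (nat_lit 292) (nat_lit 274) (nat_lit 214)))) (XT.nd (nat_lit 156) (nat_lit 1216) (nat_lit 0) (XT.nd (nat_lit 78) (nat_lit 0) (nat_lit 0) (XT.lf (nat_lit 0) (nat_lit 628385337) (nat_lit 1064) (nat_lit 6406405731) (nat_lit 1140) (nat_lit 1970709327) (nat_lit 204) (nat_lit 5) (nat_lit 218) (nat_lit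 5) (nat_lit 219) (nat_lit 5) (nat_lit 293) (nat_lit 274) (nat_lit 213)) (XT.lf (nat_lit 0) (nat_lit 5442721436) (nat_lit 1064) (nat_lit 3293563902) (nat_lit 1140) (nat_lit 392982929) (nat_lit 204) (nat_lit 5) (nat_lit 218) (nat_lit 5) (nat_lit 219) (nat_lit 5) (nat_lit 294) (nat_lit 274) (nat_lit 212))) (XT.nd (nat_lit 78) (nat_lit 0) (nat_lit 0) (XT.lf (nat_lit 0) (nat_lit 1122724159) (nat_lit 1140) (nat_lit 59512590) (nat_lit 1216) (nat_lit 8074974950) (nat_lit 188) (nat_lit 5) (nat_lit 203) (nat_lit 5) (nat_lit 204) (nat_lit 5) (nat_lit 295) (nat_lit 274) (nat_lit 211)) (XT.lf (nat_lit 0) (nat_lit 2830068979) (nat_lit 1216) (nat_lit 3304661774) (nat_lit 76) (nat_lit 3253190978) (nat_lit 188) (nat_lit 5) (nat_lit 204) (nat_lit 5) (nat_lit 189) (nat_lit 5) (nat_lit 296) (nat_lit 274) (nat_lit 210))))) (XT.nd (nat_lit 234) (nat_lit 1140) (nat_lit 0) (XT.nd (nat_lit 78) (nat_lit 608) (nat_lit 0)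 (XT.lf (nat_lit 0) (nat_lit 1670096724) (nat_lit 684) (nat_lit 2839135889) (nat_lit 760) (nat_lit 5013904976) (nat_lit 179) (nat_lit 5) (nat_lit 188) (nat_lit 5) (nat_lit 189) (nat_lit 5) (nat_lit 297) (nat_lit 274) (nat_lit 209)) (XT.nd (nat_lit 78) (nat_lit 608) (nat_lit 0) (XT.lf (nat_lit 0) (nat_lit 6243794305) (nat_lit 760) (nat_lit 2837970448) (nat_lit 76) (nat_lit 580534687) (nat_lit 179) (nat_lit 5) (nat_lit 189) (nat_lit 5) (nat_lit 180) (nat_lit 5) (nat_lit 298) (nat_lit 274) (nat_lit 208)) (XT.lf (nat_lit 0) (nat_lit 2312792737) (nat_lit 608) (nat_lit 5734917101) (nat_lit 684) (nat_lit 1757445837) (nat_lit 171) (nat_lit 5) (nat_lit 179) (nat_lit 5) (nat_lit 180) (nat_lit 5) (nat_lit 299) (nat_lit 274) (nat_lit 207)))) (XT.nd (nat_lit 156) (nat_lit 532) (nat_lit 0) (XT.nd (nat_lit 78) (nat_lit 608) (nat_lit 0) (XT.lf (nat_lit 0) (nat_lit 7644785994) (nat_lit 608) (nat_lit 2257248944)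 (nat_lit 684) (nat_lit 50411799) (nat_lit 171) (nat_lit 5) (nat_lit 179) (nat_lit 5) (nat_lit 180) (nat_lit 5) (nat_lit 300) (nat_lit 274) (nat_lit 206)) (XT.lf (nat_lit 0) (nat_lit 1685192990) (nat_lit 608) (nat_lit 7072614667) (nat_lit 76) (nat_lit 1345571529) (nat_lit 163) (nat_lit 5) (nat_lit 171) (nat_lit 5) (nat_lit 164) (nat_lit 5) (nat_lit 301) (nat_lit 274) (nat_lit 205))) (XT.nd (nat_lit 78) (nat_lit 532) (nat_lit 0) (XT.lf (nat_lit 0) (nat_lit 3486595305) (nat_lit 608) (nat_lit 1736457013) (nat_lit 76) (nat_lit 5035364724) (nat_lit 163) (nat_lit 5) (nat_lit 171) (nat_lit 5) (nat_lit 164) (nat_lit 5) (nat_lit 302) (nat_lit 274) (nat_lit 204)) (XT.lf (nat_lit 0) (nat_lit 3803040100) (nat_lit 532) (nat_lit 1545323765) (nat_lit 608) (nat_lit 5069586120) (nat_lit 156) (nat_lit 5) (nat_lit 163) (nat_lit 5) (nat_lit 164) (nat_lit 5) (nat_lit 303) (nat_lit 274) (nat_lit 203))))))))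
noncomputable def xc140 : XT := (XT.nd (nat_lit 2106) (nat_lit 3040) (nat_lit 0) (XT.nd (nat_lit 1014) (nat_lit 2508) (nat_lit 0) (XT.nd (nat_lit 468) (nat_lit 1748) (nat_lit 0) (XT.nd (nat_lit 234) (nat_lit 988) (nat_lit 0) (XT.nd (nat_lit 78) (nat_lit 532) (nat_lit 0) (XT.lf (nat_lit 0) (nat_lit 7275595741) (nat_lit 608) (nat_lit 1090722472) (nat_lit 76) (nat_lit 2215695090) (nat_lit 156) (nat_lit 5) (nat_lit 164) (nat_lit 5) (nat_lit 157) (nat_lit 5) (nat_lit 304) (nat_lit 274) (nat_lit 202)) (XT.nd (nat_lit 78) (nat_lit 76) (nat_lit 0) (XT.lf (nat_lit 0) (nat_lit 4643862970) (nat_lit 456) (nat_lit 4647928557) (nat_lit 532) (nat_lit 1458304330) (nat_lit 150) (nat_lit 5) (nat_lit 156) (nat_lit 5) (nat_lit 157) (nat_lit 5) (nat_lit 305) (nat_lit 274) (nat_lit 201)) (XT.lf (nat_lit 0) (nat_lit 419131150) (nat_lit 532) (nat_lit 385378473) (nat_lit 76) (nat_lit 10119135764) (nat_lit 149) (nat_lit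 5) (nat_lit 156) (nat_lit 5) (nat_lit 150) (nat_lit 5) (nat_lit 306) (nat_lit 274) (nat_lit 200)))) (XT.nd (nat_lit 78) (nat_lit 456) (nat_lit 0) (XT.lf (nat_lit 0) (nat_lit 2380381302) (nat_lit 608) (nat_lit 5560856090) (nat_lit 76) (nat_lit 3159055836) (nat_lit 142) (nat_lit 5) (nat_lit 150) (nat_lit 5) (nat_lit 143) (nat_lit 5) (nat_lit 307) (nat_lit 274) (nat_lit 199)) (XT.nd (nat_lit 78) (nat_lit 0) (nat_lit 0) (XT.lf (nat_lit 0) (nat_lit 335753476) (nat_lit 456) (nat_lit 4052611411) (nat_lit 532) (nat_lit 6894266945) (nat_lit 136) (nat_lit 5) (nat_lit 142) (nat_lit 5) (nat_lit 143) (nat_lit 5) (nat_lit 308) (nat_lit 274) (nat_lit 198)) (XT.lf (nat_lit 0) (nat_lit 6486083699) (nat_lit 532) (nat_lit 4976666642) (nat_lit 76) (nat_lit 6832763) (nat_lit 136) (nat_lit 5) (nat_lit 143) (nat_lit 5) (nat_lit 137) (nat_lit 5) (nat_lit 309) (nat_lit 274) (nat_lit 197))))) (XT.nd (nat_lit 234) (nat_lit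 836) (nat_lit 0) (XT.nd (nat_lit 78) (nat_lit 456) (nat_lit 0) (XT.lf (nat_lit 0) (nat_lit 1124307554) (nat_lit 456) (nat_lit 7547379240) (nat_lit 532) (nat_lit 2989734123) (nat_lit 130) (nat_lit 5) (nat_lit 136) (nat_lit 5) (nat_lit 137) (nat_lit 5) (nat_lit 310) (nat_lit 274) (nat_lit 196)) (XT.nd (nat_lit 78) (nat_lit 456) (nat_lit 0) (XT.lf (nat_lit 0) (nat_lit 7480465138) (nat_lit 456) (nat_lit 3467137372) (nat_lit 532) (nat_lit 910694827) (nat_lit 130) (nat_lit 5) (nat_lit 136) (nat_lit 5) (nat_lit 137) (nat_lit 5) (nat_lit 311) (nat_lit 274) (nat_lit 195)) (XT.lf (nat_lit 0) (nat_lit 1207865631) (nat_lit 456) (nat_lit 10105075073) (nat_lit 76) (nat_lit 747773792) (nat_lit 124) (nat_lit 5) (nat_lit 130) (nat_lit 5) (nat_lit 125) (nat_lit 5) (nat_lit 312) (nat_lit 274) (nat_lit 194)))) (XT.nd (nat_lit 156) (nat_lit 380) (nat_lit 0) (XT.nd (nat_lit 78) (nat_lit 456) (nat_lit 0) (XT.lf (nat_lit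 0) (nat_lit 3426019039) (nat_lit 456) (nat_lit 3772746832) (nat_lit 76) (nat_lit 5068561211) (nat_lit 124) (nat_lit 5) (nat_lit 130) (nat_lit 5) (nat_lit 125) (nat_lit 5) (nat_lit 313) (nat_lit 274) (nat_lit 193)) (XT.lf (nat_lit 0) (nat_lit 2774623493) (nat_lit 456) (nat_lit 2938849291) (nat_lit 532) (nat_lit 6766605521) (nat_lit 118) (nat_lit 5) (nat_lit 124) (nat_lit 5) (nat_lit 125) (nat_lit 5) (nat_lit 314) (nat_lit 274) (nat_lit 192))) (XT.nd (nat_lit 78) (nat_lit 380) (nat_lit 0) (XT.lf (nat_lit 0) (nat_lit 8098405437) (nat_lit 532) (nat_lit 3146083121) (nat_lit 76) (nat_lit 1453880111) (nat_lit 118) (nat_lit 5) (nat_lit 125) (nat_lit 5) (nat_lit 119) (nat_lit 5) (nat_lit 315) (nat_lit 274) (nat_lit 191)) (XT.lf (nat_lit 0) (nat_lit 3623067472) (nat_lit 380) (nat_lit 6972882453) (nat_lit 456) (nat_lit 2326047520) (nat_lit 113) (nat_lit 5) (nat_lit 118) (nat_lit 5) (nat_lit 119) (nat_lit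 5) (nat_lit 316) (nat_lit 274) (nat_lit 190)))))) (XT.nd (nat_lit 546) (nat_lit 1292) (nat_lit 0) (XT.nd (nat_lit 234) (nat_lit 760) (nat_lit 0) (XT.nd (nat_lit 78) (nat_lit 380) (nat_lit 0) (XT.lf (nat_lit 0) (nat_lit 25145353) (nat_lit 456) (nat_lit 2520862724) (nat_lit 76) (nat_lit 10606061534) (nat_lit 112) (nat_lit 5) (nat_lit 118) (nat_lit 5) (nat_lit 113) (nat_lit 5) (nat_lit 317) (nat_lit 274) (nat_lit 189)) (XT.nd (nat_lit 78) (nat_lit 0) (nat_lit 0) (XT.lf (nat_lit 0) (nat_lit 2441260868) (nat_lit 456) (nat_lit 8910375057) (nat_lit 76) (nat_lit 2035502751) (nat_lit 107) (nat_lit 5) (nat_lit 113) (nat_lit 5) (nat_lit 108) (nat_lit 5) (nat_lit 318) (nat_lit 274) (nat_lit 188)) (XT.lf (nat_lit 0) (nat_lit 4959045198) (nat_lit 456) (nat_lit 1946256771) (nat_lit 76) (nat_lit 6723101488) (nat_lit 107) (nat_lit 5) (nat_lit 113) (nat_lit 5) (nat_lit 108) (nat_lit 5) (nat_lit 319) (nat_lit 274)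 (nat_lit 187)))) (XT.nd (nat_lit 156) (nat_lit 456) (nat_lit 0) (XT.nd (nat_lit 78) (nat_lit 0) (nat_lit 0) (XT.lf (nat_lit 0) (nat_lit 5302791171) (nat_lit 304) (nat_lit 2279448027) (nat_lit 380) (nat_lit 6293789346) (nat_lit 103) (nat_lit 5) (nat_lit 107) (nat_lit 5) (nat_lit 108) (nat_lit 5) (nat_lit 320) (nat_lit 274) (nat_lit 186)) (XT.lf (nat_lit 0) (nat_lit 10307059488) (nat_lit 380) (nat_lit 1373149050) (nat_lit 76) (nat_lit 2450204033) (nat_lit 103) (nat_lit 5) (nat_lit 108) (nat_lit 5) (nat_lit 104) (nat_lit 5) (nat_lit 321) (nat_lit 274) (nat_lit 185))) (XT.nd (nat_lit 78) (nat_lit 76) (nat_lit 0) (XT.lf (nat_lit 0) (nat_lit 6112683204) (nat_lit 380) (nat_lit 7062068262) (nat_lit 456) (nat_lit 1215860417) (nat_lit 98) (nat_lit 5) (nat_lit 103) (nat_lit 5) (nat_lit 104) (nat_lit 5) (nat_lit 322) (nat_lit 274) (nat_lit 184)) (XT.lf (nat_lit 0) (nat_lit 1435095861) (nat_lit 456) (nat_lit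 848351227) (nat_lit 76) (nat_lit 12374945146) (nat_lit 97) (nat_lit 5) (nat_lit 103) (nat_lit 5) (nat_lit 98) (nat_lit 5) (nat_lit 323) (nat_lit 274) (nat_lit 183))))) (XT.nd (nat_lit 234) (nat_lit 684) (nat_lit 0) (XT.nd (nat_lit 78) (nat_lit 304) (nat_lit 0) (XT.lf (nat_lit 0) (nat_lit 4214050033) (nat_lit 380) (nat_lit 8058134727) (nat_lit 76) (nat_lit 2659488969) (nat_lit 93) (nat_lit 5) (nat_lit 98) (nat_lit 5) (nat_lit 94) (nat_lit 5) (nat_lit 324) (nat_lit 274) (nat_lit 182)) (XT.nd (nat_lit 78) (nat_lit 304) (nat_lit 0) (XT.lf (nat_lit 0) (nat_lit 7088386257) (nat_lit 380) (nat_lit 417712413) (nat_lit 76) (nat_lit 7706710212) (nat_lit 93) (nat_lit 5) (nat_lit 98) (nat_lit 5) (nat_lit 94) (nat_lit 5) (nat_lit 325) (nat_lit 274) (nat_lit 181)) (XT.lf (nat_lit 0) (nat_lit 7573892367) (nat_lit 304) (nat_lit 2529179200) (nat_lit 380) (nat_lit 5397698112) (nat_lit 89) (nat_lit 5) (nat_lit 93)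 (nat_lit 5) (nat_lit 94) (nat_lit 5) (nat_lit 326) (nat_lit 274) (nat_lit 180)))) (XT.nd (nat_lit 156) (nat_lit 304) (nat_lit 0) (XT.nd (nat_lit 78) (nat_lit 380) (nat_lit 0) (XT.lf (nat_lit 0) (nat_lit 13218965197) (nat_lit 380) (nat_lit 34509184) (nat_lit 76) (nat_lit 2543586606) (nat_lit 89) (nat_lit 5) (nat_lit 94) (nat_lit 5) (nat_lit 90) (nat_lit 5) (nat_lit 327) (nat_lit 274) (nat_lit 179)) (XT.lf (nat_lit 0) (nat_lit 406556614) (nat_lit 380) (nat_lit 7899284954) (nat_lit 76) (nat_lit 7793714543) (nat_lit 84) (nat_lit 5) (nat_lit 89) (nat_lit 5) (nat_lit 85) (nat_lit 5) (nat_lit 328) (nat_lit 274) (nat_lit 178))) (XT.nd (nat_lit 78) (nat_lit 0) (nat_lit 0) (XT.lf (nat_lit 0) (nat_lit 225121371) (nat_lit 304) (nat_lit 3188499826) (nat_lit 380) (nat_lit 12997211898) (nat_lit 80) (nat_lit 5) (nat_lit 84) (nat_lit 5) (nat_lit 85) (nat_lit 5) (nat_lit 329) (nat_lit 274) (nat_lit 177)) (XT.lf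 (nat_lit 0) (nat_lit 6593849383) (nat_lit 380) (nat_lit 8020320574) (nat_lit 76) (nat_lit 2114802958) (nat_lit 80) (nat_lit 5) (nat_lit 85) (nat_lit 5) (nat_lit 81) (nat_lit 5) (nat_lit 330) (nat_lit 274) (nat_lit 176))))))) (XT.nd (nat_lit 1092) (nat_lit 1292) (nat_lit 0) (XT.nd (nat_lit 546) (nat_lit 912) (nat_lit 0) (XT.nd (nat_lit 234) (nat_lit 304) (nat_lit 0) (XT.nd (nat_lit 78) (nat_lit 304) (nat_lit 0) (XT.lf (nat_lit 0) (nat_lit 340202576) (nat_lit 228) (nat_lit 9547012312) (nat_lit 304) (nat_lit 7168922824) (nat_lit 77) (nat_lit 5) (nat_lit 80) (nat_lit 5) (nat_lit 81) (nat_lit 5) (nat_lit 331) (nat_lit 274) (nat_lit 175)) (XT.nd (nat_lit 78) (nat_lit 304) (nat_lit 0) (XT.lf (nat_lit 0) (nat_lit 9091295234) (nat_lit 228) (nat_lit 4252227896) (nat_lit 304) (nat_lit 4047682399) (nat_lit 77) (nat_lit 5) (nat_lit 80) (nat_lit 5) (nat_lit 81) (nat_lit 5) (nat_lit 332) (nat_lit 274) (nat_lit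 174)) (XT.lf (nat_lit 0) (nat_lit 339301074) (nat_lit 304) (nat_lit 16562599813) (nat_lit 380) (nat_lit 834485051) (nat_lit 73) (nat_lit 5) (nat_lit 77) (nat_lit 5) (nat_lit 78) (nat_lit 5) (nat_lit 333) (nat_lit 274) (nat_lit 173)))) (XT.nd (nat_lit 156) (nat_lit 0) (nat_lit 0) (XT.nd (nat_lit 78) (nat_lit 228) (nat_lit 0) (XT.lf (nat_lit 0) (nat_lit 2537198951) (nat_lit 380) (nat_lit 8772766416) (nat_lit 76) (nat_lit 6777942237) (nat_lit 72) (nat_lit 5) (nat_lit 77) (nat_lit 5) (nat_lit 73) (nat_lit 5) (nat_lit 334) (nat_lit 274) (nat_lit 172)) (XT.lf (nat_lit 0) (nat_lit 79825092) (nat_lit 228) (nat_lit 5898324837) (nat_lit 304) (nat_lit 12472041412) (nat_lit 69) (nat_lit 5) (nat_lit 72) (nat_lit 5) (nat_lit 73) (nat_lit 5) (nat_lit 335) (nat_lit 274) (nat_lit 171))) (XT.nd (nat_lit 78) (nat_lit 0) (nat_lit 0) (XT.lf (nat_lit 0) (nat_lit 9354308379) (nat_lit 228) (nat_lit 240966651) (nat_lit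 304) (nat_lit 9225890827) (nat_lit 69) (nat_lit 5) (nat_lit 72) (nat_lit 5) (nat_lit 73) (nat_lit 5) (nat_lit 336) (nat_lit 274) (nat_lit 170)) (XT.lf (nat_lit 0) (nat_lit 13359350950) (nat_lit 304) (nat_lit 373167036) (nat_lit 76) (nat_lit 5469608833) (nat_lit 69) (nat_lit 5) (nat_lit 73) (nat_lit 5) (nat_lit 70) (nat_lit 5) (nat_lit 337) (nat_lit 274) (nat_lit 169))))) (XT.nd (nat_lit 234) (nat_lit 380) (nat_lit 0) (XT.nd (nat_lit 78) (nat_lit 304) (nat_lit 0) (XT.lf (nat_lit 0) (nat_lit 9146887058) (nat_lit 228) (nat_lit 8164957776) (nat_lit 304) (nat_lit 2280416928) (nat_lit 66) (nat_lit 5) (nat_lit 69) (nat_lit 5) (nat_lit 70) (nat_lit 5) (nat_lit 338) (nat_lit 274) (nat_lit 168)) (XT.nd (nat_lit 78) (nat_lit 228) (nat_lit 0) (XT.lf (nat_lit 0) (nat_lit 1350764812) (nat_lit 304) (nat_lit 1069814744) (nat_lit 76) (nat_lit 17573458559) (nat_lit 65) (nat_lit 5) (nat_lit 69) (nat_lit 5) (nat_lit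 66) (nat_lit 5) (nat_lit 339) (nat_lit 274) (nat_lit 167)) (XT.lf (nat_lit 0) (nat_lit 5149060557) (nat_lit 304) (nat_lit 11727230356) (nat_lit 76) (nat_lit 3527788286) (nat_lit 62) (nat_lit 5) (nat_lit 66) (nat_lit 5) (nat_lit 63) (nat_lit 5) (nat_lit 340) (nat_lit 274) (nat_lit 166)))) (XT.nd (nat_lit 156) (nat_lit 152) (nat_lit 0) (XT.nd (nat_lit 78) (nat_lit 228) (nat_lit 0) (XT.lf (nat_lit 0) (nat_lit 9081992771) (nat_lit 304) (nat_lit 2134444263) (nat_lit 76) (nat_lit 9609372760) (nat_lit 62) (nat_lit 5) (nat_lit 66) (nat_lit 5) (nat_lit 63) (nat_lit 5) (nat_lit 341) (nat_lit 274) (nat_lit 165)) (XT.lf (nat_lit 0) (nat_lit 7878389084) (nat_lit 228) (nat_lit 5316480489) (nat_lit 304) (nat_lit 8063472679) (nat_lit 59) (nat_lit 5) (nat_lit 62) (nat_lit 5) (nat_lit 63) (nat_lit 5) (nat_lit 342) (nat_lit 274) (nat_lit 164))) (XT.nd (nat_lit 78) (nat_lit 152) (nat_lit 0) (XT.lf (nat_lit 0) (nat_lit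 17446557649) (nat_lit 304) (nat_lit 3496969634) (nat_lit 76) (nat_lit 759869047) (nat_lit 59) (nat_lit 5) (nat_lit 63) (nat_lit 5) (nat_lit 60) (nat_lit 5) (nat_lit 343) (nat_lit 274) (nat_lit 163)) (XT.lf (nat_lit 0) (nat_lit 6740420639) (nat_lit 152) (nat_lit 15189552548) (nat_lit 228) (nat_lit 228711688) (nat_lit 57) (nat_lit 5) (nat_lit 59) (nat_lit 5) (nat_lit 60) (nat_lit 5) (nat_lit 344) (nat_lit 274) (nat_lit 162)))))) (XT.nd (nat_lit 546) (nat_lit 532) (nat_lit 0) (XT.nd (nat_lit 234) (nat_lit 456) (nat_lit 0) (XT.nd (nat_lit 78) (nat_lit 228) (nat_lit 0) (XT.lf (nat_lit 0) (nat_lit 3866217530) (nat_lit 228) (nat_lit 5329028282) (nat_lit 76) (nat_lit 13430589725) (nat_lit 56) (nat_lit 5) (nat_lit 59) (nat_lit 5) (nat_lit 57) (nat_lit 5) (nat_lit 345) (nat_lit 274) (nat_lit 161)) (XT.nd (nat_lit 78) (nat_lit 0) (nat_lit 0) (XT.lf (nat_lit 0) (nat_lit 5140503715) (nat_lit 228) (nat_lit 2975486946)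 (nat_lit 304) (nat_lit 14989851795) (nat_lit 53) (nat_lit 5) (nat_lit 56) (nat_lit 5) (nat_lit 57) (nat_lit 5) (nat_lit 346) (nat_lit 274) (nat_lit 160)) (XT.lf (nat_lit 0) (nat_lit 12567867430) (nat_lit 304) (nat_lit 7619325676) (nat_lit 76) (nat_lit 3410825402) (nat_lit 53) (nat_lit 5) (nat_lit 57) (nat_lit 5) (nat_lit 54) (nat_lit 5) (nat_lit 347) (nat_lit 274) (nat_lit 159)))) (XT.nd (nat_lit 156) (nat_lit 304) (nat_lit 0) (XT.nd (nat_lit 78) (nat_lit 0) (nat_lit 0) (XT.lf (nat_lit 0) (nat_lit 3047126532) (nat_lit 152) (nat_lit 14152580749) (nat_lit 228) (nat_lit 6903867389) (nat_lit 51) (nat_lit 5) (nat_lit 53) (nat_lit 5) (nat_lit 54) (nat_lit 5) (nat_lit 348) (nat_lit 274) (nat_lit 158)) (XT.lf (nat_lit 0) (nat_lit 14170015124) (nat_lit 152) (nat_lit 7865252855) (nat_lit 228) (nat_lit 2587093392) (nat_lit 51) (nat_lit 5) (nat_lit 53) (nat_lit 5) (nat_lit 54) (nat_lit 5) (nat_lit 349) (nat_lit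 274) (nat_lit 157))) (XT.nd (nat_lit 78) (nat_lit 0) (nat_lit 0) (XT.lf (nat_lit 0) (nat_lit 441201618) (nat_lit 228) (nat_lit 1374000406) (nat_lit 304) (nat_lit 23341211008) (nat_lit 47) (nat_lit 5) (nat_lit 50) (nat_lit 5) (nat_lit 51) (nat_lit 5) (nat_lit 350) (nat_lit 274) (nat_lit 156)) (XT.lf (nat_lit 0) (nat_lit 6443371607) (nat_lit 304) (nat_lit 13924735597) (nat_lit 76) (nat_lit 5333242742) (nat_lit 47) (nat_lit 5) (nat_lit 51) (nat_lit 5) (nat_lit 48) (nat_lit 5) (nat_lit 351) (nat_lit 274) (nat_lit 155))))) (XT.nd (nat_lit 234) (nat_lit 380) (nat_lit 0) (XT.nd (nat_lit 78) (nat_lit 152) (nat_lit 0) (XT.lf (nat_lit 0) (nat_lit 11212483434) (nat_lit 304) (nat_lit 2843093800) (nat_lit 76) (nat_lit 12207000882) (nat_lit 47) (nat_lit 5) (nat_lit 51) (nat_lit 5) (nat_lit 48) (nat_lit 5) (nat_lit 352) (nat_lit 274) (nat_lit 154)) (XT.nd (nat_lit 78) (nat_lit 0) (nat_lit 0) (XT.lf (nat_lit 0)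 (nat_lit 8722818300) (nat_lit 152) (nat_lit 7474527724) (nat_lit 228) (nat_lit 10641122671) (nat_lit 45) (nat_lit 5) (nat_lit 47) (nat_lit 5) (nat_lit 48) (nat_lit 5) (nat_lit 353) (nat_lit 274) (nat_lit 153)) (XT.lf (nat_lit 0) (nat_lit 20675776164) (nat_lit 152) (nat_lit 673666665) (nat_lit 228) (nat_lit 6081668229) (nat_lit 45) (nat_lit 5) (nat_lit 47) (nat_lit 5) (nat_lit 48) (nat_lit 5) (nat_lit 354) (nat_lit 274) (nat_lit 152)))) (XT.nd (nat_lit 156) (nat_lit 152) (nat_lit 0) (XT.nd (nat_lit 78) (nat_lit 76) (nat_lit 0) (XT.lf (nat_lit 0) (nat_lit 4963851907) (nat_lit 152) (nat_lit 21790058339) (nat_lit 228) (nat_lit 1284693766) (nat_lit 43) (nat_lit 5) (nat_lit 45) (nat_lit 5) (nat_lit 46) (nat_lit 5) (nat_lit 355) (nat_lit 274) (nat_lit 151)) (XT.lf (nat_lit 0) (nat_lit 3649670433) (nat_lit 228) (nat_lit 11549658347) (nat_lit 76) (nat_lit 13461999060) (nat_lit 42) (nat_lit 5) (nat_lit 45)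 (nat_lit 5) (nat_lit 43) (nat_lit 5) (nat_lit 356) (nat_lit 274) (nat_lit 150))) (XT.nd (nat_lit 78) (nat_lit 0) (nat_lit 0) (XT.lf (nat_lit 0) (nat_lit 296799710) (nat_lit 152) (nat_lit 8401875398) (nat_lit 228) (nat_lit 20603908843) (nat_lit 40) (nat_lit 5) (nat_lit 42) (nat_lit 5) (nat_lit 43) (nat_lit 5) (nat_lit 357) (nat_lit 274) (nat_lit 149)) (XT.lf (nat_lit 0) (nat_lit 12718118959) (nat_lit 152) (nat_lit 1287374840) (nat_lit 228) (nat_lit 15954398560) (nat_lit 40) (nat_lit 5) (nat_lit 42) (nat_lit 5) (nat_lit 43) (nat_lit 5) (nat_lit 358) (nat_lit 274) (nat_lit 148))))))))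
noncomputable def xc141 : XT := (XT.nd (nat_lit 2184) (nat_lit 608) (nat_lit 0) (XT.nd (nat_lit 1092) (nat_lit 684) (nat_lit 0) (XT.nd (nat_lit 546) (nat_lit 304) (nat_lit 0) (XT.nd (nat_lit 234) (nat_lit 380) (nat_lit 0) (XT.nd (nat_lit 78) (nat_lit 152) (nat_lit 0) (XT.lf (nat_lit 0) (nat_lit 19519531786) (nat_lit 228) (nat_lit 5199932437) (nat_lit 76) (nat_lit 5916020142) (nat_lit 40) (nat_lit 5) (nat_lit 43) (nat_lit 5) (nat_lit 41) (nat_lit 5) (nat_lit 359) (nat_lit 274) (nat_lit 147)) (XT.nd (nat_lit 78) (nat_lit 0) (nat_lit 0) (XT.lf (nat_lit 0) (nat_lit 7316663147) (nat_lit 152) (nat_lit 17955648203) (nat_lit 228) (nat_lit 6056837815) (nat_lit 38) (nat_lit 5) (nat_lit 40) (nat_lit 5) (nat_lit 41) (nat_lit 5) (nat_lit 360) (nat_lit 274) (nat_lit 146)) (XT.lf (nat_lit 0) (nat_lit 20298983389) (nat_lit 152) (nat_lit 10941568836) (nat_lit 228) (nat_lit 801789859) (nat_lit 38) (nat_lit 5) (nat_lit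 40) (nat_lit 5) (nat_lit 41) (nat_lit 5) (nat_lit 361) (nat_lit 274) (nat_lit 145)))) (XT.nd (nat_lit 156) (nat_lit 152) (nat_lit 0) (XT.nd (nat_lit 78) (nat_lit 0) (nat_lit 0) (XT.lf (nat_lit 0) (nat_lit 850024295) (nat_lit 152) (nat_lit 3669633185) (nat_lit 228) (nat_lit 28255986175) (nat_lit 35) (nat_lit 5) (nat_lit 37) (nat_lit 5) (nat_lit 38) (nat_lit 5) (nat_lit 362) (nat_lit 274) (nat_lit 144)) (XT.lf (nat_lit 0) (nat_lit 10131727771) (nat_lit 228) (nat_lit 19527432928) (nat_lit 76) (nat_lit 3867136707) (nat_lit 35) (nat_lit 5) (nat_lit 38) (nat_lit 5) (nat_lit 36) (nat_lit 5) (nat_lit 363) (nat_lit 274) (nat_lit 143))) (XT.nd (nat_lit 78) (nat_lit 152) (nat_lit 0) (XT.lf (nat_lit 0) (nat_lit 15939377739) (nat_lit 228) (nat_lit 6809308752) (nat_lit 76) (nat_lit 11549971760) (nat_lit 35) (nat_lit 5) (nat_lit 38) (nat_lit 5) (nat_lit 36) (nat_lit 5) (nat_lit 364) (nat_lit 274) (nat_lit 142))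 (XT.lf (nat_lit 0) (nat_lit 6400028457) (nat_lit 152) (nat_lit 15573899802) (nat_lit 228) (nat_lit 13118685424) (nat_lit 33) (nat_lit 5) (nat_lit 35) (nat_lit 5) (nat_lit 36) (nat_lit 5) (nat_lit 365) (nat_lit 274) (nat_lit 141))))) (XT.nd (nat_lit 234) (nat_lit 152) (nat_lit 0) (XT.nd (nat_lit 78) (nat_lit 152) (nat_lit 0) (XT.lf (nat_lit 0) (nat_lit 20130160838) (nat_lit 152) (nat_lit 8119378100) (nat_lit 228) (nat_lit 7659051908) (nat_lit 33) (nat_lit 5) (nat_lit 35) (nat_lit 5) (nat_lit 36) (nat_lit 5) (nat_lit 366) (nat_lit 274) (nat_lit 140)) (XT.nd (nat_lit 78) (nat_lit 152) (nat_lit 0) (XT.lf (nat_lit 0) (nat_lit 34257566996) (nat_lit 152) (nat_lit 447368394) (nat_lit 228) (nat_lit 2044370080) (nat_lit 33) (nat_lit 5) (nat_lit 35) (nat_lit 5) (nat_lit 36) (nat_lit 5) (nat_lit 367) (nat_lit 274) (nat_lit 139)) (XT.lf (nat_lit 0) (nat_lit 3839762056) (nat_lit 152) (nat_lit 26319164569) (nat_lit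 76) (nat_lit 7450021201) (nat_lit 31) (nat_lit 5) (nat_lit 33) (nat_lit 5) (nat_lit 32) (nat_lit 5) (nat_lit 368) (nat_lit 274) (nat_lit 138)))) (XT.nd (nat_lit 156) (nat_lit 0) (nat_lit 0) (XT.nd (nat_lit 78) (nat_lit 152) (nat_lit 0) (XT.lf (nat_lit 0) (nat_lit 9880895711) (nat_lit 152) (nat_lit 12997139744) (nat_lit 76) (nat_lit 15615093094) (nat_lit 31) (nat_lit 5) (nat_lit 33) (nat_lit 5) (nat_lit 32) (nat_lit 5) (nat_lit 369) (nat_lit 274) (nat_lit 137)) (XT.lf (nat_lit 0) (nat_lit 724682944) (nat_lit 152) (nat_lit 15377514663) (nat_lit 228) (nat_lit 23301672319) (nat_lit 29) (nat_lit 5) (nat_lit 31) (nat_lit 5) (nat_lit 32) (nat_lit 5) (nat_lit 370) (nat_lit 274) (nat_lit 136))) (XT.nd (nat_lit 78) (nat_lit 0) (nat_lit 0) (XT.lf (nat_lit 0) (nat_lit 15110722176) (nat_lit 152) (nat_lit 7522730790) (nat_lit 228) (nat_lit 17704784312) (nat_lit 29) (nat_lit 5) (nat_lit 31) (nat_lit 5) (nat_lit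 32) (nat_lit 5) (nat_lit 371) (nat_lit 274) (nat_lit 135)) (XT.lf (nat_lit 0) (nat_lit 29358347424) (nat_lit 228) (nat_lit 11391391672) (nat_lit 76) (nat_lit 550968583) (nat_lit 29) (nat_lit 5) (nat_lit 32) (nat_lit 5) (nat_lit 30) (nat_lit 4) (nat_lit 372) (nat_lit 274) (nat_lit 134)))))) (XT.nd (nat_lit 546) (nat_lit 304) (nat_lit 0) (XT.nd (nat_lit 234) (nat_lit 228) (nat_lit 0) (XT.nd (nat_lit 78) (nat_lit 76) (nat_lit 0) (XT.lf (nat_lit 0) (nat_lit 2827258747) (nat_lit 76) (nat_lit 33551860074) (nat_lit 152) (nat_lit 5910112452) (nat_lit 28) (nat_lit 5) (nat_lit 29) (nat_lit 5) (nat_lit 30) (nat_lit 4) (nat_lit 373) (nat_lit 274) (nat_lit 133)) (XT.nd (nat_lit 78) (nat_lit 0) (nat_lit 0) (XT.lf (nat_lit 0) (nat_lit 405844858) (nat_lit 152) (nat_lit 25615297861) (nat_lit 76) (nat_lit 17282923558) (nat_lit 27) (nat_lit 5) (nat_lit 29) (nat_lit 5) (nat_lit 28) (nat_lit 5) (nat_lit 374) (nat_lit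 274) (nat_lit 132)) (XT.lf (nat_lit 0) (nat_lit 6785199366) (nat_lit 152) (nat_lit 11424619231) (nat_lit 76) (nat_lit 26137993808) (nat_lit 27) (nat_lit 5) (nat_lit 29) (nat_lit 5) (nat_lit 28) (nat_lit 5) (nat_lit 375) (nat_lit 274) (nat_lit 131)))) (XT.nd (nat_lit 156) (nat_lit 76) (nat_lit 0) (XT.nd (nat_lit 78) (nat_lit 0) (nat_lit 0) (XT.lf (nat_lit 0) (nat_lit 3242548398) (nat_lit 152) (nat_lit 10137473807) (nat_lit 228) (nat_lit 32042128733) (nat_lit 25) (nat_lit 5) (nat_lit 27) (nat_lit 5) (nat_lit 28) (nat_lit 5) (nat_lit 376) (nat_lit 274) (nat_lit 130)) (XT.lf (nat_lit 0) (nat_lit 18571541993) (nat_lit 152) (nat_lit 1709519557) (nat_lit 228) (nat_lit 26244409494) (nat_lit 25) (nat_lit 5) (nat_lit 27) (nat_lit 5) (nat_lit 28) (nat_lit 5) (nat_lit 377) (nat_lit 274) (nat_lit 129))) (XT.nd (nat_lit 78) (nat_lit 76) (nat_lit 0) (XT.lf (nat_lit 0) (nat_lit 27449303226) (nat_lit 228) (nat_lit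 13380675336) (nat_lit 76) (nat_lit 6830109556) (nat_lit 25) (nat_lit 5) (nat_lit 28) (nat_lit 5) (nat_lit 26) (nat_lit 4) (nat_lit 378) (nat_lit 274) (nat_lit 128)) (XT.lf (nat_lit 0) (nat_lit 1632890488) (nat_lit 76) (nat_lit 33225682199) (nat_lit 152) (nat_lit 13969394026) (nat_lit 24) (nat_lit 5) (nat_lit 25) (nat_lit 5) (nat_lit 26) (nat_lit 4) (nat_lit 379) (nat_lit 274) (nat_lit 127))))) (XT.nd (nat_lit 234) (nat_lit 228) (nat_lit 0) (XT.nd (nat_lit 78) (nat_lit 76) (nat_lit 0) (XT.lf (nat_lit 0) (nat_lit 17359446788) (nat_lit 76) (nat_lit 25259231199) (nat_lit 152) (nat_lit 7408349302) (nat_lit 24) (nat_lit 5) (nat_lit 25) (nat_lit 5) (nat_lit 26) (nat_lit 4) (nat_lit 380) (nat_lit 274) (nat_lit 126)) (XT.nd (nat_lit 78) (nat_lit 76) (nat_lit 0) (XT.lf (nat_lit 0) (nat_lit 33546433536) (nat_lit 76) (nat_lit 17058783170) (nat_lit 152) (nat_lit 657036353) (nat_lit 24) (nat_lit 5) (nat_lit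 25) (nat_lit 5) (nat_lit 26) (nat_lit 4) (nat_lit 381) (nat_lit 274) (nat_lit 125)) (XT.lf (nat_lit 0) (nat_lit 6167694805) (nat_lit 152) (nat_lit 2387196244) (nat_lit 76) (nat_lit 43978018274) (nat_lit 23) (nat_lit 5) (nat_lit 25) (nat_lit 5) (nat_lit 24) (nat_lit 5) (nat_lit 382) (nat_lit 274) (nat_lit 124)))) (XT.nd (nat_lit 156) (nat_lit 76) (nat_lit 0) (XT.nd (nat_lit 78) (nat_lit 0) (nat_lit 0) (XT.lf (nat_lit 0) (nat_lit 13312391418) (nat_lit 228) (nat_lit 40190706967) (nat_lit 76) (nat_lit 334540941) (nat_lit 21) (nat_lit 5) (nat_lit 24) (nat_lit 5) (nat_lit 22) (nat_lit 4) (nat_lit 383) (nat_lit 274) (nat_lit 123)) (XT.lf (nat_lit 0) (nat_lit 20774437823) (nat_lit 228) (nat_lit 25065575201) (nat_lit 76) (nat_lit 9338409972) (nat_lit 21) (nat_lit 5) (nat_lit 24) (nat_lit 5) (nat_lit 22) (nat_lit 4) (nat_lit 384) (nat_lit 274) (nat_lit 122))) (XT.nd (nat_lit 78) (nat_lit 76) (nat_lit 0)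 (XT.lf (nat_lit 0) (nat_lit 28454483802) (nat_lit 228) (nat_lit 9497239568) (nat_lit 76) (nat_lit 18607884631) (nat_lit 21) (nat_lit 5) (nat_lit 24) (nat_lit 5) (nat_lit 22) (nat_lit 4) (nat_lit 385) (nat_lit 274) (nat_lit 121)) (XT.lf (nat_lit 0) (nat_lit 6657821407) (nat_lit 76) (nat_lit 29765417721) (nat_lit 152) (nat_lit 21557242106) (nat_lit 20) (nat_lit 5) (nat_lit 21) (nat_lit 5) (nat_lit 22) (nat_lit 4) (nat_lit 386) (nat_lit 274) (nat_lit 120))))))) (XT.nd (nat_lit 1092) (nat_lit 152) (nat_lit 0) (XT.nd (nat_lit 546) (nat_lit 228) (nat_lit 0) (XT.nd (nat_lit 234) (nat_lit 228) (nat_lit 0) (XT.nd (nat_lit 78) (nat_lit 0) (nat_lit 0) (XT.lf (nat_lit 0) (nat_lit 23482075929) (nat_lit 76) (nat_lit 21239261861) (nat_lit 152) (nat_lit 14719936312) (nat_lit 20) (nat_lit 5) (nat_lit 21) (nat_lit 5) (nat_lit 22) (nat_lit 4) (nat_lit 387) (nat_lit 274) (nat_lit 119)) (XT.nd (nat_lit 78) (nat_lit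 0) (nat_lit 0) (XT.lf (nat_lit 0) (nat_lit 40801211113) (nat_lit 76) (nat_lit 12461709249) (nat_lit 152) (nat_lit 7683135969) (nat_lit 20) (nat_lit 5) (nat_lit 21) (nat_lit 5) (nat_lit 22) (nat_lit 4) (nat_lit 388) (nat_lit 274) (nat_lit 118)) (XT.lf (nat_lit 0) (nat_lit 58630360183) (nat_lit 76) (nat_lit 3425090181) (nat_lit 152) (nat_lit 440692417) (nat_lit 20) (nat_lit 5) (nat_lit 21) (nat_lit 5) (nat_lit 22) (nat_lit 4) (nat_lit 389) (nat_lit 274) (nat_lit 117)))) (XT.nd (nat_lit 156) (nat_lit 0) (nat_lit 0) (XT.nd (nat_lit 78) (nat_lit 0) (nat_lit 0) (XT.lf (nat_lit 0) (nat_lit 7061013039) (nat_lit 228) (nat_lit 51065480896) (nat_lit 76) (nat_lit 5958846755) (nat_lit 17) (nat_lit 5) (nat_lit 20) (nat_lit 5) (nat_lit 18) (nat_lit 4) (nat_lit 390) (nat_lit 274) (nat_lit 116)) (XT.lf (nat_lit 0) (nat_lit 14847071082) (nat_lit 228) (nat_lit 35277799310) (nat_lit 76) (nat_lit 15595170083) (nat_lit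 17) (nat_lit 5) (nat_lit 20) (nat_lit 5) (nat_lit 18) (nat_lit 4) (nat_lit 391) (nat_lit 274) (nat_lit 115))) (XT.nd (nat_lit 78) (nat_lit 0) (nat_lit 0) (XT.lf (nat_lit 0) (nat_lit 22861685422) (nat_lit 228) (nat_lit 19025623697) (nat_lit 76) (nat_lit 25516624454) (nat_lit 17) (nat_lit 5) (nat_lit 20) (nat_lit 5) (nat_lit 18) (nat_lit 4) (nat_lit 392) (nat_lit 274) (nat_lit 114)) (XT.lf (nat_lit 0) (nat_lit 31111859119) (nat_lit 228) (nat_lit 2294753127) (nat_lit 76) (nat_lit 35731879102) (nat_lit 17) (nat_lit 5) (nat_lit 20) (nat_lit 5) (nat_lit 18) (nat_lit 4) (nat_lit 393) (nat_lit 274) (nat_lit 113))))) (XT.nd (nat_lit 234) (nat_lit 152) (nat_lit 0) (XT.nd (nat_lit 78) (nat_lit 0) (nat_lit 0) (XT.lf (nat_lit 0) (nat_lit 15226556568) (nat_lit 76) (nat_lit 24524611472) (nat_lit 152) (nat_lit 31169670384) (nat_lit 16) (nat_lit 5) (nat_lit 17) (nat_lit 5) (nat_lit 18) (nat_lit 4) (nat_lit 394)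 (nat_lit 274) (nat_lit 112)) (XT.nd (nat_lit 78) (nat_lit 0) (nat_lit 0) (XT.lf (nat_lit 0) (nat_lit 33312018224) (nat_lit 76) (nat_lit 15356129547) (nat_lit 152) (nat_lit 24087954819) (nat_lit 16) (nat_lit 5) (nat_lit 17) (nat_lit 5) (nat_lit 18) (nat_lit 4) (nat_lit 395) (nat_lit 274) (nat_lit 111)) (XT.lf (nat_lit 0) (nat_lit 51931764581) (nat_lit 76) (nat_lit 5916327685) (nat_lit 152) (nat_lit 16798470137) (nat_lit 16) (nat_lit 5) (nat_lit 17) (nat_lit 5) (nat_lit 18) (nat_lit 4) (nat_lit 396) (nat_lit 274) (nat_lit 110)))) (XT.nd (nat_lit 156) (nat_lit 76) (nat_lit 0) (XT.nd (nat_lit 78) (nat_lit 76) (nat_lit 0) (XT.lf (nat_lit 0) (nat_lit 67335580009) (nat_lit 152) (nat_lit 5528361570) (nat_lit 0) (nat_lit 3728831427) (nat_lit 16) (nat_lit 5) (nat_lit 18) (nat_lit 4) (nat_lit 16) (nat_lit 4) (nat_lit 397) (nat_lit 274) (nat_lit 109)) (XT.lf (nat_lit 0) (nat_lit 12348147226) (nat_lit 76) (nat_lit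 64932503019) (nat_lit 76) (nat_lit 1311532250) (nat_lit 15) (nat_lit 4) (nat_lit 16) (nat_lit 5) (nat_lit 16) (nat_lit 4) (nat_lit 398) (nat_lit 274) (nat_lit 108))) (XT.nd (nat_lit 78) (nat_lit 0) (nat_lit 0) (XT.lf (nat_lit 0) (nat_lit 6790458952) (nat_lit 152) (nat_lit 49850147044) (nat_lit 76) (nat_lit 24007425587) (nat_lit 14) (nat_lit 5) (nat_lit 16) (nat_lit 5) (nat_lit 15) (nat_lit 4) (nat_lit 399) (nat_lit 274) (nat_lit 107)) (XT.lf (nat_lit 0) (nat_lit 15104964428) (nat_lit 152) (nat_lit 32985106704) (nat_lit 76) (nat_lit 34675222190) (nat_lit 14) (nat_lit 5) (nat_lit 16) (nat_lit 5) (nat_lit 15) (nat_lit 4) (nat_lit 400) (nat_lit 274) (nat_lit 106)))))) (XT.nd (nat_lit 546) (nat_lit 0) (nat_lit 0) (XT.nd (nat_lit 234) (nat_lit 76) (nat_lit 0) (XT.nd (nat_lit 78) (nat_lit 76) (nat_lit 0) (XT.lf (nat_lit 0) (nat_lit 23664841997) (nat_lit 152) (nat_lit 15621570556) (nat_lit 76) (nat_lit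 45659783411) (nat_lit 14) (nat_lit 5) (nat_lit 16) (nat_lit 5) (nat_lit 15) (nat_lit 4) (nat_lit 401) (nat_lit 274) (nat_lit 105)) (XT.nd (nat_lit 78) (nat_lit 0) (nat_lit 0) (XT.lf (nat_lit 0) (nat_lit 2300524949) (nat_lit 76) (nat_lit 30199160266) (nat_lit 152) (nat_lit 54692296514) (nat_lit 13) (nat_lit 5) (nat_lit 14) (nat_lit 5) (nat_lit 15) (nat_lit 4) (nat_lit 402) (nat_lit 274) (nat_lit 104)) (XT.lf (nat_lit 0) (nat_lit 21073342911) (nat_lit 76) (nat_lit 20680079322) (nat_lit 152) (nat_lit 47747104472) (nat_lit 13) (nat_lit 5) (nat_lit 14) (nat_lit 5) (nat_lit 15) (nat_lit 4) (nat_lit 403) (nat_lit 274) (nat_lit 103)))) (XT.nd (nat_lit 156) (nat_lit 76) (nat_lit 0) (XT.nd (nat_lit 78) (nat_lit 0) (nat_lit 0) (XT.lf (nat_lit 0) (nat_lit 40402386877) (nat_lit 76) (nat_lit 10878599309) (nat_lit 152) (nat_lit 40597456460) (nat_lit 13) (nat_lit 5) (nat_lit 14) (nat_lit 5) (nat_lit 15) (nat_lit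 4) (nat_lit 404) (nat_lit 274) (nat_lit 102)) (XT.lf (nat_lit 0) (nat_lit 60304546302) (nat_lit 76) (nat_lit 786155827) (nat_lit 152) (nat_lit 33237105213) (nat_lit 13) (nat_lit 5) (nat_lit 14) (nat_lit 5) (nat_lit 15) (nat_lit 4) (nat_lit 405) (nat_lit 274) (nat_lit 101))) (XT.nd (nat_lit 78) (nat_lit 76) (nat_lit 0) (XT.lf (nat_lit 0) (nat_lit 71283481080) (nat_lit 152) (nat_lit 16145889011) (nat_lit 0) (nat_lit 9418620742) (nat_lit 13) (nat_lit 5) (nat_lit 15) (nat_lit 4) (nat_lit 13) (nat_lit 4) (nat_lit 406) (nat_lit 274) (nat_lit 100)) (XT.lf (nat_lit 0) (nat_lit 2298426009) (nat_lit 76) (nat_lit 79510003099) (nat_lit 76) (nat_lit 17634560118) (nat_lit 12) (nat_lit 4) (nat_lit 13) (nat_lit 5) (nat_lit 13) (nat_lit 4) (nat_lit 407) (nat_lit 274) (nat_lit 99))))) (XT.nd (nat_lit 30342) (nat_lit 0) (nat_lit 18164) (XT.nd (nat_lit 78) (nat_lit 0) (nat_lit 0) (XT.lf (nat_lit 0) (nat_lit 21620663544)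 (nat_lit 76) (nat_lit 71188052327) (nat_lit 76) (nat_lit 9302334935) (nat_lit 12) (nat_lit 4) (nat_lit 13) (nat_lit 5) (nat_lit 13) (nat_lit 4) (nat_lit 408) (nat_lit 274) (nat_lit 98)) (XT.nd (nat_lit 30186) (nat_lit 0) (nat_lit 19000) (XT.lf (nat_lit 0) (nat_lit 41516372250) (nat_lit 76) (nat_lit 62619287987) (nat_lit 76) (nat_lit 723595438) (nat_lit 12) (nat_lit 4) (nat_lit 13) (nat_lit 5) (nat_lit 13) (nat_lit 4) (nat_lit 409) (nat_lit 274) (nat_lit 97)) (XT.lf (nat_lit 0) (nat_lit 2395854956) (nat_lit 836) (nat_lit 656283219) (nat_lit 836) (nat_lit 656283219) (nat_lit 262) (nat_lit 3) (nat_lit 273) (nat_lit 3) (nat_lit 273) (nat_lit 5) (nat_lit 275) (nat_lit 275) (nat_lit 230)))) (XT.nd (nat_lit 156) (nat_lit 0) (nat_lit 76) (XT.nd (nat_lit 78) (nat_lit 836) (nat_lit 0) (XT.lf (nat_lit 76) (nat_lit 2143132177) (nat_lit 0) (nat_lit 4153093511) (nat_lit 836) (nat_lit 1186796078) (nat_lit 263)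 (nat_lit 5) (nat_lit 262) (nat_lit 3) (nat_lit 273) (nat_lit 5) (nat_lit 276) (nat_lit 275) (nat_lit 229)) (XT.lf (nat_lit 0) (nat_lit 246310821) (nat_lit 836) (nat_lit 1854525652) (nat_lit 912) (nat_lit 5451622901) (nat_lit 251) (nat_lit 5) (nat_lit 262) (nat_lit 3) (nat_lit 263) (nat_lit 5) (nat_lit 277) (nat_lit 275) (nat_lit 228))) (XT.nd (nat_lit 78) (nat_lit 0) (nat_lit 0) (XT.lf (nat_lit 0) (nat_lit 1661431903) (nat_lit 836) (nat_lit 5897417212) (nat_lit 912) (nat_lit 65969297) (nat_lit 252) (nat_lit 5) (nat_lit 263) (nat_lit 5) (nat_lit 264) (nat_lit 5) (nat_lit 278) (nat_lit 275) (nat_lit 227)) (XT.lf (nat_lit 0) (nat_lit 3105872265) (nat_lit 836) (nat_lit 2295883772) (nat_lit 912) (nat_lit 2298061020) (nat_lit 252) (nat_lit 5) (nat_lit 263) (nat_lit 5) (nat_lit 264) (nat_lit 5) (nat_lit 279) (nat_lit 275) (nat_lit 226))))))))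
noncomputable def xc142 : XT := (XT.nd (nat_lit 2106) (nat_lit 5852) (nat_lit 0) (XT.nd (nat_lit 1014) (nat_lit 5168) (nat_lit 0) (XT.nd (nat_lit 468) (nat_lit 1748) (nat_lit 0) (XT.nd (nat_lit 234) (nat_lit 836) (nat_lit 0) (XT.nd (nat_lit 78) (nat_lit 0) (nat_lit 0) (XT.lf (nat_lit 76) (nat_lit 1411220656) (nat_lit 0) (nat_lit 3144682732) (nat_lit 912) (nat_lit 3222367172) (nat_lit 253) (nat_lit 5) (nat_lit 252) (nat_lit 5) (nat_lit 264) (nat_lit 5) (nat_lit 280) (nat_lit 275) (nat_lit 225)) (XT.nd (nat_lit 78) (nat_lit 0) (nat_lit 76) (XT.lf (nat_lit 76) (nat_lit 5246882819) (nat_lit 0) (nat_lit 775637319) (nat_lit 912) (nat_lit 1837435502) (nat_lit 253) (nat_lit 5) (nat_lit 252) (nat_lit 5) (nat_lit 264) (nat_lit 5) (nat_lit 281) (nat_lit 275) (nat_lit 224)) (XT.lf (nat_lit 76) (nat_lit 1230973269) (nat_lit 0) (nat_lit 6281545155) (nat_lit 912) (nat_lit 432259812) (nat_lit 254) (nat_lit 5)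 (nat_lit 253) (nat_lit 5) (nat_lit 265) (nat_lit 5) (nat_lit 282) (nat_lit 275) (nat_lit 223)))) (XT.nd (nat_lit 78) (nat_lit 0) (nat_lit 0) (XT.lf (nat_lit 0) (nat_lit 981727767) (nat_lit 912) (nat_lit 2836434468) (nat_lit 988) (nat_lit 4214161149) (nat_lit 241) (nat_lit 5) (nat_lit 253) (nat_lit 5) (nat_lit 254) (nat_lit 5) (nat_lit 283) (nat_lit 275) (nat_lit 222)) (XT.nd (nat_lit 78) (nat_lit 0) (nat_lit 76) (XT.lf (nat_lit 76) (nat_lit 1144942185) (nat_lit 0) (nat_lit 1249041329) (nat_lit 988) (nat_lit 5729509530) (nat_lit 242) (nat_lit 5) (nat_lit 241) (nat_lit 5) (nat_lit 254) (nat_lit 5) (nat_lit 284) (nat_lit 275) (nat_lit 221)) (XT.lf (nat_lit 0) (nat_lit 3845705545) (nat_lit 912) (nat_lit 2957997723) (nat_lit 988) (nat_lit 1413842391) (nat_lit 242) (nat_lit 5) (nat_lit 254) (nat_lit 5) (nat_lit 255) (nat_lit 5) (nat_lit 285) (nat_lit 275) (nat_lit 220))))) (XT.nd (nat_lit 234) (nat_lit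 1824) (nat_lit 0) (XT.nd (nat_lit 78) (nat_lit 0) (nat_lit 0) (XT.lf (nat_lit 76) (nat_lit 1162767287) (nat_lit 0) (nat_lit 4157816416) (nat_lit 988) (nat_lit 2994507066) (nat_lit 243) (nat_lit 5) (nat_lit 242) (nat_lit 5) (nat_lit 255) (nat_lit 5) (nat_lit 286) (nat_lit 275) (nat_lit 219)) (XT.nd (nat_lit 78) (nat_lit 0) (nat_lit 76) (XT.lf (nat_lit 76) (nat_lit 5437364801) (nat_lit 0) (nat_lit 1389261186) (nat_lit 988) (nat_lit 1589386044) (nat_lit 243) (nat_lit 5) (nat_lit 242) (nat_lit 5) (nat_lit 255) (nat_lit 5) (nat_lit 287) (nat_lit 275) (nat_lit 218)) (XT.lf (nat_lit 76) (nat_lit 1300597760) (nat_lit 0) (nat_lit 7062226667) (nat_lit 988) (nat_lit 157642919) (nat_lit 244) (nat_lit 5) (nat_lit 243) (nat_lit 5) (nat_lit 256) (nat_lit 5) (nat_lit 288) (nat_lit 275) (nat_lit 217)))) (XT.nd (nat_lit 156) (nat_lit 912) (nat_lit 0) (XT.nd (nat_lit 78) (nat_lit 0) (nat_lit 0) (XT.lf (nat_lit 0)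 (nat_lit 1294359991) (nat_lit 988) (nat_lit 2916118921) (nat_lit 1064) (nat_lit 4417159827) (nat_lit 230) (nat_lit 5) (nat_lit 243) (nat_lit 5) (nat_lit 244) (nat_lit 5) (nat_lit 289) (nat_lit 275) (nat_lit 216)) (XT.lf (nat_lit 76) (nat_lit 1514116472) (nat_lit 0) (nat_lit 1247266999) (nat_lit 1064) (nat_lit 5977407048) (nat_lit 231) (nat_lit 5) (nat_lit 230) (nat_lit 5) (nat_lit 244) (nat_lit 5) (nat_lit 290) (nat_lit 275) (nat_lit 215))) (XT.nd (nat_lit 78) (nat_lit 988) (nat_lit 0) (XT.lf (nat_lit 0) (nat_lit 4280535396) (nat_lit 988) (nat_lit 2764615546) (nat_lit 76) (nat_lit 1807931833) (nat_lit 231) (nat_lit 5) (nat_lit 244) (nat_lit 5) (nat_lit 232) (nat_lit 5) (nat_lit 291) (nat_lit 275) (nat_lit 214)) (XT.lf (nat_lit 0) (nat_lit 1821747474) (nat_lit 988) (nat_lit 4015540248) (nat_lit 1064) (nat_lit 3133803316) (nat_lit 218) (nat_lit 5) (nat_lit 231) (nat_lit 5) (nat_lit 232) (nat_lit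 5) (nat_lit 292) (nat_lit 275) (nat_lit 213)))))) (XT.nd (nat_lit 546) (nat_lit 2204) (nat_lit 0) (XT.nd (nat_lit 234) (nat_lit 1824) (nat_lit 0) (XT.nd (nat_lit 78) (nat_lit 1140) (nat_lit 0) (XT.lf (nat_lit 0) (nat_lit 6571977333) (nat_lit 988) (nat_lit 859657205) (nat_lit 1064) (nat_lit 1661324869) (nat_lit 218) (nat_lit 5) (nat_lit 231) (nat_lit 5) (nat_lit 232) (nat_lit 5) (nat_lit 293) (nat_lit 275) (nat_lit 212)) (XT.nd (nat_lit 78) (nat_lit 76) (nat_lit 0) (XT.lf (nat_lit 0) (nat_lit 2236187338) (nat_lit 1064) (nat_lit 6846217836) (nat_lit 1140) (nat_lit 135866109) (nat_lit 204) (nat_lit 5) (nat_lit 218) (nat_lit 5) (nat_lit 219) (nat_lit 5) (nat_lit 294) (nat_lit 275) (nat_lit 211)) (XT.lf (nat_lit 0) (nat_lit 1406045013) (nat_lit 1140) (nat_lit 2212535210) (nat_lit 76) (nat_lit 5728430099) (nat_lit 203) (nat_lit 5) (nat_lit 218) (nat_lit 5) (nat_lit 204) (nat_lit 5) (nat_lit 295) (nat_lit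 275) (nat_lit 210)))) (XT.nd (nat_lit 156) (nat_lit 684) (nat_lit 0) (XT.nd (nat_lit 78) (nat_lit 0) (nat_lit 0) (XT.lf (nat_lit 0) (nat_lit 2721625764) (nat_lit 1140) (nat_lit 261530602) (nat_lit 1216) (nat_lit 6496706017) (nat_lit 188) (nat_lit 5) (nat_lit 203) (nat_lit 5) (nat_lit 204) (nat_lit 5) (nat_lit 296) (nat_lit 275) (nat_lit 209)) (XT.lf (nat_lit 0) (nat_lit 4627133917) (nat_lit 1216) (nat_lit 1828840166) (nat_lit 76) (nat_lit 3160179549) (nat_lit 188) (nat_lit 5) (nat_lit 204) (nat_lit 5) (nat_lit 189) (nat_lit 5) (nat_lit 297) (nat_lit 275) (nat_lit 208))) (XT.nd (nat_lit 78) (nat_lit 0) (nat_lit 0) (XT.lf (nat_lit 0) (nat_lit 3279720289) (nat_lit 684) (nat_lit 3042074416) (nat_lit 760) (nat_lit 3434737034) (nat_lit 179) (nat_lit 5) (nat_lit 188) (nat_lit 5) (nat_lit 189) (nat_lit 5) (nat_lit 298) (nat_lit 275) (nat_lit 207)) (XT.lf (nat_lit 0) (nat_lit 8058441231) (nat_lit 760) (nat_lit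 1357136101) (nat_lit 76) (nat_lit 485847386) (nat_lit 179) (nat_lit 5) (nat_lit 189) (nat_lit 5) (nat_lit 180) (nat_lit 5) (nat_lit 299) (nat_lit 275) (nat_lit 206))))) (XT.nd (nat_lit 234) (nat_lit 988) (nat_lit 0) (XT.nd (nat_lit 78) (nat_lit 608) (nat_lit 0) (XT.lf (nat_lit 0) (nat_lit 3932797299) (nat_lit 608) (nat_lit 5951184396) (nat_lit 684) (nat_lit 165615752) (nat_lit 171) (nat_lit 5) (nat_lit 179) (nat_lit 5) (nat_lit 180) (nat_lit 5) (nat_lit 300) (nat_lit 275) (nat_lit 205)) (XT.nd (nat_lit 78) (nat_lit 532) (nat_lit 0) (XT.lf (nat_lit 0) (nat_lit 1514586450) (nat_lit 684) (nat_lit 838017436) (nat_lit 76) (nat_lit 7849705837) (nat_lit 170) (nat_lit 5) (nat_lit 179) (nat_lit 5) (nat_lit 171) (nat_lit 5) (nat_lit 301) (nat_lit 275) (nat_lit 204)) (XT.lf (nat_lit 0) (nat_lit 3270183805) (nat_lit 608) (nat_lit 5713647559) (nat_lit 76) (nat_lit 1374906953) (nat_lit 163) (nat_lit 5) (nat_lit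 171) (nat_lit 5) (nat_lit 164) (nat_lit 5) (nat_lit 302) (nat_lit 275) (nat_lit 203)))) (XT.nd (nat_lit 156) (nat_lit 456) (nat_lit 0) (XT.nd (nat_lit 78) (nat_lit 532) (nat_lit 0) (XT.lf (nat_lit 0) (nat_lit 5080935908) (nat_lit 608) (nat_lit 263166696) (nat_lit 76) (nat_lit 5175715257) (nat_lit 163) (nat_lit 5) (nat_lit 171) (nat_lit 5) (nat_lit 164) (nat_lit 5) (nat_lit 303) (nat_lit 275) (nat_lit 202)) (XT.lf (nat_lit 0) (nat_lit 5427560585) (nat_lit 532) (nat_lit 1542125544) (nat_lit 608) (nat_lit 3715365136) (nat_lit 156) (nat_lit 5) (nat_lit 163) (nat_lit 5) (nat_lit 164) (nat_lit 5) (nat_lit 304) (nat_lit 275) (nat_lit 201))) (XT.nd (nat_lit 78) (nat_lit 0) (nat_lit 0) (XT.lf (nat_lit 0) (nat_lit 394338308) (nat_lit 456) (nat_lit 8522100129) (nat_lit 532) (nat_lit 1938793867) (nat_lit 150) (nat_lit 5) (nat_lit 156) (nat_lit 5) (nat_lit 157) (nat_lit 5) (nat_lit 305) (nat_lit 275) (nat_lit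 200)) (XT.lf (nat_lit 0) (nat_lit 6278461575) (nat_lit 456) (nat_lit 4683917662) (nat_lit 532) (nat_lit 66945881) (nat_lit 150) (nat_lit 5) (nat_lit 156) (nat_lit 5) (nat_lit 157) (nat_lit 5) (nat_lit 306) (nat_lit 275) (nat_lit 199))))))) (XT.nd (nat_lit 1092) (nat_lit 2584) (nat_lit 0) (XT.nd (nat_lit 546) (nat_lit 1292) (nat_lit 0) (XT.nd (nat_lit 234) (nat_lit 912) (nat_lit 0) (XT.nd (nat_lit 78) (nat_lit 456) (nat_lit 0) (XT.lf (nat_lit 0) (nat_lit 1104972851) (nat_lit 532) (nat_lit 703473773) (nat_lit 608) (nat_lit 9400174455) (nat_lit 142) (nat_lit 5) (nat_lit 149) (nat_lit 5) (nat_lit 150) (nat_lit 5) (nat_lit 307) (nat_lit 275) (nat_lit 198)) (XT.nd (nat_lit 78) (nat_lit 456) (nat_lit 0) (XT.lf (nat_lit 0) (nat_lit 3793418818) (nat_lit 608) (nat_lit 4221447576) (nat_lit 76) (nat_lit 3376797119) (nat_lit 142) (nat_lit 5) (nat_lit 150) (nat_lit 5) (nat_lit 143) (nat_lit 5) (nat_lit 308)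 (nat_lit 275) (nat_lit 197)) (XT.lf (nat_lit 0) (nat_lit 1837293275) (nat_lit 456) (nat_lit 3999609042) (nat_lit 532) (nat_lit 5743352622) (nat_lit 136) (nat_lit 5) (nat_lit 142) (nat_lit 5) (nat_lit 143) (nat_lit 5) (nat_lit 309) (nat_lit 275) (nat_lit 196)))) (XT.nd (nat_lit 156) (nat_lit 456) (nat_lit 0) (XT.nd (nat_lit 78) (nat_lit 456) (nat_lit 0) (XT.lf (nat_lit 0) (nat_lit 7960826075) (nat_lit 532) (nat_lit 3639903664) (nat_lit 76) (nat_lit 173226108) (nat_lit 136) (nat_lit 5) (nat_lit 143) (nat_lit 5) (nat_lit 137) (nat_lit 5) (nat_lit 310) (nat_lit 275) (nat_lit 195)) (XT.lf (nat_lit 0) (nat_lit 2629530512) (nat_lit 456) (nat_lit 7559325438) (nat_lit 532) (nat_lit 1783425236) (nat_lit 130) (nat_lit 5) (nat_lit 136) (nat_lit 5) (nat_lit 137) (nat_lit 5) (nat_lit 311) (nat_lit 275) (nat_lit 194))) (XT.nd (nat_lit 78) (nat_lit 380) (nat_lit 0) (XT.lf (nat_lit 0) (nat_lit 313988648) (nat_lit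 532) (nat_lit 3045763846) (nat_lit 76) (nat_lit 8816354466) (nat_lit 129) (nat_lit 5) (nat_lit 136) (nat_lit 5) (nat_lit 130) (nat_lit 5) (nat_lit 312) (nat_lit 275) (nat_lit 193)) (XT.lf (nat_lit 0) (nat_lit 2457908877) (nat_lit 456) (nat_lit 8932783929) (nat_lit 76) (nat_lit 994265031) (nat_lit 124) (nat_lit 5) (nat_lit 130) (nat_lit 5) (nat_lit 125) (nat_lit 5) (nat_lit 313) (nat_lit 275) (nat_lit 192))))) (XT.nd (nat_lit 234) (nat_lit 836) (nat_lit 0) (XT.nd (nat_lit 78) (nat_lit 456) (nat_lit 0) (XT.lf (nat_lit 0) (nat_lit 4707253277) (nat_lit 456) (nat_lit 2453459920) (nat_lit 76) (nat_lit 5438150110) (nat_lit 124) (nat_lit 5) (nat_lit 130) (nat_lit 5) (nat_lit 125) (nat_lit 5) (nat_lit 314) (nat_lit 275) (nat_lit 191)) (XT.nd (nat_lit 78) (nat_lit 0) (nat_lit 0) (XT.lf (nat_lit 0) (nat_lit 4276287698) (nat_lit 456) (nat_lit 2766353816) (nat_lit 532) (nat_lit 5776009137) (nat_lit 118) (nat_lit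 5) (nat_lit 124) (nat_lit 5) (nat_lit 125) (nat_lit 5) (nat_lit 315) (nat_lit 275) (nat_lit 190)) (XT.lf (nat_lit 0) (nat_lit 9467833502) (nat_lit 532) (nat_lit 1830999721) (nat_lit 76) (nat_lit 1745627116) (nat_lit 118) (nat_lit 5) (nat_lit 125) (nat_lit 5) (nat_lit 119) (nat_lit 5) (nat_lit 316) (nat_lit 275) (nat_lit 189)))) (XT.nd (nat_lit 156) (nat_lit 380) (nat_lit 0) (XT.nd (nat_lit 78) (nat_lit 76) (nat_lit 0) (XT.lf (nat_lit 0) (nat_lit 5127407097) (nat_lit 380) (nat_lit 6893503069) (nat_lit 456) (nat_lit 1254500660) (nat_lit 113) (nat_lit 5) (nat_lit 118) (nat_lit 5) (nat_lit 119) (nat_lit 5) (nat_lit 317) (nat_lit 275) (nat_lit 188)) (XT.lf (nat_lit 0) (nat_lit 1112362685) (nat_lit 456) (nat_lit 1218893463) (nat_lit 76) (nat_lit 11181806934) (nat_lit 112) (nat_lit 5) (nat_lit 118) (nat_lit 5) (nat_lit 113) (nat_lit 5) (nat_lit 318) (nat_lit 275) (nat_lit 187))) (XT.nd (nat_lit 78) (nat_lit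 0) (nat_lit 0) (XT.lf (nat_lit 0) (nat_lit 3585276429) (nat_lit 456) (nat_lit 7783459592) (nat_lit 76) (nat_lit 2386947145) (nat_lit 107) (nat_lit 5) (nat_lit 113) (nat_lit 5) (nat_lit 108) (nat_lit 5) (nat_lit 319) (nat_lit 275) (nat_lit 186)) (XT.lf (nat_lit 0) (nat_lit 6147406588) (nat_lit 456) (nat_lit 651026302) (nat_lit 76) (nat_lit 7206716195) (nat_lit 107) (nat_lit 5) (nat_lit 113) (nat_lit 5) (nat_lit 108) (nat_lit 5) (nat_lit 320) (nat_lit 275) (nat_lit 185)))))) (XT.nd (nat_lit 546) (nat_lit 1216) (nat_lit 0) (XT.nd (nat_lit 234) (nat_lit 684) (nat_lit 0) (XT.nd (nat_lit 78) (nat_lit 380) (nat_lit 0) (XT.lf (nat_lit 0) (nat_lit 6802222312) (nat_lit 304) (nat_lit 2029679014) (nat_lit 380) (nat_lit 5428850211) (nat_lit 103) (nat_lit 5) (nat_lit 107) (nat_lit 5) (nat_lit 108) (nat_lit 5) (nat_lit 321) (nat_lit 275) (nat_lit 184)) (XT.nd (nat_lit 78) (nat_lit 380) (nat_lit 0) (XT.lf (nat_lit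 0) (nat_lit 11611662756) (nat_lit 380) (nat_lit 85365859) (nat_lit 76) (nat_lit 2826568555) (nat_lit 103) (nat_lit 5) (nat_lit 108) (nat_lit 5) (nat_lit 104) (nat_lit 5) (nat_lit 322) (nat_lit 275) (nat_lit 183)) (XT.lf (nat_lit 0) (nat_lit 7612012171) (nat_lit 380) (nat_lit 6937031039) (nat_lit 456) (nat_lit 243074743) (nat_lit 98) (nat_lit 5) (nat_lit 103) (nat_lit 5) (nat_lit 104) (nat_lit 5) (nat_lit 323) (nat_lit 275) (nat_lit 182)))) (XT.nd (nat_lit 156) (nat_lit 304) (nat_lit 0) (XT.nd (nat_lit 78) (nat_lit 0) (nat_lit 0) (XT.lf (nat_lit 0) (nat_lit 432164444) (nat_lit 304) (nat_lit 2010883336) (nat_lit 380) (nat_lit 12625356705) (nat_lit 93) (nat_lit 5) (nat_lit 97) (nat_lit 5) (nat_lit 98) (nat_lit 5) (nat_lit 324) (nat_lit 275) (nat_lit 181)) (XT.lf (nat_lit 0) (nat_lit 5288849294) (nat_lit 380) (nat_lit 6989209130) (nat_lit 76) (nat_lit 3072344724) (nat_lit 93) (nat_lit 5) (nat_lit 98)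 (nat_lit 5) (nat_lit 94) (nat_lit 5) (nat_lit 325) (nat_lit 275) (nat_lit 180))) (XT.nd (nat_lit 78) (nat_lit 0) (nat_lit 0) (XT.lf (nat_lit 0) (nat_lit 859013455) (nat_lit 304) (nat_lit 7371036858) (nat_lit 380) (nat_lit 7410525412) (nat_lit 89) (nat_lit 5) (nat_lit 93) (nat_lit 5) (nat_lit 94) (nat_lit 5) (nat_lit 326) (nat_lit 275) (nat_lit 179)) (XT.lf (nat_lit 0) (nat_lit 9061128494) (nat_lit 304) (nat_lit 2251084294) (nat_lit 380) (nat_lit 4625673220) (nat_lit 89) (nat_lit 5) (nat_lit 93) (nat_lit 5) (nat_lit 94) (nat_lit 5) (nat_lit 327) (nat_lit 275) (nat_lit 178))))) (XT.nd (nat_lit 234) (nat_lit 532) (nat_lit 0) (XT.nd (nat_lit 78) (nat_lit 380) (nat_lit 0) (XT.lf (nat_lit 0) (nat_lit 1235678306) (nat_lit 304) (nat_lit 13274696711) (nat_lit 380) (nat_lit 1733048408) (nat_lit 85) (nat_lit 5) (nat_lit 89) (nat_lit 5) (nat_lit 90) (nat_lit 5) (nat_lit 328) (nat_lit 275) (nat_lit 177)) (XT.nd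 (nat_lit 78) (nat_lit 304) (nat_lit 0) (XT.lf (nat_lit 0) (nat_lit 1297144599) (nat_lit 380) (nat_lit 6883234390) (nat_lit 76) (nat_lit 8375148324) (nat_lit 84) (nat_lit 5) (nat_lit 89) (nat_lit 5) (nat_lit 85) (nat_lit 5) (nat_lit 329) (nat_lit 275) (nat_lit 176)) (XT.lf (nat_lit 0) (nat_lit 1472619526) (nat_lit 304) (nat_lit 2908144176) (nat_lit 380) (nat_lit 12495807958) (nat_lit 80) (nat_lit 5) (nat_lit 84) (nat_lit 5) (nat_lit 85) (nat_lit 5) (nat_lit 330) (nat_lit 275) (nat_lit 175)))) (XT.nd (nat_lit 156) (nat_lit 304) (nat_lit 0) (XT.nd (nat_lit 78) (nat_lit 228) (nat_lit 0) (XT.lf (nat_lit 0) (nat_lit 7634721480) (nat_lit 380) (nat_lit 7034020972) (nat_lit 76) (nat_lit 2536182311) (nat_lit 80) (nat_lit 5) (nat_lit 85) (nat_lit 5) (nat_lit 81) (nat_lit 5) (nat_lit 331) (nat_lit 275) (nat_lit 174)) (XT.lf (nat_lit 0) (nat_lit 1565289352) (nat_lit 228) (nat_lit 9448721728) (nat_lit 304) (nat_lit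 6528297953) (nat_lit 77) (nat_lit 5) (nat_lit 80) (nat_lit 5) (nat_lit 81) (nat_lit 5) (nat_lit 332) (nat_lit 275) (nat_lit 173))) (XT.nd (nat_lit 78) (nat_lit 304) (nat_lit 0) (XT.lf (nat_lit 0) (nat_lit 10543529914) (nat_lit 228) (nat_lit 4006298661) (nat_lit 304) (nat_lit 3338343399) (nat_lit 77) (nat_lit 5) (nat_lit 80) (nat_lit 5) (nat_lit 81) (nat_lit 5) (nat_lit 333) (nat_lit 275) (nat_lit 172)) (XT.lf (nat_lit 0) (nat_lit 1538384050) (nat_lit 304) (nat_lit 16668012069) (nat_lit 380) (nat_lit 37585701) (nat_lit 73) (nat_lit 5) (nat_lit 77) (nat_lit 5) (nat_lit 78) (nat_lit 5) (nat_lit 334) (nat_lit 275) (nat_lit 171))))))))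
noncomputable def xc143 : XT := (XT.nd (nat_lit 2184) (nat_lit 1368) (nat_lit 0) (XT.nd (nat_lit 1092) (nat_lit 1140) (nat_lit 0) (XT.nd (nat_lit 546) (nat_lit 684) (nat_lit 0) (XT.nd (nat_lit 234) (nat_lit 532) (nat_lit 0) (XT.nd (nat_lit 78) (nat_lit 228) (nat_lit 0) (XT.lf (nat_lit 0) (nat_lit 3395737260) (nat_lit 380) (nat_lit 7865562312) (nat_lit 76) (nat_lit 7345232906) (nat_lit 72) (nat_lit 5) (nat_lit 77) (nat_lit 5) (nat_lit 73) (nat_lit 5) (nat_lit 335) (nat_lit 275) (nat_lit 170)) (XT.nd (nat_lit 78) (nat_lit 0) (nat_lit 0) (XT.lf (nat_lit 0) (nat_lit 1241132558) (nat_lit 228) (nat_lit 5687135388) (nat_lit 304) (nat_lit 12051781966) (nat_lit 69) (nat_lit 5) (nat_lit 72) (nat_lit 5) (nat_lit 73) (nat_lit 5) (nat_lit 336) (nat_lit 275) (nat_lit 169)) (XT.lf (nat_lit 0) (nat_lit 10632693637) (nat_lit 304) (nat_lit 8603983363) (nat_lit 76) (nat_lit 126128317) (nat_lit 69) (nat_lit 5) (nat_lit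 73) (nat_lit 5) (nat_lit 70) (nat_lit 5) (nat_lit 337) (nat_lit 275) (nat_lit 168)))) (XT.nd (nat_lit 156) (nat_lit 304) (nat_lit 0) (XT.nd (nat_lit 78) (nat_lit 0) (nat_lit 0) (XT.lf (nat_lit 0) (nat_lit 741261896) (nat_lit 228) (nat_lit 13756039865) (nat_lit 304) (nat_lit 5258279867) (nat_lit 66) (nat_lit 5) (nat_lit 69) (nat_lit 5) (nat_lit 70) (nat_lit 5) (nat_lit 338) (nat_lit 275) (nat_lit 167)) (XT.lf (nat_lit 0) (nat_lit 10521559206) (nat_lit 228) (nat_lit 8028998778) (nat_lit 304) (nat_lit 1607411395) (nat_lit 66) (nat_lit 5) (nat_lit 69) (nat_lit 5) (nat_lit 70) (nat_lit 5) (nat_lit 339) (nat_lit 275) (nat_lit 166))) (XT.nd (nat_lit 78) (nat_lit 228) (nat_lit 0) (XT.lf (nat_lit 0) (nat_lit 2097064751) (nat_lit 304) (nat_lit 19191897) (nat_lit 76) (nat_lit 18455977324) (nat_lit 65) (nat_lit 5) (nat_lit 69) (nat_lit 5) (nat_lit 66) (nat_lit 5) (nat_lit 340) (nat_lit 275) (nat_lit 165))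 (XT.lf (nat_lit 0) (nat_lit 6002678343) (nat_lit 304) (nat_lit 10989260140) (nat_lit 76) (nat_lit 4002849901) (nat_lit 62) (nat_lit 5) (nat_lit 66) (nat_lit 5) (nat_lit 63) (nat_lit 5) (nat_lit 341) (nat_lit 275) (nat_lit 164))))) (XT.nd (nat_lit 234) (nat_lit 456) (nat_lit 0) (XT.nd (nat_lit 78) (nat_lit 228) (nat_lit 0) (XT.lf (nat_lit 0) (nat_lit 10033235048) (nat_lit 304) (nat_lit 1140431837) (nat_lit 76) (nat_lit 10256127696) (nat_lit 62) (nat_lit 5) (nat_lit 66) (nat_lit 5) (nat_lit 63) (nat_lit 5) (nat_lit 342) (nat_lit 275) (nat_lit 163)) (XT.nd (nat_lit 78) (nat_lit 0) (nat_lit 0) (XT.lf (nat_lit 0) (nat_lit 9162413514) (nat_lit 228) (nat_lit 5097385148) (nat_lit 304) (nat_lit 7615807745) (nat_lit 59) (nat_lit 5) (nat_lit 62) (nat_lit 5) (nat_lit 63) (nat_lit 5) (nat_lit 343) (nat_lit 275) (nat_lit 162)) (XT.lf (nat_lit 0) (nat_lit 18623082765) (nat_lit 304) (nat_lit 2568364517) (nat_lit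 76) (nat_lit 1143055512) (nat_lit 59) (nat_lit 5) (nat_lit 63) (nat_lit 5) (nat_lit 60) (nat_lit 5) (nat_lit 344) (nat_lit 275) (nat_lit 161)))) (XT.nd (nat_lit 156) (nat_lit 228) (nat_lit 0) (XT.nd (nat_lit 78) (nat_lit 0) (nat_lit 0) (XT.lf (nat_lit 0) (nat_lit 419724380) (nat_lit 228) (nat_lit 14841837237) (nat_lit 76) (nat_lit 7542052200) (nat_lit 56) (nat_lit 5) (nat_lit 59) (nat_lit 5) (nat_lit 57) (nat_lit 5) (nat_lit 345) (nat_lit 275) (nat_lit 160)) (XT.lf (nat_lit 0) (nat_lit 4613952154) (nat_lit 228) (nat_lit 4482384126) (nat_lit 76) (nat_lit 14188954382) (nat_lit 56) (nat_lit 5) (nat_lit 59) (nat_lit 5) (nat_lit 57) (nat_lit 5) (nat_lit 346) (nat_lit 275) (nat_lit 159))) (XT.nd (nat_lit 78) (nat_lit 0) (nat_lit 0) (XT.lf (nat_lit 0) (nat_lit 6291366037) (nat_lit 228) (nat_lit 2691032394) (nat_lit 304) (nat_lit 14797574662) (nat_lit 53) (nat_lit 5) (nat_lit 56) (nat_lit 5) (nat_lit 57)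 (nat_lit 5) (nat_lit 347) (nat_lit 275) (nat_lit 158)) (XT.lf (nat_lit 0) (nat_lit 13553175752) (nat_lit 304) (nat_lit 6865284641) (nat_lit 76) (nat_lit 3868904099) (nat_lit 53) (nat_lit 5) (nat_lit 57) (nat_lit 5) (nat_lit 54) (nat_lit 5) (nat_lit 348) (nat_lit 275) (nat_lit 157)))))) (XT.nd (nat_lit 546) (nat_lit 532) (nat_lit 0) (XT.nd (nat_lit 234) (nat_lit 152) (nat_lit 0) (XT.nd (nat_lit 78) (nat_lit 304) (nat_lit 0) (XT.lf (nat_lit 0) (nat_lit 4111527596) (nat_lit 152) (nat_lit 14204079482) (nat_lit 228) (nat_lit 6492741261) (nat_lit 51) (nat_lit 5) (nat_lit 53) (nat_lit 5) (nat_lit 54) (nat_lit 5) (nat_lit 349) (nat_lit 275) (nat_lit 156)) (XT.nd (nat_lit 78) (nat_lit 304) (nat_lit 0) (XT.lf (nat_lit 0) (nat_lit 15539763411) (nat_lit 152) (nat_lit 7738998121) (nat_lit 228) (nat_lit 2064471098) (nat_lit 51) (nat_lit 5) (nat_lit 53) (nat_lit 5) (nat_lit 54) (nat_lit 5) (nat_lit 350) (nat_lit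 275) (nat_lit 155)) (XT.lf (nat_lit 0) (nat_lit 1401736064) (nat_lit 228) (nat_lit 1048408953) (nat_lit 304) (nat_lit 23443238024) (nat_lit 47) (nat_lit 5) (nat_lit 50) (nat_lit 5) (nat_lit 51) (nat_lit 5) (nat_lit 351) (nat_lit 275) (nat_lit 154)))) (XT.nd (nat_lit 156) (nat_lit 152) (nat_lit 0) (XT.nd (nat_lit 78) (nat_lit 0) (nat_lit 0) (XT.lf (nat_lit 0) (nat_lit 7203675617) (nat_lit 304) (nat_lit 13408987604) (nat_lit 76) (nat_lit 5842418327) (nat_lit 47) (nat_lit 5) (nat_lit 51) (nat_lit 5) (nat_lit 48) (nat_lit 5) (nat_lit 352) (nat_lit 275) (nat_lit 153)) (XT.lf (nat_lit 0) (nat_lit 12099346153) (nat_lit 304) (nat_lit 2022085583) (nat_lit 76) (nat_lit 12912218969) (nat_lit 47) (nat_lit 5) (nat_lit 51) (nat_lit 5) (nat_lit 48) (nat_lit 5) (nat_lit 353) (nat_lit 275) (nat_lit 152))) (XT.nd (nat_lit 78) (nat_lit 0) (nat_lit 0) (XT.lf (nat_lit 0) (nat_lit 9881918575) (nat_lit 152) (nat_lit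 7344428918) (nat_lit 228) (nat_lit 10400701174) (nat_lit 45) (nat_lit 5) (nat_lit 47) (nat_lit 5) (nat_lit 48) (nat_lit 5) (nat_lit 354) (nat_lit 275) (nat_lit 151)) (XT.lf (nat_lit 0) (nat_lit 22167326853) (nat_lit 152) (nat_lit 349862453) (nat_lit 228) (nat_lit 5720763735) (nat_lit 45) (nat_lit 5) (nat_lit 47) (nat_lit 5) (nat_lit 48) (nat_lit 5) (nat_lit 355) (nat_lit 275) (nat_lit 150))))) (XT.nd (nat_lit 234) (nat_lit 152) (nat_lit 0) (XT.nd (nat_lit 78) (nat_lit 228) (nat_lit 0) (XT.lf (nat_lit 0) (nat_lit 5988162069) (nat_lit 152) (nat_lit 22091896883) (nat_lit 228) (nat_lit 783731750) (nat_lit 43) (nat_lit 5) (nat_lit 45) (nat_lit 5) (nat_lit 46) (nat_lit 5) (nat_lit 356) (nat_lit 275) (nat_lit 149)) (XT.nd (nat_lit 78) (nat_lit 152) (nat_lit 0) (XT.lf (nat_lit 0) (nat_lit 4272728687) (nat_lit 228) (nat_lit 11035779162) (nat_lit 76) (nat_lit 14197002534) (nat_lit 42) (nat_lit 5) (nat_lit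 45) (nat_lit 5) (nat_lit 43) (nat_lit 5) (nat_lit 357) (nat_lit 275) (nat_lit 148)) (XT.lf (nat_lit 0) (nat_lit 1157637647) (nat_lit 152) (nat_lit 8308796870) (nat_lit 228) (nat_lit 20699780018) (nat_lit 40) (nat_lit 5) (nat_lit 42) (nat_lit 5) (nat_lit 43) (nat_lit 5) (nat_lit 358) (nat_lit 275) (nat_lit 147)))) (XT.nd (nat_lit 156) (nat_lit 152) (nat_lit 0) (XT.nd (nat_lit 78) (nat_lit 0) (nat_lit 0) (XT.lf (nat_lit 0) (nat_lit 13926782864) (nat_lit 152) (nat_lit 990913765) (nat_lit 228) (nat_lit 15925995478) (nat_lit 40) (nat_lit 5) (nat_lit 42) (nat_lit 5) (nat_lit 43) (nat_lit 5) (nat_lit 359) (nat_lit 275) (nat_lit 146)) (XT.lf (nat_lit 0) (nat_lit 20585951751) (nat_lit 228) (nat_lit 4541467940) (nat_lit 76) (nat_lit 6412475171) (nat_lit 40) (nat_lit 5) (nat_lit 43) (nat_lit 5) (nat_lit 41) (nat_lit 5) (nat_lit 360) (nat_lit 275) (nat_lit 145))) (XT.nd (nat_lit 78) (nat_lit 0) (nat_lit 0)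 (XT.lf (nat_lit 0) (nat_lit 8342640585) (nat_lit 152) (nat_lit 18162421599) (nat_lit 228) (nat_lit 5749501669) (nat_lit 38) (nat_lit 5) (nat_lit 40) (nat_lit 5) (nat_lit 41) (nat_lit 5) (nat_lit 361) (nat_lit 275) (nat_lit 144)) (XT.lf (nat_lit 0) (nat_lit 21690940797) (nat_lit 152) (nat_lit 10947586726) (nat_lit 228) (nat_lit 351046195) (nat_lit 38) (nat_lit 5) (nat_lit 40) (nat_lit 5) (nat_lit 41) (nat_lit 5) (nat_lit 362) (nat_lit 275) (nat_lit 143))))))) (XT.nd (nat_lit 1092) (nat_lit 532) (nat_lit 0) (XT.nd (nat_lit 546) (nat_lit 304) (nat_lit 0) (XT.nd (nat_lit 234) (nat_lit 304) (nat_lit 0) (XT.nd (nat_lit 78) (nat_lit 0) (nat_lit 0) (XT.lf (nat_lit 0) (nat_lit 1660218276) (nat_lit 152) (nat_lit 3454545038) (nat_lit 228) (nat_lit 28630160692) (nat_lit 35) (nat_lit 5) (nat_lit 37) (nat_lit 5) (nat_lit 38) (nat_lit 5) (nat_lit 363) (nat_lit 275) (nat_lit 142)) (XT.nd (nat_lit 78) (nat_lit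 0) (nat_lit 0) (XT.lf (nat_lit 0) (nat_lit 10884846508) (nat_lit 228) (nat_lit 19340871053) (nat_lit 76) (nat_lit 4292696211) (nat_lit 35) (nat_lit 5) (nat_lit 38) (nat_lit 5) (nat_lit 36) (nat_lit 5) (nat_lit 364) (nat_lit 275) (nat_lit 141)) (XT.lf (nat_lit 0) (nat_lit 16853643444) (nat_lit 228) (nat_lit 6263699798) (nat_lit 76) (nat_lit 12197000430) (nat_lit 35) (nat_lit 5) (nat_lit 38) (nat_lit 5) (nat_lit 36) (nat_lit 5) (nat_lit 365) (nat_lit 275) (nat_lit 140)))) (XT.nd (nat_lit 156) (nat_lit 152) (nat_lit 0) (XT.nd (nat_lit 78) (nat_lit 0) (nat_lit 0) (XT.lf (nat_lit 0) (nat_lit 7334565682) (nat_lit 152) (nat_lit 15729101025) (nat_lit 228) (nat_lit 13068623560) (nat_lit 33) (nat_lit 5) (nat_lit 35) (nat_lit 5) (nat_lit 36) (nat_lit 5) (nat_lit 366) (nat_lit 275) (nat_lit 139)) (XT.lf (nat_lit 0) (nat_lit 21454974761) (nat_lit 152) (nat_lit 8060031510) (nat_lit 228) (nat_lit 7458122081)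 (nat_lit 33) (nat_lit 5) (nat_lit 35) (nat_lit 5) (nat_lit 36) (nat_lit 5) (nat_lit 367) (nat_lit 275) (nat_lit 138))) (XT.nd (nat_lit 78) (nat_lit 152) (nat_lit 0) (XT.lf (nat_lit 0) (nat_lit 35985205752) (nat_lit 152) (nat_lit 166684657) (nat_lit 228) (nat_lit 1687544498) (nat_lit 33) (nat_lit 5) (nat_lit 35) (nat_lit 5) (nat_lit 36) (nat_lit 5) (nat_lit 368) (nat_lit 275) (nat_lit 137)) (XT.lf (nat_lit 0) (nat_lit 4362601665) (nat_lit 152) (nat_lit 26397981973) (nat_lit 76) (nat_lit 7964237775) (nat_lit 31) (nat_lit 5) (nat_lit 33) (nat_lit 5) (nat_lit 32) (nat_lit 5) (nat_lit 369) (nat_lit 275) (nat_lit 136))))) (XT.nd (nat_lit 234) (nat_lit 152) (nat_lit 0) (XT.nd (nat_lit 78) (nat_lit 152) (nat_lit 0) (XT.lf (nat_lit 0) (nat_lit 10573096124) (nat_lit 152) (nat_lit 12696998079) (nat_lit 76) (nat_lit 16365794371) (nat_lit 31) (nat_lit 5) (nat_lit 33) (nat_lit 5) (nat_lit 32) (nat_lit 5) (nat_lit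 370) (nat_lit 275) (nat_lit 135)) (XT.nd (nat_lit 78) (nat_lit 0) (nat_lit 0) (XT.lf (nat_lit 0) (nat_lit 1429714036) (nat_lit 152) (nat_lit 15546363863) (nat_lit 228) (nat_lit 23598027747) (nat_lit 29) (nat_lit 5) (nat_lit 31) (nat_lit 5) (nat_lit 32) (nat_lit 5) (nat_lit 371) (nat_lit 275) (nat_lit 134)) (XT.lf (nat_lit 0) (nat_lit 16227432777) (nat_lit 152) (nat_lit 7464455200) (nat_lit 228) (nat_lit 17844962072) (nat_lit 29) (nat_lit 5) (nat_lit 31) (nat_lit 5) (nat_lit 32) (nat_lit 5) (nat_lit 372) (nat_lit 275) (nat_lit 133)))) (XT.nd (nat_lit 156) (nat_lit 76) (nat_lit 0) (XT.nd (nat_lit 78) (nat_lit 76) (nat_lit 0) (XT.lf (nat_lit 0) (nat_lit 30610127939) (nat_lit 228) (nat_lit 11080518170) (nat_lit 76) (nat_lit 837804903) (nat_lit 29) (nat_lit 5) (nat_lit 32) (nat_lit 5) (nat_lit 30) (nat_lit 4) (nat_lit 373) (nat_lit 275) (nat_lit 132)) (XT.lf (nat_lit 0) (nat_lit 3558293572) (nat_lit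 76) (nat_lit 34278634037) (nat_lit 152) (nat_lit 5709844831) (nat_lit 28) (nat_lit 5) (nat_lit 29) (nat_lit 5) (nat_lit 30) (nat_lit 4) (nat_lit 374) (nat_lit 275) (nat_lit 131))) (XT.nd (nat_lit 78) (nat_lit 0) (nat_lit 0) (XT.lf (nat_lit 0) (nat_lit 777440810) (nat_lit 152) (nat_lit 25749073894) (nat_lit 76) (nat_lit 18065756422) (nat_lit 27) (nat_lit 5) (nat_lit 29) (nat_lit 5) (nat_lit 28) (nat_lit 5) (nat_lit 375) (nat_lit 275) (nat_lit 130)) (XT.lf (nat_lit 0) (nat_lit 7337707392) (nat_lit 152) (nat_lit 11151160815) (nat_lit 76) (nat_lit 27178779406) (nat_lit 27) (nat_lit 5) (nat_lit 29) (nat_lit 5) (nat_lit 28) (nat_lit 5) (nat_lit 376) (nat_lit 275) (nat_lit 129)))))) (XT.nd (nat_lit 546) (nat_lit 228) (nat_lit 0) (XT.nd (nat_lit 234) (nat_lit 152) (nat_lit 0) (XT.nd (nat_lit 78) (nat_lit 0) (nat_lit 0) (XT.lf (nat_lit 0) (nat_lit 3949980695) (nat_lit 152) (nat_lit 10176095759) (nat_lit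 228) (nat_lit 32648272605) (nat_lit 25) (nat_lit 5) (nat_lit 27) (nat_lit 5) (nat_lit 28) (nat_lit 5) (nat_lit 377) (nat_lit 275) (nat_lit 128)) (XT.nd (nat_lit 78) (nat_lit 0) (nat_lit 0) (XT.lf (nat_lit 0) (nat_lit 19721072569) (nat_lit 152) (nat_lit 1503035958) (nat_lit 228) (nat_lit 26686965089) (nat_lit 25) (nat_lit 5) (nat_lit 27) (nat_lit 5) (nat_lit 28) (nat_lit 5) (nat_lit 378) (nat_lit 275) (nat_lit 127)) (XT.lf (nat_lit 0) (nat_lit 28600057046) (nat_lit 228) (nat_lit 13199505265) (nat_lit 76) (nat_lit 7280390688) (nat_lit 25) (nat_lit 5) (nat_lit 28) (nat_lit 5) (nat_lit 26) (nat_lit 4) (nat_lit 379) (nat_lit 275) (nat_lit 126)))) (XT.nd (nat_lit 156) (nat_lit 76) (nat_lit 0) (XT.nd (nat_lit 78) (nat_lit 0) (nat_lit 0) (XT.lf (nat_lit 0) (nat_lit 2258755864) (nat_lit 76) (nat_lit 33968861765) (nat_lit 152) (nat_lit 14055373414) (nat_lit 24) (nat_lit 5) (nat_lit 25) (nat_lit 5) (nat_lit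 26) (nat_lit 4) (nat_lit 380) (nat_lit 275) (nat_lit 125)) (XT.lf (nat_lit 0) (nat_lit 18440306561) (nat_lit 76) (nat_lit 25770803377) (nat_lit 152) (nat_lit 7307199361) (nat_lit 24) (nat_lit 5) (nat_lit 25) (nat_lit 5) (nat_lit 26) (nat_lit 4) (nat_lit 381) (nat_lit 275) (nat_lit 124))) (XT.nd (nat_lit 78) (nat_lit 76) (nat_lit 0) (XT.lf (nat_lit 0) (nat_lit 35096590008) (nat_lit 76) (nat_lit 17331512920) (nat_lit 152) (nat_lit 362766454) (nat_lit 24) (nat_lit 5) (nat_lit 25) (nat_lit 5) (nat_lit 26) (nat_lit 4) (nat_lit 382) (nat_lit 275) (nat_lit 123)) (XT.lf (nat_lit 0) (nat_lit 6651613115) (nat_lit 152) (nat_lit 1924834890) (nat_lit 76) (nat_lit 45523378874) (nat_lit 23) (nat_lit 5) (nat_lit 25) (nat_lit 5) (nat_lit 24) (nat_lit 5) (nat_lit 383) (nat_lit 275) (nat_lit 122))))) (XT.nd (nat_lit 234) (nat_lit 76) (nat_lit 0) (XT.nd (nat_lit 78) (nat_lit 0) (nat_lit 0) (XT.lf (nat_lit 0) (nat_lit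 14009272089) (nat_lit 228) (nat_lit 40860972302) (nat_lit 76) (nat_lit 573498752) (nat_lit 21) (nat_lit 5) (nat_lit 24) (nat_lit 5) (nat_lit 22) (nat_lit 4) (nat_lit 384) (nat_lit 275) (nat_lit 121)) (XT.nd (nat_lit 78) (nat_lit 0) (nat_lit 0) (XT.lf (nat_lit 0) (nat_lit 21686514578) (nat_lit 228) (nat_lit 25297682384) (nat_lit 76) (nat_lit 9840816234) (nat_lit 21) (nat_lit 5) (nat_lit 24) (nat_lit 5) (nat_lit 22) (nat_lit 4) (nat_lit 385) (nat_lit 275) (nat_lit 120)) (XT.lf (nat_lit 0) (nat_lit 29588549015) (nat_lit 228) (nat_lit 9277438238) (nat_lit 76) (nat_lit 19381901717) (nat_lit 21) (nat_lit 5) (nat_lit 24) (nat_lit 5) (nat_lit 22) (nat_lit 4) (nat_lit 386) (nat_lit 275) (nat_lit 119)))) (XT.nd (nat_lit 156) (nat_lit 0) (nat_lit 0) (XT.nd (nat_lit 78) (nat_lit 0) (nat_lit 0) (XT.lf (nat_lit 0) (nat_lit 7357326345) (nat_lit 76) (nat_lit 30435676868) (nat_lit 152) (nat_lit 21918488848) (nat_lit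 20) (nat_lit 5) (nat_lit 21) (nat_lit 5) (nat_lit 22) (nat_lit 4) (nat_lit 387) (nat_lit 275) (nat_lit 118)) (XT.lf (nat_lit 0) (nat_lit 24671752086) (nat_lit 76) (nat_lit 21660222839) (nat_lit 152) (nat_lit 14884378555) (nat_lit 20) (nat_lit 5) (nat_lit 21) (nat_lit 5) (nat_lit 22) (nat_lit 4) (nat_lit 388) (nat_lit 275) (nat_lit 117))) (XT.nd (nat_lit 78) (nat_lit 0) (nat_lit 0) (XT.lf (nat_lit 0) (nat_lit 42496328883) (nat_lit 76) (nat_lit 12625641228) (nat_lit 152) (nat_lit 7644546702) (nat_lit 20) (nat_lit 5) (nat_lit 21) (nat_lit 5) (nat_lit 22) (nat_lit 4) (nat_lit 389) (nat_lit 275) (nat_lit 116)) (XT.lf (nat_lit 0) (nat_lit 60846631607) (nat_lit 76) (nat_lit 3324037742) (nat_lit 152) (nat_lit 192667223) (nat_lit 20) (nat_lit 5) (nat_lit 21) (nat_lit 5) (nat_lit 22) (nat_lit 4) (nat_lit 390) (nat_lit 275) (nat_lit 115))))))))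
noncomputable def xc144 : XT := (XT.nd (nat_lit 32292) (nat_lit 0) (nat_lit 9424) (XT.nd (nat_lit 1014) (nat_lit 76) (nat_lit 0) (XT.nd (nat_lit 468) (nat_lit 228) (nat_lit 0) (XT.nd (nat_lit 234) (nat_lit 76) (nat_lit 0) (XT.nd (nat_lit 78) (nat_lit 0) (nat_lit 0) (XT.lf (nat_lit 0) (nat_lit 7527903317) (nat_lit 228) (nat_lit 52133738220) (nat_lit 76) (nat_lit 6338528561) (nat_lit 17) (nat_lit 5) (nat_lit 20) (nat_lit 5) (nat_lit 18) (nat_lit 4) (nat_lit 391) (nat_lit 275) (nat_lit 114)) (XT.nd (nat_lit 78) (nat_lit 0) (nat_lit 0) (XT.lf (nat_lit 0) (nat_lit 15540114173) (nat_lit 228) (nat_lit 35885932219) (nat_lit 76) (nat_lit 16258089654) (nat_lit 17) (nat_lit 5) (nat_lit 20) (nat_lit 5) (nat_lit 18) (nat_lit 4) (nat_lit 392) (nat_lit 275) (nat_lit 113)) (XT.lf (nat_lit 0) (nat_lit 23787954391) (nat_lit 228) (nat_lit 19159303990) (nat_lit 76) (nat_lit 26471506167) (nat_lit 17) (nat_lit 5) (nat_lit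 20) (nat_lit 5) (nat_lit 18) (nat_lit 4) (nat_lit 393) (nat_lit 275) (nat_lit 112)))) (XT.nd (nat_lit 78) (nat_lit 76) (nat_lit 0) (XT.lf (nat_lit 0) (nat_lit 32278630821) (nat_lit 228) (nat_lit 1939238034) (nat_lit 76) (nat_lit 36987702445) (nat_lit 17) (nat_lit 5) (nat_lit 20) (nat_lit 5) (nat_lit 18) (nat_lit 4) (nat_lit 394) (nat_lit 275) (nat_lit 111)) (XT.nd (nat_lit 78) (nat_lit 0) (nat_lit 0) (XT.lf (nat_lit 0) (nat_lit 16103550583) (nat_lit 76) (nat_lit 25070809097) (nat_lit 152) (nat_lit 31867113992) (nat_lit 16) (nat_lit 5) (nat_lit 17) (nat_lit 5) (nat_lit 18) (nat_lit 4) (nat_lit 395) (nat_lit 275) (nat_lit 110)) (XT.lf (nat_lit 0) (nat_lit 34719337331) (nat_lit 76) (nat_lit 15632793318) (nat_lit 152) (nat_lit 24579868704) (nat_lit 16) (nat_lit 5) (nat_lit 17) (nat_lit 5) (nat_lit 18) (nat_lit 4) (nat_lit 396) (nat_lit 275) (nat_lit 109))))) (XT.nd (nat_lit 234) (nat_lit 152) (nat_lit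 0) (XT.nd (nat_lit 78) (nat_lit 76) (nat_lit 0) (XT.lf (nat_lit 0) (nat_lit 53885793791) (nat_lit 76) (nat_lit 5915157210) (nat_lit 152) (nat_lit 17078419619) (nat_lit 16) (nat_lit 5) (nat_lit 17) (nat_lit 5) (nat_lit 18) (nat_lit 4) (nat_lit 397) (nat_lit 275) (nat_lit 108)) (XT.nd (nat_lit 78) (nat_lit 76) (nat_lit 0) (XT.lf (nat_lit 0) (nat_lit 69568398243) (nat_lit 152) (nat_lit 5304942966) (nat_lit 0) (nat_lit 4010768214) (nat_lit 16) (nat_lit 5) (nat_lit 18) (nat_lit 4) (nat_lit 16) (nat_lit 4) (nat_lit 398) (nat_lit 275) (nat_lit 107)) (XT.lf (nat_lit 0) (nat_lit 13104044727) (nat_lit 76) (nat_lit 66705284444) (nat_lit 76) (nat_lit 1134248639) (nat_lit 15) (nat_lit 4) (nat_lit 16) (nat_lit 5) (nat_lit 16) (nat_lit 4) (nat_lit 399) (nat_lit 275) (nat_lit 106)))) (XT.nd (nat_lit 156) (nat_lit 76) (nat_lit 0) (XT.nd (nat_lit 78) (nat_lit 0) (nat_lit 0) (XT.lf (nat_lit 0) (nat_lit 7200388599)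 (nat_lit 152) (nat_lit 50967262264) (nat_lit 76) (nat_lit 24893576396) (nat_lit 14) (nat_lit 5) (nat_lit 16) (nat_lit 5) (nat_lit 15) (nat_lit 4) (nat_lit 400) (nat_lit 275) (nat_lit 105)) (XT.lf (nat_lit 0) (nat_lit 15758322951) (nat_lit 152) (nat_lit 33607291758) (nat_lit 76) (nat_lit 35876574041) (nat_lit 14) (nat_lit 5) (nat_lit 16) (nat_lit 5) (nat_lit 15) (nat_lit 4) (nat_lit 401) (nat_lit 275) (nat_lit 104))) (XT.nd (nat_lit 78) (nat_lit 76) (nat_lit 0) (XT.lf (nat_lit 0) (nat_lit 24569165500) (nat_lit 152) (nat_lit 15733549568) (nat_lit 76) (nat_lit 47185980007) (nat_lit 14) (nat_lit 5) (nat_lit 16) (nat_lit 5) (nat_lit 15) (nat_lit 4) (nat_lit 402) (nat_lit 275) (nat_lit 103)) (XT.lf (nat_lit 0) (nat_lit 2722712056) (nat_lit 76) (nat_lit 30944075356) (nat_lit 152) (nat_lit 56135136613) (nat_lit 13) (nat_lit 5) (nat_lit 14) (nat_lit 5) (nat_lit 15) (nat_lit 4) (nat_lit 403) (nat_lit 275)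 (nat_lit 102)))))) (XT.nd (nat_lit 30732) (nat_lit 0) (nat_lit 17328) (XT.nd (nat_lit 234) (nat_lit 76) (nat_lit 0) (XT.nd (nat_lit 78) (nat_lit 0) (nat_lit 0) (XT.lf (nat_lit 0) (nat_lit 22048428012) (nat_lit 76) (nat_lit 21144113043) (nat_lit 152) (nat_lit 48987353727) (nat_lit 13) (nat_lit 5) (nat_lit 14) (nat_lit 5) (nat_lit 15) (nat_lit 4) (nat_lit 404) (nat_lit 275) (nat_lit 101)) (XT.nd (nat_lit 78) (nat_lit 0) (nat_lit 0) (XT.lf (nat_lit 0) (nat_lit 41947356361) (nat_lit 76) (nat_lit 11053143057) (nat_lit 152) (nat_lit 41628813281) (nat_lit 13) (nat_lit 5) (nat_lit 14) (nat_lit 5) (nat_lit 15) (nat_lit 4) (nat_lit 405) (nat_lit 275) (nat_lit 100)) (XT.lf (nat_lit 0) (nat_lit 62436884514) (nat_lit 76) (nat_lit 662348044) (nat_lit 152) (nat_lit 34053085482) (nat_lit 13) (nat_lit 5) (nat_lit 14) (nat_lit 5) (nat_lit 15) (nat_lit 4) (nat_lit 406) (nat_lit 275) (nat_lit 99)))) (XT.nd (nat_lit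 156) (nat_lit 0) (nat_lit 0) (XT.nd (nat_lit 78) (nat_lit 76) (nat_lit 0) (XT.lf (nat_lit 0) (nat_lit 73594049776) (nat_lit 152) (nat_lit 16312684595) (nat_lit 0) (nat_lit 9841486451) (nat_lit 13) (nat_lit 5) (nat_lit 15) (nat_lit 4) (nat_lit 13) (nat_lit 4) (nat_lit 407) (nat_lit 275) (nat_lit 98)) (XT.lf (nat_lit 0) (nat_lit 2681846335) (nat_lit 76) (nat_lit 81750911184) (nat_lit 76) (nat_lit 17988372703) (nat_lit 12) (nat_lit 4) (nat_lit 13) (nat_lit 5) (nat_lit 13) (nat_lit 4) (nat_lit 408) (nat_lit 275) (nat_lit 97))) (XT.nd (nat_lit 30264) (nat_lit 0) (nat_lit 18164) (XT.lf (nat_lit 0) (nat_lit 22574591747) (nat_lit 76) (nat_lit 73183507481) (nat_lit 76) (nat_lit 9411284383) (nat_lit 12) (nat_lit 4) (nat_lit 13) (nat_lit 5) (nat_lit 13) (nat_lit 4) (nat_lit 409) (nat_lit 275) (nat_lit 96)) (XT.lf (nat_lit 0) (nat_lit 44831381) (nat_lit 0) (nat_lit 44831381) (nat_lit 836) (nat_lit 3685930486)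 (nat_lit 251) (nat_lit 5) (nat_lit 251) (nat_lit 3) (nat_lit 262) (nat_lit 3) (nat_lit 276) (nat_lit 276) (nat_lit 228))))) (XT.nd (nat_lit 234) (nat_lit 836) (nat_lit 0) (XT.nd (nat_lit 78) (nat_lit 0) (nat_lit 0) (XT.lf (nat_lit 0) (nat_lit 1561621917) (nat_lit 836) (nat_lit 4001140698) (nat_lit 912) (nat_lit 2058386755) (nat_lit 251) (nat_lit 5) (nat_lit 262) (nat_lit 3) (nat_lit 263) (nat_lit 5) (nat_lit 277) (nat_lit 276) (nat_lit 227)) (XT.nd (nat_lit 78) (nat_lit 0) (nat_lit 0) (XT.lf (nat_lit 0) (nat_lit 2933475341) (nat_lit 836) (nat_lit 466282661) (nat_lit 912) (nat_lit 4295085285) (nat_lit 251) (nat_lit 5) (nat_lit 262) (nat_lit 3) (nat_lit 263) (nat_lit 5) (nat_lit 278) (nat_lit 276) (nat_lit 226)) (XT.lf (nat_lit 76) (nat_lit 3209632469) (nat_lit 0) (nat_lit 1116443095) (nat_lit 912) (nat_lit 3445357349) (nat_lit 252) (nat_lit 5) (nat_lit 251) (nat_lit 5) (nat_lit 263) (nat_lit 5)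 (nat_lit 279) (nat_lit 276) (nat_lit 225)))) (XT.nd (nat_lit 156) (nat_lit 912) (nat_lit 0) (XT.nd (nat_lit 78) (nat_lit 0) (nat_lit 0) (XT.lf (nat_lit 0) (nat_lit 5727270539) (nat_lit 836) (nat_lit 885856190) (nat_lit 912) (nat_lit 1238259505) (nat_lit 252) (nat_lit 5) (nat_lit 263) (nat_lit 5) (nat_lit 264) (nat_lit 5) (nat_lit 280) (nat_lit 276) (nat_lit 224)) (XT.lf (nat_lit 76) (nat_lit 2917962311) (nat_lit 0) (nat_lit 4243279505) (nat_lit 912) (nat_lit 772842583) (nat_lit 253) (nat_lit 5) (nat_lit 252) (nat_lit 5) (nat_lit 264) (nat_lit 5) (nat_lit 281) (nat_lit 276) (nat_lit 223))) (XT.nd (nat_lit 78) (nat_lit 0) (nat_lit 76) (XT.lf (nat_lit 0) (nat_lit 568168335) (nat_lit 912) (nat_lit 1200006824) (nat_lit 988) (nat_lit 6252136043) (nat_lit 240) (nat_lit 5) (nat_lit 252) (nat_lit 5) (nat_lit 253) (nat_lit 5) (nat_lit 282) (nat_lit 276) (nat_lit 222)) (XT.lf (nat_lit 0) (nat_lit 1921951627)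 (nat_lit 912) (nat_lit 5369188934) (nat_lit 988) (nat_lit 818175076) (nat_lit 241) (nat_lit 5) (nat_lit 253) (nat_lit 5) (nat_lit 254) (nat_lit 5) (nat_lit 283) (nat_lit 276) (nat_lit 221))))))) (XT.nd (nat_lit 1092) (nat_lit 3952) (nat_lit 0) (XT.nd (nat_lit 546) (nat_lit 3116) (nat_lit 0) (XT.nd (nat_lit 234) (nat_lit 912) (nat_lit 0) (XT.nd (nat_lit 78) (nat_lit 0) (nat_lit 0) (XT.lf (nat_lit 0) (nat_lit 3300976921) (nat_lit 912) (nat_lit 1424682471) (nat_lit 988) (nat_lit 3475852781) (nat_lit 241) (nat_lit 5) (nat_lit 253) (nat_lit 5) (nat_lit 254) (nat_lit 5) (nat_lit 284) (nat_lit 276) (nat_lit 220)) (XT.nd (nat_lit 78) (nat_lit 0) (nat_lit 76) (XT.lf (nat_lit 76) (nat_lit 2661460530) (nat_lit 0) (nat_lit 2041694209) (nat_lit 988) (nat_lit 3593925464) (nat_lit 242) (nat_lit 5) (nat_lit 241) (nat_lit 5) (nat_lit 254) (nat_lit 5) (nat_lit 285) (nat_lit 276) (nat_lit 219)) (XT.lf (nat_lit 0)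 (nat_lit 6126215015) (nat_lit 912) (nat_lit 1532614373) (nat_lit 988) (nat_lit 737378705) (nat_lit 242) (nat_lit 5) (nat_lit 254) (nat_lit 5) (nat_lit 255) (nat_lit 5) (nat_lit 286) (nat_lit 276) (nat_lit 218)))) (XT.nd (nat_lit 156) (nat_lit 0) (nat_lit 76) (XT.nd (nat_lit 78) (nat_lit 988) (nat_lit 0) (XT.lf (nat_lit 76) (nat_lit 2696929241) (nat_lit 0) (nat_lit 4899759982) (nat_lit 988) (nat_lit 901534593) (nat_lit 243) (nat_lit 5) (nat_lit 242) (nat_lit 5) (nat_lit 255) (nat_lit 5) (nat_lit 287) (nat_lit 276) (nat_lit 217)) (XT.lf (nat_lit 0) (nat_lit 472754397) (nat_lit 988) (nat_lit 1552642842) (nat_lit 1064) (nat_lit 6578568072) (nat_lit 229) (nat_lit 5) (nat_lit 242) (nat_lit 5) (nat_lit 243) (nat_lit 5) (nat_lit 288) (nat_lit 276) (nat_lit 216))) (XT.nd (nat_lit 78) (nat_lit 0) (nat_lit 0) (XT.lf (nat_lit 0) (nat_lit 1867171253) (nat_lit 988) (nat_lit 5881190291) (nat_lit 1064) (nat_lit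 964390089) (nat_lit 230) (nat_lit 5) (nat_lit 243) (nat_lit 5) (nat_lit 244) (nat_lit 5) (nat_lit 289) (nat_lit 276) (nat_lit 215)) (XT.lf (nat_lit 0) (nat_lit 3300545153) (nat_lit 988) (nat_lit 1495141749) (nat_lit 1064) (nat_lit 4029250360) (nat_lit 230) (nat_lit 5) (nat_lit 243) (nat_lit 5) (nat_lit 244) (nat_lit 5) (nat_lit 290) (nat_lit 276) (nat_lit 214))))) (XT.nd (nat_lit 234) (nat_lit 2280) (nat_lit 0) (XT.nd (nat_lit 78) (nat_lit 912) (nat_lit 0) (XT.lf (nat_lit 76) (nat_lit 3053211875) (nat_lit 0) (nat_lit 1715423967) (nat_lit 1064) (nat_lit 4172149165) (nat_lit 231) (nat_lit 5) (nat_lit 230) (nat_lit 5) (nat_lit 244) (nat_lit 5) (nat_lit 291) (nat_lit 276) (nat_lit 213)) (XT.nd (nat_lit 78) (nat_lit 988) (nat_lit 0) (XT.lf (nat_lit 0) (nat_lit 6273291595) (nat_lit 988) (nat_lit 1334950457) (nat_lit 76) (nat_lit 1452137079) (nat_lit 231) (nat_lit 5) (nat_lit 244) (nat_lit 5) (nat_lit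 232) (nat_lit 5) (nat_lit 292) (nat_lit 276) (nat_lit 212)) (XT.lf (nat_lit 0) (nat_lit 3374174007) (nat_lit 988) (nat_lit 4462668836) (nat_lit 1064) (nat_lit 1346350819) (nat_lit 218) (nat_lit 5) (nat_lit 231) (nat_lit 5) (nat_lit 232) (nat_lit 5) (nat_lit 293) (nat_lit 276) (nat_lit 211)))) (XT.nd (nat_lit 156) (nat_lit 1140) (nat_lit 0) (XT.nd (nat_lit 78) (nat_lit 1064) (nat_lit 0) (XT.lf (nat_lit 0) (nat_lit 113248122) (nat_lit 1064) (nat_lit 1088203156) (nat_lit 76) (nat_lit 8108894566) (nat_lit 217) (nat_lit 5) (nat_lit 231) (nat_lit 5) (nat_lit 218) (nat_lit 5) (nat_lit 294) (nat_lit 276) (nat_lit 210)) (XT.lf (nat_lit 0) (nat_lit 1613195344) (nat_lit 1140) (nat_lit 5655524452) (nat_lit 76) (nat_lit 2171525689) (nat_lit 203) (nat_lit 5) (nat_lit 218) (nat_lit 5) (nat_lit 204) (nat_lit 5) (nat_lit 295) (nat_lit 276) (nat_lit 209))) (XT.nd (nat_lit 78) (nat_lit 1140) (nat_lit 0) (XT.lf (nat_lit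 0) (nat_lit 3147650308) (nat_lit 1140) (nat_lit 788933788) (nat_lit 76) (nat_lit 5637812951) (nat_lit 203) (nat_lit 5) (nat_lit 218) (nat_lit 5) (nat_lit 204) (nat_lit 5) (nat_lit 296) (nat_lit 276) (nat_lit 208)) (XT.lf (nat_lit 0) (nat_lit 4278644393) (nat_lit 1140) (nat_lit 458114981) (nat_lit 1216) (nat_lit 4975594208) (nat_lit 188) (nat_lit 5) (nat_lit 203) (nat_lit 5) (nat_lit 204) (nat_lit 5) (nat_lit 297) (nat_lit 276) (nat_lit 207)))))) (XT.nd (nat_lit 546) (nat_lit 1520) (nat_lit 0) (XT.nd (nat_lit 234) (nat_lit 1140) (nat_lit 0) (XT.nd (nat_lit 78) (nat_lit 1292) (nat_lit 0) (XT.lf (nat_lit 0) (nat_lit 6379825651) (nat_lit 1216) (nat_lit 399153139) (nat_lit 76) (nat_lit 3075319407) (nat_lit 188) (nat_lit 5) (nat_lit 204) (nat_lit 5) (nat_lit 189) (nat_lit 5) (nat_lit 298) (nat_lit 276) (nat_lit 206)) (XT.nd (nat_lit 78) (nat_lit 608) (nat_lit 0) (XT.lf (nat_lit 0) (nat_lit 4848109696)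 (nat_lit 684) (nat_lit 3244340939) (nat_lit 760) (nat_lit 1907479314) (nat_lit 179) (nat_lit 5) (nat_lit 188) (nat_lit 5) (nat_lit 189) (nat_lit 5) (nat_lit 299) (nat_lit 276) (nat_lit 205)) (XT.lf (nat_lit 0) (nat_lit 79786923) (nat_lit 608) (nat_lit 9755092026) (nat_lit 684) (nat_lit 315734693) (nat_lit 171) (nat_lit 5) (nat_lit 179) (nat_lit 5) (nat_lit 180) (nat_lit 5) (nat_lit 300) (nat_lit 276) (nat_lit 204)))) (XT.nd (nat_lit 156) (nat_lit 532) (nat_lit 0) (XT.nd (nat_lit 78) (nat_lit 532) (nat_lit 0) (XT.lf (nat_lit 0) (nat_lit 1352644853) (nat_lit 684) (nat_lit 4805097399) (nat_lit 76) (nat_lit 4146086106) (nat_lit 170) (nat_lit 5) (nat_lit 179) (nat_lit 5) (nat_lit 171) (nat_lit 5) (nat_lit 301) (nat_lit 276) (nat_lit 203)) (XT.lf (nat_lit 0) (nat_lit 598587684) (nat_lit 532) (nat_lit 2442821773) (nat_lit 608) (nat_lit 7420868584) (nat_lit 163) (nat_lit 5) (nat_lit 170) (nat_lit 5) (nat_lit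 171) (nat_lit 5) (nat_lit 302) (nat_lit 276) (nat_lit 202))) (XT.nd (nat_lit 78) (nat_lit 532) (nat_lit 0) (XT.lf (nat_lit 0) (nat_lit 4814641498) (nat_lit 608) (nat_lit 4404101619) (nat_lit 76) (nat_lit 1405755707) (nat_lit 163) (nat_lit 5) (nat_lit 171) (nat_lit 5) (nat_lit 164) (nat_lit 5) (nat_lit 303) (nat_lit 276) (nat_lit 201)) (XT.lf (nat_lit 0) (nat_lit 1189979839) (nat_lit 532) (nat_lit 5459048375) (nat_lit 608) (nat_lit 4142350101) (nat_lit 156) (nat_lit 5) (nat_lit 163) (nat_lit 5) (nat_lit 164) (nat_lit 5) (nat_lit 304) (nat_lit 276) (nat_lit 200))))) (XT.nd (nat_lit 234) (nat_lit 988) (nat_lit 0) (XT.nd (nat_lit 78) (nat_lit 532) (nat_lit 0) (XT.lf (nat_lit 0) (nat_lit 7014111865) (nat_lit 532) (nat_lit 1541676205) (nat_lit 608) (nat_lit 2406985797) (nat_lit 156) (nat_lit 5) (nat_lit 163) (nat_lit 5) (nat_lit 164) (nat_lit 5) (nat_lit 305) (nat_lit 276) (nat_lit 199)) (XT.nd (nat_lit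 78) (nat_lit 76) (nat_lit 0) (XT.lf (nat_lit 0) (nat_lit 1857899250) (nat_lit 456) (nat_lit 8677327452) (nat_lit 532) (nat_lit 603649354) (nat_lit 150) (nat_lit 5) (nat_lit 156) (nat_lit 5) (nat_lit 157) (nat_lit 5) (nat_lit 306) (nat_lit 276) (nat_lit 198)) (XT.lf (nat_lit 0) (nat_lit 1258721254) (nat_lit 532) (nat_lit 3455492951) (nat_lit 76) (nat_lit 6604830922) (nat_lit 149) (nat_lit 5) (nat_lit 156) (nat_lit 5) (nat_lit 150) (nat_lit 5) (nat_lit 307) (nat_lit 276) (nat_lit 197)))) (XT.nd (nat_lit 156) (nat_lit 456) (nat_lit 0) (XT.nd (nat_lit 78) (nat_lit 0) (nat_lit 0) (XT.lf (nat_lit 0) (nat_lit 2561265179) (nat_lit 532) (nat_lit 602813962) (nat_lit 608) (nat_lit 8340409944) (nat_lit 142) (nat_lit 5) (nat_lit 149) (nat_lit 5) (nat_lit 150) (nat_lit 5) (nat_lit 308) (nat_lit 276) (nat_lit 196)) (XT.lf (nat_lit 0) (nat_lit 5171832634) (nat_lit 608) (nat_lit 2928320810) (nat_lit 76) (nat_lit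 3594011682) (nat_lit 142) (nat_lit 5) (nat_lit 150) (nat_lit 5) (nat_lit 143) (nat_lit 5) (nat_lit 309) (nat_lit 276) (nat_lit 195))) (XT.nd (nat_lit 78) (nat_lit 0) (nat_lit 0) (XT.lf (nat_lit 0) (nat_lit 3298262951) (nat_lit 456) (nat_lit 3955038249) (nat_lit 532) (nat_lit 4635850833) (nat_lit 136) (nat_lit 5) (nat_lit 142) (nat_lit 5) (nat_lit 143) (nat_lit 5) (nat_lit 310) (nat_lit 276) (nat_lit 194)) (XT.lf (nat_lit 0) (nat_lit 9406324308) (nat_lit 532) (nat_lit 2348343891) (nat_lit 76) (nat_lit 335071361) (nat_lit 136) (nat_lit 5) (nat_lit 143) (nat_lit 5) (nat_lit 137) (nat_lit 5) (nat_lit 311) (nat_lit 276) (nat_lit 193))))))))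
noncomputable def xc145 : XT := (XT.nd (nat_lit 2184) (nat_lit 2508) (nat_lit 0) (XT.nd (nat_lit 1092) (nat_lit 2052) (nat_lit 0) (XT.nd (nat_lit 546) (nat_lit 1520) (nat_lit 0) (XT.nd (nat_lit 234) (nat_lit 836) (nat_lit 0) (XT.nd (nat_lit 78) (nat_lit 456) (nat_lit 0) (XT.lf (nat_lit 0) (nat_lit 4095440400) (nat_lit 456) (nat_lit 7583941775) (nat_lit 532) (nat_lit 615322838) (nat_lit 130) (nat_lit 5) (nat_lit 136) (nat_lit 5) (nat_lit 137) (nat_lit 5) (nat_lit 312) (nat_lit 276) (nat_lit 192)) (XT.nd (nat_lit 78) (nat_lit 380) (nat_lit 0) (XT.lf (nat_lit 0) (nat_lit 1486289122) (nat_lit 532) (nat_lit 1766237959) (nat_lit 76) (nat_lit 9252846685) (nat_lit 129) (nat_lit 5) (nat_lit 136) (nat_lit 5) (nat_lit 130) (nat_lit 5) (nat_lit 313) (nat_lit 276) (nat_lit 191)) (XT.lf (nat_lit 0) (nat_lit 3675775916) (nat_lit 456) (nat_lit 7810020537) (nat_lit 76) (nat_lit 1235289159) (nat_lit 124) (nat_lit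 5) (nat_lit 130) (nat_lit 5) (nat_lit 125) (nat_lit 5) (nat_lit 314) (nat_lit 276) (nat_lit 190)))) (XT.nd (nat_lit 156) (nat_lit 380) (nat_lit 0) (XT.nd (nat_lit 78) (nat_lit 456) (nat_lit 0) (XT.lf (nat_lit 0) (nat_lit 5959276480) (nat_lit 456) (nat_lit 1176823999) (nat_lit 76) (nat_lit 5806339445) (nat_lit 124) (nat_lit 5) (nat_lit 130) (nat_lit 5) (nat_lit 125) (nat_lit 5) (nat_lit 315) (nat_lit 276) (nat_lit 189)) (XT.lf (nat_lit 0) (nat_lit 5741578403) (nat_lit 456) (nat_lit 2603646482) (nat_lit 532) (nat_lit 4824212072) (nat_lit 118) (nat_lit 5) (nat_lit 124) (nat_lit 5) (nat_lit 125) (nat_lit 5) (nat_lit 316) (nat_lit 276) (nat_lit 188))) (XT.nd (nat_lit 78) (nat_lit 380) (nat_lit 0) (XT.lf (nat_lit 0) (nat_lit 10813680085) (nat_lit 532) (nat_lit 557372928) (nat_lit 76) (nat_lit 2031882819) (nat_lit 118) (nat_lit 5) (nat_lit 125) (nat_lit 5) (nat_lit 119) (nat_lit 5) (nat_lit 317) (nat_lit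 276) (nat_lit 187)) (XT.lf (nat_lit 0) (nat_lit 6596761028) (nat_lit 380) (nat_lit 6828307165) (nat_lit 456) (nat_lit 216324307) (nat_lit 113) (nat_lit 5) (nat_lit 118) (nat_lit 5) (nat_lit 119) (nat_lit 5) (nat_lit 318) (nat_lit 276) (nat_lit 186))))) (XT.nd (nat_lit 234) (nat_lit 760) (nat_lit 0) (XT.nd (nat_lit 78) (nat_lit 304) (nat_lit 0) (XT.lf (nat_lit 0) (nat_lit 43912162) (nat_lit 380) (nat_lit 2126339064) (nat_lit 456) (nat_lit 11716549442) (nat_lit 107) (nat_lit 5) (nat_lit 112) (nat_lit 5) (nat_lit 113) (nat_lit 5) (nat_lit 319) (nat_lit 276) (nat_lit 185)) (XT.nd (nat_lit 78) (nat_lit 304) (nat_lit 0) (XT.lf (nat_lit 0) (nat_lit 4702145435) (nat_lit 456) (nat_lit 6702770980) (nat_lit 76) (nat_lit 2732265910) (nat_lit 107) (nat_lit 5) (nat_lit 113) (nat_lit 5) (nat_lit 108) (nat_lit 5) (nat_lit 320) (nat_lit 276) (nat_lit 184)) (XT.lf (nat_lit 0) (nat_lit 617405668) (nat_lit 304) (nat_lit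 6700271312) (nat_lit 380) (nat_lit 7077185098) (nat_lit 103) (nat_lit 5) (nat_lit 107) (nat_lit 5) (nat_lit 108) (nat_lit 5) (nat_lit 321) (nat_lit 276) (nat_lit 183)))) (XT.nd (nat_lit 156) (nat_lit 380) (nat_lit 0) (XT.nd (nat_lit 78) (nat_lit 380) (nat_lit 0) (XT.lf (nat_lit 0) (nat_lit 8269694962) (nat_lit 304) (nat_lit 1790680183) (nat_lit 380) (nat_lit 4598452624) (nat_lit 103) (nat_lit 5) (nat_lit 107) (nat_lit 5) (nat_lit 108) (nat_lit 5) (nat_lit 322) (nat_lit 276) (nat_lit 182)) (XT.lf (nat_lit 0) (nat_lit 1187943123) (nat_lit 380) (nat_lit 11721740692) (nat_lit 456) (nat_lit 2020314815) (nat_lit 98) (nat_lit 5) (nat_lit 103) (nat_lit 5) (nat_lit 104) (nat_lit 5) (nat_lit 323) (nat_lit 276) (nat_lit 181))) (XT.nd (nat_lit 78) (nat_lit 304) (nat_lit 0) (XT.lf (nat_lit 0) (nat_lit 687280531) (nat_lit 456) (nat_lit 6133361379) (nat_lit 76) (nat_lit 8386559464) (nat_lit 97) (nat_lit 5) (nat_lit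 103) (nat_lit 5) (nat_lit 98) (nat_lit 5) (nat_lit 324) (nat_lit 276) (nat_lit 180)) (XT.lf (nat_lit 0) (nat_lit 1692519873) (nat_lit 304) (nat_lit 1741404153) (nat_lit 380) (nat_lit 12058258001) (nat_lit 93) (nat_lit 5) (nat_lit 97) (nat_lit 5) (nat_lit 98) (nat_lit 5) (nat_lit 325) (nat_lit 276) (nat_lit 179)))))) (XT.nd (nat_lit 546) (nat_lit 1064) (nat_lit 0) (XT.nd (nat_lit 234) (nat_lit 684) (nat_lit 0) (XT.nd (nat_lit 78) (nat_lit 304) (nat_lit 0) (XT.lf (nat_lit 0) (nat_lit 6341451769) (nat_lit 380) (nat_lit 5963453564) (nat_lit 76) (nat_lit 3478466509) (nat_lit 93) (nat_lit 5) (nat_lit 98) (nat_lit 5) (nat_lit 94) (nat_lit 5) (nat_lit 326) (nat_lit 276) (nat_lit 178)) (XT.nd (nat_lit 78) (nat_lit 0) (nat_lit 0) (XT.lf (nat_lit 0) (nat_lit 2108103622) (nat_lit 304) (nat_lit 7248507495) (nat_lit 380) (nat_lit 6726087936) (nat_lit 89) (nat_lit 5) (nat_lit 93) (nat_lit 5) (nat_lit 94) (nat_lit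 5) (nat_lit 327) (nat_lit 276) (nat_lit 177)) (XT.lf (nat_lit 0) (nat_lit 10520651439) (nat_lit 304) (nat_lit 1984965882) (nat_lit 380) (nat_lit 3884100466) (nat_lit 89) (nat_lit 5) (nat_lit 93) (nat_lit 5) (nat_lit 94) (nat_lit 5) (nat_lit 328) (nat_lit 276) (nat_lit 176)))) (XT.nd (nat_lit 156) (nat_lit 304) (nat_lit 0) (XT.nd (nat_lit 78) (nat_lit 76) (nat_lit 0) (XT.lf (nat_lit 0) (nat_lit 2471664832) (nat_lit 304) (nat_lit 13317823247) (nat_lit 380) (nat_lit 915260253) (nat_lit 85) (nat_lit 5) (nat_lit 89) (nat_lit 5) (nat_lit 90) (nat_lit 5) (nat_lit 329) (nat_lit 276) (nat_lit 175)) (XT.lf (nat_lit 0) (nat_lit 2164026970) (nat_lit 380) (nat_lit 5908631305) (nat_lit 76) (nat_lit 8954070174) (nat_lit 84) (nat_lit 5) (nat_lit 89) (nat_lit 5) (nat_lit 85) (nat_lit 5) (nat_lit 330) (nat_lit 276) (nat_lit 174))) (XT.nd (nat_lit 78) (nat_lit 0) (nat_lit 0) (XT.lf (nat_lit 0) (nat_lit 2686318815)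 (nat_lit 304) (nat_lit 2640962406) (nat_lit 380) (nat_lit 12030527332) (nat_lit 80) (nat_lit 5) (nat_lit 84) (nat_lit 5) (nat_lit 85) (nat_lit 5) (nat_lit 331) (nat_lit 276) (nat_lit 173)) (XT.lf (nat_lit 0) (nat_lit 8658424841) (nat_lit 380) (nat_lit 6088561989) (nat_lit 76) (nat_lit 2949656096) (nat_lit 80) (nat_lit 5) (nat_lit 85) (nat_lit 5) (nat_lit 81) (nat_lit 5) (nat_lit 332) (nat_lit 276) (nat_lit 172))))) (XT.nd (nat_lit 234) (nat_lit 456) (nat_lit 0) (XT.nd (nat_lit 78) (nat_lit 380) (nat_lit 0) (XT.lf (nat_lit 0) (nat_lit 2757389608) (nat_lit 228) (nat_lit 9369565835) (nat_lit 304) (nat_lit 5917574589) (nat_lit 77) (nat_lit 5) (nat_lit 80) (nat_lit 5) (nat_lit 81) (nat_lit 5) (nat_lit 333) (nat_lit 276) (nat_lit 171)) (XT.nd (nat_lit 78) (nat_lit 380) (nat_lit 0) (XT.lf (nat_lit 0) (nat_lit 11971623750) (nat_lit 228) (nat_lit 3774431753) (nat_lit 304) (nat_lit 2655413795) (nat_lit 77)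 (nat_lit 5) (nat_lit 80) (nat_lit 5) (nat_lit 81) (nat_lit 5) (nat_lit 334) (nat_lit 276) (nat_lit 170)) (XT.lf (nat_lit 0) (nat_lit 721675503) (nat_lit 380) (nat_lit 16070095415) (nat_lit 76) (nat_lit 1976228555) (nat_lit 72) (nat_lit 5) (nat_lit 77) (nat_lit 5) (nat_lit 73) (nat_lit 5) (nat_lit 335) (nat_lit 276) (nat_lit 169)))) (XT.nd (nat_lit 156) (nat_lit 228) (nat_lit 0) (XT.nd (nat_lit 78) (nat_lit 228) (nat_lit 0) (XT.lf (nat_lit 0) (nat_lit 4235117475) (nat_lit 380) (nat_lit 6998327092) (nat_lit 76) (nat_lit 7908649938) (nat_lit 72) (nat_lit 5) (nat_lit 77) (nat_lit 5) (nat_lit 73) (nat_lit 5) (nat_lit 336) (nat_lit 276) (nat_lit 168)) (XT.lf (nat_lit 0) (nat_lit 2370752917) (nat_lit 228) (nat_lit 5491891032) (nat_lit 304) (nat_lit 11664517733) (nat_lit 69) (nat_lit 5) (nat_lit 72) (nat_lit 5) (nat_lit 73) (nat_lit 5) (nat_lit 337) (nat_lit 276) (nat_lit 167))) (XT.nd (nat_lit 78) (nat_lit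 228) (nat_lit 0) (XT.lf (nat_lit 0) (nat_lit 11660455825) (nat_lit 304) (nat_lit 7783307472) (nat_lit 76) (nat_lit 478183237) (nat_lit 69) (nat_lit 5) (nat_lit 73) (nat_lit 5) (nat_lit 70) (nat_lit 5) (nat_lit 338) (nat_lit 276) (nat_lit 166)) (XT.lf (nat_lit 0) (nat_lit 1831718719) (nat_lit 228) (nat_lit 13798907730) (nat_lit 304) (nat_lit 4696204923) (nat_lit 66) (nat_lit 5) (nat_lit 69) (nat_lit 5) (nat_lit 70) (nat_lit 5) (nat_lit 339) (nat_lit 276) (nat_lit 165))))))) (XT.nd (nat_lit 1092) (nat_lit 1064) (nat_lit 0) (XT.nd (nat_lit 546) (nat_lit 684) (nat_lit 0) (XT.nd (nat_lit 234) (nat_lit 456) (nat_lit 0) (XT.nd (nat_lit 78) (nat_lit 304) (nat_lit 0) (XT.lf (nat_lit 0) (nat_lit 11874311775) (nat_lit 228) (nat_lit 7910826672) (nat_lit 304) (nat_lit 956776125) (nat_lit 66) (nat_lit 5) (nat_lit 69) (nat_lit 5) (nat_lit 70) (nat_lit 5) (nat_lit 340) (nat_lit 276) (nat_lit 164)) (XT.nd (nat_lit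 78) (nat_lit 0) (nat_lit 0) (XT.lf (nat_lit 0) (nat_lit 1020715060) (nat_lit 228) (nat_lit 1814335878) (nat_lit 304) (nat_lit 18333671795) (nat_lit 62) (nat_lit 5) (nat_lit 65) (nat_lit 5) (nat_lit 66) (nat_lit 5) (nat_lit 341) (nat_lit 276) (nat_lit 163)) (XT.lf (nat_lit 0) (nat_lit 6841770824) (nat_lit 304) (nat_lit 10291709056) (nat_lit 76) (nat_lit 4470968169) (nat_lit 62) (nat_lit 5) (nat_lit 66) (nat_lit 5) (nat_lit 63) (nat_lit 5) (nat_lit 342) (nat_lit 276) (nat_lit 162)))) (XT.nd (nat_lit 156) (nat_lit 228) (nat_lit 0) (XT.nd (nat_lit 78) (nat_lit 228) (nat_lit 0) (XT.lf (nat_lit 0) (nat_lit 10974049702) (nat_lit 304) (nat_lit 177335192) (nat_lit 76) (nat_lit 10901707421) (nat_lit 62) (nat_lit 5) (nat_lit 66) (nat_lit 5) (nat_lit 63) (nat_lit 5) (nat_lit 343) (nat_lit 276) (nat_lit 161)) (XT.lf (nat_lit 0) (nat_lit 10424817974) (nat_lit 228) (nat_lit 4893449549) (nat_lit 304) (nat_lit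 7194296951) (nat_lit 59) (nat_lit 5) (nat_lit 62) (nat_lit 5) (nat_lit 63) (nat_lit 5) (nat_lit 344) (nat_lit 276) (nat_lit 160))) (XT.nd (nat_lit 78) (nat_lit 228) (nat_lit 0) (XT.lf (nat_lit 0) (nat_lit 19797411393) (nat_lit 304) (nat_lit 1671229189) (nat_lit 76) (nat_lit 1517049688) (nat_lit 59) (nat_lit 5) (nat_lit 63) (nat_lit 5) (nat_lit 60) (nat_lit 5) (nat_lit 345) (nat_lit 276) (nat_lit 159)) (XT.lf (nat_lit 0) (nat_lit 1045663779) (nat_lit 228) (nat_lit 14309893321) (nat_lit 76) (nat_lit 8113407906) (nat_lit 56) (nat_lit 5) (nat_lit 59) (nat_lit 5) (nat_lit 57) (nat_lit 5) (nat_lit 346) (nat_lit 276) (nat_lit 158))))) (XT.nd (nat_lit 234) (nat_lit 456) (nat_lit 0) (XT.nd (nat_lit 78) (nat_lit 228) (nat_lit 0) (XT.lf (nat_lit 0) (nat_lit 5347853892) (nat_lit 228) (nat_lit 3668118724) (nat_lit 76) (nat_lit 14949665868) (nat_lit 56) (nat_lit 5) (nat_lit 59) (nat_lit 5) (nat_lit 57) (nat_lit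 5) (nat_lit 347) (nat_lit 276) (nat_lit 157)) (XT.nd (nat_lit 78) (nat_lit 0) (nat_lit 0) (XT.lf (nat_lit 0) (nat_lit 7419542601) (nat_lit 228) (nat_lit 2419497215) (nat_lit 304) (nat_lit 14636381073) (nat_lit 53) (nat_lit 5) (nat_lit 56) (nat_lit 5) (nat_lit 57) (nat_lit 5) (nat_lit 348) (nat_lit 276) (nat_lit 156)) (XT.lf (nat_lit 0) (nat_lit 14533126006) (nat_lit 304) (nat_lit 6145028829) (nat_lit 76) (nat_lit 4320303425) (nat_lit 53) (nat_lit 5) (nat_lit 57) (nat_lit 5) (nat_lit 54) (nat_lit 5) (nat_lit 349) (nat_lit 276) (nat_lit 155)))) (XT.nd (nat_lit 156) (nat_lit 304) (nat_lit 0) (XT.nd (nat_lit 78) (nat_lit 0) (nat_lit 0) (XT.lf (nat_lit 0) (nat_lit 5152007242) (nat_lit 152) (nat_lit 14278539421) (nat_lit 228) (nat_lit 6104770978) (nat_lit 51) (nat_lit 5) (nat_lit 53) (nat_lit 5) (nat_lit 54) (nat_lit 5) (nat_lit 350) (nat_lit 276) (nat_lit 154)) (XT.lf (nat_lit 0) (nat_lit 16896377496)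 (nat_lit 152) (nat_lit 7629748215) (nat_lit 228) (nat_lit 1560626084) (nat_lit 51) (nat_lit 5) (nat_lit 53) (nat_lit 5) (nat_lit 54) (nat_lit 5) (nat_lit 351) (nat_lit 276) (nat_lit 153))) (XT.nd (nat_lit 78) (nat_lit 0) (nat_lit 0) (XT.lf (nat_lit 0) (nat_lit 2336707739) (nat_lit 228) (nat_lit 734106236) (nat_lit 304) (nat_lit 23582665512) (nat_lit 47) (nat_lit 5) (nat_lit 50) (nat_lit 5) (nat_lit 51) (nat_lit 5) (nat_lit 352) (nat_lit 276) (nat_lit 152)) (XT.lf (nat_lit 0) (nat_lit 7954240464) (nat_lit 304) (nat_lit 12931353319) (nat_lit 76) (nat_lit 6346824917) (nat_lit 47) (nat_lit 5) (nat_lit 51) (nat_lit 5) (nat_lit 48) (nat_lit 5) (nat_lit 353) (nat_lit 276) (nat_lit 151)))))) (XT.nd (nat_lit 546) (nat_lit 532) (nat_lit 0) (XT.nd (nat_lit 234) (nat_lit 380) (nat_lit 0) (XT.nd (nat_lit 78) (nat_lit 152) (nat_lit 0) (XT.lf (nat_lit 0) (nat_lit 12981214478) (nat_lit 304) (nat_lit 1228472508)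 (nat_lit 76) (nat_lit 13619133150) (nat_lit 47) (nat_lit 5) (nat_lit 51) (nat_lit 5) (nat_lit 48) (nat_lit 5) (nat_lit 354) (nat_lit 276) (nat_lit 150)) (XT.nd (nat_lit 78) (nat_lit 0) (nat_lit 0) (XT.lf (nat_lit 0) (nat_lit 11024276524) (nat_lit 152) (nat_lit 7230767405) (nat_lit 228) (nat_lit 10185193529) (nat_lit 45) (nat_lit 5) (nat_lit 47) (nat_lit 5) (nat_lit 48) (nat_lit 5) (nat_lit 355) (nat_lit 276) (nat_lit 149)) (XT.lf (nat_lit 0) (nat_lit 23653609175) (nat_lit 152) (nat_lit 36091938) (nat_lit 228) (nat_lit 5380222880) (nat_lit 45) (nat_lit 5) (nat_lit 47) (nat_lit 5) (nat_lit 48) (nat_lit 5) (nat_lit 356) (nat_lit 276) (nat_lit 148)))) (XT.nd (nat_lit 156) (nat_lit 152) (nat_lit 0) (XT.nd (nat_lit 78) (nat_lit 76) (nat_lit 0) (XT.lf (nat_lit 0) (nat_lit 6992950304) (nat_lit 152) (nat_lit 22422988971) (nat_lit 228) (nat_lit 298710543) (nat_lit 43) (nat_lit 5) (nat_lit 45) (nat_lit 5)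 (nat_lit 46) (nat_lit 5) (nat_lit 357) (nat_lit 276) (nat_lit 147)) (XT.lf (nat_lit 0) (nat_lit 4884997776) (nat_lit 228) (nat_lit 10555872298) (nat_lit 76) (nat_lit 14935047120) (nat_lit 42) (nat_lit 5) (nat_lit 45) (nat_lit 5) (nat_lit 43) (nat_lit 5) (nat_lit 358) (nat_lit 276) (nat_lit 146))) (XT.nd (nat_lit 78) (nat_lit 0) (nat_lit 0) (XT.lf (nat_lit 0) (nat_lit 1995396229) (nat_lit 152) (nat_lit 8232738134) (nat_lit 228) (nat_lit 20828506390) (nat_lit 40) (nat_lit 5) (nat_lit 42) (nat_lit 5) (nat_lit 43) (nat_lit 5) (nat_lit 359) (nat_lit 276) (nat_lit 145)) (XT.lf (nat_lit 0) (nat_lit 15124226595) (nat_lit 152) (nat_lit 704793953) (nat_lit 228) (nat_lit 15925846188) (nat_lit 40) (nat_lit 5) (nat_lit 42) (nat_lit 5) (nat_lit 43) (nat_lit 5) (nat_lit 360) (nat_lit 276) (nat_lit 144))))) (XT.nd (nat_lit 234) (nat_lit 304) (nat_lit 0) (XT.nd (nat_lit 78) (nat_lit 228) (nat_lit 0) (XT.lf (nat_lit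 0) (nat_lit 21656762475) (nat_lit 228) (nat_lit 3910002987) (nat_lit 76) (nat_lit 6905513415) (nat_lit 40) (nat_lit 5) (nat_lit 43) (nat_lit 5) (nat_lit 41) (nat_lit 5) (nat_lit 361) (nat_lit 276) (nat_lit 143)) (XT.nd (nat_lit 78) (nat_lit 76) (nat_lit 0) (XT.lf (nat_lit 0) (nat_lit 9353102235) (nat_lit 152) (nat_lit 18394450387) (nat_lit 228) (nat_lit 5461018409) (nat_lit 38) (nat_lit 5) (nat_lit 40) (nat_lit 5) (nat_lit 41) (nat_lit 5) (nat_lit 362) (nat_lit 276) (nat_lit 142)) (XT.lf (nat_lit 0) (nat_lit 84286990) (nat_lit 228) (nat_lit 10887144301) (nat_lit 76) (nat_lit 22994572094) (nat_lit 37) (nat_lit 5) (nat_lit 40) (nat_lit 5) (nat_lit 38) (nat_lit 5) (nat_lit 363) (nat_lit 276) (nat_lit 141)))) (XT.nd (nat_lit 156) (nat_lit 152) (nat_lit 0) (XT.nd (nat_lit 78) (nat_lit 0) (nat_lit 0) (XT.lf (nat_lit 0) (nat_lit 2449673474) (nat_lit 152) (nat_lit 3251670745) (nat_lit 228) (nat_lit 29042741573)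 (nat_lit 35) (nat_lit 5) (nat_lit 37) (nat_lit 5) (nat_lit 38) (nat_lit 5) (nat_lit 364) (nat_lit 276) (nat_lit 140)) (XT.lf (nat_lit 0) (nat_lit 11634774790) (nat_lit 228) (nat_lit 19193050373) (nat_lit 76) (nat_lit 4713253328) (nat_lit 35) (nat_lit 5) (nat_lit 38) (nat_lit 5) (nat_lit 36) (nat_lit 5) (nat_lit 365) (nat_lit 276) (nat_lit 139))) (XT.nd (nat_lit 78) (nat_lit 152) (nat_lit 0) (XT.lf (nat_lit 0) (nat_lit 17770304093) (nat_lit 228) (nat_lit 5744769228) (nat_lit 76) (nat_lit 12846188337) (nat_lit 35) (nat_lit 5) (nat_lit 38) (nat_lit 5) (nat_lit 36) (nat_lit 5) (nat_lit 366) (nat_lit 276) (nat_lit 138)) (XT.lf (nat_lit 0) (nat_lit 8254514398) (nat_lit 152) (nat_lit 15906869267) (nat_lit 228) (nat_lit 13042525582) (nat_lit 33) (nat_lit 5) (nat_lit 35) (nat_lit 5) (nat_lit 36) (nat_lit 5) (nat_lit 367) (nat_lit 276) (nat_lit 137))))))))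
noncomputable def xc146 : XT := (XT.nd (nat_lit 2106) (nat_lit 380) (nat_lit 0) (XT.nd (nat_lit 1014) (nat_lit 608) (nat_lit 0) (XT.nd (nat_lit 468) (nat_lit 304) (nat_lit 0) (XT.nd (nat_lit 234) (nat_lit 152) (nat_lit 0) (XT.nd (nat_lit 78) (nat_lit 152) (nat_lit 0) (XT.lf (nat_lit 0) (nat_lit 22778149970) (nat_lit 152) (nat_lit 8016293826) (nat_lit 228) (nat_lit 7275888379) (nat_lit 33) (nat_lit 5) (nat_lit 35) (nat_lit 5) (nat_lit 36) (nat_lit 5) (nat_lit 368) (nat_lit 276) (nat_lit 136)) (XT.nd (nat_lit 78) (nat_lit 152) (nat_lit 0) (XT.lf (nat_lit 0) (nat_lit 37619973583) (nat_lit 228) (nat_lit 1239495763) (nat_lit 76) (nat_lit 103477371) (nat_lit 33) (nat_lit 5) (nat_lit 36) (nat_lit 5) (nat_lit 34) (nat_lit 4) (nat_lit 369) (nat_lit 276) (nat_lit 135)) (XT.lf (nat_lit 0) (nat_lit 4877725872) (nat_lit 152) (nat_lit 26519964289) (nat_lit 76) (nat_lit 8477192563) (nat_lit 31) (nat_lit 5) (nat_lit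 33) (nat_lit 5) (nat_lit 32) (nat_lit 5) (nat_lit 370) (nat_lit 276) (nat_lit 134)))) (XT.nd (nat_lit 78) (nat_lit 152) (nat_lit 0) (XT.lf (nat_lit 0) (nat_lit 11263343529) (nat_lit 152) (nat_lit 12427464193) (nat_lit 76) (nat_lit 17122814469) (nat_lit 31) (nat_lit 5) (nat_lit 33) (nat_lit 5) (nat_lit 32) (nat_lit 5) (nat_lit 371) (nat_lit 276) (nat_lit 133)) (XT.nd (nat_lit 78) (nat_lit 0) (nat_lit 0) (XT.lf (nat_lit 0) (nat_lit 2116672385) (nat_lit 152) (nat_lit 15737067873) (nat_lit 228) (nat_lit 23926390163) (nat_lit 29) (nat_lit 5) (nat_lit 31) (nat_lit 5) (nat_lit 32) (nat_lit 5) (nat_lit 372) (nat_lit 276) (nat_lit 132)) (XT.lf (nat_lit 0) (nat_lit 17339563457) (nat_lit 152) (nat_lit 7420731665) (nat_lit 228) (nat_lit 18011788200) (nat_lit 29) (nat_lit 5) (nat_lit 31) (nat_lit 5) (nat_lit 32) (nat_lit 5) (nat_lit 373) (nat_lit 276) (nat_lit 131))))) (XT.nd (nat_lit 234) (nat_lit 152) (nat_lit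 0) (XT.nd (nat_lit 78) (nat_lit 152) (nat_lit 0) (XT.lf (nat_lit 0) (nat_lit 31878163224) (nat_lit 228) (nat_lit 10797781249) (nat_lit 76) (nat_lit 1117729570) (nat_lit 29) (nat_lit 5) (nat_lit 32) (nat_lit 5) (nat_lit 30) (nat_lit 4) (nat_lit 374) (nat_lit 276) (nat_lit 130)) (XT.nd (nat_lit 78) (nat_lit 76) (nat_lit 0) (XT.lf (nat_lit 0) (nat_lit 4274163940) (nat_lit 76) (nat_lit 35043271841) (nat_lit 152) (nat_lit 5525243302) (nat_lit 28) (nat_lit 5) (nat_lit 29) (nat_lit 5) (nat_lit 30) (nat_lit 4) (nat_lit 375) (nat_lit 276) (nat_lit 129)) (XT.lf (nat_lit 0) (nat_lit 1139552427) (nat_lit 152) (nat_lit 25923296603) (nat_lit 76) (nat_lit 18856899779) (nat_lit 27) (nat_lit 5) (nat_lit 29) (nat_lit 5) (nat_lit 28) (nat_lit 5) (nat_lit 376) (nat_lit 276) (nat_lit 128)))) (XT.nd (nat_lit 156) (nat_lit 0) (nat_lit 0) (XT.nd (nat_lit 78) (nat_lit 152) (nat_lit 0) (XT.lf (nat_lit 0) (nat_lit 7886759384)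 (nat_lit 152) (nat_lit 10904870875) (nat_lit 76) (nat_lit 28236056054) (nat_lit 27) (nat_lit 5) (nat_lit 29) (nat_lit 5) (nat_lit 28) (nat_lit 5) (nat_lit 377) (nat_lit 276) (nat_lit 127)) (XT.lf (nat_lit 0) (nat_lit 4643610521) (nat_lit 152) (nat_lit 10231117286) (nat_lit 228) (nat_lit 33292986133) (nat_lit 25) (nat_lit 5) (nat_lit 27) (nat_lit 5) (nat_lit 28) (nat_lit 5) (nat_lit 378) (nat_lit 276) (nat_lit 126))) (XT.nd (nat_lit 78) (nat_lit 0) (nat_lit 0) (XT.lf (nat_lit 0) (nat_lit 20871083780) (nat_lit 152) (nat_lit 1305154856) (nat_lit 228) (nat_lit 27162588944) (nat_lit 25) (nat_lit 5) (nat_lit 27) (nat_lit 5) (nat_lit 28) (nat_lit 5) (nat_lit 379) (nat_lit 276) (nat_lit 125)) (XT.lf (nat_lit 0) (nat_lit 29766546573) (nat_lit 228) (nat_lit 13046343161) (nat_lit 76) (nat_lit 7730094562) (nat_lit 25) (nat_lit 5) (nat_lit 28) (nat_lit 5) (nat_lit 26) (nat_lit 4) (nat_lit 380) (nat_lit 276)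 (nat_lit 124)))))) (XT.nd (nat_lit 546) (nat_lit 304) (nat_lit 0) (XT.nd (nat_lit 234) (nat_lit 228) (nat_lit 0) (XT.nd (nat_lit 78) (nat_lit 0) (nat_lit 0) (XT.lf (nat_lit 0) (nat_lit 2870282006) (nat_lit 76) (nat_lit 34748893872) (nat_lit 152) (nat_lit 14163053626) (nat_lit 24) (nat_lit 5) (nat_lit 25) (nat_lit 5) (nat_lit 26) (nat_lit 4) (nat_lit 381) (nat_lit 276) (nat_lit 123)) (XT.nd (nat_lit 78) (nat_lit 0) (nat_lit 0) (XT.lf (nat_lit 0) (nat_lit 19521441453) (nat_lit 76) (nat_lit 26311855881) (nat_lit 152) (nat_lit 7221579429) (nat_lit 24) (nat_lit 5) (nat_lit 25) (nat_lit 5) (nat_lit 26) (nat_lit 4) (nat_lit 382) (nat_lit 276) (nat_lit 122)) (XT.lf (nat_lit 0) (nat_lit 36662036927) (nat_lit 76) (nat_lit 17626146077) (nat_lit 152) (nat_lit 77692250) (nat_lit 24) (nat_lit 5) (nat_lit 25) (nat_lit 5) (nat_lit 26) (nat_lit 4) (nat_lit 383) (nat_lit 276) (nat_lit 121)))) (XT.nd (nat_lit 156)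 (nat_lit 0) (nat_lit 0) (XT.nd (nat_lit 78) (nat_lit 152) (nat_lit 0) (XT.lf (nat_lit 0) (nat_lit 7132891611) (nat_lit 152) (nat_lit 1479255174) (nat_lit 76) (nat_lit 47102125816) (nat_lit 23) (nat_lit 5) (nat_lit 25) (nat_lit 5) (nat_lit 24) (nat_lit 5) (nat_lit 384) (nat_lit 276) (nat_lit 120)) (XT.lf (nat_lit 0) (nat_lit 14709980950) (nat_lit 228) (nat_lit 41582082954) (nat_lit 76) (nat_lit 806484262) (nat_lit 21) (nat_lit 5) (nat_lit 24) (nat_lit 5) (nat_lit 22) (nat_lit 4) (nat_lit 385) (nat_lit 276) (nat_lit 119))) (XT.nd (nat_lit 78) (nat_lit 0) (nat_lit 0) (XT.lf (nat_lit 0) (nat_lit 22609372829) (nat_lit 228) (nat_lit 25566594878) (nat_lit 76) (nat_lit 10345536398) (nat_lit 21) (nat_lit 5) (nat_lit 24) (nat_lit 5) (nat_lit 22) (nat_lit 4) (nat_lit 386) (nat_lit 276) (nat_lit 118)) (XT.lf (nat_lit 0) (nat_lit 30740538315) (nat_lit 228) (nat_lit 9080015775) (nat_lit 76) (nat_lit 20166752630)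 (nat_lit 21) (nat_lit 5) (nat_lit 24) (nat_lit 5) (nat_lit 22) (nat_lit 4) (nat_lit 387) (nat_lit 276) (nat_lit 117))))) (XT.nd (nat_lit 234) (nat_lit 228) (nat_lit 0) (XT.nd (nat_lit 78) (nat_lit 0) (nat_lit 0) (XT.lf (nat_lit 0) (nat_lit 8049127572) (nat_lit 76) (nat_lit 31138827875) (nat_lit 152) (nat_lit 22306960167) (nat_lit 20) (nat_lit 5) (nat_lit 21) (nat_lit 5) (nat_lit 22) (nat_lit 4) (nat_lit 388) (nat_lit 276) (nat_lit 116)) (XT.nd (nat_lit 78) (nat_lit 0) (nat_lit 0) (XT.lf (nat_lit 0) (nat_lit 25869265267) (nat_lit 76) (nat_lit 22106224379) (nat_lit 152) (nat_lit 15069663945) (nat_lit 20) (nat_lit 5) (nat_lit 21) (nat_lit 5) (nat_lit 22) (nat_lit 4) (nat_lit 389) (nat_lit 276) (nat_lit 115)) (XT.lf (nat_lit 0) (nat_lit 44215258184) (nat_lit 76) (nat_lit 12806541393) (nat_lit 152) (nat_lit 7620246242) (nat_lit 20) (nat_lit 5) (nat_lit 21) (nat_lit 5) (nat_lit 22) (nat_lit 4) (nat_lit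 390) (nat_lit 276) (nat_lit 114)))) (XT.nd (nat_lit 156) (nat_lit 0) (nat_lit 0) (XT.nd (nat_lit 78) (nat_lit 152) (nat_lit 0) (XT.lf (nat_lit 0) (nat_lit 46869347) (nat_lit 152) (nat_lit 3184310342) (nat_lit 76) (nat_lit 63055794167) (nat_lit 19) (nat_lit 5) (nat_lit 21) (nat_lit 5) (nat_lit 20) (nat_lit 5) (nat_lit 391) (nat_lit 276) (nat_lit 113)) (XT.lf (nat_lit 0) (nat_lit 7994158822) (nat_lit 228) (nat_lit 53260661949) (nat_lit 76) (nat_lit 6718067397) (nat_lit 17) (nat_lit 5) (nat_lit 20) (nat_lit 5) (nat_lit 18) (nat_lit 4) (nat_lit 392) (nat_lit 276) (nat_lit 112))) (XT.nd (nat_lit 78) (nat_lit 0) (nat_lit 0) (XT.lf (nat_lit 0) (nat_lit 16239733526) (nat_lit 228) (nat_lit 36538152498) (nat_lit 76) (nat_lit 16929699313) (nat_lit 17) (nat_lit 5) (nat_lit 20) (nat_lit 5) (nat_lit 18) (nat_lit 4) (nat_lit 393) (nat_lit 276) (nat_lit 111)) (XT.lf (nat_lit 0) (nat_lit 24728210428) (nat_lit 228)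 (nat_lit 19322085355) (nat_lit 76) (nat_lit 27444162973) (nat_lit 17) (nat_lit 5) (nat_lit 20) (nat_lit 5) (nat_lit 18) (nat_lit 4) (nat_lit 394) (nat_lit 276) (nat_lit 110))))))) (XT.nd (nat_lit 1092) (nat_lit 76) (nat_lit 0) (XT.nd (nat_lit 546) (nat_lit 76) (nat_lit 0) (XT.nd (nat_lit 234) (nat_lit 152) (nat_lit 0) (XT.nd (nat_lit 78) (nat_lit 76) (nat_lit 0) (XT.lf (nat_lit 0) (nat_lit 33467006645) (nat_lit 228) (nat_lit 1597417355) (nat_lit 76) (nat_lit 38270645772) (nat_lit 17) (nat_lit 5) (nat_lit 20) (nat_lit 5) (nat_lit 18) (nat_lit 4) (nat_lit 395) (nat_lit 276) (nat_lit 109)) (XT.nd (nat_lit 78) (nat_lit 0) (nat_lit 0) (XT.lf (nat_lit 0) (nat_lit 16982733374) (nat_lit 76) (nat_lit 25644273065) (nat_lit 152) (nat_lit 32599122790) (nat_lit 16) (nat_lit 5) (nat_lit 17) (nat_lit 5) (nat_lit 18) (nat_lit 4) (nat_lit 396) (nat_lit 276) (nat_lit 108)) (XT.lf (nat_lit 0) (nat_lit 36145457522)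 (nat_lit 76) (nat_lit 15928320510) (nat_lit 152) (nat_lit 25099784550) (nat_lit 16) (nat_lit 5) (nat_lit 17) (nat_lit 5) (nat_lit 18) (nat_lit 4) (nat_lit 397) (nat_lit 276) (nat_lit 107)))) (XT.nd (nat_lit 156) (nat_lit 152) (nat_lit 0) (XT.nd (nat_lit 78) (nat_lit 0) (nat_lit 0) (XT.lf (nat_lit 0) (nat_lit 55875707480) (nat_lit 76) (nat_lit 5924207453) (nat_lit 152) (nat_lit 17379626368) (nat_lit 16) (nat_lit 5) (nat_lit 17) (nat_lit 5) (nat_lit 18) (nat_lit 4) (nat_lit 398) (nat_lit 276) (nat_lit 106)) (XT.lf (nat_lit 0) (nat_lit 71855988256) (nat_lit 152) (nat_lit 5097167462) (nat_lit 0) (nat_lit 4291400285) (nat_lit 16) (nat_lit 5) (nat_lit 18) (nat_lit 4) (nat_lit 16) (nat_lit 4) (nat_lit 399) (nat_lit 276) (nat_lit 105))) (XT.nd (nat_lit 78) (nat_lit 76) (nat_lit 0) (XT.lf (nat_lit 0) (nat_lit 13860492570) (nat_lit 76) (nat_lit 68541306145) (nat_lit 76) (nat_lit 964081944) (nat_lit 15) (nat_lit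 4) (nat_lit 16) (nat_lit 5) (nat_lit 16) (nat_lit 4) (nat_lit 400) (nat_lit 276) (nat_lit 104)) (XT.lf (nat_lit 0) (nat_lit 7610778500) (nat_lit 152) (nat_lit 52139612027) (nat_lit 76) (nat_lit 25796786780) (nat_lit 14) (nat_lit 5) (nat_lit 16) (nat_lit 5) (nat_lit 15) (nat_lit 4) (nat_lit 401) (nat_lit 276) (nat_lit 103))))) (XT.nd (nat_lit 234) (nat_lit 0) (nat_lit 0) (XT.nd (nat_lit 78) (nat_lit 76) (nat_lit 0) (XT.lf (nat_lit 0) (nat_lit 16419789381) (nat_lit 152) (nat_lit 34269230798) (nat_lit 76) (nat_lit 37104718926) (nat_lit 14) (nat_lit 5) (nat_lit 16) (nat_lit 5) (nat_lit 15) (nat_lit 4) (nat_lit 402) (nat_lit 276) (nat_lit 102)) (XT.nd (nat_lit 78) (nat_lit 76) (nat_lit 0) (XT.lf (nat_lit 0) (nat_lit 25489460602) (nat_lit 152) (nat_lit 15869362159) (nat_lit 76) (nat_lit 48748984322) (nat_lit 14) (nat_lit 5) (nat_lit 16) (nat_lit 5) (nat_lit 15) (nat_lit 4) (nat_lit 403) (nat_lit 276)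 (nat_lit 101)) (XT.lf (nat_lit 0) (nat_lit 3137291295) (nat_lit 76) (nat_lit 31720583386) (nat_lit 152) (nat_lit 57632623838) (nat_lit 13) (nat_lit 5) (nat_lit 14) (nat_lit 5) (nat_lit 15) (nat_lit 4) (nat_lit 404) (nat_lit 276) (nat_lit 100)))) (XT.nd (nat_lit 156) (nat_lit 0) (nat_lit 0) (XT.nd (nat_lit 78) (nat_lit 0) (nat_lit 0) (XT.lf (nat_lit 0) (nat_lit 23033082676) (nat_lit 76) (nat_lit 21631043977) (nat_lit 152) (nat_lit 50275841452) (nat_lit 13) (nat_lit 5) (nat_lit 14) (nat_lit 5) (nat_lit 15) (nat_lit 4) (nat_lit 405) (nat_lit 276) (nat_lit 99)) (XT.lf (nat_lit 0) (nat_lit 43519565229) (nat_lit 76) (nat_lit 11241637875) (nat_lit 152) (nat_lit 42701820507) (nat_lit 13) (nat_lit 5) (nat_lit 14) (nat_lit 5) (nat_lit 15) (nat_lit 4) (nat_lit 406) (nat_lit 276) (nat_lit 98))) (XT.nd (nat_lit 78) (nat_lit 0) (nat_lit 0) (XT.lf (nat_lit 0) (nat_lit 64614639766) (nat_lit 76) (nat_lit 543286958)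 (nat_lit 152) (nat_lit 34903942928) (nat_lit 13) (nat_lit 5) (nat_lit 14) (nat_lit 5) (nat_lit 15) (nat_lit 4) (nat_lit 407) (nat_lit 276) (nat_lit 97)) (XT.lf (nat_lit 0) (nat_lit 75964058341) (nat_lit 152) (nat_lit 16502714501) (nat_lit 0) (nat_lit 10268983931) (nat_lit 13) (nat_lit 5) (nat_lit 15) (nat_lit 4) (nat_lit 13) (nat_lit 4) (nat_lit 408) (nat_lit 276) (nat_lit 96)))))) (XT.nd (nat_lit 30810) (nat_lit 0) (nat_lit 16492) (XT.nd (nat_lit 30498) (nat_lit 0) (nat_lit 17328) (XT.nd (nat_lit 30342) (nat_lit 0) (nat_lit 18164) (XT.lf (nat_lit 0) (nat_lit 3058717547) (nat_lit 76) (nat_lit 84067335204) (nat_lit 76) (nat_lit 18362858254) (nat_lit 12) (nat_lit 4) (nat_lit 13) (nat_lit 5) (nat_lit 13) (nat_lit 4) (nat_lit 409) (nat_lit 276) (nat_lit 95)) (XT.nd (nat_lit 78) (nat_lit 0) (nat_lit 0) (XT.lf (nat_lit 0) (nat_lit 719355627) (nat_lit 0) (nat_lit 719355627) (nat_lit 836) (nat_lit 2407860727)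 (nat_lit 251) (nat_lit 5) (nat_lit 251) (nat_lit 3) (nat_lit 262) (nat_lit 3) (nat_lit 277) (nat_lit 277) (nat_lit 226)) (XT.lf (nat_lit 0) (nat_lit 4210194065) (nat_lit 836) (nat_lit 2719350879) (nat_lit 912) (nat_lit 838501169) (nat_lit 251) (nat_lit 5) (nat_lit 262) (nat_lit 3) (nat_lit 263) (nat_lit 5) (nat_lit 278) (nat_lit 277) (nat_lit 225)))) (XT.nd (nat_lit 156) (nat_lit 836) (nat_lit 0) (XT.nd (nat_lit 78) (nat_lit 0) (nat_lit 0) (XT.lf (nat_lit 76) (nat_lit 898251188) (nat_lit 0) (nat_lit 4657808091) (nat_lit 912) (nat_lit 2290013246) (nat_lit 252) (nat_lit 5) (nat_lit 251) (nat_lit 5) (nat_lit 263) (nat_lit 5) (nat_lit 279) (nat_lit 277) (nat_lit 224)) (XT.lf (nat_lit 76) (nat_lit 4653572575) (nat_lit 0) (nat_lit 2267613622) (nat_lit 912) (nat_lit 1005955414) (nat_lit 252) (nat_lit 5) (nat_lit 251) (nat_lit 5) (nat_lit 263) (nat_lit 5) (nat_lit 280) (nat_lit 277) (nat_lit 223))) (XT.nd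 (nat_lit 78) (nat_lit 0) (nat_lit 0) (XT.lf (nat_lit 0) (nat_lit 269615744) (nat_lit 912) (nat_lit 7523402077) (nat_lit 988) (nat_lit 218823066) (nat_lit 240) (nat_lit 5) (nat_lit 252) (nat_lit 5) (nat_lit 253) (nat_lit 5) (nat_lit 281) (nat_lit 277) (nat_lit 222)) (XT.lf (nat_lit 0) (nat_lit 1572705770) (nat_lit 912) (nat_lit 3728598747) (nat_lit 988) (nat_lit 2797256362) (nat_lit 240) (nat_lit 5) (nat_lit 252) (nat_lit 5) (nat_lit 253) (nat_lit 5) (nat_lit 282) (nat_lit 277) (nat_lit 221))))) (XT.nd (nat_lit 234) (nat_lit 836) (nat_lit 0) (XT.nd (nat_lit 78) (nat_lit 0) (nat_lit 76) (XT.lf (nat_lit 76) (nat_lit 155726015) (nat_lit 0) (nat_lit 2715644751) (nat_lit 988) (nat_lit 5317878058) (nat_lit 241) (nat_lit 5) (nat_lit 240) (nat_lit 5) (nat_lit 253) (nat_lit 5) (nat_lit 283) (nat_lit 277) (nat_lit 220)) (XT.nd (nat_lit 78) (nat_lit 0) (nat_lit 0) (XT.lf (nat_lit 0) (nat_lit 4202714371) (nat_lit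 912) (nat_lit 4077016999) (nat_lit 988) (nat_lit 3173530) (nat_lit 241) (nat_lit 5) (nat_lit 253) (nat_lit 5) (nat_lit 254) (nat_lit 5) (nat_lit 284) (nat_lit 277) (nat_lit 219)) (XT.lf (nat_lit 0) (nat_lit 5558359816) (nat_lit 912) (nat_lit 56502942) (nat_lit 988) (nat_lit 2765034386) (nat_lit 241) (nat_lit 5) (nat_lit 253) (nat_lit 5) (nat_lit 254) (nat_lit 5) (nat_lit 285) (nat_lit 277) (nat_lit 218)))) (XT.nd (nat_lit 156) (nat_lit 912) (nat_lit 0) (XT.nd (nat_lit 78) (nat_lit 0) (nat_lit 76) (XT.lf (nat_lit 76) (nat_lit 4138391800) (nat_lit 0) (nat_lit 2814776161) (nat_lit 988) (nat_lit 1526732055) (nat_lit 242) (nat_lit 5) (nat_lit 241) (nat_lit 5) (nat_lit 254) (nat_lit 5) (nat_lit 286) (nat_lit 277) (nat_lit 217)) (XT.lf (nat_lit 0) (nat_lit 8350851973) (nat_lit 912) (nat_lit 151386393) (nat_lit 988) (nat_lit 81887701) (nat_lit 242) (nat_lit 5) (nat_lit 254) (nat_lit 5) (nat_lit 255) (nat_lit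 5) (nat_lit 287) (nat_lit 277) (nat_lit 216))) (XT.nd (nat_lit 78) (nat_lit 0) (nat_lit 0) (XT.lf (nat_lit 0) (nat_lit 1106895571) (nat_lit 988) (nat_lit 4510458483) (nat_lit 1064) (nat_lit 3072978264) (nat_lit 229) (nat_lit 5) (nat_lit 242) (nat_lit 5) (nat_lit 243) (nat_lit 5) (nat_lit 288) (nat_lit 277) (nat_lit 215)) (XT.lf (nat_lit 0) (nat_lit 2445535329) (nat_lit 988) (nat_lit 185679560) (nat_lit 1064) (nat_lit 6169601424) (nat_lit 229) (nat_lit 5) (nat_lit 242) (nat_lit 5) (nat_lit 243) (nat_lit 5) (nat_lit 289) (nat_lit 277) (nat_lit 214))))))))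
noncomputable def xc147 : XT := (XT.nd (nat_lit 2184) (nat_lit 4484) (nat_lit 0) (XT.nd (nat_lit 1092) (nat_lit 3420) (nat_lit 0) (XT.nd (nat_lit 546) (nat_lit 3040) (nat_lit 0) (XT.nd (nat_lit 234) (nat_lit 2052) (nat_lit 0) (XT.nd (nat_lit 78) (nat_lit 0) (nat_lit 0) (XT.lf (nat_lit 0) (nat_lit 3833239169) (nat_lit 988) (nat_lit 4593101010) (nat_lit 1064) (nat_lit 488055518) (nat_lit 230) (nat_lit 5) (nat_lit 243) (nat_lit 5) (nat_lit 244) (nat_lit 5) (nat_lit 290) (nat_lit 277) (nat_lit 213)) (XT.nd (nat_lit 78) (nat_lit 0) (nat_lit 0) (XT.lf (nat_lit 0) (nat_lit 5253981682) (nat_lit 988) (nat_lit 118127079) (nat_lit 1064) (nat_lit 3659578091) (nat_lit 230) (nat_lit 5) (nat_lit 243) (nat_lit 5) (nat_lit 244) (nat_lit 5) (nat_lit 291) (nat_lit 277) (nat_lit 212)) (XT.lf (nat_lit 76) (nat_lit 4552737262) (nat_lit 0) (nat_lit 2172899466) (nat_lit 1064) (nat_lit 2426656562) (nat_lit 231) (nat_lit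 5) (nat_lit 230) (nat_lit 5) (nat_lit 244) (nat_lit 5) (nat_lit 292) (nat_lit 277) (nat_lit 211)))) (XT.nd (nat_lit 156) (nat_lit 1064) (nat_lit 0) (XT.nd (nat_lit 78) (nat_lit 76) (nat_lit 0) (XT.lf (nat_lit 0) (nat_lit 51785472) (nat_lit 988) (nat_lit 8167522049) (nat_lit 1064) (nat_lit 1057918359) (nat_lit 218) (nat_lit 5) (nat_lit 231) (nat_lit 5) (nat_lit 232) (nat_lit 5) (nat_lit 293) (nat_lit 277) (nat_lit 210)) (XT.lf (nat_lit 0) (nat_lit 379175045) (nat_lit 1064) (nat_lit 4521455554) (nat_lit 76) (nat_lit 4504191005) (nat_lit 217) (nat_lit 5) (nat_lit 231) (nat_lit 5) (nat_lit 218) (nat_lit 5) (nat_lit 294) (nat_lit 277) (nat_lit 209))) (XT.nd (nat_lit 78) (nat_lit 0) (nat_lit 0) (XT.lf (nat_lit 0) (nat_lit 291147111) (nat_lit 1064) (nat_lit 1516506917) (nat_lit 1140) (nat_lit 7729231072) (nat_lit 203) (nat_lit 5) (nat_lit 217) (nat_lit 5) (nat_lit 218) (nat_lit 5) (nat_lit 295) (nat_lit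 277) (nat_lit 208)) (XT.lf (nat_lit 0) (nat_lit 3311517364) (nat_lit 1140) (nat_lit 4378610110) (nat_lit 76) (nat_lit 1981846168) (nat_lit 203) (nat_lit 5) (nat_lit 218) (nat_lit 5) (nat_lit 204) (nat_lit 5) (nat_lit 296) (nat_lit 277) (nat_lit 207))))) (XT.nd (nat_lit 234) (nat_lit 1216) (nat_lit 0) (XT.nd (nat_lit 78) (nat_lit 684) (nat_lit 0) (XT.lf (nat_lit 0) (nat_lit 603623746) (nat_lit 1140) (nat_lit 4246128529) (nat_lit 1216) (nat_lit 4961722797) (nat_lit 188) (nat_lit 5) (nat_lit 203) (nat_lit 5) (nat_lit 204) (nat_lit 5) (nat_lit 297) (nat_lit 277) (nat_lit 206)) (XT.nd (nat_lit 78) (nat_lit 684) (nat_lit 0) (XT.lf (nat_lit 0) (nat_lit 5797681315) (nat_lit 1140) (nat_lit 649762532) (nat_lit 1216) (nat_lit 3507355209) (nat_lit 188) (nat_lit 5) (nat_lit 203) (nat_lit 5) (nat_lit 204) (nat_lit 5) (nat_lit 298) (nat_lit 277) (nat_lit 205)) (XT.lf (nat_lit 0) (nat_lit 1007872345) (nat_lit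 684) (nat_lit 7094270893) (nat_lit 760) (nat_lit 2000042936) (nat_lit 179) (nat_lit 5) (nat_lit 188) (nat_lit 5) (nat_lit 189) (nat_lit 5) (nat_lit 299) (nat_lit 277) (nat_lit 204)))) (XT.nd (nat_lit 156) (nat_lit 532) (nat_lit 0) (XT.nd (nat_lit 78) (nat_lit 684) (nat_lit 0) (XT.lf (nat_lit 0) (nat_lit 6379166897) (nat_lit 684) (nat_lit 3446303356) (nat_lit 760) (nat_lit 427989741) (nat_lit 179) (nat_lit 5) (nat_lit 188) (nat_lit 5) (nat_lit 189) (nat_lit 5) (nat_lit 300) (nat_lit 277) (nat_lit 203)) (XT.lf (nat_lit 0) (nat_lit 1156770644) (nat_lit 684) (nat_lit 8919760392) (nat_lit 76) (nat_lit 332766444) (nat_lit 170) (nat_lit 5) (nat_lit 179) (nat_lit 5) (nat_lit 171) (nat_lit 5) (nat_lit 301) (nat_lit 277) (nat_lit 202))) (XT.nd (nat_lit 78) (nat_lit 532) (nat_lit 0) (XT.lf (nat_lit 0) (nat_lit 2825876067) (nat_lit 684) (nat_lit 3541420183) (nat_lit 76) (nat_lit 4201056326) (nat_lit 170) (nat_lit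 5) (nat_lit 179) (nat_lit 5) (nat_lit 171) (nat_lit 5) (nat_lit 302) (nat_lit 277) (nat_lit 201)) (XT.lf (nat_lit 0) (nat_lit 2010573197) (nat_lit 532) (nat_lit 2526402936) (nat_lit 608) (nat_lit 6195476364) (nat_lit 163) (nat_lit 5) (nat_lit 170) (nat_lit 5) (nat_lit 171) (nat_lit 5) (nat_lit 303) (nat_lit 277) (nat_lit 200)))))) (XT.nd (nat_lit 546) (nat_lit 1824) (nat_lit 0) (XT.nd (nat_lit 234) (nat_lit 1064) (nat_lit 0) (XT.nd (nat_lit 78) (nat_lit 532) (nat_lit 0) (XT.lf (nat_lit 0) (nat_lit 6322406389) (nat_lit 608) (nat_lit 3140282197) (nat_lit 76) (nat_lit 1438126836) (nat_lit 163) (nat_lit 5) (nat_lit 171) (nat_lit 5) (nat_lit 164) (nat_lit 5) (nat_lit 304) (nat_lit 277) (nat_lit 199)) (XT.nd (nat_lit 78) (nat_lit 0) (nat_lit 0) (XT.lf (nat_lit 0) (nat_lit 2607935994) (nat_lit 532) (nat_lit 5577467297) (nat_lit 608) (nat_lit 2888134882) (nat_lit 156) (nat_lit 5) (nat_lit 163) (nat_lit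 5) (nat_lit 164) (nat_lit 5) (nat_lit 305) (nat_lit 277) (nat_lit 198)) (XT.lf (nat_lit 0) (nat_lit 8566532076) (nat_lit 532) (nat_lit 1543894908) (nat_lit 608) (nat_lit 1140859719) (nat_lit 156) (nat_lit 5) (nat_lit 163) (nat_lit 5) (nat_lit 164) (nat_lit 5) (nat_lit 306) (nat_lit 277) (nat_lit 197)))) (XT.nd (nat_lit 156) (nat_lit 532) (nat_lit 0) (XT.nd (nat_lit 78) (nat_lit 0) (nat_lit 0) (XT.lf (nat_lit 0) (nat_lit 678072915) (nat_lit 532) (nat_lit 8158056890) (nat_lit 76) (nat_lit 2597111611) (nat_lit 149) (nat_lit 5) (nat_lit 156) (nat_lit 5) (nat_lit 150) (nat_lit 5) (nat_lit 307) (nat_lit 277) (nat_lit 196)) (XT.lf (nat_lit 0) (nat_lit 2546676091) (nat_lit 532) (nat_lit 2204427163) (nat_lit 76) (nat_lit 6868697476) (nat_lit 149) (nat_lit 5) (nat_lit 156) (nat_lit 5) (nat_lit 150) (nat_lit 5) (nat_lit 308) (nat_lit 277) (nat_lit 195))) (XT.nd (nat_lit 78) (nat_lit 0) (nat_lit 0) (XT.lf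 (nat_lit 0) (nat_lit 3979552038) (nat_lit 532) (nat_lit 506124111) (nat_lit 608) (nat_lit 7325875569) (nat_lit 142) (nat_lit 5) (nat_lit 149) (nat_lit 5) (nat_lit 150) (nat_lit 5) (nat_lit 309) (nat_lit 277) (nat_lit 194)) (XT.lf (nat_lit 0) (nat_lit 6519005005) (nat_lit 608) (nat_lit 1677900859) (nat_lit 76) (nat_lit 3811088936) (nat_lit 142) (nat_lit 5) (nat_lit 150) (nat_lit 5) (nat_lit 143) (nat_lit 5) (nat_lit 310) (nat_lit 277) (nat_lit 193))))) (XT.nd (nat_lit 234) (nat_lit 836) (nat_lit 0) (XT.nd (nat_lit 78) (nat_lit 532) (nat_lit 0) (XT.lf (nat_lit 0) (nat_lit 4722360125) (nat_lit 456) (nat_lit 3918576695) (nat_lit 532) (nat_lit 3568589882) (nat_lit 136) (nat_lit 5) (nat_lit 142) (nat_lit 5) (nat_lit 143) (nat_lit 5) (nat_lit 311) (nat_lit 277) (nat_lit 192)) (XT.nd (nat_lit 78) (nat_lit 532) (nat_lit 0) (XT.lf (nat_lit 0) (nat_lit 10825919497) (nat_lit 532) (nat_lit 1098446500) (nat_lit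 76) (nat_lit 492779709) (nat_lit 136) (nat_lit 5) (nat_lit 143) (nat_lit 5) (nat_lit 137) (nat_lit 5) (nat_lit 312) (nat_lit 277) (nat_lit 191)) (XT.lf (nat_lit 0) (nat_lit 507595356) (nat_lit 532) (nat_lit 7108180535) (nat_lit 76) (nat_lit 5012985660) (nat_lit 129) (nat_lit 5) (nat_lit 136) (nat_lit 5) (nat_lit 130) (nat_lit 5) (nat_lit 313) (nat_lit 277) (nat_lit 190)))) (XT.nd (nat_lit 156) (nat_lit 456) (nat_lit 0) (XT.nd (nat_lit 78) (nat_lit 380) (nat_lit 0) (XT.lf (nat_lit 0) (nat_lit 2627004494) (nat_lit 532) (nat_lit 527021495) (nat_lit 76) (nat_lit 9692560076) (nat_lit 129) (nat_lit 5) (nat_lit 136) (nat_lit 5) (nat_lit 130) (nat_lit 5) (nat_lit 314) (nat_lit 277) (nat_lit 189)) (XT.lf (nat_lit 0) (nat_lit 4864501237) (nat_lit 456) (nat_lit 6733408805) (nat_lit 76) (nat_lit 1471420487) (nat_lit 124) (nat_lit 5) (nat_lit 130) (nat_lit 5) (nat_lit 125) (nat_lit 5) (nat_lit 315) (nat_lit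 277) (nat_lit 188))) (XT.nd (nat_lit 78) (nat_lit 0) (nat_lit 0) (XT.lf (nat_lit 0) (nat_lit 61807807) (nat_lit 456) (nat_lit 7123881921) (nat_lit 532) (nat_lit 6112590376) (nat_lit 118) (nat_lit 5) (nat_lit 124) (nat_lit 5) (nat_lit 125) (nat_lit 5) (nat_lit 316) (nat_lit 277) (nat_lit 187)) (XT.lf (nat_lit 0) (nat_lit 7174078441) (nat_lit 456) (nat_lit 2450161995) (nat_lit 532) (nat_lit 3908445137) (nat_lit 118) (nat_lit 5) (nat_lit 124) (nat_lit 5) (nat_lit 125) (nat_lit 5) (nat_lit 317) (nat_lit 277) (nat_lit 186))))))) (XT.nd (nat_lit 1092) (nat_lit 1900) (nat_lit 0) (XT.nd (nat_lit 546) (nat_lit 1064) (nat_lit 0) (XT.nd (nat_lit 234) (nat_lit 684) (nat_lit 0) (XT.nd (nat_lit 78) (nat_lit 456) (nat_lit 0) (XT.lf (nat_lit 0) (nat_lit 691695546) (nat_lit 380) (nat_lit 11453903191) (nat_lit 456) (nat_lit 1628253584) (nat_lit 113) (nat_lit 5) (nat_lit 118) (nat_lit 5) (nat_lit 119) (nat_lit 5)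 (nat_lit 318) (nat_lit 277) (nat_lit 185)) (XT.nd (nat_lit 78) (nat_lit 380) (nat_lit 0) (XT.lf (nat_lit 0) (nat_lit 775801393) (nat_lit 456) (nat_lit 5993133887) (nat_lit 76) (nat_lit 7251043209) (nat_lit 112) (nat_lit 5) (nat_lit 118) (nat_lit 5) (nat_lit 113) (nat_lit 5) (nat_lit 319) (nat_lit 277) (nat_lit 184)) (XT.lf (nat_lit 0) (nat_lit 1293564480) (nat_lit 380) (nat_lit 1919102320) (nat_lit 456) (nat_lit 11060552614) (nat_lit 107) (nat_lit 5) (nat_lit 112) (nat_lit 5) (nat_lit 113) (nat_lit 5) (nat_lit 320) (nat_lit 277) (nat_lit 183)))) (XT.nd (nat_lit 156) (nat_lit 380) (nat_lit 0) (XT.nd (nat_lit 78) (nat_lit 304) (nat_lit 0) (XT.lf (nat_lit 0) (nat_lit 5794581946) (nat_lit 456) (nat_lit 5665101729) (nat_lit 76) (nat_lit 3072232145) (nat_lit 107) (nat_lit 5) (nat_lit 113) (nat_lit 5) (nat_lit 108) (nat_lit 5) (nat_lit 321) (nat_lit 277) (nat_lit 182)) (XT.lf (nat_lit 0) (nat_lit 1862535587)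 (nat_lit 304) (nat_lit 6610124886) (nat_lit 380) (nat_lit 6325167551) (nat_lit 103) (nat_lit 5) (nat_lit 107) (nat_lit 5) (nat_lit 108) (nat_lit 5) (nat_lit 322) (nat_lit 277) (nat_lit 181))) (XT.nd (nat_lit 78) (nat_lit 380) (nat_lit 0) (XT.lf (nat_lit 0) (nat_lit 9708667121) (nat_lit 304) (nat_lit 1561726254) (nat_lit 380) (nat_lit 3800160475) (nat_lit 103) (nat_lit 5) (nat_lit 107) (nat_lit 5) (nat_lit 108) (nat_lit 5) (nat_lit 323) (nat_lit 277) (nat_lit 180)) (XT.lf (nat_lit 0) (nat_lit 2427860683) (nat_lit 380) (nat_lit 11765082355) (nat_lit 456) (nat_lit 1157307029) (nat_lit 98) (nat_lit 5) (nat_lit 103) (nat_lit 5) (nat_lit 104) (nat_lit 5) (nat_lit 324) (nat_lit 277) (nat_lit 179))))) (XT.nd (nat_lit 234) (nat_lit 684) (nat_lit 0) (XT.nd (nat_lit 78) (nat_lit 304) (nat_lit 0) (XT.lf (nat_lit 0) (nat_lit 1587116551) (nat_lit 456) (nat_lit 5129935604) (nat_lit 76) (nat_lit 8919263442) (nat_lit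 97) (nat_lit 5) (nat_lit 103) (nat_lit 5) (nat_lit 98) (nat_lit 5) (nat_lit 325) (nat_lit 277) (nat_lit 178)) (XT.nd (nat_lit 78) (nat_lit 0) (nat_lit 0) (XT.lf (nat_lit 0) (nat_lit 2919080648) (nat_lit 304) (nat_lit 1482772789) (nat_lit 380) (nat_lit 11528442535) (nat_lit 93) (nat_lit 5) (nat_lit 97) (nat_lit 5) (nat_lit 98) (nat_lit 5) (nat_lit 326) (nat_lit 277) (nat_lit 177)) (XT.lf (nat_lit 0) (nat_lit 7374316678) (nat_lit 380) (nat_lit 4977844173) (nat_lit 76) (nat_lit 3878749851) (nat_lit 93) (nat_lit 5) (nat_lit 98) (nat_lit 5) (nat_lit 94) (nat_lit 5) (nat_lit 327) (nat_lit 277) (nat_lit 176)))) (XT.nd (nat_lit 156) (nat_lit 380) (nat_lit 0) (XT.nd (nat_lit 78) (nat_lit 0) (nat_lit 0) (XT.lf (nat_lit 0) (nat_lit 3324442935) (nat_lit 304) (nat_lit 7142029768) (nat_lit 380) (nat_lit 6073168681) (nat_lit 89) (nat_lit 5) (nat_lit 93) (nat_lit 5) (nat_lit 94) (nat_lit 5) (nat_lit 328) (nat_lit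 277) (nat_lit 175)) (XT.lf (nat_lit 0) (nat_lit 11955781860) (nat_lit 304) (nat_lit 1730016848) (nat_lit 380) (nat_lit 3170815817) (nat_lit 89) (nat_lit 5) (nat_lit 93) (nat_lit 5) (nat_lit 94) (nat_lit 5) (nat_lit 329) (nat_lit 277) (nat_lit 174))) (XT.nd (nat_lit 78) (nat_lit 76) (nat_lit 0) (XT.lf (nat_lit 0) (nat_lit 3675908260) (nat_lit 304) (nat_lit 13382628595) (nat_lit 380) (nat_lit 122867361) (nat_lit 85) (nat_lit 5) (nat_lit 89) (nat_lit 5) (nat_lit 90) (nat_lit 5) (nat_lit 330) (nat_lit 277) (nat_lit 173)) (XT.lf (nat_lit 0) (nat_lit 3009387060) (nat_lit 380) (nat_lit 4972590107) (nat_lit 76) (nat_lit 9531550231) (nat_lit 84) (nat_lit 5) (nat_lit 89) (nat_lit 5) (nat_lit 85) (nat_lit 5) (nat_lit 331) (nat_lit 277) (nat_lit 172)))))) (XT.nd (nat_lit 546) (nat_lit 760) (nat_lit 0) (XT.nd (nat_lit 234) (nat_lit 608) (nat_lit 0) (XT.nd (nat_lit 78) (nat_lit 228) (nat_lit 0) (XT.lf (nat_lit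 0) (nat_lit 3869293810) (nat_lit 304) (nat_lit 2386110691) (nat_lit 380) (nat_lit 11599516613) (nat_lit 80) (nat_lit 5) (nat_lit 84) (nat_lit 5) (nat_lit 85) (nat_lit 5) (nat_lit 332) (nat_lit 277) (nat_lit 171)) (XT.nd (nat_lit 78) (nat_lit 228) (nat_lit 0) (XT.lf (nat_lit 0) (nat_lit 9667222470) (nat_lit 380) (nat_lit 5181125898) (nat_lit 76) (nat_lit 3356166626) (nat_lit 80) (nat_lit 5) (nat_lit 85) (nat_lit 5) (nat_lit 81) (nat_lit 5) (nat_lit 333) (nat_lit 277) (nat_lit 170)) (XT.lf (nat_lit 0) (nat_lit 3919517062) (nat_lit 228) (nat_lit 9308850996) (nat_lit 304) (nat_lit 5334830073) (nat_lit 77) (nat_lit 5) (nat_lit 80) (nat_lit 5) (nat_lit 81) (nat_lit 5) (nat_lit 334) (nat_lit 277) (nat_lit 169)))) (XT.nd (nat_lit 156) (nat_lit 228) (nat_lit 0) (XT.nd (nat_lit 78) (nat_lit 380) (nat_lit 0) (XT.lf (nat_lit 0) (nat_lit 13378739224) (nat_lit 228) (nat_lit 3555818283) (nat_lit 304) (nat_lit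 1996948293) (nat_lit 77) (nat_lit 5) (nat_lit 80) (nat_lit 5) (nat_lit 81) (nat_lit 5) (nat_lit 335) (nat_lit 277) (nat_lit 168)) (XT.lf (nat_lit 0) (nat_lit 1459353047) (nat_lit 380) (nat_lit 15481128288) (nat_lit 76) (nat_lit 2368583417) (nat_lit 72) (nat_lit 5) (nat_lit 77) (nat_lit 5) (nat_lit 73) (nat_lit 5) (nat_lit 336) (nat_lit 277) (nat_lit 167))) (XT.nd (nat_lit 78) (nat_lit 228) (nat_lit 0) (XT.lf (nat_lit 0) (nat_lit 5057343115) (nat_lit 380) (nat_lit 6168403129) (nat_lit 76) (nat_lit 8469276431) (nat_lit 72) (nat_lit 5) (nat_lit 77) (nat_lit 5) (nat_lit 73) (nat_lit 5) (nat_lit 337) (nat_lit 277) (nat_lit 166)) (XT.lf (nat_lit 0) (nat_lit 3471554440) (nat_lit 228) (nat_lit 5311791116) (nat_lit 304) (nat_lit 11308620773) (nat_lit 69) (nat_lit 5) (nat_lit 72) (nat_lit 5) (nat_lit 73) (nat_lit 5) (nat_lit 338) (nat_lit 277) (nat_lit 165))))) (XT.nd (nat_lit 234) (nat_lit 532) (nat_lit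 0) (XT.nd (nat_lit 78) (nat_lit 228) (nat_lit 0) (XT.lf (nat_lit 0) (nat_lit 12678363928) (nat_lit 304) (nat_lit 6999938573) (nat_lit 76) (nat_lit 820807619) (nat_lit 69) (nat_lit 5) (nat_lit 73) (nat_lit 5) (nat_lit 70) (nat_lit 5) (nat_lit 339) (nat_lit 277) (nat_lit 164)) (XT.nd (nat_lit 78) (nat_lit 0) (nat_lit 0) (XT.lf (nat_lit 0) (nat_lit 2893569109) (nat_lit 228) (nat_lit 13864290429) (nat_lit 304) (nat_lit 4158588534) (nat_lit 66) (nat_lit 5) (nat_lit 69) (nat_lit 5) (nat_lit 70) (nat_lit 5) (nat_lit 340) (nat_lit 277) (nat_lit 163)) (XT.lf (nat_lit 0) (nat_lit 13208112805) (nat_lit 228) (nat_lit 7809719887) (nat_lit 304) (nat_lit 326739083) (nat_lit 66) (nat_lit 5) (nat_lit 69) (nat_lit 5) (nat_lit 70) (nat_lit 5) (nat_lit 341) (nat_lit 277) (nat_lit 162)))) (XT.nd (nat_lit 156) (nat_lit 228) (nat_lit 0) (XT.nd (nat_lit 78) (nat_lit 0) (nat_lit 0) (XT.lf (nat_lit 0) (nat_lit 2032462094)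 (nat_lit 228) (nat_lit 1524145270) (nat_lit 304) (nat_lit 18227680329) (nat_lit 62) (nat_lit 5) (nat_lit 65) (nat_lit 5) (nat_lit 66) (nat_lit 5) (nat_lit 342) (nat_lit 277) (nat_lit 161)) (XT.lf (nat_lit 0) (nat_lit 7668206087) (nat_lit 304) (nat_lit 9632198581) (nat_lit 76) (nat_lit 4933151480) (nat_lit 62) (nat_lit 5) (nat_lit 66) (nat_lit 5) (nat_lit 63) (nat_lit 5) (nat_lit 343) (nat_lit 277) (nat_lit 160))) (XT.nd (nat_lit 78) (nat_lit 0) (nat_lit 0) (XT.lf (nat_lit 0) (nat_lit 772478538) (nat_lit 228) (nat_lit 11141307645) (nat_lit 304) (nat_lit 10782204928) (nat_lit 59) (nat_lit 5) (nat_lit 62) (nat_lit 5) (nat_lit 63) (nat_lit 5) (nat_lit 344) (nat_lit 277) (nat_lit 159)) (XT.lf (nat_lit 0) (nat_lit 11668406188) (nat_lit 228) (nat_lit 4703880941) (nat_lit 304) (nat_lit 6797452633) (nat_lit 59) (nat_lit 5) (nat_lit 62) (nat_lit 5) (nat_lit 63) (nat_lit 5) (nat_lit 345) (nat_lit 277) (nat_lit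 158))))))))
noncomputable def xc148 : XT := (XT.nd (nat_lit 2106) (nat_lit 1140) (nat_lit 0) (XT.nd (nat_lit 1014) (nat_lit 836) (nat_lit 0) (XT.nd (nat_lit 468) (nat_lit 684) (nat_lit 0) (XT.nd (nat_lit 234) (nat_lit 380) (nat_lit 0) (XT.nd (nat_lit 78) (nat_lit 228) (nat_lit 0) (XT.lf (nat_lit 0) (nat_lit 20971629847) (nat_lit 304) (nat_lit 803102078) (nat_lit 76) (nat_lit 1882763375) (nat_lit 59) (nat_lit 5) (nat_lit 63) (nat_lit 5) (nat_lit 60) (nat_lit 5) (nat_lit 346) (nat_lit 277) (nat_lit 157)) (XT.nd (nat_lit 78) (nat_lit 0) (nat_lit 0) (XT.lf (nat_lit 0) (nat_lit 1655172696) (nat_lit 228) (nat_lit 13818086309) (nat_lit 76) (nat_lit 8682094469) (nat_lit 56) (nat_lit 5) (nat_lit 59) (nat_lit 5) (nat_lit 57) (nat_lit 5) (nat_lit 347) (nat_lit 277) (nat_lit 156)) (XT.lf (nat_lit 0) (nat_lit 6069589511) (nat_lit 228) (nat_lit 2883886741) (nat_lit 76) (nat_lit 15713965869) (nat_lit 56) (nat_lit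 5) (nat_lit 59) (nat_lit 5) (nat_lit 57) (nat_lit 5) (nat_lit 348) (nat_lit 277) (nat_lit 155)))) (XT.nd (nat_lit 78) (nat_lit 152) (nat_lit 0) (XT.lf (nat_lit 0) (nat_lit 8527637017) (nat_lit 228) (nat_lit 2160037499) (nat_lit 304) (nat_lit 14505088088) (nat_lit 53) (nat_lit 5) (nat_lit 56) (nat_lit 5) (nat_lit 57) (nat_lit 5) (nat_lit 349) (nat_lit 277) (nat_lit 154)) (XT.nd (nat_lit 78) (nat_lit 152) (nat_lit 0) (XT.lf (nat_lit 0) (nat_lit 15509561845) (nat_lit 304) (nat_lit 5456333836) (nat_lit 76) (nat_lit 4765995291) (nat_lit 53) (nat_lit 5) (nat_lit 57) (nat_lit 5) (nat_lit 54) (nat_lit 5) (nat_lit 350) (nat_lit 277) (nat_lit 153)) (XT.lf (nat_lit 0) (nat_lit 6171054045) (nat_lit 152) (nat_lit 14375420021) (nat_lit 228) (nat_lit 5738613965) (nat_lit 51) (nat_lit 5) (nat_lit 53) (nat_lit 5) (nat_lit 54) (nat_lit 5) (nat_lit 351) (nat_lit 277) (nat_lit 152))))) (XT.nd (nat_lit 234) (nat_lit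 380) (nat_lit 0) (XT.nd (nat_lit 78) (nat_lit 304) (nat_lit 0) (XT.lf (nat_lit 0) (nat_lit 18242576185) (nat_lit 152) (nat_lit 7536819707) (nat_lit 228) (nat_lit 1074143758) (nat_lit 51) (nat_lit 5) (nat_lit 53) (nat_lit 5) (nat_lit 54) (nat_lit 5) (nat_lit 352) (nat_lit 277) (nat_lit 151)) (XT.nd (nat_lit 78) (nat_lit 0) (nat_lit 0) (XT.lf (nat_lit 0) (nat_lit 3248471328) (nat_lit 228) (nat_lit 430222187) (nat_lit 304) (nat_lit 23758644250) (nat_lit 47) (nat_lit 5) (nat_lit 50) (nat_lit 5) (nat_lit 51) (nat_lit 5) (nat_lit 353) (nat_lit 277) (nat_lit 150)) (XT.lf (nat_lit 0) (nat_lit 8696642378) (nat_lit 304) (nat_lit 12489900090) (nat_lit 76) (nat_lit 6847470064) (nat_lit 47) (nat_lit 5) (nat_lit 51) (nat_lit 5) (nat_lit 48) (nat_lit 5) (nat_lit 354) (nat_lit 277) (nat_lit 149)))) (XT.nd (nat_lit 156) (nat_lit 228) (nat_lit 0) (XT.nd (nat_lit 78) (nat_lit 152) (nat_lit 0) (XT.lf (nat_lit 0) (nat_lit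 13859752562) (nat_lit 304) (nat_lit 460089956) (nat_lit 76) (nat_lit 14328911416) (nat_lit 47) (nat_lit 5) (nat_lit 51) (nat_lit 5) (nat_lit 48) (nat_lit 5) (nat_lit 355) (nat_lit 277) (nat_lit 148)) (XT.lf (nat_lit 0) (nat_lit 12152347069) (nat_lit 152) (nat_lit 7132868690) (nat_lit 228) (nat_lit 9993502959) (nat_lit 45) (nat_lit 5) (nat_lit 47) (nat_lit 5) (nat_lit 48) (nat_lit 5) (nat_lit 356) (nat_lit 277) (nat_lit 147))) (XT.nd (nat_lit 78) (nat_lit 228) (nat_lit 0) (XT.lf (nat_lit 0) (nat_lit 24871439433) (nat_lit 228) (nat_lit 4792969389) (nat_lit 76) (nat_lit 263238512) (nat_lit 45) (nat_lit 5) (nat_lit 48) (nat_lit 5) (nat_lit 46) (nat_lit 5) (nat_lit 357) (nat_lit 277) (nat_lit 146)) (XT.lf (nat_lit 0) (nat_lit 168319526) (nat_lit 228) (nat_lit 22613033514) (nat_lit 76) (nat_lit 7810496357) (nat_lit 42) (nat_lit 5) (nat_lit 45) (nat_lit 5) (nat_lit 43) (nat_lit 5) (nat_lit 358) (nat_lit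 277) (nat_lit 145)))))) (XT.nd (nat_lit 546) (nat_lit 304) (nat_lit 0) (XT.nd (nat_lit 234) (nat_lit 380) (nat_lit 0) (XT.nd (nat_lit 78) (nat_lit 152) (nat_lit 0) (XT.lf (nat_lit 0) (nat_lit 5487846351) (nat_lit 228) (nat_lit 10108121811) (nat_lit 76) (nat_lit 15677315246) (nat_lit 42) (nat_lit 5) (nat_lit 45) (nat_lit 5) (nat_lit 43) (nat_lit 5) (nat_lit 359) (nat_lit 277) (nat_lit 144)) (XT.nd (nat_lit 78) (nat_lit 0) (nat_lit 0) (XT.lf (nat_lit 0) (nat_lit 2812190393) (nat_lit 152) (nat_lit 8173072488) (nat_lit 228) (nat_lit 20989352695) (nat_lit 40) (nat_lit 5) (nat_lit 42) (nat_lit 5) (nat_lit 43) (nat_lit 5) (nat_lit 360) (nat_lit 277) (nat_lit 143)) (XT.lf (nat_lit 0) (nat_lit 16312839098) (nat_lit 152) (nat_lit 428221470) (nat_lit 228) (nat_lit 15953127509) (nat_lit 40) (nat_lit 5) (nat_lit 42) (nat_lit 5) (nat_lit 43) (nat_lit 5) (nat_lit 361) (nat_lit 277) (nat_lit 142)))) (XT.nd (nat_lit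 156) (nat_lit 228) (nat_lit 0) (XT.nd (nat_lit 78) (nat_lit 152) (nat_lit 0) (XT.lf (nat_lit 0) (nat_lit 22733680141) (nat_lit 228) (nat_lit 3303663721) (nat_lit 76) (nat_lit 7396083462) (nat_lit 40) (nat_lit 5) (nat_lit 43) (nat_lit 5) (nat_lit 41) (nat_lit 5) (nat_lit 362) (nat_lit 277) (nat_lit 141)) (XT.lf (nat_lit 0) (nat_lit 10350240154) (nat_lit 152) (nat_lit 18651398557) (nat_lit 228) (nat_lit 5190342118) (nat_lit 38) (nat_lit 5) (nat_lit 40) (nat_lit 5) (nat_lit 41) (nat_lit 5) (nat_lit 363) (nat_lit 277) (nat_lit 140))) (XT.nd (nat_lit 78) (nat_lit 152) (nat_lit 0) (XT.lf (nat_lit 0) (nat_lit 500435066) (nat_lit 228) (nat_lit 10509665970) (nat_lit 76) (nat_lit 23962287659) (nat_lit 37) (nat_lit 5) (nat_lit 40) (nat_lit 5) (nat_lit 38) (nat_lit 5) (nat_lit 364) (nat_lit 277) (nat_lit 139)) (XT.lf (nat_lit 0) (nat_lit 3220353469) (nat_lit 152) (nat_lit 3060305188) (nat_lit 228) (nat_lit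 29493320700) (nat_lit 35) (nat_lit 5) (nat_lit 37) (nat_lit 5) (nat_lit 38) (nat_lit 5) (nat_lit 365) (nat_lit 277) (nat_lit 138))))) (XT.nd (nat_lit 234) (nat_lit 152) (nat_lit 0) (XT.nd (nat_lit 78) (nat_lit 152) (nat_lit 0) (XT.lf (nat_lit 0) (nat_lit 12382897010) (nat_lit 228) (nat_lit 19082587938) (nat_lit 76) (nat_lit 5129678009) (nat_lit 35) (nat_lit 5) (nat_lit 38) (nat_lit 5) (nat_lit 36) (nat_lit 5) (nat_lit 366) (nat_lit 277) (nat_lit 137)) (XT.nd (nat_lit 78) (nat_lit 152) (nat_lit 0) (XT.lf (nat_lit 0) (nat_lit 18690868533) (nat_lit 228) (nat_lit 5250846337) (nat_lit 76) (nat_lit 13498590571) (nat_lit 35) (nat_lit 5) (nat_lit 38) (nat_lit 5) (nat_lit 36) (nat_lit 5) (nat_lit 367) (nat_lit 277) (nat_lit 136)) (XT.lf (nat_lit 0) (nat_lit 9161883778) (nat_lit 152) (nat_lit 16106853374) (nat_lit 228) (nat_lit 13039648570) (nat_lit 33) (nat_lit 5) (nat_lit 35) (nat_lit 5) (nat_lit 36) (nat_lit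 5) (nat_lit 368) (nat_lit 277) (nat_lit 135)))) (XT.nd (nat_lit 156) (nat_lit 152) (nat_lit 0) (XT.nd (nat_lit 78) (nat_lit 0) (nat_lit 0) (XT.lf (nat_lit 0) (nat_lit 24102012866) (nat_lit 152) (nat_lit 7987635096) (nat_lit 228) (nat_lit 7111492429) (nat_lit 33) (nat_lit 5) (nat_lit 35) (nat_lit 5) (nat_lit 36) (nat_lit 5) (nat_lit 369) (nat_lit 277) (nat_lit 134)) (XT.lf (nat_lit 0) (nat_lit 39111638870) (nat_lit 228) (nat_lit 646357397) (nat_lit 76) (nat_lit 362790922) (nat_lit 33) (nat_lit 5) (nat_lit 36) (nat_lit 5) (nat_lit 34) (nat_lit 4) (nat_lit 370) (nat_lit 277) (nat_lit 133))) (XT.nd (nat_lit 78) (nat_lit 0) (nat_lit 0) (XT.lf (nat_lit 0) (nat_lit 5386246504) (nat_lit 152) (nat_lit 26684064356) (nat_lit 76) (nat_lit 8989805687) (nat_lit 31) (nat_lit 5) (nat_lit 33) (nat_lit 5) (nat_lit 32) (nat_lit 5) (nat_lit 371) (nat_lit 277) (nat_lit 132)) (XT.lf (nat_lit 0) (nat_lit 11952883500)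 (nat_lit 152) (nat_lit 12187182428) (nat_lit 76) (nat_lit 17887273025) (nat_lit 31) (nat_lit 5) (nat_lit 33) (nat_lit 5) (nat_lit 32) (nat_lit 5) (nat_lit 372) (nat_lit 277) (nat_lit 131))))))) (XT.nd (nat_lit 1092) (nat_lit 380) (nat_lit 0) (XT.nd (nat_lit 546) (nat_lit 304) (nat_lit 0) (XT.nd (nat_lit 234) (nat_lit 304) (nat_lit 0) (XT.nd (nat_lit 78) (nat_lit 0) (nat_lit 0) (XT.lf (nat_lit 0) (nat_lit 2787267408) (nat_lit 152) (nat_lit 15949318558) (nat_lit 228) (nat_lit 24286392806) (nat_lit 29) (nat_lit 5) (nat_lit 31) (nat_lit 5) (nat_lit 32) (nat_lit 5) (nat_lit 373) (nat_lit 277) (nat_lit 130)) (XT.nd (nat_lit 78) (nat_lit 0) (nat_lit 0) (XT.lf (nat_lit 0) (nat_lit 18449162838) (nat_lit 152) (nat_lit 7391061042) (nat_lit 228) (nat_lit 18204773824) (nat_lit 29) (nat_lit 5) (nat_lit 31) (nat_lit 5) (nat_lit 32) (nat_lit 5) (nat_lit 374) (nat_lit 277) (nat_lit 129)) (XT.lf (nat_lit 0) (nat_lit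 33164163552) (nat_lit 228) (nat_lit 10541874488) (nat_lit 76) (nat_lit 1391425958) (nat_lit 29) (nat_lit 5) (nat_lit 32) (nat_lit 5) (nat_lit 30) (nat_lit 4) (nat_lit 375) (nat_lit 277) (nat_lit 128)))) (XT.nd (nat_lit 156) (nat_lit 152) (nat_lit 0) (XT.nd (nat_lit 78) (nat_lit 76) (nat_lit 0) (XT.lf (nat_lit 0) (nat_lit 4976544349) (nat_lit 76) (nat_lit 35845987457) (nat_lit 152) (nat_lit 5355533663) (nat_lit 28) (nat_lit 5) (nat_lit 29) (nat_lit 5) (nat_lit 30) (nat_lit 4) (nat_lit 376) (nat_lit 277) (nat_lit 127)) (XT.lf (nat_lit 0) (nat_lit 1493079553) (nat_lit 152) (nat_lit 26137087963) (nat_lit 76) (nat_lit 19657474021) (nat_lit 27) (nat_lit 5) (nat_lit 29) (nat_lit 5) (nat_lit 28) (nat_lit 5) (nat_lit 377) (nat_lit 277) (nat_lit 126))) (XT.nd (nat_lit 78) (nat_lit 152) (nat_lit 0) (XT.lf (nat_lit 0) (nat_lit 8433401537) (nat_lit 152) (nat_lit 10684533954) (nat_lit 76) (nat_lit 29311164191)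 (nat_lit 27) (nat_lit 5) (nat_lit 29) (nat_lit 5) (nat_lit 28) (nat_lit 5) (nat_lit 378) (nat_lit 277) (nat_lit 125)) (XT.lf (nat_lit 0) (nat_lit 5325034403) (nat_lit 152) (nat_lit 10302155484) (nat_lit 228) (nat_lit 33976256205) (nat_lit 25) (nat_lit 5) (nat_lit 27) (nat_lit 5) (nat_lit 28) (nat_lit 5) (nat_lit 379) (nat_lit 277) (nat_lit 124))))) (XT.nd (nat_lit 234) (nat_lit 228) (nat_lit 0) (XT.nd (nat_lit 78) (nat_lit 76) (nat_lit 0) (XT.lf (nat_lit 0) (nat_lit 22023542086) (nat_lit 152) (nat_lit 1115284918) (nat_lit 228) (nat_lit 27671136989) (nat_lit 25) (nat_lit 5) (nat_lit 27) (nat_lit 5) (nat_lit 28) (nat_lit 5) (nat_lit 380) (nat_lit 277) (nat_lit 123)) (XT.nd (nat_lit 78) (nat_lit 76) (nat_lit 0) (XT.lf (nat_lit 0) (nat_lit 30950322324) (nat_lit 228) (nat_lit 12920109492) (nat_lit 76) (nat_lit 8180012436) (nat_lit 25) (nat_lit 5) (nat_lit 28) (nat_lit 5) (nat_lit 26) (nat_lit 4) (nat_lit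 381) (nat_lit 277) (nat_lit 122)) (XT.lf (nat_lit 0) (nat_lit 3468939685) (nat_lit 76) (nat_lit 35566048458) (nat_lit 152) (nat_lit 14291988038) (nat_lit 24) (nat_lit 5) (nat_lit 25) (nat_lit 5) (nat_lit 26) (nat_lit 4) (nat_lit 382) (nat_lit 277) (nat_lit 121)))) (XT.nd (nat_lit 156) (nat_lit 152) (nat_lit 0) (XT.nd (nat_lit 78) (nat_lit 76) (nat_lit 0) (XT.lf (nat_lit 0) (nat_lit 20604705297) (nat_lit 76) (nat_lit 26882461819) (nat_lit 152) (nat_lit 7150889728) (nat_lit 24) (nat_lit 5) (nat_lit 25) (nat_lit 5) (nat_lit 26) (nat_lit 4) (nat_lit 383) (nat_lit 277) (nat_lit 120)) (XT.lf (nat_lit 0) (nat_lit 195062890) (nat_lit 152) (nat_lit 17745519430) (nat_lit 76) (nat_lit 38047992188) (nat_lit 23) (nat_lit 5) (nat_lit 25) (nat_lit 5) (nat_lit 24) (nat_lit 5) (nat_lit 384) (nat_lit 277) (nat_lit 119))) (XT.nd (nat_lit 78) (nat_lit 152) (nat_lit 0) (XT.lf (nat_lit 0) (nat_lit 7612436002) (nat_lit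 152) (nat_lit 1049200967) (nat_lit 76) (nat_lit 48716005479) (nat_lit 23) (nat_lit 5) (nat_lit 25) (nat_lit 5) (nat_lit 24) (nat_lit 5) (nat_lit 385) (nat_lit 277) (nat_lit 118)) (XT.lf (nat_lit 0) (nat_lit 15415613208) (nat_lit 228) (nat_lit 42353799833) (nat_lit 76) (nat_lit 1034072650) (nat_lit 21) (nat_lit 5) (nat_lit 24) (nat_lit 5) (nat_lit 22) (nat_lit 4) (nat_lit 386) (nat_lit 277) (nat_lit 117)))))) (XT.nd (nat_lit 546) (nat_lit 76) (nat_lit 0) (XT.nd (nat_lit 234) (nat_lit 228) (nat_lit 0) (XT.nd (nat_lit 78) (nat_lit 76) (nat_lit 0) (XT.lf (nat_lit 0) (nat_lit 23544287829) (nat_lit 228) (nat_lit 25871703783) (nat_lit 76) (nat_lit 10853372258) (nat_lit 21) (nat_lit 5) (nat_lit 24) (nat_lit 5) (nat_lit 22) (nat_lit 4) (nat_lit 387) (nat_lit 277) (nat_lit 116)) (XT.nd (nat_lit 78) (nat_lit 76) (nat_lit 0) (XT.lf (nat_lit 0) (nat_lit 31911913508) (nat_lit 228) (nat_lit 8903980383) (nat_lit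 76) (nat_lit 20963473430) (nat_lit 21) (nat_lit 5) (nat_lit 24) (nat_lit 5) (nat_lit 22) (nat_lit 4) (nat_lit 388) (nat_lit 277) (nat_lit 115)) (XT.lf (nat_lit 0) (nat_lit 8734640835) (nat_lit 76) (nat_lit 31875123639) (nat_lit 152) (nat_lit 22722532111) (nat_lit 20) (nat_lit 5) (nat_lit 21) (nat_lit 5) (nat_lit 22) (nat_lit 4) (nat_lit 389) (nat_lit 277) (nat_lit 114)))) (XT.nd (nat_lit 156) (nat_lit 228) (nat_lit 0) (XT.nd (nat_lit 78) (nat_lit 0) (nat_lit 0) (XT.lf (nat_lit 0) (nat_lit 27076449473) (nat_lit 76) (nat_lit 22577305215) (nat_lit 152) (nat_lit 15275504483) (nat_lit 20) (nat_lit 5) (nat_lit 21) (nat_lit 5) (nat_lit 22) (nat_lit 4) (nat_lit 390) (nat_lit 277) (nat_lit 113)) (XT.lf (nat_lit 0) (nat_lit 45960265685) (nat_lit 76) (nat_lit 13004227056) (nat_lit 152) (nat_lit 7609776562) (nat_lit 20) (nat_lit 5) (nat_lit 21) (nat_lit 5) (nat_lit 22) (nat_lit 4) (nat_lit 391) (nat_lit 277)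 (nat_lit 112))) (XT.nd (nat_lit 78) (nat_lit 152) (nat_lit 0) (XT.lf (nat_lit 0) (nat_lit 275859712) (nat_lit 152) (nat_lit 2868878982) (nat_lit 76) (nat_lit 65123944538) (nat_lit 19) (nat_lit 5) (nat_lit 21) (nat_lit 5) (nat_lit 20) (nat_lit 5) (nat_lit 392) (nat_lit 277) (nat_lit 111)) (XT.lf (nat_lit 0) (nat_lit 8460600993) (nat_lit 228) (nat_lit 54446484053) (nat_lit 76) (nat_lit 7098121040) (nat_lit 17) (nat_lit 5) (nat_lit 20) (nat_lit 5) (nat_lit 18) (nat_lit 4) (nat_lit 393) (nat_lit 277) (nat_lit 110))))) (XT.nd (nat_lit 234) (nat_lit 76) (nat_lit 0) (XT.nd (nat_lit 78) (nat_lit 0) (nat_lit 0) (XT.lf (nat_lit 0) (nat_lit 16946942431) (nat_lit 228) (nat_lit 37234299253) (nat_lit 76) (nat_lit 17610902546) (nat_lit 17) (nat_lit 5) (nat_lit 20) (nat_lit 5) (nat_lit 18) (nat_lit 4) (nat_lit 394) (nat_lit 277) (nat_lit 109)) (XT.nd (nat_lit 78) (nat_lit 0) (nat_lit 0) (XT.lf (nat_lit 0) (nat_lit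 25683665381) (nat_lit 228) (nat_lit 19513400517) (nat_lit 76) (nat_lit 28435752186) (nat_lit 17) (nat_lit 5) (nat_lit 20) (nat_lit 5) (nat_lit 18) (nat_lit 4) (nat_lit 395) (nat_lit 277) (nat_lit 108)) (XT.lf (nat_lit 0) (nat_lit 34678403873) (nat_lit 228) (nat_lit 1268303566) (nat_lit 76) (nat_lit 39582128566) (nat_lit 17) (nat_lit 5) (nat_lit 20) (nat_lit 5) (nat_lit 18) (nat_lit 4) (nat_lit 396) (nat_lit 277) (nat_lit 107)))) (XT.nd (nat_lit 156) (nat_lit 0) (nat_lit 0) (XT.nd (nat_lit 78) (nat_lit 0) (nat_lit 0) (XT.lf (nat_lit 0) (nat_lit 17865555250) (nat_lit 76) (nat_lit 26245196783) (nat_lit 152) (nat_lit 33365950634) (nat_lit 16) (nat_lit 5) (nat_lit 17) (nat_lit 5) (nat_lit 18) (nat_lit 4) (nat_lit 397) (nat_lit 277) (nat_lit 106)) (XT.lf (nat_lit 0) (nat_lit 37592287146) (nat_lit 76) (nat_lit 16242670637) (nat_lit 152) (nat_lit 25647782125) (nat_lit 16) (nat_lit 5) (nat_lit 17) (nat_lit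 5) (nat_lit 18) (nat_lit 4) (nat_lit 398) (nat_lit 277) (nat_lit 105))) (XT.nd (nat_lit 78) (nat_lit 0) (nat_lit 0) (XT.lf (nat_lit 0) (nat_lit 57903887343) (nat_lit 76) (nat_lit 5943196308) (nat_lit 152) (nat_lit 17701989954) (nat_lit 16) (nat_lit 5) (nat_lit 17) (nat_lit 5) (nat_lit 18) (nat_lit 4) (nat_lit 399) (nat_lit 277) (nat_lit 104)) (XT.lf (nat_lit 0) (nat_lit 74200694265) (nat_lit 152) (nat_lit 4904221620) (nat_lit 0) (nat_lit 4571248925) (nat_lit 16) (nat_lit 5) (nat_lit 18) (nat_lit 4) (nat_lit 16) (nat_lit 4) (nat_lit 400) (nat_lit 277) (nat_lit 103))))))))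
noncomputable def xc149 : XT := (XT.nd (nat_lit 32526) (nat_lit 0) (nat_lit 6840) (XT.nd (nat_lit 31434) (nat_lit 0) (nat_lit 14440) (XT.nd (nat_lit 546) (nat_lit 0) (nat_lit 0) (XT.nd (nat_lit 234) (nat_lit 76) (nat_lit 0) (XT.nd (nat_lit 78) (nat_lit 76) (nat_lit 0) (XT.lf (nat_lit 0) (nat_lit 14618777420) (nat_lit 76) (nat_lit 70441888027) (nat_lit 76) (nat_lit 800531829) (nat_lit 15) (nat_lit 4) (nat_lit 16) (nat_lit 5) (nat_lit 16) (nat_lit 4) (nat_lit 401) (nat_lit 277) (nat_lit 102)) (XT.nd (nat_lit 78) (nat_lit 0) (nat_lit 0) (XT.lf (nat_lit 0) (nat_lit 8022321992) (nat_lit 152) (nat_lit 53367606492) (nat_lit 76) (nat_lit 26718115299) (nat_lit 14) (nat_lit 5) (nat_lit 16) (nat_lit 5) (nat_lit 15) (nat_lit 4) (nat_lit 402) (nat_lit 277) (nat_lit 101)) (XT.lf (nat_lit 0) (nat_lit 17090266690) (nat_lit 152) (nat_lit 34970905881) (nat_lit 76) (nat_lit 38360991479) (nat_lit 14) (nat_lit 5) (nat_lit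 16) (nat_lit 5) (nat_lit 15) (nat_lit 4) (nat_lit 403) (nat_lit 277) (nat_lit 100)))) (XT.nd (nat_lit 156) (nat_lit 0) (nat_lit 0) (XT.nd (nat_lit 78) (nat_lit 76) (nat_lit 0) (XT.lf (nat_lit 0) (nat_lit 26426846971) (nat_lit 152) (nat_lit 16028548033) (nat_lit 76) (nat_lit 50350415974) (nat_lit 14) (nat_lit 5) (nat_lit 16) (nat_lit 5) (nat_lit 15) (nat_lit 4) (nat_lit 404) (nat_lit 277) (nat_lit 99)) (XT.lf (nat_lit 0) (nat_lit 3545198212) (nat_lit 76) (nat_lit 32529101414) (nat_lit 152) (nat_lit 59185745382) (nat_lit 13) (nat_lit 5) (nat_lit 14) (nat_lit 5) (nat_lit 15) (nat_lit 4) (nat_lit 405) (nat_lit 277) (nat_lit 98))) (XT.nd (nat_lit 78) (nat_lit 0) (nat_lit 0) (XT.lf (nat_lit 0) (nat_lit 24028723872) (nat_lit 76) (nat_lit 22141043769) (nat_lit 152) (nat_lit 51613381577) (nat_lit 13) (nat_lit 5) (nat_lit 14) (nat_lit 5) (nat_lit 15) (nat_lit 4) (nat_lit 406) (nat_lit 277) (nat_lit 97))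 (XT.lf (nat_lit 0) (nat_lit 45120927638) (nat_lit 76) (nat_lit 11444002034) (nat_lit 152) (nat_lit 43817112872) (nat_lit 13) (nat_lit 5) (nat_lit 14) (nat_lit 5) (nat_lit 15) (nat_lit 4) (nat_lit 407) (nat_lit 277) (nat_lit 96))))) (XT.nd (nat_lit 30576) (nat_lit 0) (nat_lit 17176) (XT.nd (nat_lit 78) (nat_lit 0) (nat_lit 0) (XT.lf (nat_lit 0) (nat_lit 66840239592) (nat_lit 76) (nat_lit 428629278) (nat_lit 152) (nat_lit 35790126992) (nat_lit 13) (nat_lit 5) (nat_lit 14) (nat_lit 5) (nat_lit 15) (nat_lit 4) (nat_lit 408) (nat_lit 277) (nat_lit 95)) (XT.nd (nat_lit 30420) (nat_lit 0) (nat_lit 18088) (XT.lf (nat_lit 0) (nat_lit 78395856961) (nat_lit 152) (nat_lit 16715629255) (nat_lit 0) (nat_lit 10701714479) (nat_lit 13) (nat_lit 5) (nat_lit 15) (nat_lit 4) (nat_lit 13) (nat_lit 4) (nat_lit 409) (nat_lit 277) (nat_lit 94)) (XT.lf (nat_lit 0) (nat_lit 1375472355) (nat_lit 0) (nat_lit 1375472355) (nat_lit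 836) (nat_lit 1171162932) (nat_lit 251) (nat_lit 5) (nat_lit 251) (nat_lit 3) (nat_lit 262) (nat_lit 3) (nat_lit 278) (nat_lit 278) (nat_lit 224)))) (XT.nd (nat_lit 156) (nat_lit 0) (nat_lit 0) (XT.nd (nat_lit 78) (nat_lit 912) (nat_lit 0) (XT.lf (nat_lit 0) (nat_lit 6440986178) (nat_lit 0) (nat_lit 351264194) (nat_lit 836) (nat_lit 1131690172) (nat_lit 251) (nat_lit 5) (nat_lit 251) (nat_lit 3) (nat_lit 262) (nat_lit 3) (nat_lit 279) (nat_lit 278) (nat_lit 223)) (XT.lf (nat_lit 0) (nat_lit 107841702) (nat_lit 912) (nat_lit 5773735170) (nat_lit 988) (nat_lit 2124667189) (nat_lit 239) (nat_lit 5) (nat_lit 251) (nat_lit 5) (nat_lit 252) (nat_lit 5) (nat_lit 280) (nat_lit 278) (nat_lit 222))) (XT.nd (nat_lit 78) (nat_lit 0) (nat_lit 0) (XT.lf (nat_lit 0) (nat_lit 1334112152) (nat_lit 912) (nat_lit 2041575950) (nat_lit 988) (nat_lit 4715886127) (nat_lit 239) (nat_lit 5) (nat_lit 251) (nat_lit 5) (nat_lit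 252) (nat_lit 5) (nat_lit 281) (nat_lit 278) (nat_lit 221)) (XT.lf (nat_lit 76) (nat_lit 1812664621) (nat_lit 0) (nat_lit 756976565) (nat_lit 988) (nat_lit 5610709827) (nat_lit 240) (nat_lit 5) (nat_lit 239) (nat_lit 5) (nat_lit 252) (nat_lit 5) (nat_lit 282) (nat_lit 278) (nat_lit 220)))))) (XT.nd (nat_lit 546) (nat_lit 1900) (nat_lit 0) (XT.nd (nat_lit 234) (nat_lit 912) (nat_lit 0) (XT.nd (nat_lit 78) (nat_lit 0) (nat_lit 0) (XT.lf (nat_lit 0) (nat_lit 3838003882) (nat_lit 912) (nat_lit 2492209846) (nat_lit 988) (nat_lit 1941763388) (nat_lit 240) (nat_lit 5) (nat_lit 252) (nat_lit 5) (nat_lit 253) (nat_lit 5) (nat_lit 283) (nat_lit 278) (nat_lit 219)) (XT.nd (nat_lit 78) (nat_lit 0) (nat_lit 0) (XT.lf (nat_lit 76) (nat_lit 1495426553) (nat_lit 0) (nat_lit 3628430041) (nat_lit 988) (nat_lit 3243169567) (nat_lit 241) (nat_lit 5) (nat_lit 240) (nat_lit 5) (nat_lit 253) (nat_lit 5) (nat_lit 284)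 (nat_lit 278) (nat_lit 218)) (XT.lf (nat_lit 76) (nat_lit 5628241971) (nat_lit 0) (nat_lit 803769070) (nat_lit 988) (nat_lit 2033459513) (nat_lit 241) (nat_lit 5) (nat_lit 240) (nat_lit 5) (nat_lit 253) (nat_lit 5) (nat_lit 285) (nat_lit 278) (nat_lit 217)))) (XT.nd (nat_lit 156) (nat_lit 0) (nat_lit 0) (XT.nd (nat_lit 78) (nat_lit 988) (nat_lit 0) (XT.lf (nat_lit 76) (nat_lit 1297039300) (nat_lit 0) (nat_lit 6474994507) (nat_lit 988) (nat_lit 795109802) (nat_lit 242) (nat_lit 5) (nat_lit 241) (nat_lit 5) (nat_lit 254) (nat_lit 5) (nat_lit 286) (nat_lit 278) (nat_lit 216)) (XT.lf (nat_lit 0) (nat_lit 468302478) (nat_lit 988) (nat_lit 3097157137) (nat_lit 1064) (nat_lit 5106401058) (nat_lit 228) (nat_lit 5) (nat_lit 241) (nat_lit 5) (nat_lit 242) (nat_lit 5) (nat_lit 287) (nat_lit 278) (nat_lit 215))) (XT.nd (nat_lit 78) (nat_lit 0) (nat_lit 76) (XT.lf (nat_lit 76) (nat_lit 1190327995) (nat_lit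 0) (nat_lit 536297948) (nat_lit 1064) (nat_lit 7053716897) (nat_lit 229) (nat_lit 5) (nat_lit 228) (nat_lit 5) (nat_lit 242) (nat_lit 5) (nat_lit 288) (nat_lit 278) (nat_lit 214)) (XT.lf (nat_lit 0) (nat_lit 3041654186) (nat_lit 988) (nat_lit 3273400812) (nat_lit 1064) (nat_lit 2576503835) (nat_lit 229) (nat_lit 5) (nat_lit 242) (nat_lit 5) (nat_lit 243) (nat_lit 5) (nat_lit 289) (nat_lit 278) (nat_lit 213))))) (XT.nd (nat_lit 234) (nat_lit 1976) (nat_lit 0) (XT.nd (nat_lit 78) (nat_lit 0) (nat_lit 76) (XT.lf (nat_lit 76) (nat_lit 1163860607) (nat_lit 0) (nat_lit 3212395268) (nat_lit 1064) (nat_lit 4630498371) (nat_lit 230) (nat_lit 5) (nat_lit 229) (nat_lit 5) (nat_lit 243) (nat_lit 5) (nat_lit 290) (nat_lit 278) (nat_lit 212)) (XT.nd (nat_lit 78) (nat_lit 0) (nat_lit 0) (XT.lf (nat_lit 0) (nat_lit 5748644280) (nat_lit 988) (nat_lit 3350438776) (nat_lit 1064) (nat_lit 26435262) (nat_lit 230) (nat_lit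 5) (nat_lit 243) (nat_lit 5) (nat_lit 244) (nat_lit 5) (nat_lit 291) (nat_lit 278) (nat_lit 211)) (XT.lf (nat_lit 76) (nat_lit 1242829008) (nat_lit 0) (nat_lit 5928687826) (nat_lit 1064) (nat_lit 2076093043) (nat_lit 231) (nat_lit 5) (nat_lit 230) (nat_lit 5) (nat_lit 244) (nat_lit 5) (nat_lit 292) (nat_lit 278) (nat_lit 210)))) (XT.nd (nat_lit 156) (nat_lit 1064) (nat_lit 0) (XT.nd (nat_lit 78) (nat_lit 988) (nat_lit 0) (XT.lf (nat_lit 76) (nat_lit 6016427525) (nat_lit 0) (nat_lit 2620792436) (nat_lit 1064) (nat_lit 736182550) (nat_lit 231) (nat_lit 5) (nat_lit 230) (nat_lit 5) (nat_lit 244) (nat_lit 5) (nat_lit 293) (nat_lit 278) (nat_lit 209)) (XT.lf (nat_lit 0) (nat_lit 619816979) (nat_lit 1064) (nat_lit 8085414148) (nat_lit 76) (nat_lit 797938604) (nat_lit 217) (nat_lit 5) (nat_lit 231) (nat_lit 5) (nat_lit 218) (nat_lit 5) (nat_lit 294) (nat_lit 278) (nat_lit 208))) (XT.nd (nat_lit 78) (nat_lit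 1064) (nat_lit 0) (XT.lf (nat_lit 0) (nat_lit 2029588915) (nat_lit 1064) (nat_lit 3291744818) (nat_lit 76) (nat_lit 4314479936) (nat_lit 217) (nat_lit 5) (nat_lit 231) (nat_lit 5) (nat_lit 218) (nat_lit 5) (nat_lit 295) (nat_lit 278) (nat_lit 207)) (XT.lf (nat_lit 0) (nat_lit 1651850099) (nat_lit 1064) (nat_lit 1814329129) (nat_lit 1140) (nat_lit 6306759846) (nat_lit 203) (nat_lit 5) (nat_lit 217) (nat_lit 5) (nat_lit 218) (nat_lit 5) (nat_lit 296) (nat_lit 278) (nat_lit 206))))))) (XT.nd (nat_lit 1092) (nat_lit 2964) (nat_lit 0) (XT.nd (nat_lit 546) (nat_lit 2128) (nat_lit 0) (XT.nd (nat_lit 234) (nat_lit 1368) (nat_lit 0) (XT.nd (nat_lit 78) (nat_lit 1140) (nat_lit 0) (XT.lf (nat_lit 0) (nat_lit 4966076533) (nat_lit 1140) (nat_lit 3146427952) (nat_lit 76) (nat_lit 1801104275) (nat_lit 203) (nat_lit 5) (nat_lit 218) (nat_lit 5) (nat_lit 204) (nat_lit 5) (nat_lit 297) (nat_lit 278) (nat_lit 205))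 (XT.nd (nat_lit 78) (nat_lit 0) (nat_lit 0) (XT.lf (nat_lit 0) (nat_lit 1971904877) (nat_lit 1140) (nat_lit 4546234813) (nat_lit 1216) (nat_lit 3540179506) (nat_lit 188) (nat_lit 5) (nat_lit 203) (nat_lit 5) (nat_lit 204) (nat_lit 5) (nat_lit 298) (nat_lit 278) (nat_lit 204)) (XT.lf (nat_lit 0) (nat_lit 7282458762) (nat_lit 1140) (nat_lit 836947087) (nat_lit 1216) (nat_lit 2087920550) (nat_lit 188) (nat_lit 5) (nat_lit 203) (nat_lit 5) (nat_lit 204) (nat_lit 5) (nat_lit 299) (nat_lit 278) (nat_lit 203)))) (XT.nd (nat_lit 156) (nat_lit 608) (nat_lit 0) (XT.nd (nat_lit 78) (nat_lit 76) (nat_lit 0) (XT.lf (nat_lit 0) (nat_lit 2383364739) (nat_lit 684) (nat_lit 7408683670) (nat_lit 760) (nat_lit 568088932) (nat_lit 179) (nat_lit 5) (nat_lit 188) (nat_lit 5) (nat_lit 189) (nat_lit 5) (nat_lit 300) (nat_lit 278) (nat_lit 202)) (XT.lf (nat_lit 0) (nat_lit 988007562) (nat_lit 760) (nat_lit 2650333829)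 (nat_lit 76) (nat_lit 6878631406) (nat_lit 178) (nat_lit 5) (nat_lit 188) (nat_lit 5) (nat_lit 179) (nat_lit 5) (nat_lit 301) (nat_lit 278) (nat_lit 201))) (XT.nd (nat_lit 78) (nat_lit 0) (nat_lit 0) (XT.lf (nat_lit 0) (nat_lit 2582397907) (nat_lit 684) (nat_lit 7820527826) (nat_lit 76) (nat_lit 275358793) (nat_lit 170) (nat_lit 5) (nat_lit 179) (nat_lit 5) (nat_lit 171) (nat_lit 5) (nat_lit 302) (nat_lit 278) (nat_lit 200)) (XT.lf (nat_lit 0) (nat_lit 4261064138) (nat_lit 684) (nat_lit 2320647859) (nat_lit 76) (nat_lit 4261660206) (nat_lit 170) (nat_lit 5) (nat_lit 179) (nat_lit 5) (nat_lit 171) (nat_lit 5) (nat_lit 303) (nat_lit 278) (nat_lit 199))))) (XT.nd (nat_lit 234) (nat_lit 1064) (nat_lit 0) (XT.nd (nat_lit 78) (nat_lit 532) (nat_lit 0) (XT.lf (nat_lit 0) (nat_lit 3384895372) (nat_lit 532) (nat_lit 2611900473) (nat_lit 608) (nat_lit 5016444550) (nat_lit 163) (nat_lit 5) (nat_lit 170) (nat_lit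 5) (nat_lit 171) (nat_lit 5) (nat_lit 304) (nat_lit 278) (nat_lit 198)) (XT.nd (nat_lit 78) (nat_lit 532) (nat_lit 0) (XT.lf (nat_lit 0) (nat_lit 7797143758) (nat_lit 608) (nat_lit 1918681001) (nat_lit 76) (nat_lit 1472031749) (nat_lit 163) (nat_lit 5) (nat_lit 171) (nat_lit 5) (nat_lit 164) (nat_lit 5) (nat_lit 305) (nat_lit 278) (nat_lit 197)) (XT.lf (nat_lit 0) (nat_lit 3989083641) (nat_lit 532) (nat_lit 5702042206) (nat_lit 608) (nat_lit 1675423927) (nat_lit 156) (nat_lit 5) (nat_lit 163) (nat_lit 5) (nat_lit 164) (nat_lit 5) (nat_lit 306) (nat_lit 278) (nat_lit 196)))) (XT.nd (nat_lit 156) (nat_lit 532) (nat_lit 0) (XT.nd (nat_lit 78) (nat_lit 456) (nat_lit 0) (XT.lf (nat_lit 0) (nat_lit 84737752) (nat_lit 608) (nat_lit 1463114328) (nat_lit 76) (nat_lit 10002895345) (nat_lit 155) (nat_lit 5) (nat_lit 163) (nat_lit 5) (nat_lit 156) (nat_lit 5) (nat_lit 307) (nat_lit 278) (nat_lit 195)) (XT.lf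 (nat_lit 0) (nat_lit 1912194909) (nat_lit 532) (nat_lit 7087526193) (nat_lit 76) (nat_lit 2738832363) (nat_lit 149) (nat_lit 5) (nat_lit 156) (nat_lit 5) (nat_lit 150) (nat_lit 5) (nat_lit 308) (nat_lit 278) (nat_lit 194))) (XT.nd (nat_lit 78) (nat_lit 532) (nat_lit 0) (XT.lf (nat_lit 0) (nat_lit 3801503370) (nat_lit 532) (nat_lit 993596479) (nat_lit 76) (nat_lit 7136707336) (nat_lit 149) (nat_lit 5) (nat_lit 156) (nat_lit 5) (nat_lit 150) (nat_lit 5) (nat_lit 309) (nat_lit 278) (nat_lit 193)) (XT.lf (nat_lit 0) (nat_lit 5363382849) (nat_lit 532) (nat_lit 413122076) (nat_lit 608) (nat_lit 6353506797) (nat_lit 142) (nat_lit 5) (nat_lit 149) (nat_lit 5) (nat_lit 150) (nat_lit 5) (nat_lit 310) (nat_lit 278) (nat_lit 192)))))) (XT.nd (nat_lit 546) (nat_lit 1140) (nat_lit 0) (XT.nd (nat_lit 234) (nat_lit 912) (nat_lit 0) (XT.nd (nat_lit 78) (nat_lit 912) (nat_lit 0) (XT.lf (nat_lit 0) (nat_lit 7838165873)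 (nat_lit 608) (nat_lit 466790458) (nat_lit 76) (nat_lit 4028406715) (nat_lit 142) (nat_lit 5) (nat_lit 150) (nat_lit 5) (nat_lit 143) (nat_lit 5) (nat_lit 311) (nat_lit 278) (nat_lit 191)) (XT.nd (nat_lit 78) (nat_lit 456) (nat_lit 0) (XT.lf (nat_lit 0) (nat_lit 6113111224) (nat_lit 456) (nat_lit 3889925399) (nat_lit 532) (nat_lit 2538559752) (nat_lit 136) (nat_lit 5) (nat_lit 142) (nat_lit 5) (nat_lit 143) (nat_lit 5) (nat_lit 312) (nat_lit 278) (nat_lit 190)) (XT.lf (nat_lit 0) (nat_lit 115406447) (nat_lit 456) (nat_lit 12108513724) (nat_lit 532) (nat_lit 532446148) (nat_lit 130) (nat_lit 5) (nat_lit 136) (nat_lit 5) (nat_lit 137) (nat_lit 5) (nat_lit 313) (nat_lit 278) (nat_lit 189)))) (XT.nd (nat_lit 156) (nat_lit 456) (nat_lit 0) (XT.nd (nat_lit 78) (nat_lit 380) (nat_lit 0) (XT.lf (nat_lit 0) (nat_lit 1587023895) (nat_lit 532) (nat_lit 6066859346) (nat_lit 76) (nat_lit 5320781046) (nat_lit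 129) (nat_lit 5) (nat_lit 136) (nat_lit 5) (nat_lit 130) (nat_lit 5) (nat_lit 314) (nat_lit 278) (nat_lit 188)) (XT.lf (nat_lit 0) (nat_lit 688631367) (nat_lit 380) (nat_lit 3057007350) (nat_lit 456) (nat_lit 9454146236) (nat_lit 124) (nat_lit 5) (nat_lit 129) (nat_lit 5) (nat_lit 130) (nat_lit 5) (nat_lit 315) (nat_lit 278) (nat_lit 187))) (XT.nd (nat_lit 78) (nat_lit 456) (nat_lit 0) (XT.lf (nat_lit 0) (nat_lit 6026980759) (nat_lit 456) (nat_lit 5699750453) (nat_lit 76) (nat_lit 1703208170) (nat_lit 124) (nat_lit 5) (nat_lit 130) (nat_lit 5) (nat_lit 125) (nat_lit 5) (nat_lit 316) (nat_lit 278) (nat_lit 186)) (XT.lf (nat_lit 0) (nat_lit 1287208338) (nat_lit 456) (nat_lit 7112749950) (nat_lit 532) (nat_lit 5266362944) (nat_lit 118) (nat_lit 5) (nat_lit 124) (nat_lit 5) (nat_lit 125) (nat_lit 5) (nat_lit 317) (nat_lit 278) (nat_lit 185))))) (XT.nd (nat_lit 234) (nat_lit 684) (nat_lit 0) (XT.nd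 (nat_lit 78) (nat_lit 456) (nat_lit 0) (XT.lf (nat_lit 0) (nat_lit 8577209820) (nat_lit 456) (nat_lit 2305367410) (nat_lit 532) (nat_lit 3026081847) (nat_lit 118) (nat_lit 5) (nat_lit 124) (nat_lit 5) (nat_lit 125) (nat_lit 5) (nat_lit 318) (nat_lit 278) (nat_lit 184)) (XT.nd (nat_lit 78) (nat_lit 76) (nat_lit 0) (XT.lf (nat_lit 0) (nat_lit 1916344292) (nat_lit 380) (nat_lit 11548600843) (nat_lit 456) (nat_lit 692581387) (nat_lit 113) (nat_lit 5) (nat_lit 118) (nat_lit 5) (nat_lit 119) (nat_lit 5) (nat_lit 319) (nat_lit 278) (nat_lit 183)) (XT.lf (nat_lit 0) (nat_lit 1736267937) (nat_lit 456) (nat_lit 4984602232) (nat_lit 76) (nat_lit 7690751090) (nat_lit 112) (nat_lit 5) (nat_lit 118) (nat_lit 5) (nat_lit 113) (nat_lit 5) (nat_lit 320) (nat_lit 278) (nat_lit 182)))) (XT.nd (nat_lit 156) (nat_lit 304) (nat_lit 0) (XT.nd (nat_lit 78) (nat_lit 0) (nat_lit 0) (XT.lf (nat_lit 0) (nat_lit 2509046834)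 (nat_lit 380) (nat_lit 1721206527) (nat_lit 456) (nat_lit 10442710118) (nat_lit 107) (nat_lit 5) (nat_lit 112) (nat_lit 5) (nat_lit 113) (nat_lit 5) (nat_lit 321) (nat_lit 278) (nat_lit 181)) (XT.lf (nat_lit 0) (nat_lit 6865178900) (nat_lit 456) (nat_lit 4667411855) (nat_lit 76) (nat_lit 3407587211) (nat_lit 107) (nat_lit 5) (nat_lit 113) (nat_lit 5) (nat_lit 108) (nat_lit 5) (nat_lit 322) (nat_lit 278) (nat_lit 180))) (XT.nd (nat_lit 78) (nat_lit 0) (nat_lit 0) (XT.lf (nat_lit 0) (nat_lit 3074607101) (nat_lit 304) (nat_lit 6533987532) (nat_lit 380) (nat_lit 5605946142) (nat_lit 103) (nat_lit 5) (nat_lit 107) (nat_lit 5) (nat_lit 108) (nat_lit 5) (nat_lit 323) (nat_lit 278) (nat_lit 179)) (XT.lf (nat_lit 0) (nat_lit 11122446985) (nat_lit 304) (nat_lit 1342130370) (nat_lit 380) (nat_lit 3031663896) (nat_lit 103) (nat_lit 5) (nat_lit 107) (nat_lit 5) (nat_lit 108) (nat_lit 5) (nat_lit 324) (nat_lit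 278) (nat_lit 178))))))))
noncomputable def xc150 : XT := (XT.nd (nat_lit 2106) (nat_lit 1976) (nat_lit 0) (XT.nd (nat_lit 1014) (nat_lit 1444) (nat_lit 0) (XT.nd (nat_lit 468) (nat_lit 1292) (nat_lit 0) (XT.nd (nat_lit 234) (nat_lit 304) (nat_lit 0) (XT.nd (nat_lit 78) (nat_lit 380) (nat_lit 0) (XT.lf (nat_lit 0) (nat_lit 3635845215) (nat_lit 380) (nat_lit 11827422556) (nat_lit 456) (nat_lit 321428416) (nat_lit 98) (nat_lit 5) (nat_lit 103) (nat_lit 5) (nat_lit 104) (nat_lit 5) (nat_lit 325) (nat_lit 278) (nat_lit 177)) (XT.nd (nat_lit 78) (nat_lit 304) (nat_lit 0) (XT.lf (nat_lit 0) (nat_lit 2463476964) (nat_lit 456) (nat_lit 4164570201) (nat_lit 76) (nat_lit 9451811837) (nat_lit 97) (nat_lit 5) (nat_lit 103) (nat_lit 5) (nat_lit 98) (nat_lit 5) (nat_lit 326) (nat_lit 278) (nat_lit 176)) (XT.lf (nat_lit 0) (nat_lit 4114943367) (nat_lit 304) (nat_lit 1234227895) (nat_lit 380) (nat_lit 11033911980)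 (nat_lit 93) (nat_lit 5) (nat_lit 97) (nat_lit 5) (nat_lit 98) (nat_lit 5) (nat_lit 327) (nat_lit 278) (nat_lit 175)))) (XT.nd (nat_lit 78) (nat_lit 304) (nat_lit 0) (XT.lf (nat_lit 0) (nat_lit 8389797622) (nat_lit 380) (nat_lit 4029514309) (nat_lit 76) (nat_lit 4274054138) (nat_lit 93) (nat_lit 5) (nat_lit 98) (nat_lit 5) (nat_lit 94) (nat_lit 5) (nat_lit 328) (nat_lit 278) (nat_lit 174)) (XT.nd (nat_lit 78) (nat_lit 0) (nat_lit 0) (XT.lf (nat_lit 0) (nat_lit 4511079988) (nat_lit 304) (nat_lit 7050952786) (nat_lit 380) (nat_lit 5449725233) (nat_lit 89) (nat_lit 5) (nat_lit 93) (nat_lit 5) (nat_lit 94) (nat_lit 5) (nat_lit 329) (nat_lit 278) (nat_lit 173)) (XT.lf (nat_lit 0) (nat_lit 13369701690) (nat_lit 304) (nat_lit 1485472814) (nat_lit 380) (nat_lit 2483766983) (nat_lit 89) (nat_lit 5) (nat_lit 93) (nat_lit 5) (nat_lit 94) (nat_lit 5) (nat_lit 330) (nat_lit 278) (nat_lit 172))))) (XT.nd (nat_lit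 234) (nat_lit 608) (nat_lit 0) (XT.nd (nat_lit 78) (nat_lit 304) (nat_lit 0) (XT.lf (nat_lit 0) (nat_lit 633624169) (nat_lit 380) (nat_lit 12828570407) (nat_lit 76) (nat_lit 4211384470) (nat_lit 84) (nat_lit 5) (nat_lit 89) (nat_lit 5) (nat_lit 85) (nat_lit 5) (nat_lit 331) (nat_lit 278) (nat_lit 171)) (XT.nd (nat_lit 78) (nat_lit 304) (nat_lit 0) (XT.lf (nat_lit 0) (nat_lit 3835307546) (nat_lit 380) (nat_lit 4072375654) (nat_lit 76) (nat_lit 10108624979) (nat_lit 84) (nat_lit 5) (nat_lit 89) (nat_lit 5) (nat_lit 85) (nat_lit 5) (nat_lit 332) (nat_lit 278) (nat_lit 170)) (XT.lf (nat_lit 0) (nat_lit 5024476621) (nat_lit 304) (nat_lit 2142791016) (nat_lit 380) (nat_lit 11201035396) (nat_lit 80) (nat_lit 5) (nat_lit 84) (nat_lit 5) (nat_lit 85) (nat_lit 5) (nat_lit 333) (nat_lit 278) (nat_lit 169)))) (XT.nd (nat_lit 156) (nat_lit 380) (nat_lit 0) (XT.nd (nat_lit 78) (nat_lit 228) (nat_lit 0) (XT.lf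 (nat_lit 0) (nat_lit 10663285787) (nat_lit 380) (nat_lit 4309042519) (nat_lit 76) (nat_lit 3756616774) (nat_lit 80) (nat_lit 5) (nat_lit 85) (nat_lit 5) (nat_lit 81) (nat_lit 5) (nat_lit 334) (nat_lit 278) (nat_lit 168)) (XT.lf (nat_lit 0) (nat_lit 5054546032) (nat_lit 228) (nat_lit 9265935534) (nat_lit 304) (nat_lit 4778245931) (nat_lit 77) (nat_lit 5) (nat_lit 80) (nat_lit 5) (nat_lit 81) (nat_lit 5) (nat_lit 335) (nat_lit 278) (nat_lit 167))) (XT.nd (nat_lit 78) (nat_lit 380) (nat_lit 0) (XT.lf (nat_lit 0) (nat_lit 14767910584) (nat_lit 228) (nat_lit 3349695752) (nat_lit 304) (nat_lit 1361100389) (nat_lit 77) (nat_lit 5) (nat_lit 80) (nat_lit 5) (nat_lit 81) (nat_lit 5) (nat_lit 336) (nat_lit 278) (nat_lit 166)) (XT.lf (nat_lit 0) (nat_lit 2178058023) (nat_lit 380) (nat_lit 14935975946) (nat_lit 76) (nat_lit 2753589458) (nat_lit 72) (nat_lit 5) (nat_lit 77) (nat_lit 5) (nat_lit 73) (nat_lit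 5) (nat_lit 337) (nat_lit 278) (nat_lit 165)))))) (XT.nd (nat_lit 546) (nat_lit 684) (nat_lit 0) (XT.nd (nat_lit 234) (nat_lit 532) (nat_lit 0) (XT.nd (nat_lit 78) (nat_lit 228) (nat_lit 0) (XT.lf (nat_lit 0) (nat_lit 5864329801) (nat_lit 380) (nat_lit 5373274455) (nat_lit 76) (nat_lit 9028159131) (nat_lit 72) (nat_lit 5) (nat_lit 77) (nat_lit 5) (nat_lit 73) (nat_lit 5) (nat_lit 338) (nat_lit 278) (nat_lit 164)) (XT.nd (nat_lit 78) (nat_lit 0) (nat_lit 0) (XT.lf (nat_lit 0) (nat_lit 4546272225) (nat_lit 228) (nat_lit 5146084384) (nat_lit 304) (nat_lit 10982564576) (nat_lit 69) (nat_lit 5) (nat_lit 72) (nat_lit 5) (nat_lit 73) (nat_lit 5) (nat_lit 339) (nat_lit 278) (nat_lit 163)) (XT.lf (nat_lit 0) (nat_lit 13688457921) (nat_lit 304) (nat_lit 6251440997) (nat_lit 76) (nat_lit 1154866182) (nat_lit 69) (nat_lit 5) (nat_lit 73) (nat_lit 5) (nat_lit 70) (nat_lit 5) (nat_lit 340) (nat_lit 278) (nat_lit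 162)))) (XT.nd (nat_lit 156) (nat_lit 228) (nat_lit 0) (XT.nd (nat_lit 78) (nat_lit 76) (nat_lit 0) (XT.lf (nat_lit 0) (nat_lit 3929474898) (nat_lit 228) (nat_lit 13951644786) (nat_lit 304) (nat_lit 3643792476) (nat_lit 66) (nat_lit 5) (nat_lit 69) (nat_lit 5) (nat_lit 70) (nat_lit 5) (nat_lit 341) (nat_lit 278) (nat_lit 161)) (XT.lf (nat_lit 0) (nat_lit 278835311) (nat_lit 304) (nat_lit 7443356254) (nat_lit 76) (nat_lit 14244160253) (nat_lit 65) (nat_lit 5) (nat_lit 69) (nat_lit 5) (nat_lit 66) (nat_lit 5) (nat_lit 342) (nat_lit 278) (nat_lit 160))) (XT.nd (nat_lit 78) (nat_lit 0) (nat_lit 0) (XT.lf (nat_lit 0) (nat_lit 3018240917) (nat_lit 228) (nat_lit 1245031580) (nat_lit 304) (nat_lit 18156166296) (nat_lit 62) (nat_lit 5) (nat_lit 65) (nat_lit 5) (nat_lit 66) (nat_lit 5) (nat_lit 343) (nat_lit 278) (nat_lit 159)) (XT.lf (nat_lit 0) (nat_lit 8483776011) (nat_lit 304) (nat_lit 9008484976) (nat_lit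 76) (nat_lit 5390368633) (nat_lit 62) (nat_lit 5) (nat_lit 66) (nat_lit 5) (nat_lit 63) (nat_lit 5) (nat_lit 344) (nat_lit 278) (nat_lit 158))))) (XT.nd (nat_lit 234) (nat_lit 304) (nat_lit 0) (XT.nd (nat_lit 78) (nat_lit 152) (nat_lit 0) (XT.lf (nat_lit 0) (nat_lit 1699384618) (nat_lit 228) (nat_lit 11148972026) (nat_lit 304) (nat_lit 10510842701) (nat_lit 59) (nat_lit 5) (nat_lit 62) (nat_lit 5) (nat_lit 63) (nat_lit 5) (nat_lit 345) (nat_lit 278) (nat_lit 157)) (XT.nd (nat_lit 78) (nat_lit 152) (nat_lit 0) (XT.lf (nat_lit 0) (nat_lit 12895867813) (nat_lit 228) (nat_lit 4527934410) (nat_lit 304) (nat_lit 6423872935) (nat_lit 59) (nat_lit 5) (nat_lit 62) (nat_lit 5) (nat_lit 63) (nat_lit 5) (nat_lit 346) (nat_lit 278) (nat_lit 156)) (XT.lf (nat_lit 0) (nat_lit 39120111) (nat_lit 152) (nat_lit 22109019419) (nat_lit 228) (nat_lit 2202323493) (nat_lit 57) (nat_lit 5) (nat_lit 59) (nat_lit 5) (nat_lit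 60) (nat_lit 5) (nat_lit 347) (nat_lit 278) (nat_lit 155)))) (XT.nd (nat_lit 156) (nat_lit 228) (nat_lit 0) (XT.nd (nat_lit 78) (nat_lit 0) (nat_lit 0) (XT.lf (nat_lit 0) (nat_lit 2249779335) (nat_lit 228) (nat_lit 13364400213) (nat_lit 76) (nat_lit 9249168978) (nat_lit 56) (nat_lit 5) (nat_lit 59) (nat_lit 5) (nat_lit 57) (nat_lit 5) (nat_lit 348) (nat_lit 278) (nat_lit 154)) (XT.lf (nat_lit 0) (nat_lit 6780756283) (nat_lit 228) (nat_lit 2127462873) (nat_lit 76) (nat_lit 16483066083) (nat_lit 56) (nat_lit 5) (nat_lit 59) (nat_lit 5) (nat_lit 57) (nat_lit 5) (nat_lit 349) (nat_lit 278) (nat_lit 153))) (XT.nd (nat_lit 78) (nat_lit 0) (nat_lit 0) (XT.lf (nat_lit 0) (nat_lit 9618142476) (nat_lit 228) (nat_lit 1911854711) (nat_lit 304) (nat_lit 14402598712) (nat_lit 53) (nat_lit 5) (nat_lit 56) (nat_lit 5) (nat_lit 57) (nat_lit 5) (nat_lit 350) (nat_lit 278) (nat_lit 152)) (XT.lf (nat_lit 0) (nat_lit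 16484267175) (nat_lit 304) (nat_lit 4797094396) (nat_lit 76) (nat_lit 5206913469) (nat_lit 53) (nat_lit 5) (nat_lit 57) (nat_lit 5) (nat_lit 54) (nat_lit 5) (nat_lit 351) (nat_lit 278) (nat_lit 151))))))) (XT.nd (nat_lit 1092) (nat_lit 760) (nat_lit 0) (XT.nd (nat_lit 546) (nat_lit 608) (nat_lit 0) (XT.nd (nat_lit 234) (nat_lit 152) (nat_lit 0) (XT.nd (nat_lit 78) (nat_lit 304) (nat_lit 0) (XT.lf (nat_lit 0) (nat_lit 7171047185) (nat_lit 152) (nat_lit 14494235093) (nat_lit 228) (nat_lit 5393004317) (nat_lit 51) (nat_lit 5) (nat_lit 53) (nat_lit 5) (nat_lit 54) (nat_lit 5) (nat_lit 352) (nat_lit 278) (nat_lit 150)) (XT.nd (nat_lit 78) (nat_lit 304) (nat_lit 0) (XT.lf (nat_lit 0) (nat_lit 19580981159) (nat_lit 152) (nat_lit 7459577183) (nat_lit 228) (nat_lit 603680627) (nat_lit 51) (nat_lit 5) (nat_lit 53) (nat_lit 5) (nat_lit 54) (nat_lit 5) (nat_lit 353) (nat_lit 278) (nat_lit 149)) (XT.lf (nat_lit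 0) (nat_lit 4139272961) (nat_lit 228) (nat_lit 135930026) (nat_lit 304) (nat_lit 23970412695) (nat_lit 47) (nat_lit 5) (nat_lit 50) (nat_lit 5) (nat_lit 51) (nat_lit 5) (nat_lit 354) (nat_lit 278) (nat_lit 148)))) (XT.nd (nat_lit 156) (nat_lit 0) (nat_lit 0) (XT.nd (nat_lit 78) (nat_lit 152) (nat_lit 0) (XT.lf (nat_lit 0) (nat_lit 9432397620) (nat_lit 304) (nat_lit 12082813863) (nat_lit 76) (nat_lit 7345325497) (nat_lit 47) (nat_lit 5) (nat_lit 51) (nat_lit 5) (nat_lit 48) (nat_lit 5) (nat_lit 355) (nat_lit 278) (nat_lit 147)) (XT.lf (nat_lit 0) (nat_lit 290794639) (nat_lit 152) (nat_lit 14448571009) (nat_lit 228) (nat_lit 14754693328) (nat_lit 45) (nat_lit 5) (nat_lit 47) (nat_lit 5) (nat_lit 48) (nat_lit 5) (nat_lit 356) (nat_lit 278) (nat_lit 146))) (XT.nd (nat_lit 78) (nat_lit 0) (nat_lit 0) (XT.lf (nat_lit 0) (nat_lit 13268489023) (nat_lit 152) (nat_lit 7050105069) (nat_lit 228) (nat_lit 9824605648)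 (nat_lit 45) (nat_lit 5) (nat_lit 47) (nat_lit 5) (nat_lit 48) (nat_lit 5) (nat_lit 357) (nat_lit 278) (nat_lit 145)) (XT.lf (nat_lit 0) (nat_lit 26061926694) (nat_lit 228) (nat_lit 4196370567) (nat_lit 76) (nat_lit 553620159) (nat_lit 45) (nat_lit 5) (nat_lit 48) (nat_lit 5) (nat_lit 46) (nat_lit 5) (nat_lit 358) (nat_lit 278) (nat_lit 144))))) (XT.nd (nat_lit 234) (nat_lit 228) (nat_lit 0) (XT.nd (nat_lit 78) (nat_lit 152) (nat_lit 0) (XT.lf (nat_lit 0) (nat_lit 616377502) (nat_lit 228) (nat_lit 22549262718) (nat_lit 76) (nat_lit 8330458541) (nat_lit 42) (nat_lit 5) (nat_lit 45) (nat_lit 5) (nat_lit 43) (nat_lit 5) (nat_lit 359) (nat_lit 278) (nat_lit 143)) (XT.nd (nat_lit 78) (nat_lit 152) (nat_lit 0) (XT.lf (nat_lit 0) (nat_lit 6082586974) (nat_lit 228) (nat_lit 9690820027) (nat_lit 76) (nat_lit 16424962173) (nat_lit 42) (nat_lit 5) (nat_lit 45) (nat_lit 5) (nat_lit 43) (nat_lit 5) (nat_lit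 360) (nat_lit 278) (nat_lit 142)) (XT.lf (nat_lit 0) (nat_lit 3610037372) (nat_lit 152) (nat_lit 8129219709) (nat_lit 228) (nat_lit 21181660397) (nat_lit 40) (nat_lit 5) (nat_lit 42) (nat_lit 5) (nat_lit 43) (nat_lit 5) (nat_lit 361) (nat_lit 278) (nat_lit 141)))) (XT.nd (nat_lit 156) (nat_lit 228) (nat_lit 0) (XT.nd (nat_lit 78) (nat_lit 0) (nat_lit 0) (XT.lf (nat_lit 0) (nat_lit 17494924531) (nat_lit 152) (nat_lit 160441946) (nat_lit 228) (nat_lit 16007087471) (nat_lit 40) (nat_lit 5) (nat_lit 42) (nat_lit 5) (nat_lit 43) (nat_lit 5) (nat_lit 362) (nat_lit 278) (nat_lit 140)) (XT.lf (nat_lit 0) (nat_lit 23818381460) (nat_lit 228) (nat_lit 2720674137) (nat_lit 76) (nat_lit 7885102025) (nat_lit 40) (nat_lit 5) (nat_lit 43) (nat_lit 5) (nat_lit 41) (nat_lit 5) (nat_lit 363) (nat_lit 278) (nat_lit 139))) (XT.nd (nat_lit 78) (nat_lit 76) (nat_lit 0) (XT.lf (nat_lit 0) (nat_lit 11336159605) (nat_lit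 152) (nat_lit 18932982796) (nat_lit 228) (nat_lit 4936488008) (nat_lit 38) (nat_lit 5) (nat_lit 40) (nat_lit 5) (nat_lit 41) (nat_lit 5) (nat_lit 364) (nat_lit 278) (nat_lit 138)) (XT.lf (nat_lit 0) (nat_lit 905324134) (nat_lit 228) (nat_lit 10161281088) (nat_lit 76) (nat_lit 24943083333) (nat_lit 37) (nat_lit 5) (nat_lit 40) (nat_lit 5) (nat_lit 38) (nat_lit 5) (nat_lit 365) (nat_lit 278) (nat_lit 137)))))) (XT.nd (nat_lit 546) (nat_lit 304) (nat_lit 0) (XT.nd (nat_lit 234) (nat_lit 304) (nat_lit 0) (XT.nd (nat_lit 78) (nat_lit 0) (nat_lit 0) (XT.lf (nat_lit 0) (nat_lit 3974132317) (nat_lit 152) (nat_lit 2879783607) (nat_lit 228) (nat_lit 29981567282) (nat_lit 35) (nat_lit 5) (nat_lit 37) (nat_lit 5) (nat_lit 38) (nat_lit 5) (nat_lit 366) (nat_lit 278) (nat_lit 136)) (XT.nd (nat_lit 78) (nat_lit 0) (nat_lit 0) (XT.lf (nat_lit 0) (nat_lit 13130554131) (nat_lit 228) (nat_lit 19008205413) (nat_lit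 76) (nat_lit 5542807751) (nat_lit 35) (nat_lit 5) (nat_lit 38) (nat_lit 5) (nat_lit 36) (nat_lit 5) (nat_lit 367) (nat_lit 278) (nat_lit 135)) (XT.lf (nat_lit 0) (nat_lit 19616808386) (nat_lit 228) (nat_lit 4780352152) (nat_lit 76) (nat_lit 14155237028) (nat_lit 35) (nat_lit 5) (nat_lit 38) (nat_lit 5) (nat_lit 36) (nat_lit 5) (nat_lit 368) (nat_lit 278) (nat_lit 134)))) (XT.nd (nat_lit 156) (nat_lit 152) (nat_lit 0) (XT.nd (nat_lit 78) (nat_lit 0) (nat_lit 0) (XT.lf (nat_lit 0) (nat_lit 10058602812) (nat_lit 152) (nat_lit 16328750679) (nat_lit 228) (nat_lit 13059311229) (nat_lit 33) (nat_lit 5) (nat_lit 35) (nat_lit 5) (nat_lit 36) (nat_lit 5) (nat_lit 369) (nat_lit 278) (nat_lit 133)) (XT.lf (nat_lit 0) (nat_lit 25428823272) (nat_lit 152) (nat_lit 7973566774) (nat_lit 228) (nat_lit 6964131572) (nat_lit 33) (nat_lit 5) (nat_lit 35) (nat_lit 5) (nat_lit 36) (nat_lit 5) (nat_lit 370) (nat_lit 278)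 (nat_lit 132))) (XT.nd (nat_lit 78) (nat_lit 152) (nat_lit 0) (XT.lf (nat_lit 0) (nat_lit 40627212638) (nat_lit 228) (nat_lit 71608012) (nat_lit 76) (nat_lit 615176421) (nat_lit 33) (nat_lit 5) (nat_lit 36) (nat_lit 5) (nat_lit 34) (nat_lit 4) (nat_lit 371) (nat_lit 278) (nat_lit 131)) (XT.lf (nat_lit 0) (nat_lit 5889231633) (nat_lit 152) (nat_lit 26889338042) (nat_lit 76) (nat_lit 9502969879) (nat_lit 31) (nat_lit 5) (nat_lit 33) (nat_lit 5) (nat_lit 32) (nat_lit 5) (nat_lit 372) (nat_lit 278) (nat_lit 130))))) (XT.nd (nat_lit 234) (nat_lit 152) (nat_lit 0) (XT.nd (nat_lit 78) (nat_lit 152) (nat_lit 0) (XT.lf (nat_lit 0) (nat_lit 12642924116) (nat_lit 152) (nat_lit 11974886984) (nat_lit 76) (nat_lit 18660269878) (nat_lit 31) (nat_lit 5) (nat_lit 33) (nat_lit 5) (nat_lit 32) (nat_lit 5) (nat_lit 373) (nat_lit 278) (nat_lit 129)) (XT.nd (nat_lit 78) (nat_lit 0) (nat_lit 0) (XT.lf (nat_lit 0) (nat_lit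 3443130553) (nat_lit 152) (nat_lit 16182853869) (nat_lit 228) (nat_lit 24677734083) (nat_lit 29) (nat_lit 5) (nat_lit 31) (nat_lit 5) (nat_lit 32) (nat_lit 5) (nat_lit 374) (nat_lit 278) (nat_lit 128)) (XT.lf (nat_lit 0) (nat_lit 19558215512) (nat_lit 152) (nat_lit 7374982925) (nat_lit 228) (nat_lit 18423489363) (nat_lit 29) (nat_lit 5) (nat_lit 31) (nat_lit 5) (nat_lit 32) (nat_lit 5) (nat_lit 375) (nat_lit 278) (nat_lit 127)))) (XT.nd (nat_lit 156) (nat_lit 76) (nat_lit 0) (XT.nd (nat_lit 78) (nat_lit 76) (nat_lit 0) (XT.lf (nat_lit 0) (nat_lit 34469820320) (nat_lit 228) (nat_lit 10311575723) (nat_lit 76) (nat_lit 1659546814) (nat_lit 29) (nat_lit 5) (nat_lit 32) (nat_lit 5) (nat_lit 30) (nat_lit 4) (nat_lit 376) (nat_lit 278) (nat_lit 126)) (XT.lf (nat_lit 0) (nat_lit 5667037296) (nat_lit 76) (nat_lit 36687054195) (nat_lit 152) (nat_lit 5199989909) (nat_lit 28) (nat_lit 5) (nat_lit 29) (nat_lit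 5) (nat_lit 30) (nat_lit 4) (nat_lit 377) (nat_lit 278) (nat_lit 125))) (XT.nd (nat_lit 78) (nat_lit 0) (nat_lit 0) (XT.lf (nat_lit 0) (nat_lit 1838881039) (nat_lit 152) (nat_lit 26389663663) (nat_lit 76) (nat_lit 20468583150) (nat_lit 27) (nat_lit 5) (nat_lit 29) (nat_lit 5) (nat_lit 28) (nat_lit 5) (nat_lit 378) (nat_lit 278) (nat_lit 124)) (XT.lf (nat_lit 0) (nat_lit 8978645427) (nat_lit 152) (nat_lit 10489014692) (nat_lit 76) (nat_lit 30405435921) (nat_lit 27) (nat_lit 5) (nat_lit 29) (nat_lit 5) (nat_lit 28) (nat_lit 5) (nat_lit 379) (nat_lit 278) (nat_lit 123))))))))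
noncomputable def xc151 : XT := (XT.nd (nat_lit 2184) (nat_lit 0) (nat_lit 0) (XT.nd (nat_lit 1092) (nat_lit 456) (nat_lit 0) (XT.nd (nat_lit 546) (nat_lit 304) (nat_lit 0) (XT.nd (nat_lit 234) (nat_lit 152) (nat_lit 0) (XT.nd (nat_lit 78) (nat_lit 0) (nat_lit 0) (XT.lf (nat_lit 0) (nat_lit 5995781350) (nat_lit 152) (nat_lit 10388866184) (nat_lit 228) (nat_lit 34698136490) (nat_lit 25) (nat_lit 5) (nat_lit 27) (nat_lit 5) (nat_lit 28) (nat_lit 5) (nat_lit 380) (nat_lit 278) (nat_lit 122)) (XT.nd (nat_lit 78) (nat_lit 0) (nat_lit 0) (XT.lf (nat_lit 0) (nat_lit 23180360887) (nat_lit 152) (nat_lit 932865830) (nat_lit 228) (nat_lit 28212526049) (nat_lit 25) (nat_lit 5) (nat_lit 27) (nat_lit 5) (nat_lit 28) (nat_lit 5) (nat_lit 381) (nat_lit 278) (nat_lit 121)) (XT.lf (nat_lit 0) (nat_lit 32152919422) (nat_lit 228) (nat_lit 12819802547) (nat_lit 76) (nat_lit 8630912892) (nat_lit 25) (nat_lit 5) (nat_lit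 28) (nat_lit 5) (nat_lit 26) (nat_lit 4) (nat_lit 382) (nat_lit 278) (nat_lit 120)))) (XT.nd (nat_lit 156) (nat_lit 76) (nat_lit 0) (XT.nd (nat_lit 78) (nat_lit 0) (nat_lit 0) (XT.lf (nat_lit 0) (nat_lit 4056134672) (nat_lit 76) (nat_lit 36420651525) (nat_lit 152) (nat_lit 14441779636) (nat_lit 24) (nat_lit 5) (nat_lit 25) (nat_lit 5) (nat_lit 26) (nat_lit 4) (nat_lit 383) (nat_lit 278) (nat_lit 119)) (XT.lf (nat_lit 0) (nat_lit 21691901599) (nat_lit 76) (nat_lit 27482743066) (nat_lit 152) (nat_lit 7094573659) (nat_lit 24) (nat_lit 5) (nat_lit 25) (nat_lit 5) (nat_lit 26) (nat_lit 4) (nat_lit 384) (nat_lit 278) (nat_lit 118))) (XT.nd (nat_lit 78) (nat_lit 0) (nat_lit 0) (XT.lf (nat_lit 0) (nat_lit 458737731) (nat_lit 152) (nat_lit 17817271554) (nat_lit 76) (nat_lit 39384398836) (nat_lit 23) (nat_lit 5) (nat_lit 25) (nat_lit 5) (nat_lit 24) (nat_lit 5) (nat_lit 385) (nat_lit 278) (nat_lit 117))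 (XT.lf (nat_lit 0) (nat_lit 8091122629) (nat_lit 152) (nat_lit 633479463) (nat_lit 76) (nat_lit 50366773878) (nat_lit 23) (nat_lit 5) (nat_lit 25) (nat_lit 5) (nat_lit 24) (nat_lit 5) (nat_lit 386) (nat_lit 278) (nat_lit 116))))) (XT.nd (nat_lit 234) (nat_lit 152) (nat_lit 0) (XT.nd (nat_lit 78) (nat_lit 0) (nat_lit 0) (XT.lf (nat_lit 0) (nat_lit 16127240648) (nat_lit 228) (nat_lit 43175977962) (nat_lit 76) (nat_lit 1256813051) (nat_lit 21) (nat_lit 5) (nat_lit 24) (nat_lit 5) (nat_lit 22) (nat_lit 4) (nat_lit 387) (nat_lit 278) (nat_lit 115)) (XT.nd (nat_lit 78) (nat_lit 0) (nat_lit 0) (XT.lf (nat_lit 0) (nat_lit 24492518448) (nat_lit 228) (nat_lit 26212480270) (nat_lit 76) (nat_lit 11365107621) (nat_lit 21) (nat_lit 5) (nat_lit 24) (nat_lit 5) (nat_lit 22) (nat_lit 4) (nat_lit 388) (nat_lit 278) (nat_lit 114)) (XT.lf (nat_lit 0) (nat_lit 33104127209) (nat_lit 228) (nat_lit 8748405983) (nat_lit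 76) (nat_lit 21773090444) (nat_lit 21) (nat_lit 5) (nat_lit 24) (nat_lit 5) (nat_lit 22) (nat_lit 4) (nat_lit 389) (nat_lit 278) (nat_lit 113)))) (XT.nd (nat_lit 156) (nat_lit 76) (nat_lit 0) (XT.nd (nat_lit 78) (nat_lit 0) (nat_lit 0) (XT.lf (nat_lit 0) (nat_lit 9415229815) (nat_lit 76) (nat_lit 32644866770) (nat_lit 152) (nat_lit 23165131007) (nat_lit 20) (nat_lit 5) (nat_lit 21) (nat_lit 5) (nat_lit 22) (nat_lit 4) (nat_lit 390) (nat_lit 278) (nat_lit 112)) (XT.lf (nat_lit 0) (nat_lit 28295101943) (nat_lit 76) (nat_lit 23073546140) (nat_lit 152) (nat_lit 15501655960) (nat_lit 20) (nat_lit 5) (nat_lit 21) (nat_lit 5) (nat_lit 22) (nat_lit 4) (nat_lit 391) (nat_lit 278) (nat_lit 111))) (XT.nd (nat_lit 78) (nat_lit 76) (nat_lit 0) (XT.lf (nat_lit 0) (nat_lit 47733596943) (nat_lit 76) (nat_lit 13218549760) (nat_lit 152) (nat_lit 7612716792) (nat_lit 20) (nat_lit 5) (nat_lit 21) (nat_lit 5) (nat_lit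 22) (nat_lit 4) (nat_lit 392) (nat_lit 278) (nat_lit 110)) (XT.lf (nat_lit 0) (nat_lit 498655519) (nat_lit 152) (nat_lit 2567575504) (nat_lit 76) (nat_lit 67244008944) (nat_lit 19) (nat_lit 5) (nat_lit 21) (nat_lit 5) (nat_lit 20) (nat_lit 5) (nat_lit 393) (nat_lit 278) (nat_lit 109)))))) (XT.nd (nat_lit 546) (nat_lit 228) (nat_lit 0) (XT.nd (nat_lit 234) (nat_lit 76) (nat_lit 0) (XT.nd (nat_lit 78) (nat_lit 0) (nat_lit 0) (XT.lf (nat_lit 0) (nat_lit 8928027663) (nat_lit 228) (nat_lit 55691531176) (nat_lit 76) (nat_lit 7479328995) (nat_lit 17) (nat_lit 5) (nat_lit 20) (nat_lit 5) (nat_lit 18) (nat_lit 4) (nat_lit 394) (nat_lit 278) (nat_lit 108)) (XT.nd (nat_lit 78) (nat_lit 0) (nat_lit 0) (XT.lf (nat_lit 0) (nat_lit 17662737732) (nat_lit 228) (nat_lit 37974291921) (nat_lit 76) (nat_lit 18302593044) (nat_lit 17) (nat_lit 5) (nat_lit 20) (nat_lit 5) (nat_lit 18) (nat_lit 4) (nat_lit 395) (nat_lit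 278) (nat_lit 107)) (XT.lf (nat_lit 0) (nat_lit 26655521972) (nat_lit 228) (nat_lit 19732747864) (nat_lit 76) (nat_lit 29447430015) (nat_lit 17) (nat_lit 5) (nat_lit 20) (nat_lit 5) (nat_lit 18) (nat_lit 4) (nat_lit 396) (nat_lit 278) (nat_lit 106)))) (XT.nd (nat_lit 156) (nat_lit 0) (nat_lit 0) (XT.nd (nat_lit 78) (nat_lit 76) (nat_lit 0) (XT.lf (nat_lit 0) (nat_lit 35914238154) (nat_lit 228) (nat_lit 950959791) (nat_lit 76) (nat_lit 40923578116) (nat_lit 17) (nat_lit 5) (nat_lit 20) (nat_lit 5) (nat_lit 18) (nat_lit 4) (nat_lit 397) (nat_lit 278) (nat_lit 105)) (XT.lf (nat_lit 0) (nat_lit 18753430546) (nat_lit 76) (nat_lit 26873815319) (nat_lit 152) (nat_lit 34167903948) (nat_lit 16) (nat_lit 5) (nat_lit 17) (nat_lit 5) (nat_lit 18) (nat_lit 4) (nat_lit 398) (nat_lit 278) (nat_lit 104))) (XT.nd (nat_lit 78) (nat_lit 0) (nat_lit 0) (XT.lf (nat_lit 0) (nat_lit 39061714632) (nat_lit 76) (nat_lit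 16575836807) (nat_lit 152) (nat_lit 26223987235) (nat_lit 16) (nat_lit 5) (nat_lit 17) (nat_lit 5) (nat_lit 18) (nat_lit 4) (nat_lit 399) (nat_lit 278) (nat_lit 103)) (XT.lf (nat_lit 0) (nat_lit 59972711606) (nat_lit 76) (nat_lit 5971867004) (nat_lit 152) (nat_lit 18045449309) (nat_lit 16) (nat_lit 5) (nat_lit 17) (nat_lit 5) (nat_lit 18) (nat_lit 4) (nat_lit 400) (nat_lit 278) (nat_lit 102))))) (XT.nd (nat_lit 234) (nat_lit 76) (nat_lit 0) (XT.nd (nat_lit 78) (nat_lit 152) (nat_lit 0) (XT.lf (nat_lit 0) (nat_lit 76604890567) (nat_lit 152) (nat_lit 4725341231) (nat_lit 0) (nat_lit 4850818885) (nat_lit 16) (nat_lit 5) (nat_lit 18) (nat_lit 4) (nat_lit 16) (nat_lit 4) (nat_lit 401) (nat_lit 278) (nat_lit 101)) (XT.nd (nat_lit 78) (nat_lit 76) (nat_lit 0) (XT.lf (nat_lit 0) (nat_lit 15380151632) (nat_lit 76) (nat_lit 72408422730) (nat_lit 76) (nat_lit 643123922) (nat_lit 15) (nat_lit 4) (nat_lit 16)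 (nat_lit 5) (nat_lit 16) (nat_lit 4) (nat_lit 402) (nat_lit 278) (nat_lit 100)) (XT.lf (nat_lit 0) (nat_lit 8435694204) (nat_lit 152) (nat_lit 54651739696) (nat_lit 76) (nat_lit 27658620881) (nat_lit 14) (nat_lit 5) (nat_lit 16) (nat_lit 5) (nat_lit 15) (nat_lit 4) (nat_lit 403) (nat_lit 278) (nat_lit 99)))) (XT.nd (nat_lit 156) (nat_lit 76) (nat_lit 0) (XT.nd (nat_lit 78) (nat_lit 0) (nat_lit 0) (XT.lf (nat_lit 0) (nat_lit 17770647071) (nat_lit 152) (nat_lit 35712368017) (nat_lit 76) (nat_lit 39646735906) (nat_lit 14) (nat_lit 5) (nat_lit 16) (nat_lit 5) (nat_lit 15) (nat_lit 4) (nat_lit 404) (nat_lit 278) (nat_lit 98)) (XT.lf (nat_lit 0) (nat_lit 27382441099) (nat_lit 152) (nat_lit 16210700552) (nat_lit 76) (nat_lit 51991913581) (nat_lit 14) (nat_lit 5) (nat_lit 16) (nat_lit 5) (nat_lit 15) (nat_lit 4) (nat_lit 405) (nat_lit 278) (nat_lit 97))) (XT.nd (nat_lit 78) (nat_lit 0) (nat_lit 0) (XT.lf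 (nat_lit 0) (nat_lit 3947329610) (nat_lit 76) (nat_lit 33370089478) (nat_lit 152) (nat_lit 60795555493) (nat_lit 13) (nat_lit 5) (nat_lit 14) (nat_lit 5) (nat_lit 15) (nat_lit 4) (nat_lit 406) (nat_lit 278) (nat_lit 96)) (XT.lf (nat_lit 0) (nat_lit 25036746221) (nat_lit 76) (nat_lit 22674318793) (nat_lit 152) (nat_lit 53000848801) (nat_lit 13) (nat_lit 5) (nat_lit 14) (nat_lit 5) (nat_lit 15) (nat_lit 4) (nat_lit 407) (nat_lit 278) (nat_lit 95))))))) (XT.nd (nat_lit 31512) (nat_lit 0) (nat_lit 11932) (XT.nd (nat_lit 30966) (nat_lit 0) (nat_lit 16340) (XT.nd (nat_lit 30654) (nat_lit 0) (nat_lit 17100) (XT.nd (nat_lit 78) (nat_lit 0) (nat_lit 0) (XT.lf (nat_lit 0) (nat_lit 46753352199) (nat_lit 76) (nat_lit 11660180066) (nat_lit 152) (nat_lit 44975379439) (nat_lit 13) (nat_lit 5) (nat_lit 14) (nat_lit 5) (nat_lit 15) (nat_lit 4) (nat_lit 408) (nat_lit 278) (nat_lit 94)) (XT.nd (nat_lit 30498) (nat_lit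 0) (nat_lit 17100) (XT.lf (nat_lit 0) (nat_lit 69116123218) (nat_lit 76) (nat_lit 318049293) (nat_lit 152) (nat_lit 36712134861) (nat_lit 13) (nat_lit 5) (nat_lit 14) (nat_lit 5) (nat_lit 15) (nat_lit 4) (nat_lit 409) (nat_lit 278) (nat_lit 93)) (XT.lf (nat_lit 0) (nat_lit 26961073) (nat_lit 988) (nat_lit 1987614291) (nat_lit 988) (nat_lit 1987614291) (nat_lit 238) (nat_lit 3) (nat_lit 251) (nat_lit 3) (nat_lit 251) (nat_lit 5) (nat_lit 279) (nat_lit 279) (nat_lit 222)))) (XT.nd (nat_lit 156) (nat_lit 0) (nat_lit 76) (XT.nd (nat_lit 78) (nat_lit 0) (nat_lit 76) (XT.lf (nat_lit 0) (nat_lit 1206075223) (nat_lit 988) (nat_lit 304928665) (nat_lit 988) (nat_lit 6577342309) (nat_lit 238) (nat_lit 3) (nat_lit 251) (nat_lit 3) (nat_lit 251) (nat_lit 5) (nat_lit 280) (nat_lit 279) (nat_lit 221)) (XT.lf (nat_lit 0) (nat_lit 2392657071) (nat_lit 912) (nat_lit 4665160620) (nat_lit 988) (nat_lit 1117079295)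 (nat_lit 239) (nat_lit 5) (nat_lit 251) (nat_lit 5) (nat_lit 252) (nat_lit 5) (nat_lit 281) (nat_lit 279) (nat_lit 220))) (XT.nd (nat_lit 78) (nat_lit 0) (nat_lit 0) (XT.lf (nat_lit 0) (nat_lit 3589261845) (nat_lit 912) (nat_lit 858370214) (nat_lit 988) (nat_lit 3817238527) (nat_lit 239) (nat_lit 5) (nat_lit 251) (nat_lit 5) (nat_lit 252) (nat_lit 5) (nat_lit 282) (nat_lit 279) (nat_lit 219)) (XT.lf (nat_lit 76) (nat_lit 3099297054) (nat_lit 0) (nat_lit 1709886617) (nat_lit 988) (nat_lit 3548794486) (nat_lit 240) (nat_lit 5) (nat_lit 239) (nat_lit 5) (nat_lit 252) (nat_lit 5) (nat_lit 283) (nat_lit 279) (nat_lit 218))))) (XT.nd (nat_lit 234) (nat_lit 912) (nat_lit 0) (XT.nd (nat_lit 78) (nat_lit 0) (nat_lit 0) (XT.lf (nat_lit 0) (nat_lit 6043931952) (nat_lit 912) (nat_lit 1296124163) (nat_lit 988) (nat_lit 1114531641) (nat_lit 240) (nat_lit 5) (nat_lit 252) (nat_lit 5) (nat_lit 253) (nat_lit 5)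 (nat_lit 284) (nat_lit 279) (nat_lit 217)) (XT.nd (nat_lit 78) (nat_lit 0) (nat_lit 0) (XT.lf (nat_lit 76) (nat_lit 2798681995) (nat_lit 0) (nat_lit 4520877953) (nat_lit 988) (nat_lit 1234474614) (nat_lit 241) (nat_lit 5) (nat_lit 240) (nat_lit 5) (nat_lit 253) (nat_lit 5) (nat_lit 285) (nat_lit 279) (nat_lit 216)) (XT.lf (nat_lit 76) (nat_lit 7018829662) (nat_lit 0) (nat_lit 1588653998) (nat_lit 988) (nat_lit 49812775) (nat_lit 241) (nat_lit 5) (nat_lit 240) (nat_lit 5) (nat_lit 253) (nat_lit 5) (nat_lit 286) (nat_lit 279) (nat_lit 215)))) (XT.nd (nat_lit 156) (nat_lit 0) (nat_lit 0) (XT.nd (nat_lit 78) (nat_lit 0) (nat_lit 0) (XT.lf (nat_lit 0) (nat_lit 1148620437) (nat_lit 988) (nat_lit 6160451407) (nat_lit 1064) (nat_lit 1454264158) (nat_lit 228) (nat_lit 5) (nat_lit 241) (nat_lit 5) (nat_lit 242) (nat_lit 5) (nat_lit 287) (nat_lit 279) (nat_lit 214)) (XT.lf (nat_lit 0) (nat_lit 2377111372)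 (nat_lit 988) (nat_lit 1908631407) (nat_lit 1064) (nat_lit 4586994018) (nat_lit 228) (nat_lit 5) (nat_lit 241) (nat_lit 5) (nat_lit 242) (nat_lit 5) (nat_lit 288) (nat_lit 279) (nat_lit 213))) (XT.nd (nat_lit 78) (nat_lit 0) (nat_lit 76) (XT.lf (nat_lit 76) (nat_lit 2494915138) (nat_lit 0) (nat_lit 1135279449) (nat_lit 1064) (nat_lit 5355639519) (nat_lit 229) (nat_lit 5) (nat_lit 228) (nat_lit 5) (nat_lit 242) (nat_lit 5) (nat_lit 289) (nat_lit 279) (nat_lit 212)) (XT.lf (nat_lit 0) (nat_lit 4925298711) (nat_lit 988) (nat_lit 2078011146) (nat_lit 1064) (nat_lit 2098926882) (nat_lit 229) (nat_lit 5) (nat_lit 242) (nat_lit 5) (nat_lit 243) (nat_lit 5) (nat_lit 290) (nat_lit 279) (nat_lit 211)))))) (XT.nd (nat_lit 546) (nat_lit 2508) (nat_lit 0) (XT.nd (nat_lit 234) (nat_lit 1976) (nat_lit 0) (XT.nd (nat_lit 78) (nat_lit 0) (nat_lit 0) (XT.lf (nat_lit 76) (nat_lit 2479685844) (nat_lit 0) (nat_lit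 3780359814) (nat_lit 1064) (nat_lit 2962106042) (nat_lit 230) (nat_lit 5) (nat_lit 229) (nat_lit 5) (nat_lit 243) (nat_lit 5) (nat_lit 291) (nat_lit 279) (nat_lit 210)) (XT.nd (nat_lit 78) (nat_lit 0) (nat_lit 76) (XT.lf (nat_lit 76) (nat_lit 7192208259) (nat_lit 0) (nat_lit 430086761) (nat_lit 1064) (nat_lit 1723787950) (nat_lit 230) (nat_lit 5) (nat_lit 229) (nat_lit 5) (nat_lit 243) (nat_lit 5) (nat_lit 292) (nat_lit 279) (nat_lit 209)) (XT.lf (nat_lit 76) (nat_lit 2568568387) (nat_lit 0) (nat_lit 6478107670) (nat_lit 1064) (nat_lit 426459612) (nat_lit 231) (nat_lit 5) (nat_lit 230) (nat_lit 5) (nat_lit 244) (nat_lit 5) (nat_lit 293) (nat_lit 279) (nat_lit 208)))) (XT.nd (nat_lit 156) (nat_lit 988) (nat_lit 0) (XT.nd (nat_lit 78) (nat_lit 0) (nat_lit 76) (XT.lf (nat_lit 0) (nat_lit 886150426) (nat_lit 1064) (nat_lit 2165054497) (nat_lit 1140) (nat_lit 6552748251) (nat_lit 216) (nat_lit 5) (nat_lit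 230) (nat_lit 5) (nat_lit 231) (nat_lit 5) (nat_lit 294) (nat_lit 279) (nat_lit 207)) (XT.lf (nat_lit 0) (nat_lit 2229711119) (nat_lit 1064) (nat_lit 7002389774) (nat_lit 76) (nat_lit 506501229) (nat_lit 217) (nat_lit 5) (nat_lit 231) (nat_lit 5) (nat_lit 218) (nat_lit 5) (nat_lit 295) (nat_lit 279) (nat_lit 206))) (XT.nd (nat_lit 78) (nat_lit 1064) (nat_lit 0) (XT.lf (nat_lit 0) (nat_lit 3635427680) (nat_lit 1064) (nat_lit 2103519689) (nat_lit 76) (nat_lit 4137724496) (nat_lit 217) (nat_lit 5) (nat_lit 231) (nat_lit 5) (nat_lit 218) (nat_lit 5) (nat_lit 296) (nat_lit 279) (nat_lit 205)) (XT.lf (nat_lit 0) (nat_lit 2975765650) (nat_lit 1064) (nat_lit 2106601405) (nat_lit 1140) (nat_lit 4936580834) (nat_lit 203) (nat_lit 5) (nat_lit 217) (nat_lit 5) (nat_lit 218) (nat_lit 5) (nat_lit 297) (nat_lit 279) (nat_lit 204))))) (XT.nd (nat_lit 234) (nat_lit 1368) (nat_lit 0) (XT.nd (nat_lit 78) (nat_lit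 1140) (nat_lit 0) (XT.lf (nat_lit 0) (nat_lit 6580996852) (nat_lit 1140) (nat_lit 1955553129) (nat_lit 76) (nat_lit 1628728432) (nat_lit 203) (nat_lit 5) (nat_lit 218) (nat_lit 5) (nat_lit 204) (nat_lit 5) (nat_lit 298) (nat_lit 279) (nat_lit 203)) (XT.nd (nat_lit 78) (nat_lit 0) (nat_lit 0) (XT.lf (nat_lit 0) (nat_lit 3303729021) (nat_lit 1140) (nat_lit 4845429313) (nat_lit 1216) (nat_lit 2166137012) (nat_lit 188) (nat_lit 5) (nat_lit 203) (nat_lit 5) (nat_lit 204) (nat_lit 5) (nat_lit 299) (nat_lit 279) (nat_lit 202)) (XT.lf (nat_lit 0) (nat_lit 8736531552) (nat_lit 1140) (nat_lit 1020120990) (nat_lit 1216) (nat_lit 713424303) (nat_lit 188) (nat_lit 5) (nat_lit 203) (nat_lit 5) (nat_lit 204) (nat_lit 5) (nat_lit 300) (nat_lit 279) (nat_lit 201)))) (XT.nd (nat_lit 156) (nat_lit 608) (nat_lit 0) (XT.nd (nat_lit 78) (nat_lit 0) (nat_lit 0) (XT.lf (nat_lit 0) (nat_lit 805155188) (nat_lit 760) (nat_lit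 6913411778) (nat_lit 76) (nat_lit 2909613017) (nat_lit 178) (nat_lit 5) (nat_lit 188) (nat_lit 5) (nat_lit 179) (nat_lit 5) (nat_lit 301) (nat_lit 279) (nat_lit 200)) (XT.lf (nat_lit 0) (nat_lit 2356355326) (nat_lit 760) (nat_lit 1470582330) (nat_lit 76) (nat_lit 6963864502) (nat_lit 178) (nat_lit 5) (nat_lit 188) (nat_lit 5) (nat_lit 179) (nat_lit 5) (nat_lit 302) (nat_lit 279) (nat_lit 199))) (XT.nd (nat_lit 78) (nat_lit 0) (nat_lit 0) (XT.lf (nat_lit 0) (nat_lit 3970949251) (nat_lit 684) (nat_lit 6766779652) (nat_lit 76) (nat_lit 220097412) (nat_lit 170) (nat_lit 5) (nat_lit 179) (nat_lit 5) (nat_lit 171) (nat_lit 5) (nat_lit 303) (nat_lit 279) (nat_lit 198)) (XT.lf (nat_lit 0) (nat_lit 5661788691) (nat_lit 684) (nat_lit 1139428451) (nat_lit 76) (nat_lit 4327838026) (nat_lit 170) (nat_lit 5) (nat_lit 179) (nat_lit 5) (nat_lit 171) (nat_lit 5) (nat_lit 304) (nat_lit 279) (nat_lit 197))))))))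
noncomputable def xc152 : XT := (XT.nd (nat_lit 2106) (nat_lit 3344) (nat_lit 0) (XT.nd (nat_lit 1014) (nat_lit 2660) (nat_lit 0) (XT.nd (nat_lit 468) (nat_lit 1368) (nat_lit 0) (XT.nd (nat_lit 234) (nat_lit 1064) (nat_lit 0) (XT.nd (nat_lit 78) (nat_lit 532) (nat_lit 0) (XT.lf (nat_lit 0) (nat_lit 4725017951) (nat_lit 532) (nat_lit 2699405802) (nat_lit 608) (nat_lit 3880392401) (nat_lit 163) (nat_lit 5) (nat_lit 170) (nat_lit 5) (nat_lit 171) (nat_lit 5) (nat_lit 305) (nat_lit 279) (nat_lit 196)) (XT.nd (nat_lit 78) (nat_lit 532) (nat_lit 0) (XT.lf (nat_lit 0) (nat_lit 9242355249) (nat_lit 608) (nat_lit 735964627) (nat_lit 76) (nat_lit 1507484158) (nat_lit 163) (nat_lit 5) (nat_lit 171) (nat_lit 5) (nat_lit 164) (nat_lit 5) (nat_lit 306) (nat_lit 279) (nat_lit 195)) (XT.lf (nat_lit 0) (nat_lit 5336873378) (nat_lit 532) (nat_lit 5832808337) (nat_lit 608) (nat_lit 500919935) (nat_lit 156) (nat_lit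 5) (nat_lit 163) (nat_lit 5) (nat_lit 164) (nat_lit 5) (nat_lit 307) (nat_lit 279) (nat_lit 194)))) (XT.nd (nat_lit 78) (nat_lit 988) (nat_lit 0) (XT.lf (nat_lit 0) (nat_lit 1253170273) (nat_lit 608) (nat_lit 290222673) (nat_lit 76) (nat_lit 10317665433) (nat_lit 155) (nat_lit 5) (nat_lit 163) (nat_lit 5) (nat_lit 156) (nat_lit 5) (nat_lit 308) (nat_lit 279) (nat_lit 193)) (XT.nd (nat_lit 78) (nat_lit 532) (nat_lit 0) (XT.lf (nat_lit 0) (nat_lit 3113664636) (nat_lit 532) (nat_lit 6060381591) (nat_lit 76) (nat_lit 2881141931) (nat_lit 149) (nat_lit 5) (nat_lit 156) (nat_lit 5) (nat_lit 150) (nat_lit 5) (nat_lit 309) (nat_lit 279) (nat_lit 192)) (XT.lf (nat_lit 0) (nat_lit 183843648) (nat_lit 532) (nat_lit 4844252506) (nat_lit 608) (nat_lit 7227124938) (nat_lit 142) (nat_lit 5) (nat_lit 149) (nat_lit 5) (nat_lit 150) (nat_lit 5) (nat_lit 310) (nat_lit 279) (nat_lit 191))))) (XT.nd (nat_lit 234) (nat_lit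 912) (nat_lit 0) (XT.nd (nat_lit 78) (nat_lit 456) (nat_lit 0) (XT.lf (nat_lit 0) (nat_lit 6716144311) (nat_lit 532) (nat_lit 323540286) (nat_lit 608) (nat_lit 5420400963) (nat_lit 142) (nat_lit 5) (nat_lit 149) (nat_lit 5) (nat_lit 150) (nat_lit 5) (nat_lit 311) (nat_lit 279) (nat_lit 190)) (XT.nd (nat_lit 78) (nat_lit 0) (nat_lit 0) (XT.lf (nat_lit 0) (nat_lit 722336397) (nat_lit 456) (nat_lit 8417010005) (nat_lit 532) (nat_lit 3530939403) (nat_lit 136) (nat_lit 5) (nat_lit 142) (nat_lit 5) (nat_lit 143) (nat_lit 5) (nat_lit 312) (nat_lit 279) (nat_lit 189)) (XT.lf (nat_lit 0) (nat_lit 7473882538) (nat_lit 456) (nat_lit 3868807535) (nat_lit 532) (nat_lit 1542902210) (nat_lit 136) (nat_lit 5) (nat_lit 142) (nat_lit 5) (nat_lit 143) (nat_lit 5) (nat_lit 313) (nat_lit 279) (nat_lit 188)))) (XT.nd (nat_lit 156) (nat_lit 380) (nat_lit 0) (XT.nd (nat_lit 78) (nat_lit 0) (nat_lit 0) (XT.lf (nat_lit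 0) (nat_lit 495486650) (nat_lit 532) (nat_lit 11796891095) (nat_lit 76) (nat_lit 814837609) (nat_lit 129) (nat_lit 5) (nat_lit 136) (nat_lit 5) (nat_lit 130) (nat_lit 5) (nat_lit 314) (nat_lit 279) (nat_lit 187)) (XT.lf (nat_lit 0) (nat_lit 2637745818) (nat_lit 532) (nat_lit 5066315777) (nat_lit 76) (nat_lit 5628774555) (nat_lit 129) (nat_lit 5) (nat_lit 136) (nat_lit 5) (nat_lit 130) (nat_lit 5) (nat_lit 315) (nat_lit 279) (nat_lit 186))) (XT.nd (nat_lit 78) (nat_lit 0) (nat_lit 0) (XT.lf (nat_lit 0) (nat_lit 1880246037) (nat_lit 380) (nat_lit 2962912159) (nat_lit 456) (nat_lit 8722119458) (nat_lit 124) (nat_lit 5) (nat_lit 129) (nat_lit 5) (nat_lit 130) (nat_lit 5) (nat_lit 316) (nat_lit 279) (nat_lit 185)) (XT.lf (nat_lit 0) (nat_lit 7165980855) (nat_lit 456) (nat_lit 4706014325) (nat_lit 76) (nat_lit 1931177888) (nat_lit 124) (nat_lit 5) (nat_lit 130) (nat_lit 5) (nat_lit 125) (nat_lit 5) (nat_lit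 317) (nat_lit 279) (nat_lit 184)))))) (XT.nd (nat_lit 546) (nat_lit 1064) (nat_lit 0) (XT.nd (nat_lit 234) (nat_lit 684) (nat_lit 0) (XT.nd (nat_lit 78) (nat_lit 456) (nat_lit 0) (XT.lf (nat_lit 0) (nat_lit 2479134322) (nat_lit 456) (nat_lit 7114191240) (nat_lit 532) (nat_lit 4453852236) (nat_lit 118) (nat_lit 5) (nat_lit 124) (nat_lit 5) (nat_lit 125) (nat_lit 5) (nat_lit 318) (nat_lit 279) (nat_lit 183)) (XT.nd (nat_lit 78) (nat_lit 456) (nat_lit 0) (XT.lf (nat_lit 0) (nat_lit 9954244303) (nat_lit 456) (nat_lit 2168760269) (nat_lit 532) (nat_lit 2174629743) (nat_lit 118) (nat_lit 5) (nat_lit 124) (nat_lit 5) (nat_lit 125) (nat_lit 5) (nat_lit 319) (nat_lit 279) (nat_lit 182)) (XT.lf (nat_lit 0) (nat_lit 210457004) (nat_lit 456) (nat_lit 11447846211) (nat_lit 76) (nat_lit 2896041630) (nat_lit 112) (nat_lit 5) (nat_lit 118) (nat_lit 5) (nat_lit 113) (nat_lit 5) (nat_lit 320) (nat_lit 279) (nat_lit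 181)))) (XT.nd (nat_lit 156) (nat_lit 304) (nat_lit 0) (XT.nd (nat_lit 78) (nat_lit 380) (nat_lit 0) (XT.lf (nat_lit 0) (nat_lit 2671749794) (nat_lit 456) (nat_lit 4014029382) (nat_lit 76) (nat_lit 8130896362) (nat_lit 112) (nat_lit 5) (nat_lit 118) (nat_lit 5) (nat_lit 113) (nat_lit 5) (nat_lit 321) (nat_lit 279) (nat_lit 180)) (XT.lf (nat_lit 0) (nat_lit 3693447677) (nat_lit 380) (nat_lit 1532038818) (nat_lit 456) (nat_lit 9860846663) (nat_lit 107) (nat_lit 5) (nat_lit 112) (nat_lit 5) (nat_lit 113) (nat_lit 5) (nat_lit 322) (nat_lit 279) (nat_lit 179))) (XT.nd (nat_lit 78) (nat_lit 304) (nat_lit 0) (XT.lf (nat_lit 0) (nat_lit 7916416099) (nat_lit 456) (nat_lit 3706818765) (nat_lit 76) (nat_lit 3739042937) (nat_lit 107) (nat_lit 5) (nat_lit 113) (nat_lit 5) (nat_lit 108) (nat_lit 5) (nat_lit 323) (nat_lit 279) (nat_lit 178)) (XT.lf (nat_lit 0) (nat_lit 4256670411) (nat_lit 304) (nat_lit 6471320098)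 (nat_lit 380) (nat_lit 4917327057) (nat_lit 103) (nat_lit 5) (nat_lit 107) (nat_lit 5) (nat_lit 108) (nat_lit 5) (nat_lit 324) (nat_lit 279) (nat_lit 177))))) (XT.nd (nat_lit 234) (nat_lit 608) (nat_lit 0) (XT.nd (nat_lit 78) (nat_lit 456) (nat_lit 0) (XT.lf (nat_lit 0) (nat_lit 12514203014) (nat_lit 304) (nat_lit 1131241796) (nat_lit 380) (nat_lit 2290771610) (nat_lit 103) (nat_lit 5) (nat_lit 107) (nat_lit 5) (nat_lit 108) (nat_lit 5) (nat_lit 325) (nat_lit 279) (nat_lit 176)) (XT.nd (nat_lit 78) (nat_lit 0) (nat_lit 0) (XT.lf (nat_lit 0) (nat_lit 479997780) (nat_lit 456) (nat_lit 11423470478) (nat_lit 76) (nat_lit 4330062285) (nat_lit 97) (nat_lit 5) (nat_lit 103) (nat_lit 5) (nat_lit 98) (nat_lit 5) (nat_lit 326) (nat_lit 279) (nat_lit 175)) (XT.lf (nat_lit 0) (nat_lit 3318554726) (nat_lit 456) (nat_lit 3234494139) (nat_lit 76) (nat_lit 9985126293) (nat_lit 97) (nat_lit 5) (nat_lit 103) (nat_lit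 5) (nat_lit 98) (nat_lit 5) (nat_lit 327) (nat_lit 279) (nat_lit 174)))) (XT.nd (nat_lit 156) (nat_lit 304) (nat_lit 0) (XT.nd (nat_lit 78) (nat_lit 0) (nat_lit 0) (XT.lf (nat_lit 0) (nat_lit 5283061571) (nat_lit 304) (nat_lit 995047664) (nat_lit 380) (nat_lit 10572786978) (nat_lit 93) (nat_lit 5) (nat_lit 97) (nat_lit 5) (nat_lit 98) (nat_lit 5) (nat_lit 328) (nat_lit 279) (nat_lit 173)) (XT.lf (nat_lit 0) (nat_lit 9390149711) (nat_lit 380) (nat_lit 3115745023) (nat_lit 76) (nat_lit 4665205153) (nat_lit 93) (nat_lit 5) (nat_lit 98) (nat_lit 5) (nat_lit 94) (nat_lit 5) (nat_lit 329) (nat_lit 279) (nat_lit 172))) (XT.nd (nat_lit 78) (nat_lit 0) (nat_lit 0) (XT.lf (nat_lit 0) (nat_lit 5670923430) (nat_lit 304) (nat_lit 6974671138) (nat_lit 380) (nat_lit 4853825428) (nat_lit 89) (nat_lit 5) (nat_lit 93) (nat_lit 5) (nat_lit 94) (nat_lit 5) (nat_lit 330) (nat_lit 279) (nat_lit 171)) (XT.lf (nat_lit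 0) (nat_lit 14765463655) (nat_lit 304) (nat_lit 1250609589) (nat_lit 380) (nat_lit 1821006631) (nat_lit 89) (nat_lit 5) (nat_lit 93) (nat_lit 5) (nat_lit 94) (nat_lit 5) (nat_lit 331) (nat_lit 279) (nat_lit 170))))))) (XT.nd (nat_lit 1092) (nat_lit 1292) (nat_lit 0) (XT.nd (nat_lit 546) (nat_lit 760) (nat_lit 0) (XT.nd (nat_lit 234) (nat_lit 608) (nat_lit 0) (XT.nd (nat_lit 78) (nat_lit 304) (nat_lit 0) (XT.lf (nat_lit 0) (nat_lit 1366845393) (nat_lit 380) (nat_lit 12194600183) (nat_lit 76) (nat_lit 4620374782) (nat_lit 84) (nat_lit 5) (nat_lit 89) (nat_lit 5) (nat_lit 85) (nat_lit 5) (nat_lit 332) (nat_lit 279) (nat_lit 169)) (XT.nd (nat_lit 78) (nat_lit 304) (nat_lit 0) (XT.lf (nat_lit 0) (nat_lit 4643776965) (nat_lit 380) (nat_lit 3205394171) (nat_lit 76) (nat_lit 10686300017) (nat_lit 84) (nat_lit 5) (nat_lit 89) (nat_lit 5) (nat_lit 85) (nat_lit 5) (nat_lit 333) (nat_lit 279) (nat_lit 168))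 (XT.lf (nat_lit 0) (nat_lit 6154666097) (nat_lit 304) (nat_lit 1910248472) (nat_lit 380) (nat_lit 10833449985) (nat_lit 80) (nat_lit 5) (nat_lit 84) (nat_lit 5) (nat_lit 85) (nat_lit 5) (nat_lit 334) (nat_lit 279) (nat_lit 167)))) (XT.nd (nat_lit 156) (nat_lit 380) (nat_lit 0) (XT.nd (nat_lit 78) (nat_lit 228) (nat_lit 0) (XT.lf (nat_lit 0) (nat_lit 11648701038) (nat_lit 380) (nat_lit 3469780327) (nat_lit 76) (nat_lit 4151872680) (nat_lit 80) (nat_lit 5) (nat_lit 85) (nat_lit 5) (nat_lit 81) (nat_lit 5) (nat_lit 335) (nat_lit 279) (nat_lit 166)) (XT.lf (nat_lit 0) (nat_lit 6165220455) (nat_lit 228) (nat_lit 9240227115) (nat_lit 304) (nat_lit 4246101704) (nat_lit 77) (nat_lit 5) (nat_lit 80) (nat_lit 5) (nat_lit 81) (nat_lit 5) (nat_lit 336) (nat_lit 279) (nat_lit 165))) (XT.nd (nat_lit 78) (nat_lit 380) (nat_lit 0) (XT.lf (nat_lit 0) (nat_lit 16142052797) (nat_lit 228) (nat_lit 3155345378) (nat_lit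 304) (nat_lit 746116307) (nat_lit 77) (nat_lit 5) (nat_lit 80) (nat_lit 5) (nat_lit 81) (nat_lit 5) (nat_lit 337) (nat_lit 279) (nat_lit 164)) (XT.lf (nat_lit 0) (nat_lit 2879580727) (nat_lit 380) (nat_lit 14432423411) (nat_lit 76) (nat_lit 3132123750) (nat_lit 72) (nat_lit 5) (nat_lit 77) (nat_lit 5) (nat_lit 73) (nat_lit 5) (nat_lit 338) (nat_lit 279) (nat_lit 163))))) (XT.nd (nat_lit 234) (nat_lit 532) (nat_lit 0) (XT.nd (nat_lit 78) (nat_lit 228) (nat_lit 0) (XT.lf (nat_lit 0) (nat_lit 6657911116) (nat_lit 380) (nat_lit 4610558307) (nat_lit 76) (nat_lit 9586311292) (nat_lit 72) (nat_lit 5) (nat_lit 77) (nat_lit 5) (nat_lit 73) (nat_lit 5) (nat_lit 339) (nat_lit 279) (nat_lit 162)) (XT.nd (nat_lit 78) (nat_lit 0) (nat_lit 0) (XT.lf (nat_lit 0) (nat_lit 5597516790) (nat_lit 228) (nat_lit 4994066251) (nat_lit 304) (nat_lit 10684918486) (nat_lit 69) (nat_lit 5) (nat_lit 72) (nat_lit 5) (nat_lit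 73) (nat_lit 5) (nat_lit 340) (nat_lit 279) (nat_lit 161)) (XT.lf (nat_lit 0) (nat_lit 14692704905) (nat_lit 304) (nat_lit 5535510070) (nat_lit 76) (nat_lit 1481183706) (nat_lit 69) (nat_lit 5) (nat_lit 73) (nat_lit 5) (nat_lit 70) (nat_lit 5) (nat_lit 341) (nat_lit 279) (nat_lit 160)))) (XT.nd (nat_lit 156) (nat_lit 228) (nat_lit 0) (XT.nd (nat_lit 78) (nat_lit 76) (nat_lit 0) (XT.lf (nat_lit 0) (nat_lit 4941975712) (nat_lit 228) (nat_lit 14060481287) (nat_lit 304) (nat_lit 3150265535) (nat_lit 66) (nat_lit 5) (nat_lit 69) (nat_lit 5) (nat_lit 70) (nat_lit 5) (nat_lit 342) (nat_lit 279) (nat_lit 159)) (XT.lf (nat_lit 0) (nat_lit 861061653) (nat_lit 304) (nat_lit 6786308705) (nat_lit 76) (nat_lit 14960388677) (nat_lit 65) (nat_lit 5) (nat_lit 69) (nat_lit 5) (nat_lit 66) (nat_lit 5) (nat_lit 343) (nat_lit 279) (nat_lit 158))) (XT.nd (nat_lit 78) (nat_lit 0) (nat_lit 0) (XT.lf (nat_lit 0) (nat_lit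 3980505516) (nat_lit 228) (nat_lit 976191513) (nat_lit 304) (nat_lit 18118002342) (nat_lit 62) (nat_lit 5) (nat_lit 65) (nat_lit 5) (nat_lit 66) (nat_lit 5) (nat_lit 344) (nat_lit 279) (nat_lit 157)) (XT.lf (nat_lit 0) (nat_lit 9290201576) (nat_lit 304) (nat_lit 8418451504) (nat_lit 76) (nat_lit 5843551659) (nat_lit 62) (nat_lit 5) (nat_lit 66) (nat_lit 5) (nat_lit 63) (nat_lit 5) (nat_lit 345) (nat_lit 279) (nat_lit 156)))))) (XT.nd (nat_lit 546) (nat_lit 608) (nat_lit 0) (XT.nd (nat_lit 234) (nat_lit 304) (nat_lit 0) (XT.nd (nat_lit 78) (nat_lit 152) (nat_lit 0) (XT.lf (nat_lit 0) (nat_lit 2602219981) (nat_lit 228) (nat_lit 11175613070) (nat_lit 304) (nat_lit 10265485188) (nat_lit 59) (nat_lit 5) (nat_lit 62) (nat_lit 5) (nat_lit 63) (nat_lit 5) (nat_lit 346) (nat_lit 279) (nat_lit 155)) (XT.nd (nat_lit 78) (nat_lit 152) (nat_lit 0) (XT.lf (nat_lit 0) (nat_lit 14109786396) (nat_lit 228) (nat_lit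 4364910194) (nat_lit 304) (nat_lit 6072236896) (nat_lit 59) (nat_lit 5) (nat_lit 62) (nat_lit 5) (nat_lit 63) (nat_lit 5) (nat_lit 347) (nat_lit 279) (nat_lit 154)) (XT.lf (nat_lit 0) (nat_lit 872396699) (nat_lit 152) (nat_lit 22463771279) (nat_lit 228) (nat_lit 1728784400) (nat_lit 57) (nat_lit 5) (nat_lit 59) (nat_lit 5) (nat_lit 60) (nat_lit 5) (nat_lit 348) (nat_lit 279) (nat_lit 153)))) (XT.nd (nat_lit 156) (nat_lit 228) (nat_lit 0) (XT.nd (nat_lit 78) (nat_lit 0) (nat_lit 0) (XT.lf (nat_lit 0) (nat_lit 2830941731) (nat_lit 228) (nat_lit 12946943414) (nat_lit 76) (nat_lit 9815654957) (nat_lit 56) (nat_lit 5) (nat_lit 59) (nat_lit 5) (nat_lit 57) (nat_lit 5) (nat_lit 349) (nat_lit 279) (nat_lit 152)) (XT.lf (nat_lit 0) (nat_lit 7482886754) (nat_lit 228) (nat_lit 1396734520) (nat_lit 76) (nat_lit 17258151181) (nat_lit 56) (nat_lit 5) (nat_lit 59) (nat_lit 5) (nat_lit 57) (nat_lit 5) (nat_lit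 350) (nat_lit 279) (nat_lit 151))) (XT.nd (nat_lit 78) (nat_lit 0) (nat_lit 0) (XT.lf (nat_lit 0) (nat_lit 10693449261) (nat_lit 228) (nat_lit 1674192997) (nat_lit 304) (nat_lit 14327897506) (nat_lit 53) (nat_lit 5) (nat_lit 56) (nat_lit 5) (nat_lit 57) (nat_lit 5) (nat_lit 351) (nat_lit 279) (nat_lit 150)) (XT.lf (nat_lit 0) (nat_lit 17458970960) (nat_lit 304) (nat_lit 4165317291) (nat_lit 76) (nat_lit 5643956314) (nat_lit 53) (nat_lit 5) (nat_lit 57) (nat_lit 5) (nat_lit 54) (nat_lit 5) (nat_lit 352) (nat_lit 279) (nat_lit 149))))) (XT.nd (nat_lit 234) (nat_lit 152) (nat_lit 0) (XT.nd (nat_lit 78) (nat_lit 304) (nat_lit 0) (XT.lf (nat_lit 0) (nat_lit 8154263735) (nat_lit 152) (nat_lit 14634550384) (nat_lit 228) (nat_lit 5066748385) (nat_lit 51) (nat_lit 5) (nat_lit 53) (nat_lit 5) (nat_lit 54) (nat_lit 5) (nat_lit 353) (nat_lit 279) (nat_lit 148)) (XT.nd (nat_lit 78) (nat_lit 304) (nat_lit 0)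 (XT.lf (nat_lit 0) (nat_lit 20914124316) (nat_lit 152) (nat_lit 7397430749) (nat_lit 228) (nat_lit 147959917) (nat_lit 51) (nat_lit 5) (nat_lit 53) (nat_lit 5) (nat_lit 54) (nat_lit 5) (nat_lit 354) (nat_lit 279) (nat_lit 147)) (XT.lf (nat_lit 0) (nat_lit 4863138450) (nat_lit 304) (nat_lit 24069174317) (nat_lit 76) (nat_lit 146638045) (nat_lit 47) (nat_lit 5) (nat_lit 51) (nat_lit 5) (nat_lit 48) (nat_lit 5) (nat_lit 355) (nat_lit 279) (nat_lit 146)))) (XT.nd (nat_lit 156) (nat_lit 0) (nat_lit 0) (XT.nd (nat_lit 78) (nat_lit 152) (nat_lit 0) (XT.lf (nat_lit 0) (nat_lit 10162966844) (nat_lit 304) (nat_lit 11708392605) (nat_lit 76) (nat_lit 7841329839) (nat_lit 47) (nat_lit 5) (nat_lit 51) (nat_lit 5) (nat_lit 48) (nat_lit 5) (nat_lit 356) (nat_lit 279) (nat_lit 145)) (XT.lf (nat_lit 0) (nat_lit 1029199587) (nat_lit 152) (nat_lit 14593921653) (nat_lit 228) (nat_lit 14742283255) (nat_lit 45) (nat_lit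 5) (nat_lit 47) (nat_lit 5) (nat_lit 48) (nat_lit 5) (nat_lit 357) (nat_lit 279) (nat_lit 144))) (XT.nd (nat_lit 78) (nat_lit 0) (nat_lit 0) (XT.lf (nat_lit 0) (nat_lit 14374971955) (nat_lit 152) (nat_lit 6981893186) (nat_lit 228) (nat_lit 9677546853) (nat_lit 45) (nat_lit 5) (nat_lit 47) (nat_lit 5) (nat_lit 48) (nat_lit 5) (nat_lit 358) (nat_lit 279) (nat_lit 143)) (XT.lf (nat_lit 0) (nat_lit 27262621405) (nat_lit 228) (nat_lit 3624375074) (nat_lit 76) (nat_lit 836497490) (nat_lit 45) (nat_lit 5) (nat_lit 48) (nat_lit 5) (nat_lit 46) (nat_lit 5) (nat_lit 359) (nat_lit 279) (nat_lit 142))))))))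
noncomputable def xc153 : XT := (XT.nd (nat_lit 2184) (nat_lit 760) (nat_lit 0) (XT.nd (nat_lit 1092) (nat_lit 608) (nat_lit 0) (XT.nd (nat_lit 546) (nat_lit 456) (nat_lit 0) (XT.nd (nat_lit 234) (nat_lit 228) (nat_lit 0) (XT.nd (nat_lit 78) (nat_lit 152) (nat_lit 0) (XT.lf (nat_lit 0) (nat_lit 1052446723) (nat_lit 228) (nat_lit 22526181921) (nat_lit 76) (nat_lit 8849622268) (nat_lit 42) (nat_lit 5) (nat_lit 45) (nat_lit 5) (nat_lit 43) (nat_lit 5) (nat_lit 360) (nat_lit 279) (nat_lit 141)) (XT.nd (nat_lit 78) (nat_lit 152) (nat_lit 0) (XT.lf (nat_lit 0) (nat_lit 6670480017) (nat_lit 228) (nat_lit 9302361445) (nat_lit 76) (nat_lit 17179118777) (nat_lit 42) (nat_lit 5) (nat_lit 45) (nat_lit 5) (nat_lit 43) (nat_lit 5) (nat_lit 361) (nat_lit 279) (nat_lit 140)) (XT.lf (nat_lit 0) (nat_lit 4390863018) (nat_lit 152) (nat_lit 8100643710) (nat_lit 228) (nat_lit 21404844323) (nat_lit 40) (nat_lit 5) (nat_lit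 42) (nat_lit 5) (nat_lit 43) (nat_lit 5) (nat_lit 362) (nat_lit 279) (nat_lit 139)))) (XT.nd (nat_lit 156) (nat_lit 228) (nat_lit 0) (XT.nd (nat_lit 78) (nat_lit 0) (nat_lit 0) (XT.lf (nat_lit 0) (nat_lit 18574400991) (nat_lit 228) (nat_lit 15988734246) (nat_lit 76) (nat_lit 97324917) (nat_lit 40) (nat_lit 5) (nat_lit 43) (nat_lit 5) (nat_lit 41) (nat_lit 5) (nat_lit 363) (nat_lit 279) (nat_lit 138)) (XT.lf (nat_lit 0) (nat_lit 24912507712) (nat_lit 228) (nat_lit 2159350167) (nat_lit 76) (nat_lit 8373456442) (nat_lit 40) (nat_lit 5) (nat_lit 43) (nat_lit 5) (nat_lit 41) (nat_lit 5) (nat_lit 364) (nat_lit 279) (nat_lit 137))) (XT.nd (nat_lit 78) (nat_lit 76) (nat_lit 0) (XT.lf (nat_lit 0) (nat_lit 12312885213) (nat_lit 152) (nat_lit 19238970473) (nat_lit 228) (nat_lit 4698528946) (nat_lit 38) (nat_lit 5) (nat_lit 40) (nat_lit 5) (nat_lit 41) (nat_lit 5) (nat_lit 365) (nat_lit 279) (nat_lit 136))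 (XT.lf (nat_lit 0) (nat_lit 1299979396) (nat_lit 228) (nat_lit 9840542311) (nat_lit 76) (nat_lit 25938267194) (nat_lit 37) (nat_lit 5) (nat_lit 40) (nat_lit 5) (nat_lit 38) (nat_lit 5) (nat_lit 366) (nat_lit 279) (nat_lit 135))))) (XT.nd (nat_lit 234) (nat_lit 304) (nat_lit 0) (XT.nd (nat_lit 78) (nat_lit 0) (nat_lit 0) (XT.lf (nat_lit 0) (nat_lit 4712800386) (nat_lit 152) (nat_lit 2709479276) (nat_lit 228) (nat_lit 30507225027) (nat_lit 35) (nat_lit 5) (nat_lit 37) (nat_lit 5) (nat_lit 38) (nat_lit 5) (nat_lit 367) (nat_lit 279) (nat_lit 134)) (XT.nd (nat_lit 78) (nat_lit 0) (nat_lit 0) (XT.lf (nat_lit 0) (nat_lit 13879047257) (nat_lit 228) (nat_lit 18968723833) (nat_lit 76) (nat_lit 5953449983) (nat_lit 35) (nat_lit 5) (nat_lit 38) (nat_lit 5) (nat_lit 36) (nat_lit 5) (nat_lit 368) (nat_lit 279) (nat_lit 133)) (XT.lf (nat_lit 0) (nat_lit 20549561668) (nat_lit 228) (nat_lit 4331794034) (nat_lit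 76) (nat_lit 14817134915) (nat_lit 35) (nat_lit 5) (nat_lit 38) (nat_lit 5) (nat_lit 36) (nat_lit 5) (nat_lit 369) (nat_lit 279) (nat_lit 132)))) (XT.nd (nat_lit 156) (nat_lit 152) (nat_lit 0) (XT.nd (nat_lit 78) (nat_lit 0) (nat_lit 0) (XT.lf (nat_lit 0) (nat_lit 10946525964) (nat_lit 152) (nat_lit 16572305069) (nat_lit 228) (nat_lit 13100890925) (nat_lit 33) (nat_lit 5) (nat_lit 35) (nat_lit 5) (nat_lit 36) (nat_lit 5) (nat_lit 370) (nat_lit 279) (nat_lit 131)) (XT.lf (nat_lit 0) (nat_lit 26760780269) (nat_lit 152) (nat_lit 7973639670) (nat_lit 228) (nat_lit 6833055869) (nat_lit 33) (nat_lit 5) (nat_lit 35) (nat_lit 5) (nat_lit 36) (nat_lit 5) (nat_lit 371) (nat_lit 279) (nat_lit 130))) (XT.nd (nat_lit 78) (nat_lit 76) (nat_lit 0) (XT.lf (nat_lit 0) (nat_lit 495955661) (nat_lit 76) (nat_lit 41677420295) (nat_lit 152) (nat_lit 370082064) (nat_lit 32) (nat_lit 5) (nat_lit 33) (nat_lit 5) (nat_lit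 34) (nat_lit 4) (nat_lit 372) (nat_lit 279) (nat_lit 129)) (XT.lf (nat_lit 0) (nat_lit 6387708689) (nat_lit 152) (nat_lit 27134939624) (nat_lit 76) (nat_lit 10017552822) (nat_lit 31) (nat_lit 5) (nat_lit 33) (nat_lit 5) (nat_lit 32) (nat_lit 5) (nat_lit 373) (nat_lit 279) (nat_lit 128)))))) (XT.nd (nat_lit 546) (nat_lit 304) (nat_lit 0) (XT.nd (nat_lit 234) (nat_lit 152) (nat_lit 0) (XT.nd (nat_lit 78) (nat_lit 152) (nat_lit 0) (XT.lf (nat_lit 0) (nat_lit 13334639128) (nat_lit 152) (nat_lit 11789397128) (nat_lit 76) (nat_lit 19442887534) (nat_lit 31) (nat_lit 5) (nat_lit 33) (nat_lit 5) (nat_lit 32) (nat_lit 5) (nat_lit 374) (nat_lit 279) (nat_lit 127)) (XT.nd (nat_lit 78) (nat_lit 0) (nat_lit 0) (XT.lf (nat_lit 0) (nat_lit 4085820382) (nat_lit 152) (nat_lit 16437456041) (nat_lit 228) (nat_lit 25100175158) (nat_lit 29) (nat_lit 5) (nat_lit 31) (nat_lit 5) (nat_lit 32) (nat_lit 5) (nat_lit 375)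 (nat_lit 279) (nat_lit 126)) (XT.lf (nat_lit 0) (nat_lit 20668647330) (nat_lit 152) (nat_lit 7372073729) (nat_lit 228) (nat_lit 18667562056) (nat_lit 29) (nat_lit 5) (nat_lit 31) (nat_lit 5) (nat_lit 32) (nat_lit 5) (nat_lit 376) (nat_lit 279) (nat_lit 125)))) (XT.nd (nat_lit 156) (nat_lit 76) (nat_lit 0) (XT.nd (nat_lit 78) (nat_lit 76) (nat_lit 0) (XT.lf (nat_lit 0) (nat_lit 35796809510) (nat_lit 228) (nat_lit 10105742488) (nat_lit 76) (nat_lit 1922716267) (nat_lit 29) (nat_lit 5) (nat_lit 32) (nat_lit 5) (nat_lit 30) (nat_lit 4) (nat_lit 377) (nat_lit 279) (nat_lit 124)) (XT.lf (nat_lit 0) (nat_lit 6347178132) (nat_lit 76) (nat_lit 37566803453) (nat_lit 152) (nat_lit 5057931577) (nat_lit 28) (nat_lit 5) (nat_lit 29) (nat_lit 5) (nat_lit 30) (nat_lit 4) (nat_lit 378) (nat_lit 279) (nat_lit 123))) (XT.nd (nat_lit 78) (nat_lit 0) (nat_lit 0) (XT.lf (nat_lit 0) (nat_lit 2177777415) (nat_lit 152)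 (nat_lit 26680329028) (nat_lit 76) (nat_lit 21291317153) (nat_lit 27) (nat_lit 5) (nat_lit 29) (nat_lit 5) (nat_lit 28) (nat_lit 5) (nat_lit 379) (nat_lit 279) (nat_lit 122)) (XT.lf (nat_lit 0) (nat_lit 9523470756) (nat_lit 152) (nat_lit 10317253537) (nat_lit 76) (nat_lit 31520197550) (nat_lit 27) (nat_lit 5) (nat_lit 29) (nat_lit 5) (nat_lit 28) (nat_lit 5) (nat_lit 380) (nat_lit 279) (nat_lit 121))))) (XT.nd (nat_lit 234) (nat_lit 152) (nat_lit 0) (XT.nd (nat_lit 78) (nat_lit 0) (nat_lit 0) (XT.lf (nat_lit 0) (nat_lit 6657317449) (nat_lit 152) (nat_lit 10490942232) (nat_lit 228) (nat_lit 35458745585) (nat_lit 25) (nat_lit 5) (nat_lit 27) (nat_lit 5) (nat_lit 28) (nat_lit 5) (nat_lit 381) (nat_lit 279) (nat_lit 120)) (XT.nd (nat_lit 78) (nat_lit 0) (nat_lit 0) (XT.lf (nat_lit 0) (nat_lit 24343405363) (nat_lit 152) (nat_lit 757366429) (nat_lit 228) (nat_lit 28786731928) (nat_lit 25) (nat_lit 5)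 (nat_lit 27) (nat_lit 5) (nat_lit 28) (nat_lit 5) (nat_lit 382) (nat_lit 279) (nat_lit 119)) (XT.lf (nat_lit 0) (nat_lit 33375860694) (nat_lit 228) (nat_lit 12744494436) (nat_lit 76) (nat_lit 9083543816) (nat_lit 25) (nat_lit 5) (nat_lit 28) (nat_lit 5) (nat_lit 26) (nat_lit 4) (nat_lit 383) (nat_lit 279) (nat_lit 118)))) (XT.nd (nat_lit 156) (nat_lit 76) (nat_lit 0) (XT.nd (nat_lit 78) (nat_lit 0) (nat_lit 0) (XT.lf (nat_lit 0) (nat_lit 4633212054) (nat_lit 76) (nat_lit 37313084072) (nat_lit 152) (nat_lit 14612078889) (nat_lit 24) (nat_lit 5) (nat_lit 25) (nat_lit 5) (nat_lit 26) (nat_lit 4) (nat_lit 384) (nat_lit 279) (nat_lit 117)) (XT.lf (nat_lit 0) (nat_lit 22784788105) (nat_lit 76) (nat_lit 28112869048) (nat_lit 152) (nat_lit 7052115591) (nat_lit 24) (nat_lit 5) (nat_lit 25) (nat_lit 5) (nat_lit 26) (nat_lit 4) (nat_lit 385) (nat_lit 279) (nat_lit 116))) (XT.nd (nat_lit 78) (nat_lit 0) (nat_lit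 0) (XT.lf (nat_lit 0) (nat_lit 715522724) (nat_lit 152) (nat_lit 17917617339) (nat_lit 76) (nat_lit 40749705787) (nat_lit 23) (nat_lit 5) (nat_lit 25) (nat_lit 5) (nat_lit 24) (nat_lit 5) (nat_lit 386) (nat_lit 279) (nat_lit 115)) (XT.lf (nat_lit 0) (nat_lit 8569800834) (nat_lit 152) (nat_lit 230957282) (nat_lit 76) (nat_lit 52056199411) (nat_lit 23) (nat_lit 5) (nat_lit 25) (nat_lit 5) (nat_lit 24) (nat_lit 5) (nat_lit 387) (nat_lit 279) (nat_lit 114))))))) (XT.nd (nat_lit 1092) (nat_lit 228) (nat_lit 0) (XT.nd (nat_lit 546) (nat_lit 228) (nat_lit 0) (XT.nd (nat_lit 234) (nat_lit 152) (nat_lit 0) (XT.nd (nat_lit 78) (nat_lit 0) (nat_lit 0) (XT.lf (nat_lit 0) (nat_lit 16845914163) (nat_lit 228) (nat_lit 44048563489) (nat_lit 76) (nat_lit 1475230254) (nat_lit 21) (nat_lit 5) (nat_lit 24) (nat_lit 5) (nat_lit 22) (nat_lit 4) (nat_lit 388) (nat_lit 279) (nat_lit 113)) (XT.nd (nat_lit 78) (nat_lit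 0) (nat_lit 0) (XT.lf (nat_lit 0) (nat_lit 25455309823) (nat_lit 228) (nat_lit 26588472336) (nat_lit 76) (nat_lit 11881510181) (nat_lit 21) (nat_lit 5) (nat_lit 24) (nat_lit 5) (nat_lit 22) (nat_lit 4) (nat_lit 389) (nat_lit 279) (nat_lit 112)) (XT.lf (nat_lit 0) (nat_lit 34318625609) (nat_lit 228) (nat_lit 8612428704) (nat_lit 76) (nat_lit 22596622314) (nat_lit 21) (nat_lit 5) (nat_lit 24) (nat_lit 5) (nat_lit 22) (nat_lit 4) (nat_lit 390) (nat_lit 279) (nat_lit 111)))) (XT.nd (nat_lit 156) (nat_lit 76) (nat_lit 0) (XT.nd (nat_lit 78) (nat_lit 0) (nat_lit 0) (XT.lf (nat_lit 0) (nat_lit 10092209996) (nat_lit 76) (nat_lit 33448408665) (nat_lit 152) (nat_lit 23634731871) (nat_lit 20) (nat_lit 5) (nat_lit 21) (nat_lit 5) (nat_lit 22) (nat_lit 4) (nat_lit 391) (nat_lit 279) (nat_lit 110)) (XT.lf (nat_lit 0) (nat_lit 29526987319) (nat_lit 76) (nat_lit 23595068925) (nat_lit 152) (nat_lit 15747916254)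 (nat_lit 20) (nat_lit 5) (nat_lit 21) (nat_lit 5) (nat_lit 22) (nat_lit 4) (nat_lit 392) (nat_lit 279) (nat_lit 109))) (XT.nd (nat_lit 78) (nat_lit 76) (nat_lit 0) (XT.lf (nat_lit 0) (nat_lit 49537480887) (nat_lit 76) (nat_lit 13449394020) (nat_lit 152) (nat_lit 7628681418) (nat_lit 20) (nat_lit 5) (nat_lit 21) (nat_lit 5) (nat_lit 22) (nat_lit 4) (nat_lit 393) (nat_lit 279) (nat_lit 108)) (XT.lf (nat_lit 0) (nat_lit 715820874) (nat_lit 152) (nat_lit 2279469536) (nat_lit 76) (nat_lit 69418126338) (nat_lit 19) (nat_lit 5) (nat_lit 21) (nat_lit 5) (nat_lit 20) (nat_lit 5) (nat_lit 394) (nat_lit 279) (nat_lit 107))))) (XT.nd (nat_lit 234) (nat_lit 76) (nat_lit 0) (XT.nd (nat_lit 78) (nat_lit 0) (nat_lit 0) (XT.lf (nat_lit 0) (nat_lit 9397215122) (nat_lit 228) (nat_lit 56996222442) (nat_lit 76) (nat_lit 7862314128) (nat_lit 17) (nat_lit 5) (nat_lit 20) (nat_lit 5) (nat_lit 18) (nat_lit 4) (nat_lit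 395) (nat_lit 279) (nat_lit 106)) (XT.nd (nat_lit 78) (nat_lit 0) (nat_lit 0) (XT.lf (nat_lit 0) (nat_lit 18388102029) (nat_lit 228) (nat_lit 38758127797) (nat_lit 76) (nat_lit 19005656528) (nat_lit 17) (nat_lit 5) (nat_lit 20) (nat_lit 5) (nat_lit 18) (nat_lit 4) (nat_lit 396) (nat_lit 279) (nat_lit 105)) (XT.lf (nat_lit 0) (nat_lit 27644976141) (nat_lit 228) (nat_lit 19979688667) (nat_lit 76) (nat_lit 30480353588) (nat_lit 17) (nat_lit 5) (nat_lit 20) (nat_lit 5) (nat_lit 18) (nat_lit 4) (nat_lit 397) (nat_lit 279) (nat_lit 104)))) (XT.nd (nat_lit 156) (nat_lit 0) (nat_lit 0) (XT.nd (nat_lit 78) (nat_lit 76) (nat_lit 0) (XT.lf (nat_lit 0) (nat_lit 37175925988) (nat_lit 228) (nat_lit 644496707) (nat_lit 76) (nat_lit 42296431743) (nat_lit 17) (nat_lit 5) (nat_lit 20) (nat_lit 5) (nat_lit 18) (nat_lit 4) (nat_lit 398) (nat_lit 279) (nat_lit 103)) (XT.lf (nat_lit 0) (nat_lit 19647741105) (nat_lit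 76) (nat_lit 27530404585) (nat_lit 152) (nat_lit 35005340723) (nat_lit 16) (nat_lit 5) (nat_lit 17) (nat_lit 5) (nat_lit 18) (nat_lit 4) (nat_lit 399) (nat_lit 279) (nat_lit 102))) (XT.nd (nat_lit 78) (nat_lit 0) (nat_lit 0) (XT.lf (nat_lit 0) (nat_lit 40555612327) (nat_lit 76) (nat_lit 16927844733) (nat_lit 152) (nat_lit 26828570596) (nat_lit 16) (nat_lit 5) (nat_lit 17) (nat_lit 5) (nat_lit 18) (nat_lit 4) (nat_lit 400) (nat_lit 279) (nat_lit 101)) (XT.lf (nat_lit 0) (nat_lit 62084559222) (nat_lit 76) (nat_lit 6009986919) (nat_lit 152) (nat_lit 18409981472) (nat_lit 16) (nat_lit 5) (nat_lit 17) (nat_lit 5) (nat_lit 18) (nat_lit 4) (nat_lit 401) (nat_lit 279) (nat_lit 100)))))) (XT.nd (nat_lit 546) (nat_lit 0) (nat_lit 0) (XT.nd (nat_lit 234) (nat_lit 76) (nat_lit 0) (XT.nd (nat_lit 78) (nat_lit 152) (nat_lit 0) (XT.lf (nat_lit 0) (nat_lit 79070984757) (nat_lit 152) (nat_lit 4559808569) (nat_lit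 0) (nat_lit 5130599736) (nat_lit 16) (nat_lit 5) (nat_lit 18) (nat_lit 4) (nat_lit 16) (nat_lit 4) (nat_lit 402) (nat_lit 279) (nat_lit 99)) (XT.nd (nat_lit 78) (nat_lit 76) (nat_lit 0) (XT.lf (nat_lit 0) (nat_lit 16145836406) (nat_lit 76) (nat_lit 74442375915) (nat_lit 76) (nat_lit 491408251) (nat_lit 15) (nat_lit 4) (nat_lit 16) (nat_lit 5) (nat_lit 16) (nat_lit 4) (nat_lit 403) (nat_lit 279) (nat_lit 98)) (XT.lf (nat_lit 0) (nat_lit 8851553748) (nat_lit 152) (nat_lit 55992587965) (nat_lit 76) (nat_lit 28619364635) (nat_lit 14) (nat_lit 5) (nat_lit 16) (nat_lit 5) (nat_lit 15) (nat_lit 4) (nat_lit 404) (nat_lit 279) (nat_lit 97)))) (XT.nd (nat_lit 156) (nat_lit 76) (nat_lit 0) (XT.nd (nat_lit 78) (nat_lit 0) (nat_lit 0) (XT.lf (nat_lit 0) (nat_lit 18461813783) (nat_lit 152) (nat_lit 36493735250) (nat_lit 76) (nat_lit 40963308010) (nat_lit 14) (nat_lit 5) (nat_lit 16) (nat_lit 5) (nat_lit 15)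 (nat_lit 4) (nat_lit 405) (nat_lit 279) (nat_lit 96)) (XT.lf (nat_lit 0) (nat_lit 28357358313) (nat_lit 152) (nat_lit 16415464473) (nat_lit 76) (nat_lit 53675137035) (nat_lit 14) (nat_lit 5) (nat_lit 16) (nat_lit 5) (nat_lit 15) (nat_lit 4) (nat_lit 406) (nat_lit 279) (nat_lit 95))) (XT.nd (nat_lit 78) (nat_lit 0) (nat_lit 0) (XT.lf (nat_lit 0) (nat_lit 4344546230) (nat_lit 76) (nat_lit 34244050134) (nat_lit 152) (nat_lit 62463175338) (nat_lit 13) (nat_lit 5) (nat_lit 14) (nat_lit 5) (nat_lit 15) (nat_lit 4) (nat_lit 407) (nat_lit 279) (nat_lit 94)) (XT.lf (nat_lit 0) (nat_lit 26058525046) (nat_lit 76) (nat_lit 23231109494) (nat_lit 152) (nat_lit 54439178323) (nat_lit 13) (nat_lit 5) (nat_lit 14) (nat_lit 5) (nat_lit 15) (nat_lit 4) (nat_lit 408) (nat_lit 279) (nat_lit 93))))) (XT.nd (nat_lit 30732) (nat_lit 0) (nat_lit 17176) (XT.nd (nat_lit 30576) (nat_lit 0) (nat_lit 17100) (XT.lf (nat_lit 0)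 (nat_lit 48418745423) (nat_lit 76) (nat_lit 11890141912) (nat_lit 152) (nat_lit 46177363209) (nat_lit 13) (nat_lit 5) (nat_lit 14) (nat_lit 5) (nat_lit 15) (nat_lit 4) (nat_lit 409) (nat_lit 279) (nat_lit 92)) (XT.nd (nat_lit 78) (nat_lit 0) (nat_lit 0) (XT.lf (nat_lit 0) (nat_lit 1168046725) (nat_lit 988) (nat_lit 1459228409) (nat_lit 988) (nat_lit 1459228409) (nat_lit 238) (nat_lit 3) (nat_lit 251) (nat_lit 3) (nat_lit 251) (nat_lit 5) (nat_lit 280) (nat_lit 280) (nat_lit 220)) (XT.lf (nat_lit 76) (nat_lit 844171664) (nat_lit 0) (nat_lit 2620330257) (nat_lit 988) (nat_lit 4796830247) (nat_lit 239) (nat_lit 5) (nat_lit 238) (nat_lit 3) (nat_lit 251) (nat_lit 5) (nat_lit 281) (nat_lit 280) (nat_lit 219)))) (XT.nd (nat_lit 156) (nat_lit 0) (nat_lit 0) (XT.nd (nat_lit 78) (nat_lit 0) (nat_lit 0) (XT.lf (nat_lit 0) (nat_lit 4615044868) (nat_lit 912) (nat_lit 3596908629) (nat_lit 988) (nat_lit 140762368)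 (nat_lit 239) (nat_lit 5) (nat_lit 251) (nat_lit 5) (nat_lit 252) (nat_lit 5) (nat_lit 282) (nat_lit 280) (nat_lit 218)) (XT.lf (nat_lit 76) (nat_lit 294644576) (nat_lit 0) (nat_lit 5493096443) (nat_lit 988) (nat_lit 2659526609) (nat_lit 240) (nat_lit 5) (nat_lit 239) (nat_lit 5) (nat_lit 252) (nat_lit 5) (nat_lit 283) (nat_lit 280) (nat_lit 217))) (XT.nd (nat_lit 78) (nat_lit 0) (nat_lit 76) (XT.lf (nat_lit 76) (nat_lit 4353792126) (nat_lit 0) (nat_lit 2637986643) (nat_lit 988) (nat_lit 1553046393) (nat_lit 240) (nat_lit 5) (nat_lit 239) (nat_lit 5) (nat_lit 252) (nat_lit 5) (nat_lit 284) (nat_lit 280) (nat_lit 216)) (XT.lf (nat_lit 0) (nat_lit 8196018082) (nat_lit 912) (nat_lit 137108012) (nat_lit 988) (nat_lit 313313382) (nat_lit 240) (nat_lit 5) (nat_lit 252) (nat_lit 5) (nat_lit 253) (nat_lit 5) (nat_lit 285) (nat_lit 280) (nat_lit 215))))))))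
noncomputable def xc154 : XT := (XT.nd (nat_lit 2106) (nat_lit 5320) (nat_lit 0) (XT.nd (nat_lit 1014) (nat_lit 4636) (nat_lit 0) (XT.nd (nat_lit 468) (nat_lit 1824) (nat_lit 0) (XT.nd (nat_lit 234) (nat_lit 0) (nat_lit 76) (XT.nd (nat_lit 78) (nat_lit 0) (nat_lit 0) (XT.lf (nat_lit 0) (nat_lit 699664055) (nat_lit 988) (nat_lit 4688388453) (nat_lit 1064) (nat_lit 3362068923) (nat_lit 227) (nat_lit 5) (nat_lit 240) (nat_lit 5) (nat_lit 241) (nat_lit 5) (nat_lit 286) (nat_lit 280) (nat_lit 214)) (XT.nd (nat_lit 78) (nat_lit 0) (nat_lit 76) (XT.lf (nat_lit 0) (nat_lit 1839365089) (nat_lit 988) (nat_lit 495474987) (nat_lit 1064) (nat_lit 6523063016) (nat_lit 227) (nat_lit 5) (nat_lit 240) (nat_lit 5) (nat_lit 241) (nat_lit 5) (nat_lit 287) (nat_lit 280) (nat_lit 213)) (XT.lf (nat_lit 0) (nat_lit 3022651691) (nat_lit 988) (nat_lit 5101148013) (nat_lit 1064) (nat_lit 844883276) (nat_lit 228) (nat_lit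 5) (nat_lit 241) (nat_lit 5) (nat_lit 242) (nat_lit 5) (nat_lit 288) (nat_lit 280) (nat_lit 212)))) (XT.nd (nat_lit 78) (nat_lit 0) (nat_lit 0) (XT.lf (nat_lit 0) (nat_lit 4234417568) (nat_lit 988) (nat_lit 758009829) (nat_lit 1064) (nat_lit 4090614706) (nat_lit 228) (nat_lit 5) (nat_lit 241) (nat_lit 5) (nat_lit 242) (nat_lit 5) (nat_lit 289) (nat_lit 280) (nat_lit 211)) (XT.nd (nat_lit 78) (nat_lit 0) (nat_lit 76) (XT.lf (nat_lit 76) (nat_lit 3765801146) (nat_lit 0) (nat_lit 1718769978) (nat_lit 1064) (nat_lit 3716243774) (nat_lit 229) (nat_lit 5) (nat_lit 228) (nat_lit 5) (nat_lit 242) (nat_lit 5) (nat_lit 290) (nat_lit 280) (nat_lit 210)) (XT.lf (nat_lit 0) (nat_lit 6762561771) (nat_lit 988) (nat_lit 921017245) (nat_lit 1064) (nat_lit 1638874548) (nat_lit 229) (nat_lit 5) (nat_lit 242) (nat_lit 5) (nat_lit 243) (nat_lit 5) (nat_lit 291) (nat_lit 280) (nat_lit 209))))) (XT.nd (nat_lit 234) (nat_lit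 988) (nat_lit 0) (XT.nd (nat_lit 78) (nat_lit 988) (nat_lit 0) (XT.lf (nat_lit 76) (nat_lit 3761456398) (nat_lit 0) (nat_lit 4338291947) (nat_lit 1064) (nat_lit 1347408775) (nat_lit 230) (nat_lit 5) (nat_lit 229) (nat_lit 5) (nat_lit 243) (nat_lit 5) (nat_lit 292) (nat_lit 280) (nat_lit 208)) (XT.nd (nat_lit 78) (nat_lit 988) (nat_lit 0) (XT.lf (nat_lit 76) (nat_lit 8580188078) (nat_lit 0) (nat_lit 874563478) (nat_lit 1064) (nat_lit 121559405) (nat_lit 230) (nat_lit 5) (nat_lit 229) (nat_lit 5) (nat_lit 243) (nat_lit 5) (nat_lit 293) (nat_lit 280) (nat_lit 207)) (XT.lf (nat_lit 0) (nat_lit 1151475212) (nat_lit 1064) (nat_lit 5859578236) (nat_lit 1140) (nat_lit 2697014534) (nat_lit 216) (nat_lit 5) (nat_lit 230) (nat_lit 5) (nat_lit 231) (nat_lit 5) (nat_lit 294) (nat_lit 280) (nat_lit 206)))) (XT.nd (nat_lit 156) (nat_lit 988) (nat_lit 0) (XT.nd (nat_lit 78) (nat_lit 0) (nat_lit 76) (XT.lf (nat_lit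 0) (nat_lit 2448809888) (nat_lit 1064) (nat_lit 1018449149) (nat_lit 1140) (nat_lit 6376862802) (nat_lit 216) (nat_lit 5) (nat_lit 230) (nat_lit 5) (nat_lit 231) (nat_lit 5) (nat_lit 295) (nat_lit 280) (nat_lit 205)) (XT.lf (nat_lit 0) (nat_lit 3796554974) (nat_lit 1064) (nat_lit 5962968774) (nat_lit 76) (nat_lit 224424578) (nat_lit 217) (nat_lit 5) (nat_lit 231) (nat_lit 5) (nat_lit 218) (nat_lit 5) (nat_lit 296) (nat_lit 280) (nat_lit 204))) (XT.nd (nat_lit 78) (nat_lit 1064) (nat_lit 0) (XT.lf (nat_lit 0) (nat_lit 5200755095) (nat_lit 1064) (nat_lit 953525578) (nat_lit 76) (nat_lit 3973242942) (nat_lit 217) (nat_lit 5) (nat_lit 231) (nat_lit 5) (nat_lit 218) (nat_lit 5) (nat_lit 297) (nat_lit 280) (nat_lit 203)) (XT.lf (nat_lit 0) (nat_lit 4266245187) (nat_lit 1064) (nat_lit 2393988723) (nat_lit 1140) (nat_lit 3614811347) (nat_lit 203) (nat_lit 5) (nat_lit 217) (nat_lit 5) (nat_lit 218) (nat_lit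 5) (nat_lit 298) (nat_lit 280) (nat_lit 202)))))) (XT.nd (nat_lit 546) (nat_lit 1596) (nat_lit 0) (XT.nd (nat_lit 234) (nat_lit 1824) (nat_lit 0) (XT.nd (nat_lit 78) (nat_lit 1216) (nat_lit 0) (XT.lf (nat_lit 0) (nat_lit 8160213941) (nat_lit 1140) (nat_lit 802731684) (nat_lit 76) (nat_lit 1464178115) (nat_lit 203) (nat_lit 5) (nat_lit 218) (nat_lit 5) (nat_lit 204) (nat_lit 5) (nat_lit 299) (nat_lit 280) (nat_lit 201)) (XT.nd (nat_lit 78) (nat_lit 76) (nat_lit 0) (XT.lf (nat_lit 0) (nat_lit 4602451597) (nat_lit 1140) (nat_lit 5144253833) (nat_lit 1216) (nat_lit 835845526) (nat_lit 188) (nat_lit 5) (nat_lit 203) (nat_lit 5) (nat_lit 204) (nat_lit 5) (nat_lit 300) (nat_lit 280) (nat_lit 200)) (XT.lf (nat_lit 0) (nat_lit 607714753) (nat_lit 1216) (nat_lit 585865023) (nat_lit 76) (nat_lit 9549446606) (nat_lit 187) (nat_lit 5) (nat_lit 203) (nat_lit 5) (nat_lit 188) (nat_lit 5) (nat_lit 301) (nat_lit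 280) (nat_lit 199)))) (XT.nd (nat_lit 156) (nat_lit 1140) (nat_lit 0) (XT.nd (nat_lit 78) (nat_lit 0) (nat_lit 0) (XT.lf (nat_lit 0) (nat_lit 2129025900) (nat_lit 760) (nat_lit 5898230138) (nat_lit 76) (nat_lit 2879303499) (nat_lit 178) (nat_lit 5) (nat_lit 188) (nat_lit 5) (nat_lit 179) (nat_lit 5) (nat_lit 302) (nat_lit 280) (nat_lit 198)) (XT.lf (nat_lit 0) (nat_lit 3688906235) (nat_lit 760) (nat_lit 327725048) (nat_lit 76) (nat_lit 7058607710) (nat_lit 178) (nat_lit 5) (nat_lit 188) (nat_lit 5) (nat_lit 179) (nat_lit 5) (nat_lit 303) (nat_lit 280) (nat_lit 197))) (XT.nd (nat_lit 78) (nat_lit 532) (nat_lit 0) (XT.lf (nat_lit 0) (nat_lit 5325895815) (nat_lit 684) (nat_lit 5755376397) (nat_lit 76) (nat_lit 166824619) (nat_lit 170) (nat_lit 5) (nat_lit 179) (nat_lit 5) (nat_lit 171) (nat_lit 5) (nat_lit 304) (nat_lit 280) (nat_lit 196)) (XT.lf (nat_lit 0) (nat_lit 5532226) (nat_lit 532) (nat_lit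 7025986689) (nat_lit 608) (nat_lit 4394062358) (nat_lit 163) (nat_lit 5) (nat_lit 170) (nat_lit 5) (nat_lit 171) (nat_lit 5) (nat_lit 305) (nat_lit 280) (nat_lit 195))))) (XT.nd (nat_lit 234) (nat_lit 988) (nat_lit 0) (XT.nd (nat_lit 78) (nat_lit 608) (nat_lit 0) (XT.lf (nat_lit 0) (nat_lit 6034244895) (nat_lit 532) (nat_lit 2789011141) (nat_lit 608) (nat_lit 2784111662) (nat_lit 163) (nat_lit 5) (nat_lit 170) (nat_lit 5) (nat_lit 171) (nat_lit 5) (nat_lit 306) (nat_lit 280) (nat_lit 194)) (XT.nd (nat_lit 78) (nat_lit 76) (nat_lit 0) (XT.lf (nat_lit 0) (nat_lit 419216703) (nat_lit 532) (nat_lit 10246202736) (nat_lit 608) (nat_lit 1129313110) (nat_lit 156) (nat_lit 5) (nat_lit 163) (nat_lit 5) (nat_lit 164) (nat_lit 5) (nat_lit 307) (nat_lit 280) (nat_lit 193)) (XT.lf (nat_lit 0) (nat_lit 626052877) (nat_lit 608) (nat_lit 5337435774) (nat_lit 76) (nat_lit 6022223071) (nat_lit 155) (nat_lit 5) (nat_lit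 163) (nat_lit 5) (nat_lit 156) (nat_lit 5) (nat_lit 308) (nat_lit 280) (nat_lit 192)))) (XT.nd (nat_lit 156) (nat_lit 532) (nat_lit 0) (XT.nd (nat_lit 78) (nat_lit 0) (nat_lit 0) (XT.lf (nat_lit 0) (nat_lit 864884298) (nat_lit 456) (nat_lit 1533158390) (nat_lit 532) (nat_lit 9784465246) (nat_lit 149) (nat_lit 5) (nat_lit 155) (nat_lit 5) (nat_lit 156) (nat_lit 5) (nat_lit 309) (nat_lit 280) (nat_lit 191)) (XT.lf (nat_lit 0) (nat_lit 4285502211) (nat_lit 532) (nat_lit 5073590543) (nat_lit 76) (nat_lit 3024268241) (nat_lit 149) (nat_lit 5) (nat_lit 156) (nat_lit 5) (nat_lit 150) (nat_lit 5) (nat_lit 310) (nat_lit 280) (nat_lit 190))) (XT.nd (nat_lit 78) (nat_lit 0) (nat_lit 0) (XT.lf (nat_lit 0) (nat_lit 1346504566) (nat_lit 532) (nat_lit 4890574787) (nat_lit 608) (nat_lit 6352957096) (nat_lit 142) (nat_lit 5) (nat_lit 149) (nat_lit 5) (nat_lit 150) (nat_lit 5) (nat_lit 311) (nat_lit 280) (nat_lit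 189)) (XT.lf (nat_lit 0) (nat_lit 8041070978) (nat_lit 532) (nat_lit 237124850) (nat_lit 608) (nat_lit 4523807565) (nat_lit 142) (nat_lit 5) (nat_lit 149) (nat_lit 5) (nat_lit 150) (nat_lit 5) (nat_lit 312) (nat_lit 280) (nat_lit 188))))))) (XT.nd (nat_lit 1092) (nat_lit 2356) (nat_lit 0) (XT.nd (nat_lit 546) (nat_lit 1140) (nat_lit 0) (XT.nd (nat_lit 234) (nat_lit 836) (nat_lit 0) (XT.nd (nat_lit 78) (nat_lit 532) (nat_lit 0) (XT.lf (nat_lit 0) (nat_lit 1887091903) (nat_lit 456) (nat_lit 8535718727) (nat_lit 532) (nat_lit 2596271144) (nat_lit 136) (nat_lit 5) (nat_lit 142) (nat_lit 5) (nat_lit 143) (nat_lit 5) (nat_lit 313) (nat_lit 280) (nat_lit 187)) (XT.nd (nat_lit 78) (nat_lit 532) (nat_lit 0) (XT.lf (nat_lit 0) (nat_lit 8807890678) (nat_lit 456) (nat_lit 3854967316) (nat_lit 532) (nat_lit 578901469) (nat_lit 136) (nat_lit 5) (nat_lit 142) (nat_lit 5) (nat_lit 143) (nat_lit 5) (nat_lit 314)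 (nat_lit 280) (nat_lit 186)) (XT.lf (nat_lit 0) (nat_lit 1484245624) (nat_lit 532) (nat_lit 11002691663) (nat_lit 76) (nat_lit 983331357) (nat_lit 129) (nat_lit 5) (nat_lit 136) (nat_lit 5) (nat_lit 130) (nat_lit 5) (nat_lit 315) (nat_lit 280) (nat_lit 185)))) (XT.nd (nat_lit 156) (nat_lit 456) (nat_lit 0) (XT.nd (nat_lit 78) (nat_lit 380) (nat_lit 0) (XT.lf (nat_lit 0) (nat_lit 3662406712) (nat_lit 532) (nat_lit 4103639072) (nat_lit 76) (nat_lit 5937490820) (nat_lit 129) (nat_lit 5) (nat_lit 136) (nat_lit 5) (nat_lit 130) (nat_lit 5) (nat_lit 316) (nat_lit 280) (nat_lit 184)) (XT.lf (nat_lit 0) (nat_lit 3040391497) (nat_lit 380) (nat_lit 2876660104) (nat_lit 456) (nat_lit 8026434407) (nat_lit 124) (nat_lit 5) (nat_lit 129) (nat_lit 5) (nat_lit 130) (nat_lit 5) (nat_lit 317) (nat_lit 280) (nat_lit 183))) (XT.nd (nat_lit 78) (nat_lit 456) (nat_lit 0) (XT.lf (nat_lit 0) (nat_lit 8284146888) (nat_lit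 456) (nat_lit 3749326301) (nat_lit 76) (nat_lit 2155833438) (nat_lit 124) (nat_lit 5) (nat_lit 130) (nat_lit 5) (nat_lit 125) (nat_lit 5) (nat_lit 318) (nat_lit 280) (nat_lit 182)) (XT.lf (nat_lit 0) (nat_lit 3640613389) (nat_lit 456) (nat_lit 7127842061) (nat_lit 532) (nat_lit 3672676969) (nat_lit 118) (nat_lit 5) (nat_lit 124) (nat_lit 5) (nat_lit 125) (nat_lit 5) (nat_lit 319) (nat_lit 280) (nat_lit 181))))) (XT.nd (nat_lit 234) (nat_lit 684) (nat_lit 0) (XT.nd (nat_lit 78) (nat_lit 456) (nat_lit 0) (XT.lf (nat_lit 0) (nat_lit 11308313415) (nat_lit 456) (nat_lit 2039866848) (nat_lit 532) (nat_lit 1351722194) (nat_lit 118) (nat_lit 5) (nat_lit 124) (nat_lit 5) (nat_lit 125) (nat_lit 5) (nat_lit 320) (nat_lit 280) (nat_lit 180)) (XT.nd (nat_lit 78) (nat_lit 0) (nat_lit 0) (XT.lf (nat_lit 0) (nat_lit 1074434616) (nat_lit 456) (nat_lit 10703795271) (nat_lit 76) (nat_lit 3186245927) (nat_lit 112)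 (nat_lit 5) (nat_lit 118) (nat_lit 5) (nat_lit 113) (nat_lit 5) (nat_lit 321) (nat_lit 280) (nat_lit 179)) (XT.lf (nat_lit 0) (nat_lit 3584585688) (nat_lit 456) (nat_lit 3078638296) (nat_lit 76) (nat_lit 8572224270) (nat_lit 112) (nat_lit 5) (nat_lit 118) (nat_lit 5) (nat_lit 113) (nat_lit 5) (nat_lit 322) (nat_lit 280) (nat_lit 178)))) (XT.nd (nat_lit 156) (nat_lit 304) (nat_lit 0) (XT.nd (nat_lit 78) (nat_lit 0) (nat_lit 0) (XT.lf (nat_lit 0) (nat_lit 4849711977) (nat_lit 380) (nat_lit 1351019207) (nat_lit 456) (nat_lit 9312912276) (nat_lit 107) (nat_lit 5) (nat_lit 112) (nat_lit 5) (nat_lit 113) (nat_lit 5) (nat_lit 323) (nat_lit 280) (nat_lit 177)) (XT.lf (nat_lit 0) (nat_lit 8950667779) (nat_lit 456) (nat_lit 2780587712) (nat_lit 76) (nat_lit 4067283704) (nat_lit 107) (nat_lit 5) (nat_lit 113) (nat_lit 5) (nat_lit 108) (nat_lit 5) (nat_lit 324) (nat_lit 280) (nat_lit 176))) (XT.nd (nat_lit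 78) (nat_lit 0) (nat_lit 0) (XT.lf (nat_lit 0) (nat_lit 5411635203) (nat_lit 304) (nat_lit 6421622337) (nat_lit 380) (nat_lit 4257233080) (nat_lit 103) (nat_lit 5) (nat_lit 107) (nat_lit 5) (nat_lit 108) (nat_lit 5) (nat_lit 325) (nat_lit 280) (nat_lit 175)) (XT.lf (nat_lit 0) (nat_lit 13886973453) (nat_lit 304) (nat_lit 928443745) (nat_lit 380) (nat_lit 1575403700) (nat_lit 103) (nat_lit 5) (nat_lit 107) (nat_lit 5) (nat_lit 108) (nat_lit 5) (nat_lit 326) (nat_lit 280) (nat_lit 174)))))) (XT.nd (nat_lit 546) (nat_lit 912) (nat_lit 0) (XT.nd (nat_lit 234) (nat_lit 684) (nat_lit 0) (XT.nd (nat_lit 78) (nat_lit 304) (nat_lit 0) (XT.lf (nat_lit 0) (nat_lit 1252818542) (nat_lit 456) (nat_lit 10741889963) (nat_lit 76) (nat_lit 4702449688) (nat_lit 97) (nat_lit 5) (nat_lit 103) (nat_lit 5) (nat_lit 98) (nat_lit 5) (nat_lit 327) (nat_lit 280) (nat_lit 173)) (XT.nd (nat_lit 78) (nat_lit 304) (nat_lit 0)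 (XT.lf (nat_lit 0) (nat_lit 4154442269) (nat_lit 456) (nat_lit 2337077866) (nat_lit 76) (nat_lit 10520102932) (nat_lit 97) (nat_lit 5) (nat_lit 103) (nat_lit 5) (nat_lit 98) (nat_lit 5) (nat_lit 328) (nat_lit 280) (nat_lit 172)) (XT.lf (nat_lit 0) (nat_lit 6426254994) (nat_lit 304) (nat_lit 764547442) (nat_lit 380) (nat_lit 10143300439) (nat_lit 93) (nat_lit 5) (nat_lit 97) (nat_lit 5) (nat_lit 98) (nat_lit 5) (nat_lit 329) (nat_lit 280) (nat_lit 171)))) (XT.nd (nat_lit 156) (nat_lit 380) (nat_lit 0) (XT.nd (nat_lit 78) (nat_lit 304) (nat_lit 0) (XT.lf (nat_lit 0) (nat_lit 10377536323) (nat_lit 380) (nat_lit 2233956071) (nat_lit 76) (nat_lit 5052997476) (nat_lit 93) (nat_lit 5) (nat_lit 98) (nat_lit 5) (nat_lit 94) (nat_lit 5) (nat_lit 330) (nat_lit 280) (nat_lit 170)) (XT.lf (nat_lit 0) (nat_lit 6806751050) (nat_lit 304) (nat_lit 6912622525) (nat_lit 380) (nat_lit 4283640812) (nat_lit 89) (nat_lit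 5) (nat_lit 93) (nat_lit 5) (nat_lit 94) (nat_lit 5) (nat_lit 331) (nat_lit 280) (nat_lit 169))) (XT.nd (nat_lit 78) (nat_lit 380) (nat_lit 0) (XT.lf (nat_lit 0) (nat_lit 16146000300) (nat_lit 304) (nat_lit 1024740743) (nat_lit 380) (nat_lit 1180685976) (nat_lit 89) (nat_lit 5) (nat_lit 93) (nat_lit 5) (nat_lit 94) (nat_lit 5) (nat_lit 332) (nat_lit 280) (nat_lit 168)) (XT.lf (nat_lit 0) (nat_lit 2081064535) (nat_lit 380) (nat_lit 11600095710) (nat_lit 76) (nat_lit 5025409607) (nat_lit 84) (nat_lit 5) (nat_lit 89) (nat_lit 5) (nat_lit 85) (nat_lit 5) (nat_lit 333) (nat_lit 280) (nat_lit 167))))) (XT.nd (nat_lit 234) (nat_lit 608) (nat_lit 0) (XT.nd (nat_lit 78) (nat_lit 304) (nat_lit 0) (XT.lf (nat_lit 0) (nat_lit 5436695885) (nat_lit 380) (nat_lit 2369184658) (nat_lit 76) (nat_lit 11265552690) (nat_lit 84) (nat_lit 5) (nat_lit 89) (nat_lit 5) (nat_lit 85) (nat_lit 5) (nat_lit 334) (nat_lit 280)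 (nat_lit 166)) (XT.nd (nat_lit 78) (nat_lit 0) (nat_lit 0) (XT.lf (nat_lit 0) (nat_lit 7262536523) (nat_lit 304) (nat_lit 1687768694) (nat_lit 380) (nat_lit 10495227476) (nat_lit 80) (nat_lit 5) (nat_lit 84) (nat_lit 5) (nat_lit 85) (nat_lit 5) (nat_lit 335) (nat_lit 280) (nat_lit 165)) (XT.lf (nat_lit 0) (nat_lit 12625475367) (nat_lit 380) (nat_lit 2660938052) (nat_lit 76) (nat_lit 4542766313) (nat_lit 80) (nat_lit 5) (nat_lit 85) (nat_lit 5) (nat_lit 81) (nat_lit 5) (nat_lit 336) (nat_lit 280) (nat_lit 164)))) (XT.nd (nat_lit 156) (nat_lit 380) (nat_lit 0) (XT.nd (nat_lit 78) (nat_lit 0) (nat_lit 0) (XT.lf (nat_lit 0) (nat_lit 7254162403) (nat_lit 228) (nat_lit 9231180290) (nat_lit 304) (nat_lit 3736769131) (nat_lit 77) (nat_lit 5) (nat_lit 80) (nat_lit 5) (nat_lit 81) (nat_lit 5) (nat_lit 337) (nat_lit 280) (nat_lit 163)) (XT.lf (nat_lit 0) (nat_lit 17503970045) (nat_lit 228) (nat_lit 2972089585)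 (nat_lit 304) (nat_lit 150329288) (nat_lit 77) (nat_lit 5) (nat_lit 80) (nat_lit 5) (nat_lit 81) (nat_lit 5) (nat_lit 338) (nat_lit 280) (nat_lit 162))) (XT.nd (nat_lit 78) (nat_lit 0) (nat_lit 0) (XT.lf (nat_lit 0) (nat_lit 3565629723) (nat_lit 380) (nat_lit 13968391860) (nat_lit 76) (nat_lit 3505026673) (nat_lit 72) (nat_lit 5) (nat_lit 77) (nat_lit 5) (nat_lit 73) (nat_lit 5) (nat_lit 339) (nat_lit 280) (nat_lit 161)) (XT.lf (nat_lit 0) (nat_lit 7439844152) (nat_lit 380) (nat_lit 3877997140) (nat_lit 76) (nat_lit 10144715398) (nat_lit 72) (nat_lit 5) (nat_lit 77) (nat_lit 5) (nat_lit 73) (nat_lit 5) (nat_lit 340) (nat_lit 280) (nat_lit 160))))))))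
noncomputable def xc155 : XT := (XT.nd (nat_lit 2184) (nat_lit 1368) (nat_lit 0) (XT.nd (nat_lit 1092) (nat_lit 1216) (nat_lit 0) (XT.nd (nat_lit 546) (nat_lit 608) (nat_lit 0) (XT.nd (nat_lit 234) (nat_lit 532) (nat_lit 0) (XT.nd (nat_lit 78) (nat_lit 228) (nat_lit 0) (XT.lf (nat_lit 0) (nat_lit 6627782191) (nat_lit 228) (nat_lit 4855076225) (nat_lit 304) (nat_lit 10414342440) (nat_lit 69) (nat_lit 5) (nat_lit 72) (nat_lit 5) (nat_lit 73) (nat_lit 5) (nat_lit 341) (nat_lit 280) (nat_lit 159)) (XT.nd (nat_lit 78) (nat_lit 228) (nat_lit 0) (XT.lf (nat_lit 0) (nat_lit 15693004618) (nat_lit 304) (nat_lit 4849964327) (nat_lit 76) (nat_lit 1800547615) (nat_lit 69) (nat_lit 5) (nat_lit 73) (nat_lit 5) (nat_lit 70) (nat_lit 5) (nat_lit 342) (nat_lit 280) (nat_lit 158)) (XT.lf (nat_lit 0) (nat_lit 5933496900) (nat_lit 228) (nat_lit 14190361667) (nat_lit 304) (nat_lit 2676538309) (nat_lit 66) (nat_lit 5)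 (nat_lit 69) (nat_lit 5) (nat_lit 70) (nat_lit 5) (nat_lit 343) (nat_lit 280) (nat_lit 157)))) (XT.nd (nat_lit 156) (nat_lit 228) (nat_lit 0) (XT.nd (nat_lit 78) (nat_lit 228) (nat_lit 0) (XT.lf (nat_lit 0) (nat_lit 1427812800) (nat_lit 304) (nat_lit 6160085319) (nat_lit 76) (nat_lit 15681519706) (nat_lit 65) (nat_lit 5) (nat_lit 69) (nat_lit 5) (nat_lit 66) (nat_lit 5) (nat_lit 344) (nat_lit 280) (nat_lit 156)) (XT.lf (nat_lit 0) (nat_lit 4921597910) (nat_lit 228) (nat_lit 716862860) (nat_lit 304) (nat_lit 18112151383) (nat_lit 62) (nat_lit 5) (nat_lit 65) (nat_lit 5) (nat_lit 66) (nat_lit 5) (nat_lit 345) (nat_lit 280) (nat_lit 155))) (XT.nd (nat_lit 78) (nat_lit 228) (nat_lit 0) (XT.lf (nat_lit 0) (nat_lit 10089137884) (nat_lit 304) (nat_lit 7860101080) (nat_lit 76) (nat_lit 6293598491) (nat_lit 62) (nat_lit 5) (nat_lit 66) (nat_lit 5) (nat_lit 63) (nat_lit 5) (nat_lit 346) (nat_lit 280) (nat_lit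 154)) (XT.lf (nat_lit 0) (nat_lit 3483240511) (nat_lit 228) (nat_lit 11220723940) (nat_lit 304) (nat_lit 10044952436) (nat_lit 59) (nat_lit 5) (nat_lit 62) (nat_lit 5) (nat_lit 63) (nat_lit 5) (nat_lit 347) (nat_lit 280) (nat_lit 153))))) (XT.nd (nat_lit 234) (nat_lit 380) (nat_lit 0) (XT.nd (nat_lit 78) (nat_lit 228) (nat_lit 0) (XT.lf (nat_lit 0) (nat_lit 15312646911) (nat_lit 228) (nat_lit 4214151167) (nat_lit 304) (nat_lit 5741299821) (nat_lit 59) (nat_lit 5) (nat_lit 62) (nat_lit 5) (nat_lit 63) (nat_lit 5) (nat_lit 348) (nat_lit 280) (nat_lit 152)) (XT.nd (nat_lit 78) (nat_lit 76) (nat_lit 0) (XT.lf (nat_lit 0) (nat_lit 1682905470) (nat_lit 152) (nat_lit 22846875931) (nat_lit 228) (nat_lit 1272014886) (nat_lit 57) (nat_lit 5) (nat_lit 59) (nat_lit 5) (nat_lit 60) (nat_lit 5) (nat_lit 349) (nat_lit 280) (nat_lit 151)) (XT.lf (nat_lit 0) (nat_lit 3400052297) (nat_lit 228) (nat_lit 12563941775)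 (nat_lit 76) (nat_lit 10382545107) (nat_lit 56) (nat_lit 5) (nat_lit 59) (nat_lit 5) (nat_lit 57) (nat_lit 5) (nat_lit 350) (nat_lit 280) (nat_lit 150)))) (XT.nd (nat_lit 156) (nat_lit 152) (nat_lit 0) (XT.nd (nat_lit 78) (nat_lit 228) (nat_lit 0) (XT.lf (nat_lit 0) (nat_lit 8177453272) (nat_lit 228) (nat_lit 689694865) (nat_lit 76) (nat_lit 18040381641) (nat_lit 56) (nat_lit 5) (nat_lit 59) (nat_lit 5) (nat_lit 57) (nat_lit 5) (nat_lit 351) (nat_lit 280) (nat_lit 149)) (XT.lf (nat_lit 0) (nat_lit 11755851864) (nat_lit 228) (nat_lit 1446336635) (nat_lit 304) (nat_lit 14280046461) (nat_lit 53) (nat_lit 5) (nat_lit 56) (nat_lit 5) (nat_lit 57) (nat_lit 5) (nat_lit 352) (nat_lit 280) (nat_lit 148))) (XT.nd (nat_lit 78) (nat_lit 152) (nat_lit 0) (XT.lf (nat_lit 0) (nat_lit 18435351805) (nat_lit 304) (nat_lit 3559114648) (nat_lit 76) (nat_lit 6077989342) (nat_lit 53) (nat_lit 5) (nat_lit 57) (nat_lit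 5) (nat_lit 54) (nat_lit 5) (nat_lit 353) (nat_lit 280) (nat_lit 147)) (XT.lf (nat_lit 0) (nat_lit 9122885552) (nat_lit 152) (nat_lit 14795981313) (nat_lit 228) (nat_lit 4758720615) (nat_lit 51) (nat_lit 5) (nat_lit 53) (nat_lit 5) (nat_lit 54) (nat_lit 5) (nat_lit 354) (nat_lit 280) (nat_lit 146)))))) (XT.nd (nat_lit 546) (nat_lit 532) (nat_lit 0) (XT.nd (nat_lit 234) (nat_lit 380) (nat_lit 0) (XT.nd (nat_lit 78) (nat_lit 228) (nat_lit 0) (XT.lf (nat_lit 0) (nat_lit 288491030) (nat_lit 228) (nat_lit 7058429465) (nat_lit 76) (nat_lit 21953050526) (nat_lit 50) (nat_lit 5) (nat_lit 53) (nat_lit 5) (nat_lit 51) (nat_lit 5) (nat_lit 355) (nat_lit 280) (nat_lit 145)) (XT.nd (nat_lit 78) (nat_lit 0) (nat_lit 0) (XT.lf (nat_lit 0) (nat_lit 5443593084) (nat_lit 304) (nat_lit 24075807144) (nat_lit 76) (nat_lit 418653281) (nat_lit 47) (nat_lit 5) (nat_lit 51) (nat_lit 5) (nat_lit 48) (nat_lit 5) (nat_lit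 356) (nat_lit 280) (nat_lit 144)) (XT.lf (nat_lit 0) (nat_lit 10889759228) (nat_lit 304) (nat_lit 11365040109) (nat_lit 76) (nat_lit 8336391185) (nat_lit 47) (nat_lit 5) (nat_lit 51) (nat_lit 5) (nat_lit 48) (nat_lit 5) (nat_lit 357) (nat_lit 280) (nat_lit 143)))) (XT.nd (nat_lit 156) (nat_lit 228) (nat_lit 0) (XT.nd (nat_lit 78) (nat_lit 0) (nat_lit 0) (XT.lf (nat_lit 0) (nat_lit 1747870003) (nat_lit 152) (nat_lit 14760171307) (nat_lit 228) (nat_lit 14755622660) (nat_lit 45) (nat_lit 5) (nat_lit 47) (nat_lit 5) (nat_lit 48) (nat_lit 5) (nat_lit 358) (nat_lit 280) (nat_lit 142)) (XT.lf (nat_lit 0) (nat_lit 15473982694) (nat_lit 152) (nat_lit 6927691733) (nat_lit 228) (nat_lit 9551437247) (nat_lit 45) (nat_lit 5) (nat_lit 47) (nat_lit 5) (nat_lit 48) (nat_lit 5) (nat_lit 359) (nat_lit 280) (nat_lit 141))) (XT.nd (nat_lit 78) (nat_lit 228) (nat_lit 0) (XT.lf (nat_lit 0) (nat_lit 28475294006) (nat_lit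 228) (nat_lit 3075281262) (nat_lit 76) (nat_lit 1112576226) (nat_lit 45) (nat_lit 5) (nat_lit 48) (nat_lit 5) (nat_lit 46) (nat_lit 5) (nat_lit 360) (nat_lit 280) (nat_lit 140)) (XT.lf (nat_lit 0) (nat_lit 1477627341) (nat_lit 228) (nat_lit 22542566230) (nat_lit 76) (nat_lit 9368904856) (nat_lit 42) (nat_lit 5) (nat_lit 45) (nat_lit 5) (nat_lit 43) (nat_lit 5) (nat_lit 361) (nat_lit 280) (nat_lit 139))))) (XT.nd (nat_lit 234) (nat_lit 380) (nat_lit 0) (XT.nd (nat_lit 78) (nat_lit 152) (nat_lit 0) (XT.lf (nat_lit 0) (nat_lit 7252737346) (nat_lit 228) (nat_lit 8941236998) (nat_lit 76) (nat_lit 17940894205) (nat_lit 42) (nat_lit 5) (nat_lit 45) (nat_lit 5) (nat_lit 43) (nat_lit 5) (nat_lit 362) (nat_lit 280) (nat_lit 138)) (XT.nd (nat_lit 78) (nat_lit 0) (nat_lit 0) (XT.lf (nat_lit 0) (nat_lit 5156507773) (nat_lit 152) (nat_lit 8086850324) (nat_lit 228) (nat_lit 21658389514) (nat_lit 40) (nat_lit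 5) (nat_lit 42) (nat_lit 5) (nat_lit 43) (nat_lit 5) (nat_lit 363) (nat_lit 280) (nat_lit 137)) (XT.lf (nat_lit 0) (nat_lit 19500152252) (nat_lit 228) (nat_lit 15844178608) (nat_lit 76) (nat_lit 344712000) (nat_lit 40) (nat_lit 5) (nat_lit 43) (nat_lit 5) (nat_lit 41) (nat_lit 5) (nat_lit 364) (nat_lit 280) (nat_lit 136)))) (XT.nd (nat_lit 156) (nat_lit 228) (nat_lit 0) (XT.nd (nat_lit 78) (nat_lit 152) (nat_lit 0) (XT.lf (nat_lit 0) (nat_lit 26017668606) (nat_lit 228) (nat_lit 1618094104) (nat_lit 76) (nat_lit 8862007064) (nat_lit 40) (nat_lit 5) (nat_lit 43) (nat_lit 5) (nat_lit 41) (nat_lit 5) (nat_lit 365) (nat_lit 280) (nat_lit 135)) (XT.lf (nat_lit 0) (nat_lit 13282366802) (nat_lit 152) (nat_lit 19569177756) (nat_lit 228) (nat_lit 4475592174) (nat_lit 38) (nat_lit 5) (nat_lit 40) (nat_lit 5) (nat_lit 41) (nat_lit 5) (nat_lit 366) (nat_lit 280) (nat_lit 134))) (XT.nd (nat_lit 78) (nat_lit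 152) (nat_lit 0) (XT.lf (nat_lit 0) (nat_lit 1685378569) (nat_lit 228) (nat_lit 9546092063) (nat_lit 76) (nat_lit 26949133997) (nat_lit 37) (nat_lit 5) (nat_lit 40) (nat_lit 5) (nat_lit 38) (nat_lit 5) (nat_lit 367) (nat_lit 280) (nat_lit 133)) (XT.lf (nat_lit 0) (nat_lit 5438069871) (nat_lit 152) (nat_lit 2548801321) (nat_lit 228) (nat_lit 31070109538) (nat_lit 35) (nat_lit 5) (nat_lit 37) (nat_lit 5) (nat_lit 38) (nat_lit 5) (nat_lit 368) (nat_lit 280) (nat_lit 132))))))) (XT.nd (nat_lit 1092) (nat_lit 608) (nat_lit 0) (XT.nd (nat_lit 546) (nat_lit 456) (nat_lit 0) (XT.nd (nat_lit 234) (nat_lit 152) (nat_lit 0) (XT.nd (nat_lit 78) (nat_lit 152) (nat_lit 0) (XT.lf (nat_lit 0) (nat_lit 14629641035) (nat_lit 228) (nat_lit 18963058672) (nat_lit 76) (nat_lit 6362384333) (nat_lit 35) (nat_lit 5) (nat_lit 38) (nat_lit 5) (nat_lit 36) (nat_lit 5) (nat_lit 369) (nat_lit 280) (nat_lit 131)) (XT.nd (nat_lit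 78) (nat_lit 152) (nat_lit 0) (XT.lf (nat_lit 0) (nat_lit 21490536247) (nat_lit 228) (nat_lit 3903760596) (nat_lit 76) (nat_lit 15485271147) (nat_lit 35) (nat_lit 5) (nat_lit 38) (nat_lit 5) (nat_lit 36) (nat_lit 5) (nat_lit 370) (nat_lit 280) (nat_lit 130)) (XT.lf (nat_lit 0) (nat_lit 11827438538) (nat_lit 152) (nat_lit 16837305184) (nat_lit 228) (nat_lit 13163820905) (nat_lit 33) (nat_lit 5) (nat_lit 35) (nat_lit 5) (nat_lit 36) (nat_lit 5) (nat_lit 371) (nat_lit 280) (nat_lit 129)))) (XT.nd (nat_lit 156) (nat_lit 76) (nat_lit 0) (XT.nd (nat_lit 78) (nat_lit 76) (nat_lit 0) (XT.lf (nat_lit 0) (nat_lit 28100027750) (nat_lit 152) (nat_lit 7987442028) (nat_lit 228) (nat_lit 6717565265) (nat_lit 33) (nat_lit 5) (nat_lit 35) (nat_lit 5) (nat_lit 36) (nat_lit 5) (nat_lit 372) (nat_lit 280) (nat_lit 128)) (XT.lf (nat_lit 0) (nat_lit 1049226082) (nat_lit 76) (nat_lit 42698588629) (nat_lit 152) (nat_lit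 62539321) (nat_lit 32) (nat_lit 5) (nat_lit 33) (nat_lit 5) (nat_lit 34) (nat_lit 4) (nat_lit 373) (nat_lit 280) (nat_lit 127))) (XT.nd (nat_lit 78) (nat_lit 0) (nat_lit 0) (XT.lf (nat_lit 0) (nat_lit 6882667414) (nat_lit 152) (nat_lit 27420117457) (nat_lit 76) (nat_lit 10534399368) (nat_lit 31) (nat_lit 5) (nat_lit 33) (nat_lit 5) (nat_lit 32) (nat_lit 5) (nat_lit 374) (nat_lit 280) (nat_lit 126)) (XT.lf (nat_lit 0) (nat_lit 14029170986) (nat_lit 152) (nat_lit 11629612677) (nat_lit 76) (nat_lit 20236193540) (nat_lit 31) (nat_lit 5) (nat_lit 33) (nat_lit 5) (nat_lit 32) (nat_lit 5) (nat_lit 375) (nat_lit 280) (nat_lit 125))))) (XT.nd (nat_lit 234) (nat_lit 304) (nat_lit 0) (XT.nd (nat_lit 78) (nat_lit 0) (nat_lit 0) (XT.lf (nat_lit 0) (nat_lit 4716827374) (nat_lit 152) (nat_lit 16712949932) (nat_lit 228) (nat_lit 25553537706) (nat_lit 29) (nat_lit 5) (nat_lit 31) (nat_lit 5) (nat_lit 32) (nat_lit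 5) (nat_lit 376) (nat_lit 280) (nat_lit 124)) (XT.nd (nat_lit 78) (nat_lit 0) (nat_lit 0) (XT.lf (nat_lit 0) (nat_lit 21782330420) (nat_lit 152) (nat_lit 7381944883) (nat_lit 228) (nat_lit 18936673668) (nat_lit 29) (nat_lit 5) (nat_lit 31) (nat_lit 5) (nat_lit 32) (nat_lit 5) (nat_lit 377) (nat_lit 280) (nat_lit 123)) (XT.lf (nat_lit 0) (nat_lit 37146795030) (nat_lit 228) (nat_lit 9923307725) (nat_lit 76) (nat_lit 2181531744) (nat_lit 29) (nat_lit 5) (nat_lit 32) (nat_lit 5) (nat_lit 30) (nat_lit 4) (nat_lit 378) (nat_lit 280) (nat_lit 122)))) (XT.nd (nat_lit 156) (nat_lit 152) (nat_lit 0) (XT.nd (nat_lit 78) (nat_lit 76) (nat_lit 0) (XT.lf (nat_lit 0) (nat_lit 7018439660) (nat_lit 76) (nat_lit 38485623593) (nat_lit 152) (nat_lit 4928721245) (nat_lit 28) (nat_lit 5) (nat_lit 29) (nat_lit 5) (nat_lit 30) (nat_lit 4) (nat_lit 379) (nat_lit 280) (nat_lit 121)) (XT.lf (nat_lit 0) (nat_lit 2510553423)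 (nat_lit 152) (nat_lit 27008475213) (nat_lit 76) (nat_lit 22126754290) (nat_lit 27) (nat_lit 5) (nat_lit 29) (nat_lit 5) (nat_lit 28) (nat_lit 5) (nat_lit 380) (nat_lit 280) (nat_lit 120))) (XT.nd (nat_lit 78) (nat_lit 152) (nat_lit 0) (XT.lf (nat_lit 0) (nat_lit 10068827972) (nat_lit 152) (nat_lit 10168262710) (nat_lit 76) (nat_lit 32656772043) (nat_lit 27) (nat_lit 5) (nat_lit 29) (nat_lit 5) (nat_lit 28) (nat_lit 5) (nat_lit 381) (nat_lit 280) (nat_lit 119)) (XT.lf (nat_lit 0) (nat_lit 7311050225) (nat_lit 152) (nat_lit 10608111882) (nat_lit 228) (nat_lit 36258265328) (nat_lit 25) (nat_lit 5) (nat_lit 27) (nat_lit 5) (nat_lit 28) (nat_lit 5) (nat_lit 382) (nat_lit 280) (nat_lit 118)))))) (XT.nd (nat_lit 546) (nat_lit 304) (nat_lit 0) (XT.nd (nat_lit 234) (nat_lit 228) (nat_lit 0) (XT.nd (nat_lit 78) (nat_lit 76) (nat_lit 0) (XT.lf (nat_lit 0) (nat_lit 25514497089) (nat_lit 152) (nat_lit 588282939)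 (nat_lit 228) (nat_lit 29393787649) (nat_lit 25) (nat_lit 5) (nat_lit 27) (nat_lit 5) (nat_lit 28) (nat_lit 5) (nat_lit 383) (nat_lit 280) (nat_lit 117)) (XT.nd (nat_lit 78) (nat_lit 76) (nat_lit 0) (XT.lf (nat_lit 0) (nat_lit 34620659645) (nat_lit 228) (nat_lit 12693327349) (nat_lit 76) (nat_lit 9538634292) (nat_lit 25) (nat_lit 5) (nat_lit 28) (nat_lit 5) (nat_lit 26) (nat_lit 4) (nat_lit 384) (nat_lit 280) (nat_lit 116)) (XT.lf (nat_lit 0) (nat_lit 5201460317) (nat_lit 76) (nat_lit 38243781149) (nat_lit 152) (nat_lit 14802581763) (nat_lit 24) (nat_lit 5) (nat_lit 25) (nat_lit 5) (nat_lit 26) (nat_lit 4) (nat_lit 385) (nat_lit 280) (nat_lit 115)))) (XT.nd (nat_lit 156) (nat_lit 152) (nat_lit 0) (XT.nd (nat_lit 78) (nat_lit 76) (nat_lit 0) (XT.lf (nat_lit 0) (nat_lit 23885081167) (nat_lit 76) (nat_lit 28773055658) (nat_lit 152) (nat_lit 7023038775) (nat_lit 24) (nat_lit 5) (nat_lit 25) (nat_lit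 5) (nat_lit 26) (nat_lit 4) (nat_lit 386) (nat_lit 280) (nat_lit 114)) (XT.lf (nat_lit 0) (nat_lit 966060761) (nat_lit 152) (nat_lit 18045896767) (nat_lit 76) (nat_lit 42145422510) (nat_lit 23) (nat_lit 5) (nat_lit 25) (nat_lit 5) (nat_lit 24) (nat_lit 5) (nat_lit 387) (nat_lit 280) (nat_lit 113))) (XT.nd (nat_lit 78) (nat_lit 0) (nat_lit 0) (XT.lf (nat_lit 0) (nat_lit 162616446) (nat_lit 152) (nat_lit 8888241926) (nat_lit 228) (nat_lit 53625012260) (nat_lit 21) (nat_lit 5) (nat_lit 23) (nat_lit 5) (nat_lit 24) (nat_lit 5) (nat_lit 388) (nat_lit 280) (nat_lit 112)) (XT.lf (nat_lit 0) (nat_lit 17572666171) (nat_lit 228) (nat_lit 44971590936) (nat_lit 76) (nat_lit 1689826318) (nat_lit 21) (nat_lit 5) (nat_lit 24) (nat_lit 5) (nat_lit 22) (nat_lit 4) (nat_lit 389) (nat_lit 280) (nat_lit 111))))) (XT.nd (nat_lit 234) (nat_lit 228) (nat_lit 0) (XT.nd (nat_lit 78) (nat_lit 76) (nat_lit 0) (XT.lf (nat_lit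 0) (nat_lit 26433895897) (nat_lit 228) (nat_lit 26999301790) (nat_lit 76) (nat_lit 12403333308) (nat_lit 21) (nat_lit 5) (nat_lit 24) (nat_lit 5) (nat_lit 22) (nat_lit 4) (nat_lit 390) (nat_lit 280) (nat_lit 110)) (XT.nd (nat_lit 78) (nat_lit 76) (nat_lit 0) (XT.lf (nat_lit 0) (nat_lit 35556851153) (nat_lit 228) (nat_lit 8495243588) (nat_lit 76) (nat_lit 23435081975) (nat_lit 21) (nat_lit 5) (nat_lit 24) (nat_lit 5) (nat_lit 22) (nat_lit 4) (nat_lit 391) (nat_lit 280) (nat_lit 109)) (XT.lf (nat_lit 0) (nat_lit 10766852333) (nat_lit 76) (nat_lit 34286148692) (nat_lit 152) (nat_lit 24131356949) (nat_lit 20) (nat_lit 5) (nat_lit 21) (nat_lit 5) (nat_lit 22) (nat_lit 4) (nat_lit 392) (nat_lit 280) (nat_lit 108)))) (XT.nd (nat_lit 156) (nat_lit 228) (nat_lit 0) (XT.nd (nat_lit 78) (nat_lit 0) (nat_lit 0) (XT.lf (nat_lit 0) (nat_lit 30773841634) (nat_lit 76) (nat_lit 24142035329) (nat_lit 152) (nat_lit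 16014123763) (nat_lit 20) (nat_lit 5) (nat_lit 21) (nat_lit 5) (nat_lit 22) (nat_lit 4) (nat_lit 393) (nat_lit 280) (nat_lit 107)) (XT.lf (nat_lit 0) (nat_lit 51374134145) (nat_lit 76) (nat_lit 13696676167) (nat_lit 152) (nat_lit 7657318580) (nat_lit 20) (nat_lit 5) (nat_lit 21) (nat_lit 5) (nat_lit 22) (nat_lit 4) (nat_lit 394) (nat_lit 280) (nat_lit 106))) (XT.nd (nat_lit 78) (nat_lit 152) (nat_lit 0) (XT.lf (nat_lit 0) (nat_lit 927893755) (nat_lit 152) (nat_lit 2003680530) (nat_lit 76) (nat_lit 71648466457) (nat_lit 19) (nat_lit 5) (nat_lit 21) (nat_lit 5) (nat_lit 20) (nat_lit 5) (nat_lit 395) (nat_lit 280) (nat_lit 105)) (XT.lf (nat_lit 0) (nat_lit 9868920086) (nat_lit 228) (nat_lit 58361067482) (nat_lit 76) (nat_lit 8247684225) (nat_lit 17) (nat_lit 5) (nat_lit 20) (nat_lit 5) (nat_lit 18) (nat_lit 4) (nat_lit 396) (nat_lit 280) (nat_lit 104))))))))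
noncomputable def xc156 : XT := (XT.nd (nat_lit 32682) (nat_lit 0) (nat_lit 7524) (XT.nd (nat_lit 31590) (nat_lit 0) (nat_lit 15352) (XT.nd (nat_lit 468) (nat_lit 228) (nat_lit 0) (XT.nd (nat_lit 234) (nat_lit 76) (nat_lit 0) (XT.nd (nat_lit 78) (nat_lit 0) (nat_lit 0) (XT.lf (nat_lit 0) (nat_lit 19124005779) (nat_lit 228) (nat_lit 39585879753) (nat_lit 76) (nat_lit 19720972508) (nat_lit 17) (nat_lit 5) (nat_lit 20) (nat_lit 5) (nat_lit 18) (nat_lit 4) (nat_lit 397) (nat_lit 280) (nat_lit 103)) (XT.nd (nat_lit 78) (nat_lit 0) (nat_lit 0) (XT.lf (nat_lit 0) (nat_lit 28653219298) (nat_lit 228) (nat_lit 20253844494) (nat_lit 76) (nat_lit 31535682918) (nat_lit 17) (nat_lit 5) (nat_lit 20) (nat_lit 5) (nat_lit 18) (nat_lit 4) (nat_lit 398) (nat_lit 280) (nat_lit 102)) (XT.lf (nat_lit 0) (nat_lit 38464887139) (nat_lit 228) (nat_lit 348069636) (nat_lit 76) (nat_lit 43702138989) (nat_lit 17) (nat_lit 5)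 (nat_lit 20) (nat_lit 5) (nat_lit 18) (nat_lit 4) (nat_lit 399) (nat_lit 280) (nat_lit 101)))) (XT.nd (nat_lit 78) (nat_lit 0) (nat_lit 0) (XT.lf (nat_lit 0) (nat_lit 20549839606) (nat_lit 76) (nat_lit 28215280627) (nat_lit 152) (nat_lit 35878669628) (nat_lit 16) (nat_lit 5) (nat_lit 17) (nat_lit 5) (nat_lit 18) (nat_lit 4) (nat_lit 400) (nat_lit 280) (nat_lit 100)) (XT.nd (nat_lit 78) (nat_lit 0) (nat_lit 0) (XT.lf (nat_lit 0) (nat_lit 42075840179) (nat_lit 76) (nat_lit 17298751827) (nat_lit 152) (nat_lit 27461746823) (nat_lit 16) (nat_lit 5) (nat_lit 17) (nat_lit 5) (nat_lit 18) (nat_lit 4) (nat_lit 401) (nat_lit 280) (nat_lit 99)) (XT.lf (nat_lit 0) (nat_lit 64241813943) (nat_lit 76) (nat_lit 6057346480) (nat_lit 152) (nat_lit 18795600440) (nat_lit 16) (nat_lit 5) (nat_lit 17) (nat_lit 5) (nat_lit 18) (nat_lit 4) (nat_lit 402) (nat_lit 280) (nat_lit 98))))) (XT.nd (nat_lit 234) (nat_lit 76)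 (nat_lit 0) (XT.nd (nat_lit 78) (nat_lit 152) (nat_lit 0) (XT.lf (nat_lit 0) (nat_lit 81601420901) (nat_lit 152) (nat_lit 4406949795) (nat_lit 0) (nat_lit 5411067153) (nat_lit 16) (nat_lit 5) (nat_lit 18) (nat_lit 4) (nat_lit 16) (nat_lit 4) (nat_lit 403) (nat_lit 280) (nat_lit 97)) (XT.nd (nat_lit 78) (nat_lit 76) (nat_lit 0) (XT.lf (nat_lit 0) (nat_lit 16917024792) (nat_lit 76) (nat_lit 76545286652) (nat_lit 76) (nat_lit 344957747) (nat_lit 15) (nat_lit 4) (nat_lit 16) (nat_lit 5) (nat_lit 16) (nat_lit 4) (nat_lit 404) (nat_lit 280) (nat_lit 96)) (XT.lf (nat_lit 0) (nat_lit 9270544341) (nat_lit 152) (nat_lit 57390808508) (nat_lit 76) (nat_lit 29601411620) (nat_lit 14) (nat_lit 5) (nat_lit 16) (nat_lit 5) (nat_lit 15) (nat_lit 4) (nat_lit 405) (nat_lit 280) (nat_lit 95)))) (XT.nd (nat_lit 156) (nat_lit 76) (nat_lit 0) (XT.nd (nat_lit 78) (nat_lit 0) (nat_lit 0) (XT.lf (nat_lit 0) (nat_lit 19164642935)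 (nat_lit 152) (nat_lit 37315190904) (nat_lit 76) (nat_lit 42312077197) (nat_lit 14) (nat_lit 5) (nat_lit 16) (nat_lit 5) (nat_lit 15) (nat_lit 4) (nat_lit 406) (nat_lit 280) (nat_lit 94)) (XT.lf (nat_lit 0) (nat_lit 29352714730) (nat_lit 152) (nat_lit 16642533841) (nat_lit 76) (nat_lit 55401769735) (nat_lit 14) (nat_lit 5) (nat_lit 16) (nat_lit 5) (nat_lit 15) (nat_lit 4) (nat_lit 407) (nat_lit 280) (nat_lit 93))) (XT.nd (nat_lit 78) (nat_lit 0) (nat_lit 0) (XT.lf (nat_lit 0) (nat_lit 4737675276) (nat_lit 76) (nat_lit 35151528082) (nat_lit 152) (nat_lit 64189792985) (nat_lit 13) (nat_lit 5) (nat_lit 14) (nat_lit 5) (nat_lit 15) (nat_lit 4) (nat_lit 408) (nat_lit 280) (nat_lit 92)) (XT.lf (nat_lit 0) (nat_lit 27095419301) (nat_lit 76) (nat_lit 23811689812) (nat_lit 152) (nat_lit 55929365700) (nat_lit 13) (nat_lit 5) (nat_lit 14) (nat_lit 5) (nat_lit 15) (nat_lit 4) (nat_lit 409) (nat_lit 280) (nat_lit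 91)))))) (XT.nd (nat_lit 546) (nat_lit 836) (nat_lit 0) (XT.nd (nat_lit 234) (nat_lit 912) (nat_lit 0) (XT.nd (nat_lit 78) (nat_lit 0) (nat_lit 0) (XT.lf (nat_lit 0) (nat_lit 2277908393) (nat_lit 988) (nat_lit 948745378) (nat_lit 988) (nat_lit 948745378) (nat_lit 238) (nat_lit 3) (nat_lit 251) (nat_lit 3) (nat_lit 251) (nat_lit 5) (nat_lit 281) (nat_lit 281) (nat_lit 218)) (XT.nd (nat_lit 78) (nat_lit 0) (nat_lit 0) (XT.lf (nat_lit 76) (nat_lit 1967148741) (nat_lit 0) (nat_lit 3698869183) (nat_lit 988) (nat_lit 2777401746) (nat_lit 239) (nat_lit 5) (nat_lit 238) (nat_lit 3) (nat_lit 251) (nat_lit 5) (nat_lit 282) (nat_lit 281) (nat_lit 217)) (XT.lf (nat_lit 76) (nat_lit 5965627003) (nat_lit 0) (nat_lit 822934141) (nat_lit 988) (nat_lit 1750941497) (nat_lit 239) (nat_lit 5) (nat_lit 238) (nat_lit 3) (nat_lit 251) (nat_lit 5) (nat_lit 283) (nat_lit 281) (nat_lit 216)))) (XT.nd (nat_lit 156) (nat_lit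 0) (nat_lit 0) (XT.nd (nat_lit 78) (nat_lit 988) (nat_lit 0) (XT.lf (nat_lit 76) (nat_lit 1431169506) (nat_lit 0) (nat_lit 6509154799) (nat_lit 988) (nat_lit 698329953) (nat_lit 240) (nat_lit 5) (nat_lit 239) (nat_lit 5) (nat_lit 252) (nat_lit 5) (nat_lit 284) (nat_lit 281) (nat_lit 215)) (XT.lf (nat_lit 0) (nat_lit 374446362) (nat_lit 988) (nat_lit 3165370030) (nat_lit 1064) (nat_lit 5201018735) (nat_lit 226) (nat_lit 5) (nat_lit 239) (nat_lit 5) (nat_lit 240) (nat_lit 5) (nat_lit 285) (nat_lit 281) (nat_lit 214))) (XT.nd (nat_lit 78) (nat_lit 0) (nat_lit 76) (XT.lf (nat_lit 76) (nat_lit 988655182) (nat_lit 0) (nat_lit 449053208) (nat_lit 1064) (nat_lit 7409043475) (nat_lit 227) (nat_lit 5) (nat_lit 226) (nat_lit 5) (nat_lit 240) (nat_lit 5) (nat_lit 286) (nat_lit 281) (nat_lit 213)) (XT.lf (nat_lit 0) (nat_lit 2555286074) (nat_lit 988) (nat_lit 3672095841) (nat_lit 1064) (nat_lit 2727838273)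 (nat_lit 227) (nat_lit 5) (nat_lit 240) (nat_lit 5) (nat_lit 241) (nat_lit 5) (nat_lit 287) (nat_lit 281) (nat_lit 212))))) (XT.nd (nat_lit 234) (nat_lit 912) (nat_lit 0) (XT.nd (nat_lit 78) (nat_lit 0) (nat_lit 76) (XT.lf (nat_lit 76) (nat_lit 625105686) (nat_lit 0) (nat_lit 3056645464) (nat_lit 1064) (nat_lit 5385975868) (nat_lit 228) (nat_lit 5) (nat_lit 227) (nat_lit 5) (nat_lit 241) (nat_lit 5) (nat_lit 288) (nat_lit 281) (nat_lit 211)) (XT.nd (nat_lit 78) (nat_lit 0) (nat_lit 0) (XT.lf (nat_lit 0) (nat_lit 4847304888) (nat_lit 988) (nat_lit 4081482919) (nat_lit 1064) (nat_lit 254706344) (nat_lit 228) (nat_lit 5) (nat_lit 241) (nat_lit 5) (nat_lit 242) (nat_lit 5) (nat_lit 289) (nat_lit 281) (nat_lit 210)) (XT.lf (nat_lit 76) (nat_lit 364913897) (nat_lit 0) (nat_lit 5683513532) (nat_lit 1064) (nat_lit 3254331461) (nat_lit 229) (nat_lit 5) (nat_lit 228) (nat_lit 5) (nat_lit 242) (nat_lit 5)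 (nat_lit 290) (nat_lit 281) (nat_lit 209)))) (XT.nd (nat_lit 156) (nat_lit 988) (nat_lit 0) (XT.nd (nat_lit 78) (nat_lit 0) (nat_lit 76) (XT.lf (nat_lit 76) (nat_lit 5006156230) (nat_lit 0) (nat_lit 2288225570) (nat_lit 1064) (nat_lit 2130997247) (nat_lit 229) (nat_lit 5) (nat_lit 228) (nat_lit 5) (nat_lit 242) (nat_lit 5) (nat_lit 291) (nat_lit 281) (nat_lit 208)) (XT.lf (nat_lit 76) (nat_lit 204685858) (nat_lit 0) (nat_lit 8355239984) (nat_lit 1064) (nat_lit 992325846) (nat_lit 230) (nat_lit 5) (nat_lit 229) (nat_lit 5) (nat_lit 243) (nat_lit 5) (nat_lit 292) (nat_lit 281) (nat_lit 207))) (XT.nd (nat_lit 78) (nat_lit 0) (nat_lit 0) (XT.lf (nat_lit 0) (nat_lit 213685314) (nat_lit 1064) (nat_lit 4671601583) (nat_lit 1140) (nat_lit 4796528402) (nat_lit 215) (nat_lit 5) (nat_lit 229) (nat_lit 5) (nat_lit 230) (nat_lit 5) (nat_lit 293) (nat_lit 281) (nat_lit 206)) (XT.lf (nat_lit 76) (nat_lit 114647254)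 (nat_lit 0) (nat_lit 1292269287) (nat_lit 1140) (nat_lit 8408961790) (nat_lit 216) (nat_lit 5) (nat_lit 215) (nat_lit 5) (nat_lit 230) (nat_lit 5) (nat_lit 294) (nat_lit 281) (nat_lit 205))))))) (XT.nd (nat_lit 1092) (nat_lit 3344) (nat_lit 0) (XT.nd (nat_lit 546) (nat_lit 2356) (nat_lit 0) (XT.nd (nat_lit 234) (nat_lit 2204) (nat_lit 0) (XT.nd (nat_lit 78) (nat_lit 0) (nat_lit 0) (XT.lf (nat_lit 0) (nat_lit 2677354371) (nat_lit 1064) (nat_lit 4859096668) (nat_lit 1140) (nat_lit 2416305653) (nat_lit 216) (nat_lit 5) (nat_lit 230) (nat_lit 5) (nat_lit 231) (nat_lit 5) (nat_lit 295) (nat_lit 281) (nat_lit 204)) (XT.nd (nat_lit 78) (nat_lit 0) (nat_lit 0) (XT.lf (nat_lit 76) (nat_lit 94857034) (nat_lit 0) (nat_lit 3876226937) (nat_lit 1140) (nat_lit 6123136761) (nat_lit 217) (nat_lit 5) (nat_lit 216) (nat_lit 5) (nat_lit 231) (nat_lit 5) (nat_lit 296) (nat_lit 281) (nat_lit 203)) (XT.lf (nat_lit 76)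 (nat_lit 5274755668) (nat_lit 0) (nat_lit 50025946) (nat_lit 1140) (nat_lit 4914546070) (nat_lit 217) (nat_lit 5) (nat_lit 216) (nat_lit 5) (nat_lit 231) (nat_lit 5) (nat_lit 297) (nat_lit 281) (nat_lit 202)))) (XT.nd (nat_lit 156) (nat_lit 1216) (nat_lit 0) (XT.nd (nat_lit 78) (nat_lit 0) (nat_lit 0) (XT.lf (nat_lit 0) (nat_lit 164542283) (nat_lit 1064) (nat_lit 6566486186) (nat_lit 1140) (nat_lit 3657433923) (nat_lit 203) (nat_lit 5) (nat_lit 217) (nat_lit 5) (nat_lit 218) (nat_lit 5) (nat_lit 298) (nat_lit 281) (nat_lit 201)) (XT.lf (nat_lit 0) (nat_lit 5526484939) (nat_lit 1064) (nat_lit 2677128279) (nat_lit 1140) (nat_lit 2337765150) (nat_lit 203) (nat_lit 5) (nat_lit 217) (nat_lit 5) (nat_lit 218) (nat_lit 5) (nat_lit 299) (nat_lit 281) (nat_lit 200))) (XT.nd (nat_lit 78) (nat_lit 76) (nat_lit 0) (XT.lf (nat_lit 0) (nat_lit 321401740) (nat_lit 1140) (nat_lit 9389175075) (nat_lit 1216) (nat_lit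 988629789) (nat_lit 188) (nat_lit 5) (nat_lit 203) (nat_lit 5) (nat_lit 204) (nat_lit 5) (nat_lit 300) (nat_lit 281) (nat_lit 199)) (XT.lf (nat_lit 0) (nat_lit 445395923) (nat_lit 1216) (nat_lit 4993340214) (nat_lit 76) (nat_lit 5421379740) (nat_lit 187) (nat_lit 5) (nat_lit 203) (nat_lit 5) (nat_lit 188) (nat_lit 5) (nat_lit 301) (nat_lit 281) (nat_lit 198))))) (XT.nd (nat_lit 234) (nat_lit 1064) (nat_lit 0) (XT.nd (nat_lit 78) (nat_lit 608) (nat_lit 0) (XT.lf (nat_lit 0) (nat_lit 531083967) (nat_lit 684) (nat_lit 1351925728) (nat_lit 760) (nat_lit 9143164150) (nat_lit 178) (nat_lit 5) (nat_lit 187) (nat_lit 5) (nat_lit 188) (nat_lit 5) (nat_lit 302) (nat_lit 281) (nat_lit 197)) (XT.nd (nat_lit 78) (nat_lit 608) (nat_lit 0) (XT.lf (nat_lit 0) (nat_lit 3418003714) (nat_lit 760) (nat_lit 4922774370) (nat_lit 76) (nat_lit 2854835296) (nat_lit 178) (nat_lit 5) (nat_lit 188) (nat_lit 5) (nat_lit 179)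 (nat_lit 5) (nat_lit 303) (nat_lit 281) (nat_lit 196)) (XT.lf (nat_lit 0) (nat_lit 796829763) (nat_lit 608) (nat_lit 4199827582) (nat_lit 684) (nat_lit 6373577048) (nat_lit 170) (nat_lit 5) (nat_lit 178) (nat_lit 5) (nat_lit 179) (nat_lit 5) (nat_lit 304) (nat_lit 281) (nat_lit 195)))) (XT.nd (nat_lit 156) (nat_lit 532) (nat_lit 0) (XT.nd (nat_lit 78) (nat_lit 532) (nat_lit 0) (XT.lf (nat_lit 0) (nat_lit 6650549761) (nat_lit 684) (nat_lit 4783342954) (nat_lit 76) (nat_lit 115390754) (nat_lit 170) (nat_lit 5) (nat_lit 179) (nat_lit 5) (nat_lit 171) (nat_lit 5) (nat_lit 305) (nat_lit 281) (nat_lit 194)) (XT.lf (nat_lit 0) (nat_lit 1139170430) (nat_lit 532) (nat_lit 7245138294) (nat_lit 608) (nat_lit 3348512859) (nat_lit 163) (nat_lit 5) (nat_lit 170) (nat_lit 5) (nat_lit 171) (nat_lit 5) (nat_lit 306) (nat_lit 281) (nat_lit 193))) (XT.nd (nat_lit 78) (nat_lit 532) (nat_lit 0) (XT.lf (nat_lit 0) (nat_lit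 7315730725) (nat_lit 532) (nat_lit 2880809635) (nat_lit 608) (nat_lit 1724556012) (nat_lit 163) (nat_lit 5) (nat_lit 170) (nat_lit 5) (nat_lit 171) (nat_lit 5) (nat_lit 307) (nat_lit 281) (nat_lit 192)) (XT.lf (nat_lit 0) (nat_lit 1555694442) (nat_lit 532) (nat_lit 10516713061) (nat_lit 608) (nat_lit 42357464) (nat_lit 156) (nat_lit 5) (nat_lit 163) (nat_lit 5) (nat_lit 164) (nat_lit 5) (nat_lit 308) (nat_lit 281) (nat_lit 191)))))) (XT.nd (nat_lit 546) (nat_lit 1748) (nat_lit 0) (XT.nd (nat_lit 234) (nat_lit 1064) (nat_lit 0) (XT.nd (nat_lit 78) (nat_lit 456) (nat_lit 0) (XT.lf (nat_lit 0) (nat_lit 1711789327) (nat_lit 608) (nat_lit 4384028125) (nat_lit 76) (nat_lit 6216326997) (nat_lit 155) (nat_lit 5) (nat_lit 163) (nat_lit 5) (nat_lit 156) (nat_lit 5) (nat_lit 309) (nat_lit 281) (nat_lit 190)) (XT.nd (nat_lit 78) (nat_lit 0) (nat_lit 0) (XT.lf (nat_lit 0) (nat_lit 1993444581) (nat_lit 456)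 (nat_lit 1523016894) (nat_lit 532) (nat_lit 8999030305) (nat_lit 149) (nat_lit 5) (nat_lit 155) (nat_lit 5) (nat_lit 156) (nat_lit 5) (nat_lit 310) (nat_lit 281) (nat_lit 189)) (XT.lf (nat_lit 0) (nat_lit 5430588756) (nat_lit 532) (nat_lit 4124278327) (nat_lit 76) (nat_lit 3168433985) (nat_lit 149) (nat_lit 5) (nat_lit 156) (nat_lit 5) (nat_lit 150) (nat_lit 5) (nat_lit 311) (nat_lit 281) (nat_lit 188)))) (XT.nd (nat_lit 156) (nat_lit 532) (nat_lit 0) (XT.nd (nat_lit 78) (nat_lit 0) (nat_lit 0) (XT.lf (nat_lit 0) (nat_lit 2477620420) (nat_lit 532) (nat_lit 4943970046) (nat_lit 608) (nat_lit 5515191025) (nat_lit 142) (nat_lit 5) (nat_lit 149) (nat_lit 5) (nat_lit 150) (nat_lit 5) (nat_lit 312) (nat_lit 281) (nat_lit 187)) (XT.lf (nat_lit 0) (nat_lit 9341255260) (nat_lit 532) (nat_lit 153634726) (nat_lit 608) (nat_lit 3661119089) (nat_lit 142) (nat_lit 5) (nat_lit 149) (nat_lit 5) (nat_lit 150) (nat_lit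 5) (nat_lit 313) (nat_lit 281) (nat_lit 186))) (XT.nd (nat_lit 78) (nat_lit 76) (nat_lit 0) (XT.lf (nat_lit 0) (nat_lit 3021172296) (nat_lit 456) (nat_lit 8665669468) (nat_lit 532) (nat_lit 1693297330) (nat_lit 136) (nat_lit 5) (nat_lit 142) (nat_lit 5) (nat_lit 143) (nat_lit 5) (nat_lit 314) (nat_lit 281) (nat_lit 185)) (XT.lf (nat_lit 0) (nat_lit 349077316) (nat_lit 532) (nat_lit 3495566624) (nat_lit 76) (nat_lit 9765610169) (nat_lit 135) (nat_lit 5) (nat_lit 142) (nat_lit 5) (nat_lit 136) (nat_lit 5) (nat_lit 315) (nat_lit 281) (nat_lit 184))))) (XT.nd (nat_lit 234) (nat_lit 912) (nat_lit 0) (XT.nd (nat_lit 78) (nat_lit 380) (nat_lit 0) (XT.lf (nat_lit 0) (nat_lit 2446761846) (nat_lit 532) (nat_lit 10250572239) (nat_lit 76) (nat_lit 1148610937) (nat_lit 129) (nat_lit 5) (nat_lit 136) (nat_lit 5) (nat_lit 130) (nat_lit 5) (nat_lit 316) (nat_lit 281) (nat_lit 183)) (XT.nd (nat_lit 78) (nat_lit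 380) (nat_lit 0) (XT.lf (nat_lit 0) (nat_lit 4663530227) (nat_lit 532) (nat_lit 3176068463) (nat_lit 76) (nat_lit 6247440438) (nat_lit 129) (nat_lit 5) (nat_lit 136) (nat_lit 5) (nat_lit 130) (nat_lit 5) (nat_lit 317) (nat_lit 281) (nat_lit 182)) (XT.lf (nat_lit 0) (nat_lit 4171982240) (nat_lit 380) (nat_lit 2797874207) (nat_lit 456) (nat_lit 7364834533) (nat_lit 124) (nat_lit 5) (nat_lit 129) (nat_lit 5) (nat_lit 130) (nat_lit 5) (nat_lit 318) (nat_lit 281) (nat_lit 181)))) (XT.nd (nat_lit 156) (nat_lit 456) (nat_lit 0) (XT.nd (nat_lit 78) (nat_lit 456) (nat_lit 0) (XT.lf (nat_lit 0) (nat_lit 9384011297) (nat_lit 456) (nat_lit 2826959777) (nat_lit 76) (nat_lit 2377658231) (nat_lit 124) (nat_lit 5) (nat_lit 130) (nat_lit 5) (nat_lit 125) (nat_lit 5) (nat_lit 319) (nat_lit 281) (nat_lit 180)) (XT.lf (nat_lit 0) (nat_lit 4774532551) (nat_lit 456) (nat_lit 7153370304) (nat_lit 532) (nat_lit 2920579180)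 (nat_lit 118) (nat_lit 5) (nat_lit 124) (nat_lit 5) (nat_lit 125) (nat_lit 5) (nat_lit 320) (nat_lit 281) (nat_lit 179))) (XT.nd (nat_lit 78) (nat_lit 456) (nat_lit 0) (XT.lf (nat_lit 0) (nat_lit 12642417925) (nat_lit 456) (nat_lit 1918240505) (nat_lit 532) (nat_lit 555110658) (nat_lit 118) (nat_lit 5) (nat_lit 124) (nat_lit 5) (nat_lit 125) (nat_lit 5) (nat_lit 321) (nat_lit 281) (nat_lit 178)) (XT.lf (nat_lit 0) (nat_lit 1915098140) (nat_lit 456) (nat_lit 9999848966) (nat_lit 76) (nat_lit 3473484778) (nat_lit 112) (nat_lit 5) (nat_lit 118) (nat_lit 5) (nat_lit 113) (nat_lit 5) (nat_lit 322) (nat_lit 281) (nat_lit 177))))))))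
noncomputable def xc157 : XT := (XT.nd (nat_lit 2184) (nat_lit 2128) (nat_lit 0) (XT.nd (nat_lit 1092) (nat_lit 1748) (nat_lit 0) (XT.nd (nat_lit 546) (nat_lit 1292) (nat_lit 0) (XT.nd (nat_lit 234) (nat_lit 760) (nat_lit 0) (XT.nd (nat_lit 78) (nat_lit 380) (nat_lit 0) (XT.lf (nat_lit 0) (nat_lit 4477007224) (nat_lit 456) (nat_lit 2175793403) (nat_lit 76) (nat_lit 9015460390) (nat_lit 112) (nat_lit 5) (nat_lit 118) (nat_lit 5) (nat_lit 113) (nat_lit 5) (nat_lit 323) (nat_lit 281) (nat_lit 176)) (XT.nd (nat_lit 78) (nat_lit 0) (nat_lit 0) (XT.lf (nat_lit 0) (nat_lit 5980650476) (nat_lit 380) (nat_lit 1177598633) (nat_lit 456) (nat_lit 8796975120) (nat_lit 107) (nat_lit 5) (nat_lit 112) (nat_lit 5) (nat_lit 113) (nat_lit 5) (nat_lit 324) (nat_lit 281) (nat_lit 175)) (XT.lf (nat_lit 0) (nat_lit 9970209771) (nat_lit 456) (nat_lit 1886122775) (nat_lit 76) (nat_lit 4392968422) (nat_lit 107) (nat_lit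 5) (nat_lit 113) (nat_lit 5) (nat_lit 108) (nat_lit 5) (nat_lit 325) (nat_lit 281) (nat_lit 174)))) (XT.nd (nat_lit 156) (nat_lit 456) (nat_lit 0) (XT.nd (nat_lit 78) (nat_lit 0) (nat_lit 0) (XT.lf (nat_lit 0) (nat_lit 6542279743) (nat_lit 304) (nat_lit 6384430905) (nat_lit 380) (nat_lit 3623696618) (nat_lit 103) (nat_lit 5) (nat_lit 107) (nat_lit 5) (nat_lit 108) (nat_lit 5) (nat_lit 326) (nat_lit 281) (nat_lit 173)) (XT.lf (nat_lit 0) (nat_lit 15243675359) (nat_lit 304) (nat_lit 733151327) (nat_lit 380) (nat_lit 883584788) (nat_lit 103) (nat_lit 5) (nat_lit 107) (nat_lit 5) (nat_lit 108) (nat_lit 5) (nat_lit 327) (nat_lit 281) (nat_lit 172))) (XT.nd (nat_lit 78) (nat_lit 0) (nat_lit 0) (XT.lf (nat_lit 0) (nat_lit 2005287469) (nat_lit 456) (nat_lit 10098660159) (nat_lit 76) (nat_lit 5072089052) (nat_lit 97) (nat_lit 5) (nat_lit 103) (nat_lit 5) (nat_lit 98) (nat_lit 5) (nat_lit 328) (nat_lit 281)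 (nat_lit 171)) (XT.lf (nat_lit 0) (nat_lit 4973138033) (nat_lit 456) (nat_lit 1469824666) (nat_lit 76) (nat_lit 11057614635) (nat_lit 97) (nat_lit 5) (nat_lit 103) (nat_lit 5) (nat_lit 98) (nat_lit 5) (nat_lit 329) (nat_lit 281) (nat_lit 170))))) (XT.nd (nat_lit 234) (nat_lit 684) (nat_lit 0) (XT.nd (nat_lit 78) (nat_lit 304) (nat_lit 0) (XT.lf (nat_lit 0) (nat_lit 7547218322) (nat_lit 304) (nat_lit 542077463) (nat_lit 380) (nat_lit 9743791224) (nat_lit 93) (nat_lit 5) (nat_lit 97) (nat_lit 5) (nat_lit 98) (nat_lit 5) (nat_lit 330) (nat_lit 281) (nat_lit 169)) (XT.nd (nat_lit 78) (nat_lit 304) (nat_lit 0) (XT.lf (nat_lit 0) (nat_lit 11354035492) (nat_lit 380) (nat_lit 1381697438) (nat_lit 76) (nat_lit 5438196759) (nat_lit 93) (nat_lit 5) (nat_lit 98) (nat_lit 5) (nat_lit 94) (nat_lit 5) (nat_lit 331) (nat_lit 281) (nat_lit 168)) (XT.lf (nat_lit 0) (nat_lit 7921218373) (nat_lit 304) (nat_lit 6864285537)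 (nat_lit 380) (nat_lit 3737440469) (nat_lit 89) (nat_lit 5) (nat_lit 93) (nat_lit 5) (nat_lit 94) (nat_lit 5) (nat_lit 332) (nat_lit 281) (nat_lit 167)))) (XT.nd (nat_lit 156) (nat_lit 304) (nat_lit 0) (XT.nd (nat_lit 78) (nat_lit 380) (nat_lit 0) (XT.lf (nat_lit 0) (nat_lit 17514132534) (nat_lit 304) (nat_lit 807215331) (nat_lit 380) (nat_lit 561048724) (nat_lit 89) (nat_lit 5) (nat_lit 93) (nat_lit 5) (nat_lit 94) (nat_lit 5) (nat_lit 333) (nat_lit 281) (nat_lit 166)) (XT.lf (nat_lit 0) (nat_lit 2778065025) (nat_lit 380) (nat_lit 11042883690) (nat_lit 76) (nat_lit 5427301673) (nat_lit 84) (nat_lit 5) (nat_lit 89) (nat_lit 5) (nat_lit 85) (nat_lit 5) (nat_lit 334) (nat_lit 281) (nat_lit 165))) (XT.nd (nat_lit 78) (nat_lit 304) (nat_lit 0) (XT.lf (nat_lit 0) (nat_lit 6215882737) (nat_lit 380) (nat_lit 1561410788) (nat_lit 76) (nat_lit 11847334589) (nat_lit 84) (nat_lit 5) (nat_lit 89) (nat_lit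 5) (nat_lit 85) (nat_lit 5) (nat_lit 335) (nat_lit 281) (nat_lit 164)) (XT.lf (nat_lit 0) (nat_lit 8350645857) (nat_lit 304) (nat_lit 1474675454) (nat_lit 380) (nat_lit 10184930177) (nat_lit 80) (nat_lit 5) (nat_lit 84) (nat_lit 5) (nat_lit 85) (nat_lit 5) (nat_lit 336) (nat_lit 281) (nat_lit 163)))))) (XT.nd (nat_lit 546) (nat_lit 912) (nat_lit 0) (XT.nd (nat_lit 234) (nat_lit 532) (nat_lit 0) (XT.nd (nat_lit 78) (nat_lit 304) (nat_lit 0) (XT.lf (nat_lit 0) (nat_lit 13595542576) (nat_lit 380) (nat_lit 1880236752) (nat_lit 76) (nat_lit 4930097895) (nat_lit 80) (nat_lit 5) (nat_lit 85) (nat_lit 5) (nat_lit 81) (nat_lit 5) (nat_lit 337) (nat_lit 281) (nat_lit 162)) (XT.nd (nat_lit 78) (nat_lit 76) (nat_lit 0) (XT.lf (nat_lit 0) (nat_lit 8323880154) (nat_lit 228) (nat_lit 9238294190) (nat_lit 304) (nat_lit 3248706662) (nat_lit 77) (nat_lit 5) (nat_lit 80) (nat_lit 5) (nat_lit 81) (nat_lit 5) (nat_lit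 338) (nat_lit 281) (nat_lit 161)) (XT.lf (nat_lit 0) (nat_lit 419497012) (nat_lit 304) (nat_lit 2375556533) (nat_lit 76) (nat_lit 18432630676) (nat_lit 76) (nat_lit 5) (nat_lit 80) (nat_lit 5) (nat_lit 77) (nat_lit 5) (nat_lit 339) (nat_lit 281) (nat_lit 160)))) (XT.nd (nat_lit 156) (nat_lit 228) (nat_lit 0) (XT.nd (nat_lit 78) (nat_lit 0) (nat_lit 0) (XT.lf (nat_lit 0) (nat_lit 4237837160) (nat_lit 380) (nat_lit 13541931075) (nat_lit 76) (nat_lit 3873104432) (nat_lit 72) (nat_lit 5) (nat_lit 77) (nat_lit 5) (nat_lit 73) (nat_lit 5) (nat_lit 340) (nat_lit 281) (nat_lit 159)) (XT.lf (nat_lit 0) (nat_lit 8211814764) (nat_lit 380) (nat_lit 3173451092) (nat_lit 76) (nat_lit 10704325752) (nat_lit 72) (nat_lit 5) (nat_lit 77) (nat_lit 5) (nat_lit 73) (nat_lit 5) (nat_lit 341) (nat_lit 281) (nat_lit 158))) (XT.nd (nat_lit 78) (nat_lit 0) (nat_lit 0) (XT.lf (nat_lit 0) (nat_lit 7639453717) (nat_lit 228)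 (nat_lit 4728495490) (nat_lit 304) (nat_lit 10169582025) (nat_lit 69) (nat_lit 5) (nat_lit 72) (nat_lit 5) (nat_lit 73) (nat_lit 5) (nat_lit 342) (nat_lit 281) (nat_lit 157)) (XT.lf (nat_lit 0) (nat_lit 16691194667) (nat_lit 304) (nat_lit 4192738171) (nat_lit 76) (nat_lit 2113710428) (nat_lit 69) (nat_lit 5) (nat_lit 73) (nat_lit 5) (nat_lit 70) (nat_lit 5) (nat_lit 343) (nat_lit 281) (nat_lit 156))))) (XT.nd (nat_lit 234) (nat_lit 380) (nat_lit 0) (XT.nd (nat_lit 78) (nat_lit 304) (nat_lit 0) (XT.lf (nat_lit 0) (nat_lit 6906357040) (nat_lit 228) (nat_lit 14340896668) (nat_lit 304) (nat_lit 2221218291) (nat_lit 66) (nat_lit 5) (nat_lit 69) (nat_lit 5) (nat_lit 70) (nat_lit 5) (nat_lit 344) (nat_lit 281) (nat_lit 155)) (XT.nd (nat_lit 78) (nat_lit 228) (nat_lit 0) (XT.lf (nat_lit 0) (nat_lit 1980515502) (nat_lit 304) (nat_lit 5562709872) (nat_lit 76) (nat_lit 16408652419) (nat_lit 65) (nat_lit 5)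 (nat_lit 69) (nat_lit 5) (nat_lit 66) (nat_lit 5) (nat_lit 345) (nat_lit 281) (nat_lit 154)) (XT.lf (nat_lit 0) (nat_lit 5843755442) (nat_lit 228) (nat_lit 466321995) (nat_lit 304) (nat_lit 18137662189) (nat_lit 62) (nat_lit 5) (nat_lit 65) (nat_lit 5) (nat_lit 66) (nat_lit 5) (nat_lit 346) (nat_lit 281) (nat_lit 153)))) (XT.nd (nat_lit 156) (nat_lit 152) (nat_lit 0) (XT.nd (nat_lit 78) (nat_lit 228) (nat_lit 0) (XT.lf (nat_lit 0) (nat_lit 10882178937) (nat_lit 304) (nat_lit 7331549347) (nat_lit 76) (nat_lit 6741375513) (nat_lit 62) (nat_lit 5) (nat_lit 66) (nat_lit 5) (nat_lit 63) (nat_lit 5) (nat_lit 347) (nat_lit 281) (nat_lit 152)) (XT.lf (nat_lit 0) (nat_lit 4344598817) (nat_lit 228) (nat_lit 11283844364) (nat_lit 304) (nat_lit 9848141609) (nat_lit 59) (nat_lit 5) (nat_lit 62) (nat_lit 5) (nat_lit 63) (nat_lit 5) (nat_lit 348) (nat_lit 281) (nat_lit 151))) (XT.nd (nat_lit 78) (nat_lit 152)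 (nat_lit 0) (XT.lf (nat_lit 0) (nat_lit 16506842911) (nat_lit 228) (nat_lit 4075040465) (nat_lit 304) (nat_lit 5429888913) (nat_lit 59) (nat_lit 5) (nat_lit 62) (nat_lit 5) (nat_lit 63) (nat_lit 5) (nat_lit 349) (nat_lit 281) (nat_lit 150)) (XT.lf (nat_lit 0) (nat_lit 2472705359) (nat_lit 152) (nat_lit 23258167320) (nat_lit 228) (nat_lit 830739905) (nat_lit 57) (nat_lit 5) (nat_lit 59) (nat_lit 5) (nat_lit 60) (nat_lit 5) (nat_lit 350) (nat_lit 281) (nat_lit 149))))))) (XT.nd (nat_lit 1092) (nat_lit 836) (nat_lit 0) (XT.nd (nat_lit 546) (nat_lit 532) (nat_lit 0) (XT.nd (nat_lit 234) (nat_lit 456) (nat_lit 0) (XT.nd (nat_lit 78) (nat_lit 228) (nat_lit 0) (XT.lf (nat_lit 0) (nat_lit 3958442133) (nat_lit 228) (nat_lit 12213732174) (nat_lit 76) (nat_lit 10950803910) (nat_lit 56) (nat_lit 5) (nat_lit 59) (nat_lit 5) (nat_lit 57) (nat_lit 5) (nat_lit 351) (nat_lit 281) (nat_lit 148)) (XT.nd (nat_lit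 78) (nat_lit 228) (nat_lit 0) (XT.lf (nat_lit 0) (nat_lit 8865872276) (nat_lit 228) (nat_lit 4436338) (nat_lit 76) (nat_lit 18830896440) (nat_lit 56) (nat_lit 5) (nat_lit 59) (nat_lit 5) (nat_lit 57) (nat_lit 5) (nat_lit 352) (nat_lit 281) (nat_lit 147)) (XT.lf (nat_lit 0) (nat_lit 12807555721) (nat_lit 228) (nat_lit 1227607634) (nat_lit 304) (nat_lit 14258181129) (nat_lit 53) (nat_lit 5) (nat_lit 56) (nat_lit 5) (nat_lit 57) (nat_lit 5) (nat_lit 353) (nat_lit 281) (nat_lit 146)))) (XT.nd (nat_lit 156) (nat_lit 304) (nat_lit 0) (XT.nd (nat_lit 78) (nat_lit 152) (nat_lit 0) (XT.lf (nat_lit 0) (nat_lit 19415042311) (nat_lit 304) (nat_lit 2976697625) (nat_lit 76) (nat_lit 6509847674) (nat_lit 53) (nat_lit 5) (nat_lit 57) (nat_lit 5) (nat_lit 54) (nat_lit 5) (nat_lit 354) (nat_lit 281) (nat_lit 145)) (XT.lf (nat_lit 0) (nat_lit 10079005812) (nat_lit 152) (nat_lit 14978190866) (nat_lit 228) (nat_lit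 4467859628) (nat_lit 51) (nat_lit 5) (nat_lit 53) (nat_lit 5) (nat_lit 54) (nat_lit 5) (nat_lit 355) (nat_lit 281) (nat_lit 144))) (XT.nd (nat_lit 78) (nat_lit 228) (nat_lit 0) (XT.lf (nat_lit 0) (nat_lit 709923494) (nat_lit 228) (nat_lit 6599187936) (nat_lit 76) (nat_lit 22857253046) (nat_lit 50) (nat_lit 5) (nat_lit 53) (nat_lit 5) (nat_lit 51) (nat_lit 5) (nat_lit 356) (nat_lit 281) (nat_lit 143)) (XT.lf (nat_lit 0) (nat_lit 6016515808) (nat_lit 304) (nat_lit 24123708277) (nat_lit 76) (nat_lit 683466715) (nat_lit 47) (nat_lit 5) (nat_lit 51) (nat_lit 5) (nat_lit 48) (nat_lit 5) (nat_lit 357) (nat_lit 281) (nat_lit 142))))) (XT.nd (nat_lit 234) (nat_lit 380) (nat_lit 0) (XT.nd (nat_lit 78) (nat_lit 152) (nat_lit 0) (XT.lf (nat_lit 0) (nat_lit 11614136405) (nat_lit 304) (nat_lit 11051260165) (nat_lit 76) (nat_lit 8831389556) (nat_lit 47) (nat_lit 5) (nat_lit 51) (nat_lit 5) (nat_lit 48) (nat_lit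 5) (nat_lit 358) (nat_lit 281) (nat_lit 141)) (XT.nd (nat_lit 78) (nat_lit 0) (nat_lit 0) (XT.lf (nat_lit 0) (nat_lit 2448618318) (nat_lit 152) (nat_lit 14946997564) (nat_lit 228) (nat_lit 14793984533) (nat_lit 45) (nat_lit 5) (nat_lit 47) (nat_lit 5) (nat_lit 48) (nat_lit 5) (nat_lit 359) (nat_lit 281) (nat_lit 140)) (XT.lf (nat_lit 0) (nat_lit 16567631509) (nat_lit 152) (nat_lit 6886999299) (nat_lit 228) (nat_lit 9445449483) (nat_lit 45) (nat_lit 5) (nat_lit 47) (nat_lit 5) (nat_lit 48) (nat_lit 5) (nat_lit 360) (nat_lit 281) (nat_lit 139)))) (XT.nd (nat_lit 156) (nat_lit 152) (nat_lit 0) (XT.nd (nat_lit 78) (nat_lit 228) (nat_lit 0) (XT.lf (nat_lit 0) (nat_lit 29701683996) (nat_lit 228) (nat_lit 2547476486) (nat_lit 76) (nat_lit 1382529827) (nat_lit 45) (nat_lit 5) (nat_lit 48) (nat_lit 5) (nat_lit 46) (nat_lit 5) (nat_lit 361) (nat_lit 281) (nat_lit 138)) (XT.lf (nat_lit 0) (nat_lit 1892968714)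 (nat_lit 228) (nat_lit 22597294392) (nat_lit 76) (nat_lit 9889197114) (nat_lit 42) (nat_lit 5) (nat_lit 45) (nat_lit 5) (nat_lit 43) (nat_lit 5) (nat_lit 362) (nat_lit 281) (nat_lit 137))) (XT.nd (nat_lit 78) (nat_lit 152) (nat_lit 0) (XT.lf (nat_lit 0) (nat_lit 7830525827) (nat_lit 228) (nat_lit 8606028647) (nat_lit 76) (nat_lit 18711378420) (nat_lit 42) (nat_lit 5) (nat_lit 45) (nat_lit 5) (nat_lit 43) (nat_lit 5) (nat_lit 363) (nat_lit 281) (nat_lit 136)) (XT.lf (nat_lit 0) (nat_lit 5908732336) (nat_lit 152) (nat_lit 8087385236) (nat_lit 228) (nat_lit 21941848299) (nat_lit 40) (nat_lit 5) (nat_lit 42) (nat_lit 5) (nat_lit 43) (nat_lit 5) (nat_lit 364) (nat_lit 281) (nat_lit 135)))))) (XT.nd (nat_lit 546) (nat_lit 456) (nat_lit 0) (XT.nd (nat_lit 234) (nat_lit 228) (nat_lit 0) (XT.nd (nat_lit 78) (nat_lit 152) (nat_lit 0) (XT.lf (nat_lit 0) (nat_lit 20432521540) (nat_lit 228) (nat_lit 15731118950)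 (nat_lit 76) (nat_lit 585487272) (nat_lit 40) (nat_lit 5) (nat_lit 43) (nat_lit 5) (nat_lit 41) (nat_lit 5) (nat_lit 365) (nat_lit 281) (nat_lit 134)) (XT.nd (nat_lit 78) (nat_lit 152) (nat_lit 0) (XT.lf (nat_lit 0) (nat_lit 27135445965) (nat_lit 228) (nat_lit 1095389338) (nat_lit 76) (nat_lit 9351589520) (nat_lit 40) (nat_lit 5) (nat_lit 43) (nat_lit 5) (nat_lit 41) (nat_lit 5) (nat_lit 366) (nat_lit 281) (nat_lit 133)) (XT.lf (nat_lit 0) (nat_lit 14246484929) (nat_lit 152) (nat_lit 19923467876) (nat_lit 228) (nat_lit 4266856225) (nat_lit 38) (nat_lit 5) (nat_lit 40) (nat_lit 5) (nat_lit 41) (nat_lit 5) (nat_lit 367) (nat_lit 281) (nat_lit 132)))) (XT.nd (nat_lit 156) (nat_lit 0) (nat_lit 0) (XT.nd (nat_lit 78) (nat_lit 152) (nat_lit 0) (XT.lf (nat_lit 0) (nat_lit 2062454952) (nat_lit 228) (nat_lit 9276657577) (nat_lit 76) (nat_lit 27976967794) (nat_lit 37) (nat_lit 5) (nat_lit 40) (nat_lit 5)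 (nat_lit 38) (nat_lit 5) (nat_lit 368) (nat_lit 281) (nat_lit 131)) (XT.lf (nat_lit 0) (nat_lit 6151580027) (nat_lit 152) (nat_lit 2397192656) (nat_lit 228) (nat_lit 31670105897) (nat_lit 35) (nat_lit 5) (nat_lit 37) (nat_lit 5) (nat_lit 38) (nat_lit 5) (nat_lit 369) (nat_lit 281) (nat_lit 130))) (XT.nd (nat_lit 78) (nat_lit 0) (nat_lit 0) (XT.lf (nat_lit 0) (nat_lit 15383566895) (nat_lit 228) (nat_lit 18990215229) (nat_lit 76) (nat_lit 6770364780) (nat_lit 35) (nat_lit 5) (nat_lit 38) (nat_lit 5) (nat_lit 36) (nat_lit 5) (nat_lit 370) (nat_lit 281) (nat_lit 129)) (XT.lf (nat_lit 0) (nat_lit 22441113139) (nat_lit 228) (nat_lit 3494916907) (nat_lit 76) (nat_lit 16160614638) (nat_lit 35) (nat_lit 5) (nat_lit 38) (nat_lit 5) (nat_lit 36) (nat_lit 5) (nat_lit 371) (nat_lit 281) (nat_lit 128))))) (XT.nd (nat_lit 234) (nat_lit 152) (nat_lit 0) (XT.nd (nat_lit 78) (nat_lit 152) (nat_lit 0) (XT.lf (nat_lit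 0) (nat_lit 12703061765) (nat_lit 152) (nat_lit 17123582756) (nat_lit 228) (nat_lit 13247587688) (nat_lit 33) (nat_lit 5) (nat_lit 35) (nat_lit 5) (nat_lit 36) (nat_lit 5) (nat_lit 372) (nat_lit 281) (nat_lit 127)) (XT.nd (nat_lit 78) (nat_lit 152) (nat_lit 0) (XT.lf (nat_lit 0) (nat_lit 29448659719) (nat_lit 152) (nat_lit 8014597732) (nat_lit 228) (nat_lit 6617006937) (nat_lit 33) (nat_lit 5) (nat_lit 35) (nat_lit 5) (nat_lit 36) (nat_lit 5) (nat_lit 373) (nat_lit 281) (nat_lit 126)) (XT.lf (nat_lit 0) (nat_lit 231334160) (nat_lit 152) (nat_lit 43529876224) (nat_lit 76) (nat_lit 1354518545) (nat_lit 31) (nat_lit 5) (nat_lit 33) (nat_lit 5) (nat_lit 32) (nat_lit 5) (nat_lit 374) (nat_lit 281) (nat_lit 125)))) (XT.nd (nat_lit 156) (nat_lit 152) (nat_lit 0) (XT.nd (nat_lit 78) (nat_lit 0) (nat_lit 0) (XT.lf (nat_lit 0) (nat_lit 7375062664) (nat_lit 152) (nat_lit 27744209948) (nat_lit 76) (nat_lit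 11054333659) (nat_lit 31) (nat_lit 5) (nat_lit 33) (nat_lit 5) (nat_lit 32) (nat_lit 5) (nat_lit 375) (nat_lit 281) (nat_lit 124)) (XT.lf (nat_lit 0) (nat_lit 14727633714) (nat_lit 152) (nat_lit 11494509763) (nat_lit 76) (nat_lit 21041242754) (nat_lit 31) (nat_lit 5) (nat_lit 33) (nat_lit 5) (nat_lit 32) (nat_lit 5) (nat_lit 376) (nat_lit 281) (nat_lit 123))) (XT.nd (nat_lit 78) (nat_lit 0) (nat_lit 0) (XT.lf (nat_lit 0) (nat_lit 5337578477) (nat_lit 152) (nat_lit 17009201480) (nat_lit 228) (nat_lit 26037701847) (nat_lit 29) (nat_lit 5) (nat_lit 31) (nat_lit 5) (nat_lit 32) (nat_lit 5) (nat_lit 377) (nat_lit 281) (nat_lit 122)) (XT.lf (nat_lit 0) (nat_lit 22901087985) (nat_lit 152) (nat_lit 7404241142) (nat_lit 228) (nat_lit 19230558354) (nat_lit 29) (nat_lit 5) (nat_lit 31) (nat_lit 5) (nat_lit 32) (nat_lit 5) (nat_lit 378) (nat_lit 281) (nat_lit 121))))))))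
noncomputable def xc158 : XT := (XT.nd (nat_lit 2184) (nat_lit 0) (nat_lit 0) (XT.nd (nat_lit 1092) (nat_lit 532) (nat_lit 0) (XT.nd (nat_lit 546) (nat_lit 304) (nat_lit 0) (XT.nd (nat_lit 234) (nat_lit 152) (nat_lit 0) (XT.nd (nat_lit 78) (nat_lit 152) (nat_lit 0) (XT.lf (nat_lit 0) (nat_lit 38521431922) (nat_lit 228) (nat_lit 9763275750) (nat_lit 76) (nat_lit 2436565772) (nat_lit 29) (nat_lit 5) (nat_lit 32) (nat_lit 5) (nat_lit 30) (nat_lit 4) (nat_lit 379) (nat_lit 281) (nat_lit 120)) (XT.nd (nat_lit 78) (nat_lit 76) (nat_lit 0) (XT.lf (nat_lit 0) (nat_lit 7682236496) (nat_lit 76) (nat_lit 39443958948) (nat_lit 152) (nat_lit 4811762184) (nat_lit 28) (nat_lit 5) (nat_lit 29) (nat_lit 5) (nat_lit 30) (nat_lit 4) (nat_lit 380) (nat_lit 281) (nat_lit 119)) (XT.lf (nat_lit 0) (nat_lit 2837960408) (nat_lit 152) (nat_lit 27373575652) (nat_lit 76) (nat_lit 22975963294) (nat_lit 27) (nat_lit 5) (nat_lit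 29) (nat_lit 5) (nat_lit 28) (nat_lit 5) (nat_lit 381) (nat_lit 281) (nat_lit 118)))) (XT.nd (nat_lit 156) (nat_lit 0) (nat_lit 0) (XT.nd (nat_lit 78) (nat_lit 152) (nat_lit 0) (XT.lf (nat_lit 0) (nat_lit 10615640754) (nat_lit 152) (nat_lit 10041122418) (nat_lit 76) (nat_lit 33816481393) (nat_lit 27) (nat_lit 5) (nat_lit 29) (nat_lit 5) (nat_lit 28) (nat_lit 5) (nat_lit 382) (nat_lit 281) (nat_lit 117)) (XT.lf (nat_lit 0) (nat_lit 7958332766) (nat_lit 152) (nat_lit 10740137294) (nat_lit 228) (nat_lit 37096939272) (nat_lit 25) (nat_lit 5) (nat_lit 27) (nat_lit 5) (nat_lit 28) (nat_lit 5) (nat_lit 383) (nat_lit 281) (nat_lit 116))) (XT.nd (nat_lit 78) (nat_lit 0) (nat_lit 0) (XT.lf (nat_lit 0) (nat_lit 26695418443) (nat_lit 152) (nat_lit 425137307) (nat_lit 228) (nat_lit 30033781845) (nat_lit 25) (nat_lit 5) (nat_lit 27) (nat_lit 5) (nat_lit 28) (nat_lit 5) (nat_lit 384) (nat_lit 281) (nat_lit 115))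 (XT.lf (nat_lit 0) (nat_lit 35888823341) (nat_lit 228) (nat_lit 12665510033) (nat_lit 76) (nat_lit 9996896405) (nat_lit 25) (nat_lit 5) (nat_lit 28) (nat_lit 5) (nat_lit 26) (nat_lit 4) (nat_lit 385) (nat_lit 281) (nat_lit 114))))) (XT.nd (nat_lit 234) (nat_lit 152) (nat_lit 0) (XT.nd (nat_lit 78) (nat_lit 76) (nat_lit 0) (XT.lf (nat_lit 0) (nat_lit 5762115213) (nat_lit 76) (nat_lit 39213231028) (nat_lit 152) (nat_lit 15013027872) (nat_lit 24) (nat_lit 5) (nat_lit 25) (nat_lit 5) (nat_lit 26) (nat_lit 4) (nat_lit 386) (nat_lit 281) (nat_lit 113)) (XT.nd (nat_lit 78) (nat_lit 76) (nat_lit 0) (XT.lf (nat_lit 0) (nat_lit 24994459899) (nat_lit 76) (nat_lit 29463564264) (nat_lit 152) (nat_lit 7006903390) (nat_lit 24) (nat_lit 5) (nat_lit 25) (nat_lit 5) (nat_lit 26) (nat_lit 4) (nat_lit 387) (nat_lit 281) (nat_lit 112)) (XT.lf (nat_lit 0) (nat_lit 1210965249) (nat_lit 152) (nat_lit 18201517150) (nat_lit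 76) (nat_lit 43573066879) (nat_lit 23) (nat_lit 5) (nat_lit 25) (nat_lit 5) (nat_lit 24) (nat_lit 5) (nat_lit 388) (nat_lit 281) (nat_lit 111)))) (XT.nd (nat_lit 156) (nat_lit 0) (nat_lit 0) (XT.nd (nat_lit 78) (nat_lit 0) (nat_lit 0) (XT.lf (nat_lit 0) (nat_lit 549469533) (nat_lit 152) (nat_lit 8986220019) (nat_lit 228) (nat_lit 55013985725) (nat_lit 21) (nat_lit 5) (nat_lit 23) (nat_lit 5) (nat_lit 24) (nat_lit 5) (nat_lit 389) (nat_lit 281) (nat_lit 110)) (XT.lf (nat_lit 0) (nat_lit 18308512933) (nat_lit 228) (nat_lit 45945180687) (nat_lit 76) (nat_lit 1901082099) (nat_lit 21) (nat_lit 5) (nat_lit 24) (nat_lit 5) (nat_lit 22) (nat_lit 4) (nat_lit 390) (nat_lit 281) (nat_lit 109))) (XT.nd (nat_lit 78) (nat_lit 0) (nat_lit 0) (XT.lf (nat_lit 0) (nat_lit 27429501877) (nat_lit 228) (nat_lit 27444661448) (nat_lit 76) (nat_lit 12931317766) (nat_lit 21) (nat_lit 5) (nat_lit 24) (nat_lit 5) (nat_lit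 22) (nat_lit 4) (nat_lit 391) (nat_lit 281) (nat_lit 108)) (XT.lf (nat_lit 0) (nat_lit 36820245138) (nat_lit 228) (nat_lit 8396101483) (nat_lit 76) (nat_lit 24289478569) (nat_lit 21) (nat_lit 5) (nat_lit 24) (nat_lit 5) (nat_lit 22) (nat_lit 4) (nat_lit 392) (nat_lit 281) (nat_lit 107)))))) (XT.nd (nat_lit 546) (nat_lit 228) (nat_lit 0) (XT.nd (nat_lit 234) (nat_lit 228) (nat_lit 0) (XT.nd (nat_lit 78) (nat_lit 0) (nat_lit 0) (XT.lf (nat_lit 0) (nat_lit 11440386733) (nat_lit 76) (nat_lit 35158533480) (nat_lit 152) (nat_lit 24655074377) (nat_lit 20) (nat_lit 5) (nat_lit 21) (nat_lit 5) (nat_lit 22) (nat_lit 4) (nat_lit 393) (nat_lit 281) (nat_lit 106)) (XT.nd (nat_lit 78) (nat_lit 0) (nat_lit 0) (XT.lf (nat_lit 0) (nat_lit 32037376136) (nat_lit 76) (nat_lit 24714646221) (nat_lit 152) (nat_lit 16300155942) (nat_lit 20) (nat_lit 5) (nat_lit 21) (nat_lit 5) (nat_lit 22) (nat_lit 4) (nat_lit 394) (nat_lit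 281) (nat_lit 105)) (XT.lf (nat_lit 0) (nat_lit 53245765211) (nat_lit 76) (nat_lit 13960343280) (nat_lit 152) (nat_lit 7698308493) (nat_lit 20) (nat_lit 5) (nat_lit 21) (nat_lit 5) (nat_lit 22) (nat_lit 4) (nat_lit 395) (nat_lit 281) (nat_lit 104)))) (XT.nd (nat_lit 156) (nat_lit 0) (nat_lit 0) (XT.nd (nat_lit 78) (nat_lit 152) (nat_lit 0) (XT.lf (nat_lit 0) (nat_lit 1135387704) (nat_lit 152) (nat_lit 1739374798) (nat_lit 76) (nat_lit 73937232666) (nat_lit 19) (nat_lit 5) (nat_lit 21) (nat_lit 5) (nat_lit 20) (nat_lit 5) (nat_lit 396) (nat_lit 281) (nat_lit 103)) (XT.lf (nat_lit 0) (nat_lit 10343881561) (nat_lit 228) (nat_lit 59786664674) (nat_lit 76) (nat_lit 8636033474) (nat_lit 17) (nat_lit 5) (nat_lit 20) (nat_lit 5) (nat_lit 18) (nat_lit 4) (nat_lit 397) (nat_lit 281) (nat_lit 102))) (XT.nd (nat_lit 78) (nat_lit 0) (nat_lit 0) (XT.lf (nat_lit 0) (nat_lit 19871409324) (nat_lit 228) (nat_lit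 40457694173) (nat_lit 76) (nat_lit 20449415977) (nat_lit 17) (nat_lit 5) (nat_lit 20) (nat_lit 5) (nat_lit 18) (nat_lit 4) (nat_lit 398) (nat_lit 281) (nat_lit 101)) (XT.lf (nat_lit 0) (nat_lit 29681440510) (nat_lit 228) (nat_lit 20554894807) (nat_lit 76) (nat_lit 32614582817) (nat_lit 17) (nat_lit 5) (nat_lit 20) (nat_lit 5) (nat_lit 18) (nat_lit 4) (nat_lit 399) (nat_lit 281) (nat_lit 100))))) (XT.nd (nat_lit 234) (nat_lit 152) (nat_lit 0) (XT.nd (nat_lit 78) (nat_lit 76) (nat_lit 0) (XT.lf (nat_lit 0) (nat_lit 39782546989) (nat_lit 228) (nat_lit 60875781) (nat_lit 76) (nat_lit 45142163752) (nat_lit 17) (nat_lit 5) (nat_lit 20) (nat_lit 5) (nat_lit 18) (nat_lit 4) (nat_lit 400) (nat_lit 281) (nat_lit 99)) (XT.nd (nat_lit 78) (nat_lit 0) (nat_lit 0) (XT.lf (nat_lit 0) (nat_lit 21461052738) (nat_lit 76) (nat_lit 28928799000) (nat_lit 152) (nat_lit 36788349241) (nat_lit 16) (nat_lit 5) (nat_lit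 17) (nat_lit 5) (nat_lit 18) (nat_lit 4) (nat_lit 401) (nat_lit 281) (nat_lit 98)) (XT.lf (nat_lit 0) (nat_lit 43624249311) (nat_lit 76) (nat_lit 17688646376) (nat_lit 152) (nat_lit 28123773523) (nat_lit 16) (nat_lit 5) (nat_lit 17) (nat_lit 5) (nat_lit 18) (nat_lit 4) (nat_lit 402) (nat_lit 281) (nat_lit 97)))) (XT.nd (nat_lit 156) (nat_lit 152) (nat_lit 0) (XT.nd (nat_lit 78) (nat_lit 0) (nat_lit 0) (XT.lf (nat_lit 0) (nat_lit 66446868290) (nat_lit 76) (nat_lit 6113758131) (nat_lit 152) (nat_lit 19202356119) (nat_lit 16) (nat_lit 5) (nat_lit 17) (nat_lit 5) (nat_lit 18) (nat_lit 4) (nat_lit 403) (nat_lit 281) (nat_lit 96)) (XT.lf (nat_lit 0) (nat_lit 84198682683) (nat_lit 152) (nat_lit 4266132528) (nat_lit 0) (nat_lit 5692684137) (nat_lit 16) (nat_lit 5) (nat_lit 18) (nat_lit 4) (nat_lit 16) (nat_lit 4) (nat_lit 404) (nat_lit 281) (nat_lit 95))) (XT.nd (nat_lit 78) (nat_lit 76) (nat_lit 0) (XT.lf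 (nat_lit 0) (nat_lit 17694884574) (nat_lit 76) (nat_lit 78718767939) (nat_lit 76) (nat_lit 203366852) (nat_lit 15) (nat_lit 4) (nat_lit 16) (nat_lit 5) (nat_lit 16) (nat_lit 4) (nat_lit 405) (nat_lit 281) (nat_lit 94)) (XT.lf (nat_lit 0) (nat_lit 9693296339) (nat_lit 152) (nat_lit 58847138198) (nat_lit 76) (nat_lit 30605832558) (nat_lit 14) (nat_lit 5) (nat_lit 16) (nat_lit 5) (nat_lit 15) (nat_lit 4) (nat_lit 406) (nat_lit 281) (nat_lit 93))))))) (XT.nd (nat_lit 31824) (nat_lit 0) (nat_lit 11324) (XT.nd (nat_lit 31278) (nat_lit 0) (nat_lit 15276) (XT.nd (nat_lit 30966) (nat_lit 0) (nat_lit 16036) (XT.nd (nat_lit 78) (nat_lit 0) (nat_lit 0) (XT.lf (nat_lit 0) (nat_lit 19880005202) (nat_lit 152) (nat_lit 38176982004) (nat_lit 76) (nat_lit 43694428435) (nat_lit 14) (nat_lit 5) (nat_lit 16) (nat_lit 5) (nat_lit 15) (nat_lit 4) (nat_lit 407) (nat_lit 281) (nat_lit 92)) (XT.nd (nat_lit 30810) (nat_lit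 0) (nat_lit 17024) (XT.lf (nat_lit 0) (nat_lit 30369629161) (nat_lit 152) (nat_lit 16891650024) (nat_lit 76) (nat_lit 57173520810) (nat_lit 14) (nat_lit 5) (nat_lit 16) (nat_lit 5) (nat_lit 15) (nat_lit 4) (nat_lit 408) (nat_lit 281) (nat_lit 91)) (XT.lf (nat_lit 0) (nat_lit 3359366830) (nat_lit 988) (nat_lit 454764640) (nat_lit 988) (nat_lit 454764640) (nat_lit 238) (nat_lit 3) (nat_lit 251) (nat_lit 3) (nat_lit 251) (nat_lit 5) (nat_lit 282) (nat_lit 282) (nat_lit 216)))) (XT.nd (nat_lit 156) (nat_lit 0) (nat_lit 76) (XT.nd (nat_lit 78) (nat_lit 988) (nat_lit 0) (XT.lf (nat_lit 76) (nat_lit 3060805419) (nat_lit 0) (nat_lit 4752364260) (nat_lit 988) (nat_lit 821574577) (nat_lit 239) (nat_lit 5) (nat_lit 238) (nat_lit 3) (nat_lit 251) (nat_lit 5) (nat_lit 283) (nat_lit 282) (nat_lit 215)) (XT.lf (nat_lit 0) (nat_lit 172846793) (nat_lit 988) (nat_lit 1588106659) (nat_lit 1064) (nat_lit 6974510612)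 (nat_lit 225) (nat_lit 5) (nat_lit 238) (nat_lit 3) (nat_lit 239) (nat_lit 5) (nat_lit 284) (nat_lit 282) (nat_lit 214))) (XT.nd (nat_lit 78) (nat_lit 0) (nat_lit 0) (XT.lf (nat_lit 0) (nat_lit 1181036910) (nat_lit 988) (nat_lit 6313865719) (nat_lit 1064) (nat_lit 1344093350) (nat_lit 226) (nat_lit 5) (nat_lit 239) (nat_lit 5) (nat_lit 240) (nat_lit 5) (nat_lit 285) (nat_lit 282) (nat_lit 213)) (XT.lf (nat_lit 0) (nat_lit 2217020550) (nat_lit 988) (nat_lit 2189525870) (nat_lit 1064) (nat_lit 4539207613) (nat_lit 226) (nat_lit 5) (nat_lit 239) (nat_lit 5) (nat_lit 240) (nat_lit 5) (nat_lit 286) (nat_lit 282) (nat_lit 212))))) (XT.nd (nat_lit 234) (nat_lit 836) (nat_lit 0) (XT.nd (nat_lit 78) (nat_lit 0) (nat_lit 76) (XT.lf (nat_lit 76) (nat_lit 2078622007) (nat_lit 0) (nat_lit 1190410730) (nat_lit 1064) (nat_lit 5787178878) (nat_lit 227) (nat_lit 5) (nat_lit 226) (nat_lit 5) (nat_lit 240) (nat_lit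 5) (nat_lit 287) (nat_lit 282) (nat_lit 211)) (XT.nd (nat_lit 78) (nat_lit 0) (nat_lit 0) (XT.lf (nat_lit 0) (nat_lit 4361261366) (nat_lit 988) (nat_lit 2691727784) (nat_lit 1064) (nat_lit 2116778033) (nat_lit 227) (nat_lit 5) (nat_lit 240) (nat_lit 5) (nat_lit 241) (nat_lit 5) (nat_lit 288) (nat_lit 282) (nat_lit 210)) (XT.lf (nat_lit 76) (nat_lit 1723698309) (nat_lit 0) (nat_lit 3757833714) (nat_lit 1064) (nat_lit 3805381800) (nat_lit 228) (nat_lit 5) (nat_lit 227) (nat_lit 5) (nat_lit 241) (nat_lit 5) (nat_lit 289) (nat_lit 282) (nat_lit 209)))) (XT.nd (nat_lit 156) (nat_lit 912) (nat_lit 0) (XT.nd (nat_lit 78) (nat_lit 0) (nat_lit 76) (XT.lf (nat_lit 76) (nat_lit 6306108582) (nat_lit 0) (nat_lit 324168018) (nat_lit 1064) (nat_lit 2777493705) (nat_lit 228) (nat_lit 5) (nat_lit 227) (nat_lit 5) (nat_lit 241) (nat_lit 5) (nat_lit 290) (nat_lit 282) (nat_lit 208)) (XT.lf (nat_lit 76) (nat_lit 1470406022)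 (nat_lit 0) (nat_lit 6356827184) (nat_lit 1064) (nat_lit 1704646998) (nat_lit 229) (nat_lit 5) (nat_lit 228) (nat_lit 5) (nat_lit 242) (nat_lit 5) (nat_lit 291) (nat_lit 282) (nat_lit 207))) (XT.nd (nat_lit 78) (nat_lit 988) (nat_lit 0) (XT.lf (nat_lit 76) (nat_lit 6219005681) (nat_lit 0) (nat_lit 2845035682) (nat_lit 1064) (nat_lit 595592789) (nat_lit 229) (nat_lit 5) (nat_lit 228) (nat_lit 5) (nat_lit 242) (nat_lit 5) (nat_lit 292) (nat_lit 282) (nat_lit 206)) (XT.lf (nat_lit 0) (nat_lit 526426592) (nat_lit 1064) (nat_lit 8480954710) (nat_lit 1140) (nat_lit 784007682) (nat_lit 215) (nat_lit 5) (nat_lit 229) (nat_lit 5) (nat_lit 230) (nat_lit 5) (nat_lit 293) (nat_lit 282) (nat_lit 205)))))) (XT.nd (nat_lit 546) (nat_lit 3040) (nat_lit 0) (XT.nd (nat_lit 234) (nat_lit 912) (nat_lit 0) (XT.nd (nat_lit 78) (nat_lit 0) (nat_lit 0) (XT.lf (nat_lit 0) (nat_lit 1704151647) (nat_lit 1064) (nat_lit 3707659255)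 (nat_lit 1140) (nat_lit 4514123899) (nat_lit 215) (nat_lit 5) (nat_lit 229) (nat_lit 5) (nat_lit 230) (nat_lit 5) (nat_lit 294) (nat_lit 282) (nat_lit 204)) (XT.nd (nat_lit 78) (nat_lit 0) (nat_lit 76) (XT.lf (nat_lit 76) (nat_lit 1211352633) (nat_lit 0) (nat_lit 1689111395) (nat_lit 1140) (nat_lit 7164589985) (nat_lit 216) (nat_lit 5) (nat_lit 215) (nat_lit 5) (nat_lit 230) (nat_lit 5) (nat_lit 295) (nat_lit 282) (nat_lit 203)) (XT.lf (nat_lit 0) (nat_lit 4163401180) (nat_lit 1064) (nat_lit 3896123301) (nat_lit 1140) (nat_lit 2147933934) (nat_lit 216) (nat_lit 5) (nat_lit 230) (nat_lit 5) (nat_lit 231) (nat_lit 5) (nat_lit 296) (nat_lit 282) (nat_lit 202)))) (XT.nd (nat_lit 156) (nat_lit 988) (nat_lit 0) (XT.nd (nat_lit 78) (nat_lit 0) (nat_lit 0) (XT.lf (nat_lit 76) (nat_lit 1195578951) (nat_lit 0) (nat_lit 4269973694) (nat_lit 1140) (nat_lit 4888575213) (nat_lit 217) (nat_lit 5) (nat_lit 216)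 (nat_lit 5) (nat_lit 231) (nat_lit 5) (nat_lit 297) (nat_lit 282) (nat_lit 201)) (XT.lf (nat_lit 76) (nat_lit 6498897567) (nat_lit 0) (nat_lit 320905315) (nat_lit 1140) (nat_lit 3685035219) (nat_lit 217) (nat_lit 5) (nat_lit 216) (nat_lit 5) (nat_lit 231) (nat_lit 5) (nat_lit 298) (nat_lit 282) (nat_lit 200))) (XT.nd (nat_lit 78) (nat_lit 0) (nat_lit 0) (XT.lf (nat_lit 0) (nat_lit 1268752723) (nat_lit 1064) (nat_lit 6968645717) (nat_lit 1140) (nat_lit 2422020495) (nat_lit 203) (nat_lit 5) (nat_lit 217) (nat_lit 5) (nat_lit 218) (nat_lit 5) (nat_lit 299) (nat_lit 282) (nat_lit 199)) (XT.lf (nat_lit 0) (nat_lit 6759535965) (nat_lit 1064) (nat_lit 2956631395) (nat_lit 1140) (nat_lit 1101940391) (nat_lit 203) (nat_lit 5) (nat_lit 217) (nat_lit 5) (nat_lit 218) (nat_lit 5) (nat_lit 300) (nat_lit 282) (nat_lit 198))))) (XT.nd (nat_lit 234) (nat_lit 1140) (nat_lit 0) (XT.nd (nat_lit 78) (nat_lit 684)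 (nat_lit 0) (XT.lf (nat_lit 0) (nat_lit 253540193) (nat_lit 1216) (nat_lit 9555189015) (nat_lit 76) (nat_lit 1172757072) (nat_lit 187) (nat_lit 5) (nat_lit 203) (nat_lit 5) (nat_lit 188) (nat_lit 5) (nat_lit 301) (nat_lit 282) (nat_lit 197)) (XT.nd (nat_lit 78) (nat_lit 684) (nat_lit 0) (XT.lf (nat_lit 0) (nat_lit 1674251390) (nat_lit 1216) (nat_lit 4051721410) (nat_lit 76) (nat_lit 5422092016) (nat_lit 187) (nat_lit 5) (nat_lit 203) (nat_lit 5) (nat_lit 188) (nat_lit 5) (nat_lit 302) (nat_lit 282) (nat_lit 196)) (XT.lf (nat_lit 0) (nat_lit 1627735311) (nat_lit 684) (nat_lit 1502244070) (nat_lit 760) (nat_lit 8189916046) (nat_lit 178) (nat_lit 5) (nat_lit 187) (nat_lit 5) (nat_lit 188) (nat_lit 5) (nat_lit 303) (nat_lit 282) (nat_lit 195)))) (XT.nd (nat_lit 156) (nat_lit 532) (nat_lit 0) (XT.nd (nat_lit 78) (nat_lit 608) (nat_lit 0) (XT.lf (nat_lit 0) (nat_lit 4675324707) (nat_lit 760) (nat_lit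 3984207558) (nat_lit 76) (nat_lit 2835996137) (nat_lit 178) (nat_lit 5) (nat_lit 188) (nat_lit 5) (nat_lit 179) (nat_lit 5) (nat_lit 304) (nat_lit 282) (nat_lit 194)) (XT.lf (nat_lit 0) (nat_lit 1896335189) (nat_lit 608) (nat_lit 4381707693) (nat_lit 684) (nat_lit 5398082168) (nat_lit 170) (nat_lit 5) (nat_lit 178) (nat_lit 5) (nat_lit 179) (nat_lit 5) (nat_lit 305) (nat_lit 282) (nat_lit 193))) (XT.nd (nat_lit 78) (nat_lit 532) (nat_lit 0) (XT.lf (nat_lit 0) (nat_lit 7948074617) (nat_lit 684) (nat_lit 3847858668) (nat_lit 76) (nat_lit 65653680) (nat_lit 170) (nat_lit 5) (nat_lit 179) (nat_lit 5) (nat_lit 171) (nat_lit 5) (nat_lit 306) (nat_lit 282) (nat_lit 192)) (XT.lf (nat_lit 0) (nat_lit 2241751837) (nat_lit 532) (nat_lit 7470383861) (nat_lit 608) (nat_lit 2339182808) (nat_lit 163) (nat_lit 5) (nat_lit 170) (nat_lit 5) (nat_lit 171) (nat_lit 5) (nat_lit 307) (nat_lit 282) (nat_lit 191))))))))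
noncomputable def xc159 : XT := (XT.nd (nat_lit 2184) (nat_lit 3192) (nat_lit 0) (XT.nd (nat_lit 1092) (nat_lit 2584) (nat_lit 0) (XT.nd (nat_lit 546) (nat_lit 1824) (nat_lit 0) (XT.nd (nat_lit 234) (nat_lit 988) (nat_lit 0) (XT.nd (nat_lit 78) (nat_lit 608) (nat_lit 0) (XT.lf (nat_lit 0) (nat_lit 8572490311) (nat_lit 532) (nat_lit 2974895495) (nat_lit 608) (nat_lit 698831104) (nat_lit 163) (nat_lit 5) (nat_lit 170) (nat_lit 5) (nat_lit 171) (nat_lit 5) (nat_lit 308) (nat_lit 282) (nat_lit 190)) (XT.nd (nat_lit 78) (nat_lit 0) (nat_lit 0) (XT.lf (nat_lit 0) (nat_lit 993101663) (nat_lit 608) (nat_lit 9794325473) (nat_lit 76) (nat_lit 1658619942) (nat_lit 155) (nat_lit 5) (nat_lit 163) (nat_lit 5) (nat_lit 156) (nat_lit 5) (nat_lit 309) (nat_lit 282) (nat_lit 189)) (XT.lf (nat_lit 0) (nat_lit 2768850298) (nat_lit 608) (nat_lit 3465939465) (nat_lit 76) (nat_lit 6415482689) (nat_lit 155) (nat_lit 5)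 (nat_lit 163) (nat_lit 5) (nat_lit 156) (nat_lit 5) (nat_lit 310) (nat_lit 282) (nat_lit 188)))) (XT.nd (nat_lit 156) (nat_lit 532) (nat_lit 0) (XT.nd (nat_lit 78) (nat_lit 0) (nat_lit 0) (XT.lf (nat_lit 0) (nat_lit 3092567133) (nat_lit 456) (nat_lit 1515793604) (nat_lit 532) (nat_lit 8251969544) (nat_lit 149) (nat_lit 5) (nat_lit 155) (nat_lit 5) (nat_lit 156) (nat_lit 5) (nat_lit 311) (nat_lit 282) (nat_lit 187)) (XT.lf (nat_lit 0) (nat_lit 6551675406) (nat_lit 532) (nat_lit 3209718496) (nat_lit 76) (nat_lit 3313857158) (nat_lit 149) (nat_lit 5) (nat_lit 156) (nat_lit 5) (nat_lit 150) (nat_lit 5) (nat_lit 312) (nat_lit 282) (nat_lit 186))) (XT.nd (nat_lit 78) (nat_lit 0) (nat_lit 0) (XT.lf (nat_lit 0) (nat_lit 3580057918) (nat_lit 532) (nat_lit 5004324226) (nat_lit 608) (nat_lit 4711323744) (nat_lit 142) (nat_lit 5) (nat_lit 149) (nat_lit 5) (nat_lit 150) (nat_lit 5) (nat_lit 313) (nat_lit 282)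 (nat_lit 185)) (XT.lf (nat_lit 0) (nat_lit 10619656884) (nat_lit 532) (nat_lit 72840932) (nat_lit 608) (nat_lit 2829862359) (nat_lit 142) (nat_lit 5) (nat_lit 149) (nat_lit 5) (nat_lit 150) (nat_lit 5) (nat_lit 314) (nat_lit 282) (nat_lit 184))))) (XT.nd (nat_lit 234) (nat_lit 836) (nat_lit 0) (XT.nd (nat_lit 78) (nat_lit 532) (nat_lit 0) (XT.lf (nat_lit 0) (nat_lit 4127424050) (nat_lit 456) (nat_lit 8806758583) (nat_lit 532) (nat_lit 819539790) (nat_lit 136) (nat_lit 5) (nat_lit 142) (nat_lit 5) (nat_lit 143) (nat_lit 5) (nat_lit 315) (nat_lit 282) (nat_lit 183)) (XT.nd (nat_lit 78) (nat_lit 456) (nat_lit 0) (XT.lf (nat_lit 0) (nat_lit 1239661319) (nat_lit 532) (nat_lit 2596016121) (nat_lit 76) (nat_lit 10155614908) (nat_lit 135) (nat_lit 5) (nat_lit 142) (nat_lit 5) (nat_lit 136) (nat_lit 5) (nat_lit 316) (nat_lit 282) (nat_lit 182)) (XT.lf (nat_lit 0) (nat_lit 3385457240) (nat_lit 532) (nat_lit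 9538011950) (nat_lit 76) (nat_lit 1311054598) (nat_lit 129) (nat_lit 5) (nat_lit 136) (nat_lit 5) (nat_lit 130) (nat_lit 5) (nat_lit 317) (nat_lit 282) (nat_lit 181)))) (XT.nd (nat_lit 156) (nat_lit 456) (nat_lit 0) (XT.nd (nat_lit 78) (nat_lit 380) (nat_lit 0) (XT.lf (nat_lit 0) (nat_lit 5643525977) (nat_lit 532) (nat_lit 2280984055) (nat_lit 76) (nat_lit 6559121255) (nat_lit 129) (nat_lit 5) (nat_lit 136) (nat_lit 5) (nat_lit 130) (nat_lit 5) (nat_lit 318) (nat_lit 282) (nat_lit 180)) (XT.lf (nat_lit 0) (nat_lit 5277798695) (nat_lit 380) (nat_lit 2726201327) (nat_lit 456) (nat_lit 6735187707) (nat_lit 124) (nat_lit 5) (nat_lit 129) (nat_lit 5) (nat_lit 130) (nat_lit 5) (nat_lit 319) (nat_lit 282) (nat_lit 179))) (XT.nd (nat_lit 78) (nat_lit 456) (nat_lit 0) (XT.lf (nat_lit 0) (nat_lit 10468001239) (nat_lit 456) (nat_lit 1936326670) (nat_lit 76) (nat_lit 2597116728) (nat_lit 124) (nat_lit 5) (nat_lit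 130) (nat_lit 5) (nat_lit 125) (nat_lit 5) (nat_lit 320) (nat_lit 282) (nat_lit 178)) (XT.lf (nat_lit 0) (nat_lit 5883647273) (nat_lit 456) (nat_lit 7190473987) (nat_lit 532) (nat_lit 2195416747) (nat_lit 118) (nat_lit 5) (nat_lit 124) (nat_lit 5) (nat_lit 125) (nat_lit 5) (nat_lit 321) (nat_lit 282) (nat_lit 177)))))) (XT.nd (nat_lit 546) (nat_lit 1444) (nat_lit 0) (XT.nd (nat_lit 234) (nat_lit 684) (nat_lit 0) (XT.nd (nat_lit 78) (nat_lit 380) (nat_lit 0) (XT.lf (nat_lit 0) (nat_lit 213101493) (nat_lit 532) (nat_lit 1588206722) (nat_lit 76) (nat_lit 13744183417) (nat_lit 117) (nat_lit 5) (nat_lit 124) (nat_lit 5) (nat_lit 118) (nat_lit 5) (nat_lit 322) (nat_lit 282) (nat_lit 176)) (XT.nd (nat_lit 78) (nat_lit 0) (nat_lit 0) (XT.lf (nat_lit 0) (nat_lit 2734574352) (nat_lit 456) (nat_lit 9333626919) (nat_lit 76) (nat_lit 3758339216) (nat_lit 112) (nat_lit 5) (nat_lit 118) (nat_lit 5) (nat_lit 113)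 (nat_lit 5) (nat_lit 323) (nat_lit 282) (nat_lit 175)) (XT.lf (nat_lit 0) (nat_lit 5351145857) (nat_lit 456) (nat_lit 1302991947) (nat_lit 76) (nat_lit 9461312449) (nat_lit 112) (nat_lit 5) (nat_lit 118) (nat_lit 5) (nat_lit 113) (nat_lit 5) (nat_lit 324) (nat_lit 282) (nat_lit 174)))) (XT.nd (nat_lit 156) (nat_lit 304) (nat_lit 0) (XT.nd (nat_lit 78) (nat_lit 0) (nat_lit 0) (XT.lf (nat_lit 0) (nat_lit 7088948432) (nat_lit 380) (nat_lit 1011257113) (nat_lit 456) (nat_lit 8311214731) (nat_lit 107) (nat_lit 5) (nat_lit 112) (nat_lit 5) (nat_lit 113) (nat_lit 5) (nat_lit 325) (nat_lit 282) (nat_lit 173)) (XT.lf (nat_lit 0) (nat_lit 10977226291) (nat_lit 456) (nat_lit 1020958350) (nat_lit 76) (nat_lit 4716732408) (nat_lit 107) (nat_lit 5) (nat_lit 113) (nat_lit 5) (nat_lit 108) (nat_lit 5) (nat_lit 326) (nat_lit 282) (nat_lit 172))) (XT.nd (nat_lit 78) (nat_lit 0) (nat_lit 0) (XT.lf (nat_lit 0) (nat_lit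 7651259497) (nat_lit 304) (nat_lit 6359317492) (nat_lit 380) (nat_lit 3014853125) (nat_lit 103) (nat_lit 5) (nat_lit 107) (nat_lit 5) (nat_lit 108) (nat_lit 5) (nat_lit 327) (nat_lit 282) (nat_lit 171)) (XT.lf (nat_lit 0) (nat_lit 16587113156) (nat_lit 304) (nat_lit 544809615) (nat_lit 380) (nat_lit 213437582) (nat_lit 103) (nat_lit 5) (nat_lit 107) (nat_lit 5) (nat_lit 108) (nat_lit 5) (nat_lit 328) (nat_lit 282) (nat_lit 170))))) (XT.nd (nat_lit 234) (nat_lit 684) (nat_lit 0) (XT.nd (nat_lit 78) (nat_lit 304) (nat_lit 0) (XT.lf (nat_lit 0) (nat_lit 2739293176) (nat_lit 456) (nat_lit 9491556337) (nat_lit 76) (nat_lit 5439696981) (nat_lit 97) (nat_lit 5) (nat_lit 103) (nat_lit 5) (nat_lit 98) (nat_lit 5) (nat_lit 329) (nat_lit 282) (nat_lit 169)) (XT.nd (nat_lit 78) (nat_lit 304) (nat_lit 0) (XT.lf (nat_lit 0) (nat_lit 5776552643) (nat_lit 456) (nat_lit 630362487) (nat_lit 76) (nat_lit 11598513226)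 (nat_lit 97) (nat_lit 5) (nat_lit 103) (nat_lit 5) (nat_lit 98) (nat_lit 5) (nat_lit 330) (nat_lit 282) (nat_lit 168)) (XT.lf (nat_lit 0) (nat_lit 8648529468) (nat_lit 304) (nat_lit 327020716) (nat_lit 380) (nat_lit 9372698204) (nat_lit 93) (nat_lit 5) (nat_lit 97) (nat_lit 5) (nat_lit 98) (nat_lit 5) (nat_lit 331) (nat_lit 282) (nat_lit 167)))) (XT.nd (nat_lit 156) (nat_lit 380) (nat_lit 0) (XT.nd (nat_lit 78) (nat_lit 304) (nat_lit 0) (XT.lf (nat_lit 0) (nat_lit 12321645980) (nat_lit 380) (nat_lit 556641326) (nat_lit 76) (nat_lit 5821541888) (nat_lit 93) (nat_lit 5) (nat_lit 98) (nat_lit 5) (nat_lit 94) (nat_lit 5) (nat_lit 332) (nat_lit 282) (nat_lit 166)) (XT.lf (nat_lit 0) (nat_lit 9016866793) (nat_lit 304) (nat_lit 6829177565) (nat_lit 380) (nat_lit 3213585205) (nat_lit 89) (nat_lit 5) (nat_lit 93) (nat_lit 5) (nat_lit 94) (nat_lit 5) (nat_lit 333) (nat_lit 282) (nat_lit 165))) (XT.nd (nat_lit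 78) (nat_lit 304) (nat_lit 0) (XT.lf (nat_lit 0) (nat_lit 38802403) (nat_lit 380) (nat_lit 558221504) (nat_lit 76) (nat_lit 18833383511) (nat_lit 88) (nat_lit 5) (nat_lit 93) (nat_lit 5) (nat_lit 89) (nat_lit 5) (nat_lit 334) (nat_lit 282) (nat_lit 164)) (XT.lf (nat_lit 0) (nat_lit 3459548700) (nat_lit 380) (nat_lit 10520918347) (nat_lit 76) (nat_lit 5826834625) (nat_lit 84) (nat_lit 5) (nat_lit 89) (nat_lit 5) (nat_lit 85) (nat_lit 5) (nat_lit 335) (nat_lit 282) (nat_lit 163))))))) (XT.nd (nat_lit 1092) (nat_lit 1292) (nat_lit 0) (XT.nd (nat_lit 546) (nat_lit 988) (nat_lit 0) (XT.nd (nat_lit 234) (nat_lit 608) (nat_lit 0) (XT.nd (nat_lit 78) (nat_lit 304) (nat_lit 0) (XT.lf (nat_lit 0) (nat_lit 6983079339) (nat_lit 380) (nat_lit 779853254) (nat_lit 76) (nat_lit 12432573949) (nat_lit 84) (nat_lit 5) (nat_lit 89) (nat_lit 5) (nat_lit 85) (nat_lit 5) (nat_lit 336) (nat_lit 282) (nat_lit 162)) (XT.nd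 (nat_lit 78) (nat_lit 0) (nat_lit 0) (XT.lf (nat_lit 0) (nat_lit 9421443524) (nat_lit 304) (nat_lit 1270328385) (nat_lit 380) (nat_lit 9901210364) (nat_lit 80) (nat_lit 5) (nat_lit 84) (nat_lit 5) (nat_lit 85) (nat_lit 5) (nat_lit 337) (nat_lit 282) (nat_lit 161)) (XT.lf (nat_lit 0) (nat_lit 14560768593) (nat_lit 380) (nat_lit 1125512323) (nat_lit 76) (nat_lit 5314638208) (nat_lit 80) (nat_lit 5) (nat_lit 85) (nat_lit 5) (nat_lit 81) (nat_lit 5) (nat_lit 338) (nat_lit 282) (nat_lit 160)))) (XT.nd (nat_lit 156) (nat_lit 304) (nat_lit 0) (XT.nd (nat_lit 78) (nat_lit 76) (nat_lit 0) (XT.lf (nat_lit 0) (nat_lit 9376775820) (nat_lit 228) (nat_lit 9261110366) (nat_lit 304) (nat_lit 2780454277) (nat_lit 77) (nat_lit 5) (nat_lit 80) (nat_lit 5) (nat_lit 81) (nat_lit 5) (nat_lit 339) (nat_lit 282) (nat_lit 159)) (XT.lf (nat_lit 0) (nat_lit 970600831) (nat_lit 304) (nat_lit 1655941433) (nat_lit 76) (nat_lit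 19221438394) (nat_lit 76) (nat_lit 5) (nat_lit 80) (nat_lit 5) (nat_lit 77) (nat_lit 5) (nat_lit 340) (nat_lit 282) (nat_lit 158))) (XT.nd (nat_lit 78) (nat_lit 0) (nat_lit 0) (XT.lf (nat_lit 0) (nat_lit 4897763817) (nat_lit 380) (nat_lit 13151212346) (nat_lit 76) (nat_lit 4237131441) (nat_lit 72) (nat_lit 5) (nat_lit 77) (nat_lit 5) (nat_lit 73) (nat_lit 5) (nat_lit 341) (nat_lit 282) (nat_lit 157)) (XT.lf (nat_lit 0) (nat_lit 8975442548) (nat_lit 380) (nat_lit 2494890876) (nat_lit 76) (nat_lit 11266070938) (nat_lit 72) (nat_lit 5) (nat_lit 77) (nat_lit 5) (nat_lit 73) (nat_lit 5) (nat_lit 342) (nat_lit 282) (nat_lit 156))))) (XT.nd (nat_lit 234) (nat_lit 532) (nat_lit 0) (XT.nd (nat_lit 78) (nat_lit 228) (nat_lit 0) (XT.lf (nat_lit 0) (nat_lit 8634815159) (nat_lit 228) (nat_lit 4613744622) (nat_lit 304) (nat_lit 9949463823) (nat_lit 69) (nat_lit 5) (nat_lit 72) (nat_lit 5) (nat_lit 73) (nat_lit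 5) (nat_lit 343) (nat_lit 282) (nat_lit 155)) (XT.nd (nat_lit 78) (nat_lit 228) (nat_lit 0) (XT.lf (nat_lit 0) (nat_lit 17689055506) (nat_lit 304) (nat_lit 3561874933) (nat_lit 76) (nat_lit 2421392062) (nat_lit 69) (nat_lit 5) (nat_lit 73) (nat_lit 5) (nat_lit 70) (nat_lit 5) (nat_lit 344) (nat_lit 282) (nat_lit 154)) (XT.lf (nat_lit 0) (nat_lit 7862775042) (nat_lit 228) (nat_lit 14511743938) (nat_lit 304) (nat_lit 1782985232) (nat_lit 66) (nat_lit 5) (nat_lit 69) (nat_lit 5) (nat_lit 70) (nat_lit 5) (nat_lit 345) (nat_lit 282) (nat_lit 153)))) (XT.nd (nat_lit 156) (nat_lit 228) (nat_lit 0) (XT.nd (nat_lit 78) (nat_lit 228) (nat_lit 0) (XT.lf (nat_lit 0) (nat_lit 2520530757) (nat_lit 304) (nat_lit 4992313379) (nat_lit 76) (nat_lit 17142864223) (nat_lit 65) (nat_lit 5) (nat_lit 69) (nat_lit 5) (nat_lit 66) (nat_lit 5) (nat_lit 346) (nat_lit 282) (nat_lit 152)) (XT.lf (nat_lit 0) (nat_lit 6749117681)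 (nat_lit 228) (nat_lit 223881501) (nat_lit 304) (nat_lit 18193665241) (nat_lit 62) (nat_lit 5) (nat_lit 65) (nat_lit 5) (nat_lit 66) (nat_lit 5) (nat_lit 347) (nat_lit 282) (nat_lit 151))) (XT.nd (nat_lit 78) (nat_lit 228) (nat_lit 0) (XT.lf (nat_lit 0) (nat_lit 11670862154) (nat_lit 304) (nat_lit 6831018154) (nat_lit 76) (nat_lit 7187719962) (nat_lit 62) (nat_lit 5) (nat_lit 66) (nat_lit 5) (nat_lit 63) (nat_lit 5) (nat_lit 348) (nat_lit 282) (nat_lit 150)) (XT.lf (nat_lit 0) (nat_lit 5188350949) (nat_lit 228) (nat_lit 11364558494) (nat_lit 304) (nat_lit 9674022845) (nat_lit 59) (nat_lit 5) (nat_lit 62) (nat_lit 5) (nat_lit 63) (nat_lit 5) (nat_lit 349) (nat_lit 282) (nat_lit 149)))))) (XT.nd (nat_lit 546) (nat_lit 684) (nat_lit 0) (XT.nd (nat_lit 234) (nat_lit 380) (nat_lit 0) (XT.nd (nat_lit 78) (nat_lit 228) (nat_lit 0) (XT.lf (nat_lit 0) (nat_lit 17694683312) (nat_lit 228) (nat_lit 3946999251)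 (nat_lit 304) (nat_lit 5136899160) (nat_lit 59) (nat_lit 5) (nat_lit 62) (nat_lit 5) (nat_lit 63) (nat_lit 5) (nat_lit 350) (nat_lit 282) (nat_lit 148)) (XT.nd (nat_lit 78) (nat_lit 76) (nat_lit 0) (XT.lf (nat_lit 0) (nat_lit 3243759669) (nat_lit 152) (nat_lit 23697532766) (nat_lit 228) (nat_lit 403748230) (nat_lit 57) (nat_lit 5) (nat_lit 59) (nat_lit 5) (nat_lit 60) (nat_lit 5) (nat_lit 351) (nat_lit 282) (nat_lit 147)) (XT.lf (nat_lit 0) (nat_lit 4507385111) (nat_lit 228) (nat_lit 11894756398) (nat_lit 76) (nat_lit 11521370115) (nat_lit 56) (nat_lit 5) (nat_lit 59) (nat_lit 5) (nat_lit 57) (nat_lit 5) (nat_lit 352) (nat_lit 282) (nat_lit 146)))) (XT.nd (nat_lit 156) (nat_lit 152) (nat_lit 0) (XT.nd (nat_lit 78) (nat_lit 0) (nat_lit 0) (XT.lf (nat_lit 0) (nat_lit 674007884) (nat_lit 228) (nat_lit 8881979452) (nat_lit 304) (nat_lit 18963286742) (nat_lit 53) (nat_lit 5) (nat_lit 56) (nat_lit 5)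 (nat_lit 57) (nat_lit 5) (nat_lit 353) (nat_lit 282) (nat_lit 145)) (XT.lf (nat_lit 0) (nat_lit 13850683609) (nat_lit 228) (nat_lit 1017363472) (nat_lit 304) (nat_lit 14261506989) (nat_lit 53) (nat_lit 5) (nat_lit 56) (nat_lit 5) (nat_lit 57) (nat_lit 5) (nat_lit 354) (nat_lit 282) (nat_lit 144))) (XT.nd (nat_lit 78) (nat_lit 152) (nat_lit 0) (XT.lf (nat_lit 0) (nat_lit 20399633228) (nat_lit 304) (nat_lit 2416370443) (nat_lit 76) (nat_lit 6940338365) (nat_lit 53) (nat_lit 5) (nat_lit 57) (nat_lit 5) (nat_lit 54) (nat_lit 5) (nat_lit 355) (nat_lit 282) (nat_lit 143)) (XT.lf (nat_lit 0) (nat_lit 11024635194) (nat_lit 152) (nat_lit 15180887628) (nat_lit 228) (nat_lit 4193164524) (nat_lit 51) (nat_lit 5) (nat_lit 53) (nat_lit 5) (nat_lit 54) (nat_lit 5) (nat_lit 356) (nat_lit 282) (nat_lit 142))))) (XT.nd (nat_lit 234) (nat_lit 380) (nat_lit 0) (XT.nd (nat_lit 78) (nat_lit 228) (nat_lit 0) (XT.lf (nat_lit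 0) (nat_lit 1120303803) (nat_lit 228) (nat_lit 6164686986) (nat_lit 76) (nat_lit 23774482565) (nat_lit 50) (nat_lit 5) (nat_lit 53) (nat_lit 5) (nat_lit 51) (nat_lit 5) (nat_lit 357) (nat_lit 282) (nat_lit 141)) (XT.nd (nat_lit 78) (nat_lit 0) (nat_lit 0) (XT.lf (nat_lit 0) (nat_lit 6583112641) (nat_lit 304) (nat_lit 24211758217) (nat_lit 76) (nat_lit 941744149) (nat_lit 47) (nat_lit 5) (nat_lit 51) (nat_lit 5) (nat_lit 48) (nat_lit 5) (nat_lit 358) (nat_lit 282) (nat_lit 140)) (XT.lf (nat_lit 0) (nat_lit 12337416185) (nat_lit 304) (nat_lit 10765651069) (nat_lit 76) (nat_lit 9327179237) (nat_lit 47) (nat_lit 5) (nat_lit 51) (nat_lit 5) (nat_lit 48) (nat_lit 5) (nat_lit 359) (nat_lit 282) (nat_lit 139)))) (XT.nd (nat_lit 156) (nat_lit 228) (nat_lit 0) (XT.nd (nat_lit 78) (nat_lit 0) (nat_lit 0) (XT.lf (nat_lit 0) (nat_lit 3133173308) (nat_lit 152) (nat_lit 15154122844) (nat_lit 228) (nat_lit 14856706126)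 (nat_lit 45) (nat_lit 5) (nat_lit 47) (nat_lit 5) (nat_lit 48) (nat_lit 5) (nat_lit 360) (nat_lit 282) (nat_lit 138)) (XT.lf (nat_lit 0) (nat_lit 17657957970) (nat_lit 152) (nat_lit 6859352339) (nat_lit 228) (nat_lit 9358814965) (nat_lit 45) (nat_lit 5) (nat_lit 47) (nat_lit 5) (nat_lit 48) (nat_lit 5) (nat_lit 361) (nat_lit 282) (nat_lit 137))) (XT.nd (nat_lit 78) (nat_lit 228) (nat_lit 0) (XT.lf (nat_lit 0) (nat_lit 30943503834) (nat_lit 228) (nat_lit 2039431732) (nat_lit 76) (nat_lit 1647001588) (nat_lit 45) (nat_lit 5) (nat_lit 48) (nat_lit 5) (nat_lit 46) (nat_lit 5) (nat_lit 362) (nat_lit 282) (nat_lit 136)) (XT.lf (nat_lit 0) (nat_lit 2299472689) (nat_lit 228) (nat_lit 22689343844) (nat_lit 76) (nat_lit 10411365638) (nat_lit 42) (nat_lit 5) (nat_lit 45) (nat_lit 5) (nat_lit 43) (nat_lit 5) (nat_lit 363) (nat_lit 282) (nat_lit 135))))))))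
noncomputable def xc160 : XT := (XT.nd (nat_lit 2106) (nat_lit 532) (nat_lit 0) (XT.nd (nat_lit 1014) (nat_lit 760) (nat_lit 0) (XT.nd (nat_lit 468) (nat_lit 456) (nat_lit 0) (XT.nd (nat_lit 234) (nat_lit 228) (nat_lit 0) (XT.nd (nat_lit 78) (nat_lit 152) (nat_lit 0) (XT.lf (nat_lit 0) (nat_lit 8404970645) (nat_lit 228) (nat_lit 8295404284) (nat_lit 76) (nat_lit 19491644638) (nat_lit 42) (nat_lit 5) (nat_lit 45) (nat_lit 5) (nat_lit 43) (nat_lit 5) (nat_lit 364) (nat_lit 282) (nat_lit 134)) (XT.nd (nat_lit 78) (nat_lit 0) (nat_lit 0) (XT.lf (nat_lit 0) (nat_lit 6649223007) (nat_lit 152) (nat_lit 8101832038) (nat_lit 228) (nat_lit 22254837559) (nat_lit 40) (nat_lit 5) (nat_lit 42) (nat_lit 5) (nat_lit 43) (nat_lit 5) (nat_lit 365) (nat_lit 282) (nat_lit 133)) (XT.lf (nat_lit 0) (nat_lit 21372921751) (nat_lit 228) (nat_lit 15648443208) (nat_lit 76) (nat_lit 820257952) (nat_lit 40) (nat_lit 5) (nat_lit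 43) (nat_lit 5) (nat_lit 41) (nat_lit 5) (nat_lit 366) (nat_lit 282) (nat_lit 132)))) (XT.nd (nat_lit 78) (nat_lit 228) (nat_lit 0) (XT.lf (nat_lit 0) (nat_lit 28267397271) (nat_lit 228) (nat_lit 589795378) (nat_lit 76) (nat_lit 9843016878) (nat_lit 40) (nat_lit 5) (nat_lit 43) (nat_lit 5) (nat_lit 41) (nat_lit 5) (nat_lit 367) (nat_lit 282) (nat_lit 131)) (XT.nd (nat_lit 78) (nat_lit 76) (nat_lit 0) (XT.lf (nat_lit 0) (nat_lit 15207056140) (nat_lit 152) (nat_lit 20301749524) (nat_lit 228) (nat_lit 4071548013) (nat_lit 38) (nat_lit 5) (nat_lit 40) (nat_lit 5) (nat_lit 41) (nat_lit 5) (nat_lit 368) (nat_lit 282) (nat_lit 130)) (XT.lf (nat_lit 0) (nat_lit 2432100328) (nat_lit 228) (nat_lit 9031046240) (nat_lit 76) (nat_lit 29023044455) (nat_lit 37) (nat_lit 5) (nat_lit 40) (nat_lit 5) (nat_lit 38) (nat_lit 5) (nat_lit 369) (nat_lit 282) (nat_lit 129))))) (XT.nd (nat_lit 234) (nat_lit 304) (nat_lit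 0) (XT.nd (nat_lit 78) (nat_lit 0) (nat_lit 0) (XT.lf (nat_lit 0) (nat_lit 6854902108) (nat_lit 152) (nat_lit 2254128037) (nat_lit 228) (nat_lit 32307166442) (nat_lit 35) (nat_lit 5) (nat_lit 37) (nat_lit 5) (nat_lit 38) (nat_lit 5) (nat_lit 370) (nat_lit 282) (nat_lit 128)) (XT.nd (nat_lit 78) (nat_lit 0) (nat_lit 0) (XT.lf (nat_lit 0) (nat_lit 16142026140) (nat_lit 228) (nat_lit 19049284301) (nat_lit 76) (nat_lit 7178121701) (nat_lit 35) (nat_lit 5) (nat_lit 38) (nat_lit 5) (nat_lit 36) (nat_lit 5) (nat_lit 371) (nat_lit 282) (nat_lit 127)) (XT.lf (nat_lit 0) (nat_lit 23402649677) (nat_lit 228) (nat_lit 3103999962) (nat_lit 76) (nat_lit 16844118493) (nat_lit 35) (nat_lit 5) (nat_lit 38) (nat_lit 5) (nat_lit 36) (nat_lit 5) (nat_lit 372) (nat_lit 282) (nat_lit 126)))) (XT.nd (nat_lit 156) (nat_lit 152) (nat_lit 0) (XT.nd (nat_lit 78) (nat_lit 0) (nat_lit 0) (XT.lf (nat_lit 0) (nat_lit 13575057634)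 (nat_lit 152) (nat_lit 17431011057) (nat_lit 228) (nat_lit 13351728633) (nat_lit 33) (nat_lit 5) (nat_lit 35) (nat_lit 5) (nat_lit 36) (nat_lit 5) (nat_lit 373) (nat_lit 282) (nat_lit 125)) (XT.lf (nat_lit 0) (nat_lit 30808725352) (nat_lit 152) (nat_lit 8054764614) (nat_lit 228) (nat_lit 6530772791) (nat_lit 33) (nat_lit 5) (nat_lit 35) (nat_lit 5) (nat_lit 36) (nat_lit 5) (nat_lit 374) (nat_lit 282) (nat_lit 124))) (XT.nd (nat_lit 78) (nat_lit 0) (nat_lit 0) (XT.lf (nat_lit 0) (nat_lit 515861785) (nat_lit 152) (nat_lit 44351781216) (nat_lit 76) (nat_lit 1593117509) (nat_lit 31) (nat_lit 5) (nat_lit 33) (nat_lit 5) (nat_lit 32) (nat_lit 5) (nat_lit 375) (nat_lit 282) (nat_lit 123)) (XT.lf (nat_lit 0) (nat_lit 7865817067) (nat_lit 152) (nat_lit 28106641785) (nat_lit 76) (nat_lit 11578161153) (nat_lit 31) (nat_lit 5) (nat_lit 33) (nat_lit 5) (nat_lit 32) (nat_lit 5) (nat_lit 376) (nat_lit 282) (nat_lit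 122)))))) (XT.nd (nat_lit 546) (nat_lit 456) (nat_lit 0) (XT.nd (nat_lit 234) (nat_lit 152) (nat_lit 0) (XT.nd (nat_lit 78) (nat_lit 152) (nat_lit 0) (XT.lf (nat_lit 0) (nat_lit 15431115661) (nat_lit 152) (nat_lit 11383136842) (nat_lit 76) (nat_lit 21859079536) (nat_lit 31) (nat_lit 5) (nat_lit 33) (nat_lit 5) (nat_lit 32) (nat_lit 5) (nat_lit 377) (nat_lit 282) (nat_lit 121)) (XT.nd (nat_lit 78) (nat_lit 0) (nat_lit 0) (XT.lf (nat_lit 0) (nat_lit 5949441416) (nat_lit 152) (nat_lit 17326116275) (nat_lit 228) (nat_lit 26552604238) (nat_lit 29) (nat_lit 5) (nat_lit 31) (nat_lit 5) (nat_lit 32) (nat_lit 5) (nat_lit 378) (nat_lit 282) (nat_lit 120)) (XT.lf (nat_lit 0) (nat_lit 24026698862) (nat_lit 152) (nat_lit 7438639008) (nat_lit 228) (nat_lit 19549000673) (nat_lit 29) (nat_lit 5) (nat_lit 31) (nat_lit 5) (nat_lit 32) (nat_lit 5) (nat_lit 379) (nat_lit 282) (nat_lit 119)))) (XT.nd (nat_lit 156)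 (nat_lit 76) (nat_lit 0) (XT.nd (nat_lit 78) (nat_lit 76) (nat_lit 0) (XT.lf (nat_lit 0) (nat_lit 39922369480) (nat_lit 228) (nat_lit 9624718459) (nat_lit 76) (nat_lit 2688367689) (nat_lit 29) (nat_lit 5) (nat_lit 32) (nat_lit 5) (nat_lit 30) (nat_lit 4) (nat_lit 380) (nat_lit 282) (nat_lit 118)) (XT.lf (nat_lit 0) (nat_lit 8339929198) (nat_lit 76) (nat_lit 40442308961) (nat_lit 152) (nat_lit 4706496143) (nat_lit 28) (nat_lit 5) (nat_lit 29) (nat_lit 5) (nat_lit 30) (nat_lit 4) (nat_lit 381) (nat_lit 282) (nat_lit 117))) (XT.nd (nat_lit 78) (nat_lit 0) (nat_lit 0) (XT.lf (nat_lit 0) (nat_lit 3160718582) (nat_lit 152) (nat_lit 27775182753) (nat_lit 76) (nat_lit 23840005484) (nat_lit 27) (nat_lit 5) (nat_lit 29) (nat_lit 5) (nat_lit 28) (nat_lit 5) (nat_lit 382) (nat_lit 282) (nat_lit 116)) (XT.lf (nat_lit 0) (nat_lit 11164808387) (nat_lit 152) (nat_lit 9934977287) (nat_lit 76) (nat_lit 35000648933)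 (nat_lit 27) (nat_lit 5) (nat_lit 29) (nat_lit 5) (nat_lit 28) (nat_lit 5) (nat_lit 383) (nat_lit 282) (nat_lit 115))))) (XT.nd (nat_lit 234) (nat_lit 304) (nat_lit 0) (XT.nd (nat_lit 78) (nat_lit 0) (nat_lit 0) (XT.lf (nat_lit 0) (nat_lit 8600467643) (nat_lit 152) (nat_lit 10886813140) (nat_lit 228) (nat_lit 37975071301) (nat_lit 25) (nat_lit 5) (nat_lit 27) (nat_lit 5) (nat_lit 28) (nat_lit 5) (nat_lit 384) (nat_lit 282) (nat_lit 114)) (XT.nd (nat_lit 78) (nat_lit 0) (nat_lit 0) (XT.lf (nat_lit 0) (nat_lit 27887916816) (nat_lit 152) (nat_lit 267475627) (nat_lit 228) (nat_lit 30706857292) (nat_lit 25) (nat_lit 5) (nat_lit 27) (nat_lit 5) (nat_lit 28) (nat_lit 5) (nat_lit 385) (nat_lit 282) (nat_lit 113)) (XT.lf (nat_lit 0) (nat_lit 37181855188) (nat_lit 228) (nat_lit 12660314492) (nat_lit 76) (nat_lit 10459026960) (nat_lit 25) (nat_lit 5) (nat_lit 28) (nat_lit 5) (nat_lit 26) (nat_lit 4) (nat_lit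 386) (nat_lit 282) (nat_lit 112)))) (XT.nd (nat_lit 156) (nat_lit 228) (nat_lit 0) (XT.nd (nat_lit 78) (nat_lit 0) (nat_lit 0) (XT.lf (nat_lit 0) (nat_lit 6316363424) (nat_lit 76) (nat_lit 40221974499) (nat_lit 152) (nat_lit 15243198759) (nat_lit 24) (nat_lit 5) (nat_lit 25) (nat_lit 5) (nat_lit 26) (nat_lit 4) (nat_lit 387) (nat_lit 282) (nat_lit 111)) (XT.lf (nat_lit 0) (nat_lit 26114570157) (nat_lit 76) (nat_lit 30184700843) (nat_lit 152) (nat_lit 7003304716) (nat_lit 24) (nat_lit 5) (nat_lit 25) (nat_lit 5) (nat_lit 26) (nat_lit 4) (nat_lit 388) (nat_lit 282) (nat_lit 110))) (XT.nd (nat_lit 78) (nat_lit 152) (nat_lit 0) (XT.lf (nat_lit 0) (nat_lit 1450822027) (nat_lit 152) (nat_lit 18383950147) (nat_lit 76) (nat_lit 45034167543) (nat_lit 23) (nat_lit 5) (nat_lit 25) (nat_lit 5) (nat_lit 24) (nat_lit 5) (nat_lit 389) (nat_lit 282) (nat_lit 109)) (XT.lf (nat_lit 0) (nat_lit 926001308) (nat_lit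 152) (nat_lit 9096819755) (nat_lit 228) (nat_lit 56457244487) (nat_lit 21) (nat_lit 5) (nat_lit 23) (nat_lit 5) (nat_lit 24) (nat_lit 5) (nat_lit 390) (nat_lit 282) (nat_lit 108))))))) (XT.nd (nat_lit 1092) (nat_lit 152) (nat_lit 0) (XT.nd (nat_lit 546) (nat_lit 228) (nat_lit 0) (XT.nd (nat_lit 234) (nat_lit 152) (nat_lit 0) (XT.nd (nat_lit 78) (nat_lit 0) (nat_lit 0) (XT.lf (nat_lit 0) (nat_lit 19054456771) (nat_lit 228) (nat_lit 46969536694) (nat_lit 76) (nat_lit 2109458697) (nat_lit 21) (nat_lit 5) (nat_lit 24) (nat_lit 5) (nat_lit 22) (nat_lit 4) (nat_lit 391) (nat_lit 282) (nat_lit 107)) (XT.nd (nat_lit 78) (nat_lit 0) (nat_lit 0) (XT.lf (nat_lit 0) (nat_lit 28443346594) (nat_lit 228) (nat_lit 27924312541) (nat_lit 76) (nat_lit 13466193351) (nat_lit 21) (nat_lit 5) (nat_lit 24) (nat_lit 5) (nat_lit 22) (nat_lit 4) (nat_lit 392) (nat_lit 282) (nat_lit 106)) (XT.lf (nat_lit 0) (nat_lit 38110250220)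 (nat_lit 228) (nat_lit 8314306129) (nat_lit 76) (nat_lit 25160819288) (nat_lit 21) (nat_lit 5) (nat_lit 24) (nat_lit 5) (nat_lit 22) (nat_lit 4) (nat_lit 393) (nat_lit 282) (nat_lit 105)))) (XT.nd (nat_lit 156) (nat_lit 76) (nat_lit 0) (XT.nd (nat_lit 78) (nat_lit 0) (nat_lit 0) (XT.lf (nat_lit 0) (nat_lit 12114005377) (nat_lit 76) (nat_lit 36066056312) (nat_lit 152) (nat_lit 25205996964) (nat_lit 20) (nat_lit 5) (nat_lit 21) (nat_lit 5) (nat_lit 22) (nat_lit 4) (nat_lit 394) (nat_lit 282) (nat_lit 104)) (XT.lf (nat_lit 0) (nat_lit 33319280956) (nat_lit 76) (nat_lit 25313140780) (nat_lit 152) (nat_lit 16605927955) (nat_lit 20) (nat_lit 5) (nat_lit 21) (nat_lit 5) (nat_lit 22) (nat_lit 4) (nat_lit 395) (nat_lit 282) (nat_lit 103))) (XT.nd (nat_lit 78) (nat_lit 76) (nat_lit 0) (XT.lf (nat_lit 0) (nat_lit 55154578493) (nat_lit 76) (nat_lit 14240372192) (nat_lit 152) (nat_lit 7751361956) (nat_lit 20)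 (nat_lit 5) (nat_lit 21) (nat_lit 5) (nat_lit 22) (nat_lit 4) (nat_lit 396) (nat_lit 282) (nat_lit 102)) (XT.lf (nat_lit 0) (nat_lit 1338793416) (nat_lit 152) (nat_lit 1485762707) (nat_lit 76) (nat_lit 76286664770) (nat_lit 19) (nat_lit 5) (nat_lit 21) (nat_lit 5) (nat_lit 20) (nat_lit 5) (nat_lit 397) (nat_lit 282) (nat_lit 101))))) (XT.nd (nat_lit 234) (nat_lit 76) (nat_lit 0) (XT.nd (nat_lit 78) (nat_lit 0) (nat_lit 0) (XT.lf (nat_lit 0) (nat_lit 10822822641) (nat_lit 228) (nat_lit 61273699592) (nat_lit 76) (nat_lit 9027943889) (nat_lit 17) (nat_lit 5) (nat_lit 20) (nat_lit 5) (nat_lit 18) (nat_lit 4) (nat_lit 398) (nat_lit 282) (nat_lit 100)) (XT.nd (nat_lit 78) (nat_lit 0) (nat_lit 0) (XT.lf (nat_lit 0) (nat_lit 20631264840) (nat_lit 228) (nat_lit 41373789054) (nat_lit 76) (nat_lit 21191859050) (nat_lit 17) (nat_lit 5) (nat_lit 20) (nat_lit 5) (nat_lit 18) (nat_lit 4) (nat_lit 399) (nat_lit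 282) (nat_lit 99)) (XT.lf (nat_lit 0) (nat_lit 30730828614) (nat_lit 228) (nat_lit 20882574715) (nat_lit 76) (nat_lit 33718224761) (nat_lit 17) (nat_lit 5) (nat_lit 20) (nat_lit 5) (nat_lit 18) (nat_lit 4) (nat_lit 400) (nat_lit 282) (nat_lit 98)))) (XT.nd (nat_lit 156) (nat_lit 0) (nat_lit 0) (XT.nd (nat_lit 78) (nat_lit 0) (nat_lit 0) (XT.lf (nat_lit 0) (nat_lit 222183978) (nat_lit 76) (nat_lit 40910290615) (nat_lit 152) (nat_lit 46397938183) (nat_lit 16) (nat_lit 5) (nat_lit 17) (nat_lit 5) (nat_lit 18) (nat_lit 4) (nat_lit 401) (nat_lit 282) (nat_lit 97)) (XT.lf (nat_lit 0) (nat_lit 22382684249) (nat_lit 76) (nat_lit 29671354226) (nat_lit 152) (nat_lit 37734887384) (nat_lit 16) (nat_lit 5) (nat_lit 17) (nat_lit 5) (nat_lit 18) (nat_lit 4) (nat_lit 402) (nat_lit 282) (nat_lit 96))) (XT.nd (nat_lit 78) (nat_lit 0) (nat_lit 0) (XT.lf (nat_lit 0) (nat_lit 45202685460) (nat_lit 76) (nat_lit 18097646792)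 (nat_lit 152) (nat_lit 28814950482) (nat_lit 16) (nat_lit 5) (nat_lit 17) (nat_lit 5) (nat_lit 18) (nat_lit 4) (nat_lit 403) (nat_lit 282) (nat_lit 95)) (XT.lf (nat_lit 0) (nat_lit 68702127415) (nat_lit 76) (nat_lit 6179055365) (nat_lit 152) (nat_lit 19630333358) (nat_lit 16) (nat_lit 5) (nat_lit 17) (nat_lit 5) (nat_lit 18) (nat_lit 4) (nat_lit 404) (nat_lit 282) (nat_lit 94)))))) (XT.nd (nat_lit 31356) (nat_lit 0) (nat_lit 16112) (XT.nd (nat_lit 234) (nat_lit 0) (nat_lit 0) (XT.nd (nat_lit 78) (nat_lit 152) (nat_lit 0) (XT.lf (nat_lit 0) (nat_lit 86865296528) (nat_lit 152) (nat_lit 4136763538) (nat_lit 0) (nat_lit 5975902186) (nat_lit 16) (nat_lit 5) (nat_lit 18) (nat_lit 4) (nat_lit 16) (nat_lit 4) (nat_lit 405) (nat_lit 282) (nat_lit 93)) (XT.nd (nat_lit 78) (nat_lit 76) (nat_lit 0) (XT.lf (nat_lit 0) (nat_lit 18480561009) (nat_lit 76) (nat_lit 80964507326) (nat_lit 76) (nat_lit 66250186) (nat_lit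 15) (nat_lit 4) (nat_lit 16) (nat_lit 5) (nat_lit 16) (nat_lit 4) (nat_lit 406) (nat_lit 282) (nat_lit 92)) (XT.lf (nat_lit 0) (nat_lit 10120428219) (nat_lit 152) (nat_lit 60362392511) (nat_lit 76) (nat_lit 31633705517) (nat_lit 14) (nat_lit 5) (nat_lit 16) (nat_lit 5) (nat_lit 15) (nat_lit 4) (nat_lit 407) (nat_lit 282) (nat_lit 91)))) (XT.nd (nat_lit 30966) (nat_lit 0) (nat_lit 16036) (XT.nd (nat_lit 30888) (nat_lit 0) (nat_lit 16036) (XT.lf (nat_lit 0) (nat_lit 20608767483) (nat_lit 152) (nat_lit 39079417841) (nat_lit 76) (nat_lit 45111764184) (nat_lit 14) (nat_lit 5) (nat_lit 16) (nat_lit 5) (nat_lit 15) (nat_lit 4) (nat_lit 408) (nat_lit 282) (nat_lit 90)) (XT.lf (nat_lit 0) (nat_lit 23809411) (nat_lit 0) (nat_lit 23809411) (nat_lit 988) (nat_lit 4319374726) (nat_lit 225) (nat_lit 5) (nat_lit 225) (nat_lit 3) (nat_lit 238) (nat_lit 3) (nat_lit 283) (nat_lit 283) (nat_lit 214))) (XT.nd (nat_lit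 78) (nat_lit 0) (nat_lit 0) (XT.lf (nat_lit 0) (nat_lit 1054877763) (nat_lit 988) (nat_lit 4717829209) (nat_lit 1064) (nat_lit 3062349141) (nat_lit 225) (nat_lit 5) (nat_lit 238) (nat_lit 3) (nat_lit 239) (nat_lit 5) (nat_lit 284) (nat_lit 283) (nat_lit 213)) (XT.lf (nat_lit 0) (nat_lit 2007728063) (nat_lit 988) (nat_lit 650125206) (nat_lit 1064) (nat_lit 6282417917) (nat_lit 225) (nat_lit 5) (nat_lit 238) (nat_lit 3) (nat_lit 239) (nat_lit 5) (nat_lit 285) (nat_lit 283) (nat_lit 212))))) (XT.nd (nat_lit 234) (nat_lit 0) (nat_lit 76) (XT.nd (nat_lit 78) (nat_lit 0) (nat_lit 0) (XT.lf (nat_lit 0) (nat_lit 2994468792) (nat_lit 988) (nat_lit 5463664933) (nat_lit 1064) (nat_lit 590395097) (nat_lit 226) (nat_lit 5) (nat_lit 239) (nat_lit 5) (nat_lit 240) (nat_lit 5) (nat_lit 286) (nat_lit 283) (nat_lit 211)) (XT.nd (nat_lit 78) (nat_lit 0) (nat_lit 0) (XT.lf (nat_lit 0) (nat_lit 4009745511) (nat_lit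 988) (nat_lit 1245874988) (nat_lit 1064) (nat_lit 3904489615) (nat_lit 226) (nat_lit 5) (nat_lit 239) (nat_lit 5) (nat_lit 240) (nat_lit 5) (nat_lit 287) (nat_lit 283) (nat_lit 210)) (XT.lf (nat_lit 76) (nat_lit 3140421868) (nat_lit 0) (nat_lit 1912225348) (nat_lit 1064) (nat_lit 4222519288) (nat_lit 227) (nat_lit 5) (nat_lit 226) (nat_lit 5) (nat_lit 240) (nat_lit 5) (nat_lit 288) (nat_lit 283) (nat_lit 209)))) (XT.nd (nat_lit 156) (nat_lit 0) (nat_lit 0) (XT.nd (nat_lit 78) (nat_lit 0) (nat_lit 0) (XT.lf (nat_lit 0) (nat_lit 6122146063) (nat_lit 988) (nat_lit 1744549622) (nat_lit 1064) (nat_lit 1527161016) (nat_lit 227) (nat_lit 5) (nat_lit 240) (nat_lit 5) (nat_lit 241) (nat_lit 5) (nat_lit 289) (nat_lit 283) (nat_lit 208)) (XT.lf (nat_lit 76) (nat_lit 2793261508) (nat_lit 0) (nat_lit 4445070457) (nat_lit 1064) (nat_lit 2277377787) (nat_lit 228) (nat_lit 5) (nat_lit 227) (nat_lit 5) (nat_lit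 241) (nat_lit 5) (nat_lit 290) (nat_lit 283) (nat_lit 207))) (XT.nd (nat_lit 78) (nat_lit 0) (nat_lit 76) (XT.lf (nat_lit 76) (nat_lit 7483497908) (nat_lit 0) (nat_lit 891661730) (nat_lit 1064) (nat_lit 1266483112) (nat_lit 228) (nat_lit 5) (nat_lit 227) (nat_lit 5) (nat_lit 241) (nat_lit 5) (nat_lit 291) (nat_lit 283) (nat_lit 206)) (XT.lf (nat_lit 76) (nat_lit 2546231566) (nat_lit 0) (nat_lit 7021476994) (nat_lit 1064) (nat_lit 203034586) (nat_lit 229) (nat_lit 5) (nat_lit 228) (nat_lit 5) (nat_lit 242) (nat_lit 5) (nat_lit 292) (nat_lit 283) (nat_lit 205))))))))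
noncomputable def xc161 : XT := (XT.nd (nat_lit 2184) (nat_lit 4712) (nat_lit 0) (XT.nd (nat_lit 1092) (nat_lit 3496) (nat_lit 0) (XT.nd (nat_lit 546) (nat_lit 3344) (nat_lit 0) (XT.nd (nat_lit 234) (nat_lit 0) (nat_lit 76) (XT.nd (nat_lit 78) (nat_lit 0) (nat_lit 76) (XT.lf (nat_lit 0) (nat_lit 876619029) (nat_lit 1064) (nat_lit 2505056361) (nat_lit 1140) (nat_lit 6521768148) (nat_lit 214) (nat_lit 5) (nat_lit 228) (nat_lit 5) (nat_lit 229) (nat_lit 5) (nat_lit 293) (nat_lit 283) (nat_lit 204)) (XT.nd (nat_lit 78) (nat_lit 0) (nat_lit 0) (XT.lf (nat_lit 0) (nat_lit 1983050238) (nat_lit 1064) (nat_lit 7663450947) (nat_lit 1140) (nat_lit 393644073) (nat_lit 215) (nat_lit 5) (nat_lit 229) (nat_lit 5) (nat_lit 230) (nat_lit 5) (nat_lit 294) (nat_lit 283) (nat_lit 203)) (XT.lf (nat_lit 0) (nat_lit 3154141098) (nat_lit 1064) (nat_lit 2778177961) (nat_lit 1140) (nat_lit 4247718646) (nat_lit 215) (nat_lit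 5) (nat_lit 229) (nat_lit 5) (nat_lit 230) (nat_lit 5) (nat_lit 295) (nat_lit 283) (nat_lit 202)))) (XT.nd (nat_lit 156) (nat_lit 0) (nat_lit 76) (XT.nd (nat_lit 78) (nat_lit 0) (nat_lit 76) (XT.lf (nat_lit 76) (nat_lit 2278201233) (nat_lit 0) (nat_lit 2077303852) (nat_lit 1140) (nat_lit 5968800323) (nat_lit 216) (nat_lit 5) (nat_lit 215) (nat_lit 5) (nat_lit 230) (nat_lit 5) (nat_lit 296) (nat_lit 283) (nat_lit 201)) (XT.lf (nat_lit 0) (nat_lit 5613334960) (nat_lit 1064) (nat_lit 2967907303) (nat_lit 1140) (nat_lit 1891077873) (nat_lit 216) (nat_lit 5) (nat_lit 230) (nat_lit 5) (nat_lit 231) (nat_lit 5) (nat_lit 297) (nat_lit 283) (nat_lit 200))) (XT.nd (nat_lit 78) (nat_lit 0) (nat_lit 0) (XT.lf (nat_lit 76) (nat_lit 2266299940) (nat_lit 0) (nat_lit 4659605517) (nat_lit 1140) (nat_lit 3698390496) (nat_lit 217) (nat_lit 5) (nat_lit 216) (nat_lit 5) (nat_lit 231) (nat_lit 5) (nat_lit 298) (nat_lit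 283) (nat_lit 199)) (XT.lf (nat_lit 76) (nat_lit 7698576747) (nat_lit 0) (nat_lit 584447632) (nat_lit 1140) (nat_lit 2497681446) (nat_lit 217) (nat_lit 5) (nat_lit 216) (nat_lit 5) (nat_lit 231) (nat_lit 5) (nat_lit 299) (nat_lit 283) (nat_lit 198))))) (XT.nd (nat_lit 234) (nat_lit 1292) (nat_lit 0) (XT.nd (nat_lit 78) (nat_lit 1216) (nat_lit 0) (XT.lf (nat_lit 0) (nat_lit 2342986642) (nat_lit 1064) (nat_lit 7371092727) (nat_lit 1140) (nat_lit 1226761000) (nat_lit 203) (nat_lit 5) (nat_lit 217) (nat_lit 5) (nat_lit 218) (nat_lit 5) (nat_lit 300) (nat_lit 283) (nat_lit 197)) (XT.nd (nat_lit 78) (nat_lit 1140) (nat_lit 0) (XT.lf (nat_lit 0) (nat_lit 94118649) (nat_lit 1140) (nat_lit 3138016263) (nat_lit 76) (nat_lit 7873244570) (nat_lit 202) (nat_lit 5) (nat_lit 217) (nat_lit 5) (nat_lit 203) (nat_lit 5) (nat_lit 301) (nat_lit 283) (nat_lit 196)) (XT.lf (nat_lit 0) (nat_lit 1441237263) (nat_lit 1216)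 (nat_lit 8782214578) (nat_lit 76) (nat_lit 1050727049) (nat_lit 187) (nat_lit 5) (nat_lit 203) (nat_lit 5) (nat_lit 188) (nat_lit 5) (nat_lit 302) (nat_lit 283) (nat_lit 195)))) (XT.nd (nat_lit 156) (nat_lit 608) (nat_lit 0) (XT.nd (nat_lit 78) (nat_lit 684) (nat_lit 0) (XT.lf (nat_lit 0) (nat_lit 2870198217) (nat_lit 1216) (nat_lit 3144505957) (nat_lit 76) (nat_lit 5432121053) (nat_lit 187) (nat_lit 5) (nat_lit 203) (nat_lit 5) (nat_lit 188) (nat_lit 5) (nat_lit 303) (nat_lit 283) (nat_lit 194)) (XT.lf (nat_lit 0) (nat_lit 2695248513) (nat_lit 684) (nat_lit 1650771255) (nat_lit 760) (nat_lit 7278536491) (nat_lit 178) (nat_lit 5) (nat_lit 187) (nat_lit 5) (nat_lit 188) (nat_lit 5) (nat_lit 304) (nat_lit 283) (nat_lit 193))) (XT.nd (nat_lit 78) (nat_lit 608) (nat_lit 0) (XT.lf (nat_lit 0) (nat_lit 5904076183) (nat_lit 760) (nat_lit 3079838937) (nat_lit 76) (nat_lit 2822589624) (nat_lit 178) (nat_lit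 5) (nat_lit 188) (nat_lit 5) (nat_lit 179) (nat_lit 5) (nat_lit 305) (nat_lit 283) (nat_lit 192)) (XT.lf (nat_lit 0) (nat_lit 2967081908) (nat_lit 608) (nat_lit 4565836164) (nat_lit 684) (nat_lit 4460295919) (nat_lit 170) (nat_lit 5) (nat_lit 178) (nat_lit 5) (nat_lit 179) (nat_lit 5) (nat_lit 306) (nat_lit 283) (nat_lit 191)))))) (XT.nd (nat_lit 546) (nat_lit 1900) (nat_lit 0) (XT.nd (nat_lit 234) (nat_lit 988) (nat_lit 0) (XT.nd (nat_lit 78) (nat_lit 608) (nat_lit 0) (XT.lf (nat_lit 0) (nat_lit 9221495047) (nat_lit 684) (nat_lit 2946247982) (nat_lit 76) (nat_lit 17478322) (nat_lit 170) (nat_lit 5) (nat_lit 179) (nat_lit 5) (nat_lit 171) (nat_lit 5) (nat_lit 307) (nat_lit 283) (nat_lit 190)) (XT.nd (nat_lit 78) (nat_lit 76) (nat_lit 0) (XT.lf (nat_lit 0) (nat_lit 3316079795) (nat_lit 532) (nat_lit 7701933794) (nat_lit 608) (nat_lit 1363279080) (nat_lit 163) (nat_lit 5) (nat_lit 170) (nat_lit 5)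 (nat_lit 171) (nat_lit 5) (nat_lit 308) (nat_lit 283) (nat_lit 189)) (XT.lf (nat_lit 0) (nat_lit 290042435) (nat_lit 608) (nat_lit 2778392829) (nat_lit 76) (nat_lit 9514436834) (nat_lit 162) (nat_lit 5) (nat_lit 170) (nat_lit 5) (nat_lit 163) (nat_lit 5) (nat_lit 309) (nat_lit 283) (nat_lit 188)))) (XT.nd (nat_lit 156) (nat_lit 456) (nat_lit 0) (XT.nd (nat_lit 78) (nat_lit 0) (nat_lit 0) (XT.lf (nat_lit 0) (nat_lit 1999309558) (nat_lit 608) (nat_lit 9069116884) (nat_lit 76) (nat_lit 1720675512) (nat_lit 155) (nat_lit 5) (nat_lit 163) (nat_lit 5) (nat_lit 156) (nat_lit 5) (nat_lit 310) (nat_lit 283) (nat_lit 187)) (XT.lf (nat_lit 0) (nat_lit 3799891384) (nat_lit 608) (nat_lit 2580560025) (nat_lit 76) (nat_lit 6619885977) (nat_lit 155) (nat_lit 5) (nat_lit 163) (nat_lit 5) (nat_lit 156) (nat_lit 5) (nat_lit 311) (nat_lit 283) (nat_lit 186))) (XT.nd (nat_lit 78) (nat_lit 0) (nat_lit 0) (XT.lf (nat_lit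 0) (nat_lit 4165002187) (nat_lit 456) (nat_lit 1511391083) (nat_lit 532) (nat_lit 7540878739) (nat_lit 149) (nat_lit 5) (nat_lit 155) (nat_lit 5) (nat_lit 156) (nat_lit 5) (nat_lit 312) (nat_lit 283) (nat_lit 185)) (XT.lf (nat_lit 0) (nat_lit 7651391836) (nat_lit 532) (nat_lit 2327323858) (nat_lit 76) (nat_lit 3460751573) (nat_lit 149) (nat_lit 5) (nat_lit 156) (nat_lit 5) (nat_lit 150) (nat_lit 5) (nat_lit 313) (nat_lit 283) (nat_lit 184))))) (XT.nd (nat_lit 234) (nat_lit 836) (nat_lit 0) (XT.nd (nat_lit 78) (nat_lit 532) (nat_lit 0) (XT.lf (nat_lit 0) (nat_lit 4656550886) (nat_lit 532) (nat_lit 5071538578) (nat_lit 608) (nat_lit 3938983550) (nat_lit 142) (nat_lit 5) (nat_lit 149) (nat_lit 5) (nat_lit 150) (nat_lit 5) (nat_lit 314) (nat_lit 283) (nat_lit 183)) (XT.nd (nat_lit 78) (nat_lit 532) (nat_lit 0) (XT.lf (nat_lit 0) (nat_lit 11873690280) (nat_lit 608) (nat_lit 2022268777) (nat_lit 76)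 (nat_lit 5367382) (nat_lit 142) (nat_lit 5) (nat_lit 150) (nat_lit 5) (nat_lit 143) (nat_lit 5) (nat_lit 315) (nat_lit 283) (nat_lit 182)) (XT.lf (nat_lit 0) (nat_lit 26823316) (nat_lit 532) (nat_lit 8931810445) (nat_lit 76) (nat_lit 5181468631) (nat_lit 135) (nat_lit 5) (nat_lit 142) (nat_lit 5) (nat_lit 136) (nat_lit 5) (nat_lit 316) (nat_lit 283) (nat_lit 181)))) (XT.nd (nat_lit 156) (nat_lit 380) (nat_lit 0) (XT.nd (nat_lit 78) (nat_lit 456) (nat_lit 0) (XT.lf (nat_lit 0) (nat_lit 2106440830) (nat_lit 532) (nat_lit 1727136776) (nat_lit 76) (nat_lit 10551749502) (nat_lit 135) (nat_lit 5) (nat_lit 142) (nat_lit 5) (nat_lit 136) (nat_lit 5) (nat_lit 317) (nat_lit 283) (nat_lit 180)) (XT.lf (nat_lit 0) (nat_lit 4302642163) (nat_lit 532) (nat_lit 8862631471) (nat_lit 76) (nat_lit 1471024687) (nat_lit 129) (nat_lit 5) (nat_lit 136) (nat_lit 5) (nat_lit 130) (nat_lit 5) (nat_lit 318) (nat_lit 283)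 (nat_lit 179))) (XT.nd (nat_lit 78) (nat_lit 380) (nat_lit 0) (XT.lf (nat_lit 0) (nat_lit 6604697005) (nat_lit 532) (nat_lit 1415898200) (nat_lit 76) (nat_lit 6873019603) (nat_lit 129) (nat_lit 5) (nat_lit 136) (nat_lit 5) (nat_lit 130) (nat_lit 5) (nat_lit 319) (nat_lit 283) (nat_lit 178)) (XT.lf (nat_lit 0) (nat_lit 6360495921) (nat_lit 380) (nat_lit 2661310860) (nat_lit 456) (nat_lit 6135478929) (nat_lit 124) (nat_lit 5) (nat_lit 129) (nat_lit 5) (nat_lit 130) (nat_lit 5) (nat_lit 320) (nat_lit 283) (nat_lit 177))))))) (XT.nd (nat_lit 1092) (nat_lit 2052) (nat_lit 0) (XT.nd (nat_lit 546) (nat_lit 1368) (nat_lit 0) (XT.nd (nat_lit 234) (nat_lit 760) (nat_lit 0) (XT.nd (nat_lit 78) (nat_lit 532) (nat_lit 0) (XT.lf (nat_lit 0) (nat_lit 11538445842) (nat_lit 456) (nat_lit 1074968924) (nat_lit 76) (nat_lit 2814655783) (nat_lit 124) (nat_lit 5) (nat_lit 130) (nat_lit 5) (nat_lit 125) (nat_lit 5) (nat_lit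 321) (nat_lit 283) (nat_lit 176)) (XT.nd (nat_lit 78) (nat_lit 76) (nat_lit 0) (XT.lf (nat_lit 0) (nat_lit 6970590045) (nat_lit 456) (nat_lit 7238879860) (nat_lit 532) (nat_lit 1495156328) (nat_lit 118) (nat_lit 5) (nat_lit 124) (nat_lit 5) (nat_lit 125) (nat_lit 5) (nat_lit 322) (nat_lit 283) (nat_lit 175)) (XT.lf (nat_lit 0) (nat_lit 948788814) (nat_lit 532) (nat_lit 736758917) (nat_lit 76) (nat_lit 14303766079) (nat_lit 117) (nat_lit 5) (nat_lit 124) (nat_lit 5) (nat_lit 118) (nat_lit 5) (nat_lit 323) (nat_lit 283) (nat_lit 174)))) (XT.nd (nat_lit 156) (nat_lit 380) (nat_lit 0) (XT.nd (nat_lit 78) (nat_lit 0) (nat_lit 0) (XT.lf (nat_lit 0) (nat_lit 3534891598) (nat_lit 456) (nat_lit 8702883048) (nat_lit 76) (nat_lit 4041369244) (nat_lit 112) (nat_lit 5) (nat_lit 118) (nat_lit 5) (nat_lit 113) (nat_lit 5) (nat_lit 324) (nat_lit 283) (nat_lit 173)) (XT.lf (nat_lit 0) (nat_lit 6209039471) (nat_lit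 456) (nat_lit 457855804) (nat_lit 76) (nat_lit 9910472067) (nat_lit 112) (nat_lit 5) (nat_lit 118) (nat_lit 5) (nat_lit 113) (nat_lit 5) (nat_lit 325) (nat_lit 283) (nat_lit 172))) (XT.nd (nat_lit 78) (nat_lit 0) (nat_lit 0) (XT.lf (nat_lit 0) (nat_lit 8177173905) (nat_lit 380) (nat_lit 851502000) (nat_lit 456) (nat_lit 7853915635) (nat_lit 107) (nat_lit 5) (nat_lit 112) (nat_lit 5) (nat_lit 113) (nat_lit 5) (nat_lit 326) (nat_lit 283) (nat_lit 171)) (XT.lf (nat_lit 0) (nat_lit 11973816364) (nat_lit 456) (nat_lit 182751105) (nat_lit 76) (nat_lit 5039189167) (nat_lit 107) (nat_lit 5) (nat_lit 113) (nat_lit 5) (nat_lit 108) (nat_lit 5) (nat_lit 327) (nat_lit 283) (nat_lit 170))))) (XT.nd (nat_lit 234) (nat_lit 608) (nat_lit 0) (XT.nd (nat_lit 78) (nat_lit 456) (nat_lit 0) (XT.lf (nat_lit 0) (nat_lit 8741115278) (nat_lit 304) (nat_lit 6345887063) (nat_lit 380) (nat_lit 2428934884) (nat_lit 103) (nat_lit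 5) (nat_lit 107) (nat_lit 5) (nat_lit 108) (nat_lit 5) (nat_lit 328) (nat_lit 283) (nat_lit 169)) (XT.nd (nat_lit 78) (nat_lit 0) (nat_lit 0) (XT.lf (nat_lit 0) (nat_lit 71120192) (nat_lit 380) (nat_lit 357862670) (nat_lit 456) (nat_lit 17416926004) (nat_lit 97) (nat_lit 5) (nat_lit 102) (nat_lit 5) (nat_lit 103) (nat_lit 5) (nat_lit 329) (nat_lit 283) (nat_lit 168)) (XT.lf (nat_lit 0) (nat_lit 3456637475) (nat_lit 456) (nat_lit 8918480776) (nat_lit 76) (nat_lit 5805965709) (nat_lit 97) (nat_lit 5) (nat_lit 103) (nat_lit 5) (nat_lit 98) (nat_lit 5) (nat_lit 330) (nat_lit 283) (nat_lit 167)))) (XT.nd (nat_lit 156) (nat_lit 304) (nat_lit 0) (XT.nd (nat_lit 78) (nat_lit 0) (nat_lit 0) (XT.lf (nat_lit 0) (nat_lit 187217055) (nat_lit 304) (nat_lit 6381097349) (nat_lit 380) (nat_lit 11958214143) (nat_lit 93) (nat_lit 5) (nat_lit 97) (nat_lit 5) (nat_lit 98) (nat_lit 5) (nat_lit 331) (nat_lit 283) (nat_lit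 166)) (XT.lf (nat_lit 0) (nat_lit 9732657420) (nat_lit 304) (nat_lit 118790927) (nat_lit 380) (nat_lit 9028554655) (nat_lit 93) (nat_lit 5) (nat_lit 97) (nat_lit 5) (nat_lit 98) (nat_lit 5) (nat_lit 332) (nat_lit 283) (nat_lit 165))) (XT.nd (nat_lit 78) (nat_lit 0) (nat_lit 0) (XT.lf (nat_lit 0) (nat_lit 248270064) (nat_lit 304) (nat_lit 13036409485) (nat_lit 380) (nat_lit 5957863493) (nat_lit 89) (nat_lit 5) (nat_lit 93) (nat_lit 5) (nat_lit 94) (nat_lit 5) (nat_lit 333) (nat_lit 283) (nat_lit 164)) (XT.lf (nat_lit 0) (nat_lit 10096131275) (nat_lit 304) (nat_lit 6806852838) (nat_lit 380) (nat_lit 2710522050) (nat_lit 89) (nat_lit 5) (nat_lit 93) (nat_lit 5) (nat_lit 94) (nat_lit 5) (nat_lit 334) (nat_lit 283) (nat_lit 163)))))) (XT.nd (nat_lit 546) (nat_lit 1064) (nat_lit 0) (XT.nd (nat_lit 234) (nat_lit 608) (nat_lit 0) (XT.nd (nat_lit 78) (nat_lit 0) (nat_lit 0) (XT.lf (nat_lit 0) (nat_lit 226449023)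 (nat_lit 304) (nat_lit 386347498) (nat_lit 380) (nat_lit 19382899405) (nat_lit 84) (nat_lit 5) (nat_lit 88) (nat_lit 5) (nat_lit 89) (nat_lit 5) (nat_lit 335) (nat_lit 283) (nat_lit 162)) (XT.nd (nat_lit 78) (nat_lit 0) (nat_lit 0) (XT.lf (nat_lit 0) (nat_lit 4127141102) (nat_lit 380) (nat_lit 10032274191) (nat_lit 76) (nat_lit 6224765219) (nat_lit 84) (nat_lit 5) (nat_lit 89) (nat_lit 5) (nat_lit 85) (nat_lit 5) (nat_lit 336) (nat_lit 283) (nat_lit 161)) (XT.lf (nat_lit 0) (nat_lit 7739956129) (nat_lit 380) (nat_lit 22402535) (nat_lit 76) (nat_lit 13022177920) (nat_lit 84) (nat_lit 5) (nat_lit 89) (nat_lit 5) (nat_lit 85) (nat_lit 5) (nat_lit 337) (nat_lit 283) (nat_lit 160)))) (XT.nd (nat_lit 156) (nat_lit 304) (nat_lit 0) (XT.nd (nat_lit 78) (nat_lit 0) (nat_lit 0) (XT.lf (nat_lit 0) (nat_lit 10477277791) (nat_lit 304) (nat_lit 1074120834) (nat_lit 380) (nat_lit 9642805334) (nat_lit 80) (nat_lit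 5) (nat_lit 84) (nat_lit 5) (nat_lit 85) (nat_lit 5) (nat_lit 338) (nat_lit 283) (nat_lit 159)) (XT.lf (nat_lit 0) (nat_lit 15522956661) (nat_lit 380) (nat_lit 394708429) (nat_lit 76) (nat_lit 5697130778) (nat_lit 80) (nat_lit 5) (nat_lit 85) (nat_lit 5) (nat_lit 81) (nat_lit 5) (nat_lit 339) (nat_lit 283) (nat_lit 158))) (XT.nd (nat_lit 78) (nat_lit 76) (nat_lit 0) (XT.lf (nat_lit 0) (nat_lit 10415152581) (nat_lit 228) (nat_lit 9299210762) (nat_lit 304) (nat_lit 2330628594) (nat_lit 77) (nat_lit 5) (nat_lit 80) (nat_lit 5) (nat_lit 81) (nat_lit 5) (nat_lit 340) (nat_lit 283) (nat_lit 157)) (XT.lf (nat_lit 0) (nat_lit 1507324576) (nat_lit 304) (nat_lit 960137730) (nat_lit 76) (nat_lit 20020372806) (nat_lit 76) (nat_lit 5) (nat_lit 80) (nat_lit 5) (nat_lit 77) (nat_lit 5) (nat_lit 341) (nat_lit 283) (nat_lit 156))))) (XT.nd (nat_lit 234) (nat_lit 532) (nat_lit 0) (XT.nd (nat_lit 78) (nat_lit 228)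 (nat_lit 0) (XT.lf (nat_lit 0) (nat_lit 5546903858) (nat_lit 380) (nat_lit 12794521775) (nat_lit 76) (nat_lit 4597852582) (nat_lit 72) (nat_lit 5) (nat_lit 77) (nat_lit 5) (nat_lit 73) (nat_lit 5) (nat_lit 342) (nat_lit 283) (nat_lit 155)) (XT.nd (nat_lit 78) (nat_lit 228) (nat_lit 0) (XT.lf (nat_lit 0) (nat_lit 9732285560) (nat_lit 380) (nat_lit 1840391057) (nat_lit 76) (nat_lit 11830856170) (nat_lit 72) (nat_lit 5) (nat_lit 77) (nat_lit 5) (nat_lit 73) (nat_lit 5) (nat_lit 343) (nat_lit 283) (nat_lit 154)) (XT.lf (nat_lit 0) (nat_lit 9616055702) (nat_lit 228) (nat_lit 4510281447) (nat_lit 304) (nat_lit 9752891029) (nat_lit 69) (nat_lit 5) (nat_lit 72) (nat_lit 5) (nat_lit 73) (nat_lit 5) (nat_lit 344) (nat_lit 283) (nat_lit 153)))) (XT.nd (nat_lit 156) (nat_lit 304) (nat_lit 0) (XT.nd (nat_lit 78) (nat_lit 228) (nat_lit 0) (XT.lf (nat_lit 0) (nat_lit 18688315161) (nat_lit 304) (nat_lit 2955520338)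 (nat_lit 76) (nat_lit 2724282029) (nat_lit 69) (nat_lit 5) (nat_lit 73) (nat_lit 5) (nat_lit 70) (nat_lit 5) (nat_lit 345) (nat_lit 283) (nat_lit 152)) (XT.lf (nat_lit 0) (nat_lit 8804876872) (nat_lit 228) (nat_lit 14702606078) (nat_lit 304) (nat_lit 1360586761) (nat_lit 66) (nat_lit 5) (nat_lit 69) (nat_lit 5) (nat_lit 70) (nat_lit 5) (nat_lit 346) (nat_lit 283) (nat_lit 151))) (XT.nd (nat_lit 78) (nat_lit 228) (nat_lit 0) (XT.lf (nat_lit 0) (nat_lit 3049158075) (nat_lit 304) (nat_lit 4447127753) (nat_lit 76) (nat_lit 17885213333) (nat_lit 65) (nat_lit 5) (nat_lit 69) (nat_lit 5) (nat_lit 66) (nat_lit 5) (nat_lit 347) (nat_lit 283) (nat_lit 150)) (XT.lf (nat_lit 0) (nat_lit 7628727702) (nat_lit 304) (nat_lit 18268363608) (nat_lit 76) (nat_lit 10895232) (nat_lit 62) (nat_lit 5) (nat_lit 66) (nat_lit 5) (nat_lit 63) (nat_lit 5) (nat_lit 348) (nat_lit 283) (nat_lit 149))))))))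
noncomputable def xc162 : XT := (XT.nd (nat_lit 2106) (nat_lit 1292) (nat_lit 0) (XT.nd (nat_lit 1014) (nat_lit 912) (nat_lit 0) (XT.nd (nat_lit 468) (nat_lit 608) (nat_lit 0) (XT.nd (nat_lit 234) (nat_lit 456) (nat_lit 0) (XT.nd (nat_lit 78) (nat_lit 228) (nat_lit 0) (XT.lf (nat_lit 0) (nat_lit 12456672672) (nat_lit 304) (nat_lit 6356829390) (nat_lit 76) (nat_lit 7633442222) (nat_lit 62) (nat_lit 5) (nat_lit 66) (nat_lit 5) (nat_lit 63) (nat_lit 5) (nat_lit 349) (nat_lit 283) (nat_lit 148)) (XT.nd (nat_lit 78) (nat_lit 0) (nat_lit 0) (XT.lf (nat_lit 0) (nat_lit 6016462754) (nat_lit 228) (nat_lit 11462492891) (nat_lit 304) (nat_lit 9521635356) (nat_lit 59) (nat_lit 5) (nat_lit 62) (nat_lit 5) (nat_lit 63) (nat_lit 5) (nat_lit 350) (nat_lit 283) (nat_lit 147)) (XT.lf (nat_lit 0) (nat_lit 18878398837) (nat_lit 228) (nat_lit 3829484610) (nat_lit 304) (nat_lit 4861289460) (nat_lit 59) (nat_lit 5) (nat_lit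 62) (nat_lit 5) (nat_lit 63) (nat_lit 5) (nat_lit 351) (nat_lit 283) (nat_lit 146)))) (XT.nd (nat_lit 78) (nat_lit 228) (nat_lit 0) (XT.lf (nat_lit 0) (nat_lit 9914178) (nat_lit 228) (nat_lit 24154896928) (nat_lit 76) (nat_lit 3987927947) (nat_lit 56) (nat_lit 5) (nat_lit 59) (nat_lit 5) (nat_lit 57) (nat_lit 5) (nat_lit 352) (nat_lit 283) (nat_lit 145)) (XT.nd (nat_lit 78) (nat_lit 228) (nat_lit 0) (XT.lf (nat_lit 0) (nat_lit 5048101729) (nat_lit 228) (nat_lit 11605555409) (nat_lit 76) (nat_lit 12095159100) (nat_lit 56) (nat_lit 5) (nat_lit 59) (nat_lit 5) (nat_lit 57) (nat_lit 5) (nat_lit 353) (nat_lit 283) (nat_lit 144)) (XT.lf (nat_lit 0) (nat_lit 1333938039) (nat_lit 228) (nat_lit 8908562728) (nat_lit 304) (nat_lit 19120127506) (nat_lit 53) (nat_lit 5) (nat_lit 56) (nat_lit 5) (nat_lit 57) (nat_lit 5) (nat_lit 354) (nat_lit 283) (nat_lit 143))))) (XT.nd (nat_lit 234) (nat_lit 456) (nat_lit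 0) (XT.nd (nat_lit 78) (nat_lit 152) (nat_lit 0) (XT.lf (nat_lit 0) (nat_lit 14887281709) (nat_lit 228) (nat_lit 814994952) (nat_lit 304) (nat_lit 14289296044) (nat_lit 53) (nat_lit 5) (nat_lit 56) (nat_lit 5) (nat_lit 57) (nat_lit 5) (nat_lit 355) (nat_lit 283) (nat_lit 142)) (XT.nd (nat_lit 78) (nat_lit 152) (nat_lit 0) (XT.lf (nat_lit 0) (nat_lit 21390677412) (nat_lit 304) (nat_lit 1876524757) (nat_lit 76) (nat_lit 7370242607) (nat_lit 53) (nat_lit 5) (nat_lit 57) (nat_lit 5) (nat_lit 54) (nat_lit 5) (nat_lit 356) (nat_lit 283) (nat_lit 141)) (XT.lf (nat_lit 0) (nat_lit 11961707747) (nat_lit 152) (nat_lit 15403823952) (nat_lit 228) (nat_lit 3933691392) (nat_lit 51) (nat_lit 5) (nat_lit 53) (nat_lit 5) (nat_lit 54) (nat_lit 5) (nat_lit 357) (nat_lit 283) (nat_lit 140)))) (XT.nd (nat_lit 156) (nat_lit 152) (nat_lit 0) (XT.nd (nat_lit 78) (nat_lit 228) (nat_lit 0) (XT.lf (nat_lit 0) (nat_lit 1520660587)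 (nat_lit 228) (nat_lit 5753457750) (nat_lit 76) (nat_lit 24705939238) (nat_lit 50) (nat_lit 5) (nat_lit 53) (nat_lit 5) (nat_lit 51) (nat_lit 5) (nat_lit 358) (nat_lit 283) (nat_lit 139)) (XT.lf (nat_lit 0) (nat_lit 7144543582) (nat_lit 304) (nat_lit 24338939215) (nat_lit 76) (nat_lit 1194120739) (nat_lit 47) (nat_lit 5) (nat_lit 51) (nat_lit 5) (nat_lit 48) (nat_lit 5) (nat_lit 359) (nat_lit 283) (nat_lit 138))) (XT.nd (nat_lit 78) (nat_lit 152) (nat_lit 0) (XT.lf (nat_lit 0) (nat_lit 13060876109) (nat_lit 304) (nat_lit 10506900457) (nat_lit 76) (nat_lit 9824590988) (nat_lit 47) (nat_lit 5) (nat_lit 51) (nat_lit 5) (nat_lit 48) (nat_lit 5) (nat_lit 360) (nat_lit 283) (nat_lit 137)) (XT.lf (nat_lit 0) (nat_lit 3803185513) (nat_lit 152) (nat_lit 15381312608) (nat_lit 228) (nat_lit 14943185948) (nat_lit 45) (nat_lit 5) (nat_lit 47) (nat_lit 5) (nat_lit 48) (nat_lit 5) (nat_lit 361) (nat_lit 283)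 (nat_lit 136)))))) (XT.nd (nat_lit 546) (nat_lit 532) (nat_lit 0) (XT.nd (nat_lit 234) (nat_lit 152) (nat_lit 0) (XT.nd (nat_lit 78) (nat_lit 228) (nat_lit 0) (XT.lf (nat_lit 0) (nat_lit 18746936520) (nat_lit 152) (nat_lit 6844323277) (nat_lit 228) (nat_lit 9290820810) (nat_lit 45) (nat_lit 5) (nat_lit 47) (nat_lit 5) (nat_lit 48) (nat_lit 5) (nat_lit 362) (nat_lit 283) (nat_lit 135)) (XT.nd (nat_lit 78) (nat_lit 228) (nat_lit 0) (XT.lf (nat_lit 0) (nat_lit 32202442673) (nat_lit 228) (nat_lit 1549696549) (nat_lit 76) (nat_lit 1906606627) (nat_lit 45) (nat_lit 5) (nat_lit 48) (nat_lit 5) (nat_lit 46) (nat_lit 5) (nat_lit 363) (nat_lit 283) (nat_lit 134)) (XT.lf (nat_lit 0) (nat_lit 2698096717) (nat_lit 228) (nat_lit 22817786079) (nat_lit 76) (nat_lit 10936255020) (nat_lit 42) (nat_lit 5) (nat_lit 45) (nat_lit 5) (nat_lit 43) (nat_lit 5) (nat_lit 364) (nat_lit 283) (nat_lit 133)))) (XT.nd (nat_lit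 156) (nat_lit 0) (nat_lit 0) (XT.nd (nat_lit 78) (nat_lit 152) (nat_lit 0) (XT.lf (nat_lit 0) (nat_lit 8977158451) (nat_lit 228) (nat_lit 8008112936) (nat_lit 76) (nat_lit 20282751660) (nat_lit 42) (nat_lit 5) (nat_lit 45) (nat_lit 5) (nat_lit 43) (nat_lit 5) (nat_lit 365) (nat_lit 283) (nat_lit 132)) (XT.lf (nat_lit 0) (nat_lit 7379596767) (nat_lit 152) (nat_lit 8129810408) (nat_lit 228) (nat_lit 22597036188) (nat_lit 40) (nat_lit 5) (nat_lit 42) (nat_lit 5) (nat_lit 43) (nat_lit 5) (nat_lit 366) (nat_lit 283) (nat_lit 131))) (XT.nd (nat_lit 78) (nat_lit 0) (nat_lit 0) (XT.lf (nat_lit 0) (nat_lit 22322738458) (nat_lit 228) (nat_lit 15595124038) (nat_lit 76) (nat_lit 1049603236) (nat_lit 40) (nat_lit 5) (nat_lit 43) (nat_lit 5) (nat_lit 41) (nat_lit 5) (nat_lit 367) (nat_lit 283) (nat_lit 130)) (XT.lf (nat_lit 0) (nat_lit 29415059048) (nat_lit 228) (nat_lit 99943155) (nat_lit 76) (nat_lit 10337081700)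 (nat_lit 40) (nat_lit 5) (nat_lit 43) (nat_lit 5) (nat_lit 41) (nat_lit 5) (nat_lit 368) (nat_lit 283) (nat_lit 129))))) (XT.nd (nat_lit 234) (nat_lit 152) (nat_lit 0) (XT.nd (nat_lit 78) (nat_lit 228) (nat_lit 0) (XT.lf (nat_lit 0) (nat_lit 16165837967) (nat_lit 152) (nat_lit 20703975364) (nat_lit 228) (nat_lit 3888940096) (nat_lit 38) (nat_lit 5) (nat_lit 40) (nat_lit 5) (nat_lit 41) (nat_lit 5) (nat_lit 369) (nat_lit 283) (nat_lit 128)) (XT.nd (nat_lit 78) (nat_lit 152) (nat_lit 0) (XT.lf (nat_lit 0) (nat_lit 2795167709) (nat_lit 228) (nat_lit 8808141202) (nat_lit 76) (nat_lit 30088634109) (nat_lit 37) (nat_lit 5) (nat_lit 40) (nat_lit 5) (nat_lit 38) (nat_lit 5) (nat_lit 370) (nat_lit 283) (nat_lit 127)) (XT.lf (nat_lit 0) (nat_lit 7549544064) (nat_lit 152) (nat_lit 2119112234) (nat_lit 228) (nat_lit 32981308731) (nat_lit 35) (nat_lit 5) (nat_lit 37) (nat_lit 5) (nat_lit 38) (nat_lit 5) (nat_lit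 371) (nat_lit 283) (nat_lit 126)))) (XT.nd (nat_lit 156) (nat_lit 152) (nat_lit 0) (XT.nd (nat_lit 78) (nat_lit 0) (nat_lit 0) (XT.lf (nat_lit 0) (nat_lit 16906192889) (nat_lit 228) (nat_lit 19139438119) (nat_lit 76) (nat_lit 7586363814) (nat_lit 35) (nat_lit 5) (nat_lit 38) (nat_lit 5) (nat_lit 36) (nat_lit 5) (nat_lit 372) (nat_lit 283) (nat_lit 125)) (XT.lf (nat_lit 0) (nat_lit 24376482531) (nat_lit 228) (nat_lit 2729814417) (nat_lit 76) (nat_lit 17536722107) (nat_lit 35) (nat_lit 5) (nat_lit 38) (nat_lit 5) (nat_lit 36) (nat_lit 5) (nat_lit 373) (nat_lit 283) (nat_lit 124))) (XT.nd (nat_lit 78) (nat_lit 0) (nat_lit 0) (XT.lf (nat_lit 0) (nat_lit 14445033481) (nat_lit 152) (nat_lit 17759503476) (nat_lit 228) (nat_lit 13475829662) (nat_lit 33) (nat_lit 5) (nat_lit 35) (nat_lit 5) (nat_lit 36) (nat_lit 5) (nat_lit 374) (nat_lit 283) (nat_lit 123)) (XT.lf (nat_lit 0) (nat_lit 32182233828) (nat_lit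 152) (nat_lit 8107632880) (nat_lit 228) (nat_lit 6458297111) (nat_lit 33) (nat_lit 5) (nat_lit 35) (nat_lit 5) (nat_lit 36) (nat_lit 5) (nat_lit 375) (nat_lit 283) (nat_lit 122))))))) (XT.nd (nat_lit 1092) (nat_lit 608) (nat_lit 0) (XT.nd (nat_lit 546) (nat_lit 304) (nat_lit 0) (XT.nd (nat_lit 234) (nat_lit 228) (nat_lit 0) (XT.nd (nat_lit 78) (nat_lit 0) (nat_lit 0) (XT.lf (nat_lit 0) (nat_lit 792990574) (nat_lit 152) (nat_lit 45226126438) (nat_lit 76) (nat_lit 1827510533) (nat_lit 31) (nat_lit 5) (nat_lit 33) (nat_lit 5) (nat_lit 32) (nat_lit 5) (nat_lit 376) (nat_lit 283) (nat_lit 121)) (XT.nd (nat_lit 78) (nat_lit 0) (nat_lit 0) (XT.lf (nat_lit 0) (nat_lit 8355823556) (nat_lit 152) (nat_lit 28506920443) (nat_lit 76) (nat_lit 12106670549) (nat_lit 31) (nat_lit 5) (nat_lit 33) (nat_lit 5) (nat_lit 32) (nat_lit 5) (nat_lit 377) (nat_lit 283) (nat_lit 120)) (XT.lf (nat_lit 0) (nat_lit 16140682118)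 (nat_lit 152) (nat_lit 11294610950) (nat_lit 76) (nat_lit 22690739846) (nat_lit 31) (nat_lit 5) (nat_lit 33) (nat_lit 5) (nat_lit 32) (nat_lit 5) (nat_lit 378) (nat_lit 283) (nat_lit 119)))) (XT.nd (nat_lit 156) (nat_lit 76) (nat_lit 0) (XT.nd (nat_lit 78) (nat_lit 0) (nat_lit 0) (XT.lf (nat_lit 0) (nat_lit 6553728773) (nat_lit 152) (nat_lit 17663638240) (nat_lit 228) (nat_lit 27098236316) (nat_lit 29) (nat_lit 5) (nat_lit 31) (nat_lit 5) (nat_lit 32) (nat_lit 5) (nat_lit 379) (nat_lit 283) (nat_lit 118)) (XT.lf (nat_lit 0) (nat_lit 25160901880) (nat_lit 152) (nat_lit 7484845243) (nat_lit 228) (nat_lit 19891833752) (nat_lit 29) (nat_lit 5) (nat_lit 31) (nat_lit 5) (nat_lit 32) (nat_lit 5) (nat_lit 380) (nat_lit 283) (nat_lit 117))) (XT.nd (nat_lit 78) (nat_lit 76) (nat_lit 0) (XT.lf (nat_lit 0) (nat_lit 41351254251) (nat_lit 228) (nat_lit 9506771764) (nat_lit 76) (nat_lit 2937465269) (nat_lit 29)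 (nat_lit 5) (nat_lit 32) (nat_lit 5) (nat_lit 30) (nat_lit 4) (nat_lit 381) (nat_lit 283) (nat_lit 116)) (XT.lf (nat_lit 0) (nat_lit 8992828184) (nat_lit 76) (nat_lit 41481227438) (nat_lit 152) (nat_lit 4612401266) (nat_lit 28) (nat_lit 5) (nat_lit 29) (nat_lit 5) (nat_lit 30) (nat_lit 4) (nat_lit 382) (nat_lit 283) (nat_lit 115))))) (XT.nd (nat_lit 234) (nat_lit 76) (nat_lit 0) (XT.nd (nat_lit 78) (nat_lit 152) (nat_lit 0) (XT.lf (nat_lit 0) (nat_lit 3479519179) (nat_lit 152) (nat_lit 28212924834) (nat_lit 76) (nat_lit 24719936811) (nat_lit 27) (nat_lit 5) (nat_lit 29) (nat_lit 5) (nat_lit 28) (nat_lit 5) (nat_lit 383) (nat_lit 283) (nat_lit 114)) (XT.nd (nat_lit 78) (nat_lit 152) (nat_lit 0) (XT.lf (nat_lit 0) (nat_lit 11717208016) (nat_lit 152) (nat_lit 9849033012) (nat_lit 76) (nat_lit 36210601569) (nat_lit 27) (nat_lit 5) (nat_lit 29) (nat_lit 5) (nat_lit 28) (nat_lit 5) (nat_lit 384) (nat_lit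 283) (nat_lit 113)) (XT.lf (nat_lit 0) (nat_lit 9238710623) (nat_lit 152) (nat_lit 11047965302) (nat_lit 228) (nat_lit 38893024402) (nat_lit 25) (nat_lit 5) (nat_lit 27) (nat_lit 5) (nat_lit 28) (nat_lit 5) (nat_lit 385) (nat_lit 283) (nat_lit 112)))) (XT.nd (nat_lit 156) (nat_lit 76) (nat_lit 0) (XT.nd (nat_lit 78) (nat_lit 0) (nat_lit 0) (XT.lf (nat_lit 0) (nat_lit 29093708641) (nat_lit 152) (nat_lit 114866661) (nat_lit 228) (nat_lit 31413209576) (nat_lit 25) (nat_lit 5) (nat_lit 27) (nat_lit 5) (nat_lit 28) (nat_lit 5) (nat_lit 386) (nat_lit 283) (nat_lit 111)) (XT.lf (nat_lit 0) (nat_lit 38501257631) (nat_lit 228) (nat_lit 12677072894) (nat_lit 76) (nat_lit 10925709130) (nat_lit 25) (nat_lit 5) (nat_lit 28) (nat_lit 5) (nat_lit 26) (nat_lit 4) (nat_lit 387) (nat_lit 283) (nat_lit 110))) (XT.nd (nat_lit 78) (nat_lit 0) (nat_lit 0) (XT.lf (nat_lit 0) (nat_lit 6865346036) (nat_lit 76) (nat_lit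 41270604269) (nat_lit 152) (nat_lit 15492916298) (nat_lit 24) (nat_lit 5) (nat_lit 25) (nat_lit 5) (nat_lit 26) (nat_lit 4) (nat_lit 388) (nat_lit 283) (nat_lit 109)) (XT.lf (nat_lit 0) (nat_lit 27247028339) (nat_lit 76) (nat_lit 30936815203) (nat_lit 152) (nat_lit 7011871408) (nat_lit 24) (nat_lit 5) (nat_lit 25) (nat_lit 5) (nat_lit 26) (nat_lit 4) (nat_lit 389) (nat_lit 283) (nat_lit 108)))))) (XT.nd (nat_lit 546) (nat_lit 304) (nat_lit 0) (XT.nd (nat_lit 234) (nat_lit 76) (nat_lit 0) (XT.nd (nat_lit 78) (nat_lit 152) (nat_lit 0) (XT.lf (nat_lit 0) (nat_lit 1686191178) (nat_lit 152) (nat_lit 18592728979) (nat_lit 76) (nat_lit 46530266240) (nat_lit 23) (nat_lit 5) (nat_lit 25) (nat_lit 5) (nat_lit 24) (nat_lit 5) (nat_lit 390) (nat_lit 283) (nat_lit 107)) (XT.nd (nat_lit 78) (nat_lit 0) (nat_lit 0) (XT.lf (nat_lit 0) (nat_lit 1293160826) (nat_lit 152) (nat_lit 9219863979) (nat_lit 228) (nat_lit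 57955692890) (nat_lit 21) (nat_lit 5) (nat_lit 23) (nat_lit 5) (nat_lit 24) (nat_lit 5) (nat_lit 391) (nat_lit 283) (nat_lit 106)) (XT.lf (nat_lit 0) (nat_lit 19811488202) (nat_lit 228) (nat_lit 48044944396) (nat_lit 76) (nat_lit 2315398819) (nat_lit 21) (nat_lit 5) (nat_lit 24) (nat_lit 5) (nat_lit 22) (nat_lit 4) (nat_lit 392) (nat_lit 283) (nat_lit 105)))) (XT.nd (nat_lit 156) (nat_lit 76) (nat_lit 0) (XT.nd (nat_lit 78) (nat_lit 0) (nat_lit 0) (XT.lf (nat_lit 0) (nat_lit 29476644786) (nat_lit 228) (nat_lit 28438082307) (nat_lit 76) (nat_lit 14008680474) (nat_lit 21) (nat_lit 5) (nat_lit 24) (nat_lit 5) (nat_lit 22) (nat_lit 4) (nat_lit 393) (nat_lit 283) (nat_lit 104)) (XT.lf (nat_lit 0) (nat_lit 39428312867) (nat_lit 228) (nat_lit 8249211419) (nat_lit 76) (nat_lit 26050111170) (nat_lit 21) (nat_lit 5) (nat_lit 24) (nat_lit 5) (nat_lit 22) (nat_lit 4) (nat_lit 394) (nat_lit 283) (nat_lit 103)))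 (XT.nd (nat_lit 78) (nat_lit 0) (nat_lit 0) (XT.lf (nat_lit 0) (nat_lit 12788865864) (nat_lit 76) (nat_lit 37009256615) (nat_lit 152) (nat_lit 25784281081) (nat_lit 20) (nat_lit 5) (nat_lit 21) (nat_lit 5) (nat_lit 22) (nat_lit 4) (nat_lit 395) (nat_lit 283) (nat_lit 102)) (XT.lf (nat_lit 0) (nat_lit 34621228633) (nat_lit 76) (nat_lit 25937795794) (nat_lit 152) (nat_lit 16931391433) (nat_lit 20) (nat_lit 5) (nat_lit 21) (nat_lit 5) (nat_lit 22) (nat_lit 4) (nat_lit 396) (nat_lit 283) (nat_lit 101))))) (XT.nd (nat_lit 234) (nat_lit 76) (nat_lit 0) (XT.nd (nat_lit 78) (nat_lit 228) (nat_lit 0) (XT.lf (nat_lit 0) (nat_lit 57102778225) (nat_lit 76) (nat_lit 14536768591) (nat_lit 152) (nat_lit 7816218970) (nat_lit 20) (nat_lit 5) (nat_lit 21) (nat_lit 5) (nat_lit 22) (nat_lit 4) (nat_lit 397) (nat_lit 283) (nat_lit 100)) (XT.nd (nat_lit 78) (nat_lit 152) (nat_lit 0) (XT.lf (nat_lit 0) (nat_lit 1538580257)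 (nat_lit 152) (nat_lit 1242096043) (nat_lit 76) (nat_lit 78699041812) (nat_lit 19) (nat_lit 5) (nat_lit 21) (nat_lit 5) (nat_lit 20) (nat_lit 5) (nat_lit 398) (nat_lit 283) (nat_lit 99)) (XT.lf (nat_lit 0) (nat_lit 11306452209) (nat_lit 228) (nat_lit 62822943644) (nat_lit 76) (nat_lit 9423986665) (nat_lit 17) (nat_lit 5) (nat_lit 20) (nat_lit 5) (nat_lit 18) (nat_lit 4) (nat_lit 399) (nat_lit 283) (nat_lit 98)))) (XT.nd (nat_lit 156) (nat_lit 76) (nat_lit 0) (XT.nd (nat_lit 78) (nat_lit 0) (nat_lit 0) (XT.lf (nat_lit 0) (nat_lit 21404518211) (nat_lit 228) (nat_lit 42334452303) (nat_lit 76) (nat_lit 21949172549) (nat_lit 17) (nat_lit 5) (nat_lit 20) (nat_lit 5) (nat_lit 18) (nat_lit 4) (nat_lit 400) (nat_lit 283) (nat_lit 97)) (XT.lf (nat_lit 0) (nat_lit 31802574274) (nat_lit 228) (nat_lit 21236672905) (nat_lit 76) (nat_lit 34847788716) (nat_lit 17) (nat_lit 5) (nat_lit 20) (nat_lit 5) (nat_lit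 18) (nat_lit 4) (nat_lit 401) (nat_lit 283) (nat_lit 96))) (XT.nd (nat_lit 78) (nat_lit 0) (nat_lit 0) (XT.lf (nat_lit 0) (nat_lit 498558166) (nat_lit 76) (nat_lit 42015940358) (nat_lit 152) (nat_lit 47637340081) (nat_lit 16) (nat_lit 5) (nat_lit 17) (nat_lit 5) (nat_lit 18) (nat_lit 4) (nat_lit 402) (nat_lit 283) (nat_lit 95)) (XT.lf (nat_lit 0) (nat_lit 23316017853) (nat_lit 76) (nat_lit 30443379343) (nat_lit 152) (nat_lit 38718840561) (nat_lit 16) (nat_lit 5) (nat_lit 17) (nat_lit 5) (nat_lit 18) (nat_lit 4) (nat_lit 403) (nat_lit 283) (nat_lit 94))))))))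
noncomputable def xc163 : XT := (XT.nd (nat_lit 33228) (nat_lit 0) (nat_lit 5320) (XT.nd (nat_lit 32136) (nat_lit 0) (nat_lit 11856) (XT.nd (nat_lit 31590) (nat_lit 0) (nat_lit 15124) (XT.nd (nat_lit 31278) (nat_lit 0) (nat_lit 16036) (XT.nd (nat_lit 234) (nat_lit 152) (nat_lit 0) (XT.lf (nat_lit 0) (nat_lit 46812992311) (nat_lit 76) (nat_lit 18525900944) (nat_lit 152) (nat_lit 29535618954) (nat_lit 16) (nat_lit 5) (nat_lit 17) (nat_lit 5) (nat_lit 18) (nat_lit 4) (nat_lit 404) (nat_lit 283) (nat_lit 93)) (XT.nd (nat_lit 78) (nat_lit 0) (nat_lit 0) (XT.lf (nat_lit 0) (nat_lit 65455995) (nat_lit 152) (nat_lit 83218150672) (nat_lit 76) (nat_lit 19209062485) (nat_lit 14) (nat_lit 5) (nat_lit 16) (nat_lit 5) (nat_lit 15) (nat_lit 4) (nat_lit 407) (nat_lit 283) (nat_lit 90)) (XT.lf (nat_lit 0) (nat_lit 10552547983) (nat_lit 152) (nat_lit 61937464652) (nat_lit 76) (nat_lit 32686117552) (nat_lit 14) (nat_lit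 5) (nat_lit 16) (nat_lit 5) (nat_lit 15) (nat_lit 4) (nat_lit 408) (nat_lit 283) (nat_lit 89)))) (XT.nd (nat_lit 156) (nat_lit 0) (nat_lit 0) (XT.nd (nat_lit 78) (nat_lit 0) (nat_lit 0) (XT.lf (nat_lit 0) (nat_lit 484156797) (nat_lit 0) (nat_lit 484156797) (nat_lit 988) (nat_lit 3500928812) (nat_lit 225) (nat_lit 5) (nat_lit 225) (nat_lit 3) (nat_lit 238) (nat_lit 3) (nat_lit 284) (nat_lit 284) (nat_lit 212)) (XT.lf (nat_lit 0) (nat_lit 2862927850) (nat_lit 988) (nat_lit 3902446947) (nat_lit 1064) (nat_lit 2279143874) (nat_lit 225) (nat_lit 5) (nat_lit 238) (nat_lit 3) (nat_lit 239) (nat_lit 5) (nat_lit 285) (nat_lit 284) (nat_lit 211))) (XT.nd (nat_lit 78) (nat_lit 0) (nat_lit 0) (XT.lf (nat_lit 76) (nat_lit 264579706) (nat_lit 0) (nat_lit 3530587340) (nat_lit 1064) (nat_lit 5359265953) (nat_lit 226) (nat_lit 5) (nat_lit 225) (nat_lit 5) (nat_lit 239) (nat_lit 5) (nat_lit 286) (nat_lit 284) (nat_lit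 210)) (XT.lf (nat_lit 76) (nat_lit 4618487968) (nat_lit 0) (nat_lit 143126968) (nat_lit 1064) (nat_lit 4505885234) (nat_lit 226) (nat_lit 5) (nat_lit 225) (nat_lit 5) (nat_lit 239) (nat_lit 5) (nat_lit 287) (nat_lit 284) (nat_lit 209))))) (XT.nd (nat_lit 234) (nat_lit 988) (nat_lit 0) (XT.nd (nat_lit 78) (nat_lit 0) (nat_lit 0) (XT.lf (nat_lit 0) (nat_lit 5757160455) (nat_lit 988) (nat_lit 331854634) (nat_lit 1064) (nat_lit 3294982560) (nat_lit 226) (nat_lit 5) (nat_lit 239) (nat_lit 5) (nat_lit 240) (nat_lit 5) (nat_lit 288) (nat_lit 284) (nat_lit 208)) (XT.nd (nat_lit 78) (nat_lit 0) (nat_lit 76) (XT.lf (nat_lit 76) (nat_lit 4176703711) (nat_lit 0) (nat_lit 2616309327) (nat_lit 1064) (nat_lit 2710704004) (nat_lit 227) (nat_lit 5) (nat_lit 226) (nat_lit 5) (nat_lit 240) (nat_lit 5) (nat_lit 289) (nat_lit 284) (nat_lit 207)) (XT.lf (nat_lit 0) (nat_lit 7842285943) (nat_lit 988) (nat_lit 827963503)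 (nat_lit 1064) (nat_lit 957347268) (nat_lit 227) (nat_lit 5) (nat_lit 240) (nat_lit 5) (nat_lit 241) (nat_lit 5) (nat_lit 290) (nat_lit 284) (nat_lit 206)))) (XT.nd (nat_lit 156) (nat_lit 0) (nat_lit 76) (XT.nd (nat_lit 78) (nat_lit 1064) (nat_lit 0) (XT.lf (nat_lit 76) (nat_lit 3836482721) (nat_lit 0) (nat_lit 5119945553) (nat_lit 1064) (nat_lit 797800669) (nat_lit 228) (nat_lit 5) (nat_lit 227) (nat_lit 5) (nat_lit 241) (nat_lit 5) (nat_lit 291) (nat_lit 284) (nat_lit 205)) (XT.lf (nat_lit 0) (nat_lit 194466166) (nat_lit 1064) (nat_lit 1247732156) (nat_lit 1140) (nat_lit 8443051948) (nat_lit 213) (nat_lit 5) (nat_lit 227) (nat_lit 5) (nat_lit 228) (nat_lit 5) (nat_lit 292) (nat_lit 284) (nat_lit 204))) (XT.nd (nat_lit 78) (nat_lit 0) (nat_lit 0) (XT.lf (nat_lit 0) (nat_lit 1230012235) (nat_lit 1064) (nat_lit 6436426971) (nat_lit 1140) (nat_lit 2352674362) (nat_lit 214) (nat_lit 5) (nat_lit 228)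 (nat_lit 5) (nat_lit 229) (nat_lit 5) (nat_lit 293) (nat_lit 284) (nat_lit 203)) (XT.lf (nat_lit 0) (nat_lit 2296176887) (nat_lit 1064) (nat_lit 1606606388) (nat_lit 1140) (nat_lit 6254256598) (nat_lit 214) (nat_lit 5) (nat_lit 228) (nat_lit 5) (nat_lit 229) (nat_lit 5) (nat_lit 294) (nat_lit 284) (nat_lit 202)))))) (XT.nd (nat_lit 546) (nat_lit 2508) (nat_lit 0) (XT.nd (nat_lit 234) (nat_lit 912) (nat_lit 0) (XT.nd (nat_lit 78) (nat_lit 0) (nat_lit 0) (XT.lf (nat_lit 0) (nat_lit 3400663009) (nat_lit 1064) (nat_lit 6882955377) (nat_lit 1140) (nat_lit 15328182) (nat_lit 215) (nat_lit 5) (nat_lit 229) (nat_lit 5) (nat_lit 230) (nat_lit 5) (nat_lit 295) (nat_lit 284) (nat_lit 201)) (XT.nd (nat_lit 78) (nat_lit 0) (nat_lit 0) (XT.lf (nat_lit 0) (nat_lit 4567329665) (nat_lit 1064) (nat_lit 1880553301) (nat_lit 1140) (nat_lit 3996387862) (nat_lit 215) (nat_lit 5) (nat_lit 229) (nat_lit 5) (nat_lit 230)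 (nat_lit 5) (nat_lit 296) (nat_lit 284) (nat_lit 200)) (XT.lf (nat_lit 76) (nat_lit 3317899916) (nat_lit 0) (nat_lit 2457767105) (nat_lit 1140) (nat_lit 4818118492) (nat_lit 216) (nat_lit 5) (nat_lit 215) (nat_lit 5) (nat_lit 230) (nat_lit 5) (nat_lit 297) (nat_lit 284) (nat_lit 199)))) (XT.nd (nat_lit 156) (nat_lit 988) (nat_lit 0) (XT.nd (nat_lit 78) (nat_lit 0) (nat_lit 0) (XT.lf (nat_lit 0) (nat_lit 7030704510) (nat_lit 1064) (nat_lit 2071837824) (nat_lit 1140) (nat_lit 1644959725) (nat_lit 216) (nat_lit 5) (nat_lit 230) (nat_lit 5) (nat_lit 231) (nat_lit 5) (nat_lit 298) (nat_lit 284) (nat_lit 198)) (XT.lf (nat_lit 76) (nat_lit 3309737728) (nat_lit 0) (nat_lit 5045913253) (nat_lit 1140) (nat_lit 2549240435) (nat_lit 217) (nat_lit 5) (nat_lit 216) (nat_lit 5) (nat_lit 231) (nat_lit 5) (nat_lit 299) (nat_lit 284) (nat_lit 197))) (XT.nd (nat_lit 78) (nat_lit 988) (nat_lit 0) (XT.lf (nat_lit 76)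 (nat_lit 8876571709) (nat_lit 0) (nat_lit 841320450) (nat_lit 1140) (nat_lit 1349212107) (nat_lit 217) (nat_lit 5) (nat_lit 216) (nat_lit 5) (nat_lit 231) (nat_lit 5) (nat_lit 300) (nat_lit 284) (nat_lit 196)) (XT.lf (nat_lit 0) (nat_lit 3389967105) (nat_lit 1064) (nat_lit 7774511906) (nat_lit 1140) (nat_lit 68427521) (nat_lit 203) (nat_lit 5) (nat_lit 217) (nat_lit 5) (nat_lit 218) (nat_lit 5) (nat_lit 301) (nat_lit 284) (nat_lit 195))))) (XT.nd (nat_lit 234) (nat_lit 1292) (nat_lit 0) (XT.nd (nat_lit 78) (nat_lit 1140) (nat_lit 0) (XT.lf (nat_lit 0) (nat_lit 1234626572) (nat_lit 1140) (nat_lit 2259961090) (nat_lit 76) (nat_lit 7908512719) (nat_lit 202) (nat_lit 5) (nat_lit 217) (nat_lit 5) (nat_lit 203) (nat_lit 5) (nat_lit 302) (nat_lit 284) (nat_lit 194)) (XT.nd (nat_lit 78) (nat_lit 0) (nat_lit 0) (XT.lf (nat_lit 0) (nat_lit 2596823201) (nat_lit 1216) (nat_lit 8046878011) (nat_lit 76) (nat_lit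 934060780) (nat_lit 187) (nat_lit 5) (nat_lit 203) (nat_lit 5) (nat_lit 188) (nat_lit 5) (nat_lit 303) (nat_lit 284) (nat_lit 193)) (XT.lf (nat_lit 0) (nat_lit 4036254474) (nat_lit 1216) (nat_lit 2269129481) (nat_lit 76) (nat_lit 5451212762) (nat_lit 187) (nat_lit 5) (nat_lit 203) (nat_lit 5) (nat_lit 188) (nat_lit 5) (nat_lit 304) (nat_lit 284) (nat_lit 192)))) (XT.nd (nat_lit 156) (nat_lit 608) (nat_lit 0) (XT.nd (nat_lit 78) (nat_lit 0) (nat_lit 0) (XT.lf (nat_lit 0) (nat_lit 3736310646) (nat_lit 684) (nat_lit 1797815237) (nat_lit 760) (nat_lit 6406236504) (nat_lit 178) (nat_lit 5) (nat_lit 187) (nat_lit 5) (nat_lit 188) (nat_lit 5) (nat_lit 305) (nat_lit 284) (nat_lit 191)) (XT.lf (nat_lit 0) (nat_lit 7107206325) (nat_lit 760) (nat_lit 2207115011) (nat_lit 76) (nat_lit 2814434437) (nat_lit 178) (nat_lit 5) (nat_lit 188) (nat_lit 5) (nat_lit 179) (nat_lit 5) (nat_lit 306) (nat_lit 284) (nat_lit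 190))) (XT.nd (nat_lit 78) (nat_lit 0) (nat_lit 0) (XT.lf (nat_lit 0) (nat_lit 4011751507) (nat_lit 608) (nat_lit 4752464600) (nat_lit 684) (nat_lit 3557505010) (nat_lit 170) (nat_lit 5) (nat_lit 178) (nat_lit 5) (nat_lit 179) (nat_lit 5) (nat_lit 307) (nat_lit 284) (nat_lit 189)) (XT.lf (nat_lit 0) (nat_lit 10444146831) (nat_lit 608) (nat_lit 29846175) (nat_lit 684) (nat_lit 2046412326) (nat_lit 170) (nat_lit 5) (nat_lit 178) (nat_lit 5) (nat_lit 179) (nat_lit 5) (nat_lit 308) (nat_lit 284) (nat_lit 188))))))) (XT.nd (nat_lit 1092) (nat_lit 3040) (nat_lit 0) (XT.nd (nat_lit 546) (nat_lit 1368) (nat_lit 0) (XT.nd (nat_lit 234) (nat_lit 988) (nat_lit 0) (XT.nd (nat_lit 78) (nat_lit 608) (nat_lit 0) (XT.lf (nat_lit 0) (nat_lit 4364827343) (nat_lit 532) (nat_lit 7940003230) (nat_lit 608) (nat_lit 418147465) (nat_lit 163) (nat_lit 5) (nat_lit 170) (nat_lit 5) (nat_lit 171) (nat_lit 5) (nat_lit 309)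 (nat_lit 284) (nat_lit 187)) (XT.nd (nat_lit 78) (nat_lit 532) (nat_lit 0) (XT.lf (nat_lit 0) (nat_lit 1237373796) (nat_lit 608) (nat_lit 1920443409) (nat_lit 76) (nat_lit 9773378183) (nat_lit 162) (nat_lit 5) (nat_lit 170) (nat_lit 5) (nat_lit 163) (nat_lit 5) (nat_lit 310) (nat_lit 284) (nat_lit 186)) (XT.lf (nat_lit 0) (nat_lit 2979653483) (nat_lit 608) (nat_lit 8380649008) (nat_lit 76) (nat_lit 1783886854) (nat_lit 155) (nat_lit 5) (nat_lit 163) (nat_lit 5) (nat_lit 156) (nat_lit 5) (nat_lit 311) (nat_lit 284) (nat_lit 185)))) (XT.nd (nat_lit 156) (nat_lit 532) (nat_lit 0) (XT.nd (nat_lit 78) (nat_lit 456) (nat_lit 0) (XT.lf (nat_lit 0) (nat_lit 4807446027) (nat_lit 608) (nat_lit 1725412377) (nat_lit 76) (nat_lit 6829736029) (nat_lit 155) (nat_lit 5) (nat_lit 163) (nat_lit 5) (nat_lit 156) (nat_lit 5) (nat_lit 312) (nat_lit 284) (nat_lit 184)) (XT.lf (nat_lit 0) (nat_lit 5213373913) (nat_lit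 456) (nat_lit 1509719592) (nat_lit 532) (nat_lit 6863485636) (nat_lit 149) (nat_lit 5) (nat_lit 155) (nat_lit 5) (nat_lit 156) (nat_lit 5) (nat_lit 313) (nat_lit 284) (nat_lit 183))) (XT.nd (nat_lit 78) (nat_lit 532) (nat_lit 0) (XT.lf (nat_lit 0) (nat_lit 8732254326) (nat_lit 532) (nat_lit 1474637973) (nat_lit 76) (nat_lit 3609327350) (nat_lit 149) (nat_lit 5) (nat_lit 156) (nat_lit 5) (nat_lit 150) (nat_lit 5) (nat_lit 314) (nat_lit 284) (nat_lit 182)) (XT.lf (nat_lit 0) (nat_lit 5709708841) (nat_lit 532) (nat_lit 5145529042) (nat_lit 608) (nat_lit 3195922115) (nat_lit 142) (nat_lit 5) (nat_lit 149) (nat_lit 5) (nat_lit 150) (nat_lit 5) (nat_lit 315) (nat_lit 284) (nat_lit 181))))) (XT.nd (nat_lit 234) (nat_lit 836) (nat_lit 0) (XT.nd (nat_lit 78) (nat_lit 532) (nat_lit 0) (XT.lf (nat_lit 0) (nat_lit 13041606829) (nat_lit 608) (nat_lit 1171640379) (nat_lit 76) (nat_lit 79927039) (nat_lit 142)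 (nat_lit 5) (nat_lit 150) (nat_lit 5) (nat_lit 143) (nat_lit 5) (nat_lit 316) (nat_lit 284) (nat_lit 180)) (XT.nd (nat_lit 78) (nat_lit 0) (nat_lit 0) (XT.lf (nat_lit 0) (nat_lit 833054881) (nat_lit 532) (nat_lit 8280580459) (nat_lit 76) (nat_lit 5425714773) (nat_lit 135) (nat_lit 5) (nat_lit 142) (nat_lit 5) (nat_lit 136) (nat_lit 5) (nat_lit 317) (nat_lit 284) (nat_lit 179)) (XT.lf (nat_lit 0) (nat_lit 2951601886) (nat_lit 532) (nat_lit 886538938) (nat_lit 76) (nat_lit 10954517602) (nat_lit 135) (nat_lit 5) (nat_lit 142) (nat_lit 5) (nat_lit 136) (nat_lit 5) (nat_lit 318) (nat_lit 284) (nat_lit 178)))) (XT.nd (nat_lit 156) (nat_lit 380) (nat_lit 0) (XT.nd (nat_lit 78) (nat_lit 0) (nat_lit 0) (XT.lf (nat_lit 0) (nat_lit 5200522641) (nat_lit 532) (nat_lit 8222184807) (nat_lit 76) (nat_lit 1628868738) (nat_lit 129) (nat_lit 5) (nat_lit 136) (nat_lit 5) (nat_lit 130) (nat_lit 5) (nat_lit 319) (nat_lit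 284) (nat_lit 177)) (XT.lf (nat_lit 0) (nat_lit 7549246860) (nat_lit 532) (nat_lit 578447371) (nat_lit 76) (nat_lit 7189611463) (nat_lit 129) (nat_lit 5) (nat_lit 136) (nat_lit 5) (nat_lit 130) (nat_lit 5) (nat_lit 320) (nat_lit 284) (nat_lit 176))) (XT.nd (nat_lit 78) (nat_lit 0) (nat_lit 0) (XT.lf (nat_lit 0) (nat_lit 7422611830) (nat_lit 380) (nat_lit 2602893510) (nat_lit 456) (nat_lit 5563803445) (nat_lit 124) (nat_lit 5) (nat_lit 129) (nat_lit 5) (nat_lit 130) (nat_lit 5) (nat_lit 321) (nat_lit 284) (nat_lit 175)) (XT.lf (nat_lit 0) (nat_lit 12597583066) (nat_lit 456) (nat_lit 240550497) (nat_lit 76) (nat_lit 3030705932) (nat_lit 124) (nat_lit 5) (nat_lit 130) (nat_lit 5) (nat_lit 125) (nat_lit 5) (nat_lit 322) (nat_lit 284) (nat_lit 174)))))) (XT.nd (nat_lit 546) (nat_lit 1444) (nat_lit 0) (XT.nd (nat_lit 234) (nat_lit 684) (nat_lit 0) (XT.nd (nat_lit 78) (nat_lit 456) (nat_lit 0) (XT.lf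 (nat_lit 0) (nat_lit 8037878501) (nat_lit 456) (nat_lit 7298342092) (nat_lit 532) (nat_lit 817866686) (nat_lit 118) (nat_lit 5) (nat_lit 124) (nat_lit 5) (nat_lit 125) (nat_lit 5) (nat_lit 323) (nat_lit 284) (nat_lit 173)) (XT.nd (nat_lit 78) (nat_lit 0) (nat_lit 0) (XT.lf (nat_lit 0) (nat_lit 90384372) (nat_lit 380) (nat_lit 1575166736) (nat_lit 456) (nat_lit 14782167515) (nat_lit 112) (nat_lit 5) (nat_lit 117) (nat_lit 5) (nat_lit 118) (nat_lit 5) (nat_lit 324) (nat_lit 284) (nat_lit 172)) (XT.lf (nat_lit 0) (nat_lit 4317986150) (nat_lit 456) (nat_lit 8105497791) (nat_lit 76) (nat_lit 4323115413) (nat_lit 112) (nat_lit 5) (nat_lit 118) (nat_lit 5) (nat_lit 113) (nat_lit 5) (nat_lit 325) (nat_lit 284) (nat_lit 171)))) (XT.nd (nat_lit 156) (nat_lit 304) (nat_lit 0) (XT.nd (nat_lit 78) (nat_lit 0) (nat_lit 0) (XT.lf (nat_lit 0) (nat_lit 369078285) (nat_lit 380) (nat_lit 6687108141) (nat_lit 456)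 (nat_lit 9998085936) (nat_lit 107) (nat_lit 5) (nat_lit 112) (nat_lit 5) (nat_lit 113) (nat_lit 5) (nat_lit 326) (nat_lit 284) (nat_lit 170)) (XT.lf (nat_lit 0) (nat_lit 9247785587) (nat_lit 380) (nat_lit 697866340) (nat_lit 456) (nat_lit 7423461336) (nat_lit 107) (nat_lit 5) (nat_lit 112) (nat_lit 5) (nat_lit 113) (nat_lit 5) (nat_lit 327) (nat_lit 284) (nat_lit 169))) (XT.nd (nat_lit 78) (nat_lit 0) (nat_lit 0) (XT.lf (nat_lit 0) (nat_lit 643280333) (nat_lit 304) (nat_lit 12324903193) (nat_lit 380) (nat_lit 4723835354) (nat_lit 103) (nat_lit 5) (nat_lit 107) (nat_lit 5) (nat_lit 108) (nat_lit 5) (nat_lit 328) (nat_lit 284) (nat_lit 168)) (XT.lf (nat_lit 0) (nat_lit 9814280960) (nat_lit 304) (nat_lit 6343776208) (nat_lit 380) (nat_lit 1864265148) (nat_lit 103) (nat_lit 5) (nat_lit 107) (nat_lit 5) (nat_lit 108) (nat_lit 5) (nat_lit 329) (nat_lit 284) (nat_lit 167))))) (XT.nd (nat_lit 234) (nat_lit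 684) (nat_lit 0) (XT.nd (nat_lit 78) (nat_lit 304) (nat_lit 0) (XT.lf (nat_lit 0) (nat_lit 889073225) (nat_lit 380) (nat_lit 167511691) (nat_lit 456) (nat_lit 17305750536) (nat_lit 97) (nat_lit 5) (nat_lit 102) (nat_lit 5) (nat_lit 103) (nat_lit 5) (nat_lit 330) (nat_lit 284) (nat_lit 166)) (XT.nd (nat_lit 78) (nat_lit 304) (nat_lit 0) (XT.lf (nat_lit 0) (nat_lit 4159041005) (nat_lit 456) (nat_lit 8377455453) (nat_lit 76) (nat_lit 6171565001) (nat_lit 97) (nat_lit 5) (nat_lit 103) (nat_lit 5) (nat_lit 98) (nat_lit 5) (nat_lit 331) (nat_lit 284) (nat_lit 165)) (XT.lf (nat_lit 0) (nat_lit 993486059) (nat_lit 304) (nat_lit 6360840552) (nat_lit 380) (nat_lit 11709849407) (nat_lit 93) (nat_lit 5) (nat_lit 97) (nat_lit 5) (nat_lit 98) (nat_lit 5) (nat_lit 332) (nat_lit 284) (nat_lit 164)))) (XT.nd (nat_lit 156) (nat_lit 380) (nat_lit 0) (XT.nd (nat_lit 78) (nat_lit 304) (nat_lit 0) (XT.lf (nat_lit 0)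 (nat_lit 10719599792) (nat_lit 380) (nat_lit 8627613116) (nat_lit 76) (nat_lit 81546409) (nat_lit 93) (nat_lit 5) (nat_lit 98) (nat_lit 5) (nat_lit 94) (nat_lit 5) (nat_lit 333) (nat_lit 284) (nat_lit 163)) (XT.lf (nat_lit 0) (nat_lit 1040920571) (nat_lit 304) (nat_lit 13206919192) (nat_lit 380) (nat_lit 5554588999) (nat_lit 89) (nat_lit 5) (nat_lit 93) (nat_lit 5) (nat_lit 94) (nat_lit 5) (nat_lit 334) (nat_lit 284) (nat_lit 162))) (XT.nd (nat_lit 78) (nat_lit 380) (nat_lit 0) (XT.lf (nat_lit 0) (nat_lit 11161347645) (nat_lit 304) (nat_lit 6796900580) (nat_lit 380) (nat_lit 2226779071) (nat_lit 89) (nat_lit 5) (nat_lit 93) (nat_lit 5) (nat_lit 94) (nat_lit 5) (nat_lit 335) (nat_lit 284) (nat_lit 161)) (XT.lf (nat_lit 0) (nat_lit 999441162) (nat_lit 304) (nat_lit 176999873) (nat_lit 380) (nat_lit 19402354328) (nat_lit 84) (nat_lit 5) (nat_lit 88) (nat_lit 5) (nat_lit 89) (nat_lit 5) (nat_lit 336)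 (nat_lit 284) (nat_lit 160))))))))
noncomputable def xc164 : XT := (XT.nd (nat_lit 2106) (nat_lit 1672) (nat_lit 0) (XT.nd (nat_lit 1014) (nat_lit 1292) (nat_lit 0) (XT.nd (nat_lit 468) (nat_lit 1064) (nat_lit 0) (XT.nd (nat_lit 234) (nat_lit 304) (nat_lit 0) (XT.nd (nat_lit 78) (nat_lit 304) (nat_lit 0) (XT.lf (nat_lit 0) (nat_lit 4782396510) (nat_lit 380) (nat_lit 9575139196) (nat_lit 76) (nat_lit 6621825412) (nat_lit 84) (nat_lit 5) (nat_lit 89) (nat_lit 5) (nat_lit 85) (nat_lit 5) (nat_lit 337) (nat_lit 284) (nat_lit 159)) (XT.nd (nat_lit 78) (nat_lit 0) (nat_lit 0) (XT.lf (nat_lit 0) (nat_lit 727136994) (nat_lit 304) (nat_lit 7767969809) (nat_lit 380) (nat_lit 12896887439) (nat_lit 80) (nat_lit 5) (nat_lit 84) (nat_lit 5) (nat_lit 85) (nat_lit 5) (nat_lit 338) (nat_lit 284) (nat_lit 158)) (XT.lf (nat_lit 0) (nat_lit 11520402761) (nat_lit 304) (nat_lit 885477834) (nat_lit 380) (nat_lit 9408532758)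 (nat_lit 80) (nat_lit 5) (nat_lit 84) (nat_lit 5) (nat_lit 85) (nat_lit 5) (nat_lit 339) (nat_lit 284) (nat_lit 157)))) (XT.nd (nat_lit 78) (nat_lit 76) (nat_lit 0) (XT.lf (nat_lit 0) (nat_lit 320381983) (nat_lit 228) (nat_lit 16166549995) (nat_lit 304) (nat_lit 5760991669) (nat_lit 77) (nat_lit 5) (nat_lit 80) (nat_lit 5) (nat_lit 81) (nat_lit 5) (nat_lit 340) (nat_lit 284) (nat_lit 156)) (XT.nd (nat_lit 78) (nat_lit 76) (nat_lit 0) (XT.lf (nat_lit 0) (nat_lit 11441221529) (nat_lit 228) (nat_lit 9352215819) (nat_lit 304) (nat_lit 1897918258) (nat_lit 77) (nat_lit 5) (nat_lit 80) (nat_lit 5) (nat_lit 81) (nat_lit 5) (nat_lit 341) (nat_lit 284) (nat_lit 155)) (XT.lf (nat_lit 0) (nat_lit 2031011388) (nat_lit 304) (nat_lit 286253629) (nat_lit 76) (nat_lit 20830514822) (nat_lit 76) (nat_lit 5) (nat_lit 80) (nat_lit 5) (nat_lit 77) (nat_lit 5) (nat_lit 342) (nat_lit 284) (nat_lit 154))))) (XT.nd (nat_lit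 234) (nat_lit 532) (nat_lit 0) (XT.nd (nat_lit 78) (nat_lit 228) (nat_lit 0) (XT.lf (nat_lit 0) (nat_lit 6186689358) (nat_lit 380) (nat_lit 12470253987) (nat_lit 76) (nat_lit 4955985348) (nat_lit 72) (nat_lit 5) (nat_lit 77) (nat_lit 5) (nat_lit 73) (nat_lit 5) (nat_lit 343) (nat_lit 284) (nat_lit 153)) (XT.nd (nat_lit 78) (nat_lit 228) (nat_lit 0) (XT.lf (nat_lit 0) (nat_lit 10483844791) (nat_lit 380) (nat_lit 1208123720) (nat_lit 76) (nat_lit 12399565534) (nat_lit 72) (nat_lit 5) (nat_lit 77) (nat_lit 5) (nat_lit 73) (nat_lit 5) (nat_lit 344) (nat_lit 284) (nat_lit 152)) (XT.lf (nat_lit 0) (nat_lit 10585276451) (nat_lit 228) (nat_lit 4417599020) (nat_lit 304) (nat_lit 9578839331) (nat_lit 69) (nat_lit 5) (nat_lit 72) (nat_lit 5) (nat_lit 73) (nat_lit 5) (nat_lit 345) (nat_lit 284) (nat_lit 151)))) (XT.nd (nat_lit 156) (nat_lit 304) (nat_lit 0) (XT.nd (nat_lit 78) (nat_lit 228) (nat_lit 0) (XT.lf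 (nat_lit 0) (nat_lit 19690653739) (nat_lit 304) (nat_lit 2371916326) (nat_lit 76) (nat_lit 3023041506) (nat_lit 69) (nat_lit 5) (nat_lit 73) (nat_lit 5) (nat_lit 70) (nat_lit 5) (nat_lit 346) (nat_lit 284) (nat_lit 150)) (XT.lf (nat_lit 0) (nat_lit 9734701923) (nat_lit 228) (nat_lit 14913228818) (nat_lit 304) (nat_lit 952834256) (nat_lit 66) (nat_lit 5) (nat_lit 69) (nat_lit 5) (nat_lit 70) (nat_lit 5) (nat_lit 347) (nat_lit 284) (nat_lit 149))) (XT.nd (nat_lit 78) (nat_lit 228) (nat_lit 0) (XT.lf (nat_lit 0) (nat_lit 3567639506) (nat_lit 304) (nat_lit 3925479819) (nat_lit 76) (nat_lit 18636741156) (nat_lit 65) (nat_lit 5) (nat_lit 69) (nat_lit 5) (nat_lit 66) (nat_lit 5) (nat_lit 348) (nat_lit 284) (nat_lit 148)) (XT.lf (nat_lit 0) (nat_lit 8280584343) (nat_lit 304) (nat_lit 18157075382) (nat_lit 76) (nat_lit 234611080) (nat_lit 62) (nat_lit 5) (nat_lit 66) (nat_lit 5) (nat_lit 63) (nat_lit 5)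 (nat_lit 349) (nat_lit 284) (nat_lit 147)))))) (XT.nd (nat_lit 546) (nat_lit 608) (nat_lit 0) (XT.nd (nat_lit 234) (nat_lit 456) (nat_lit 0) (XT.nd (nat_lit 78) (nat_lit 228) (nat_lit 0) (XT.lf (nat_lit 0) (nat_lit 13241047425) (nat_lit 304) (nat_lit 5907399190) (nat_lit 76) (nat_lit 8079328005) (nat_lit 62) (nat_lit 5) (nat_lit 66) (nat_lit 5) (nat_lit 63) (nat_lit 5) (nat_lit 350) (nat_lit 284) (nat_lit 146)) (XT.nd (nat_lit 78) (nat_lit 0) (nat_lit 0) (XT.lf (nat_lit 0) (nat_lit 6830815884) (nat_lit 228) (nat_lit 11577314650) (nat_lit 304) (nat_lit 9390083762) (nat_lit 59) (nat_lit 5) (nat_lit 62) (nat_lit 5) (nat_lit 63) (nat_lit 5) (nat_lit 351) (nat_lit 284) (nat_lit 145)) (XT.lf (nat_lit 0) (nat_lit 20060148130) (nat_lit 228) (nat_lit 3721987567) (nat_lit 304) (nat_lit 4602078965) (nat_lit 59) (nat_lit 5) (nat_lit 62) (nat_lit 5) (nat_lit 63) (nat_lit 5) (nat_lit 352) (nat_lit 284) (nat_lit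 144)))) (XT.nd (nat_lit 156) (nat_lit 228) (nat_lit 0) (XT.nd (nat_lit 78) (nat_lit 0) (nat_lit 0) (XT.lf (nat_lit 0) (nat_lit 403896133) (nat_lit 228) (nat_lit 24252316961) (nat_lit 76) (nat_lit 4329068583) (nat_lit 56) (nat_lit 5) (nat_lit 59) (nat_lit 5) (nat_lit 57) (nat_lit 5) (nat_lit 353) (nat_lit 284) (nat_lit 143)) (XT.lf (nat_lit 0) (nat_lit 5581762770) (nat_lit 228) (nat_lit 11344763941) (nat_lit 76) (nat_lit 12673065132) (nat_lit 56) (nat_lit 5) (nat_lit 59) (nat_lit 5) (nat_lit 57) (nat_lit 5) (nat_lit 354) (nat_lit 284) (nat_lit 142))) (XT.nd (nat_lit 78) (nat_lit 0) (nat_lit 0) (XT.lf (nat_lit 0) (nat_lit 1976944134) (nat_lit 228) (nat_lit 8949713373) (nat_lit 304) (nat_lit 19305327298) (nat_lit 53) (nat_lit 5) (nat_lit 56) (nat_lit 5) (nat_lit 57) (nat_lit 5) (nat_lit 355) (nat_lit 284) (nat_lit 141)) (XT.lf (nat_lit 0) (nat_lit 15919325358) (nat_lit 228) (nat_lit 619924181) (nat_lit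 304) (nat_lit 14340883631) (nat_lit 53) (nat_lit 5) (nat_lit 56) (nat_lit 5) (nat_lit 57) (nat_lit 5) (nat_lit 356) (nat_lit 284) (nat_lit 140))))) (XT.nd (nat_lit 234) (nat_lit 380) (nat_lit 0) (XT.nd (nat_lit 78) (nat_lit 228) (nat_lit 0) (XT.lf (nat_lit 0) (nat_lit 22389693603) (nat_lit 304) (nat_lit 1355634337) (nat_lit 76) (nat_lit 7800317828) (nat_lit 53) (nat_lit 5) (nat_lit 57) (nat_lit 5) (nat_lit 54) (nat_lit 5) (nat_lit 357) (nat_lit 284) (nat_lit 139)) (XT.nd (nat_lit 78) (nat_lit 76) (nat_lit 0) (XT.lf (nat_lit 0) (nat_lit 12892086454) (nat_lit 152) (nat_lit 15646794261) (nat_lit 228) (nat_lit 3688550029) (nat_lit 51) (nat_lit 5) (nat_lit 53) (nat_lit 5) (nat_lit 54) (nat_lit 5) (nat_lit 358) (nat_lit 284) (nat_lit 138)) (XT.lf (nat_lit 0) (nat_lit 1911975258) (nat_lit 228) (nat_lit 5364114226) (nat_lit 76) (nat_lit 25652812765) (nat_lit 50) (nat_lit 5) (nat_lit 53) (nat_lit 5) (nat_lit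 51) (nat_lit 5) (nat_lit 359) (nat_lit 284) (nat_lit 137)))) (XT.nd (nat_lit 156) (nat_lit 152) (nat_lit 0) (XT.nd (nat_lit 78) (nat_lit 0) (nat_lit 0) (XT.lf (nat_lit 0) (nat_lit 7701925946) (nat_lit 304) (nat_lit 24504330553) (nat_lit 76) (nat_lit 1441202977) (nat_lit 47) (nat_lit 5) (nat_lit 51) (nat_lit 5) (nat_lit 48) (nat_lit 5) (nat_lit 360) (nat_lit 284) (nat_lit 136)) (XT.lf (nat_lit 0) (nat_lit 13785756816) (nat_lit 304) (nat_lit 10273780443) (nat_lit 76) (nat_lit 10324434170) (nat_lit 47) (nat_lit 5) (nat_lit 51) (nat_lit 5) (nat_lit 48) (nat_lit 5) (nat_lit 361) (nat_lit 284) (nat_lit 135))) (XT.nd (nat_lit 78) (nat_lit 0) (nat_lit 0) (XT.lf (nat_lit 0) (nat_lit 4460232351) (nat_lit 152) (nat_lit 15628373703) (nat_lit 228) (nat_lit 15052880940) (nat_lit 45) (nat_lit 5) (nat_lit 47) (nat_lit 5) (nat_lit 48) (nat_lit 5) (nat_lit 362) (nat_lit 284) (nat_lit 134)) (XT.lf (nat_lit 0) (nat_lit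 19836481774) (nat_lit 152) (nat_lit 6841518720) (nat_lit 228) (nat_lit 9240807002) (nat_lit 45) (nat_lit 5) (nat_lit 47) (nat_lit 5) (nat_lit 48) (nat_lit 5) (nat_lit 363) (nat_lit 284) (nat_lit 133))))))) (XT.nd (nat_lit 1092) (nat_lit 608) (nat_lit 0) (XT.nd (nat_lit 546) (nat_lit 532) (nat_lit 0) (XT.nd (nat_lit 234) (nat_lit 304) (nat_lit 0) (XT.nd (nat_lit 78) (nat_lit 228) (nat_lit 0) (XT.lf (nat_lit 0) (nat_lit 33480169950) (nat_lit 228) (nat_lit 1076894266) (nat_lit 76) (nat_lit 2161933765) (nat_lit 45) (nat_lit 5) (nat_lit 48) (nat_lit 5) (nat_lit 46) (nat_lit 5) (nat_lit 364) (nat_lit 284) (nat_lit 132)) (XT.nd (nat_lit 78) (nat_lit 0) (nat_lit 0) (XT.lf (nat_lit 0) (nat_lit 3089756790) (nat_lit 228) (nat_lit 22981782306) (nat_lit 76) (nat_lit 11464689936) (nat_lit 42) (nat_lit 5) (nat_lit 45) (nat_lit 5) (nat_lit 43) (nat_lit 5) (nat_lit 365) (nat_lit 284) (nat_lit 131)) (XT.lf (nat_lit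 0) (nat_lit 9548140361) (nat_lit 228) (nat_lit 7742980250) (nat_lit 76) (nat_lit 21085746117) (nat_lit 42) (nat_lit 5) (nat_lit 45) (nat_lit 5) (nat_lit 43) (nat_lit 5) (nat_lit 366) (nat_lit 284) (nat_lit 130)))) (XT.nd (nat_lit 156) (nat_lit 152) (nat_lit 0) (XT.nd (nat_lit 78) (nat_lit 0) (nat_lit 0) (XT.lf (nat_lit 0) (nat_lit 8101406076) (nat_lit 152) (nat_lit 8170974405) (nat_lit 228) (nat_lit 22968182737) (nat_lit 40) (nat_lit 5) (nat_lit 42) (nat_lit 5) (nat_lit 43) (nat_lit 5) (nat_lit 367) (nat_lit 284) (nat_lit 129)) (XT.lf (nat_lit 0) (nat_lit 23283333096) (nat_lit 228) (nat_lit 15570214570) (nat_lit 76) (nat_lit 1274076106) (nat_lit 40) (nat_lit 5) (nat_lit 43) (nat_lit 5) (nat_lit 41) (nat_lit 5) (nat_lit 368) (nat_lit 284) (nat_lit 128))) (XT.nd (nat_lit 78) (nat_lit 0) (nat_lit 0) (XT.lf (nat_lit 0) (nat_lit 382941990) (nat_lit 152) (nat_lit 30200689207) (nat_lit 228) (nat_lit 10455297091)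 (nat_lit 38) (nat_lit 5) (nat_lit 40) (nat_lit 5) (nat_lit 41) (nat_lit 5) (nat_lit 369) (nat_lit 284) (nat_lit 127)) (XT.lf (nat_lit 0) (nat_lit 17124533666) (nat_lit 152) (nat_lit 21130140674) (nat_lit 228) (nat_lit 3718348088) (nat_lit 38) (nat_lit 5) (nat_lit 40) (nat_lit 5) (nat_lit 41) (nat_lit 5) (nat_lit 370) (nat_lit 284) (nat_lit 126))))) (XT.nd (nat_lit 234) (nat_lit 304) (nat_lit 0) (XT.nd (nat_lit 78) (nat_lit 152) (nat_lit 0) (XT.lf (nat_lit 0) (nat_lit 3152473934) (nat_lit 228) (nat_lit 8606897244) (nat_lit 76) (nat_lit 31175003492) (nat_lit 37) (nat_lit 5) (nat_lit 40) (nat_lit 5) (nat_lit 38) (nat_lit 5) (nat_lit 371) (nat_lit 284) (nat_lit 125)) (XT.nd (nat_lit 78) (nat_lit 0) (nat_lit 0) (XT.lf (nat_lit 0) (nat_lit 8236954970) (nat_lit 152) (nat_lit 1991678301) (nat_lit 228) (nat_lit 33692613670) (nat_lit 35) (nat_lit 5) (nat_lit 37) (nat_lit 5) (nat_lit 38) (nat_lit 5) (nat_lit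 372) (nat_lit 284) (nat_lit 124)) (XT.lf (nat_lit 0) (nat_lit 17677216893) (nat_lit 228) (nat_lit 19259926559) (nat_lit 76) (nat_lit 7995780029) (nat_lit 35) (nat_lit 5) (nat_lit 38) (nat_lit 5) (nat_lit 36) (nat_lit 5) (nat_lit 373) (nat_lit 284) (nat_lit 123)))) (XT.nd (nat_lit 156) (nat_lit 152) (nat_lit 0) (XT.nd (nat_lit 78) (nat_lit 152) (nat_lit 0) (XT.lf (nat_lit 0) (nat_lit 25363930617) (nat_lit 228) (nat_lit 2371228555) (nat_lit 76) (nat_lit 18239353188) (nat_lit 35) (nat_lit 5) (nat_lit 38) (nat_lit 5) (nat_lit 36) (nat_lit 5) (nat_lit 374) (nat_lit 284) (nat_lit 122)) (XT.lf (nat_lit 0) (nat_lit 15314546346) (nat_lit 152) (nat_lit 18109012199) (nat_lit 228) (nat_lit 13619523131) (nat_lit 33) (nat_lit 5) (nat_lit 35) (nat_lit 5) (nat_lit 36) (nat_lit 5) (nat_lit 375) (nat_lit 284) (nat_lit 121))) (XT.nd (nat_lit 78) (nat_lit 152) (nat_lit 0) (XT.lf (nat_lit 0) (nat_lit 33571158960) (nat_lit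 152) (nat_lit 8172923632) (nat_lit 228) (nat_lit 6399054353) (nat_lit 33) (nat_lit 5) (nat_lit 35) (nat_lit 5) (nat_lit 36) (nat_lit 5) (nat_lit 376) (nat_lit 284) (nat_lit 120)) (XT.lf (nat_lit 0) (nat_lit 1063413277) (nat_lit 152) (nat_lit 46152890235) (nat_lit 76) (nat_lit 2058223773) (nat_lit 31) (nat_lit 5) (nat_lit 33) (nat_lit 5) (nat_lit 32) (nat_lit 5) (nat_lit 377) (nat_lit 284) (nat_lit 119)))))) (XT.nd (nat_lit 546) (nat_lit 304) (nat_lit 0) (XT.nd (nat_lit 234) (nat_lit 152) (nat_lit 0) (XT.nd (nat_lit 78) (nat_lit 152) (nat_lit 0) (XT.lf (nat_lit 0) (nat_lit 8845947764) (nat_lit 152) (nat_lit 28944632914) (nat_lit 76) (nat_lit 12640635640) (nat_lit 31) (nat_lit 5) (nat_lit 33) (nat_lit 5) (nat_lit 32) (nat_lit 5) (nat_lit 378) (nat_lit 284) (nat_lit 118)) (XT.nd (nat_lit 78) (nat_lit 152) (nat_lit 0) (XT.lf (nat_lit 0) (nat_lit 16857377826) (nat_lit 152) (nat_lit 11228114189) (nat_lit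 76) (nat_lit 23537253279) (nat_lit 31) (nat_lit 5) (nat_lit 33) (nat_lit 5) (nat_lit 32) (nat_lit 5) (nat_lit 379) (nat_lit 284) (nat_lit 117)) (XT.lf (nat_lit 0) (nat_lit 7151701852) (nat_lit 152) (nat_lit 18021748421) (nat_lit 228) (nat_lit 27674642686) (nat_lit 29) (nat_lit 5) (nat_lit 31) (nat_lit 5) (nat_lit 32) (nat_lit 5) (nat_lit 380) (nat_lit 284) (nat_lit 116)))) (XT.nd (nat_lit 156) (nat_lit 152) (nat_lit 0) (XT.nd (nat_lit 78) (nat_lit 0) (nat_lit 0) (XT.lf (nat_lit 0) (nat_lit 26305400020) (nat_lit 152) (nat_lit 7542595488) (nat_lit 228) (nat_lit 20258937580) (nat_lit 29) (nat_lit 5) (nat_lit 31) (nat_lit 5) (nat_lit 32) (nat_lit 5) (nat_lit 381) (nat_lit 284) (nat_lit 115)) (XT.lf (nat_lit 0) (nat_lit 42809732954) (nat_lit 228) (nat_lit 9408632237) (nat_lit 76) (nat_lit 3184366256) (nat_lit 29) (nat_lit 5) (nat_lit 32) (nat_lit 5) (nat_lit 30) (nat_lit 4) (nat_lit 382) (nat_lit 284)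 (nat_lit 114))) (XT.nd (nat_lit 78) (nat_lit 76) (nat_lit 0) (XT.lf (nat_lit 0) (nat_lit 9642197447) (nat_lit 76) (nat_lit 42561321918) (nat_lit 152) (nat_lit 4528990138) (nat_lit 28) (nat_lit 5) (nat_lit 29) (nat_lit 5) (nat_lit 30) (nat_lit 4) (nat_lit 383) (nat_lit 284) (nat_lit 113)) (XT.lf (nat_lit 0) (nat_lit 3795026480) (nat_lit 152) (nat_lit 28686503264) (nat_lit 76) (nat_lit 25616809835) (nat_lit 27) (nat_lit 5) (nat_lit 29) (nat_lit 5) (nat_lit 28) (nat_lit 5) (nat_lit 384) (nat_lit 284) (nat_lit 112))))) (XT.nd (nat_lit 234) (nat_lit 152) (nat_lit 0) (XT.nd (nat_lit 78) (nat_lit 152) (nat_lit 0) (XT.lf (nat_lit 0) (nat_lit 12273696806) (nat_lit 152) (nat_lit 9782553211) (nat_lit 76) (nat_lit 37447671965) (nat_lit 27) (nat_lit 5) (nat_lit 29) (nat_lit 5) (nat_lit 28) (nat_lit 5) (nat_lit 385) (nat_lit 284) (nat_lit 111)) (XT.nd (nat_lit 78) (nat_lit 0) (nat_lit 0) (XT.lf (nat_lit 0) (nat_lit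 9874274195) (nat_lit 152) (nat_lit 11223449664) (nat_lit 228) (nat_lit 39851219567) (nat_lit 25) (nat_lit 5) (nat_lit 27) (nat_lit 5) (nat_lit 28) (nat_lit 5) (nat_lit 386) (nat_lit 284) (nat_lit 110)) (XT.lf (nat_lit 0) (nat_lit 30281701859) (nat_lit 228) (nat_lit 32120304500) (nat_lit 76) (nat_lit 32453676) (nat_lit 25) (nat_lit 5) (nat_lit 28) (nat_lit 5) (nat_lit 26) (nat_lit 4) (nat_lit 387) (nat_lit 284) (nat_lit 109)))) (XT.nd (nat_lit 156) (nat_lit 76) (nat_lit 0) (XT.nd (nat_lit 78) (nat_lit 76) (nat_lit 0) (XT.lf (nat_lit 0) (nat_lit 39848534768) (nat_lit 228) (nat_lit 12715174662) (nat_lit 76) (nat_lit 11397614027) (nat_lit 25) (nat_lit 5) (nat_lit 28) (nat_lit 5) (nat_lit 26) (nat_lit 4) (nat_lit 388) (nat_lit 284) (nat_lit 108)) (XT.lf (nat_lit 0) (nat_lit 7410161832) (nat_lit 76) (nat_lit 42359764469) (nat_lit 152) (nat_lit 15762041215) (nat_lit 24) (nat_lit 5) (nat_lit 25) (nat_lit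 5) (nat_lit 26) (nat_lit 4) (nat_lit 389) (nat_lit 284) (nat_lit 107))) (XT.nd (nat_lit 78) (nat_lit 76) (nat_lit 0) (XT.lf (nat_lit 0) (nat_lit 28393425029) (nat_lit 76) (nat_lit 31720300312) (nat_lit 152) (nat_lit 7032263887) (nat_lit 24) (nat_lit 5) (nat_lit 25) (nat_lit 5) (nat_lit 26) (nat_lit 4) (nat_lit 390) (nat_lit 284) (nat_lit 106)) (XT.lf (nat_lit 0) (nat_lit 1917608746) (nat_lit 152) (nat_lit 18827445836) (nat_lit 76) (nat_lit 48062920075) (nat_lit 23) (nat_lit 5) (nat_lit 25) (nat_lit 5) (nat_lit 24) (nat_lit 5) (nat_lit 391) (nat_lit 284) (nat_lit 105))))))))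
noncomputable def xc165 : XT := (XT.nd (nat_lit 33384) (nat_lit 0) (nat_lit 7448) (XT.nd (nat_lit 32292) (nat_lit 0) (nat_lit 15124) (XT.nd (nat_lit 546) (nat_lit 456) (nat_lit 0) (XT.nd (nat_lit 234) (nat_lit 76) (nat_lit 0) (XT.nd (nat_lit 78) (nat_lit 0) (nat_lit 0) (XT.lf (nat_lit 0) (nat_lit 1651853359) (nat_lit 152) (nat_lit 9355202129) (nat_lit 228) (nat_lit 59510303980) (nat_lit 21) (nat_lit 5) (nat_lit 23) (nat_lit 5) (nat_lit 24) (nat_lit 5) (nat_lit 392) (nat_lit 284) (nat_lit 104)) (XT.nd (nat_lit 78) (nat_lit 0) (nat_lit 0) (XT.lf (nat_lit 0) (nat_lit 20580587989) (nat_lit 228) (nat_lit 49171768835) (nat_lit 76) (nat_lit 2519328087) (nat_lit 21) (nat_lit 5) (nat_lit 24) (nat_lit 5) (nat_lit 22) (nat_lit 4) (nat_lit 393) (nat_lit 284) (nat_lit 103)) (XT.lf (nat_lit 0) (nat_lit 30530609314) (nat_lit 228) (nat_lit 28985861773) (nat_lit 76) (nat_lit 14559491668) (nat_lit 21) (nat_lit 5)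 (nat_lit 24) (nat_lit 5) (nat_lit 22) (nat_lit 4) (nat_lit 394) (nat_lit 284) (nat_lit 102)))) (XT.nd (nat_lit 156) (nat_lit 0) (nat_lit 0) (XT.nd (nat_lit 78) (nat_lit 76) (nat_lit 0) (XT.lf (nat_lit 0) (nat_lit 40775885733) (nat_lit 228) (nat_lit 8200218826) (nat_lit 76) (nat_lit 26958362834) (nat_lit 21) (nat_lit 5) (nat_lit 24) (nat_lit 5) (nat_lit 22) (nat_lit 4) (nat_lit 395) (nat_lit 284) (nat_lit 101)) (XT.lf (nat_lit 0) (nat_lit 13466094217) (nat_lit 76) (nat_lit 37988719547) (nat_lit 152) (nat_lit 26390125669) (nat_lit 20) (nat_lit 5) (nat_lit 21) (nat_lit 5) (nat_lit 22) (nat_lit 4) (nat_lit 396) (nat_lit 284) (nat_lit 100))) (XT.nd (nat_lit 78) (nat_lit 0) (nat_lit 0) (XT.lf (nat_lit 0) (nat_lit 35944877508) (nat_lit 76) (nat_lit 26588925039) (nat_lit 152) (nat_lit 17276533326) (nat_lit 20) (nat_lit 5) (nat_lit 21) (nat_lit 5) (nat_lit 22) (nat_lit 4) (nat_lit 397) (nat_lit 284) (nat_lit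 99)) (XT.lf (nat_lit 0) (nat_lit 59092572267) (nat_lit 76) (nat_lit 14849566184) (nat_lit 152) (nat_lit 7892647433) (nat_lit 20) (nat_lit 5) (nat_lit 21) (nat_lit 5) (nat_lit 22) (nat_lit 4) (nat_lit 398) (nat_lit 284) (nat_lit 98))))) (XT.nd (nat_lit 234) (nat_lit 228) (nat_lit 0) (XT.nd (nat_lit 78) (nat_lit 152) (nat_lit 0) (XT.lf (nat_lit 0) (nat_lit 1735197687) (nat_lit 152) (nat_lit 1007665507) (nat_lit 76) (nat_lit 81176684853) (nat_lit 19) (nat_lit 5) (nat_lit 21) (nat_lit 5) (nat_lit 20) (nat_lit 5) (nat_lit 399) (nat_lit 284) (nat_lit 97)) (XT.nd (nat_lit 78) (nat_lit 0) (nat_lit 0) (XT.lf (nat_lit 0) (nat_lit 11795466577) (nat_lit 228) (nat_lit 64435252902) (nat_lit 76) (nat_lit 9824723477) (nat_lit 17) (nat_lit 5) (nat_lit 20) (nat_lit 5) (nat_lit 18) (nat_lit 4) (nat_lit 400) (nat_lit 284) (nat_lit 96)) (XT.lf (nat_lit 0) (nat_lit 22192110847) (nat_lit 228) (nat_lit 43340040191) (nat_lit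 76) (nat_lit 22722227542) (nat_lit 17) (nat_lit 5) (nat_lit 20) (nat_lit 5) (nat_lit 18) (nat_lit 4) (nat_lit 401) (nat_lit 284) (nat_lit 95)))) (XT.nd (nat_lit 156) (nat_lit 152) (nat_lit 0) (XT.nd (nat_lit 78) (nat_lit 76) (nat_lit 0) (XT.lf (nat_lit 0) (nat_lit 32897871978) (nat_lit 228) (nat_lit 21617029712) (nat_lit 76) (nat_lit 36004464918) (nat_lit 17) (nat_lit 5) (nat_lit 20) (nat_lit 5) (nat_lit 18) (nat_lit 4) (nat_lit 402) (nat_lit 284) (nat_lit 94)) (XT.lf (nat_lit 0) (nat_lit 767741199) (nat_lit 76) (nat_lit 43161743317) (nat_lit 152) (nat_lit 48922680241) (nat_lit 16) (nat_lit 5) (nat_lit 17) (nat_lit 5) (nat_lit 18) (nat_lit 4) (nat_lit 403) (nat_lit 284) (nat_lit 93))) (XT.nd (nat_lit 312) (nat_lit 152) (nat_lit 0) (XT.lf (nat_lit 0) (nat_lit 24262320028) (nat_lit 76) (nat_lit 31245345528) (nat_lit 152) (nat_lit 39740813504) (nat_lit 16) (nat_lit 5) (nat_lit 17) (nat_lit 5) (nat_lit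 18) (nat_lit 4) (nat_lit 404) (nat_lit 284) (nat_lit 92)) (XT.lf (nat_lit 0) (nat_lit 192183673) (nat_lit 152) (nat_lit 85485763508) (nat_lit 76) (nat_lit 19885723554) (nat_lit 14) (nat_lit 5) (nat_lit 16) (nat_lit 5) (nat_lit 15) (nat_lit 4) (nat_lit 408) (nat_lit 284) (nat_lit 88)))))) (XT.nd (nat_lit 546) (nat_lit 912) (nat_lit 0) (XT.nd (nat_lit 234) (nat_lit 0) (nat_lit 0) (XT.nd (nat_lit 78) (nat_lit 0) (nat_lit 0) (XT.lf (nat_lit 0) (nat_lit 931929784) (nat_lit 0) (nat_lit 931929784) (nat_lit 988) (nat_lit 2712350158) (nat_lit 225) (nat_lit 5) (nat_lit 225) (nat_lit 3) (nat_lit 238) (nat_lit 3) (nat_lit 285) (nat_lit 285) (nat_lit 210)) (XT.nd (nat_lit 78) (nat_lit 0) (nat_lit 0) (XT.lf (nat_lit 0) (nat_lit 4623246597) (nat_lit 988) (nat_lit 3117534175) (nat_lit 1064) (nat_lit 1522675377) (nat_lit 225) (nat_lit 5) (nat_lit 238) (nat_lit 3) (nat_lit 239) (nat_lit 5) (nat_lit 286) (nat_lit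 285) (nat_lit 209)) (XT.lf (nat_lit 76) (nat_lit 1165660275) (nat_lit 0) (nat_lit 4377608299) (nat_lit 1064) (nat_lit 3834667926) (nat_lit 226) (nat_lit 5) (nat_lit 225) (nat_lit 5) (nat_lit 239) (nat_lit 5) (nat_lit 287) (nat_lit 285) (nat_lit 208)))) (XT.nd (nat_lit 156) (nat_lit 0) (nat_lit 76) (XT.nd (nat_lit 78) (nat_lit 0) (nat_lit 76) (XT.lf (nat_lit 76) (nat_lit 5624171906) (nat_lit 0) (nat_lit 866938582) (nat_lit 1064) (nat_lit 3004774408) (nat_lit 226) (nat_lit 5) (nat_lit 225) (nat_lit 5) (nat_lit 239) (nat_lit 5) (nat_lit 288) (nat_lit 285) (nat_lit 207)) (XT.lf (nat_lit 76) (nat_lit 566017310) (nat_lit 0) (nat_lit 6903017949) (nat_lit 1064) (nat_lit 2148326095) (nat_lit 227) (nat_lit 5) (nat_lit 226) (nat_lit 5) (nat_lit 240) (nat_lit 5) (nat_lit 289) (nat_lit 285) (nat_lit 206))) (XT.nd (nat_lit 78) (nat_lit 0) (nat_lit 76) (XT.lf (nat_lit 76) (nat_lit 5189995384) (nat_lit 0) (nat_lit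 3304391610) (nat_lit 1064) (nat_lit 1247590340) (nat_lit 227) (nat_lit 5) (nat_lit 226) (nat_lit 5) (nat_lit 240) (nat_lit 5) (nat_lit 290) (nat_lit 285) (nat_lit 205)) (XT.lf (nat_lit 76) (nat_lit 61704148) (nat_lit 0) (nat_lit 9464719029) (nat_lit 1064) (nat_lit 344667696) (nat_lit 228) (nat_lit 5) (nat_lit 227) (nat_lit 5) (nat_lit 241) (nat_lit 5) (nat_lit 291) (nat_lit 285) (nat_lit 204))))) (XT.nd (nat_lit 234) (nat_lit 0) (nat_lit 76) (XT.nd (nat_lit 78) (nat_lit 0) (nat_lit 0) (XT.lf (nat_lit 0) (nat_lit 624871882) (nat_lit 1064) (nat_lit 5152799403) (nat_lit 1140) (nat_lit 4224743880) (nat_lit 213) (nat_lit 5) (nat_lit 227) (nat_lit 5) (nat_lit 228) (nat_lit 5) (nat_lit 292) (nat_lit 285) (nat_lit 203)) (XT.nd (nat_lit 78) (nat_lit 0) (nat_lit 76) (XT.lf (nat_lit 0) (nat_lit 1589204587) (nat_lit 1064) (nat_lit 377804713) (nat_lit 1140) (nat_lit 8171422152) (nat_lit 213) (nat_lit 5) (nat_lit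 227) (nat_lit 5) (nat_lit 228) (nat_lit 5) (nat_lit 293) (nat_lit 285) (nat_lit 202)) (XT.lf (nat_lit 0) (nat_lit 2619591521) (nat_lit 1064) (nat_lit 5684275445) (nat_lit 1140) (nat_lit 1973580229) (nat_lit 214) (nat_lit 5) (nat_lit 228) (nat_lit 5) (nat_lit 229) (nat_lit 5) (nat_lit 294) (nat_lit 285) (nat_lit 201)))) (XT.nd (nat_lit 156) (nat_lit 0) (nat_lit 76) (XT.nd (nat_lit 78) (nat_lit 0) (nat_lit 0) (XT.lf (nat_lit 0) (nat_lit 3678342698) (nat_lit 1064) (nat_lit 737091633) (nat_lit 1140) (nat_lit 6005307244) (nat_lit 214) (nat_lit 5) (nat_lit 228) (nat_lit 5) (nat_lit 229) (nat_lit 5) (nat_lit 295) (nat_lit 285) (nat_lit 200)) (XT.lf (nat_lit 76) (nat_lit 4427346115) (nat_lit 0) (nat_lit 358946746) (nat_lit 1140) (nat_lit 5781549650) (nat_lit 215) (nat_lit 5) (nat_lit 214) (nat_lit 5) (nat_lit 229) (nat_lit 5) (nat_lit 296) (nat_lit 285) (nat_lit 199))) (XT.nd (nat_lit 78) (nat_lit 0) (nat_lit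 0) (XT.lf (nat_lit 0) (nat_lit 5947222901) (nat_lit 1064) (nat_lit 1012311592) (nat_lit 1140) (nat_lit 3759259662) (nat_lit 215) (nat_lit 5) (nat_lit 229) (nat_lit 5) (nat_lit 230) (nat_lit 5) (nat_lit 297) (nat_lit 285) (nat_lit 198)) (XT.lf (nat_lit 76) (nat_lit 4333029944) (nat_lit 0) (nat_lit 2831381480) (nat_lit 1140) (nat_lit 3709249057) (nat_lit 216) (nat_lit 5) (nat_lit 215) (nat_lit 5) (nat_lit 230) (nat_lit 5) (nat_lit 298) (nat_lit 285) (nat_lit 197))))))) (XT.nd (nat_lit 1092) (nat_lit 3268) (nat_lit 0) (XT.nd (nat_lit 546) (nat_lit 2432) (nat_lit 0) (XT.nd (nat_lit 234) (nat_lit 2204) (nat_lit 0) (XT.nd (nat_lit 78) (nat_lit 0) (nat_lit 0) (XT.lf (nat_lit 0) (nat_lit 8418899189) (nat_lit 1064) (nat_lit 1205435415) (nat_lit 1140) (nat_lit 1408842888) (nat_lit 216) (nat_lit 5) (nat_lit 230) (nat_lit 5) (nat_lit 231) (nat_lit 5) (nat_lit 299) (nat_lit 285) (nat_lit 196)) (XT.nd (nat_lit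 78) (nat_lit 0) (nat_lit 0) (XT.lf (nat_lit 76) (nat_lit 4328483898) (nat_lit 0) (nat_lit 5429658989) (nat_lit 1140) (nat_lit 1437950869) (nat_lit 217) (nat_lit 5) (nat_lit 216) (nat_lit 5) (nat_lit 231) (nat_lit 5) (nat_lit 300) (nat_lit 285) (nat_lit 195)) (XT.lf (nat_lit 76) (nat_lit 10035542684) (nat_lit 0) (nat_lit 1092160392) (nat_lit 1140) (nat_lit 236516841) (nat_lit 217) (nat_lit 5) (nat_lit 216) (nat_lit 5) (nat_lit 231) (nat_lit 5) (nat_lit 301) (nat_lit 285) (nat_lit 194)))) (XT.nd (nat_lit 156) (nat_lit 1140) (nat_lit 0) (XT.nd (nat_lit 78) (nat_lit 0) (nat_lit 0) (XT.lf (nat_lit 0) (nat_lit 1035442903) (nat_lit 1140) (nat_lit 7133670828) (nat_lit 76) (nat_lit 3366392083) (nat_lit 202) (nat_lit 5) (nat_lit 217) (nat_lit 5) (nat_lit 203) (nat_lit 5) (nat_lit 302) (nat_lit 285) (nat_lit 193)) (XT.lf (nat_lit 0) (nat_lit 2344041997) (nat_lit 1140) (nat_lit 1411372270) (nat_lit 76) (nat_lit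 7956373070) (nat_lit 202) (nat_lit 5) (nat_lit 217) (nat_lit 5) (nat_lit 203) (nat_lit 5) (nat_lit 303) (nat_lit 285) (nat_lit 192))) (XT.nd (nat_lit 78) (nat_lit 0) (nat_lit 0) (XT.lf (nat_lit 0) (nat_lit 3723223344) (nat_lit 1216) (nat_lit 7346816725) (nat_lit 76) (nat_lit 822401125) (nat_lit 187) (nat_lit 5) (nat_lit 203) (nat_lit 5) (nat_lit 188) (nat_lit 5) (nat_lit 304) (nat_lit 285) (nat_lit 191)) (XT.lf (nat_lit 0) (nat_lit 5175298853) (nat_lit 1216) (nat_lit 1423157126) (nat_lit 76) (nat_lit 5479136059) (nat_lit 187) (nat_lit 5) (nat_lit 203) (nat_lit 5) (nat_lit 188) (nat_lit 5) (nat_lit 305) (nat_lit 285) (nat_lit 190))))) (XT.nd (nat_lit 234) (nat_lit 1140) (nat_lit 0) (XT.nd (nat_lit 78) (nat_lit 608) (nat_lit 0) (XT.lf (nat_lit 0) (nat_lit 4753484967) (nat_lit 684) (nat_lit 1943672443) (nat_lit 760) (nat_lit 5570375638) (nat_lit 178) (nat_lit 5) (nat_lit 187) (nat_lit 5) (nat_lit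 188) (nat_lit 5) (nat_lit 306) (nat_lit 285) (nat_lit 189)) (XT.nd (nat_lit 78) (nat_lit 608) (nat_lit 0) (XT.lf (nat_lit 0) (nat_lit 8287533324) (nat_lit 760) (nat_lit 1363611151) (nat_lit 76) (nat_lit 2811363582) (nat_lit 178) (nat_lit 5) (nat_lit 188) (nat_lit 5) (nat_lit 179) (nat_lit 5) (nat_lit 307) (nat_lit 285) (nat_lit 188)) (XT.lf (nat_lit 0) (nat_lit 5032902566) (nat_lit 608) (nat_lit 4941841583) (nat_lit 684) (nat_lit 2687135442) (nat_lit 170) (nat_lit 5) (nat_lit 178) (nat_lit 5) (nat_lit 179) (nat_lit 5) (nat_lit 308) (nat_lit 285) (nat_lit 187)))) (XT.nd (nat_lit 156) (nat_lit 532) (nat_lit 0) (XT.nd (nat_lit 78) (nat_lit 608) (nat_lit 0) (XT.lf (nat_lit 0) (nat_lit 11632032899) (nat_lit 608) (nat_lit 76181411) (nat_lit 684) (nat_lit 1159169047) (nat_lit 170) (nat_lit 5) (nat_lit 178) (nat_lit 5) (nat_lit 179) (nat_lit 5) (nat_lit 309) (nat_lit 285) (nat_lit 186)) (XT.lf (nat_lit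 0) (nat_lit 489003807) (nat_lit 608) (nat_lit 7690870478) (nat_lit 76) (nat_lit 4896603828) (nat_lit 162) (nat_lit 5) (nat_lit 170) (nat_lit 5) (nat_lit 163) (nat_lit 5) (nat_lit 310) (nat_lit 285) (nat_lit 185))) (XT.nd (nat_lit 78) (nat_lit 532) (nat_lit 0) (XT.lf (nat_lit 0) (nat_lit 2159243890) (nat_lit 608) (nat_lit 1090790046) (nat_lit 76) (nat_lit 10041608507) (nat_lit 162) (nat_lit 5) (nat_lit 170) (nat_lit 5) (nat_lit 163) (nat_lit 5) (nat_lit 311) (nat_lit 285) (nat_lit 184)) (XT.lf (nat_lit 0) (nat_lit 3936575031) (nat_lit 608) (nat_lit 7726666100) (nat_lit 76) (nat_lit 1848329160) (nat_lit 155) (nat_lit 5) (nat_lit 163) (nat_lit 5) (nat_lit 156) (nat_lit 5) (nat_lit 312) (nat_lit 285) (nat_lit 183)))))) (XT.nd (nat_lit 546) (nat_lit 1748) (nat_lit 0) (XT.nd (nat_lit 234) (nat_lit 1064) (nat_lit 0) (XT.nd (nat_lit 78) (nat_lit 456) (nat_lit 0) (XT.lf (nat_lit 0) (nat_lit 5793933431)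 (nat_lit 608) (nat_lit 898143313) (nat_lit 76) (nat_lit 7045235586) (nat_lit 155) (nat_lit 5) (nat_lit 163) (nat_lit 5) (nat_lit 156) (nat_lit 5) (nat_lit 313) (nat_lit 285) (nat_lit 182)) (XT.nd (nat_lit 78) (nat_lit 0) (nat_lit 0) (XT.lf (nat_lit 0) (nat_lit 6240188610) (nat_lit 456) (nat_lit 1510696708) (nat_lit 532) (nat_lit 6217642193) (nat_lit 149) (nat_lit 5) (nat_lit 155) (nat_lit 5) (nat_lit 156) (nat_lit 5) (nat_lit 314) (nat_lit 285) (nat_lit 181)) (XT.lf (nat_lit 0) (nat_lit 9796673398) (nat_lit 532) (nat_lit 649327106) (nat_lit 76) (nat_lit 3759791381) (nat_lit 149) (nat_lit 5) (nat_lit 156) (nat_lit 5) (nat_lit 150) (nat_lit 5) (nat_lit 315) (nat_lit 285) (nat_lit 180)))) (XT.nd (nat_lit 156) (nat_lit 532) (nat_lit 0) (XT.nd (nat_lit 78) (nat_lit 0) (nat_lit 0) (XT.lf (nat_lit 0) (nat_lit 6742025112) (nat_lit 532) (nat_lit 5226225676) (nat_lit 608) (nat_lit 2480007016) (nat_lit 142)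 (nat_lit 5) (nat_lit 149) (nat_lit 5) (nat_lit 150) (nat_lit 5) (nat_lit 316) (nat_lit 285) (nat_lit 179)) (XT.lf (nat_lit 0) (nat_lit 14197965639) (nat_lit 608) (nat_lit 347805275) (nat_lit 76) (nat_lit 152452699) (nat_lit 142) (nat_lit 5) (nat_lit 150) (nat_lit 5) (nat_lit 143) (nat_lit 5) (nat_lit 317) (nat_lit 285) (nat_lit 178))) (XT.nd (nat_lit 78) (nat_lit 0) (nat_lit 0) (XT.lf (nat_lit 0) (nat_lit 1617238597) (nat_lit 532) (nat_lit 7662578513) (nat_lit 76) (nat_lit 5672190697) (nat_lit 135) (nat_lit 5) (nat_lit 142) (nat_lit 5) (nat_lit 136) (nat_lit 5) (nat_lit 318) (nat_lit 285) (nat_lit 177)) (XT.lf (nat_lit 0) (nat_lit 3777229621) (nat_lit 532) (nat_lit 71951261) (nat_lit 76) (nat_lit 11364419616) (nat_lit 135) (nat_lit 5) (nat_lit 142) (nat_lit 5) (nat_lit 136) (nat_lit 5) (nat_lit 319) (nat_lit 285) (nat_lit 176))))) (XT.nd (nat_lit 234) (nat_lit 912) (nat_lit 0) (XT.nd (nat_lit 78)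 (nat_lit 380) (nat_lit 0) (XT.lf (nat_lit 0) (nat_lit 6081207198) (nat_lit 532) (nat_lit 7614551541) (nat_lit 76) (nat_lit 1784920501) (nat_lit 129) (nat_lit 5) (nat_lit 136) (nat_lit 5) (nat_lit 130) (nat_lit 5) (nat_lit 320) (nat_lit 285) (nat_lit 175)) (XT.nd (nat_lit 78) (nat_lit 0) (nat_lit 0) (XT.lf (nat_lit 0) (nat_lit 238264935) (nat_lit 380) (nat_lit 8243311696) (nat_lit 456) (nat_lit 7273389008) (nat_lit 124) (nat_lit 5) (nat_lit 129) (nat_lit 5) (nat_lit 130) (nat_lit 5) (nat_lit 321) (nat_lit 285) (nat_lit 174)) (XT.lf (nat_lit 0) (nat_lit 8466574974) (nat_lit 380) (nat_lit 2550660139) (nat_lit 456) (nat_lit 5018360255) (nat_lit 124) (nat_lit 5) (nat_lit 129) (nat_lit 5) (nat_lit 130) (nat_lit 5) (nat_lit 322) (nat_lit 285) (nat_lit 173)))) (XT.nd (nat_lit 156) (nat_lit 456) (nat_lit 0) (XT.nd (nat_lit 78) (nat_lit 0) (nat_lit 0) (XT.lf (nat_lit 0) (nat_lit 580477428) (nat_lit 456)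 (nat_lit 13072668693) (nat_lit 532) (nat_lit 2670785081) (nat_lit 118) (nat_lit 5) (nat_lit 124) (nat_lit 5) (nat_lit 125) (nat_lit 5) (nat_lit 323) (nat_lit 285) (nat_lit 172)) (XT.lf (nat_lit 0) (nat_lit 9087923099) (nat_lit 456) (nat_lit 7368641055) (nat_lit 532) (nat_lit 161712393) (nat_lit 118) (nat_lit 5) (nat_lit 124) (nat_lit 5) (nat_lit 125) (nat_lit 5) (nat_lit 324) (nat_lit 285) (nat_lit 171))) (XT.nd (nat_lit 78) (nat_lit 0) (nat_lit 0) (XT.lf (nat_lit 0) (nat_lit 907827634) (nat_lit 380) (nat_lit 1463490226) (nat_lit 456) (nat_lit 14549568589) (nat_lit 112) (nat_lit 5) (nat_lit 117) (nat_lit 5) (nat_lit 118) (nat_lit 5) (nat_lit 325) (nat_lit 285) (nat_lit 170)) (XT.lf (nat_lit 0) (nat_lit 5085708225) (nat_lit 456) (nat_lit 7539470767) (nat_lit 76) (nat_lit 4604100319) (nat_lit 112) (nat_lit 5) (nat_lit 118) (nat_lit 5) (nat_lit 113) (nat_lit 5) (nat_lit 326) (nat_lit 285) (nat_lit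 169))))))))
noncomputable def xc166 : XT := (XT.nd (nat_lit 2106) (nat_lit 2280) (nat_lit 0) (XT.nd (nat_lit 1014) (nat_lit 1596) (nat_lit 0) (XT.nd (nat_lit 468) (nat_lit 1292) (nat_lit 0) (XT.nd (nat_lit 234) (nat_lit 456) (nat_lit 0) (XT.nd (nat_lit 78) (nat_lit 304) (nat_lit 0) (XT.lf (nat_lit 0) (nat_lit 1181409337) (nat_lit 380) (nat_lit 6713759521) (nat_lit 456) (nat_lit 9651356895) (nat_lit 107) (nat_lit 5) (nat_lit 112) (nat_lit 5) (nat_lit 113) (nat_lit 5) (nat_lit 327) (nat_lit 285) (nat_lit 168)) (XT.nd (nat_lit 78) (nat_lit 304) (nat_lit 0) (XT.lf (nat_lit 0) (nat_lit 10303140226) (nat_lit 380) (nat_lit 549907316) (nat_lit 456) (nat_lit 7018328653) (nat_lit 107) (nat_lit 5) (nat_lit 112) (nat_lit 5) (nat_lit 113) (nat_lit 5) (nat_lit 328) (nat_lit 285) (nat_lit 167)) (XT.lf (nat_lit 0) (nat_lit 1449891581) (nat_lit 304) (nat_lit 12507769253) (nat_lit 380) (nat_lit 4246581693) (nat_lit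 103) (nat_lit 5) (nat_lit 107) (nat_lit 5) (nat_lit 108) (nat_lit 5) (nat_lit 329) (nat_lit 285) (nat_lit 166)))) (XT.nd (nat_lit 78) (nat_lit 456) (nat_lit 0) (XT.lf (nat_lit 0) (nat_lit 10873090785) (nat_lit 304) (nat_lit 6352651596) (nat_lit 380) (nat_lit 1319252596) (nat_lit 103) (nat_lit 5) (nat_lit 107) (nat_lit 5) (nat_lit 108) (nat_lit 5) (nat_lit 330) (nat_lit 285) (nat_lit 165)) (XT.nd (nat_lit 78) (nat_lit 0) (nat_lit 0) (XT.lf (nat_lit 0) (nat_lit 1667890345) (nat_lit 456) (nat_lit 17210772684) (nat_lit 76) (nat_lit 16674748) (nat_lit 97) (nat_lit 5) (nat_lit 103) (nat_lit 5) (nat_lit 98) (nat_lit 5) (nat_lit 331) (nat_lit 285) (nat_lit 164)) (XT.lf (nat_lit 0) (nat_lit 4848148558) (nat_lit 456) (nat_lit 7866615157) (nat_lit 76) (nat_lit 6537143962) (nat_lit 97) (nat_lit 5) (nat_lit 103) (nat_lit 5) (nat_lit 98) (nat_lit 5) (nat_lit 332) (nat_lit 285) (nat_lit 163))))) (XT.nd (nat_lit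 234) (nat_lit 684) (nat_lit 0) (XT.nd (nat_lit 78) (nat_lit 304) (nat_lit 0) (XT.lf (nat_lit 0) (nat_lit 1777982405) (nat_lit 304) (nat_lit 6352127906) (nat_lit 380) (nat_lit 11488884394) (nat_lit 93) (nat_lit 5) (nat_lit 97) (nat_lit 5) (nat_lit 98) (nat_lit 5) (nat_lit 333) (nat_lit 285) (nat_lit 162)) (XT.nd (nat_lit 78) (nat_lit 304) (nat_lit 0) (XT.lf (nat_lit 0) (nat_lit 11582034370) (nat_lit 380) (nat_lit 8138984929) (nat_lit 76) (nat_lit 273938588) (nat_lit 93) (nat_lit 5) (nat_lit 98) (nat_lit 5) (nat_lit 94) (nat_lit 5) (nat_lit 334) (nat_lit 285) (nat_lit 161)) (XT.lf (nat_lit 0) (nat_lit 1812276764) (nat_lit 304) (nat_lit 13395206532) (nat_lit 380) (nat_lit 5172626047) (nat_lit 89) (nat_lit 5) (nat_lit 93) (nat_lit 5) (nat_lit 94) (nat_lit 5) (nat_lit 335) (nat_lit 285) (nat_lit 160)))) (XT.nd (nat_lit 156) (nat_lit 304) (nat_lit 0) (XT.nd (nat_lit 78) (nat_lit 380) (nat_lit 0) (XT.lf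 (nat_lit 0) (nat_lit 12214759507) (nat_lit 304) (nat_lit 6798943292) (nat_lit 380) (nat_lit 1760960481) (nat_lit 89) (nat_lit 5) (nat_lit 93) (nat_lit 5) (nat_lit 94) (nat_lit 5) (nat_lit 336) (nat_lit 285) (nat_lit 159)) (XT.lf (nat_lit 0) (nat_lit 1725944097) (nat_lit 380) (nat_lit 19428959809) (nat_lit 76) (nat_lit 25439143) (nat_lit 84) (nat_lit 5) (nat_lit 89) (nat_lit 5) (nat_lit 85) (nat_lit 5) (nat_lit 337) (nat_lit 285) (nat_lit 158))) (XT.nd (nat_lit 78) (nat_lit 304) (nat_lit 0) (XT.lf (nat_lit 0) (nat_lit 5426802682) (nat_lit 380) (nat_lit 9147808377) (nat_lit 76) (nat_lit 7018724340) (nat_lit 84) (nat_lit 5) (nat_lit 89) (nat_lit 5) (nat_lit 85) (nat_lit 5) (nat_lit 338) (nat_lit 285) (nat_lit 157)) (XT.lf (nat_lit 0) (nat_lit 1456530364) (nat_lit 304) (nat_lit 7786575287) (nat_lit 380) (nat_lit 12775486552) (nat_lit 80) (nat_lit 5) (nat_lit 84) (nat_lit 5) (nat_lit 85) (nat_lit 5)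 (nat_lit 339) (nat_lit 285) (nat_lit 156)))))) (XT.nd (nat_lit 546) (nat_lit 760) (nat_lit 0) (XT.nd (nat_lit 234) (nat_lit 608) (nat_lit 0) (XT.nd (nat_lit 78) (nat_lit 228) (nat_lit 0) (XT.lf (nat_lit 0) (nat_lit 12552984999) (nat_lit 304) (nat_lit 703854192) (nat_lit 380) (nat_lit 9197286303) (nat_lit 80) (nat_lit 5) (nat_lit 84) (nat_lit 5) (nat_lit 85) (nat_lit 5) (nat_lit 340) (nat_lit 285) (nat_lit 155)) (XT.nd (nat_lit 78) (nat_lit 0) (nat_lit 0) (XT.lf (nat_lit 0) (nat_lit 1022822929) (nat_lit 228) (nat_lit 16432156916) (nat_lit 304) (nat_lit 5445831912) (nat_lit 77) (nat_lit 5) (nat_lit 80) (nat_lit 5) (nat_lit 81) (nat_lit 5) (nat_lit 341) (nat_lit 285) (nat_lit 154)) (XT.lf (nat_lit 0) (nat_lit 12457108162) (nat_lit 228) (nat_lit 9419782703) (nat_lit 304) (nat_lit 1481079585) (nat_lit 77) (nat_lit 5) (nat_lit 80) (nat_lit 5) (nat_lit 81) (nat_lit 5) (nat_lit 342) (nat_lit 285) (nat_lit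 153)))) (XT.nd (nat_lit 156) (nat_lit 228) (nat_lit 0) (XT.nd (nat_lit 78) (nat_lit 0) (nat_lit 0) (XT.lf (nat_lit 0) (nat_lit 374823980) (nat_lit 304) (nat_lit 2171721894) (nat_lit 380) (nat_lit 21281712229) (nat_lit 72) (nat_lit 5) (nat_lit 76) (nat_lit 5) (nat_lit 77) (nat_lit 5) (nat_lit 343) (nat_lit 285) (nat_lit 152)) (XT.lf (nat_lit 0) (nat_lit 6818494567) (nat_lit 380) (nat_lit 12176906199) (nat_lit 76) (nat_lit 5312221878) (nat_lit 72) (nat_lit 5) (nat_lit 77) (nat_lit 5) (nat_lit 73) (nat_lit 5) (nat_lit 344) (nat_lit 285) (nat_lit 151))) (XT.nd (nat_lit 78) (nat_lit 228) (nat_lit 0) (XT.lf (nat_lit 0) (nat_lit 11231568414) (nat_lit 380) (nat_lit 596352473) (nat_lit 76) (nat_lit 12973064120) (nat_lit 72) (nat_lit 5) (nat_lit 77) (nat_lit 5) (nat_lit 73) (nat_lit 5) (nat_lit 345) (nat_lit 285) (nat_lit 150)) (XT.lf (nat_lit 0) (nat_lit 11544496615) (nat_lit 228) (nat_lit 4335223729) (nat_lit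 304) (nat_lit 9426353037) (nat_lit 69) (nat_lit 5) (nat_lit 72) (nat_lit 5) (nat_lit 73) (nat_lit 5) (nat_lit 346) (nat_lit 285) (nat_lit 149))))) (XT.nd (nat_lit 234) (nat_lit 456) (nat_lit 0) (XT.nd (nat_lit 78) (nat_lit 304) (nat_lit 0) (XT.lf (nat_lit 0) (nat_lit 20697707711) (nat_lit 304) (nat_lit 1809395220) (nat_lit 76) (nat_lit 3318305300) (nat_lit 69) (nat_lit 5) (nat_lit 73) (nat_lit 5) (nat_lit 70) (nat_lit 5) (nat_lit 347) (nat_lit 285) (nat_lit 148)) (XT.nd (nat_lit 78) (nat_lit 76) (nat_lit 0) (XT.lf (nat_lit 0) (nat_lit 10654209041) (nat_lit 228) (nat_lit 15143399326) (nat_lit 304) (nat_lit 558598936) (nat_lit 66) (nat_lit 5) (nat_lit 69) (nat_lit 5) (nat_lit 70) (nat_lit 5) (nat_lit 348) (nat_lit 285) (nat_lit 147)) (XT.lf (nat_lit 0) (nat_lit 4077163449) (nat_lit 304) (nat_lit 3425785672) (nat_lit 76) (nat_lit 19398474576) (nat_lit 65) (nat_lit 5) (nat_lit 69) (nat_lit 5) (nat_lit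 66) (nat_lit 5) (nat_lit 349) (nat_lit 285) (nat_lit 146)))) (XT.nd (nat_lit 156) (nat_lit 228) (nat_lit 0) (XT.nd (nat_lit 78) (nat_lit 0) (nat_lit 0) (XT.lf (nat_lit 0) (nat_lit 8927715050) (nat_lit 304) (nat_lit 18080297273) (nat_lit 76) (nat_lit 452214963) (nat_lit 62) (nat_lit 5) (nat_lit 66) (nat_lit 5) (nat_lit 63) (nat_lit 5) (nat_lit 350) (nat_lit 285) (nat_lit 145)) (XT.lf (nat_lit 0) (nat_lit 14025379019) (nat_lit 304) (nat_lit 5481232456) (nat_lit 76) (nat_lit 8526140418) (nat_lit 62) (nat_lit 5) (nat_lit 66) (nat_lit 5) (nat_lit 63) (nat_lit 5) (nat_lit 351) (nat_lit 285) (nat_lit 144))) (XT.nd (nat_lit 78) (nat_lit 0) (nat_lit 0) (XT.lf (nat_lit 0) (nat_lit 7633213494) (nat_lit 228) (nat_lit 11708729643) (nat_lit 304) (nat_lit 9278534644) (nat_lit 59) (nat_lit 5) (nat_lit 62) (nat_lit 5) (nat_lit 63) (nat_lit 5) (nat_lit 352) (nat_lit 285) (nat_lit 143)) (XT.lf (nat_lit 0) (nat_lit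 21242023577) (nat_lit 228) (nat_lit 3624031226) (nat_lit 304) (nat_lit 4358343634) (nat_lit 59) (nat_lit 5) (nat_lit 62) (nat_lit 5) (nat_lit 63) (nat_lit 5) (nat_lit 353) (nat_lit 285) (nat_lit 142))))))) (XT.nd (nat_lit 1092) (nat_lit 988) (nat_lit 0) (XT.nd (nat_lit 546) (nat_lit 608) (nat_lit 0) (XT.nd (nat_lit 234) (nat_lit 228) (nat_lit 0) (XT.nd (nat_lit 78) (nat_lit 228) (nat_lit 0) (XT.lf (nat_lit 0) (nat_lit 787098443) (nat_lit 228) (nat_lit 24388664984) (nat_lit 76) (nat_lit 4667728271) (nat_lit 56) (nat_lit 5) (nat_lit 59) (nat_lit 5) (nat_lit 57) (nat_lit 5) (nat_lit 354) (nat_lit 285) (nat_lit 141)) (XT.nd (nat_lit 78) (nat_lit 228) (nat_lit 0) (XT.lf (nat_lit 0) (nat_lit 6109492766) (nat_lit 228) (nat_lit 11111105416) (nat_lit 76) (nat_lit 13255963523) (nat_lit 56) (nat_lit 5) (nat_lit 59) (nat_lit 5) (nat_lit 57) (nat_lit 5) (nat_lit 355) (nat_lit 285) (nat_lit 140)) (XT.lf (nat_lit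 0) (nat_lit 2604626435) (nat_lit 228) (nat_lit 9005077959) (nat_lit 304) (nat_lit 19518379064) (nat_lit 53) (nat_lit 5) (nat_lit 56) (nat_lit 5) (nat_lit 57) (nat_lit 5) (nat_lit 356) (nat_lit 285) (nat_lit 139)))) (XT.nd (nat_lit 156) (nat_lit 228) (nat_lit 0) (XT.nd (nat_lit 78) (nat_lit 0) (nat_lit 0) (XT.lf (nat_lit 0) (nat_lit 16948724514) (nat_lit 228) (nat_lit 431602669) (nat_lit 304) (nat_lit 14415665428) (nat_lit 53) (nat_lit 5) (nat_lit 56) (nat_lit 5) (nat_lit 57) (nat_lit 5) (nat_lit 357) (nat_lit 285) (nat_lit 138)) (XT.lf (nat_lit 0) (nat_lit 23398170035) (nat_lit 304) (nat_lit 852250052) (nat_lit 76) (nat_lit 8231299691) (nat_lit 53) (nat_lit 5) (nat_lit 57) (nat_lit 5) (nat_lit 54) (nat_lit 5) (nat_lit 358) (nat_lit 285) (nat_lit 137))) (XT.nd (nat_lit 78) (nat_lit 76) (nat_lit 0) (XT.lf (nat_lit 0) (nat_lit 13817568507) (nat_lit 152) (nat_lit 15909633464) (nat_lit 228) (nat_lit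 3456900841) (nat_lit 51) (nat_lit 5) (nat_lit 53) (nat_lit 5) (nat_lit 54) (nat_lit 5) (nat_lit 359) (nat_lit 285) (nat_lit 136)) (XT.lf (nat_lit 0) (nat_lit 2295185071) (nat_lit 228) (nat_lit 4995348467) (nat_lit 76) (nat_lit 26616284742) (nat_lit 50) (nat_lit 5) (nat_lit 53) (nat_lit 5) (nat_lit 51) (nat_lit 5) (nat_lit 360) (nat_lit 285) (nat_lit 135))))) (XT.nd (nat_lit 234) (nat_lit 228) (nat_lit 0) (XT.nd (nat_lit 78) (nat_lit 152) (nat_lit 0) (XT.lf (nat_lit 0) (nat_lit 8256337534) (nat_lit 304) (nat_lit 24707104132) (nat_lit 76) (nat_lit 1683570574) (nat_lit 47) (nat_lit 5) (nat_lit 51) (nat_lit 5) (nat_lit 48) (nat_lit 5) (nat_lit 361) (nat_lit 285) (nat_lit 134)) (XT.nd (nat_lit 78) (nat_lit 152) (nat_lit 0) (XT.lf (nat_lit 0) (nat_lit 14513265258) (nat_lit 304) (nat_lit 10065143043) (nat_lit 76) (nat_lit 10827498755) (nat_lit 47) (nat_lit 5) (nat_lit 51) (nat_lit 5) (nat_lit 48) (nat_lit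 5) (nat_lit 362) (nat_lit 285) (nat_lit 133)) (XT.lf (nat_lit 0) (nat_lit 5105822970) (nat_lit 152) (nat_lit 15895152821) (nat_lit 228) (nat_lit 15185303841) (nat_lit 45) (nat_lit 5) (nat_lit 47) (nat_lit 5) (nat_lit 48) (nat_lit 5) (nat_lit 363) (nat_lit 285) (nat_lit 132)))) (XT.nd (nat_lit 156) (nat_lit 228) (nat_lit 0) (XT.nd (nat_lit 78) (nat_lit 0) (nat_lit 0) (XT.lf (nat_lit 0) (nat_lit 20928453556) (nat_lit 152) (nat_lit 6850577783) (nat_lit 228) (nat_lit 9208163709) (nat_lit 45) (nat_lit 5) (nat_lit 47) (nat_lit 5) (nat_lit 48) (nat_lit 5) (nat_lit 364) (nat_lit 285) (nat_lit 131)) (XT.lf (nat_lit 0) (nat_lit 34778338830) (nat_lit 228) (nat_lit 619717467) (nat_lit 76) (nat_lit 2413547305) (nat_lit 45) (nat_lit 5) (nat_lit 48) (nat_lit 5) (nat_lit 46) (nat_lit 5) (nat_lit 365) (nat_lit 285) (nat_lit 130))) (XT.nd (nat_lit 78) (nat_lit 0) (nat_lit 0) (XT.lf (nat_lit 0) (nat_lit 3475330228)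 (nat_lit 228) (nat_lit 23180579393) (nat_lit 76) (nat_lit 11997477146) (nat_lit 42) (nat_lit 5) (nat_lit 45) (nat_lit 5) (nat_lit 43) (nat_lit 5) (nat_lit 366) (nat_lit 285) (nat_lit 129)) (XT.lf (nat_lit 0) (nat_lit 10118934800) (nat_lit 228) (nat_lit 7498904239) (nat_lit 76) (nat_lit 21901664629) (nat_lit 42) (nat_lit 5) (nat_lit 45) (nat_lit 5) (nat_lit 43) (nat_lit 5) (nat_lit 367) (nat_lit 285) (nat_lit 128)))))) (XT.nd (nat_lit 546) (nat_lit 456) (nat_lit 0) (XT.nd (nat_lit 234) (nat_lit 228) (nat_lit 0) (XT.nd (nat_lit 78) (nat_lit 152) (nat_lit 0) (XT.lf (nat_lit 0) (nat_lit 8816143428) (nat_lit 152) (nat_lit 8225010872) (nat_lit 228) (nat_lit 23368073221) (nat_lit 40) (nat_lit 5) (nat_lit 42) (nat_lit 5) (nat_lit 43) (nat_lit 5) (nat_lit 368) (nat_lit 285) (nat_lit 127)) (XT.nd (nat_lit 78) (nat_lit 152) (nat_lit 0) (XT.lf (nat_lit 0) (nat_lit 24256046007) (nat_lit 228) (nat_lit 15572844442)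 (nat_lit 76) (nat_lit 1494205047) (nat_lit 40) (nat_lit 5) (nat_lit 43) (nat_lit 5) (nat_lit 41) (nat_lit 5) (nat_lit 369) (nat_lit 285) (nat_lit 126)) (XT.lf (nat_lit 0) (nat_lit 854353123) (nat_lit 152) (nat_lit 30917434203) (nat_lit 228) (nat_lit 10490062595) (nat_lit 38) (nat_lit 5) (nat_lit 40) (nat_lit 5) (nat_lit 41) (nat_lit 5) (nat_lit 370) (nat_lit 285) (nat_lit 125)))) (XT.nd (nat_lit 156) (nat_lit 152) (nat_lit 0) (XT.nd (nat_lit 78) (nat_lit 76) (nat_lit 0) (XT.lf (nat_lit 0) (nat_lit 18084796738) (nat_lit 152) (nat_lit 21580282098) (nat_lit 228) (nat_lit 3559128231) (nat_lit 38) (nat_lit 5) (nat_lit 40) (nat_lit 5) (nat_lit 41) (nat_lit 5) (nat_lit 371) (nat_lit 285) (nat_lit 124)) (XT.lf (nat_lit 0) (nat_lit 3504802129) (nat_lit 228) (nat_lit 8426336893) (nat_lit 76) (nat_lit 32283418230) (nat_lit 37) (nat_lit 5) (nat_lit 40) (nat_lit 5) (nat_lit 38) (nat_lit 5) (nat_lit 372) (nat_lit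 285) (nat_lit 123))) (XT.nd (nat_lit 78) (nat_lit 0) (nat_lit 0) (XT.lf (nat_lit 0) (nat_lit 8918529247) (nat_lit 152) (nat_lit 1871385950) (nat_lit 228) (nat_lit 34441223804) (nat_lit 35) (nat_lit 5) (nat_lit 37) (nat_lit 5) (nat_lit 38) (nat_lit 5) (nat_lit 373) (nat_lit 285) (nat_lit 122)) (XT.lf (nat_lit 0) (nat_lit 18456226224) (nat_lit 228) (nat_lit 19410073585) (nat_lit 76) (nat_lit 8407041214) (nat_lit 35) (nat_lit 5) (nat_lit 38) (nat_lit 5) (nat_lit 36) (nat_lit 5) (nat_lit 374) (nat_lit 285) (nat_lit 121))))) (XT.nd (nat_lit 234) (nat_lit 304) (nat_lit 0) (XT.nd (nat_lit 78) (nat_lit 152) (nat_lit 0) (XT.lf (nat_lit 0) (nat_lit 26366297879) (nat_lit 228) (nat_lit 2027170488) (nat_lit 76) (nat_lit 18952929691) (nat_lit 35) (nat_lit 5) (nat_lit 38) (nat_lit 5) (nat_lit 36) (nat_lit 5) (nat_lit 375) (nat_lit 285) (nat_lit 120)) (XT.nd (nat_lit 78) (nat_lit 0) (nat_lit 0) (XT.lf (nat_lit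 0) (nat_lit 16185107121) (nat_lit 152) (nat_lit 18479526998) (nat_lit 228) (nat_lit 13782485843) (nat_lit 33) (nat_lit 5) (nat_lit 35) (nat_lit 5) (nat_lit 36) (nat_lit 5) (nat_lit 376) (nat_lit 285) (nat_lit 119)) (XT.lf (nat_lit 0) (nat_lit 34977443617) (nat_lit 152) (nat_lit 8250387489) (nat_lit 228) (nat_lit 6352557070) (nat_lit 33) (nat_lit 5) (nat_lit 35) (nat_lit 5) (nat_lit 36) (nat_lit 5) (nat_lit 377) (nat_lit 285) (nat_lit 118)))) (XT.nd (nat_lit 156) (nat_lit 152) (nat_lit 0) (XT.nd (nat_lit 78) (nat_lit 0) (nat_lit 0) (XT.lf (nat_lit 0) (nat_lit 1327790920) (nat_lit 152) (nat_lit 47132141853) (nat_lit 76) (nat_lit 2285761724) (nat_lit 31) (nat_lit 5) (nat_lit 33) (nat_lit 5) (nat_lit 32) (nat_lit 5) (nat_lit 378) (nat_lit 285) (nat_lit 117)) (XT.lf (nat_lit 0) (nat_lit 9337030317) (nat_lit 152) (nat_lit 29419442688) (nat_lit 76) (nat_lit 13180817076) (nat_lit 31) (nat_lit 5) (nat_lit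 33) (nat_lit 5) (nat_lit 32) (nat_lit 5) (nat_lit 379) (nat_lit 285) (nat_lit 116))) (XT.nd (nat_lit 78) (nat_lit 152) (nat_lit 0) (XT.lf (nat_lit 0) (nat_lit 17582229374) (nat_lit 152) (nat_lit 11182890418) (nat_lit 76) (nat_lit 24399645020) (nat_lit 31) (nat_lit 5) (nat_lit 33) (nat_lit 5) (nat_lit 32) (nat_lit 5) (nat_lit 380) (nat_lit 285) (nat_lit 115)) (XT.lf (nat_lit 0) (nat_lit 7744574348) (nat_lit 152) (nat_lit 18400463872) (nat_lit 228) (nat_lit 28281919651) (nat_lit 29) (nat_lit 5) (nat_lit 31) (nat_lit 5) (nat_lit 32) (nat_lit 5) (nat_lit 381) (nat_lit 285) (nat_lit 114))))))))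
noncomputable def xc167 : XT := (XT.nd (nat_lit 33540) (nat_lit 0) (nat_lit 9044) (XT.nd (nat_lit 1092) (nat_lit 380) (nat_lit 0) (XT.nd (nat_lit 546) (nat_lit 304) (nat_lit 0) (XT.nd (nat_lit 234) (nat_lit 228) (nat_lit 0) (XT.nd (nat_lit 78) (nat_lit 76) (nat_lit 0) (XT.lf (nat_lit 0) (nat_lit 27461864390) (nat_lit 152) (nat_lit 7611652962) (nat_lit 228) (nat_lit 20650237441) (nat_lit 29) (nat_lit 5) (nat_lit 31) (nat_lit 5) (nat_lit 32) (nat_lit 5) (nat_lit 382) (nat_lit 285) (nat_lit 113)) (XT.nd (nat_lit 78) (nat_lit 76) (nat_lit 0) (XT.lf (nat_lit 0) (nat_lit 44299455309) (nat_lit 228) (nat_lit 9329553962) (nat_lit 76) (nat_lit 3429559821) (nat_lit 29) (nat_lit 5) (nat_lit 32) (nat_lit 5) (nat_lit 30) (nat_lit 4) (nat_lit 383) (nat_lit 285) (nat_lit 112)) (XT.lf (nat_lit 0) (nat_lit 10289258091) (nat_lit 76) (nat_lit 43683253154) (nat_lit 152) (nat_lit 4455807937) (nat_lit 28) (nat_lit 5)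 (nat_lit 29) (nat_lit 5) (nat_lit 30) (nat_lit 4) (nat_lit 384) (nat_lit 285) (nat_lit 111)))) (XT.nd (nat_lit 156) (nat_lit 152) (nat_lit 0) (XT.nd (nat_lit 78) (nat_lit 0) (nat_lit 0) (XT.lf (nat_lit 0) (nat_lit 4107879749) (nat_lit 152) (nat_lit 29195689827) (nat_lit 76) (nat_lit 26531675635) (nat_lit 27) (nat_lit 5) (nat_lit 29) (nat_lit 5) (nat_lit 28) (nat_lit 5) (nat_lit 385) (nat_lit 285) (nat_lit 110)) (XT.lf (nat_lit 0) (nat_lit 12835113996) (nat_lit 152) (nat_lit 9734856473) (nat_lit 76) (nat_lit 38713200673) (nat_lit 27) (nat_lit 5) (nat_lit 29) (nat_lit 5) (nat_lit 28) (nat_lit 5) (nat_lit 386) (nat_lit 285) (nat_lit 109))) (XT.nd (nat_lit 78) (nat_lit 0) (nat_lit 0) (XT.lf (nat_lit 0) (nat_lit 10508330919) (nat_lit 152) (nat_lit 11413150989) (nat_lit 228) (nat_lit 40850134826) (nat_lit 25) (nat_lit 5) (nat_lit 27) (nat_lit 5) (nat_lit 28) (nat_lit 5) (nat_lit 387) (nat_lit 285) (nat_lit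 108)) (XT.lf (nat_lit 0) (nat_lit 31376793116) (nat_lit 228) (nat_lit 32751670510) (nat_lit 76) (nat_lit 173362843) (nat_lit 25) (nat_lit 5) (nat_lit 28) (nat_lit 5) (nat_lit 26) (nat_lit 4) (nat_lit 388) (nat_lit 285) (nat_lit 107))))) (XT.nd (nat_lit 234) (nat_lit 228) (nat_lit 0) (XT.nd (nat_lit 78) (nat_lit 76) (nat_lit 0) (XT.lf (nat_lit 0) (nat_lit 41225194891) (nat_lit 228) (nat_lit 12774063761) (nat_lit 76) (nat_lit 11875402212) (nat_lit 25) (nat_lit 5) (nat_lit 28) (nat_lit 5) (nat_lit 26) (nat_lit 4) (nat_lit 389) (nat_lit 285) (nat_lit 106)) (XT.nd (nat_lit 78) (nat_lit 0) (nat_lit 0) (XT.lf (nat_lit 0) (nat_lit 7951870415) (nat_lit 76) (nat_lit 43490150270) (nat_lit 152) (nat_lit 16050471711) (nat_lit 24) (nat_lit 5) (nat_lit 25) (nat_lit 5) (nat_lit 26) (nat_lit 4) (nat_lit 390) (nat_lit 285) (nat_lit 105)) (XT.lf (nat_lit 0) (nat_lit 29555328486) (nat_lit 76) (nat_lit 32535591716)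 (nat_lit 152) (nat_lit 7064172833) (nat_lit 24) (nat_lit 5) (nat_lit 25) (nat_lit 5) (nat_lit 26) (nat_lit 4) (nat_lit 391) (nat_lit 285) (nat_lit 104)))) (XT.nd (nat_lit 156) (nat_lit 0) (nat_lit 0) (XT.nd (nat_lit 78) (nat_lit 152) (nat_lit 0) (XT.lf (nat_lit 0) (nat_lit 2145588354) (nat_lit 152) (nat_lit 19087749452) (nat_lit 76) (nat_lit 49633703755) (nat_lit 23) (nat_lit 5) (nat_lit 25) (nat_lit 5) (nat_lit 24) (nat_lit 5) (nat_lit 392) (nat_lit 285) (nat_lit 103)) (XT.lf (nat_lit 0) (nat_lit 2002943231) (nat_lit 152) (nat_lit 9502709196) (nat_lit 228) (nat_lit 61122119183) (nat_lit 21) (nat_lit 5) (nat_lit 23) (nat_lit 5) (nat_lit 24) (nat_lit 5) (nat_lit 393) (nat_lit 285) (nat_lit 102))) (XT.nd (nat_lit 78) (nat_lit 0) (nat_lit 0) (XT.lf (nat_lit 0) (nat_lit 21362729109) (nat_lit 228) (nat_lit 50350452965) (nat_lit 76) (nat_lit 2721656259) (nat_lit 21) (nat_lit 5) (nat_lit 24) (nat_lit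 5) (nat_lit 22) (nat_lit 4) (nat_lit 394) (nat_lit 285) (nat_lit 101)) (XT.lf (nat_lit 0) (nat_lit 31606453303) (nat_lit 228) (nat_lit 29567603708) (nat_lit 76) (nat_lit 15119333049) (nat_lit 21) (nat_lit 5) (nat_lit 24) (nat_lit 5) (nat_lit 22) (nat_lit 4) (nat_lit 395) (nat_lit 285) (nat_lit 100)))))) (XT.nd (nat_lit 546) (nat_lit 76) (nat_lit 0) (XT.nd (nat_lit 234) (nat_lit 228) (nat_lit 0) (XT.nd (nat_lit 78) (nat_lit 76) (nat_lit 0) (XT.lf (nat_lit 0) (nat_lit 42154429984) (nat_lit 228) (nat_lit 8166774985) (nat_lit 76) (nat_lit 27886586177) (nat_lit 21) (nat_lit 5) (nat_lit 24) (nat_lit 5) (nat_lit 22) (nat_lit 4) (nat_lit 396) (nat_lit 285) (nat_lit 99)) (XT.nd (nat_lit 78) (nat_lit 0) (nat_lit 0) (XT.lf (nat_lit 0) (nat_lit 14146787740) (nat_lit 76) (nat_lit 39005075669) (nat_lit 152) (nat_lit 27023771332) (nat_lit 20) (nat_lit 5) (nat_lit 21) (nat_lit 5) (nat_lit 22) (nat_lit 4) (nat_lit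 397) (nat_lit 285) (nat_lit 98)) (XT.lf (nat_lit 0) (nat_lit 37291874994) (nat_lit 76) (nat_lit 27266878748) (nat_lit 152) (nat_lit 17641374854) (nat_lit 20) (nat_lit 5) (nat_lit 21) (nat_lit 5) (nat_lit 22) (nat_lit 4) (nat_lit 398) (nat_lit 285) (nat_lit 97)))) (XT.nd (nat_lit 156) (nat_lit 152) (nat_lit 0) (XT.nd (nat_lit 78) (nat_lit 76) (nat_lit 0) (XT.lf (nat_lit 0) (nat_lit 61126175805) (nat_lit 76) (nat_lit 15178825944) (nat_lit 152) (nat_lit 7980441931) (nat_lit 20) (nat_lit 5) (nat_lit 21) (nat_lit 5) (nat_lit 22) (nat_lit 4) (nat_lit 399) (nat_lit 285) (nat_lit 96)) (XT.lf (nat_lit 0) (nat_lit 1929076620) (nat_lit 152) (nat_lit 781798369) (nat_lit 76) (nat_lit 83721959748) (nat_lit 19) (nat_lit 5) (nat_lit 21) (nat_lit 5) (nat_lit 20) (nat_lit 5) (nat_lit 400) (nat_lit 285) (nat_lit 95))) (XT.nd (nat_lit 78) (nat_lit 0) (nat_lit 0) (XT.lf (nat_lit 0) (nat_lit 12290551050) (nat_lit 228)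 (nat_lit 66111567109) (nat_lit 76) (nat_lit 10230707722) (nat_lit 17) (nat_lit 5) (nat_lit 20) (nat_lit 5) (nat_lit 18) (nat_lit 4) (nat_lit 401) (nat_lit 285) (nat_lit 94)) (XT.lf (nat_lit 0) (nat_lit 22994981430) (nat_lit 228) (nat_lit 44390975979) (nat_lit 76) (nat_lit 23511896835) (nat_lit 17) (nat_lit 5) (nat_lit 20) (nat_lit 5) (nat_lit 18) (nat_lit 4) (nat_lit 402) (nat_lit 285) (nat_lit 93))))) (XT.nd (nat_lit 31590) (nat_lit 0) (nat_lit 15884) (XT.nd (nat_lit 78) (nat_lit 76) (nat_lit 0) (XT.lf (nat_lit 0) (nat_lit 34017921979) (nat_lit 228) (nat_lit 22023535344) (nat_lit 76) (nat_lit 37189455629) (nat_lit 17) (nat_lit 5) (nat_lit 20) (nat_lit 5) (nat_lit 18) (nat_lit 4) (nat_lit 403) (nat_lit 285) (nat_lit 92)) (XT.nd (nat_lit 31434) (nat_lit 0) (nat_lit 15884) (XT.lf (nat_lit 0) (nat_lit 1030406094) (nat_lit 76) (nat_lit 44348503194) (nat_lit 152) (nat_lit 50254834168) (nat_lit 16) (nat_lit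 5) (nat_lit 17) (nat_lit 5) (nat_lit 18) (nat_lit 4) (nat_lit 404) (nat_lit 285) (nat_lit 91)) (XT.lf (nat_lit 0) (nat_lit 1368265737) (nat_lit 0) (nat_lit 1368265737) (nat_lit 988) (nat_lit 1951410814) (nat_lit 225) (nat_lit 5) (nat_lit 225) (nat_lit 3) (nat_lit 238) (nat_lit 3) (nat_lit 286) (nat_lit 286) (nat_lit 208)))) (XT.nd (nat_lit 156) (nat_lit 0) (nat_lit 0) (XT.nd (nat_lit 78) (nat_lit 0) (nat_lit 0) (XT.lf (nat_lit 0) (nat_lit 6340255722) (nat_lit 988) (nat_lit 2360851717) (nat_lit 1064) (nat_lit 790862177) (nat_lit 225) (nat_lit 5) (nat_lit 238) (nat_lit 3) (nat_lit 239) (nat_lit 5) (nat_lit 287) (nat_lit 286) (nat_lit 207)) (XT.lf (nat_lit 76) (nat_lit 2042503190) (nat_lit 0) (nat_lit 5207497524) (nat_lit 1064) (nat_lit 2361079436) (nat_lit 226) (nat_lit 5) (nat_lit 225) (nat_lit 5) (nat_lit 239) (nat_lit 5) (nat_lit 288) (nat_lit 286) (nat_lit 206))) (XT.nd (nat_lit 78) (nat_lit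 0) (nat_lit 76) (XT.lf (nat_lit 76) (nat_lit 6610249593) (nat_lit 0) (nat_lit 1571161279) (nat_lit 1064) (nat_lit 1552559846) (nat_lit 226) (nat_lit 5) (nat_lit 225) (nat_lit 5) (nat_lit 239) (nat_lit 5) (nat_lit 289) (nat_lit 286) (nat_lit 205)) (XT.lf (nat_lit 76) (nat_lit 1445124589) (nat_lit 0) (nat_lit 7701946355) (nat_lit 1064) (nat_lit 713324631) (nat_lit 227) (nat_lit 5) (nat_lit 226) (nat_lit 5) (nat_lit 240) (nat_lit 5) (nat_lit 290) (nat_lit 286) (nat_lit 204))))))) (XT.nd (nat_lit 1092) (nat_lit 5016) (nat_lit 0) (XT.nd (nat_lit 546) (nat_lit 836) (nat_lit 0) (XT.nd (nat_lit 234) (nat_lit 0) (nat_lit 76) (XT.nd (nat_lit 78) (nat_lit 0) (nat_lit 0) (XT.lf (nat_lit 0) (nat_lit 167427719) (nat_lit 1064) (nat_lit 3809004819) (nat_lit 1140) (nat_lit 6013593105) (nat_lit 212) (nat_lit 5) (nat_lit 226) (nat_lit 5) (nat_lit 227) (nat_lit 5) (nat_lit 291) (nat_lit 286) (nat_lit 203)) (XT.nd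 (nat_lit 78) (nat_lit 0) (nat_lit 76) (XT.lf (nat_lit 76) (nat_lit 929944811) (nat_lit 0) (nat_lit 111955561) (nat_lit 1140) (nat_lit 9082016993) (nat_lit 213) (nat_lit 5) (nat_lit 212) (nat_lit 5) (nat_lit 227) (nat_lit 5) (nat_lit 292) (nat_lit 286) (nat_lit 202)) (XT.lf (nat_lit 0) (nat_lit 1992068947) (nat_lit 1064) (nat_lit 4426451922) (nat_lit 1140) (nat_lit 3841853813) (nat_lit 213) (nat_lit 5) (nat_lit 227) (nat_lit 5) (nat_lit 228) (nat_lit 5) (nat_lit 293) (nat_lit 286) (nat_lit 201)))) (XT.nd (nat_lit 156) (nat_lit 0) (nat_lit 76) (XT.nd (nat_lit 78) (nat_lit 0) (nat_lit 76) (XT.lf (nat_lit 76) (nat_lit 475411398) (nat_lit 0) (nat_lit 2475214910) (nat_lit 1140) (nat_lit 7450934641) (nat_lit 214) (nat_lit 5) (nat_lit 213) (nat_lit 5) (nat_lit 228) (nat_lit 5) (nat_lit 294) (nat_lit 286) (nat_lit 200)) (XT.lf (nat_lit 0) (nat_lit 3973208882) (nat_lit 1064) (nat_lit 4963820266) (nat_lit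 1140) (nat_lit 1608926421) (nat_lit 214) (nat_lit 5) (nat_lit 228) (nat_lit 5) (nat_lit 229) (nat_lit 5) (nat_lit 295) (nat_lit 286) (nat_lit 199))) (XT.nd (nat_lit 78) (nat_lit 0) (nat_lit 0) (XT.lf (nat_lit 76) (nat_lit 107934272) (nat_lit 0) (nat_lit 4919689068) (nat_lit 1140) (nat_lit 5667053977) (nat_lit 215) (nat_lit 5) (nat_lit 214) (nat_lit 5) (nat_lit 229) (nat_lit 5) (nat_lit 296) (nat_lit 286) (nat_lit 198)) (XT.lf (nat_lit 76) (nat_lit 5416718257) (nat_lit 0) (nat_lit 723234790) (nat_lit 1140) (nat_lit 4707148234) (nat_lit 215) (nat_lit 5) (nat_lit 214) (nat_lit 5) (nat_lit 229) (nat_lit 5) (nat_lit 297) (nat_lit 286) (nat_lit 197))))) (XT.nd (nat_lit 234) (nat_lit 1064) (nat_lit 0) (XT.nd (nat_lit 78) (nat_lit 0) (nat_lit 0) (XT.lf (nat_lit 0) (nat_lit 7297166921) (nat_lit 1064) (nat_lit 171101802) (nat_lit 1140) (nat_lit 3535512016) (nat_lit 215) (nat_lit 5) (nat_lit 229) (nat_lit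 5) (nat_lit 230) (nat_lit 5) (nat_lit 298) (nat_lit 286) (nat_lit 196)) (XT.nd (nat_lit 78) (nat_lit 0) (nat_lit 76) (XT.lf (nat_lit 76) (nat_lit 5326055087) (nat_lit 0) (nat_lit 3198989870) (nat_lit 1140) (nat_lit 2639064573) (nat_lit 216) (nat_lit 5) (nat_lit 215) (nat_lit 5) (nat_lit 230) (nat_lit 5) (nat_lit 299) (nat_lit 286) (nat_lit 195)) (XT.lf (nat_lit 0) (nat_lit 9781159390) (nat_lit 1064) (nat_lit 366343936) (nat_lit 1140) (nat_lit 1182029442) (nat_lit 216) (nat_lit 5) (nat_lit 230) (nat_lit 5) (nat_lit 231) (nat_lit 5) (nat_lit 300) (nat_lit 286) (nat_lit 194)))) (XT.nd (nat_lit 156) (nat_lit 0) (nat_lit 76) (XT.nd (nat_lit 78) (nat_lit 1140) (nat_lit 0) (XT.lf (nat_lit 76) (nat_lit 5325012030) (nat_lit 0) (nat_lit 5811578204) (nat_lit 1140) (nat_lit 361505288) (nat_lit 217) (nat_lit 5) (nat_lit 216) (nat_lit 5) (nat_lit 231) (nat_lit 5) (nat_lit 301) (nat_lit 286) (nat_lit 193)) (XT.lf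 (nat_lit 0) (nat_lit 826905474) (nat_lit 1140) (nat_lit 502319553) (nat_lit 1216) (nat_lit 10342784061) (nat_lit 201) (nat_lit 5) (nat_lit 216) (nat_lit 5) (nat_lit 217) (nat_lit 5) (nat_lit 302) (nat_lit 286) (nat_lit 192))) (XT.nd (nat_lit 78) (nat_lit 0) (nat_lit 0) (XT.lf (nat_lit 0) (nat_lit 2107648547) (nat_lit 1140) (nat_lit 6457984203) (nat_lit 76) (nat_lit 3283505175) (nat_lit 202) (nat_lit 5) (nat_lit 217) (nat_lit 5) (nat_lit 203) (nat_lit 5) (nat_lit 303) (nat_lit 286) (nat_lit 191)) (XT.lf (nat_lit 0) (nat_lit 3425181078) (nat_lit 1140) (nat_lit 589930186) (nat_lit 76) (nat_lit 8016541280) (nat_lit 202) (nat_lit 5) (nat_lit 217) (nat_lit 5) (nat_lit 203) (nat_lit 5) (nat_lit 304) (nat_lit 286) (nat_lit 190)))))) (XT.nd (nat_lit 546) (nat_lit 2052) (nat_lit 0) (XT.nd (nat_lit 234) (nat_lit 1216) (nat_lit 0) (XT.nd (nat_lit 78) (nat_lit 684) (nat_lit 0) (XT.lf (nat_lit 0) (nat_lit 4823227564)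 (nat_lit 1216) (nat_lit 6679797693) (nat_lit 76) (nat_lit 715409969) (nat_lit 187) (nat_lit 5) (nat_lit 203) (nat_lit 5) (nat_lit 188) (nat_lit 5) (nat_lit 305) (nat_lit 286) (nat_lit 189)) (XT.nd (nat_lit 78) (nat_lit 684) (nat_lit 0) (XT.lf (nat_lit 0) (nat_lit 6290079683) (nat_lit 1216) (nat_lit 604275594) (nat_lit 76) (nat_lit 5515681801) (nat_lit 187) (nat_lit 5) (nat_lit 203) (nat_lit 5) (nat_lit 188) (nat_lit 5) (nat_lit 306) (nat_lit 286) (nat_lit 188)) (XT.lf (nat_lit 0) (nat_lit 5749218936) (nat_lit 684) (nat_lit 2088628624) (nat_lit 760) (nat_lit 4768453105) (nat_lit 178) (nat_lit 5) (nat_lit 187) (nat_lit 5) (nat_lit 188) (nat_lit 5) (nat_lit 307) (nat_lit 286) (nat_lit 187)))) (XT.nd (nat_lit 156) (nat_lit 608) (nat_lit 0) (XT.nd (nat_lit 78) (nat_lit 608) (nat_lit 0) (XT.lf (nat_lit 0) (nat_lit 9447754015) (nat_lit 760) (nat_lit 547023670) (nat_lit 76) (nat_lit 2813223682) (nat_lit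 178) (nat_lit 5) (nat_lit 188) (nat_lit 5) (nat_lit 179) (nat_lit 5) (nat_lit 308) (nat_lit 286) (nat_lit 186)) (XT.lf (nat_lit 0) (nat_lit 6032978636) (nat_lit 608) (nat_lit 5134213190) (nat_lit 684) (nat_lit 1846744021) (nat_lit 170) (nat_lit 5) (nat_lit 178) (nat_lit 5) (nat_lit 179) (nat_lit 5) (nat_lit 309) (nat_lit 286) (nat_lit 185))) (XT.nd (nat_lit 78) (nat_lit 608) (nat_lit 0) (XT.lf (nat_lit 0) (nat_lit 12805352132) (nat_lit 608) (nat_lit 121298270) (nat_lit 684) (nat_lit 299764037) (nat_lit 170) (nat_lit 5) (nat_lit 178) (nat_lit 5) (nat_lit 179) (nat_lit 5) (nat_lit 310) (nat_lit 286) (nat_lit 184)) (XT.lf (nat_lit 0) (nat_lit 1362653417) (nat_lit 608) (nat_lit 7060172646) (nat_lit 76) (nat_lit 5019258233) (nat_lit 162) (nat_lit 5) (nat_lit 170) (nat_lit 5) (nat_lit 163) (nat_lit 5) (nat_lit 311) (nat_lit 286) (nat_lit 183))))) (XT.nd (nat_lit 234) (nat_lit 1520) (nat_lit 0) (XT.nd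 (nat_lit 78) (nat_lit 532) (nat_lit 0) (XT.lf (nat_lit 0) (nat_lit 3057981882) (nat_lit 608) (nat_lit 287179819) (nat_lit 76) (nat_lit 10319319180) (nat_lit 162) (nat_lit 5) (nat_lit 170) (nat_lit 5) (nat_lit 163) (nat_lit 5) (nat_lit 312) (nat_lit 286) (nat_lit 182)) (XT.nd (nat_lit 78) (nat_lit 0) (nat_lit 0) (XT.lf (nat_lit 0) (nat_lit 4872404342) (nat_lit 608) (nat_lit 7105037505) (nat_lit 76) (nat_lit 1914077556) (nat_lit 155) (nat_lit 5) (nat_lit 163) (nat_lit 5) (nat_lit 156) (nat_lit 5) (nat_lit 313) (nat_lit 286) (nat_lit 181)) (XT.lf (nat_lit 0) (nat_lit 6761666056) (nat_lit 608) (nat_lit 96516178) (nat_lit 76) (nat_lit 7266591218) (nat_lit 155) (nat_lit 5) (nat_lit 163) (nat_lit 5) (nat_lit 156) (nat_lit 5) (nat_lit 314) (nat_lit 286) (nat_lit 180)))) (XT.nd (nat_lit 156) (nat_lit 532) (nat_lit 0) (XT.nd (nat_lit 78) (nat_lit 532) (nat_lit 0) (XT.lf (nat_lit 0) (nat_lit 7247842453) (nat_lit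 456) (nat_lit 1514246969) (nat_lit 532) (nat_lit 5601317267) (nat_lit 149) (nat_lit 5) (nat_lit 155) (nat_lit 5) (nat_lit 156) (nat_lit 5) (nat_lit 315) (nat_lit 286) (nat_lit 179)) (XT.lf (nat_lit 0) (nat_lit 153829119) (nat_lit 532) (nat_lit 10694610627) (nat_lit 608) (nat_lit 3759997368) (nat_lit 142) (nat_lit 5) (nat_lit 149) (nat_lit 5) (nat_lit 150) (nat_lit 5) (nat_lit 316) (nat_lit 286) (nat_lit 178))) (XT.nd (nat_lit 78) (nat_lit 532) (nat_lit 0) (XT.lf (nat_lit 0) (nat_lit 7755884514) (nat_lit 532) (nat_lit 5313572125) (nat_lit 608) (nat_lit 1789214690) (nat_lit 142) (nat_lit 5) (nat_lit 149) (nat_lit 5) (nat_lit 150) (nat_lit 5) (nat_lit 317) (nat_lit 286) (nat_lit 177)) (XT.lf (nat_lit 0) (nat_lit 228321729) (nat_lit 532) (nat_lit 14658473119) (nat_lit 76) (nat_lit 229792792) (nat_lit 135) (nat_lit 5) (nat_lit 142) (nat_lit 5) (nat_lit 136) (nat_lit 5) (nat_lit 318) (nat_lit 286) (nat_lit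 176))))))))
noncomputable def xc168 : XT := (XT.nd (nat_lit 2106) (nat_lit 2660) (nat_lit 0) (XT.nd (nat_lit 1014) (nat_lit 2356) (nat_lit 0) (XT.nd (nat_lit 468) (nat_lit 1140) (nat_lit 0) (XT.nd (nat_lit 234) (nat_lit 836) (nat_lit 0) (XT.nd (nat_lit 78) (nat_lit 456) (nat_lit 0) (XT.lf (nat_lit 0) (nat_lit 2381367093) (nat_lit 532) (nat_lit 7075772523) (nat_lit 76) (nat_lit 5921255920) (nat_lit 135) (nat_lit 5) (nat_lit 142) (nat_lit 5) (nat_lit 136) (nat_lit 5) (nat_lit 319) (nat_lit 286) (nat_lit 175)) (XT.nd (nat_lit 78) (nat_lit 0) (nat_lit 0) (XT.lf (nat_lit 0) (nat_lit 733091915) (nat_lit 456) (nat_lit 3859269811) (nat_lit 532) (nat_lit 11055908675) (nat_lit 129) (nat_lit 5) (nat_lit 135) (nat_lit 5) (nat_lit 136) (nat_lit 5) (nat_lit 320) (nat_lit 286) (nat_lit 174)) (XT.lf (nat_lit 0) (nat_lit 6946713334) (nat_lit 532) (nat_lit 7037729523) (nat_lit 76) (nat_lit 1939500920) (nat_lit 129)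 (nat_lit 5) (nat_lit 136) (nat_lit 5) (nat_lit 130) (nat_lit 5) (nat_lit 321) (nat_lit 286) (nat_lit 173)))) (XT.nd (nat_lit 78) (nat_lit 456) (nat_lit 0) (XT.lf (nat_lit 0) (nat_lit 1042776755) (nat_lit 380) (nat_lit 8364086604) (nat_lit 456) (nat_lit 6799981655) (nat_lit 124) (nat_lit 5) (nat_lit 129) (nat_lit 5) (nat_lit 130) (nat_lit 5) (nat_lit 322) (nat_lit 286) (nat_lit 172)) (XT.nd (nat_lit 78) (nat_lit 456) (nat_lit 0) (XT.lf (nat_lit 0) (nat_lit 9494711905) (nat_lit 380) (nat_lit 2504340677) (nat_lit 456) (nat_lit 4497445993) (nat_lit 124) (nat_lit 5) (nat_lit 129) (nat_lit 5) (nat_lit 130) (nat_lit 5) (nat_lit 323) (nat_lit 286) (nat_lit 171)) (XT.lf (nat_lit 0) (nat_lit 1383239560) (nat_lit 456) (nat_lit 13320527104) (nat_lit 532) (nat_lit 2090044271) (nat_lit 118) (nat_lit 5) (nat_lit 124) (nat_lit 5) (nat_lit 125) (nat_lit 5) (nat_lit 324) (nat_lit 286) (nat_lit 170))))) (XT.nd (nat_lit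 234) (nat_lit 684) (nat_lit 0) (XT.nd (nat_lit 78) (nat_lit 380) (nat_lit 0) (XT.lf (nat_lit 0) (nat_lit 465782142) (nat_lit 532) (nat_lit 6979096551) (nat_lit 76) (nat_lit 9652548764) (nat_lit 117) (nat_lit 5) (nat_lit 124) (nat_lit 5) (nat_lit 118) (nat_lit 5) (nat_lit 325) (nat_lit 286) (nat_lit 169)) (XT.nd (nat_lit 78) (nat_lit 0) (nat_lit 0) (XT.lf (nat_lit 0) (nat_lit 1703025259) (nat_lit 380) (nat_lit 1357586740) (nat_lit 456) (nat_lit 14348800531) (nat_lit 112) (nat_lit 5) (nat_lit 117) (nat_lit 5) (nat_lit 118) (nat_lit 5) (nat_lit 326) (nat_lit 286) (nat_lit 168)) (XT.lf (nat_lit 0) (nat_lit 5839827676) (nat_lit 456) (nat_lit 7002913860) (nat_lit 76) (nat_lit 4884830023) (nat_lit 112) (nat_lit 5) (nat_lit 118) (nat_lit 5) (nat_lit 113) (nat_lit 5) (nat_lit 327) (nat_lit 286) (nat_lit 167)))) (XT.nd (nat_lit 156) (nat_lit 304) (nat_lit 0) (XT.nd (nat_lit 78) (nat_lit 0) (nat_lit 0) (XT.lf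 (nat_lit 0) (nat_lit 1972114794) (nat_lit 380) (nat_lit 6751196565) (nat_lit 456) (nat_lit 9331347579) (nat_lit 107) (nat_lit 5) (nat_lit 112) (nat_lit 5) (nat_lit 113) (nat_lit 5) (nat_lit 328) (nat_lit 286) (nat_lit 166)) (XT.lf (nat_lit 0) (nat_lit 11345499653) (nat_lit 380) (nat_lit 407204787) (nat_lit 456) (nat_lit 6637082374) (nat_lit 107) (nat_lit 5) (nat_lit 112) (nat_lit 5) (nat_lit 113) (nat_lit 5) (nat_lit 329) (nat_lit 286) (nat_lit 165))) (XT.nd (nat_lit 78) (nat_lit 0) (nat_lit 0) (XT.lf (nat_lit 0) (nat_lit 2235506189) (nat_lit 304) (nat_lit 12706849031) (nat_lit 380) (nat_lit 3790541759) (nat_lit 103) (nat_lit 5) (nat_lit 107) (nat_lit 5) (nat_lit 108) (nat_lit 5) (nat_lit 330) (nat_lit 286) (nat_lit 164)) (XT.lf (nat_lit 0) (nat_lit 11919786286) (nat_lit 304) (nat_lit 6372208522) (nat_lit 380) (nat_lit 792386111) (nat_lit 103) (nat_lit 5) (nat_lit 107) (nat_lit 5) (nat_lit 108)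 (nat_lit 5) (nat_lit 331) (nat_lit 286) (nat_lit 163)))))) (XT.nd (nat_lit 546) (nat_lit 912) (nat_lit 0) (XT.nd (nat_lit 234) (nat_lit 684) (nat_lit 0) (XT.nd (nat_lit 78) (nat_lit 304) (nat_lit 0) (XT.lf (nat_lit 0) (nat_lit 2265826399) (nat_lit 456) (nat_lit 16987130854) (nat_lit 76) (nat_lit 192351700) (nat_lit 97) (nat_lit 5) (nat_lit 103) (nat_lit 5) (nat_lit 98) (nat_lit 5) (nat_lit 332) (nat_lit 286) (nat_lit 162)) (XT.nd (nat_lit 78) (nat_lit 304) (nat_lit 0) (XT.lf (nat_lit 0) (nat_lit 5525534125) (nat_lit 456) (nat_lit 7384200981) (nat_lit 76) (nat_lit 6903332756) (nat_lit 97) (nat_lit 5) (nat_lit 103) (nat_lit 5) (nat_lit 98) (nat_lit 5) (nat_lit 333) (nat_lit 286) (nat_lit 161)) (XT.lf (nat_lit 0) (nat_lit 2542691248) (nat_lit 304) (nat_lit 6354608170) (nat_lit 380) (nat_lit 11294140523) (nat_lit 93) (nat_lit 5) (nat_lit 97) (nat_lit 5) (nat_lit 98) (nat_lit 5) (nat_lit 334) (nat_lit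 286) (nat_lit 160)))) (XT.nd (nat_lit 156) (nat_lit 380) (nat_lit 0) (XT.nd (nat_lit 78) (nat_lit 304) (nat_lit 0) (XT.lf (nat_lit 0) (nat_lit 12439295179) (nat_lit 380) (nat_lit 7678604961) (nat_lit 76) (nat_lit 461198867) (nat_lit 93) (nat_lit 5) (nat_lit 98) (nat_lit 5) (nat_lit 94) (nat_lit 5) (nat_lit 335) (nat_lit 286) (nat_lit 159)) (XT.lf (nat_lit 0) (nat_lit 2564287234) (nat_lit 304) (nat_lit 13601077965) (nat_lit 380) (nat_lit 4810696127) (nat_lit 89) (nat_lit 5) (nat_lit 93) (nat_lit 5) (nat_lit 94) (nat_lit 5) (nat_lit 336) (nat_lit 286) (nat_lit 158))) (XT.nd (nat_lit 78) (nat_lit 380) (nat_lit 0) (XT.lf (nat_lit 0) (nat_lit 13258524785) (nat_lit 304) (nat_lit 6812635122) (nat_lit 380) (nat_lit 1311742012) (nat_lit 89) (nat_lit 5) (nat_lit 93) (nat_lit 5) (nat_lit 94) (nat_lit 5) (nat_lit 337) (nat_lit 286) (nat_lit 157)) (XT.lf (nat_lit 0) (nat_lit 2264066378) (nat_lit 380) (nat_lit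 19318056764) (nat_lit 76) (nat_lit 218672382) (nat_lit 84) (nat_lit 5) (nat_lit 89) (nat_lit 5) (nat_lit 85) (nat_lit 5) (nat_lit 338) (nat_lit 286) (nat_lit 156))))) (XT.nd (nat_lit 234) (nat_lit 608) (nat_lit 0) (XT.nd (nat_lit 78) (nat_lit 304) (nat_lit 0) (XT.lf (nat_lit 0) (nat_lit 6061785362) (nat_lit 380) (nat_lit 8748677736) (nat_lit 76) (nat_lit 7416150210) (nat_lit 84) (nat_lit 5) (nat_lit 89) (nat_lit 5) (nat_lit 85) (nat_lit 5) (nat_lit 339) (nat_lit 286) (nat_lit 155)) (XT.nd (nat_lit 78) (nat_lit 0) (nat_lit 0) (XT.lf (nat_lit 0) (nat_lit 2167187590) (nat_lit 304) (nat_lit 7818048295) (nat_lit 380) (nat_lit 12679622569) (nat_lit 80) (nat_lit 5) (nat_lit 84) (nat_lit 5) (nat_lit 85) (nat_lit 5) (nat_lit 340) (nat_lit 286) (nat_lit 154)) (XT.lf (nat_lit 0) (nat_lit 13577109806) (nat_lit 304) (nat_lit 528732682) (nat_lit 380) (nat_lit 9008031514) (nat_lit 80) (nat_lit 5) (nat_lit 84)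 (nat_lit 5) (nat_lit 85) (nat_lit 5) (nat_lit 341) (nat_lit 286) (nat_lit 153)))) (XT.nd (nat_lit 156) (nat_lit 380) (nat_lit 0) (XT.nd (nat_lit 78) (nat_lit 0) (nat_lit 0) (XT.lf (nat_lit 0) (nat_lit 1706565857) (nat_lit 228) (nat_lit 16718325905) (nat_lit 304) (nat_lit 5149229955) (nat_lit 77) (nat_lit 5) (nat_lit 80) (nat_lit 5) (nat_lit 81) (nat_lit 5) (nat_lit 342) (nat_lit 286) (nat_lit 152)) (XT.lf (nat_lit 0) (nat_lit 13464858533) (nat_lit 228) (nat_lit 9501603642) (nat_lit 304) (nat_lit 1078932444) (nat_lit 77) (nat_lit 5) (nat_lit 80) (nat_lit 5) (nat_lit 81) (nat_lit 5) (nat_lit 343) (nat_lit 286) (nat_lit 151))) (XT.nd (nat_lit 78) (nat_lit 0) (nat_lit 0) (XT.lf (nat_lit 0) (nat_lit 1022823472) (nat_lit 304) (nat_lit 2031351454) (nat_lit 380) (nat_lit 21475695130) (nat_lit 72) (nat_lit 5) (nat_lit 76) (nat_lit 5) (nat_lit 77) (nat_lit 5) (nat_lit 344) (nat_lit 286) (nat_lit 150)) (XT.lf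 (nat_lit 0) (nat_lit 7443639966) (nat_lit 380) (nat_lit 11913072649) (nat_lit 76) (nat_lit 5667230884) (nat_lit 72) (nat_lit 5) (nat_lit 77) (nat_lit 5) (nat_lit 73) (nat_lit 5) (nat_lit 345) (nat_lit 286) (nat_lit 149))))))) (XT.nd (nat_lit 1092) (nat_lit 1216) (nat_lit 0) (XT.nd (nat_lit 546) (nat_lit 684) (nat_lit 0) (XT.nd (nat_lit 234) (nat_lit 532) (nat_lit 0) (XT.nd (nat_lit 78) (nat_lit 228) (nat_lit 0) (XT.lf (nat_lit 0) (nat_lit 11976855819) (nat_lit 380) (nat_lit 3426798) (nat_lit 76) (nat_lit 13552200073) (nat_lit 72) (nat_lit 5) (nat_lit 77) (nat_lit 5) (nat_lit 73) (nat_lit 5) (nat_lit 346) (nat_lit 286) (nat_lit 148)) (XT.nd (nat_lit 78) (nat_lit 0) (nat_lit 0) (XT.lf (nat_lit 0) (nat_lit 12495659368) (nat_lit 228) (nat_lit 4262713506) (nat_lit 304) (nat_lit 9294541428) (nat_lit 69) (nat_lit 5) (nat_lit 72) (nat_lit 5) (nat_lit 73) (nat_lit 5) (nat_lit 347) (nat_lit 286) (nat_lit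 147)) (XT.lf (nat_lit 0) (nat_lit 21711074007) (nat_lit 304) (nat_lit 1266374224) (nat_lit 76) (nat_lit 3610683706) (nat_lit 69) (nat_lit 5) (nat_lit 73) (nat_lit 5) (nat_lit 70) (nat_lit 5) (nat_lit 348) (nat_lit 286) (nat_lit 146)))) (XT.nd (nat_lit 156) (nat_lit 228) (nat_lit 0) (XT.nd (nat_lit 78) (nat_lit 76) (nat_lit 0) (XT.lf (nat_lit 0) (nat_lit 11565282254) (nat_lit 228) (nat_lit 15392944631) (nat_lit 304) (nat_lit 176808173) (nat_lit 66) (nat_lit 5) (nat_lit 69) (nat_lit 5) (nat_lit 70) (nat_lit 5) (nat_lit 349) (nat_lit 286) (nat_lit 145)) (XT.lf (nat_lit 0) (nat_lit 4578868265) (nat_lit 304) (nat_lit 2946545348) (nat_lit 76) (nat_lit 20171428138) (nat_lit 65) (nat_lit 5) (nat_lit 69) (nat_lit 5) (nat_lit 66) (nat_lit 5) (nat_lit 350) (nat_lit 286) (nat_lit 144))) (XT.nd (nat_lit 78) (nat_lit 0) (nat_lit 0) (XT.lf (nat_lit 0) (nat_lit 9571371911) (nat_lit 304) (nat_lit 18036891910) (nat_lit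 76) (nat_lit 664259638) (nat_lit 62) (nat_lit 5) (nat_lit 66) (nat_lit 5) (nat_lit 63) (nat_lit 5) (nat_lit 351) (nat_lit 286) (nat_lit 143)) (XT.lf (nat_lit 0) (nat_lit 14811019428) (nat_lit 304) (nat_lit 5076917701) (nat_lit 76) (nat_lit 8974621938) (nat_lit 62) (nat_lit 5) (nat_lit 66) (nat_lit 5) (nat_lit 63) (nat_lit 5) (nat_lit 352) (nat_lit 286) (nat_lit 142))))) (XT.nd (nat_lit 234) (nat_lit 228) (nat_lit 0) (XT.nd (nat_lit 78) (nat_lit 228) (nat_lit 0) (XT.lf (nat_lit 0) (nat_lit 8425385631) (nat_lit 228) (nat_lit 11856480883) (nat_lit 304) (nat_lit 9186213305) (nat_lit 59) (nat_lit 5) (nat_lit 62) (nat_lit 5) (nat_lit 63) (nat_lit 5) (nat_lit 353) (nat_lit 286) (nat_lit 141)) (XT.nd (nat_lit 78) (nat_lit 228) (nat_lit 0) (XT.lf (nat_lit 0) (nat_lit 22426056840) (nat_lit 228) (nat_lit 3535169009) (nat_lit 304) (nat_lit 4129212994) (nat_lit 59) (nat_lit 5) (nat_lit 62) (nat_lit 5) (nat_lit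 63) (nat_lit 5) (nat_lit 354) (nat_lit 286) (nat_lit 140)) (XT.lf (nat_lit 0) (nat_lit 1160495001) (nat_lit 228) (nat_lit 24563041979) (nat_lit 76) (nat_lit 5004562485) (nat_lit 56) (nat_lit 5) (nat_lit 59) (nat_lit 5) (nat_lit 57) (nat_lit 5) (nat_lit 355) (nat_lit 286) (nat_lit 139)))) (XT.nd (nat_lit 156) (nat_lit 0) (nat_lit 0) (XT.nd (nat_lit 78) (nat_lit 228) (nat_lit 0) (XT.lf (nat_lit 0) (nat_lit 6632373282) (nat_lit 228) (nat_lit 10903387167) (nat_lit 76) (nat_lit 13844712688) (nat_lit 56) (nat_lit 5) (nat_lit 59) (nat_lit 5) (nat_lit 57) (nat_lit 5) (nat_lit 356) (nat_lit 286) (nat_lit 138)) (XT.lf (nat_lit 0) (nat_lit 3218512215) (nat_lit 228) (nat_lit 9074337834) (nat_lit 304) (nat_lit 19758838482) (nat_lit 53) (nat_lit 5) (nat_lit 56) (nat_lit 5) (nat_lit 57) (nat_lit 5) (nat_lit 357) (nat_lit 286) (nat_lit 137))) (XT.nd (nat_lit 78) (nat_lit 0) (nat_lit 0) (XT.lf (nat_lit 0) (nat_lit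 17977328955) (nat_lit 228) (nat_lit 249509523) (nat_lit 304) (nat_lit 14513094660) (nat_lit 53) (nat_lit 5) (nat_lit 56) (nat_lit 5) (nat_lit 57) (nat_lit 5) (nat_lit 358) (nat_lit 286) (nat_lit 136)) (XT.lf (nat_lit 0) (nat_lit 24417567887) (nat_lit 304) (nat_lit 364995124) (nat_lit 76) (nat_lit 8663903992) (nat_lit 53) (nat_lit 5) (nat_lit 57) (nat_lit 5) (nat_lit 54) (nat_lit 5) (nat_lit 359) (nat_lit 286) (nat_lit 135)))))) (XT.nd (nat_lit 546) (nat_lit 608) (nat_lit 0) (XT.nd (nat_lit 234) (nat_lit 152) (nat_lit 0) (XT.nd (nat_lit 78) (nat_lit 304) (nat_lit 0) (XT.lf (nat_lit 0) (nat_lit 14739890321) (nat_lit 152) (nat_lit 16192215498) (nat_lit 228) (nat_lit 3237951925) (nat_lit 51) (nat_lit 5) (nat_lit 53) (nat_lit 5) (nat_lit 54) (nat_lit 5) (nat_lit 360) (nat_lit 286) (nat_lit 134)) (XT.nd (nat_lit 78) (nat_lit 228) (nat_lit 0) (XT.lf (nat_lit 0) (nat_lit 2671186023) (nat_lit 228) (nat_lit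 4645926062) (nat_lit 76) (nat_lit 27597530938) (nat_lit 50) (nat_lit 5) (nat_lit 53) (nat_lit 5) (nat_lit 51) (nat_lit 5) (nat_lit 361) (nat_lit 286) (nat_lit 133)) (XT.lf (nat_lit 0) (nat_lit 8808819638) (nat_lit 304) (nat_lit 24946520349) (nat_lit 76) (nat_lit 1921778235) (nat_lit 47) (nat_lit 5) (nat_lit 51) (nat_lit 5) (nat_lit 48) (nat_lit 5) (nat_lit 362) (nat_lit 286) (nat_lit 132)))) (XT.nd (nat_lit 156) (nat_lit 0) (nat_lit 0) (XT.nd (nat_lit 78) (nat_lit 152) (nat_lit 0) (XT.lf (nat_lit 0) (nat_lit 15244577758) (nat_lit 304) (nat_lit 9879915872) (nat_lit 76) (nat_lit 11334557256) (nat_lit 47) (nat_lit 5) (nat_lit 51) (nat_lit 5) (nat_lit 48) (nat_lit 5) (nat_lit 363) (nat_lit 286) (nat_lit 131)) (XT.lf (nat_lit 0) (nat_lit 5741402833) (nat_lit 152) (nat_lit 16181535077) (nat_lit 228) (nat_lit 15340020722) (nat_lit 45) (nat_lit 5) (nat_lit 47) (nat_lit 5) (nat_lit 48) (nat_lit 5) (nat_lit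 364) (nat_lit 286) (nat_lit 130))) (XT.nd (nat_lit 78) (nat_lit 0) (nat_lit 0) (XT.lf (nat_lit 0) (nat_lit 22024661700) (nat_lit 152) (nat_lit 6871170526) (nat_lit 228) (nat_lit 9192328781) (nat_lit 45) (nat_lit 5) (nat_lit 47) (nat_lit 5) (nat_lit 48) (nat_lit 5) (nat_lit 365) (nat_lit 286) (nat_lit 129)) (XT.lf (nat_lit 0) (nat_lit 36098589534) (nat_lit 228) (nat_lit 176923727) (nat_lit 76) (nat_lit 2661988720) (nat_lit 45) (nat_lit 5) (nat_lit 48) (nat_lit 5) (nat_lit 46) (nat_lit 5) (nat_lit 366) (nat_lit 286) (nat_lit 128))))) (XT.nd (nat_lit 234) (nat_lit 228) (nat_lit 0) (XT.nd (nat_lit 78) (nat_lit 152) (nat_lit 0) (XT.lf (nat_lit 0) (nat_lit 3855658317) (nat_lit 228) (nat_lit 23413506077) (nat_lit 76) (nat_lit 12535407410) (nat_lit 42) (nat_lit 5) (nat_lit 45) (nat_lit 5) (nat_lit 43) (nat_lit 5) (nat_lit 367) (nat_lit 286) (nat_lit 127)) (XT.nd (nat_lit 78) (nat_lit 152) (nat_lit 0) (XT.lf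 (nat_lit 0) (nat_lit 10690530205) (nat_lit 228) (nat_lit 7274851270) (nat_lit 76) (nat_lit 22731535878) (nat_lit 42) (nat_lit 5) (nat_lit 45) (nat_lit 5) (nat_lit 43) (nat_lit 5) (nat_lit 368) (nat_lit 286) (nat_lit 126)) (XT.lf (nat_lit 0) (nat_lit 9525245669) (nat_lit 152) (nat_lit 8291637940) (nat_lit 228) (nat_lit 23796559099) (nat_lit 40) (nat_lit 5) (nat_lit 42) (nat_lit 5) (nat_lit 43) (nat_lit 5) (nat_lit 369) (nat_lit 286) (nat_lit 125)))) (XT.nd (nat_lit 156) (nat_lit 76) (nat_lit 0) (XT.nd (nat_lit 78) (nat_lit 152) (nat_lit 0) (XT.lf (nat_lit 0) (nat_lit 25242199362) (nat_lit 228) (nat_lit 15602216064) (nat_lit 76) (nat_lit 1710495669) (nat_lit 40) (nat_lit 5) (nat_lit 43) (nat_lit 5) (nat_lit 41) (nat_lit 5) (nat_lit 370) (nat_lit 286) (nat_lit 124)) (XT.lf (nat_lit 0) (nat_lit 1313505137) (nat_lit 152) (nat_lit 31666546748) (nat_lit 228) (nat_lit 10541880687) (nat_lit 38) (nat_lit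 5) (nat_lit 40) (nat_lit 5) (nat_lit 41) (nat_lit 5) (nat_lit 371) (nat_lit 286) (nat_lit 123))) (XT.nd (nat_lit 78) (nat_lit 76) (nat_lit 0) (XT.lf (nat_lit 0) (nat_lit 19048235222) (nat_lit 152) (nat_lit 22054476502) (nat_lit 228) (nat_lit 3410675101) (nat_lit 38) (nat_lit 5) (nat_lit 40) (nat_lit 5) (nat_lit 41) (nat_lit 5) (nat_lit 372) (nat_lit 286) (nat_lit 122)) (XT.lf (nat_lit 0) (nat_lit 3852904037) (nat_lit 228) (nat_lit 8265546768) (nat_lit 76) (nat_lit 33415145051) (nat_lit 37) (nat_lit 5) (nat_lit 40) (nat_lit 5) (nat_lit 38) (nat_lit 5) (nat_lit 373) (nat_lit 286) (nat_lit 121))))))))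
noncomputable def xc169 : XT := (XT.nd (nat_lit 2184) (nat_lit 152) (nat_lit 0) (XT.nd (nat_lit 1092) (nat_lit 608) (nat_lit 0) (XT.nd (nat_lit 546) (nat_lit 304) (nat_lit 0) (XT.nd (nat_lit 234) (nat_lit 304) (nat_lit 0) (XT.nd (nat_lit 78) (nat_lit 0) (nat_lit 0) (XT.lf (nat_lit 0) (nat_lit 9595610648) (nat_lit 152) (nat_lit 1757820017) (nat_lit 228) (nat_lit 35227341775) (nat_lit 35) (nat_lit 5) (nat_lit 37) (nat_lit 5) (nat_lit 38) (nat_lit 5) (nat_lit 374) (nat_lit 286) (nat_lit 120)) (XT.nd (nat_lit 78) (nat_lit 0) (nat_lit 0) (XT.lf (nat_lit 0) (nat_lit 19244329850) (nat_lit 228) (nat_lit 19589273925) (nat_lit 76) (nat_lit 8820801875) (nat_lit 35) (nat_lit 5) (nat_lit 38) (nat_lit 5) (nat_lit 36) (nat_lit 5) (nat_lit 375) (nat_lit 286) (nat_lit 119)) (XT.lf (nat_lit 0) (nat_lit 27384875979) (nat_lit 228) (nat_lit 1696624566) (nat_lit 76) (nat_lit 19678361683) (nat_lit 35) (nat_lit 5) (nat_lit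 38) (nat_lit 5) (nat_lit 36) (nat_lit 5) (nat_lit 376) (nat_lit 286) (nat_lit 118)))) (XT.nd (nat_lit 156) (nat_lit 152) (nat_lit 0) (XT.nd (nat_lit 78) (nat_lit 0) (nat_lit 0) (XT.lf (nat_lit 0) (nat_lit 17058184498) (nat_lit 152) (nat_lit 18871074117) (nat_lit 228) (nat_lit 13964437201) (nat_lit 33) (nat_lit 5) (nat_lit 35) (nat_lit 5) (nat_lit 36) (nat_lit 5) (nat_lit 377) (nat_lit 286) (nat_lit 117)) (XT.lf (nat_lit 0) (nat_lit 36403003978) (nat_lit 152) (nat_lit 8339803298) (nat_lit 228) (nat_lit 6318353959) (nat_lit 33) (nat_lit 5) (nat_lit 35) (nat_lit 5) (nat_lit 36) (nat_lit 5) (nat_lit 378) (nat_lit 286) (nat_lit 116))) (XT.nd (nat_lit 78) (nat_lit 0) (nat_lit 0) (XT.lf (nat_lit 0) (nat_lit 1586754862) (nat_lit 152) (nat_lit 48164038911) (nat_lit 76) (nat_lit 2510608718) (nat_lit 31) (nat_lit 5) (nat_lit 33) (nat_lit 5) (nat_lit 32) (nat_lit 5) (nat_lit 379) (nat_lit 286) (nat_lit 115))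 (XT.lf (nat_lit 0) (nat_lit 9829889008) (nat_lit 152) (nat_lit 29931086942) (nat_lit 76) (nat_lit 13727964057) (nat_lit 31) (nat_lit 5) (nat_lit 33) (nat_lit 5) (nat_lit 32) (nat_lit 5) (nat_lit 380) (nat_lit 286) (nat_lit 114))))) (XT.nd (nat_lit 234) (nat_lit 152) (nat_lit 0) (XT.nd (nat_lit 78) (nat_lit 152) (nat_lit 0) (XT.lf (nat_lit 0) (nat_lit 18316247499) (nat_lit 152) (nat_lit 11158242153) (nat_lit 76) (nat_lit 25278937737) (nat_lit 31) (nat_lit 5) (nat_lit 33) (nat_lit 5) (nat_lit 32) (nat_lit 5) (nat_lit 381) (nat_lit 286) (nat_lit 113)) (XT.nd (nat_lit 78) (nat_lit 0) (nat_lit 0) (XT.lf (nat_lit 0) (nat_lit 8333515821) (nat_lit 152) (nat_lit 18799836632) (nat_lit 228) (nat_lit 28920213875) (nat_lit 29) (nat_lit 5) (nat_lit 31) (nat_lit 5) (nat_lit 32) (nat_lit 5) (nat_lit 382) (nat_lit 286) (nat_lit 112)) (XT.lf (nat_lit 0) (nat_lit 28631938032) (nat_lit 152) (nat_lit 7691807253) (nat_lit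 228) (nat_lit 21065702461) (nat_lit 29) (nat_lit 5) (nat_lit 31) (nat_lit 5) (nat_lit 32) (nat_lit 5) (nat_lit 383) (nat_lit 286) (nat_lit 111)))) (XT.nd (nat_lit 156) (nat_lit 76) (nat_lit 0) (XT.nd (nat_lit 78) (nat_lit 76) (nat_lit 0) (XT.lf (nat_lit 0) (nat_lit 45822076791) (nat_lit 228) (nat_lit 9268845575) (nat_lit 76) (nat_lit 3673517948) (nat_lit 29) (nat_lit 5) (nat_lit 32) (nat_lit 5) (nat_lit 30) (nat_lit 4) (nat_lit 384) (nat_lit 286) (nat_lit 110)) (XT.lf (nat_lit 0) (nat_lit 10935191673) (nat_lit 76) (nat_lit 44847734705) (nat_lit 152) (nat_lit 4392430705) (nat_lit 28) (nat_lit 5) (nat_lit 29) (nat_lit 5) (nat_lit 30) (nat_lit 4) (nat_lit 385) (nat_lit 286) (nat_lit 109))) (XT.nd (nat_lit 78) (nat_lit 0) (nat_lit 0) (XT.lf (nat_lit 0) (nat_lit 4418695061) (nat_lit 152) (nat_lit 29740324275) (nat_lit 76) (nat_lit 27465585659) (nat_lit 27) (nat_lit 5) (nat_lit 29) (nat_lit 5) (nat_lit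 28) (nat_lit 5) (nat_lit 386) (nat_lit 286) (nat_lit 108)) (XT.lf (nat_lit 0) (nat_lit 13402282872) (nat_lit 152) (nat_lit 9705313577) (nat_lit 76) (nat_lit 40008538203) (nat_lit 27) (nat_lit 5) (nat_lit 29) (nat_lit 5) (nat_lit 28) (nat_lit 5) (nat_lit 387) (nat_lit 286) (nat_lit 107)))))) (XT.nd (nat_lit 546) (nat_lit 152) (nat_lit 0) (XT.nd (nat_lit 234) (nat_lit 304) (nat_lit 0) (XT.nd (nat_lit 78) (nat_lit 0) (nat_lit 0) (XT.lf (nat_lit 0) (nat_lit 11142016607) (nat_lit 152) (nat_lit 11616981879) (nat_lit 228) (nat_lit 41890304410) (nat_lit 25) (nat_lit 5) (nat_lit 27) (nat_lit 5) (nat_lit 28) (nat_lit 5) (nat_lit 388) (nat_lit 286) (nat_lit 106)) (XT.nd (nat_lit 78) (nat_lit 0) (nat_lit 0) (XT.lf (nat_lit 0) (nat_lit 32494023200) (nat_lit 228) (nat_lit 33421049614) (nat_lit 76) (nat_lit 310466412) (nat_lit 25) (nat_lit 5) (nat_lit 28) (nat_lit 5) (nat_lit 26) (nat_lit 4) (nat_lit 389) (nat_lit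 286) (nat_lit 105)) (XT.lf (nat_lit 0) (nat_lit 42632752961) (nat_lit 228) (nat_lit 12853236149) (nat_lit 76) (nat_lit 12359725136) (nat_lit 25) (nat_lit 5) (nat_lit 28) (nat_lit 5) (nat_lit 26) (nat_lit 4) (nat_lit 390) (nat_lit 286) (nat_lit 104)))) (XT.nd (nat_lit 156) (nat_lit 228) (nat_lit 0) (XT.nd (nat_lit 78) (nat_lit 0) (nat_lit 0) (XT.lf (nat_lit 0) (nat_lit 8491495174) (nat_lit 76) (nat_lit 44662507589) (nat_lit 152) (nat_lit 16358142201) (nat_lit 24) (nat_lit 5) (nat_lit 25) (nat_lit 5) (nat_lit 26) (nat_lit 4) (nat_lit 391) (nat_lit 286) (nat_lit 103)) (XT.lf (nat_lit 0) (nat_lit 30734287998) (nat_lit 76) (nat_lit 33383167051) (nat_lit 152) (nat_lit 7107317764) (nat_lit 24) (nat_lit 5) (nat_lit 25) (nat_lit 5) (nat_lit 26) (nat_lit 4) (nat_lit 392) (nat_lit 286) (nat_lit 102))) (XT.nd (nat_lit 78) (nat_lit 152) (nat_lit 0) (XT.lf (nat_lit 0) (nat_lit 2370622746) (nat_lit 152) (nat_lit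 19373342857) (nat_lit 76) (nat_lit 51244211782) (nat_lit 23) (nat_lit 5) (nat_lit 25) (nat_lit 5) (nat_lit 24) (nat_lit 5) (nat_lit 393) (nat_lit 286) (nat_lit 101)) (XT.lf (nat_lit 0) (nat_lit 2347256499) (nat_lit 152) (nat_lit 9662284773) (nat_lit 228) (nat_lit 62792248102) (nat_lit 21) (nat_lit 5) (nat_lit 23) (nat_lit 5) (nat_lit 24) (nat_lit 5) (nat_lit 394) (nat_lit 286) (nat_lit 100))))) (XT.nd (nat_lit 234) (nat_lit 152) (nat_lit 0) (XT.nd (nat_lit 78) (nat_lit 0) (nat_lit 0) (XT.lf (nat_lit 0) (nat_lit 22158878661) (nat_lit 228) (nat_lit 51581516148) (nat_lit 76) (nat_lit 2922778404) (nat_lit 21) (nat_lit 5) (nat_lit 24) (nat_lit 5) (nat_lit 22) (nat_lit 4) (nat_lit 395) (nat_lit 286) (nat_lit 99)) (XT.nd (nat_lit 78) (nat_lit 0) (nat_lit 0) (XT.lf (nat_lit 0) (nat_lit 32705392221) (nat_lit 228) (nat_lit 30183320746) (nat_lit 76) (nat_lit 15688905717) (nat_lit 21) (nat_lit 5) (nat_lit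 24) (nat_lit 5) (nat_lit 22) (nat_lit 4) (nat_lit 396) (nat_lit 286) (nat_lit 98)) (XT.lf (nat_lit 0) (nat_lit 43565417562) (nat_lit 228) (nat_lit 8148369426) (nat_lit 76) (nat_lit 28835798011) (nat_lit 21) (nat_lit 5) (nat_lit 24) (nat_lit 5) (nat_lit 22) (nat_lit 4) (nat_lit 397) (nat_lit 286) (nat_lit 97)))) (XT.nd (nat_lit 156) (nat_lit 76) (nat_lit 0) (XT.nd (nat_lit 78) (nat_lit 0) (nat_lit 0) (XT.lf (nat_lit 0) (nat_lit 14832017742) (nat_lit 76) (nat_lit 40059000713) (nat_lit 152) (nat_lit 27685499548) (nat_lit 20) (nat_lit 5) (nat_lit 21) (nat_lit 5) (nat_lit 22) (nat_lit 4) (nat_lit 398) (nat_lit 286) (nat_lit 96)) (XT.lf (nat_lit 0) (nat_lit 38663860730) (nat_lit 76) (nat_lit 27972043143) (nat_lit 152) (nat_lit 18025970542) (nat_lit 20) (nat_lit 5) (nat_lit 21) (nat_lit 5) (nat_lit 22) (nat_lit 4) (nat_lit 399) (nat_lit 286) (nat_lit 95))) (XT.nd (nat_lit 78) (nat_lit 76) (nat_lit 0)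 (XT.lf (nat_lit 0) (nat_lit 63205814949) (nat_lit 76) (nat_lit 15524635414) (nat_lit 152) (nat_lit 8079422609) (nat_lit 20) (nat_lit 5) (nat_lit 21) (nat_lit 5) (nat_lit 22) (nat_lit 4) (nat_lit 400) (nat_lit 286) (nat_lit 94)) (XT.lf (nat_lit 0) (nat_lit 2120630700) (nat_lit 152) (nat_lit 563856238) (nat_lit 76) (nat_lit 86337279912) (nat_lit 19) (nat_lit 5) (nat_lit 21) (nat_lit 5) (nat_lit 20) (nat_lit 5) (nat_lit 401) (nat_lit 286) (nat_lit 93))))))) (XT.nd (nat_lit 32604) (nat_lit 0) (nat_lit 11020) (XT.nd (nat_lit 32058) (nat_lit 0) (nat_lit 14820) (XT.nd (nat_lit 31746) (nat_lit 0) (nat_lit 14820) (XT.nd (nat_lit 78) (nat_lit 0) (nat_lit 0) (XT.lf (nat_lit 0) (nat_lit 12792381423) (nat_lit 228) (nat_lit 67852908863) (nat_lit 76) (nat_lit 10642485717) (nat_lit 17) (nat_lit 5) (nat_lit 20) (nat_lit 5) (nat_lit 18) (nat_lit 4) (nat_lit 402) (nat_lit 286) (nat_lit 92)) (XT.nd (nat_lit 31590)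 (nat_lit 0) (nat_lit 15808) (XT.lf (nat_lit 0) (nat_lit 23814067613) (nat_lit 228) (nat_lit 45487748696) (nat_lit 76) (nat_lit 24319056423) (nat_lit 17) (nat_lit 5) (nat_lit 20) (nat_lit 5) (nat_lit 18) (nat_lit 4) (nat_lit 403) (nat_lit 286) (nat_lit 91)) (XT.lf (nat_lit 0) (nat_lit 1794249198) (nat_lit 0) (nat_lit 1794249198) (nat_lit 988) (nat_lit 1215995320) (nat_lit 225) (nat_lit 5) (nat_lit 225) (nat_lit 3) (nat_lit 238) (nat_lit 3) (nat_lit 287) (nat_lit 287) (nat_lit 206)))) (XT.nd (nat_lit 156) (nat_lit 988) (nat_lit 0) (XT.nd (nat_lit 78) (nat_lit 0) (nat_lit 0) (XT.lf (nat_lit 0) (nat_lit 8018173571) (nat_lit 988) (nat_lit 1630274230) (nat_lit 1064) (nat_lit 81725886) (nat_lit 225) (nat_lit 5) (nat_lit 238) (nat_lit 3) (nat_lit 239) (nat_lit 5) (nat_lit 288) (nat_lit 287) (nat_lit 205)) (XT.lf (nat_lit 76) (nat_lit 2897324431) (nat_lit 0) (nat_lit 6022183168) (nat_lit 1064) (nat_lit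 934477067) (nat_lit 226) (nat_lit 5) (nat_lit 225) (nat_lit 5) (nat_lit 239) (nat_lit 5) (nat_lit 289) (nat_lit 287) (nat_lit 204))) (XT.nd (nat_lit 78) (nat_lit 988) (nat_lit 0) (XT.lf (nat_lit 76) (nat_lit 7578990233) (nat_lit 0) (nat_lit 2257578368) (nat_lit 1064) (nat_lit 145316494) (nat_lit 226) (nat_lit 5) (nat_lit 225) (nat_lit 5) (nat_lit 239) (nat_lit 5) (nat_lit 290) (nat_lit 287) (nat_lit 203)) (XT.lf (nat_lit 0) (nat_lit 665409291) (nat_lit 1064) (nat_lit 7818740078) (nat_lit 1140) (nat_lit 1628986862) (nat_lit 212) (nat_lit 5) (nat_lit 226) (nat_lit 5) (nat_lit 227) (nat_lit 5) (nat_lit 291) (nat_lit 287) (nat_lit 202))))) (XT.nd (nat_lit 234) (nat_lit 0) (nat_lit 76) (XT.nd (nat_lit 78) (nat_lit 0) (nat_lit 0) (XT.lf (nat_lit 0) (nat_lit 1517884088) (nat_lit 1064) (nat_lit 3105870674) (nat_lit 1140) (nat_lit 5623949234) (nat_lit 212) (nat_lit 5) (nat_lit 226) (nat_lit 5) (nat_lit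 227) (nat_lit 5) (nat_lit 292) (nat_lit 287) (nat_lit 201)) (XT.nd (nat_lit 78) (nat_lit 0) (nat_lit 76) (XT.lf (nat_lit 76) (nat_lit 1767233677) (nat_lit 0) (nat_lit 619950215) (nat_lit 1140) (nat_lit 7999419120) (nat_lit 213) (nat_lit 5) (nat_lit 212) (nat_lit 5) (nat_lit 227) (nat_lit 5) (nat_lit 293) (nat_lit 287) (nat_lit 200)) (XT.lf (nat_lit 0) (nat_lit 3322875326) (nat_lit 1064) (nat_lit 3728883086) (nat_lit 1140) (nat_lit 3476732028) (nat_lit 213) (nat_lit 5) (nat_lit 227) (nat_lit 5) (nat_lit 228) (nat_lit 5) (nat_lit 294) (nat_lit 287) (nat_lit 199)))) (XT.nd (nat_lit 156) (nat_lit 0) (nat_lit 76) (XT.nd (nat_lit 78) (nat_lit 0) (nat_lit 76) (XT.lf (nat_lit 76) (nat_lit 1311895326) (nat_lit 0) (nat_lit 2969177071) (nat_lit 1140) (nat_lit 6393758967) (nat_lit 214) (nat_lit 5) (nat_lit 213) (nat_lit 5) (nat_lit 228) (nat_lit 5) (nat_lit 295) (nat_lit 287) (nat_lit 198)) (XT.lf (nat_lit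 0) (nat_lit 5294242849) (nat_lit 1064) (nat_lit 4272897526) (nat_lit 1140) (nat_lit 1257664366) (nat_lit 214) (nat_lit 5) (nat_lit 228) (nat_lit 5) (nat_lit 229) (nat_lit 5) (nat_lit 296) (nat_lit 287) (nat_lit 197))) (XT.nd (nat_lit 78) (nat_lit 0) (nat_lit 0) (XT.lf (nat_lit 76) (nat_lit 942775949) (nat_lit 0) (nat_lit 5410502692) (nat_lit 1140) (nat_lit 4625562775) (nat_lit 215) (nat_lit 5) (nat_lit 214) (nat_lit 5) (nat_lit 229) (nat_lit 5) (nat_lit 297) (nat_lit 287) (nat_lit 196)) (XT.lf (nat_lit 76) (nat_lit 6386601988) (nat_lit 0) (nat_lit 1078158001) (nat_lit 1140) (nat_lit 3672146349) (nat_lit 215) (nat_lit 5) (nat_lit 214) (nat_lit 5) (nat_lit 229) (nat_lit 5) (nat_lit 298) (nat_lit 287) (nat_lit 195)))))) (XT.nd (nat_lit 546) (nat_lit 1900) (nat_lit 0) (XT.nd (nat_lit 234) (nat_lit 2128) (nat_lit 0) (XT.nd (nat_lit 78) (nat_lit 0) (nat_lit 0) (XT.lf (nat_lit 76) (nat_lit 658155049)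 (nat_lit 0) (nat_lit 7968530339) (nat_lit 1140) (nat_lit 2672541417) (nat_lit 216) (nat_lit 5) (nat_lit 215) (nat_lit 5) (nat_lit 230) (nat_lit 5) (nat_lit 299) (nat_lit 287) (nat_lit 194)) (XT.nd (nat_lit 78) (nat_lit 0) (nat_lit 76) (XT.lf (nat_lit 76) (nat_lit 6299329288) (nat_lit 0) (nat_lit 3561400272) (nat_lit 1140) (nat_lit 1604595304) (nat_lit 216) (nat_lit 5) (nat_lit 215) (nat_lit 5) (nat_lit 230) (nat_lit 5) (nat_lit 300) (nat_lit 287) (nat_lit 193)) (XT.lf (nat_lit 76) (nat_lit 456586748) (nat_lit 0) (nat_lit 10668388709) (nat_lit 1140) (nat_lit 511660055) (nat_lit 217) (nat_lit 5) (nat_lit 216) (nat_lit 5) (nat_lit 231) (nat_lit 5) (nat_lit 301) (nat_lit 287) (nat_lit 192)))) (XT.nd (nat_lit 156) (nat_lit 1064) (nat_lit 0) (XT.nd (nat_lit 78) (nat_lit 0) (nat_lit 0) (XT.lf (nat_lit 0) (nat_lit 669637845) (nat_lit 1140) (nat_lit 5515981935) (nat_lit 1216) (nat_lit 5625285521) (nat_lit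 201) (nat_lit 5) (nat_lit 216) (nat_lit 5) (nat_lit 217) (nat_lit 5) (nat_lit 302) (nat_lit 287) (nat_lit 191)) (XT.lf (nat_lit 76) (nat_lit 302805910) (nat_lit 0) (nat_lit 1556402332) (nat_lit 1216) (nat_lit 10131572373) (nat_lit 202) (nat_lit 5) (nat_lit 201) (nat_lit 5) (nat_lit 217) (nat_lit 5) (nat_lit 303) (nat_lit 287) (nat_lit 190))) (XT.nd (nat_lit 78) (nat_lit 1140) (nat_lit 0) (XT.lf (nat_lit 0) (nat_lit 3152254530) (nat_lit 1140) (nat_lit 5813099212) (nat_lit 76) (nat_lit 3208687047) (nat_lit 202) (nat_lit 5) (nat_lit 217) (nat_lit 5) (nat_lit 203) (nat_lit 5) (nat_lit 304) (nat_lit 287) (nat_lit 189)) (XT.lf (nat_lit 0) (nat_lit 210681626) (nat_lit 1140) (nat_lit 4272072829) (nat_lit 1216) (nat_lit 7880106061) (nat_lit 187) (nat_lit 5) (nat_lit 202) (nat_lit 5) (nat_lit 203) (nat_lit 5) (nat_lit 305) (nat_lit 287) (nat_lit 188))))) (XT.nd (nat_lit 234) (nat_lit 1216) (nat_lit 0) (XT.nd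 (nat_lit 78) (nat_lit 684) (nat_lit 0) (XT.lf (nat_lit 0) (nat_lit 5899499016) (nat_lit 1216) (nat_lit 6043709832) (nat_lit 76) (nat_lit 612767084) (nat_lit 187) (nat_lit 5) (nat_lit 203) (nat_lit 5) (nat_lit 188) (nat_lit 5) (nat_lit 306) (nat_lit 287) (nat_lit 187)) (XT.nd (nat_lit 78) (nat_lit 0) (nat_lit 0) (XT.lf (nat_lit 0) (nat_lit 193490070) (nat_lit 684) (nat_lit 7191593331) (nat_lit 760) (nat_lit 5369031659) (nat_lit 178) (nat_lit 5) (nat_lit 187) (nat_lit 5) (nat_lit 188) (nat_lit 5) (nat_lit 307) (nat_lit 287) (nat_lit 186)) (XT.lf (nat_lit 0) (nat_lit 6725851805) (nat_lit 684) (nat_lit 2232959654) (nat_lit 760) (nat_lit 3998099400) (nat_lit 178) (nat_lit 5) (nat_lit 187) (nat_lit 5) (nat_lit 188) (nat_lit 5) (nat_lit 308) (nat_lit 287) (nat_lit 185)))) (XT.nd (nat_lit 156) (nat_lit 608) (nat_lit 0) (XT.nd (nat_lit 78) (nat_lit 0) (nat_lit 0) (XT.lf (nat_lit 0) (nat_lit 249710416) (nat_lit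 608) (nat_lit 10343142015) (nat_lit 684) (nat_lit 2572564274) (nat_lit 170) (nat_lit 5) (nat_lit 178) (nat_lit 5) (nat_lit 179) (nat_lit 5) (nat_lit 309) (nat_lit 287) (nat_lit 184)) (XT.lf (nat_lit 0) (nat_lit 7014315807) (nat_lit 608) (nat_lit 5329823485) (nat_lit 684) (nat_lit 1034010340) (nat_lit 170) (nat_lit 5) (nat_lit 178) (nat_lit 5) (nat_lit 179) (nat_lit 5) (nat_lit 310) (nat_lit 287) (nat_lit 183))) (XT.nd (nat_lit 78) (nat_lit 0) (nat_lit 0) (XT.lf (nat_lit 0) (nat_lit 370886897) (nat_lit 532) (nat_lit 156349734) (nat_lit 608) (nat_lit 13070268206) (nat_lit 162) (nat_lit 5) (nat_lit 169) (nat_lit 5) (nat_lit 170) (nat_lit 5) (nat_lit 311) (nat_lit 287) (nat_lit 182)) (XT.lf (nat_lit 0) (nat_lit 2213203578) (nat_lit 608) (nat_lit 6460003137) (nat_lit 76) (nat_lit 5146983959) (nat_lit 162) (nat_lit 5) (nat_lit 170) (nat_lit 5) (nat_lit 163) (nat_lit 5) (nat_lit 312) (nat_lit 287) (nat_lit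 181))))))))
noncomputable def xc170 : XT := (XT.nd (nat_lit 2106) (nat_lit 3116) (nat_lit 0) (XT.nd (nat_lit 1014) (nat_lit 2584) (nat_lit 0) (XT.nd (nat_lit 468) (nat_lit 1824) (nat_lit 0) (XT.nd (nat_lit 234) (nat_lit 532) (nat_lit 0) (XT.nd (nat_lit 78) (nat_lit 456) (nat_lit 0) (XT.lf (nat_lit 0) (nat_lit 502332033) (nat_lit 532) (nat_lit 3438305949) (nat_lit 608) (nat_lit 10109209016) (nat_lit 155) (nat_lit 5) (nat_lit 162) (nat_lit 5) (nat_lit 163) (nat_lit 5) (nat_lit 313) (nat_lit 287) (nat_lit 180)) (XT.nd (nat_lit 78) (nat_lit 456) (nat_lit 0) (XT.lf (nat_lit 0) (nat_lit 5789367368) (nat_lit 608) (nat_lit 6513750345) (nat_lit 76) (nat_lit 1981207226) (nat_lit 155) (nat_lit 5) (nat_lit 163) (nat_lit 5) (nat_lit 156) (nat_lit 5) (nat_lit 314) (nat_lit 287) (nat_lit 179)) (XT.lf (nat_lit 0) (nat_lit 695161485) (nat_lit 456) (nat_lit 7024377544) (nat_lit 532) (nat_lit 6805534392) (nat_lit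 149) (nat_lit 5) (nat_lit 155) (nat_lit 5) (nat_lit 156) (nat_lit 5) (nat_lit 315) (nat_lit 287) (nat_lit 178)))) (XT.nd (nat_lit 78) (nat_lit 532) (nat_lit 0) (XT.lf (nat_lit 0) (nat_lit 8238628830) (nat_lit 456) (nat_lit 1520301544) (nat_lit 532) (nat_lit 5012589708) (nat_lit 149) (nat_lit 5) (nat_lit 155) (nat_lit 5) (nat_lit 156) (nat_lit 5) (nat_lit 316) (nat_lit 287) (nat_lit 177)) (XT.nd (nat_lit 78) (nat_lit 0) (nat_lit 0) (XT.lf (nat_lit 0) (nat_lit 946403845) (nat_lit 532) (nat_lit 10948031158) (nat_lit 608) (nat_lit 3129891913) (nat_lit 142) (nat_lit 5) (nat_lit 149) (nat_lit 5) (nat_lit 150) (nat_lit 5) (nat_lit 317) (nat_lit 287) (nat_lit 176)) (XT.lf (nat_lit 0) (nat_lit 8753570615) (nat_lit 532) (nat_lit 5407525126) (nat_lit 608) (nat_lit 1121623776) (nat_lit 142) (nat_lit 5) (nat_lit 149) (nat_lit 5) (nat_lit 150) (nat_lit 5) (nat_lit 318) (nat_lit 287) (nat_lit 175))))) (XT.nd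 (nat_lit 234) (nat_lit 836) (nat_lit 0) (XT.nd (nat_lit 78) (nat_lit 456) (nat_lit 0) (XT.lf (nat_lit 0) (nat_lit 929939670) (nat_lit 532) (nat_lit 14305330862) (nat_lit 76) (nat_lit 313288033) (nat_lit 135) (nat_lit 5) (nat_lit 142) (nat_lit 5) (nat_lit 136) (nat_lit 5) (nat_lit 319) (nat_lit 287) (nat_lit 174)) (XT.nd (nat_lit 78) (nat_lit 456) (nat_lit 0) (XT.lf (nat_lit 0) (nat_lit 3127340426) (nat_lit 532) (nat_lit 6518243319) (nat_lit 76) (nat_lit 6173263944) (nat_lit 135) (nat_lit 5) (nat_lit 142) (nat_lit 5) (nat_lit 136) (nat_lit 5) (nat_lit 320) (nat_lit 287) (nat_lit 173)) (XT.lf (nat_lit 0) (nat_lit 1517339971) (nat_lit 456) (nat_lit 3875005620) (nat_lit 532) (nat_lit 10704862122) (nat_lit 129) (nat_lit 5) (nat_lit 135) (nat_lit 5) (nat_lit 136) (nat_lit 5) (nat_lit 321) (nat_lit 287) (nat_lit 172)))) (XT.nd (nat_lit 156) (nat_lit 456) (nat_lit 0) (XT.nd (nat_lit 78) (nat_lit 380) (nat_lit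 0) (XT.lf (nat_lit 0) (nat_lit 7798973646) (nat_lit 532) (nat_lit 6489827980) (nat_lit 76) (nat_lit 2092919055) (nat_lit 129) (nat_lit 5) (nat_lit 136) (nat_lit 5) (nat_lit 130) (nat_lit 5) (nat_lit 322) (nat_lit 287) (nat_lit 171)) (XT.lf (nat_lit 0) (nat_lit 1825651982) (nat_lit 380) (nat_lit 8495747779) (nat_lit 456) (nat_lit 6352073270) (nat_lit 124) (nat_lit 5) (nat_lit 129) (nat_lit 5) (nat_lit 130) (nat_lit 5) (nat_lit 323) (nat_lit 287) (nat_lit 170))) (XT.nd (nat_lit 78) (nat_lit 456) (nat_lit 0) (XT.lf (nat_lit 0) (nat_lit 10509254159) (nat_lit 380) (nat_lit 2463683109) (nat_lit 456) (nat_lit 3999449144) (nat_lit 124) (nat_lit 5) (nat_lit 129) (nat_lit 5) (nat_lit 130) (nat_lit 5) (nat_lit 324) (nat_lit 287) (nat_lit 169)) (XT.lf (nat_lit 0) (nat_lit 2165002378) (nat_lit 456) (nat_lit 13584105920) (nat_lit 532) (nat_lit 1529817555) (nat_lit 118) (nat_lit 5) (nat_lit 124) (nat_lit 5) (nat_lit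 125) (nat_lit 5) (nat_lit 325) (nat_lit 287) (nat_lit 168)))))) (XT.nd (nat_lit 546) (nat_lit 1444) (nat_lit 0) (XT.nd (nat_lit 234) (nat_lit 684) (nat_lit 0) (XT.nd (nat_lit 78) (nat_lit 380) (nat_lit 0) (XT.lf (nat_lit 0) (nat_lit 1072738591) (nat_lit 532) (nat_lit 6457423743) (nat_lit 76) (nat_lit 10061858774) (nat_lit 117) (nat_lit 5) (nat_lit 124) (nat_lit 5) (nat_lit 118) (nat_lit 5) (nat_lit 326) (nat_lit 287) (nat_lit 167)) (XT.nd (nat_lit 78) (nat_lit 0) (nat_lit 0) (XT.lf (nat_lit 0) (nat_lit 2477994606) (nat_lit 380) (nat_lit 1257105752) (nat_lit 456) (nat_lit 14178590482) (nat_lit 112) (nat_lit 5) (nat_lit 117) (nat_lit 5) (nat_lit 118) (nat_lit 5) (nat_lit 327) (nat_lit 287) (nat_lit 166)) (XT.lf (nat_lit 0) (nat_lit 6582039383) (nat_lit 456) (nat_lit 6494044702) (nat_lit 76) (nat_lit 5165795411) (nat_lit 112) (nat_lit 5) (nat_lit 118) (nat_lit 5) (nat_lit 113) (nat_lit 5) (nat_lit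 328) (nat_lit 287) (nat_lit 165)))) (XT.nd (nat_lit 156) (nat_lit 304) (nat_lit 0) (XT.nd (nat_lit 78) (nat_lit 0) (nat_lit 0) (XT.lf (nat_lit 0) (nat_lit 2743186218) (nat_lit 380) (nat_lit 6799169599) (nat_lit 456) (nat_lit 9036728648) (nat_lit 107) (nat_lit 5) (nat_lit 112) (nat_lit 5) (nat_lit 113) (nat_lit 5) (nat_lit 329) (nat_lit 287) (nat_lit 164)) (XT.lf (nat_lit 0) (nat_lit 12377037439) (nat_lit 380) (nat_lit 269359898) (nat_lit 456) (nat_lit 6278370226) (nat_lit 107) (nat_lit 5) (nat_lit 112) (nat_lit 5) (nat_lit 113) (nat_lit 5) (nat_lit 330) (nat_lit 287) (nat_lit 163))) (XT.nd (nat_lit 78) (nat_lit 0) (nat_lit 0) (XT.lf (nat_lit 0) (nat_lit 3002088634) (nat_lit 304) (nat_lit 12922013122) (nat_lit 380) (nat_lit 3354312320) (nat_lit 103) (nat_lit 5) (nat_lit 107) (nat_lit 5) (nat_lit 108) (nat_lit 5) (nat_lit 331) (nat_lit 287) (nat_lit 162)) (XT.lf (nat_lit 0) (nat_lit 12956522845)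 (nat_lit 304) (nat_lit 6402169555) (nat_lit 380) (nat_lit 282229838) (nat_lit 103) (nat_lit 5) (nat_lit 107) (nat_lit 5) (nat_lit 108) (nat_lit 5) (nat_lit 332) (nat_lit 287) (nat_lit 161))))) (XT.nd (nat_lit 234) (nat_lit 684) (nat_lit 0) (XT.nd (nat_lit 78) (nat_lit 304) (nat_lit 0) (XT.lf (nat_lit 0) (nat_lit 2850248870) (nat_lit 456) (nat_lit 16799256789) (nat_lit 76) (nat_lit 363243101) (nat_lit 97) (nat_lit 5) (nat_lit 103) (nat_lit 5) (nat_lit 98) (nat_lit 5) (nat_lit 333) (nat_lit 287) (nat_lit 160)) (XT.nd (nat_lit 78) (nat_lit 304) (nat_lit 0) (XT.lf (nat_lit 0) (nat_lit 6192705662) (nat_lit 456) (nat_lit 6928554203) (nat_lit 76) (nat_lit 7270744244) (nat_lit 97) (nat_lit 5) (nat_lit 103) (nat_lit 5) (nat_lit 98) (nat_lit 5) (nat_lit 334) (nat_lit 287) (nat_lit 159)) (XT.lf (nat_lit 0) (nat_lit 3289505843) (nat_lit 304) (nat_lit 6367959609) (nat_lit 380) (nat_lit 11124518701) (nat_lit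 93) (nat_lit 5) (nat_lit 97) (nat_lit 5) (nat_lit 98) (nat_lit 5) (nat_lit 335) (nat_lit 287) (nat_lit 158)))) (XT.nd (nat_lit 156) (nat_lit 380) (nat_lit 0) (XT.nd (nat_lit 78) (nat_lit 304) (nat_lit 0) (XT.lf (nat_lit 0) (nat_lit 13293009220) (nat_lit 380) (nat_lit 7244857619) (nat_lit 76) (nat_lit 643799204) (nat_lit 93) (nat_lit 5) (nat_lit 98) (nat_lit 5) (nat_lit 94) (nat_lit 5) (nat_lit 336) (nat_lit 287) (nat_lit 157)) (XT.lf (nat_lit 0) (nat_lit 3298810503) (nat_lit 304) (nat_lit 13824375868) (nat_lit 380) (nat_lit 4467592464) (nat_lit 89) (nat_lit 5) (nat_lit 93) (nat_lit 5) (nat_lit 94) (nat_lit 5) (nat_lit 337) (nat_lit 287) (nat_lit 156))) (XT.nd (nat_lit 78) (nat_lit 380) (nat_lit 0) (XT.lf (nat_lit 0) (nat_lit 14294721939) (nat_lit 304) (nat_lit 6837660354) (nat_lit 380) (nat_lit 877866557) (nat_lit 89) (nat_lit 5) (nat_lit 93) (nat_lit 5) (nat_lit 94) (nat_lit 5) (nat_lit 338) (nat_lit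 287) (nat_lit 155)) (XT.lf (nat_lit 0) (nat_lit 2790414195) (nat_lit 380) (nat_lit 19243651969) (nat_lit 76) (nat_lit 406654048) (nat_lit 84) (nat_lit 5) (nat_lit 89) (nat_lit 5) (nat_lit 85) (nat_lit 5) (nat_lit 339) (nat_lit 287) (nat_lit 154))))))) (XT.nd (nat_lit 1092) (nat_lit 1444) (nat_lit 0) (XT.nd (nat_lit 546) (nat_lit 760) (nat_lit 0) (XT.nd (nat_lit 234) (nat_lit 608) (nat_lit 0) (XT.nd (nat_lit 78) (nat_lit 304) (nat_lit 0) (XT.lf (nat_lit 0) (nat_lit 6688712540) (nat_lit 380) (nat_lit 8376238556) (nat_lit 76) (nat_lit 7814772090) (nat_lit 84) (nat_lit 5) (nat_lit 89) (nat_lit 5) (nat_lit 85) (nat_lit 5) (nat_lit 340) (nat_lit 287) (nat_lit 153)) (XT.nd (nat_lit 78) (nat_lit 0) (nat_lit 0) (XT.lf (nat_lit 0) (nat_lit 2860878225) (nat_lit 304) (nat_lit 7862068253) (nat_lit 380) (nat_lit 12608386606) (nat_lit 80) (nat_lit 5) (nat_lit 84) (nat_lit 5) (nat_lit 85) (nat_lit 5) (nat_lit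 341) (nat_lit 287) (nat_lit 152)) (XT.lf (nat_lit 0) (nat_lit 14594787185) (nat_lit 304) (nat_lit 359622341) (nat_lit 380) (nat_lit 8839801936) (nat_lit 80) (nat_lit 5) (nat_lit 84) (nat_lit 5) (nat_lit 85) (nat_lit 5) (nat_lit 342) (nat_lit 287) (nat_lit 151)))) (XT.nd (nat_lit 156) (nat_lit 380) (nat_lit 0) (XT.nd (nat_lit 78) (nat_lit 0) (nat_lit 0) (XT.lf (nat_lit 0) (nat_lit 2373332858) (nat_lit 228) (nat_lit 17024950884) (nat_lit 304) (nat_lit 4870134496) (nat_lit 77) (nat_lit 5) (nat_lit 80) (nat_lit 5) (nat_lit 81) (nat_lit 5) (nat_lit 343) (nat_lit 287) (nat_lit 150)) (XT.lf (nat_lit 0) (nat_lit 14466445090) (nat_lit 228) (nat_lit 9597404373) (nat_lit 304) (nat_lit 690356381) (nat_lit 77) (nat_lit 5) (nat_lit 80) (nat_lit 5) (nat_lit 81) (nat_lit 5) (nat_lit 344) (nat_lit 287) (nat_lit 149))) (XT.nd (nat_lit 78) (nat_lit 0) (nat_lit 0) (XT.lf (nat_lit 0) (nat_lit 1653710620) (nat_lit 304)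 (nat_lit 1898567710) (nat_lit 380) (nat_lit 21701011826) (nat_lit 72) (nat_lit 5) (nat_lit 76) (nat_lit 5) (nat_lit 77) (nat_lit 5) (nat_lit 345) (nat_lit 287) (nat_lit 148)) (XT.lf (nat_lit 0) (nat_lit 8063396109) (nat_lit 380) (nat_lit 11677439344) (nat_lit 76) (nat_lit 6021659489) (nat_lit 72) (nat_lit 5) (nat_lit 77) (nat_lit 5) (nat_lit 73) (nat_lit 5) (nat_lit 346) (nat_lit 287) (nat_lit 147))))) (XT.nd (nat_lit 234) (nat_lit 532) (nat_lit 0) (XT.nd (nat_lit 78) (nat_lit 0) (nat_lit 0) (XT.lf (nat_lit 0) (nat_lit 583611660) (nat_lit 228) (nat_lit 12143059811) (nat_lit 304) (nat_lit 13559804912) (nat_lit 69) (nat_lit 5) (nat_lit 72) (nat_lit 5) (nat_lit 73) (nat_lit 5) (nat_lit 347) (nat_lit 287) (nat_lit 146)) (XT.nd (nat_lit 78) (nat_lit 0) (nat_lit 0) (XT.lf (nat_lit 0) (nat_lit 13440637410) (nat_lit 228) (nat_lit 4199656147) (nat_lit 304) (nat_lit 9182575333) (nat_lit 69) (nat_lit 5) (nat_lit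 72) (nat_lit 5) (nat_lit 73) (nat_lit 5) (nat_lit 348) (nat_lit 287) (nat_lit 145)) (XT.lf (nat_lit 0) (nat_lit 22732313913) (nat_lit 304) (nat_lit 741350226) (nat_lit 76) (nat_lit 3900764277) (nat_lit 69) (nat_lit 5) (nat_lit 73) (nat_lit 5) (nat_lit 70) (nat_lit 5) (nat_lit 349) (nat_lit 287) (nat_lit 144)))) (XT.nd (nat_lit 156) (nat_lit 228) (nat_lit 0) (XT.nd (nat_lit 78) (nat_lit 0) (nat_lit 0) (XT.lf (nat_lit 0) (nat_lit 189780971) (nat_lit 304) (nat_lit 15470032778) (nat_lit 76) (nat_lit 12278038803) (nat_lit 65) (nat_lit 5) (nat_lit 69) (nat_lit 5) (nat_lit 66) (nat_lit 5) (nat_lit 350) (nat_lit 287) (nat_lit 143)) (XT.lf (nat_lit 0) (nat_lit 5073845692) (nat_lit 304) (nat_lit 2486337792) (nat_lit 76) (nat_lit 20956606166) (nat_lit 65) (nat_lit 5) (nat_lit 69) (nat_lit 5) (nat_lit 66) (nat_lit 5) (nat_lit 351) (nat_lit 287) (nat_lit 142))) (XT.nd (nat_lit 78) (nat_lit 0) (nat_lit 0) (XT.lf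 (nat_lit 0) (nat_lit 10212764561) (nat_lit 304) (nat_lit 18025812523) (nat_lit 76) (nat_lit 871272191) (nat_lit 62) (nat_lit 5) (nat_lit 66) (nat_lit 5) (nat_lit 63) (nat_lit 5) (nat_lit 352) (nat_lit 287) (nat_lit 141)) (XT.lf (nat_lit 0) (nat_lit 15599283499) (nat_lit 304) (nat_lit 4693122179) (nat_lit 76) (nat_lit 9425496289) (nat_lit 62) (nat_lit 5) (nat_lit 66) (nat_lit 5) (nat_lit 63) (nat_lit 5) (nat_lit 353) (nat_lit 287) (nat_lit 140)))))) (XT.nd (nat_lit 546) (nat_lit 608) (nat_lit 0) (XT.nd (nat_lit 234) (nat_lit 380) (nat_lit 0) (XT.nd (nat_lit 78) (nat_lit 228) (nat_lit 0) (XT.lf (nat_lit 0) (nat_lit 9208994340) (nat_lit 228) (nat_lit 12020347005) (nat_lit 304) (nat_lit 9112400724) (nat_lit 59) (nat_lit 5) (nat_lit 62) (nat_lit 5) (nat_lit 63) (nat_lit 5) (nat_lit 354) (nat_lit 287) (nat_lit 139)) (XT.nd (nat_lit 78) (nat_lit 228) (nat_lit 0) (XT.lf (nat_lit 0) (nat_lit 23614224119)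 (nat_lit 228) (nat_lit 3454983007) (nat_lit 304) (nat_lit 3913867072) (nat_lit 59) (nat_lit 5) (nat_lit 62) (nat_lit 5) (nat_lit 63) (nat_lit 5) (nat_lit 355) (nat_lit 287) (nat_lit 138)) (XT.lf (nat_lit 0) (nat_lit 1525014446) (nat_lit 228) (nat_lit 24774640606) (nat_lit 76) (nat_lit 5340204465) (nat_lit 56) (nat_lit 5) (nat_lit 59) (nat_lit 5) (nat_lit 57) (nat_lit 5) (nat_lit 356) (nat_lit 287) (nat_lit 137)))) (XT.nd (nat_lit 156) (nat_lit 152) (nat_lit 0) (XT.nd (nat_lit 78) (nat_lit 228) (nat_lit 0) (XT.lf (nat_lit 0) (nat_lit 7151446028) (nat_lit 228) (nat_lit 10720495934) (nat_lit 76) (nat_lit 14440156113) (nat_lit 56) (nat_lit 5) (nat_lit 59) (nat_lit 5) (nat_lit 57) (nat_lit 5) (nat_lit 357) (nat_lit 287) (nat_lit 136)) (XT.lf (nat_lit 0) (nat_lit 3820060499) (nat_lit 228) (nat_lit 9157207555) (nat_lit 304) (nat_lit 20026321374) (nat_lit 53) (nat_lit 5) (nat_lit 56) (nat_lit 5) (nat_lit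 57) (nat_lit 5) (nat_lit 358) (nat_lit 287) (nat_lit 135))) (XT.nd (nat_lit 78) (nat_lit 152) (nat_lit 0) (XT.lf (nat_lit 0) (nat_lit 19006933210) (nat_lit 228) (nat_lit 73149746) (nat_lit 304) (nat_lit 14632679477) (nat_lit 53) (nat_lit 5) (nat_lit 56) (nat_lit 5) (nat_lit 57) (nat_lit 5) (nat_lit 359) (nat_lit 287) (nat_lit 134)) (XT.lf (nat_lit 0) (nat_lit 109577599) (nat_lit 152) (nat_lit 25340800316) (nat_lit 228) (nat_lit 8990304201) (nat_lit 51) (nat_lit 5) (nat_lit 53) (nat_lit 5) (nat_lit 54) (nat_lit 5) (nat_lit 360) (nat_lit 287) (nat_lit 133))))) (XT.nd (nat_lit 234) (nat_lit 304) (nat_lit 0) (XT.nd (nat_lit 78) (nat_lit 304) (nat_lit 0) (XT.lf (nat_lit 0) (nat_lit 15660732293) (nat_lit 152) (nat_lit 16494451970) (nat_lit 228) (nat_lit 3030956312) (nat_lit 51) (nat_lit 5) (nat_lit 53) (nat_lit 5) (nat_lit 54) (nat_lit 5) (nat_lit 361) (nat_lit 287) (nat_lit 132)) (XT.nd (nat_lit 78)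 (nat_lit 228) (nat_lit 0) (XT.lf (nat_lit 0) (nat_lit 3040835601) (nat_lit 228) (nat_lit 4314681863) (nat_lit 76) (nat_lit 28597723483) (nat_lit 50) (nat_lit 5) (nat_lit 53) (nat_lit 5) (nat_lit 51) (nat_lit 5) (nat_lit 362) (nat_lit 287) (nat_lit 131)) (XT.lf (nat_lit 0) (nat_lit 9360379899) (nat_lit 304) (nat_lit 25221924249) (nat_lit 76) (nat_lit 2156357347) (nat_lit 47) (nat_lit 5) (nat_lit 51) (nat_lit 5) (nat_lit 48) (nat_lit 5) (nat_lit 363) (nat_lit 287) (nat_lit 130)))) (XT.nd (nat_lit 156) (nat_lit 152) (nat_lit 0) (XT.nd (nat_lit 78) (nat_lit 152) (nat_lit 0) (XT.lf (nat_lit 0) (nat_lit 15980842927) (nat_lit 304) (nat_lit 9717098094) (nat_lit 76) (nat_lit 11846366561) (nat_lit 47) (nat_lit 5) (nat_lit 51) (nat_lit 5) (nat_lit 48) (nat_lit 5) (nat_lit 364) (nat_lit 287) (nat_lit 129)) (XT.lf (nat_lit 0) (nat_lit 6368358061) (nat_lit 152) (nat_lit 16487442692) (nat_lit 228) (nat_lit 15516648683)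 (nat_lit 45) (nat_lit 5) (nat_lit 47) (nat_lit 5) (nat_lit 48) (nat_lit 5) (nat_lit 365) (nat_lit 287) (nat_lit 128))) (XT.nd (nat_lit 78) (nat_lit 152) (nat_lit 0) (XT.lf (nat_lit 0) (nat_lit 23126870622) (nat_lit 152) (nat_lit 6902996479) (nat_lit 228) (nat_lit 9192785382) (nat_lit 45) (nat_lit 5) (nat_lit 47) (nat_lit 5) (nat_lit 48) (nat_lit 5) (nat_lit 366) (nat_lit 287) (nat_lit 127)) (XT.lf (nat_lit 0) (nat_lit 257697020) (nat_lit 152) (nat_lit 37187332656) (nat_lit 228) (nat_lit 2652558369) (nat_lit 43) (nat_lit 5) (nat_lit 45) (nat_lit 5) (nat_lit 46) (nat_lit 5) (nat_lit 367) (nat_lit 287) (nat_lit 126))))))))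
noncomputable def xc171 : XT := (XT.nd (nat_lit 2184) (nat_lit 304) (nat_lit 0) (XT.nd (nat_lit 1092) (nat_lit 760) (nat_lit 0) (XT.nd (nat_lit 546) (nat_lit 456) (nat_lit 0) (XT.nd (nat_lit 234) (nat_lit 228) (nat_lit 0) (XT.nd (nat_lit 78) (nat_lit 152) (nat_lit 0) (XT.lf (nat_lit 0) (nat_lit 4231548806) (nat_lit 228) (nat_lit 23679969418) (nat_lit 76) (nat_lit 13079257312) (nat_lit 42) (nat_lit 5) (nat_lit 45) (nat_lit 5) (nat_lit 43) (nat_lit 5) (nat_lit 368) (nat_lit 287) (nat_lit 125)) (XT.nd (nat_lit 78) (nat_lit 152) (nat_lit 0) (XT.lf (nat_lit 0) (nat_lit 11263887606) (nat_lit 228) (nat_lit 7069852303) (nat_lit 76) (nat_lit 23576382615) (nat_lit 42) (nat_lit 5) (nat_lit 45) (nat_lit 5) (nat_lit 43) (nat_lit 5) (nat_lit 369) (nat_lit 287) (nat_lit 124)) (XT.lf (nat_lit 0) (nat_lit 10230098088) (nat_lit 152) (nat_lit 8370603631) (nat_lit 228) (nat_lit 24253545402) (nat_lit 40) (nat_lit 5)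 (nat_lit 42) (nat_lit 5) (nat_lit 43) (nat_lit 5) (nat_lit 370) (nat_lit 287) (nat_lit 123)))) (XT.nd (nat_lit 156) (nat_lit 76) (nat_lit 0) (XT.nd (nat_lit 78) (nat_lit 152) (nat_lit 0) (XT.lf (nat_lit 0) (nat_lit 26243099969) (nat_lit 228) (nat_lit 15657601134) (nat_lit 76) (nat_lit 1923432248) (nat_lit 40) (nat_lit 5) (nat_lit 43) (nat_lit 5) (nat_lit 41) (nat_lit 5) (nat_lit 371) (nat_lit 287) (nat_lit 122)) (XT.lf (nat_lit 0) (nat_lit 1761545807) (nat_lit 152) (nat_lit 32448374160) (nat_lit 228) (nat_lit 10610343926) (nat_lit 38) (nat_lit 5) (nat_lit 40) (nat_lit 5) (nat_lit 41) (nat_lit 5) (nat_lit 372) (nat_lit 287) (nat_lit 121))) (XT.nd (nat_lit 78) (nat_lit 76) (nat_lit 0) (XT.lf (nat_lit 0) (nat_lit 20016415790) (nat_lit 152) (nat_lit 22552839932) (nat_lit 228) (nat_lit 3272419450) (nat_lit 38) (nat_lit 5) (nat_lit 40) (nat_lit 5) (nat_lit 41) (nat_lit 5) (nat_lit 373) (nat_lit 287)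 (nat_lit 120)) (XT.lf (nat_lit 0) (nat_lit 4197502228) (nat_lit 228) (nat_lit 8123674136) (nat_lit 76) (nat_lit 34571453937) (nat_lit 37) (nat_lit 5) (nat_lit 40) (nat_lit 5) (nat_lit 38) (nat_lit 5) (nat_lit 374) (nat_lit 287) (nat_lit 119))))) (XT.nd (nat_lit 234) (nat_lit 304) (nat_lit 0) (XT.nd (nat_lit 78) (nat_lit 0) (nat_lit 0) (XT.lf (nat_lit 0) (nat_lit 10269496051) (nat_lit 152) (nat_lit 1650589011) (nat_lit 228) (nat_lit 36051228911) (nat_lit 35) (nat_lit 5) (nat_lit 37) (nat_lit 5) (nat_lit 38) (nat_lit 5) (nat_lit 375) (nat_lit 287) (nat_lit 118)) (XT.nd (nat_lit 78) (nat_lit 0) (nat_lit 0) (XT.lf (nat_lit 0) (nat_lit 20042620099) (nat_lit 228) (nat_lit 19796989971) (nat_lit 76) (nat_lit 9237701758) (nat_lit 35) (nat_lit 5) (nat_lit 38) (nat_lit 5) (nat_lit 36) (nat_lit 5) (nat_lit 376) (nat_lit 287) (nat_lit 117)) (XT.lf (nat_lit 0) (nat_lit 28420946874) (nat_lit 228) (nat_lit 1378627991)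 (nat_lit 76) (nat_lit 20416553142) (nat_lit 35) (nat_lit 5) (nat_lit 38) (nat_lit 5) (nat_lit 36) (nat_lit 5) (nat_lit 377) (nat_lit 287) (nat_lit 116)))) (XT.nd (nat_lit 156) (nat_lit 152) (nat_lit 0) (XT.nd (nat_lit 78) (nat_lit 0) (nat_lit 0) (XT.lf (nat_lit 0) (nat_lit 17935208725) (nat_lit 152) (nat_lit 19283715256) (nat_lit 228) (nat_lit 14165137479) (nat_lit 33) (nat_lit 5) (nat_lit 35) (nat_lit 5) (nat_lit 36) (nat_lit 5) (nat_lit 378) (nat_lit 287) (nat_lit 115)) (XT.lf (nat_lit 0) (nat_lit 37849733603) (nat_lit 152) (nat_lit 8440976927) (nat_lit 228) (nat_lit 6296028036) (nat_lit 33) (nat_lit 5) (nat_lit 35) (nat_lit 5) (nat_lit 36) (nat_lit 5) (nat_lit 379) (nat_lit 287) (nat_lit 114))) (XT.nd (nat_lit 78) (nat_lit 0) (nat_lit 0) (XT.lf (nat_lit 0) (nat_lit 1840908751) (nat_lit 152) (nat_lit 49248825101) (nat_lit 76) (nat_lit 2733230347) (nat_lit 31) (nat_lit 5) (nat_lit 33) (nat_lit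 5) (nat_lit 32) (nat_lit 5) (nat_lit 380) (nat_lit 287) (nat_lit 113)) (XT.lf (nat_lit 0) (nat_lit 10325320866) (nat_lit 152) (nat_lit 30479373942) (nat_lit 76) (nat_lit 14282815957) (nat_lit 31) (nat_lit 5) (nat_lit 33) (nat_lit 5) (nat_lit 32) (nat_lit 5) (nat_lit 381) (nat_lit 287) (nat_lit 112)))))) (XT.nd (nat_lit 546) (nat_lit 456) (nat_lit 0) (XT.nd (nat_lit 234) (nat_lit 152) (nat_lit 0) (XT.nd (nat_lit 78) (nat_lit 152) (nat_lit 0) (XT.lf (nat_lit 0) (nat_lit 19060429281) (nat_lit 152) (nat_lit 11153527662) (nat_lit 76) (nat_lit 26176153421) (nat_lit 31) (nat_lit 5) (nat_lit 33) (nat_lit 5) (nat_lit 32) (nat_lit 5) (nat_lit 382) (nat_lit 287) (nat_lit 111)) (XT.nd (nat_lit 78) (nat_lit 0) (nat_lit 0) (XT.lf (nat_lit 0) (nat_lit 8919654995) (nat_lit 152) (nat_lit 19219952801) (nat_lit 228) (nat_lit 29589721162) (nat_lit 29) (nat_lit 5) (nat_lit 31) (nat_lit 5) (nat_lit 32) (nat_lit 5) (nat_lit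 383) (nat_lit 287) (nat_lit 110)) (XT.lf (nat_lit 0) (nat_lit 29817239571) (nat_lit 152) (nat_lit 7782873190) (nat_lit 228) (nat_lit 21505344284) (nat_lit 29) (nat_lit 5) (nat_lit 31) (nat_lit 5) (nat_lit 32) (nat_lit 5) (nat_lit 384) (nat_lit 287) (nat_lit 109)))) (XT.nd (nat_lit 156) (nat_lit 76) (nat_lit 0) (XT.nd (nat_lit 78) (nat_lit 76) (nat_lit 0) (XT.lf (nat_lit 0) (nat_lit 47379261315) (nat_lit 228) (nat_lit 9225867483) (nat_lit 76) (nat_lit 3916696748) (nat_lit 29) (nat_lit 5) (nat_lit 32) (nat_lit 5) (nat_lit 30) (nat_lit 4) (nat_lit 385) (nat_lit 287) (nat_lit 108)) (XT.lf (nat_lit 0) (nat_lit 11581143397) (nat_lit 76) (nat_lit 46055532621) (nat_lit 152) (nat_lit 4338463716) (nat_lit 28) (nat_lit 5) (nat_lit 29) (nat_lit 5) (nat_lit 30) (nat_lit 4) (nat_lit 386) (nat_lit 287) (nat_lit 107))) (XT.nd (nat_lit 78) (nat_lit 0) (nat_lit 0) (XT.lf (nat_lit 0) (nat_lit 4728067034) (nat_lit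 152) (nat_lit 30320312071) (nat_lit 76) (nat_lit 28419593530) (nat_lit 27) (nat_lit 5) (nat_lit 29) (nat_lit 5) (nat_lit 28) (nat_lit 5) (nat_lit 387) (nat_lit 287) (nat_lit 106)) (XT.lf (nat_lit 0) (nat_lit 13976012641) (nat_lit 152) (nat_lit 9693344896) (nat_lit 76) (nat_lit 41335047068) (nat_lit 27) (nat_lit 5) (nat_lit 29) (nat_lit 5) (nat_lit 28) (nat_lit 5) (nat_lit 388) (nat_lit 287) (nat_lit 105))))) (XT.nd (nat_lit 234) (nat_lit 304) (nat_lit 0) (XT.nd (nat_lit 78) (nat_lit 0) (nat_lit 0) (XT.lf (nat_lit 0) (nat_lit 11776433351) (nat_lit 152) (nat_lit 11834881816) (nat_lit 228) (nat_lit 42972318039) (nat_lit 25) (nat_lit 5) (nat_lit 27) (nat_lit 5) (nat_lit 28) (nat_lit 5) (nat_lit 389) (nat_lit 287) (nat_lit 104)) (XT.nd (nat_lit 78) (nat_lit 0) (nat_lit 0) (XT.lf (nat_lit 0) (nat_lit 33634671298) (nat_lit 228) (nat_lit 34128487390) (nat_lit 76) (nat_lit 444111334) (nat_lit 25) (nat_lit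 5) (nat_lit 28) (nat_lit 5) (nat_lit 26) (nat_lit 4) (nat_lit 390) (nat_lit 287) (nat_lit 103)) (XT.lf (nat_lit 0) (nat_lit 44072733028) (nat_lit 228) (nat_lit 12952237395) (nat_lit 76) (nat_lit 12851226530) (nat_lit 25) (nat_lit 5) (nat_lit 28) (nat_lit 5) (nat_lit 26) (nat_lit 4) (nat_lit 391) (nat_lit 287) (nat_lit 102)))) (XT.nd (nat_lit 156) (nat_lit 228) (nat_lit 0) (XT.nd (nat_lit 78) (nat_lit 0) (nat_lit 0) (XT.lf (nat_lit 0) (nat_lit 9030026105) (nat_lit 76) (nat_lit 45877632898) (nat_lit 152) (nat_lit 16685022142) (nat_lit 24) (nat_lit 5) (nat_lit 25) (nat_lit 5) (nat_lit 26) (nat_lit 4) (nat_lit 392) (nat_lit 287) (nat_lit 101)) (XT.lf (nat_lit 0) (nat_lit 31931837100) (nat_lit 76) (nat_lit 34263545636) (nat_lit 152) (nat_lit 7161445720) (nat_lit 24) (nat_lit 5) (nat_lit 25) (nat_lit 5) (nat_lit 26) (nat_lit 4) (nat_lit 393) (nat_lit 287) (nat_lit 100))) (XT.nd (nat_lit 78) (nat_lit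 152) (nat_lit 0) (XT.lf (nat_lit 0) (nat_lit 2593185241) (nat_lit 152) (nat_lit 19683981281) (nat_lit 76) (nat_lit 52896060631) (nat_lit 23) (nat_lit 5) (nat_lit 25) (nat_lit 5) (nat_lit 24) (nat_lit 5) (nat_lit 394) (nat_lit 287) (nat_lit 99)) (XT.lf (nat_lit 0) (nat_lit 2685583488) (nat_lit 152) (nat_lit 9833852158) (nat_lit 228) (nat_lit 64521868447) (nat_lit 21) (nat_lit 5) (nat_lit 23) (nat_lit 5) (nat_lit 24) (nat_lit 5) (nat_lit 395) (nat_lit 287) (nat_lit 98))))))) (XT.nd (nat_lit 32682) (nat_lit 0) (nat_lit 12920) (XT.nd (nat_lit 546) (nat_lit 152) (nat_lit 0) (XT.nd (nat_lit 234) (nat_lit 152) (nat_lit 0) (XT.nd (nat_lit 78) (nat_lit 0) (nat_lit 0) (XT.lf (nat_lit 0) (nat_lit 22969999699) (nat_lit 228) (nat_lit 52865552823) (nat_lit 76) (nat_lit 3123076006) (nat_lit 21) (nat_lit 5) (nat_lit 24) (nat_lit 5) (nat_lit 22) (nat_lit 4) (nat_lit 396) (nat_lit 287) (nat_lit 97)) (XT.nd (nat_lit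 78) (nat_lit 0) (nat_lit 0) (XT.lf (nat_lit 0) (nat_lit 33828645909) (nat_lit 228) (nat_lit 30833083661) (nat_lit 76) (nat_lit 16268907112) (nat_lit 21) (nat_lit 5) (nat_lit 24) (nat_lit 5) (nat_lit 22) (nat_lit 4) (nat_lit 397) (nat_lit 287) (nat_lit 96)) (XT.lf (nat_lit 0) (nat_lit 45010333411) (nat_lit 228) (nat_lit 8144532443) (nat_lit 76) (nat_lit 29807021682) (nat_lit 21) (nat_lit 5) (nat_lit 24) (nat_lit 5) (nat_lit 22) (nat_lit 4) (nat_lit 398) (nat_lit 287) (nat_lit 95)))) (XT.nd (nat_lit 156) (nat_lit 76) (nat_lit 0) (XT.nd (nat_lit 78) (nat_lit 0) (nat_lit 0) (XT.lf (nat_lit 0) (nat_lit 15522832143) (nat_lit 76) (nat_lit 41151215426) (nat_lit 152) (nat_lit 28375631954) (nat_lit 20) (nat_lit 5) (nat_lit 21) (nat_lit 5) (nat_lit 22) (nat_lit 4) (nat_lit 399) (nat_lit 287) (nat_lit 94)) (XT.lf (nat_lit 0) (nat_lit 40062469628) (nat_lit 76) (nat_lit 28704840061) (nat_lit 152) (nat_lit 18430407347)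 (nat_lit 20) (nat_lit 5) (nat_lit 21) (nat_lit 5) (nat_lit 22) (nat_lit 4) (nat_lit 400) (nat_lit 287) (nat_lit 93))) (XT.nd (nat_lit 78) (nat_lit 76) (nat_lit 0) (XT.lf (nat_lit 0) (nat_lit 65333730248) (nat_lit 76) (nat_lit 15887108092) (nat_lit 152) (nat_lit 8189434111) (nat_lit 20) (nat_lit 5) (nat_lit 21) (nat_lit 5) (nat_lit 22) (nat_lit 4) (nat_lit 401) (nat_lit 287) (nat_lit 92)) (XT.lf (nat_lit 0) (nat_lit 2310257521) (nat_lit 152) (nat_lit 353232966) (nat_lit 76) (nat_lit 89025109094) (nat_lit 19) (nat_lit 5) (nat_lit 21) (nat_lit 5) (nat_lit 20) (nat_lit 5) (nat_lit 402) (nat_lit 287) (nat_lit 91))))) (XT.nd (nat_lit 31824) (nat_lit 0) (nat_lit 14744) (XT.nd (nat_lit 31668) (nat_lit 0) (nat_lit 15808) (XT.lf (nat_lit 0) (nat_lit 13301625429) (nat_lit 228) (nat_lit 69660382961) (nat_lit 76) (nat_lit 11060597845) (nat_lit 17) (nat_lit 5) (nat_lit 20) (nat_lit 5) (nat_lit 18) (nat_lit 4)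 (nat_lit 403) (nat_lit 287) (nat_lit 90)) (XT.nd (nat_lit 78) (nat_lit 0) (nat_lit 0) (XT.lf (nat_lit 0) (nat_lit 2210915290) (nat_lit 0) (nat_lit 2210915290) (nat_lit 988) (nat_lit 504093789) (nat_lit 225) (nat_lit 5) (nat_lit 225) (nat_lit 3) (nat_lit 238) (nat_lit 3) (nat_lit 288) (nat_lit 288) (nat_lit 204)) (XT.lf (nat_lit 0) (nat_lit 9048287473) (nat_lit 0) (nat_lit 618688040) (nat_lit 988) (nat_lit 311042399) (nat_lit 225) (nat_lit 5) (nat_lit 225) (nat_lit 3) (nat_lit 238) (nat_lit 3) (nat_lit 289) (nat_lit 288) (nat_lit 203)))) (XT.nd (nat_lit 156) (nat_lit 0) (nat_lit 76) (XT.nd (nat_lit 78) (nat_lit 0) (nat_lit 0) (XT.lf (nat_lit 0) (nat_lit 440203576) (nat_lit 1064) (nat_lit 6378862273) (nat_lit 1140) (nat_lit 3287588745) (nat_lit 211) (nat_lit 5) (nat_lit 225) (nat_lit 5) (nat_lit 226) (nat_lit 5) (nat_lit 290) (nat_lit 288) (nat_lit 202)) (XT.lf (nat_lit 0) (nat_lit 1196868896) (nat_lit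 1064) (nat_lit 1718935628) (nat_lit 1140) (nat_lit 7323612151) (nat_lit 211) (nat_lit 5) (nat_lit 225) (nat_lit 5) (nat_lit 226) (nat_lit 5) (nat_lit 291) (nat_lit 288) (nat_lit 201))) (XT.nd (nat_lit 78) (nat_lit 0) (nat_lit 0) (XT.lf (nat_lit 0) (nat_lit 1991617722) (nat_lit 1064) (nat_lit 7259705884) (nat_lit 1140) (nat_lit 1124408250) (nat_lit 212) (nat_lit 5) (nat_lit 226) (nat_lit 5) (nat_lit 227) (nat_lit 5) (nat_lit 292) (nat_lit 288) (nat_lit 200)) (XT.lf (nat_lit 0) (nat_lit 2831620758) (nat_lit 1064) (nat_lit 2428564855) (nat_lit 1140) (nat_lit 5255339344) (nat_lit 212) (nat_lit 5) (nat_lit 226) (nat_lit 5) (nat_lit 227) (nat_lit 5) (nat_lit 293) (nat_lit 288) (nat_lit 199)))))) (XT.nd (nat_lit 546) (nat_lit 1900) (nat_lit 0) (XT.nd (nat_lit 234) (nat_lit 0) (nat_lit 152) (XT.nd (nat_lit 78) (nat_lit 0) (nat_lit 76) (XT.lf (nat_lit 76) (nat_lit 2583178881) (nat_lit 0) (nat_lit 1114216539)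 (nat_lit 1140) (nat_lit 6962129206) (nat_lit 213) (nat_lit 5) (nat_lit 212) (nat_lit 5) (nat_lit 227) (nat_lit 5) (nat_lit 294) (nat_lit 288) (nat_lit 198)) (XT.nd (nat_lit 78) (nat_lit 0) (nat_lit 0) (XT.lf (nat_lit 0) (nat_lit 4620642752) (nat_lit 1064) (nat_lit 3058053384) (nat_lit 1140) (nat_lit 3128232216) (nat_lit 213) (nat_lit 5) (nat_lit 227) (nat_lit 5) (nat_lit 228) (nat_lit 5) (nat_lit 295) (nat_lit 288) (nat_lit 197)) (XT.lf (nat_lit 76) (nat_lit 2126274889) (nat_lit 0) (nat_lit 3453865271) (nat_lit 1140) (nat_lit 5378385654) (nat_lit 214) (nat_lit 5) (nat_lit 213) (nat_lit 5) (nat_lit 228) (nat_lit 5) (nat_lit 296) (nat_lit 288) (nat_lit 196)))) (XT.nd (nat_lit 156) (nat_lit 0) (nat_lit 0) (XT.nd (nat_lit 78) (nat_lit 0) (nat_lit 0) (XT.lf (nat_lit 0) (nat_lit 6585917433) (nat_lit 1064) (nat_lit 3609457203) (nat_lit 1140) (nat_lit 918799097) (nat_lit 214) (nat_lit 5) (nat_lit 228)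 (nat_lit 5) (nat_lit 229) (nat_lit 5) (nat_lit 297) (nat_lit 288) (nat_lit 195)) (XT.lf (nat_lit 76) (nat_lit 1754925425) (nat_lit 0) (nat_lit 5896338324) (nat_lit 1140) (nat_lit 3622372054) (nat_lit 215) (nat_lit 5) (nat_lit 214) (nat_lit 5) (nat_lit 229) (nat_lit 5) (nat_lit 298) (nat_lit 288) (nat_lit 194))) (XT.nd (nat_lit 78) (nat_lit 0) (nat_lit 76) (XT.lf (nat_lit 76) (nat_lit 7339235191) (nat_lit 0) (nat_lit 1424600363) (nat_lit 1140) (nat_lit 2673614037) (nat_lit 215) (nat_lit 5) (nat_lit 214) (nat_lit 5) (nat_lit 229) (nat_lit 5) (nat_lit 299) (nat_lit 288) (nat_lit 193)) (XT.lf (nat_lit 76) (nat_lit 1467698291) (nat_lit 0) (nat_lit 8466266546) (nat_lit 1140) (nat_lit 1671512604) (nat_lit 216) (nat_lit 5) (nat_lit 215) (nat_lit 5) (nat_lit 230) (nat_lit 5) (nat_lit 300) (nat_lit 288) (nat_lit 192))))) (XT.nd (nat_lit 234) (nat_lit 1064) (nat_lit 0) (XT.nd (nat_lit 78) (nat_lit 1064) (nat_lit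 0) (XT.lf (nat_lit 76) (nat_lit 7255103915) (nat_lit 0) (nat_lit 3919388200) (nat_lit 1140) (nat_lit 603019517) (nat_lit 216) (nat_lit 5) (nat_lit 215) (nat_lit 5) (nat_lit 230) (nat_lit 5) (nat_lit 301) (nat_lit 288) (nat_lit 191)) (XT.nd (nat_lit 78) (nat_lit 0) (nat_lit 0) (XT.lf (nat_lit 0) (nat_lit 487858852) (nat_lit 1140) (nat_lit 10696098069) (nat_lit 1216) (nat_lit 770628211) (nat_lit 201) (nat_lit 5) (nat_lit 216) (nat_lit 5) (nat_lit 217) (nat_lit 5) (nat_lit 302) (nat_lit 288) (nat_lit 190)) (XT.lf (nat_lit 0) (nat_lit 1665052076) (nat_lit 1140) (nat_lit 4890892251) (nat_lit 1216) (nat_lit 5578898402) (nat_lit 201) (nat_lit 5) (nat_lit 216) (nat_lit 5) (nat_lit 217) (nat_lit 5) (nat_lit 303) (nat_lit 288) (nat_lit 189)))) (XT.nd (nat_lit 156) (nat_lit 1064) (nat_lit 0) (XT.nd (nat_lit 78) (nat_lit 0) (nat_lit 76) (XT.lf (nat_lit 76) (nat_lit 1094708551) (nat_lit 0) (nat_lit 1774718437)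 (nat_lit 1216) (nat_lit 9451346704) (nat_lit 202) (nat_lit 5) (nat_lit 201) (nat_lit 5) (nat_lit 217) (nat_lit 5) (nat_lit 304) (nat_lit 288) (nat_lit 188)) (XT.lf (nat_lit 0) (nat_lit 4171863664) (nat_lit 1140) (nat_lit 5197008149) (nat_lit 76) (nat_lit 3141573842) (nat_lit 202) (nat_lit 5) (nat_lit 217) (nat_lit 5) (nat_lit 203) (nat_lit 5) (nat_lit 305) (nat_lit 288) (nat_lit 187))) (XT.nd (nat_lit 78) (nat_lit 0) (nat_lit 0) (XT.lf (nat_lit 0) (nat_lit 999736270) (nat_lit 1140) (nat_lit 4523123481) (nat_lit 1216) (nat_lit 7182683811) (nat_lit 187) (nat_lit 5) (nat_lit 202) (nat_lit 5) (nat_lit 203) (nat_lit 5) (nat_lit 306) (nat_lit 288) (nat_lit 186)) (XT.lf (nat_lit 0) (nat_lit 6954582417) (nat_lit 1216) (nat_lit 5436556812) (nat_lit 76) (nat_lit 514169057) (nat_lit 187) (nat_lit 5) (nat_lit 203) (nat_lit 5) (nat_lit 188) (nat_lit 5) (nat_lit 307) (nat_lit 288) (nat_lit 185))))))))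
noncomputable def xc172 : XT := (XT.nd (nat_lit 2106) (nat_lit 3496) (nat_lit 0) (XT.nd (nat_lit 1014) (nat_lit 2888) (nat_lit 0) (XT.nd (nat_lit 468) (nat_lit 2052) (nat_lit 0) (XT.nd (nat_lit 234) (nat_lit 608) (nat_lit 0) (XT.nd (nat_lit 78) (nat_lit 608) (nat_lit 0) (XT.lf (nat_lit 0) (nat_lit 980029045) (nat_lit 684) (nat_lit 7486634502) (nat_lit 760) (nat_lit 4643299408) (nat_lit 178) (nat_lit 5) (nat_lit 187) (nat_lit 5) (nat_lit 188) (nat_lit 5) (nat_lit 308) (nat_lit 288) (nat_lit 184)) (XT.nd (nat_lit 78) (nat_lit 608) (nat_lit 0) (XT.lf (nat_lit 0) (nat_lit 7685621799) (nat_lit 684) (nat_lit 2376932299) (nat_lit 760) (nat_lit 3257068400) (nat_lit 178) (nat_lit 5) (nat_lit 187) (nat_lit 5) (nat_lit 188) (nat_lit 5) (nat_lit 309) (nat_lit 288) (nat_lit 183)) (XT.lf (nat_lit 0) (nat_lit 1034238439) (nat_lit 608) (nat_lit 10693808994) (nat_lit 684) (nat_lit 1806890716) (nat_lit 170) (nat_lit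 5) (nat_lit 178) (nat_lit 5) (nat_lit 179) (nat_lit 5) (nat_lit 310) (nat_lit 288) (nat_lit 182)))) (XT.nd (nat_lit 78) (nat_lit 608) (nat_lit 0) (XT.lf (nat_lit 0) (nat_lit 7979149855) (nat_lit 608) (nat_lit 5528915004) (nat_lit 684) (nat_lit 246729207) (nat_lit 170) (nat_lit 5) (nat_lit 178) (nat_lit 5) (nat_lit 179) (nat_lit 5) (nat_lit 311) (nat_lit 288) (nat_lit 181)) (XT.nd (nat_lit 78) (nat_lit 0) (nat_lit 0) (XT.lf (nat_lit 0) (nat_lit 1145690957) (nat_lit 532) (nat_lit 183668208) (nat_lit 608) (nat_lit 12651640844) (nat_lit 162) (nat_lit 5) (nat_lit 169) (nat_lit 5) (nat_lit 170) (nat_lit 5) (nat_lit 312) (nat_lit 288) (nat_lit 180)) (XT.lf (nat_lit 0) (nat_lit 3042791841) (nat_lit 608) (nat_lit 5888439212) (nat_lit 76) (nat_lit 5279853256) (nat_lit 162) (nat_lit 5) (nat_lit 170) (nat_lit 5) (nat_lit 163) (nat_lit 5) (nat_lit 313) (nat_lit 288) (nat_lit 179))))) (XT.nd (nat_lit 234) (nat_lit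 1064) (nat_lit 0) (XT.nd (nat_lit 78) (nat_lit 456) (nat_lit 0) (XT.lf (nat_lit 0) (nat_lit 1275262445) (nat_lit 532) (nat_lit 3531842954) (nat_lit 608) (nat_lit 9640997018) (nat_lit 155) (nat_lit 5) (nat_lit 162) (nat_lit 5) (nat_lit 163) (nat_lit 5) (nat_lit 314) (nat_lit 288) (nat_lit 178)) (XT.nd (nat_lit 78) (nat_lit 456) (nat_lit 0) (XT.lf (nat_lit 0) (nat_lit 6689592734) (nat_lit 608) (nat_lit 5950902618) (nat_lit 76) (nat_lit 2049793546) (nat_lit 155) (nat_lit 5) (nat_lit 163) (nat_lit 5) (nat_lit 156) (nat_lit 5) (nat_lit 315) (nat_lit 288) (nat_lit 177)) (XT.lf (nat_lit 0) (nat_lit 1466842643) (nat_lit 456) (nat_lit 7196882818) (nat_lit 532) (nat_lit 6274975107) (nat_lit 149) (nat_lit 5) (nat_lit 155) (nat_lit 5) (nat_lit 156) (nat_lit 5) (nat_lit 316) (nat_lit 288) (nat_lit 176)))) (XT.nd (nat_lit 156) (nat_lit 532) (nat_lit 0) (XT.nd (nat_lit 78) (nat_lit 532) (nat_lit 0) (XT.lf (nat_lit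 0) (nat_lit 9214745281) (nat_lit 456) (nat_lit 1528797918) (nat_lit 532) (nat_lit 4449641849) (nat_lit 149) (nat_lit 5) (nat_lit 155) (nat_lit 5) (nat_lit 156) (nat_lit 5) (nat_lit 317) (nat_lit 288) (nat_lit 175)) (XT.lf (nat_lit 0) (nat_lit 1717523694) (nat_lit 532) (nat_lit 11212924362) (nat_lit 608) (nat_lit 2523529103) (nat_lit 142) (nat_lit 5) (nat_lit 149) (nat_lit 5) (nat_lit 150) (nat_lit 5) (nat_lit 318) (nat_lit 288) (nat_lit 174))) (XT.nd (nat_lit 78) (nat_lit 532) (nat_lit 0) (XT.lf (nat_lit 0) (nat_lit 9737272620) (nat_lit 532) (nat_lit 5508054054) (nat_lit 608) (nat_lit 475408831) (nat_lit 142) (nat_lit 5) (nat_lit 149) (nat_lit 5) (nat_lit 150) (nat_lit 5) (nat_lit 319) (nat_lit 288) (nat_lit 173)) (XT.lf (nat_lit 0) (nat_lit 1612723608) (nat_lit 532) (nat_lit 13987109836) (nat_lit 76) (nat_lit 394890895) (nat_lit 135) (nat_lit 5) (nat_lit 142) (nat_lit 5) (nat_lit 136) (nat_lit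 5) (nat_lit 320) (nat_lit 288) (nat_lit 172)))))) (XT.nd (nat_lit 546) (nat_lit 1520) (nat_lit 0) (XT.nd (nat_lit 234) (nat_lit 912) (nat_lit 0) (XT.nd (nat_lit 78) (nat_lit 456) (nat_lit 0) (XT.lf (nat_lit 0) (nat_lit 3856972044) (nat_lit 532) (nat_lit 5988178045) (nat_lit 76) (nat_lit 6428563048) (nat_lit 135) (nat_lit 5) (nat_lit 142) (nat_lit 5) (nat_lit 136) (nat_lit 5) (nat_lit 321) (nat_lit 288) (nat_lit 171)) (XT.nd (nat_lit 78) (nat_lit 0) (nat_lit 0) (XT.lf (nat_lit 0) (nat_lit 2281358895) (nat_lit 456) (nat_lit 3896956339) (nat_lit 532) (nat_lit 10382475312) (nat_lit 129) (nat_lit 5) (nat_lit 135) (nat_lit 5) (nat_lit 136) (nat_lit 5) (nat_lit 322) (nat_lit 288) (nat_lit 170)) (XT.lf (nat_lit 0) (nat_lit 8639841632) (nat_lit 532) (nat_lit 5969061015) (nat_lit 76) (nat_lit 2245472964) (nat_lit 129) (nat_lit 5) (nat_lit 136) (nat_lit 5) (nat_lit 130) (nat_lit 5) (nat_lit 323) (nat_lit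 288) (nat_lit 169)))) (XT.nd (nat_lit 156) (nat_lit 532) (nat_lit 0) (XT.nd (nat_lit 78) (nat_lit 0) (nat_lit 0) (XT.lf (nat_lit 0) (nat_lit 2588869014) (nat_lit 380) (nat_lit 8638204883) (nat_lit 456) (nat_lit 5928149809) (nat_lit 124) (nat_lit 5) (nat_lit 129) (nat_lit 5) (nat_lit 130) (nat_lit 5) (nat_lit 324) (nat_lit 288) (nat_lit 168)) (XT.lf (nat_lit 0) (nat_lit 11512344864) (nat_lit 380) (nat_lit 2428452506) (nat_lit 456) (nat_lit 3522844600) (nat_lit 124) (nat_lit 5) (nat_lit 129) (nat_lit 5) (nat_lit 130) (nat_lit 5) (nat_lit 325) (nat_lit 288) (nat_lit 167))) (XT.nd (nat_lit 78) (nat_lit 76) (nat_lit 0) (XT.lf (nat_lit 0) (nat_lit 2927723806) (nat_lit 456) (nat_lit 13863401181) (nat_lit 532) (nat_lit 988542655) (nat_lit 118) (nat_lit 5) (nat_lit 124) (nat_lit 5) (nat_lit 125) (nat_lit 5) (nat_lit 326) (nat_lit 288) (nat_lit 166)) (XT.lf (nat_lit 0) (nat_lit 1663864085) (nat_lit 532)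 (nat_lit 5962065765) (nat_lit 76) (nat_lit 10476574888) (nat_lit 117) (nat_lit 5) (nat_lit 124) (nat_lit 5) (nat_lit 118) (nat_lit 5) (nat_lit 327) (nat_lit 288) (nat_lit 165))))) (XT.nd (nat_lit 234) (nat_lit 760) (nat_lit 0) (XT.nd (nat_lit 78) (nat_lit 380) (nat_lit 0) (XT.lf (nat_lit 0) (nat_lit 3234659442) (nat_lit 380) (nat_lit 1161716285) (nat_lit 456) (nat_lit 14037755281) (nat_lit 112) (nat_lit 5) (nat_lit 117) (nat_lit 5) (nat_lit 118) (nat_lit 5) (nat_lit 328) (nat_lit 288) (nat_lit 164)) (XT.nd (nat_lit 78) (nat_lit 380) (nat_lit 0) (XT.lf (nat_lit 0) (nat_lit 7313968353) (nat_lit 456) (nat_lit 6011180517) (nat_lit 76) (nat_lit 5447473475) (nat_lit 112) (nat_lit 5) (nat_lit 118) (nat_lit 5) (nat_lit 113) (nat_lit 5) (nat_lit 329) (nat_lit 288) (nat_lit 163)) (XT.lf (nat_lit 0) (nat_lit 3496523354) (nat_lit 380) (nat_lit 6857454364) (nat_lit 456) (nat_lit 8766253208) (nat_lit 107) (nat_lit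 5) (nat_lit 112) (nat_lit 5) (nat_lit 113) (nat_lit 5) (nat_lit 330) (nat_lit 288) (nat_lit 162)))) (XT.nd (nat_lit 156) (nat_lit 456) (nat_lit 0) (XT.nd (nat_lit 78) (nat_lit 304) (nat_lit 0) (XT.lf (nat_lit 0) (nat_lit 13399845212) (nat_lit 380) (nat_lit 135993780) (nat_lit 456) (nat_lit 5940918129) (nat_lit 107) (nat_lit 5) (nat_lit 112) (nat_lit 5) (nat_lit 113) (nat_lit 5) (nat_lit 331) (nat_lit 288) (nat_lit 161)) (XT.lf (nat_lit 0) (nat_lit 3751513401) (nat_lit 304) (nat_lit 13153163590) (nat_lit 380) (nat_lit 2936565130) (nat_lit 103) (nat_lit 5) (nat_lit 107) (nat_lit 5) (nat_lit 108) (nat_lit 5) (nat_lit 332) (nat_lit 288) (nat_lit 160))) (XT.nd (nat_lit 78) (nat_lit 380) (nat_lit 0) (XT.lf (nat_lit 0) (nat_lit 208433249) (nat_lit 380) (nat_lit 6231745241) (nat_lit 76) (nat_lit 13774837900) (nat_lit 102) (nat_lit 5) (nat_lit 107) (nat_lit 5) (nat_lit 103) (nat_lit 5) (nat_lit 333) (nat_lit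 288) (nat_lit 159)) (XT.lf (nat_lit 0) (nat_lit 3422557806) (nat_lit 456) (nat_lit 16645785165) (nat_lit 76) (nat_lit 529782632) (nat_lit 97) (nat_lit 5) (nat_lit 103) (nat_lit 5) (nat_lit 98) (nat_lit 5) (nat_lit 334) (nat_lit 288) (nat_lit 158))))))) (XT.nd (nat_lit 1092) (nat_lit 1368) (nat_lit 0) (XT.nd (nat_lit 546) (nat_lit 1140) (nat_lit 0) (XT.nd (nat_lit 234) (nat_lit 684) (nat_lit 0) (XT.nd (nat_lit 78) (nat_lit 304) (nat_lit 0) (XT.lf (nat_lit 0) (nat_lit 6851109619) (nat_lit 456) (nat_lit 6498110511) (nat_lit 76) (nat_lit 7639975540) (nat_lit 97) (nat_lit 5) (nat_lit 103) (nat_lit 5) (nat_lit 98) (nat_lit 5) (nat_lit 335) (nat_lit 288) (nat_lit 157)) (XT.nd (nat_lit 78) (nat_lit 0) (nat_lit 0) (XT.lf (nat_lit 0) (nat_lit 4020233490) (nat_lit 304) (nat_lit 6391888579) (nat_lit 380) (nat_lit 10978995106) (nat_lit 93) (nat_lit 5) (nat_lit 97) (nat_lit 5) (nat_lit 98) (nat_lit 5) (nat_lit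 336) (nat_lit 288) (nat_lit 156)) (XT.lf (nat_lit 0) (nat_lit 14144749996) (nat_lit 380) (nat_lit 6836220229) (nat_lit 76) (nat_lit 822189786) (nat_lit 93) (nat_lit 5) (nat_lit 98) (nat_lit 5) (nat_lit 94) (nat_lit 5) (nat_lit 337) (nat_lit 288) (nat_lit 155)))) (XT.nd (nat_lit 156) (nat_lit 380) (nat_lit 0) (XT.nd (nat_lit 78) (nat_lit 0) (nat_lit 0) (XT.lf (nat_lit 0) (nat_lit 4017620848) (nat_lit 304) (nat_lit 14064977221) (nat_lit 380) (nat_lit 4142175854) (nat_lit 89) (nat_lit 5) (nat_lit 93) (nat_lit 5) (nat_lit 94) (nat_lit 5) (nat_lit 338) (nat_lit 288) (nat_lit 154)) (XT.lf (nat_lit 0) (nat_lit 15325355859) (nat_lit 304) (nat_lit 6873731986) (nat_lit 380) (nat_lit 458140045) (nat_lit 89) (nat_lit 5) (nat_lit 93) (nat_lit 5) (nat_lit 94) (nat_lit 5) (nat_lit 339) (nat_lit 288) (nat_lit 153))) (XT.nd (nat_lit 78) (nat_lit 0) (nat_lit 0) (XT.lf (nat_lit 0) (nat_lit 3306236928) (nat_lit 380)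 (nat_lit 19204554235) (nat_lit 76) (nat_lit 589860829) (nat_lit 84) (nat_lit 5) (nat_lit 89) (nat_lit 5) (nat_lit 85) (nat_lit 5) (nat_lit 340) (nat_lit 288) (nat_lit 152)) (XT.lf (nat_lit 0) (nat_lit 7308898487) (nat_lit 380) (nat_lit 8029072030) (nat_lit 76) (nat_lit 8215241621) (nat_lit 84) (nat_lit 5) (nat_lit 89) (nat_lit 5) (nat_lit 85) (nat_lit 5) (nat_lit 341) (nat_lit 288) (nat_lit 151))))) (XT.nd (nat_lit 234) (nat_lit 608) (nat_lit 0) (XT.nd (nat_lit 78) (nat_lit 228) (nat_lit 0) (XT.lf (nat_lit 0) (nat_lit 3539291061) (nat_lit 304) (nat_lit 7918345523) (nat_lit 380) (nat_lit 12560938667) (nat_lit 80) (nat_lit 5) (nat_lit 84) (nat_lit 5) (nat_lit 85) (nat_lit 5) (nat_lit 342) (nat_lit 288) (nat_lit 150)) (XT.nd (nat_lit 78) (nat_lit 228) (nat_lit 0) (XT.lf (nat_lit 0) (nat_lit 15607957490) (nat_lit 304) (nat_lit 196056858) (nat_lit 380) (nat_lit 8691695472) (nat_lit 80) (nat_lit 5) (nat_lit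 84) (nat_lit 5) (nat_lit 85) (nat_lit 5) (nat_lit 343) (nat_lit 288) (nat_lit 149)) (XT.lf (nat_lit 0) (nat_lit 3024766631) (nat_lit 228) (nat_lit 17351964092) (nat_lit 304) (nat_lit 4607555001) (nat_lit 77) (nat_lit 5) (nat_lit 80) (nat_lit 5) (nat_lit 81) (nat_lit 5) (nat_lit 344) (nat_lit 288) (nat_lit 148)))) (XT.nd (nat_lit 156) (nat_lit 228) (nat_lit 0) (XT.nd (nat_lit 78) (nat_lit 380) (nat_lit 0) (XT.lf (nat_lit 0) (nat_lit 15463772217) (nat_lit 228) (nat_lit 9706942701) (nat_lit 304) (nat_lit 314286946) (nat_lit 77) (nat_lit 5) (nat_lit 80) (nat_lit 5) (nat_lit 81) (nat_lit 5) (nat_lit 345) (nat_lit 288) (nat_lit 147)) (XT.lf (nat_lit 0) (nat_lit 2269070306) (nat_lit 304) (nat_lit 1772921020) (nat_lit 380) (nat_lit 21957137706) (nat_lit 72) (nat_lit 5) (nat_lit 76) (nat_lit 5) (nat_lit 77) (nat_lit 5) (nat_lit 346) (nat_lit 288) (nat_lit 146))) (XT.nd (nat_lit 78) (nat_lit 228) (nat_lit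 0) (XT.lf (nat_lit 0) (nat_lit 8678987260) (nat_lit 380) (nat_lit 11468779129) (nat_lit 76) (nat_lit 6376134968) (nat_lit 72) (nat_lit 5) (nat_lit 77) (nat_lit 5) (nat_lit 73) (nat_lit 5) (nat_lit 347) (nat_lit 288) (nat_lit 145)) (XT.lf (nat_lit 0) (nat_lit 1154623176) (nat_lit 228) (nat_lit 12321974164) (nat_lit 304) (nat_lit 13587179314) (nat_lit 69) (nat_lit 5) (nat_lit 72) (nat_lit 5) (nat_lit 73) (nat_lit 5) (nat_lit 348) (nat_lit 288) (nat_lit 144)))))) (XT.nd (nat_lit 546) (nat_lit 608) (nat_lit 0) (XT.nd (nat_lit 234) (nat_lit 456) (nat_lit 0) (XT.nd (nat_lit 78) (nat_lit 304) (nat_lit 0) (XT.lf (nat_lit 0) (nat_lit 14381238247) (nat_lit 228) (nat_lit 4145667733) (nat_lit 304) (nat_lit 9089683908) (nat_lit 69) (nat_lit 5) (nat_lit 72) (nat_lit 5) (nat_lit 73) (nat_lit 5) (nat_lit 349) (nat_lit 288) (nat_lit 143)) (XT.nd (nat_lit 78) (nat_lit 304) (nat_lit 0) (XT.lf (nat_lit 0) (nat_lit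 23762956803) (nat_lit 304) (nat_lit 232894885) (nat_lit 76) (nat_lit 4189113493) (nat_lit 69) (nat_lit 5) (nat_lit 73) (nat_lit 5) (nat_lit 70) (nat_lit 5) (nat_lit 350) (nat_lit 288) (nat_lit 142)) (XT.lf (nat_lit 0) (nat_lit 542669914) (nat_lit 304) (nat_lit 15401508600) (nat_lit 76) (nat_lit 12821171407) (nat_lit 65) (nat_lit 5) (nat_lit 69) (nat_lit 5) (nat_lit 66) (nat_lit 5) (nat_lit 351) (nat_lit 288) (nat_lit 141)))) (XT.nd (nat_lit 156) (nat_lit 228) (nat_lit 0) (XT.nd (nat_lit 78) (nat_lit 228) (nat_lit 0) (XT.lf (nat_lit 0) (nat_lit 5563144086) (nat_lit 304) (nat_lit 2043816118) (nat_lit 76) (nat_lit 21755004777) (nat_lit 65) (nat_lit 5) (nat_lit 69) (nat_lit 5) (nat_lit 66) (nat_lit 5) (nat_lit 352) (nat_lit 288) (nat_lit 140)) (XT.lf (nat_lit 0) (nat_lit 10853063507) (nat_lit 304) (nat_lit 18046098497) (nat_lit 76) (nat_lit 1073755690) (nat_lit 62) (nat_lit 5) (nat_lit 66) (nat_lit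 5) (nat_lit 63) (nat_lit 5) (nat_lit 353) (nat_lit 288) (nat_lit 139))) (XT.nd (nat_lit 78) (nat_lit 228) (nat_lit 0) (XT.lf (nat_lit 0) (nat_lit 16391452304) (nat_lit 304) (nat_lit 4328587300) (nat_lit 76) (nat_lit 9879470239) (nat_lit 62) (nat_lit 5) (nat_lit 66) (nat_lit 5) (nat_lit 63) (nat_lit 5) (nat_lit 354) (nat_lit 288) (nat_lit 138)) (XT.lf (nat_lit 0) (nat_lit 9985638514) (nat_lit 228) (nat_lit 12200140840) (nat_lit 304) (nat_lit 9056430696) (nat_lit 59) (nat_lit 5) (nat_lit 62) (nat_lit 5) (nat_lit 63) (nat_lit 5) (nat_lit 355) (nat_lit 288) (nat_lit 137))))) (XT.nd (nat_lit 234) (nat_lit 380) (nat_lit 0) (XT.nd (nat_lit 78) (nat_lit 228) (nat_lit 0) (XT.lf (nat_lit 0) (nat_lit 24808451176) (nat_lit 228) (nat_lit 3383082424) (nat_lit 304) (nat_lit 3711533522) (nat_lit 59) (nat_lit 5) (nat_lit 62) (nat_lit 5) (nat_lit 63) (nat_lit 5) (nat_lit 356) (nat_lit 288) (nat_lit 136)) (XT.nd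 (nat_lit 78) (nat_lit 0) (nat_lit 0) (XT.lf (nat_lit 0) (nat_lit 1881543081) (nat_lit 228) (nat_lit 25022741137) (nat_lit 76) (nat_lit 5675266953) (nat_lit 56) (nat_lit 5) (nat_lit 59) (nat_lit 5) (nat_lit 57) (nat_lit 5) (nat_lit 357) (nat_lit 288) (nat_lit 135)) (XT.lf (nat_lit 0) (nat_lit 7667715819) (nat_lit 228) (nat_lit 10561393641) (nat_lit 76) (nat_lit 15043124246) (nat_lit 56) (nat_lit 5) (nat_lit 59) (nat_lit 5) (nat_lit 57) (nat_lit 5) (nat_lit 358) (nat_lit 288) (nat_lit 134)))) (XT.nd (nat_lit 156) (nat_lit 152) (nat_lit 0) (XT.nd (nat_lit 78) (nat_lit 0) (nat_lit 0) (XT.lf (nat_lit 0) (nat_lit 4410666572) (nat_lit 228) (nat_lit 9253433430) (nat_lit 304) (nat_lit 20320501284) (nat_lit 53) (nat_lit 5) (nat_lit 56) (nat_lit 5) (nat_lit 57) (nat_lit 5) (nat_lit 359) (nat_lit 288) (nat_lit 133)) (XT.lf (nat_lit 0) (nat_lit 19942275427) (nat_lit 304) (nat_lit 14676974676) (nat_lit 76) (nat_lit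 96036059) (nat_lit 53) (nat_lit 5) (nat_lit 57) (nat_lit 5) (nat_lit 54) (nat_lit 5) (nat_lit 360) (nat_lit 288) (nat_lit 132))) (XT.nd (nat_lit 78) (nat_lit 0) (nat_lit 0) (XT.lf (nat_lit 0) (nat_lit 577569065) (nat_lit 152) (nat_lit 25922839866) (nat_lit 228) (nat_lit 8964737434) (nat_lit 51) (nat_lit 5) (nat_lit 53) (nat_lit 5) (nat_lit 54) (nat_lit 5) (nat_lit 361) (nat_lit 288) (nat_lit 131)) (XT.lf (nat_lit 0) (nat_lit 16581723328) (nat_lit 152) (nat_lit 16816290908) (nat_lit 228) (nat_lit 2835209377) (nat_lit 51) (nat_lit 5) (nat_lit 53) (nat_lit 5) (nat_lit 54) (nat_lit 5) (nat_lit 362) (nat_lit 288) (nat_lit 130))))))))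
noncomputable def xc173 : XT := (XT.nd (nat_lit 2184) (nat_lit 456) (nat_lit 0) (XT.nd (nat_lit 1092) (nat_lit 760) (nat_lit 0) (XT.nd (nat_lit 546) (nat_lit 532) (nat_lit 0) (XT.nd (nat_lit 234) (nat_lit 380) (nat_lit 0) (XT.nd (nat_lit 78) (nat_lit 228) (nat_lit 0) (XT.lf (nat_lit 0) (nat_lit 3404955379) (nat_lit 228) (nat_lit 4000515965) (nat_lit 76) (nat_lit 29618032996) (nat_lit 50) (nat_lit 5) (nat_lit 53) (nat_lit 5) (nat_lit 51) (nat_lit 5) (nat_lit 363) (nat_lit 288) (nat_lit 129)) (XT.nd (nat_lit 78) (nat_lit 0) (nat_lit 0) (XT.lf (nat_lit 0) (nat_lit 9911995020) (nat_lit 304) (nat_lit 25532741924) (nat_lit 76) (nat_lit 2387817569) (nat_lit 47) (nat_lit 5) (nat_lit 51) (nat_lit 5) (nat_lit 48) (nat_lit 5) (nat_lit 364) (nat_lit 288) (nat_lit 128)) (XT.lf (nat_lit 0) (nat_lit 16723184452) (nat_lit 304) (nat_lit 9575756618) (nat_lit 76) (nat_lit 12363669695) (nat_lit 47) (nat_lit 5) (nat_lit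 51) (nat_lit 5) (nat_lit 48) (nat_lit 5) (nat_lit 365) (nat_lit 288) (nat_lit 127)))) (XT.nd (nat_lit 156) (nat_lit 228) (nat_lit 0) (XT.nd (nat_lit 78) (nat_lit 0) (nat_lit 0) (XT.lf (nat_lit 0) (nat_lit 6988019552) (nat_lit 152) (nat_lit 16812833776) (nat_lit 228) (nat_lit 15714853714) (nat_lit 45) (nat_lit 5) (nat_lit 47) (nat_lit 5) (nat_lit 48) (nat_lit 5) (nat_lit 366) (nat_lit 288) (nat_lit 126)) (XT.lf (nat_lit 0) (nat_lit 24236803681) (nat_lit 152) (nat_lit 6945783270) (nat_lit 228) (nat_lit 9209059789) (nat_lit 45) (nat_lit 5) (nat_lit 47) (nat_lit 5) (nat_lit 48) (nat_lit 5) (nat_lit 367) (nat_lit 288) (nat_lit 125))) (XT.nd (nat_lit 78) (nat_lit 76) (nat_lit 0) (XT.lf (nat_lit 0) (nat_lit 683521269) (nat_lit 152) (nat_lit 38134900809) (nat_lit 228) (nat_lit 2474465565) (nat_lit 43) (nat_lit 5) (nat_lit 45) (nat_lit 5) (nat_lit 46) (nat_lit 5) (nat_lit 368) (nat_lit 288) (nat_lit 124))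 (XT.lf (nat_lit 0) (nat_lit 4603778275) (nat_lit 228) (nat_lit 23979451506) (nat_lit 76) (nat_lit 13629791012) (nat_lit 42) (nat_lit 5) (nat_lit 45) (nat_lit 5) (nat_lit 43) (nat_lit 5) (nat_lit 369) (nat_lit 288) (nat_lit 123))))) (XT.nd (nat_lit 234) (nat_lit 380) (nat_lit 0) (XT.nd (nat_lit 78) (nat_lit 152) (nat_lit 0) (XT.lf (nat_lit 0) (nat_lit 11839943073) (nat_lit 228) (nat_lit 6882999333) (nat_lit 76) (nat_lit 24437223589) (nat_lit 42) (nat_lit 5) (nat_lit 45) (nat_lit 5) (nat_lit 43) (nat_lit 5) (nat_lit 370) (nat_lit 288) (nat_lit 122)) (XT.nd (nat_lit 78) (nat_lit 0) (nat_lit 0) (XT.lf (nat_lit 0) (nat_lit 10932038310) (nat_lit 152) (nat_lit 8461684557) (nat_lit 228) (nat_lit 24738989005) (nat_lit 40) (nat_lit 5) (nat_lit 42) (nat_lit 5) (nat_lit 43) (nat_lit 5) (nat_lit 371) (nat_lit 288) (nat_lit 121)) (XT.lf (nat_lit 0) (nat_lit 27260041970) (nat_lit 228) (nat_lit 15738337356) (nat_lit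 76) (nat_lit 2133479177) (nat_lit 40) (nat_lit 5) (nat_lit 43) (nat_lit 5) (nat_lit 41) (nat_lit 5) (nat_lit 372) (nat_lit 288) (nat_lit 120)))) (XT.nd (nat_lit 156) (nat_lit 228) (nat_lit 0) (XT.nd (nat_lit 78) (nat_lit 0) (nat_lit 0) (XT.lf (nat_lit 0) (nat_lit 2199570348) (nat_lit 152) (nat_lit 33263309983) (nat_lit 228) (nat_lit 10695085405) (nat_lit 38) (nat_lit 5) (nat_lit 40) (nat_lit 5) (nat_lit 41) (nat_lit 5) (nat_lit 373) (nat_lit 288) (nat_lit 119)) (XT.lf (nat_lit 0) (nat_lit 20990867648) (nat_lit 152) (nat_lit 23075526682) (nat_lit 228) (nat_lit 3143826171) (nat_lit 38) (nat_lit 5) (nat_lit 40) (nat_lit 5) (nat_lit 41) (nat_lit 5) (nat_lit 374) (nat_lit 288) (nat_lit 118))) (XT.nd (nat_lit 78) (nat_lit 152) (nat_lit 0) (XT.lf (nat_lit 0) (nat_lit 4539292192) (nat_lit 228) (nat_lit 7999923681) (nat_lit 76) (nat_lit 35753620209) (nat_lit 37) (nat_lit 5) (nat_lit 40) (nat_lit 5) (nat_lit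 38) (nat_lit 5) (nat_lit 375) (nat_lit 288) (nat_lit 117)) (XT.lf (nat_lit 0) (nat_lit 10941439056) (nat_lit 152) (nat_lit 1549323755) (nat_lit 228) (nat_lit 36913203975) (nat_lit 35) (nat_lit 5) (nat_lit 37) (nat_lit 5) (nat_lit 38) (nat_lit 5) (nat_lit 376) (nat_lit 288) (nat_lit 116)))))) (XT.nd (nat_lit 546) (nat_lit 456) (nat_lit 0) (XT.nd (nat_lit 234) (nat_lit 152) (nat_lit 0) (XT.nd (nat_lit 78) (nat_lit 152) (nat_lit 0) (XT.lf (nat_lit 0) (nat_lit 20852175027) (nat_lit 228) (nat_lit 20032748882) (nat_lit 76) (nat_lit 9658367382) (nat_lit 35) (nat_lit 5) (nat_lit 38) (nat_lit 5) (nat_lit 36) (nat_lit 5) (nat_lit 377) (nat_lit 288) (nat_lit 115)) (XT.nd (nat_lit 78) (nat_lit 152) (nat_lit 0) (XT.lf (nat_lit 0) (nat_lit 29475785304) (nat_lit 228) (nat_lit 1072267619) (nat_lit 76) (nat_lit 21168403689) (nat_lit 35) (nat_lit 5) (nat_lit 38) (nat_lit 5) (nat_lit 36) (nat_lit 5) (nat_lit 378)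 (nat_lit 288) (nat_lit 114)) (XT.lf (nat_lit 0) (nat_lit 18817575187) (nat_lit 152) (nat_lit 19717546646) (nat_lit 228) (nat_lit 14384386224) (nat_lit 33) (nat_lit 5) (nat_lit 35) (nat_lit 5) (nat_lit 36) (nat_lit 5) (nat_lit 379) (nat_lit 288) (nat_lit 113)))) (XT.nd (nat_lit 156) (nat_lit 0) (nat_lit 0) (XT.nd (nat_lit 78) (nat_lit 152) (nat_lit 0) (XT.lf (nat_lit 0) (nat_lit 39319507359) (nat_lit 152) (nat_lit 8553740149) (nat_lit 228) (nat_lit 6285194916) (nat_lit 33) (nat_lit 5) (nat_lit 35) (nat_lit 5) (nat_lit 36) (nat_lit 5) (nat_lit 380) (nat_lit 288) (nat_lit 112)) (XT.lf (nat_lit 0) (nat_lit 2090830371) (nat_lit 152) (nat_lit 50386828098) (nat_lit 76) (nat_lit 2954074809) (nat_lit 31) (nat_lit 5) (nat_lit 33) (nat_lit 5) (nat_lit 32) (nat_lit 5) (nat_lit 381) (nat_lit 288) (nat_lit 111))) (XT.nd (nat_lit 78) (nat_lit 0) (nat_lit 0) (XT.lf (nat_lit 0) (nat_lit 10824104140) (nat_lit 152)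 (nat_lit 31064180639) (nat_lit 76) (nat_lit 14846103883) (nat_lit 31) (nat_lit 5) (nat_lit 33) (nat_lit 5) (nat_lit 32) (nat_lit 5) (nat_lit 382) (nat_lit 288) (nat_lit 110)) (XT.lf (nat_lit 0) (nat_lit 19815760264) (nat_lit 152) (nat_lit 11168158229) (nat_lit 76) (nat_lit 27092315158) (nat_lit 31) (nat_lit 5) (nat_lit 33) (nat_lit 5) (nat_lit 32) (nat_lit 5) (nat_lit 383) (nat_lit 288) (nat_lit 109))))) (XT.nd (nat_lit 234) (nat_lit 304) (nat_lit 0) (XT.nd (nat_lit 78) (nat_lit 0) (nat_lit 0) (XT.lf (nat_lit 0) (nat_lit 9504082895) (nat_lit 152) (nat_lit 19660931695) (nat_lit 228) (nat_lit 30290685369) (nat_lit 29) (nat_lit 5) (nat_lit 31) (nat_lit 5) (nat_lit 32) (nat_lit 5) (nat_lit 384) (nat_lit 288) (nat_lit 108)) (XT.nd (nat_lit 78) (nat_lit 0) (nat_lit 0) (XT.lf (nat_lit 0) (nat_lit 31019366710) (nat_lit 152) (nat_lit 7884689784) (nat_lit 228) (nat_lit 21969215847) (nat_lit 29) (nat_lit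 5) (nat_lit 31) (nat_lit 5) (nat_lit 32) (nat_lit 5) (nat_lit 385) (nat_lit 288) (nat_lit 107)) (XT.lf (nat_lit 0) (nat_lit 48972683851) (nat_lit 228) (nat_lit 9200029256) (nat_lit 76) (nat_lit 4159537703) (nat_lit 29) (nat_lit 5) (nat_lit 32) (nat_lit 5) (nat_lit 30) (nat_lit 4) (nat_lit 386) (nat_lit 288) (nat_lit 106)))) (XT.nd (nat_lit 156) (nat_lit 152) (nat_lit 0) (XT.nd (nat_lit 78) (nat_lit 76) (nat_lit 0) (XT.lf (nat_lit 0) (nat_lit 12228225144) (nat_lit 76) (nat_lit 47307465236) (nat_lit 152) (nat_lit 4293539949) (nat_lit 28) (nat_lit 5) (nat_lit 29) (nat_lit 5) (nat_lit 30) (nat_lit 4) (nat_lit 387) (nat_lit 288) (nat_lit 105)) (XT.lf (nat_lit 0) (nat_lit 5036570485) (nat_lit 152) (nat_lit 30935622318) (nat_lit 76) (nat_lit 29394756792) (nat_lit 27) (nat_lit 5) (nat_lit 29) (nat_lit 5) (nat_lit 28) (nat_lit 5) (nat_lit 388) (nat_lit 288) (nat_lit 104))) (XT.nd (nat_lit 78) (nat_lit 152)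 (nat_lit 0) (XT.lf (nat_lit 0) (nat_lit 14557100243) (nat_lit 152) (nat_lit 9698417946) (nat_lit 76) (nat_lit 42694103777) (nat_lit 27) (nat_lit 5) (nat_lit 29) (nat_lit 5) (nat_lit 28) (nat_lit 5) (nat_lit 389) (nat_lit 288) (nat_lit 103)) (XT.lf (nat_lit 0) (nat_lit 12412652400) (nat_lit 152) (nat_lit 12066816272) (nat_lit 228) (nat_lit 44096820313) (nat_lit 25) (nat_lit 5) (nat_lit 27) (nat_lit 5) (nat_lit 28) (nat_lit 5) (nat_lit 390) (nat_lit 288) (nat_lit 102))))))) (XT.nd (nat_lit 32760) (nat_lit 0) (nat_lit 13756) (XT.nd (nat_lit 546) (nat_lit 152) (nat_lit 0) (XT.nd (nat_lit 234) (nat_lit 228) (nat_lit 0) (XT.nd (nat_lit 78) (nat_lit 76) (nat_lit 0) (XT.lf (nat_lit 0) (nat_lit 34800019668) (nat_lit 228) (nat_lit 34874093625) (nat_lit 76) (nat_lit 574628499) (nat_lit 25) (nat_lit 5) (nat_lit 28) (nat_lit 5) (nat_lit 26) (nat_lit 4) (nat_lit 391) (nat_lit 288) (nat_lit 101)) (XT.nd (nat_lit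 78) (nat_lit 76) (nat_lit 0) (XT.lf (nat_lit 0) (nat_lit 45546670582) (nat_lit 228) (nat_lit 13070660452) (nat_lit 76) (nat_lit 13350543739) (nat_lit 25) (nat_lit 5) (nat_lit 28) (nat_lit 5) (nat_lit 26) (nat_lit 4) (nat_lit 392) (nat_lit 288) (nat_lit 100)) (XT.lf (nat_lit 0) (nat_lit 9568422482) (nat_lit 76) (nat_lit 47136373121) (nat_lit 152) (nat_lit 17031114965) (nat_lit 24) (nat_lit 5) (nat_lit 25) (nat_lit 5) (nat_lit 26) (nat_lit 4) (nat_lit 393) (nat_lit 288) (nat_lit 99)))) (XT.nd (nat_lit 156) (nat_lit 152) (nat_lit 0) (XT.nd (nat_lit 78) (nat_lit 76) (nat_lit 0) (XT.lf (nat_lit 0) (nat_lit 33149496672) (nat_lit 76) (nat_lit 35177288158) (nat_lit 152) (nat_lit 7226330022) (nat_lit 24) (nat_lit 5) (nat_lit 25) (nat_lit 5) (nat_lit 26) (nat_lit 4) (nat_lit 394) (nat_lit 288) (nat_lit 98)) (XT.lf (nat_lit 0) (nat_lit 2813731117) (nat_lit 152) (nat_lit 20019470215) (nat_lit 76) (nat_lit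 54590890885) (nat_lit 23) (nat_lit 5) (nat_lit 25) (nat_lit 5) (nat_lit 24) (nat_lit 5) (nat_lit 395) (nat_lit 288) (nat_lit 97))) (XT.nd (nat_lit 78) (nat_lit 0) (nat_lit 0) (XT.lf (nat_lit 0) (nat_lit 3018681198) (nat_lit 152) (nat_lit 10017357535) (nat_lit 228) (nat_lit 66312226076) (nat_lit 21) (nat_lit 5) (nat_lit 23) (nat_lit 5) (nat_lit 24) (nat_lit 5) (nat_lit 396) (nat_lit 288) (nat_lit 96)) (XT.lf (nat_lit 0) (nat_lit 23797053012) (nat_lit 228) (nat_lit 54203231342) (nat_lit 76) (nat_lit 3322918017) (nat_lit 21) (nat_lit 5) (nat_lit 24) (nat_lit 5) (nat_lit 22) (nat_lit 4) (nat_lit 397) (nat_lit 288) (nat_lit 95))))) (XT.nd (nat_lit 234) (nat_lit 76) (nat_lit 0) (XT.nd (nat_lit 78) (nat_lit 76) (nat_lit 0) (XT.lf (nat_lit 0) (nat_lit 34977440550) (nat_lit 228) (nat_lit 31517019796) (nat_lit 76) (nat_lit 16860032316) (nat_lit 21) (nat_lit 5) (nat_lit 24) (nat_lit 5) (nat_lit 22) (nat_lit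 4) (nat_lit 398) (nat_lit 288) (nat_lit 94)) (XT.nd (nat_lit 78) (nat_lit 76) (nat_lit 0) (XT.lf (nat_lit 0) (nat_lit 46490677650) (nat_lit 228) (nat_lit 8154833101) (nat_lit 76) (nat_lit 30801288635) (nat_lit 21) (nat_lit 5) (nat_lit 24) (nat_lit 5) (nat_lit 22) (nat_lit 4) (nat_lit 399) (nat_lit 288) (nat_lit 93)) (XT.lf (nat_lit 0) (nat_lit 16220257959) (nat_lit 76) (nat_lit 42282485504) (nat_lit 152) (nat_lit 29094529737) (nat_lit 20) (nat_lit 5) (nat_lit 21) (nat_lit 5) (nat_lit 22) (nat_lit 4) (nat_lit 400) (nat_lit 288) (nat_lit 92)))) (XT.nd (nat_lit 156) (nat_lit 76) (nat_lit 0) (XT.nd (nat_lit 78) (nat_lit 0) (nat_lit 0) (XT.lf (nat_lit 0) (nat_lit 41489334835) (nat_lit 76) (nat_lit 29465726636) (nat_lit 152) (nat_lit 18854803863) (nat_lit 20) (nat_lit 5) (nat_lit 21) (nat_lit 5) (nat_lit 22) (nat_lit 4) (nat_lit 401) (nat_lit 288) (nat_lit 91)) (XT.lf (nat_lit 0) (nat_lit 67512180134)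 (nat_lit 76) (nat_lit 16266382862) (nat_lit 152) (nat_lit 8310344606) (nat_lit 20) (nat_lit 5) (nat_lit 21) (nat_lit 5) (nat_lit 22) (nat_lit 4) (nat_lit 402) (nat_lit 288) (nat_lit 90))) (XT.nd (nat_lit 31746) (nat_lit 0) (nat_lit 14516) (XT.lf (nat_lit 0) (nat_lit 2498339779) (nat_lit 152) (nat_lit 149352663) (nat_lit 76) (nat_lit 91787964153) (nat_lit 19) (nat_lit 5) (nat_lit 21) (nat_lit 5) (nat_lit 20) (nat_lit 5) (nat_lit 403) (nat_lit 288) (nat_lit 89)) (XT.lf (nat_lit 0) (nat_lit 182571111) (nat_lit 1140) (nat_lit 2434838223) (nat_lit 1140) (nat_lit 2434838223) (nat_lit 210) (nat_lit 3) (nat_lit 225) (nat_lit 3) (nat_lit 225) (nat_lit 5) (nat_lit 289) (nat_lit 289) (nat_lit 202)))))) (XT.nd (nat_lit 546) (nat_lit 760) (nat_lit 0) (XT.nd (nat_lit 234) (nat_lit 0) (nat_lit 152) (XT.nd (nat_lit 78) (nat_lit 0) (nat_lit 76) (XT.lf (nat_lit 0) (nat_lit 1028899193) (nat_lit 1140) (nat_lit 262057090)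 (nat_lit 1140) (nat_lit 8944544507) (nat_lit 210) (nat_lit 3) (nat_lit 225) (nat_lit 3) (nat_lit 225) (nat_lit 5) (nat_lit 290) (nat_lit 289) (nat_lit 201)) (XT.nd (nat_lit 78) (nat_lit 0) (nat_lit 0) (XT.lf (nat_lit 0) (nat_lit 1757899167) (nat_lit 1064) (nat_lit 5837599691) (nat_lit 1140) (nat_lit 2773609611) (nat_lit 211) (nat_lit 5) (nat_lit 225) (nat_lit 5) (nat_lit 226) (nat_lit 5) (nat_lit 291) (nat_lit 289) (nat_lit 200)) (XT.lf (nat_lit 0) (nat_lit 2499269606) (nat_lit 1064) (nat_lit 1059213940) (nat_lit 1140) (nat_lit 6948556636) (nat_lit 211) (nat_lit 5) (nat_lit 225) (nat_lit 5) (nat_lit 226) (nat_lit 5) (nat_lit 292) (nat_lit 289) (nat_lit 199)))) (XT.nd (nat_lit 156) (nat_lit 0) (nat_lit 0) (XT.nd (nat_lit 78) (nat_lit 0) (nat_lit 0) (XT.lf (nat_lit 0) (nat_lit 3282628533) (nat_lit 1064) (nat_lit 6729456343) (nat_lit 1140) (nat_lit 636462471) (nat_lit 212) (nat_lit 5) (nat_lit 226)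 (nat_lit 5) (nat_lit 227) (nat_lit 5) (nat_lit 293) (nat_lit 289) (nat_lit 198)) (XT.lf (nat_lit 0) (nat_lit 4111969652) (nat_lit 1064) (nat_lit 1775168677) (nat_lit 1140) (nat_lit 4906516003) (nat_lit 212) (nat_lit 5) (nat_lit 226) (nat_lit 5) (nat_lit 227) (nat_lit 5) (nat_lit 294) (nat_lit 289) (nat_lit 197))) (XT.nd (nat_lit 78) (nat_lit 0) (nat_lit 76) (XT.lf (nat_lit 76) (nat_lit 3379807243) (nat_lit 0) (nat_lit 1596005574) (nat_lit 1140) (nat_lit 5967041259) (nat_lit 213) (nat_lit 5) (nat_lit 212) (nat_lit 5) (nat_lit 227) (nat_lit 5) (nat_lit 295) (nat_lit 289) (nat_lit 196)) (XT.lf (nat_lit 0) (nat_lit 5888568442) (nat_lit 1064) (nat_lit 2412028754) (nat_lit 1140) (nat_lit 2795270085) (nat_lit 213) (nat_lit 5) (nat_lit 227) (nat_lit 5) (nat_lit 228) (nat_lit 5) (nat_lit 296) (nat_lit 289) (nat_lit 195))))) (XT.nd (nat_lit 234) (nat_lit 988) (nat_lit 0) (XT.nd (nat_lit 78) (nat_lit 0) (nat_lit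 76) (XT.lf (nat_lit 76) (nat_lit 2920596365) (nat_lit 0) (nat_lit 3930384319) (nat_lit 1140) (nat_lit 4401848562) (nat_lit 214) (nat_lit 5) (nat_lit 213) (nat_lit 5) (nat_lit 228) (nat_lit 5) (nat_lit 297) (nat_lit 289) (nat_lit 194)) (XT.nd (nat_lit 78) (nat_lit 0) (nat_lit 0) (XT.lf (nat_lit 0) (nat_lit 7851312186) (nat_lit 1064) (nat_lit 2971556312) (nat_lit 1140) (nat_lit 591385975) (nat_lit 214) (nat_lit 5) (nat_lit 228) (nat_lit 5) (nat_lit 229) (nat_lit 5) (nat_lit 298) (nat_lit 289) (nat_lit 193)) (XT.lf (nat_lit 76) (nat_lit 2546442258) (nat_lit 0) (nat_lit 6378177621) (nat_lit 1140) (nat_lit 2654638650) (nat_lit 215) (nat_lit 5) (nat_lit 214) (nat_lit 5) (nat_lit 229) (nat_lit 5) (nat_lit 299) (nat_lit 289) (nat_lit 192)))) (XT.nd (nat_lit 156) (nat_lit 1064) (nat_lit 0) (XT.nd (nat_lit 78) (nat_lit 0) (nat_lit 76) (XT.lf (nat_lit 76) (nat_lit 8276760859) (nat_lit 0) (nat_lit 1763405508)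 (nat_lit 1140) (nat_lit 1708769482) (nat_lit 215) (nat_lit 5) (nat_lit 214) (nat_lit 5) (nat_lit 229) (nat_lit 5) (nat_lit 300) (nat_lit 289) (nat_lit 191)) (XT.lf (nat_lit 76) (nat_lit 2256190160) (nat_lit 0) (nat_lit 8964085533) (nat_lit 1140) (nat_lit 702518520) (nat_lit 216) (nat_lit 5) (nat_lit 215) (nat_lit 5) (nat_lit 230) (nat_lit 5) (nat_lit 301) (nat_lit 289) (nat_lit 190))) (XT.nd (nat_lit 78) (nat_lit 0) (nat_lit 76) (XT.lf (nat_lit 0) (nat_lit 361157934) (nat_lit 1140) (nat_lit 3908894042) (nat_lit 1216) (nat_lit 7830729704) (nat_lit 200) (nat_lit 5) (nat_lit 215) (nat_lit 5) (nat_lit 216) (nat_lit 5) (nat_lit 302) (nat_lit 289) (nat_lit 189)) (XT.lf (nat_lit 0) (nat_lit 1449412187) (nat_lit 1140) (nat_lit 10249438155) (nat_lit 1216) (nat_lit 584867751) (nat_lit 201) (nat_lit 5) (nat_lit 216) (nat_lit 5) (nat_lit 217) (nat_lit 5) (nat_lit 303) (nat_lit 289) (nat_lit 188))))))))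
noncomputable def xc174 : XT := (XT.nd (nat_lit 2106) (nat_lit 4256) (nat_lit 0) (XT.nd (nat_lit 1014) (nat_lit 3268) (nat_lit 0) (XT.nd (nat_lit 468) (nat_lit 1748) (nat_lit 0) (XT.nd (nat_lit 234) (nat_lit 1748) (nat_lit 0) (XT.nd (nat_lit 78) (nat_lit 0) (nat_lit 0) (XT.lf (nat_lit 0) (nat_lit 2634341084) (nat_lit 1140) (nat_lit 4292431780) (nat_lit 1216) (nat_lit 5543469911) (nat_lit 201) (nat_lit 5) (nat_lit 216) (nat_lit 5) (nat_lit 217) (nat_lit 5) (nat_lit 304) (nat_lit 289) (nat_lit 187)) (XT.nd (nat_lit 78) (nat_lit 0) (nat_lit 76) (XT.lf (nat_lit 76) (nat_lit 1865431289) (nat_lit 0) (nat_lit 1989732104) (nat_lit 1216) (nat_lit 8807209812) (nat_lit 202) (nat_lit 5) (nat_lit 201) (nat_lit 5) (nat_lit 217) (nat_lit 5) (nat_lit 305) (nat_lit 289) (nat_lit 186)) (XT.lf (nat_lit 0) (nat_lit 5168959907) (nat_lit 1140) (nat_lit 4607811372) (nat_lit 76) (nat_lit 3081825565) (nat_lit 202) (nat_lit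 5) (nat_lit 217) (nat_lit 5) (nat_lit 203) (nat_lit 5) (nat_lit 306) (nat_lit 289) (nat_lit 185)))) (XT.nd (nat_lit 78) (nat_lit 684) (nat_lit 0) (XT.lf (nat_lit 0) (nat_lit 1767530409) (nat_lit 1140) (nat_lit 4774651352) (nat_lit 1216) (nat_lit 6517944293) (nat_lit 187) (nat_lit 5) (nat_lit 202) (nat_lit 5) (nat_lit 203) (nat_lit 5) (nat_lit 307) (nat_lit 289) (nat_lit 184)) (XT.nd (nat_lit 78) (nat_lit 684) (nat_lit 0) (XT.lf (nat_lit 0) (nat_lit 7990911878) (nat_lit 1216) (nat_lit 4856450279) (nat_lit 76) (nat_lit 419328280) (nat_lit 187) (nat_lit 5) (nat_lit 203) (nat_lit 5) (nat_lit 188) (nat_lit 5) (nat_lit 308) (nat_lit 289) (nat_lit 183)) (XT.lf (nat_lit 0) (nat_lit 1745346848) (nat_lit 684) (nat_lit 7785975144) (nat_lit 760) (nat_lit 3946701320) (nat_lit 178) (nat_lit 5) (nat_lit 187) (nat_lit 5) (nat_lit 188) (nat_lit 5) (nat_lit 309) (nat_lit 289) (nat_lit 182))))) (XT.nd (nat_lit 234)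 (nat_lit 1064) (nat_lit 0) (XT.nd (nat_lit 78) (nat_lit 684) (nat_lit 0) (XT.lf (nat_lit 0) (nat_lit 8630672911) (nat_lit 684) (nat_lit 2520804934) (nat_lit 760) (nat_lit 2543229899) (nat_lit 178) (nat_lit 5) (nat_lit 187) (nat_lit 5) (nat_lit 188) (nat_lit 5) (nat_lit 310) (nat_lit 289) (nat_lit 181)) (XT.nd (nat_lit 78) (nat_lit 76) (nat_lit 0) (XT.lf (nat_lit 0) (nat_lit 1797697217) (nat_lit 608) (nat_lit 11052678423) (nat_lit 684) (nat_lit 1066630016) (nat_lit 170) (nat_lit 5) (nat_lit 178) (nat_lit 5) (nat_lit 179) (nat_lit 5) (nat_lit 311) (nat_lit 289) (nat_lit 180)) (XT.lf (nat_lit 0) (nat_lit 507104142) (nat_lit 684) (nat_lit 5219504310) (nat_lit 76) (nat_lit 8417398115) (nat_lit 169) (nat_lit 5) (nat_lit 178) (nat_lit 5) (nat_lit 170) (nat_lit 5) (nat_lit 312) (nat_lit 289) (nat_lit 179)))) (XT.nd (nat_lit 156) (nat_lit 532) (nat_lit 0) (XT.nd (nat_lit 78) (nat_lit 0) (nat_lit 0) (XT.lf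 (nat_lit 0) (nat_lit 1899900929) (nat_lit 532) (nat_lit 210507297) (nat_lit 608) (nat_lit 12266994190) (nat_lit 162) (nat_lit 5) (nat_lit 169) (nat_lit 5) (nat_lit 170) (nat_lit 5) (nat_lit 313) (nat_lit 289) (nat_lit 178)) (XT.lf (nat_lit 0) (nat_lit 3853457401) (nat_lit 608) (nat_lit 5343663395) (nat_lit 76) (nat_lit 5417945128) (nat_lit 162) (nat_lit 5) (nat_lit 170) (nat_lit 5) (nat_lit 163) (nat_lit 5) (nat_lit 314) (nat_lit 289) (nat_lit 177))) (XT.nd (nat_lit 78) (nat_lit 0) (nat_lit 0) (XT.lf (nat_lit 0) (nat_lit 2027876478) (nat_lit 532) (nat_lit 3628737847) (nat_lit 608) (nat_lit 9203025242) (nat_lit 155) (nat_lit 5) (nat_lit 162) (nat_lit 5) (nat_lit 163) (nat_lit 5) (nat_lit 315) (nat_lit 289) (nat_lit 176)) (XT.lf (nat_lit 0) (nat_lit 7575118243) (nat_lit 608) (nat_lit 5414696698) (nat_lit 76) (nat_lit 2119912201) (nat_lit 155) (nat_lit 5) (nat_lit 163) (nat_lit 5) (nat_lit 156) (nat_lit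 5) (nat_lit 316) (nat_lit 289) (nat_lit 175)))))) (XT.nd (nat_lit 546) (nat_lit 1292) (nat_lit 0) (XT.nd (nat_lit 234) (nat_lit 988) (nat_lit 0) (XT.nd (nat_lit 78) (nat_lit 532) (nat_lit 0) (XT.lf (nat_lit 0) (nat_lit 2218573734) (nat_lit 456) (nat_lit 7376757581) (nat_lit 532) (nat_lit 5770675282) (nat_lit 149) (nat_lit 5) (nat_lit 155) (nat_lit 5) (nat_lit 156) (nat_lit 5) (nat_lit 317) (nat_lit 289) (nat_lit 174)) (XT.nd (nat_lit 78) (nat_lit 532) (nat_lit 0) (XT.lf (nat_lit 0) (nat_lit 10178300078) (nat_lit 456) (nat_lit 1539679602) (nat_lit 532) (nat_lit 3910753359) (nat_lit 149) (nat_lit 5) (nat_lit 155) (nat_lit 5) (nat_lit 156) (nat_lit 5) (nat_lit 318) (nat_lit 289) (nat_lit 173)) (XT.lf (nat_lit 0) (nat_lit 2469141528) (nat_lit 532) (nat_lit 11489412262) (nat_lit 608) (nat_lit 1939173172) (nat_lit 142) (nat_lit 5) (nat_lit 149) (nat_lit 5) (nat_lit 150) (nat_lit 5) (nat_lit 319) (nat_lit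 289) (nat_lit 172)))) (XT.nd (nat_lit 156) (nat_lit 456) (nat_lit 0) (XT.nd (nat_lit 78) (nat_lit 456) (nat_lit 0) (XT.lf (nat_lit 0) (nat_lit 148215821) (nat_lit 608) (nat_lit 5465427989) (nat_lit 76) (nat_lit 10559379379) (nat_lit 141) (nat_lit 5) (nat_lit 149) (nat_lit 5) (nat_lit 142) (nat_lit 5) (nat_lit 320) (nat_lit 289) (nat_lit 171)) (XT.lf (nat_lit 0) (nat_lit 2278397943) (nat_lit 532) (nat_lit 13702244904) (nat_lit 76) (nat_lit 474797025) (nat_lit 135) (nat_lit 5) (nat_lit 142) (nat_lit 5) (nat_lit 136) (nat_lit 5) (nat_lit 321) (nat_lit 289) (nat_lit 170))) (XT.nd (nat_lit 78) (nat_lit 456) (nat_lit 0) (XT.lf (nat_lit 0) (nat_lit 4571994435) (nat_lit 532) (nat_lit 5483863942) (nat_lit 76) (nat_lit 6687497029) (nat_lit 135) (nat_lit 5) (nat_lit 142) (nat_lit 5) (nat_lit 136) (nat_lit 5) (nat_lit 322) (nat_lit 289) (nat_lit 169)) (XT.lf (nat_lit 0) (nat_lit 3027053621) (nat_lit 456) (nat_lit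 3924978754) (nat_lit 532) (nat_lit 10087358307) (nat_lit 129) (nat_lit 5) (nat_lit 135) (nat_lit 5) (nat_lit 136) (nat_lit 5) (nat_lit 323) (nat_lit 289) (nat_lit 168))))) (XT.nd (nat_lit 234) (nat_lit 912) (nat_lit 0) (XT.nd (nat_lit 78) (nat_lit 380) (nat_lit 0) (XT.lf (nat_lit 0) (nat_lit 9471097186) (nat_lit 532) (nat_lit 5473741476) (nat_lit 76) (nat_lit 2397450535) (nat_lit 129) (nat_lit 5) (nat_lit 136) (nat_lit 5) (nat_lit 130) (nat_lit 5) (nat_lit 324) (nat_lit 289) (nat_lit 167)) (XT.nd (nat_lit 78) (nat_lit 0) (nat_lit 0) (XT.lf (nat_lit 0) (nat_lit 3334314775) (nat_lit 380) (nat_lit 8791388800) (nat_lit 456) (nat_lit 5526782635) (nat_lit 124) (nat_lit 5) (nat_lit 129) (nat_lit 5) (nat_lit 130) (nat_lit 5) (nat_lit 325) (nat_lit 289) (nat_lit 166)) (XT.lf (nat_lit 0) (nat_lit 12506045006) (nat_lit 380) (nat_lit 2398430130) (nat_lit 456) (nat_lit 3066188513) (nat_lit 124) (nat_lit 5)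 (nat_lit 129) (nat_lit 5) (nat_lit 130) (nat_lit 5) (nat_lit 326) (nat_lit 289) (nat_lit 165)))) (XT.nd (nat_lit 156) (nat_lit 380) (nat_lit 0) (XT.nd (nat_lit 78) (nat_lit 76) (nat_lit 0) (XT.lf (nat_lit 0) (nat_lit 3673271946) (nat_lit 456) (nat_lit 14158436106) (nat_lit 532) (nat_lit 464735436) (nat_lit 118) (nat_lit 5) (nat_lit 124) (nat_lit 5) (nat_lit 125) (nat_lit 5) (nat_lit 327) (nat_lit 289) (nat_lit 164)) (XT.lf (nat_lit 0) (nat_lit 2240637709) (nat_lit 532) (nat_lit 5491403098) (nat_lit 76) (nat_lit 10897253840) (nat_lit 117) (nat_lit 5) (nat_lit 124) (nat_lit 5) (nat_lit 118) (nat_lit 5) (nat_lit 328) (nat_lit 289) (nat_lit 163))) (XT.nd (nat_lit 78) (nat_lit 0) (nat_lit 0) (XT.lf (nat_lit 0) (nat_lit 3974855977) (nat_lit 380) (nat_lit 1071105770) (nat_lit 456) (nat_lit 13925196813) (nat_lit 112) (nat_lit 5) (nat_lit 117) (nat_lit 5) (nat_lit 118) (nat_lit 5) (nat_lit 329) (nat_lit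 289) (nat_lit 162)) (XT.lf (nat_lit 0) (nat_lit 8037174555) (nat_lit 456) (nat_lit 5552732328) (nat_lit 76) (nat_lit 5730328541) (nat_lit 112) (nat_lit 5) (nat_lit 118) (nat_lit 5) (nat_lit 113) (nat_lit 5) (nat_lit 330) (nat_lit 289) (nat_lit 161))))))) (XT.nd (nat_lit 1092) (nat_lit 1824) (nat_lit 0) (XT.nd (nat_lit 546) (nat_lit 988) (nat_lit 0) (XT.nd (nat_lit 234) (nat_lit 760) (nat_lit 0) (XT.nd (nat_lit 78) (nat_lit 304) (nat_lit 0) (XT.lf (nat_lit 0) (nat_lit 4233940075) (nat_lit 380) (nat_lit 6925850893) (nat_lit 456) (nat_lit 8518752256) (nat_lit 107) (nat_lit 5) (nat_lit 112) (nat_lit 5) (nat_lit 113) (nat_lit 5) (nat_lit 331) (nat_lit 289) (nat_lit 160)) (XT.nd (nat_lit 78) (nat_lit 304) (nat_lit 0) (XT.lf (nat_lit 0) (nat_lit 14415938646) (nat_lit 380) (nat_lit 6746310) (nat_lit 456) (nat_lit 5623525723) (nat_lit 107) (nat_lit 5) (nat_lit 112) (nat_lit 5) (nat_lit 113) (nat_lit 5)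 (nat_lit 332) (nat_lit 289) (nat_lit 159)) (XT.lf (nat_lit 0) (nat_lit 4485570828) (nat_lit 304) (nat_lit 13400232882) (nat_lit 380) (nat_lit 2536042459) (nat_lit 103) (nat_lit 5) (nat_lit 107) (nat_lit 5) (nat_lit 108) (nat_lit 5) (nat_lit 333) (nat_lit 289) (nat_lit 158)))) (XT.nd (nat_lit 156) (nat_lit 304) (nat_lit 0) (XT.nd (nat_lit 78) (nat_lit 380) (nat_lit 0) (XT.lf (nat_lit 0) (nat_lit 679817213) (nat_lit 380) (nat_lit 5805640968) (nat_lit 76) (nat_lit 14321664892) (nat_lit 102) (nat_lit 5) (nat_lit 107) (nat_lit 5) (nat_lit 103) (nat_lit 5) (nat_lit 334) (nat_lit 289) (nat_lit 157)) (XT.lf (nat_lit 0) (nat_lit 3984091615) (nat_lit 456) (nat_lit 16525449674) (nat_lit 76) (nat_lit 692383848) (nat_lit 97) (nat_lit 5) (nat_lit 103) (nat_lit 5) (nat_lit 98) (nat_lit 5) (nat_lit 335) (nat_lit 289) (nat_lit 156))) (XT.nd (nat_lit 78) (nat_lit 304) (nat_lit 0) (XT.lf (nat_lit 0) (nat_lit 7502135212)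 (nat_lit 456) (nat_lit 6091394559) (nat_lit 76) (nat_lit 8011609502) (nat_lit 97) (nat_lit 5) (nat_lit 103) (nat_lit 5) (nat_lit 98) (nat_lit 5) (nat_lit 336) (nat_lit 289) (nat_lit 155)) (XT.lf (nat_lit 0) (nat_lit 4736601142) (nat_lit 304) (nat_lit 6426128205) (nat_lit 380) (nat_lit 10856617239) (nat_lit 93) (nat_lit 5) (nat_lit 97) (nat_lit 5) (nat_lit 98) (nat_lit 5) (nat_lit 337) (nat_lit 289) (nat_lit 154))))) (XT.nd (nat_lit 234) (nat_lit 684) (nat_lit 0) (XT.nd (nat_lit 78) (nat_lit 304) (nat_lit 0) (XT.lf (nat_lit 0) (nat_lit 14996041784) (nat_lit 380) (nat_lit 6451257709) (nat_lit 76) (nat_lit 996800437) (nat_lit 93) (nat_lit 5) (nat_lit 98) (nat_lit 5) (nat_lit 94) (nat_lit 5) (nat_lit 338) (nat_lit 289) (nat_lit 153)) (XT.nd (nat_lit 78) (nat_lit 0) (nat_lit 0) (XT.lf (nat_lit 0) (nat_lit 4722413805) (nat_lit 304) (nat_lit 14322792384) (nat_lit 380) (nat_lit 3833370733) (nat_lit 89)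 (nat_lit 5) (nat_lit 93) (nat_lit 5) (nat_lit 94) (nat_lit 5) (nat_lit 339) (nat_lit 289) (nat_lit 152)) (XT.lf (nat_lit 0) (nat_lit 16352363459) (nat_lit 304) (nat_lit 6920590399) (nat_lit 380) (nat_lit 51427551) (nat_lit 89) (nat_lit 5) (nat_lit 93) (nat_lit 5) (nat_lit 94) (nat_lit 5) (nat_lit 340) (nat_lit 289) (nat_lit 151)))) (XT.nd (nat_lit 156) (nat_lit 304) (nat_lit 0) (XT.nd (nat_lit 78) (nat_lit 0) (nat_lit 0) (XT.lf (nat_lit 0) (nat_lit 3812729444) (nat_lit 380) (nat_lit 19199667869) (nat_lit 76) (nat_lit 768747302) (nat_lit 84) (nat_lit 5) (nat_lit 89) (nat_lit 5) (nat_lit 85) (nat_lit 5) (nat_lit 341) (nat_lit 289) (nat_lit 150)) (XT.lf (nat_lit 0) (nat_lit 7923607585) (nat_lit 380) (nat_lit 7705844197) (nat_lit 76) (nat_lit 8618194645) (nat_lit 84) (nat_lit 5) (nat_lit 89) (nat_lit 5) (nat_lit 85) (nat_lit 5) (nat_lit 342) (nat_lit 289) (nat_lit 149))) (XT.nd (nat_lit 78) (nat_lit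 0) (nat_lit 0) (XT.lf (nat_lit 0) (nat_lit 4204039394) (nat_lit 304) (nat_lit 7986620012) (nat_lit 380) (nat_lit 12536504184) (nat_lit 80) (nat_lit 5) (nat_lit 84) (nat_lit 5) (nat_lit 85) (nat_lit 5) (nat_lit 343) (nat_lit 289) (nat_lit 148)) (XT.lf (nat_lit 0) (nat_lit 16618496798) (nat_lit 304) (nat_lit 37593052) (nat_lit 380) (nat_lit 8562870955) (nat_lit 80) (nat_lit 5) (nat_lit 84) (nat_lit 5) (nat_lit 85) (nat_lit 5) (nat_lit 344) (nat_lit 289) (nat_lit 147)))))) (XT.nd (nat_lit 546) (nat_lit 760) (nat_lit 0) (XT.nd (nat_lit 234) (nat_lit 456) (nat_lit 0) (XT.nd (nat_lit 78) (nat_lit 380) (nat_lit 0) (XT.lf (nat_lit 0) (nat_lit 3662435624) (nat_lit 228) (nat_lit 17699334856) (nat_lit 304) (nat_lit 4360558227) (nat_lit 77) (nat_lit 5) (nat_lit 80) (nat_lit 5) (nat_lit 81) (nat_lit 5) (nat_lit 345) (nat_lit 289) (nat_lit 146)) (XT.nd (nat_lit 78) (nat_lit 304) (nat_lit 0) (XT.lf (nat_lit 0)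 (nat_lit 49306473) (nat_lit 304) (nat_lit 9780202766) (nat_lit 76) (nat_lit 16408877122) (nat_lit 76) (nat_lit 5) (nat_lit 80) (nat_lit 5) (nat_lit 77) (nat_lit 5) (nat_lit 346) (nat_lit 289) (nat_lit 145)) (XT.lf (nat_lit 0) (nat_lit 2870414513) (nat_lit 304) (nat_lit 1653987130) (nat_lit 380) (nat_lit 22243616495) (nat_lit 72) (nat_lit 5) (nat_lit 76) (nat_lit 5) (nat_lit 77) (nat_lit 5) (nat_lit 347) (nat_lit 289) (nat_lit 144)))) (XT.nd (nat_lit 156) (nat_lit 228) (nat_lit 0) (XT.nd (nat_lit 78) (nat_lit 228) (nat_lit 0) (XT.lf (nat_lit 0) (nat_lit 9291594852) (nat_lit 380) (nat_lit 11285947041) (nat_lit 76) (nat_lit 6731266405) (nat_lit 72) (nat_lit 5) (nat_lit 77) (nat_lit 5) (nat_lit 73) (nat_lit 5) (nat_lit 348) (nat_lit 289) (nat_lit 143)) (XT.lf (nat_lit 0) (nat_lit 1710991691) (nat_lit 228) (nat_lit 12516897371) (nat_lit 304) (nat_lit 13637155194) (nat_lit 69) (nat_lit 5) (nat_lit 72)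 (nat_lit 5) (nat_lit 73) (nat_lit 5) (nat_lit 349) (nat_lit 289) (nat_lit 142))) (XT.nd (nat_lit 78) (nat_lit 228) (nat_lit 0) (XT.lf (nat_lit 0) (nat_lit 15319209201) (nat_lit 228) (nat_lit 4100391146) (nat_lit 304) (nat_lit 9015151610) (nat_lit 69) (nat_lit 5) (nat_lit 72) (nat_lit 5) (nat_lit 73) (nat_lit 5) (nat_lit 350) (nat_lit 289) (nat_lit 141)) (XT.lf (nat_lit 0) (nat_lit 265531478) (nat_lit 228) (nat_lit 24541524667) (nat_lit 304) (nat_lit 4213299329) (nat_lit 66) (nat_lit 5) (nat_lit 69) (nat_lit 5) (nat_lit 70) (nat_lit 5) (nat_lit 351) (nat_lit 289) (nat_lit 140))))) (XT.nd (nat_lit 234) (nat_lit 456) (nat_lit 0) (XT.nd (nat_lit 78) (nat_lit 228) (nat_lit 0) (XT.lf (nat_lit 0) (nat_lit 886215082) (nat_lit 304) (nat_lit 15361503560) (nat_lit 76) (nat_lit 13370564245) (nat_lit 65) (nat_lit 5) (nat_lit 69) (nat_lit 5) (nat_lit 66) (nat_lit 5) (nat_lit 352) (nat_lit 289) (nat_lit 139))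 (XT.nd (nat_lit 78) (nat_lit 228) (nat_lit 0) (XT.lf (nat_lit 0) (nat_lit 6047771487) (nat_lit 304) (nat_lit 1617703128) (nat_lit 76) (nat_lit 22567613849) (nat_lit 65) (nat_lit 5) (nat_lit 69) (nat_lit 5) (nat_lit 66) (nat_lit 5) (nat_lit 353) (nat_lit 289) (nat_lit 138)) (XT.lf (nat_lit 0) (nat_lit 11493403276) (nat_lit 304) (nat_lit 18096871215) (nat_lit 76) (nat_lit 1272190750) (nat_lit 62) (nat_lit 5) (nat_lit 66) (nat_lit 5) (nat_lit 63) (nat_lit 5) (nat_lit 354) (nat_lit 289) (nat_lit 137)))) (XT.nd (nat_lit 156) (nat_lit 228) (nat_lit 0) (XT.nd (nat_lit 78) (nat_lit 228) (nat_lit 0) (XT.lf (nat_lit 0) (nat_lit 17188776323) (nat_lit 304) (nat_lit 3982124300) (nat_lit 76) (nat_lit 10337235307) (nat_lit 62) (nat_lit 5) (nat_lit 66) (nat_lit 5) (nat_lit 63) (nat_lit 5) (nat_lit 355) (nat_lit 289) (nat_lit 136)) (XT.lf (nat_lit 0) (nat_lit 10756858479) (nat_lit 228) (nat_lit 12395708101) (nat_lit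 304) (nat_lit 9017687149) (nat_lit 59) (nat_lit 5) (nat_lit 62) (nat_lit 5) (nat_lit 63) (nat_lit 5) (nat_lit 356) (nat_lit 289) (nat_lit 135))) (XT.nd (nat_lit 78) (nat_lit 228) (nat_lit 0) (XT.lf (nat_lit 0) (nat_lit 26010618118) (nat_lit 228) (nat_lit 3319102116) (nat_lit 304) (nat_lit 3521484898) (nat_lit 59) (nat_lit 5) (nat_lit 62) (nat_lit 5) (nat_lit 63) (nat_lit 5) (nat_lit 357) (nat_lit 289) (nat_lit 134)) (XT.lf (nat_lit 0) (nat_lit 2230927636) (nat_lit 228) (nat_lit 25306707670) (nat_lit 76) (nat_lit 6010343845) (nat_lit 56) (nat_lit 5) (nat_lit 59) (nat_lit 5) (nat_lit 57) (nat_lit 5) (nat_lit 358) (nat_lit 289) (nat_lit 133))))))))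
noncomputable def xc175 : XT := (XT.nd (nat_lit 2184) (nat_lit 684) (nat_lit 0) (XT.nd (nat_lit 1092) (nat_lit 836) (nat_lit 0) (XT.nd (nat_lit 546) (nat_lit 532) (nat_lit 0) (XT.nd (nat_lit 234) (nat_lit 456) (nat_lit 0) (XT.nd (nat_lit 78) (nat_lit 228) (nat_lit 0) (XT.lf (nat_lit 0) (nat_lit 8182153374) (nat_lit 228) (nat_lit 10425113410) (nat_lit 76) (nat_lit 15654436307) (nat_lit 56) (nat_lit 5) (nat_lit 59) (nat_lit 5) (nat_lit 57) (nat_lit 5) (nat_lit 359) (nat_lit 289) (nat_lit 132)) (XT.nd (nat_lit 78) (nat_lit 0) (nat_lit 0) (XT.lf (nat_lit 0) (nat_lit 4991666236) (nat_lit 228) (nat_lit 9362792157) (nat_lit 304) (nat_lit 20641107245) (nat_lit 53) (nat_lit 5) (nat_lit 56) (nat_lit 5) (nat_lit 57) (nat_lit 5) (nat_lit 360) (nat_lit 289) (nat_lit 131)) (XT.lf (nat_lit 0) (nat_lit 20814381222) (nat_lit 304) (nat_lit 14674918784) (nat_lit 76) (nat_lit 259073669) (nat_lit 53) (nat_lit 5) (nat_lit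 57) (nat_lit 5) (nat_lit 54) (nat_lit 5) (nat_lit 361) (nat_lit 289) (nat_lit 130)))) (XT.nd (nat_lit 156) (nat_lit 304) (nat_lit 0) (XT.nd (nat_lit 78) (nat_lit 0) (nat_lit 0) (XT.lf (nat_lit 0) (nat_lit 1032924356) (nat_lit 152) (nat_lit 26532569119) (nat_lit 228) (nat_lit 8955353707) (nat_lit 51) (nat_lit 5) (nat_lit 53) (nat_lit 5) (nat_lit 54) (nat_lit 5) (nat_lit 362) (nat_lit 289) (nat_lit 129)) (XT.lf (nat_lit 0) (nat_lit 17504445143) (nat_lit 152) (nat_lit 17157715613) (nat_lit 228) (nat_lit 2650046387) (nat_lit 51) (nat_lit 5) (nat_lit 53) (nat_lit 5) (nat_lit 54) (nat_lit 5) (nat_lit 363) (nat_lit 289) (nat_lit 128))) (XT.nd (nat_lit 78) (nat_lit 228) (nat_lit 0) (XT.lf (nat_lit 0) (nat_lit 3764333477) (nat_lit 228) (nat_lit 3702389909) (nat_lit 76) (nat_lit 30659630644) (nat_lit 50) (nat_lit 5) (nat_lit 53) (nat_lit 5) (nat_lit 51) (nat_lit 5) (nat_lit 364) (nat_lit 289) (nat_lit 127))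 (XT.lf (nat_lit 0) (nat_lit 10464613354) (nat_lit 304) (nat_lit 25878477173) (nat_lit 76) (nat_lit 2616648347) (nat_lit 47) (nat_lit 5) (nat_lit 51) (nat_lit 5) (nat_lit 48) (nat_lit 5) (nat_lit 365) (nat_lit 289) (nat_lit 126))))) (XT.nd (nat_lit 234) (nat_lit 380) (nat_lit 0) (XT.nd (nat_lit 78) (nat_lit 152) (nat_lit 0) (XT.lf (nat_lit 0) (nat_lit 17472703756) (nat_lit 304) (nat_lit 9455022511) (nat_lit 76) (nat_lit 12887197505) (nat_lit 47) (nat_lit 5) (nat_lit 51) (nat_lit 5) (nat_lit 48) (nat_lit 5) (nat_lit 366) (nat_lit 289) (nat_lit 125)) (XT.nd (nat_lit 78) (nat_lit 0) (nat_lit 0) (XT.lf (nat_lit 0) (nat_lit 7601666877) (nat_lit 152) (nat_lit 17157701213) (nat_lit 228) (nat_lit 15934348690) (nat_lit 45) (nat_lit 5) (nat_lit 47) (nat_lit 5) (nat_lit 48) (nat_lit 5) (nat_lit 367) (nat_lit 289) (nat_lit 124)) (XT.lf (nat_lit 0) (nat_lit 25356147344) (nat_lit 152) (nat_lit 6999285335) (nat_lit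 228) (nat_lit 9240719315) (nat_lit 45) (nat_lit 5) (nat_lit 47) (nat_lit 5) (nat_lit 48) (nat_lit 5) (nat_lit 368) (nat_lit 289) (nat_lit 123)))) (XT.nd (nat_lit 156) (nat_lit 152) (nat_lit 0) (XT.nd (nat_lit 78) (nat_lit 76) (nat_lit 0) (XT.lf (nat_lit 0) (nat_lit 1098119978) (nat_lit 152) (nat_lit 39120542869) (nat_lit 228) (nat_lit 2305821263) (nat_lit 43) (nat_lit 5) (nat_lit 45) (nat_lit 5) (nat_lit 46) (nat_lit 5) (nat_lit 369) (nat_lit 289) (nat_lit 122)) (XT.lf (nat_lit 0) (nat_lit 4973094380) (nat_lit 228) (nat_lit 24311506372) (nat_lit 76) (nat_lit 14187761923) (nat_lit 42) (nat_lit 5) (nat_lit 45) (nat_lit 5) (nat_lit 43) (nat_lit 5) (nat_lit 370) (nat_lit 289) (nat_lit 121))) (XT.nd (nat_lit 78) (nat_lit 152) (nat_lit 0) (XT.lf (nat_lit 0) (nat_lit 12419610061) (nat_lit 228) (nat_lit 6713442052) (nat_lit 76) (nat_lit 25315075423) (nat_lit 42) (nat_lit 5) (nat_lit 45) (nat_lit 5) (nat_lit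 43) (nat_lit 5) (nat_lit 371) (nat_lit 289) (nat_lit 120)) (XT.lf (nat_lit 0) (nat_lit 11632359982) (nat_lit 152) (nat_lit 8564684701) (nat_lit 228) (nat_lit 25252897050) (nat_lit 40) (nat_lit 5) (nat_lit 42) (nat_lit 5) (nat_lit 43) (nat_lit 5) (nat_lit 372) (nat_lit 289) (nat_lit 119)))))) (XT.nd (nat_lit 546) (nat_lit 456) (nat_lit 0) (XT.nd (nat_lit 234) (nat_lit 228) (nat_lit 0) (XT.nd (nat_lit 78) (nat_lit 152) (nat_lit 0) (XT.lf (nat_lit 0) (nat_lit 28294309439) (nat_lit 228) (nat_lit 15843825387) (nat_lit 76) (nat_lit 2341082348) (nat_lit 40) (nat_lit 5) (nat_lit 43) (nat_lit 5) (nat_lit 41) (nat_lit 5) (nat_lit 373) (nat_lit 289) (nat_lit 118)) (XT.nd (nat_lit 78) (nat_lit 0) (nat_lit 0) (XT.lf (nat_lit 0) (nat_lit 2628624822) (nat_lit 152) (nat_lit 34111793313) (nat_lit 228) (nat_lit 10795776935) (nat_lit 38) (nat_lit 5) (nat_lit 40) (nat_lit 5) (nat_lit 41) (nat_lit 5) (nat_lit 374)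 (nat_lit 289) (nat_lit 117)) (XT.lf (nat_lit 0) (nat_lit 21973086264) (nat_lit 152) (nat_lit 23622728434) (nat_lit 228) (nat_lit 3024392381) (nat_lit 38) (nat_lit 5) (nat_lit 40) (nat_lit 5) (nat_lit 41) (nat_lit 5) (nat_lit 375) (nat_lit 289) (nat_lit 116)))) (XT.nd (nat_lit 156) (nat_lit 0) (nat_lit 0) (XT.nd (nat_lit 78) (nat_lit 152) (nat_lit 0) (XT.lf (nat_lit 0) (nat_lit 4878944327) (nat_lit 228) (nat_lit 7893554459) (nat_lit 76) (nat_lit 36962926576) (nat_lit 37) (nat_lit 5) (nat_lit 40) (nat_lit 5) (nat_lit 38) (nat_lit 5) (nat_lit 376) (nat_lit 289) (nat_lit 115)) (XT.lf (nat_lit 0) (nat_lit 11612653407) (nat_lit 152) (nat_lit 1453676098) (nat_lit 228) (nat_lit 37813642036) (nat_lit 35) (nat_lit 5) (nat_lit 37) (nat_lit 5) (nat_lit 38) (nat_lit 5) (nat_lit 377) (nat_lit 289) (nat_lit 114))) (XT.nd (nat_lit 78) (nat_lit 0) (nat_lit 0) (XT.lf (nat_lit 0) (nat_lit 21674060690) (nat_lit 228)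 (nat_lit 20296139880) (nat_lit 76) (nat_lit 10083413503) (nat_lit 35) (nat_lit 5) (nat_lit 38) (nat_lit 5) (nat_lit 36) (nat_lit 5) (nat_lit 378) (nat_lit 289) (nat_lit 113)) (XT.lf (nat_lit 0) (nat_lit 30550661205) (nat_lit 228) (nat_lit 776676941) (nat_lit 76) (nat_lit 21934810265) (nat_lit 35) (nat_lit 5) (nat_lit 38) (nat_lit 5) (nat_lit 36) (nat_lit 5) (nat_lit 379) (nat_lit 289) (nat_lit 112))))) (XT.nd (nat_lit 234) (nat_lit 152) (nat_lit 0) (XT.nd (nat_lit 78) (nat_lit 152) (nat_lit 0) (XT.lf (nat_lit 0) (nat_lit 19706647828) (nat_lit 152) (nat_lit 20172698206) (nat_lit 228) (nat_lit 14622020760) (nat_lit 33) (nat_lit 5) (nat_lit 35) (nat_lit 5) (nat_lit 36) (nat_lit 5) (nat_lit 380) (nat_lit 289) (nat_lit 111)) (XT.nd (nat_lit 78) (nat_lit 152) (nat_lit 0) (XT.lf (nat_lit 0) (nat_lit 40814185188) (nat_lit 152) (nat_lit 8677949597) (nat_lit 228) (nat_lit 6285501200) (nat_lit 33) (nat_lit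 5) (nat_lit 35) (nat_lit 5) (nat_lit 36) (nat_lit 5) (nat_lit 381) (nat_lit 289) (nat_lit 110)) (XT.lf (nat_lit 0) (nat_lit 2337073386) (nat_lit 152) (nat_lit 51578457679) (nat_lit 76) (nat_lit 3173574187) (nat_lit 31) (nat_lit 5) (nat_lit 33) (nat_lit 5) (nat_lit 32) (nat_lit 5) (nat_lit 382) (nat_lit 289) (nat_lit 109)))) (XT.nd (nat_lit 156) (nat_lit 152) (nat_lit 0) (XT.nd (nat_lit 78) (nat_lit 0) (nat_lit 0) (XT.lf (nat_lit 0) (nat_lit 11327000181) (nat_lit 152) (nat_lit 31685450464) (nat_lit 76) (nat_lit 15418552178) (nat_lit 31) (nat_lit 5) (nat_lit 33) (nat_lit 5) (nat_lit 32) (nat_lit 5) (nat_lit 383) (nat_lit 289) (nat_lit 108)) (XT.lf (nat_lit 0) (nat_lit 20583216487) (nat_lit 152) (nat_lit 11201595602) (nat_lit 76) (nat_lit 28028448864) (nat_lit 31) (nat_lit 5) (nat_lit 33) (nat_lit 5) (nat_lit 32) (nat_lit 5) (nat_lit 384) (nat_lit 289) (nat_lit 107))) (XT.nd (nat_lit 78) (nat_lit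 0) (nat_lit 0) (XT.lf (nat_lit 0) (nat_lit 10087855820) (nat_lit 152) (nat_lit 20122925081) (nat_lit 228) (nat_lit 31023397419) (nat_lit 29) (nat_lit 5) (nat_lit 31) (nat_lit 5) (nat_lit 32) (nat_lit 5) (nat_lit 385) (nat_lit 289) (nat_lit 106)) (XT.lf (nat_lit 0) (nat_lit 32239899593) (nat_lit 152) (nat_lit 7997119249) (nat_lit 228) (nat_lit 22457410273) (nat_lit 29) (nat_lit 5) (nat_lit 31) (nat_lit 5) (nat_lit 32) (nat_lit 5) (nat_lit 386) (nat_lit 289) (nat_lit 105))))))) (XT.nd (nat_lit 1092) (nat_lit 76) (nat_lit 0) (XT.nd (nat_lit 546) (nat_lit 304) (nat_lit 0) (XT.nd (nat_lit 234) (nat_lit 152) (nat_lit 0) (XT.nd (nat_lit 78) (nat_lit 152) (nat_lit 0) (XT.lf (nat_lit 0) (nat_lit 50604032995) (nat_lit 228) (nat_lit 9190787179) (nat_lit 76) (nat_lit 4402468855) (nat_lit 29) (nat_lit 5) (nat_lit 32) (nat_lit 5) (nat_lit 30) (nat_lit 4) (nat_lit 387) (nat_lit 289) (nat_lit 104)) (XT.nd (nat_lit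 78) (nat_lit 76) (nat_lit 0) (XT.lf (nat_lit 0) (nat_lit 12877518354) (nat_lit 76) (nat_lit 48604403056) (nat_lit 152) (nat_lit 4257318643) (nat_lit 28) (nat_lit 5) (nat_lit 29) (nat_lit 5) (nat_lit 30) (nat_lit 4) (nat_lit 388) (nat_lit 289) (nat_lit 103)) (XT.lf (nat_lit 0) (nat_lit 5344761991) (nat_lit 152) (nat_lit 31586285845) (nat_lit 76) (nat_lit 30392138619) (nat_lit 27) (nat_lit 5) (nat_lit 29) (nat_lit 5) (nat_lit 28) (nat_lit 5) (nat_lit 389) (nat_lit 289) (nat_lit 102)))) (XT.nd (nat_lit 156) (nat_lit 0) (nat_lit 0) (XT.nd (nat_lit 78) (nat_lit 152) (nat_lit 0) (XT.lf (nat_lit 0) (nat_lit 15146332077) (nat_lit 152) (nat_lit 9720045103) (nat_lit 76) (nat_lit 44087100797) (nat_lit 27) (nat_lit 5) (nat_lit 29) (nat_lit 5) (nat_lit 28) (nat_lit 5) (nat_lit 390) (nat_lit 289) (nat_lit 101)) (XT.lf (nat_lit 0) (nat_lit 13051716908) (nat_lit 152) (nat_lit 12312775893) (nat_lit 228) (nat_lit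 45264510230) (nat_lit 25) (nat_lit 5) (nat_lit 27) (nat_lit 5) (nat_lit 28) (nat_lit 5) (nat_lit 391) (nat_lit 289) (nat_lit 100))) (XT.nd (nat_lit 78) (nat_lit 0) (nat_lit 0) (XT.lf (nat_lit 0) (nat_lit 35991355757) (nat_lit 228) (nat_lit 35658040642) (nat_lit 76) (nat_lit 702333775) (nat_lit 25) (nat_lit 5) (nat_lit 28) (nat_lit 5) (nat_lit 26) (nat_lit 4) (nat_lit 392) (nat_lit 289) (nat_lit 99)) (XT.lf (nat_lit 0) (nat_lit 47056114873) (nat_lit 228) (nat_lit 13208143575) (nat_lit 76) (nat_lit 13858309004) (nat_lit 25) (nat_lit 5) (nat_lit 28) (nat_lit 5) (nat_lit 26) (nat_lit 4) (nat_lit 393) (nat_lit 289) (nat_lit 98))))) (XT.nd (nat_lit 234) (nat_lit 152) (nat_lit 0) (XT.nd (nat_lit 78) (nat_lit 76) (nat_lit 0) (XT.lf (nat_lit 0) (nat_lit 10107615408) (nat_lit 76) (nat_lit 48439625628) (nat_lit 152) (nat_lit 17396457084) (nat_lit 24) (nat_lit 5) (nat_lit 25) (nat_lit 5) (nat_lit 26) (nat_lit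 4) (nat_lit 394) (nat_lit 289) (nat_lit 97)) (XT.nd (nat_lit 78) (nat_lit 76) (nat_lit 0) (XT.lf (nat_lit 0) (nat_lit 34388777934) (nat_lit 76) (nat_lit 36124996426) (nat_lit 152) (nat_lit 7301769117) (nat_lit 24) (nat_lit 5) (nat_lit 25) (nat_lit 5) (nat_lit 26) (nat_lit 4) (nat_lit 395) (nat_lit 289) (nat_lit 96)) (XT.lf (nat_lit 0) (nat_lit 3032698916) (nat_lit 152) (nat_lit 20379663612) (nat_lit 76) (nat_lit 56330369366) (nat_lit 23) (nat_lit 5) (nat_lit 25) (nat_lit 5) (nat_lit 24) (nat_lit 5) (nat_lit 396) (nat_lit 289) (nat_lit 95)))) (XT.nd (nat_lit 156) (nat_lit 0) (nat_lit 0) (XT.nd (nat_lit 78) (nat_lit 0) (nat_lit 0) (XT.lf (nat_lit 0) (nat_lit 3347275572) (nat_lit 152) (nat_lit 10212769213) (nat_lit 228) (nat_lit 68164635159) (nat_lit 21) (nat_lit 5) (nat_lit 23) (nat_lit 5) (nat_lit 24) (nat_lit 5) (nat_lit 397) (nat_lit 289) (nat_lit 94)) (XT.lf (nat_lit 0) (nat_lit 24640998838)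 (nat_lit 228) (nat_lit 55595292967) (nat_lit 76) (nat_lit 3522661859) (nat_lit 21) (nat_lit 5) (nat_lit 24) (nat_lit 5) (nat_lit 22) (nat_lit 4) (nat_lit 398) (nat_lit 289) (nat_lit 93))) (XT.nd (nat_lit 78) (nat_lit 0) (nat_lit 0) (XT.lf (nat_lit 0) (nat_lit 36153010598) (nat_lit 228) (nat_lit 32235311637) (nat_lit 76) (nat_lit 17462975326) (nat_lit 21) (nat_lit 5) (nat_lit 24) (nat_lit 5) (nat_lit 22) (nat_lit 4) (nat_lit 399) (nat_lit 289) (nat_lit 92)) (XT.lf (nat_lit 0) (nat_lit 48007967718) (nat_lit 228) (nat_lit 8178877363) (nat_lit 76) (nat_lit 31819639955) (nat_lit 21) (nat_lit 5) (nat_lit 24) (nat_lit 5) (nat_lit 22) (nat_lit 4) (nat_lit 400) (nat_lit 289) (nat_lit 91)))))) (XT.nd (nat_lit 32370) (nat_lit 0) (nat_lit 14592) (XT.nd (nat_lit 32058) (nat_lit 0) (nat_lit 14440) (XT.nd (nat_lit 78) (nat_lit 0) (nat_lit 0) (XT.lf (nat_lit 0) (nat_lit 16925303676) (nat_lit 76) (nat_lit 43453621597)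 (nat_lit 152) (nat_lit 29842593100) (nat_lit 20) (nat_lit 5) (nat_lit 21) (nat_lit 5) (nat_lit 22) (nat_lit 4) (nat_lit 401) (nat_lit 289) (nat_lit 90)) (XT.nd (nat_lit 31902) (nat_lit 0) (nat_lit 14440) (XT.lf (nat_lit 0) (nat_lit 42946090587) (nat_lit 76) (nat_lit 30255195064) (nat_lit 152) (nat_lit 19299309601) (nat_lit 20) (nat_lit 5) (nat_lit 21) (nat_lit 5) (nat_lit 22) (nat_lit 4) (nat_lit 402) (nat_lit 289) (nat_lit 89)) (XT.lf (nat_lit 0) (nat_lit 840000293) (nat_lit 1140) (nat_lit 2171725295) (nat_lit 1140) (nat_lit 2171725295) (nat_lit 210) (nat_lit 3) (nat_lit 225) (nat_lit 3) (nat_lit 225) (nat_lit 5) (nat_lit 290) (nat_lit 290) (nat_lit 200)))) (XT.nd (nat_lit 156) (nat_lit 0) (nat_lit 76) (XT.nd (nat_lit 78) (nat_lit 0) (nat_lit 76) (XT.lf (nat_lit 76) (nat_lit 390434097) (nat_lit 0) (nat_lit 1939011471) (nat_lit 1140) (nat_lit 8173465711) (nat_lit 211) (nat_lit 5) (nat_lit 210)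 (nat_lit 3) (nat_lit 225) (nat_lit 5) (nat_lit 291) (nat_lit 290) (nat_lit 199)) (XT.lf (nat_lit 0) (nat_lit 3040242593) (nat_lit 1064) (nat_lit 5322155102) (nat_lit 1140) (nat_lit 2279377239) (nat_lit 211) (nat_lit 5) (nat_lit 225) (nat_lit 5) (nat_lit 226) (nat_lit 5) (nat_lit 292) (nat_lit 290) (nat_lit 198))) (XT.nd (nat_lit 78) (nat_lit 0) (nat_lit 76) (XT.lf (nat_lit 0) (nat_lit 3768040365) (nat_lit 1064) (nat_lit 420531543) (nat_lit 1140) (nat_lit 6596391334) (nat_lit 211) (nat_lit 5) (nat_lit 225) (nat_lit 5) (nat_lit 226) (nat_lit 5) (nat_lit 293) (nat_lit 290) (nat_lit 197)) (XT.lf (nat_lit 0) (nat_lit 4541690177) (nat_lit 1064) (nat_lit 6226239913) (nat_lit 1140) (nat_lit 163824771) (nat_lit 212) (nat_lit 5) (nat_lit 226) (nat_lit 5) (nat_lit 227) (nat_lit 5) (nat_lit 294) (nat_lit 290) (nat_lit 196))))) (XT.nd (nat_lit 234) (nat_lit 0) (nat_lit 76) (XT.nd (nat_lit 78) (nat_lit 0) (nat_lit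 0) (XT.lf (nat_lit 0) (nat_lit 5362108147) (nat_lit 1064) (nat_lit 1143860514) (nat_lit 1140) (nat_lit 4576302189) (nat_lit 212) (nat_lit 5) (nat_lit 226) (nat_lit 5) (nat_lit 227) (nat_lit 5) (nat_lit 295) (nat_lit 290) (nat_lit 195)) (XT.nd (nat_lit 78) (nat_lit 0) (nat_lit 76) (XT.lf (nat_lit 76) (nat_lit 4159053280) (nat_lit 0) (nat_lit 2066510436) (nat_lit 1140) (nat_lit 5011212435) (nat_lit 213) (nat_lit 5) (nat_lit 212) (nat_lit 5) (nat_lit 227) (nat_lit 5) (nat_lit 296) (nat_lit 290) (nat_lit 194)) (XT.lf (nat_lit 0) (nat_lit 7129705094) (nat_lit 1064) (nat_lit 1788974184) (nat_lit 1140) (nat_lit 2476819678) (nat_lit 213) (nat_lit 5) (nat_lit 227) (nat_lit 5) (nat_lit 228) (nat_lit 5) (nat_lit 297) (nat_lit 290) (nat_lit 193)))) (XT.nd (nat_lit 156) (nat_lit 0) (nat_lit 76) (XT.nd (nat_lit 78) (nat_lit 0) (nat_lit 76) (XT.lf (nat_lit 76) (nat_lit 3696811889) (nat_lit 0) (nat_lit 4399792776)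 (nat_lit 1140) (nat_lit 3461334821) (nat_lit 214) (nat_lit 5) (nat_lit 213) (nat_lit 5) (nat_lit 228) (nat_lit 5) (nat_lit 298) (nat_lit 290) (nat_lit 192)) (XT.lf (nat_lit 0) (nat_lit 9093371704) (nat_lit 1064) (nat_lit 2357352445) (nat_lit 1140) (nat_lit 274527597) (nat_lit 214) (nat_lit 5) (nat_lit 228) (nat_lit 5) (nat_lit 229) (nat_lit 5) (nat_lit 299) (nat_lit 290) (nat_lit 191))) (XT.nd (nat_lit 78) (nat_lit 0) (nat_lit 0) (XT.lf (nat_lit 76) (nat_lit 3319290490) (nat_lit 0) (nat_lit 6856966769) (nat_lit 1140) (nat_lit 1719663270) (nat_lit 215) (nat_lit 5) (nat_lit 214) (nat_lit 5) (nat_lit 229) (nat_lit 5) (nat_lit 300) (nat_lit 290) (nat_lit 190)) (XT.lf (nat_lit 76) (nat_lit 9201233552) (nat_lit 0) (nat_lit 2095379342) (nat_lit 1140) (nat_lit 774969906) (nat_lit 215) (nat_lit 5) (nat_lit 214) (nat_lit 5) (nat_lit 229) (nat_lit 5) (nat_lit 301) (nat_lit 290) (nat_lit 189))))))))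
noncomputable def xc176 : XT := (XT.nd (nat_lit 2106) (nat_lit 4180) (nat_lit 0) (XT.nd (nat_lit 1014) (nat_lit 3420) (nat_lit 0) (XT.nd (nat_lit 468) (nat_lit 2888) (nat_lit 0) (XT.nd (nat_lit 234) (nat_lit 0) (nat_lit 76) (XT.nd (nat_lit 78) (nat_lit 0) (nat_lit 0) (XT.lf (nat_lit 0) (nat_lit 232417056) (nat_lit 1140) (nat_lit 9228078180) (nat_lit 1216) (nat_lit 2790837671) (nat_lit 200) (nat_lit 5) (nat_lit 215) (nat_lit 5) (nat_lit 216) (nat_lit 5) (nat_lit 302) (nat_lit 290) (nat_lit 188)) (XT.nd (nat_lit 78) (nat_lit 0) (nat_lit 76) (XT.lf (nat_lit 0) (nat_lit 1286450153) (nat_lit 1140) (nat_lit 3325609051) (nat_lit 1216) (nat_lit 7823247089) (nat_lit 200) (nat_lit 5) (nat_lit 215) (nat_lit 5) (nat_lit 216) (nat_lit 5) (nat_lit 303) (nat_lit 290) (nat_lit 187)) (XT.lf (nat_lit 0) (nat_lit 2385455180) (nat_lit 1140) (nat_lit 9833438544) (nat_lit 1216) (nat_lit 405525004) (nat_lit 201) (nat_lit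 5) (nat_lit 216) (nat_lit 5) (nat_lit 217) (nat_lit 5) (nat_lit 304) (nat_lit 290) (nat_lit 186)))) (XT.nd (nat_lit 78) (nat_lit 0) (nat_lit 0) (XT.lf (nat_lit 0) (nat_lit 3579935032) (nat_lit 1140) (nat_lit 3718794290) (nat_lit 1216) (nat_lit 5518619854) (nat_lit 201) (nat_lit 5) (nat_lit 216) (nat_lit 5) (nat_lit 217) (nat_lit 5) (nat_lit 305) (nat_lit 290) (nat_lit 185)) (XT.nd (nat_lit 78) (nat_lit 0) (nat_lit 76) (XT.lf (nat_lit 76) (nat_lit 2616918294) (nat_lit 0) (nat_lit 2201909799) (nat_lit 1216) (nat_lit 8197001285) (nat_lit 202) (nat_lit 5) (nat_lit 201) (nat_lit 5) (nat_lit 217) (nat_lit 5) (nat_lit 306) (nat_lit 290) (nat_lit 184)) (XT.lf (nat_lit 0) (nat_lit 6145916095) (nat_lit 1140) (nat_lit 4043710883) (nat_lit 76) (nat_lit 3029124811) (nat_lit 202) (nat_lit 5) (nat_lit 217) (nat_lit 5) (nat_lit 203) (nat_lit 5) (nat_lit 307) (nat_lit 290) (nat_lit 183))))) (XT.nd (nat_lit 234)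 (nat_lit 1216) (nat_lit 0) (XT.nd (nat_lit 78) (nat_lit 684) (nat_lit 0) (XT.lf (nat_lit 0) (nat_lit 2516005516) (nat_lit 1140) (nat_lit 5027075703) (nat_lit 1216) (nat_lit 5883790820) (nat_lit 187) (nat_lit 5) (nat_lit 202) (nat_lit 5) (nat_lit 203) (nat_lit 5) (nat_lit 308) (nat_lit 290) (nat_lit 182)) (XT.nd (nat_lit 78) (nat_lit 684) (nat_lit 0) (XT.lf (nat_lit 0) (nat_lit 9010818316) (nat_lit 1216) (nat_lit 4301603455) (nat_lit 76) (nat_lit 327971990) (nat_lit 187) (nat_lit 5) (nat_lit 203) (nat_lit 5) (nat_lit 188) (nat_lit 5) (nat_lit 309) (nat_lit 290) (nat_lit 181)) (XT.lf (nat_lit 0) (nat_lit 2491379542) (nat_lit 684) (nat_lit 8090005531) (nat_lit 760) (nat_lit 3277189200) (nat_lit 178) (nat_lit 5) (nat_lit 187) (nat_lit 5) (nat_lit 188) (nat_lit 5) (nat_lit 310) (nat_lit 290) (nat_lit 180)))) (XT.nd (nat_lit 156) (nat_lit 608) (nat_lit 0) (XT.nd (nat_lit 78) (nat_lit 608) (nat_lit 0)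 (XT.lf (nat_lit 0) (nat_lit 9563061340) (nat_lit 684) (nat_lit 2664828240) (nat_lit 760) (nat_lit 1854562564) (nat_lit 178) (nat_lit 5) (nat_lit 187) (nat_lit 5) (nat_lit 188) (nat_lit 5) (nat_lit 311) (nat_lit 290) (nat_lit 179)) (XT.lf (nat_lit 0) (nat_lit 2542015186) (nat_lit 608) (nat_lit 11420129413) (nat_lit 684) (nat_lit 349767175) (nat_lit 170) (nat_lit 5) (nat_lit 178) (nat_lit 5) (nat_lit 179) (nat_lit 5) (nat_lit 312) (nat_lit 290) (nat_lit 178))) (XT.nd (nat_lit 78) (nat_lit 532) (nat_lit 0) (XT.lf (nat_lit 0) (nat_lit 1235180132) (nat_lit 684) (nat_lit 4690853918) (nat_lit 76) (nat_lit 8620137368) (nat_lit 169) (nat_lit 5) (nat_lit 178) (nat_lit 5) (nat_lit 170) (nat_lit 5) (nat_lit 313) (nat_lit 290) (nat_lit 177)) (XT.lf (nat_lit 0) (nat_lit 2635415483) (nat_lit 532) (nat_lit 236927185) (nat_lit 608) (nat_lit 11914676107) (nat_lit 162) (nat_lit 5) (nat_lit 169) (nat_lit 5) (nat_lit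 170) (nat_lit 5) (nat_lit 314) (nat_lit 290) (nat_lit 176)))))) (XT.nd (nat_lit 546) (nat_lit 1824) (nat_lit 0) (XT.nd (nat_lit 234) (nat_lit 1064) (nat_lit 0) (XT.nd (nat_lit 78) (nat_lit 532) (nat_lit 0) (XT.lf (nat_lit 0) (nat_lit 4647147469) (nat_lit 608) (nat_lit 4823957279) (nat_lit 76) (nat_lit 5561345274) (nat_lit 162) (nat_lit 5) (nat_lit 170) (nat_lit 5) (nat_lit 163) (nat_lit 5) (nat_lit 315) (nat_lit 290) (nat_lit 175)) (XT.nd (nat_lit 78) (nat_lit 0) (nat_lit 0) (XT.lf (nat_lit 0) (nat_lit 2762061967) (nat_lit 532) (nat_lit 3729059691) (nat_lit 608) (nat_lit 8793658665) (nat_lit 155) (nat_lit 5) (nat_lit 162) (nat_lit 5) (nat_lit 163) (nat_lit 5) (nat_lit 316) (nat_lit 290) (nat_lit 174)) (XT.lf (nat_lit 0) (nat_lit 8447897030) (nat_lit 608) (nat_lit 4903433199) (nat_lit 76) (nat_lit 2191639315) (nat_lit 155) (nat_lit 5) (nat_lit 163) (nat_lit 5) (nat_lit 156) (nat_lit 5) (nat_lit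 317) (nat_lit 290) (nat_lit 173)))) (XT.nd (nat_lit 156) (nat_lit 608) (nat_lit 0) (XT.nd (nat_lit 78) (nat_lit 0) (nat_lit 0) (XT.lf (nat_lit 0) (nat_lit 2952230401) (nat_lit 456) (nat_lit 7564096956) (nat_lit 532) (nat_lit 5291001612) (nat_lit 149) (nat_lit 5) (nat_lit 155) (nat_lit 5) (nat_lit 156) (nat_lit 5) (nat_lit 318) (nat_lit 290) (nat_lit 172)) (XT.lf (nat_lit 0) (nat_lit 11131318454) (nat_lit 456) (nat_lit 1552895861) (nat_lit 532) (nat_lit 3394295447) (nat_lit 149) (nat_lit 5) (nat_lit 155) (nat_lit 5) (nat_lit 156) (nat_lit 5) (nat_lit 319) (nat_lit 290) (nat_lit 171))) (XT.nd (nat_lit 78) (nat_lit 76) (nat_lit 0) (XT.lf (nat_lit 0) (nat_lit 3203119745) (nat_lit 532) (nat_lit 11777633294) (nat_lit 608) (nat_lit 1375176811) (nat_lit 142) (nat_lit 5) (nat_lit 149) (nat_lit 5) (nat_lit 150) (nat_lit 5) (nat_lit 320) (nat_lit 290) (nat_lit 170)) (XT.lf (nat_lit 0) (nat_lit 744925158)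 (nat_lit 608) (nat_lit 4976330442) (nat_lit 76) (nat_lit 10918600672) (nat_lit 141) (nat_lit 5) (nat_lit 149) (nat_lit 5) (nat_lit 142) (nat_lit 5) (nat_lit 321) (nat_lit 290) (nat_lit 169))))) (XT.nd (nat_lit 234) (nat_lit 912) (nat_lit 0) (XT.nd (nat_lit 78) (nat_lit 456) (nat_lit 0) (XT.lf (nat_lit 0) (nat_lit 2928607386) (nat_lit 532) (nat_lit 13449273956) (nat_lit 76) (nat_lit 553193450) (nat_lit 135) (nat_lit 5) (nat_lit 142) (nat_lit 5) (nat_lit 136) (nat_lit 5) (nat_lit 322) (nat_lit 290) (nat_lit 168)) (XT.nd (nat_lit 78) (nat_lit 456) (nat_lit 0) (XT.lf (nat_lit 0) (nat_lit 5274064467) (nat_lit 532) (nat_lit 5003682486) (nat_lit 76) (nat_lit 6950405935) (nat_lit 135) (nat_lit 5) (nat_lit 142) (nat_lit 5) (nat_lit 136) (nat_lit 5) (nat_lit 323) (nat_lit 290) (nat_lit 167)) (XT.lf (nat_lit 0) (nat_lit 3756242041) (nat_lit 456) (nat_lit 3958944278) (nat_lit 532) (nat_lit 9818208611) (nat_lit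 129) (nat_lit 5) (nat_lit 135) (nat_lit 5) (nat_lit 136) (nat_lit 5) (nat_lit 324) (nat_lit 290) (nat_lit 166)))) (XT.nd (nat_lit 156) (nat_lit 532) (nat_lit 0) (XT.nd (nat_lit 78) (nat_lit 380) (nat_lit 0) (XT.lf (nat_lit 0) (nat_lit 10294451804) (nat_lit 532) (nat_lit 5002275174) (nat_lit 76) (nat_lit 2549130279) (nat_lit 129) (nat_lit 5) (nat_lit 136) (nat_lit 5) (nat_lit 130) (nat_lit 5) (nat_lit 325) (nat_lit 290) (nat_lit 165)) (XT.lf (nat_lit 0) (nat_lit 4063790622) (nat_lit 380) (nat_lit 8955250900) (nat_lit 456) (nat_lit 5146623566) (nat_lit 124) (nat_lit 5) (nat_lit 129) (nat_lit 5) (nat_lit 130) (nat_lit 5) (nat_lit 326) (nat_lit 290) (nat_lit 164))) (XT.nd (nat_lit 78) (nat_lit 532) (nat_lit 0) (XT.lf (nat_lit 0) (nat_lit 13492339370) (nat_lit 380) (nat_lit 2373412583) (nat_lit 456) (nat_lit 2628113442) (nat_lit 124) (nat_lit 5) (nat_lit 129) (nat_lit 5) (nat_lit 130) (nat_lit 5) (nat_lit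 327) (nat_lit 290) (nat_lit 163)) (XT.lf (nat_lit 0) (nat_lit 42175554) (nat_lit 532) (nat_lit 14426658901) (nat_lit 76) (nat_lit 4360829471) (nat_lit 117) (nat_lit 5) (nat_lit 124) (nat_lit 5) (nat_lit 118) (nat_lit 5) (nat_lit 328) (nat_lit 290) (nat_lit 162))))))) (XT.nd (nat_lit 1092) (nat_lit 1672) (nat_lit 0) (XT.nd (nat_lit 546) (nat_lit 1368) (nat_lit 0) (XT.nd (nat_lit 234) (nat_lit 760) (nat_lit 0) (XT.nd (nat_lit 78) (nat_lit 380) (nat_lit 0) (XT.lf (nat_lit 0) (nat_lit 2804470755) (nat_lit 532) (nat_lit 5043905922) (nat_lit 76) (nat_lit 11324446415) (nat_lit 117) (nat_lit 5) (nat_lit 124) (nat_lit 5) (nat_lit 118) (nat_lit 5) (nat_lit 329) (nat_lit 290) (nat_lit 161)) (XT.nd (nat_lit 78) (nat_lit 0) (nat_lit 0) (XT.lf (nat_lit 0) (nat_lit 4700338579) (nat_lit 380) (nat_lit 984978972) (nat_lit 456) (nat_lit 13839897645) (nat_lit 112) (nat_lit 5) (nat_lit 117) (nat_lit 5) (nat_lit 118)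 (nat_lit 5) (nat_lit 330) (nat_lit 290) (nat_lit 160)) (XT.lf (nat_lit 0) (nat_lit 8753157499) (nat_lit 456) (nat_lit 5117199486) (nat_lit 76) (nat_lit 6014813440) (nat_lit 112) (nat_lit 5) (nat_lit 118) (nat_lit 5) (nat_lit 113) (nat_lit 5) (nat_lit 331) (nat_lit 290) (nat_lit 159)))) (XT.nd (nat_lit 156) (nat_lit 380) (nat_lit 0) (XT.nd (nat_lit 78) (nat_lit 0) (nat_lit 0) (XT.lf (nat_lit 0) (nat_lit 4957170003) (nat_lit 380) (nat_lit 7004182455) (nat_lit 456) (nat_lit 8293130407) (nat_lit 107) (nat_lit 5) (nat_lit 112) (nat_lit 5) (nat_lit 113) (nat_lit 5) (nat_lit 332) (nat_lit 290) (nat_lit 158)) (XT.lf (nat_lit 0) (nat_lit 15309679347) (nat_lit 456) (nat_lit 5207478364) (nat_lit 76) (nat_lit 116408299) (nat_lit 107) (nat_lit 5) (nat_lit 113) (nat_lit 5) (nat_lit 108) (nat_lit 5) (nat_lit 333) (nat_lit 290) (nat_lit 157))) (XT.nd (nat_lit 78) (nat_lit 76) (nat_lit 0) (XT.lf (nat_lit 0) (nat_lit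 5205972645) (nat_lit 304) (nat_lit 13663182827) (nat_lit 380) (nat_lit 2151552874) (nat_lit 103) (nat_lit 5) (nat_lit 107) (nat_lit 5) (nat_lit 108) (nat_lit 5) (nat_lit 334) (nat_lit 290) (nat_lit 156)) (XT.lf (nat_lit 0) (nat_lit 1138642276) (nat_lit 380) (nat_lit 5401945525) (nat_lit 76) (nat_lit 14877228550) (nat_lit 102) (nat_lit 5) (nat_lit 107) (nat_lit 5) (nat_lit 103) (nat_lit 5) (nat_lit 335) (nat_lit 290) (nat_lit 155))))) (XT.nd (nat_lit 234) (nat_lit 684) (nat_lit 0) (XT.nd (nat_lit 78) (nat_lit 304) (nat_lit 0) (XT.lf (nat_lit 0) (nat_lit 4536131164) (nat_lit 456) (nat_lit 16437077952) (nat_lit 76) (nat_lit 851441476) (nat_lit 97) (nat_lit 5) (nat_lit 103) (nat_lit 5) (nat_lit 98) (nat_lit 5) (nat_lit 336) (nat_lit 290) (nat_lit 154)) (XT.nd (nat_lit 78) (nat_lit 304) (nat_lit 0) (XT.lf (nat_lit 0) (nat_lit 8147118493) (nat_lit 456) (nat_lit 5707014830) (nat_lit 76) (nat_lit 8386216148)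 (nat_lit 97) (nat_lit 5) (nat_lit 103) (nat_lit 5) (nat_lit 98) (nat_lit 5) (nat_lit 337) (nat_lit 290) (nat_lit 153)) (XT.lf (nat_lit 0) (nat_lit 5440260726) (nat_lit 304) (nat_lit 6470437142) (nat_lit 380) (nat_lit 10756500204) (nat_lit 93) (nat_lit 5) (nat_lit 97) (nat_lit 5) (nat_lit 98) (nat_lit 5) (nat_lit 338) (nat_lit 290) (nat_lit 152)))) (XT.nd (nat_lit 156) (nat_lit 380) (nat_lit 0) (XT.nd (nat_lit 78) (nat_lit 304) (nat_lit 0) (XT.lf (nat_lit 0) (nat_lit 15848363690) (nat_lit 380) (nat_lit 6088617546) (nat_lit 76) (nat_lit 1168041954) (nat_lit 93) (nat_lit 5) (nat_lit 98) (nat_lit 5) (nat_lit 94) (nat_lit 5) (nat_lit 339) (nat_lit 290) (nat_lit 151)) (XT.lf (nat_lit 0) (nat_lit 5414811389) (nat_lit 304) (nat_lit 14597763973) (nat_lit 380) (nat_lit 3540161471) (nat_lit 89) (nat_lit 5) (nat_lit 93) (nat_lit 5) (nat_lit 94) (nat_lit 5) (nat_lit 340) (nat_lit 290) (nat_lit 150))) (XT.nd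 (nat_lit 78) (nat_lit 304) (nat_lit 0) (XT.lf (nat_lit 0) (nat_lit 336650380) (nat_lit 380) (nat_lit 6637952220) (nat_lit 76) (nat_lit 17037569103) (nat_lit 88) (nat_lit 5) (nat_lit 93) (nat_lit 5) (nat_lit 89) (nat_lit 5) (nat_lit 341) (nat_lit 290) (nat_lit 149)) (XT.lf (nat_lit 0) (nat_lit 4311035739) (nat_lit 380) (nat_lit 19227988008) (nat_lit 76) (nat_lit 943747367) (nat_lit 84) (nat_lit 5) (nat_lit 89) (nat_lit 5) (nat_lit 85) (nat_lit 5) (nat_lit 342) (nat_lit 290) (nat_lit 148)))))) (XT.nd (nat_lit 546) (nat_lit 760) (nat_lit 0) (XT.nd (nat_lit 234) (nat_lit 608) (nat_lit 0) (XT.nd (nat_lit 78) (nat_lit 304) (nat_lit 0) (XT.lf (nat_lit 0) (nat_lit 8534057960) (nat_lit 380) (nat_lit 7405301177) (nat_lit 76) (nat_lit 9024252762) (nat_lit 84) (nat_lit 5) (nat_lit 89) (nat_lit 5) (nat_lit 85) (nat_lit 5) (nat_lit 343) (nat_lit 290) (nat_lit 147)) (XT.nd (nat_lit 78) (nat_lit 0) (nat_lit 0)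 (XT.lf (nat_lit 0) (nat_lit 4856665997) (nat_lit 304) (nat_lit 8066659863) (nat_lit 380) (nat_lit 12534370784) (nat_lit 80) (nat_lit 5) (nat_lit 84) (nat_lit 5) (nat_lit 85) (nat_lit 5) (nat_lit 344) (nat_lit 290) (nat_lit 146)) (XT.lf (nat_lit 0) (nat_lit 17513148346) (nat_lit 380) (nat_lit 8337471255) (nat_lit 76) (nat_lit 113923266) (nat_lit 80) (nat_lit 5) (nat_lit 85) (nat_lit 5) (nat_lit 81) (nat_lit 5) (nat_lit 345) (nat_lit 290) (nat_lit 145)))) (XT.nd (nat_lit 156) (nat_lit 304) (nat_lit 0) (XT.nd (nat_lit 78) (nat_lit 76) (nat_lit 0) (XT.lf (nat_lit 0) (nat_lit 4287838898) (nat_lit 228) (nat_lit 18067068452) (nat_lit 304) (nat_lit 4128264950) (nat_lit 77) (nat_lit 5) (nat_lit 80) (nat_lit 5) (nat_lit 81) (nat_lit 5) (nat_lit 346) (nat_lit 290) (nat_lit 144)) (XT.lf (nat_lit 0) (nat_lit 396440462) (nat_lit 304) (nat_lit 9565971919) (nat_lit 76) (nat_lit 17052512967) (nat_lit 76) (nat_lit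 5) (nat_lit 80) (nat_lit 5) (nat_lit 77) (nat_lit 5) (nat_lit 347) (nat_lit 290) (nat_lit 143))) (XT.nd (nat_lit 78) (nat_lit 0) (nat_lit 0) (XT.lf (nat_lit 0) (nat_lit 3459187045) (nat_lit 304) (nat_lit 1541365703) (nat_lit 380) (nat_lit 22560057479) (nat_lit 72) (nat_lit 5) (nat_lit 76) (nat_lit 5) (nat_lit 77) (nat_lit 5) (nat_lit 348) (nat_lit 290) (nat_lit 142)) (XT.lf (nat_lit 0) (nat_lit 9902360772) (nat_lit 380) (nat_lit 11127875945) (nat_lit 76) (nat_lit 7087646275) (nat_lit 72) (nat_lit 5) (nat_lit 77) (nat_lit 5) (nat_lit 73) (nat_lit 5) (nat_lit 349) (nat_lit 290) (nat_lit 141))))) (XT.nd (nat_lit 234) (nat_lit 304) (nat_lit 0) (XT.nd (nat_lit 78) (nat_lit 228) (nat_lit 0) (XT.lf (nat_lit 0) (nat_lit 2254101836) (nat_lit 228) (nat_lit 12727698837) (nat_lit 304) (nat_lit 13709160320) (nat_lit 69) (nat_lit 5) (nat_lit 72) (nat_lit 5) (nat_lit 73) (nat_lit 5) (nat_lit 350) (nat_lit 290)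 (nat_lit 140)) (XT.nd (nat_lit 78) (nat_lit 228) (nat_lit 0) (XT.lf (nat_lit 0) (nat_lit 16256242170) (nat_lit 228) (nat_lit 4063494671) (nat_lit 304) (nat_lit 8958315353) (nat_lit 69) (nat_lit 5) (nat_lit 72) (nat_lit 5) (nat_lit 73) (nat_lit 5) (nat_lit 351) (nat_lit 290) (nat_lit 139)) (XT.lf (nat_lit 0) (nat_lit 754397911) (nat_lit 228) (nat_lit 25111284493) (nat_lit 304) (nat_lit 4015641719) (nat_lit 66) (nat_lit 5) (nat_lit 69) (nat_lit 5) (nat_lit 70) (nat_lit 5) (nat_lit 352) (nat_lit 290) (nat_lit 138)))) (XT.nd (nat_lit 156) (nat_lit 228) (nat_lit 0) (XT.nd (nat_lit 78) (nat_lit 0) (nat_lit 0) (XT.lf (nat_lit 0) (nat_lit 1221280252) (nat_lit 304) (nat_lit 15349118109) (nat_lit 76) (nat_lit 13926981102) (nat_lit 65) (nat_lit 5) (nat_lit 69) (nat_lit 5) (nat_lit 66) (nat_lit 5) (nat_lit 353) (nat_lit 290) (nat_lit 137)) (XT.lf (nat_lit 0) (nat_lit 6528698532) (nat_lit 304) (nat_lit 1206787078)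 (nat_lit 76) (nat_lit 23395418896) (nat_lit 65) (nat_lit 5) (nat_lit 69) (nat_lit 5) (nat_lit 66) (nat_lit 5) (nat_lit 354) (nat_lit 290) (nat_lit 136))) (XT.nd (nat_lit 78) (nat_lit 0) (nat_lit 0) (XT.lf (nat_lit 0) (nat_lit 12134885423) (nat_lit 304) (nat_lit 18177330148) (nat_lit 76) (nat_lit 1467037017) (nat_lit 62) (nat_lit 5) (nat_lit 66) (nat_lit 5) (nat_lit 63) (nat_lit 5) (nat_lit 355) (nat_lit 290) (nat_lit 135)) (XT.lf (nat_lit 0) (nat_lit 17992478495) (nat_lit 304) (nat_lit 3652610162) (nat_lit 76) (nat_lit 10799469399) (nat_lit 62) (nat_lit 5) (nat_lit 66) (nat_lit 5) (nat_lit 63) (nat_lit 5) (nat_lit 356) (nat_lit 290) (nat_lit 134))))))))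
noncomputable def xc177 : XT := (XT.nd (nat_lit 2184) (nat_lit 836) (nat_lit 0) (XT.nd (nat_lit 1092) (nat_lit 912) (nat_lit 0) (XT.nd (nat_lit 546) (nat_lit 608) (nat_lit 0) (XT.nd (nat_lit 234) (nat_lit 380) (nat_lit 0) (XT.nd (nat_lit 78) (nat_lit 228) (nat_lit 0) (XT.lf (nat_lit 0) (nat_lit 11524140356) (nat_lit 228) (nat_lit 12606926158) (nat_lit 304) (nat_lit 8995601618) (nat_lit 59) (nat_lit 5) (nat_lit 62) (nat_lit 5) (nat_lit 63) (nat_lit 5) (nat_lit 357) (nat_lit 290) (nat_lit 133)) (XT.nd (nat_lit 78) (nat_lit 228) (nat_lit 0) (XT.lf (nat_lit 0) (nat_lit 27222563965) (nat_lit 228) (nat_lit 3262701213) (nat_lit 304) (nat_lit 3343036100) (nat_lit 59) (nat_lit 5) (nat_lit 62) (nat_lit 5) (nat_lit 63) (nat_lit 5) (nat_lit 358) (nat_lit 290) (nat_lit 132)) (XT.lf (nat_lit 0) (nat_lit 2573977873) (nat_lit 228) (nat_lit 25625984590) (nat_lit 76) (nat_lit 6346011766) (nat_lit 56) (nat_lit 5)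 (nat_lit 59) (nat_lit 5) (nat_lit 57) (nat_lit 5) (nat_lit 359) (nat_lit 290) (nat_lit 131)))) (XT.nd (nat_lit 156) (nat_lit 152) (nat_lit 0) (XT.nd (nat_lit 78) (nat_lit 228) (nat_lit 0) (XT.lf (nat_lit 0) (nat_lit 8695697982) (nat_lit 228) (nat_lit 10310755832) (nat_lit 76) (nat_lit 16274902023) (nat_lit 56) (nat_lit 5) (nat_lit 59) (nat_lit 5) (nat_lit 57) (nat_lit 5) (nat_lit 360) (nat_lit 290) (nat_lit 130)) (XT.lf (nat_lit 0) (nat_lit 5564339841) (nat_lit 228) (nat_lit 9485089556) (nat_lit 304) (nat_lit 20987921688) (nat_lit 53) (nat_lit 5) (nat_lit 56) (nat_lit 5) (nat_lit 57) (nat_lit 5) (nat_lit 361) (nat_lit 290) (nat_lit 129))) (XT.nd (nat_lit 78) (nat_lit 152) (nat_lit 0) (XT.lf (nat_lit 0) (nat_lit 21696930796) (nat_lit 304) (nat_lit 14698194783) (nat_lit 76) (nat_lit 417808767) (nat_lit 53) (nat_lit 5) (nat_lit 57) (nat_lit 5) (nat_lit 54) (nat_lit 5) (nat_lit 362) (nat_lit 290) (nat_lit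 128)) (XT.lf (nat_lit 0) (nat_lit 1476795695) (nat_lit 152) (nat_lit 27170231608) (nat_lit 228) (nat_lit 8961665511) (nat_lit 51) (nat_lit 5) (nat_lit 53) (nat_lit 5) (nat_lit 54) (nat_lit 5) (nat_lit 363) (nat_lit 290) (nat_lit 127))))) (XT.nd (nat_lit 234) (nat_lit 304) (nat_lit 0) (XT.nd (nat_lit 78) (nat_lit 304) (nat_lit 0) (XT.lf (nat_lit 0) (nat_lit 18430436369) (nat_lit 152) (nat_lit 17518743601) (nat_lit 228) (nat_lit 2474840198) (nat_lit 51) (nat_lit 5) (nat_lit 53) (nat_lit 5) (nat_lit 54) (nat_lit 5) (nat_lit 364) (nat_lit 290) (nat_lit 126)) (XT.nd (nat_lit 78) (nat_lit 228) (nat_lit 0) (XT.lf (nat_lit 0) (nat_lit 4119726896) (nat_lit 228) (nat_lit 3419323107) (nat_lit 76) (nat_lit 31723690143) (nat_lit 50) (nat_lit 5) (nat_lit 53) (nat_lit 5) (nat_lit 51) (nat_lit 5) (nat_lit 365) (nat_lit 290) (nat_lit 125)) (XT.lf (nat_lit 0) (nat_lit 11019157357) (nat_lit 304) (nat_lit 26258708376)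 (nat_lit 76) (nat_lit 2843320340) (nat_lit 47) (nat_lit 5) (nat_lit 51) (nat_lit 5) (nat_lit 48) (nat_lit 5) (nat_lit 366) (nat_lit 290) (nat_lit 124)))) (XT.nd (nat_lit 156) (nat_lit 152) (nat_lit 0) (XT.nd (nat_lit 78) (nat_lit 152) (nat_lit 0) (XT.lf (nat_lit 0) (nat_lit 18230482541) (nat_lit 304) (nat_lit 9354087641) (nat_lit 76) (nat_lit 13417670268) (nat_lit 47) (nat_lit 5) (nat_lit 51) (nat_lit 5) (nat_lit 48) (nat_lit 5) (nat_lit 367) (nat_lit 290) (nat_lit 123)) (XT.lf (nat_lit 0) (nat_lit 8210531982) (nat_lit 152) (nat_lit 17522071635) (nat_lit 228) (nat_lit 16174891512) (nat_lit 45) (nat_lit 5) (nat_lit 47) (nat_lit 5) (nat_lit 48) (nat_lit 5) (nat_lit 368) (nat_lit 290) (nat_lit 122))) (XT.nd (nat_lit 78) (nat_lit 152) (nat_lit 0) (XT.lf (nat_lit 0) (nat_lit 26486555161) (nat_lit 152) (nat_lit 7063282716) (nat_lit 228) (nat_lit 9287370371) (nat_lit 45) (nat_lit 5) (nat_lit 47) (nat_lit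 5) (nat_lit 48) (nat_lit 5) (nat_lit 369) (nat_lit 290) (nat_lit 121)) (XT.lf (nat_lit 0) (nat_lit 1502534093) (nat_lit 152) (nat_lit 40144847283) (nat_lit 228) (nat_lit 2146059838) (nat_lit 43) (nat_lit 5) (nat_lit 45) (nat_lit 5) (nat_lit 46) (nat_lit 5) (nat_lit 370) (nat_lit 290) (nat_lit 120)))))) (XT.nd (nat_lit 546) (nat_lit 456) (nat_lit 0) (XT.nd (nat_lit 234) (nat_lit 228) (nat_lit 0) (XT.nd (nat_lit 78) (nat_lit 152) (nat_lit 0) (XT.lf (nat_lit 0) (nat_lit 5340217983) (nat_lit 228) (nat_lit 24675757135) (nat_lit 76) (nat_lit 14753914321) (nat_lit 42) (nat_lit 5) (nat_lit 45) (nat_lit 5) (nat_lit 43) (nat_lit 5) (nat_lit 371) (nat_lit 290) (nat_lit 119)) (XT.nd (nat_lit 78) (nat_lit 152) (nat_lit 0) (XT.lf (nat_lit 0) (nat_lit 13003781637) (nat_lit 228) (nat_lit 6560384704) (nat_lit 76) (nat_lit 26210954424) (nat_lit 42) (nat_lit 5) (nat_lit 45) (nat_lit 5) (nat_lit 43) (nat_lit 5) (nat_lit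 372) (nat_lit 290) (nat_lit 118)) (XT.lf (nat_lit 0) (nat_lit 12332316288) (nat_lit 152) (nat_lit 8679434278) (nat_lit 228) (nat_lit 25795325487) (nat_lit 40) (nat_lit 5) (nat_lit 42) (nat_lit 5) (nat_lit 43) (nat_lit 5) (nat_lit 373) (nat_lit 290) (nat_lit 117)))) (XT.nd (nat_lit 156) (nat_lit 76) (nat_lit 0) (XT.nd (nat_lit 78) (nat_lit 152) (nat_lit 0) (XT.lf (nat_lit 0) (nat_lit 29347178885) (nat_lit 228) (nat_lit 15973525962) (nat_lit 76) (nat_lit 2546670455) (nat_lit 40) (nat_lit 5) (nat_lit 43) (nat_lit 5) (nat_lit 41) (nat_lit 5) (nat_lit 374) (nat_lit 290) (nat_lit 116)) (XT.lf (nat_lit 0) (nat_lit 3049709378) (nat_lit 152) (nat_lit 34994308231) (nat_lit 228) (nat_lit 10912127354) (nat_lit 38) (nat_lit 5) (nat_lit 40) (nat_lit 5) (nat_lit 41) (nat_lit 5) (nat_lit 375) (nat_lit 290) (nat_lit 115))) (XT.nd (nat_lit 78) (nat_lit 76) (nat_lit 0) (XT.lf (nat_lit 0) (nat_lit 22964536921) (nat_lit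 152) (nat_lit 24194673509) (nat_lit 228) (nat_lit 2913645620) (nat_lit 38) (nat_lit 5) (nat_lit 40) (nat_lit 5) (nat_lit 41) (nat_lit 5) (nat_lit 376) (nat_lit 290) (nat_lit 114)) (XT.lf (nat_lit 0) (nat_lit 5217105822) (nat_lit 228) (nat_lit 7803877039) (nat_lit 76) (nat_lit 38200665123) (nat_lit 37) (nat_lit 5) (nat_lit 40) (nat_lit 5) (nat_lit 38) (nat_lit 5) (nat_lit 377) (nat_lit 290) (nat_lit 113))))) (XT.nd (nat_lit 234) (nat_lit 304) (nat_lit 0) (XT.nd (nat_lit 78) (nat_lit 0) (nat_lit 0) (XT.lf (nat_lit 0) (nat_lit 12284316239) (nat_lit 152) (nat_lit 1363317704) (nat_lit 228) (nat_lit 38752973479) (nat_lit 35) (nat_lit 5) (nat_lit 37) (nat_lit 5) (nat_lit 38) (nat_lit 5) (nat_lit 378) (nat_lit 290) (nat_lit 112)) (XT.nd (nat_lit 78) (nat_lit 0) (nat_lit 0) (XT.lf (nat_lit 0) (nat_lit 22509333328) (nat_lit 228) (nat_lit 20586811740) (nat_lit 76) (nat_lit 10513444515) (nat_lit 35) (nat_lit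 5) (nat_lit 38) (nat_lit 5) (nat_lit 36) (nat_lit 5) (nat_lit 379) (nat_lit 290) (nat_lit 111)) (XT.lf (nat_lit 0) (nat_lit 31646842029) (nat_lit 228) (nat_lit 491033233) (nat_lit 76) (nat_lit 22716668755) (nat_lit 35) (nat_lit 5) (nat_lit 38) (nat_lit 5) (nat_lit 36) (nat_lit 5) (nat_lit 380) (nat_lit 290) (nat_lit 110)))) (XT.nd (nat_lit 156) (nat_lit 152) (nat_lit 0) (XT.nd (nat_lit 78) (nat_lit 0) (nat_lit 0) (XT.lf (nat_lit 0) (nat_lit 20603762416) (nat_lit 152) (nat_lit 20649332786) (nat_lit 228) (nat_lit 14877914817) (nat_lit 33) (nat_lit 5) (nat_lit 35) (nat_lit 5) (nat_lit 36) (nat_lit 5) (nat_lit 381) (nat_lit 290) (nat_lit 109)) (XT.lf (nat_lit 0) (nat_lit 42335615746) (nat_lit 152) (nat_lit 8813485787) (nat_lit 228) (nat_lit 6296622968) (nat_lit 33) (nat_lit 5) (nat_lit 35) (nat_lit 5) (nat_lit 36) (nat_lit 5) (nat_lit 382) (nat_lit 290) (nat_lit 108))) (XT.nd (nat_lit 78) (nat_lit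 0) (nat_lit 0) (XT.lf (nat_lit 0) (nat_lit 2580169003) (nat_lit 152) (nat_lit 52824204035) (nat_lit 76) (nat_lit 3392145664) (nat_lit 31) (nat_lit 5) (nat_lit 33) (nat_lit 5) (nat_lit 32) (nat_lit 5) (nat_lit 383) (nat_lit 290) (nat_lit 107)) (XT.lf (nat_lit 0) (nat_lit 11834755249) (nat_lit 152) (nat_lit 32343191285) (nat_lit 76) (nat_lit 16000879861) (nat_lit 31) (nat_lit 5) (nat_lit 33) (nat_lit 5) (nat_lit 32) (nat_lit 5) (nat_lit 384) (nat_lit 290) (nat_lit 106))))))) (XT.nd (nat_lit 1092) (nat_lit 76) (nat_lit 0) (XT.nd (nat_lit 546) (nat_lit 456) (nat_lit 0) (XT.nd (nat_lit 234) (nat_lit 152) (nat_lit 0) (XT.nd (nat_lit 78) (nat_lit 152) (nat_lit 0) (XT.lf (nat_lit 0) (nat_lit 21363766440) (nat_lit 152) (nat_lit 11253349594) (nat_lit 76) (nat_lit 28985584968) (nat_lit 31) (nat_lit 5) (nat_lit 33) (nat_lit 5) (nat_lit 32) (nat_lit 5) (nat_lit 385) (nat_lit 290) (nat_lit 105)) (XT.nd (nat_lit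 78) (nat_lit 0) (nat_lit 0) (XT.lf (nat_lit 0) (nat_lit 10671998177) (nat_lit 152) (nat_lit 20606116495) (nat_lit 228) (nat_lit 31788194440) (nat_lit 29) (nat_lit 5) (nat_lit 31) (nat_lit 5) (nat_lit 32) (nat_lit 5) (nat_lit 386) (nat_lit 290) (nat_lit 104)) (XT.lf (nat_lit 0) (nat_lit 33480404039) (nat_lit 152) (nat_lit 8120046091) (nat_lit 228) (nat_lit 22970059862) (nat_lit 29) (nat_lit 5) (nat_lit 31) (nat_lit 5) (nat_lit 32) (nat_lit 5) (nat_lit 387) (nat_lit 290) (nat_lit 103)))) (XT.nd (nat_lit 156) (nat_lit 76) (nat_lit 0) (XT.nd (nat_lit 78) (nat_lit 76) (nat_lit 0) (XT.lf (nat_lit 0) (nat_lit 52275013470) (nat_lit 228) (nat_lit 9197641951) (nat_lit 76) (nat_lit 4645905934) (nat_lit 29) (nat_lit 5) (nat_lit 32) (nat_lit 5) (nat_lit 30) (nat_lit 4) (nat_lit 388) (nat_lit 290) (nat_lit 102)) (XT.lf (nat_lit 0) (nat_lit 13530076779) (nat_lit 76) (nat_lit 49947268734) (nat_lit 152) (nat_lit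 4229483952) (nat_lit 28) (nat_lit 5) (nat_lit 29) (nat_lit 5) (nat_lit 30) (nat_lit 4) (nat_lit 389) (nat_lit 290) (nat_lit 101))) (XT.nd (nat_lit 78) (nat_lit 0) (nat_lit 0) (XT.lf (nat_lit 0) (nat_lit 5653181382) (nat_lit 152) (nat_lit 32272393468) (nat_lit 76) (nat_lit 31412809483) (nat_lit 27) (nat_lit 5) (nat_lit 29) (nat_lit 5) (nat_lit 28) (nat_lit 5) (nat_lit 390) (nat_lit 290) (nat_lit 100)) (XT.lf (nat_lit 0) (nat_lit 15744485662) (nat_lit 152) (nat_lit 9757781454) (nat_lit 76) (nat_lit 45515448486) (nat_lit 27) (nat_lit 5) (nat_lit 29) (nat_lit 5) (nat_lit 28) (nat_lit 5) (nat_lit 391) (nat_lit 290) (nat_lit 99))))) (XT.nd (nat_lit 234) (nat_lit 304) (nat_lit 0) (XT.nd (nat_lit 78) (nat_lit 0) (nat_lit 0) (XT.lf (nat_lit 0) (nat_lit 13694644545) (nat_lit 152) (nat_lit 12572775753) (nat_lit 228) (nat_lit 46476140803) (nat_lit 25) (nat_lit 5) (nat_lit 27) (nat_lit 5) (nat_lit 28) (nat_lit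 5) (nat_lit 392) (nat_lit 290) (nat_lit 98)) (XT.nd (nat_lit 78) (nat_lit 0) (nat_lit 0) (XT.lf (nat_lit 0) (nat_lit 37209974268) (nat_lit 228) (nat_lit 36480561774) (nat_lit 76) (nat_lit 827528984) (nat_lit 25) (nat_lit 5) (nat_lit 28) (nat_lit 5) (nat_lit 26) (nat_lit 4) (nat_lit 393) (nat_lit 290) (nat_lit 97)) (XT.lf (nat_lit 0) (nat_lit 48602631172) (nat_lit 228) (nat_lit 13364368380) (nat_lit 76) (nat_lit 14375150697) (nat_lit 25) (nat_lit 5) (nat_lit 28) (nat_lit 5) (nat_lit 26) (nat_lit 4) (nat_lit 394) (nat_lit 290) (nat_lit 96)))) (XT.nd (nat_lit 156) (nat_lit 228) (nat_lit 0) (XT.nd (nat_lit 78) (nat_lit 0) (nat_lit 0) (XT.lf (nat_lit 0) (nat_lit 10648510241) (nat_lit 76) (nat_lit 49788338303) (nat_lit 152) (nat_lit 17781117005) (nat_lit 24) (nat_lit 5) (nat_lit 25) (nat_lit 5) (nat_lit 26) (nat_lit 4) (nat_lit 395) (nat_lit 290) (nat_lit 95)) (XT.lf (nat_lit 0) (nat_lit 35651185321)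 (nat_lit 76) (nat_lit 37107313219) (nat_lit 152) (nat_lit 7387585500) (nat_lit 24) (nat_lit 5) (nat_lit 25) (nat_lit 5) (nat_lit 26) (nat_lit 4) (nat_lit 396) (nat_lit 290) (nat_lit 94))) (XT.nd (nat_lit 78) (nat_lit 152) (nat_lit 0) (XT.lf (nat_lit 0) (nat_lit 3250511693) (nat_lit 152) (nat_lit 20764462220) (nat_lit 76) (nat_lit 58116191233) (nat_lit 23) (nat_lit 5) (nat_lit 25) (nat_lit 5) (nat_lit 24) (nat_lit 5) (nat_lit 397) (nat_lit 290) (nat_lit 93)) (XT.lf (nat_lit 0) (nat_lit 3672063656) (nat_lit 152) (nat_lit 10420076932) (nat_lit 228) (nat_lit 70080478446) (nat_lit 21) (nat_lit 5) (nat_lit 23) (nat_lit 5) (nat_lit 24) (nat_lit 5) (nat_lit 398) (nat_lit 290) (nat_lit 92)))))) (XT.nd (nat_lit 32448) (nat_lit 0) (nat_lit 14516) (XT.nd (nat_lit 234) (nat_lit 76) (nat_lit 0) (XT.nd (nat_lit 78) (nat_lit 0) (nat_lit 0) (XT.lf (nat_lit 0) (nat_lit 25502798543) (nat_lit 228) (nat_lit 57042551025)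 (nat_lit 76) (nat_lit 3722654376) (nat_lit 21) (nat_lit 5) (nat_lit 24) (nat_lit 5) (nat_lit 22) (nat_lit 4) (nat_lit 399) (nat_lit 290) (nat_lit 91)) (XT.nd (nat_lit 78) (nat_lit 0) (nat_lit 0) (XT.lf (nat_lit 0) (nat_lit 37356600663) (nat_lit 228) (nat_lit 32988195519) (nat_lit 76) (nat_lit 18078430276) (nat_lit 21) (nat_lit 5) (nat_lit 24) (nat_lit 5) (nat_lit 22) (nat_lit 4) (nat_lit 400) (nat_lit 290) (nat_lit 90)) (XT.lf (nat_lit 0) (nat_lit 49563740485) (nat_lit 228) (nat_lit 8216306338) (nat_lit 76) (nat_lit 32863127882) (nat_lit 21) (nat_lit 5) (nat_lit 24) (nat_lit 5) (nat_lit 22) (nat_lit 4) (nat_lit 401) (nat_lit 290) (nat_lit 89)))) (XT.nd (nat_lit 32058) (nat_lit 0) (nat_lit 14440) (XT.nd (nat_lit 31980) (nat_lit 0) (nat_lit 14440) (XT.lf (nat_lit 0) (nat_lit 17638961531) (nat_lit 76) (nat_lit 44665479399) (nat_lit 152) (nat_lit 30620260818) (nat_lit 20) (nat_lit 5) (nat_lit 21) (nat_lit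 5) (nat_lit 22) (nat_lit 4) (nat_lit 402) (nat_lit 290) (nat_lit 88)) (XT.lf (nat_lit 0) (nat_lit 1479727636) (nat_lit 1140) (nat_lit 1920015828) (nat_lit 1140) (nat_lit 1920015828) (nat_lit 210) (nat_lit 3) (nat_lit 225) (nat_lit 3) (nat_lit 225) (nat_lit 5) (nat_lit 291) (nat_lit 291) (nat_lit 198))) (XT.nd (nat_lit 78) (nat_lit 0) (nat_lit 76) (XT.lf (nat_lit 76) (nat_lit 1029656607) (nat_lit 0) (nat_lit 2568961292) (nat_lit 1140) (nat_lit 7181927683) (nat_lit 211) (nat_lit 5) (nat_lit 210) (nat_lit 3) (nat_lit 225) (nat_lit 5) (nat_lit 292) (nat_lit 291) (nat_lit 197)) (XT.lf (nat_lit 0) (nat_lit 4290471880) (nat_lit 1064) (nat_lit 4830888867) (nat_lit 1140) (nat_lit 1803465351) (nat_lit 211) (nat_lit 5) (nat_lit 225) (nat_lit 5) (nat_lit 226) (nat_lit 5) (nat_lit 293) (nat_lit 291) (nat_lit 196))))) (XT.nd (nat_lit 234) (nat_lit 0) (nat_lit 76) (XT.nd (nat_lit 78) (nat_lit 0) (nat_lit 0) (XT.lf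 (nat_lit 76) (nat_lit 202781238) (nat_lit 0) (nat_lit 4805513682) (nat_lit 1140) (nat_lit 6065011089) (nat_lit 212) (nat_lit 5) (nat_lit 211) (nat_lit 5) (nat_lit 226) (nat_lit 5) (nat_lit 294) (nat_lit 291) (nat_lit 195)) (XT.nd (nat_lit 78) (nat_lit 0) (nat_lit 76) (XT.lf (nat_lit 76) (nat_lit 5474160270) (nat_lit 0) (nat_lit 300631049) (nat_lit 1140) (nat_lit 5450661422) (nat_lit 212) (nat_lit 5) (nat_lit 211) (nat_lit 5) (nat_lit 226) (nat_lit 5) (nat_lit 295) (nat_lit 291) (nat_lit 194)) (XT.lf (nat_lit 0) (nat_lit 6585069050) (nat_lit 1064) (nat_lit 532909835) (nat_lit 1140) (nat_lit 4263587206) (nat_lit 212) (nat_lit 5) (nat_lit 226) (nat_lit 5) (nat_lit 227) (nat_lit 5) (nat_lit 296) (nat_lit 291) (nat_lit 193)))) (XT.nd (nat_lit 156) (nat_lit 0) (nat_lit 76) (XT.nd (nat_lit 78) (nat_lit 0) (nat_lit 76) (XT.lf (nat_lit 76) (nat_lit 4922765230) (nat_lit 0) (nat_lit 2526870058) (nat_lit 1140)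 (nat_lit 4091853207) (nat_lit 213) (nat_lit 5) (nat_lit 212) (nat_lit 5) (nat_lit 227) (nat_lit 5) (nat_lit 297) (nat_lit 291) (nat_lit 192)) (XT.lf (nat_lit 0) (nat_lit 8346970362) (nat_lit 1064) (nat_lit 1187147669) (nat_lit 1140) (nat_lit 2171909913) (nat_lit 213) (nat_lit 5) (nat_lit 227) (nat_lit 5) (nat_lit 228) (nat_lit 5) (nat_lit 298) (nat_lit 291) (nat_lit 191))) (XT.nd (nat_lit 78) (nat_lit 0) (nat_lit 0) (XT.lf (nat_lit 76) (nat_lit 4456785558) (nat_lit 0) (nat_lit 4863106125) (nat_lit 1140) (nat_lit 2554175528) (nat_lit 214) (nat_lit 5) (nat_lit 213) (nat_lit 5) (nat_lit 228) (nat_lit 5) (nat_lit 299) (nat_lit 291) (nat_lit 190)) (XT.lf (nat_lit 76) (nat_lit 10281956018) (nat_lit 0) (nat_lit 33278508) (nat_lit 1140) (nat_lit 1732139044) (nat_lit 214) (nat_lit 5) (nat_lit 213) (nat_lit 5) (nat_lit 228) (nat_lit 5) (nat_lit 300) (nat_lit 291) (nat_lit 189))))))))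
noncomputable def xc178 : XT := (XT.nd (nat_lit 2106) (nat_lit 4484) (nat_lit 0) (XT.nd (nat_lit 1014) (nat_lit 3420) (nat_lit 0) (XT.nd (nat_lit 468) (nat_lit 2280) (nat_lit 0) (XT.nd (nat_lit 234) (nat_lit 0) (nat_lit 76) (XT.nd (nat_lit 78) (nat_lit 1140) (nat_lit 0) (XT.lf (nat_lit 76) (nat_lit 4075344804) (nat_lit 0) (nat_lit 7333619140) (nat_lit 1140) (nat_lit 814881653) (nat_lit 215) (nat_lit 5) (nat_lit 214) (nat_lit 5) (nat_lit 229) (nat_lit 5) (nat_lit 301) (nat_lit 291) (nat_lit 188)) (XT.nd (nat_lit 78) (nat_lit 0) (nat_lit 76) (XT.lf (nat_lit 0) (nat_lit 127754465) (nat_lit 1140) (nat_lit 2292248001) (nat_lit 1216) (nat_lit 9985580975) (nat_lit 199) (nat_lit 5) (nat_lit 214) (nat_lit 5) (nat_lit 215) (nat_lit 5) (nat_lit 302) (nat_lit 291) (nat_lit 187)) (XT.lf (nat_lit 0) (nat_lit 1127212365) (nat_lit 1140) (nat_lit 8824773135) (nat_lit 1216) (nat_lit 2639218620) (nat_lit 200) (nat_lit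 5) (nat_lit 215) (nat_lit 5) (nat_lit 216) (nat_lit 5) (nat_lit 303) (nat_lit 291) (nat_lit 186)))) (XT.nd (nat_lit 78) (nat_lit 0) (nat_lit 76) (XT.lf (nat_lit 0) (nat_lit 2187007539) (nat_lit 1140) (nat_lit 2765040051) (nat_lit 1216) (nat_lit 7829455005) (nat_lit 200) (nat_lit 5) (nat_lit 215) (nat_lit 5) (nat_lit 216) (nat_lit 5) (nat_lit 304) (nat_lit 291) (nat_lit 185)) (XT.nd (nat_lit 78) (nat_lit 0) (nat_lit 0) (XT.lf (nat_lit 0) (nat_lit 3298342830) (nat_lit 1140) (nat_lit 9446489814) (nat_lit 1216) (nat_lit 232104196) (nat_lit 201) (nat_lit 5) (nat_lit 216) (nat_lit 5) (nat_lit 217) (nat_lit 5) (nat_lit 305) (nat_lit 291) (nat_lit 184)) (XT.lf (nat_lit 0) (nat_lit 4504152496) (nat_lit 1140) (nat_lit 3168268909) (nat_lit 1216) (nat_lit 5503997325) (nat_lit 201) (nat_lit 5) (nat_lit 216) (nat_lit 5) (nat_lit 217) (nat_lit 5) (nat_lit 306) (nat_lit 291) (nat_lit 183))))) (XT.nd (nat_lit 234)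 (nat_lit 1368) (nat_lit 0) (XT.nd (nat_lit 78) (nat_lit 1064) (nat_lit 0) (XT.lf (nat_lit 76) (nat_lit 3351023983) (nat_lit 0) (nat_lit 2411699521) (nat_lit 1216) (nat_lit 7618682064) (nat_lit 202) (nat_lit 5) (nat_lit 201) (nat_lit 5) (nat_lit 217) (nat_lit 5) (nat_lit 307) (nat_lit 291) (nat_lit 182)) (XT.nd (nat_lit 78) (nat_lit 1140) (nat_lit 0) (XT.lf (nat_lit 0) (nat_lit 7105001270) (nat_lit 1140) (nat_lit 3503004271) (nat_lit 76) (nat_lit 2983175555) (nat_lit 202) (nat_lit 5) (nat_lit 217) (nat_lit 5) (nat_lit 203) (nat_lit 5) (nat_lit 308) (nat_lit 291) (nat_lit 181)) (XT.lf (nat_lit 0) (nat_lit 3247013247) (nat_lit 1140) (nat_lit 5280805131) (nat_lit 1216) (nat_lit 5278240446) (nat_lit 187) (nat_lit 5) (nat_lit 202) (nat_lit 5) (nat_lit 203) (nat_lit 5) (nat_lit 309) (nat_lit 291) (nat_lit 180)))) (XT.nd (nat_lit 156) (nat_lit 684) (nat_lit 0) (XT.nd (nat_lit 78) (nat_lit 684) (nat_lit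 0) (XT.lf (nat_lit 0) (nat_lit 10016536477) (nat_lit 1216) (nat_lit 3770325108) (nat_lit 76) (nat_lit 239841371) (nat_lit 187) (nat_lit 5) (nat_lit 203) (nat_lit 5) (nat_lit 188) (nat_lit 5) (nat_lit 310) (nat_lit 291) (nat_lit 179)) (XT.lf (nat_lit 0) (nat_lit 3219973591) (nat_lit 684) (nat_lit 8399112646) (nat_lit 760) (nat_lit 2632821156) (nat_lit 178) (nat_lit 5) (nat_lit 187) (nat_lit 5) (nat_lit 188) (nat_lit 5) (nat_lit 311) (nat_lit 291) (nat_lit 178))) (XT.nd (nat_lit 78) (nat_lit 684) (nat_lit 0) (XT.lf (nat_lit 0) (nat_lit 10484761590) (nat_lit 684) (nat_lit 2809245854) (nat_lit 760) (nat_lit 1189147285) (nat_lit 178) (nat_lit 5) (nat_lit 187) (nat_lit 5) (nat_lit 188) (nat_lit 5) (nat_lit 312) (nat_lit 291) (nat_lit 177)) (XT.lf (nat_lit 0) (nat_lit 338869651) (nat_lit 684) (nat_lit 11454253240) (nat_lit 76) (nat_lit 2926740083) (nat_lit 169) (nat_lit 5) (nat_lit 178) (nat_lit 5) (nat_lit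 170) (nat_lit 5) (nat_lit 313) (nat_lit 291) (nat_lit 176)))))) (XT.nd (nat_lit 546) (nat_lit 1900) (nat_lit 0) (XT.nd (nat_lit 234) (nat_lit 988) (nat_lit 0) (XT.nd (nat_lit 78) (nat_lit 532) (nat_lit 0) (XT.lf (nat_lit 0) (nat_lit 1944177157) (nat_lit 684) (nat_lit 4185679337) (nat_lit 76) (nat_lit 8831816529) (nat_lit 169) (nat_lit 5) (nat_lit 178) (nat_lit 5) (nat_lit 170) (nat_lit 5) (nat_lit 314) (nat_lit 291) (nat_lit 175)) (XT.nd (nat_lit 78) (nat_lit 0) (nat_lit 0) (XT.lf (nat_lit 0) (nat_lit 3354045791) (nat_lit 532) (nat_lit 262985579) (nat_lit 608) (nat_lit 11593138250) (nat_lit 162) (nat_lit 5) (nat_lit 169) (nat_lit 5) (nat_lit 170) (nat_lit 5) (nat_lit 315) (nat_lit 291) (nat_lit 174)) (XT.lf (nat_lit 0) (nat_lit 5425723309) (nat_lit 608) (nat_lit 4327695680) (nat_lit 76) (nat_lit 5710146035) (nat_lit 162) (nat_lit 5) (nat_lit 170) (nat_lit 5) (nat_lit 163) (nat_lit 5) (nat_lit 316)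 (nat_lit 291) (nat_lit 173)))) (XT.nd (nat_lit 156) (nat_lit 456) (nat_lit 0) (XT.nd (nat_lit 78) (nat_lit 0) (nat_lit 0) (XT.lf (nat_lit 0) (nat_lit 3479620022) (nat_lit 532) (nat_lit 3832881437) (nat_lit 608) (nat_lit 8411359145) (nat_lit 155) (nat_lit 5) (nat_lit 162) (nat_lit 5) (nat_lit 163) (nat_lit 5) (nat_lit 317) (nat_lit 291) (nat_lit 172)) (XT.lf (nat_lit 0) (nat_lit 9309803391) (nat_lit 608) (nat_lit 4415505184) (nat_lit 76) (nat_lit 2265051561) (nat_lit 155) (nat_lit 5) (nat_lit 163) (nat_lit 5) (nat_lit 156) (nat_lit 5) (nat_lit 318) (nat_lit 291) (nat_lit 171))) (XT.nd (nat_lit 78) (nat_lit 0) (nat_lit 0) (XT.lf (nat_lit 0) (nat_lit 3669602530) (nat_lit 456) (nat_lit 7759006147) (nat_lit 532) (nat_lit 4834410774) (nat_lit 149) (nat_lit 5) (nat_lit 155) (nat_lit 5) (nat_lit 156) (nat_lit 5) (nat_lit 319) (nat_lit 291) (nat_lit 170)) (XT.lf (nat_lit 0) (nat_lit 12075748509) (nat_lit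 456) (nat_lit 1568401458) (nat_lit 532) (nat_lit 2898725392) (nat_lit 149) (nat_lit 5) (nat_lit 155) (nat_lit 5) (nat_lit 156) (nat_lit 5) (nat_lit 320) (nat_lit 291) (nat_lit 169))))) (XT.nd (nat_lit 234) (nat_lit 836) (nat_lit 0) (XT.nd (nat_lit 78) (nat_lit 532) (nat_lit 0) (XT.lf (nat_lit 0) (nat_lit 3921236122) (nat_lit 532) (nat_lit 12077742069) (nat_lit 608) (nat_lit 829975751) (nat_lit 142) (nat_lit 5) (nat_lit 149) (nat_lit 5) (nat_lit 150) (nat_lit 5) (nat_lit 321) (nat_lit 291) (nat_lit 168)) (XT.nd (nat_lit 78) (nat_lit 456) (nat_lit 0) (XT.lf (nat_lit 0) (nat_lit 1325537464) (nat_lit 608) (nat_lit 4510048306) (nat_lit 76) (nat_lit 11286162379) (nat_lit 141) (nat_lit 5) (nat_lit 149) (nat_lit 5) (nat_lit 142) (nat_lit 5) (nat_lit 322) (nat_lit 291) (nat_lit 167)) (XT.lf (nat_lit 0) (nat_lit 3564922111) (nat_lit 532) (nat_lit 13226832394) (nat_lit 76) (nat_lit 630259151) (nat_lit 135)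 (nat_lit 5) (nat_lit 142) (nat_lit 5) (nat_lit 136) (nat_lit 5) (nat_lit 323) (nat_lit 291) (nat_lit 166)))) (XT.nd (nat_lit 156) (nat_lit 380) (nat_lit 0) (XT.nd (nat_lit 78) (nat_lit 456) (nat_lit 0) (XT.lf (nat_lit 0) (nat_lit 5964768444) (nat_lit 532) (nat_lit 4546103854) (nat_lit 76) (nat_lit 7217626752) (nat_lit 135) (nat_lit 5) (nat_lit 142) (nat_lit 5) (nat_lit 136) (nat_lit 5) (nat_lit 324) (nat_lit 291) (nat_lit 165)) (XT.lf (nat_lit 0) (nat_lit 4470660673) (nat_lit 456) (nat_lit 3998738302) (nat_lit 532) (nat_lit 9573806387) (nat_lit 129) (nat_lit 5) (nat_lit 135) (nat_lit 5) (nat_lit 136) (nat_lit 5) (nat_lit 325) (nat_lit 291) (nat_lit 164))) (XT.nd (nat_lit 78) (nat_lit 380) (nat_lit 0) (XT.lf (nat_lit 0) (nat_lit 11111553529) (nat_lit 532) (nat_lit 4553155432) (nat_lit 76) (nat_lit 2700782082) (nat_lit 129) (nat_lit 5) (nat_lit 136) (nat_lit 5) (nat_lit 130) (nat_lit 5) (nat_lit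 326) (nat_lit 291) (nat_lit 163)) (XT.lf (nat_lit 0) (nat_lit 4779017946) (nat_lit 380) (nat_lit 9129762359) (nat_lit 456) (nat_lit 4786400208) (nat_lit 124) (nat_lit 5) (nat_lit 129) (nat_lit 5) (nat_lit 130) (nat_lit 5) (nat_lit 327) (nat_lit 291) (nat_lit 162))))))) (XT.nd (nat_lit 1092) (nat_lit 1824) (nat_lit 0) (XT.nd (nat_lit 546) (nat_lit 1368) (nat_lit 0) (XT.nd (nat_lit 234) (nat_lit 760) (nat_lit 0) (XT.nd (nat_lit 78) (nat_lit 532) (nat_lit 0) (XT.lf (nat_lit 0) (nat_lit 14473142177) (nat_lit 380) (nat_lit 2353211011) (nat_lit 456) (nat_lit 2207323772) (nat_lit 124) (nat_lit 5) (nat_lit 129) (nat_lit 5) (nat_lit 130) (nat_lit 5) (nat_lit 328) (nat_lit 291) (nat_lit 161)) (XT.nd (nat_lit 78) (nat_lit 0) (nat_lit 0) (XT.lf (nat_lit 0) (nat_lit 525590252) (nat_lit 532) (nat_lit 14265051611) (nat_lit 76) (nat_lit 4589008686) (nat_lit 117) (nat_lit 5) (nat_lit 124) (nat_lit 5) (nat_lit 118)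 (nat_lit 5) (nat_lit 329) (nat_lit 291) (nat_lit 160)) (XT.lf (nat_lit 0) (nat_lit 3356711122) (nat_lit 532) (nat_lit 4618128870) (nat_lit 76) (nat_lit 11758698575) (nat_lit 117) (nat_lit 5) (nat_lit 124) (nat_lit 5) (nat_lit 118) (nat_lit 5) (nat_lit 330) (nat_lit 291) (nat_lit 159)))) (XT.nd (nat_lit 156) (nat_lit 380) (nat_lit 0) (XT.nd (nat_lit 78) (nat_lit 0) (nat_lit 0) (XT.lf (nat_lit 0) (nat_lit 5412785180) (nat_lit 380) (nat_lit 903056976) (nat_lit 456) (nat_lit 13780916921) (nat_lit 112) (nat_lit 5) (nat_lit 117) (nat_lit 5) (nat_lit 118) (nat_lit 5) (nat_lit 331) (nat_lit 291) (nat_lit 158)) (XT.lf (nat_lit 0) (nat_lit 9463360582) (nat_lit 456) (nat_lit 4703164512) (nat_lit 76) (nat_lit 6301370617) (nat_lit 112) (nat_lit 5) (nat_lit 118) (nat_lit 5) (nat_lit 113) (nat_lit 5) (nat_lit 332) (nat_lit 291) (nat_lit 157))) (XT.nd (nat_lit 78) (nat_lit 0) (nat_lit 0) (XT.lf (nat_lit 0) (nat_lit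 5667871837) (nat_lit 380) (nat_lit 7092294577) (nat_lit 456) (nat_lit 8088361857) (nat_lit 107) (nat_lit 5) (nat_lit 112) (nat_lit 5) (nat_lit 113) (nat_lit 5) (nat_lit 333) (nat_lit 291) (nat_lit 156)) (XT.lf (nat_lit 0) (nat_lit 16197267056) (nat_lit 456) (nat_lit 4806029950) (nat_lit 76) (nat_lit 236048539) (nat_lit 107) (nat_lit 5) (nat_lit 113) (nat_lit 5) (nat_lit 108) (nat_lit 5) (nat_lit 334) (nat_lit 291) (nat_lit 155))))) (XT.nd (nat_lit 234) (nat_lit 608) (nat_lit 0) (XT.nd (nat_lit 78) (nat_lit 456) (nat_lit 0) (XT.lf (nat_lit 0) (nat_lit 5914357208) (nat_lit 304) (nat_lit 13942003713) (nat_lit 380) (nat_lit 1781967253) (nat_lit 103) (nat_lit 5) (nat_lit 107) (nat_lit 5) (nat_lit 108) (nat_lit 5) (nat_lit 335) (nat_lit 291) (nat_lit 154)) (XT.nd (nat_lit 78) (nat_lit 380) (nat_lit 0) (XT.lf (nat_lit 0) (nat_lit 1586064384) (nat_lit 380) (nat_lit 5019311015) (nat_lit 76) (nat_lit 15442231154)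 (nat_lit 102) (nat_lit 5) (nat_lit 107) (nat_lit 5) (nat_lit 103) (nat_lit 5) (nat_lit 336) (nat_lit 291) (nat_lit 153)) (XT.lf (nat_lit 0) (nat_lit 5079903666) (nat_lit 456) (nat_lit 16379586830) (nat_lit 76) (nat_lit 1007332644) (nat_lit 97) (nat_lit 5) (nat_lit 103) (nat_lit 5) (nat_lit 98) (nat_lit 5) (nat_lit 337) (nat_lit 291) (nat_lit 152)))) (XT.nd (nat_lit 156) (nat_lit 304) (nat_lit 0) (XT.nd (nat_lit 78) (nat_lit 304) (nat_lit 0) (XT.lf (nat_lit 0) (nat_lit 8787346190) (nat_lit 456) (nat_lit 5343658808) (nat_lit 76) (nat_lit 8764354015) (nat_lit 97) (nat_lit 5) (nat_lit 103) (nat_lit 5) (nat_lit 98) (nat_lit 5) (nat_lit 338) (nat_lit 291) (nat_lit 151)) (XT.lf (nat_lit 0) (nat_lit 6132794167) (nat_lit 304) (nat_lit 6524598414) (nat_lit 380) (nat_lit 10677823212) (nat_lit 93) (nat_lit 5) (nat_lit 97) (nat_lit 5) (nat_lit 98) (nat_lit 5) (nat_lit 339) (nat_lit 291) (nat_lit 150))) (XT.nd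 (nat_lit 78) (nat_lit 304) (nat_lit 0) (XT.lf (nat_lit 0) (nat_lit 16703153513) (nat_lit 380) (nat_lit 5747025066) (nat_lit 76) (nat_lit 1336307366) (nat_lit 93) (nat_lit 5) (nat_lit 98) (nat_lit 5) (nat_lit 94) (nat_lit 5) (nat_lit 340) (nat_lit 291) (nat_lit 149)) (XT.lf (nat_lit 0) (nat_lit 6096367022) (nat_lit 304) (nat_lit 14889865823) (nat_lit 380) (nat_lit 3261588877) (nat_lit 89) (nat_lit 5) (nat_lit 93) (nat_lit 5) (nat_lit 94) (nat_lit 5) (nat_lit 341) (nat_lit 291) (nat_lit 148)))))) (XT.nd (nat_lit 546) (nat_lit 836) (nat_lit 0) (XT.nd (nat_lit 234) (nat_lit 608) (nat_lit 0) (XT.nd (nat_lit 78) (nat_lit 304) (nat_lit 0) (XT.lf (nat_lit 0) (nat_lit 713030517) (nat_lit 380) (nat_lit 6325527882) (nat_lit 76) (nat_lit 17682708379) (nat_lit 88) (nat_lit 5) (nat_lit 93) (nat_lit 5) (nat_lit 89) (nat_lit 5) (nat_lit 342) (nat_lit 291) (nat_lit 147)) (XT.nd (nat_lit 78) (nat_lit 0) (nat_lit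 0) (XT.lf (nat_lit 0) (nat_lit 4802252391) (nat_lit 380) (nat_lit 19288596245) (nat_lit 76) (nat_lit 1115275592) (nat_lit 84) (nat_lit 5) (nat_lit 89) (nat_lit 5) (nat_lit 85) (nat_lit 5) (nat_lit 343) (nat_lit 291) (nat_lit 146)) (XT.lf (nat_lit 0) (nat_lit 9141424922) (nat_lit 380) (nat_lit 7126264675) (nat_lit 76) (nat_lit 9434024814) (nat_lit 84) (nat_lit 5) (nat_lit 89) (nat_lit 5) (nat_lit 85) (nat_lit 5) (nat_lit 344) (nat_lit 291) (nat_lit 145)))) (XT.nd (nat_lit 156) (nat_lit 304) (nat_lit 0) (XT.nd (nat_lit 78) (nat_lit 0) (nat_lit 0) (XT.lf (nat_lit 0) (nat_lit 5498647833) (nat_lit 304) (nat_lit 8158260235) (nat_lit 380) (nat_lit 12553885247) (nat_lit 80) (nat_lit 5) (nat_lit 84) (nat_lit 5) (nat_lit 85) (nat_lit 5) (nat_lit 345) (nat_lit 291) (nat_lit 144)) (XT.lf (nat_lit 0) (nat_lit 18375754606) (nat_lit 380) (nat_lit 8096847477) (nat_lit 76) (nat_lit 260510468) (nat_lit 80) (nat_lit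 5) (nat_lit 85) (nat_lit 5) (nat_lit 81) (nat_lit 5) (nat_lit 346) (nat_lit 291) (nat_lit 143))) (XT.nd (nat_lit 78) (nat_lit 76) (nat_lit 0) (XT.lf (nat_lit 0) (nat_lit 4902410727) (nat_lit 228) (nat_lit 18455205069) (nat_lit 304) (nat_lit 3909846876) (nat_lit 77) (nat_lit 5) (nat_lit 80) (nat_lit 5) (nat_lit 81) (nat_lit 5) (nat_lit 347) (nat_lit 291) (nat_lit 142)) (XT.lf (nat_lit 0) (nat_lit 734146472) (nat_lit 304) (nat_lit 9374454583) (nat_lit 76) (nat_lit 17706768657) (nat_lit 76) (nat_lit 5) (nat_lit 80) (nat_lit 5) (nat_lit 77) (nat_lit 5) (nat_lit 348) (nat_lit 291) (nat_lit 141))))) (XT.nd (nat_lit 234) (nat_lit 304) (nat_lit 0) (XT.nd (nat_lit 78) (nat_lit 228) (nat_lit 0) (XT.lf (nat_lit 0) (nat_lit 4036768008) (nat_lit 304) (nat_lit 1434678932) (nat_lit 380) (nat_lit 22906132923) (nat_lit 72) (nat_lit 5) (nat_lit 76) (nat_lit 5) (nat_lit 77) (nat_lit 5) (nat_lit 349) (nat_lit 291)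 (nat_lit 140)) (XT.nd (nat_lit 78) (nat_lit 228) (nat_lit 0) (XT.lf (nat_lit 0) (nat_lit 10512390474) (nat_lit 380) (nat_lit 10993572430) (nat_lit 76) (nat_lit 7445851946) (nat_lit 72) (nat_lit 5) (nat_lit 77) (nat_lit 5) (nat_lit 73) (nat_lit 5) (nat_lit 350) (nat_lit 291) (nat_lit 139)) (XT.lf (nat_lit 0) (nat_lit 2785275079) (nat_lit 228) (nat_lit 12954279114) (nat_lit 304) (nat_lit 13802677067) (nat_lit 69) (nat_lit 5) (nat_lit 72) (nat_lit 5) (nat_lit 73) (nat_lit 5) (nat_lit 351) (nat_lit 291) (nat_lit 138)))) (XT.nd (nat_lit 156) (nat_lit 76) (nat_lit 0) (XT.nd (nat_lit 78) (nat_lit 228) (nat_lit 0) (XT.lf (nat_lit 0) (nat_lit 17193978161) (nat_lit 228) (nat_lit 4034670688) (nat_lit 304) (nat_lit 8918561840) (nat_lit 69) (nat_lit 5) (nat_lit 72) (nat_lit 5) (nat_lit 73) (nat_lit 5) (nat_lit 352) (nat_lit 291) (nat_lit 137)) (XT.lf (nat_lit 0) (nat_lit 1230324681) (nat_lit 228) (nat_lit 25707694085)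 (nat_lit 304) (nat_lit 3830656555) (nat_lit 66) (nat_lit 5) (nat_lit 69) (nat_lit 5) (nat_lit 70) (nat_lit 5) (nat_lit 353) (nat_lit 291) (nat_lit 136))) (XT.nd (nat_lit 78) (nat_lit 0) (nat_lit 0) (XT.lf (nat_lit 0) (nat_lit 1548689436) (nat_lit 304) (nat_lit 15363526465) (nat_lit 76) (nat_lit 14491175615) (nat_lit 65) (nat_lit 5) (nat_lit 69) (nat_lit 5) (nat_lit 66) (nat_lit 5) (nat_lit 354) (nat_lit 291) (nat_lit 135)) (XT.lf (nat_lit 0) (nat_lit 7006861213) (nat_lit 304) (nat_lit 809917693) (nat_lit 76) (nat_lit 24239402899) (nat_lit 65) (nat_lit 5) (nat_lit 69) (nat_lit 5) (nat_lit 66) (nat_lit 5) (nat_lit 355) (nat_lit 291) (nat_lit 134))))))))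
noncomputable def xc179 : XT := (XT.nd (nat_lit 2184) (nat_lit 912) (nat_lit 0) (XT.nd (nat_lit 1092) (nat_lit 912) (nat_lit 0) (XT.nd (nat_lit 546) (nat_lit 608) (nat_lit 0) (XT.nd (nat_lit 234) (nat_lit 456) (nat_lit 0) (XT.nd (nat_lit 78) (nat_lit 228) (nat_lit 0) (XT.lf (nat_lit 0) (nat_lit 12778581386) (nat_lit 304) (nat_lit 18286749211) (nat_lit 76) (nat_lit 1658734568) (nat_lit 62) (nat_lit 5) (nat_lit 66) (nat_lit 5) (nat_lit 63) (nat_lit 5) (nat_lit 356) (nat_lit 291) (nat_lit 133)) (XT.nd (nat_lit 78) (nat_lit 228) (nat_lit 0) (XT.lf (nat_lit 0) (nat_lit 18803757122) (nat_lit 304) (nat_lit 3338983766) (nat_lit 76) (nat_lit 11266838375) (nat_lit 62) (nat_lit 5) (nat_lit 66) (nat_lit 5) (nat_lit 63) (nat_lit 5) (nat_lit 357) (nat_lit 291) (nat_lit 132)) (XT.lf (nat_lit 0) (nat_lit 12288920202) (nat_lit 228) (nat_lit 12833702908) (nat_lit 304) (nat_lit 8989650885) (nat_lit 59) (nat_lit 5)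 (nat_lit 62) (nat_lit 5) (nat_lit 63) (nat_lit 5) (nat_lit 358) (nat_lit 291) (nat_lit 131)))) (XT.nd (nat_lit 156) (nat_lit 228) (nat_lit 0) (XT.nd (nat_lit 78) (nat_lit 228) (nat_lit 0) (XT.lf (nat_lit 0) (nat_lit 28446091015) (nat_lit 228) (nat_lit 3213561827) (nat_lit 304) (nat_lit 3175541958) (nat_lit 59) (nat_lit 5) (nat_lit 62) (nat_lit 5) (nat_lit 63) (nat_lit 5) (nat_lit 359) (nat_lit 291) (nat_lit 130)) (XT.lf (nat_lit 0) (nat_lit 2911469061) (nat_lit 228) (nat_lit 25980093273) (nat_lit 76) (nat_lit 6682831562) (nat_lit 56) (nat_lit 5) (nat_lit 59) (nat_lit 5) (nat_lit 57) (nat_lit 5) (nat_lit 360) (nat_lit 291) (nat_lit 129))) (XT.nd (nat_lit 78) (nat_lit 228) (nat_lit 0) (XT.lf (nat_lit 0) (nat_lit 9209260040) (nat_lit 228) (nat_lit 10217485444) (nat_lit 76) (nat_lit 16905323300) (nat_lit 56) (nat_lit 5) (nat_lit 59) (nat_lit 5) (nat_lit 57) (nat_lit 5) (nat_lit 361) (nat_lit 291) (nat_lit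 128)) (XT.lf (nat_lit 0) (nat_lit 6129916109) (nat_lit 228) (nat_lit 9620159383) (nat_lit 304) (nat_lit 21360778516) (nat_lit 53) (nat_lit 5) (nat_lit 56) (nat_lit 5) (nat_lit 57) (nat_lit 5) (nat_lit 362) (nat_lit 291) (nat_lit 127))))) (XT.nd (nat_lit 234) (nat_lit 456) (nat_lit 0) (XT.nd (nat_lit 78) (nat_lit 152) (nat_lit 0) (XT.lf (nat_lit 0) (nat_lit 22591139820) (nat_lit 304) (nat_lit 14746104936) (nat_lit 76) (nat_lit 572640030) (nat_lit 53) (nat_lit 5) (nat_lit 57) (nat_lit 5) (nat_lit 54) (nat_lit 5) (nat_lit 363) (nat_lit 291) (nat_lit 126)) (XT.nd (nat_lit 78) (nat_lit 0) (nat_lit 0) (XT.lf (nat_lit 0) (nat_lit 1910281965) (nat_lit 152) (nat_lit 27836111877) (nat_lit 228) (nat_lit 8983226564) (nat_lit 51) (nat_lit 5) (nat_lit 53) (nat_lit 5) (nat_lit 54) (nat_lit 5) (nat_lit 364) (nat_lit 291) (nat_lit 125)) (XT.lf (nat_lit 0) (nat_lit 19361196450) (nat_lit 152) (nat_lit 17899425638)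 (nat_lit 228) (nat_lit 2308999082) (nat_lit 51) (nat_lit 5) (nat_lit 53) (nat_lit 5) (nat_lit 54) (nat_lit 5) (nat_lit 365) (nat_lit 291) (nat_lit 124)))) (XT.nd (nat_lit 156) (nat_lit 152) (nat_lit 0) (XT.nd (nat_lit 78) (nat_lit 228) (nat_lit 0) (XT.lf (nat_lit 0) (nat_lit 4471863726) (nat_lit 228) (nat_lit 3150389463) (nat_lit 76) (nat_lit 32811389705) (nat_lit 50) (nat_lit 5) (nat_lit 53) (nat_lit 5) (nat_lit 51) (nat_lit 5) (nat_lit 366) (nat_lit 291) (nat_lit 123)) (XT.lf (nat_lit 0) (nat_lit 11576525934) (nat_lit 304) (nat_lit 26673085603) (nat_lit 76) (nat_lit 3068286783) (nat_lit 47) (nat_lit 5) (nat_lit 51) (nat_lit 5) (nat_lit 48) (nat_lit 5) (nat_lit 367) (nat_lit 291) (nat_lit 122))) (XT.nd (nat_lit 78) (nat_lit 152) (nat_lit 0) (XT.lf (nat_lit 0) (nat_lit 18997585227) (nat_lit 304) (nat_lit 9272201509) (nat_lit 76) (nat_lit 13955799243) (nat_lit 47) (nat_lit 5) (nat_lit 51) (nat_lit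 5) (nat_lit 48) (nat_lit 5) (nat_lit 368) (nat_lit 291) (nat_lit 121)) (XT.lf (nat_lit 0) (nat_lit 8815802695) (nat_lit 152) (nat_lit 17906004483) (nat_lit 228) (nat_lit 16436283381) (nat_lit 45) (nat_lit 5) (nat_lit 47) (nat_lit 5) (nat_lit 48) (nat_lit 5) (nat_lit 369) (nat_lit 291) (nat_lit 120)))))) (XT.nd (nat_lit 546) (nat_lit 380) (nat_lit 0) (XT.nd (nat_lit 234) (nat_lit 304) (nat_lit 0) (XT.nd (nat_lit 78) (nat_lit 228) (nat_lit 0) (XT.lf (nat_lit 0) (nat_lit 27629651577) (nat_lit 152) (nat_lit 7137579935) (nat_lit 228) (nat_lit 9348656651) (nat_lit 45) (nat_lit 5) (nat_lit 47) (nat_lit 5) (nat_lit 48) (nat_lit 5) (nat_lit 370) (nat_lit 291) (nat_lit 119)) (XT.nd (nat_lit 78) (nat_lit 76) (nat_lit 0) (XT.lf (nat_lit 0) (nat_lit 1897756704) (nat_lit 152) (nat_lit 41208451942) (nat_lit 228) (nat_lit 1994647437) (nat_lit 43) (nat_lit 5) (nat_lit 45) (nat_lit 5) (nat_lit 46) (nat_lit 5) (nat_lit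 371) (nat_lit 291) (nat_lit 118)) (XT.lf (nat_lit 0) (nat_lit 5705845178) (nat_lit 228) (nat_lit 25071893335) (nat_lit 76) (nat_lit 15328984895) (nat_lit 42) (nat_lit 5) (nat_lit 45) (nat_lit 5) (nat_lit 43) (nat_lit 5) (nat_lit 372) (nat_lit 291) (nat_lit 117)))) (XT.nd (nat_lit 156) (nat_lit 152) (nat_lit 0) (XT.nd (nat_lit 78) (nat_lit 152) (nat_lit 0) (XT.lf (nat_lit 0) (nat_lit 13593332615) (nat_lit 228) (nat_lit 6423083124) (nat_lit 76) (nat_lit 27125878343) (nat_lit 42) (nat_lit 5) (nat_lit 45) (nat_lit 5) (nat_lit 43) (nat_lit 5) (nat_lit 373) (nat_lit 291) (nat_lit 116)) (XT.lf (nat_lit 0) (nat_lit 13033123278) (nat_lit 152) (nat_lit 8805788685) (nat_lit 228) (nat_lit 26366377754) (nat_lit 40) (nat_lit 5) (nat_lit 42) (nat_lit 5) (nat_lit 43) (nat_lit 5) (nat_lit 374) (nat_lit 291) (nat_lit 115))) (XT.nd (nat_lit 78) (nat_lit 152) (nat_lit 0) (XT.lf (nat_lit 0) (nat_lit 30419921675) (nat_lit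 228) (nat_lit 16126957223) (nat_lit 76) (nat_lit 2750656239) (nat_lit 40) (nat_lit 5) (nat_lit 43) (nat_lit 5) (nat_lit 41) (nat_lit 5) (nat_lit 375) (nat_lit 291) (nat_lit 114)) (XT.lf (nat_lit 0) (nat_lit 3463781310) (nat_lit 152) (nat_lit 35911383324) (nat_lit 228) (nat_lit 11043880950) (nat_lit 38) (nat_lit 5) (nat_lit 40) (nat_lit 5) (nat_lit 41) (nat_lit 5) (nat_lit 376) (nat_lit 291) (nat_lit 113))))) (XT.nd (nat_lit 234) (nat_lit 152) (nat_lit 0) (XT.nd (nat_lit 78) (nat_lit 228) (nat_lit 0) (XT.lf (nat_lit 0) (nat_lit 23966658126) (nat_lit 152) (nat_lit 24791626186) (nat_lit 228) (nat_lit 2811142148) (nat_lit 38) (nat_lit 5) (nat_lit 40) (nat_lit 5) (nat_lit 41) (nat_lit 5) (nat_lit 377) (nat_lit 291) (nat_lit 112)) (XT.nd (nat_lit 78) (nat_lit 152) (nat_lit 0) (XT.lf (nat_lit 0) (nat_lit 5554402450) (nat_lit 228) (nat_lit 7730250816) (nat_lit 76) (nat_lit 39468139266) (nat_lit 37) (nat_lit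 5) (nat_lit 40) (nat_lit 5) (nat_lit 38) (nat_lit 5) (nat_lit 378) (nat_lit 291) (nat_lit 111)) (XT.lf (nat_lit 0) (nat_lit 12957571176) (nat_lit 152) (nat_lit 1277938908) (nat_lit 228) (nat_lit 39731683129) (nat_lit 35) (nat_lit 5) (nat_lit 37) (nat_lit 5) (nat_lit 38) (nat_lit 5) (nat_lit 379) (nat_lit 291) (nat_lit 110)))) (XT.nd (nat_lit 156) (nat_lit 152) (nat_lit 0) (XT.nd (nat_lit 78) (nat_lit 0) (nat_lit 0) (XT.lf (nat_lit 0) (nat_lit 23359041471) (nat_lit 228) (nat_lit 20904470445) (nat_lit 76) (nat_lit 10949055795) (nat_lit 35) (nat_lit 5) (nat_lit 38) (nat_lit 5) (nat_lit 36) (nat_lit 5) (nat_lit 380) (nat_lit 291) (nat_lit 109)) (XT.lf (nat_lit 0) (nat_lit 32765595002) (nat_lit 228) (nat_lit 214554864) (nat_lit 76) (nat_lit 23514875560) (nat_lit 35) (nat_lit 5) (nat_lit 38) (nat_lit 5) (nat_lit 36) (nat_lit 5) (nat_lit 381) (nat_lit 291) (nat_lit 108))) (XT.nd (nat_lit 78) (nat_lit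 0) (nat_lit 0) (XT.lf (nat_lit 0) (nat_lit 21510229661) (nat_lit 152) (nat_lit 21147645490) (nat_lit 228) (nat_lit 15151977244) (nat_lit 33) (nat_lit 5) (nat_lit 35) (nat_lit 5) (nat_lit 36) (nat_lit 5) (nat_lit 382) (nat_lit 291) (nat_lit 107)) (XT.lf (nat_lit 0) (nat_lit 43885639920) (nat_lit 152) (nat_lit 8960252226) (nat_lit 228) (nat_lit 6318264359) (nat_lit 33) (nat_lit 5) (nat_lit 35) (nat_lit 5) (nat_lit 36) (nat_lit 5) (nat_lit 383) (nat_lit 291) (nat_lit 106))))))) (XT.nd (nat_lit 1092) (nat_lit 228) (nat_lit 0) (XT.nd (nat_lit 546) (nat_lit 304) (nat_lit 0) (XT.nd (nat_lit 234) (nat_lit 228) (nat_lit 0) (XT.nd (nat_lit 78) (nat_lit 0) (nat_lit 0) (XT.lf (nat_lit 0) (nat_lit 2820627532) (nat_lit 152) (nat_lit 54124636280) (nat_lit 76) (nat_lit 3610192672) (nat_lit 31) (nat_lit 5) (nat_lit 33) (nat_lit 5) (nat_lit 32) (nat_lit 5) (nat_lit 384) (nat_lit 291) (nat_lit 105)) (XT.nd (nat_lit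 78) (nat_lit 0) (nat_lit 0) (XT.lf (nat_lit 0) (nat_lit 12348102235) (nat_lit 152) (nat_lit 33037473551) (nat_lit 76) (nat_lit 16593802023) (nat_lit 31) (nat_lit 5) (nat_lit 33) (nat_lit 5) (nat_lit 32) (nat_lit 5) (nat_lit 385) (nat_lit 291) (nat_lit 104)) (XT.lf (nat_lit 0) (nat_lit 22158372957) (nat_lit 152) (nat_lit 11322975837) (nat_lit 76) (nat_lit 29964760056) (nat_lit 31) (nat_lit 5) (nat_lit 33) (nat_lit 5) (nat_lit 32) (nat_lit 5) (nat_lit 386) (nat_lit 291) (nat_lit 103)))) (XT.nd (nat_lit 156) (nat_lit 76) (nat_lit 0) (XT.nd (nat_lit 78) (nat_lit 0) (nat_lit 0) (XT.lf (nat_lit 0) (nat_lit 11257505169) (nat_lit 152) (nat_lit 21110720635) (nat_lit 228) (nat_lit 32585458992) (nat_lit 29) (nat_lit 5) (nat_lit 31) (nat_lit 5) (nat_lit 32) (nat_lit 5) (nat_lit 387) (nat_lit 291) (nat_lit 102)) (XT.lf (nat_lit 0) (nat_lit 34742434652) (nat_lit 152) (nat_lit 8253376254) (nat_lit 228) (nat_lit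 23507335170) (nat_lit 29) (nat_lit 5) (nat_lit 31) (nat_lit 5) (nat_lit 32) (nat_lit 5) (nat_lit 388) (nat_lit 291) (nat_lit 101))) (XT.nd (nat_lit 78) (nat_lit 76) (nat_lit 0) (XT.lf (nat_lit 0) (nat_lit 53987348600) (nat_lit 228) (nat_lit 9220136538) (nat_lit 76) (nat_lit 4890253432) (nat_lit 29) (nat_lit 5) (nat_lit 32) (nat_lit 5) (nat_lit 30) (nat_lit 4) (nat_lit 389) (nat_lit 291) (nat_lit 100)) (XT.lf (nat_lit 0) (nat_lit 14186929100) (nat_lit 76) (nat_lit 51337037147) (nat_lit 152) (nat_lit 4209743670) (nat_lit 28) (nat_lit 5) (nat_lit 29) (nat_lit 5) (nat_lit 30) (nat_lit 4) (nat_lit 390) (nat_lit 291) (nat_lit 99))))) (XT.nd (nat_lit 234) (nat_lit 76) (nat_lit 0) (XT.nd (nat_lit 78) (nat_lit 152) (nat_lit 0) (XT.lf (nat_lit 0) (nat_lit 5962353155) (nat_lit 152) (nat_lit 32994094396) (nat_lit 76) (nat_lit 32457848782) (nat_lit 27) (nat_lit 5) (nat_lit 29) (nat_lit 5) (nat_lit 28) (nat_lit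 5) (nat_lit 391) (nat_lit 291) (nat_lit 98)) (XT.nd (nat_lit 78) (nat_lit 152) (nat_lit 0) (XT.lf (nat_lit 0) (nat_lit 16352331234) (nat_lit 152) (nat_lit 9811222785) (nat_lit 76) (nat_lit 46980577003) (nat_lit 27) (nat_lit 5) (nat_lit 29) (nat_lit 5) (nat_lit 28) (nat_lit 5) (nat_lit 392) (nat_lit 291) (nat_lit 97)) (XT.lf (nat_lit 0) (nat_lit 14342429993) (nat_lit 152) (nat_lit 12846854665) (nat_lit 228) (nat_lit 47732518783) (nat_lit 25) (nat_lit 5) (nat_lit 27) (nat_lit 5) (nat_lit 28) (nat_lit 5) (nat_lit 393) (nat_lit 291) (nat_lit 96)))) (XT.nd (nat_lit 156) (nat_lit 76) (nat_lit 0) (XT.nd (nat_lit 78) (nat_lit 0) (nat_lit 0) (XT.lf (nat_lit 0) (nat_lit 38457179178) (nat_lit 228) (nat_lit 37341949984) (nat_lit 76) (nat_lit 950502838) (nat_lit 25) (nat_lit 5) (nat_lit 28) (nat_lit 5) (nat_lit 26) (nat_lit 4) (nat_lit 394) (nat_lit 291) (nat_lit 95)) (XT.lf (nat_lit 0) (nat_lit 50187803003)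 (nat_lit 228) (nat_lit 13539058030) (nat_lit 76) (nat_lit 14901694523) (nat_lit 25) (nat_lit 5) (nat_lit 28) (nat_lit 5) (nat_lit 26) (nat_lit 4) (nat_lit 395) (nat_lit 291) (nat_lit 94))) (XT.nd (nat_lit 78) (nat_lit 0) (nat_lit 0) (XT.lf (nat_lit 0) (nat_lit 11191988896) (nat_lit 76) (nat_lit 51183509714) (nat_lit 152) (nat_lit 18185194505) (nat_lit 24) (nat_lit 5) (nat_lit 25) (nat_lit 5) (nat_lit 26) (nat_lit 4) (nat_lit 396) (nat_lit 291) (nat_lit 93)) (XT.lf (nat_lit 0) (nat_lit 36938219277) (nat_lit 76) (nat_lit 38124922190) (nat_lit 152) (nat_lit 7483624705) (nat_lit 24) (nat_lit 5) (nat_lit 25) (nat_lit 5) (nat_lit 26) (nat_lit 4) (nat_lit 397) (nat_lit 291) (nat_lit 92)))))) (XT.nd (nat_lit 32526) (nat_lit 0) (nat_lit 14440) (XT.nd (nat_lit 234) (nat_lit 0) (nat_lit 0) (XT.nd (nat_lit 78) (nat_lit 152) (nat_lit 0) (XT.lf (nat_lit 0) (nat_lit 3467578188) (nat_lit 152) (nat_lit 21173812055)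 (nat_lit 76) (nat_lit 59950082086) (nat_lit 23) (nat_lit 5) (nat_lit 25) (nat_lit 5) (nat_lit 24) (nat_lit 5) (nat_lit 398) (nat_lit 291) (nat_lit 91)) (XT.nd (nat_lit 78) (nat_lit 0) (nat_lit 0) (XT.lf (nat_lit 0) (nat_lit 3993715637) (nat_lit 152) (nat_lit 10639291213) (nat_lit 228) (nat_lit 72061207657) (nat_lit 21) (nat_lit 5) (nat_lit 23) (nat_lit 5) (nat_lit 24) (nat_lit 5) (nat_lit 399) (nat_lit 291) (nat_lit 90)) (XT.lf (nat_lit 0) (nat_lit 26383416234) (nat_lit 228) (nat_lit 58545890210) (nat_lit 76) (nat_lit 3923232736) (nat_lit 21) (nat_lit 5) (nat_lit 24) (nat_lit 5) (nat_lit 22) (nat_lit 4) (nat_lit 400) (nat_lit 291) (nat_lit 89)))) (XT.nd (nat_lit 32136) (nat_lit 0) (nat_lit 14364) (XT.nd (nat_lit 78) (nat_lit 0) (nat_lit 0) (XT.lf (nat_lit 0) (nat_lit 38589467357) (nat_lit 228) (nat_lit 33775960466) (nat_lit 76) (nat_lit 18707092629) (nat_lit 21) (nat_lit 5) (nat_lit 24) (nat_lit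 5) (nat_lit 22) (nat_lit 4) (nat_lit 401) (nat_lit 291) (nat_lit 88)) (XT.lf (nat_lit 0) (nat_lit 51159554325) (nat_lit 228) (nat_lit 8266794636) (nat_lit 76) (nat_lit 33932817296) (nat_lit 21) (nat_lit 5) (nat_lit 24) (nat_lit 5) (nat_lit 22) (nat_lit 4) (nat_lit 402) (nat_lit 291) (nat_lit 87))) (XT.nd (nat_lit 78) (nat_lit 0) (nat_lit 0) (XT.lf (nat_lit 0) (nat_lit 2103370416) (nat_lit 1140) (nat_lit 1678944208) (nat_lit 1140) (nat_lit 1678944208) (nat_lit 210) (nat_lit 3) (nat_lit 225) (nat_lit 3) (nat_lit 225) (nat_lit 5) (nat_lit 292) (nat_lit 292) (nat_lit 196)) (XT.lf (nat_lit 76) (nat_lit 1652034180) (nat_lit 0) (nat_lit 3184987128) (nat_lit 1140) (nat_lit 6231637565) (nat_lit 211) (nat_lit 5) (nat_lit 210) (nat_lit 3) (nat_lit 225) (nat_lit 5) (nat_lit 293) (nat_lit 292) (nat_lit 195))))) (XT.nd (nat_lit 234) (nat_lit 0) (nat_lit 76) (XT.nd (nat_lit 78) (nat_lit 0) (nat_lit 0) (XT.lf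 (nat_lit 0) (nat_lit 5511675442) (nat_lit 1064) (nat_lit 4362250740) (nat_lit 1140) (nat_lit 1344520764) (nat_lit 211) (nat_lit 5) (nat_lit 225) (nat_lit 5) (nat_lit 226) (nat_lit 5) (nat_lit 294) (nat_lit 292) (nat_lit 194)) (XT.nd (nat_lit 78) (nat_lit 0) (nat_lit 0) (XT.lf (nat_lit 76) (nat_lit 816414127) (nat_lit 0) (nat_lit 5408639104) (nat_lit 1140) (nat_lit 5147146721) (nat_lit 212) (nat_lit 5) (nat_lit 211) (nat_lit 5) (nat_lit 226) (nat_lit 5) (nat_lit 295) (nat_lit 292) (nat_lit 193)) (XT.lf (nat_lit 76) (nat_lit 6228238915) (nat_lit 0) (nat_lit 755242224) (nat_lit 1140) (nat_lit 4546400002) (nat_lit 212) (nat_lit 5) (nat_lit 211) (nat_lit 5) (nat_lit 226) (nat_lit 5) (nat_lit 296) (nat_lit 292) (nat_lit 192)))) (XT.nd (nat_lit 156) (nat_lit 0) (nat_lit 76) (XT.nd (nat_lit 78) (nat_lit 0) (nat_lit 0) (XT.lf (nat_lit 76) (nat_lit 60509178) (nat_lit 0) (nat_lit 7723822502) (nat_lit 1140)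 (nat_lit 3907395320) (nat_lit 213) (nat_lit 5) (nat_lit 212) (nat_lit 5) (nat_lit 227) (nat_lit 5) (nat_lit 297) (nat_lit 292) (nat_lit 191)) (XT.lf (nat_lit 76) (nat_lit 5672710749) (nat_lit 0) (nat_lit 2978172727) (nat_lit 1140) (nat_lit 3206318106) (nat_lit 213) (nat_lit 5) (nat_lit 212) (nat_lit 5) (nat_lit 227) (nat_lit 5) (nat_lit 298) (nat_lit 292) (nat_lit 190))) (XT.nd (nat_lit 78) (nat_lit 0) (nat_lit 0) (XT.lf (nat_lit 0) (nat_lit 9543155810) (nat_lit 1064) (nat_lit 604894495) (nat_lit 1140) (nat_lit 1879621311) (nat_lit 213) (nat_lit 5) (nat_lit 227) (nat_lit 5) (nat_lit 228) (nat_lit 5) (nat_lit 299) (nat_lit 292) (nat_lit 189)) (XT.lf (nat_lit 76) (nat_lit 5202299204) (nat_lit 0) (nat_lit 5321299776) (nat_lit 1140) (nat_lit 1677836953) (nat_lit 214) (nat_lit 5) (nat_lit 213) (nat_lit 5) (nat_lit 228) (nat_lit 5) (nat_lit 300) (nat_lit 292) (nat_lit 188))))))))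
noncomputable def xc180 : XT := (XT.nd (nat_lit 2106) (nat_lit 4864) (nat_lit 0) (XT.nd (nat_lit 1014) (nat_lit 3724) (nat_lit 0) (XT.nd (nat_lit 468) (nat_lit 1596) (nat_lit 0) (XT.nd (nat_lit 234) (nat_lit 0) (nat_lit 76) (XT.nd (nat_lit 78) (nat_lit 1064) (nat_lit 0) (XT.lf (nat_lit 76) (nat_lit 11184405066) (nat_lit 0) (nat_lit 337481201) (nat_lit 1140) (nat_lit 858895604) (nat_lit 214) (nat_lit 5) (nat_lit 213) (nat_lit 5) (nat_lit 228) (nat_lit 5) (nat_lit 301) (nat_lit 292) (nat_lit 187)) (XT.nd (nat_lit 78) (nat_lit 0) (nat_lit 0) (XT.lf (nat_lit 0) (nat_lit 60931125) (nat_lit 1140) (nat_lit 7747471414) (nat_lit 1216) (nat_lit 4754849952) (nat_lit 199) (nat_lit 5) (nat_lit 214) (nat_lit 5) (nat_lit 215) (nat_lit 5) (nat_lit 302) (nat_lit 292) (nat_lit 186)) (XT.lf (nat_lit 0) (nat_lit 989723909) (nat_lit 1140) (nat_lit 1742164695) (nat_lit 1216) (nat_lit 10019114265) (nat_lit 199) (nat_lit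 5) (nat_lit 214) (nat_lit 5) (nat_lit 215) (nat_lit 5) (nat_lit 303) (nat_lit 292) (nat_lit 185)))) (XT.nd (nat_lit 78) (nat_lit 0) (nat_lit 0) (XT.lf (nat_lit 0) (nat_lit 1997886872) (nat_lit 1140) (nat_lit 8448412182) (nat_lit 1216) (nat_lit 2496560716) (nat_lit 200) (nat_lit 5) (nat_lit 215) (nat_lit 5) (nat_lit 216) (nat_lit 5) (nat_lit 304) (nat_lit 292) (nat_lit 184)) (XT.nd (nat_lit 78) (nat_lit 0) (nat_lit 76) (XT.lf (nat_lit 0) (nat_lit 3065101393) (nat_lit 1140) (nat_lit 2225560041) (nat_lit 1216) (nat_lit 7848965391) (nat_lit 200) (nat_lit 5) (nat_lit 215) (nat_lit 5) (nat_lit 216) (nat_lit 5) (nat_lit 305) (nat_lit 292) (nat_lit 183)) (XT.lf (nat_lit 0) (nat_lit 4190321672) (nat_lit 1140) (nat_lit 9087079450) (nat_lit 1216) (nat_lit 64134192) (nat_lit 201) (nat_lit 5) (nat_lit 216) (nat_lit 5) (nat_lit 217) (nat_lit 5) (nat_lit 306) (nat_lit 292) (nat_lit 182))))) (XT.nd (nat_lit 234)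 (nat_lit 1748) (nat_lit 0) (XT.nd (nat_lit 78) (nat_lit 0) (nat_lit 0) (XT.lf (nat_lit 0) (nat_lit 5409207709) (nat_lit 1140) (nat_lit 2639234395) (nat_lit 1216) (nat_lit 5499279254) (nat_lit 201) (nat_lit 5) (nat_lit 216) (nat_lit 5) (nat_lit 217) (nat_lit 5) (nat_lit 307) (nat_lit 292) (nat_lit 181)) (XT.nd (nat_lit 78) (nat_lit 0) (nat_lit 76) (XT.lf (nat_lit 76) (nat_lit 4069518826) (nat_lit 0) (nat_lit 2619532104) (nat_lit 1216) (nat_lit 7070327398) (nat_lit 202) (nat_lit 5) (nat_lit 201) (nat_lit 5) (nat_lit 217) (nat_lit 5) (nat_lit 308) (nat_lit 292) (nat_lit 180)) (XT.lf (nat_lit 0) (nat_lit 8048387609) (nat_lit 1140) (nat_lit 2984079000) (nat_lit 76) (nat_lit 2943702022) (nat_lit 202) (nat_lit 5) (nat_lit 217) (nat_lit 5) (nat_lit 203) (nat_lit 5) (nat_lit 309) (nat_lit 292) (nat_lit 179)))) (XT.nd (nat_lit 156) (nat_lit 684) (nat_lit 0) (XT.nd (nat_lit 78) (nat_lit 0) (nat_lit 0) (XT.lf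 (nat_lit 0) (nat_lit 3962321247) (nat_lit 1140) (nat_lit 5536238575) (nat_lit 1216) (nat_lit 4699417240) (nat_lit 187) (nat_lit 5) (nat_lit 202) (nat_lit 5) (nat_lit 203) (nat_lit 5) (nat_lit 310) (nat_lit 292) (nat_lit 178)) (XT.lf (nat_lit 0) (nat_lit 11010211581) (nat_lit 1216) (nat_lit 3261013850) (nat_lit 76) (nat_lit 154690700) (nat_lit 187) (nat_lit 5) (nat_lit 203) (nat_lit 5) (nat_lit 188) (nat_lit 5) (nat_lit 311) (nat_lit 292) (nat_lit 177))) (XT.nd (nat_lit 78) (nat_lit 0) (nat_lit 0) (XT.lf (nat_lit 0) (nat_lit 3932891643) (nat_lit 684) (nat_lit 8713680945) (nat_lit 760) (nat_lit 2011755154) (nat_lit 178) (nat_lit 5) (nat_lit 187) (nat_lit 5) (nat_lit 188) (nat_lit 5) (nat_lit 312) (nat_lit 292) (nat_lit 176)) (XT.lf (nat_lit 0) (nat_lit 11397672248) (nat_lit 684) (nat_lit 2954294996) (nat_lit 760) (nat_lit 545160891) (nat_lit 178) (nat_lit 5) (nat_lit 187) (nat_lit 5) (nat_lit 188)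 (nat_lit 5) (nat_lit 313) (nat_lit 292) (nat_lit 175)))))) (XT.nd (nat_lit 546) (nat_lit 1520) (nat_lit 0) (XT.nd (nat_lit 234) (nat_lit 988) (nat_lit 0) (XT.nd (nat_lit 78) (nat_lit 532) (nat_lit 0) (XT.lf (nat_lit 0) (nat_lit 1001406246) (nat_lit 684) (nat_lit 11170793265) (nat_lit 76) (nat_lit 2968984071) (nat_lit 169) (nat_lit 5) (nat_lit 178) (nat_lit 5) (nat_lit 170) (nat_lit 5) (nat_lit 314) (nat_lit 292) (nat_lit 174)) (XT.nd (nat_lit 78) (nat_lit 532) (nat_lit 0) (XT.lf (nat_lit 0) (nat_lit 2635871894) (nat_lit 684) (nat_lit 3702426831) (nat_lit 76) (nat_lit 9052539749) (nat_lit 169) (nat_lit 5) (nat_lit 178) (nat_lit 5) (nat_lit 170) (nat_lit 5) (nat_lit 315) (nat_lit 292) (nat_lit 173)) (XT.lf (nat_lit 0) (nat_lit 4057521199) (nat_lit 532) (nat_lit 288737885) (nat_lit 608) (nat_lit 11300930380) (nat_lit 162) (nat_lit 5) (nat_lit 169) (nat_lit 5) (nat_lit 170) (nat_lit 5) (nat_lit 316)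 (nat_lit 292) (nat_lit 172)))) (XT.nd (nat_lit 156) (nat_lit 456) (nat_lit 0) (XT.nd (nat_lit 78) (nat_lit 532) (nat_lit 0) (XT.lf (nat_lit 0) (nat_lit 6190965944) (nat_lit 608) (nat_lit 3853341126) (nat_lit 76) (nat_lit 5864446366) (nat_lit 162) (nat_lit 5) (nat_lit 170) (nat_lit 5) (nat_lit 163) (nat_lit 5) (nat_lit 317) (nat_lit 292) (nat_lit 171)) (XT.lf (nat_lit 0) (nat_lit 4182270661) (nat_lit 532) (nat_lit 3940279942) (nat_lit 608) (nat_lit 8054679956) (nat_lit 155) (nat_lit 5) (nat_lit 162) (nat_lit 5) (nat_lit 163) (nat_lit 5) (nat_lit 318) (nat_lit 292) (nat_lit 170))) (XT.nd (nat_lit 78) (nat_lit 456) (nat_lit 0) (XT.lf (nat_lit 0) (nat_lit 10162638308) (nat_lit 608) (nat_lit 3949392706) (nat_lit 76) (nat_lit 2340226283) (nat_lit 155) (nat_lit 5) (nat_lit 163) (nat_lit 5) (nat_lit 156) (nat_lit 5) (nat_lit 319) (nat_lit 292) (nat_lit 169)) (XT.lf (nat_lit 0) (nat_lit 4372399831) (nat_lit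 456) (nat_lit 7961600333) (nat_lit 532) (nat_lit 4399444147) (nat_lit 149) (nat_lit 5) (nat_lit 155) (nat_lit 5) (nat_lit 156) (nat_lit 5) (nat_lit 320) (nat_lit 292) (nat_lit 168))))) (XT.nd (nat_lit 234) (nat_lit 912) (nat_lit 0) (XT.nd (nat_lit 78) (nat_lit 608) (nat_lit 0) (XT.lf (nat_lit 0) (nat_lit 13013466815) (nat_lit 456) (nat_lit 1586156415) (nat_lit 532) (nat_lit 2422581377) (nat_lit 149) (nat_lit 5) (nat_lit 155) (nat_lit 5) (nat_lit 156) (nat_lit 5) (nat_lit 321) (nat_lit 292) (nat_lit 167)) (XT.nd (nat_lit 78) (nat_lit 76) (nat_lit 0) (XT.lf (nat_lit 0) (nat_lit 4625189337) (nat_lit 532) (nat_lit 12389909166) (nat_lit 608) (nat_lit 302083654) (nat_lit 142) (nat_lit 5) (nat_lit 149) (nat_lit 5) (nat_lit 150) (nat_lit 5) (nat_lit 322) (nat_lit 292) (nat_lit 166)) (XT.lf (nat_lit 0) (nat_lit 1891521470) (nat_lit 608) (nat_lit 4065114060) (nat_lit 76) (nat_lit 11662454562) (nat_lit 141)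 (nat_lit 5) (nat_lit 149) (nat_lit 5) (nat_lit 142) (nat_lit 5) (nat_lit 323) (nat_lit 292) (nat_lit 165)))) (XT.nd (nat_lit 156) (nat_lit 456) (nat_lit 0) (XT.nd (nat_lit 78) (nat_lit 0) (nat_lit 0) (XT.lf (nat_lit 0) (nat_lit 4188842631) (nat_lit 532) (nat_lit 13033647942) (nat_lit 76) (nat_lit 706165604) (nat_lit 135) (nat_lit 5) (nat_lit 142) (nat_lit 5) (nat_lit 136) (nat_lit 5) (nat_lit 324) (nat_lit 292) (nat_lit 164)) (XT.lf (nat_lit 0) (nat_lit 6645626892) (nat_lit 532) (nat_lit 4109681703) (nat_lit 76) (nat_lit 7489494077) (nat_lit 135) (nat_lit 5) (nat_lit 142) (nat_lit 5) (nat_lit 136) (nat_lit 5) (nat_lit 325) (nat_lit 292) (nat_lit 163))) (XT.nd (nat_lit 78) (nat_lit 0) (nat_lit 0) (XT.lf (nat_lit 0) (nat_lit 5171970022) (nat_lit 456) (nat_lit 4044259595) (nat_lit 532) (nat_lit 9353009944) (nat_lit 129) (nat_lit 5) (nat_lit 135) (nat_lit 5) (nat_lit 136) (nat_lit 5) (nat_lit 326)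 (nat_lit 292) (nat_lit 162)) (XT.lf (nat_lit 0) (nat_lit 11923991633) (nat_lit 532) (nat_lit 4124957939) (nat_lit 76) (nat_lit 2852667920) (nat_lit 129) (nat_lit 5) (nat_lit 136) (nat_lit 5) (nat_lit 130) (nat_lit 5) (nat_lit 327) (nat_lit 292) (nat_lit 161))))))) (XT.nd (nat_lit 1092) (nat_lit 2128) (nat_lit 0) (XT.nd (nat_lit 546) (nat_lit 1064) (nat_lit 0) (XT.nd (nat_lit 234) (nat_lit 760) (nat_lit 0) (XT.nd (nat_lit 78) (nat_lit 532) (nat_lit 0) (XT.lf (nat_lit 0) (nat_lit 5481643461) (nat_lit 380) (nat_lit 9314913531) (nat_lit 456) (nat_lit 4444911561) (nat_lit 124) (nat_lit 5) (nat_lit 129) (nat_lit 5) (nat_lit 130) (nat_lit 5) (nat_lit 328) (nat_lit 292) (nat_lit 160)) (XT.nd (nat_lit 78) (nat_lit 532) (nat_lit 0) (XT.lf (nat_lit 0) (nat_lit 15450302440) (nat_lit 380) (nat_lit 2337650352) (nat_lit 456) (nat_lit 1802591395) (nat_lit 124) (nat_lit 5) (nat_lit 129) (nat_lit 5) (nat_lit 130)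 (nat_lit 5) (nat_lit 329) (nat_lit 292) (nat_lit 159)) (XT.lf (nat_lit 0) (nat_lit 995830041) (nat_lit 532) (nat_lit 14132717500) (nat_lit 76) (nat_lit 4818444740) (nat_lit 117) (nat_lit 5) (nat_lit 124) (nat_lit 5) (nat_lit 118) (nat_lit 5) (nat_lit 330) (nat_lit 292) (nat_lit 158)))) (XT.nd (nat_lit 156) (nat_lit 380) (nat_lit 0) (XT.nd (nat_lit 78) (nat_lit 380) (nat_lit 0) (XT.lf (nat_lit 0) (nat_lit 3898647486) (nat_lit 532) (nat_lit 4212706076) (nat_lit 76) (nat_lit 12200552535) (nat_lit 117) (nat_lit 5) (nat_lit 124) (nat_lit 5) (nat_lit 118) (nat_lit 5) (nat_lit 331) (nat_lit 292) (nat_lit 157)) (XT.lf (nat_lit 0) (nat_lit 6113802389) (nat_lit 380) (nat_lit 825076232) (nat_lit 456) (nat_lit 13747386512) (nat_lit 112) (nat_lit 5) (nat_lit 117) (nat_lit 5) (nat_lit 118) (nat_lit 5) (nat_lit 332) (nat_lit 292) (nat_lit 156))) (XT.nd (nat_lit 78) (nat_lit 380) (nat_lit 0) (XT.lf (nat_lit 0)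 (nat_lit 10169175208) (nat_lit 456) (nat_lit 4309288235) (nat_lit 76) (nat_lit 6590433202) (nat_lit 112) (nat_lit 5) (nat_lit 118) (nat_lit 5) (nat_lit 113) (nat_lit 5) (nat_lit 333) (nat_lit 292) (nat_lit 155)) (XT.lf (nat_lit 0) (nat_lit 6367634388) (nat_lit 380) (nat_lit 7190054128) (nat_lit 456) (nat_lit 7903486591) (nat_lit 107) (nat_lit 5) (nat_lit 112) (nat_lit 5) (nat_lit 113) (nat_lit 5) (nat_lit 334) (nat_lit 292) (nat_lit 154))))) (XT.nd (nat_lit 234) (nat_lit 684) (nat_lit 0) (XT.nd (nat_lit 78) (nat_lit 380) (nat_lit 0) (XT.lf (nat_lit 0) (nat_lit 17086896379) (nat_lit 456) (nat_lit 4424550783) (nat_lit 76) (nat_lit 352610617) (nat_lit 107) (nat_lit 5) (nat_lit 113) (nat_lit 5) (nat_lit 108) (nat_lit 5) (nat_lit 335) (nat_lit 292) (nat_lit 153)) (XT.nd (nat_lit 78) (nat_lit 76) (nat_lit 0) (XT.lf (nat_lit 0) (nat_lit 6612294461) (nat_lit 304) (nat_lit 14236713445) (nat_lit 380) (nat_lit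 1426215027) (nat_lit 103) (nat_lit 5) (nat_lit 107) (nat_lit 5) (nat_lit 108) (nat_lit 5) (nat_lit 336) (nat_lit 292) (nat_lit 152)) (XT.lf (nat_lit 0) (nat_lit 2023186177) (nat_lit 380) (nat_lit 4656465070) (nat_lit 76) (nat_lit 16017370790) (nat_lit 102) (nat_lit 5) (nat_lit 107) (nat_lit 5) (nat_lit 103) (nat_lit 5) (nat_lit 337) (nat_lit 292) (nat_lit 151)))) (XT.nd (nat_lit 156) (nat_lit 304) (nat_lit 0) (XT.nd (nat_lit 78) (nat_lit 0) (nat_lit 0) (XT.lf (nat_lit 0) (nat_lit 5616586352) (nat_lit 456) (nat_lit 16351977864) (nat_lit 76) (nat_lit 1160418043) (nat_lit 97) (nat_lit 5) (nat_lit 103) (nat_lit 5) (nat_lit 98) (nat_lit 5) (nat_lit 338) (nat_lit 292) (nat_lit 150)) (XT.lf (nat_lit 0) (nat_lit 9424059368) (nat_lit 456) (nat_lit 5000088407) (nat_lit 76) (nat_lit 9146571451) (nat_lit 97) (nat_lit 5) (nat_lit 103) (nat_lit 5) (nat_lit 98) (nat_lit 5) (nat_lit 339) (nat_lit 292) (nat_lit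 149))) (XT.nd (nat_lit 78) (nat_lit 0) (nat_lit 0) (XT.lf (nat_lit 0) (nat_lit 6815718156) (nat_lit 304) (nat_lit 6588418332) (nat_lit 380) (nat_lit 10619826305) (nat_lit 93) (nat_lit 5) (nat_lit 97) (nat_lit 5) (nat_lit 98) (nat_lit 5) (nat_lit 340) (nat_lit 292) (nat_lit 148)) (XT.lf (nat_lit 0) (nat_lit 17561811426) (nat_lit 380) (nat_lit 5425278963) (nat_lit 76) (nat_lit 1501973128) (nat_lit 93) (nat_lit 5) (nat_lit 98) (nat_lit 5) (nat_lit 94) (nat_lit 5) (nat_lit 341) (nat_lit 292) (nat_lit 147)))))) (XT.nd (nat_lit 546) (nat_lit 912) (nat_lit 0) (XT.nd (nat_lit 234) (nat_lit 532) (nat_lit 0) (XT.nd (nat_lit 78) (nat_lit 380) (nat_lit 0) (XT.lf (nat_lit 0) (nat_lit 6768570212) (nat_lit 304) (nat_lit 15199102028) (nat_lit 380) (nat_lit 2996746904) (nat_lit 89) (nat_lit 5) (nat_lit 93) (nat_lit 5) (nat_lit 94) (nat_lit 5) (nat_lit 342) (nat_lit 292) (nat_lit 146)) (XT.nd (nat_lit 78) (nat_lit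 304) (nat_lit 0) (XT.lf (nat_lit 0) (nat_lit 1079676052) (nat_lit 380) (nat_lit 6033096617) (nat_lit 76) (nat_lit 18339508985) (nat_lit 88) (nat_lit 5) (nat_lit 93) (nat_lit 5) (nat_lit 89) (nat_lit 5) (nat_lit 343) (nat_lit 292) (nat_lit 145)) (XT.lf (nat_lit 0) (nat_lit 5287431830) (nat_lit 380) (nat_lit 19380656522) (nat_lit 76) (nat_lit 1283728490) (nat_lit 84) (nat_lit 5) (nat_lit 89) (nat_lit 5) (nat_lit 85) (nat_lit 5) (nat_lit 344) (nat_lit 292) (nat_lit 144)))) (XT.nd (nat_lit 156) (nat_lit 228) (nat_lit 0) (XT.nd (nat_lit 78) (nat_lit 304) (nat_lit 0) (XT.lf (nat_lit 0) (nat_lit 9746844239) (nat_lit 380) (nat_lit 6867627751) (nat_lit 76) (nat_lit 9848108307) (nat_lit 84) (nat_lit 5) (nat_lit 89) (nat_lit 5) (nat_lit 85) (nat_lit 5) (nat_lit 345) (nat_lit 292) (nat_lit 143)) (XT.lf (nat_lit 0) (nat_lit 6131400516) (nat_lit 304) (nat_lit 8261242160) (nat_lit 380) (nat_lit 12594450659) (nat_lit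 80) (nat_lit 5) (nat_lit 84) (nat_lit 5) (nat_lit 85) (nat_lit 5) (nat_lit 346) (nat_lit 292) (nat_lit 142))) (XT.nd (nat_lit 78) (nat_lit 228) (nat_lit 0) (XT.lf (nat_lit 0) (nat_lit 19244881715) (nat_lit 380) (nat_lit 7877175923) (nat_lit 76) (nat_lit 403276772) (nat_lit 80) (nat_lit 5) (nat_lit 85) (nat_lit 5) (nat_lit 81) (nat_lit 5) (nat_lit 347) (nat_lit 292) (nat_lit 141)) (XT.lf (nat_lit 0) (nat_lit 5507524958) (nat_lit 228) (nat_lit 18863818865) (nat_lit 304) (nat_lit 3704523730) (nat_lit 77) (nat_lit 5) (nat_lit 80) (nat_lit 5) (nat_lit 81) (nat_lit 5) (nat_lit 348) (nat_lit 292) (nat_lit 140))))) (XT.nd (nat_lit 234) (nat_lit 532) (nat_lit 0) (XT.nd (nat_lit 78) (nat_lit 304) (nat_lit 0) (XT.lf (nat_lit 0) (nat_lit 1063280675) (nat_lit 304) (nat_lit 9204659384) (nat_lit 76) (nat_lit 18372461584) (nat_lit 76) (nat_lit 5) (nat_lit 80) (nat_lit 5) (nat_lit 77) (nat_lit 5) (nat_lit 349)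 (nat_lit 292) (nat_lit 139)) (XT.nd (nat_lit 78) (nat_lit 0) (nat_lit 0) (XT.lf (nat_lit 0) (nat_lit 4604478034) (nat_lit 304) (nat_lit 1333570236) (nat_lit 380) (nat_lit 23281575671) (nat_lit 72) (nat_lit 5) (nat_lit 76) (nat_lit 5) (nat_lit 77) (nat_lit 5) (nat_lit 350) (nat_lit 292) (nat_lit 138)) (XT.lf (nat_lit 0) (nat_lit 11122755946) (nat_lit 380) (nat_lit 10882112949) (nat_lit 76) (nat_lit 7806447112) (nat_lit 72) (nat_lit 5) (nat_lit 77) (nat_lit 5) (nat_lit 73) (nat_lit 5) (nat_lit 351) (nat_lit 292) (nat_lit 137)))) (XT.nd (nat_lit 156) (nat_lit 304) (nat_lit 0) (XT.nd (nat_lit 78) (nat_lit 0) (nat_lit 0) (XT.lf (nat_lit 0) (nat_lit 3305773842) (nat_lit 228) (nat_lit 13196568823) (nat_lit 304) (nat_lit 13917239928) (nat_lit 69) (nat_lit 5) (nat_lit 72) (nat_lit 5) (nat_lit 73) (nat_lit 5) (nat_lit 352) (nat_lit 292) (nat_lit 136)) (XT.lf (nat_lit 0) (nat_lit 18134011594) (nat_lit 228)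 (nat_lit 4013634436) (nat_lit 304) (nat_lit 8895325054) (nat_lit 69) (nat_lit 5) (nat_lit 72) (nat_lit 5) (nat_lit 73) (nat_lit 5) (nat_lit 353) (nat_lit 292) (nat_lit 135))) (XT.nd (nat_lit 78) (nat_lit 76) (nat_lit 0) (XT.lf (nat_lit 0) (nat_lit 1694508276) (nat_lit 228) (nat_lit 26331004329) (nat_lit 304) (nat_lit 3657656168) (nat_lit 66) (nat_lit 5) (nat_lit 69) (nat_lit 5) (nat_lit 70) (nat_lit 5) (nat_lit 354) (nat_lit 292) (nat_lit 134)) (XT.lf (nat_lit 0) (nat_lit 1869229464) (nat_lit 304) (nat_lit 15403973038) (nat_lit 76) (nat_lit 15063892860) (nat_lit 65) (nat_lit 5) (nat_lit 69) (nat_lit 5) (nat_lit 66) (nat_lit 5) (nat_lit 355) (nat_lit 292) (nat_lit 133))))))))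
noncomputable def xc181 : XT := (XT.nd (nat_lit 2184) (nat_lit 912) (nat_lit 0) (XT.nd (nat_lit 1092) (nat_lit 1064) (nat_lit 0) (XT.nd (nat_lit 546) (nat_lit 684) (nat_lit 0) (XT.nd (nat_lit 234) (nat_lit 456) (nat_lit 0) (XT.nd (nat_lit 78) (nat_lit 228) (nat_lit 0) (XT.lf (nat_lit 0) (nat_lit 7483163501) (nat_lit 304) (nat_lit 426002388) (nat_lit 76) (nat_lit 25100548070) (nat_lit 65) (nat_lit 5) (nat_lit 69) (nat_lit 5) (nat_lit 66) (nat_lit 5) (nat_lit 356) (nat_lit 292) (nat_lit 132)) (XT.nd (nat_lit 78) (nat_lit 0) (nat_lit 0) (XT.lf (nat_lit 0) (nat_lit 13425535208) (nat_lit 304) (nat_lit 18424473337) (nat_lit 76) (nat_lit 1847705239) (nat_lit 62) (nat_lit 5) (nat_lit 66) (nat_lit 5) (nat_lit 63) (nat_lit 5) (nat_lit 357) (nat_lit 292) (nat_lit 131)) (XT.lf (nat_lit 0) (nat_lit 19623788652) (nat_lit 304) (nat_lit 3040242259) (nat_lit 76) (nat_lit 11739997540) (nat_lit 62) (nat_lit 5) (nat_lit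 66) (nat_lit 5) (nat_lit 63) (nat_lit 5) (nat_lit 358) (nat_lit 292) (nat_lit 130)))) (XT.nd (nat_lit 156) (nat_lit 228) (nat_lit 0) (XT.nd (nat_lit 78) (nat_lit 0) (nat_lit 0) (XT.lf (nat_lit 0) (nat_lit 13052587935) (nat_lit 228) (nat_lit 13075975721) (nat_lit 304) (nat_lit 8999354756) (nat_lit 59) (nat_lit 5) (nat_lit 62) (nat_lit 5) (nat_lit 63) (nat_lit 5) (nat_lit 359) (nat_lit 292) (nat_lit 129)) (XT.lf (nat_lit 0) (nat_lit 29682969015) (nat_lit 228) (nat_lit 3171387832) (nat_lit 304) (nat_lit 3018394960) (nat_lit 59) (nat_lit 5) (nat_lit 62) (nat_lit 5) (nat_lit 63) (nat_lit 5) (nat_lit 360) (nat_lit 292) (nat_lit 128))) (XT.nd (nat_lit 78) (nat_lit 0) (nat_lit 0) (XT.lf (nat_lit 0) (nat_lit 3244144315) (nat_lit 228) (nat_lit 26368629019) (nat_lit 76) (nat_lit 7021349729) (nat_lit 56) (nat_lit 5) (nat_lit 59) (nat_lit 5) (nat_lit 57) (nat_lit 5) (nat_lit 361) (nat_lit 292) (nat_lit 127))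 (XT.lf (nat_lit 0) (nat_lit 9723723456) (nat_lit 228) (nat_lit 10144527432) (nat_lit 76) (nat_lit 17546495834) (nat_lit 56) (nat_lit 5) (nat_lit 59) (nat_lit 5) (nat_lit 57) (nat_lit 5) (nat_lit 362) (nat_lit 292) (nat_lit 126))))) (XT.nd (nat_lit 234) (nat_lit 304) (nat_lit 0) (XT.nd (nat_lit 78) (nat_lit 152) (nat_lit 0) (XT.lf (nat_lit 0) (nat_lit 6689575749) (nat_lit 228) (nat_lit 9767862232) (nat_lit 304) (nat_lit 21759561319) (nat_lit 53) (nat_lit 5) (nat_lit 56) (nat_lit 5) (nat_lit 57) (nat_lit 5) (nat_lit 363) (nat_lit 292) (nat_lit 125)) (XT.nd (nat_lit 78) (nat_lit 152) (nat_lit 0) (XT.lf (nat_lit 0) (nat_lit 23498208637) (nat_lit 304) (nat_lit 14818014250) (nat_lit 76) (nat_lit 723947802) (nat_lit 53) (nat_lit 5) (nat_lit 57) (nat_lit 5) (nat_lit 54) (nat_lit 5) (nat_lit 364) (nat_lit 292) (nat_lit 124)) (XT.lf (nat_lit 0) (nat_lit 2334432162) (nat_lit 152) (nat_lit 28530534775) (nat_lit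 228) (nat_lit 9019629844) (nat_lit 51) (nat_lit 5) (nat_lit 53) (nat_lit 5) (nat_lit 54) (nat_lit 5) (nat_lit 365) (nat_lit 292) (nat_lit 123)))) (XT.nd (nat_lit 156) (nat_lit 228) (nat_lit 0) (XT.nd (nat_lit 78) (nat_lit 76) (nat_lit 0) (XT.lf (nat_lit 0) (nat_lit 20298189370) (nat_lit 152) (nat_lit 18299844856) (nat_lit 228) (nat_lit 2151964669) (nat_lit 51) (nat_lit 5) (nat_lit 53) (nat_lit 5) (nat_lit 54) (nat_lit 5) (nat_lit 366) (nat_lit 292) (nat_lit 122)) (XT.lf (nat_lit 0) (nat_lit 4821445242) (nat_lit 228) (nat_lit 2894714194) (nat_lit 76) (nat_lit 33923913937) (nat_lit 50) (nat_lit 5) (nat_lit 53) (nat_lit 5) (nat_lit 51) (nat_lit 5) (nat_lit 367) (nat_lit 292) (nat_lit 121))) (XT.nd (nat_lit 78) (nat_lit 0) (nat_lit 0) (XT.lf (nat_lit 0) (nat_lit 12137596673) (nat_lit 304) (nat_lit 27121327917) (nat_lit 76) (nat_lit 3291984771) (nat_lit 47) (nat_lit 5) (nat_lit 51) (nat_lit 5) (nat_lit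 48) (nat_lit 5) (nat_lit 368) (nat_lit 292) (nat_lit 120)) (XT.lf (nat_lit 0) (nat_lit 19775061290) (nat_lit 304) (nat_lit 9208668278) (nat_lit 76) (nat_lit 14502288157) (nat_lit 47) (nat_lit 5) (nat_lit 51) (nat_lit 5) (nat_lit 48) (nat_lit 5) (nat_lit 369) (nat_lit 292) (nat_lit 119)))))) (XT.nd (nat_lit 546) (nat_lit 532) (nat_lit 0) (XT.nd (nat_lit 234) (nat_lit 228) (nat_lit 0) (XT.nd (nat_lit 78) (nat_lit 152) (nat_lit 0) (XT.lf (nat_lit 0) (nat_lit 9418626059) (nat_lit 152) (nat_lit 18309591159) (nat_lit 228) (nat_lit 16718367192) (nat_lit 45) (nat_lit 5) (nat_lit 47) (nat_lit 5) (nat_lit 48) (nat_lit 5) (nat_lit 370) (nat_lit 292) (nat_lit 118)) (XT.nd (nat_lit 78) (nat_lit 152) (nat_lit 0) (XT.lf (nat_lit 0) (nat_lit 28787035574) (nat_lit 152) (nat_lit 7222004945) (nat_lit 228) (nat_lit 9424257427) (nat_lit 45) (nat_lit 5) (nat_lit 47) (nat_lit 5) (nat_lit 48) (nat_lit 5) (nat_lit 371)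 (nat_lit 292) (nat_lit 117)) (XT.lf (nat_lit 0) (nat_lit 2284736148) (nat_lit 152) (nat_lit 42312043836) (nat_lit 228) (nat_lit 1851080133) (nat_lit 43) (nat_lit 5) (nat_lit 45) (nat_lit 5) (nat_lit 46) (nat_lit 5) (nat_lit 372) (nat_lit 292) (nat_lit 116)))) (XT.nd (nat_lit 156) (nat_lit 152) (nat_lit 0) (XT.nd (nat_lit 78) (nat_lit 0) (nat_lit 0) (XT.lf (nat_lit 0) (nat_lit 6070649202) (nat_lit 228) (nat_lit 25499668464) (nat_lit 76) (nat_lit 15913704233) (nat_lit 42) (nat_lit 5) (nat_lit 45) (nat_lit 5) (nat_lit 43) (nat_lit 5) (nat_lit 373) (nat_lit 292) (nat_lit 115)) (XT.lf (nat_lit 0) (nat_lit 14189121592) (nat_lit 228) (nat_lit 6300841957) (nat_lit 76) (nat_lit 28060868083) (nat_lit 42) (nat_lit 5) (nat_lit 45) (nat_lit 5) (nat_lit 43) (nat_lit 5) (nat_lit 374) (nat_lit 292) (nat_lit 114))) (XT.nd (nat_lit 78) (nat_lit 0) (nat_lit 0) (XT.lf (nat_lit 0) (nat_lit 13735963053) (nat_lit 152)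 (nat_lit 8943627516) (nat_lit 228) (nat_lit 26966203568) (nat_lit 40) (nat_lit 5) (nat_lit 42) (nat_lit 5) (nat_lit 43) (nat_lit 5) (nat_lit 375) (nat_lit 292) (nat_lit 113)) (XT.lf (nat_lit 0) (nat_lit 31513806368) (nat_lit 228) (nat_lit 16303692212) (nat_lit 76) (nat_lit 2953437656) (nat_lit 40) (nat_lit 5) (nat_lit 43) (nat_lit 5) (nat_lit 41) (nat_lit 5) (nat_lit 376) (nat_lit 292) (nat_lit 112))))) (XT.nd (nat_lit 234) (nat_lit 304) (nat_lit 0) (XT.nd (nat_lit 78) (nat_lit 76) (nat_lit 0) (XT.lf (nat_lit 0) (nat_lit 3871757950) (nat_lit 152) (nat_lit 36863591301) (nat_lit 228) (nat_lit 11190815980) (nat_lit 38) (nat_lit 5) (nat_lit 40) (nat_lit 5) (nat_lit 41) (nat_lit 5) (nat_lit 377) (nat_lit 292) (nat_lit 111)) (XT.nd (nat_lit 78) (nat_lit 76) (nat_lit 0) (XT.lf (nat_lit 0) (nat_lit 24980864862) (nat_lit 152) (nat_lit 25413886115) (nat_lit 228) (nat_lit 2716465346) (nat_lit 38) (nat_lit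 5) (nat_lit 40) (nat_lit 5) (nat_lit 41) (nat_lit 5) (nat_lit 378) (nat_lit 292) (nat_lit 110)) (XT.lf (nat_lit 0) (nat_lit 5891440267) (nat_lit 228) (nat_lit 7672081487) (nat_lit 76) (nat_lit 40766665667) (nat_lit 37) (nat_lit 5) (nat_lit 40) (nat_lit 5) (nat_lit 38) (nat_lit 5) (nat_lit 379) (nat_lit 292) (nat_lit 109)))) (XT.nd (nat_lit 156) (nat_lit 152) (nat_lit 0) (XT.nd (nat_lit 78) (nat_lit 0) (nat_lit 0) (XT.lf (nat_lit 0) (nat_lit 13633531274) (nat_lit 152) (nat_lit 1197247641) (nat_lit 228) (nat_lit 40750309508) (nat_lit 35) (nat_lit 5) (nat_lit 37) (nat_lit 5) (nat_lit 38) (nat_lit 5) (nat_lit 380) (nat_lit 292) (nat_lit 108)) (XT.lf (nat_lit 0) (nat_lit 24224227970) (nat_lit 228) (nat_lit 21248877019) (nat_lit 76) (nat_lit 11390834984) (nat_lit 35) (nat_lit 5) (nat_lit 38) (nat_lit 5) (nat_lit 36) (nat_lit 5) (nat_lit 381) (nat_lit 292) (nat_lit 107))) (XT.nd (nat_lit 78) (nat_lit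 0) (nat_lit 0) (XT.lf (nat_lit 0) (nat_lit 54566026) (nat_lit 152) (nat_lit 33854147808) (nat_lit 228) (nat_lit 24276287619) (nat_lit 33) (nat_lit 5) (nat_lit 35) (nat_lit 5) (nat_lit 36) (nat_lit 5) (nat_lit 382) (nat_lit 292) (nat_lit 106)) (XT.lf (nat_lit 0) (nat_lit 22427338202) (nat_lit 152) (nat_lit 21667863073) (nat_lit 228) (nat_lit 15444150835) (nat_lit 33) (nat_lit 5) (nat_lit 35) (nat_lit 5) (nat_lit 36) (nat_lit 5) (nat_lit 383) (nat_lit 292) (nat_lit 105))))))) (XT.nd (nat_lit 1092) (nat_lit 228) (nat_lit 0) (XT.nd (nat_lit 546) (nat_lit 380) (nat_lit 0) (XT.nd (nat_lit 234) (nat_lit 152) (nat_lit 0) (XT.nd (nat_lit 78) (nat_lit 152) (nat_lit 0) (XT.lf (nat_lit 0) (nat_lit 45466094216) (nat_lit 152) (nat_lit 9118174568) (nat_lit 228) (nat_lit 6350156245) (nat_lit 33) (nat_lit 5) (nat_lit 35) (nat_lit 5) (nat_lit 36) (nat_lit 5) (nat_lit 384) (nat_lit 292) (nat_lit 104)) (XT.nd (nat_lit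 78) (nat_lit 0) (nat_lit 0) (XT.lf (nat_lit 0) (nat_lit 3058939881) (nat_lit 152) (nat_lit 55480401123) (nat_lit 76) (nat_lit 3828105992) (nat_lit 31) (nat_lit 5) (nat_lit 33) (nat_lit 5) (nat_lit 32) (nat_lit 5) (nat_lit 385) (nat_lit 292) (nat_lit 103)) (XT.lf (nat_lit 0) (nat_lit 12867762316) (nat_lit 152) (nat_lit 33768428588) (nat_lit 76) (nat_lit 17198031170) (nat_lit 31) (nat_lit 5) (nat_lit 33) (nat_lit 5) (nat_lit 32) (nat_lit 5) (nat_lit 386) (nat_lit 292) (nat_lit 102)))) (XT.nd (nat_lit 156) (nat_lit 0) (nat_lit 0) (XT.nd (nat_lit 78) (nat_lit 152) (nat_lit 0) (XT.lf (nat_lit 0) (nat_lit 22967995032) (nat_lit 152) (nat_lit 11410073685) (nat_lit 76) (nat_lit 30967018476) (nat_lit 31) (nat_lit 5) (nat_lit 33) (nat_lit 5) (nat_lit 32) (nat_lit 5) (nat_lit 387) (nat_lit 292) (nat_lit 101)) (XT.lf (nat_lit 0) (nat_lit 11845345364) (nat_lit 152) (nat_lit 21636982818) (nat_lit 228) (nat_lit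 33415618405) (nat_lit 29) (nat_lit 5) (nat_lit 31) (nat_lit 5) (nat_lit 32) (nat_lit 5) (nat_lit 388) (nat_lit 292) (nat_lit 100))) (XT.nd (nat_lit 78) (nat_lit 0) (nat_lit 0) (XT.lf (nat_lit 0) (nat_lit 36027537828) (nat_lit 152) (nat_lit 8397036342) (nat_lit 228) (nat_lit 24069444200) (nat_lit 29) (nat_lit 5) (nat_lit 31) (nat_lit 5) (nat_lit 32) (nat_lit 5) (nat_lit 389) (nat_lit 292) (nat_lit 99)) (XT.lf (nat_lit 0) (nat_lit 55742782731) (nat_lit 228) (nat_lit 9257854150) (nat_lit 76) (nat_lit 5135905630) (nat_lit 29) (nat_lit 5) (nat_lit 32) (nat_lit 5) (nat_lit 30) (nat_lit 4) (nat_lit 390) (nat_lit 292) (nat_lit 98))))) (XT.nd (nat_lit 234) (nat_lit 228) (nat_lit 0) (XT.nd (nat_lit 78) (nat_lit 76) (nat_lit 0) (XT.lf (nat_lit 0) (nat_lit 14849081433) (nat_lit 76) (nat_lit 52774735546) (nat_lit 152) (nat_lit 4197828044) (nat_lit 28) (nat_lit 5) (nat_lit 29) (nat_lit 5) (nat_lit 30) (nat_lit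 4) (nat_lit 391) (nat_lit 292) (nat_lit 97)) (XT.nd (nat_lit 78) (nat_lit 0) (nat_lit 0) (XT.lf (nat_lit 0) (nat_lit 6272787830) (nat_lit 152) (nat_lit 33751594789) (nat_lit 76) (nat_lit 33528346442) (nat_lit 27) (nat_lit 5) (nat_lit 29) (nat_lit 5) (nat_lit 28) (nat_lit 5) (nat_lit 392) (nat_lit 292) (nat_lit 96)) (XT.lf (nat_lit 0) (nat_lit 16970633287) (nat_lit 152) (nat_lit 9880003702) (nat_lit 76) (nat_lit 48483938193) (nat_lit 27) (nat_lit 5) (nat_lit 29) (nat_lit 5) (nat_lit 28) (nat_lit 5) (nat_lit 393) (nat_lit 292) (nat_lit 95)))) (XT.nd (nat_lit 156) (nat_lit 76) (nat_lit 0) (XT.nd (nat_lit 78) (nat_lit 0) (nat_lit 0) (XT.lf (nat_lit 0) (nat_lit 14996047328) (nat_lit 152) (nat_lit 13135074556) (nat_lit 228) (nat_lit 49034504485) (nat_lit 25) (nat_lit 5) (nat_lit 27) (nat_lit 5) (nat_lit 28) (nat_lit 5) (nat_lit 394) (nat_lit 292) (nat_lit 94)) (XT.lf (nat_lit 0) (nat_lit 39734285714)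 (nat_lit 228) (nat_lit 38242556638) (nat_lit 76) (nat_lit 1071531811) (nat_lit 25) (nat_lit 5) (nat_lit 28) (nat_lit 5) (nat_lit 26) (nat_lit 4) (nat_lit 395) (nat_lit 292) (nat_lit 93))) (XT.nd (nat_lit 78) (nat_lit 76) (nat_lit 0) (XT.lf (nat_lit 0) (nat_lit 51813234337) (nat_lit 228) (nat_lit 13731975552) (nat_lit 76) (nat_lit 15438564668) (nat_lit 25) (nat_lit 5) (nat_lit 28) (nat_lit 5) (nat_lit 26) (nat_lit 4) (nat_lit 396) (nat_lit 292) (nat_lit 92)) (XT.lf (nat_lit 0) (nat_lit 11738912055) (nat_lit 76) (nat_lit 52626189350) (nat_lit 152) (nat_lit 18608819893) (nat_lit 24) (nat_lit 5) (nat_lit 25) (nat_lit 5) (nat_lit 26) (nat_lit 4) (nat_lit 397) (nat_lit 292) (nat_lit 91)))))) (XT.nd (nat_lit 32604) (nat_lit 0) (nat_lit 14440) (XT.nd (nat_lit 234) (nat_lit 0) (nat_lit 0) (XT.nd (nat_lit 78) (nat_lit 228) (nat_lit 0) (XT.lf (nat_lit 0) (nat_lit 38251378954) (nat_lit 76) (nat_lit 39178547860)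 (nat_lit 152) (nat_lit 7589754372) (nat_lit 24) (nat_lit 5) (nat_lit 25) (nat_lit 5) (nat_lit 26) (nat_lit 4) (nat_lit 398) (nat_lit 292) (nat_lit 90)) (XT.nd (nat_lit 78) (nat_lit 152) (nat_lit 0) (XT.lf (nat_lit 0) (nat_lit 3684293953) (nat_lit 152) (nat_lit 21607702982) (nat_lit 76) (nat_lit 61833800040) (nat_lit 23) (nat_lit 5) (nat_lit 25) (nat_lit 5) (nat_lit 24) (nat_lit 5) (nat_lit 399) (nat_lit 292) (nat_lit 89)) (XT.lf (nat_lit 0) (nat_lit 4312876781) (nat_lit 152) (nat_lit 10870442777) (nat_lit 228) (nat_lit 74108343969) (nat_lit 21) (nat_lit 5) (nat_lit 23) (nat_lit 5) (nat_lit 24) (nat_lit 5) (nat_lit 400) (nat_lit 292) (nat_lit 88)))) (XT.nd (nat_lit 32214) (nat_lit 0) (nat_lit 14364) (XT.nd (nat_lit 78) (nat_lit 0) (nat_lit 0) (XT.lf (nat_lit 0) (nat_lit 27283820347) (nat_lit 228) (nat_lit 60106266024) (nat_lit 76) (nat_lit 4124725295) (nat_lit 21) (nat_lit 5) (nat_lit 24) (nat_lit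 5) (nat_lit 22) (nat_lit 4) (nat_lit 401) (nat_lit 292) (nat_lit 87)) (XT.lf (nat_lit 0) (nat_lit 39852881112) (nat_lit 228) (nat_lit 34598947152) (nat_lit 76) (nat_lit 19349660338) (nat_lit 21) (nat_lit 5) (nat_lit 24) (nat_lit 5) (nat_lit 22) (nat_lit 4) (nat_lit 402) (nat_lit 292) (nat_lit 86))) (XT.nd (nat_lit 78) (nat_lit 0) (nat_lit 0) (XT.lf (nat_lit 0) (nat_lit 2712471106) (nat_lit 1140) (nat_lit 1447785438) (nat_lit 1140) (nat_lit 1447785438) (nat_lit 210) (nat_lit 3) (nat_lit 225) (nat_lit 3) (nat_lit 225) (nat_lit 5) (nat_lit 293) (nat_lit 293) (nat_lit 194)) (XT.lf (nat_lit 76) (nat_lit 2259129257) (nat_lit 0) (nat_lit 3788555402) (nat_lit 1140) (nat_lit 5319757445) (nat_lit 211) (nat_lit 5) (nat_lit 210) (nat_lit 3) (nat_lit 225) (nat_lit 5) (nat_lit 294) (nat_lit 293) (nat_lit 193))))) (XT.nd (nat_lit 234) (nat_lit 0) (nat_lit 76) (XT.nd (nat_lit 78) (nat_lit 0) (nat_lit 0) (XT.lf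 (nat_lit 0) (nat_lit 6706801750) (nat_lit 1064) (nat_lit 3914774599) (nat_lit 1140) (nat_lit 901258925) (nat_lit 211) (nat_lit 5) (nat_lit 225) (nat_lit 5) (nat_lit 226) (nat_lit 5) (nat_lit 295) (nat_lit 293) (nat_lit 192)) (XT.nd (nat_lit 78) (nat_lit 0) (nat_lit 0) (XT.lf (nat_lit 76) (nat_lit 1413580178) (nat_lit 0) (nat_lit 6003512106) (nat_lit 1140) (nat_lit 4264880285) (nat_lit 212) (nat_lit 5) (nat_lit 211) (nat_lit 5) (nat_lit 226) (nat_lit 5) (nat_lit 296) (nat_lit 293) (nat_lit 191)) (XT.lf (nat_lit 76) (nat_lit 6971079895) (nat_lit 0) (nat_lit 1197912917) (nat_lit 1140) (nat_lit 3676305751) (nat_lit 212) (nat_lit 5) (nat_lit 211) (nat_lit 5) (nat_lit 226) (nat_lit 5) (nat_lit 297) (nat_lit 293) (nat_lit 190)))) (XT.nd (nat_lit 156) (nat_lit 0) (nat_lit 76) (XT.nd (nat_lit 78) (nat_lit 0) (nat_lit 0) (XT.lf (nat_lit 76) (nat_lit 647045387) (nat_lit 0) (nat_lit 8320096951) (nat_lit 1140)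 (nat_lit 3045694173) (nat_lit 213) (nat_lit 5) (nat_lit 212) (nat_lit 5) (nat_lit 227) (nat_lit 5) (nat_lit 298) (nat_lit 293) (nat_lit 189)) (XT.lf (nat_lit 76) (nat_lit 6410582298) (nat_lit 0) (nat_lit 3421459438) (nat_lit 1140) (nat_lit 2352096963) (nat_lit 213) (nat_lit 5) (nat_lit 212) (nat_lit 5) (nat_lit 227) (nat_lit 5) (nat_lit 299) (nat_lit 293) (nat_lit 188))) (XT.nd (nat_lit 78) (nat_lit 0) (nat_lit 0) (XT.lf (nat_lit 0) (nat_lit 10720935390) (nat_lit 1064) (nat_lit 40641854) (nat_lit 1140) (nat_lit 1599082907) (nat_lit 213) (nat_lit 5) (nat_lit 227) (nat_lit 5) (nat_lit 228) (nat_lit 5) (nat_lit 300) (nat_lit 293) (nat_lit 187)) (XT.lf (nat_lit 76) (nat_lit 5935057857) (nat_lit 0) (nat_lit 5775311912) (nat_lit 1140) (nat_lit 829912244) (nat_lit 214) (nat_lit 5) (nat_lit 213) (nat_lit 5) (nat_lit 228) (nat_lit 5) (nat_lit 301) (nat_lit 293) (nat_lit 186))))))))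
noncomputable def xc182 : XT := (XT.nd (nat_lit 2106) (nat_lit 4864) (nat_lit 0) (XT.nd (nat_lit 1014) (nat_lit 3648) (nat_lit 0) (XT.nd (nat_lit 468) (nat_lit 1672) (nat_lit 0) (XT.nd (nat_lit 234) (nat_lit 0) (nat_lit 76) (XT.nd (nat_lit 78) (nat_lit 1064) (nat_lit 0) (XT.lf (nat_lit 76) (nat_lit 12079830109) (nat_lit 0) (nat_lit 633404805) (nat_lit 1140) (nat_lit 12565562) (nat_lit 214) (nat_lit 5) (nat_lit 213) (nat_lit 5) (nat_lit 228) (nat_lit 5) (nat_lit 302) (nat_lit 293) (nat_lit 185)) (XT.nd (nat_lit 78) (nat_lit 0) (nat_lit 0) (XT.lf (nat_lit 0) (nat_lit 895901593) (nat_lit 1140) (nat_lit 7379069590) (nat_lit 1216) (nat_lit 4639209879) (nat_lit 199) (nat_lit 5) (nat_lit 214) (nat_lit 5) (nat_lit 215) (nat_lit 5) (nat_lit 303) (nat_lit 293) (nat_lit 184)) (XT.lf (nat_lit 0) (nat_lit 1828291873) (nat_lit 1140) (nat_lit 1211103455) (nat_lit 1216) (nat_lit 10068925001) (nat_lit 199) (nat_lit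 5) (nat_lit 214) (nat_lit 5) (nat_lit 215) (nat_lit 5) (nat_lit 304) (nat_lit 293) (nat_lit 183)))) (XT.nd (nat_lit 78) (nat_lit 0) (nat_lit 0) (XT.lf (nat_lit 0) (nat_lit 2846642535) (nat_lit 1140) (nat_lit 8097562400) (nat_lit 1216) (nat_lit 2362357281) (nat_lit 200) (nat_lit 5) (nat_lit 215) (nat_lit 5) (nat_lit 216) (nat_lit 5) (nat_lit 305) (nat_lit 293) (nat_lit 182)) (XT.nd (nat_lit 78) (nat_lit 0) (nat_lit 0) (XT.lf (nat_lit 0) (nat_lit 3922898178) (nat_lit 1140) (nat_lit 1705625729) (nat_lit 1216) (nat_lit 7881424395) (nat_lit 200) (nat_lit 5) (nat_lit 215) (nat_lit 5) (nat_lit 216) (nat_lit 5) (nat_lit 306) (nat_lit 293) (nat_lit 181)) (XT.lf (nat_lit 76) (nat_lit 4963705740) (nat_lit 0) (nat_lit 100800006) (nat_lit 1216) (nat_lit 8653955360) (nat_lit 201) (nat_lit 5) (nat_lit 200) (nat_lit 5) (nat_lit 216) (nat_lit 5) (nat_lit 307) (nat_lit 293) (nat_lit 180))))) (XT.nd (nat_lit 234)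 (nat_lit 1824) (nat_lit 0) (XT.nd (nat_lit 78) (nat_lit 0) (nat_lit 0) (XT.lf (nat_lit 0) (nat_lit 6297217409) (nat_lit 1140) (nat_lit 2130153739) (nat_lit 1216) (nat_lit 5504169036) (nat_lit 201) (nat_lit 5) (nat_lit 216) (nat_lit 5) (nat_lit 217) (nat_lit 5) (nat_lit 308) (nat_lit 293) (nat_lit 179)) (XT.nd (nat_lit 78) (nat_lit 0) (nat_lit 76) (XT.lf (nat_lit 76) (nat_lit 4774094847) (nat_lit 0) (nat_lit 2825822468) (nat_lit 1216) (nat_lit 6550120198) (nat_lit 202) (nat_lit 5) (nat_lit 201) (nat_lit 5) (nat_lit 217) (nat_lit 5) (nat_lit 309) (nat_lit 293) (nat_lit 178)) (XT.lf (nat_lit 0) (nat_lit 8978156988) (nat_lit 1140) (nat_lit 2485407006) (nat_lit 76) (nat_lit 2910447619) (nat_lit 202) (nat_lit 5) (nat_lit 217) (nat_lit 5) (nat_lit 203) (nat_lit 5) (nat_lit 310) (nat_lit 293) (nat_lit 177)))) (XT.nd (nat_lit 156) (nat_lit 760) (nat_lit 0) (XT.nd (nat_lit 78) (nat_lit 0) (nat_lit 0) (XT.lf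 (nat_lit 0) (nat_lit 4663618636) (nat_lit 1140) (nat_lit 5793766293) (nat_lit 1216) (nat_lit 4145545936) (nat_lit 187) (nat_lit 5) (nat_lit 202) (nat_lit 5) (nat_lit 203) (nat_lit 5) (nat_lit 311) (nat_lit 293) (nat_lit 176)) (XT.lf (nat_lit 0) (nat_lit 11993905627) (nat_lit 1216) (nat_lit 2772152766) (nat_lit 76) (nat_lit 72286542) (nat_lit 187) (nat_lit 5) (nat_lit 203) (nat_lit 5) (nat_lit 188) (nat_lit 5) (nat_lit 312) (nat_lit 293) (nat_lit 175))) (XT.nd (nat_lit 78) (nat_lit 76) (nat_lit 0) (XT.lf (nat_lit 0) (nat_lit 4631818014) (nat_lit 684) (nat_lit 9034093088) (nat_lit 760) (nat_lit 1412242943) (nat_lit 178) (nat_lit 5) (nat_lit 187) (nat_lit 5) (nat_lit 188) (nat_lit 5) (nat_lit 313) (nat_lit 293) (nat_lit 174)) (XT.lf (nat_lit 0) (nat_lit 77585675) (nat_lit 760) (nat_lit 3021837925) (nat_lit 76) (nat_lit 12225252327) (nat_lit 177) (nat_lit 5) (nat_lit 187) (nat_lit 5) (nat_lit 178)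 (nat_lit 5) (nat_lit 314) (nat_lit 293) (nat_lit 173)))))) (XT.nd (nat_lit 546) (nat_lit 1520) (nat_lit 0) (XT.nd (nat_lit 234) (nat_lit 988) (nat_lit 0) (XT.nd (nat_lit 78) (nat_lit 532) (nat_lit 0) (XT.lf (nat_lit 0) (nat_lit 1646370203) (nat_lit 684) (nat_lit 10914826883) (nat_lit 76) (nat_lit 3015110608) (nat_lit 169) (nat_lit 5) (nat_lit 178) (nat_lit 5) (nat_lit 170) (nat_lit 5) (nat_lit 315) (nat_lit 293) (nat_lit 172)) (XT.nd (nat_lit 78) (nat_lit 532) (nat_lit 0) (XT.lf (nat_lit 0) (nat_lit 3311959478) (nat_lit 684) (nat_lit 3239625675) (nat_lit 76) (nat_lit 9282423722) (nat_lit 169) (nat_lit 5) (nat_lit 178) (nat_lit 5) (nat_lit 170) (nat_lit 5) (nat_lit 316) (nat_lit 293) (nat_lit 171)) (XT.lf (nat_lit 0) (nat_lit 4747494580) (nat_lit 532) (nat_lit 314237365) (nat_lit 608) (nat_lit 11036695007) (nat_lit 162) (nat_lit 5) (nat_lit 169) (nat_lit 5) (nat_lit 170) (nat_lit 5) (nat_lit 317)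 (nat_lit 293) (nat_lit 170)))) (XT.nd (nat_lit 156) (nat_lit 456) (nat_lit 0) (XT.nd (nat_lit 78) (nat_lit 532) (nat_lit 0) (XT.lf (nat_lit 0) (nat_lit 6944581562) (nat_lit 608) (nat_lit 3399438650) (nat_lit 76) (nat_lit 6024351809) (nat_lit 162) (nat_lit 5) (nat_lit 170) (nat_lit 5) (nat_lit 163) (nat_lit 5) (nat_lit 318) (nat_lit 293) (nat_lit 169)) (XT.lf (nat_lit 0) (nat_lit 4871658130) (nat_lit 532) (nat_lit 4051335980) (nat_lit 608) (nat_lit 7722260628) (nat_lit 155) (nat_lit 5) (nat_lit 162) (nat_lit 5) (nat_lit 163) (nat_lit 5) (nat_lit 319) (nat_lit 293) (nat_lit 168))) (XT.nd (nat_lit 78) (nat_lit 456) (nat_lit 0) (XT.lf (nat_lit 0) (nat_lit 11008134683) (nat_lit 608) (nat_lit 3503657659) (nat_lit 76) (nat_lit 2417241607) (nat_lit 155) (nat_lit 5) (nat_lit 163) (nat_lit 5) (nat_lit 156) (nat_lit 5) (nat_lit 320) (nat_lit 293) (nat_lit 167)) (XT.lf (nat_lit 0) (nat_lit 5062257117) (nat_lit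 456) (nat_lit 8172004569) (nat_lit 532) (nat_lit 3984722834) (nat_lit 149) (nat_lit 5) (nat_lit 155) (nat_lit 5) (nat_lit 156) (nat_lit 5) (nat_lit 321) (nat_lit 293) (nat_lit 166))))) (XT.nd (nat_lit 234) (nat_lit 912) (nat_lit 0) (XT.nd (nat_lit 78) (nat_lit 608) (nat_lit 0) (XT.lf (nat_lit 0) (nat_lit 13946283723) (nat_lit 456) (nat_lit 1606125793) (nat_lit 532) (nat_lit 1964477616) (nat_lit 149) (nat_lit 5) (nat_lit 155) (nat_lit 5) (nat_lit 156) (nat_lit 5) (nat_lit 322) (nat_lit 293) (nat_lit 165)) (XT.nd (nat_lit 78) (nat_lit 0) (nat_lit 0) (XT.lf (nat_lit 0) (nat_lit 205816565) (nat_lit 608) (nat_lit 12506426052) (nat_lit 76) (nat_lit 5108709295) (nat_lit 141) (nat_lit 5) (nat_lit 149) (nat_lit 5) (nat_lit 142) (nat_lit 5) (nat_lit 323) (nat_lit 293) (nat_lit 164)) (XT.lf (nat_lit 0) (nat_lit 2444277937) (nat_lit 608) (nat_lit 3640139690) (nat_lit 76) (nat_lit 12047870957) (nat_lit 141)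 (nat_lit 5) (nat_lit 149) (nat_lit 5) (nat_lit 142) (nat_lit 5) (nat_lit 324) (nat_lit 293) (nat_lit 163)))) (XT.nd (nat_lit 156) (nat_lit 456) (nat_lit 0) (XT.nd (nat_lit 78) (nat_lit 0) (nat_lit 0) (XT.lf (nat_lit 0) (nat_lit 4801804410) (nat_lit 532) (nat_lit 12868535762) (nat_lit 76) (nat_lit 781077294) (nat_lit 135) (nat_lit 5) (nat_lit 142) (nat_lit 5) (nat_lit 136) (nat_lit 5) (nat_lit 325) (nat_lit 293) (nat_lit 162)) (XT.lf (nat_lit 0) (nat_lit 7318099096) (nat_lit 532) (nat_lit 3693048253) (nat_lit 76) (nat_lit 7766340765) (nat_lit 135) (nat_lit 5) (nat_lit 142) (nat_lit 5) (nat_lit 136) (nat_lit 5) (nat_lit 326) (nat_lit 293) (nat_lit 161))) (XT.nd (nat_lit 78) (nat_lit 0) (nat_lit 0) (XT.lf (nat_lit 0) (nat_lit 5861759652) (nat_lit 456) (nat_lit 4095419736) (nat_lit 532) (nat_lit 9154751496) (nat_lit 129) (nat_lit 5) (nat_lit 135) (nat_lit 5) (nat_lit 136) (nat_lit 5) (nat_lit 327)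 (nat_lit 293) (nat_lit 160)) (XT.lf (nat_lit 0) (nat_lit 12733301069) (nat_lit 532) (nat_lit 3716335903) (nat_lit 76) (nat_lit 3005042543) (nat_lit 129) (nat_lit 5) (nat_lit 136) (nat_lit 5) (nat_lit 130) (nat_lit 5) (nat_lit 328) (nat_lit 293) (nat_lit 159))))))) (XT.nd (nat_lit 1092) (nat_lit 2128) (nat_lit 0) (XT.nd (nat_lit 546) (nat_lit 1064) (nat_lit 0) (XT.nd (nat_lit 234) (nat_lit 760) (nat_lit 0) (XT.nd (nat_lit 78) (nat_lit 532) (nat_lit 0) (XT.lf (nat_lit 0) (nat_lit 6173244219) (nat_lit 380) (nat_lit 9510713375) (nat_lit 456) (nat_lit 4121023868) (nat_lit 124) (nat_lit 5) (nat_lit 129) (nat_lit 5) (nat_lit 130) (nat_lit 5) (nat_lit 329) (nat_lit 293) (nat_lit 158)) (XT.nd (nat_lit 78) (nat_lit 532) (nat_lit 0) (XT.lf (nat_lit 0) (nat_lit 16425609041) (nat_lit 380) (nat_lit 2326568637) (nat_lit 456) (nat_lit 1412751622) (nat_lit 124) (nat_lit 5) (nat_lit 129) (nat_lit 5) (nat_lit 130)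 (nat_lit 5) (nat_lit 330) (nat_lit 293) (nat_lit 157)) (XT.lf (nat_lit 0) (nat_lit 1454088468) (nat_lit 532) (nat_lit 14028576053) (nat_lit 76) (nat_lit 5049496143) (nat_lit 117) (nat_lit 5) (nat_lit 124) (nat_lit 5) (nat_lit 118) (nat_lit 5) (nat_lit 331) (nat_lit 293) (nat_lit 156)))) (XT.nd (nat_lit 156) (nat_lit 380) (nat_lit 0) (XT.nd (nat_lit 78) (nat_lit 380) (nat_lit 0) (XT.lf (nat_lit 0) (nat_lit 4431513246) (nat_lit 532) (nat_lit 3826346509) (nat_lit 76) (nat_lit 12650547812) (nat_lit 117) (nat_lit 5) (nat_lit 124) (nat_lit 5) (nat_lit 118) (nat_lit 5) (nat_lit 332) (nat_lit 293) (nat_lit 155)) (XT.lf (nat_lit 0) (nat_lit 6804930340) (nat_lit 380) (nat_lit 750787655) (nat_lit 456) (nat_lit 13738507404) (nat_lit 112) (nat_lit 5) (nat_lit 117) (nat_lit 5) (nat_lit 118) (nat_lit 5) (nat_lit 333) (nat_lit 293) (nat_lit 154))) (XT.nd (nat_lit 78) (nat_lit 380) (nat_lit 0) (XT.lf (nat_lit 0)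 (nat_lit 10871944693) (nat_lit 456) (nat_lit 3934305206) (nat_lit 76) (nat_lit 6882426023) (nat_lit 112) (nat_lit 5) (nat_lit 118) (nat_lit 5) (nat_lit 113) (nat_lit 5) (nat_lit 334) (nat_lit 293) (nat_lit 153)) (XT.lf (nat_lit 0) (nat_lit 7057981354) (nat_lit 380) (nat_lit 7297348470) (nat_lit 456) (nat_lit 7737606815) (nat_lit 107) (nat_lit 5) (nat_lit 112) (nat_lit 5) (nat_lit 113) (nat_lit 5) (nat_lit 335) (nat_lit 293) (nat_lit 152))))) (XT.nd (nat_lit 234) (nat_lit 684) (nat_lit 0) (XT.nd (nat_lit 78) (nat_lit 380) (nat_lit 0) (XT.lf (nat_lit 0) (nat_lit 17980039900) (nat_lit 456) (nat_lit 4061802278) (nat_lit 76) (nat_lit 466384922) (nat_lit 107) (nat_lit 5) (nat_lit 113) (nat_lit 5) (nat_lit 108) (nat_lit 5) (nat_lit 336) (nat_lit 293) (nat_lit 151)) (XT.nd (nat_lit 78) (nat_lit 76) (nat_lit 0) (XT.lf (nat_lit 0) (nat_lit 7301290627) (nat_lit 304) (nat_lit 14547356765) (nat_lit 380) (nat_lit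 1083280634) (nat_lit 103) (nat_lit 5) (nat_lit 107) (nat_lit 5) (nat_lit 108) (nat_lit 5) (nat_lit 337) (nat_lit 293) (nat_lit 150)) (XT.lf (nat_lit 0) (nat_lit 2451060443) (nat_lit 380) (nat_lit 4312206457) (nat_lit 76) (nat_lit 16603342664) (nat_lit 102) (nat_lit 5) (nat_lit 107) (nat_lit 5) (nat_lit 103) (nat_lit 5) (nat_lit 338) (nat_lit 293) (nat_lit 149)))) (XT.nd (nat_lit 156) (nat_lit 304) (nat_lit 0) (XT.nd (nat_lit 78) (nat_lit 0) (nat_lit 0) (XT.lf (nat_lit 0) (nat_lit 6147309954) (nat_lit 456) (nat_lit 16353333157) (nat_lit 76) (nat_lit 1311043026) (nat_lit 97) (nat_lit 5) (nat_lit 103) (nat_lit 5) (nat_lit 98) (nat_lit 5) (nat_lit 339) (nat_lit 293) (nat_lit 148)) (XT.lf (nat_lit 0) (nat_lit 10058456888) (nat_lit 456) (nat_lit 4675135677) (nat_lit 76) (nat_lit 9533407858) (nat_lit 97) (nat_lit 5) (nat_lit 103) (nat_lit 5) (nat_lit 98) (nat_lit 5) (nat_lit 340) (nat_lit 293) (nat_lit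 147))) (XT.nd (nat_lit 78) (nat_lit 0) (nat_lit 0) (XT.lf (nat_lit 0) (nat_lit 7490488657) (nat_lit 304) (nat_lit 6661725483) (nat_lit 380) (nat_lit 10581807272) (nat_lit 93) (nat_lit 5) (nat_lit 97) (nat_lit 5) (nat_lit 98) (nat_lit 5) (nat_lit 341) (nat_lit 293) (nat_lit 146)) (XT.lf (nat_lit 0) (nat_lit 18425703480) (nat_lit 380) (nat_lit 5122247102) (nat_lit 76) (nat_lit 1665400257) (nat_lit 93) (nat_lit 5) (nat_lit 98) (nat_lit 5) (nat_lit 94) (nat_lit 5) (nat_lit 342) (nat_lit 293) (nat_lit 145)))))) (XT.nd (nat_lit 546) (nat_lit 912) (nat_lit 0) (XT.nd (nat_lit 234) (nat_lit 532) (nat_lit 0) (XT.nd (nat_lit 78) (nat_lit 380) (nat_lit 0) (XT.lf (nat_lit 0) (nat_lit 7432850977) (nat_lit 304) (nat_lit 15525506072) (nat_lit 380) (nat_lit 2744779541) (nat_lit 89) (nat_lit 5) (nat_lit 93) (nat_lit 5) (nat_lit 94) (nat_lit 5) (nat_lit 343) (nat_lit 293) (nat_lit 144)) (XT.nd (nat_lit 78) (nat_lit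 304) (nat_lit 0) (XT.lf (nat_lit 0) (nat_lit 1437501926) (nat_lit 380) (nat_lit 5759572500) (nat_lit 76) (nat_lit 19008762361) (nat_lit 88) (nat_lit 5) (nat_lit 93) (nat_lit 5) (nat_lit 89) (nat_lit 5) (nat_lit 344) (nat_lit 293) (nat_lit 143)) (XT.lf (nat_lit 0) (nat_lit 5767585435) (nat_lit 380) (nat_lit 19503411302) (nat_lit 76) (nat_lit 1449485731) (nat_lit 84) (nat_lit 5) (nat_lit 89) (nat_lit 5) (nat_lit 85) (nat_lit 5) (nat_lit 345) (nat_lit 293) (nat_lit 142)))) (XT.nd (nat_lit 156) (nat_lit 228) (nat_lit 0) (XT.nd (nat_lit 78) (nat_lit 304) (nat_lit 0) (XT.lf (nat_lit 0) (nat_lit 10351415247) (nat_lit 380) (nat_lit 6628350840) (nat_lit 76) (nat_lit 10267090766) (nat_lit 84) (nat_lit 5) (nat_lit 89) (nat_lit 5) (nat_lit 85) (nat_lit 5) (nat_lit 346) (nat_lit 293) (nat_lit 141)) (XT.lf (nat_lit 0) (nat_lit 6756282532) (nat_lit 304) (nat_lit 8375451484) (nat_lit 380) (nat_lit 12655523743)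 (nat_lit 80) (nat_lit 5) (nat_lit 84) (nat_lit 5) (nat_lit 85) (nat_lit 5) (nat_lit 347) (nat_lit 293) (nat_lit 140))) (XT.nd (nat_lit 78) (nat_lit 228) (nat_lit 0) (XT.lf (nat_lit 0) (nat_lit 20121836491) (nat_lit 380) (nat_lit 7677468033) (nat_lit 76) (nat_lit 542579325) (nat_lit 80) (nat_lit 5) (nat_lit 85) (nat_lit 5) (nat_lit 81) (nat_lit 5) (nat_lit 348) (nat_lit 293) (nat_lit 139)) (XT.lf (nat_lit 0) (nat_lit 6104499138) (nat_lit 228) (nat_lit 19293017099) (nat_lit 304) (nat_lit 3511560513) (nat_lit 77) (nat_lit 5) (nat_lit 80) (nat_lit 5) (nat_lit 81) (nat_lit 5) (nat_lit 349) (nat_lit 293) (nat_lit 138))))) (XT.nd (nat_lit 234) (nat_lit 532) (nat_lit 0) (XT.nd (nat_lit 78) (nat_lit 304) (nat_lit 0) (XT.lf (nat_lit 0) (nat_lit 1384659544) (nat_lit 304) (nat_lit 9055661228) (nat_lit 76) (nat_lit 19050405031) (nat_lit 76) (nat_lit 5) (nat_lit 80) (nat_lit 5) (nat_lit 77) (nat_lit 5) (nat_lit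 350) (nat_lit 293) (nat_lit 137)) (XT.nd (nat_lit 78) (nat_lit 0) (nat_lit 0) (XT.lf (nat_lit 0) (nat_lit 5163582293) (nat_lit 304) (nat_lit 1237703026) (nat_lit 380) (nat_lit 23686176925) (nat_lit 72) (nat_lit 5) (nat_lit 76) (nat_lit 5) (nat_lit 77) (nat_lit 5) (nat_lit 351) (nat_lit 293) (nat_lit 136)) (XT.lf (nat_lit 0) (nat_lit 11734498535) (nat_lit 380) (nat_lit 10792640194) (nat_lit 76) (nat_lit 8169983167) (nat_lit 72) (nat_lit 5) (nat_lit 77) (nat_lit 5) (nat_lit 73) (nat_lit 5) (nat_lit 352) (nat_lit 293) (nat_lit 135)))) (XT.nd (nat_lit 156) (nat_lit 304) (nat_lit 0) (XT.nd (nat_lit 78) (nat_lit 0) (nat_lit 0) (XT.lf (nat_lit 0) (nat_lit 3816805395) (nat_lit 228) (nat_lit 13454527662) (nat_lit 304) (nat_lit 14052433202) (nat_lit 69) (nat_lit 5) (nat_lit 72) (nat_lit 5) (nat_lit 73) (nat_lit 5) (nat_lit 353) (nat_lit 293) (nat_lit 134)) (XT.lf (nat_lit 0) (nat_lit 19077894405) (nat_lit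 228) (nat_lit 4000122861) (nat_lit 304) (nat_lit 8888083908) (nat_lit 69) (nat_lit 5) (nat_lit 72) (nat_lit 5) (nat_lit 73) (nat_lit 5) (nat_lit 354) (nat_lit 293) (nat_lit 133))) (XT.nd (nat_lit 78) (nat_lit 76) (nat_lit 0) (XT.lf (nat_lit 0) (nat_lit 2148090112) (nat_lit 228) (nat_lit 26981505127) (nat_lit 304) (nat_lit 3495993561) (nat_lit 66) (nat_lit 5) (nat_lit 69) (nat_lit 5) (nat_lit 70) (nat_lit 5) (nat_lit 355) (nat_lit 293) (nat_lit 132)) (XT.lf (nat_lit 0) (nat_lit 2183652417) (nat_lit 304) (nat_lit 15469769087) (nat_lit 76) (nat_lit 15645870892) (nat_lit 65) (nat_lit 5) (nat_lit 69) (nat_lit 5) (nat_lit 66) (nat_lit 5) (nat_lit 356) (nat_lit 293) (nat_lit 131))))))))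
noncomputable def xc183 : XT := (XT.nd (nat_lit 2184) (nat_lit 912) (nat_lit 0) (XT.nd (nat_lit 1092) (nat_lit 1064) (nat_lit 0) (XT.nd (nat_lit 546) (nat_lit 684) (nat_lit 0) (XT.nd (nat_lit 234) (nat_lit 456) (nat_lit 0) (XT.nd (nat_lit 78) (nat_lit 228) (nat_lit 0) (XT.lf (nat_lit 0) (nat_lit 7958479832) (nat_lit 304) (nat_lit 54002711) (nat_lit 76) (nat_lit 25979837567) (nat_lit 65) (nat_lit 5) (nat_lit 69) (nat_lit 5) (nat_lit 66) (nat_lit 5) (nat_lit 357) (nat_lit 293) (nat_lit 130)) (XT.nd (nat_lit 78) (nat_lit 0) (nat_lit 0) (XT.lf (nat_lit 0) (nat_lit 14076766134) (nat_lit 304) (nat_lit 18589915285) (nat_lit 76) (nat_lit 2034353885) (nat_lit 62) (nat_lit 5) (nat_lit 66) (nat_lit 5) (nat_lit 63) (nat_lit 5) (nat_lit 358) (nat_lit 293) (nat_lit 129)) (XT.lf (nat_lit 0) (nat_lit 20453730341) (nat_lit 304) (nat_lit 2755437632) (nat_lit 76) (nat_lit 12219593087) (nat_lit 62) (nat_lit 5) (nat_lit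 66) (nat_lit 5) (nat_lit 63) (nat_lit 5) (nat_lit 359) (nat_lit 293) (nat_lit 128)))) (XT.nd (nat_lit 156) (nat_lit 228) (nat_lit 0) (XT.nd (nat_lit 78) (nat_lit 0) (nat_lit 0) (XT.lf (nat_lit 0) (nat_lit 13816491077) (nat_lit 228) (nat_lit 13333710479) (nat_lit 304) (nat_lit 9024273984) (nat_lit 59) (nat_lit 5) (nat_lit 62) (nat_lit 5) (nat_lit 63) (nat_lit 5) (nat_lit 360) (nat_lit 293) (nat_lit 127)) (XT.lf (nat_lit 0) (nat_lit 30934939157) (nat_lit 228) (nat_lit 3135903726) (nat_lit 304) (nat_lit 2871023105) (nat_lit 59) (nat_lit 5) (nat_lit 62) (nat_lit 5) (nat_lit 63) (nat_lit 5) (nat_lit 361) (nat_lit 293) (nat_lit 126))) (XT.nd (nat_lit 78) (nat_lit 0) (nat_lit 0) (XT.lf (nat_lit 0) (nat_lit 3572716814) (nat_lit 228) (nat_lit 26791258206) (nat_lit 76) (nat_lit 7362099770) (nat_lit 56) (nat_lit 5) (nat_lit 59) (nat_lit 5) (nat_lit 57) (nat_lit 5) (nat_lit 362) (nat_lit 293) (nat_lit 125))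 (XT.lf (nat_lit 0) (nat_lit 10239947945) (nat_lit 228) (nat_lit 10091164533) (nat_lit 76) (nat_lit 18199210660) (nat_lit 56) (nat_lit 5) (nat_lit 59) (nat_lit 5) (nat_lit 57) (nat_lit 5) (nat_lit 363) (nat_lit 293) (nat_lit 124))))) (XT.nd (nat_lit 234) (nat_lit 304) (nat_lit 0) (XT.nd (nat_lit 78) (nat_lit 152) (nat_lit 0) (XT.lf (nat_lit 0) (nat_lit 7244454894) (nat_lit 228) (nat_lit 9928084515) (nat_lit 304) (nat_lit 22184201724) (nat_lit 53) (nat_lit 5) (nat_lit 56) (nat_lit 5) (nat_lit 57) (nat_lit 5) (nat_lit 364) (nat_lit 293) (nat_lit 123)) (XT.nd (nat_lit 78) (nat_lit 152) (nat_lit 0) (XT.lf (nat_lit 0) (nat_lit 24419324772) (nat_lit 304) (nat_lit 14913347557) (nat_lit 76) (nat_lit 872095278) (nat_lit 53) (nat_lit 5) (nat_lit 57) (nat_lit 5) (nat_lit 54) (nat_lit 5) (nat_lit 365) (nat_lit 293) (nat_lit 122)) (XT.lf (nat_lit 0) (nat_lit 2750248648) (nat_lit 152) (nat_lit 29253864847) (nat_lit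 228) (nat_lit 9070505744) (nat_lit 51) (nat_lit 5) (nat_lit 53) (nat_lit 5) (nat_lit 54) (nat_lit 5) (nat_lit 366) (nat_lit 293) (nat_lit 121)))) (XT.nd (nat_lit 156) (nat_lit 228) (nat_lit 0) (XT.nd (nat_lit 78) (nat_lit 76) (nat_lit 0) (XT.lf (nat_lit 0) (nat_lit 21242847208) (nat_lit 152) (nat_lit 18720115957) (nat_lit 228) (nat_lit 2003210021) (nat_lit 51) (nat_lit 5) (nat_lit 53) (nat_lit 5) (nat_lit 54) (nat_lit 5) (nat_lit 367) (nat_lit 293) (nat_lit 120)) (XT.lf (nat_lit 0) (nat_lit 5169147892) (nat_lit 228) (nat_lit 2651470832) (nat_lit 76) (nat_lit 35062455694) (nat_lit 50) (nat_lit 5) (nat_lit 53) (nat_lit 5) (nat_lit 51) (nat_lit 5) (nat_lit 368) (nat_lit 293) (nat_lit 119))) (XT.nd (nat_lit 78) (nat_lit 0) (nat_lit 0) (XT.lf (nat_lit 0) (nat_lit 12703227977) (nat_lit 304) (nat_lit 27603220885) (nat_lit 76) (nat_lit 3514836486) (nat_lit 47) (nat_lit 5) (nat_lit 51) (nat_lit 5) (nat_lit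 48) (nat_lit 5) (nat_lit 369) (nat_lit 293) (nat_lit 118)) (XT.lf (nat_lit 0) (nat_lit 20563947501) (nat_lit 304) (nat_lit 9162843987) (nat_lit 76) (nat_lit 15057834638) (nat_lit 47) (nat_lit 5) (nat_lit 51) (nat_lit 5) (nat_lit 48) (nat_lit 5) (nat_lit 370) (nat_lit 293) (nat_lit 117)))))) (XT.nd (nat_lit 546) (nat_lit 532) (nat_lit 0) (XT.nd (nat_lit 234) (nat_lit 228) (nat_lit 0) (XT.nd (nat_lit 78) (nat_lit 152) (nat_lit 0) (XT.lf (nat_lit 0) (nat_lit 10020111491) (nat_lit 152) (nat_lit 18732954246) (nat_lit 228) (nat_lit 17021026049) (nat_lit 45) (nat_lit 5) (nat_lit 47) (nat_lit 5) (nat_lit 48) (nat_lit 5) (nat_lit 371) (nat_lit 293) (nat_lit 116)) (XT.nd (nat_lit 78) (nat_lit 152) (nat_lit 0) (XT.lf (nat_lit 0) (nat_lit 29960284165) (nat_lit 152) (nat_lit 7316408154) (nat_lit 228) (nat_lit 9513885967) (nat_lit 45) (nat_lit 5) (nat_lit 47) (nat_lit 5) (nat_lit 48) (nat_lit 5) (nat_lit 372)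 (nat_lit 293) (nat_lit 115)) (XT.lf (nat_lit 0) (nat_lit 2664378941) (nat_lit 152) (nat_lit 43456358810) (nat_lit 228) (nat_lit 1714882189) (nat_lit 43) (nat_lit 5) (nat_lit 45) (nat_lit 5) (nat_lit 46) (nat_lit 5) (nat_lit 373) (nat_lit 293) (nat_lit 114)))) (XT.nd (nat_lit 156) (nat_lit 152) (nat_lit 0) (XT.nd (nat_lit 78) (nat_lit 0) (nat_lit 0) (XT.lf (nat_lit 0) (nat_lit 6435282269) (nat_lit 228) (nat_lit 25958897682) (nat_lit 76) (nat_lit 16508798263) (nat_lit 42) (nat_lit 5) (nat_lit 45) (nat_lit 5) (nat_lit 43) (nat_lit 5) (nat_lit 374) (nat_lit 293) (nat_lit 113)) (XT.lf (nat_lit 0) (nat_lit 14791992901) (nat_lit 228) (nat_lit 6193012036) (nat_lit 76) (nat_lit 29016949371) (nat_lit 42) (nat_lit 5) (nat_lit 45) (nat_lit 5) (nat_lit 43) (nat_lit 5) (nat_lit 375) (nat_lit 293) (nat_lit 112))) (XT.nd (nat_lit 78) (nat_lit 0) (nat_lit 0) (XT.lf (nat_lit 0) (nat_lit 14441986780) (nat_lit 152)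 (nat_lit 9092853648) (nat_lit 228) (nat_lit 27594997840) (nat_lit 40) (nat_lit 5) (nat_lit 42) (nat_lit 5) (nat_lit 43) (nat_lit 5) (nat_lit 376) (nat_lit 293) (nat_lit 111)) (XT.lf (nat_lit 0) (nat_lit 32630100984) (nat_lit 228) (nat_lit 16503356538) (nat_lit 76) (nat_lit 3155399001) (nat_lit 40) (nat_lit 5) (nat_lit 43) (nat_lit 5) (nat_lit 41) (nat_lit 5) (nat_lit 377) (nat_lit 293) (nat_lit 110))))) (XT.nd (nat_lit 234) (nat_lit 304) (nat_lit 0) (XT.nd (nat_lit 78) (nat_lit 76) (nat_lit 0) (XT.lf (nat_lit 0) (nat_lit 4274519418) (nat_lit 152) (nat_lit 37851548694) (nat_lit 228) (nat_lit 11352743307) (nat_lit 38) (nat_lit 5) (nat_lit 40) (nat_lit 5) (nat_lit 41) (nat_lit 5) (nat_lit 378) (nat_lit 293) (nat_lit 109)) (XT.nd (nat_lit 78) (nat_lit 76) (nat_lit 0) (XT.lf (nat_lit 0) (nat_lit 26008551710) (nat_lit 152) (nat_lit 26061787799) (nat_lit 228) (nat_lit 2629224208) (nat_lit 38) (nat_lit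 5) (nat_lit 40) (nat_lit 5) (nat_lit 41) (nat_lit 5) (nat_lit 379) (nat_lit 293) (nat_lit 108)) (XT.lf (nat_lit 0) (nat_lit 6228807231) (nat_lit 228) (nat_lit 7628818676) (nat_lit 76) (nat_lit 42097576111) (nat_lit 37) (nat_lit 5) (nat_lit 40) (nat_lit 5) (nat_lit 38) (nat_lit 5) (nat_lit 380) (nat_lit 293) (nat_lit 107)))) (XT.nd (nat_lit 156) (nat_lit 152) (nat_lit 0) (XT.nd (nat_lit 78) (nat_lit 0) (nat_lit 0) (XT.lf (nat_lit 0) (nat_lit 14313281828) (nat_lit 152) (nat_lit 1120968412) (nat_lit 228) (nat_lit 41809444192) (nat_lit 35) (nat_lit 5) (nat_lit 37) (nat_lit 5) (nat_lit 38) (nat_lit 5) (nat_lit 381) (nat_lit 293) (nat_lit 106)) (XT.lf (nat_lit 0) (nat_lit 25105931955) (nat_lit 228) (nat_lit 21619845508) (nat_lit 76) (nat_lit 11839363235) (nat_lit 35) (nat_lit 5) (nat_lit 38) (nat_lit 5) (nat_lit 36) (nat_lit 5) (nat_lit 382) (nat_lit 293) (nat_lit 105))) (XT.nd (nat_lit 78) (nat_lit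 0) (nat_lit 0) (XT.lf (nat_lit 0) (nat_lit 320088105) (nat_lit 152) (nat_lit 34758887018) (nat_lit 228) (nat_lit 24846920202) (nat_lit 33) (nat_lit 5) (nat_lit 35) (nat_lit 5) (nat_lit 36) (nat_lit 5) (nat_lit 383) (nat_lit 293) (nat_lit 104)) (XT.lf (nat_lit 0) (nat_lit 23356357473) (nat_lit 152) (nat_lit 22210243408) (nat_lit 228) (nat_lit 15754411239) (nat_lit 33) (nat_lit 5) (nat_lit 35) (nat_lit 5) (nat_lit 36) (nat_lit 5) (nat_lit 384) (nat_lit 293) (nat_lit 103))))))) (XT.nd (nat_lit 1092) (nat_lit 228) (nat_lit 0) (XT.nd (nat_lit 546) (nat_lit 380) (nat_lit 0) (XT.nd (nat_lit 234) (nat_lit 152) (nat_lit 0) (XT.nd (nat_lit 78) (nat_lit 152) (nat_lit 0) (XT.lf (nat_lit 0) (nat_lit 47078814057) (nat_lit 152) (nat_lit 9287199846) (nat_lit 228) (nat_lit 6392054989) (nat_lit 33) (nat_lit 5) (nat_lit 35) (nat_lit 5) (nat_lit 36) (nat_lit 5) (nat_lit 385) (nat_lit 293) (nat_lit 102)) (XT.nd (nat_lit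 78) (nat_lit 0) (nat_lit 0) (XT.lf (nat_lit 0) (nat_lit 3295578964) (nat_lit 152) (nat_lit 56892221730) (nat_lit 76) (nat_lit 4046264790) (nat_lit 31) (nat_lit 5) (nat_lit 33) (nat_lit 5) (nat_lit 32) (nat_lit 5) (nat_lit 386) (nat_lit 293) (nat_lit 101)) (XT.lf (nat_lit 0) (nat_lit 13394446531) (nat_lit 152) (nat_lit 34536247050) (nat_lit 76) (nat_lit 17814278531) (nat_lit 31) (nat_lit 5) (nat_lit 33) (nat_lit 5) (nat_lit 32) (nat_lit 5) (nat_lit 387) (nat_lit 293) (nat_lit 100)))) (XT.nd (nat_lit 156) (nat_lit 0) (nat_lit 0) (XT.nd (nat_lit 78) (nat_lit 152) (nat_lit 0) (XT.lf (nat_lit 0) (nat_lit 23793589588) (nat_lit 152) (nat_lit 11514284250) (nat_lit 76) (nat_lit 31993413909) (nat_lit 31) (nat_lit 5) (nat_lit 33) (nat_lit 5) (nat_lit 32) (nat_lit 5) (nat_lit 388) (nat_lit 293) (nat_lit 99)) (XT.lf (nat_lit 0) (nat_lit 12436463139) (nat_lit 152) (nat_lit 22185178516) (nat_lit 228) (nat_lit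 34279144214) (nat_lit 29) (nat_lit 5) (nat_lit 31) (nat_lit 5) (nat_lit 32) (nat_lit 5) (nat_lit 389) (nat_lit 293) (nat_lit 98))) (XT.nd (nat_lit 78) (nat_lit 0) (nat_lit 0) (XT.lf (nat_lit 0) (nat_lit 37337254656) (nat_lit 152) (nat_lit 8550972883) (nat_lit 228) (nat_lit 24656631659) (nat_lit 29) (nat_lit 5) (nat_lit 31) (nat_lit 5) (nat_lit 32) (nat_lit 5) (nat_lit 390) (nat_lit 293) (nat_lit 97)) (XT.lf (nat_lit 0) (nat_lit 57543083625) (nat_lit 228) (nat_lit 9310416352) (nat_lit 76) (nat_lit 5383247569) (nat_lit 29) (nat_lit 5) (nat_lit 32) (nat_lit 5) (nat_lit 30) (nat_lit 4) (nat_lit 391) (nat_lit 293) (nat_lit 96))))) (XT.nd (nat_lit 234) (nat_lit 228) (nat_lit 0) (XT.nd (nat_lit 78) (nat_lit 76) (nat_lit 0) (XT.lf (nat_lit 0) (nat_lit 15517519716) (nat_lit 76) (nat_lit 54261443806) (nat_lit 152) (nat_lit 4193488649) (nat_lit 28) (nat_lit 5) (nat_lit 29) (nat_lit 5) (nat_lit 30) (nat_lit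 4) (nat_lit 392) (nat_lit 293) (nat_lit 95)) (XT.nd (nat_lit 78) (nat_lit 0) (nat_lit 0) (XT.lf (nat_lit 0) (nat_lit 6584983228) (nat_lit 152) (nat_lit 34545156451) (nat_lit 76) (nat_lit 34625404486) (nat_lit 27) (nat_lit 5) (nat_lit 29) (nat_lit 5) (nat_lit 28) (nat_lit 5) (nat_lit 393) (nat_lit 293) (nat_lit 94)) (XT.lf (nat_lit 0) (nat_lit 17600152056) (nat_lit 152) (nat_lit 9963795871) (nat_lit 76) (nat_lit 50027007456) (nat_lit 27) (nat_lit 5) (nat_lit 29) (nat_lit 5) (nat_lit 28) (nat_lit 5) (nat_lit 394) (nat_lit 293) (nat_lit 93)))) (XT.nd (nat_lit 156) (nat_lit 76) (nat_lit 0) (XT.nd (nat_lit 78) (nat_lit 0) (nat_lit 0) (XT.lf (nat_lit 0) (nat_lit 15656452299) (nat_lit 152) (nat_lit 13437519904) (nat_lit 228) (nat_lit 50383011708) (nat_lit 25) (nat_lit 5) (nat_lit 27) (nat_lit 5) (nat_lit 28) (nat_lit 5) (nat_lit 395) (nat_lit 293) (nat_lit 92)) (XT.lf (nat_lit 0) (nat_lit 41042622289)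 (nat_lit 228) (nat_lit 39182790405) (nat_lit 76) (nat_lit 1190880978) (nat_lit 25) (nat_lit 5) (nat_lit 28) (nat_lit 5) (nat_lit 26) (nat_lit 4) (nat_lit 396) (nat_lit 293) (nat_lit 91))) (XT.nd (nat_lit 78) (nat_lit 76) (nat_lit 0) (XT.lf (nat_lit 0) (nat_lit 53480551758) (nat_lit 228) (nat_lit 13942922264) (nat_lit 76) (nat_lit 15986384921) (nat_lit 25) (nat_lit 5) (nat_lit 28) (nat_lit 5) (nat_lit 26) (nat_lit 4) (nat_lit 397) (nat_lit 293) (nat_lit 90)) (XT.lf (nat_lit 0) (nat_lit 12290121260) (nat_lit 76) (nat_lit 54117477947) (nat_lit 152) (nat_lit 19052153350) (nat_lit 24) (nat_lit 5) (nat_lit 25) (nat_lit 5) (nat_lit 26) (nat_lit 4) (nat_lit 398) (nat_lit 293) (nat_lit 89)))))) (XT.nd (nat_lit 32760) (nat_lit 0) (nat_lit 13452) (XT.nd (nat_lit 32448) (nat_lit 0) (nat_lit 14364) (XT.nd (nat_lit 78) (nat_lit 228) (nat_lit 0) (XT.lf (nat_lit 0) (nat_lit 39592164830) (nat_lit 76) (nat_lit 40268955671)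 (nat_lit 152) (nat_lit 7705863372) (nat_lit 24) (nat_lit 5) (nat_lit 25) (nat_lit 5) (nat_lit 26) (nat_lit 4) (nat_lit 399) (nat_lit 293) (nat_lit 88)) (XT.nd (nat_lit 78) (nat_lit 152) (nat_lit 0) (XT.lf (nat_lit 0) (nat_lit 3901042415) (nat_lit 152) (nat_lit 22066167425) (nat_lit 76) (nat_lit 63769137815) (nat_lit 23) (nat_lit 5) (nat_lit 25) (nat_lit 5) (nat_lit 24) (nat_lit 5) (nat_lit 400) (nat_lit 293) (nat_lit 87)) (XT.lf (nat_lit 0) (nat_lit 4630169274) (nat_lit 152) (nat_lit 11113582008) (nat_lit 228) (nat_lit 76223478615) (nat_lit 21) (nat_lit 5) (nat_lit 23) (nat_lit 5) (nat_lit 24) (nat_lit 5) (nat_lit 401) (nat_lit 293) (nat_lit 86)))) (XT.nd (nat_lit 156) (nat_lit 0) (nat_lit 76) (XT.nd (nat_lit 78) (nat_lit 0) (nat_lit 0) (XT.lf (nat_lit 0) (nat_lit 3308502206) (nat_lit 1140) (nat_lit 1225852713) (nat_lit 1140) (nat_lit 1225852713) (nat_lit 210) (nat_lit 3) (nat_lit 225) (nat_lit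 3) (nat_lit 225) (nat_lit 5) (nat_lit 294) (nat_lit 294) (nat_lit 192)) (XT.lf (nat_lit 76) (nat_lit 2852432451) (nat_lit 0) (nat_lit 4381068374) (nat_lit 1140) (nat_lit 4443598215) (nat_lit 211) (nat_lit 5) (nat_lit 210) (nat_lit 3) (nat_lit 225) (nat_lit 5) (nat_lit 295) (nat_lit 294) (nat_lit 191))) (XT.nd (nat_lit 78) (nat_lit 0) (nat_lit 0) (XT.lf (nat_lit 0) (nat_lit 7878668489) (nat_lit 1064) (nat_lit 3487073466) (nat_lit 1140) (nat_lit 472459703) (nat_lit 211) (nat_lit 5) (nat_lit 225) (nat_lit 5) (nat_lit 226) (nat_lit 5) (nat_lit 296) (nat_lit 294) (nat_lit 190)) (XT.lf (nat_lit 76) (nat_lit 1995787402) (nat_lit 0) (nat_lit 6591397494) (nat_lit 1140) (nat_lit 3415655577) (nat_lit 212) (nat_lit 5) (nat_lit 211) (nat_lit 5) (nat_lit 226) (nat_lit 5) (nat_lit 297) (nat_lit 294) (nat_lit 189))))) (XT.nd (nat_lit 234) (nat_lit 988) (nat_lit 0) (XT.nd (nat_lit 78) (nat_lit 0) (nat_lit 76) (XT.lf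 (nat_lit 76) (nat_lit 7704289786) (nat_lit 0) (nat_lit 1629753242) (nat_lit 1140) (nat_lit 2837885102) (nat_lit 212) (nat_lit 5) (nat_lit 211) (nat_lit 5) (nat_lit 226) (nat_lit 5) (nat_lit 298) (nat_lit 294) (nat_lit 188)) (XT.nd (nat_lit 78) (nat_lit 0) (nat_lit 0) (XT.lf (nat_lit 76) (nat_lit 1217612309) (nat_lit 0) (nat_lit 8913332411) (nat_lit 1140) (nat_lit 2214336176) (nat_lit 213) (nat_lit 5) (nat_lit 212) (nat_lit 5) (nat_lit 227) (nat_lit 5) (nat_lit 299) (nat_lit 294) (nat_lit 187)) (XT.lf (nat_lit 76) (nat_lit 7138002253) (nat_lit 0) (nat_lit 3857727057) (nat_lit 1140) (nat_lit 1526806648) (nat_lit 213) (nat_lit 5) (nat_lit 212) (nat_lit 5) (nat_lit 227) (nat_lit 5) (nat_lit 300) (nat_lit 294) (nat_lit 186)))) (XT.nd (nat_lit 156) (nat_lit 1140) (nat_lit 0) (XT.nd (nat_lit 78) (nat_lit 0) (nat_lit 0) (XT.lf (nat_lit 76) (nat_lit 517198662) (nat_lit 0) (nat_lit 11370646444) (nat_lit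 1140) (nat_lit 817242309) (nat_lit 214) (nat_lit 5) (nat_lit 213) (nat_lit 5) (nat_lit 228) (nat_lit 5) (nat_lit 301) (nat_lit 294) (nat_lit 185)) (XT.lf (nat_lit 76) (nat_lit 6656694923) (nat_lit 0) (nat_lit 6226046190) (nat_lit 1140) (nat_lit 8113583) (nat_lit 214) (nat_lit 5) (nat_lit 213) (nat_lit 5) (nat_lit 228) (nat_lit 5) (nat_lit 302) (nat_lit 294) (nat_lit 184))) (XT.nd (nat_lit 78) (nat_lit 0) (nat_lit 76) (XT.lf (nat_lit 0) (nat_lit 793304142) (nat_lit 1140) (nat_lit 120485116) (nat_lit 1216) (nat_lit 12168662802) (nat_lit 198) (nat_lit 5) (nat_lit 213) (nat_lit 5) (nat_lit 214) (nat_lit 5) (nat_lit 303) (nat_lit 294) (nat_lit 183)) (XT.lf (nat_lit 0) (nat_lit 1708095384) (nat_lit 1140) (nat_lit 7034105580) (nat_lit 1216) (nat_lit 4534927251) (nat_lit 199) (nat_lit 5) (nat_lit 214) (nat_lit 5) (nat_lit 215) (nat_lit 5) (nat_lit 304) (nat_lit 294) (nat_lit 182))))))))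
noncomputable def xc184 : XT := (XT.nd (nat_lit 2106) (nat_lit 4712) (nat_lit 0) (XT.nd (nat_lit 1014) (nat_lit 3420) (nat_lit 0) (XT.nd (nat_lit 468) (nat_lit 2280) (nat_lit 0) (XT.nd (nat_lit 234) (nat_lit 0) (nat_lit 76) (XT.nd (nat_lit 78) (nat_lit 0) (nat_lit 76) (XT.lf (nat_lit 0) (nat_lit 2645584070) (nat_lit 1140) (nat_lit 697595686) (nat_lit 1216) (nat_lit 10134624864) (nat_lit 199) (nat_lit 5) (nat_lit 214) (nat_lit 5) (nat_lit 215) (nat_lit 5) (nat_lit 305) (nat_lit 294) (nat_lit 181)) (XT.nd (nat_lit 78) (nat_lit 0) (nat_lit 0) (XT.lf (nat_lit 0) (nat_lit 3675579426) (nat_lit 1140) (nat_lit 7770876541) (nat_lit 1216) (nat_lit 2236130953) (nat_lit 200) (nat_lit 5) (nat_lit 215) (nat_lit 5) (nat_lit 216) (nat_lit 5) (nat_lit 306) (nat_lit 294) (nat_lit 180)) (XT.lf (nat_lit 0) (nat_lit 4762466304) (nat_lit 1140) (nat_lit 1203772431) (nat_lit 1216) (nat_lit 7926510771) (nat_lit 200) (nat_lit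 5) (nat_lit 215) (nat_lit 5) (nat_lit 216) (nat_lit 5) (nat_lit 307) (nat_lit 294) (nat_lit 179)))) (XT.nd (nat_lit 78) (nat_lit 0) (nat_lit 76) (XT.lf (nat_lit 76) (nat_lit 5660217197) (nat_lit 0) (nat_lit 262343105) (nat_lit 1216) (nat_lit 8185454735) (nat_lit 201) (nat_lit 5) (nat_lit 200) (nat_lit 5) (nat_lit 216) (nat_lit 5) (nat_lit 308) (nat_lit 294) (nat_lit 178)) (XT.nd (nat_lit 78) (nat_lit 0) (nat_lit 0) (XT.lf (nat_lit 0) (nat_lit 7170207330) (nat_lit 1140) (nat_lit 1639569061) (nat_lit 1216) (nat_lit 5518395253) (nat_lit 201) (nat_lit 5) (nat_lit 216) (nat_lit 5) (nat_lit 217) (nat_lit 5) (nat_lit 309) (nat_lit 294) (nat_lit 177)) (XT.lf (nat_lit 76) (nat_lit 5466370813) (nat_lit 0) (nat_lit 3030970787) (nat_lit 1216) (nat_lit 6056344776) (nat_lit 202) (nat_lit 5) (nat_lit 201) (nat_lit 5) (nat_lit 217) (nat_lit 5) (nat_lit 310) (nat_lit 294) (nat_lit 176))))) (XT.nd (nat_lit 234)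 (nat_lit 1368) (nat_lit 0) (XT.nd (nat_lit 78) (nat_lit 1140) (nat_lit 0) (XT.lf (nat_lit 0) (nat_lit 9896307193) (nat_lit 1140) (nat_lit 2005539616) (nat_lit 76) (nat_lit 2883173939) (nat_lit 202) (nat_lit 5) (nat_lit 217) (nat_lit 5) (nat_lit 203) (nat_lit 5) (nat_lit 311) (nat_lit 294) (nat_lit 175)) (XT.nd (nat_lit 78) (nat_lit 0) (nat_lit 0) (XT.lf (nat_lit 0) (nat_lit 5352521211) (nat_lit 1140) (nat_lit 6053770780) (nat_lit 1216) (nat_lit 3614945944) (nat_lit 187) (nat_lit 5) (nat_lit 202) (nat_lit 5) (nat_lit 203) (nat_lit 5) (nat_lit 312) (nat_lit 294) (nat_lit 174)) (XT.lf (nat_lit 0) (nat_lit 12961933685) (nat_lit 1140) (nat_lit 7744124) (nat_lit 1216) (nat_lit 2294634659) (nat_lit 187) (nat_lit 5) (nat_lit 202) (nat_lit 5) (nat_lit 203) (nat_lit 5) (nat_lit 313) (nat_lit 294) (nat_lit 173)))) (XT.nd (nat_lit 156) (nat_lit 608) (nat_lit 0) (XT.nd (nat_lit 78) (nat_lit 76) (nat_lit 0)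 (XT.lf (nat_lit 0) (nat_lit 5318363865) (nat_lit 684) (nat_lit 9360730655) (nat_lit 760) (nat_lit 832624308) (nat_lit 178) (nat_lit 5) (nat_lit 187) (nat_lit 5) (nat_lit 188) (nat_lit 5) (nat_lit 314) (nat_lit 294) (nat_lit 172)) (XT.lf (nat_lit 0) (nat_lit 671999398) (nat_lit 760) (nat_lit 2568422928) (nat_lit 76) (nat_lit 12525586884) (nat_lit 177) (nat_lit 5) (nat_lit 187) (nat_lit 5) (nat_lit 178) (nat_lit 5) (nat_lit 315) (nat_lit 294) (nat_lit 171))) (XT.nd (nat_lit 78) (nat_lit 0) (nat_lit 0) (XT.lf (nat_lit 0) (nat_lit 2275384054) (nat_lit 684) (nat_lit 10685112505) (nat_lit 76) (nat_lit 3065086043) (nat_lit 169) (nat_lit 5) (nat_lit 178) (nat_lit 5) (nat_lit 170) (nat_lit 5) (nat_lit 316) (nat_lit 294) (nat_lit 170)) (XT.lf (nat_lit 0) (nat_lit 3974058791) (nat_lit 684) (nat_lit 2795883198) (nat_lit 76) (nat_lit 9521597519) (nat_lit 169) (nat_lit 5) (nat_lit 178) (nat_lit 5) (nat_lit 170)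 (nat_lit 5) (nat_lit 317) (nat_lit 294) (nat_lit 169)))))) (XT.nd (nat_lit 546) (nat_lit 1292) (nat_lit 0) (XT.nd (nat_lit 234) (nat_lit 1064) (nat_lit 0) (XT.nd (nat_lit 78) (nat_lit 532) (nat_lit 0) (XT.lf (nat_lit 0) (nat_lit 5425547418) (nat_lit 532) (nat_lit 339535297) (nat_lit 608) (nat_lit 10799162354) (nat_lit 162) (nat_lit 5) (nat_lit 169) (nat_lit 5) (nat_lit 170) (nat_lit 5) (nat_lit 318) (nat_lit 294) (nat_lit 168)) (XT.nd (nat_lit 78) (nat_lit 532) (nat_lit 0) (XT.lf (nat_lit 0) (nat_lit 7688206632) (nat_lit 608) (nat_lit 2964610886) (nat_lit 76) (nat_lit 6189974485) (nat_lit 162) (nat_lit 5) (nat_lit 170) (nat_lit 5) (nat_lit 163) (nat_lit 5) (nat_lit 319) (nat_lit 294) (nat_lit 167)) (XT.lf (nat_lit 0) (nat_lit 5549355946) (nat_lit 532) (nat_lit 4166134275) (nat_lit 608) (nat_lit 7412822097) (nat_lit 155) (nat_lit 5) (nat_lit 162) (nat_lit 5) (nat_lit 163) (nat_lit 5) (nat_lit 320)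 (nat_lit 294) (nat_lit 166)))) (XT.nd (nat_lit 156) (nat_lit 608) (nat_lit 0) (XT.nd (nat_lit 78) (nat_lit 456) (nat_lit 0) (XT.lf (nat_lit 0) (nat_lit 11847962309) (nat_lit 608) (nat_lit 3076938914) (nat_lit 76) (nat_lit 2496176553) (nat_lit 155) (nat_lit 5) (nat_lit 163) (nat_lit 5) (nat_lit 156) (nat_lit 5) (nat_lit 321) (nat_lit 294) (nat_lit 165)) (XT.lf (nat_lit 0) (nat_lit 5740739300) (nat_lit 456) (nat_lit 8390353722) (nat_lit 532) (nat_lit 3588942964) (nat_lit 149) (nat_lit 5) (nat_lit 155) (nat_lit 5) (nat_lit 156) (nat_lit 5) (nat_lit 322) (nat_lit 294) (nat_lit 164))) (XT.nd (nat_lit 78) (nat_lit 608) (nat_lit 0) (XT.lf (nat_lit 0) (nat_lit 14875948419) (nat_lit 456) (nat_lit 1628279485) (nat_lit 532) (nat_lit 1523099756) (nat_lit 149) (nat_lit 5) (nat_lit 155) (nat_lit 5) (nat_lit 156) (nat_lit 5) (nat_lit 323) (nat_lit 294) (nat_lit 163)) (XT.lf (nat_lit 0) (nat_lit 693554968) (nat_lit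 608) (nat_lit 12350620976) (nat_lit 76) (nat_lit 5296478105) (nat_lit 141) (nat_lit 5) (nat_lit 149) (nat_lit 5) (nat_lit 142) (nat_lit 5) (nat_lit 324) (nat_lit 294) (nat_lit 162))))) (XT.nd (nat_lit 234) (nat_lit 836) (nat_lit 0) (XT.nd (nat_lit 78) (nat_lit 456) (nat_lit 0) (XT.lf (nat_lit 0) (nat_lit 2985144048) (nat_lit 608) (nat_lit 3233811980) (nat_lit 76) (nat_lit 12442809543) (nat_lit 141) (nat_lit 5) (nat_lit 149) (nat_lit 5) (nat_lit 142) (nat_lit 5) (nat_lit 325) (nat_lit 294) (nat_lit 161)) (XT.nd (nat_lit 78) (nat_lit 0) (nat_lit 0) (XT.lf (nat_lit 0) (nat_lit 5405182229) (nat_lit 532) (nat_lit 12730393873) (nat_lit 76) (nat_lit 855152200) (nat_lit 135) (nat_lit 5) (nat_lit 142) (nat_lit 5) (nat_lit 136) (nat_lit 5) (nat_lit 326) (nat_lit 294) (nat_lit 160)) (XT.lf (nat_lit 0) (nat_lit 7983587397) (nat_lit 532) (nat_lit 3294909640) (nat_lit 76) (nat_lit 8048498548) (nat_lit 135) (nat_lit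 5) (nat_lit 142) (nat_lit 5) (nat_lit 136) (nat_lit 5) (nat_lit 327) (nat_lit 294) (nat_lit 159)))) (XT.nd (nat_lit 156) (nat_lit 380) (nat_lit 0) (XT.nd (nat_lit 78) (nat_lit 0) (nat_lit 0) (XT.lf (nat_lit 0) (nat_lit 6541552991) (nat_lit 456) (nat_lit 4152142592) (nat_lit 532) (nat_lit 8978033172) (nat_lit 129) (nat_lit 5) (nat_lit 135) (nat_lit 5) (nat_lit 136) (nat_lit 5) (nat_lit 328) (nat_lit 294) (nat_lit 158)) (XT.lf (nat_lit 0) (nat_lit 13540966692) (nat_lit 532) (nat_lit 3326015465) (nat_lit 76) (nat_lit 3158154122) (nat_lit 129) (nat_lit 5) (nat_lit 136) (nat_lit 5) (nat_lit 130) (nat_lit 5) (nat_lit 329) (nat_lit 294) (nat_lit 157))) (XT.nd (nat_lit 78) (nat_lit 0) (nat_lit 0) (XT.lf (nat_lit 0) (nat_lit 6855332349) (nat_lit 380) (nat_lit 9717188926) (nat_lit 456) (nat_lit 3813666706) (nat_lit 124) (nat_lit 5) (nat_lit 129) (nat_lit 5) (nat_lit 130) (nat_lit 5) (nat_lit 330) (nat_lit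 294) (nat_lit 156)) (XT.lf (nat_lit 0) (nat_lit 17400795568) (nat_lit 380) (nat_lit 2319816327) (nat_lit 456) (nat_lit 1036699338) (nat_lit 124) (nat_lit 5) (nat_lit 129) (nat_lit 5) (nat_lit 130) (nat_lit 5) (nat_lit 331) (nat_lit 294) (nat_lit 155))))))) (XT.nd (nat_lit 1092) (nat_lit 1976) (nat_lit 0) (XT.nd (nat_lit 546) (nat_lit 1140) (nat_lit 0) (XT.nd (nat_lit 234) (nat_lit 684) (nat_lit 0) (XT.nd (nat_lit 78) (nat_lit 380) (nat_lit 0) (XT.lf (nat_lit 0) (nat_lit 1901503680) (nat_lit 532) (nat_lit 13951626783) (nat_lit 76) (nat_lit 5282513746) (nat_lit 117) (nat_lit 5) (nat_lit 124) (nat_lit 5) (nat_lit 118) (nat_lit 5) (nat_lit 332) (nat_lit 294) (nat_lit 154)) (XT.nd (nat_lit 78) (nat_lit 380) (nat_lit 0) (XT.lf (nat_lit 0) (nat_lit 4956490253) (nat_lit 532) (nat_lit 3457829572) (nat_lit 76) (nat_lit 13109222225) (nat_lit 117) (nat_lit 5) (nat_lit 124) (nat_lit 5) (nat_lit 118) (nat_lit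 5) (nat_lit 333) (nat_lit 294) (nat_lit 153)) (XT.lf (nat_lit 0) (nat_lit 7487647275) (nat_lit 380) (nat_lit 679955772) (nat_lit 456) (nat_lit 13753546306) (nat_lit 112) (nat_lit 5) (nat_lit 117) (nat_lit 5) (nat_lit 118) (nat_lit 5) (nat_lit 334) (nat_lit 294) (nat_lit 152)))) (XT.nd (nat_lit 156) (nat_lit 304) (nat_lit 0) (XT.nd (nat_lit 78) (nat_lit 380) (nat_lit 0) (XT.lf (nat_lit 0) (nat_lit 11572967987) (nat_lit 456) (nat_lit 3577019370) (nat_lit 76) (nat_lit 7177766582) (nat_lit 112) (nat_lit 5) (nat_lit 118) (nat_lit 5) (nat_lit 113) (nat_lit 5) (nat_lit 335) (nat_lit 294) (nat_lit 151)) (XT.lf (nat_lit 0) (nat_lit 7740375836) (nat_lit 380) (nat_lit 7414084663) (nat_lit 456) (nat_lit 7589883597) (nat_lit 107) (nat_lit 5) (nat_lit 112) (nat_lit 5) (nat_lit 113) (nat_lit 5) (nat_lit 336) (nat_lit 294) (nat_lit 150))) (XT.nd (nat_lit 78) (nat_lit 304) (nat_lit 0) (XT.lf (nat_lit 0) (nat_lit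 18878133367) (nat_lit 456) (nat_lit 3716614186) (nat_lit 76) (nat_lit 577648585) (nat_lit 107) (nat_lit 5) (nat_lit 113) (nat_lit 5) (nat_lit 108) (nat_lit 5) (nat_lit 337) (nat_lit 294) (nat_lit 149)) (XT.lf (nat_lit 0) (nat_lit 7982792661) (nat_lit 304) (nat_lit 14874004555) (nat_lit 380) (nat_lit 752200164) (nat_lit 103) (nat_lit 5) (nat_lit 107) (nat_lit 5) (nat_lit 108) (nat_lit 5) (nat_lit 338) (nat_lit 294) (nat_lit 148))))) (XT.nd (nat_lit 234) (nat_lit 684) (nat_lit 0) (XT.nd (nat_lit 78) (nat_lit 380) (nat_lit 0) (XT.lf (nat_lit 0) (nat_lit 2870693378) (nat_lit 380) (nat_lit 3985400942) (nat_lit 76) (nat_lit 17200840390) (nat_lit 102) (nat_lit 5) (nat_lit 107) (nat_lit 5) (nat_lit 103) (nat_lit 5) (nat_lit 339) (nat_lit 294) (nat_lit 147)) (XT.nd (nat_lit 78) (nat_lit 0) (nat_lit 0) (XT.lf (nat_lit 0) (nat_lit 6673162009) (nat_lit 456) (nat_lit 16382811421) (nat_lit 76) (nat_lit 1459538651)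 (nat_lit 97) (nat_lit 5) (nat_lit 103) (nat_lit 5) (nat_lit 98) (nat_lit 5) (nat_lit 340) (nat_lit 294) (nat_lit 146)) (XT.lf (nat_lit 0) (nat_lit 10691698708) (nat_lit 456) (nat_lit 4367698747) (nat_lit 76) (nat_lit 9925394885) (nat_lit 97) (nat_lit 5) (nat_lit 103) (nat_lit 5) (nat_lit 98) (nat_lit 5) (nat_lit 341) (nat_lit 294) (nat_lit 145)))) (XT.nd (nat_lit 156) (nat_lit 380) (nat_lit 0) (XT.nd (nat_lit 78) (nat_lit 0) (nat_lit 0) (XT.lf (nat_lit 0) (nat_lit 8158505190) (nat_lit 304) (nat_lit 6744369783) (nat_lit 380) (nat_lit 10563118761) (nat_lit 93) (nat_lit 5) (nat_lit 97) (nat_lit 5) (nat_lit 98) (nat_lit 5) (nat_lit 342) (nat_lit 294) (nat_lit 144)) (XT.lf (nat_lit 0) (nat_lit 19296164951) (nat_lit 380) (nat_lit 4836862550) (nat_lit 76) (nat_lit 1826935395) (nat_lit 93) (nat_lit 5) (nat_lit 98) (nat_lit 5) (nat_lit 94) (nat_lit 5) (nat_lit 343) (nat_lit 294) (nat_lit 143))) (XT.nd (nat_lit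 78) (nat_lit 76) (nat_lit 0) (XT.lf (nat_lit 0) (nat_lit 8090584041) (nat_lit 304) (nat_lit 15869140030) (nat_lit 380) (nat_lit 2504877880) (nat_lit 89) (nat_lit 5) (nat_lit 93) (nat_lit 5) (nat_lit 94) (nat_lit 5) (nat_lit 344) (nat_lit 294) (nat_lit 142)) (XT.lf (nat_lit 0) (nat_lit 1787381241) (nat_lit 380) (nat_lit 5503933797) (nat_lit 76) (nat_lit 19691258343) (nat_lit 88) (nat_lit 5) (nat_lit 93) (nat_lit 5) (nat_lit 89) (nat_lit 5) (nat_lit 345) (nat_lit 294) (nat_lit 141)))))) (XT.nd (nat_lit 546) (nat_lit 760) (nat_lit 0) (XT.nd (nat_lit 234) (nat_lit 608) (nat_lit 0) (XT.nd (nat_lit 78) (nat_lit 304) (nat_lit 0) (XT.lf (nat_lit 0) (nat_lit 6243686474) (nat_lit 380) (nat_lit 19656177967) (nat_lit 76) (nat_lit 1612911284) (nat_lit 84) (nat_lit 5) (nat_lit 89) (nat_lit 5) (nat_lit 85) (nat_lit 5) (nat_lit 346) (nat_lit 294) (nat_lit 140)) (XT.nd (nat_lit 78) (nat_lit 304) (nat_lit 0) (XT.lf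 (nat_lit 0) (nat_lit 10956203797) (nat_lit 380) (nat_lit 6407457993) (nat_lit 76) (nat_lit 10691551043) (nat_lit 84) (nat_lit 5) (nat_lit 89) (nat_lit 5) (nat_lit 85) (nat_lit 5) (nat_lit 347) (nat_lit 294) (nat_lit 139)) (XT.lf (nat_lit 0) (nat_lit 7374599250) (nat_lit 304) (nat_lit 8500757879) (nat_lit 380) (nat_lit 12736612365) (nat_lit 80) (nat_lit 5) (nat_lit 84) (nat_lit 5) (nat_lit 85) (nat_lit 5) (nat_lit 348) (nat_lit 294) (nat_lit 138)))) (XT.nd (nat_lit 156) (nat_lit 380) (nat_lit 0) (XT.nd (nat_lit 78) (nat_lit 228) (nat_lit 0) (XT.lf (nat_lit 0) (nat_lit 21007901167) (nat_lit 380) (nat_lit 7496798420) (nat_lit 76) (nat_lit 678758911) (nat_lit 80) (nat_lit 5) (nat_lit 85) (nat_lit 5) (nat_lit 81) (nat_lit 5) (nat_lit 349) (nat_lit 294) (nat_lit 137)) (XT.lf (nat_lit 0) (nat_lit 6694598416) (nat_lit 228) (nat_lit 19742939357) (nat_lit 304) (nat_lit 3330264923) (nat_lit 77) (nat_lit 5)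 (nat_lit 80) (nat_lit 5) (nat_lit 81) (nat_lit 5) (nat_lit 350) (nat_lit 294) (nat_lit 136))) (XT.nd (nat_lit 78) (nat_lit 304) (nat_lit 0) (XT.lf (nat_lit 0) (nat_lit 1699062418) (nat_lit 304) (nat_lit 8926597785) (nat_lit 76) (nat_lit 19741409688) (nat_lit 76) (nat_lit 5) (nat_lit 80) (nat_lit 5) (nat_lit 77) (nat_lit 5) (nat_lit 351) (nat_lit 294) (nat_lit 135)) (XT.lf (nat_lit 0) (nat_lit 5715294285) (nat_lit 304) (nat_lit 1146759540) (nat_lit 380) (nat_lit 24119784179) (nat_lit 72) (nat_lit 5) (nat_lit 76) (nat_lit 5) (nat_lit 77) (nat_lit 5) (nat_lit 352) (nat_lit 294) (nat_lit 134))))) (XT.nd (nat_lit 234) (nat_lit 532) (nat_lit 0) (XT.nd (nat_lit 78) (nat_lit 228) (nat_lit 0) (XT.lf (nat_lit 0) (nat_lit 12348631624) (nat_lit 380) (nat_lit 10724359693) (nat_lit 76) (nat_lit 8537000506) (nat_lit 72) (nat_lit 5) (nat_lit 77) (nat_lit 5) (nat_lit 73) (nat_lit 5) (nat_lit 353) (nat_lit 294)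 (nat_lit 133)) (XT.nd (nat_lit 78) (nat_lit 0) (nat_lit 0) (XT.lf (nat_lit 0) (nat_lit 4319525541) (nat_lit 228) (nat_lit 13728143484) (nat_lit 304) (nat_lit 14207888823) (nat_lit 69) (nat_lit 5) (nat_lit 72) (nat_lit 5) (nat_lit 73) (nat_lit 5) (nat_lit 354) (nat_lit 294) (nat_lit 132)) (XT.lf (nat_lit 0) (nat_lit 20027139960) (nat_lit 228) (nat_lit 3993893530) (nat_lit 304) (nat_lit 8896360042) (nat_lit 69) (nat_lit 5) (nat_lit 72) (nat_lit 5) (nat_lit 73) (nat_lit 5) (nat_lit 355) (nat_lit 294) (nat_lit 131)))) (XT.nd (nat_lit 156) (nat_lit 228) (nat_lit 0) (XT.nd (nat_lit 78) (nat_lit 76) (nat_lit 0) (XT.lf (nat_lit 0) (nat_lit 2592160101) (nat_lit 228) (nat_lit 27659524763) (nat_lit 304) (nat_lit 3345060104) (nat_lit 66) (nat_lit 5) (nat_lit 69) (nat_lit 5) (nat_lit 70) (nat_lit 5) (nat_lit 356) (nat_lit 294) (nat_lit 130)) (XT.lf (nat_lit 0) (nat_lit 2492677937) (nat_lit 304) (nat_lit 15560289588)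 (nat_lit 76) (nat_lit 16237842218) (nat_lit 65) (nat_lit 5) (nat_lit 69) (nat_lit 5) (nat_lit 66) (nat_lit 5) (nat_lit 357) (nat_lit 294) (nat_lit 129))) (XT.nd (nat_lit 78) (nat_lit 0) (nat_lit 0) (XT.lf (nat_lit 0) (nat_lit 313180300) (nat_lit 228) (nat_lit 8123487657) (nat_lit 304) (nat_lit 26568087339) (nat_lit 62) (nat_lit 5) (nat_lit 65) (nat_lit 5) (nat_lit 66) (nat_lit 5) (nat_lit 358) (nat_lit 294) (nat_lit 128)) (XT.lf (nat_lit 0) (nat_lit 14733271088) (nat_lit 304) (nat_lit 18782552651) (nat_lit 76) (nat_lit 2219069571) (nat_lit 62) (nat_lit 5) (nat_lit 66) (nat_lit 5) (nat_lit 63) (nat_lit 5) (nat_lit 359) (nat_lit 294) (nat_lit 127))))))))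
noncomputable def xc185 : XT := (XT.nd (nat_lit 2184) (nat_lit 608) (nat_lit 0) (XT.nd (nat_lit 1092) (nat_lit 1064) (nat_lit 0) (XT.nd (nat_lit 546) (nat_lit 608) (nat_lit 0) (XT.nd (nat_lit 234) (nat_lit 456) (nat_lit 0) (XT.nd (nat_lit 78) (nat_lit 228) (nat_lit 0) (XT.lf (nat_lit 0) (nat_lit 21294722804) (nat_lit 304) (nat_lit 2483673487) (nat_lit 76) (nat_lit 12706263470) (nat_lit 62) (nat_lit 5) (nat_lit 66) (nat_lit 5) (nat_lit 63) (nat_lit 5) (nat_lit 360) (nat_lit 294) (nat_lit 126)) (XT.nd (nat_lit 78) (nat_lit 0) (nat_lit 0) (XT.lf (nat_lit 0) (nat_lit 14581938307) (nat_lit 228) (nat_lit 13606900685) (nat_lit 304) (nat_lit 9064008316) (nat_lit 59) (nat_lit 5) (nat_lit 62) (nat_lit 5) (nat_lit 63) (nat_lit 5) (nat_lit 361) (nat_lit 294) (nat_lit 125)) (XT.lf (nat_lit 0) (nat_lit 32203717912) (nat_lit 228) (nat_lit 3106853549) (nat_lit 304) (nat_lit 2732887888) (nat_lit 59) (nat_lit 5)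 (nat_lit 62) (nat_lit 5) (nat_lit 63) (nat_lit 5) (nat_lit 362) (nat_lit 294) (nat_lit 124)))) (XT.nd (nat_lit 156) (nat_lit 228) (nat_lit 0) (XT.nd (nat_lit 78) (nat_lit 0) (nat_lit 0) (XT.lf (nat_lit 0) (nat_lit 3897871897) (nat_lit 228) (nat_lit 27247715639) (nat_lit 76) (nat_lit 7705603491) (nat_lit 56) (nat_lit 5) (nat_lit 59) (nat_lit 5) (nat_lit 57) (nat_lit 5) (nat_lit 363) (nat_lit 294) (nat_lit 123)) (XT.lf (nat_lit 0) (nat_lit 10758771217) (nat_lit 228) (nat_lit 10056734117) (nat_lit 76) (nat_lit 18864255648) (nat_lit 56) (nat_lit 5) (nat_lit 59) (nat_lit 5) (nat_lit 57) (nat_lit 5) (nat_lit 364) (nat_lit 294) (nat_lit 122))) (XT.nd (nat_lit 78) (nat_lit 0) (nat_lit 0) (XT.lf (nat_lit 0) (nat_lit 7795648350) (nat_lit 228) (nat_lit 10100737508) (nat_lit 304) (nat_lit 22634677880) (nat_lit 53) (nat_lit 5) (nat_lit 56) (nat_lit 5) (nat_lit 57) (nat_lit 5) (nat_lit 365) (nat_lit 294) (nat_lit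 121)) (XT.lf (nat_lit 0) (nat_lit 25355665357) (nat_lit 304) (nat_lit 15031586781) (nat_lit 76) (nat_lit 1017429634) (nat_lit 53) (nat_lit 5) (nat_lit 57) (nat_lit 5) (nat_lit 54) (nat_lit 5) (nat_lit 366) (nat_lit 294) (nat_lit 120))))) (XT.nd (nat_lit 234) (nat_lit 380) (nat_lit 0) (XT.nd (nat_lit 78) (nat_lit 76) (nat_lit 0) (XT.lf (nat_lit 0) (nat_lit 3158690240) (nat_lit 152) (nat_lit 30006505797) (nat_lit 228) (nat_lit 9135520345) (nat_lit 51) (nat_lit 5) (nat_lit 53) (nat_lit 5) (nat_lit 54) (nat_lit 5) (nat_lit 367) (nat_lit 294) (nat_lit 119)) (XT.nd (nat_lit 78) (nat_lit 76) (nat_lit 0) (XT.lf (nat_lit 0) (nat_lit 22196573530) (nat_lit 152) (nat_lit 19160384489) (nat_lit 228) (nat_lit 1862237806) (nat_lit 51) (nat_lit 5) (nat_lit 53) (nat_lit 5) (nat_lit 54) (nat_lit 5) (nat_lit 368) (nat_lit 294) (nat_lit 118)) (XT.lf (nat_lit 0) (nat_lit 5515625188) (nat_lit 228) (nat_lit 2419878385)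 (nat_lit 76) (nat_lit 36228217893) (nat_lit 50) (nat_lit 5) (nat_lit 53) (nat_lit 5) (nat_lit 51) (nat_lit 5) (nat_lit 369) (nat_lit 294) (nat_lit 117)))) (XT.nd (nat_lit 156) (nat_lit 152) (nat_lit 0) (XT.nd (nat_lit 78) (nat_lit 0) (nat_lit 0) (XT.lf (nat_lit 0) (nat_lit 13274261100) (nat_lit 304) (nat_lit 28118614269) (nat_lit 76) (nat_lit 3737250354) (nat_lit 47) (nat_lit 5) (nat_lit 51) (nat_lit 5) (nat_lit 48) (nat_lit 5) (nat_lit 370) (nat_lit 294) (nat_lit 116)) (XT.lf (nat_lit 0) (nat_lit 21365270085) (nat_lit 304) (nat_lit 9134133926) (nat_lit 76) (nat_lit 15623131593) (nat_lit 47) (nat_lit 5) (nat_lit 51) (nat_lit 5) (nat_lit 48) (nat_lit 5) (nat_lit 371) (nat_lit 294) (nat_lit 115))) (XT.nd (nat_lit 78) (nat_lit 0) (nat_lit 0) (XT.lf (nat_lit 0) (nat_lit 10621333791) (nat_lit 152) (nat_lit 19176246816) (nat_lit 228) (nat_lit 17344181896) (nat_lit 45) (nat_lit 5) (nat_lit 47) (nat_lit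 5) (nat_lit 48) (nat_lit 5) (nat_lit 372) (nat_lit 294) (nat_lit 114)) (XT.lf (nat_lit 0) (nat_lit 31150955754) (nat_lit 152) (nat_lit 7420661508) (nat_lit 228) (nat_lit 9617288046) (nat_lit 45) (nat_lit 5) (nat_lit 47) (nat_lit 5) (nat_lit 48) (nat_lit 5) (nat_lit 373) (nat_lit 294) (nat_lit 113)))))) (XT.nd (nat_lit 546) (nat_lit 532) (nat_lit 0) (XT.nd (nat_lit 234) (nat_lit 304) (nat_lit 0) (XT.nd (nat_lit 78) (nat_lit 76) (nat_lit 0) (XT.lf (nat_lit 0) (nat_lit 3037552565) (nat_lit 152) (nat_lit 44642181404) (nat_lit 228) (nat_lit 1585604412) (nat_lit 43) (nat_lit 5) (nat_lit 45) (nat_lit 5) (nat_lit 46) (nat_lit 5) (nat_lit 374) (nat_lit 294) (nat_lit 112)) (XT.nd (nat_lit 78) (nat_lit 0) (nat_lit 0) (XT.lf (nat_lit 0) (nat_lit 6800377301) (nat_lit 228) (nat_lit 26449455700) (nat_lit 76) (nat_lit 17114989634) (nat_lit 42) (nat_lit 5) (nat_lit 45) (nat_lit 5) (nat_lit 43) (nat_lit 5) (nat_lit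 375) (nat_lit 294) (nat_lit 111)) (XT.lf (nat_lit 0) (nat_lit 15402778479) (nat_lit 228) (nat_lit 6098987918) (nat_lit 76) (nat_lit 29995154379) (nat_lit 42) (nat_lit 5) (nat_lit 45) (nat_lit 5) (nat_lit 43) (nat_lit 5) (nat_lit 376) (nat_lit 294) (nat_lit 110)))) (XT.nd (nat_lit 156) (nat_lit 152) (nat_lit 0) (XT.nd (nat_lit 78) (nat_lit 0) (nat_lit 0) (XT.lf (nat_lit 0) (nat_lit 15152317583) (nat_lit 152) (nat_lit 9253392398) (nat_lit 228) (nat_lit 28252999689) (nat_lit 40) (nat_lit 5) (nat_lit 42) (nat_lit 5) (nat_lit 43) (nat_lit 5) (nat_lit 377) (nat_lit 294) (nat_lit 109)) (XT.lf (nat_lit 0) (nat_lit 33770075203) (nat_lit 228) (nat_lit 16725626205) (nat_lit 76) (nat_lit 3356911960) (nat_lit 40) (nat_lit 5) (nat_lit 43) (nat_lit 5) (nat_lit 41) (nat_lit 5) (nat_lit 378) (nat_lit 294) (nat_lit 108))) (XT.nd (nat_lit 78) (nat_lit 0) (nat_lit 0) (XT.lf (nat_lit 0) (nat_lit 4672911217) (nat_lit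 152) (nat_lit 38875915641) (nat_lit 228) (nat_lit 11529505122) (nat_lit 38) (nat_lit 5) (nat_lit 40) (nat_lit 5) (nat_lit 41) (nat_lit 5) (nat_lit 379) (nat_lit 294) (nat_lit 107)) (XT.lf (nat_lit 0) (nat_lit 27051095850) (nat_lit 152) (nat_lit 26735700158) (nat_lit 228) (nat_lit 2549051920) (nat_lit 38) (nat_lit 5) (nat_lit 40) (nat_lit 5) (nat_lit 41) (nat_lit 5) (nat_lit 380) (nat_lit 294) (nat_lit 106))))) (XT.nd (nat_lit 234) (nat_lit 304) (nat_lit 0) (XT.nd (nat_lit 78) (nat_lit 152) (nat_lit 0) (XT.lf (nat_lit 0) (nat_lit 6567074744) (nat_lit 228) (nat_lit 7599953709) (nat_lit 76) (nat_lit 43462219366) (nat_lit 37) (nat_lit 5) (nat_lit 40) (nat_lit 5) (nat_lit 38) (nat_lit 5) (nat_lit 381) (nat_lit 294) (nat_lit 105)) (XT.nd (nat_lit 78) (nat_lit 0) (nat_lit 0) (XT.lf (nat_lit 0) (nat_lit 14997883050) (nat_lit 152) (nat_lit 1048841353) (nat_lit 228) (nat_lit 42909731286) (nat_lit 35) (nat_lit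 5) (nat_lit 37) (nat_lit 5) (nat_lit 38) (nat_lit 5) (nat_lit 382) (nat_lit 294) (nat_lit 104)) (XT.lf (nat_lit 0) (nat_lit 26005190738) (nat_lit 228) (nat_lit 22017241116) (nat_lit 76) (nat_lit 12295216392) (nat_lit 35) (nat_lit 5) (nat_lit 38) (nat_lit 5) (nat_lit 36) (nat_lit 5) (nat_lit 383) (nat_lit 294) (nat_lit 103)))) (XT.nd (nat_lit 156) (nat_lit 152) (nat_lit 0) (XT.nd (nat_lit 78) (nat_lit 0) (nat_lit 0) (XT.lf (nat_lit 0) (nat_lit 578427762) (nat_lit 152) (nat_lit 35697133669) (nat_lit 228) (nat_lit 25443721865) (nat_lit 33) (nat_lit 5) (nat_lit 35) (nat_lit 5) (nat_lit 36) (nat_lit 5) (nat_lit 384) (nat_lit 294) (nat_lit 102)) (XT.lf (nat_lit 0) (nat_lit 24298540444) (nat_lit 152) (nat_lit 22775075021) (nat_lit 228) (nat_lit 16082765961) (nat_lit 33) (nat_lit 5) (nat_lit 35) (nat_lit 5) (nat_lit 36) (nat_lit 5) (nat_lit 385) (nat_lit 294) (nat_lit 101))) (XT.nd (nat_lit 78) (nat_lit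 152) (nat_lit 0) (XT.lf (nat_lit 0) (nat_lit 48725636971) (nat_lit 152) (nat_lit 9467295755) (nat_lit 228) (nat_lit 6443741284) (nat_lit 33) (nat_lit 5) (nat_lit 35) (nat_lit 5) (nat_lit 36) (nat_lit 5) (nat_lit 386) (nat_lit 294) (nat_lit 100)) (XT.lf (nat_lit 0) (nat_lit 3531001038) (nat_lit 152) (nat_lit 58360896736) (nat_lit 76) (nat_lit 4265037612) (nat_lit 31) (nat_lit 5) (nat_lit 33) (nat_lit 5) (nat_lit 32) (nat_lit 5) (nat_lit 387) (nat_lit 294) (nat_lit 99))))))) (XT.nd (nat_lit 33384) (nat_lit 0) (nat_lit 13300) (XT.nd (nat_lit 546) (nat_lit 304) (nat_lit 0) (XT.nd (nat_lit 234) (nat_lit 152) (nat_lit 0) (XT.nd (nat_lit 78) (nat_lit 152) (nat_lit 0) (XT.lf (nat_lit 0) (nat_lit 13928857310) (nat_lit 152) (nat_lit 35341177524) (nat_lit 76) (nat_lit 18443255313) (nat_lit 31) (nat_lit 5) (nat_lit 33) (nat_lit 5) (nat_lit 32) (nat_lit 5) (nat_lit 388) (nat_lit 294) (nat_lit 98)) (XT.nd (nat_lit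 78) (nat_lit 152) (nat_lit 0) (XT.lf (nat_lit 0) (nat_lit 24636113182) (nat_lit 152) (nat_lit 11635288566) (nat_lit 76) (nat_lit 33045010915) (nat_lit 31) (nat_lit 5) (nat_lit 33) (nat_lit 5) (nat_lit 32) (nat_lit 5) (nat_lit 389) (nat_lit 294) (nat_lit 97)) (XT.lf (nat_lit 0) (nat_lit 13031781007) (nat_lit 152) (nat_lit 22755612950) (nat_lit 228) (nat_lit 35176551679) (nat_lit 29) (nat_lit 5) (nat_lit 31) (nat_lit 5) (nat_lit 32) (nat_lit 5) (nat_lit 390) (nat_lit 294) (nat_lit 96)))) (XT.nd (nat_lit 156) (nat_lit 152) (nat_lit 0) (XT.nd (nat_lit 78) (nat_lit 0) (nat_lit 0) (XT.lf (nat_lit 0) (nat_lit 38673123727) (nat_lit 152) (nat_lit 8715151660) (nat_lit 228) (nat_lit 25269178316) (nat_lit 29) (nat_lit 5) (nat_lit 31) (nat_lit 5) (nat_lit 32) (nat_lit 5) (nat_lit 391) (nat_lit 294) (nat_lit 95)) (XT.lf (nat_lit 0) (nat_lit 59390044823) (nat_lit 228) (nat_lit 9377481295) (nat_lit 76) (nat_lit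 5632655987) (nat_lit 29) (nat_lit 5) (nat_lit 32) (nat_lit 5) (nat_lit 30) (nat_lit 4) (nat_lit 392) (nat_lit 294) (nat_lit 94))) (XT.nd (nat_lit 78) (nat_lit 76) (nat_lit 0) (XT.lf (nat_lit 0) (nat_lit 16193211997) (nat_lit 76) (nat_lit 55798294749) (nat_lit 152) (nat_lit 4196497347) (nat_lit 28) (nat_lit 5) (nat_lit 29) (nat_lit 5) (nat_lit 30) (nat_lit 4) (nat_lit 393) (nat_lit 294) (nat_lit 93)) (XT.lf (nat_lit 0) (nat_lit 6899425705) (nat_lit 152) (nat_lit 35375095666) (nat_lit 76) (nat_lit 35750138579) (nat_lit 27) (nat_lit 5) (nat_lit 29) (nat_lit 5) (nat_lit 28) (nat_lit 5) (nat_lit 394) (nat_lit 294) (nat_lit 92))))) (XT.nd (nat_lit 234) (nat_lit 152) (nat_lit 0) (XT.nd (nat_lit 78) (nat_lit 152) (nat_lit 0) (XT.lf (nat_lit 0) (nat_lit 18241644948) (nat_lit 152) (nat_lit 10062306370) (nat_lit 76) (nat_lit 51611285601) (nat_lit 27) (nat_lit 5) (nat_lit 29) (nat_lit 5) (nat_lit 28) (nat_lit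 5) (nat_lit 395) (nat_lit 294) (nat_lit 91)) (XT.nd (nat_lit 78) (nat_lit 0) (nat_lit 0) (XT.lf (nat_lit 0) (nat_lit 16324584506) (nat_lit 152) (nat_lit 13754297222) (nat_lit 228) (nat_lit 51779007751) (nat_lit 25) (nat_lit 5) (nat_lit 27) (nat_lit 5) (nat_lit 28) (nat_lit 5) (nat_lit 396) (nat_lit 294) (nat_lit 90)) (XT.lf (nat_lit 0) (nat_lit 42383532406) (nat_lit 228) (nat_lit 40163116297) (nat_lit 76) (nat_lit 1308804799) (nat_lit 25) (nat_lit 5) (nat_lit 28) (nat_lit 5) (nat_lit 26) (nat_lit 4) (nat_lit 397) (nat_lit 294) (nat_lit 89)))) (XT.nd (nat_lit 156) (nat_lit 76) (nat_lit 0) (XT.nd (nat_lit 78) (nat_lit 76) (nat_lit 0) (XT.lf (nat_lit 0) (nat_lit 55191406610) (nat_lit 228) (nat_lit 14171736320) (nat_lit 76) (nat_lit 16545779761) (nat_lit 25) (nat_lit 5) (nat_lit 28) (nat_lit 5) (nat_lit 26) (nat_lit 4) (nat_lit 398) (nat_lit 294) (nat_lit 88)) (XT.lf (nat_lit 0) (nat_lit 12846440925)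 (nat_lit 76) (nat_lit 55658527893) (nat_lit 152) (nat_lit 19515384328) (nat_lit 24) (nat_lit 5) (nat_lit 25) (nat_lit 5) (nat_lit 26) (nat_lit 4) (nat_lit 399) (nat_lit 294) (nat_lit 87))) (XT.nd (nat_lit 78) (nat_lit 76) (nat_lit 0) (XT.lf (nat_lit 0) (nat_lit 40962081258) (nat_lit 76) (nat_lit 41396952115) (nat_lit 152) (nat_lit 7831860999) (nat_lit 24) (nat_lit 5) (nat_lit 25) (nat_lit 5) (nat_lit 26) (nat_lit 4) (nat_lit 400) (nat_lit 294) (nat_lit 86)) (XT.lf (nat_lit 0) (nat_lit 4118195889) (nat_lit 152) (nat_lit 22549279183) (nat_lit 76) (nat_lit 65757924810) (nat_lit 23) (nat_lit 5) (nat_lit 25) (nat_lit 5) (nat_lit 24) (nat_lit 5) (nat_lit 401) (nat_lit 294) (nat_lit 85)))))) (XT.nd (nat_lit 546) (nat_lit 912) (nat_lit 0) (XT.nd (nat_lit 234) (nat_lit 0) (nat_lit 76) (XT.nd (nat_lit 78) (nat_lit 0) (nat_lit 0) (XT.lf (nat_lit 0) (nat_lit 3892870825) (nat_lit 1140) (nat_lit 1012495117)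 (nat_lit 1140) (nat_lit 1012495117) (nat_lit 210) (nat_lit 3) (nat_lit 225) (nat_lit 3) (nat_lit 225) (nat_lit 5) (nat_lit 295) (nat_lit 295) (nat_lit 190)) (XT.nd (nat_lit 78) (nat_lit 0) (nat_lit 76) (XT.lf (nat_lit 76) (nat_lit 3433367209) (nat_lit 0) (nat_lit 4963868425) (nat_lit 1140) (nat_lit 3600610608) (nat_lit 211) (nat_lit 5) (nat_lit 210) (nat_lit 3) (nat_lit 225) (nat_lit 5) (nat_lit 296) (nat_lit 295) (nat_lit 189)) (XT.lf (nat_lit 0) (nat_lit 9029971221) (nat_lit 1064) (nat_lit 3077834816) (nat_lit 1140) (nat_lit 56963412) (nat_lit 211) (nat_lit 5) (nat_lit 225) (nat_lit 5) (nat_lit 226) (nat_lit 5) (nat_lit 297) (nat_lit 295) (nat_lit 188)))) (XT.nd (nat_lit 156) (nat_lit 0) (nat_lit 76) (XT.nd (nat_lit 78) (nat_lit 0) (nat_lit 0) (XT.lf (nat_lit 76) (nat_lit 2564474125) (nat_lit 0) (nat_lit 7173511203) (nat_lit 1140) (nat_lit 2597047747) (nat_lit 212) (nat_lit 5) (nat_lit 211) (nat_lit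 5) (nat_lit 226) (nat_lit 5) (nat_lit 298) (nat_lit 295) (nat_lit 187)) (XT.lf (nat_lit 76) (nat_lit 8429411781) (nat_lit 0) (nat_lit 2051822328) (nat_lit 1140) (nat_lit 2028771658) (nat_lit 212) (nat_lit 5) (nat_lit 211) (nat_lit 5) (nat_lit 226) (nat_lit 5) (nat_lit 299) (nat_lit 295) (nat_lit 186))) (XT.nd (nat_lit 78) (nat_lit 0) (nat_lit 0) (XT.lf (nat_lit 76) (nat_lit 1773657655) (nat_lit 0) (nat_lit 9504639021) (nat_lit 1140) (nat_lit 1411005849) (nat_lit 213) (nat_lit 5) (nat_lit 212) (nat_lit 5) (nat_lit 227) (nat_lit 5) (nat_lit 300) (nat_lit 295) (nat_lit 185)) (XT.lf (nat_lit 76) (nat_lit 7856527735) (nat_lit 0) (nat_lit 4287931333) (nat_lit 1140) (nat_lit 728183262) (nat_lit 213) (nat_lit 5) (nat_lit 212) (nat_lit 5) (nat_lit 227) (nat_lit 5) (nat_lit 301) (nat_lit 295) (nat_lit 184))))) (XT.nd (nat_lit 234) (nat_lit 0) (nat_lit 76) (XT.nd (nat_lit 78) (nat_lit 1140) (nat_lit 0) (XT.lf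 (nat_lit 76) (nat_lit 1060467370) (nat_lit 0) (nat_lit 11981158964) (nat_lit 1140) (nat_lit 19724598) (nat_lit 214) (nat_lit 5) (nat_lit 213) (nat_lit 5) (nat_lit 228) (nat_lit 5) (nat_lit 302) (nat_lit 295) (nat_lit 183)) (XT.nd (nat_lit 78) (nat_lit 0) (nat_lit 0) (XT.lf (nat_lit 0) (nat_lit 774324644) (nat_lit 1140) (nat_lit 5892230496) (nat_lit 1216) (nat_lit 6586633275) (nat_lit 198) (nat_lit 5) (nat_lit 213) (nat_lit 5) (nat_lit 214) (nat_lit 5) (nat_lit 303) (nat_lit 295) (nat_lit 182)) (XT.lf (nat_lit 76) (nat_lit 397119204) (nat_lit 0) (nat_lit 1183528171) (nat_lit 1216) (nat_lit 11870479908) (nat_lit 199) (nat_lit 5) (nat_lit 198) (nat_lit 5) (nat_lit 214) (nat_lit 5) (nat_lit 304) (nat_lit 295) (nat_lit 181)))) (XT.nd (nat_lit 156) (nat_lit 0) (nat_lit 76) (XT.nd (nat_lit 78) (nat_lit 0) (nat_lit 0) (XT.lf (nat_lit 0) (nat_lit 2499574596) (nat_lit 1140) (nat_lit 6711302658) (nat_lit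 1216) (nat_lit 4441491683) (nat_lit 199) (nat_lit 5) (nat_lit 214) (nat_lit 5) (nat_lit 215) (nat_lit 5) (nat_lit 305) (nat_lit 295) (nat_lit 180)) (XT.lf (nat_lit 0) (nat_lit 3443627660) (nat_lit 1140) (nat_lit 200245800) (nat_lit 1216) (nat_lit 10215864206) (nat_lit 199) (nat_lit 5) (nat_lit 214) (nat_lit 5) (nat_lit 215) (nat_lit 5) (nat_lit 306) (nat_lit 295) (nat_lit 179))) (XT.nd (nat_lit 78) (nat_lit 0) (nat_lit 0) (XT.lf (nat_lit 0) (nat_lit 4486702324) (nat_lit 1140) (nat_lit 7467088206) (nat_lit 1216) (nat_lit 2117432012) (nat_lit 200) (nat_lit 5) (nat_lit 215) (nat_lit 5) (nat_lit 216) (nat_lit 5) (nat_lit 307) (nat_lit 295) (nat_lit 178)) (XT.lf (nat_lit 0) (nat_lit 5585782540) (nat_lit 1140) (nat_lit 718609264) (nat_lit 1216) (nat_lit 7983934375) (nat_lit 200) (nat_lit 5) (nat_lit 215) (nat_lit 5) (nat_lit 216) (nat_lit 5) (nat_lit 308) (nat_lit 295) (nat_lit 177))))))))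
noncomputable def xc186 : XT := (XT.nd (nat_lit 2106) (nat_lit 4028) (nat_lit 0) (XT.nd (nat_lit 1014) (nat_lit 3268) (nat_lit 0) (XT.nd (nat_lit 468) (nat_lit 2432) (nat_lit 0) (XT.nd (nat_lit 234) (nat_lit 988) (nat_lit 0) (XT.nd (nat_lit 78) (nat_lit 0) (nat_lit 76) (XT.lf (nat_lit 76) (nat_lit 6346189501) (nat_lit 0) (nat_lit 419632853) (nat_lit 1216) (nat_lit 7744696118) (nat_lit 201) (nat_lit 5) (nat_lit 200) (nat_lit 5) (nat_lit 216) (nat_lit 5) (nat_lit 309) (nat_lit 295) (nat_lit 176)) (XT.nd (nat_lit 78) (nat_lit 0) (nat_lit 0) (XT.lf (nat_lit 0) (nat_lit 8030118338) (nat_lit 1140) (nat_lit 1166096797) (nat_lit 1216) (nat_lit 5541710467) (nat_lit 201) (nat_lit 5) (nat_lit 216) (nat_lit 5) (nat_lit 217) (nat_lit 5) (nat_lit 310) (nat_lit 295) (nat_lit 175)) (XT.lf (nat_lit 76) (nat_lit 6147897162) (nat_lit 0) (nat_lit 3235363616) (nat_lit 1216) (nat_lit 5587380930) (nat_lit 202) (nat_lit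 5) (nat_lit 201) (nat_lit 5) (nat_lit 217) (nat_lit 5) (nat_lit 311) (nat_lit 295) (nat_lit 174)))) (XT.nd (nat_lit 78) (nat_lit 1140) (nat_lit 0) (XT.lf (nat_lit 0) (nat_lit 10804757815) (nat_lit 1140) (nat_lit 1543102731) (nat_lit 76) (nat_lit 2861659818) (nat_lit 202) (nat_lit 5) (nat_lit 217) (nat_lit 5) (nat_lit 203) (nat_lit 5) (nat_lit 312) (nat_lit 295) (nat_lit 173)) (XT.nd (nat_lit 78) (nat_lit 0) (nat_lit 0) (XT.lf (nat_lit 0) (nat_lit 6030576362) (nat_lit 1140) (nat_lit 6316627657) (nat_lit 1216) (nat_lit 3106025701) (nat_lit 187) (nat_lit 5) (nat_lit 202) (nat_lit 5) (nat_lit 203) (nat_lit 5) (nat_lit 313) (nat_lit 295) (nat_lit 172)) (XT.lf (nat_lit 0) (nat_lit 13853198991) (nat_lit 1140) (nat_lit 86853878) (nat_lit 1216) (nat_lit 1764086689) (nat_lit 187) (nat_lit 5) (nat_lit 202) (nat_lit 5) (nat_lit 203) (nat_lit 5) (nat_lit 314) (nat_lit 295) (nat_lit 171))))) (XT.nd (nat_lit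 234) (nat_lit 1064) (nat_lit 0) (XT.nd (nat_lit 78) (nat_lit 684) (nat_lit 0) (XT.lf (nat_lit 0) (nat_lit 5994072110) (nat_lit 684) (nat_lit 9693974834) (nat_lit 760) (nat_lit 271321650) (nat_lit 178) (nat_lit 5) (nat_lit 187) (nat_lit 5) (nat_lit 188) (nat_lit 5) (nat_lit 315) (nat_lit 295) (nat_lit 170)) (XT.nd (nat_lit 78) (nat_lit 608) (nat_lit 0) (XT.lf (nat_lit 0) (nat_lit 1250257366) (nat_lit 760) (nat_lit 2132637332) (nat_lit 76) (nat_lit 12838744430) (nat_lit 177) (nat_lit 5) (nat_lit 187) (nat_lit 5) (nat_lit 178) (nat_lit 5) (nat_lit 316) (nat_lit 295) (nat_lit 169)) (XT.lf (nat_lit 0) (nat_lit 2889995603) (nat_lit 684) (nat_lit 10480489911) (nat_lit 76) (nat_lit 3118884338) (nat_lit 169) (nat_lit 5) (nat_lit 178) (nat_lit 5) (nat_lit 170) (nat_lit 5) (nat_lit 317) (nat_lit 295) (nat_lit 168)))) (XT.nd (nat_lit 156) (nat_lit 532) (nat_lit 0) (XT.nd (nat_lit 78) (nat_lit 532) (nat_lit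 0) (XT.lf (nat_lit 0) (nat_lit 4623717475) (nat_lit 684) (nat_lit 2369880112) (nat_lit 76) (nat_lit 9770202447) (nat_lit 169) (nat_lit 5) (nat_lit 178) (nat_lit 5) (nat_lit 170) (nat_lit 5) (nat_lit 318) (nat_lit 295) (nat_lit 167)) (XT.lf (nat_lit 0) (nat_lit 6093194603) (nat_lit 532) (nat_lit 364681118) (nat_lit 608) (nat_lit 10587145611) (nat_lit 162) (nat_lit 5) (nat_lit 169) (nat_lit 5) (nat_lit 170) (nat_lit 5) (nat_lit 319) (nat_lit 295) (nat_lit 166))) (XT.nd (nat_lit 78) (nat_lit 532) (nat_lit 0) (XT.lf (nat_lit 0) (nat_lit 8423412755) (nat_lit 608) (nat_lit 2547553431) (nat_lit 76) (nat_lit 6361433095) (nat_lit 162) (nat_lit 5) (nat_lit 170) (nat_lit 5) (nat_lit 163) (nat_lit 5) (nat_lit 320) (nat_lit 295) (nat_lit 165)) (XT.lf (nat_lit 0) (nat_lit 6216871662) (nat_lit 532) (nat_lit 4284763524) (nat_lit 608) (nat_lit 7125162128) (nat_lit 155) (nat_lit 5) (nat_lit 162) (nat_lit 5) (nat_lit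 163) (nat_lit 5) (nat_lit 321) (nat_lit 295) (nat_lit 164)))))) (XT.nd (nat_lit 546) (nat_lit 1748) (nat_lit 0) (XT.nd (nat_lit 234) (nat_lit 1064) (nat_lit 0) (XT.nd (nat_lit 78) (nat_lit 456) (nat_lit 0) (XT.lf (nat_lit 0) (nat_lit 12683732581) (nat_lit 608) (nat_lit 2667947737) (nat_lit 76) (nat_lit 2577111145) (nat_lit 155) (nat_lit 5) (nat_lit 163) (nat_lit 5) (nat_lit 156) (nat_lit 5) (nat_lit 322) (nat_lit 295) (nat_lit 163)) (XT.nd (nat_lit 78) (nat_lit 0) (nat_lit 0) (XT.lf (nat_lit 0) (nat_lit 6409346124) (nat_lit 456) (nat_lit 8616792409) (nat_lit 532) (nat_lit 3210871264) (nat_lit 149) (nat_lit 5) (nat_lit 155) (nat_lit 5) (nat_lit 156) (nat_lit 5) (nat_lit 323) (nat_lit 295) (nat_lit 162)) (XT.lf (nat_lit 0) (nat_lit 15804153711) (nat_lit 456) (nat_lit 1652592021) (nat_lit 532) (nat_lit 1097200526) (nat_lit 149) (nat_lit 5) (nat_lit 155) (nat_lit 5) (nat_lit 156) (nat_lit 5) (nat_lit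 324) (nat_lit 295) (nat_lit 161)))) (XT.nd (nat_lit 156) (nat_lit 456) (nat_lit 0) (XT.nd (nat_lit 78) (nat_lit 0) (nat_lit 0) (XT.lf (nat_lit 0) (nat_lit 1168281785) (nat_lit 608) (nat_lit 12220623198) (nat_lit 76) (nat_lit 5487899107) (nat_lit 141) (nat_lit 5) (nat_lit 149) (nat_lit 5) (nat_lit 142) (nat_lit 5) (nat_lit 325) (nat_lit 295) (nat_lit 160)) (XT.lf (nat_lit 0) (nat_lit 3515397561) (nat_lit 608) (nat_lit 2844888080) (nat_lit 76) (nat_lit 12847673110) (nat_lit 141) (nat_lit 5) (nat_lit 149) (nat_lit 5) (nat_lit 142) (nat_lit 5) (nat_lit 326) (nat_lit 295) (nat_lit 159))) (XT.nd (nat_lit 78) (nat_lit 0) (nat_lit 0) (XT.lf (nat_lit 0) (nat_lit 6000294325) (nat_lit 532) (nat_lit 12618198834) (nat_lit 76) (nat_lit 928542262) (nat_lit 135) (nat_lit 5) (nat_lit 142) (nat_lit 5) (nat_lit 136) (nat_lit 5) (nat_lit 327) (nat_lit 295) (nat_lit 158)) (XT.lf (nat_lit 0) (nat_lit 8643441260) (nat_lit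 532) (nat_lit 2914041537) (nat_lit 76) (nat_lit 8336298646) (nat_lit 135) (nat_lit 5) (nat_lit 142) (nat_lit 5) (nat_lit 136) (nat_lit 5) (nat_lit 328) (nat_lit 295) (nat_lit 157))))) (XT.nd (nat_lit 234) (nat_lit 912) (nat_lit 0) (XT.nd (nat_lit 78) (nat_lit 380) (nat_lit 0) (XT.lf (nat_lit 0) (nat_lit 7212811882) (nat_lit 456) (nat_lit 4214363825) (nat_lit 532) (nat_lit 8821923258) (nat_lit 129) (nat_lit 5) (nat_lit 135) (nat_lit 5) (nat_lit 136) (nat_lit 5) (nat_lit 329) (nat_lit 295) (nat_lit 156)) (XT.nd (nat_lit 78) (nat_lit 380) (nat_lit 0) (XT.lf (nat_lit 0) (nat_lit 14348427280) (nat_lit 532) (nat_lit 2952791391) (nat_lit 76) (nat_lit 3312244870) (nat_lit 129) (nat_lit 5) (nat_lit 136) (nat_lit 5) (nat_lit 130) (nat_lit 5) (nat_lit 330) (nat_lit 295) (nat_lit 155)) (XT.lf (nat_lit 0) (nat_lit 7529359558) (nat_lit 380) (nat_lit 9934384818) (nat_lit 456) (nat_lit 3521829297) (nat_lit 124)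 (nat_lit 5) (nat_lit 129) (nat_lit 5) (nat_lit 130) (nat_lit 5) (nat_lit 331) (nat_lit 295) (nat_lit 154)))) (XT.nd (nat_lit 156) (nat_lit 380) (nat_lit 0) (XT.nd (nat_lit 78) (nat_lit 532) (nat_lit 0) (XT.lf (nat_lit 0) (nat_lit 18377544910) (nat_lit 380) (nat_lit 2317255695) (nat_lit 456) (nat_lit 673385357) (nat_lit 124) (nat_lit 5) (nat_lit 129) (nat_lit 5) (nat_lit 130) (nat_lit 5) (nat_lit 332) (nat_lit 295) (nat_lit 153)) (XT.lf (nat_lit 0) (nat_lit 2339162004) (nat_lit 532) (nat_lit 13900945167) (nat_lit 76) (nat_lit 5517841566) (nat_lit 117) (nat_lit 5) (nat_lit 124) (nat_lit 5) (nat_lit 118) (nat_lit 5) (nat_lit 333) (nat_lit 295) (nat_lit 152))) (XT.nd (nat_lit 78) (nat_lit 380) (nat_lit 0) (XT.lf (nat_lit 0) (nat_lit 5474712352) (nat_lit 532) (nat_lit 3106000945) (nat_lit 76) (nat_lit 13577112880) (nat_lit 117) (nat_lit 5) (nat_lit 124) (nat_lit 5) (nat_lit 118) (nat_lit 5) (nat_lit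 334) (nat_lit 295) (nat_lit 151)) (XT.lf (nat_lit 0) (nat_lit 8163373899) (nat_lit 380) (nat_lit 612357920) (nat_lit 456) (nat_lit 13791832477) (nat_lit 112) (nat_lit 5) (nat_lit 117) (nat_lit 5) (nat_lit 118) (nat_lit 5) (nat_lit 335) (nat_lit 295) (nat_lit 150))))))) (XT.nd (nat_lit 1092) (nat_lit 1596) (nat_lit 0) (XT.nd (nat_lit 546) (nat_lit 1292) (nat_lit 0) (XT.nd (nat_lit 234) (nat_lit 760) (nat_lit 0) (XT.nd (nat_lit 78) (nat_lit 380) (nat_lit 0) (XT.lf (nat_lit 0) (nat_lit 12273503199) (nat_lit 456) (nat_lit 3236299983) (nat_lit 76) (nat_lit 7476865983) (nat_lit 112) (nat_lit 5) (nat_lit 118) (nat_lit 5) (nat_lit 113) (nat_lit 5) (nat_lit 336) (nat_lit 295) (nat_lit 149)) (XT.nd (nat_lit 78) (nat_lit 0) (nat_lit 0) (XT.lf (nat_lit 0) (nat_lit 8416224629) (nat_lit 380) (nat_lit 7540188736) (nat_lit 456) (nat_lit 7459533709) (nat_lit 107) (nat_lit 5) (nat_lit 112) (nat_lit 5) (nat_lit 113)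 (nat_lit 5) (nat_lit 337) (nat_lit 295) (nat_lit 148)) (XT.lf (nat_lit 0) (nat_lit 19782579235) (nat_lit 456) (nat_lit 3387880581) (nat_lit 76) (nat_lit 686666339) (nat_lit 107) (nat_lit 5) (nat_lit 113) (nat_lit 5) (nat_lit 108) (nat_lit 5) (nat_lit 338) (nat_lit 295) (nat_lit 147)))) (XT.nd (nat_lit 156) (nat_lit 380) (nat_lit 0) (XT.nd (nat_lit 78) (nat_lit 76) (nat_lit 0) (XT.lf (nat_lit 0) (nat_lit 8658192471) (nat_lit 304) (nat_lit 15216753193) (nat_lit 380) (nat_lit 432058195) (nat_lit 103) (nat_lit 5) (nat_lit 107) (nat_lit 5) (nat_lit 108) (nat_lit 5) (nat_lit 339) (nat_lit 295) (nat_lit 146)) (XT.lf (nat_lit 0) (nat_lit 3283047681) (nat_lit 380) (nat_lit 3674977384) (nat_lit 76) (nat_lit 17810557227) (nat_lit 102) (nat_lit 5) (nat_lit 107) (nat_lit 5) (nat_lit 103) (nat_lit 5) (nat_lit 340) (nat_lit 295) (nat_lit 145))) (XT.nd (nat_lit 78) (nat_lit 0) (nat_lit 0) (XT.lf (nat_lit 0) (nat_lit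 7195189989) (nat_lit 456) (nat_lit 16439644307) (nat_lit 76) (nat_lit 1606222665) (nat_lit 97) (nat_lit 5) (nat_lit 103) (nat_lit 5) (nat_lit 98) (nat_lit 5) (nat_lit 341) (nat_lit 295) (nat_lit 144)) (XT.lf (nat_lit 0) (nat_lit 11324909009) (nat_lit 456) (nat_lit 4076738004) (nat_lit 76) (nat_lit 10323057561) (nat_lit 97) (nat_lit 5) (nat_lit 103) (nat_lit 5) (nat_lit 98) (nat_lit 5) (nat_lit 342) (nat_lit 295) (nat_lit 143))))) (XT.nd (nat_lit 234) (nat_lit 684) (nat_lit 0) (XT.nd (nat_lit 78) (nat_lit 304) (nat_lit 0) (XT.lf (nat_lit 0) (nat_lit 8821114878) (nat_lit 304) (nat_lit 6836221600) (nat_lit 380) (nat_lit 10563165562) (nat_lit 93) (nat_lit 5) (nat_lit 97) (nat_lit 5) (nat_lit 98) (nat_lit 5) (nat_lit 343) (nat_lit 295) (nat_lit 142)) (XT.nd (nat_lit 78) (nat_lit 304) (nat_lit 0) (XT.lf (nat_lit 0) (nat_lit 20174503540) (nat_lit 380) (nat_lit 4568119841) (nat_lit 76) (nat_lit 1986911833)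 (nat_lit 93) (nat_lit 5) (nat_lit 98) (nat_lit 5) (nat_lit 94) (nat_lit 5) (nat_lit 344) (nat_lit 295) (nat_lit 141)) (XT.lf (nat_lit 0) (nat_lit 8743092809) (nat_lit 304) (nat_lit 16230093837) (nat_lit 380) (nat_lit 2276277354) (nat_lit 89) (nat_lit 5) (nat_lit 93) (nat_lit 5) (nat_lit 94) (nat_lit 5) (nat_lit 345) (nat_lit 295) (nat_lit 140)))) (XT.nd (nat_lit 156) (nat_lit 304) (nat_lit 0) (XT.nd (nat_lit 78) (nat_lit 304) (nat_lit 0) (XT.lf (nat_lit 0) (nat_lit 2130147987) (nat_lit 380) (nat_lit 5265219330) (nat_lit 76) (nat_lit 20387786564) (nat_lit 88) (nat_lit 5) (nat_lit 93) (nat_lit 5) (nat_lit 89) (nat_lit 5) (nat_lit 346) (nat_lit 295) (nat_lit 139)) (XT.lf (nat_lit 0) (nat_lit 6716672887) (nat_lit 380) (nat_lit 19838345469) (nat_lit 76) (nat_lit 1774354500) (nat_lit 84) (nat_lit 5) (nat_lit 89) (nat_lit 5) (nat_lit 85) (nat_lit 5) (nat_lit 347) (nat_lit 295) (nat_lit 138))) (XT.nd (nat_lit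 78) (nat_lit 304) (nat_lit 0) (XT.lf (nat_lit 0) (nat_lit 11562245074) (nat_lit 380) (nat_lit 6204033347) (nat_lit 76) (nat_lit 11122060562) (nat_lit 84) (nat_lit 5) (nat_lit 89) (nat_lit 5) (nat_lit 85) (nat_lit 5) (nat_lit 348) (nat_lit 295) (nat_lit 137)) (XT.lf (nat_lit 0) (nat_lit 7987606707) (nat_lit 304) (nat_lit 8637053921) (nat_lit 380) (nat_lit 12837273191) (nat_lit 80) (nat_lit 5) (nat_lit 84) (nat_lit 5) (nat_lit 85) (nat_lit 5) (nat_lit 349) (nat_lit 295) (nat_lit 136)))))) (XT.nd (nat_lit 546) (nat_lit 760) (nat_lit 0) (XT.nd (nat_lit 234) (nat_lit 532) (nat_lit 0) (XT.nd (nat_lit 78) (nat_lit 304) (nat_lit 0) (XT.lf (nat_lit 0) (nat_lit 21904336318) (nat_lit 380) (nat_lit 7334301436) (nat_lit 76) (nat_lit 812141007) (nat_lit 80) (nat_lit 5) (nat_lit 85) (nat_lit 5) (nat_lit 81) (nat_lit 5) (nat_lit 350) (nat_lit 295) (nat_lit 135)) (XT.nd (nat_lit 78) (nat_lit 76) (nat_lit 0) (XT.lf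 (nat_lit 0) (nat_lit 7279039257) (nat_lit 228) (nat_lit 20213756847) (nat_lit 304) (nat_lit 3159984912) (nat_lit 77) (nat_lit 5) (nat_lit 80) (nat_lit 5) (nat_lit 81) (nat_lit 5) (nat_lit 351) (nat_lit 295) (nat_lit 134)) (XT.lf (nat_lit 0) (nat_lit 2007233920) (nat_lit 304) (nat_lit 8816666168) (nat_lit 76) (nat_lit 20446285126) (nat_lit 76) (nat_lit 5) (nat_lit 80) (nat_lit 5) (nat_lit 77) (nat_lit 5) (nat_lit 352) (nat_lit 295) (nat_lit 133)))) (XT.nd (nat_lit 156) (nat_lit 228) (nat_lit 0) (XT.nd (nat_lit 78) (nat_lit 0) (nat_lit 0) (XT.lf (nat_lit 0) (nat_lit 6260779433) (nat_lit 304) (nat_lit 1060439755) (nat_lit 380) (nat_lit 24582299325) (nat_lit 72) (nat_lit 5) (nat_lit 76) (nat_lit 5) (nat_lit 77) (nat_lit 5) (nat_lit 353) (nat_lit 295) (nat_lit 132)) (XT.lf (nat_lit 0) (nat_lit 12966143202) (nat_lit 380) (nat_lit 10676536608) (nat_lit 76) (nat_lit 8908029783) (nat_lit 72) (nat_lit 5)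 (nat_lit 77) (nat_lit 5) (nat_lit 73) (nat_lit 5) (nat_lit 354) (nat_lit 295) (nat_lit 131))) (XT.nd (nat_lit 78) (nat_lit 0) (nat_lit 0) (XT.lf (nat_lit 0) (nat_lit 4815042106) (nat_lit 228) (nat_lit 14017431462) (nat_lit 304) (nat_lit 14383284338) (nat_lit 69) (nat_lit 5) (nat_lit 72) (nat_lit 5) (nat_lit 73) (nat_lit 5) (nat_lit 355) (nat_lit 295) (nat_lit 130)) (XT.lf (nat_lit 0) (nat_lit 20983226779) (nat_lit 228) (nat_lit 3994723611) (nat_lit 304) (nat_lit 8919715746) (nat_lit 69) (nat_lit 5) (nat_lit 72) (nat_lit 5) (nat_lit 73) (nat_lit 5) (nat_lit 356) (nat_lit 295) (nat_lit 129))))) (XT.nd (nat_lit 234) (nat_lit 228) (nat_lit 0) (XT.nd (nat_lit 78) (nat_lit 304) (nat_lit 0) (XT.lf (nat_lit 0) (nat_lit 3027760031) (nat_lit 228) (nat_lit 28365429350) (nat_lit 304) (nat_lit 3204283370) (nat_lit 66) (nat_lit 5) (nat_lit 69) (nat_lit 5) (nat_lit 70) (nat_lit 5) (nat_lit 357) (nat_lit 295)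 (nat_lit 128)) (XT.nd (nat_lit 78) (nat_lit 228) (nat_lit 0) (XT.lf (nat_lit 0) (nat_lit 2796995412) (nat_lit 304) (nat_lit 15674970297) (nat_lit 76) (nat_lit 16840535218) (nat_lit 65) (nat_lit 5) (nat_lit 69) (nat_lit 5) (nat_lit 66) (nat_lit 5) (nat_lit 358) (nat_lit 295) (nat_lit 127)) (XT.lf (nat_lit 0) (nat_lit 671251452) (nat_lit 228) (nat_lit 8244719817) (nat_lit 304) (nat_lit 27131997875) (nat_lit 62) (nat_lit 5) (nat_lit 65) (nat_lit 5) (nat_lit 66) (nat_lit 5) (nat_lit 359) (nat_lit 295) (nat_lit 126)))) (XT.nd (nat_lit 156) (nat_lit 228) (nat_lit 0) (XT.nd (nat_lit 78) (nat_lit 0) (nat_lit 0) (XT.lf (nat_lit 0) (nat_lit 15396027040) (nat_lit 304) (nat_lit 19001925081) (nat_lit 76) (nat_lit 2402226697) (nat_lit 62) (nat_lit 5) (nat_lit 66) (nat_lit 5) (nat_lit 63) (nat_lit 5) (nat_lit 360) (nat_lit 295) (nat_lit 125)) (XT.lf (nat_lit 0) (nat_lit 22147892468) (nat_lit 304) (nat_lit 2224101992)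 (nat_lit 76) (nat_lit 13200640733) (nat_lit 62) (nat_lit 5) (nat_lit 66) (nat_lit 5) (nat_lit 63) (nat_lit 5) (nat_lit 361) (nat_lit 295) (nat_lit 124))) (XT.nd (nat_lit 78) (nat_lit 0) (nat_lit 0) (XT.lf (nat_lit 0) (nat_lit 15350202844) (nat_lit 228) (nat_lit 13895566648) (nat_lit 304) (nat_lit 9118194673) (nat_lit 59) (nat_lit 5) (nat_lit 62) (nat_lit 5) (nat_lit 63) (nat_lit 5) (nat_lit 362) (nat_lit 295) (nat_lit 123)) (XT.lf (nat_lit 0) (nat_lit 33491000700) (nat_lit 228) (nat_lit 3083999876) (nat_lit 304) (nat_lit 2603482395) (nat_lit 59) (nat_lit 5) (nat_lit 62) (nat_lit 5) (nat_lit 63) (nat_lit 5) (nat_lit 363) (nat_lit 295) (nat_lit 122))))))))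
noncomputable def xc187 : XT := (XT.nd (nat_lit 2184) (nat_lit 380) (nat_lit 0) (XT.nd (nat_lit 1092) (nat_lit 988) (nat_lit 0) (XT.nd (nat_lit 546) (nat_lit 608) (nat_lit 0) (XT.nd (nat_lit 234) (nat_lit 228) (nat_lit 0) (XT.nd (nat_lit 78) (nat_lit 228) (nat_lit 0) (XT.lf (nat_lit 0) (nat_lit 4220269057) (nat_lit 228) (nat_lit 27737802106) (nat_lit 76) (nat_lit 8052372245) (nat_lit 56) (nat_lit 5) (nat_lit 59) (nat_lit 5) (nat_lit 57) (nat_lit 5) (nat_lit 364) (nat_lit 295) (nat_lit 121)) (XT.nd (nat_lit 78) (nat_lit 228) (nat_lit 0) (XT.lf (nat_lit 0) (nat_lit 11281011055) (nat_lit 228) (nat_lit 10040625459) (nat_lit 76) (nat_lit 19542416957) (nat_lit 56) (nat_lit 5) (nat_lit 59) (nat_lit 5) (nat_lit 57) (nat_lit 5) (nat_lit 365) (nat_lit 295) (nat_lit 120)) (XT.lf (nat_lit 0) (nat_lit 8344212692) (nat_lit 228) (nat_lit 10285756484) (nat_lit 304) (nat_lit 23111013064) (nat_lit 53) (nat_lit 5)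 (nat_lit 56) (nat_lit 5) (nat_lit 57) (nat_lit 5) (nat_lit 366) (nat_lit 295) (nat_lit 119)))) (XT.nd (nat_lit 156) (nat_lit 76) (nat_lit 0) (XT.nd (nat_lit 78) (nat_lit 152) (nat_lit 0) (XT.lf (nat_lit 0) (nat_lit 26308399453) (nat_lit 304) (nat_lit 15172268381) (nat_lit 76) (nat_lit 1160283090) (nat_lit 53) (nat_lit 5) (nat_lit 57) (nat_lit 5) (nat_lit 54) (nat_lit 5) (nat_lit 367) (nat_lit 295) (nat_lit 118)) (XT.lf (nat_lit 0) (nat_lit 3560675127) (nat_lit 152) (nat_lit 30788900052) (nat_lit 228) (nat_lit 9214373804) (nat_lit 51) (nat_lit 5) (nat_lit 53) (nat_lit 5) (nat_lit 54) (nat_lit 5) (nat_lit 368) (nat_lit 295) (nat_lit 117))) (XT.nd (nat_lit 78) (nat_lit 76) (nat_lit 0) (XT.lf (nat_lit 0) (nat_lit 23160746639) (nat_lit 152) (nat_lit 19620826199) (nat_lit 228) (nat_lit 1728578580) (nat_lit 51) (nat_lit 5) (nat_lit 53) (nat_lit 5) (nat_lit 54) (nat_lit 5) (nat_lit 369) (nat_lit 295) (nat_lit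 116)) (XT.lf (nat_lit 0) (nat_lit 5861509495) (nat_lit 228) (nat_lit 2199198678) (nat_lit 76) (nat_lit 37422415290) (nat_lit 50) (nat_lit 5) (nat_lit 53) (nat_lit 5) (nat_lit 51) (nat_lit 5) (nat_lit 370) (nat_lit 295) (nat_lit 115))))) (XT.nd (nat_lit 234) (nat_lit 228) (nat_lit 0) (XT.nd (nat_lit 78) (nat_lit 152) (nat_lit 0) (XT.lf (nat_lit 0) (nat_lit 13851522098) (nat_lit 304) (nat_lit 28667419901) (nat_lit 76) (nat_lit 3959622152) (nat_lit 47) (nat_lit 5) (nat_lit 51) (nat_lit 5) (nat_lit 48) (nat_lit 5) (nat_lit 371) (nat_lit 295) (nat_lit 114)) (XT.nd (nat_lit 78) (nat_lit 152) (nat_lit 0) (XT.lf (nat_lit 0) (nat_lit 22180046794) (nat_lit 304) (nat_lit 9121990180) (nat_lit 76) (nat_lit 16198868538) (nat_lit 47) (nat_lit 5) (nat_lit 51) (nat_lit 5) (nat_lit 48) (nat_lit 5) (nat_lit 372) (nat_lit 295) (nat_lit 113)) (XT.lf (nat_lit 0) (nat_lit 11223336002) (nat_lit 152) (nat_lit 19639651802)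 (nat_lit 228) (nat_lit 17687794246) (nat_lit 45) (nat_lit 5) (nat_lit 47) (nat_lit 5) (nat_lit 48) (nat_lit 5) (nat_lit 373) (nat_lit 295) (nat_lit 112)))) (XT.nd (nat_lit 156) (nat_lit 76) (nat_lit 0) (XT.nd (nat_lit 78) (nat_lit 152) (nat_lit 0) (XT.lf (nat_lit 0) (nat_lit 32360593356) (nat_lit 152) (nat_lit 7534657646) (nat_lit 228) (nat_lit 9734240565) (nat_lit 45) (nat_lit 5) (nat_lit 47) (nat_lit 5) (nat_lit 48) (nat_lit 5) (nat_lit 374) (nat_lit 295) (nat_lit 111)) (XT.lf (nat_lit 0) (nat_lit 3405088092) (nat_lit 152) (nat_lit 45870344791) (nat_lit 228) (nat_lit 1462822613) (nat_lit 43) (nat_lit 5) (nat_lit 45) (nat_lit 5) (nat_lit 46) (nat_lit 5) (nat_lit 375) (nat_lit 295) (nat_lit 110))) (XT.nd (nat_lit 78) (nat_lit 0) (nat_lit 0) (XT.lf (nat_lit 0) (nat_lit 7166549582) (nat_lit 228) (nat_lit 26971274829) (nat_lit 76) (nat_lit 17732999058) (nat_lit 42) (nat_lit 5) (nat_lit 45) (nat_lit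 5) (nat_lit 43) (nat_lit 5) (nat_lit 376) (nat_lit 295) (nat_lit 109)) (XT.lf (nat_lit 0) (nat_lit 16022299660) (nat_lit 228) (nat_lit 6018205573) (nat_lit 76) (nat_lit 30996523316) (nat_lit 42) (nat_lit 5) (nat_lit 45) (nat_lit 5) (nat_lit 43) (nat_lit 5) (nat_lit 377) (nat_lit 295) (nat_lit 108)))))) (XT.nd (nat_lit 546) (nat_lit 456) (nat_lit 0) (XT.nd (nat_lit 234) (nat_lit 228) (nat_lit 0) (XT.nd (nat_lit 78) (nat_lit 152) (nat_lit 0) (XT.lf (nat_lit 0) (nat_lit 15868053289) (nat_lit 152) (nat_lit 9425190739) (nat_lit 228) (nat_lit 28940491568) (nat_lit 40) (nat_lit 5) (nat_lit 42) (nat_lit 5) (nat_lit 43) (nat_lit 5) (nat_lit 378) (nat_lit 295) (nat_lit 107)) (XT.nd (nat_lit 78) (nat_lit 152) (nat_lit 0) (XT.lf (nat_lit 0) (nat_lit 34935002503) (nat_lit 228) (nat_lit 16970225578) (nat_lit 76) (nat_lit 3558336625) (nat_lit 40) (nat_lit 5) (nat_lit 43) (nat_lit 5) (nat_lit 41) (nat_lit 5) (nat_lit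 379) (nat_lit 295) (nat_lit 106)) (XT.lf (nat_lit 0) (nat_lit 5067746698) (nat_lit 152) (nat_lit 39937395756) (nat_lit 228) (nat_lit 11720973758) (nat_lit 38) (nat_lit 5) (nat_lit 40) (nat_lit 5) (nat_lit 41) (nat_lit 5) (nat_lit 380) (nat_lit 295) (nat_lit 105)))) (XT.nd (nat_lit 156) (nat_lit 152) (nat_lit 0) (XT.nd (nat_lit 78) (nat_lit 76) (nat_lit 0) (XT.lf (nat_lit 0) (nat_lit 28109859933) (nat_lit 152) (nat_lit 27436026158) (nat_lit 228) (nat_lit 2475604528) (nat_lit 38) (nat_lit 5) (nat_lit 40) (nat_lit 5) (nat_lit 41) (nat_lit 5) (nat_lit 381) (nat_lit 295) (nat_lit 104)) (XT.lf (nat_lit 0) (nat_lit 6906799114) (nat_lit 228) (nat_lit 7585017523) (nat_lit 76) (nat_lit 44861963006) (nat_lit 37) (nat_lit 5) (nat_lit 40) (nat_lit 5) (nat_lit 38) (nat_lit 5) (nat_lit 382) (nat_lit 295) (nat_lit 103))) (XT.nd (nat_lit 78) (nat_lit 0) (nat_lit 0) (XT.lf (nat_lit 0) (nat_lit 15688372626) (nat_lit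 152) (nat_lit 980621317) (nat_lit 228) (nat_lit 44051867007) (nat_lit 35) (nat_lit 5) (nat_lit 37) (nat_lit 5) (nat_lit 38) (nat_lit 5) (nat_lit 383) (nat_lit 295) (nat_lit 102)) (XT.lf (nat_lit 0) (nat_lit 26923041647) (nat_lit 228) (nat_lit 22440978486) (nat_lit 76) (nat_lit 12758966145) (nat_lit 35) (nat_lit 5) (nat_lit 38) (nat_lit 5) (nat_lit 36) (nat_lit 5) (nat_lit 384) (nat_lit 295) (nat_lit 101))))) (XT.nd (nat_lit 234) (nat_lit 304) (nat_lit 0) (XT.nd (nat_lit 78) (nat_lit 0) (nat_lit 0) (XT.lf (nat_lit 0) (nat_lit 830239088) (nat_lit 152) (nat_lit 36669527593) (nat_lit 228) (nat_lit 26066958167) (nat_lit 33) (nat_lit 5) (nat_lit 35) (nat_lit 5) (nat_lit 36) (nat_lit 5) (nat_lit 385) (nat_lit 295) (nat_lit 100)) (XT.nd (nat_lit 78) (nat_lit 0) (nat_lit 0) (XT.lf (nat_lit 0) (nat_lit 25255126261) (nat_lit 152) (nat_lit 23362676703) (nat_lit 228) (nat_lit 16429253450) (nat_lit 33) (nat_lit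 5) (nat_lit 35) (nat_lit 5) (nat_lit 36) (nat_lit 5) (nat_lit 386) (nat_lit 295) (nat_lit 99)) (XT.lf (nat_lit 0) (nat_lit 50408405695) (nat_lit 152) (nat_lit 9658449997) (nat_lit 228) (nat_lit 6505019067) (nat_lit 33) (nat_lit 5) (nat_lit 35) (nat_lit 5) (nat_lit 36) (nat_lit 5) (nat_lit 387) (nat_lit 295) (nat_lit 98)))) (XT.nd (nat_lit 156) (nat_lit 152) (nat_lit 0) (XT.nd (nat_lit 78) (nat_lit 0) (nat_lit 0) (XT.lf (nat_lit 0) (nat_lit 3765646975) (nat_lit 152) (nat_lit 59887299427) (nat_lit 76) (nat_lit 4484783329) (nat_lit 31) (nat_lit 5) (nat_lit 33) (nat_lit 5) (nat_lit 32) (nat_lit 5) (nat_lit 388) (nat_lit 295) (nat_lit 97)) (XT.lf (nat_lit 0) (nat_lit 14471689929) (nat_lit 152) (nat_lit 36183525266) (nat_lit 76) (nat_lit 19085673932) (nat_lit 31) (nat_lit 5) (nat_lit 33) (nat_lit 5) (nat_lit 32) (nat_lit 5) (nat_lit 389) (nat_lit 295) (nat_lit 96))) (XT.nd (nat_lit 78) (nat_lit 152)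 (nat_lit 0) (XT.lf (nat_lit 0) (nat_lit 25496523664) (nat_lit 152) (nat_lit 11772805879) (nat_lit 76) (nat_lit 34122886446) (nat_lit 31) (nat_lit 5) (nat_lit 33) (nat_lit 5) (nat_lit 32) (nat_lit 5) (nat_lit 390) (nat_lit 295) (nat_lit 95)) (XT.lf (nat_lit 0) (nat_lit 13632201846) (nat_lit 152) (nat_lit 23348620747) (nat_lit 228) (nat_lit 36108399402) (nat_lit 29) (nat_lit 5) (nat_lit 31) (nat_lit 5) (nat_lit 32) (nat_lit 5) (nat_lit 391) (nat_lit 295) (nat_lit 94))))))) (XT.nd (nat_lit 33462) (nat_lit 0) (nat_lit 13148) (XT.nd (nat_lit 546) (nat_lit 76) (nat_lit 0) (XT.nd (nat_lit 234) (nat_lit 228) (nat_lit 0) (XT.nd (nat_lit 78) (nat_lit 76) (nat_lit 0) (XT.lf (nat_lit 0) (nat_lit 40036683855) (nat_lit 152) (nat_lit 8889557091) (nat_lit 228) (nat_lit 25907400434) (nat_lit 29) (nat_lit 5) (nat_lit 31) (nat_lit 5) (nat_lit 32) (nat_lit 5) (nat_lit 392) (nat_lit 295) (nat_lit 93)) (XT.nd (nat_lit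 78) (nat_lit 76) (nat_lit 0) (XT.lf (nat_lit 0) (nat_lit 61285487981) (nat_lit 228) (nat_lit 9458742064) (nat_lit 76) (nat_lit 5884500207) (nat_lit 29) (nat_lit 5) (nat_lit 32) (nat_lit 5) (nat_lit 30) (nat_lit 4) (nat_lit 393) (nat_lit 295) (nat_lit 92)) (XT.lf (nat_lit 0) (nat_lit 16877110618) (nat_lit 76) (nat_lit 57386474555) (nat_lit 152) (nat_lit 4206645296) (nat_lit 28) (nat_lit 5) (nat_lit 29) (nat_lit 5) (nat_lit 30) (nat_lit 4) (nat_lit 394) (nat_lit 295) (nat_lit 91)))) (XT.nd (nat_lit 156) (nat_lit 152) (nat_lit 0) (XT.nd (nat_lit 78) (nat_lit 0) (nat_lit 0) (XT.lf (nat_lit 0) (nat_lit 7216591322) (nat_lit 152) (nat_lit 36241782151) (nat_lit 76) (nat_lit 36903679553) (nat_lit 27) (nat_lit 5) (nat_lit 29) (nat_lit 5) (nat_lit 28) (nat_lit 5) (nat_lit 395) (nat_lit 295) (nat_lit 90)) (XT.lf (nat_lit 0) (nat_lit 18895867933) (nat_lit 152) (nat_lit 10175276157) (nat_lit 76) (nat_lit 53238300690)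 (nat_lit 27) (nat_lit 5) (nat_lit 29) (nat_lit 5) (nat_lit 28) (nat_lit 5) (nat_lit 396) (nat_lit 295) (nat_lit 89))) (XT.nd (nat_lit 78) (nat_lit 0) (nat_lit 0) (XT.lf (nat_lit 0) (nat_lit 17001369490) (nat_lit 152) (nat_lit 14085534604) (nat_lit 228) (nat_lit 53223513521) (nat_lit 25) (nat_lit 5) (nat_lit 27) (nat_lit 5) (nat_lit 28) (nat_lit 5) (nat_lit 397) (nat_lit 295) (nat_lit 88)) (XT.lf (nat_lit 0) (nat_lit 43758376532) (nat_lit 228) (nat_lit 41184054823) (nat_lit 76) (nat_lit 1425547868) (nat_lit 25) (nat_lit 5) (nat_lit 28) (nat_lit 5) (nat_lit 26) (nat_lit 4) (nat_lit 398) (nat_lit 295) (nat_lit 87))))) (XT.nd (nat_lit 32604) (nat_lit 0) (nat_lit 14136) (XT.nd (nat_lit 78) (nat_lit 76) (nat_lit 0) (XT.lf (nat_lit 0) (nat_lit 56947477114) (nat_lit 228) (nat_lit 14418291358) (nat_lit 76) (nat_lit 17117375411) (nat_lit 25) (nat_lit 5) (nat_lit 28) (nat_lit 5) (nat_lit 26) (nat_lit 4) (nat_lit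 399) (nat_lit 295) (nat_lit 86)) (XT.nd (nat_lit 78) (nat_lit 0) (nat_lit 0) (XT.lf (nat_lit 0) (nat_lit 13408680252) (nat_lit 76) (nat_lit 57250543704) (nat_lit 152) (nat_lit 19998731029) (nat_lit 24) (nat_lit 5) (nat_lit 25) (nat_lit 5) (nat_lit 26) (nat_lit 4) (nat_lit 400) (nat_lit 295) (nat_lit 85)) (XT.lf (nat_lit 0) (nat_lit 42362638939) (nat_lit 76) (nat_lit 42563384926) (nat_lit 152) (nat_lit 7967676218) (nat_lit 24) (nat_lit 5) (nat_lit 25) (nat_lit 5) (nat_lit 26) (nat_lit 4) (nat_lit 401) (nat_lit 295) (nat_lit 84)))) (XT.nd (nat_lit 156) (nat_lit 0) (nat_lit 0) (XT.nd (nat_lit 78) (nat_lit 0) (nat_lit 0) (XT.lf (nat_lit 0) (nat_lit 4466922999) (nat_lit 1140) (nat_lit 807095460) (nat_lit 1140) (nat_lit 807095460) (nat_lit 210) (nat_lit 3) (nat_lit 225) (nat_lit 3) (nat_lit 225) (nat_lit 5) (nat_lit 296) (nat_lit 296) (nat_lit 188)) (XT.lf (nat_lit 76) (nat_lit 4003294216) (nat_lit 0)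 (nat_lit 5538242108) (nat_lit 1140) (nat_lit 2788376730) (nat_lit 211) (nat_lit 5) (nat_lit 210) (nat_lit 3) (nat_lit 225) (nat_lit 5) (nat_lit 297) (nat_lit 296) (nat_lit 187))) (XT.nd (nat_lit 78) (nat_lit 0) (nat_lit 76) (XT.lf (nat_lit 76) (nat_lit 9813461353) (nat_lit 0) (nat_lit 353225650) (nat_lit 1140) (nat_lit 2335985917) (nat_lit 211) (nat_lit 5) (nat_lit 210) (nat_lit 3) (nat_lit 225) (nat_lit 5) (nat_lit 298) (nat_lit 296) (nat_lit 186)) (XT.lf (nat_lit 76) (nat_lit 3121013496) (nat_lit 0) (nat_lit 7751023810) (nat_lit 1140) (nat_lit 1806755298) (nat_lit 212) (nat_lit 5) (nat_lit 211) (nat_lit 5) (nat_lit 226) (nat_lit 5) (nat_lit 299) (nat_lit 296) (nat_lit 185)))))) (XT.nd (nat_lit 546) (nat_lit 0) (nat_lit 152) (XT.nd (nat_lit 234) (nat_lit 0) (nat_lit 76) (XT.nd (nat_lit 78) (nat_lit 1064) (nat_lit 0) (XT.lf (nat_lit 76) (nat_lit 9147930200) (nat_lit 0) (nat_lit 2465131630) (nat_lit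 1140) (nat_lit 1246718419) (nat_lit 212) (nat_lit 5) (nat_lit 211) (nat_lit 5) (nat_lit 226) (nat_lit 5) (nat_lit 300) (nat_lit 296) (nat_lit 184)) (XT.nd (nat_lit 78) (nat_lit 1140) (nat_lit 0) (XT.lf (nat_lit 76) (nat_lit 2316561961) (nat_lit 0) (nat_lit 10095091264) (nat_lit 1140) (nat_lit 633503418) (nat_lit 213) (nat_lit 5) (nat_lit 212) (nat_lit 5) (nat_lit 227) (nat_lit 5) (nat_lit 301) (nat_lit 296) (nat_lit 183)) (XT.lf (nat_lit 0) (nat_lit 45029060) (nat_lit 1140) (nat_lit 4667505965) (nat_lit 1216) (nat_lit 8522171429) (nat_lit 197) (nat_lit 5) (nat_lit 212) (nat_lit 5) (nat_lit 213) (nat_lit 5) (nat_lit 302) (nat_lit 296) (nat_lit 182)))) (XT.nd (nat_lit 156) (nat_lit 0) (nat_lit 0) (XT.nd (nat_lit 78) (nat_lit 0) (nat_lit 0) (XT.lf (nat_lit 0) (nat_lit 739806865) (nat_lit 1140) (nat_lit 11847245128) (nat_lit 1216) (nat_lit 842461509) (nat_lit 198) (nat_lit 5) (nat_lit 213) (nat_lit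 5) (nat_lit 214) (nat_lit 5) (nat_lit 303) (nat_lit 296) (nat_lit 181)) (XT.lf (nat_lit 0) (nat_lit 1535153176) (nat_lit 1140) (nat_lit 5570483188) (nat_lit 1216) (nat_lit 6522153704) (nat_lit 198) (nat_lit 5) (nat_lit 213) (nat_lit 5) (nat_lit 214) (nat_lit 5) (nat_lit 304) (nat_lit 296) (nat_lit 180))) (XT.nd (nat_lit 78) (nat_lit 0) (nat_lit 76) (XT.lf (nat_lit 76) (nat_lit 902659608) (nat_lit 0) (nat_lit 1446267565) (nat_lit 1216) (nat_lit 11483267308) (nat_lit 199) (nat_lit 5) (nat_lit 198) (nat_lit 5) (nat_lit 214) (nat_lit 5) (nat_lit 305) (nat_lit 296) (nat_lit 179)) (XT.lf (nat_lit 0) (nat_lit 3272305590) (nat_lit 1140) (nat_lit 6409459450) (nat_lit 1216) (nat_lit 4358426333) (nat_lit 199) (nat_lit 5) (nat_lit 214) (nat_lit 5) (nat_lit 215) (nat_lit 5) (nat_lit 306) (nat_lit 296) (nat_lit 178))))) (XT.nd (nat_lit 234) (nat_lit 0) (nat_lit 76) (XT.nd (nat_lit 78) (nat_lit 0) (nat_lit 76)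 (XT.lf (nat_lit 76) (nat_lit 287891110) (nat_lit 0) (nat_lit 3939233887) (nat_lit 1216) (nat_lit 10027206601) (nat_lit 200) (nat_lit 5) (nat_lit 199) (nat_lit 5) (nat_lit 215) (nat_lit 5) (nat_lit 307) (nat_lit 296) (nat_lit 177)) (XT.nd (nat_lit 78) (nat_lit 0) (nat_lit 0) (XT.lf (nat_lit 0) (nat_lit 5281926935) (nat_lit 1140) (nat_lit 7185007318) (nat_lit 1216) (nat_lit 2005836799) (nat_lit 200) (nat_lit 5) (nat_lit 215) (nat_lit 5) (nat_lit 216) (nat_lit 5) (nat_lit 308) (nat_lit 296) (nat_lit 176)) (XT.lf (nat_lit 0) (nat_lit 6394738095) (nat_lit 1140) (nat_lit 248814596) (nat_lit 1216) (nat_lit 8053434763) (nat_lit 200) (nat_lit 5) (nat_lit 215) (nat_lit 5) (nat_lit 216) (nat_lit 5) (nat_lit 309) (nat_lit 296) (nat_lit 175)))) (XT.nd (nat_lit 156) (nat_lit 0) (nat_lit 76) (XT.nd (nat_lit 78) (nat_lit 0) (nat_lit 76) (XT.lf (nat_lit 76) (nat_lit 7023110946) (nat_lit 0) (nat_lit 573064005) (nat_lit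 1216) (nat_lit 7330112447) (nat_lit 201) (nat_lit 5) (nat_lit 200) (nat_lit 5) (nat_lit 216) (nat_lit 5) (nat_lit 310) (nat_lit 296) (nat_lit 174)) (XT.lf (nat_lit 0) (nat_lit 8878812243) (nat_lit 1140) (nat_lit 708423148) (nat_lit 1216) (nat_lit 5573890103) (nat_lit 201) (nat_lit 5) (nat_lit 216) (nat_lit 5) (nat_lit 217) (nat_lit 5) (nat_lit 311) (nat_lit 296) (nat_lit 173))) (XT.nd (nat_lit 78) (nat_lit 0) (nat_lit 76) (XT.lf (nat_lit 76) (nat_lit 6820160663) (nat_lit 0) (nat_lit 3439374949) (nat_lit 1216) (nat_lit 5141698382) (nat_lit 202) (nat_lit 5) (nat_lit 201) (nat_lit 5) (nat_lit 217) (nat_lit 5) (nat_lit 312) (nat_lit 296) (nat_lit 172)) (XT.lf (nat_lit 0) (nat_lit 11705355829) (nat_lit 1140) (nat_lit 1096792294) (nat_lit 76) (nat_lit 2845700451) (nat_lit 202) (nat_lit 5) (nat_lit 217) (nat_lit 5) (nat_lit 203) (nat_lit 5) (nat_lit 313) (nat_lit 296) (nat_lit 171))))))))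
noncomputable def xc188 : XT := (XT.nd (nat_lit 2106) (nat_lit 3800) (nat_lit 0) (XT.nd (nat_lit 1014) (nat_lit 2888) (nat_lit 0) (XT.nd (nat_lit 468) (nat_lit 2128) (nat_lit 0) (XT.nd (nat_lit 234) (nat_lit 608) (nat_lit 0) (XT.nd (nat_lit 78) (nat_lit 760) (nat_lit 0) (XT.lf (nat_lit 0) (nat_lit 6699267725) (nat_lit 1140) (nat_lit 6582706517) (nat_lit 1216) (nat_lit 2617277336) (nat_lit 187) (nat_lit 5) (nat_lit 202) (nat_lit 5) (nat_lit 203) (nat_lit 5) (nat_lit 314) (nat_lit 296) (nat_lit 170)) (XT.nd (nat_lit 78) (nat_lit 760) (nat_lit 0) (XT.lf (nat_lit 0) (nat_lit 14742362021) (nat_lit 1140) (nat_lit 163809038) (nat_lit 1216) (nat_lit 1252029545) (nat_lit 187) (nat_lit 5) (nat_lit 202) (nat_lit 5) (nat_lit 203) (nat_lit 5) (nat_lit 315) (nat_lit 296) (nat_lit 169)) (XT.lf (nat_lit 0) (nat_lit 267834701) (nat_lit 760) (nat_lit 9763667779) (nat_lit 76) (nat_lit 6389882754) (nat_lit 177) (nat_lit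 5) (nat_lit 187) (nat_lit 5) (nat_lit 178) (nat_lit 5) (nat_lit 316) (nat_lit 296) (nat_lit 168)))) (XT.nd (nat_lit 78) (nat_lit 608) (nat_lit 0) (XT.lf (nat_lit 0) (nat_lit 1813825965) (nat_lit 760) (nat_lit 1713217183) (nat_lit 76) (nat_lit 13164890776) (nat_lit 177) (nat_lit 5) (nat_lit 187) (nat_lit 5) (nat_lit 178) (nat_lit 5) (nat_lit 317) (nat_lit 296) (nat_lit 167)) (XT.nd (nat_lit 78) (nat_lit 0) (nat_lit 0) (XT.lf (nat_lit 0) (nat_lit 3491682773) (nat_lit 684) (nat_lit 10299875888) (nat_lit 76) (nat_lit 3176486793) (nat_lit 169) (nat_lit 5) (nat_lit 178) (nat_lit 5) (nat_lit 170) (nat_lit 5) (nat_lit 318) (nat_lit 296) (nat_lit 166)) (XT.lf (nat_lit 0) (nat_lit 5262416670) (nat_lit 684) (nat_lit 1960366108) (nat_lit 76) (nat_lit 10028391943) (nat_lit 169) (nat_lit 5) (nat_lit 178) (nat_lit 5) (nat_lit 170) (nat_lit 5) (nat_lit 319) (nat_lit 296) (nat_lit 165))))) (XT.nd (nat_lit 234)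 (nat_lit 1064) (nat_lit 0) (XT.nd (nat_lit 78) (nat_lit 532) (nat_lit 0) (XT.lf (nat_lit 0) (nat_lit 6751888982) (nat_lit 532) (nat_lit 389722562) (nat_lit 608) (nat_lit 10399536477) (nat_lit 162) (nat_lit 5) (nat_lit 169) (nat_lit 5) (nat_lit 170) (nat_lit 5) (nat_lit 320) (nat_lit 296) (nat_lit 164)) (XT.nd (nat_lit 78) (nat_lit 532) (nat_lit 0) (XT.lf (nat_lit 0) (nat_lit 9151711257) (nat_lit 608) (nat_lit 2147030481) (nat_lit 76) (nat_lit 6538852934) (nat_lit 162) (nat_lit 5) (nat_lit 170) (nat_lit 5) (nat_lit 163) (nat_lit 5) (nat_lit 321) (nat_lit 296) (nat_lit 163)) (XT.lf (nat_lit 0) (nat_lit 6875651390) (nat_lit 532) (nat_lit 4407316441) (nat_lit 608) (nat_lit 6858151009) (nat_lit 155) (nat_lit 5) (nat_lit 162) (nat_lit 5) (nat_lit 163) (nat_lit 5) (nat_lit 322) (nat_lit 296) (nat_lit 162)))) (XT.nd (nat_lit 156) (nat_lit 608) (nat_lit 0) (XT.nd (nat_lit 78) (nat_lit 456) (nat_lit 0) (XT.lf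 (nat_lit 0) (nat_lit 13517002974) (nat_lit 608) (nat_lit 2275463458) (nat_lit 76) (nat_lit 2660126521) (nat_lit 155) (nat_lit 5) (nat_lit 163) (nat_lit 5) (nat_lit 156) (nat_lit 5) (nat_lit 323) (nat_lit 296) (nat_lit 161)) (XT.lf (nat_lit 0) (nat_lit 7069516644) (nat_lit 456) (nat_lit 8851474969) (nat_lit 532) (nat_lit 2849340875) (nat_lit 149) (nat_lit 5) (nat_lit 155) (nat_lit 5) (nat_lit 156) (nat_lit 5) (nat_lit 324) (nat_lit 296) (nat_lit 160))) (XT.nd (nat_lit 78) (nat_lit 608) (nat_lit 0) (XT.lf (nat_lit 0) (nat_lit 16732540590) (nat_lit 456) (nat_lit 1679042391) (nat_lit 532) (nat_lit 685595641) (nat_lit 149) (nat_lit 5) (nat_lit 155) (nat_lit 5) (nat_lit 156) (nat_lit 5) (nat_lit 325) (nat_lit 296) (nat_lit 159)) (XT.lf (nat_lit 0) (nat_lit 1631193531) (nat_lit 608) (nat_lit 12115457175) (nat_lit 76) (nat_lit 5683195575) (nat_lit 141) (nat_lit 5) (nat_lit 149) (nat_lit 5) (nat_lit 142)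 (nat_lit 5) (nat_lit 326) (nat_lit 296) (nat_lit 158)))))) (XT.nd (nat_lit 546) (nat_lit 1596) (nat_lit 0) (XT.nd (nat_lit 234) (nat_lit 836) (nat_lit 0) (XT.nd (nat_lit 78) (nat_lit 456) (nat_lit 0) (XT.lf (nat_lit 0) (nat_lit 4036260744) (nat_lit 608) (nat_lit 2472191307) (nat_lit 76) (nat_lit 13262869803) (nat_lit 141) (nat_lit 5) (nat_lit 149) (nat_lit 5) (nat_lit 142) (nat_lit 5) (nat_lit 327) (nat_lit 296) (nat_lit 157)) (XT.nd (nat_lit 78) (nat_lit 0) (nat_lit 0) (XT.lf (nat_lit 0) (nat_lit 6588406301) (nat_lit 532) (nat_lit 12531001699) (nat_lit 76) (nat_lit 1001393813) (nat_lit 135) (nat_lit 5) (nat_lit 142) (nat_lit 5) (nat_lit 136) (nat_lit 5) (nat_lit 328) (nat_lit 296) (nat_lit 156)) (XT.lf (nat_lit 0) (nat_lit 9298961145) (nat_lit 532) (nat_lit 2549285016) (nat_lit 76) (nat_lit 8630072347) (nat_lit 135) (nat_lit 5) (nat_lit 142) (nat_lit 5) (nat_lit 136) (nat_lit 5) (nat_lit 329)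 (nat_lit 296) (nat_lit 155)))) (XT.nd (nat_lit 156) (nat_lit 380) (nat_lit 0) (XT.nd (nat_lit 78) (nat_lit 0) (nat_lit 0) (XT.lf (nat_lit 0) (nat_lit 7876940890) (nat_lit 456) (nat_lit 4282030440) (nat_lit 532) (nat_lit 8685552669) (nat_lit 129) (nat_lit 5) (nat_lit 135) (nat_lit 5) (nat_lit 136) (nat_lit 5) (nat_lit 330) (nat_lit 296) (nat_lit 154)) (XT.lf (nat_lit 0) (nat_lit 15157079352) (nat_lit 532) (nat_lit 2595522990) (nat_lit 76) (nat_lit 3467551629) (nat_lit 129) (nat_lit 5) (nat_lit 136) (nat_lit 5) (nat_lit 130) (nat_lit 5) (nat_lit 331) (nat_lit 296) (nat_lit 153))) (XT.nd (nat_lit 78) (nat_lit 0) (nat_lit 0) (XT.lf (nat_lit 0) (nat_lit 8196721388) (nat_lit 380) (nat_lit 10162362846) (nat_lit 456) (nat_lit 3244557029) (nat_lit 124) (nat_lit 5) (nat_lit 129) (nat_lit 5) (nat_lit 130) (nat_lit 5) (nat_lit 332) (nat_lit 296) (nat_lit 152)) (XT.lf (nat_lit 0) (nat_lit 19357493629) (nat_lit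 380) (nat_lit 2318760243) (nat_lit 456) (nat_lit 321812989) (nat_lit 124) (nat_lit 5) (nat_lit 129) (nat_lit 5) (nat_lit 130) (nat_lit 5) (nat_lit 333) (nat_lit 296) (nat_lit 151))))) (XT.nd (nat_lit 234) (nat_lit 684) (nat_lit 0) (XT.nd (nat_lit 78) (nat_lit 380) (nat_lit 0) (XT.lf (nat_lit 0) (nat_lit 2768101322) (nat_lit 532) (nat_lit 13875678848) (nat_lit 76) (nat_lit 5755817578) (nat_lit 117) (nat_lit 5) (nat_lit 124) (nat_lit 5) (nat_lit 118) (nat_lit 5) (nat_lit 334) (nat_lit 296) (nat_lit 150)) (XT.nd (nat_lit 78) (nat_lit 380) (nat_lit 0) (XT.lf (nat_lit 0) (nat_lit 5987268731) (nat_lit 532) (nat_lit 2769768668) (nat_lit 76) (nat_lit 14054757106) (nat_lit 117) (nat_lit 5) (nat_lit 124) (nat_lit 5) (nat_lit 118) (nat_lit 5) (nat_lit 335) (nat_lit 296) (nat_lit 149)) (XT.lf (nat_lit 0) (nat_lit 8833477496) (nat_lit 380) (nat_lit 547783493) (nat_lit 456) (nat_lit 13852754745) (nat_lit 112)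 (nat_lit 5) (nat_lit 117) (nat_lit 5) (nat_lit 118) (nat_lit 5) (nat_lit 336) (nat_lit 296) (nat_lit 148)))) (XT.nd (nat_lit 156) (nat_lit 304) (nat_lit 0) (XT.nd (nat_lit 78) (nat_lit 380) (nat_lit 0) (XT.lf (nat_lit 0) (nat_lit 12974770950) (nat_lit 456) (nat_lit 2911077768) (nat_lit 76) (nat_lit 7780129832) (nat_lit 112) (nat_lit 5) (nat_lit 118) (nat_lit 5) (nat_lit 113) (nat_lit 5) (nat_lit 337) (nat_lit 296) (nat_lit 147)) (XT.lf (nat_lit 0) (nat_lit 9086882276) (nat_lit 380) (nat_lit 7675605006) (nat_lit 456) (nat_lit 7345826651) (nat_lit 107) (nat_lit 5) (nat_lit 112) (nat_lit 5) (nat_lit 113) (nat_lit 5) (nat_lit 338) (nat_lit 296) (nat_lit 146))) (XT.nd (nat_lit 78) (nat_lit 304) (nat_lit 0) (XT.lf (nat_lit 0) (nat_lit 20694750049) (nat_lit 456) (nat_lit 3074556088) (nat_lit 76) (nat_lit 793691344) (nat_lit 107) (nat_lit 5) (nat_lit 113) (nat_lit 5) (nat_lit 108) (nat_lit 5) (nat_lit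 339) (nat_lit 296) (nat_lit 145)) (XT.lf (nat_lit 0) (nat_lit 9328830911) (nat_lit 304) (nat_lit 15575723978) (nat_lit 380) (nat_lit 121984807) (nat_lit 103) (nat_lit 5) (nat_lit 107) (nat_lit 5) (nat_lit 108) (nat_lit 5) (nat_lit 340) (nat_lit 296) (nat_lit 144))))))) (XT.nd (nat_lit 1092) (nat_lit 1444) (nat_lit 0) (XT.nd (nat_lit 546) (nat_lit 1216) (nat_lit 0) (XT.nd (nat_lit 234) (nat_lit 684) (nat_lit 0) (XT.nd (nat_lit 78) (nat_lit 380) (nat_lit 0) (XT.lf (nat_lit 0) (nat_lit 3689045476) (nat_lit 380) (nat_lit 3379924052) (nat_lit 76) (nat_lit 18433187287) (nat_lit 102) (nat_lit 5) (nat_lit 107) (nat_lit 5) (nat_lit 103) (nat_lit 5) (nat_lit 341) (nat_lit 296) (nat_lit 143)) (XT.nd (nat_lit 78) (nat_lit 0) (nat_lit 0) (XT.lf (nat_lit 0) (nat_lit 7714404271) (nat_lit 456) (nat_lit 16523132951) (nat_lit 76) (nat_lit 1751400442) (nat_lit 97) (nat_lit 5) (nat_lit 103) (nat_lit 5) (nat_lit 98)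 (nat_lit 5) (nat_lit 342) (nat_lit 296) (nat_lit 142)) (XT.lf (nat_lit 0) (nat_lit 11959179175) (nat_lit 456) (nat_lit 3801272489) (nat_lit 76) (nat_lit 10726915401) (nat_lit 97) (nat_lit 5) (nat_lit 103) (nat_lit 5) (nat_lit 98) (nat_lit 5) (nat_lit 343) (nat_lit 296) (nat_lit 141)))) (XT.nd (nat_lit 156) (nat_lit 380) (nat_lit 0) (XT.nd (nat_lit 78) (nat_lit 0) (nat_lit 0) (XT.lf (nat_lit 0) (nat_lit 9479616296) (nat_lit 304) (nat_lit 6937170934) (nat_lit 380) (nat_lit 10581402068) (nat_lit 93) (nat_lit 5) (nat_lit 97) (nat_lit 5) (nat_lit 98) (nat_lit 5) (nat_lit 344) (nat_lit 296) (nat_lit 140)) (XT.lf (nat_lit 0) (nat_lit 21062002423) (nat_lit 380) (nat_lit 4315071452) (nat_lit 76) (nat_lit 2145650470) (nat_lit 93) (nat_lit 5) (nat_lit 98) (nat_lit 5) (nat_lit 94) (nat_lit 5) (nat_lit 345) (nat_lit 296) (nat_lit 139))) (XT.nd (nat_lit 78) (nat_lit 76) (nat_lit 0) (XT.lf (nat_lit 0) (nat_lit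 9391653146) (nat_lit 304) (nat_lit 16608484641) (nat_lit 380) (nat_lit 2058255124) (nat_lit 89) (nat_lit 5) (nat_lit 93) (nat_lit 5) (nat_lit 94) (nat_lit 5) (nat_lit 346) (nat_lit 296) (nat_lit 138)) (XT.lf (nat_lit 0) (nat_lit 2466599611) (nat_lit 380) (nat_lit 5042525065) (nat_lit 76) (nat_lit 21099137825) (nat_lit 88) (nat_lit 5) (nat_lit 93) (nat_lit 5) (nat_lit 89) (nat_lit 5) (nat_lit 347) (nat_lit 296) (nat_lit 137))))) (XT.nd (nat_lit 234) (nat_lit 608) (nat_lit 0) (XT.nd (nat_lit 78) (nat_lit 304) (nat_lit 0) (XT.lf (nat_lit 0) (nat_lit 7187449931) (nat_lit 380) (nat_lit 20049371187) (nat_lit 76) (nat_lit 1934151143) (nat_lit 84) (nat_lit 5) (nat_lit 89) (nat_lit 5) (nat_lit 85) (nat_lit 5) (nat_lit 348) (nat_lit 296) (nat_lit 136)) (XT.nd (nat_lit 78) (nat_lit 304) (nat_lit 0) (XT.lf (nat_lit 0) (nat_lit 12170546269) (nat_lit 380) (nat_lit 6017217798) (nat_lit 76) (nat_lit 11559184523)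 (nat_lit 84) (nat_lit 5) (nat_lit 89) (nat_lit 5) (nat_lit 85) (nat_lit 5) (nat_lit 349) (nat_lit 296) (nat_lit 135)) (XT.lf (nat_lit 0) (nat_lit 8596515218) (nat_lit 304) (nat_lit 8784254242) (nat_lit 380) (nat_lit 12957109509) (nat_lit 80) (nat_lit 5) (nat_lit 84) (nat_lit 5) (nat_lit 85) (nat_lit 5) (nat_lit 350) (nat_lit 296) (nat_lit 134)))) (XT.nd (nat_lit 156) (nat_lit 380) (nat_lit 0) (XT.nd (nat_lit 78) (nat_lit 228) (nat_lit 0) (XT.lf (nat_lit 0) (nat_lit 22812383663) (nat_lit 380) (nat_lit 7189167941) (nat_lit 76) (nat_lit 943036795) (nat_lit 80) (nat_lit 5) (nat_lit 85) (nat_lit 5) (nat_lit 81) (nat_lit 5) (nat_lit 351) (nat_lit 296) (nat_lit 133)) (XT.lf (nat_lit 0) (nat_lit 7858992948) (nat_lit 228) (nat_lit 20705671777) (nat_lit 304) (nat_lit 3000106395) (nat_lit 77) (nat_lit 5) (nat_lit 80) (nat_lit 5) (nat_lit 81) (nat_lit 5) (nat_lit 352) (nat_lit 296) (nat_lit 132))) (XT.nd (nat_lit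 78) (nat_lit 304) (nat_lit 0) (XT.lf (nat_lit 0) (nat_lit 2309886257) (nat_lit 304) (nat_lit 8725119824) (nat_lit 76) (nat_lit 21165841223) (nat_lit 76) (nat_lit 5) (nat_lit 80) (nat_lit 5) (nat_lit 77) (nat_lit 5) (nat_lit 353) (nat_lit 296) (nat_lit 131)) (XT.lf (nat_lit 0) (nat_lit 6801158495) (nat_lit 304) (nat_lit 978460346) (nat_lit 380) (nat_lit 25073676892) (nat_lit 72) (nat_lit 5) (nat_lit 76) (nat_lit 5) (nat_lit 77) (nat_lit 5) (nat_lit 354) (nat_lit 296) (nat_lit 130)))))) (XT.nd (nat_lit 546) (nat_lit 684) (nat_lit 0) (XT.nd (nat_lit 234) (nat_lit 532) (nat_lit 0) (XT.nd (nat_lit 78) (nat_lit 228) (nat_lit 0) (XT.lf (nat_lit 0) (nat_lit 13587998295) (nat_lit 380) (nat_lit 10648492735) (nat_lit 76) (nat_lit 9283593102) (nat_lit 72) (nat_lit 5) (nat_lit 77) (nat_lit 5) (nat_lit 73) (nat_lit 5) (nat_lit 355) (nat_lit 296) (nat_lit 129)) (XT.nd (nat_lit 78) (nat_lit 0) (nat_lit 0) (XT.lf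 (nat_lit 0) (nat_lit 5304418243) (nat_lit 228) (nat_lit 14322433313) (nat_lit 304) (nat_lit 14578341027) (nat_lit 69) (nat_lit 5) (nat_lit 72) (nat_lit 5) (nat_lit 73) (nat_lit 5) (nat_lit 356) (nat_lit 296) (nat_lit 128)) (XT.lf (nat_lit 0) (nat_lit 21947602101) (nat_lit 228) (nat_lit 4002408918) (nat_lit 304) (nat_lit 8957752033) (nat_lit 69) (nat_lit 5) (nat_lit 72) (nat_lit 5) (nat_lit 73) (nat_lit 5) (nat_lit 357) (nat_lit 296) (nat_lit 127)))) (XT.nd (nat_lit 156) (nat_lit 228) (nat_lit 0) (XT.nd (nat_lit 78) (nat_lit 76) (nat_lit 0) (XT.lf (nat_lit 0) (nat_lit 3455886759) (nat_lit 228) (nat_lit 29099622359) (nat_lit 304) (nat_lit 3073125099) (nat_lit 66) (nat_lit 5) (nat_lit 69) (nat_lit 5) (nat_lit 70) (nat_lit 5) (nat_lit 358) (nat_lit 296) (nat_lit 126)) (XT.lf (nat_lit 0) (nat_lit 3097266040) (nat_lit 304) (nat_lit 15813305015) (nat_lit 76) (nat_lit 17454675521) (nat_lit 65) (nat_lit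 5) (nat_lit 69) (nat_lit 5) (nat_lit 66) (nat_lit 5) (nat_lit 359) (nat_lit 296) (nat_lit 125))) (XT.nd (nat_lit 78) (nat_lit 0) (nat_lit 0) (XT.lf (nat_lit 0) (nat_lit 1020049325) (nat_lit 228) (nat_lit 8376619362) (nat_lit 304) (nat_lit 27726208462) (nat_lit 62) (nat_lit 5) (nat_lit 65) (nat_lit 5) (nat_lit 66) (nat_lit 5) (nat_lit 360) (nat_lit 296) (nat_lit 124)) (XT.lf (nat_lit 0) (nat_lit 16065993268) (nat_lit 304) (nat_lit 19247631670) (nat_lit 76) (nat_lit 2584186080) (nat_lit 62) (nat_lit 5) (nat_lit 66) (nat_lit 5) (nat_lit 63) (nat_lit 5) (nat_lit 361) (nat_lit 296) (nat_lit 123))))) (XT.nd (nat_lit 234) (nat_lit 456) (nat_lit 0) (XT.nd (nat_lit 78) (nat_lit 228) (nat_lit 0) (XT.lf (nat_lit 0) (nat_lit 23014353919) (nat_lit 304) (nat_lit 1975921010) (nat_lit 76) (nat_lit 13703351782) (nat_lit 62) (nat_lit 5) (nat_lit 66) (nat_lit 5) (nat_lit 63) (nat_lit 5) (nat_lit 362) (nat_lit 296)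 (nat_lit 122)) (XT.nd (nat_lit 78) (nat_lit 0) (nat_lit 0) (XT.lf (nat_lit 0) (nat_lit 16122525677) (nat_lit 228) (nat_lit 14199754736) (nat_lit 304) (nat_lit 9186505436) (nat_lit 59) (nat_lit 5) (nat_lit 62) (nat_lit 5) (nat_lit 63) (nat_lit 5) (nat_lit 363) (nat_lit 296) (nat_lit 121)) (XT.lf (nat_lit 0) (nat_lit 34798465427) (nat_lit 228) (nat_lit 3067122870) (nat_lit 304) (nat_lit 2482329511) (nat_lit 59) (nat_lit 5) (nat_lit 62) (nat_lit 5) (nat_lit 63) (nat_lit 5) (nat_lit 364) (nat_lit 296) (nat_lit 120)))) (XT.nd (nat_lit 156) (nat_lit 228) (nat_lit 0) (XT.nd (nat_lit 78) (nat_lit 0) (nat_lit 0) (XT.lf (nat_lit 0) (nat_lit 4540543830) (nat_lit 228) (nat_lit 28261382110) (nat_lit 76) (nat_lit 8402908111) (nat_lit 56) (nat_lit 5) (nat_lit 59) (nat_lit 5) (nat_lit 57) (nat_lit 5) (nat_lit 365) (nat_lit 296) (nat_lit 119)) (XT.lf (nat_lit 0) (nat_lit 11807467311) (nat_lit 228) (nat_lit 10042277174)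 (nat_lit 76) (nat_lit 20234480435) (nat_lit 56) (nat_lit 5) (nat_lit 59) (nat_lit 5) (nat_lit 57) (nat_lit 5) (nat_lit 366) (nat_lit 296) (nat_lit 118))) (XT.nd (nat_lit 78) (nat_lit 0) (nat_lit 0) (XT.lf (nat_lit 0) (nat_lit 8891169189) (nat_lit 228) (nat_lit 10483099892) (nat_lit 304) (nat_lit 23613274408) (nat_lit 53) (nat_lit 5) (nat_lit 56) (nat_lit 5) (nat_lit 57) (nat_lit 5) (nat_lit 367) (nat_lit 296) (nat_lit 117)) (XT.lf (nat_lit 0) (nat_lit 27278690305) (nat_lit 304) (nat_lit 15334980966) (nat_lit 76) (nat_lit 1300973915) (nat_lit 53) (nat_lit 5) (nat_lit 57) (nat_lit 5) (nat_lit 54) (nat_lit 5) (nat_lit 368) (nat_lit 296) (nat_lit 116))))))))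
noncomputable def xc189 : XT := (XT.nd (nat_lit 2184) (nat_lit 228) (nat_lit 0) (XT.nd (nat_lit 1092) (nat_lit 836) (nat_lit 0) (XT.nd (nat_lit 546) (nat_lit 532) (nat_lit 0) (XT.nd (nat_lit 234) (nat_lit 380) (nat_lit 0) (XT.nd (nat_lit 78) (nat_lit 76) (nat_lit 0) (XT.lf (nat_lit 0) (nat_lit 3957083636) (nat_lit 152) (nat_lit 31601528389) (nat_lit 228) (nat_lit 9306798844) (nat_lit 51) (nat_lit 5) (nat_lit 53) (nat_lit 5) (nat_lit 54) (nat_lit 5) (nat_lit 369) (nat_lit 296) (nat_lit 115)) (XT.nd (nat_lit 78) (nat_lit 76) (nat_lit 0) (XT.lf (nat_lit 0) (nat_lit 24136722684) (nat_lit 152) (nat_lit 20101646457) (nat_lit 228) (nat_lit 1601789165) (nat_lit 51) (nat_lit 5) (nat_lit 53) (nat_lit 5) (nat_lit 54) (nat_lit 5) (nat_lit 370) (nat_lit 296) (nat_lit 114)) (XT.lf (nat_lit 0) (nat_lit 6207413741) (nat_lit 228) (nat_lit 1988733824) (nat_lit 76) (nat_lit 38646276230) (nat_lit 50) (nat_lit 5) (nat_lit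 53) (nat_lit 5) (nat_lit 51) (nat_lit 5) (nat_lit 371) (nat_lit 296) (nat_lit 113)))) (XT.nd (nat_lit 156) (nat_lit 152) (nat_lit 0) (XT.nd (nat_lit 78) (nat_lit 0) (nat_lit 0) (XT.lf (nat_lit 0) (nat_lit 14435823689) (nat_lit 304) (nat_lit 29249609717) (nat_lit 76) (nat_lit 4182336057) (nat_lit 47) (nat_lit 5) (nat_lit 51) (nat_lit 5) (nat_lit 48) (nat_lit 5) (nat_lit 372) (nat_lit 296) (nat_lit 112)) (XT.lf (nat_lit 0) (nat_lit 23009288905) (nat_lit 304) (nat_lit 9125909322) (nat_lit 76) (nat_lit 16785732886) (nat_lit 47) (nat_lit 5) (nat_lit 51) (nat_lit 5) (nat_lit 48) (nat_lit 5) (nat_lit 373) (nat_lit 296) (nat_lit 111))) (XT.nd (nat_lit 78) (nat_lit 0) (nat_lit 0) (XT.lf (nat_lit 0) (nat_lit 11827132131) (nat_lit 152) (nat_lit 20123381446) (nat_lit 228) (nat_lit 18051859022) (nat_lit 45) (nat_lit 5) (nat_lit 47) (nat_lit 5) (nat_lit 48) (nat_lit 5) (nat_lit 374) (nat_lit 296) (nat_lit 110))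 (XT.lf (nat_lit 0) (nat_lit 33590727708) (nat_lit 152) (nat_lit 7658309113) (nat_lit 228) (nat_lit 9864550256) (nat_lit 45) (nat_lit 5) (nat_lit 47) (nat_lit 5) (nat_lit 48) (nat_lit 5) (nat_lit 375) (nat_lit 296) (nat_lit 109))))) (XT.nd (nat_lit 234) (nat_lit 304) (nat_lit 0) (XT.nd (nat_lit 78) (nat_lit 76) (nat_lit 0) (XT.lf (nat_lit 0) (nat_lit 3767782681) (nat_lit 152) (nat_lit 47141730792) (nat_lit 228) (nat_lit 1346136144) (nat_lit 43) (nat_lit 5) (nat_lit 45) (nat_lit 5) (nat_lit 46) (nat_lit 5) (nat_lit 376) (nat_lit 296) (nat_lit 108)) (XT.nd (nat_lit 78) (nat_lit 0) (nat_lit 0) (XT.lf (nat_lit 0) (nat_lit 7534398328) (nat_lit 228) (nat_lit 27524343187) (nat_lit 76) (nat_lit 18363546608) (nat_lit 42) (nat_lit 5) (nat_lit 45) (nat_lit 5) (nat_lit 43) (nat_lit 5) (nat_lit 377) (nat_lit 296) (nat_lit 107)) (XT.lf (nat_lit 0) (nat_lit 16651368901) (nat_lit 228) (nat_lit 5950140200) (nat_lit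 76) (nat_lit 32022105985) (nat_lit 42) (nat_lit 5) (nat_lit 45) (nat_lit 5) (nat_lit 43) (nat_lit 5) (nat_lit 378) (nat_lit 296) (nat_lit 106)))) (XT.nd (nat_lit 156) (nat_lit 152) (nat_lit 0) (XT.nd (nat_lit 78) (nat_lit 0) (nat_lit 0) (XT.lf (nat_lit 0) (nat_lit 16590269060) (nat_lit 152) (nat_lit 9608216580) (nat_lit 228) (nat_lit 29657798490) (nat_lit 40) (nat_lit 5) (nat_lit 42) (nat_lit 5) (nat_lit 43) (nat_lit 5) (nat_lit 379) (nat_lit 296) (nat_lit 105)) (XT.lf (nat_lit 0) (nat_lit 36126162244) (nat_lit 228) (nat_lit 17236925509) (nat_lit 76) (nat_lit 3760022444) (nat_lit 40) (nat_lit 5) (nat_lit 43) (nat_lit 5) (nat_lit 41) (nat_lit 5) (nat_lit 380) (nat_lit 296) (nat_lit 104))) (XT.nd (nat_lit 78) (nat_lit 0) (nat_lit 0) (XT.lf (nat_lit 0) (nat_lit 5459809397) (nat_lit 152) (nat_lit 41036736070) (nat_lit 228) (nat_lit 11927050592) (nat_lit 38) (nat_lit 5) (nat_lit 40) (nat_lit 5) (nat_lit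 41) (nat_lit 5) (nat_lit 381) (nat_lit 296) (nat_lit 103)) (XT.lf (nat_lit 0) (nat_lit 29186194856) (nat_lit 152) (nat_lit 28163202518) (nat_lit 228) (nat_lit 2408559675) (nat_lit 38) (nat_lit 5) (nat_lit 40) (nat_lit 5) (nat_lit 41) (nat_lit 5) (nat_lit 382) (nat_lit 296) (nat_lit 102)))))) (XT.nd (nat_lit 546) (nat_lit 304) (nat_lit 0) (XT.nd (nat_lit 234) (nat_lit 304) (nat_lit 0) (XT.nd (nat_lit 78) (nat_lit 152) (nat_lit 0) (XT.lf (nat_lit 0) (nat_lit 7248522955) (nat_lit 228) (nat_lit 7583578702) (nat_lit 76) (nat_lit 46298195220) (nat_lit 37) (nat_lit 5) (nat_lit 40) (nat_lit 5) (nat_lit 38) (nat_lit 5) (nat_lit 383) (nat_lit 296) (nat_lit 101)) (XT.nd (nat_lit 78) (nat_lit 0) (nat_lit 0) (XT.lf (nat_lit 0) (nat_lit 16385768158) (nat_lit 152) (nat_lit 916077021) (nat_lit 228) (nat_lit 45236599360) (nat_lit 35) (nat_lit 5) (nat_lit 37) (nat_lit 5) (nat_lit 38) (nat_lit 5) (nat_lit 384) (nat_lit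 296) (nat_lit 100)) (XT.lf (nat_lit 0) (nat_lit 27860523816) (nat_lit 228) (nat_lit 22891020110) (nat_lit 76) (nat_lit 13231181129) (nat_lit 35) (nat_lit 5) (nat_lit 38) (nat_lit 5) (nat_lit 36) (nat_lit 5) (nat_lit 385) (nat_lit 296) (nat_lit 99)))) (XT.nd (nat_lit 156) (nat_lit 152) (nat_lit 0) (XT.nd (nat_lit 78) (nat_lit 0) (nat_lit 0) (XT.lf (nat_lit 0) (nat_lit 1076145876) (nat_lit 152) (nat_lit 37676748791) (nat_lit 228) (nat_lit 26716932456) (nat_lit 33) (nat_lit 5) (nat_lit 35) (nat_lit 5) (nat_lit 36) (nat_lit 5) (nat_lit 386) (nat_lit 296) (nat_lit 98)) (XT.lf (nat_lit 0) (nat_lit 26227342783) (nat_lit 152) (nat_lit 23973397169) (nat_lit 228) (nat_lit 16793942261) (nat_lit 33) (nat_lit 5) (nat_lit 35) (nat_lit 5) (nat_lit 36) (nat_lit 5) (nat_lit 387) (nat_lit 296) (nat_lit 97))) (XT.nd (nat_lit 78) (nat_lit 152) (nat_lit 0) (XT.lf (nat_lit 0) (nat_lit 52128971200) (nat_lit 152) (nat_lit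 9860669677) (nat_lit 228) (nat_lit 6575714501) (nat_lit 33) (nat_lit 5) (nat_lit 35) (nat_lit 5) (nat_lit 36) (nat_lit 5) (nat_lit 388) (nat_lit 296) (nat_lit 96)) (XT.lf (nat_lit 0) (nat_lit 3999943471) (nat_lit 152) (nat_lit 61472377066) (nat_lit 76) (nat_lit 4705852033) (nat_lit 31) (nat_lit 5) (nat_lit 33) (nat_lit 5) (nat_lit 32) (nat_lit 5) (nat_lit 389) (nat_lit 296) (nat_lit 95))))) (XT.nd (nat_lit 234) (nat_lit 152) (nat_lit 0) (XT.nd (nat_lit 78) (nat_lit 152) (nat_lit 0) (XT.lf (nat_lit 0) (nat_lit 15023633915) (nat_lit 152) (nat_lit 37063651079) (nat_lit 76) (nat_lit 19742249202) (nat_lit 31) (nat_lit 5) (nat_lit 33) (nat_lit 5) (nat_lit 32) (nat_lit 5) (nat_lit 390) (nat_lit 296) (nat_lit 94)) (XT.nd (nat_lit 78) (nat_lit 152) (nat_lit 0) (XT.lf (nat_lit 0) (nat_lit 26375781789) (nat_lit 152) (nat_lit 11926592051) (nat_lit 76) (nat_lit 35228131343) (nat_lit 31) (nat_lit 5) (nat_lit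 33) (nat_lit 5) (nat_lit 32) (nat_lit 5) (nat_lit 391) (nat_lit 296) (nat_lit 93)) (XT.lf (nat_lit 0) (nat_lit 14238611024) (nat_lit 152) (nat_lit 23964565662) (nat_lit 228) (nat_lit 37075289023) (nat_lit 29) (nat_lit 5) (nat_lit 31) (nat_lit 5) (nat_lit 32) (nat_lit 5) (nat_lit 392) (nat_lit 296) (nat_lit 92)))) (XT.nd (nat_lit 156) (nat_lit 152) (nat_lit 0) (XT.nd (nat_lit 78) (nat_lit 0) (nat_lit 0) (XT.lf (nat_lit 0) (nat_lit 41429476723) (nat_lit 152) (nat_lit 9074191661) (nat_lit 228) (nat_lit 26571649282) (nat_lit 29) (nat_lit 5) (nat_lit 31) (nat_lit 5) (nat_lit 32) (nat_lit 5) (nat_lit 393) (nat_lit 296) (nat_lit 91)) (XT.lf (nat_lit 0) (nat_lit 63231265188) (nat_lit 228) (nat_lit 9553925129) (nat_lit 76) (nat_lit 6139142990) (nat_lit 29) (nat_lit 5) (nat_lit 32) (nat_lit 5) (nat_lit 30) (nat_lit 4) (nat_lit 394) (nat_lit 296) (nat_lit 90))) (XT.nd (nat_lit 78) (nat_lit 76) (nat_lit 0)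 (XT.lf (nat_lit 0) (nat_lit 17570154318) (nat_lit 76) (nat_lit 59027223248) (nat_lit 152) (nat_lit 4223742034) (nat_lit 28) (nat_lit 5) (nat_lit 29) (nat_lit 5) (nat_lit 30) (nat_lit 4) (nat_lit 395) (nat_lit 296) (nat_lit 89)) (XT.lf (nat_lit 0) (nat_lit 7536946961) (nat_lit 152) (nat_lit 37145638136) (nat_lit 76) (nat_lit 38087174911) (nat_lit 27) (nat_lit 5) (nat_lit 29) (nat_lit 5) (nat_lit 28) (nat_lit 5) (nat_lit 396) (nat_lit 296) (nat_lit 88))))))) (XT.nd (nat_lit 33540) (nat_lit 0) (nat_lit 11020) (XT.nd (nat_lit 32994) (nat_lit 0) (nat_lit 13148) (XT.nd (nat_lit 234) (nat_lit 76) (nat_lit 0) (XT.nd (nat_lit 78) (nat_lit 152) (nat_lit 0) (XT.lf (nat_lit 0) (nat_lit 19563576883) (nat_lit 152) (nat_lit 10302478637) (nat_lit 76) (nat_lit 54909609877) (nat_lit 27) (nat_lit 5) (nat_lit 29) (nat_lit 5) (nat_lit 28) (nat_lit 5) (nat_lit 397) (nat_lit 296) (nat_lit 87)) (XT.nd (nat_lit 78) (nat_lit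 0) (nat_lit 0) (XT.lf (nat_lit 0) (nat_lit 17687720734) (nat_lit 152) (nat_lit 14431381314) (nat_lit 228) (nat_lit 54717603730) (nat_lit 25) (nat_lit 5) (nat_lit 27) (nat_lit 5) (nat_lit 28) (nat_lit 5) (nat_lit 398) (nat_lit 296) (nat_lit 86)) (XT.lf (nat_lit 0) (nat_lit 45168533950) (nat_lit 228) (nat_lit 42246181273) (nat_lit 76) (nat_lit 1541345621) (nat_lit 25) (nat_lit 5) (nat_lit 28) (nat_lit 5) (nat_lit 26) (nat_lit 4) (nat_lit 399) (nat_lit 296) (nat_lit 85)))) (XT.nd (nat_lit 32604) (nat_lit 0) (nat_lit 14136) (XT.nd (nat_lit 78) (nat_lit 76) (nat_lit 0) (XT.lf (nat_lit 0) (nat_lit 58750470477) (nat_lit 228) (nat_lit 14682495249) (nat_lit 76) (nat_lit 17701800865) (nat_lit 25) (nat_lit 5) (nat_lit 28) (nat_lit 5) (nat_lit 26) (nat_lit 4) (nat_lit 400) (nat_lit 296) (nat_lit 84)) (XT.lf (nat_lit 0) (nat_lit 13977635070) (nat_lit 76) (nat_lit 58894782585) (nat_lit 152) (nat_lit 20502439939)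 (nat_lit 24) (nat_lit 5) (nat_lit 25) (nat_lit 5) (nat_lit 26) (nat_lit 4) (nat_lit 401) (nat_lit 296) (nat_lit 83))) (XT.nd (nat_lit 78) (nat_lit 0) (nat_lit 0) (XT.lf (nat_lit 0) (nat_lit 5031947797) (nat_lit 1140) (nat_lit 609068235) (nat_lit 1140) (nat_lit 609068235) (nat_lit 210) (nat_lit 3) (nat_lit 225) (nat_lit 3) (nat_lit 225) (nat_lit 5) (nat_lit 297) (nat_lit 297) (nat_lit 186)) (XT.lf (nat_lit 76) (nat_lit 4563515571) (nat_lit 0) (nat_lit 6105423993) (nat_lit 1140) (nat_lit 2004602078) (nat_lit 211) (nat_lit 5) (nat_lit 210) (nat_lit 3) (nat_lit 225) (nat_lit 5) (nat_lit 298) (nat_lit 297) (nat_lit 185))))) (XT.nd (nat_lit 234) (nat_lit 988) (nat_lit 0) (XT.nd (nat_lit 78) (nat_lit 0) (nat_lit 76) (XT.lf (nat_lit 76) (nat_lit 10535168619) (nat_lit 0) (nat_lit 753176421) (nat_lit 1140) (nat_lit 1563904374) (nat_lit 211) (nat_lit 5) (nat_lit 210) (nat_lit 3) (nat_lit 225) (nat_lit 5)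 (nat_lit 299) (nat_lit 297) (nat_lit 184)) (XT.nd (nat_lit 78) (nat_lit 0) (nat_lit 0) (XT.lf (nat_lit 76) (nat_lit 3666717751) (nat_lit 0) (nat_lit 8325063876) (nat_lit 1140) (nat_lit 1042592531) (nat_lit 212) (nat_lit 5) (nat_lit 211) (nat_lit 5) (nat_lit 226) (nat_lit 5) (nat_lit 300) (nat_lit 297) (nat_lit 183)) (XT.lf (nat_lit 76) (nat_lit 9861274756) (nat_lit 0) (nat_lit 2870648056) (nat_lit 1140) (nat_lit 489590431) (nat_lit 212) (nat_lit 5) (nat_lit 211) (nat_lit 5) (nat_lit 226) (nat_lit 5) (nat_lit 301) (nat_lit 297) (nat_lit 182)))) (XT.nd (nat_lit 156) (nat_lit 0) (nat_lit 76) (XT.nd (nat_lit 78) (nat_lit 0) (nat_lit 0) (XT.lf (nat_lit 0) (nat_lit 117915588) (nat_lit 1140) (nat_lit 10566624549) (nat_lit 1216) (nat_lit 2728536620) (nat_lit 197) (nat_lit 5) (nat_lit 212) (nat_lit 5) (nat_lit 213) (nat_lit 5) (nat_lit 302) (nat_lit 297) (nat_lit 181)) (XT.lf (nat_lit 0) (nat_lit 782002571)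 (nat_lit 1140) (nat_lit 4343884870) (nat_lit 1216) (nat_lit 8482925494) (nat_lit 197) (nat_lit 5) (nat_lit 212) (nat_lit 5) (nat_lit 213) (nat_lit 5) (nat_lit 303) (nat_lit 297) (nat_lit 180))) (XT.nd (nat_lit 78) (nat_lit 0) (nat_lit 0) (XT.lf (nat_lit 0) (nat_lit 1478116404) (nat_lit 1140) (nat_lit 11718668092) (nat_lit 1216) (nat_lit 613290141) (nat_lit 198) (nat_lit 5) (nat_lit 213) (nat_lit 5) (nat_lit 214) (nat_lit 5) (nat_lit 304) (nat_lit 297) (nat_lit 179)) (XT.lf (nat_lit 0) (nat_lit 2276465376) (nat_lit 1140) (nat_lit 5267700218) (nat_lit 1216) (nat_lit 6470784128) (nat_lit 198) (nat_lit 5) (nat_lit 213) (nat_lit 5) (nat_lit 214) (nat_lit 5) (nat_lit 305) (nat_lit 297) (nat_lit 178)))))) (XT.nd (nat_lit 546) (nat_lit 2204) (nat_lit 0) (XT.nd (nat_lit 234) (nat_lit 0) (nat_lit 152) (XT.nd (nat_lit 78) (nat_lit 0) (nat_lit 76) (XT.lf (nat_lit 76) (nat_lit 1395030024) (nat_lit 0) (nat_lit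 1703845005) (nat_lit 1216) (nat_lit 11127108340) (nat_lit 199) (nat_lit 5) (nat_lit 198) (nat_lit 5) (nat_lit 214) (nat_lit 5) (nat_lit 306) (nat_lit 297) (nat_lit 177)) (XT.nd (nat_lit 78) (nat_lit 0) (nat_lit 0) (XT.lf (nat_lit 0) (nat_lit 4028165167) (nat_lit 1140) (nat_lit 6127445667) (nat_lit 1216) (nat_lit 4285286107) (nat_lit 199) (nat_lit 5) (nat_lit 214) (nat_lit 5) (nat_lit 215) (nat_lit 5) (nat_lit 307) (nat_lit 297) (nat_lit 176)) (XT.lf (nat_lit 76) (nat_lit 766175434) (nat_lit 0) (nat_lit 4230812232) (nat_lit 1216) (nat_lit 9664935364) (nat_lit 200) (nat_lit 5) (nat_lit 199) (nat_lit 5) (nat_lit 215) (nat_lit 5) (nat_lit 308) (nat_lit 297) (nat_lit 175)))) (XT.nd (nat_lit 156) (nat_lit 0) (nat_lit 0) (XT.nd (nat_lit 78) (nat_lit 0) (nat_lit 0) (XT.lf (nat_lit 0) (nat_lit 6063085790) (nat_lit 1140) (nat_lit 6923515843) (nat_lit 1216) (nat_lit 1900946230) (nat_lit 200) (nat_lit 5) (nat_lit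 215) (nat_lit 5) (nat_lit 216) (nat_lit 5) (nat_lit 309) (nat_lit 297) (nat_lit 174)) (XT.lf (nat_lit 76) (nat_lit 210985326) (nat_lit 0) (nat_lit 6982187155) (nat_lit 1216) (nat_lit 7925822664) (nat_lit 201) (nat_lit 5) (nat_lit 200) (nat_lit 5) (nat_lit 216) (nat_lit 5) (nat_lit 310) (nat_lit 297) (nat_lit 173))) (XT.nd (nat_lit 78) (nat_lit 0) (nat_lit 76) (XT.lf (nat_lit 76) (nat_lit 7692410892) (nat_lit 0) (nat_lit 723013175) (nat_lit 1216) (nat_lit 6940227382) (nat_lit 201) (nat_lit 5) (nat_lit 200) (nat_lit 5) (nat_lit 216) (nat_lit 5) (nat_lit 311) (nat_lit 297) (nat_lit 172)) (XT.lf (nat_lit 0) (nat_lit 9718077312) (nat_lit 1140) (nat_lit 265299792) (nat_lit 1216) (nat_lit 5614731390) (nat_lit 201) (nat_lit 5) (nat_lit 216) (nat_lit 5) (nat_lit 217) (nat_lit 5) (nat_lit 312) (nat_lit 297) (nat_lit 171))))) (XT.nd (nat_lit 234) (nat_lit 1368) (nat_lit 0) (XT.nd (nat_lit 78) (nat_lit 1064)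 (nat_lit 0) (XT.lf (nat_lit 76) (nat_lit 7484588828) (nat_lit 0) (nat_lit 3643367230) (nat_lit 1216) (nat_lit 4717851514) (nat_lit 202) (nat_lit 5) (nat_lit 201) (nat_lit 5) (nat_lit 217) (nat_lit 5) (nat_lit 313) (nat_lit 297) (nat_lit 170)) (XT.nd (nat_lit 78) (nat_lit 1140) (nat_lit 0) (XT.lf (nat_lit 0) (nat_lit 12599880892) (nat_lit 1140) (nat_lit 665370001) (nat_lit 76) (nat_lit 2835106565) (nat_lit 202) (nat_lit 5) (nat_lit 217) (nat_lit 5) (nat_lit 203) (nat_lit 5) (nat_lit 314) (nat_lit 297) (nat_lit 169)) (XT.lf (nat_lit 0) (nat_lit 7360019603) (nat_lit 1140) (nat_lit 6852371735) (nat_lit 1216) (nat_lit 2147271633) (nat_lit 187) (nat_lit 5) (nat_lit 202) (nat_lit 5) (nat_lit 203) (nat_lit 5) (nat_lit 315) (nat_lit 297) (nat_lit 168)))) (XT.nd (nat_lit 156) (nat_lit 608) (nat_lit 0) (XT.nd (nat_lit 78) (nat_lit 760) (nat_lit 0) (XT.lf (nat_lit 0) (nat_lit 15631015257) (nat_lit 1140) (nat_lit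 238804885) (nat_lit 1216) (nat_lit 757042836) (nat_lit 187) (nat_lit 5) (nat_lit 202) (nat_lit 5) (nat_lit 203) (nat_lit 5) (nat_lit 316) (nat_lit 297) (nat_lit 167)) (XT.lf (nat_lit 0) (nat_lit 786608459) (nat_lit 760) (nat_lit 9587258135) (nat_lit 76) (nat_lit 6524282162) (nat_lit 177) (nat_lit 5) (nat_lit 187) (nat_lit 5) (nat_lit 178) (nat_lit 5) (nat_lit 317) (nat_lit 297) (nat_lit 166))) (XT.nd (nat_lit 78) (nat_lit 608) (nat_lit 0) (XT.lf (nat_lit 0) (nat_lit 2364103576) (nat_lit 760) (nat_lit 1308963526) (nat_lit 76) (nat_lit 13504209272) (nat_lit 177) (nat_lit 5) (nat_lit 187) (nat_lit 5) (nat_lit 178) (nat_lit 5) (nat_lit 318) (nat_lit 297) (nat_lit 165)) (XT.lf (nat_lit 0) (nat_lit 4081858179) (nat_lit 684) (nat_lit 10142260118) (nat_lit 76) (nat_lit 3237881807) (nat_lit 169) (nat_lit 5) (nat_lit 178) (nat_lit 5) (nat_lit 170) (nat_lit 5) (nat_lit 319) (nat_lit 297) (nat_lit 164))))))))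
noncomputable def xc190 : XT := (XT.nd (nat_lit 2184) (nat_lit 3344) (nat_lit 0) (XT.nd (nat_lit 1092) (nat_lit 2660) (nat_lit 0) (XT.nd (nat_lit 546) (nat_lit 1900) (nat_lit 0) (XT.nd (nat_lit 234) (nat_lit 988) (nat_lit 0) (XT.nd (nat_lit 78) (nat_lit 532) (nat_lit 0) (XT.lf (nat_lit 0) (nat_lit 5891575503) (nat_lit 684) (nat_lit 1566155687) (nat_lit 76) (nat_lit 10296331479) (nat_lit 169) (nat_lit 5) (nat_lit 178) (nat_lit 5) (nat_lit 170) (nat_lit 5) (nat_lit 320) (nat_lit 297) (nat_lit 163)) (XT.nd (nat_lit 78) (nat_lit 0) (nat_lit 0) (XT.lf (nat_lit 0) (nat_lit 7403025669) (nat_lit 532) (nat_lit 414705794) (nat_lit 608) (nat_lit 10235300964) (nat_lit 162) (nat_lit 5) (nat_lit 169) (nat_lit 5) (nat_lit 170) (nat_lit 5) (nat_lit 321) (nat_lit 297) (nat_lit 162)) (XT.lf (nat_lit 0) (nat_lit 9874557552) (nat_lit 608) (nat_lit 1761870698) (nat_lit 76) (nat_lit 6722365912) (nat_lit 162) (nat_lit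 5) (nat_lit 170) (nat_lit 5) (nat_lit 163) (nat_lit 5) (nat_lit 322) (nat_lit 297) (nat_lit 161)))) (XT.nd (nat_lit 156) (nat_lit 456) (nat_lit 0) (XT.nd (nat_lit 78) (nat_lit 0) (nat_lit 0) (XT.lf (nat_lit 0) (nat_lit 7527084073) (nat_lit 532) (nat_lit 4533889795) (nat_lit 608) (nat_lit 6610727490) (nat_lit 155) (nat_lit 5) (nat_lit 162) (nat_lit 5) (nat_lit 163) (nat_lit 5) (nat_lit 323) (nat_lit 297) (nat_lit 160)) (XT.lf (nat_lit 0) (nat_lit 14349281293) (nat_lit 608) (nat_lit 1898329387) (nat_lit 76) (nat_lit 2745305037) (nat_lit 155) (nat_lit 5) (nat_lit 163) (nat_lit 5) (nat_lit 156) (nat_lit 5) (nat_lit 324) (nat_lit 297) (nat_lit 159))) (XT.nd (nat_lit 78) (nat_lit 0) (nat_lit 0) (XT.lf (nat_lit 0) (nat_lit 7722633471) (nat_lit 456) (nat_lit 9094565441) (nat_lit 532) (nat_lit 2503247412) (nat_lit 149) (nat_lit 5) (nat_lit 155) (nat_lit 5) (nat_lit 156) (nat_lit 5) (nat_lit 325) (nat_lit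 297) (nat_lit 158)) (XT.lf (nat_lit 0) (nat_lit 17662702563) (nat_lit 456) (nat_lit 1707613879) (nat_lit 532) (nat_lit 287159929) (nat_lit 149) (nat_lit 5) (nat_lit 155) (nat_lit 5) (nat_lit 156) (nat_lit 5) (nat_lit 326) (nat_lit 297) (nat_lit 157))))) (XT.nd (nat_lit 234) (nat_lit 836) (nat_lit 0) (XT.nd (nat_lit 78) (nat_lit 456) (nat_lit 0) (XT.lf (nat_lit 0) (nat_lit 2083431527) (nat_lit 608) (nat_lit 12034218545) (nat_lit 76) (nat_lit 5882590957) (nat_lit 141) (nat_lit 5) (nat_lit 149) (nat_lit 5) (nat_lit 142) (nat_lit 5) (nat_lit 327) (nat_lit 297) (nat_lit 156)) (XT.nd (nat_lit 78) (nat_lit 456) (nat_lit 0) (XT.lf (nat_lit 0) (nat_lit 4548904090) (nat_lit 608) (nat_lit 2114607196) (nat_lit 76) (nat_lit 13688813678) (nat_lit 141) (nat_lit 5) (nat_lit 149) (nat_lit 5) (nat_lit 142) (nat_lit 5) (nat_lit 328) (nat_lit 297) (nat_lit 155)) (XT.lf (nat_lit 0) (nat_lit 7170734847) (nat_lit 532)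 (nat_lit 12467924210) (nat_lit 76) (nat_lit 1073847997) (nat_lit 135) (nat_lit 5) (nat_lit 142) (nat_lit 5) (nat_lit 136) (nat_lit 5) (nat_lit 329) (nat_lit 297) (nat_lit 154)))) (XT.nd (nat_lit 156) (nat_lit 380) (nat_lit 0) (XT.nd (nat_lit 78) (nat_lit 456) (nat_lit 0) (XT.lf (nat_lit 0) (nat_lit 9951402170) (nat_lit 532) (nat_lit 2199542653) (nat_lit 76) (nat_lit 8930151575) (nat_lit 135) (nat_lit 5) (nat_lit 142) (nat_lit 5) (nat_lit 136) (nat_lit 5) (nat_lit 330) (nat_lit 297) (nat_lit 153)) (XT.lf (nat_lit 0) (nat_lit 8535291393) (nat_lit 456) (nat_lit 4355100365) (nat_lit 532) (nat_lit 8568111628) (nat_lit 129) (nat_lit 5) (nat_lit 135) (nat_lit 5) (nat_lit 136) (nat_lit 5) (nat_lit 331) (nat_lit 297) (nat_lit 152))) (XT.nd (nat_lit 78) (nat_lit 380) (nat_lit 0) (XT.lf (nat_lit 0) (nat_lit 15968280801) (nat_lit 532) (nat_lit 2253130274) (nat_lit 76) (nat_lit 3624306441) (nat_lit 129) (nat_lit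 5) (nat_lit 136) (nat_lit 5) (nat_lit 130) (nat_lit 5) (nat_lit 332) (nat_lit 297) (nat_lit 151)) (XT.lf (nat_lit 0) (nat_lit 8858761255) (nat_lit 380) (nat_lit 10401201573) (nat_lit 456) (nat_lit 2980948178) (nat_lit 124) (nat_lit 5) (nat_lit 129) (nat_lit 5) (nat_lit 130) (nat_lit 5) (nat_lit 333) (nat_lit 297) (nat_lit 150)))))) (XT.nd (nat_lit 546) (nat_lit 1368) (nat_lit 0) (XT.nd (nat_lit 234) (nat_lit 760) (nat_lit 0) (XT.nd (nat_lit 78) (nat_lit 456) (nat_lit 0) (XT.lf (nat_lit 0) (nat_lit 18595126) (nat_lit 456) (nat_lit 2305431258) (nat_lit 76) (nat_lit 20323453232) (nat_lit 123) (nat_lit 5) (nat_lit 129) (nat_lit 5) (nat_lit 124) (nat_lit 5) (nat_lit 334) (nat_lit 297) (nat_lit 149)) (XT.nd (nat_lit 78) (nat_lit 0) (nat_lit 0) (XT.lf (nat_lit 0) (nat_lit 3189314272) (nat_lit 532) (nat_lit 13875044063) (nat_lit 76) (nat_lit 5996774473) (nat_lit 117) (nat_lit 5) (nat_lit 124) (nat_lit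 5) (nat_lit 118) (nat_lit 5) (nat_lit 335) (nat_lit 297) (nat_lit 148)) (XT.lf (nat_lit 0) (nat_lit 6495207094) (nat_lit 532) (nat_lit 2448099447) (nat_lit 76) (nat_lit 14542693380) (nat_lit 117) (nat_lit 5) (nat_lit 124) (nat_lit 5) (nat_lit 118) (nat_lit 5) (nat_lit 336) (nat_lit 297) (nat_lit 147)))) (XT.nd (nat_lit 156) (nat_lit 380) (nat_lit 0) (XT.nd (nat_lit 78) (nat_lit 0) (nat_lit 0) (XT.lf (nat_lit 0) (nat_lit 9499275845) (nat_lit 380) (nat_lit 486033225) (nat_lit 456) (nat_lit 13935758722) (nat_lit 112) (nat_lit 5) (nat_lit 117) (nat_lit 5) (nat_lit 118) (nat_lit 5) (nat_lit 337) (nat_lit 297) (nat_lit 146)) (XT.lf (nat_lit 0) (nat_lit 13677957576) (nat_lit 456) (nat_lit 2600341277) (nat_lit 76) (nat_lit 8087959092) (nat_lit 112) (nat_lit 5) (nat_lit 118) (nat_lit 5) (nat_lit 113) (nat_lit 5) (nat_lit 338) (nat_lit 297) (nat_lit 145))) (XT.nd (nat_lit 78) (nat_lit 0) (nat_lit 0) (XT.lf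 (nat_lit 0) (nat_lit 9753654932) (nat_lit 380) (nat_lit 7820295447) (nat_lit 456) (nat_lit 7248081865) (nat_lit 107) (nat_lit 5) (nat_lit 112) (nat_lit 5) (nat_lit 113) (nat_lit 5) (nat_lit 339) (nat_lit 297) (nat_lit 144)) (XT.lf (nat_lit 0) (nat_lit 21615991680) (nat_lit 456) (nat_lit 2775652315) (nat_lit 76) (nat_lit 898965948) (nat_lit 107) (nat_lit 5) (nat_lit 113) (nat_lit 5) (nat_lit 108) (nat_lit 5) (nat_lit 340) (nat_lit 297) (nat_lit 143))))) (XT.nd (nat_lit 234) (nat_lit 608) (nat_lit 0) (XT.nd (nat_lit 78) (nat_lit 380) (nat_lit 0) (XT.lf (nat_lit 0) (nat_lit 175357290) (nat_lit 380) (nat_lit 15773934556) (nat_lit 76) (nat_lit 9818873530) (nat_lit 102) (nat_lit 5) (nat_lit 107) (nat_lit 5) (nat_lit 103) (nat_lit 5) (nat_lit 341) (nat_lit 297) (nat_lit 142)) (XT.nd (nat_lit 78) (nat_lit 380) (nat_lit 0) (XT.lf (nat_lit 0) (nat_lit 4089571081) (nat_lit 380) (nat_lit 3099285149) (nat_lit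 76) (nat_lit 19069426702) (nat_lit 102) (nat_lit 5) (nat_lit 107) (nat_lit 5) (nat_lit 103) (nat_lit 5) (nat_lit 342) (nat_lit 297) (nat_lit 141)) (XT.lf (nat_lit 0) (nat_lit 8231780957) (nat_lit 456) (nat_lit 16632644750) (nat_lit 76) (nat_lit 1895365866) (nat_lit 97) (nat_lit 5) (nat_lit 103) (nat_lit 5) (nat_lit 98) (nat_lit 5) (nat_lit 343) (nat_lit 297) (nat_lit 140)))) (XT.nd (nat_lit 156) (nat_lit 304) (nat_lit 0) (XT.nd (nat_lit 78) (nat_lit 304) (nat_lit 0) (XT.lf (nat_lit 0) (nat_lit 12595570626) (nat_lit 456) (nat_lit 3540376499) (nat_lit 76) (nat_lit 11137483457) (nat_lit 97) (nat_lit 5) (nat_lit 103) (nat_lit 5) (nat_lit 98) (nat_lit 5) (nat_lit 344) (nat_lit 297) (nat_lit 139)) (XT.lf (nat_lit 0) (nat_lit 10135263125) (nat_lit 304) (nat_lit 7047126656) (nat_lit 380) (nat_lit 10617329886) (nat_lit 93) (nat_lit 5) (nat_lit 97) (nat_lit 5) (nat_lit 98) (nat_lit 5) (nat_lit 345) (nat_lit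 297) (nat_lit 138))) (XT.nd (nat_lit 78) (nat_lit 304) (nat_lit 0) (XT.lf (nat_lit 0) (nat_lit 21959923177) (nat_lit 380) (nat_lit 4076824487) (nat_lit 76) (nat_lit 2303460725) (nat_lit 93) (nat_lit 5) (nat_lit 98) (nat_lit 5) (nat_lit 94) (nat_lit 5) (nat_lit 346) (nat_lit 297) (nat_lit 137)) (XT.lf (nat_lit 0) (nat_lit 10037496956) (nat_lit 304) (nat_lit 17004456202) (nat_lit 380) (nat_lit 1850127624) (nat_lit 89) (nat_lit 5) (nat_lit 93) (nat_lit 5) (nat_lit 94) (nat_lit 5) (nat_lit 347) (nat_lit 297) (nat_lit 136))))))) (XT.nd (nat_lit 1092) (nat_lit 1292) (nat_lit 0) (XT.nd (nat_lit 546) (nat_lit 1064) (nat_lit 0) (XT.nd (nat_lit 234) (nat_lit 608) (nat_lit 0) (XT.nd (nat_lit 78) (nat_lit 304) (nat_lit 0) (XT.lf (nat_lit 0) (nat_lit 2797499461) (nat_lit 380) (nat_lit 4835000888) (nat_lit 76) (nat_lit 21826105423) (nat_lit 88) (nat_lit 5) (nat_lit 93) (nat_lit 5) (nat_lit 89) (nat_lit 5) (nat_lit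 348) (nat_lit 297) (nat_lit 135)) (XT.nd (nat_lit 78) (nat_lit 0) (nat_lit 0) (XT.lf (nat_lit 0) (nat_lit 7656892693) (nat_lit 380) (nat_lit 20288778002) (nat_lit 76) (nat_lit 2092624360) (nat_lit 84) (nat_lit 5) (nat_lit 89) (nat_lit 5) (nat_lit 85) (nat_lit 5) (nat_lit 349) (nat_lit 297) (nat_lit 134)) (XT.lf (nat_lit 0) (nat_lit 12782089128) (nat_lit 380) (nat_lit 5846205865) (nat_lit 76) (nat_lit 12003483052) (nat_lit 84) (nat_lit 5) (nat_lit 89) (nat_lit 5) (nat_lit 85) (nat_lit 5) (nat_lit 350) (nat_lit 297) (nat_lit 133)))) (XT.nd (nat_lit 156) (nat_lit 304) (nat_lit 0) (XT.nd (nat_lit 78) (nat_lit 0) (nat_lit 0) (XT.lf (nat_lit 0) (nat_lit 9202492783) (nat_lit 304) (nat_lit 8942294739) (nat_lit 380) (nat_lit 13095769182) (nat_lit 80) (nat_lit 5) (nat_lit 84) (nat_lit 5) (nat_lit 85) (nat_lit 5) (nat_lit 351) (nat_lit 297) (nat_lit 132)) (XT.lf (nat_lit 0) (nat_lit 23733268750) (nat_lit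 380) (nat_lit 7060642265) (nat_lit 76) (nat_lit 1071744109) (nat_lit 80) (nat_lit 5) (nat_lit 85) (nat_lit 5) (nat_lit 81) (nat_lit 5) (nat_lit 352) (nat_lit 297) (nat_lit 131))) (XT.nd (nat_lit 78) (nat_lit 76) (nat_lit 0) (XT.lf (nat_lit 0) (nat_lit 8435588934) (nat_lit 228) (nat_lit 21218916796) (nat_lit 304) (nat_lit 2850051085) (nat_lit 77) (nat_lit 5) (nat_lit 80) (nat_lit 5) (nat_lit 81) (nat_lit 5) (nat_lit 353) (nat_lit 297) (nat_lit 130)) (XT.lf (nat_lit 0) (nat_lit 2607701384) (nat_lit 304) (nat_lit 8651265605) (nat_lit 76) (nat_lit 21900889552) (nat_lit 76) (nat_lit 5) (nat_lit 80) (nat_lit 5) (nat_lit 77) (nat_lit 5) (nat_lit 354) (nat_lit 297) (nat_lit 129))))) (XT.nd (nat_lit 234) (nat_lit 532) (nat_lit 0) (XT.nd (nat_lit 78) (nat_lit 228) (nat_lit 0) (XT.lf (nat_lit 0) (nat_lit 7337510790) (nat_lit 304) (nat_lit 900553715) (nat_lit 380) (nat_lit 25593922439) (nat_lit 72) (nat_lit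 5) (nat_lit 76) (nat_lit 5) (nat_lit 77) (nat_lit 5) (nat_lit 355) (nat_lit 297) (nat_lit 128)) (XT.nd (nat_lit 78) (nat_lit 228) (nat_lit 0) (XT.lf (nat_lit 0) (nat_lit 14215141304) (nat_lit 380) (nat_lit 10639603684) (nat_lit 76) (nat_lit 9664205171) (nat_lit 72) (nat_lit 5) (nat_lit 77) (nat_lit 5) (nat_lit 73) (nat_lit 5) (nat_lit 356) (nat_lit 297) (nat_lit 127)) (XT.lf (nat_lit 0) (nat_lit 5788675565) (nat_lit 228) (nat_lit 14643216603) (nat_lit 304) (nat_lit 14792822145) (nat_lit 69) (nat_lit 5) (nat_lit 72) (nat_lit 5) (nat_lit 73) (nat_lit 5) (nat_lit 357) (nat_lit 297) (nat_lit 126)))) (XT.nd (nat_lit 156) (nat_lit 304) (nat_lit 0) (XT.nd (nat_lit 78) (nat_lit 228) (nat_lit 0) (XT.lf (nat_lit 0) (nat_lit 22921685285) (nat_lit 228) (nat_lit 4016763022) (nat_lit 304) (nat_lit 9010106815) (nat_lit 69) (nat_lit 5) (nat_lit 72) (nat_lit 5) (nat_lit 73) (nat_lit 5) (nat_lit 358) (nat_lit 297)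 (nat_lit 125)) (XT.lf (nat_lit 0) (nat_lit 3877495237) (nat_lit 228) (nat_lit 29862544228) (nat_lit 304) (nat_lit 2951079270) (nat_lit 66) (nat_lit 5) (nat_lit 69) (nat_lit 5) (nat_lit 70) (nat_lit 5) (nat_lit 359) (nat_lit 297) (nat_lit 124))) (XT.nd (nat_lit 78) (nat_lit 228) (nat_lit 0) (XT.lf (nat_lit 0) (nat_lit 3394124794) (nat_lit 304) (nat_lit 15974843017) (nat_lit 76) (nat_lit 18080987336) (nat_lit 65) (nat_lit 5) (nat_lit 69) (nat_lit 5) (nat_lit 66) (nat_lit 5) (nat_lit 360) (nat_lit 297) (nat_lit 123)) (XT.lf (nat_lit 0) (nat_lit 1360444686) (nat_lit 228) (nat_lit 8519102740) (nat_lit 304) (nat_lit 28350859878) (nat_lit 62) (nat_lit 5) (nat_lit 65) (nat_lit 5) (nat_lit 66) (nat_lit 5) (nat_lit 361) (nat_lit 297) (nat_lit 122)))))) (XT.nd (nat_lit 546) (nat_lit 608) (nat_lit 0) (XT.nd (nat_lit 234) (nat_lit 456) (nat_lit 0) (XT.nd (nat_lit 78) (nat_lit 228) (nat_lit 0) (XT.lf (nat_lit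 0) (nat_lit 16744113529) (nat_lit 304) (nat_lit 19519328540) (nat_lit 76) (nat_lit 2765295960) (nat_lit 62) (nat_lit 5) (nat_lit 66) (nat_lit 5) (nat_lit 63) (nat_lit 5) (nat_lit 362) (nat_lit 297) (nat_lit 121)) (XT.nd (nat_lit 78) (nat_lit 228) (nat_lit 0) (XT.lf (nat_lit 0) (nat_lit 23895212170) (nat_lit 304) (nat_lit 1738371378) (nat_lit 76) (nat_lit 14215019615) (nat_lit 62) (nat_lit 5) (nat_lit 66) (nat_lit 5) (nat_lit 63) (nat_lit 5) (nat_lit 363) (nat_lit 297) (nat_lit 120)) (XT.lf (nat_lit 0) (nat_lit 16900118639) (nat_lit 228) (nat_lit 14519536697) (nat_lit 304) (nat_lit 9268646855) (nat_lit 59) (nat_lit 5) (nat_lit 62) (nat_lit 5) (nat_lit 63) (nat_lit 5) (nat_lit 364) (nat_lit 297) (nat_lit 119)))) (XT.nd (nat_lit 156) (nat_lit 228) (nat_lit 0) (XT.nd (nat_lit 78) (nat_lit 228) (nat_lit 0) (XT.lf (nat_lit 0) (nat_lit 36127775886) (nat_lit 228) (nat_lit 3056019390) (nat_lit 304) (nat_lit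 2368980227) (nat_lit 59) (nat_lit 5) (nat_lit 62) (nat_lit 5) (nat_lit 63) (nat_lit 5) (nat_lit 365) (nat_lit 297) (nat_lit 118)) (XT.lf (nat_lit 0) (nat_lit 4859309585) (nat_lit 228) (nat_lit 28818381778) (nat_lit 76) (nat_lit 8757705033) (nat_lit 56) (nat_lit 5) (nat_lit 59) (nat_lit 5) (nat_lit 57) (nat_lit 5) (nat_lit 366) (nat_lit 297) (nat_lit 117))) (XT.nd (nat_lit 78) (nat_lit 228) (nat_lit 0) (XT.lf (nat_lit 0) (nat_lit 12338923796) (nat_lit 228) (nat_lit 10061174815) (nat_lit 76) (nat_lit 20941232983) (nat_lit 56) (nat_lit 5) (nat_lit 59) (nat_lit 5) (nat_lit 57) (nat_lit 5) (nat_lit 367) (nat_lit 297) (nat_lit 116)) (XT.lf (nat_lit 0) (nat_lit 9437506599) (nat_lit 228) (nat_lit 10692748619) (nat_lit 304) (nat_lit 24141571738) (nat_lit 53) (nat_lit 5) (nat_lit 56) (nat_lit 5) (nat_lit 57) (nat_lit 5) (nat_lit 368) (nat_lit 297) (nat_lit 115))))) (XT.nd (nat_lit 234) (nat_lit 456) (nat_lit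 0) (XT.nd (nat_lit 78) (nat_lit 152) (nat_lit 0) (XT.lf (nat_lit 0) (nat_lit 28267697510) (nat_lit 304) (nat_lit 15519363070) (nat_lit 76) (nat_lit 1439807386) (nat_lit 53) (nat_lit 5) (nat_lit 57) (nat_lit 5) (nat_lit 54) (nat_lit 5) (nat_lit 369) (nat_lit 297) (nat_lit 114)) (XT.nd (nat_lit 78) (nat_lit 0) (nat_lit 0) (XT.lf (nat_lit 0) (nat_lit 4348760850) (nat_lit 152) (nat_lit 32444909650) (nat_lit 228) (nat_lit 9412559341) (nat_lit 51) (nat_lit 5) (nat_lit 53) (nat_lit 5) (nat_lit 54) (nat_lit 5) (nat_lit 370) (nat_lit 297) (nat_lit 113)) (XT.lf (nat_lit 0) (nat_lit 25125838641) (nat_lit 152) (nat_lit 20603079743) (nat_lit 228) (nat_lit 1481451124) (nat_lit 51) (nat_lit 5) (nat_lit 53) (nat_lit 5) (nat_lit 54) (nat_lit 5) (nat_lit 371) (nat_lit 297) (nat_lit 112)))) (XT.nd (nat_lit 156) (nat_lit 152) (nat_lit 0) (XT.nd (nat_lit 78) (nat_lit 228) (nat_lit 0) (XT.lf (nat_lit 0) (nat_lit 6553933034)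 (nat_lit 228) (nat_lit 1787823859) (nat_lit 76) (nat_lit 39901044366) (nat_lit 50) (nat_lit 5) (nat_lit 53) (nat_lit 5) (nat_lit 51) (nat_lit 5) (nat_lit 372) (nat_lit 297) (nat_lit 111)) (XT.lf (nat_lit 0) (nat_lit 15027967047) (nat_lit 304) (nat_lit 29865213966) (nat_lit 76) (nat_lit 4405765645) (nat_lit 47) (nat_lit 5) (nat_lit 51) (nat_lit 5) (nat_lit 48) (nat_lit 5) (nat_lit 373) (nat_lit 297) (nat_lit 110))) (XT.nd (nat_lit 78) (nat_lit 152) (nat_lit 0) (XT.lf (nat_lit 0) (nat_lit 23854003152) (nat_lit 304) (nat_lit 9145430250) (nat_lit 76) (nat_lit 17384411189) (nat_lit 47) (nat_lit 5) (nat_lit 51) (nat_lit 5) (nat_lit 48) (nat_lit 5) (nat_lit 374) (nat_lit 297) (nat_lit 109)) (XT.lf (nat_lit 0) (nat_lit 12433709737) (nat_lit 152) (nat_lit 20627676809) (nat_lit 228) (nat_lit 18436407486) (nat_lit 45) (nat_lit 5) (nat_lit 47) (nat_lit 5) (nat_lit 48) (nat_lit 5) (nat_lit 375) (nat_lit 297)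 (nat_lit 108))))))))
noncomputable def xc191 : XT := (XT.nd (nat_lit 34788) (nat_lit 0) (nat_lit 8816) (XT.nd (nat_lit 1092) (nat_lit 608) (nat_lit 0) (XT.nd (nat_lit 546) (nat_lit 380) (nat_lit 0) (XT.nd (nat_lit 234) (nat_lit 304) (nat_lit 0) (XT.nd (nat_lit 78) (nat_lit 228) (nat_lit 0) (XT.lf (nat_lit 0) (nat_lit 34842880261) (nat_lit 152) (nat_lit 7791547629) (nat_lit 228) (nat_lit 10008052486) (nat_lit 45) (nat_lit 5) (nat_lit 47) (nat_lit 5) (nat_lit 48) (nat_lit 5) (nat_lit 376) (nat_lit 297) (nat_lit 107)) (XT.nd (nat_lit 78) (nat_lit 76) (nat_lit 0) (XT.lf (nat_lit 0) (nat_lit 4126401934) (nat_lit 152) (nat_lit 48457269978) (nat_lit 228) (nat_lit 1235166520) (nat_lit 43) (nat_lit 5) (nat_lit 45) (nat_lit 5) (nat_lit 46) (nat_lit 5) (nat_lit 377) (nat_lit 297) (nat_lit 106)) (XT.lf (nat_lit 0) (nat_lit 7904508192) (nat_lit 228) (nat_lit 28108703056) (nat_lit 76) (nat_lit 19007352977) (nat_lit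 42) (nat_lit 5) (nat_lit 45) (nat_lit 5) (nat_lit 43) (nat_lit 5) (nat_lit 378) (nat_lit 297) (nat_lit 105)))) (XT.nd (nat_lit 156) (nat_lit 152) (nat_lit 0) (XT.nd (nat_lit 78) (nat_lit 152) (nat_lit 0) (XT.lf (nat_lit 0) (nat_lit 17290791438) (nat_lit 228) (nat_lit 5894304185) (nat_lit 76) (nat_lit 33072963311) (nat_lit 42) (nat_lit 5) (nat_lit 45) (nat_lit 5) (nat_lit 43) (nat_lit 5) (nat_lit 379) (nat_lit 297) (nat_lit 104)) (XT.lf (nat_lit 0) (nat_lit 17320019899) (nat_lit 152) (nat_lit 9802458099) (nat_lit 228) (nat_lit 30405287346) (nat_lit 40) (nat_lit 5) (nat_lit 42) (nat_lit 5) (nat_lit 43) (nat_lit 5) (nat_lit 380) (nat_lit 297) (nat_lit 103))) (XT.nd (nat_lit 78) (nat_lit 152) (nat_lit 0) (XT.lf (nat_lit 0) (nat_lit 37344841696) (nat_lit 228) (nat_lit 17525541582) (nat_lit 76) (nat_lit 3962309139) (nat_lit 40) (nat_lit 5) (nat_lit 43) (nat_lit 5) (nat_lit 41) (nat_lit 5) (nat_lit 381)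 (nat_lit 297) (nat_lit 102)) (XT.lf (nat_lit 0) (nat_lit 5849855257) (nat_lit 152) (nat_lit 42174727060) (nat_lit 228) (nat_lit 12147665033) (nat_lit 38) (nat_lit 5) (nat_lit 40) (nat_lit 5) (nat_lit 41) (nat_lit 5) (nat_lit 382) (nat_lit 297) (nat_lit 101))))) (XT.nd (nat_lit 234) (nat_lit 152) (nat_lit 0) (XT.nd (nat_lit 78) (nat_lit 228) (nat_lit 0) (XT.lf (nat_lit 0) (nat_lit 30281442428) (nat_lit 152) (nat_lit 28917699474) (nat_lit 228) (nat_lit 2347615420) (nat_lit 38) (nat_lit 5) (nat_lit 40) (nat_lit 5) (nat_lit 41) (nat_lit 5) (nat_lit 383) (nat_lit 297) (nat_lit 100)) (XT.nd (nat_lit 78) (nat_lit 152) (nat_lit 0) (XT.lf (nat_lit 0) (nat_lit 7592776520) (nat_lit 228) (nat_lit 7595241641) (nat_lit 76) (nat_lit 47772326601) (nat_lit 37) (nat_lit 5) (nat_lit 40) (nat_lit 5) (nat_lit 38) (nat_lit 5) (nat_lit 384) (nat_lit 297) (nat_lit 99)) (XT.lf (nat_lit 0) (nat_lit 17091069502) (nat_lit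 152) (nat_lit 854990254) (nat_lit 228) (nat_lit 46464727922) (nat_lit 35) (nat_lit 5) (nat_lit 37) (nat_lit 5) (nat_lit 38) (nat_lit 5) (nat_lit 385) (nat_lit 297) (nat_lit 98)))) (XT.nd (nat_lit 156) (nat_lit 0) (nat_lit 0) (XT.nd (nat_lit 78) (nat_lit 152) (nat_lit 0) (XT.lf (nat_lit 0) (nat_lit 28818679921) (nat_lit 228) (nat_lit 23367374872) (nat_lit 76) (nat_lit 13712427996) (nat_lit 35) (nat_lit 5) (nat_lit 38) (nat_lit 5) (nat_lit 36) (nat_lit 5) (nat_lit 386) (nat_lit 297) (nat_lit 97)) (XT.lf (nat_lit 0) (nat_lit 1316743586) (nat_lit 152) (nat_lit 38719517434) (nat_lit 228) (nat_lit 27393985292) (nat_lit 33) (nat_lit 5) (nat_lit 35) (nat_lit 5) (nat_lit 36) (nat_lit 5) (nat_lit 387) (nat_lit 297) (nat_lit 96))) (XT.nd (nat_lit 78) (nat_lit 0) (nat_lit 0) (XT.lf (nat_lit 0) (nat_lit 27216409021) (nat_lit 152) (nat_lit 24607614792) (nat_lit 228) (nat_lit 17176930298) (nat_lit 33) (nat_lit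 5) (nat_lit 35) (nat_lit 5) (nat_lit 36) (nat_lit 5) (nat_lit 388) (nat_lit 297) (nat_lit 95)) (XT.lf (nat_lit 0) (nat_lit 53889195632) (nat_lit 152) (nat_lit 10073980746) (nat_lit 228) (nat_lit 6655675032) (nat_lit 33) (nat_lit 5) (nat_lit 35) (nat_lit 5) (nat_lit 36) (nat_lit 5) (nat_lit 389) (nat_lit 297) (nat_lit 94)))))) (XT.nd (nat_lit 546) (nat_lit 228) (nat_lit 0) (XT.nd (nat_lit 234) (nat_lit 228) (nat_lit 0) (XT.nd (nat_lit 78) (nat_lit 0) (nat_lit 0) (XT.lf (nat_lit 0) (nat_lit 4234304190) (nat_lit 152) (nat_lit 63117150373) (nat_lit 76) (nat_lit 4928585897) (nat_lit 31) (nat_lit 5) (nat_lit 33) (nat_lit 5) (nat_lit 32) (nat_lit 5) (nat_lit 390) (nat_lit 297) (nat_lit 93)) (XT.nd (nat_lit 78) (nat_lit 0) (nat_lit 0) (XT.lf (nat_lit 0) (nat_lit 15585374403) (nat_lit 152) (nat_lit 37981970315) (nat_lit 76) (nat_lit 20413699496) (nat_lit 31) (nat_lit 5) (nat_lit 33) (nat_lit 5) (nat_lit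 32) (nat_lit 5) (nat_lit 391) (nat_lit 297) (nat_lit 92)) (XT.lf (nat_lit 0) (nat_lit 27274852788) (nat_lit 152) (nat_lit 12096438068) (nat_lit 76) (nat_lit 36361851806) (nat_lit 31) (nat_lit 5) (nat_lit 33) (nat_lit 5) (nat_lit 32) (nat_lit 5) (nat_lit 392) (nat_lit 297) (nat_lit 91)))) (XT.nd (nat_lit 156) (nat_lit 76) (nat_lit 0) (XT.nd (nat_lit 78) (nat_lit 0) (nat_lit 0) (XT.lf (nat_lit 0) (nat_lit 14851878435) (nat_lit 152) (nat_lit 24603840357) (nat_lit 228) (nat_lit 38077865010) (nat_lit 29) (nat_lit 5) (nat_lit 31) (nat_lit 5) (nat_lit 32) (nat_lit 5) (nat_lit 393) (nat_lit 297) (nat_lit 90)) (XT.lf (nat_lit 0) (nat_lit 42853049451) (nat_lit 152) (nat_lit 9269075397) (nat_lit 228) (nat_lit 27262310717) (nat_lit 29) (nat_lit 5) (nat_lit 31) (nat_lit 5) (nat_lit 32) (nat_lit 5) (nat_lit 394) (nat_lit 297) (nat_lit 89))) (XT.nd (nat_lit 78) (nat_lit 76) (nat_lit 0) (XT.lf (nat_lit 0) (nat_lit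 65229261271) (nat_lit 228) (nat_lit 9662788904) (nat_lit 76) (nat_lit 6396941351) (nat_lit 29) (nat_lit 5) (nat_lit 32) (nat_lit 5) (nat_lit 30) (nat_lit 4) (nat_lit 395) (nat_lit 297) (nat_lit 88)) (XT.lf (nat_lit 0) (nat_lit 18273270241) (nat_lit 76) (nat_lit 60721835268) (nat_lit 152) (nat_lit 4247614610) (nat_lit 28) (nat_lit 5) (nat_lit 29) (nat_lit 5) (nat_lit 30) (nat_lit 4) (nat_lit 396) (nat_lit 297) (nat_lit 87))))) (XT.nd (nat_lit 234) (nat_lit 0) (nat_lit 0) (XT.nd (nat_lit 78) (nat_lit 152) (nat_lit 0) (XT.lf (nat_lit 0) (nat_lit 7860951401) (nat_lit 152) (nat_lit 38087137567) (nat_lit 76) (nat_lit 39301790320) (nat_lit 27) (nat_lit 5) (nat_lit 29) (nat_lit 5) (nat_lit 28) (nat_lit 5) (nat_lit 397) (nat_lit 297) (nat_lit 86)) (XT.nd (nat_lit 78) (nat_lit 152) (nat_lit 0) (XT.lf (nat_lit 0) (nat_lit 20245528880) (nat_lit 152) (nat_lit 10443718323) (nat_lit 76) (nat_lit 56626801243)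 (nat_lit 27) (nat_lit 5) (nat_lit 29) (nat_lit 5) (nat_lit 28) (nat_lit 5) (nat_lit 398) (nat_lit 297) (nat_lit 85)) (XT.lf (nat_lit 0) (nat_lit 18384541592) (nat_lit 152) (nat_lit 14792007430) (nat_lit 228) (nat_lit 56262407177) (nat_lit 25) (nat_lit 5) (nat_lit 27) (nat_lit 5) (nat_lit 28) (nat_lit 5) (nat_lit 399) (nat_lit 297) (nat_lit 84)))) (XT.nd (nat_lit 32760) (nat_lit 0) (nat_lit 14060) (XT.nd (nat_lit 32682) (nat_lit 0) (nat_lit 14060) (XT.lf (nat_lit 0) (nat_lit 46615404580) (nat_lit 228) (nat_lit 43350125109) (nat_lit 76) (nat_lit 1656425011) (nat_lit 25) (nat_lit 5) (nat_lit 28) (nat_lit 5) (nat_lit 26) (nat_lit 4) (nat_lit 400) (nat_lit 297) (nat_lit 83)) (XT.lf (nat_lit 0) (nat_lit 5589181194) (nat_lit 1140) (nat_lit 417857684) (nat_lit 1140) (nat_lit 417857684) (nat_lit 210) (nat_lit 3) (nat_lit 225) (nat_lit 3) (nat_lit 225) (nat_lit 5) (nat_lit 298) (nat_lit 298) (nat_lit 184)))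 (XT.nd (nat_lit 78) (nat_lit 0) (nat_lit 0) (XT.lf (nat_lit 76) (nat_lit 5115278733) (nat_lit 0) (nat_lit 6666600306) (nat_lit 1140) (nat_lit 1247107984) (nat_lit 211) (nat_lit 5) (nat_lit 210) (nat_lit 3) (nat_lit 225) (nat_lit 5) (nat_lit 299) (nat_lit 298) (nat_lit 183)) (XT.lf (nat_lit 76) (nat_lit 11253998139) (nat_lit 0) (nat_lit 1142775203) (nat_lit 1140) (nat_lit 817003877) (nat_lit 211) (nat_lit 5) (nat_lit 210) (nat_lit 3) (nat_lit 225) (nat_lit 5) (nat_lit 300) (nat_lit 298) (nat_lit 182))))))) (XT.nd (nat_lit 1092) (nat_lit 4180) (nat_lit 0) (XT.nd (nat_lit 546) (nat_lit 0) (nat_lit 228) (XT.nd (nat_lit 234) (nat_lit 0) (nat_lit 76) (XT.nd (nat_lit 78) (nat_lit 1140) (nat_lit 0) (XT.lf (nat_lit 76) (nat_lit 4202842245) (nat_lit 0) (nat_lit 8896721109) (nat_lit 1140) (nat_lit 302482404) (nat_lit 212) (nat_lit 5) (nat_lit 211) (nat_lit 5) (nat_lit 226) (nat_lit 5) (nat_lit 301) (nat_lit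 298) (nat_lit 181)) (XT.nd (nat_lit 78) (nat_lit 0) (nat_lit 76) (XT.lf (nat_lit 0) (nat_lit 239868300) (nat_lit 1140) (nat_lit 3027006432) (nat_lit 1216) (nat_lit 10328534113) (nat_lit 196) (nat_lit 5) (nat_lit 211) (nat_lit 5) (nat_lit 212) (nat_lit 5) (nat_lit 302) (nat_lit 298) (nat_lit 180)) (XT.lf (nat_lit 0) (nat_lit 835649793) (nat_lit 1140) (nat_lit 10433481271) (nat_lit 1216) (nat_lit 2524071283) (nat_lit 197) (nat_lit 5) (nat_lit 212) (nat_lit 5) (nat_lit 213) (nat_lit 5) (nat_lit 303) (nat_lit 298) (nat_lit 179)))) (XT.nd (nat_lit 156) (nat_lit 0) (nat_lit 76) (XT.nd (nat_lit 78) (nat_lit 0) (nat_lit 76) (XT.lf (nat_lit 0) (nat_lit 1498857538) (nat_lit 1140) (nat_lit 4037170334) (nat_lit 1216) (nat_lit 8459431283) (nat_lit 197) (nat_lit 5) (nat_lit 212) (nat_lit 5) (nat_lit 213) (nat_lit 5) (nat_lit 304) (nat_lit 298) (nat_lit 178)) (XT.lf (nat_lit 0) (nat_lit 2197467279) (nat_lit 1140)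 (nat_lit 11614017002) (nat_lit 1216) (nat_lit 391849829) (nat_lit 198) (nat_lit 5) (nat_lit 213) (nat_lit 5) (nat_lit 214) (nat_lit 5) (nat_lit 305) (nat_lit 298) (nat_lit 177))) (XT.nd (nat_lit 78) (nat_lit 0) (nat_lit 0) (XT.lf (nat_lit 0) (nat_lit 3000106312) (nat_lit 1140) (nat_lit 4982807795) (nat_lit 1216) (nat_lit 6432054238) (nat_lit 198) (nat_lit 5) (nat_lit 213) (nat_lit 5) (nat_lit 214) (nat_lit 5) (nat_lit 306) (nat_lit 298) (nat_lit 176)) (XT.lf (nat_lit 76) (nat_lit 1875461968) (nat_lit 0) (nat_lit 1956854420) (nat_lit 1216) (nat_lit 10800485181) (nat_lit 199) (nat_lit 5) (nat_lit 198) (nat_lit 5) (nat_lit 214) (nat_lit 5) (nat_lit 307) (nat_lit 298) (nat_lit 175))))) (XT.nd (nat_lit 234) (nat_lit 0) (nat_lit 76) (XT.nd (nat_lit 78) (nat_lit 0) (nat_lit 0) (XT.lf (nat_lit 0) (nat_lit 4768946412) (nat_lit 1140) (nat_lit 5864198091) (nat_lit 1216) (nat_lit 4221655968) (nat_lit 199)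 (nat_lit 5) (nat_lit 214) (nat_lit 5) (nat_lit 215) (nat_lit 5) (nat_lit 308) (nat_lit 298) (nat_lit 174)) (XT.nd (nat_lit 78) (nat_lit 0) (nat_lit 76) (XT.lf (nat_lit 76) (nat_lit 1231848594) (nat_lit 0) (nat_lit 4521183981) (nat_lit 1216) (nat_lit 9329859922) (nat_lit 200) (nat_lit 5) (nat_lit 199) (nat_lit 5) (nat_lit 215) (nat_lit 5) (nat_lit 309) (nat_lit 298) (nat_lit 173)) (XT.lf (nat_lit 0) (nat_lit 6831933823) (nat_lit 1140) (nat_lit 6681563768) (nat_lit 1216) (nat_lit 1802384388) (nat_lit 200) (nat_lit 5) (nat_lit 215) (nat_lit 5) (nat_lit 216) (nat_lit 5) (nat_lit 310) (nat_lit 298) (nat_lit 172)))) (XT.nd (nat_lit 156) (nat_lit 0) (nat_lit 76) (XT.nd (nat_lit 78) (nat_lit 0) (nat_lit 0) (XT.lf (nat_lit 76) (nat_lit 662564028) (nat_lit 0) (nat_lit 7320543304) (nat_lit 1216) (nat_lit 7571569734) (nat_lit 201) (nat_lit 5) (nat_lit 200) (nat_lit 5) (nat_lit 216) (nat_lit 5) (nat_lit 311)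 (nat_lit 298) (nat_lit 171)) (XT.lf (nat_lit 76) (nat_lit 8355463940) (nat_lit 0) (nat_lit 869840011) (nat_lit 1216) (nat_lit 6573650116) (nat_lit 201) (nat_lit 5) (nat_lit 200) (nat_lit 5) (nat_lit 216) (nat_lit 5) (nat_lit 312) (nat_lit 298) (nat_lit 170))) (XT.nd (nat_lit 78) (nat_lit 0) (nat_lit 0) (XT.lf (nat_lit 76) (nat_lit 167733259) (nat_lit 0) (nat_lit 10383512585) (nat_lit 1216) (nat_lit 5497931478) (nat_lit 202) (nat_lit 5) (nat_lit 201) (nat_lit 5) (nat_lit 217) (nat_lit 5) (nat_lit 313) (nat_lit 298) (nat_lit 169)) (XT.lf (nat_lit 76) (nat_lit 8142554096) (nat_lit 0) (nat_lit 3847692314) (nat_lit 1216) (nat_lit 4314474420) (nat_lit 202) (nat_lit 5) (nat_lit 201) (nat_lit 5) (nat_lit 217) (nat_lit 5) (nat_lit 314) (nat_lit 298) (nat_lit 168)))))) (XT.nd (nat_lit 546) (nat_lit 2128) (nat_lit 0) (XT.nd (nat_lit 234) (nat_lit 1368) (nat_lit 0) (XT.nd (nat_lit 78) (nat_lit 1140) (nat_lit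 0) (XT.lf (nat_lit 0) (nat_lit 13490050368) (nat_lit 1140) (nat_lit 247659254) (nat_lit 76) (nat_lit 2829703640) (nat_lit 202) (nat_lit 5) (nat_lit 217) (nat_lit 5) (nat_lit 203) (nat_lit 5) (nat_lit 315) (nat_lit 298) (nat_lit 167)) (XT.nd (nat_lit 78) (nat_lit 0) (nat_lit 0) (XT.lf (nat_lit 0) (nat_lit 8014201137) (nat_lit 1140) (nat_lit 7125983252) (nat_lit 1216) (nat_lit 1694653281) (nat_lit 187) (nat_lit 5) (nat_lit 202) (nat_lit 5) (nat_lit 203) (nat_lit 5) (nat_lit 316) (nat_lit 298) (nat_lit 166)) (XT.lf (nat_lit 0) (nat_lit 16520703914) (nat_lit 1140) (nat_lit 312027638) (nat_lit 1216) (nat_lit 277776936) (nat_lit 187) (nat_lit 5) (nat_lit 202) (nat_lit 5) (nat_lit 203) (nat_lit 5) (nat_lit 317) (nat_lit 298) (nat_lit 165)))) (XT.nd (nat_lit 156) (nat_lit 608) (nat_lit 0) (XT.nd (nat_lit 78) (nat_lit 0) (nat_lit 0) (XT.lf (nat_lit 0) (nat_lit 1291626937) (nat_lit 760) (nat_lit 9432497070)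 (nat_lit 76) (nat_lit 6666002639) (nat_lit 177) (nat_lit 5) (nat_lit 187) (nat_lit 5) (nat_lit 178) (nat_lit 5) (nat_lit 318) (nat_lit 298) (nat_lit 164)) (XT.lf (nat_lit 0) (nat_lit 2902424960) (nat_lit 760) (nat_lit 918738443) (nat_lit 76) (nat_lit 13856900610) (nat_lit 177) (nat_lit 5) (nat_lit 187) (nat_lit 5) (nat_lit 178) (nat_lit 5) (nat_lit 319) (nat_lit 298) (nat_lit 163))) (XT.nd (nat_lit 78) (nat_lit 0) (nat_lit 0) (XT.lf (nat_lit 0) (nat_lit 4661873472) (nat_lit 684) (nat_lit 10006701316) (nat_lit 76) (nat_lit 3303064647) (nat_lit 169) (nat_lit 5) (nat_lit 178) (nat_lit 5) (nat_lit 170) (nat_lit 5) (nat_lit 320) (nat_lit 298) (nat_lit 162)) (XT.lf (nat_lit 0) (nat_lit 6512555338) (nat_lit 684) (nat_lit 1186124235) (nat_lit 76) (nat_lit 10574198496) (nat_lit 169) (nat_lit 5) (nat_lit 178) (nat_lit 5) (nat_lit 170) (nat_lit 5) (nat_lit 321) (nat_lit 298) (nat_lit 161))))) (XT.nd (nat_lit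 234) (nat_lit 1064) (nat_lit 0) (XT.nd (nat_lit 78) (nat_lit 532) (nat_lit 0) (XT.lf (nat_lit 0) (nat_lit 8047946129) (nat_lit 532) (nat_lit 439675532) (nat_lit 608) (nat_lit 10093475455) (nat_lit 162) (nat_lit 5) (nat_lit 169) (nat_lit 5) (nat_lit 170) (nat_lit 5) (nat_lit 322) (nat_lit 298) (nat_lit 160)) (XT.nd (nat_lit 78) (nat_lit 532) (nat_lit 0) (XT.lf (nat_lit 0) (nat_lit 10593355272) (nat_lit 608) (nat_lit 1390963318) (nat_lit 76) (nat_lit 6912110591) (nat_lit 162) (nat_lit 5) (nat_lit 170) (nat_lit 5) (nat_lit 163) (nat_lit 5) (nat_lit 323) (nat_lit 298) (nat_lit 159)) (XT.lf (nat_lit 0) (nat_lit 8172505552) (nat_lit 532) (nat_lit 4664584461) (nat_lit 608) (nat_lit 6381894966) (nat_lit 155) (nat_lit 5) (nat_lit 162) (nat_lit 5) (nat_lit 163) (nat_lit 5) (nat_lit 324) (nat_lit 298) (nat_lit 158)))) (XT.nd (nat_lit 156) (nat_lit 608) (nat_lit 0) (XT.nd (nat_lit 78) (nat_lit 456) (nat_lit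 0) (XT.lf (nat_lit 0) (nat_lit 15182029720) (nat_lit 608) (nat_lit 1535448960) (nat_lit 76) (nat_lit 2832730378) (nat_lit 155) (nat_lit 5) (nat_lit 163) (nat_lit 5) (nat_lit 156) (nat_lit 5) (nat_lit 325) (nat_lit 298) (nat_lit 157)) (XT.lf (nat_lit 0) (nat_lit 8370026801) (nat_lit 456) (nat_lit 9346237566) (nat_lit 532) (nat_lit 2171545240) (nat_lit 149) (nat_lit 5) (nat_lit 155) (nat_lit 5) (nat_lit 156) (nat_lit 5) (nat_lit 326) (nat_lit 298) (nat_lit 156))) (XT.nd (nat_lit 78) (nat_lit 532) (nat_lit 0) (XT.lf (nat_lit 0) (nat_lit 97241047) (nat_lit 532) (nat_lit 1640070917) (nat_lit 76) (nat_lit 18497966790) (nat_lit 148) (nat_lit 5) (nat_lit 155) (nat_lit 5) (nat_lit 149) (nat_lit 5) (nat_lit 327) (nat_lit 298) (nat_lit 155)) (XT.lf (nat_lit 0) (nat_lit 2526085467) (nat_lit 608) (nat_lit 11976070490) (nat_lit 76) (nat_lit 6086309250) (nat_lit 141) (nat_lit 5) (nat_lit 149) (nat_lit 5) (nat_lit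 142) (nat_lit 5) (nat_lit 328) (nat_lit 298) (nat_lit 154))))))))
noncomputable def xc192 : XT := (XT.nd (nat_lit 2106) (nat_lit 2888) (nat_lit 0) (XT.nd (nat_lit 1014) (nat_lit 2356) (nat_lit 0) (XT.nd (nat_lit 468) (nat_lit 1292) (nat_lit 0) (XT.nd (nat_lit 234) (nat_lit 836) (nat_lit 0) (XT.nd (nat_lit 78) (nat_lit 456) (nat_lit 0) (XT.lf (nat_lit 0) (nat_lit 5054449848) (nat_lit 608) (nat_lit 1771079769) (nat_lit 76) (nat_lit 14125925238) (nat_lit 141) (nat_lit 5) (nat_lit 149) (nat_lit 5) (nat_lit 142) (nat_lit 5) (nat_lit 329) (nat_lit 298) (nat_lit 153)) (XT.nd (nat_lit 78) (nat_lit 0) (nat_lit 0) (XT.lf (nat_lit 0) (nat_lit 7748451253) (nat_lit 532) (nat_lit 12428155224) (nat_lit 76) (nat_lit 1146041163) (nat_lit 135) (nat_lit 5) (nat_lit 142) (nat_lit 5) (nat_lit 136) (nat_lit 5) (nat_lit 330) (nat_lit 298) (nat_lit 152)) (XT.lf (nat_lit 0) (nat_lit 10601977595) (nat_lit 532) (nat_lit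 1863774844) (nat_lit 76) (nat_lit 9236869449) (nat_lit 135) (nat_lit 5) (nat_lit 142) (nat_lit 5) (nat_lit 136) (nat_lit 5) (nat_lit 331) (nat_lit 298) (nat_lit 151)))) (XT.nd (nat_lit 78) (nat_lit 380) (nat_lit 0) (XT.lf (nat_lit 0) (nat_lit 9189165459) (nat_lit 456) (nat_lit 4433542058) (nat_lit 532) (nat_lit 8468846538) (nat_lit 129) (nat_lit 5) (nat_lit 135) (nat_lit 5) (nat_lit 136) (nat_lit 5) (nat_lit 332) (nat_lit 298) (nat_lit 150)) (XT.nd (nat_lit 78) (nat_lit 380) (nat_lit 0) (XT.lf (nat_lit 0) (nat_lit 16783354363) (nat_lit 532) (nat_lit 1924590328) (nat_lit 76) (nat_lit 3782737078) (nat_lit 129) (nat_lit 5) (nat_lit 136) (nat_lit 5) (nat_lit 130) (nat_lit 5) (nat_lit 333) (nat_lit 298) (nat_lit 149)) (XT.lf (nat_lit 0) (nat_lit 9516774282) (nat_lit 380) (nat_lit 10650995978) (nat_lit 456) (nat_lit 2730150813) (nat_lit 124) (nat_lit 5) (nat_lit 129) (nat_lit 5) (nat_lit 130) (nat_lit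 5) (nat_lit 334) (nat_lit 298) (nat_lit 148))))) (XT.nd (nat_lit 234) (nat_lit 760) (nat_lit 0) (XT.nd (nat_lit 78) (nat_lit 456) (nat_lit 0) (XT.lf (nat_lit 0) (nat_lit 343023640) (nat_lit 456) (nat_lit 1987024299) (nat_lit 76) (nat_lit 20986841136) (nat_lit 123) (nat_lit 5) (nat_lit 129) (nat_lit 5) (nat_lit 124) (nat_lit 5) (nat_lit 335) (nat_lit 298) (nat_lit 147)) (XT.nd (nat_lit 78) (nat_lit 0) (nat_lit 0) (XT.lf (nat_lit 0) (nat_lit 3603751275) (nat_lit 532) (nat_lit 13898322295) (nat_lit 76) (nat_lit 6241040389) (nat_lit 117) (nat_lit 5) (nat_lit 124) (nat_lit 5) (nat_lit 118) (nat_lit 5) (nat_lit 336) (nat_lit 298) (nat_lit 146)) (XT.lf (nat_lit 0) (nat_lit 6999536680) (nat_lit 532) (nat_lit 2140015159) (nat_lit 76) (nat_lit 15041462222) (nat_lit 117) (nat_lit 5) (nat_lit 124) (nat_lit 5) (nat_lit 118) (nat_lit 5) (nat_lit 337) (nat_lit 298) (nat_lit 145)))) (XT.nd (nat_lit 156) (nat_lit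 380) (nat_lit 0) (XT.nd (nat_lit 78) (nat_lit 0) (nat_lit 0) (XT.lf (nat_lit 0) (nat_lit 10162040928) (nat_lit 380) (nat_lit 426918518) (nat_lit 456) (nat_lit 14040344194) (nat_lit 112) (nat_lit 5) (nat_lit 117) (nat_lit 5) (nat_lit 118) (nat_lit 5) (nat_lit 338) (nat_lit 298) (nat_lit 144)) (XT.lf (nat_lit 0) (nat_lit 14384218159) (nat_lit 456) (nat_lit 2303133471) (nat_lit 76) (nat_lit 8400750909) (nat_lit 112) (nat_lit 5) (nat_lit 118) (nat_lit 5) (nat_lit 113) (nat_lit 5) (nat_lit 339) (nat_lit 298) (nat_lit 143))) (XT.nd (nat_lit 78) (nat_lit 0) (nat_lit 0) (XT.lf (nat_lit 0) (nat_lit 10417804017) (nat_lit 380) (nat_lit 7974239111) (nat_lit 456) (nat_lit 7165666101) (nat_lit 107) (nat_lit 5) (nat_lit 112) (nat_lit 5) (nat_lit 113) (nat_lit 5) (nat_lit 340) (nat_lit 298) (nat_lit 142)) (XT.lf (nat_lit 0) (nat_lit 22547626421) (nat_lit 456) (nat_lit 2490234490) (nat_lit 76) (nat_lit 1002722432)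 (nat_lit 107) (nat_lit 5) (nat_lit 113) (nat_lit 5) (nat_lit 108) (nat_lit 5) (nat_lit 341) (nat_lit 298) (nat_lit 141)))))) (XT.nd (nat_lit 546) (nat_lit 988) (nat_lit 0) (XT.nd (nat_lit 234) (nat_lit 608) (nat_lit 0) (XT.nd (nat_lit 78) (nat_lit 380) (nat_lit 0) (XT.lf (nat_lit 0) (nat_lit 462029893) (nat_lit 380) (nat_lit 15876243249) (nat_lit 76) (nat_lit 10194258955) (nat_lit 102) (nat_lit 5) (nat_lit 107) (nat_lit 5) (nat_lit 103) (nat_lit 5) (nat_lit 342) (nat_lit 298) (nat_lit 140)) (XT.nd (nat_lit 78) (nat_lit 380) (nat_lit 0) (XT.lf (nat_lit 0) (nat_lit 4485473635) (nat_lit 380) (nat_lit 2832157545) (nat_lit 76) (nat_lit 19719974765) (nat_lit 102) (nat_lit 5) (nat_lit 107) (nat_lit 5) (nat_lit 103) (nat_lit 5) (nat_lit 343) (nat_lit 298) (nat_lit 139)) (XT.lf (nat_lit 0) (nat_lit 8748264557) (nat_lit 456) (nat_lit 16767610341) (nat_lit 76) (nat_lit 2038402176) (nat_lit 97) (nat_lit 5)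 (nat_lit 103) (nat_lit 5) (nat_lit 98) (nat_lit 5) (nat_lit 344) (nat_lit 298) (nat_lit 138)))) (XT.nd (nat_lit 156) (nat_lit 304) (nat_lit 0) (XT.nd (nat_lit 78) (nat_lit 304) (nat_lit 0) (XT.lf (nat_lit 0) (nat_lit 13235117522) (nat_lit 456) (nat_lit 3293176385) (nat_lit 76) (nat_lit 11555273333) (nat_lit 97) (nat_lit 5) (nat_lit 103) (nat_lit 5) (nat_lit 98) (nat_lit 5) (nat_lit 345) (nat_lit 298) (nat_lit 137)) (XT.lf (nat_lit 0) (nat_lit 10789267611) (nat_lit 304) (nat_lit 7166015801) (nat_lit 380) (nat_lit 10670495608) (nat_lit 93) (nat_lit 5) (nat_lit 97) (nat_lit 5) (nat_lit 98) (nat_lit 5) (nat_lit 346) (nat_lit 298) (nat_lit 136))) (XT.nd (nat_lit 78) (nat_lit 304) (nat_lit 0) (XT.lf (nat_lit 0) (nat_lit 22869508582) (nat_lit 380) (nat_lit 3852537546) (nat_lit 76) (nat_lit 2460641406) (nat_lit 93) (nat_lit 5) (nat_lit 98) (nat_lit 5) (nat_lit 94) (nat_lit 5) (nat_lit 347) (nat_lit 298)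 (nat_lit 135)) (XT.lf (nat_lit 0) (nat_lit 10681815583) (nat_lit 304) (nat_lit 17418178372) (nat_lit 380) (nat_lit 1651248237) (nat_lit 89) (nat_lit 5) (nat_lit 93) (nat_lit 5) (nat_lit 94) (nat_lit 5) (nat_lit 348) (nat_lit 298) (nat_lit 134))))) (XT.nd (nat_lit 234) (nat_lit 608) (nat_lit 0) (XT.nd (nat_lit 78) (nat_lit 304) (nat_lit 0) (XT.lf (nat_lit 0) (nat_lit 3123579088) (nat_lit 380) (nat_lit 4641847570) (nat_lit 76) (nat_lit 22569486440) (nat_lit 88) (nat_lit 5) (nat_lit 93) (nat_lit 5) (nat_lit 89) (nat_lit 5) (nat_lit 349) (nat_lit 298) (nat_lit 133)) (XT.nd (nat_lit 78) (nat_lit 0) (nat_lit 0) (XT.lf (nat_lit 0) (nat_lit 8125848475) (nat_lit 380) (nat_lit 20556151569) (nat_lit 76) (nat_lit 2250085609) (nat_lit 84) (nat_lit 5) (nat_lit 89) (nat_lit 5) (nat_lit 85) (nat_lit 5) (nat_lit 350) (nat_lit 298) (nat_lit 132)) (XT.lf (nat_lit 0) (nat_lit 13397832385) (nat_lit 380) (nat_lit 5690242747)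 (nat_lit 76) (nat_lit 12455512318) (nat_lit 84) (nat_lit 5) (nat_lit 89) (nat_lit 5) (nat_lit 85) (nat_lit 5) (nat_lit 351) (nat_lit 298) (nat_lit 131)))) (XT.nd (nat_lit 156) (nat_lit 304) (nat_lit 0) (XT.nd (nat_lit 78) (nat_lit 0) (nat_lit 0) (XT.lf (nat_lit 0) (nat_lit 9806668338) (nat_lit 304) (nat_lit 9111131844) (nat_lit 380) (nat_lit 13252942745) (nat_lit 80) (nat_lit 5) (nat_lit 84) (nat_lit 5) (nat_lit 85) (nat_lit 5) (nat_lit 352) (nat_lit 298) (nat_lit 130)) (XT.lf (nat_lit 0) (nat_lit 24668203544) (nat_lit 380) (nat_lit 6948019347) (nat_lit 76) (nat_lit 1198548341) (nat_lit 80) (nat_lit 5) (nat_lit 85) (nat_lit 5) (nat_lit 81) (nat_lit 5) (nat_lit 353) (nat_lit 298) (nat_lit 129))) (XT.nd (nat_lit 78) (nat_lit 76) (nat_lit 0) (XT.lf (nat_lit 0) (nat_lit 9009917982) (nat_lit 228) (nat_lit 21753754509) (nat_lit 304) (nat_lit 2709274455) (nat_lit 77) (nat_lit 5) (nat_lit 80) (nat_lit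 5) (nat_lit 81) (nat_lit 5) (nat_lit 354) (nat_lit 298) (nat_lit 128)) (XT.lf (nat_lit 0) (nat_lit 2901333066) (nat_lit 304) (nat_lit 8594461021) (nat_lit 76) (nat_lit 22652244726) (nat_lit 76) (nat_lit 5) (nat_lit 80) (nat_lit 5) (nat_lit 77) (nat_lit 5) (nat_lit 355) (nat_lit 298) (nat_lit 127))))))) (XT.nd (nat_lit 1092) (nat_lit 1140) (nat_lit 0) (XT.nd (nat_lit 546) (nat_lit 684) (nat_lit 0) (XT.nd (nat_lit 234) (nat_lit 532) (nat_lit 0) (XT.nd (nat_lit 78) (nat_lit 228) (nat_lit 0) (XT.lf (nat_lit 0) (nat_lit 7870877268) (nat_lit 304) (nat_lit 826467073) (nat_lit 380) (nat_lit 26143091080) (nat_lit 72) (nat_lit 5) (nat_lit 76) (nat_lit 5) (nat_lit 77) (nat_lit 5) (nat_lit 356) (nat_lit 298) (nat_lit 126)) (XT.nd (nat_lit 78) (nat_lit 228) (nat_lit 0) (XT.lf (nat_lit 0) (nat_lit 14848498230) (nat_lit 380) (nat_lit 10649296242) (nat_lit 76) (nat_lit 10050374398) (nat_lit 72) (nat_lit 5) (nat_lit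 77) (nat_lit 5) (nat_lit 73) (nat_lit 5) (nat_lit 357) (nat_lit 298) (nat_lit 125)) (XT.lf (nat_lit 0) (nat_lit 6268797115) (nat_lit 228) (nat_lit 14979874107) (nat_lit 304) (nat_lit 15026531296) (nat_lit 69) (nat_lit 5) (nat_lit 72) (nat_lit 5) (nat_lit 73) (nat_lit 5) (nat_lit 358) (nat_lit 298) (nat_lit 124)))) (XT.nd (nat_lit 156) (nat_lit 304) (nat_lit 0) (XT.nd (nat_lit 78) (nat_lit 228) (nat_lit 0) (XT.lf (nat_lit 0) (nat_lit 23906871070) (nat_lit 228) (nat_lit 4037616403) (nat_lit 304) (nat_lit 9076453210) (nat_lit 69) (nat_lit 5) (nat_lit 72) (nat_lit 5) (nat_lit 73) (nat_lit 5) (nat_lit 359) (nat_lit 298) (nat_lit 123)) (XT.lf (nat_lit 0) (nat_lit 4293501379) (nat_lit 228) (nat_lit 30654672037) (nat_lit 304) (nat_lit 2837670295) (nat_lit 66) (nat_lit 5) (nat_lit 69) (nat_lit 5) (nat_lit 70) (nat_lit 5) (nat_lit 360) (nat_lit 298) (nat_lit 122))) (XT.nd (nat_lit 78) (nat_lit 228) (nat_lit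 0) (XT.lf (nat_lit 0) (nat_lit 3688182275) (nat_lit 304) (nat_lit 16159186670) (nat_lit 76) (nat_lit 18720194738) (nat_lit 65) (nat_lit 5) (nat_lit 69) (nat_lit 5) (nat_lit 66) (nat_lit 5) (nat_lit 361) (nat_lit 298) (nat_lit 121)) (XT.lf (nat_lit 0) (nat_lit 1693268472) (nat_lit 228) (nat_lit 8672107057) (nat_lit 304) (nat_lit 29006141224) (nat_lit 62) (nat_lit 5) (nat_lit 65) (nat_lit 5) (nat_lit 66) (nat_lit 5) (nat_lit 362) (nat_lit 298) (nat_lit 120))))) (XT.nd (nat_lit 234) (nat_lit 456) (nat_lit 0) (XT.nd (nat_lit 78) (nat_lit 228) (nat_lit 0) (XT.lf (nat_lit 0) (nat_lit 17431318133) (nat_lit 304) (nat_lit 19816726588) (nat_lit 76) (nat_lit 2945892974) (nat_lit 62) (nat_lit 5) (nat_lit 66) (nat_lit 5) (nat_lit 63) (nat_lit 5) (nat_lit 363) (nat_lit 298) (nat_lit 119)) (XT.nd (nat_lit 78) (nat_lit 228) (nat_lit 0) (XT.lf (nat_lit 0) (nat_lit 24791564844) (nat_lit 304) (nat_lit 1510734356)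 (nat_lit 76) (nat_lit 14736264509) (nat_lit 62) (nat_lit 5) (nat_lit 66) (nat_lit 5) (nat_lit 63) (nat_lit 5) (nat_lit 364) (nat_lit 298) (nat_lit 118)) (XT.lf (nat_lit 0) (nat_lit 17684167340) (nat_lit 228) (nat_lit 14855009044) (nat_lit 304) (nat_lit 9364357553) (nat_lit 59) (nat_lit 5) (nat_lit 62) (nat_lit 5) (nat_lit 63) (nat_lit 5) (nat_lit 365) (nat_lit 298) (nat_lit 117)))) (XT.nd (nat_lit 156) (nat_lit 228) (nat_lit 0) (XT.nd (nat_lit 78) (nat_lit 228) (nat_lit 0) (XT.lf (nat_lit 0) (nat_lit 37480585029) (nat_lit 228) (nat_lit 3050502153) (nat_lit 304) (nat_lit 2263012054) (nat_lit 59) (nat_lit 5) (nat_lit 62) (nat_lit 5) (nat_lit 63) (nat_lit 5) (nat_lit 366) (nat_lit 298) (nat_lit 116)) (XT.lf (nat_lit 0) (nat_lit 5177159228) (nat_lit 228) (nat_lit 29408786946) (nat_lit 76) (nat_lit 9117249908) (nat_lit 56) (nat_lit 5) (nat_lit 59) (nat_lit 5) (nat_lit 57) (nat_lit 5) (nat_lit 367) (nat_lit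 298) (nat_lit 115))) (XT.nd (nat_lit 78) (nat_lit 228) (nat_lit 0) (XT.lf (nat_lit 0) (nat_lit 12876150108) (nat_lit 228) (nat_lit 10096848616) (nat_lit 76) (nat_lit 21663463879) (nat_lit 56) (nat_lit 5) (nat_lit 59) (nat_lit 5) (nat_lit 57) (nat_lit 5) (nat_lit 368) (nat_lit 298) (nat_lit 114)) (XT.lf (nat_lit 0) (nat_lit 9984183814) (nat_lit 228) (nat_lit 10914705297) (nat_lit 304) (nat_lit 24696056517) (nat_lit 53) (nat_lit 5) (nat_lit 56) (nat_lit 5) (nat_lit 57) (nat_lit 5) (nat_lit 369) (nat_lit 298) (nat_lit 113)))))) (XT.nd (nat_lit 546) (nat_lit 532) (nat_lit 0) (XT.nd (nat_lit 234) (nat_lit 456) (nat_lit 0) (XT.nd (nat_lit 78) (nat_lit 152) (nat_lit 0) (XT.lf (nat_lit 0) (nat_lit 29276579125) (nat_lit 304) (nat_lit 15725101068) (nat_lit 76) (nat_lit 1577076688) (nat_lit 53) (nat_lit 5) (nat_lit 57) (nat_lit 5) (nat_lit 54) (nat_lit 5) (nat_lit 370) (nat_lit 298) (nat_lit 112)) (XT.nd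 (nat_lit 78) (nat_lit 0) (nat_lit 0) (XT.lf (nat_lit 0) (nat_lit 4736519090) (nat_lit 152) (nat_lit 33319600525) (nat_lit 228) (nat_lit 9531449018) (nat_lit 51) (nat_lit 5) (nat_lit 53) (nat_lit 5) (nat_lit 54) (nat_lit 5) (nat_lit 371) (nat_lit 298) (nat_lit 111)) (XT.lf (nat_lit 0) (nat_lit 26129415173) (nat_lit 152) (nat_lit 21125389208) (nat_lit 228) (nat_lit 1367169315) (nat_lit 51) (nat_lit 5) (nat_lit 53) (nat_lit 5) (nat_lit 54) (nat_lit 5) (nat_lit 372) (nat_lit 298) (nat_lit 110)))) (XT.nd (nat_lit 156) (nat_lit 152) (nat_lit 0) (XT.nd (nat_lit 78) (nat_lit 228) (nat_lit 0) (XT.lf (nat_lit 0) (nat_lit 6901646209) (nat_lit 228) (nat_lit 1595844492) (nat_lit 76) (nat_lit 41187980353) (nat_lit 50) (nat_lit 5) (nat_lit 53) (nat_lit 5) (nat_lit 51) (nat_lit 5) (nat_lit 373) (nat_lit 298) (nat_lit 109)) (XT.lf (nat_lit 0) (nat_lit 15628743515) (nat_lit 304) (nat_lit 30514319558) (nat_lit 76)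 (nat_lit 4630274844) (nat_lit 47) (nat_lit 5) (nat_lit 51) (nat_lit 5) (nat_lit 48) (nat_lit 5) (nat_lit 374) (nat_lit 298) (nat_lit 108))) (XT.nd (nat_lit 78) (nat_lit 152) (nat_lit 0) (XT.lf (nat_lit 0) (nat_lit 24715193593) (nat_lit 304) (nat_lit 9180132160) (nat_lit 76) (nat_lit 17995590350) (nat_lit 47) (nat_lit 5) (nat_lit 51) (nat_lit 5) (nat_lit 48) (nat_lit 5) (nat_lit 375) (nat_lit 298) (nat_lit 107)) (XT.lf (nat_lit 0) (nat_lit 13044032409) (nat_lit 152) (nat_lit 21152807349) (nat_lit 228) (nat_lit 18841505266) (nat_lit 45) (nat_lit 5) (nat_lit 47) (nat_lit 5) (nat_lit 48) (nat_lit 5) (nat_lit 376) (nat_lit 298) (nat_lit 106))))) (XT.nd (nat_lit 234) (nat_lit 304) (nat_lit 0) (XT.nd (nat_lit 78) (nat_lit 228) (nat_lit 0) (XT.lf (nat_lit 0) (nat_lit 36118566066) (nat_lit 152) (nat_lit 7934323413) (nat_lit 228) (nat_lit 10164610133) (nat_lit 45) (nat_lit 5) (nat_lit 47) (nat_lit 5) (nat_lit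 48) (nat_lit 5) (nat_lit 377) (nat_lit 298) (nat_lit 105)) (XT.nd (nat_lit 78) (nat_lit 76) (nat_lit 0) (XT.lf (nat_lit 0) (nat_lit 4481682136) (nat_lit 152) (nat_lit 49817941856) (nat_lit 228) (nat_lit 1129556130) (nat_lit 43) (nat_lit 5) (nat_lit 45) (nat_lit 5) (nat_lit 46) (nat_lit 5) (nat_lit 378) (nat_lit 298) (nat_lit 104)) (XT.lf (nat_lit 0) (nat_lit 8277450690) (nat_lit 228) (nat_lit 28724449370) (nat_lit 76) (nat_lit 19665140698) (nat_lit 42) (nat_lit 5) (nat_lit 45) (nat_lit 5) (nat_lit 43) (nat_lit 5) (nat_lit 379) (nat_lit 298) (nat_lit 103)))) (XT.nd (nat_lit 156) (nat_lit 152) (nat_lit 0) (XT.nd (nat_lit 78) (nat_lit 152) (nat_lit 0) (XT.lf (nat_lit 0) (nat_lit 17941366883) (nat_lit 228) (nat_lit 5850245178) (nat_lit 76) (nat_lit 34150168843) (nat_lit 42) (nat_lit 5) (nat_lit 45) (nat_lit 5) (nat_lit 43) (nat_lit 5) (nat_lit 380) (nat_lit 298) (nat_lit 102)) (XT.lf (nat_lit 0) (nat_lit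 18058343059) (nat_lit 152) (nat_lit 10007923134) (nat_lit 228) (nat_lit 31183366319) (nat_lit 40) (nat_lit 5) (nat_lit 42) (nat_lit 5) (nat_lit 43) (nat_lit 5) (nat_lit 381) (nat_lit 298) (nat_lit 101))) (XT.nd (nat_lit 78) (nat_lit 152) (nat_lit 0) (XT.lf (nat_lit 0) (nat_lit 38592338032) (nat_lit 228) (nat_lit 17835932495) (nat_lit 76) (nat_lit 4165527571) (nat_lit 40) (nat_lit 5) (nat_lit 43) (nat_lit 5) (nat_lit 41) (nat_lit 5) (nat_lit 382) (nat_lit 298) (nat_lit 100)) (XT.lf (nat_lit 0) (nat_lit 6238614727) (nat_lit 152) (nat_lit 43352202737) (nat_lit 228) (nat_lit 12382773581) (nat_lit 38) (nat_lit 5) (nat_lit 40) (nat_lit 5) (nat_lit 41) (nat_lit 5) (nat_lit 383) (nat_lit 298) (nat_lit 99))))))))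
noncomputable def xc193 : XT := (XT.nd (nat_lit 34866) (nat_lit 0) (nat_lit 6992) (XT.nd (nat_lit 1092) (nat_lit 228) (nat_lit 0) (XT.nd (nat_lit 546) (nat_lit 380) (nat_lit 0) (XT.nd (nat_lit 234) (nat_lit 152) (nat_lit 0) (XT.nd (nat_lit 78) (nat_lit 228) (nat_lit 0) (XT.lf (nat_lit 0) (nat_lit 31396937945) (nat_lit 152) (nat_lit 29700020619) (nat_lit 228) (nat_lit 2292489122) (nat_lit 38) (nat_lit 5) (nat_lit 40) (nat_lit 5) (nat_lit 41) (nat_lit 5) (nat_lit 384) (nat_lit 298) (nat_lit 98)) (XT.nd (nat_lit 78) (nat_lit 152) (nat_lit 0) (XT.lf (nat_lit 0) (nat_lit 7940078976) (nat_lit 228) (nat_lit 7619644822) (nat_lit 76) (nat_lit 49285791927) (nat_lit 37) (nat_lit 5) (nat_lit 40) (nat_lit 5) (nat_lit 38) (nat_lit 5) (nat_lit 385) (nat_lit 298) (nat_lit 97)) (XT.lf (nat_lit 0) (nat_lit 17805261008) (nat_lit 152) (nat_lit 797155111) (nat_lit 228) (nat_lit 47737103712) (nat_lit 35) (nat_lit 5)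 (nat_lit 37) (nat_lit 5) (nat_lit 38) (nat_lit 5) (nat_lit 386) (nat_lit 298) (nat_lit 96)))) (XT.nd (nat_lit 156) (nat_lit 0) (nat_lit 0) (XT.nd (nat_lit 78) (nat_lit 152) (nat_lit 0) (XT.lf (nat_lit 0) (nat_lit 29798557870) (nat_lit 228) (nat_lit 23870096710) (nat_lit 76) (nat_lit 14203272448) (nat_lit 35) (nat_lit 5) (nat_lit 38) (nat_lit 5) (nat_lit 36) (nat_lit 5) (nat_lit 387) (nat_lit 298) (nat_lit 95)) (XT.lf (nat_lit 0) (nat_lit 1552601189) (nat_lit 152) (nat_lit 39798593937) (nat_lit 228) (nat_lit 28098493947) (nat_lit 33) (nat_lit 5) (nat_lit 35) (nat_lit 5) (nat_lit 36) (nat_lit 5) (nat_lit 388) (nat_lit 298) (nat_lit 94))) (XT.nd (nat_lit 78) (nat_lit 0) (nat_lit 0) (XT.lf (nat_lit 0) (nat_lit 28223537502) (nat_lit 152) (nat_lit 25265737391) (nat_lit 228) (nat_lit 17578344126) (nat_lit 33) (nat_lit 5) (nat_lit 35) (nat_lit 5) (nat_lit 36) (nat_lit 5) (nat_lit 389) (nat_lit 298) (nat_lit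 93)) (XT.lf (nat_lit 0) (nat_lit 55690955199) (nat_lit 152) (nat_lit 10298427503) (nat_lit 228) (nat_lit 6744768504) (nat_lit 33) (nat_lit 5) (nat_lit 35) (nat_lit 5) (nat_lit 36) (nat_lit 5) (nat_lit 390) (nat_lit 298) (nat_lit 92))))) (XT.nd (nat_lit 234) (nat_lit 228) (nat_lit 0) (XT.nd (nat_lit 78) (nat_lit 0) (nat_lit 0) (XT.lf (nat_lit 0) (nat_lit 4469130861) (nat_lit 152) (nat_lit 64822713140) (nat_lit 76) (nat_lit 5153319997) (nat_lit 31) (nat_lit 5) (nat_lit 33) (nat_lit 5) (nat_lit 32) (nat_lit 5) (nat_lit 391) (nat_lit 298) (nat_lit 91)) (XT.nd (nat_lit 78) (nat_lit 0) (nat_lit 0) (XT.lf (nat_lit 0) (nat_lit 16157593446) (nat_lit 152) (nat_lit 38938952003) (nat_lit 76) (nat_lit 21100747882) (nat_lit 31) (nat_lit 5) (nat_lit 33) (nat_lit 5) (nat_lit 32) (nat_lit 5) (nat_lit 392) (nat_lit 298) (nat_lit 90)) (XT.lf (nat_lit 0) (nat_lit 28194707897) (nat_lit 152) (nat_lit 12282168665) (nat_lit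 76) (nat_lit 37525170856) (nat_lit 31) (nat_lit 5) (nat_lit 33) (nat_lit 5) (nat_lit 32) (nat_lit 5) (nat_lit 393) (nat_lit 298) (nat_lit 89)))) (XT.nd (nat_lit 156) (nat_lit 76) (nat_lit 0) (XT.nd (nat_lit 78) (nat_lit 0) (nat_lit 0) (XT.lf (nat_lit 0) (nat_lit 15472860445) (nat_lit 152) (nat_lit 25266866233) (nat_lit 228) (nat_lit 39116814510) (nat_lit 29) (nat_lit 5) (nat_lit 31) (nat_lit 5) (nat_lit 32) (nat_lit 5) (nat_lit 394) (nat_lit 298) (nat_lit 88)) (XT.lf (nat_lit 0) (nat_lit 44308957107) (nat_lit 152) (nat_lit 9474245392) (nat_lit 228) (nat_lit 27979804845) (nat_lit 29) (nat_lit 5) (nat_lit 31) (nat_lit 5) (nat_lit 32) (nat_lit 5) (nat_lit 395) (nat_lit 298) (nat_lit 87))) (XT.nd (nat_lit 78) (nat_lit 76) (nat_lit 0) (XT.lf (nat_lit 0) (nat_lit 67281396087) (nat_lit 228) (nat_lit 9785122397) (nat_lit 76) (nat_lit 6658247339) (nat_lit 29) (nat_lit 5) (nat_lit 32) (nat_lit 5) (nat_lit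 30) (nat_lit 4) (nat_lit 396) (nat_lit 298) (nat_lit 86)) (XT.lf (nat_lit 0) (nat_lit 18987375873) (nat_lit 76) (nat_lit 62471660108) (nat_lit 152) (nat_lit 4278106782) (nat_lit 28) (nat_lit 5) (nat_lit 29) (nat_lit 5) (nat_lit 30) (nat_lit 4) (nat_lit 397) (nat_lit 298) (nat_lit 85)))))) (XT.nd (nat_lit 33228) (nat_lit 0) (nat_lit 12996) (XT.nd (nat_lit 32916) (nat_lit 0) (nat_lit 12996) (XT.nd (nat_lit 78) (nat_lit 152) (nat_lit 0) (XT.lf (nat_lit 0) (nat_lit 8189056342) (nat_lit 152) (nat_lit 39066805409) (nat_lit 76) (nat_lit 40548711088) (nat_lit 27) (nat_lit 5) (nat_lit 29) (nat_lit 5) (nat_lit 28) (nat_lit 5) (nat_lit 398) (nat_lit 298) (nat_lit 84)) (XT.nd (nat_lit 78) (nat_lit 152) (nat_lit 0) (XT.lf (nat_lit 0) (nat_lit 20942483483) (nat_lit 152) (nat_lit 10598829596) (nat_lit 76) (nat_lit 58391495628) (nat_lit 27) (nat_lit 5) (nat_lit 29) (nat_lit 5) (nat_lit 28) (nat_lit 5) (nat_lit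 399) (nat_lit 298) (nat_lit 83)) (XT.lf (nat_lit 0) (nat_lit 19092727133) (nat_lit 152) (nat_lit 15167603524) (nat_lit 228) (nat_lit 57859107119) (nat_lit 25) (nat_lit 5) (nat_lit 27) (nat_lit 5) (nat_lit 28) (nat_lit 5) (nat_lit 400) (nat_lit 298) (nat_lit 82)))) (XT.nd (nat_lit 156) (nat_lit 1064) (nat_lit 0) (XT.nd (nat_lit 78) (nat_lit 0) (nat_lit 0) (XT.lf (nat_lit 0) (nat_lit 6139809748) (nat_lit 1140) (nat_lit 232935974) (nat_lit 1140) (nat_lit 232935974) (nat_lit 210) (nat_lit 3) (nat_lit 225) (nat_lit 3) (nat_lit 225) (nat_lit 5) (nat_lit 299) (nat_lit 299) (nat_lit 182)) (XT.lf (nat_lit 76) (nat_lit 5659780261) (nat_lit 0) (nat_lit 7222912382) (nat_lit 1140) (nat_lit 513824497) (nat_lit 211) (nat_lit 5) (nat_lit 210) (nat_lit 3) (nat_lit 225) (nat_lit 5) (nat_lit 300) (nat_lit 299) (nat_lit 181))) (XT.nd (nat_lit 78) (nat_lit 1064) (nat_lit 0) (XT.lf (nat_lit 76) (nat_lit 11971271643)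 (nat_lit 0) (nat_lit 1522994446) (nat_lit 1140) (nat_lit 93264745) (nat_lit 211) (nat_lit 5) (nat_lit 210) (nat_lit 3) (nat_lit 225) (nat_lit 5) (nat_lit 301) (nat_lit 299) (nat_lit 180)) (XT.lf (nat_lit 0) (nat_lit 407441323) (nat_lit 1140) (nat_lit 9055493696) (nat_lit 1216) (nat_lit 4319033590) (nat_lit 196) (nat_lit 5) (nat_lit 211) (nat_lit 5) (nat_lit 212) (nat_lit 5) (nat_lit 302) (nat_lit 299) (nat_lit 179))))) (XT.nd (nat_lit 234) (nat_lit 0) (nat_lit 152) (XT.nd (nat_lit 78) (nat_lit 0) (nat_lit 76) (XT.lf (nat_lit 0) (nat_lit 939218333) (nat_lit 1140) (nat_lit 2713262210) (nat_lit 1216) (nat_lit 10329209628) (nat_lit 196) (nat_lit 5) (nat_lit 211) (nat_lit 5) (nat_lit 212) (nat_lit 5) (nat_lit 303) (nat_lit 299) (nat_lit 178)) (XT.nd (nat_lit 78) (nat_lit 0) (nat_lit 0) (XT.lf (nat_lit 0) (nat_lit 1533918209) (nat_lit 1140) (nat_lit 10322183689) (nat_lit 1216) (nat_lit 2329908009) (nat_lit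 197) (nat_lit 5) (nat_lit 212) (nat_lit 5) (nat_lit 213) (nat_lit 5) (nat_lit 304) (nat_lit 299) (nat_lit 177)) (XT.lf (nat_lit 0) (nat_lit 2197414451) (nat_lit 1140) (nat_lit 3746341735) (nat_lit 1216) (nat_lit 8451189549) (nat_lit 197) (nat_lit 5) (nat_lit 212) (nat_lit 5) (nat_lit 213) (nat_lit 5) (nat_lit 305) (nat_lit 299) (nat_lit 176)))) (XT.nd (nat_lit 156) (nat_lit 0) (nat_lit 0) (XT.nd (nat_lit 78) (nat_lit 0) (nat_lit 0) (XT.lf (nat_lit 0) (nat_lit 2899650496) (nat_lit 1140) (nat_lit 11532414765) (nat_lit 1216) (nat_lit 177534048) (nat_lit 198) (nat_lit 5) (nat_lit 213) (nat_lit 5) (nat_lit 214) (nat_lit 5) (nat_lit 306) (nat_lit 299) (nat_lit 175)) (XT.lf (nat_lit 0) (nat_lit 3707836878) (nat_lit 1140) (nat_lit 4714794216) (nat_lit 1216) (nat_lit 6405529190) (nat_lit 198) (nat_lit 5) (nat_lit 213) (nat_lit 5) (nat_lit 214) (nat_lit 5) (nat_lit 307) (nat_lit 299) (nat_lit 174))) (XT.nd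 (nat_lit 78) (nat_lit 0) (nat_lit 76) (XT.lf (nat_lit 76) (nat_lit 2345130524) (nat_lit 0) (nat_lit 2205864572) (nat_lit 1216) (nat_lit 10501975078) (nat_lit 199) (nat_lit 5) (nat_lit 198) (nat_lit 5) (nat_lit 214) (nat_lit 5) (nat_lit 308) (nat_lit 299) (nat_lit 173)) (XT.lf (nat_lit 0) (nat_lit 5496364215) (nat_lit 1140) (nat_lit 5618716790) (nat_lit 1216) (nat_lit 4167149343) (nat_lit 199) (nat_lit 5) (nat_lit 214) (nat_lit 5) (nat_lit 215) (nat_lit 5) (nat_lit 309) (nat_lit 299) (nat_lit 172))))))) (XT.nd (nat_lit 1092) (nat_lit 3420) (nat_lit 0) (XT.nd (nat_lit 546) (nat_lit 1900) (nat_lit 0) (XT.nd (nat_lit 234) (nat_lit 912) (nat_lit 0) (XT.nd (nat_lit 78) (nat_lit 0) (nat_lit 76) (XT.lf (nat_lit 76) (nat_lit 1686079853) (nat_lit 0) (nat_lit 4810884335) (nat_lit 1216) (nat_lit 9020611123) (nat_lit 200) (nat_lit 5) (nat_lit 199) (nat_lit 5) (nat_lit 215) (nat_lit 5) (nat_lit 310) (nat_lit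 299) (nat_lit 171)) (XT.nd (nat_lit 78) (nat_lit 0) (nat_lit 0) (XT.lf (nat_lit 0) (nat_lit 7590153653) (nat_lit 1140) (nat_lit 6458165314) (nat_lit 1216) (nat_lit 1709797206) (nat_lit 200) (nat_lit 5) (nat_lit 215) (nat_lit 5) (nat_lit 216) (nat_lit 5) (nat_lit 311) (nat_lit 299) (nat_lit 170)) (XT.lf (nat_lit 76) (nat_lit 1102130970) (nat_lit 0) (nat_lit 7661651293) (nat_lit 1216) (nat_lit 7240674023) (nat_lit 201) (nat_lit 5) (nat_lit 200) (nat_lit 5) (nat_lit 216) (nat_lit 5) (nat_lit 312) (nat_lit 299) (nat_lit 169)))) (XT.nd (nat_lit 156) (nat_lit 988) (nat_lit 0) (XT.nd (nat_lit 78) (nat_lit 0) (nat_lit 76) (XT.lf (nat_lit 76) (nat_lit 9013593897) (nat_lit 0) (nat_lit 1013888308) (nat_lit 1216) (nat_lit 6229070490) (nat_lit 201) (nat_lit 5) (nat_lit 200) (nat_lit 5) (nat_lit 216) (nat_lit 5) (nat_lit 313) (nat_lit 299) (nat_lit 168)) (XT.lf (nat_lit 76) (nat_lit 593568756) (nat_lit 0) (nat_lit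 10787274338) (nat_lit 1216) (nat_lit 5133828024) (nat_lit 202) (nat_lit 5) (nat_lit 201) (nat_lit 5) (nat_lit 217) (nat_lit 5) (nat_lit 314) (nat_lit 299) (nat_lit 167))) (XT.nd (nat_lit 78) (nat_lit 1064) (nat_lit 0) (XT.lf (nat_lit 76) (nat_lit 8795377805) (nat_lit 0) (nat_lit 4052692380) (nat_lit 1216) (nat_lit 3930276228) (nat_lit 202) (nat_lit 5) (nat_lit 201) (nat_lit 5) (nat_lit 217) (nat_lit 5) (nat_lit 315) (nat_lit 299) (nat_lit 166)) (XT.lf (nat_lit 0) (nat_lit 160592396) (nat_lit 1140) (nat_lit 14218475417) (nat_lit 1216) (nat_lit 2670282496) (nat_lit 187) (nat_lit 5) (nat_lit 202) (nat_lit 5) (nat_lit 203) (nat_lit 5) (nat_lit 316) (nat_lit 299) (nat_lit 165))))) (XT.nd (nat_lit 234) (nat_lit 1140) (nat_lit 0) (XT.nd (nat_lit 78) (nat_lit 760) (nat_lit 0) (XT.lf (nat_lit 0) (nat_lit 8663130278) (nat_lit 1140) (nat_lit 7403897319) (nat_lit 1216) (nat_lit 1258136389) (nat_lit 187) (nat_lit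 5) (nat_lit 202) (nat_lit 5) (nat_lit 203) (nat_lit 5) (nat_lit 317) (nat_lit 299) (nat_lit 164)) (XT.nd (nat_lit 78) (nat_lit 684) (nat_lit 0) (XT.lf (nat_lit 0) (nat_lit 183401349) (nat_lit 1216) (nat_lit 198401695) (nat_lit 76) (nat_lit 17227676646) (nat_lit 186) (nat_lit 5) (nat_lit 202) (nat_lit 5) (nat_lit 187) (nat_lit 5) (nat_lit 318) (nat_lit 299) (nat_lit 163)) (XT.lf (nat_lit 0) (nat_lit 1784160480) (nat_lit 760) (nat_lit 9298487527) (nat_lit 76) (nat_lit 6815075010) (nat_lit 177) (nat_lit 5) (nat_lit 187) (nat_lit 5) (nat_lit 178) (nat_lit 5) (nat_lit 319) (nat_lit 299) (nat_lit 162)))) (XT.nd (nat_lit 156) (nat_lit 532) (nat_lit 0) (XT.nd (nat_lit 78) (nat_lit 608) (nat_lit 0) (XT.lf (nat_lit 0) (nat_lit 3430065413) (nat_lit 760) (nat_lit 541461319) (nat_lit 76) (nat_lit 14223182669) (nat_lit 177) (nat_lit 5) (nat_lit 187) (nat_lit 5) (nat_lit 178) (nat_lit 5) (nat_lit 320) (nat_lit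 299) (nat_lit 161)) (XT.lf (nat_lit 0) (nat_lit 5233023433) (nat_lit 684) (nat_lit 9892323596) (nat_lit 76) (nat_lit 3372037240) (nat_lit 169) (nat_lit 5) (nat_lit 178) (nat_lit 5) (nat_lit 170) (nat_lit 5) (nat_lit 321) (nat_lit 299) (nat_lit 160))) (XT.nd (nat_lit 78) (nat_lit 532) (nat_lit 0) (XT.lf (nat_lit 0) (nat_lit 7126663801) (nat_lit 684) (nat_lit 819204312) (nat_lit 76) (nat_lit 10862182368) (nat_lit 169) (nat_lit 5) (nat_lit 178) (nat_lit 5) (nat_lit 170) (nat_lit 5) (nat_lit 322) (nat_lit 299) (nat_lit 159)) (XT.lf (nat_lit 0) (nat_lit 8687942049) (nat_lit 532) (nat_lit 464675172) (nat_lit 608) (nat_lit 9973162989) (nat_lit 162) (nat_lit 5) (nat_lit 169) (nat_lit 5) (nat_lit 170) (nat_lit 5) (nat_lit 323) (nat_lit 299) (nat_lit 158)))))) (XT.nd (nat_lit 546) (nat_lit 1824) (nat_lit 0) (XT.nd (nat_lit 234) (nat_lit 1064) (nat_lit 0) (XT.nd (nat_lit 78) (nat_lit 532) (nat_lit 0) (XT.lf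 (nat_lit 0) (nat_lit 11309460193) (nat_lit 608) (nat_lit 1033254475) (nat_lit 76) (nat_lit 7108232228) (nat_lit 162) (nat_lit 5) (nat_lit 170) (nat_lit 5) (nat_lit 163) (nat_lit 5) (nat_lit 324) (nat_lit 299) (nat_lit 157)) (XT.nd (nat_lit 78) (nat_lit 0) (nat_lit 0) (XT.lf (nat_lit 0) (nat_lit 8813202404) (nat_lit 532) (nat_lit 4799505474) (nat_lit 608) (nat_lit 6170717873) (nat_lit 155) (nat_lit 5) (nat_lit 162) (nat_lit 5) (nat_lit 163) (nat_lit 5) (nat_lit 325) (nat_lit 299) (nat_lit 156)) (XT.lf (nat_lit 0) (nat_lit 16016668656) (nat_lit 608) (nat_lit 1185782097) (nat_lit 76) (nat_lit 2922487660) (nat_lit 155) (nat_lit 5) (nat_lit 163) (nat_lit 5) (nat_lit 156) (nat_lit 5) (nat_lit 326) (nat_lit 299) (nat_lit 155)))) (XT.nd (nat_lit 156) (nat_lit 532) (nat_lit 0) (XT.nd (nat_lit 78) (nat_lit 76) (nat_lit 0) (XT.lf (nat_lit 0) (nat_lit 9012978227) (nat_lit 456) (nat_lit 9606674802) (nat_lit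 532) (nat_lit 1853243964) (nat_lit 149) (nat_lit 5) (nat_lit 155) (nat_lit 5) (nat_lit 156) (nat_lit 5) (nat_lit 327) (nat_lit 299) (nat_lit 154)) (XT.lf (nat_lit 0) (nat_lit 465173025) (nat_lit 532) (nat_lit 1301203539) (nat_lit 76) (nat_lit 19064642612) (nat_lit 148) (nat_lit 5) (nat_lit 155) (nat_lit 5) (nat_lit 149) (nat_lit 5) (nat_lit 328) (nat_lit 299) (nat_lit 153))) (XT.nd (nat_lit 78) (nat_lit 0) (nat_lit 0) (XT.lf (nat_lit 0) (nat_lit 2960196803) (nat_lit 608) (nat_lit 11940240331) (nat_lit 76) (nat_lit 6294575372) (nat_lit 141) (nat_lit 5) (nat_lit 149) (nat_lit 5) (nat_lit 142) (nat_lit 5) (nat_lit 329) (nat_lit 299) (nat_lit 152)) (XT.lf (nat_lit 0) (nat_lit 5553975355) (nat_lit 608) (nat_lit 1440608013) (nat_lit 76) (nat_lit 14574631971) (nat_lit 141) (nat_lit 5) (nat_lit 149) (nat_lit 5) (nat_lit 142) (nat_lit 5) (nat_lit 330) (nat_lit 299) (nat_lit 151))))) (XT.nd (nat_lit 234)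 (nat_lit 912) (nat_lit 0) (XT.nd (nat_lit 78) (nat_lit 456) (nat_lit 0) (XT.lf (nat_lit 0) (nat_lit 8322684751) (nat_lit 532) (nat_lit 12410947367) (nat_lit 76) (nat_lit 1218105239) (nat_lit 135) (nat_lit 5) (nat_lit 142) (nat_lit 5) (nat_lit 136) (nat_lit 5) (nat_lit 331) (nat_lit 299) (nat_lit 150)) (XT.nd (nat_lit 78) (nat_lit 456) (nat_lit 0) (XT.lf (nat_lit 0) (nat_lit 11251862127) (nat_lit 532) (nat_lit 1540996328) (nat_lit 76) (nat_lit 9550560815) (nat_lit 135) (nat_lit 5) (nat_lit 142) (nat_lit 5) (nat_lit 136) (nat_lit 5) (nat_lit 332) (nat_lit 299) (nat_lit 149)) (XT.lf (nat_lit 0) (nat_lit 9839819519) (nat_lit 456) (nat_lit 4517334144) (nat_lit 532) (nat_lit 8387057058) (nat_lit 129) (nat_lit 5) (nat_lit 135) (nat_lit 5) (nat_lit 136) (nat_lit 5) (nat_lit 333) (nat_lit 299) (nat_lit 148)))) (XT.nd (nat_lit 156) (nat_lit 532) (nat_lit 0) (XT.nd (nat_lit 78) (nat_lit 380) (nat_lit 0) (XT.lf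 (nat_lit 0) (nat_lit 17603590914) (nat_lit 532) (nat_lit 1608933887) (nat_lit 76) (nat_lit 3943067569) (nat_lit 129) (nat_lit 5) (nat_lit 136) (nat_lit 5) (nat_lit 130) (nat_lit 5) (nat_lit 334) (nat_lit 299) (nat_lit 147)) (XT.lf (nat_lit 0) (nat_lit 10172010934) (nat_lit 380) (nat_lit 10911857140) (nat_lit 456) (nat_lit 2491359880) (nat_lit 124) (nat_lit 5) (nat_lit 129) (nat_lit 5) (nat_lit 130) (nat_lit 5) (nat_lit 335) (nat_lit 299) (nat_lit 146))) (XT.nd (nat_lit 78) (nat_lit 456) (nat_lit 0) (XT.lf (nat_lit 0) (nat_lit 658593508) (nat_lit 456) (nat_lit 1681313228) (nat_lit 76) (nat_lit 21667048979) (nat_lit 123) (nat_lit 5) (nat_lit 129) (nat_lit 5) (nat_lit 124) (nat_lit 5) (nat_lit 336) (nat_lit 299) (nat_lit 145)) (XT.lf (nat_lit 0) (nat_lit 4012323398) (nat_lit 532) (nat_lit 13944857138) (nat_lit 76) (nat_lit 6488939600) (nat_lit 117) (nat_lit 5) (nat_lit 124) (nat_lit 5) (nat_lit 118)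 (nat_lit 5) (nat_lit 337) (nat_lit 299) (nat_lit 144))))))))
noncomputable def xc194 : XT := (XT.nd (nat_lit 2106) (nat_lit 2356) (nat_lit 0) (XT.nd (nat_lit 1014) (nat_lit 1976) (nat_lit 0) (XT.nd (nat_lit 468) (nat_lit 1064) (nat_lit 0) (XT.nd (nat_lit 234) (nat_lit 760) (nat_lit 0) (XT.nd (nat_lit 78) (nat_lit 380) (nat_lit 0) (XT.lf (nat_lit 0) (nat_lit 7501231116) (nat_lit 532) (nat_lit 1844589569) (nat_lit 76) (nat_lit 15551607059) (nat_lit 117) (nat_lit 5) (nat_lit 124) (nat_lit 5) (nat_lit 118) (nat_lit 5) (nat_lit 338) (nat_lit 299) (nat_lit 143)) (XT.nd (nat_lit 78) (nat_lit 0) (nat_lit 0) (XT.lf (nat_lit 0) (nat_lit 10823002455) (nat_lit 380) (nat_lit 370260804) (nat_lit 456) (nat_lit 14166062682) (nat_lit 112) (nat_lit 5) (nat_lit 117) (nat_lit 5) (nat_lit 118) (nat_lit 5) (nat_lit 339) (nat_lit 299) (nat_lit 142)) (XT.lf (nat_lit 0) (nat_lit 15094679435) (nat_lit 456) (nat_lit 2018548481)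 (nat_lit 76) (nat_lit 8718899409) (nat_lit 112) (nat_lit 5) (nat_lit 118) (nat_lit 5) (nat_lit 113) (nat_lit 5) (nat_lit 340) (nat_lit 299) (nat_lit 141)))) (XT.nd (nat_lit 78) (nat_lit 380) (nat_lit 0) (XT.lf (nat_lit 0) (nat_lit 11080549690) (nat_lit 380) (nat_lit 8137431597) (nat_lit 456) (nat_lit 7097990952) (nat_lit 107) (nat_lit 5) (nat_lit 112) (nat_lit 5) (nat_lit 113) (nat_lit 5) (nat_lit 341) (nat_lit 299) (nat_lit 140)) (XT.nd (nat_lit 78) (nat_lit 380) (nat_lit 0) (XT.lf (nat_lit 0) (nat_lit 23490955949) (nat_lit 456) (nat_lit 2217418295) (nat_lit 76) (nat_lit 1105183694) (nat_lit 107) (nat_lit 5) (nat_lit 113) (nat_lit 5) (nat_lit 108) (nat_lit 5) (nat_lit 342) (nat_lit 299) (nat_lit 139)) (XT.lf (nat_lit 0) (nat_lit 741148480) (nat_lit 380) (nat_lit 16002912917) (nat_lit 76) (nat_lit 10576266589) (nat_lit 102) (nat_lit 5) (nat_lit 107) (nat_lit 5) (nat_lit 103) (nat_lit 5) (nat_lit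 343) (nat_lit 299) (nat_lit 138))))) (XT.nd (nat_lit 234) (nat_lit 684) (nat_lit 0) (XT.nd (nat_lit 78) (nat_lit 380) (nat_lit 0) (XT.lf (nat_lit 0) (nat_lit 4877569583) (nat_lit 380) (nat_lit 2577687679) (nat_lit 76) (nat_lit 20385535042) (nat_lit 102) (nat_lit 5) (nat_lit 107) (nat_lit 5) (nat_lit 103) (nat_lit 5) (nat_lit 344) (nat_lit 299) (nat_lit 137)) (XT.nd (nat_lit 78) (nat_lit 0) (nat_lit 0) (XT.lf (nat_lit 0) (nat_lit 9264770530) (nat_lit 456) (nat_lit 16927520777) (nat_lit 76) (nat_lit 2180782758) (nat_lit 97) (nat_lit 5) (nat_lit 103) (nat_lit 5) (nat_lit 98) (nat_lit 5) (nat_lit 345) (nat_lit 299) (nat_lit 136)) (XT.lf (nat_lit 0) (nat_lit 13878829336) (nat_lit 456) (nat_lit 3058847527) (nat_lit 76) (nat_lit 11980794170) (nat_lit 97) (nat_lit 5) (nat_lit 103) (nat_lit 5) (nat_lit 98) (nat_lit 5) (nat_lit 346) (nat_lit 299) (nat_lit 135)))) (XT.nd (nat_lit 156) (nat_lit 380) (nat_lit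 0) (XT.nd (nat_lit 78) (nat_lit 0) (nat_lit 0) (XT.lf (nat_lit 0) (nat_lit 11442803865) (nat_lit 304) (nat_lit 7293782914) (nat_lit 380) (nat_lit 10740488717) (nat_lit 93) (nat_lit 5) (nat_lit 97) (nat_lit 5) (nat_lit 98) (nat_lit 5) (nat_lit 347) (nat_lit 299) (nat_lit 134)) (XT.lf (nat_lit 0) (nat_lit 23791985308) (nat_lit 380) (nat_lit 3641417776) (nat_lit 76) (nat_lit 2617481536) (nat_lit 93) (nat_lit 5) (nat_lit 98) (nat_lit 5) (nat_lit 94) (nat_lit 5) (nat_lit 348) (nat_lit 299) (nat_lit 133))) (XT.nd (nat_lit 78) (nat_lit 76) (nat_lit 0) (XT.lf (nat_lit 0) (nat_lit 11325763045) (nat_lit 304) (nat_lit 17849846621) (nat_lit 380) (nat_lit 1461005106) (nat_lit 89) (nat_lit 5) (nat_lit 93) (nat_lit 5) (nat_lit 94) (nat_lit 5) (nat_lit 349) (nat_lit 299) (nat_lit 132)) (XT.lf (nat_lit 0) (nat_lit 3445540437) (nat_lit 380) (nat_lit 4462313908) (nat_lit 76) (nat_lit 23330083007) (nat_lit 88) (nat_lit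 5) (nat_lit 93) (nat_lit 5) (nat_lit 89) (nat_lit 5) (nat_lit 350) (nat_lit 299) (nat_lit 131)))))) (XT.nd (nat_lit 546) (nat_lit 760) (nat_lit 0) (XT.nd (nat_lit 234) (nat_lit 608) (nat_lit 0) (XT.nd (nat_lit 78) (nat_lit 304) (nat_lit 0) (XT.lf (nat_lit 0) (nat_lit 8595139058) (nat_lit 380) (nat_lit 20851137772) (nat_lit 76) (nat_lit 2406835531) (nat_lit 84) (nat_lit 5) (nat_lit 89) (nat_lit 5) (nat_lit 85) (nat_lit 5) (nat_lit 351) (nat_lit 299) (nat_lit 130)) (XT.nd (nat_lit 78) (nat_lit 304) (nat_lit 0) (XT.lf (nat_lit 0) (nat_lit 14018714083) (nat_lit 380) (nat_lit 5548621540) (nat_lit 76) (nat_lit 12915825604) (nat_lit 84) (nat_lit 5) (nat_lit 89) (nat_lit 5) (nat_lit 85) (nat_lit 5) (nat_lit 352) (nat_lit 299) (nat_lit 129)) (XT.lf (nat_lit 0) (nat_lit 10410134833) (nat_lit 304) (nat_lit 9290741850) (nat_lit 380) (nat_lit 13428361631) (nat_lit 80) (nat_lit 5) (nat_lit 84) (nat_lit 5) (nat_lit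 85) (nat_lit 5) (nat_lit 353) (nat_lit 299) (nat_lit 128)))) (XT.nd (nat_lit 156) (nat_lit 380) (nat_lit 0) (XT.nd (nat_lit 78) (nat_lit 228) (nat_lit 0) (XT.lf (nat_lit 0) (nat_lit 25618388901) (nat_lit 380) (nat_lit 6850642050) (nat_lit 76) (nat_lit 1323723293) (nat_lit 80) (nat_lit 5) (nat_lit 85) (nat_lit 5) (nat_lit 81) (nat_lit 5) (nat_lit 354) (nat_lit 299) (nat_lit 127)) (XT.lf (nat_lit 0) (nat_lit 9583035184) (nat_lit 228) (nat_lit 22310477060) (nat_lit 304) (nat_lit 2577263819) (nat_lit 77) (nat_lit 5) (nat_lit 80) (nat_lit 5) (nat_lit 81) (nat_lit 5) (nat_lit 355) (nat_lit 299) (nat_lit 126))) (XT.nd (nat_lit 78) (nat_lit 304) (nat_lit 0) (XT.lf (nat_lit 0) (nat_lit 3191408821) (nat_lit 304) (nat_lit 8554111657) (nat_lit 76) (nat_lit 23420725714) (nat_lit 76) (nat_lit 5) (nat_lit 80) (nat_lit 5) (nat_lit 77) (nat_lit 5) (nat_lit 356) (nat_lit 299) (nat_lit 125)) (XT.lf (nat_lit 0) (nat_lit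 8402263417) (nat_lit 304) (nat_lit 755961573) (nat_lit 380) (nat_lit 26721286128) (nat_lit 72) (nat_lit 5) (nat_lit 76) (nat_lit 5) (nat_lit 77) (nat_lit 5) (nat_lit 357) (nat_lit 299) (nat_lit 124))))) (XT.nd (nat_lit 234) (nat_lit 532) (nat_lit 0) (XT.nd (nat_lit 78) (nat_lit 228) (nat_lit 0) (XT.lf (nat_lit 0) (nat_lit 15488978803) (nat_lit 380) (nat_lit 10677045887) (nat_lit 76) (nat_lit 10442603956) (nat_lit 72) (nat_lit 5) (nat_lit 77) (nat_lit 5) (nat_lit 73) (nat_lit 5) (nat_lit 358) (nat_lit 299) (nat_lit 123)) (XT.nd (nat_lit 78) (nat_lit 0) (nat_lit 0) (XT.lf (nat_lit 0) (nat_lit 6745730180) (nat_lit 228) (nat_lit 15332523234) (nat_lit 304) (nat_lit 15279310915) (nat_lit 69) (nat_lit 5) (nat_lit 72) (nat_lit 5) (nat_lit 73) (nat_lit 5) (nat_lit 359) (nat_lit 299) (nat_lit 122)) (XT.lf (nat_lit 0) (nat_lit 24904532689) (nat_lit 228) (nat_lit 4064815675) (nat_lit 304) (nat_lit 9156497952)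 (nat_lit 69) (nat_lit 5) (nat_lit 72) (nat_lit 5) (nat_lit 73) (nat_lit 5) (nat_lit 360) (nat_lit 299) (nat_lit 121)))) (XT.nd (nat_lit 156) (nat_lit 228) (nat_lit 0) (XT.nd (nat_lit 78) (nat_lit 76) (nat_lit 0) (XT.lf (nat_lit 0) (nat_lit 4704784774) (nat_lit 228) (nat_lit 31476519270) (nat_lit 304) (nat_lit 2732451311) (nat_lit 66) (nat_lit 5) (nat_lit 69) (nat_lit 5) (nat_lit 70) (nat_lit 5) (nat_lit 361) (nat_lit 299) (nat_lit 120)) (XT.lf (nat_lit 0) (nat_lit 3980026479) (nat_lit 304) (nat_lit 16365989192) (nat_lit 76) (nat_lit 19373022922) (nat_lit 65) (nat_lit 5) (nat_lit 69) (nat_lit 5) (nat_lit 66) (nat_lit 5) (nat_lit 362) (nat_lit 299) (nat_lit 119))) (XT.nd (nat_lit 78) (nat_lit 0) (nat_lit 0) (XT.lf (nat_lit 0) (nat_lit 2019314378) (nat_lit 228) (nat_lit 8835589370) (nat_lit 304) (nat_lit 29692288840) (nat_lit 62) (nat_lit 5) (nat_lit 65) (nat_lit 5) (nat_lit 66) (nat_lit 5) (nat_lit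 363) (nat_lit 299) (nat_lit 118)) (XT.lf (nat_lit 0) (nat_lit 18128525937) (nat_lit 304) (nat_lit 20139589392) (nat_lit 76) (nat_lit 3126303070) (nat_lit 62) (nat_lit 5) (nat_lit 66) (nat_lit 5) (nat_lit 63) (nat_lit 5) (nat_lit 364) (nat_lit 299) (nat_lit 117))))))) (XT.nd (nat_lit 1092) (nat_lit 1064) (nat_lit 0) (XT.nd (nat_lit 546) (nat_lit 608) (nat_lit 0) (XT.nd (nat_lit 234) (nat_lit 456) (nat_lit 0) (XT.nd (nat_lit 78) (nat_lit 228) (nat_lit 0) (XT.lf (nat_lit 0) (nat_lit 25704504275) (nat_lit 304) (nat_lit 1292329209) (nat_lit 76) (nat_lit 15267705170) (nat_lit 62) (nat_lit 5) (nat_lit 66) (nat_lit 5) (nat_lit 63) (nat_lit 5) (nat_lit 365) (nat_lit 299) (nat_lit 116)) (XT.nd (nat_lit 78) (nat_lit 0) (nat_lit 0) (XT.lf (nat_lit 0) (nat_lit 18475833977) (nat_lit 228) (nat_lit 15206292500) (nat_lit 304) (nat_lit 9473407134) (nat_lit 59) (nat_lit 5) (nat_lit 62) (nat_lit 5) (nat_lit 63) (nat_lit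 5) (nat_lit 366) (nat_lit 299) (nat_lit 115)) (XT.lf (nat_lit 0) (nat_lit 38858538131) (nat_lit 228) (nat_lit 3050398951) (nat_lit 304) (nat_lit 2164027517) (nat_lit 59) (nat_lit 5) (nat_lit 62) (nat_lit 5) (nat_lit 63) (nat_lit 5) (nat_lit 367) (nat_lit 299) (nat_lit 114)))) (XT.nd (nat_lit 156) (nat_lit 228) (nat_lit 0) (XT.nd (nat_lit 78) (nat_lit 0) (nat_lit 0) (XT.lf (nat_lit 0) (nat_lit 5494666818) (nat_lit 228) (nat_lit 30032641387) (nat_lit 76) (nat_lit 9482023625) (nat_lit 56) (nat_lit 5) (nat_lit 59) (nat_lit 5) (nat_lit 57) (nat_lit 5) (nat_lit 368) (nat_lit 299) (nat_lit 113)) (XT.lf (nat_lit 0) (nat_lit 13419903362) (nat_lit 228) (nat_lit 10148871388) (nat_lit 76) (nat_lit 22401966067) (nat_lit 56) (nat_lit 5) (nat_lit 59) (nat_lit 5) (nat_lit 57) (nat_lit 5) (nat_lit 369) (nat_lit 299) (nat_lit 112))) (XT.nd (nat_lit 78) (nat_lit 0) (nat_lit 0) (XT.lf (nat_lit 0) (nat_lit 10532132381)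 (nat_lit 228) (nat_lit 11148993680) (nat_lit 304) (nat_lit 25276920893) (nat_lit 53) (nat_lit 5) (nat_lit 56) (nat_lit 5) (nat_lit 57) (nat_lit 5) (nat_lit 370) (nat_lit 299) (nat_lit 111)) (XT.lf (nat_lit 0) (nat_lit 30306493701) (nat_lit 304) (nat_lit 15951927252) (nat_lit 76) (nat_lit 1713063775) (nat_lit 53) (nat_lit 5) (nat_lit 57) (nat_lit 5) (nat_lit 54) (nat_lit 5) (nat_lit 371) (nat_lit 299) (nat_lit 110))))) (XT.nd (nat_lit 234) (nat_lit 380) (nat_lit 0) (XT.nd (nat_lit 78) (nat_lit 76) (nat_lit 0) (XT.lf (nat_lit 0) (nat_lit 5121140267) (nat_lit 152) (nat_lit 34226195407) (nat_lit 228) (nat_lit 9663290214) (nat_lit 51) (nat_lit 5) (nat_lit 53) (nat_lit 5) (nat_lit 54) (nat_lit 5) (nat_lit 372) (nat_lit 299) (nat_lit 109)) (XT.nd (nat_lit 78) (nat_lit 76) (nat_lit 0) (XT.lf (nat_lit 0) (nat_lit 27148759380) (nat_lit 152) (nat_lit 21668866289) (nat_lit 228) (nat_lit 1258570536) (nat_lit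 51) (nat_lit 5) (nat_lit 53) (nat_lit 5) (nat_lit 54) (nat_lit 5) (nat_lit 373) (nat_lit 299) (nat_lit 108)) (XT.lf (nat_lit 0) (nat_lit 7251117298) (nat_lit 228) (nat_lit 1412204997) (nat_lit 76) (nat_lit 42508363524) (nat_lit 50) (nat_lit 5) (nat_lit 53) (nat_lit 5) (nat_lit 51) (nat_lit 5) (nat_lit 374) (nat_lit 299) (nat_lit 107)))) (XT.nd (nat_lit 156) (nat_lit 152) (nat_lit 0) (XT.nd (nat_lit 78) (nat_lit 0) (nat_lit 0) (XT.lf (nat_lit 0) (nat_lit 16238936254) (nat_lit 304) (nat_lit 31197068565) (nat_lit 76) (nat_lit 4856218842) (nat_lit 47) (nat_lit 5) (nat_lit 51) (nat_lit 5) (nat_lit 48) (nat_lit 5) (nat_lit 375) (nat_lit 299) (nat_lit 106)) (XT.lf (nat_lit 0) (nat_lit 25593863414) (nat_lit 304) (nat_lit 9229632649) (nat_lit 76) (nat_lit 18619958791) (nat_lit 47) (nat_lit 5) (nat_lit 51) (nat_lit 5) (nat_lit 48) (nat_lit 5) (nat_lit 376) (nat_lit 299) (nat_lit 105))) (XT.nd (nat_lit 78)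 (nat_lit 0) (nat_lit 0) (XT.lf (nat_lit 0) (nat_lit 13659042117) (nat_lit 152) (nat_lit 21699070556) (nat_lit 228) (nat_lit 19267251466) (nat_lit 45) (nat_lit 5) (nat_lit 47) (nat_lit 5) (nat_lit 48) (nat_lit 5) (nat_lit 377) (nat_lit 299) (nat_lit 104)) (XT.lf (nat_lit 0) (nat_lit 37419296578) (nat_lit 152) (nat_lit 8086604558) (nat_lit 228) (nat_lit 10334112556) (nat_lit 45) (nat_lit 5) (nat_lit 47) (nat_lit 5) (nat_lit 48) (nat_lit 5) (nat_lit 378) (nat_lit 299) (nat_lit 103)))))) (XT.nd (nat_lit 546) (nat_lit 532) (nat_lit 0) (XT.nd (nat_lit 234) (nat_lit 304) (nat_lit 0) (XT.nd (nat_lit 78) (nat_lit 76) (nat_lit 0) (XT.lf (nat_lit 0) (nat_lit 4834332379) (nat_lit 152) (nat_lit 51224775123) (nat_lit 228) (nat_lit 1028967006) (nat_lit 43) (nat_lit 5) (nat_lit 45) (nat_lit 5) (nat_lit 46) (nat_lit 5) (nat_lit 379) (nat_lit 299) (nat_lit 102)) (XT.nd (nat_lit 78) (nat_lit 0) (nat_lit 0) (XT.lf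 (nat_lit 0) (nat_lit 8653785572) (nat_lit 228) (nat_lit 29371728353) (nat_lit 76) (nat_lit 20337635339) (nat_lit 42) (nat_lit 5) (nat_lit 45) (nat_lit 5) (nat_lit 43) (nat_lit 5) (nat_lit 380) (nat_lit 299) (nat_lit 101)) (XT.lf (nat_lit 0) (nat_lit 18603890764) (nat_lit 228) (nat_lit 5817544282) (nat_lit 76) (nat_lit 35254810239) (nat_lit 42) (nat_lit 5) (nat_lit 45) (nat_lit 5) (nat_lit 43) (nat_lit 5) (nat_lit 381) (nat_lit 299) (nat_lit 100)))) (XT.nd (nat_lit 156) (nat_lit 152) (nat_lit 0) (XT.nd (nat_lit 78) (nat_lit 0) (nat_lit 0) (XT.lf (nat_lit 0) (nat_lit 18806260345) (nat_lit 152) (nat_lit 10224638623) (nat_lit 228) (nat_lit 31992484381) (nat_lit 40) (nat_lit 5) (nat_lit 42) (nat_lit 5) (nat_lit 43) (nat_lit 5) (nat_lit 382) (nat_lit 299) (nat_lit 99)) (XT.lf (nat_lit 0) (nat_lit 39869960264) (nat_lit 228) (nat_lit 18167998560) (nat_lit 76) (nat_lit 4370000569) (nat_lit 40) (nat_lit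 5) (nat_lit 43) (nat_lit 5) (nat_lit 41) (nat_lit 5) (nat_lit 383) (nat_lit 299) (nat_lit 98))) (XT.nd (nat_lit 78) (nat_lit 0) (nat_lit 0) (XT.lf (nat_lit 0) (nat_lit 6626794765) (nat_lit 152) (nat_lit 44570040819) (nat_lit 228) (nat_lit 12632358963) (nat_lit 38) (nat_lit 5) (nat_lit 40) (nat_lit 5) (nat_lit 41) (nat_lit 5) (nat_lit 384) (nat_lit 299) (nat_lit 97)) (XT.lf (nat_lit 0) (nat_lit 32534012682) (nat_lit 152) (nat_lit 30510702791) (nat_lit 228) (nat_lit 2242916393) (nat_lit 38) (nat_lit 5) (nat_lit 40) (nat_lit 5) (nat_lit 41) (nat_lit 5) (nat_lit 385) (nat_lit 299) (nat_lit 96))))) (XT.nd (nat_lit 234) (nat_lit 304) (nat_lit 0) (XT.nd (nat_lit 78) (nat_lit 152) (nat_lit 0) (XT.lf (nat_lit 0) (nat_lit 8290939616) (nat_lit 228) (nat_lit 7656459194) (nat_lit 76) (nat_lit 50840051920) (nat_lit 37) (nat_lit 5) (nat_lit 40) (nat_lit 5) (nat_lit 38) (nat_lit 5) (nat_lit 386) (nat_lit 299)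 (nat_lit 95)) (XT.nd (nat_lit 78) (nat_lit 0) (nat_lit 0) (XT.lf (nat_lit 0) (nat_lit 18529313665) (nat_lit 152) (nat_lit 742377286) (nat_lit 228) (nat_lit 49054629165) (nat_lit 35) (nat_lit 5) (nat_lit 37) (nat_lit 5) (nat_lit 38) (nat_lit 5) (nat_lit 387) (nat_lit 299) (nat_lit 94)) (XT.lf (nat_lit 0) (nat_lit 30801212459) (nat_lit 228) (nat_lit 24399283401) (nat_lit 76) (nat_lit 14704280238) (nat_lit 35) (nat_lit 5) (nat_lit 38) (nat_lit 5) (nat_lit 36) (nat_lit 5) (nat_lit 388) (nat_lit 299) (nat_lit 93)))) (XT.nd (nat_lit 156) (nat_lit 152) (nat_lit 0) (XT.nd (nat_lit 78) (nat_lit 0) (nat_lit 0) (XT.lf (nat_lit 0) (nat_lit 1784262924) (nat_lit 152) (nat_lit 40914779089) (nat_lit 228) (nat_lit 28830871987) (nat_lit 33) (nat_lit 5) (nat_lit 35) (nat_lit 5) (nat_lit 36) (nat_lit 5) (nat_lit 389) (nat_lit 299) (nat_lit 92)) (XT.lf (nat_lit 0) (nat_lit 29249936538) (nat_lit 152) (nat_lit 25948202070)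 (nat_lit 228) (nat_lit 17998338354) (nat_lit 33) (nat_lit 5) (nat_lit 35) (nat_lit 5) (nat_lit 36) (nat_lit 5) (nat_lit 390) (nat_lit 299) (nat_lit 91))) (XT.nd (nat_lit 78) (nat_lit 152) (nat_lit 0) (XT.lf (nat_lit 0) (nat_lit 57536142993) (nat_lit 152) (nat_lit 10534072132) (nat_lit 228) (nat_lit 6842882341) (nat_lit 33) (nat_lit 5) (nat_lit 35) (nat_lit 5) (nat_lit 36) (nat_lit 5) (nat_lit 391) (nat_lit 299) (nat_lit 90)) (XT.lf (nat_lit 0) (nat_lit 4704814312) (nat_lit 152) (nat_lit 66590231990) (nat_lit 76) (nat_lit 5380383092) (nat_lit 31) (nat_lit 5) (nat_lit 33) (nat_lit 5) (nat_lit 32) (nat_lit 5) (nat_lit 392) (nat_lit 299) (nat_lit 89))))))))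
noncomputable def xc195 : XT := (XT.nd (nat_lit 34944) (nat_lit 0) (nat_lit 5320) (XT.nd (nat_lit 33852) (nat_lit 0) (nat_lit 11400) (XT.nd (nat_lit 546) (nat_lit 0) (nat_lit 0) (XT.nd (nat_lit 234) (nat_lit 152) (nat_lit 0) (XT.nd (nat_lit 78) (nat_lit 152) (nat_lit 0) (XT.lf (nat_lit 0) (nat_lit 16740971274) (nat_lit 152) (nat_lit 39935118093) (nat_lit 76) (nat_lit 21804123227) (nat_lit 31) (nat_lit 5) (nat_lit 33) (nat_lit 5) (nat_lit 32) (nat_lit 5) (nat_lit 393) (nat_lit 299) (nat_lit 88)) (XT.nd (nat_lit 78) (nat_lit 152) (nat_lit 0) (XT.lf (nat_lit 0) (nat_lit 29136325856) (nat_lit 152) (nat_lit 12483641035) (nat_lit 76) (nat_lit 38719229776) (nat_lit 31) (nat_lit 5) (nat_lit 33) (nat_lit 5) (nat_lit 32) (nat_lit 5) (nat_lit 394) (nat_lit 299) (nat_lit 87)) (XT.lf (nat_lit 0) (nat_lit 16102401765) (nat_lit 152) (nat_lit 25954093321) (nat_lit 228) (nat_lit 40192867301) (nat_lit 29) (nat_lit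 5) (nat_lit 31) (nat_lit 5) (nat_lit 32) (nat_lit 5) (nat_lit 395) (nat_lit 299) (nat_lit 86)))) (XT.nd (nat_lit 156) (nat_lit 152) (nat_lit 0) (XT.nd (nat_lit 78) (nat_lit 0) (nat_lit 0) (XT.lf (nat_lit 0) (nat_lit 45798765147) (nat_lit 152) (nat_lit 9689755376) (nat_lit 228) (nat_lit 28724585743) (nat_lit 29) (nat_lit 5) (nat_lit 31) (nat_lit 5) (nat_lit 32) (nat_lit 5) (nat_lit 396) (nat_lit 299) (nat_lit 85)) (XT.lf (nat_lit 0) (nat_lit 69389626807) (nat_lit 228) (nat_lit 9920743960) (nat_lit 76) (nat_lit 6923408793) (nat_lit 29) (nat_lit 5) (nat_lit 32) (nat_lit 5) (nat_lit 30) (nat_lit 4) (nat_lit 397) (nat_lit 299) (nat_lit 84))) (XT.nd (nat_lit 78) (nat_lit 76) (nat_lit 0) (XT.lf (nat_lit 0) (nat_lit 19713380904) (nat_lit 76) (nat_lit 64278103042) (nat_lit 152) (nat_lit 4315078258) (nat_lit 28) (nat_lit 5) (nat_lit 29) (nat_lit 5) (nat_lit 30) (nat_lit 4) (nat_lit 398) (nat_lit 299) (nat_lit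 83)) (XT.lf (nat_lit 0) (nat_lit 8521707388) (nat_lit 152) (nat_lit 40085217070) (nat_lit 76) (nat_lit 41829143631) (nat_lit 27) (nat_lit 5) (nat_lit 29) (nat_lit 5) (nat_lit 28) (nat_lit 5) (nat_lit 399) (nat_lit 299) (nat_lit 82))))) (XT.nd (nat_lit 32994) (nat_lit 0) (nat_lit 12768) (XT.nd (nat_lit 32838) (nat_lit 0) (nat_lit 12768) (XT.lf (nat_lit 0) (nat_lit 21655203964) (nat_lit 152) (nat_lit 10767675551) (nat_lit 76) (nat_lit 60205348469) (nat_lit 27) (nat_lit 5) (nat_lit 29) (nat_lit 5) (nat_lit 28) (nat_lit 5) (nat_lit 400) (nat_lit 299) (nat_lit 81)) (XT.nd (nat_lit 78) (nat_lit 1140) (nat_lit 0) (XT.lf (nat_lit 0) (nat_lit 6684974083) (nat_lit 1140) (nat_lit 53801477) (nat_lit 1140) (nat_lit 53801477) (nat_lit 210) (nat_lit 3) (nat_lit 225) (nat_lit 3) (nat_lit 225) (nat_lit 5) (nat_lit 300) (nat_lit 300) (nat_lit 180)) (XT.lf (nat_lit 0) (nat_lit 193367947) (nat_lit 1140) (nat_lit 7580139351)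 (nat_lit 1216) (nat_lit 6002848774) (nat_lit 195) (nat_lit 5) (nat_lit 210) (nat_lit 3) (nat_lit 211) (nat_lit 5) (nat_lit 301) (nat_lit 300) (nat_lit 179)))) (XT.nd (nat_lit 156) (nat_lit 0) (nat_lit 76) (XT.nd (nat_lit 78) (nat_lit 0) (nat_lit 76) (XT.lf (nat_lit 0) (nat_lit 597345642) (nat_lit 1140) (nat_lit 1291384464) (nat_lit 1216) (nat_lit 12084892021) (nat_lit 195) (nat_lit 5) (nat_lit 210) (nat_lit 3) (nat_lit 211) (nat_lit 5) (nat_lit 302) (nat_lit 300) (nat_lit 178)) (XT.lf (nat_lit 0) (nat_lit 1091658722) (nat_lit 1140) (nat_lit 8934387229) (nat_lit 1216) (nat_lit 4148429347) (nat_lit 196) (nat_lit 5) (nat_lit 211) (nat_lit 5) (nat_lit 212) (nat_lit 5) (nat_lit 303) (nat_lit 300) (nat_lit 177))) (XT.nd (nat_lit 78) (nat_lit 0) (nat_lit 76) (XT.lf (nat_lit 0) (nat_lit 1619816397) (nat_lit 1140) (nat_lit 2413328739) (nat_lit 1216) (nat_lit 10347653634) (nat_lit 196) (nat_lit 5) (nat_lit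 211) (nat_lit 5) (nat_lit 212) (nat_lit 5) (nat_lit 304) (nat_lit 300) (nat_lit 176)) (XT.lf (nat_lit 0) (nat_lit 2214490306) (nat_lit 1140) (nat_lit 10231903850) (nat_lit 1216) (nat_lit 2145412362) (nat_lit 197) (nat_lit 5) (nat_lit 212) (nat_lit 5) (nat_lit 213) (nat_lit 5) (nat_lit 305) (nat_lit 300) (nat_lit 175)))))) (XT.nd (nat_lit 546) (nat_lit 1520) (nat_lit 0) (XT.nd (nat_lit 234) (nat_lit 0) (nat_lit 76) (XT.nd (nat_lit 78) (nat_lit 0) (nat_lit 0) (XT.lf (nat_lit 0) (nat_lit 2879409264) (nat_lit 1140) (nat_lit 3470435531) (nat_lit 1216) (nat_lit 8457741850) (nat_lit 197) (nat_lit 5) (nat_lit 212) (nat_lit 5) (nat_lit 213) (nat_lit 5) (nat_lit 306) (nat_lit 300) (nat_lit 174)) (XT.nd (nat_lit 78) (nat_lit 0) (nat_lit 76) (XT.lf (nat_lit 76) (nat_lit 3555836237) (nat_lit 0) (nat_lit 30835501) (nat_lit 1216) (nat_lit 11442510434) (nat_lit 198) (nat_lit 5) (nat_lit 197) (nat_lit 5) (nat_lit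 213) (nat_lit 5) (nat_lit 307) (nat_lit 300) (nat_lit 173)) (XT.lf (nat_lit 0) (nat_lit 4401339283) (nat_lit 1140) (nat_lit 4462706312) (nat_lit 1216) (nat_lit 6390807823) (nat_lit 198) (nat_lit 5) (nat_lit 213) (nat_lit 5) (nat_lit 214) (nat_lit 5) (nat_lit 308) (nat_lit 300) (nat_lit 172)))) (XT.nd (nat_lit 156) (nat_lit 0) (nat_lit 76) (XT.nd (nat_lit 78) (nat_lit 0) (nat_lit 76) (XT.lf (nat_lit 76) (nat_lit 2805158016) (nat_lit 0) (nat_lit 2451420771) (nat_lit 1216) (nat_lit 10230245135) (nat_lit 199) (nat_lit 5) (nat_lit 198) (nat_lit 5) (nat_lit 214) (nat_lit 5) (nat_lit 309) (nat_lit 300) (nat_lit 171)) (XT.lf (nat_lit 0) (nat_lit 6212060505) (nat_lit 1140) (nat_lit 5390061549) (nat_lit 1216) (nat_lit 4121406633) (nat_lit 199) (nat_lit 5) (nat_lit 214) (nat_lit 5) (nat_lit 215) (nat_lit 5) (nat_lit 310) (nat_lit 300) (nat_lit 170))) (XT.nd (nat_lit 78) (nat_lit 0) (nat_lit 76) (XT.lf (nat_lit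 76) (nat_lit 2129984711) (nat_lit 0) (nat_lit 5100431747) (nat_lit 1216) (nat_lit 8735904169) (nat_lit 200) (nat_lit 5) (nat_lit 199) (nat_lit 5) (nat_lit 215) (nat_lit 5) (nat_lit 311) (nat_lit 300) (nat_lit 169)) (XT.lf (nat_lit 0) (nat_lit 8339360587) (nat_lit 1140) (nat_lit 6252395364) (nat_lit 1216) (nat_lit 1622851220) (nat_lit 200) (nat_lit 5) (nat_lit 215) (nat_lit 5) (nat_lit 216) (nat_lit 5) (nat_lit 312) (nat_lit 300) (nat_lit 168))))) (XT.nd (nat_lit 234) (nat_lit 1748) (nat_lit 0) (XT.nd (nat_lit 78) (nat_lit 0) (nat_lit 0) (XT.lf (nat_lit 76) (nat_lit 1530792996) (nat_lit 0) (nat_lit 8006018402) (nat_lit 1216) (nat_lit 6931885380) (nat_lit 201) (nat_lit 5) (nat_lit 200) (nat_lit 5) (nat_lit 216) (nat_lit 5) (nat_lit 313) (nat_lit 300) (nat_lit 167)) (XT.nd (nat_lit 78) (nat_lit 0) (nat_lit 76) (XT.lf (nat_lit 76) (nat_lit 9668077536) (nat_lit 0) (nat_lit 1155487064) (nat_lit 1216)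 (nat_lit 5905254388) (nat_lit 201) (nat_lit 5) (nat_lit 200) (nat_lit 5) (nat_lit 216) (nat_lit 5) (nat_lit 314) (nat_lit 300) (nat_lit 166)) (XT.lf (nat_lit 76) (nat_lit 1008023474) (nat_lit 0) (nat_lit 11197853051) (nat_lit 1216) (nat_lit 4789170608) (nat_lit 202) (nat_lit 5) (nat_lit 201) (nat_lit 5) (nat_lit 217) (nat_lit 5) (nat_lit 315) (nat_lit 300) (nat_lit 165)))) (XT.nd (nat_lit 156) (nat_lit 760) (nat_lit 0) (XT.nd (nat_lit 78) (nat_lit 1064) (nat_lit 0) (XT.lf (nat_lit 76) (nat_lit 9444333951) (nat_lit 0) (nat_lit 4258700805) (nat_lit 1216) (nat_lit 3564036692) (nat_lit 202) (nat_lit 5) (nat_lit 201) (nat_lit 5) (nat_lit 217) (nat_lit 5) (nat_lit 316) (nat_lit 300) (nat_lit 164)) (XT.lf (nat_lit 0) (nat_lit 562015126) (nat_lit 1140) (nat_lit 14707296251) (nat_lit 1216) (nat_lit 2277229329) (nat_lit 187) (nat_lit 5) (nat_lit 202) (nat_lit 5) (nat_lit 203) (nat_lit 5) (nat_lit 317) (nat_lit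 300) (nat_lit 163))) (XT.nd (nat_lit 78) (nat_lit 760) (nat_lit 0) (XT.lf (nat_lit 0) (nat_lit 9308077544) (nat_lit 1140) (nat_lit 7686467221) (nat_lit 1216) (nat_lit 836500247) (nat_lit 187) (nat_lit 5) (nat_lit 202) (nat_lit 5) (nat_lit 203) (nat_lit 5) (nat_lit 318) (nat_lit 300) (nat_lit 162)) (XT.lf (nat_lit 0) (nat_lit 182222861) (nat_lit 684) (nat_lit 445729322) (nat_lit 760) (nat_lit 17496160932) (nat_lit 177) (nat_lit 5) (nat_lit 186) (nat_lit 5) (nat_lit 187) (nat_lit 5) (nat_lit 319) (nat_lit 300) (nat_lit 161))))))) (XT.nd (nat_lit 1092) (nat_lit 2888) (nat_lit 0) (XT.nd (nat_lit 546) (nat_lit 1520) (nat_lit 0) (XT.nd (nat_lit 234) (nat_lit 1064) (nat_lit 0) (XT.nd (nat_lit 78) (nat_lit 608) (nat_lit 0) (XT.lf (nat_lit 0) (nat_lit 2265420929) (nat_lit 760) (nat_lit 9184394311) (nat_lit 76) (nat_lit 6971541862) (nat_lit 177) (nat_lit 5) (nat_lit 187) (nat_lit 5) (nat_lit 178) (nat_lit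 5) (nat_lit 320) (nat_lit 300) (nat_lit 160)) (XT.nd (nat_lit 78) (nat_lit 608) (nat_lit 0) (XT.lf (nat_lit 0) (nat_lit 3948244690) (nat_lit 760) (nat_lit 176105312) (nat_lit 76) (nat_lit 14603290384) (nat_lit 177) (nat_lit 5) (nat_lit 187) (nat_lit 5) (nat_lit 178) (nat_lit 5) (nat_lit 321) (nat_lit 300) (nat_lit 159)) (XT.lf (nat_lit 0) (nat_lit 5796549867) (nat_lit 684) (nat_lit 9798313061) (nat_lit 76) (nat_lit 3444807985) (nat_lit 169) (nat_lit 5) (nat_lit 178) (nat_lit 5) (nat_lit 170) (nat_lit 5) (nat_lit 322) (nat_lit 300) (nat_lit 158)))) (XT.nd (nat_lit 156) (nat_lit 532) (nat_lit 0) (XT.nd (nat_lit 78) (nat_lit 532) (nat_lit 0) (XT.lf (nat_lit 0) (nat_lit 7735158600) (nat_lit 684) (nat_lit 464382147) (nat_lit 76) (nat_lit 11160484370) (nat_lit 169) (nat_lit 5) (nat_lit 178) (nat_lit 5) (nat_lit 170) (nat_lit 5) (nat_lit 323) (nat_lit 300) (nat_lit 157)) (XT.lf (nat_lit 0) (nat_lit 9324259013)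 (nat_lit 532) (nat_lit 489746895) (nat_lit 608) (nat_lit 9873529780) (nat_lit 162) (nat_lit 5) (nat_lit 169) (nat_lit 5) (nat_lit 170) (nat_lit 5) (nat_lit 324) (nat_lit 300) (nat_lit 156))) (XT.nd (nat_lit 78) (nat_lit 532) (nat_lit 0) (XT.lf (nat_lit 0) (nat_lit 12024183968) (nat_lit 608) (nat_lit 687743728) (nat_lit 76) (nat_lit 7310882833) (nat_lit 162) (nat_lit 5) (nat_lit 170) (nat_lit 5) (nat_lit 163) (nat_lit 5) (nat_lit 325) (nat_lit 300) (nat_lit 155)) (XT.lf (nat_lit 0) (nat_lit 9450415600) (nat_lit 532) (nat_lit 4938762085) (nat_lit 608) (nat_lit 5976318302) (nat_lit 155) (nat_lit 5) (nat_lit 162) (nat_lit 5) (nat_lit 163) (nat_lit 5) (nat_lit 326) (nat_lit 300) (nat_lit 154))))) (XT.nd (nat_lit 234) (nat_lit 988) (nat_lit 0) (XT.nd (nat_lit 78) (nat_lit 532) (nat_lit 0) (XT.lf (nat_lit 0) (nat_lit 16854580390) (nat_lit 608) (nat_lit 848341768) (nat_lit 76) (nat_lit 3014663533) (nat_lit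 155) (nat_lit 5) (nat_lit 163) (nat_lit 5) (nat_lit 156) (nat_lit 5) (nat_lit 327) (nat_lit 300) (nat_lit 153)) (XT.nd (nat_lit 78) (nat_lit 76) (nat_lit 0) (XT.lf (nat_lit 0) (nat_lit 9652724368) (nat_lit 456) (nat_lit 9876070361) (nat_lit 532) (nat_lit 1547405112) (nat_lit 149) (nat_lit 5) (nat_lit 155) (nat_lit 5) (nat_lit 156) (nat_lit 5) (nat_lit 328) (nat_lit 300) (nat_lit 152)) (XT.lf (nat_lit 0) (nat_lit 823189622) (nat_lit 532) (nat_lit 974446917) (nat_lit 76) (nat_lit 19647644966) (nat_lit 148) (nat_lit 5) (nat_lit 155) (nat_lit 5) (nat_lit 149) (nat_lit 5) (nat_lit 329) (nat_lit 300) (nat_lit 151)))) (XT.nd (nat_lit 156) (nat_lit 456) (nat_lit 0) (XT.nd (nat_lit 78) (nat_lit 0) (nat_lit 0) (XT.lf (nat_lit 0) (nat_lit 3386761942) (nat_lit 608) (nat_lit 11926016327) (nat_lit 76) (nat_lit 6507615521) (nat_lit 141) (nat_lit 5) (nat_lit 149) (nat_lit 5) (nat_lit 142) (nat_lit 5) (nat_lit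 330) (nat_lit 300) (nat_lit 150)) (XT.lf (nat_lit 0) (nat_lit 6048516203) (nat_lit 608) (nat_lit 1122242551) (nat_lit 76) (nat_lit 15035368880) (nat_lit 141) (nat_lit 5) (nat_lit 149) (nat_lit 5) (nat_lit 142) (nat_lit 5) (nat_lit 331) (nat_lit 300) (nat_lit 149))) (XT.nd (nat_lit 78) (nat_lit 0) (nat_lit 0) (XT.lf (nat_lit 0) (nat_lit 8894525686) (nat_lit 532) (nat_lit 12415613884) (nat_lit 76) (nat_lit 1290168089) (nat_lit 135) (nat_lit 5) (nat_lit 142) (nat_lit 5) (nat_lit 136) (nat_lit 5) (nat_lit 332) (nat_lit 300) (nat_lit 148)) (XT.lf (nat_lit 0) (nat_lit 11902195072) (nat_lit 532) (nat_lit 1230272913) (nat_lit 76) (nat_lit 9871562777) (nat_lit 135) (nat_lit 5) (nat_lit 142) (nat_lit 5) (nat_lit 136) (nat_lit 5) (nat_lit 333) (nat_lit 300) (nat_lit 147)))))) (XT.nd (nat_lit 546) (nat_lit 1140) (nat_lit 0) (XT.nd (nat_lit 234) (nat_lit 912) (nat_lit 0) (XT.nd (nat_lit 78) (nat_lit 380) (nat_lit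 0) (XT.lf (nat_lit 0) (nat_lit 10488467867) (nat_lit 456) (nat_lit 4606465088) (nat_lit 532) (nat_lit 8322093338) (nat_lit 129) (nat_lit 5) (nat_lit 135) (nat_lit 5) (nat_lit 136) (nat_lit 5) (nat_lit 334) (nat_lit 300) (nat_lit 146)) (XT.nd (nat_lit 78) (nat_lit 380) (nat_lit 0) (XT.lf (nat_lit 0) (nat_lit 18430252625) (nat_lit 532) (nat_lit 1305242105) (nat_lit 76) (nat_lit 4105518686) (nat_lit 129) (nat_lit 5) (nat_lit 136) (nat_lit 5) (nat_lit 130) (nat_lit 5) (nat_lit 335) (nat_lit 300) (nat_lit 145)) (XT.lf (nat_lit 0) (nat_lit 10825680474) (nat_lit 380) (nat_lit 11183911961) (nat_lit 456) (nat_lit 2263814450) (nat_lit 124) (nat_lit 5) (nat_lit 129) (nat_lit 5) (nat_lit 130) (nat_lit 5) (nat_lit 336) (nat_lit 300) (nat_lit 144)))) (XT.nd (nat_lit 156) (nat_lit 380) (nat_lit 0) (XT.nd (nat_lit 78) (nat_lit 456) (nat_lit 0) (XT.lf (nat_lit 0) (nat_lit 966106199) (nat_lit 456) (nat_lit 1387401791)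 (nat_lit 76) (nat_lit 22364758261) (nat_lit 123) (nat_lit 5) (nat_lit 129) (nat_lit 5) (nat_lit 124) (nat_lit 5) (nat_lit 337) (nat_lit 300) (nat_lit 143)) (XT.lf (nat_lit 0) (nat_lit 4415905076) (nat_lit 532) (nat_lit 14014051352) (nat_lit 76) (nat_lit 6740793197) (nat_lit 117) (nat_lit 5) (nat_lit 124) (nat_lit 5) (nat_lit 118) (nat_lit 5) (nat_lit 338) (nat_lit 300) (nat_lit 142))) (XT.nd (nat_lit 78) (nat_lit 380) (nat_lit 0) (XT.lf (nat_lit 0) (nat_lit 8001231133) (nat_lit 532) (nat_lit 1560945217) (nat_lit 76) (nat_lit 16073675085) (nat_lit 117) (nat_lit 5) (nat_lit 124) (nat_lit 5) (nat_lit 118) (nat_lit 5) (nat_lit 339) (nat_lit 300) (nat_lit 141)) (XT.lf (nat_lit 0) (nat_lit 11483351215) (nat_lit 380) (nat_lit 315890949) (nat_lit 456) (nat_lit 14312515166) (nat_lit 112) (nat_lit 5) (nat_lit 117) (nat_lit 5) (nat_lit 118) (nat_lit 5) (nat_lit 340) (nat_lit 300) (nat_lit 140))))) (XT.nd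 (nat_lit 234) (nat_lit 760) (nat_lit 0) (XT.nd (nat_lit 78) (nat_lit 380) (nat_lit 0) (XT.lf (nat_lit 0) (nat_lit 15810442554) (nat_lit 456) (nat_lit 1745728563) (nat_lit 76) (nat_lit 9042796462) (nat_lit 112) (nat_lit 5) (nat_lit 118) (nat_lit 5) (nat_lit 113) (nat_lit 5) (nat_lit 341) (nat_lit 300) (nat_lit 139)) (XT.nd (nat_lit 78) (nat_lit 0) (nat_lit 0) (XT.lf (nat_lit 0) (nat_lit 11743074158) (nat_lit 380) (nat_lit 8309884560) (nat_lit 456) (nat_lit 7044510536) (nat_lit 107) (nat_lit 5) (nat_lit 112) (nat_lit 5) (nat_lit 113) (nat_lit 5) (nat_lit 342) (nat_lit 300) (nat_lit 138)) (XT.lf (nat_lit 0) (nat_lit 24447264169) (nat_lit 456) (nat_lit 1956366869) (nat_lit 76) (nat_lit 1206563909) (nat_lit 107) (nat_lit 5) (nat_lit 113) (nat_lit 5) (nat_lit 108) (nat_lit 5) (nat_lit 343) (nat_lit 300) (nat_lit 137)))) (XT.nd (nat_lit 156) (nat_lit 380) (nat_lit 0) (XT.nd (nat_lit 78) (nat_lit 0) (nat_lit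 0) (XT.lf (nat_lit 0) (nat_lit 1013413749) (nat_lit 380) (nat_lit 16153452157) (nat_lit 76) (nat_lit 10965361417) (nat_lit 102) (nat_lit 5) (nat_lit 107) (nat_lit 5) (nat_lit 103) (nat_lit 5) (nat_lit 344) (nat_lit 300) (nat_lit 136)) (XT.lf (nat_lit 0) (nat_lit 5266645034) (nat_lit 380) (nat_lit 2335068652) (nat_lit 76) (nat_lit 21066816462) (nat_lit 102) (nat_lit 5) (nat_lit 107) (nat_lit 5) (nat_lit 103) (nat_lit 5) (nat_lit 345) (nat_lit 300) (nat_lit 135))) (XT.nd (nat_lit 78) (nat_lit 0) (nat_lit 0) (XT.lf (nat_lit 0) (nat_lit 9782187712) (nat_lit 456) (nat_lit 17111924897) (nat_lit 76) (nat_lit 2322771908) (nat_lit 97) (nat_lit 5) (nat_lit 103) (nat_lit 5) (nat_lit 98) (nat_lit 5) (nat_lit 346) (nat_lit 300) (nat_lit 134)) (XT.lf (nat_lit 0) (nat_lit 14527693309) (nat_lit 456) (nat_lit 2836611493) (nat_lit 76) (nat_lit 12414553595) (nat_lit 97) (nat_lit 5) (nat_lit 103) (nat_lit 5) (nat_lit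 98) (nat_lit 5) (nat_lit 347) (nat_lit 300) (nat_lit 133))))))))
noncomputable def xc196 : XT := (XT.nd (nat_lit 2106) (nat_lit 1748) (nat_lit 0) (XT.nd (nat_lit 1014) (nat_lit 1368) (nat_lit 0) (XT.nd (nat_lit 468) (nat_lit 1140) (nat_lit 0) (XT.nd (nat_lit 234) (nat_lit 380) (nat_lit 0) (XT.nd (nat_lit 78) (nat_lit 304) (nat_lit 0) (XT.lf (nat_lit 0) (nat_lit 12097010996) (nat_lit 304) (nat_lit 7430389444) (nat_lit 380) (nat_lit 10826939631) (nat_lit 93) (nat_lit 5) (nat_lit 97) (nat_lit 5) (nat_lit 98) (nat_lit 5) (nat_lit 348) (nat_lit 300) (nat_lit 132)) (XT.nd (nat_lit 78) (nat_lit 304) (nat_lit 0) (XT.lf (nat_lit 0) (nat_lit 24728566499) (nat_lit 380) (nat_lit 3442718095) (nat_lit 76) (nat_lit 2774261131) (nat_lit 93) (nat_lit 5) (nat_lit 98) (nat_lit 5) (nat_lit 94) (nat_lit 5) (nat_lit 349) (nat_lit 300) (nat_lit 131)) (XT.lf (nat_lit 0) (nat_lit 11970459109) (nat_lit 304) (nat_lit 18299681636)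 (nat_lit 380) (nat_lit 1278819067) (nat_lit 89) (nat_lit 5) (nat_lit 93) (nat_lit 5) (nat_lit 94) (nat_lit 5) (nat_lit 350) (nat_lit 300) (nat_lit 130)))) (XT.nd (nat_lit 78) (nat_lit 304) (nat_lit 0) (XT.lf (nat_lit 0) (nat_lit 3764057915) (nat_lit 380) (nat_lit 4295694033) (nat_lit 76) (nat_lit 24108703543) (nat_lit 88) (nat_lit 5) (nat_lit 93) (nat_lit 5) (nat_lit 89) (nat_lit 5) (nat_lit 351) (nat_lit 300) (nat_lit 129)) (XT.nd (nat_lit 78) (nat_lit 0) (nat_lit 0) (XT.lf (nat_lit 0) (nat_lit 9065562868) (nat_lit 380) (nat_lit 21173440363) (nat_lit 76) (nat_lit 2563164788) (nat_lit 84) (nat_lit 5) (nat_lit 89) (nat_lit 5) (nat_lit 85) (nat_lit 5) (nat_lit 352) (nat_lit 300) (nat_lit 128)) (XT.lf (nat_lit 0) (nat_lit 14645653795) (nat_lit 380) (nat_lit 5420680630) (nat_lit 76) (nat_lit 13384974344) (nat_lit 84) (nat_lit 5) (nat_lit 89) (nat_lit 5) (nat_lit 85) (nat_lit 5) (nat_lit 353) (nat_lit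 300) (nat_lit 127))))) (XT.nd (nat_lit 234) (nat_lit 608) (nat_lit 0) (XT.nd (nat_lit 78) (nat_lit 228) (nat_lit 0) (XT.lf (nat_lit 0) (nat_lit 11013952165) (nat_lit 304) (nat_lit 9481120295) (nat_lit 380) (nat_lit 13621796516) (nat_lit 80) (nat_lit 5) (nat_lit 84) (nat_lit 5) (nat_lit 85) (nat_lit 5) (nat_lit 354) (nat_lit 300) (nat_lit 126)) (XT.nd (nat_lit 78) (nat_lit 228) (nat_lit 0) (XT.lf (nat_lit 0) (nat_lit 26585016966) (nat_lit 380) (nat_lit 6767898632) (nat_lit 76) (nat_lit 1447531987) (nat_lit 80) (nat_lit 5) (nat_lit 85) (nat_lit 5) (nat_lit 81) (nat_lit 5) (nat_lit 355) (nat_lit 300) (nat_lit 125)) (XT.lf (nat_lit 0) (nat_lit 10155962815) (nat_lit 228) (nat_lit 22889405770) (nat_lit 304) (nat_lit 2453536518) (nat_lit 77) (nat_lit 5) (nat_lit 80) (nat_lit 5) (nat_lit 81) (nat_lit 5) (nat_lit 356) (nat_lit 300) (nat_lit 124)))) (XT.nd (nat_lit 156) (nat_lit 228) (nat_lit 0) (XT.nd (nat_lit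 78) (nat_lit 304) (nat_lit 0) (XT.lf (nat_lit 0) (nat_lit 3478531765) (nat_lit 304) (nat_lit 8529668746) (nat_lit 76) (nat_lit 24207157125) (nat_lit 76) (nat_lit 5) (nat_lit 80) (nat_lit 5) (nat_lit 77) (nat_lit 5) (nat_lit 357) (nat_lit 300) (nat_lit 123)) (XT.lf (nat_lit 0) (nat_lit 8932642028) (nat_lit 304) (nat_lit 688811489) (nat_lit 380) (nat_lit 27328657878) (nat_lit 72) (nat_lit 5) (nat_lit 76) (nat_lit 5) (nat_lit 77) (nat_lit 5) (nat_lit 358) (nat_lit 300) (nat_lit 122))) (XT.nd (nat_lit 78) (nat_lit 228) (nat_lit 0) (XT.lf (nat_lit 0) (nat_lit 16137478525) (nat_lit 380) (nat_lit 10722374473) (nat_lit 76) (nat_lit 10841392798) (nat_lit 72) (nat_lit 5) (nat_lit 77) (nat_lit 5) (nat_lit 73) (nat_lit 5) (nat_lit 359) (nat_lit 300) (nat_lit 121)) (XT.lf (nat_lit 0) (nat_lit 7220388966) (nat_lit 228) (nat_lit 15701305514) (nat_lit 304) (nat_lit 15551040869) (nat_lit 69) (nat_lit 5) (nat_lit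 72) (nat_lit 5) (nat_lit 73) (nat_lit 5) (nat_lit 360) (nat_lit 300) (nat_lit 120)))))) (XT.nd (nat_lit 546) (nat_lit 608) (nat_lit 0) (XT.nd (nat_lit 234) (nat_lit 456) (nat_lit 0) (XT.nd (nat_lit 78) (nat_lit 304) (nat_lit 0) (XT.lf (nat_lit 0) (nat_lit 25916024865) (nat_lit 228) (nat_lit 4098222847) (nat_lit 304) (nat_lit 9249979907) (nat_lit 69) (nat_lit 5) (nat_lit 72) (nat_lit 5) (nat_lit 73) (nat_lit 5) (nat_lit 361) (nat_lit 300) (nat_lit 119)) (XT.nd (nat_lit 78) (nat_lit 76) (nat_lit 0) (XT.lf (nat_lit 0) (nat_lit 5112191257) (nat_lit 228) (nat_lit 32328635633) (nat_lit 304) (nat_lit 2635002573) (nat_lit 66) (nat_lit 5) (nat_lit 69) (nat_lit 5) (nat_lit 70) (nat_lit 5) (nat_lit 362) (nat_lit 300) (nat_lit 118)) (XT.lf (nat_lit 0) (nat_lit 4270224459) (nat_lit 304) (nat_lit 16594952582) (nat_lit 76) (nat_lit 20040199415) (nat_lit 65) (nat_lit 5) (nat_lit 69) (nat_lit 5) (nat_lit 66) (nat_lit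 5) (nat_lit 363) (nat_lit 300) (nat_lit 117)))) (XT.nd (nat_lit 156) (nat_lit 228) (nat_lit 0) (XT.nd (nat_lit 78) (nat_lit 0) (nat_lit 0) (XT.lf (nat_lit 0) (nat_lit 2339341308) (nat_lit 228) (nat_lit 9009526031) (nat_lit 304) (nat_lit 30409585340) (nat_lit 62) (nat_lit 5) (nat_lit 65) (nat_lit 5) (nat_lit 66) (nat_lit 5) (nat_lit 364) (nat_lit 300) (nat_lit 116)) (XT.lf (nat_lit 0) (nat_lit 18836646265) (nat_lit 304) (nat_lit 20487731270) (nat_lit 76) (nat_lit 3306842381) (nat_lit 62) (nat_lit 5) (nat_lit 66) (nat_lit 5) (nat_lit 63) (nat_lit 5) (nat_lit 365) (nat_lit 300) (nat_lit 115))) (XT.nd (nat_lit 78) (nat_lit 228) (nat_lit 0) (XT.lf (nat_lit 0) (nat_lit 26635119549) (nat_lit 304) (nat_lit 1082510926) (nat_lit 76) (nat_lit 15809959838) (nat_lit 62) (nat_lit 5) (nat_lit 66) (nat_lit 5) (nat_lit 63) (nat_lit 5) (nat_lit 366) (nat_lit 300) (nat_lit 114)) (XT.lf (nat_lit 0) (nat_lit 19276260017)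 (nat_lit 228) (nat_lit 15573531502) (nat_lit 304) (nat_lit 9595594883) (nat_lit 59) (nat_lit 5) (nat_lit 62) (nat_lit 5) (nat_lit 63) (nat_lit 5) (nat_lit 367) (nat_lit 300) (nat_lit 113))))) (XT.nd (nat_lit 234) (nat_lit 380) (nat_lit 0) (XT.nd (nat_lit 78) (nat_lit 228) (nat_lit 0) (XT.lf (nat_lit 0) (nat_lit 40263275848) (nat_lit 228) (nat_lit 3055551916) (nat_lit 304) (nat_lit 2071652745) (nat_lit 59) (nat_lit 5) (nat_lit 62) (nat_lit 5) (nat_lit 63) (nat_lit 5) (nat_lit 368) (nat_lit 300) (nat_lit 112)) (XT.nd (nat_lit 78) (nat_lit 0) (nat_lit 0) (XT.lf (nat_lit 0) (nat_lit 5812389105) (nat_lit 228) (nat_lit 30690045204) (nat_lit 76) (nat_lit 9852502073) (nat_lit 56) (nat_lit 5) (nat_lit 59) (nat_lit 5) (nat_lit 57) (nat_lit 5) (nat_lit 369) (nat_lit 300) (nat_lit 111)) (XT.lf (nat_lit 0) (nat_lit 13970929863) (nat_lit 228) (nat_lit 10216856535) (nat_lit 76) (nat_lit 23157537417) (nat_lit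 56) (nat_lit 5) (nat_lit 59) (nat_lit 5) (nat_lit 57) (nat_lit 5) (nat_lit 370) (nat_lit 300) (nat_lit 110)))) (XT.nd (nat_lit 156) (nat_lit 152) (nat_lit 0) (XT.nd (nat_lit 78) (nat_lit 0) (nat_lit 0) (XT.lf (nat_lit 0) (nat_lit 11082258906) (nat_lit 228) (nat_lit 11395658064) (nat_lit 304) (nat_lit 25884396850) (nat_lit 53) (nat_lit 5) (nat_lit 56) (nat_lit 5) (nat_lit 57) (nat_lit 5) (nat_lit 371) (nat_lit 300) (nat_lit 109)) (XT.lf (nat_lit 0) (nat_lit 31358602267) (nat_lit 304) (nat_lit 16199618024) (nat_lit 76) (nat_lit 1848040179) (nat_lit 53) (nat_lit 5) (nat_lit 57) (nat_lit 5) (nat_lit 54) (nat_lit 5) (nat_lit 372) (nat_lit 300) (nat_lit 108))) (XT.nd (nat_lit 78) (nat_lit 0) (nat_lit 0) (XT.lf (nat_lit 0) (nat_lit 5503378118) (nat_lit 152) (nat_lit 35165326323) (nat_lit 228) (nat_lit 9807932747) (nat_lit 51) (nat_lit 5) (nat_lit 53) (nat_lit 5) (nat_lit 54) (nat_lit 5) (nat_lit 373)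 (nat_lit 300) (nat_lit 107)) (XT.lf (nat_lit 0) (nat_lit 28185167446) (nat_lit 152) (nat_lit 22233830388) (nat_lit 228) (nat_lit 1155302240) (nat_lit 51) (nat_lit 5) (nat_lit 53) (nat_lit 5) (nat_lit 54) (nat_lit 5) (nat_lit 374) (nat_lit 300) (nat_lit 106))))))) (XT.nd (nat_lit 1092) (nat_lit 532) (nat_lit 0) (XT.nd (nat_lit 546) (nat_lit 532) (nat_lit 0) (XT.nd (nat_lit 234) (nat_lit 380) (nat_lit 0) (XT.nd (nat_lit 78) (nat_lit 228) (nat_lit 0) (XT.lf (nat_lit 0) (nat_lit 7602896931) (nat_lit 228) (nat_lit 1236346216) (nat_lit 76) (nat_lit 43863493551) (nat_lit 50) (nat_lit 5) (nat_lit 53) (nat_lit 5) (nat_lit 51) (nat_lit 5) (nat_lit 375) (nat_lit 300) (nat_lit 105)) (XT.nd (nat_lit 78) (nat_lit 0) (nat_lit 0) (XT.lf (nat_lit 0) (nat_lit 16859321830) (nat_lit 304) (nat_lit 31913656860) (nat_lit 76) (nat_lit 5083944952) (nat_lit 47) (nat_lit 5) (nat_lit 51) (nat_lit 5) (nat_lit 48) (nat_lit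 5) (nat_lit 376) (nat_lit 300) (nat_lit 104)) (XT.lf (nat_lit 0) (nat_lit 26491016683) (nat_lit 304) (nat_lit 9293585937) (nat_lit 76) (nat_lit 19258207598) (nat_lit 47) (nat_lit 5) (nat_lit 51) (nat_lit 5) (nat_lit 48) (nat_lit 5) (nat_lit 377) (nat_lit 300) (nat_lit 103)))) (XT.nd (nat_lit 156) (nat_lit 228) (nat_lit 0) (XT.nd (nat_lit 78) (nat_lit 0) (nat_lit 0) (XT.lf (nat_lit 0) (nat_lit 14279661467) (nat_lit 152) (nat_lit 22266791645) (nat_lit 228) (nat_lit 19713777862) (nat_lit 45) (nat_lit 5) (nat_lit 47) (nat_lit 5) (nat_lit 48) (nat_lit 5) (nat_lit 378) (nat_lit 300) (nat_lit 102)) (XT.lf (nat_lit 0) (nat_lit 38746582355) (nat_lit 152) (nat_lit 8248376455) (nat_lit 228) (nat_lit 10516474624) (nat_lit 45) (nat_lit 5) (nat_lit 47) (nat_lit 5) (nat_lit 48) (nat_lit 5) (nat_lit 379) (nat_lit 300) (nat_lit 101))) (XT.nd (nat_lit 78) (nat_lit 76) (nat_lit 0) (XT.lf (nat_lit 0) (nat_lit 5185036568)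 (nat_lit 152) (nat_lit 52678848014) (nat_lit 228) (nat_lit 933079669) (nat_lit 43) (nat_lit 5) (nat_lit 45) (nat_lit 5) (nat_lit 46) (nat_lit 5) (nat_lit 380) (nat_lit 300) (nat_lit 100)) (XT.lf (nat_lit 0) (nat_lit 9034062124) (nat_lit 228) (nat_lit 30050736271) (nat_lit 76) (nat_lit 21025566662) (nat_lit 42) (nat_lit 5) (nat_lit 45) (nat_lit 5) (nat_lit 43) (nat_lit 5) (nat_lit 381) (nat_lit 300) (nat_lit 99))))) (XT.nd (nat_lit 234) (nat_lit 380) (nat_lit 0) (XT.nd (nat_lit 78) (nat_lit 152) (nat_lit 0) (XT.lf (nat_lit 0) (nat_lit 19279156016) (nat_lit 228) (nat_lit 5795814365) (nat_lit 76) (nat_lit 36387990723) (nat_lit 42) (nat_lit 5) (nat_lit 45) (nat_lit 5) (nat_lit 43) (nat_lit 5) (nat_lit 382) (nat_lit 300) (nat_lit 98)) (XT.nd (nat_lit 78) (nat_lit 0) (nat_lit 0) (XT.lf (nat_lit 0) (nat_lit 19564780320) (nat_lit 152) (nat_lit 10452650093) (nat_lit 228) (nat_lit 32833130882) (nat_lit 40)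 (nat_lit 5) (nat_lit 42) (nat_lit 5) (nat_lit 43) (nat_lit 5) (nat_lit 383) (nat_lit 300) (nat_lit 97)) (XT.lf (nat_lit 0) (nat_lit 41179031164) (nat_lit 228) (nat_lit 18521680322) (nat_lit 76) (nat_lit 4576043721) (nat_lit 40) (nat_lit 5) (nat_lit 43) (nat_lit 5) (nat_lit 41) (nat_lit 5) (nat_lit 384) (nat_lit 300) (nat_lit 96)))) (XT.nd (nat_lit 156) (nat_lit 228) (nat_lit 0) (XT.nd (nat_lit 78) (nat_lit 0) (nat_lit 0) (XT.lf (nat_lit 0) (nat_lit 7015080742) (nat_lit 152) (nat_lit 45829162970) (nat_lit 228) (nat_lit 12896429340) (nat_lit 38) (nat_lit 5) (nat_lit 40) (nat_lit 5) (nat_lit 41) (nat_lit 5) (nat_lit 385) (nat_lit 300) (nat_lit 95)) (XT.lf (nat_lit 0) (nat_lit 33693996300) (nat_lit 152) (nat_lit 31350316036) (nat_lit 228) (nat_lit 2198650106) (nat_lit 38) (nat_lit 5) (nat_lit 40) (nat_lit 5) (nat_lit 41) (nat_lit 5) (nat_lit 386) (nat_lit 300) (nat_lit 94))) (XT.nd (nat_lit 78) (nat_lit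 152) (nat_lit 0) (XT.lf (nat_lit 0) (nat_lit 8645859030) (nat_lit 228) (nat_lit 7705386664) (nat_lit 76) (nat_lit 52436595014) (nat_lit 37) (nat_lit 5) (nat_lit 40) (nat_lit 5) (nat_lit 38) (nat_lit 5) (nat_lit 387) (nat_lit 300) (nat_lit 93)) (XT.lf (nat_lit 0) (nat_lit 19264187161) (nat_lit 152) (nat_lit 690473396) (nat_lit 228) (nat_lit 50418258182) (nat_lit 35) (nat_lit 5) (nat_lit 37) (nat_lit 5) (nat_lit 38) (nat_lit 5) (nat_lit 388) (nat_lit 300) (nat_lit 92)))))) (XT.nd (nat_lit 546) (nat_lit 228) (nat_lit 0) (XT.nd (nat_lit 234) (nat_lit 152) (nat_lit 0) (XT.nd (nat_lit 78) (nat_lit 152) (nat_lit 0) (XT.lf (nat_lit 0) (nat_lit 31827706983) (nat_lit 228) (nat_lit 24955075447) (nat_lit 76) (nat_lit 15216018143) (nat_lit 35) (nat_lit 5) (nat_lit 38) (nat_lit 5) (nat_lit 36) (nat_lit 5) (nat_lit 389) (nat_lit 300) (nat_lit 91)) (XT.nd (nat_lit 78) (nat_lit 0) (nat_lit 0) (XT.lf (nat_lit 0)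 (nat_lit 2012249949) (nat_lit 152) (nat_lit 42068914265) (nat_lit 228) (nat_lit 29591568928) (nat_lit 33) (nat_lit 5) (nat_lit 35) (nat_lit 5) (nat_lit 36) (nat_lit 5) (nat_lit 390) (nat_lit 300) (nat_lit 90)) (XT.lf (nat_lit 0) (nat_lit 30296812437) (nat_lit 152) (nat_lit 26655475126) (nat_lit 228) (nat_lit 18437095089) (nat_lit 33) (nat_lit 5) (nat_lit 35) (nat_lit 5) (nat_lit 36) (nat_lit 5) (nat_lit 391) (nat_lit 300) (nat_lit 89)))) (XT.nd (nat_lit 156) (nat_lit 0) (nat_lit 0) (XT.nd (nat_lit 78) (nat_lit 152) (nat_lit 0) (XT.lf (nat_lit 0) (nat_lit 59426671752) (nat_lit 152) (nat_lit 10780994290) (nat_lit 228) (nat_lit 6949922776) (nat_lit 33) (nat_lit 5) (nat_lit 35) (nat_lit 5) (nat_lit 36) (nat_lit 5) (nat_lit 392) (nat_lit 300) (nat_lit 88)) (XT.lf (nat_lit 0) (nat_lit 4941735464) (nat_lit 152) (nat_lit 68420946260) (nat_lit 76) (nat_lit 5610098380) (nat_lit 31) (nat_lit 5) (nat_lit 33)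 (nat_lit 5) (nat_lit 32) (nat_lit 5) (nat_lit 393) (nat_lit 300) (nat_lit 87))) (XT.nd (nat_lit 78) (nat_lit 0) (nat_lit 0) (XT.lf (nat_lit 0) (nat_lit 17336187521) (nat_lit 152) (nat_lit 40971042810) (nat_lit 76) (nat_lit 22524561288) (nat_lit 31) (nat_lit 5) (nat_lit 33) (nat_lit 5) (nat_lit 32) (nat_lit 5) (nat_lit 394) (nat_lit 300) (nat_lit 86)) (XT.lf (nat_lit 0) (nat_lit 30100694379) (nat_lit 152) (nat_lit 12700743640) (nat_lit 76) (nat_lit 39945189547) (nat_lit 31) (nat_lit 5) (nat_lit 33) (nat_lit 5) (nat_lit 32) (nat_lit 5) (nat_lit 395) (nat_lit 300) (nat_lit 85))))) (XT.nd (nat_lit 234) (nat_lit 76) (nat_lit 0) (XT.nd (nat_lit 78) (nat_lit 0) (nat_lit 0) (XT.lf (nat_lit 0) (nat_lit 16741337243) (nat_lit 152) (nat_lit 26666000220) (nat_lit 228) (nat_lit 41306795798) (nat_lit 29) (nat_lit 5) (nat_lit 31) (nat_lit 5) (nat_lit 32) (nat_lit 5) (nat_lit 396) (nat_lit 300) (nat_lit 84)) (XT.nd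 (nat_lit 78) (nat_lit 0) (nat_lit 0) (XT.lf (nat_lit 0) (nat_lit 47324051814) (nat_lit 152) (nat_lit 9915675318) (nat_lit 228) (nat_lit 29497141255) (nat_lit 29) (nat_lit 5) (nat_lit 31) (nat_lit 5) (nat_lit 32) (nat_lit 5) (nat_lit 397) (nat_lit 300) (nat_lit 83)) (XT.lf (nat_lit 0) (nat_lit 71555950202) (nat_lit 228) (nat_lit 10069500120) (nat_lit 76) (nat_lit 7192770057) (nat_lit 29) (nat_lit 5) (nat_lit 32) (nat_lit 5) (nat_lit 30) (nat_lit 4) (nat_lit 398) (nat_lit 300) (nat_lit 82)))) (XT.nd (nat_lit 33072) (nat_lit 0) (nat_lit 12692) (XT.nd (nat_lit 32994) (nat_lit 0) (nat_lit 12692) (XT.lf (nat_lit 0) (nat_lit 20452189018) (nat_lit 76) (nat_lit 66142625915) (nat_lit 152) (nat_lit 4358403989) (nat_lit 28) (nat_lit 5) (nat_lit 29) (nat_lit 5) (nat_lit 30) (nat_lit 4) (nat_lit 399) (nat_lit 300) (nat_lit 81)) (XT.lf (nat_lit 0) (nat_lit 118846161) (nat_lit 0) (nat_lit 118846161) (nat_lit 1140)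 (nat_lit 6747895008) (nat_lit 195) (nat_lit 5) (nat_lit 195) (nat_lit 3) (nat_lit 210) (nat_lit 3) (nat_lit 301) (nat_lit 301) (nat_lit 178))) (XT.nd (nat_lit 78) (nat_lit 0) (nat_lit 0) (XT.lf (nat_lit 0) (nat_lit 870561026) (nat_lit 1140) (nat_lit 7445952182) (nat_lit 1216) (nat_lit 5852199242) (nat_lit 195) (nat_lit 5) (nat_lit 210) (nat_lit 3) (nat_lit 211) (nat_lit 5) (nat_lit 302) (nat_lit 301) (nat_lit 177)) (XT.lf (nat_lit 0) (nat_lit 1267102944) (nat_lit 1140) (nat_lit 979066434) (nat_lit 1216) (nat_lit 12126336845) (nat_lit 195) (nat_lit 5) (nat_lit 210) (nat_lit 3) (nat_lit 211) (nat_lit 5) (nat_lit 303) (nat_lit 301) (nat_lit 176))))))))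
noncomputable def xc197 : XT := (XT.nd (nat_lit 2184) (nat_lit 5244) (nat_lit 0) (XT.nd (nat_lit 1092) (nat_lit 4180) (nat_lit 0) (XT.nd (nat_lit 546) (nat_lit 0) (nat_lit 228) (XT.nd (nat_lit 234) (nat_lit 0) (nat_lit 76) (XT.nd (nat_lit 78) (nat_lit 0) (nat_lit 0) (XT.lf (nat_lit 0) (nat_lit 1757827430) (nat_lit 1140) (nat_lit 8832194247) (nat_lit 1216) (nat_lit 3989938264) (nat_lit 196) (nat_lit 5) (nat_lit 211) (nat_lit 5) (nat_lit 212) (nat_lit 5) (nat_lit 304) (nat_lit 301) (nat_lit 175)) (XT.nd (nat_lit 78) (nat_lit 0) (nat_lit 76) (XT.lf (nat_lit 0) (nat_lit 2283380739) (nat_lit 1140) (nat_lit 2126287242) (nat_lit 1216) (nat_lit 10383380367) (nat_lit 196) (nat_lit 5) (nat_lit 211) (nat_lit 5) (nat_lit 212) (nat_lit 5) (nat_lit 305) (nat_lit 301) (nat_lit 174)) (XT.lf (nat_lit 0) (nat_lit 2879053539) (nat_lit 1140) (nat_lit 10161874115) (nat_lit 1216) (nat_lit 1969985039) (nat_lit 197) (nat_lit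 5) (nat_lit 212) (nat_lit 5) (nat_lit 213) (nat_lit 5) (nat_lit 306) (nat_lit 301) (nat_lit 173)))) (XT.nd (nat_lit 156) (nat_lit 0) (nat_lit 76) (XT.nd (nat_lit 78) (nat_lit 0) (nat_lit 0) (XT.lf (nat_lit 0) (nat_lit 3546498846) (nat_lit 1140) (nat_lit 3208541947) (nat_lit 1216) (nat_lit 8478668577) (nat_lit 197) (nat_lit 5) (nat_lit 212) (nat_lit 5) (nat_lit 213) (nat_lit 5) (nat_lit 307) (nat_lit 301) (nat_lit 172)) (XT.lf (nat_lit 76) (nat_lit 4024929674) (nat_lit 0) (nat_lit 236619502) (nat_lit 1216) (nat_lit 11200826400) (nat_lit 198) (nat_lit 5) (nat_lit 197) (nat_lit 5) (nat_lit 213) (nat_lit 5) (nat_lit 308) (nat_lit 301) (nat_lit 171))) (XT.nd (nat_lit 78) (nat_lit 0) (nat_lit 0) (XT.lf (nat_lit 0) (nat_lit 5082222235) (nat_lit 1140) (nat_lit 4225646103) (nat_lit 1216) (nat_lit 6387520989) (nat_lit 198) (nat_lit 5) (nat_lit 213) (nat_lit 5) (nat_lit 214) (nat_lit 5) (nat_lit 309) (nat_lit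 301) (nat_lit 170)) (XT.lf (nat_lit 76) (nat_lit 3256617475) (nat_lit 0) (nat_lit 2694046495) (nat_lit 1216) (nat_lit 9984047394) (nat_lit 199) (nat_lit 5) (nat_lit 198) (nat_lit 5) (nat_lit 214) (nat_lit 5) (nat_lit 310) (nat_lit 301) (nat_lit 169))))) (XT.nd (nat_lit 234) (nat_lit 0) (nat_lit 76) (XT.nd (nat_lit 78) (nat_lit 0) (nat_lit 0) (XT.lf (nat_lit 0) (nat_lit 6917609203) (nat_lit 1140) (nat_lit 5177348516) (nat_lit 1216) (nat_lit 4084093802) (nat_lit 199) (nat_lit 5) (nat_lit 214) (nat_lit 5) (nat_lit 215) (nat_lit 5) (nat_lit 311) (nat_lit 301) (nat_lit 168)) (XT.nd (nat_lit 78) (nat_lit 0) (nat_lit 76) (XT.lf (nat_lit 76) (nat_lit 2564628397) (nat_lit 0) (nat_lit 5390329309) (nat_lit 1216) (nat_lit 8474533950) (nat_lit 200) (nat_lit 5) (nat_lit 199) (nat_lit 5) (nat_lit 215) (nat_lit 5) (nat_lit 312) (nat_lit 301) (nat_lit 167)) (XT.lf (nat_lit 0) (nat_lit 9081107361) (nat_lit 1140)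 (nat_lit 6063386105) (nat_lit 1216) (nat_lit 1541232389) (nat_lit 200) (nat_lit 5) (nat_lit 215) (nat_lit 5) (nat_lit 216) (nat_lit 5) (nat_lit 313) (nat_lit 301) (nat_lit 166)))) (XT.nd (nat_lit 156) (nat_lit 0) (nat_lit 76) (XT.nd (nat_lit 78) (nat_lit 0) (nat_lit 0) (XT.lf (nat_lit 76) (nat_lit 1949605933) (nat_lit 0) (nat_lit 8354142747) (nat_lit 1216) (nat_lit 6644028138) (nat_lit 201) (nat_lit 5) (nat_lit 200) (nat_lit 5) (nat_lit 216) (nat_lit 5) (nat_lit 314) (nat_lit 301) (nat_lit 165)) (XT.lf (nat_lit 76) (nat_lit 10320148161) (nat_lit 0) (nat_lit 1294951475) (nat_lit 1216) (nat_lit 5601039395) (nat_lit 201) (nat_lit 5) (nat_lit 200) (nat_lit 5) (nat_lit 216) (nat_lit 5) (nat_lit 315) (nat_lit 301) (nat_lit 164))) (XT.nd (nat_lit 78) (nat_lit 0) (nat_lit 0) (XT.lf (nat_lit 76) (nat_lit 1412142637) (nat_lit 0) (nat_lit 11615757237) (nat_lit 1216) (nat_lit 4462799297) (nat_lit 202) (nat_lit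 5) (nat_lit 201) (nat_lit 5) (nat_lit 217) (nat_lit 5) (nat_lit 316) (nat_lit 301) (nat_lit 163)) (XT.lf (nat_lit 76) (nat_lit 10090652764) (nat_lit 0) (nat_lit 4466042989) (nat_lit 1216) (nat_lit 3214602036) (nat_lit 202) (nat_lit 5) (nat_lit 201) (nat_lit 5) (nat_lit 217) (nat_lit 5) (nat_lit 317) (nat_lit 301) (nat_lit 162)))))) (XT.nd (nat_lit 546) (nat_lit 2128) (nat_lit 0) (XT.nd (nat_lit 234) (nat_lit 608) (nat_lit 0) (XT.nd (nat_lit 78) (nat_lit 760) (nat_lit 0) (XT.lf (nat_lit 0) (nat_lit 952713790) (nat_lit 1140) (nat_lit 15207207355) (nat_lit 1216) (nat_lit 1899545982) (nat_lit 187) (nat_lit 5) (nat_lit 202) (nat_lit 5) (nat_lit 203) (nat_lit 5) (nat_lit 318) (nat_lit 301) (nat_lit 161)) (XT.nd (nat_lit 78) (nat_lit 760) (nat_lit 0) (XT.lf (nat_lit 0) (nat_lit 9950269590) (nat_lit 1140) (nat_lit 7974043972) (nat_lit 1216) (nat_lit 428585325) (nat_lit 187) (nat_lit 5) (nat_lit 202) (nat_lit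 5) (nat_lit 203) (nat_lit 5) (nat_lit 319) (nat_lit 301) (nat_lit 160)) (XT.lf (nat_lit 0) (nat_lit 555908652) (nat_lit 684) (nat_lit 506616155) (nat_lit 760) (nat_lit 17592387704) (nat_lit 177) (nat_lit 5) (nat_lit 186) (nat_lit 5) (nat_lit 187) (nat_lit 5) (nat_lit 320) (nat_lit 301) (nat_lit 159)))) (XT.nd (nat_lit 156) (nat_lit 0) (nat_lit 0) (XT.nd (nat_lit 78) (nat_lit 608) (nat_lit 0) (XT.lf (nat_lit 0) (nat_lit 2736565417) (nat_lit 760) (nat_lit 9089440853) (nat_lit 76) (nat_lit 7135457278) (nat_lit 177) (nat_lit 5) (nat_lit 187) (nat_lit 5) (nat_lit 178) (nat_lit 5) (nat_lit 321) (nat_lit 301) (nat_lit 158)) (XT.lf (nat_lit 0) (nat_lit 181854620) (nat_lit 608) (nat_lit 4278024207) (nat_lit 684) (nat_lit 14817369136) (nat_lit 169) (nat_lit 5) (nat_lit 177) (nat_lit 5) (nat_lit 178) (nat_lit 5) (nat_lit 322) (nat_lit 301) (nat_lit 157))) (XT.nd (nat_lit 78) (nat_lit 0) (nat_lit 0) (XT.lf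 (nat_lit 0) (nat_lit 6353645280) (nat_lit 684) (nat_lit 9723914595) (nat_lit 76) (nat_lit 3521391575) (nat_lit 169) (nat_lit 5) (nat_lit 178) (nat_lit 5) (nat_lit 170) (nat_lit 5) (nat_lit 323) (nat_lit 301) (nat_lit 156)) (XT.lf (nat_lit 0) (nat_lit 8339251142) (nat_lit 684) (nat_lit 120694332) (nat_lit 76) (nat_lit 11469317689) (nat_lit 169) (nat_lit 5) (nat_lit 178) (nat_lit 5) (nat_lit 170) (nat_lit 5) (nat_lit 324) (nat_lit 301) (nat_lit 155))))) (XT.nd (nat_lit 234) (nat_lit 1064) (nat_lit 0) (XT.nd (nat_lit 78) (nat_lit 532) (nat_lit 0) (XT.lf (nat_lit 0) (nat_lit 9958099992) (nat_lit 532) (nat_lit 514931778) (nat_lit 608) (nat_lit 9793801940) (nat_lit 162) (nat_lit 5) (nat_lit 169) (nat_lit 5) (nat_lit 170) (nat_lit 5) (nat_lit 325) (nat_lit 301) (nat_lit 154)) (XT.nd (nat_lit 78) (nat_lit 532) (nat_lit 0) (XT.lf (nat_lit 0) (nat_lit 12738797666) (nat_lit 608) (nat_lit 353480780) (nat_lit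 76) (nat_lit 7520221231) (nat_lit 162) (nat_lit 5) (nat_lit 170) (nat_lit 5) (nat_lit 163) (nat_lit 5) (nat_lit 326) (nat_lit 301) (nat_lit 153)) (XT.lf (nat_lit 0) (nat_lit 10085343963) (nat_lit 532) (nat_lit 5082467834) (nat_lit 608) (nat_lit 5797872809) (nat_lit 155) (nat_lit 5) (nat_lit 162) (nat_lit 5) (nat_lit 163) (nat_lit 5) (nat_lit 327) (nat_lit 301) (nat_lit 152)))) (XT.nd (nat_lit 156) (nat_lit 608) (nat_lit 0) (XT.nd (nat_lit 78) (nat_lit 456) (nat_lit 0) (XT.lf (nat_lit 0) (nat_lit 17697112584) (nat_lit 608) (nat_lit 522190747) (nat_lit 76) (nat_lit 3109346294) (nat_lit 155) (nat_lit 5) (nat_lit 163) (nat_lit 5) (nat_lit 156) (nat_lit 5) (nat_lit 328) (nat_lit 301) (nat_lit 151)) (XT.lf (nat_lit 0) (nat_lit 10290460302) (nat_lit 456) (nat_lit 10154627253) (nat_lit 532) (nat_lit 1253139010) (nat_lit 149) (nat_lit 5) (nat_lit 155) (nat_lit 5) (nat_lit 156) (nat_lit 5) (nat_lit 329)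 (nat_lit 301) (nat_lit 150))) (XT.nd (nat_lit 78) (nat_lit 532) (nat_lit 0) (XT.lf (nat_lit 0) (nat_lit 1172196186) (nat_lit 532) (nat_lit 658885596) (nat_lit 76) (nat_lit 20247502326) (nat_lit 148) (nat_lit 5) (nat_lit 155) (nat_lit 5) (nat_lit 149) (nat_lit 5) (nat_lit 330) (nat_lit 301) (nat_lit 149)) (XT.lf (nat_lit 0) (nat_lit 3806735273) (nat_lit 608) (nat_lit 11932744679) (nat_lit 76) (nat_lit 6725657531) (nat_lit 141) (nat_lit 5) (nat_lit 149) (nat_lit 5) (nat_lit 142) (nat_lit 5) (nat_lit 331) (nat_lit 301) (nat_lit 148))))))) (XT.nd (nat_lit 1092) (nat_lit 2280) (nat_lit 0) (XT.nd (nat_lit 546) (nat_lit 1596) (nat_lit 0) (XT.nd (nat_lit 234) (nat_lit 912) (nat_lit 0) (XT.nd (nat_lit 78) (nat_lit 456) (nat_lit 0) (XT.lf (nat_lit 0) (nat_lit 6539069235) (nat_lit 608) (nat_lit 815082509) (nat_lit 76) (nat_lit 15508579018) (nat_lit 141) (nat_lit 5) (nat_lit 149) (nat_lit 5) (nat_lit 142)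 (nat_lit 5) (nat_lit 332) (nat_lit 301) (nat_lit 147)) (XT.nd (nat_lit 78) (nat_lit 0) (nat_lit 0) (XT.lf (nat_lit 0) (nat_lit 9465028525) (nat_lit 532) (nat_lit 12441525694) (nat_lit 76) (nat_lit 1362353848) (nat_lit 135) (nat_lit 5) (nat_lit 142) (nat_lit 5) (nat_lit 136) (nat_lit 5) (nat_lit 333) (nat_lit 301) (nat_lit 146)) (XT.lf (nat_lit 0) (nat_lit 12554083320) (nat_lit 532) (nat_lit 930718376) (nat_lit 76) (nat_lit 10200215210) (nat_lit 135) (nat_lit 5) (nat_lit 142) (nat_lit 5) (nat_lit 136) (nat_lit 5) (nat_lit 334) (nat_lit 301) (nat_lit 145)))) (XT.nd (nat_lit 156) (nat_lit 456) (nat_lit 0) (XT.nd (nat_lit 78) (nat_lit 0) (nat_lit 0) (XT.lf (nat_lit 0) (nat_lit 11136285974) (nat_lit 456) (nat_lit 4700932883) (nat_lit 532) (nat_lit 8273353430) (nat_lit 129) (nat_lit 5) (nat_lit 135) (nat_lit 5) (nat_lit 136) (nat_lit 5) (nat_lit 335) (nat_lit 301) (nat_lit 144)) (XT.lf (nat_lit 0) (nat_lit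 19264575966) (nat_lit 532) (nat_lit 1012643502) (nat_lit 76) (nat_lit 4270308424) (nat_lit 129) (nat_lit 5) (nat_lit 136) (nat_lit 5) (nat_lit 130) (nat_lit 5) (nat_lit 336) (nat_lit 301) (nat_lit 143))) (XT.nd (nat_lit 78) (nat_lit 76) (nat_lit 0) (XT.lf (nat_lit 0) (nat_lit 11478954246) (nat_lit 380) (nat_lit 11467302925) (nat_lit 456) (nat_lit 2046795124) (nat_lit 124) (nat_lit 5) (nat_lit 129) (nat_lit 5) (nat_lit 130) (nat_lit 5) (nat_lit 337) (nat_lit 301) (nat_lit 142)) (XT.lf (nat_lit 0) (nat_lit 1266325964) (nat_lit 456) (nat_lit 1104440158) (nat_lit 76) (nat_lit 23080660771) (nat_lit 123) (nat_lit 5) (nat_lit 129) (nat_lit 5) (nat_lit 124) (nat_lit 5) (nat_lit 338) (nat_lit 301) (nat_lit 141))))) (XT.nd (nat_lit 234) (nat_lit 760) (nat_lit 0) (XT.nd (nat_lit 78) (nat_lit 380) (nat_lit 0) (XT.lf (nat_lit 0) (nat_lit 4815336679) (nat_lit 532) (nat_lit 14105364117) (nat_lit 76) (nat_lit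 6996919725) (nat_lit 117) (nat_lit 5) (nat_lit 124) (nat_lit 5) (nat_lit 118) (nat_lit 5) (nat_lit 339) (nat_lit 301) (nat_lit 140)) (XT.nd (nat_lit 78) (nat_lit 380) (nat_lit 0) (XT.lf (nat_lit 0) (nat_lit 8500447145) (nat_lit 532) (nat_lit 1288250491) (nat_lit 76) (nat_lit 16608218087) (nat_lit 117) (nat_lit 5) (nat_lit 124) (nat_lit 5) (nat_lit 118) (nat_lit 5) (nat_lit 340) (nat_lit 301) (nat_lit 139)) (XT.lf (nat_lit 0) (nat_lit 12144242255) (nat_lit 380) (nat_lit 263648686) (nat_lit 456) (nat_lit 14479349951) (nat_lit 112) (nat_lit 5) (nat_lit 117) (nat_lit 5) (nat_lit 118) (nat_lit 5) (nat_lit 341) (nat_lit 301) (nat_lit 138)))) (XT.nd (nat_lit 156) (nat_lit 380) (nat_lit 0) (XT.nd (nat_lit 78) (nat_lit 380) (nat_lit 0) (XT.lf (nat_lit 0) (nat_lit 16532585726) (nat_lit 456) (nat_lit 1483861215) (nat_lit 76) (nat_lit 9372832426) (nat_lit 112) (nat_lit 5) (nat_lit 118) (nat_lit 5) (nat_lit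 113) (nat_lit 5) (nat_lit 342) (nat_lit 301) (nat_lit 137)) (XT.lf (nat_lit 0) (nat_lit 12406524811) (nat_lit 380) (nat_lit 8491625263) (nat_lit 456) (nat_lit 7004719314) (nat_lit 107) (nat_lit 5) (nat_lit 112) (nat_lit 5) (nat_lit 113) (nat_lit 5) (nat_lit 343) (nat_lit 301) (nat_lit 136))) (XT.nd (nat_lit 78) (nat_lit 380) (nat_lit 0) (XT.lf (nat_lit 0) (nat_lit 25417819941) (nat_lit 456) (nat_lit 1706287987) (nat_lit 76) (nat_lit 1307069153) (nat_lit 107) (nat_lit 5) (nat_lit 113) (nat_lit 5) (nat_lit 108) (nat_lit 5) (nat_lit 344) (nat_lit 301) (nat_lit 135)) (XT.lf (nat_lit 0) (nat_lit 1279494185) (nat_lit 380) (nat_lit 16327424985) (nat_lit 76) (nat_lit 11362007083) (nat_lit 102) (nat_lit 5) (nat_lit 107) (nat_lit 5) (nat_lit 103) (nat_lit 5) (nat_lit 345) (nat_lit 301) (nat_lit 134)))))) (XT.nd (nat_lit 546) (nat_lit 1216) (nat_lit 0) (XT.nd (nat_lit 234) (nat_lit 684) (nat_lit 0) (XT.nd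 (nat_lit 78) (nat_lit 380) (nat_lit 0) (XT.lf (nat_lit 0) (nat_lit 5653457999) (nat_lit 380) (nat_lit 2103537473) (nat_lit 76) (nat_lit 21764534377) (nat_lit 102) (nat_lit 5) (nat_lit 107) (nat_lit 5) (nat_lit 103) (nat_lit 5) (nat_lit 346) (nat_lit 301) (nat_lit 133)) (XT.nd (nat_lit 78) (nat_lit 0) (nat_lit 0) (XT.lf (nat_lit 0) (nat_lit 10301380618) (nat_lit 456) (nat_lit 17320426857) (nat_lit 76) (nat_lit 2464625550) (nat_lit 97) (nat_lit 5) (nat_lit 103) (nat_lit 5) (nat_lit 98) (nat_lit 5) (nat_lit 347) (nat_lit 301) (nat_lit 132)) (XT.lf (nat_lit 0) (nat_lit 15182676803) (nat_lit 456) (nat_lit 2625733346) (nat_lit 76) (nat_lit 12857058635) (nat_lit 97) (nat_lit 5) (nat_lit 103) (nat_lit 5) (nat_lit 98) (nat_lit 5) (nat_lit 348) (nat_lit 301) (nat_lit 131)))) (XT.nd (nat_lit 156) (nat_lit 380) (nat_lit 0) (XT.nd (nat_lit 78) (nat_lit 0) (nat_lit 0) (XT.lf (nat_lit 0) (nat_lit 12752996087)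 (nat_lit 304) (nat_lit 7575813186) (nat_lit 380) (nat_lit 10929517876) (nat_lit 93) (nat_lit 5) (nat_lit 97) (nat_lit 5) (nat_lit 98) (nat_lit 5) (nat_lit 349) (nat_lit 301) (nat_lit 130)) (XT.lf (nat_lit 0) (nat_lit 25680454253) (nat_lit 380) (nat_lit 3255734566) (nat_lit 76) (nat_lit 2931251948) (nat_lit 93) (nat_lit 5) (nat_lit 98) (nat_lit 5) (nat_lit 94) (nat_lit 5) (nat_lit 350) (nat_lit 301) (nat_lit 129))) (XT.nd (nat_lit 78) (nat_lit 76) (nat_lit 0) (XT.lf (nat_lit 0) (nat_lit 12616992218) (nat_lit 304) (nat_lit 18767928958) (nat_lit 380) (nat_lit 1104141701) (nat_lit 89) (nat_lit 5) (nat_lit 93) (nat_lit 5) (nat_lit 94) (nat_lit 5) (nat_lit 351) (nat_lit 301) (nat_lit 128)) (XT.lf (nat_lit 0) (nat_lit 4079780354) (nat_lit 380) (nat_lit 4141324877) (nat_lit 76) (nat_lit 24906163957) (nat_lit 88) (nat_lit 5) (nat_lit 93) (nat_lit 5) (nat_lit 89) (nat_lit 5) (nat_lit 352) (nat_lit 301) (nat_lit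 127))))) (XT.nd (nat_lit 234) (nat_lit 608) (nat_lit 0) (XT.nd (nat_lit 78) (nat_lit 304) (nat_lit 0) (XT.lf (nat_lit 0) (nat_lit 9537897025) (nat_lit 380) (nat_lit 21522818762) (nat_lit 76) (nat_lit 2719354849) (nat_lit 84) (nat_lit 5) (nat_lit 89) (nat_lit 5) (nat_lit 85) (nat_lit 5) (nat_lit 353) (nat_lit 301) (nat_lit 126)) (XT.nd (nat_lit 78) (nat_lit 304) (nat_lit 0) (XT.lf (nat_lit 0) (nat_lit 15279554740) (nat_lit 380) (nat_lit 5305801232) (nat_lit 76) (nat_lit 13863509125) (nat_lit 84) (nat_lit 5) (nat_lit 89) (nat_lit 5) (nat_lit 85) (nat_lit 5) (nat_lit 354) (nat_lit 301) (nat_lit 125)) (XT.lf (nat_lit 0) (nat_lit 11619149960) (nat_lit 304) (nat_lit 9682281389) (nat_lit 380) (nat_lit 13833055780) (nat_lit 80) (nat_lit 5) (nat_lit 84) (nat_lit 5) (nat_lit 85) (nat_lit 5) (nat_lit 355) (nat_lit 301) (nat_lit 124)))) (XT.nd (nat_lit 156) (nat_lit 380) (nat_lit 0) (XT.nd (nat_lit 78) (nat_lit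 228) (nat_lit 0) (XT.lf (nat_lit 0) (nat_lit 27569273478) (nat_lit 380) (nat_lit 6699220369) (nat_lit 76) (nat_lit 1570227430) (nat_lit 80) (nat_lit 5) (nat_lit 85) (nat_lit 5) (nat_lit 81) (nat_lit 5) (nat_lit 356) (nat_lit 301) (nat_lit 123)) (XT.lf (nat_lit 0) (nat_lit 10729693047) (nat_lit 228) (nat_lit 23490890845) (nat_lit 304) (nat_lit 2337638215) (nat_lit 77) (nat_lit 5) (nat_lit 80) (nat_lit 5) (nat_lit 81) (nat_lit 5) (nat_lit 357) (nat_lit 301) (nat_lit 122))) (XT.nd (nat_lit 78) (nat_lit 304) (nat_lit 0) (XT.lf (nat_lit 0) (nat_lit 3763282364) (nat_lit 304) (nat_lit 8520626902) (nat_lit 76) (nat_lit 25012370462) (nat_lit 76) (nat_lit 5) (nat_lit 80) (nat_lit 5) (nat_lit 77) (nat_lit 5) (nat_lit 358) (nat_lit 301) (nat_lit 121)) (XT.lf (nat_lit 0) (nat_lit 9462955824) (nat_lit 304) (nat_lit 624803451) (nat_lit 380) (nat_lit 27965402492) (nat_lit 72) (nat_lit 5) (nat_lit 76) (nat_lit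 5) (nat_lit 77) (nat_lit 5) (nat_lit 359) (nat_lit 301) (nat_lit 120))))))))
noncomputable def xc198 : XT := (XT.nd (nat_lit 2106) (nat_lit 684) (nat_lit 0) (XT.nd (nat_lit 1014) (nat_lit 1140) (nat_lit 0) (XT.nd (nat_lit 468) (nat_lit 684) (nat_lit 0) (XT.nd (nat_lit 234) (nat_lit 532) (nat_lit 0) (XT.nd (nat_lit 78) (nat_lit 228) (nat_lit 0) (XT.lf (nat_lit 0) (nat_lit 16794880624) (nat_lit 380) (nat_lit 10784848054) (nat_lit 76) (nat_lit 11247236640) (nat_lit 72) (nat_lit 5) (nat_lit 77) (nat_lit 5) (nat_lit 73) (nat_lit 5) (nat_lit 360) (nat_lit 301) (nat_lit 119)) (XT.nd (nat_lit 78) (nat_lit 0) (nat_lit 0) (XT.lf (nat_lit 0) (nat_lit 7693657135) (nat_lit 228) (nat_lit 16086386137) (nat_lit 304) (nat_lit 15841637160) (nat_lit 69) (nat_lit 5) (nat_lit 72) (nat_lit 5) (nat_lit 73) (nat_lit 5) (nat_lit 361) (nat_lit 301) (nat_lit 118)) (XT.lf (nat_lit 0) (nat_lit 26942686679) (nat_lit 228) (nat_lit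 4137714638) (nat_lit 304) (nat_lit 9356668688) (nat_lit 69) (nat_lit 5) (nat_lit 72) (nat_lit 5) (nat_lit 73) (nat_lit 5) (nat_lit 362) (nat_lit 301) (nat_lit 117)))) (XT.nd (nat_lit 78) (nat_lit 304) (nat_lit 0) (XT.lf (nat_lit 0) (nat_lit 5516535353) (nat_lit 228) (nat_lit 33211606952) (nat_lit 304) (nat_lit 2544929946) (nat_lit 66) (nat_lit 5) (nat_lit 69) (nat_lit 5) (nat_lit 70) (nat_lit 5) (nat_lit 363) (nat_lit 301) (nat_lit 116)) (XT.nd (nat_lit 78) (nat_lit 228) (nat_lit 0) (XT.lf (nat_lit 0) (nat_lit 4559323922) (nat_lit 304) (nat_lit 16845825681) (nat_lit 76) (nat_lit 20722455267) (nat_lit 65) (nat_lit 5) (nat_lit 69) (nat_lit 5) (nat_lit 66) (nat_lit 5) (nat_lit 364) (nat_lit 301) (nat_lit 115)) (XT.lf (nat_lit 0) (nat_lit 2654075698) (nat_lit 228) (nat_lit 9193912086) (nat_lit 304) (nat_lit 31158358746) (nat_lit 62) (nat_lit 5) (nat_lit 65) (nat_lit 5) (nat_lit 66) (nat_lit 5) (nat_lit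 365) (nat_lit 301) (nat_lit 114))))) (XT.nd (nat_lit 234) (nat_lit 456) (nat_lit 0) (XT.nd (nat_lit 78) (nat_lit 228) (nat_lit 0) (XT.lf (nat_lit 0) (nat_lit 19556580746) (nat_lit 304) (nat_lit 20861015481) (nat_lit 76) (nat_lit 3487818054) (nat_lit 62) (nat_lit 5) (nat_lit 66) (nat_lit 5) (nat_lit 63) (nat_lit 5) (nat_lit 366) (nat_lit 301) (nat_lit 113)) (XT.nd (nat_lit 78) (nat_lit 228) (nat_lit 0) (XT.lf (nat_lit 0) (nat_lit 27584498468) (nat_lit 304) (nat_lit 880668072) (nat_lit 76) (nat_lit 16363647372) (nat_lit 62) (nat_lit 5) (nat_lit 66) (nat_lit 5) (nat_lit 63) (nat_lit 5) (nat_lit 367) (nat_lit 301) (nat_lit 112)) (XT.lf (nat_lit 0) (nat_lit 20086568762) (nat_lit 228) (nat_lit 15956893754) (nat_lit 304) (nat_lit 9730748558) (nat_lit 59) (nat_lit 5) (nat_lit 62) (nat_lit 5) (nat_lit 63) (nat_lit 5) (nat_lit 368) (nat_lit 301) (nat_lit 111)))) (XT.nd (nat_lit 156) (nat_lit 228) (nat_lit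 0) (XT.nd (nat_lit 78) (nat_lit 228) (nat_lit 0) (XT.lf (nat_lit 0) (nat_lit 41696437176) (nat_lit 228) (nat_lit 3065816830) (nat_lit 304) (nat_lit 1985536141) (nat_lit 59) (nat_lit 5) (nat_lit 62) (nat_lit 5) (nat_lit 63) (nat_lit 5) (nat_lit 369) (nat_lit 301) (nat_lit 110)) (XT.lf (nat_lit 0) (nat_lit 6130866992) (nat_lit 228) (nat_lit 31381153362) (nat_lit 76) (nat_lit 10229157104) (nat_lit 56) (nat_lit 5) (nat_lit 59) (nat_lit 5) (nat_lit 57) (nat_lit 5) (nat_lit 370) (nat_lit 301) (nat_lit 109))) (XT.nd (nat_lit 78) (nat_lit 228) (nat_lit 0) (XT.lf (nat_lit 0) (nat_lit 14529966704) (nat_lit 228) (nat_lit 10300456213) (nat_lit 76) (nat_lit 23930981956) (nat_lit 56) (nat_lit 5) (nat_lit 59) (nat_lit 5) (nat_lit 57) (nat_lit 5) (nat_lit 371) (nat_lit 301) (nat_lit 108)) (XT.lf (nat_lit 0) (nat_lit 11635447338) (nat_lit 228) (nat_lit 11654762771) (nat_lit 304) (nat_lit 26518755440) (nat_lit 53)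 (nat_lit 5) (nat_lit 56) (nat_lit 5) (nat_lit 57) (nat_lit 5) (nat_lit 372) (nat_lit 301) (nat_lit 107)))))) (XT.nd (nat_lit 546) (nat_lit 532) (nat_lit 0) (XT.nd (nat_lit 234) (nat_lit 456) (nat_lit 0) (XT.nd (nat_lit 78) (nat_lit 152) (nat_lit 0) (XT.lf (nat_lit 0) (nat_lit 32434070255) (nat_lit 304) (nat_lit 16467992233) (nat_lit 76) (nat_lit 1982267784) (nat_lit 53) (nat_lit 5) (nat_lit 57) (nat_lit 5) (nat_lit 54) (nat_lit 5) (nat_lit 373) (nat_lit 301) (nat_lit 106)) (XT.nd (nat_lit 78) (nat_lit 0) (nat_lit 0) (XT.lf (nat_lit 0) (nat_lit 5883960320) (nat_lit 152) (nat_lit 36137662918) (nat_lit 228) (nat_lit 9965252854) (nat_lit 51) (nat_lit 5) (nat_lit 53) (nat_lit 5) (nat_lit 54) (nat_lit 5) (nat_lit 374) (nat_lit 301) (nat_lit 105)) (XT.lf (nat_lit 0) (nat_lit 29239927187) (nat_lit 152) (nat_lit 22820628606) (nat_lit 228) (nat_lit 1057031332) (nat_lit 51) (nat_lit 5) (nat_lit 53) (nat_lit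 5) (nat_lit 54) (nat_lit 5) (nat_lit 375) (nat_lit 301) (nat_lit 104)))) (XT.nd (nat_lit 156) (nat_lit 152) (nat_lit 0) (XT.nd (nat_lit 78) (nat_lit 228) (nat_lit 0) (XT.lf (nat_lit 0) (nat_lit 7957523677) (nat_lit 228) (nat_lit 1067738675) (nat_lit 76) (nat_lit 45254692092) (nat_lit 50) (nat_lit 5) (nat_lit 53) (nat_lit 5) (nat_lit 51) (nat_lit 5) (nat_lit 376) (nat_lit 301) (nat_lit 103)) (XT.lf (nat_lit 0) (nat_lit 17490671744) (nat_lit 304) (nat_lit 32664332884) (nat_lit 76) (nat_lit 5313793439) (nat_lit 47) (nat_lit 5) (nat_lit 51) (nat_lit 5) (nat_lit 48) (nat_lit 5) (nat_lit 377) (nat_lit 301) (nat_lit 102))) (XT.nd (nat_lit 78) (nat_lit 152) (nat_lit 0) (XT.lf (nat_lit 0) (nat_lit 27407660057) (nat_lit 304) (nat_lit 9371681203) (nat_lit 76) (nat_lit 19911031631) (nat_lit 47) (nat_lit 5) (nat_lit 51) (nat_lit 5) (nat_lit 48) (nat_lit 5) (nat_lit 378) (nat_lit 301) (nat_lit 101)) (XT.lf (nat_lit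 0) (nat_lit 14906795855) (nat_lit 152) (nat_lit 22856323318) (nat_lit 228) (nat_lit 20181248181) (nat_lit 45) (nat_lit 5) (nat_lit 47) (nat_lit 5) (nat_lit 48) (nat_lit 5) (nat_lit 379) (nat_lit 301) (nat_lit 100))))) (XT.nd (nat_lit 234) (nat_lit 304) (nat_lit 0) (XT.nd (nat_lit 78) (nat_lit 228) (nat_lit 0) (XT.lf (nat_lit 0) (nat_lit 40101935694) (nat_lit 152) (nat_lit 8419641266) (nat_lit 228) (nat_lit 10711635836) (nat_lit 45) (nat_lit 5) (nat_lit 47) (nat_lit 5) (nat_lit 48) (nat_lit 5) (nat_lit 380) (nat_lit 301) (nat_lit 99)) (XT.nd (nat_lit 78) (nat_lit 76) (nat_lit 0) (XT.lf (nat_lit 0) (nat_lit 5534455342) (nat_lit 152) (nat_lit 54181288708) (nat_lit 228) (nat_lit 841592044) (nat_lit 43) (nat_lit 5) (nat_lit 45) (nat_lit 5) (nat_lit 46) (nat_lit 5) (nat_lit 381) (nat_lit 301) (nat_lit 98)) (XT.lf (nat_lit 0) (nat_lit 9418820423) (nat_lit 228) (nat_lit 30761718315) (nat_lit 76) (nat_lit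 21729669756) (nat_lit 42) (nat_lit 5) (nat_lit 45) (nat_lit 5) (nat_lit 43) (nat_lit 5) (nat_lit 382) (nat_lit 301) (nat_lit 97)))) (XT.nd (nat_lit 156) (nat_lit 152) (nat_lit 0) (XT.nd (nat_lit 78) (nat_lit 152) (nat_lit 0) (XT.lf (nat_lit 0) (nat_lit 19967954420) (nat_lit 228) (nat_lit 5784698462) (nat_lit 76) (nat_lit 37550830536) (nat_lit 42) (nat_lit 5) (nat_lit 45) (nat_lit 5) (nat_lit 43) (nat_lit 5) (nat_lit 383) (nat_lit 301) (nat_lit 96)) (XT.lf (nat_lit 0) (nat_lit 20334900433) (nat_lit 152) (nat_lit 10692021198) (nat_lit 228) (nat_lit 33705835214) (nat_lit 40) (nat_lit 5) (nat_lit 42) (nat_lit 5) (nat_lit 43) (nat_lit 5) (nat_lit 384) (nat_lit 301) (nat_lit 95))) (XT.nd (nat_lit 78) (nat_lit 152) (nat_lit 0) (XT.lf (nat_lit 0) (nat_lit 42520889130) (nat_lit 228) (nat_lit 18896957280) (nat_lit 76) (nat_lit 4783966124) (nat_lit 40) (nat_lit 5) (nat_lit 43) (nat_lit 5) (nat_lit 41) (nat_lit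 5) (nat_lit 385) (nat_lit 301) (nat_lit 94)) (XT.lf (nat_lit 0) (nat_lit 7404138249) (nat_lit 152) (nat_lit 47130535103) (nat_lit 228) (nat_lit 13175017581) (nat_lit 38) (nat_lit 5) (nat_lit 40) (nat_lit 5) (nat_lit 41) (nat_lit 5) (nat_lit 386) (nat_lit 301) (nat_lit 93))))))) (XT.nd (nat_lit 34086) (nat_lit 0) (nat_lit 12616) (XT.nd (nat_lit 546) (nat_lit 304) (nat_lit 0) (XT.nd (nat_lit 234) (nat_lit 152) (nat_lit 0) (XT.nd (nat_lit 78) (nat_lit 228) (nat_lit 0) (XT.lf (nat_lit 0) (nat_lit 34878219184) (nat_lit 152) (nat_lit 32219463618) (nat_lit 228) (nat_lit 2159459474) (nat_lit 38) (nat_lit 5) (nat_lit 40) (nat_lit 5) (nat_lit 41) (nat_lit 5) (nat_lit 387) (nat_lit 301) (nat_lit 92)) (XT.nd (nat_lit 78) (nat_lit 152) (nat_lit 0) (XT.lf (nat_lit 0) (nat_lit 9005330216) (nat_lit 228) (nat_lit 7766158685) (nat_lit 76) (nat_lit 54076939104) (nat_lit 37) (nat_lit 5) (nat_lit 40) (nat_lit 5) (nat_lit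 38) (nat_lit 5) (nat_lit 388) (nat_lit 301) (nat_lit 91)) (XT.lf (nat_lit 0) (nat_lit 20010831869) (nat_lit 152) (nat_lit 641270350) (nat_lit 228) (nat_lit 51828996277) (nat_lit 35) (nat_lit 5) (nat_lit 37) (nat_lit 5) (nat_lit 38) (nat_lit 5) (nat_lit 389) (nat_lit 301) (nat_lit 90)))) (XT.nd (nat_lit 156) (nat_lit 0) (nat_lit 0) (XT.nd (nat_lit 78) (nat_lit 152) (nat_lit 0) (XT.lf (nat_lit 0) (nat_lit 32879114827) (nat_lit 228) (nat_lit 25537655078) (nat_lit 76) (nat_lit 15739054911) (nat_lit 35) (nat_lit 5) (nat_lit 38) (nat_lit 5) (nat_lit 36) (nat_lit 5) (nat_lit 390) (nat_lit 301) (nat_lit 89)) (XT.lf (nat_lit 0) (nat_lit 2237061916) (nat_lit 152) (nat_lit 43261881687) (nat_lit 228) (nat_lit 30381069960) (nat_lit 33) (nat_lit 5) (nat_lit 35) (nat_lit 5) (nat_lit 36) (nat_lit 5) (nat_lit 391) (nat_lit 301) (nat_lit 88))) (XT.nd (nat_lit 78) (nat_lit 0) (nat_lit 0) (XT.lf (nat_lit 0) (nat_lit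 31365371635) (nat_lit 152) (nat_lit 27388051995) (nat_lit 228) (nat_lit 18894823441) (nat_lit 33) (nat_lit 5) (nat_lit 35) (nat_lit 5) (nat_lit 36) (nat_lit 5) (nat_lit 392) (nat_lit 301) (nat_lit 87)) (XT.lf (nat_lit 0) (nat_lit 61364476588) (nat_lit 152) (nat_lit 11039290735) (nat_lit 228) (nat_lit 7065814148) (nat_lit 33) (nat_lit 5) (nat_lit 35) (nat_lit 5) (nat_lit 36) (nat_lit 5) (nat_lit 393) (nat_lit 301) (nat_lit 86))))) (XT.nd (nat_lit 234) (nat_lit 152) (nat_lit 0) (XT.nd (nat_lit 78) (nat_lit 0) (nat_lit 0) (XT.lf (nat_lit 0) (nat_lit 5180266275) (nat_lit 152) (nat_lit 70316168021) (nat_lit 76) (nat_lit 5842784209) (nat_lit 31) (nat_lit 5) (nat_lit 33) (nat_lit 5) (nat_lit 32) (nat_lit 5) (nat_lit 394) (nat_lit 301) (nat_lit 85)) (XT.nd (nat_lit 78) (nat_lit 0) (nat_lit 0) (XT.lf (nat_lit 0) (nat_lit 17943922416) (nat_lit 152) (nat_lit 42047352127) (nat_lit 76) (nat_lit 23262805775)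 (nat_lit 31) (nat_lit 5) (nat_lit 33) (nat_lit 5) (nat_lit 32) (nat_lit 5) (nat_lit 395) (nat_lit 301) (nat_lit 84)) (XT.lf (nat_lit 0) (nat_lit 31088811587) (nat_lit 152) (nat_lit 12933395107) (nat_lit 76) (nat_lit 41204232271) (nat_lit 31) (nat_lit 5) (nat_lit 33) (nat_lit 5) (nat_lit 32) (nat_lit 5) (nat_lit 396) (nat_lit 301) (nat_lit 83)))) (XT.nd (nat_lit 156) (nat_lit 0) (nat_lit 0) (XT.nd (nat_lit 78) (nat_lit 0) (nat_lit 0) (XT.lf (nat_lit 0) (nat_lit 17390493586) (nat_lit 152) (nat_lit 27403094091) (nat_lit 228) (nat_lit 42459415148) (nat_lit 29) (nat_lit 5) (nat_lit 31) (nat_lit 5) (nat_lit 32) (nat_lit 5) (nat_lit 397) (nat_lit 301) (nat_lit 82)) (XT.lf (nat_lit 0) (nat_lit 48886410482) (nat_lit 152) (nat_lit 10152091077) (nat_lit 228) (nat_lit 30297992848) (nat_lit 29) (nat_lit 5) (nat_lit 31) (nat_lit 5) (nat_lit 32) (nat_lit 5) (nat_lit 398) (nat_lit 301) (nat_lit 81))) (XT.nd (nat_lit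 33072) (nat_lit 0) (nat_lit 12616) (XT.lf (nat_lit 0) (nat_lit 73782404927) (nat_lit 228) (nat_lit 10231264491) (nat_lit 76) (nat_lit 7466672680) (nat_lit 29) (nat_lit 5) (nat_lit 32) (nat_lit 5) (nat_lit 30) (nat_lit 4) (nat_lit 399) (nat_lit 301) (nat_lit 80)) (XT.lf (nat_lit 0) (nat_lit 286157793) (nat_lit 0) (nat_lit 286157793) (nat_lit 1140) (nat_lit 6612629858) (nat_lit 195) (nat_lit 5) (nat_lit 195) (nat_lit 3) (nat_lit 210) (nat_lit 3) (nat_lit 302) (nat_lit 302) (nat_lit 176)))))) (XT.nd (nat_lit 546) (nat_lit 0) (nat_lit 228) (XT.nd (nat_lit 234) (nat_lit 0) (nat_lit 76) (XT.nd (nat_lit 78) (nat_lit 0) (nat_lit 0) (XT.lf (nat_lit 0) (nat_lit 1529529247) (nat_lit 1140) (nat_lit 7328496219) (nat_lit 1216) (nat_lit 5716015765) (nat_lit 195) (nat_lit 5) (nat_lit 210) (nat_lit 3) (nat_lit 211) (nat_lit 5) (nat_lit 303) (nat_lit 302) (nat_lit 175)) (XT.nd (nat_lit 78) (nat_lit 0) (nat_lit 76)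 (XT.lf (nat_lit 0) (nat_lit 1919534859) (nat_lit 1140) (nat_lit 677531119) (nat_lit 1216) (nat_lit 12187457578) (nat_lit 195) (nat_lit 5) (nat_lit 210) (nat_lit 3) (nat_lit 211) (nat_lit 5) (nat_lit 304) (nat_lit 302) (nat_lit 174)) (XT.lf (nat_lit 0) (nat_lit 2407620359) (nat_lit 1140) (nat_lit 8748187882) (nat_lit 1216) (nat_lit 3842934590) (nat_lit 196) (nat_lit 5) (nat_lit 211) (nat_lit 5) (nat_lit 212) (nat_lit 5) (nat_lit 305) (nat_lit 302) (nat_lit 173)))) (XT.nd (nat_lit 156) (nat_lit 0) (nat_lit 76) (XT.nd (nat_lit 78) (nat_lit 0) (nat_lit 76) (XT.lf (nat_lit 0) (nat_lit 2931550226) (nat_lit 1140) (nat_lit 1851267905) (nat_lit 1216) (nat_lit 10435947970) (nat_lit 196) (nat_lit 5) (nat_lit 211) (nat_lit 5) (nat_lit 212) (nat_lit 5) (nat_lit 306) (nat_lit 302) (nat_lit 172)) (XT.lf (nat_lit 0) (nat_lit 3529218645) (nat_lit 1140) (nat_lit 10111384076) (nat_lit 1216) (nat_lit 1803059806) (nat_lit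 197) (nat_lit 5) (nat_lit 212) (nat_lit 5) (nat_lit 213) (nat_lit 5) (nat_lit 307) (nat_lit 302) (nat_lit 171))) (XT.nd (nat_lit 78) (nat_lit 0) (nat_lit 0) (XT.lf (nat_lit 0) (nat_lit 4200266141) (nat_lit 1140) (nat_lit 2959801834) (nat_lit 1216) (nat_lit 8513587096) (nat_lit 197) (nat_lit 5) (nat_lit 212) (nat_lit 5) (nat_lit 213) (nat_lit 5) (nat_lit 308) (nat_lit 302) (nat_lit 170)) (XT.lf (nat_lit 76) (nat_lit 4487291618) (nat_lit 0) (nat_lit 436817282) (nat_lit 1216) (nat_lit 10985470903) (nat_lit 198) (nat_lit 5) (nat_lit 197) (nat_lit 5) (nat_lit 213) (nat_lit 5) (nat_lit 309) (nat_lit 302) (nat_lit 169))))) (XT.nd (nat_lit 234) (nat_lit 0) (nat_lit 76) (XT.nd (nat_lit 78) (nat_lit 0) (nat_lit 0) (XT.lf (nat_lit 0) (nat_lit 5752025856) (nat_lit 1140) (nat_lit 4002767640) (nat_lit 1216) (nat_lit 6395329984) (nat_lit 198) (nat_lit 5) (nat_lit 213) (nat_lit 5) (nat_lit 214) (nat_lit 5) (nat_lit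 310) (nat_lit 302) (nat_lit 168)) (XT.nd (nat_lit 78) (nat_lit 0) (nat_lit 76) (XT.lf (nat_lit 76) (nat_lit 3700535925) (nat_lit 0) (nat_lit 2934244929) (nat_lit 1216) (nat_lit 9762214215) (nat_lit 199) (nat_lit 5) (nat_lit 198) (nat_lit 5) (nat_lit 214) (nat_lit 5) (nat_lit 311) (nat_lit 302) (nat_lit 167)) (XT.lf (nat_lit 0) (nat_lit 7614520911) (nat_lit 1140) (nat_lit 4979747039) (nat_lit 1216) (nat_lit 4054901064) (nat_lit 199) (nat_lit 5) (nat_lit 214) (nat_lit 5) (nat_lit 215) (nat_lit 5) (nat_lit 312) (nat_lit 302) (nat_lit 166)))) (XT.nd (nat_lit 156) (nat_lit 0) (nat_lit 76) (XT.nd (nat_lit 78) (nat_lit 0) (nat_lit 76) (XT.lf (nat_lit 76) (nat_lit 2991029163) (nat_lit 0) (nat_lit 5681066062) (nat_lit 1216) (nat_lit 8235370644) (nat_lit 200) (nat_lit 5) (nat_lit 199) (nat_lit 5) (nat_lit 215) (nat_lit 5) (nat_lit 313) (nat_lit 302) (nat_lit 165)) (XT.lf (nat_lit 0) (nat_lit 9816888642)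 (nat_lit 1140) (nat_lit 5890323866) (nat_lit 1216) (nat_lit 1464644998) (nat_lit 200) (nat_lit 5) (nat_lit 215) (nat_lit 5) (nat_lit 216) (nat_lit 5) (nat_lit 314) (nat_lit 302) (nat_lit 164))) (XT.nd (nat_lit 78) (nat_lit 0) (nat_lit 0) (XT.lf (nat_lit 76) (nat_lit 2359577896) (nat_lit 0) (nat_lit 8706514407) (nat_lit 1216) (nat_lit 6375996920) (nat_lit 201) (nat_lit 5) (nat_lit 200) (nat_lit 5) (nat_lit 216) (nat_lit 5) (nat_lit 315) (nat_lit 302) (nat_lit 163)) (XT.lf (nat_lit 76) (nat_lit 10970998999) (nat_lit 0) (nat_lit 1432583881) (nat_lit 1216) (nat_lit 5315330710) (nat_lit 201) (nat_lit 5) (nat_lit 200) (nat_lit 5) (nat_lit 216) (nat_lit 5) (nat_lit 316) (nat_lit 302) (nat_lit 162))))))))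
noncomputable def xc199 : XT := (XT.nd (nat_lit 2184) (nat_lit 3876) (nat_lit 0) (XT.nd (nat_lit 1092) (nat_lit 3192) (nat_lit 0) (XT.nd (nat_lit 546) (nat_lit 1520) (nat_lit 0) (XT.nd (nat_lit 234) (nat_lit 1368) (nat_lit 0) (XT.nd (nat_lit 78) (nat_lit 1064) (nat_lit 0) (XT.lf (nat_lit 76) (nat_lit 1806923221) (nat_lit 0) (nat_lit 12041493216) (nat_lit 1216) (nat_lit 4153619434) (nat_lit 202) (nat_lit 5) (nat_lit 201) (nat_lit 5) (nat_lit 217) (nat_lit 5) (nat_lit 317) (nat_lit 302) (nat_lit 161)) (XT.nd (nat_lit 78) (nat_lit 1064) (nat_lit 0) (XT.lf (nat_lit 76) (nat_lit 10735524099) (nat_lit 0) (nat_lit 4675037155) (nat_lit 1216) (nat_lit 2880881028) (nat_lit 202) (nat_lit 5) (nat_lit 201) (nat_lit 5) (nat_lit 217) (nat_lit 5) (nat_lit 318) (nat_lit 302) (nat_lit 160)) (XT.lf (nat_lit 0) (nat_lit 1333673573) (nat_lit 1140) (nat_lit 15718746619) (nat_lit 1216) (nat_lit 1536134372) (nat_lit 187)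 (nat_lit 5) (nat_lit 202) (nat_lit 5) (nat_lit 203) (nat_lit 5) (nat_lit 319) (nat_lit 302) (nat_lit 159)))) (XT.nd (nat_lit 156) (nat_lit 608) (nat_lit 0) (XT.nd (nat_lit 78) (nat_lit 760) (nat_lit 0) (XT.lf (nat_lit 0) (nat_lit 10590892598) (nat_lit 1140) (nat_lit 8266976983) (nat_lit 1216) (nat_lit 33289497) (nat_lit 187) (nat_lit 5) (nat_lit 202) (nat_lit 5) (nat_lit 203) (nat_lit 5) (nat_lit 320) (nat_lit 302) (nat_lit 158)) (XT.lf (nat_lit 0) (nat_lit 919667734) (nat_lit 684) (nat_lit 566602040) (nat_lit 760) (nat_lit 17716108004) (nat_lit 177) (nat_lit 5) (nat_lit 186) (nat_lit 5) (nat_lit 187) (nat_lit 5) (nat_lit 321) (nat_lit 302) (nat_lit 157))) (XT.nd (nat_lit 78) (nat_lit 608) (nat_lit 0) (XT.lf (nat_lit 0) (nat_lit 3198699950) (nat_lit 760) (nat_lit 9012906162) (nat_lit 76) (nat_lit 7306886592) (nat_lit 177) (nat_lit 5) (nat_lit 187) (nat_lit 5) (nat_lit 178) (nat_lit 5) (nat_lit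 322) (nat_lit 302) (nat_lit 156)) (XT.lf (nat_lit 0) (nat_lit 533104470) (nat_lit 608) (nat_lit 4432863223) (nat_lit 684) (nat_lit 14878027358) (nat_lit 169) (nat_lit 5) (nat_lit 177) (nat_lit 5) (nat_lit 178) (nat_lit 5) (nat_lit 323) (nat_lit 302) (nat_lit 155))))) (XT.nd (nat_lit 234) (nat_lit 988) (nat_lit 0) (XT.nd (nat_lit 78) (nat_lit 532) (nat_lit 0) (XT.lf (nat_lit 0) (nat_lit 6905456370) (nat_lit 684) (nat_lit 9668428848) (nat_lit 76) (nat_lit 3601808844) (nat_lit 169) (nat_lit 5) (nat_lit 178) (nat_lit 5) (nat_lit 170) (nat_lit 5) (nat_lit 324) (nat_lit 302) (nat_lit 154)) (XT.nd (nat_lit 78) (nat_lit 0) (nat_lit 0) (XT.lf (nat_lit 0) (nat_lit 217009953) (nat_lit 532) (nat_lit 8725186048) (nat_lit 608) (nat_lit 11573983513) (nat_lit 162) (nat_lit 5) (nat_lit 169) (nat_lit 5) (nat_lit 170) (nat_lit 5) (nat_lit 325) (nat_lit 302) (nat_lit 153)) (XT.lf (nat_lit 0) (nat_lit 10590628653)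 (nat_lit 532) (nat_lit 540269897) (nat_lit 608) (nat_lit 9733262398) (nat_lit 162) (nat_lit 5) (nat_lit 169) (nat_lit 5) (nat_lit 170) (nat_lit 5) (nat_lit 326) (nat_lit 302) (nat_lit 152)))) (XT.nd (nat_lit 156) (nat_lit 456) (nat_lit 0) (XT.nd (nat_lit 78) (nat_lit 532) (nat_lit 0) (XT.lf (nat_lit 0) (nat_lit 13454535146) (nat_lit 608) (nat_lit 29562382) (nat_lit 76) (nat_lit 7736413138) (nat_lit 162) (nat_lit 5) (nat_lit 170) (nat_lit 5) (nat_lit 163) (nat_lit 5) (nat_lit 327) (nat_lit 302) (nat_lit 151)) (XT.lf (nat_lit 0) (nat_lit 10719147467) (nat_lit 532) (nat_lit 5230740611) (nat_lit 608) (nat_lit 5634609405) (nat_lit 155) (nat_lit 5) (nat_lit 162) (nat_lit 5) (nat_lit 163) (nat_lit 5) (nat_lit 328) (nat_lit 302) (nat_lit 150))) (XT.nd (nat_lit 78) (nat_lit 456) (nat_lit 0) (XT.lf (nat_lit 0) (nat_lit 18545581604) (nat_lit 608) (nat_lit 206438547) (nat_lit 76) (nat_lit 3206625980) (nat_lit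 155) (nat_lit 5) (nat_lit 163) (nat_lit 5) (nat_lit 156) (nat_lit 5) (nat_lit 329) (nat_lit 302) (nat_lit 149)) (XT.lf (nat_lit 0) (nat_lit 10927342838) (nat_lit 456) (nat_lit 10442558352) (nat_lit 532) (nat_lit 969601824) (nat_lit 149) (nat_lit 5) (nat_lit 155) (nat_lit 5) (nat_lit 156) (nat_lit 5) (nat_lit 330) (nat_lit 302) (nat_lit 148)))))) (XT.nd (nat_lit 546) (nat_lit 1672) (nat_lit 0) (XT.nd (nat_lit 234) (nat_lit 912) (nat_lit 0) (XT.nd (nat_lit 78) (nat_lit 532) (nat_lit 0) (XT.lf (nat_lit 0) (nat_lit 1513056175) (nat_lit 532) (nat_lit 353650062) (nat_lit 76) (nat_lit 20864756796) (nat_lit 148) (nat_lit 5) (nat_lit 155) (nat_lit 5) (nat_lit 149) (nat_lit 5) (nat_lit 331) (nat_lit 302) (nat_lit 147)) (XT.nd (nat_lit 78) (nat_lit 0) (nat_lit 0) (XT.lf (nat_lit 0) (nat_lit 4221032036) (nat_lit 608) (nat_lit 11959826710) (nat_lit 76) (nat_lit 6948931209) (nat_lit 141) (nat_lit 5) (nat_lit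 149) (nat_lit 5) (nat_lit 142) (nat_lit 5) (nat_lit 332) (nat_lit 302) (nat_lit 146)) (XT.lf (nat_lit 0) (nat_lit 7026595395) (nat_lit 608) (nat_lit 518272548) (nat_lit 76) (nat_lit 15994714012) (nat_lit 141) (nat_lit 5) (nat_lit 149) (nat_lit 5) (nat_lit 142) (nat_lit 5) (nat_lit 333) (nat_lit 302) (nat_lit 145)))) (XT.nd (nat_lit 156) (nat_lit 456) (nat_lit 0) (XT.nd (nat_lit 78) (nat_lit 0) (nat_lit 0) (XT.lf (nat_lit 0) (nat_lit 10035214717) (nat_lit 532) (nat_lit 12488108626) (nat_lit 76) (nat_lit 1434783249) (nat_lit 135) (nat_lit 5) (nat_lit 142) (nat_lit 5) (nat_lit 136) (nat_lit 5) (nat_lit 334) (nat_lit 302) (nat_lit 144)) (XT.lf (nat_lit 0) (nat_lit 13208604204) (nat_lit 532) (nat_lit 641491539) (nat_lit 76) (nat_lit 10536861265) (nat_lit 135) (nat_lit 5) (nat_lit 142) (nat_lit 5) (nat_lit 136) (nat_lit 5) (nat_lit 335) (nat_lit 302) (nat_lit 143))) (XT.nd (nat_lit 78) (nat_lit 0) (nat_lit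 0) (XT.lf (nat_lit 0) (nat_lit 11784413643) (nat_lit 456) (nat_lit 4800744772) (nat_lit 532) (nat_lit 8240280862) (nat_lit 129) (nat_lit 5) (nat_lit 135) (nat_lit 5) (nat_lit 136) (nat_lit 5) (nat_lit 336) (nat_lit 302) (nat_lit 142)) (XT.lf (nat_lit 0) (nat_lit 20107774592) (nat_lit 532) (nat_lit 730311085) (nat_lit 76) (nat_lit 4437652456) (nat_lit 129) (nat_lit 5) (nat_lit 136) (nat_lit 5) (nat_lit 130) (nat_lit 5) (nat_lit 337) (nat_lit 302) (nat_lit 141))))) (XT.nd (nat_lit 234) (nat_lit 760) (nat_lit 0) (XT.nd (nat_lit 78) (nat_lit 532) (nat_lit 0) (XT.lf (nat_lit 0) (nat_lit 12132968795) (nat_lit 380) (nat_lit 11762187885) (nat_lit 456) (nat_lit 1839621581) (nat_lit 124) (nat_lit 5) (nat_lit 129) (nat_lit 5) (nat_lit 130) (nat_lit 5) (nat_lit 338) (nat_lit 302) (nat_lit 140)) (XT.nd (nat_lit 78) (nat_lit 456) (nat_lit 0) (XT.lf (nat_lit 0) (nat_lit 1559982232) (nat_lit 456) (nat_lit 831622107)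 (nat_lit 76) (nat_lit 23815459483) (nat_lit 123) (nat_lit 5) (nat_lit 129) (nat_lit 5) (nat_lit 124) (nat_lit 5) (nat_lit 339) (nat_lit 302) (nat_lit 139)) (XT.lf (nat_lit 0) (nat_lit 5211426952) (nat_lit 532) (nat_lit 14218308455) (nat_lit 76) (nat_lit 7257635812) (nat_lit 117) (nat_lit 5) (nat_lit 124) (nat_lit 5) (nat_lit 118) (nat_lit 5) (nat_lit 340) (nat_lit 302) (nat_lit 138)))) (XT.nd (nat_lit 156) (nat_lit 380) (nat_lit 0) (XT.nd (nat_lit 78) (nat_lit 380) (nat_lit 0) (XT.lf (nat_lit 0) (nat_lit 8999761697) (nat_lit 532) (nat_lit 1025716854) (nat_lit 76) (nat_lit 17155793266) (nat_lit 117) (nat_lit 5) (nat_lit 124) (nat_lit 5) (nat_lit 118) (nat_lit 5) (nat_lit 341) (nat_lit 302) (nat_lit 137)) (XT.lf (nat_lit 0) (nat_lit 12806797917) (nat_lit 380) (nat_lit 213382077) (nat_lit 456) (nat_lit 14666260689) (nat_lit 112) (nat_lit 5) (nat_lit 117) (nat_lit 5) (nat_lit 118) (nat_lit 5) (nat_lit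 342) (nat_lit 302) (nat_lit 136))) (XT.nd (nat_lit 78) (nat_lit 380) (nat_lit 0) (XT.lf (nat_lit 0) (nat_lit 17262166743) (nat_lit 456) (nat_lit 1232176462) (nat_lit 76) (nat_lit 9709396860) (nat_lit 112) (nat_lit 5) (nat_lit 118) (nat_lit 5) (nat_lit 113) (nat_lit 5) (nat_lit 343) (nat_lit 302) (nat_lit 135)) (XT.lf (nat_lit 0) (nat_lit 13072017217) (nat_lit 380) (nat_lit 8682696168) (nat_lit 456) (nat_lit 6978150045) (nat_lit 107) (nat_lit 5) (nat_lit 112) (nat_lit 5) (nat_lit 113) (nat_lit 5) (nat_lit 344) (nat_lit 302) (nat_lit 134))))))) (XT.nd (nat_lit 1092) (nat_lit 1596) (nat_lit 0) (XT.nd (nat_lit 546) (nat_lit 1216) (nat_lit 0) (XT.nd (nat_lit 234) (nat_lit 684) (nat_lit 0) (XT.nd (nat_lit 78) (nat_lit 380) (nat_lit 0) (XT.lf (nat_lit 0) (nat_lit 26403879704) (nat_lit 456) (nat_lit 1466431393) (nat_lit 76) (nat_lit 1406897994) (nat_lit 107) (nat_lit 5) (nat_lit 113) (nat_lit 5) (nat_lit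 108) (nat_lit 5) (nat_lit 345) (nat_lit 302) (nat_lit 133)) (XT.nd (nat_lit 78) (nat_lit 0) (nat_lit 0) (XT.lf (nat_lit 0) (nat_lit 1540028150) (nat_lit 380) (nat_lit 16524448474) (nat_lit 76) (nat_lit 11766666734) (nat_lit 102) (nat_lit 5) (nat_lit 107) (nat_lit 5) (nat_lit 103) (nat_lit 5) (nat_lit 346) (nat_lit 302) (nat_lit 132)) (XT.lf (nat_lit 0) (nat_lit 6038740516) (nat_lit 380) (nat_lit 1882372470) (nat_lit 76) (nat_lit 22479411611) (nat_lit 102) (nat_lit 5) (nat_lit 107) (nat_lit 5) (nat_lit 103) (nat_lit 5) (nat_lit 347) (nat_lit 302) (nat_lit 131)))) (XT.nd (nat_lit 156) (nat_lit 304) (nat_lit 0) (XT.nd (nat_lit 78) (nat_lit 0) (nat_lit 0) (XT.lf (nat_lit 0) (nat_lit 10823191643) (nat_lit 456) (nat_lit 17552683846) (nat_lit 76) (nat_lit 2606591921) (nat_lit 97) (nat_lit 5) (nat_lit 103) (nat_lit 5) (nat_lit 98) (nat_lit 5) (nat_lit 348) (nat_lit 302) (nat_lit 130)) (XT.lf (nat_lit 0)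 (nat_lit 15844729540) (nat_lit 456) (nat_lit 2425519116) (nat_lit 76) (nat_lit 13308816611) (nat_lit 97) (nat_lit 5) (nat_lit 103) (nat_lit 5) (nat_lit 98) (nat_lit 5) (nat_lit 349) (nat_lit 302) (nat_lit 129))) (XT.nd (nat_lit 78) (nat_lit 0) (nat_lit 0) (XT.lf (nat_lit 0) (nat_lit 13411837041) (nat_lit 304) (nat_lit 7730047764) (nat_lit 380) (nat_lit 11047930377) (nat_lit 93) (nat_lit 5) (nat_lit 97) (nat_lit 5) (nat_lit 98) (nat_lit 5) (nat_lit 350) (nat_lit 302) (nat_lit 128)) (XT.lf (nat_lit 0) (nat_lit 26648842014) (nat_lit 380) (nat_lit 3079803934) (nat_lit 76) (nat_lit 3088718193) (nat_lit 93) (nat_lit 5) (nat_lit 98) (nat_lit 5) (nat_lit 94) (nat_lit 5) (nat_lit 351) (nat_lit 302) (nat_lit 127))))) (XT.nd (nat_lit 234) (nat_lit 532) (nat_lit 0) (XT.nd (nat_lit 78) (nat_lit 380) (nat_lit 0) (XT.lf (nat_lit 0) (nat_lit 13266422275) (nat_lit 304) (nat_lit 19254858685) (nat_lit 380) (nat_lit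 936453492) (nat_lit 89) (nat_lit 5) (nat_lit 93) (nat_lit 5) (nat_lit 94) (nat_lit 5) (nat_lit 352) (nat_lit 302) (nat_lit 126)) (XT.nd (nat_lit 78) (nat_lit 304) (nat_lit 0) (XT.lf (nat_lit 0) (nat_lit 4393332876) (nat_lit 380) (nat_lit 3998583780) (nat_lit 76) (nat_lit 25723288840) (nat_lit 88) (nat_lit 5) (nat_lit 93) (nat_lit 5) (nat_lit 89) (nat_lit 5) (nat_lit 353) (nat_lit 302) (nat_lit 125)) (XT.lf (nat_lit 0) (nat_lit 10012899306) (nat_lit 380) (nat_lit 21899086026) (nat_lit 76) (nat_lit 2875678749) (nat_lit 84) (nat_lit 5) (nat_lit 89) (nat_lit 5) (nat_lit 85) (nat_lit 5) (nat_lit 354) (nat_lit 302) (nat_lit 124)))) (XT.nd (nat_lit 156) (nat_lit 228) (nat_lit 0) (XT.nd (nat_lit 78) (nat_lit 304) (nat_lit 0) (XT.lf (nat_lit 0) (nat_lit 15921305820) (nat_lit 380) (nat_lit 5203405076) (nat_lit 76) (nat_lit 14351980665) (nat_lit 84) (nat_lit 5) (nat_lit 89) (nat_lit 5) (nat_lit 85) (nat_lit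 5) (nat_lit 355) (nat_lit 302) (nat_lit 123)) (XT.lf (nat_lit 0) (nat_lit 12226730238) (nat_lit 304) (nat_lit 9894257499) (nat_lit 380) (nat_lit 14061984082) (nat_lit 80) (nat_lit 5) (nat_lit 84) (nat_lit 5) (nat_lit 85) (nat_lit 5) (nat_lit 356) (nat_lit 302) (nat_lit 122))) (XT.nd (nat_lit 78) (nat_lit 228) (nat_lit 0) (XT.lf (nat_lit 0) (nat_lit 28572339997) (nat_lit 380) (nat_lit 6644079322) (nat_lit 76) (nat_lit 1692053344) (nat_lit 80) (nat_lit 5) (nat_lit 85) (nat_lit 5) (nat_lit 81) (nat_lit 5) (nat_lit 357) (nat_lit 302) (nat_lit 121)) (XT.lf (nat_lit 0) (nat_lit 11305190539) (nat_lit 228) (nat_lit 24115311134) (nat_lit 304) (nat_lit 2229141291) (nat_lit 77) (nat_lit 5) (nat_lit 80) (nat_lit 5) (nat_lit 81) (nat_lit 5) (nat_lit 358) (nat_lit 302) (nat_lit 120)))))) (XT.nd (nat_lit 546) (nat_lit 684) (nat_lit 0) (XT.nd (nat_lit 234) (nat_lit 532) (nat_lit 0) (XT.nd (nat_lit 78) (nat_lit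 304) (nat_lit 0) (XT.lf (nat_lit 0) (nat_lit 4046220089) (nat_lit 304) (nat_lit 8526521977) (nat_lit 76) (nat_lit 25837205355) (nat_lit 76) (nat_lit 5) (nat_lit 80) (nat_lit 5) (nat_lit 77) (nat_lit 5) (nat_lit 359) (nat_lit 302) (nat_lit 119)) (XT.nd (nat_lit 78) (nat_lit 0) (nat_lit 0) (XT.lf (nat_lit 0) (nat_lit 9994119959) (nat_lit 304) (nat_lit 563735713) (nat_lit 380) (nat_lit 28631761001) (nat_lit 72) (nat_lit 5) (nat_lit 76) (nat_lit 5) (nat_lit 77) (nat_lit 5) (nat_lit 360) (nat_lit 302) (nat_lit 118)) (XT.lf (nat_lit 0) (nat_lit 17462057934) (nat_lit 380) (nat_lit 10864074848) (nat_lit 76) (nat_lit 11660628909) (nat_lit 72) (nat_lit 5) (nat_lit 77) (nat_lit 5) (nat_lit 73) (nat_lit 5) (nat_lit 361) (nat_lit 302) (nat_lit 117)))) (XT.nd (nat_lit 156) (nat_lit 304) (nat_lit 0) (XT.nd (nat_lit 78) (nat_lit 0) (nat_lit 0) (XT.lf (nat_lit 0) (nat_lit 8166390216) (nat_lit 228) (nat_lit 16487953551)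 (nat_lit 304) (nat_lit 16151050724) (nat_lit 69) (nat_lit 5) (nat_lit 72) (nat_lit 5) (nat_lit 73) (nat_lit 5) (nat_lit 362) (nat_lit 302) (nat_lit 116)) (XT.lf (nat_lit 0) (nat_lit 27985844334) (nat_lit 228) (nat_lit 4183181834) (nat_lit 304) (nat_lit 9476363360) (nat_lit 69) (nat_lit 5) (nat_lit 72) (nat_lit 5) (nat_lit 73) (nat_lit 5) (nat_lit 363) (nat_lit 302) (nat_lit 115))) (XT.nd (nat_lit 78) (nat_lit 76) (nat_lit 0) (XT.lf (nat_lit 0) (nat_lit 5918602588) (nat_lit 228) (nat_lit 34126055123) (nat_lit 304) (nat_lit 2461863476) (nat_lit 66) (nat_lit 5) (nat_lit 69) (nat_lit 5) (nat_lit 70) (nat_lit 5) (nat_lit 364) (nat_lit 302) (nat_lit 114)) (XT.lf (nat_lit 0) (nat_lit 4847854728) (nat_lit 304) (nat_lit 17118402375) (nat_lit 76) (nat_lit 21420526200) (nat_lit 65) (nat_lit 5) (nat_lit 69) (nat_lit 5) (nat_lit 66) (nat_lit 5) (nat_lit 365) (nat_lit 302) (nat_lit 113))))) (XT.nd (nat_lit 234)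 (nat_lit 456) (nat_lit 0) (XT.nd (nat_lit 78) (nat_lit 0) (nat_lit 0) (XT.lf (nat_lit 0) (nat_lit 2964213711) (nat_lit 228) (nat_lit 9388760718) (nat_lit 304) (nat_lit 31938981736) (nat_lit 62) (nat_lit 5) (nat_lit 65) (nat_lit 5) (nat_lit 66) (nat_lit 5) (nat_lit 366) (nat_lit 302) (nat_lit 112)) (XT.nd (nat_lit 78) (nat_lit 0) (nat_lit 0) (XT.lf (nat_lit 0) (nat_lit 20289225093) (nat_lit 304) (nat_lit 21259352565) (nat_lit 76) (nat_lit 3669529041) (nat_lit 62) (nat_lit 5) (nat_lit 66) (nat_lit 5) (nat_lit 63) (nat_lit 5) (nat_lit 367) (nat_lit 302) (nat_lit 111)) (XT.lf (nat_lit 0) (nat_lit 28553729466) (nat_lit 304) (nat_lit 686220754) (nat_lit 76) (nat_lit 16929388294) (nat_lit 62) (nat_lit 5) (nat_lit 66) (nat_lit 5) (nat_lit 63) (nat_lit 5) (nat_lit 368) (nat_lit 302) (nat_lit 110)))) (XT.nd (nat_lit 156) (nat_lit 228) (nat_lit 0) (XT.nd (nat_lit 78) (nat_lit 0) (nat_lit 0) (XT.lf (nat_lit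 0) (nat_lit 20907867818) (nat_lit 228) (nat_lit 16356569845) (nat_lit 304) (nat_lit 9878723261) (nat_lit 59) (nat_lit 5) (nat_lit 62) (nat_lit 5) (nat_lit 63) (nat_lit 5) (nat_lit 369) (nat_lit 302) (nat_lit 109)) (XT.lf (nat_lit 0) (nat_lit 43159662324) (nat_lit 228) (nat_lit 3081062479) (nat_lit 304) (nat_lit 1905347125) (nat_lit 59) (nat_lit 5) (nat_lit 62) (nat_lit 5) (nat_lit 63) (nat_lit 5) (nat_lit 370) (nat_lit 302) (nat_lit 108))) (XT.nd (nat_lit 78) (nat_lit 0) (nat_lit 0) (XT.lf (nat_lit 0) (nat_lit 6450626930) (nat_lit 228) (nat_lit 32106174353) (nat_lit 76) (nat_lit 10612457464) (nat_lit 56) (nat_lit 5) (nat_lit 59) (nat_lit 5) (nat_lit 57) (nat_lit 5) (nat_lit 371) (nat_lit 302) (nat_lit 107)) (XT.lf (nat_lit 0) (nat_lit 15097743305) (nat_lit 228) (nat_lit 10399359599) (nat_lit 76) (nat_lit 24723111073) (nat_lit 56) (nat_lit 5) (nat_lit 59) (nat_lit 5) (nat_lit 57) (nat_lit 5) (nat_lit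 372) (nat_lit 302) (nat_lit 106))))))))
noncomputable def xc200 : XT := (XT.nd (nat_lit 35178) (nat_lit 0) (nat_lit 9120) (XT.nd (nat_lit 1014) (nat_lit 836) (nat_lit 0) (XT.nd (nat_lit 468) (nat_lit 532) (nat_lit 0) (XT.nd (nat_lit 234) (nat_lit 304) (nat_lit 0) (XT.nd (nat_lit 78) (nat_lit 152) (nat_lit 0) (XT.lf (nat_lit 0) (nat_lit 12192561154) (nat_lit 228) (nat_lit 11926391671) (nat_lit 304) (nat_lit 27180306117) (nat_lit 53) (nat_lit 5) (nat_lit 56) (nat_lit 5) (nat_lit 57) (nat_lit 5) (nat_lit 373) (nat_lit 302) (nat_lit 105)) (XT.nd (nat_lit 78) (nat_lit 152) (nat_lit 0) (XT.lf (nat_lit 0) (nat_lit 33534069382) (nat_lit 304) (nat_lit 16756909620) (nat_lit 76) (nat_lit 2115999555) (nat_lit 53) (nat_lit 5) (nat_lit 57) (nat_lit 5) (nat_lit 54) (nat_lit 5) (nat_lit 374) (nat_lit 302) (nat_lit 104)) (XT.lf (nat_lit 0) (nat_lit 6263590506) (nat_lit 152) (nat_lit 37143912520) (nat_lit 228) (nat_lit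 10135152211) (nat_lit 51) (nat_lit 5) (nat_lit 53) (nat_lit 5) (nat_lit 54) (nat_lit 5) (nat_lit 375) (nat_lit 302) (nat_lit 103)))) (XT.nd (nat_lit 78) (nat_lit 304) (nat_lit 0) (XT.lf (nat_lit 0) (nat_lit 30314320513) (nat_lit 152) (nat_lit 23429635537) (nat_lit 228) (nat_lit 963443020) (nat_lit 51) (nat_lit 5) (nat_lit 53) (nat_lit 5) (nat_lit 54) (nat_lit 5) (nat_lit 376) (nat_lit 302) (nat_lit 102)) (XT.nd (nat_lit 78) (nat_lit 228) (nat_lit 0) (XT.lf (nat_lit 0) (nat_lit 8315525321) (nat_lit 228) (nat_lit 905880811) (nat_lit 76) (nat_lit 46683304419) (nat_lit 50) (nat_lit 5) (nat_lit 53) (nat_lit 5) (nat_lit 51) (nat_lit 5) (nat_lit 377) (nat_lit 302) (nat_lit 101)) (XT.lf (nat_lit 0) (nat_lit 18133753909) (nat_lit 304) (nat_lit 33449396548) (nat_lit 76) (nat_lit 5546098315) (nat_lit 47) (nat_lit 5) (nat_lit 51) (nat_lit 5) (nat_lit 48) (nat_lit 5) (nat_lit 378) (nat_lit 302) (nat_lit 100)))))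 (XT.nd (nat_lit 234) (nat_lit 380) (nat_lit 0) (XT.nd (nat_lit 78) (nat_lit 152) (nat_lit 0) (XT.lf (nat_lit 0) (nat_lit 28344804434) (nat_lit 304) (nat_lit 9463641035) (nat_lit 76) (nat_lit 20579130611) (nat_lit 47) (nat_lit 5) (nat_lit 51) (nat_lit 5) (nat_lit 48) (nat_lit 5) (nat_lit 379) (nat_lit 302) (nat_lit 99)) (XT.nd (nat_lit 78) (nat_lit 0) (nat_lit 0) (XT.lf (nat_lit 0) (nat_lit 15541335526) (nat_lit 152) (nat_lit 23468045558) (nat_lit 228) (nat_lit 20669857445) (nat_lit 45) (nat_lit 5) (nat_lit 47) (nat_lit 5) (nat_lit 48) (nat_lit 5) (nat_lit 380) (nat_lit 302) (nat_lit 98)) (XT.lf (nat_lit 0) (nat_lit 41486873177) (nat_lit 152) (nat_lit 8600417437) (nat_lit 228) (nat_lit 10919559492) (nat_lit 45) (nat_lit 5) (nat_lit 47) (nat_lit 5) (nat_lit 48) (nat_lit 5) (nat_lit 381) (nat_lit 302) (nat_lit 97)))) (XT.nd (nat_lit 156) (nat_lit 152) (nat_lit 0) (XT.nd (nat_lit 78) (nat_lit 76) (nat_lit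 0) (XT.lf (nat_lit 0) (nat_lit 5883227881) (nat_lit 152) (nat_lit 55733275823) (nat_lit 228) (nat_lit 754218433) (nat_lit 43) (nat_lit 5) (nat_lit 45) (nat_lit 5) (nat_lit 46) (nat_lit 5) (nat_lit 382) (nat_lit 302) (nat_lit 96)) (XT.lf (nat_lit 0) (nat_lit 9808592535) (nat_lit 228) (nat_lit 31504967598) (nat_lit 76) (nat_lit 22450686151) (nat_lit 42) (nat_lit 5) (nat_lit 45) (nat_lit 5) (nat_lit 43) (nat_lit 5) (nat_lit 383) (nat_lit 302) (nat_lit 95))) (XT.nd (nat_lit 78) (nat_lit 152) (nat_lit 0) (XT.lf (nat_lit 0) (nat_lit 20671078004) (nat_lit 228) (nat_lit 5783868284) (nat_lit 76) (nat_lit 38744468367) (nat_lit 42) (nat_lit 5) (nat_lit 45) (nat_lit 5) (nat_lit 43) (nat_lit 5) (nat_lit 384) (nat_lit 302) (nat_lit 94)) (XT.lf (nat_lit 0) (nat_lit 21117609057) (nat_lit 152) (nat_lit 10942833301) (nat_lit 228) (nat_lit 34611166558) (nat_lit 40) (nat_lit 5) (nat_lit 42) (nat_lit 5) (nat_lit 43)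 (nat_lit 5) (nat_lit 385) (nat_lit 302) (nat_lit 93)))))) (XT.nd (nat_lit 546) (nat_lit 304) (nat_lit 0) (XT.nd (nat_lit 234) (nat_lit 380) (nat_lit 0) (XT.nd (nat_lit 78) (nat_lit 152) (nat_lit 0) (XT.lf (nat_lit 0) (nat_lit 43896890044) (nat_lit 228) (nat_lit 19293846720) (nat_lit 76) (nat_lit 4994071112) (nat_lit 40) (nat_lit 5) (nat_lit 43) (nat_lit 5) (nat_lit 41) (nat_lit 5) (nat_lit 386) (nat_lit 302) (nat_lit 92)) (XT.nd (nat_lit 78) (nat_lit 0) (nat_lit 0) (XT.lf (nat_lit 0) (nat_lit 7794614819) (nat_lit 152) (nat_lit 48475167759) (nat_lit 228) (nat_lit 13468180599) (nat_lit 38) (nat_lit 5) (nat_lit 40) (nat_lit 5) (nat_lit 41) (nat_lit 5) (nat_lit 387) (nat_lit 302) (nat_lit 91)) (XT.lf (nat_lit 0) (nat_lit 36088014713) (nat_lit 152) (nat_lit 33118782092) (nat_lit 228) (nat_lit 2125129171) (nat_lit 38) (nat_lit 5) (nat_lit 40) (nat_lit 5) (nat_lit 41) (nat_lit 5) (nat_lit 388) (nat_lit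 302) (nat_lit 90)))) (XT.nd (nat_lit 156) (nat_lit 152) (nat_lit 0) (XT.nd (nat_lit 78) (nat_lit 152) (nat_lit 0) (XT.lf (nat_lit 0) (nat_lit 9369839651) (nat_lit 228) (nat_lit 7838534925) (nat_lit 76) (nat_lit 55762633308) (nat_lit 37) (nat_lit 5) (nat_lit 40) (nat_lit 5) (nat_lit 38) (nat_lit 5) (nat_lit 389) (nat_lit 302) (nat_lit 89)) (XT.lf (nat_lit 0) (nat_lit 20770190753) (nat_lit 152) (nat_lit 594604749) (nat_lit 228) (nat_lit 53287900805) (nat_lit 35) (nat_lit 5) (nat_lit 37) (nat_lit 5) (nat_lit 38) (nat_lit 5) (nat_lit 390) (nat_lit 302) (nat_lit 88))) (XT.nd (nat_lit 78) (nat_lit 152) (nat_lit 0) (XT.lf (nat_lit 0) (nat_lit 33956521011) (nat_lit 228) (nat_lit 26147245347) (nat_lit 76) (nat_lit 16273962182) (nat_lit 35) (nat_lit 5) (nat_lit 38) (nat_lit 5) (nat_lit 36) (nat_lit 5) (nat_lit 391) (nat_lit 302) (nat_lit 87)) (XT.lf (nat_lit 0) (nat_lit 2459178458) (nat_lit 152) (nat_lit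 44494604755) (nat_lit 228) (nat_lit 31199895748) (nat_lit 33) (nat_lit 5) (nat_lit 35) (nat_lit 5) (nat_lit 36) (nat_lit 5) (nat_lit 392) (nat_lit 302) (nat_lit 86))))) (XT.nd (nat_lit 234) (nat_lit 152) (nat_lit 0) (XT.nd (nat_lit 78) (nat_lit 152) (nat_lit 0) (XT.lf (nat_lit 0) (nat_lit 32456822768) (nat_lit 152) (nat_lit 28146457261) (nat_lit 228) (nat_lit 19371759105) (nat_lit 33) (nat_lit 5) (nat_lit 35) (nat_lit 5) (nat_lit 36) (nat_lit 5) (nat_lit 393) (nat_lit 302) (nat_lit 85)) (XT.nd (nat_lit 78) (nat_lit 152) (nat_lit 0) (XT.lf (nat_lit 0) (nat_lit 63351517667) (nat_lit 152) (nat_lit 11309074997) (nat_lit 228) (nat_lit 7190498243) (nat_lit 33) (nat_lit 5) (nat_lit 35) (nat_lit 5) (nat_lit 36) (nat_lit 5) (nat_lit 394) (nat_lit 302) (nat_lit 84)) (XT.lf (nat_lit 0) (nat_lit 5420770640) (nat_lit 152) (nat_lit 72277282219) (nat_lit 76) (nat_lit 6078754772) (nat_lit 31) (nat_lit 5) (nat_lit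 33) (nat_lit 5) (nat_lit 32) (nat_lit 5) (nat_lit 395) (nat_lit 302) (nat_lit 83)))) (XT.nd (nat_lit 156) (nat_lit 152) (nat_lit 0) (XT.nd (nat_lit 78) (nat_lit 0) (nat_lit 0) (XT.lf (nat_lit 0) (nat_lit 18564857931) (nat_lit 152) (nat_lit 43164723330) (nat_lit 76) (nat_lit 24019609401) (nat_lit 31) (nat_lit 5) (nat_lit 33) (nat_lit 5) (nat_lit 32) (nat_lit 5) (nat_lit 396) (nat_lit 302) (nat_lit 82)) (XT.lf (nat_lit 0) (nat_lit 32101687432) (nat_lit 152) (nat_lit 13181543211) (nat_lit 76) (nat_lit 42497562591) (nat_lit 31) (nat_lit 5) (nat_lit 33) (nat_lit 5) (nat_lit 32) (nat_lit 5) (nat_lit 397) (nat_lit 302) (nat_lit 81))) (XT.nd (nat_lit 78) (nat_lit 0) (nat_lit 0) (XT.lf (nat_lit 0) (nat_lit 18050691027) (nat_lit 152) (nat_lit 28165910700) (nat_lit 228) (nat_lit 43651583384) (nat_lit 29) (nat_lit 5) (nat_lit 31) (nat_lit 5) (nat_lit 32) (nat_lit 5) (nat_lit 398) (nat_lit 302) (nat_lit 80))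 (XT.lf (nat_lit 0) (nat_lit 50487451955) (nat_lit 152) (nat_lit 10399104088) (nat_lit 228) (nat_lit 31127695529) (nat_lit 29) (nat_lit 5) (nat_lit 31) (nat_lit 5) (nat_lit 32) (nat_lit 5) (nat_lit 399) (nat_lit 302) (nat_lit 79))))))) (XT.nd (nat_lit 1092) (nat_lit 3496) (nat_lit 0) (XT.nd (nat_lit 546) (nat_lit 0) (nat_lit 152) (XT.nd (nat_lit 234) (nat_lit 0) (nat_lit 76) (XT.nd (nat_lit 78) (nat_lit 0) (nat_lit 0) (XT.lf (nat_lit 0) (nat_lit 449089071) (nat_lit 0) (nat_lit 449089071) (nat_lit 1140) (nat_lit 6492692230) (nat_lit 195) (nat_lit 5) (nat_lit 195) (nat_lit 3) (nat_lit 210) (nat_lit 3) (nat_lit 303) (nat_lit 303) (nat_lit 174)) (XT.nd (nat_lit 78) (nat_lit 0) (nat_lit 0) (XT.lf (nat_lit 0) (nat_lit 2171938257) (nat_lit 1140) (nat_lit 7227081875) (nat_lit 1216) (nat_lit 5593642479) (nat_lit 195) (nat_lit 5) (nat_lit 210) (nat_lit 3) (nat_lit 211) (nat_lit 5) (nat_lit 304) (nat_lit 303)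 (nat_lit 173)) (XT.lf (nat_lit 0) (nat_lit 2556269577) (nat_lit 1140) (nat_lit 385945177) (nat_lit 1216) (nat_lit 12267786393) (nat_lit 195) (nat_lit 5) (nat_lit 210) (nat_lit 3) (nat_lit 211) (nat_lit 5) (nat_lit 305) (nat_lit 303) (nat_lit 172)))) (XT.nd (nat_lit 156) (nat_lit 0) (nat_lit 76) (XT.nd (nat_lit 78) (nat_lit 0) (nat_lit 0) (XT.lf (nat_lit 0) (nat_lit 3042633499) (nat_lit 1140) (nat_lit 8681693757) (nat_lit 1216) (nat_lit 3706830581) (nat_lit 196) (nat_lit 5) (nat_lit 211) (nat_lit 5) (nat_lit 212) (nat_lit 5) (nat_lit 306) (nat_lit 303) (nat_lit 171)) (XT.lf (nat_lit 0) (nat_lit 3565889479) (nat_lit 1140) (nat_lit 1587446951) (nat_lit 1216) (nat_lit 10504956461) (nat_lit 196) (nat_lit 5) (nat_lit 211) (nat_lit 5) (nat_lit 212) (nat_lit 5) (nat_lit 307) (nat_lit 303) (nat_lit 170))) (XT.nd (nat_lit 78) (nat_lit 0) (nat_lit 0) (XT.lf (nat_lit 0) (nat_lit 4166524650) (nat_lit 1140)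 (nat_lit 10079777665) (nat_lit 1216) (nat_lit 1644101562) (nat_lit 197) (nat_lit 5) (nat_lit 212) (nat_lit 5) (nat_lit 213) (nat_lit 5) (nat_lit 308) (nat_lit 303) (nat_lit 169)) (XT.lf (nat_lit 0) (nat_lit 4842225044) (nat_lit 1140) (nat_lit 2723403720) (nat_lit 1216) (nat_lit 8562150012) (nat_lit 197) (nat_lit 5) (nat_lit 212) (nat_lit 5) (nat_lit 213) (nat_lit 5) (nat_lit 309) (nat_lit 303) (nat_lit 168))))) (XT.nd (nat_lit 234) (nat_lit 0) (nat_lit 152) (XT.nd (nat_lit 78) (nat_lit 0) (nat_lit 76) (XT.lf (nat_lit 76) (nat_lit 4943914377) (nat_lit 0) (nat_lit 631936312) (nat_lit 1216) (nat_lit 10795306226) (nat_lit 198) (nat_lit 5) (nat_lit 197) (nat_lit 5) (nat_lit 213) (nat_lit 5) (nat_lit 310) (nat_lit 303) (nat_lit 167)) (XT.nd (nat_lit 78) (nat_lit 0) (nat_lit 0) (XT.lf (nat_lit 0) (nat_lit 6412226327) (nat_lit 1140) (nat_lit 3793274041) (nat_lit 1216) (nat_lit 6413925075) (nat_lit 198)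 (nat_lit 5) (nat_lit 213) (nat_lit 5) (nat_lit 214) (nat_lit 5) (nat_lit 311) (nat_lit 303) (nat_lit 166)) (XT.lf (nat_lit 76) (nat_lit 4137897488) (nat_lit 0) (nat_lit 3172500422) (nat_lit 1216) (nat_lit 9563653928) (nat_lit 199) (nat_lit 5) (nat_lit 198) (nat_lit 5) (nat_lit 214) (nat_lit 5) (nat_lit 312) (nat_lit 303) (nat_lit 165)))) (XT.nd (nat_lit 156) (nat_lit 0) (nat_lit 76) (XT.nd (nat_lit 78) (nat_lit 0) (nat_lit 0) (XT.lf (nat_lit 0) (nat_lit 8304247359) (nat_lit 1140) (nat_lit 4796476680) (nat_lit 1216) (nat_lit 4033541637) (nat_lit 199) (nat_lit 5) (nat_lit 214) (nat_lit 5) (nat_lit 215) (nat_lit 5) (nat_lit 313) (nat_lit 303) (nat_lit 164)) (XT.lf (nat_lit 76) (nat_lit 3410161408) (nat_lit 0) (nat_lit 5973118247) (nat_lit 1216) (nat_lit 8017355578) (nat_lit 200) (nat_lit 5) (nat_lit 199) (nat_lit 5) (nat_lit 215) (nat_lit 5) (nat_lit 314) (nat_lit 303) (nat_lit 163))) (XT.nd (nat_lit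 78) (nat_lit 0) (nat_lit 0) (XT.lf (nat_lit 0) (nat_lit 10548145287) (nat_lit 1140) (nat_lit 5732446135) (nat_lit 1216) (nat_lit 1392810606) (nat_lit 200) (nat_lit 5) (nat_lit 215) (nat_lit 5) (nat_lit 216) (nat_lit 5) (nat_lit 315) (nat_lit 303) (nat_lit 162)) (XT.lf (nat_lit 76) (nat_lit 2761672411) (nat_lit 0) (nat_lit 9063616501) (nat_lit 1216) (nat_lit 6126752685) (nat_lit 201) (nat_lit 5) (nat_lit 200) (nat_lit 5) (nat_lit 216) (nat_lit 5) (nat_lit 316) (nat_lit 303) (nat_lit 161)))))) (XT.nd (nat_lit 546) (nat_lit 2128) (nat_lit 0) (XT.nd (nat_lit 234) (nat_lit 1748) (nat_lit 0) (XT.nd (nat_lit 78) (nat_lit 0) (nat_lit 76) (XT.lf (nat_lit 76) (nat_lit 11621786423) (nat_lit 0) (nat_lit 1568674662) (nat_lit 1216) (nat_lit 5047097290) (nat_lit 201) (nat_lit 5) (nat_lit 200) (nat_lit 5) (nat_lit 216) (nat_lit 5) (nat_lit 317) (nat_lit 303) (nat_lit 160)) (XT.nd (nat_lit 78) (nat_lit 0) (nat_lit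 0) (XT.lf (nat_lit 76) (nat_lit 2193317085) (nat_lit 0) (nat_lit 12475566048) (nat_lit 1216) (nat_lit 3860597853) (nat_lit 202) (nat_lit 5) (nat_lit 201) (nat_lit 5) (nat_lit 217) (nat_lit 5) (nat_lit 318) (nat_lit 303) (nat_lit 159)) (XT.lf (nat_lit 76) (nat_lit 11380100665) (nat_lit 0) (nat_lit 4885995099) (nat_lit 1216) (nat_lit 2561841280) (nat_lit 202) (nat_lit 5) (nat_lit 201) (nat_lit 5) (nat_lit 217) (nat_lit 5) (nat_lit 319) (nat_lit 303) (nat_lit 158)))) (XT.nd (nat_lit 156) (nat_lit 684) (nat_lit 0) (XT.nd (nat_lit 78) (nat_lit 76) (nat_lit 0) (XT.lf (nat_lit 0) (nat_lit 1705834188) (nat_lit 1140) (nat_lit 16242456291) (nat_lit 1216) (nat_lit 1185952978) (nat_lit 187) (nat_lit 5) (nat_lit 202) (nat_lit 5) (nat_lit 203) (nat_lit 5) (nat_lit 320) (nat_lit 303) (nat_lit 157)) (XT.lf (nat_lit 0) (nat_lit 343597272) (nat_lit 1216) (nat_lit 8218547783) (nat_lit 76) (nat_lit 10884028570) (nat_lit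 186) (nat_lit 5) (nat_lit 202) (nat_lit 5) (nat_lit 187) (nat_lit 5) (nat_lit 321) (nat_lit 303) (nat_lit 156))) (XT.nd (nat_lit 78) (nat_lit 0) (nat_lit 0) (XT.lf (nat_lit 0) (nat_lit 1274415672) (nat_lit 684) (nat_lit 625816521) (nat_lit 760) (nat_lit 17866734113) (nat_lit 177) (nat_lit 5) (nat_lit 186) (nat_lit 5) (nat_lit 187) (nat_lit 5) (nat_lit 322) (nat_lit 303) (nat_lit 155)) (XT.lf (nat_lit 0) (nat_lit 3652882809) (nat_lit 760) (nat_lit 8954121967) (nat_lit 76) (nat_lit 7485906175) (nat_lit 177) (nat_lit 5) (nat_lit 187) (nat_lit 5) (nat_lit 178) (nat_lit 5) (nat_lit 323) (nat_lit 303) (nat_lit 154))))) (XT.nd (nat_lit 234) (nat_lit 988) (nat_lit 0) (XT.nd (nat_lit 78) (nat_lit 532) (nat_lit 0) (XT.lf (nat_lit 0) (nat_lit 875041814) (nat_lit 608) (nat_lit 4590826299) (nat_lit 684) (nat_lit 14962540625) (nat_lit 169) (nat_lit 5) (nat_lit 177) (nat_lit 5) (nat_lit 178) (nat_lit 5) (nat_lit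 324) (nat_lit 303) (nat_lit 153)) (XT.nd (nat_lit 78) (nat_lit 532) (nat_lit 0) (XT.lf (nat_lit 0) (nat_lit 7453087336) (nat_lit 684) (nat_lit 9631209413) (nat_lit 76) (nat_lit 3686086619) (nat_lit 169) (nat_lit 5) (nat_lit 178) (nat_lit 5) (nat_lit 170) (nat_lit 5) (nat_lit 325) (nat_lit 303) (nat_lit 152)) (XT.lf (nat_lit 0) (nat_lit 547584001) (nat_lit 532) (nat_lit 8996543731) (nat_lit 608) (nat_lit 11577170398) (nat_lit 162) (nat_lit 5) (nat_lit 169) (nat_lit 5) (nat_lit 170) (nat_lit 5) (nat_lit 326) (nat_lit 303) (nat_lit 151)))) (XT.nd (nat_lit 156) (nat_lit 456) (nat_lit 0) (XT.nd (nat_lit 78) (nat_lit 532) (nat_lit 0) (XT.lf (nat_lit 0) (nat_lit 11222972512) (nat_lit 532) (nat_lit 565800422) (nat_lit 608) (nat_lit 9691248017) (nat_lit 162) (nat_lit 5) (nat_lit 169) (nat_lit 5) (nat_lit 170) (nat_lit 5) (nat_lit 327) (nat_lit 303) (nat_lit 150)) (XT.lf (nat_lit 0) (nat_lit 290540071) (nat_lit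 532) (nat_lit 13884849041) (nat_lit 608) (nat_lit 7671884023) (nat_lit 155) (nat_lit 5) (nat_lit 162) (nat_lit 5) (nat_lit 163) (nat_lit 5) (nat_lit 328) (nat_lit 303) (nat_lit 149))) (XT.nd (nat_lit 78) (nat_lit 456) (nat_lit 0) (XT.lf (nat_lit 0) (nat_lit 11352950362) (nat_lit 532) (nat_lit 5383702741) (nat_lit 608) (nat_lit 5485804735) (nat_lit 155) (nat_lit 5) (nat_lit 162) (nat_lit 5) (nat_lit 163) (nat_lit 5) (nat_lit 329) (nat_lit 303) (nat_lit 148)) (XT.lf (nat_lit 0) (nat_lit 101746923) (nat_lit 456) (nat_lit 19300506833) (nat_lit 532) (nat_lit 3205825610) (nat_lit 149) (nat_lit 5) (nat_lit 155) (nat_lit 5) (nat_lit 156) (nat_lit 5) (nat_lit 330) (nat_lit 303) (nat_lit 147))))))))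
noncomputable def xc201 : XT := (XT.nd (nat_lit 2184) (nat_lit 3040) (nat_lit 0) (XT.nd (nat_lit 1092) (nat_lit 2432) (nat_lit 0) (XT.nd (nat_lit 546) (nat_lit 1292) (nat_lit 0) (XT.nd (nat_lit 234) (nat_lit 912) (nat_lit 0) (XT.nd (nat_lit 78) (nat_lit 608) (nat_lit 0) (XT.lf (nat_lit 0) (nat_lit 11564493623) (nat_lit 456) (nat_lit 10740086474) (nat_lit 532) (nat_lit 695992777) (nat_lit 149) (nat_lit 5) (nat_lit 155) (nat_lit 5) (nat_lit 156) (nat_lit 5) (nat_lit 331) (nat_lit 303) (nat_lit 146)) (XT.nd (nat_lit 78) (nat_lit 532) (nat_lit 0) (XT.lf (nat_lit 0) (nat_lit 1846593871) (nat_lit 532) (nat_lit 57913913) (nat_lit 76) (nat_lit 21499964653) (nat_lit 148) (nat_lit 5) (nat_lit 155) (nat_lit 5) (nat_lit 149) (nat_lit 5) (nat_lit 332) (nat_lit 303) (nat_lit 145)) (XT.lf (nat_lit 0) (nat_lit 4630531039) (nat_lit 608) (nat_lit 12006716234) (nat_lit 76) (nat_lit 7177668684) (nat_lit 141) (nat_lit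 5) (nat_lit 149) (nat_lit 5) (nat_lit 142) (nat_lit 5) (nat_lit 333) (nat_lit 303) (nat_lit 144)))) (XT.nd (nat_lit 156) (nat_lit 456) (nat_lit 0) (XT.nd (nat_lit 78) (nat_lit 456) (nat_lit 0) (XT.lf (nat_lit 0) (nat_lit 7512022423) (nat_lit 608) (nat_lit 231000067) (nat_lit 76) (nat_lit 16494234596) (nat_lit 141) (nat_lit 5) (nat_lit 149) (nat_lit 5) (nat_lit 142) (nat_lit 5) (nat_lit 334) (nat_lit 303) (nat_lit 143)) (XT.lf (nat_lit 0) (nat_lit 10606075416) (nat_lit 532) (nat_lit 12554840828) (nat_lit 76) (nat_lit 1507573930) (nat_lit 135) (nat_lit 5) (nat_lit 142) (nat_lit 5) (nat_lit 136) (nat_lit 5) (nat_lit 335) (nat_lit 303) (nat_lit 142))) (XT.nd (nat_lit 78) (nat_lit 456) (nat_lit 0) (XT.lf (nat_lit 0) (nat_lit 13866808211) (nat_lit 532) (nat_lit 361793512) (nat_lit 76) (nat_lit 10881847863) (nat_lit 135) (nat_lit 5) (nat_lit 142) (nat_lit 5) (nat_lit 136) (nat_lit 5) (nat_lit 336) (nat_lit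 303) (nat_lit 141)) (XT.lf (nat_lit 0) (nat_lit 12433958014) (nat_lit 456) (nat_lit 4905916991) (nat_lit 532) (nat_lit 8222362347) (nat_lit 129) (nat_lit 5) (nat_lit 135) (nat_lit 5) (nat_lit 136) (nat_lit 5) (nat_lit 337) (nat_lit 303) (nat_lit 140))))) (XT.nd (nat_lit 234) (nat_lit 836) (nat_lit 0) (XT.nd (nat_lit 78) (nat_lit 456) (nat_lit 0) (XT.lf (nat_lit 0) (nat_lit 20961042090) (nat_lit 532) (nat_lit 457459627) (nat_lit 76) (nat_lit 4607764572) (nat_lit 129) (nat_lit 5) (nat_lit 136) (nat_lit 5) (nat_lit 130) (nat_lit 5) (nat_lit 338) (nat_lit 303) (nat_lit 139)) (XT.nd (nat_lit 78) (nat_lit 76) (nat_lit 0) (XT.lf (nat_lit 0) (nat_lit 12788828837) (nat_lit 380) (nat_lit 12068739895) (nat_lit 456) (nat_lit 1641650273) (nat_lit 124) (nat_lit 5) (nat_lit 129) (nat_lit 5) (nat_lit 130) (nat_lit 5) (nat_lit 339) (nat_lit 303) (nat_lit 138)) (XT.lf (nat_lit 0) (nat_lit 1847771886) (nat_lit 456)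 (nat_lit 568182368) (nat_lit 76) (nat_lit 24569869434) (nat_lit 123) (nat_lit 5) (nat_lit 129) (nat_lit 5) (nat_lit 124) (nat_lit 5) (nat_lit 340) (nat_lit 303) (nat_lit 137)))) (XT.nd (nat_lit 156) (nat_lit 380) (nat_lit 0) (XT.nd (nat_lit 78) (nat_lit 0) (nat_lit 0) (XT.lf (nat_lit 0) (nat_lit 5604955332) (nat_lit 532) (nat_lit 14352448824) (nat_lit 76) (nat_lit 7523256765) (nat_lit 117) (nat_lit 5) (nat_lit 124) (nat_lit 5) (nat_lit 118) (nat_lit 5) (nat_lit 341) (nat_lit 303) (nat_lit 136)) (XT.lf (nat_lit 0) (nat_lit 9500031802) (nat_lit 532) (nat_lit 772596239) (nat_lit 76) (nat_lit 17716964034) (nat_lit 117) (nat_lit 5) (nat_lit 124) (nat_lit 5) (nat_lit 118) (nat_lit 5) (nat_lit 342) (nat_lit 303) (nat_lit 135))) (XT.nd (nat_lit 78) (nat_lit 0) (nat_lit 0) (XT.lf (nat_lit 0) (nat_lit 13472110719) (nat_lit 380) (nat_lit 164947014) (nat_lit 456) (nat_lit 14872984524) (nat_lit 112) (nat_lit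 5) (nat_lit 117) (nat_lit 5) (nat_lit 118) (nat_lit 5) (nat_lit 343) (nat_lit 303) (nat_lit 134)) (XT.lf (nat_lit 0) (nat_lit 18000225398) (nat_lit 456) (nat_lit 989944292) (nat_lit 76) (nat_lit 10052879219) (nat_lit 112) (nat_lit 5) (nat_lit 118) (nat_lit 5) (nat_lit 113) (nat_lit 5) (nat_lit 344) (nat_lit 303) (nat_lit 133)))))) (XT.nd (nat_lit 546) (nat_lit 988) (nat_lit 0) (XT.nd (nat_lit 234) (nat_lit 684) (nat_lit 0) (XT.nd (nat_lit 78) (nat_lit 380) (nat_lit 0) (XT.lf (nat_lit 0) (nat_lit 13740637967) (nat_lit 380) (nat_lit 8883154569) (nat_lit 456) (nat_lit 6964371870) (nat_lit 107) (nat_lit 5) (nat_lit 112) (nat_lit 5) (nat_lit 113) (nat_lit 5) (nat_lit 345) (nat_lit 303) (nat_lit 132)) (XT.nd (nat_lit 78) (nat_lit 380) (nat_lit 0) (XT.lf (nat_lit 0) (nat_lit 27406690000) (nat_lit 456) (nat_lit 1236086288) (nat_lit 76) (nat_lit 1506242049) (nat_lit 107) (nat_lit 5) (nat_lit 113) (nat_lit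 5) (nat_lit 108) (nat_lit 5) (nat_lit 346) (nat_lit 303) (nat_lit 131)) (XT.lf (nat_lit 0) (nat_lit 1795625865) (nat_lit 380) (nat_lit 16744190543) (nat_lit 76) (nat_lit 12179803825) (nat_lit 102) (nat_lit 5) (nat_lit 107) (nat_lit 5) (nat_lit 103) (nat_lit 5) (nat_lit 347) (nat_lit 303) (nat_lit 130)))) (XT.nd (nat_lit 156) (nat_lit 304) (nat_lit 0) (XT.nd (nat_lit 78) (nat_lit 380) (nat_lit 0) (XT.lf (nat_lit 0) (nat_lit 6423200664) (nat_lit 380) (nat_lit 1670890842) (nat_lit 76) (nat_lit 23212179483) (nat_lit 102) (nat_lit 5) (nat_lit 107) (nat_lit 5) (nat_lit 103) (nat_lit 5) (nat_lit 348) (nat_lit 303) (nat_lit 129)) (XT.lf (nat_lit 0) (nat_lit 11348443152) (nat_lit 456) (nat_lit 17808403943) (nat_lit 76) (nat_lit 2748912220) (nat_lit 97) (nat_lit 5) (nat_lit 103) (nat_lit 5) (nat_lit 98) (nat_lit 5) (nat_lit 349) (nat_lit 303) (nat_lit 128))) (XT.nd (nat_lit 78) (nat_lit 304) (nat_lit 0)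 (XT.lf (nat_lit 0) (nat_lit 16514785756) (nat_lit 456) (nat_lit 2235313410) (nat_lit 76) (nat_lit 13770336004) (nat_lit 97) (nat_lit 5) (nat_lit 103) (nat_lit 5) (nat_lit 98) (nat_lit 5) (nat_lit 350) (nat_lit 303) (nat_lit 127)) (XT.lf (nat_lit 0) (nat_lit 14074585282) (nat_lit 304) (nat_lit 7893102165) (nat_lit 380) (nat_lit 11181919862) (nat_lit 93) (nat_lit 5) (nat_lit 97) (nat_lit 5) (nat_lit 98) (nat_lit 5) (nat_lit 351) (nat_lit 303) (nat_lit 126))))) (XT.nd (nat_lit 234) (nat_lit 608) (nat_lit 0) (XT.nd (nat_lit 78) (nat_lit 380) (nat_lit 0) (XT.lf (nat_lit 0) (nat_lit 27634916883) (nat_lit 380) (nat_lit 2914301295) (nat_lit 76) (nat_lit 3246917194) (nat_lit 93) (nat_lit 5) (nat_lit 98) (nat_lit 5) (nat_lit 94) (nat_lit 5) (nat_lit 352) (nat_lit 303) (nat_lit 125)) (XT.nd (nat_lit 78) (nat_lit 76) (nat_lit 0) (XT.lf (nat_lit 0) (nat_lit 13919783300) (nat_lit 304) (nat_lit 19760765222) (nat_lit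 380) (nat_lit 775262094) (nat_lit 89) (nat_lit 5) (nat_lit 93) (nat_lit 5) (nat_lit 94) (nat_lit 5) (nat_lit 353) (nat_lit 303) (nat_lit 124)) (XT.lf (nat_lit 0) (nat_lit 4705318660) (nat_lit 380) (nat_lit 3866886242) (nat_lit 76) (nat_lit 26560912629) (nat_lit 88) (nat_lit 5) (nat_lit 93) (nat_lit 5) (nat_lit 89) (nat_lit 5) (nat_lit 354) (nat_lit 303) (nat_lit 123)))) (XT.nd (nat_lit 156) (nat_lit 304) (nat_lit 0) (XT.nd (nat_lit 78) (nat_lit 0) (nat_lit 0) (XT.lf (nat_lit 0) (nat_lit 10491310011) (nat_lit 380) (nat_lit 22302106964) (nat_lit 76) (nat_lit 3032401797) (nat_lit 84) (nat_lit 5) (nat_lit 89) (nat_lit 5) (nat_lit 85) (nat_lit 5) (nat_lit 355) (nat_lit 303) (nat_lit 122)) (XT.lf (nat_lit 0) (nat_lit 16571783563) (nat_lit 380) (nat_lit 5112952235) (nat_lit 76) (nat_lit 14850940750) (nat_lit 84) (nat_lit 5) (nat_lit 89) (nat_lit 5) (nat_lit 85) (nat_lit 5) (nat_lit 356) (nat_lit 303)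 (nat_lit 121))) (XT.nd (nat_lit 78) (nat_lit 0) (nat_lit 0) (XT.lf (nat_lit 0) (nat_lit 12837669933) (nat_lit 304) (nat_lit 10117098674) (nat_lit 380) (nat_lit 14308461031) (nat_lit 80) (nat_lit 5) (nat_lit 84) (nat_lit 5) (nat_lit 85) (nat_lit 5) (nat_lit 357) (nat_lit 303) (nat_lit 120)) (XT.lf (nat_lit 0) (nat_lit 29595396062) (nat_lit 380) (nat_lit 6601986246) (nat_lit 76) (nat_lit 1813244853) (nat_lit 80) (nat_lit 5) (nat_lit 85) (nat_lit 5) (nat_lit 81) (nat_lit 5) (nat_lit 358) (nat_lit 303) (nat_lit 119))))))) (XT.nd (nat_lit 1092) (nat_lit 1216) (nat_lit 0) (XT.nd (nat_lit 546) (nat_lit 760) (nat_lit 0) (XT.nd (nat_lit 234) (nat_lit 456) (nat_lit 0) (XT.nd (nat_lit 78) (nat_lit 380) (nat_lit 0) (XT.lf (nat_lit 0) (nat_lit 11883394893) (nat_lit 228) (nat_lit 24763073950) (nat_lit 304) (nat_lit 2127643326) (nat_lit 77) (nat_lit 5) (nat_lit 80) (nat_lit 5) (nat_lit 81) (nat_lit 5) (nat_lit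 359) (nat_lit 303) (nat_lit 118)) (XT.nd (nat_lit 78) (nat_lit 304) (nat_lit 0) (XT.lf (nat_lit 0) (nat_lit 4327884998) (nat_lit 304) (nat_lit 8546929069) (nat_lit 76) (nat_lit 26682510769) (nat_lit 76) (nat_lit 5) (nat_lit 80) (nat_lit 5) (nat_lit 77) (nat_lit 5) (nat_lit 360) (nat_lit 303) (nat_lit 117)) (XT.lf (nat_lit 0) (nat_lit 10527024394) (nat_lit 304) (nat_lit 505417469) (nat_lit 380) (nat_lit 29328018416) (nat_lit 72) (nat_lit 5) (nat_lit 76) (nat_lit 5) (nat_lit 77) (nat_lit 5) (nat_lit 361) (nat_lit 303) (nat_lit 116)))) (XT.nd (nat_lit 156) (nat_lit 228) (nat_lit 0) (XT.nd (nat_lit 78) (nat_lit 228) (nat_lit 0) (XT.lf (nat_lit 0) (nat_lit 18139874703) (nat_lit 380) (nat_lit 10959703336) (nat_lit 76) (nat_lit 12082061661) (nat_lit 72) (nat_lit 5) (nat_lit 77) (nat_lit 5) (nat_lit 73) (nat_lit 5) (nat_lit 362) (nat_lit 303) (nat_lit 115)) (XT.lf (nat_lit 0) (nat_lit 8639417898) (nat_lit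 228) (nat_lit 16906219106) (nat_lit 304) (nat_lit 16479266335) (nat_lit 69) (nat_lit 5) (nat_lit 72) (nat_lit 5) (nat_lit 73) (nat_lit 5) (nat_lit 363) (nat_lit 303) (nat_lit 114))) (XT.nd (nat_lit 78) (nat_lit 228) (nat_lit 0) (XT.lf (nat_lit 0) (nat_lit 29046813815) (nat_lit 228) (nat_lit 4234528696) (nat_lit 304) (nat_lit 9608891240) (nat_lit 69) (nat_lit 5) (nat_lit 72) (nat_lit 5) (nat_lit 73) (nat_lit 5) (nat_lit 364) (nat_lit 303) (nat_lit 113)) (XT.lf (nat_lit 0) (nat_lit 6319151686) (nat_lit 228) (nat_lit 35072638136) (nat_lit 304) (nat_lit 2385456048) (nat_lit 66) (nat_lit 5) (nat_lit 69) (nat_lit 5) (nat_lit 70) (nat_lit 5) (nat_lit 365) (nat_lit 303) (nat_lit 112))))) (XT.nd (nat_lit 234) (nat_lit 456) (nat_lit 0) (XT.nd (nat_lit 78) (nat_lit 228) (nat_lit 0) (XT.lf (nat_lit 0) (nat_lit 5136330324) (nat_lit 304) (nat_lit 17412519932) (nat_lit 76) (nat_lit 22135153745) (nat_lit 65) (nat_lit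 5) (nat_lit 69) (nat_lit 5) (nat_lit 66) (nat_lit 5) (nat_lit 366) (nat_lit 303) (nat_lit 111)) (XT.nd (nat_lit 78) (nat_lit 0) (nat_lit 0) (XT.lf (nat_lit 0) (nat_lit 3270423318) (nat_lit 228) (nat_lit 9594102746) (nat_lit 304) (nat_lit 32751870981) (nat_lit 62) (nat_lit 5) (nat_lit 65) (nat_lit 5) (nat_lit 66) (nat_lit 5) (nat_lit 367) (nat_lit 303) (nat_lit 110)) (XT.lf (nat_lit 0) (nat_lit 21035470820) (nat_lit 304) (nat_lit 21682698812) (nat_lit 76) (nat_lit 3852266854) (nat_lit 62) (nat_lit 5) (nat_lit 66) (nat_lit 5) (nat_lit 63) (nat_lit 5) (nat_lit 368) (nat_lit 303) (nat_lit 109)))) (XT.nd (nat_lit 156) (nat_lit 228) (nat_lit 0) (XT.nd (nat_lit 78) (nat_lit 228) (nat_lit 0) (XT.lf (nat_lit 0) (nat_lit 29543903461) (nat_lit 304) (nat_lit 498618707) (nat_lit 76) (nat_lit 17507805809) (nat_lit 62) (nat_lit 5) (nat_lit 66) (nat_lit 5) (nat_lit 63) (nat_lit 5) (nat_lit 369) (nat_lit 303) (nat_lit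 108)) (XT.lf (nat_lit 0) (nat_lit 21741251457) (nat_lit 228) (nat_lit 16772772906) (nat_lit 304) (nat_lit 10039400395) (nat_lit 59) (nat_lit 5) (nat_lit 62) (nat_lit 5) (nat_lit 63) (nat_lit 5) (nat_lit 370) (nat_lit 303) (nat_lit 107))) (XT.nd (nat_lit 78) (nat_lit 228) (nat_lit 0) (XT.lf (nat_lit 0) (nat_lit 44654595499) (nat_lit 228) (nat_lit 3101170047) (nat_lit 304) (nat_lit 1830774953) (nat_lit 59) (nat_lit 5) (nat_lit 62) (nat_lit 5) (nat_lit 63) (nat_lit 5) (nat_lit 371) (nat_lit 303) (nat_lit 106)) (XT.lf (nat_lit 0) (nat_lit 6772182242) (nat_lit 228) (nat_lit 32865369000) (nat_lit 76) (nat_lit 11002869691) (nat_lit 56) (nat_lit 5) (nat_lit 59) (nat_lit 5) (nat_lit 57) (nat_lit 5) (nat_lit 372) (nat_lit 303) (nat_lit 105)))))) (XT.nd (nat_lit 546) (nat_lit 532) (nat_lit 0) (XT.nd (nat_lit 234) (nat_lit 456) (nat_lit 0) (XT.nd (nat_lit 78) (nat_lit 228) (nat_lit 0) (XT.lf (nat_lit 0) (nat_lit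 15674982890) (nat_lit 228) (nat_lit 10513291277) (nat_lit 76) (nat_lit 25534744699) (nat_lit 56) (nat_lit 5) (nat_lit 59) (nat_lit 5) (nat_lit 57) (nat_lit 5) (nat_lit 373) (nat_lit 303) (nat_lit 104)) (XT.nd (nat_lit 78) (nat_lit 0) (nat_lit 0) (XT.lf (nat_lit 0) (nat_lit 12754445440) (nat_lit 228) (nat_lit 12210647759) (nat_lit 304) (nat_lit 27869396151) (nat_lit 53) (nat_lit 5) (nat_lit 56) (nat_lit 5) (nat_lit 57) (nat_lit 5) (nat_lit 374) (nat_lit 303) (nat_lit 103)) (XT.lf (nat_lit 0) (nat_lit 34659779483) (nat_lit 304) (nat_lit 17066269393) (nat_lit 76) (nat_lit 2249480237) (nat_lit 53) (nat_lit 5) (nat_lit 57) (nat_lit 5) (nat_lit 54) (nat_lit 5) (nat_lit 375) (nat_lit 303) (nat_lit 102)))) (XT.nd (nat_lit 156) (nat_lit 304) (nat_lit 0) (XT.nd (nat_lit 78) (nat_lit 0) (nat_lit 0) (XT.lf (nat_lit 0) (nat_lit 6642950173) (nat_lit 152) (nat_lit 38184820258) (nat_lit 228) (nat_lit 10317557019)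 (nat_lit 51) (nat_lit 5) (nat_lit 53) (nat_lit 5) (nat_lit 54) (nat_lit 5) (nat_lit 376) (nat_lit 303) (nat_lit 101)) (XT.lf (nat_lit 0) (nat_lit 31409625810) (nat_lit 152) (nat_lit 24061253109) (nat_lit 228) (nat_lit 874239749) (nat_lit 51) (nat_lit 5) (nat_lit 53) (nat_lit 5) (nat_lit 54) (nat_lit 5) (nat_lit 377) (nat_lit 303) (nat_lit 100))) (XT.nd (nat_lit 78) (nat_lit 228) (nat_lit 0) (XT.lf (nat_lit 0) (nat_lit 8677420088) (nat_lit 228) (nat_lit 750297291) (nat_lit 76) (nat_lit 48150701059) (nat_lit 50) (nat_lit 5) (nat_lit 53) (nat_lit 5) (nat_lit 51) (nat_lit 5) (nat_lit 378) (nat_lit 303) (nat_lit 99)) (XT.lf (nat_lit 0) (nat_lit 18789334075) (nat_lit 304) (nat_lit 34269198247) (nat_lit 76) (nat_lit 5781188091) (nat_lit 47) (nat_lit 5) (nat_lit 51) (nat_lit 5) (nat_lit 48) (nat_lit 5) (nat_lit 379) (nat_lit 303) (nat_lit 98))))) (XT.nd (nat_lit 234) (nat_lit 380) (nat_lit 0) (XT.nd (nat_lit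 78) (nat_lit 152) (nat_lit 0) (XT.lf (nat_lit 0) (nat_lit 29303466576) (nat_lit 304) (nat_lit 9569219977) (nat_lit 76) (nat_lit 21263210187) (nat_lit 47) (nat_lit 5) (nat_lit 51) (nat_lit 5) (nat_lit 48) (nat_lit 5) (nat_lit 380) (nat_lit 303) (nat_lit 97)) (XT.nd (nat_lit 78) (nat_lit 0) (nat_lit 0) (XT.lf (nat_lit 0) (nat_lit 16184157545) (nat_lit 152) (nat_lit 24102365500) (nat_lit 228) (nat_lit 21179831402) (nat_lit 45) (nat_lit 5) (nat_lit 47) (nat_lit 5) (nat_lit 48) (nat_lit 5) (nat_lit 381) (nat_lit 303) (nat_lit 96)) (XT.lf (nat_lit 0) (nat_lit 42902918162) (nat_lit 152) (nat_lit 8790739257) (nat_lit 228) (nat_lit 11140231942) (nat_lit 45) (nat_lit 5) (nat_lit 47) (nat_lit 5) (nat_lit 48) (nat_lit 5) (nat_lit 382) (nat_lit 303) (nat_lit 95)))) (XT.nd (nat_lit 156) (nat_lit 152) (nat_lit 0) (XT.nd (nat_lit 78) (nat_lit 76) (nat_lit 0) (XT.lf (nat_lit 0) (nat_lit 6231973637) (nat_lit 152)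 (nat_lit 57336038970) (nat_lit 228) (nat_lit 670688541) (nat_lit 43) (nat_lit 5) (nat_lit 45) (nat_lit 5) (nat_lit 46) (nat_lit 5) (nat_lit 383) (nat_lit 303) (nat_lit 94)) (XT.lf (nat_lit 0) (nat_lit 10203903661) (nat_lit 228) (nat_lit 32280824264) (nat_lit 76) (nat_lit 23189364906) (nat_lit 42) (nat_lit 5) (nat_lit 45) (nat_lit 5) (nat_lit 43) (nat_lit 5) (nat_lit 384) (nat_lit 303) (nat_lit 93))) (XT.nd (nat_lit 78) (nat_lit 152) (nat_lit 0) (XT.lf (nat_lit 0) (nat_lit 21389320392) (nat_lit 228) (nat_lit 5793022816) (nat_lit 76) (nat_lit 39970062778) (nat_lit 42) (nat_lit 5) (nat_lit 45) (nat_lit 5) (nat_lit 43) (nat_lit 5) (nat_lit 385) (nat_lit 303) (nat_lit 92)) (XT.lf (nat_lit 0) (nat_lit 21913887457) (nat_lit 152) (nat_lit 11205185100) (nat_lit 228) (nat_lit 35549733705) (nat_lit 40) (nat_lit 5) (nat_lit 42) (nat_lit 5) (nat_lit 43) (nat_lit 5) (nat_lit 386) (nat_lit 303) (nat_lit 91))))))))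
noncomputable def xc202 : XT := (XT.nd (nat_lit 35256) (nat_lit 0) (nat_lit 6308) (XT.nd (nat_lit 34164) (nat_lit 0) (nat_lit 12616) (XT.nd (nat_lit 468) (nat_lit 456) (nat_lit 0) (XT.nd (nat_lit 234) (nat_lit 228) (nat_lit 0) (XT.nd (nat_lit 78) (nat_lit 152) (nat_lit 0) (XT.lf (nat_lit 0) (nat_lit 45308409093) (nat_lit 228) (nat_lit 19712402646) (nat_lit 76) (nat_lit 5206656941) (nat_lit 40) (nat_lit 5) (nat_lit 43) (nat_lit 5) (nat_lit 41) (nat_lit 5) (nat_lit 387) (nat_lit 303) (nat_lit 90)) (XT.nd (nat_lit 78) (nat_lit 0) (nat_lit 0) (XT.lf (nat_lit 0) (nat_lit 8187141568) (nat_lit 152) (nat_lit 49864116545) (nat_lit 228) (nat_lit 13775998748) (nat_lit 38) (nat_lit 5) (nat_lit 40) (nat_lit 5) (nat_lit 41) (nat_lit 5) (nat_lit 388) (nat_lit 303) (nat_lit 89)) (XT.lf (nat_lit 0) (nat_lit 37324721469) (nat_lit 152) (nat_lit 34048941432) (nat_lit 228) (nat_lit 2095458513) (nat_lit 38) (nat_lit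 5) (nat_lit 40) (nat_lit 5) (nat_lit 41) (nat_lit 5) (nat_lit 389) (nat_lit 303) (nat_lit 88)))) (XT.nd (nat_lit 78) (nat_lit 152) (nat_lit 0) (XT.lf (nat_lit 0) (nat_lit 9739868320) (nat_lit 228) (nat_lit 7922302038) (nat_lit 76) (nat_lit 57495259721) (nat_lit 37) (nat_lit 5) (nat_lit 40) (nat_lit 5) (nat_lit 38) (nat_lit 5) (nat_lit 390) (nat_lit 303) (nat_lit 87)) (XT.nd (nat_lit 78) (nat_lit 0) (nat_lit 0) (XT.lf (nat_lit 0) (nat_lit 21543201204) (nat_lit 152) (nat_lit 550322322) (nat_lit 228) (nat_lit 54796081273) (nat_lit 35) (nat_lit 5) (nat_lit 37) (nat_lit 5) (nat_lit 38) (nat_lit 5) (nat_lit 391) (nat_lit 303) (nat_lit 86)) (XT.lf (nat_lit 0) (nat_lit 35061023730) (nat_lit 228) (nat_lit 26784109325) (nat_lit 76) (nat_lit 16821315391) (nat_lit 35) (nat_lit 5) (nat_lit 38) (nat_lit 5) (nat_lit 36) (nat_lit 5) (nat_lit 392) (nat_lit 303) (nat_lit 85))))) (XT.nd (nat_lit 234) (nat_lit 304)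 (nat_lit 0) (XT.nd (nat_lit 78) (nat_lit 0) (nat_lit 0) (XT.lf (nat_lit 0) (nat_lit 2679060592) (nat_lit 152) (nat_lit 45768048437) (nat_lit 228) (nat_lit 32048602291) (nat_lit 33) (nat_lit 5) (nat_lit 35) (nat_lit 5) (nat_lit 36) (nat_lit 5) (nat_lit 393) (nat_lit 303) (nat_lit 84)) (XT.nd (nat_lit 78) (nat_lit 0) (nat_lit 0) (XT.lf (nat_lit 0) (nat_lit 33572378695) (nat_lit 152) (nat_lit 28931244706) (nat_lit 228) (nat_lit 19868163985) (nat_lit 33) (nat_lit 5) (nat_lit 35) (nat_lit 5) (nat_lit 36) (nat_lit 5) (nat_lit 394) (nat_lit 303) (nat_lit 83)) (XT.lf (nat_lit 0) (nat_lit 65389782851) (nat_lit 152) (nat_lit 11590477079) (nat_lit 228) (nat_lit 7323933683) (nat_lit 33) (nat_lit 5) (nat_lit 35) (nat_lit 5) (nat_lit 36) (nat_lit 5) (nat_lit 395) (nat_lit 303) (nat_lit 82)))) (XT.nd (nat_lit 156) (nat_lit 152) (nat_lit 0) (XT.nd (nat_lit 78) (nat_lit 0) (nat_lit 0) (XT.lf (nat_lit 0) (nat_lit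 5663605257) (nat_lit 152) (nat_lit 74305746937) (nat_lit 76) (nat_lit 6318320768) (nat_lit 31) (nat_lit 5) (nat_lit 33) (nat_lit 5) (nat_lit 32) (nat_lit 5) (nat_lit 396) (nat_lit 303) (nat_lit 81)) (XT.lf (nat_lit 0) (nat_lit 19199678909) (nat_lit 152) (nat_lit 44323884691) (nat_lit 76) (nat_lit 24795734919) (nat_lit 31) (nat_lit 5) (nat_lit 33) (nat_lit 5) (nat_lit 32) (nat_lit 5) (nat_lit 397) (nat_lit 303) (nat_lit 80))) (XT.nd (nat_lit 78) (nat_lit 152) (nat_lit 0) (XT.lf (nat_lit 0) (nat_lit 33140345084) (nat_lit 152) (nat_lit 13445163936) (nat_lit 76) (nat_lit 43826409116) (nat_lit 31) (nat_lit 5) (nat_lit 33) (nat_lit 5) (nat_lit 32) (nat_lit 5) (nat_lit 398) (nat_lit 303) (nat_lit 79)) (XT.lf (nat_lit 0) (nat_lit 18722744922) (nat_lit 152) (nat_lit 28955014505) (nat_lit 228) (nat_lit 44884201658) (nat_lit 29) (nat_lit 5) (nat_lit 31) (nat_lit 5) (nat_lit 32) (nat_lit 5) (nat_lit 399) (nat_lit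 303) (nat_lit 78)))))) (XT.nd (nat_lit 546) (nat_lit 0) (nat_lit 152) (XT.nd (nat_lit 234) (nat_lit 0) (nat_lit 76) (XT.nd (nat_lit 78) (nat_lit 0) (nat_lit 0) (XT.lf (nat_lit 0) (nat_lit 608048163) (nat_lit 0) (nat_lit 608048163) (nat_lit 1140) (nat_lit 6387429143) (nat_lit 195) (nat_lit 5) (nat_lit 195) (nat_lit 3) (nat_lit 210) (nat_lit 3) (nat_lit 304) (nat_lit 304) (nat_lit 172)) (XT.nd (nat_lit 78) (nat_lit 0) (nat_lit 0) (XT.lf (nat_lit 0) (nat_lit 2799376669) (nat_lit 1140) (nat_lit 7141067268) (nat_lit 1216) (nat_lit 5484466401) (nat_lit 195) (nat_lit 5) (nat_lit 210) (nat_lit 3) (nat_lit 211) (nat_lit 5) (nat_lit 305) (nat_lit 304) (nat_lit 171)) (XT.lf (nat_lit 0) (nat_lit 3178860833) (nat_lit 1140) (nat_lit 103516675) (nat_lit 1216) (nat_lit 12366902167) (nat_lit 195) (nat_lit 5) (nat_lit 210) (nat_lit 3) (nat_lit 211) (nat_lit 5) (nat_lit 306) (nat_lit 304) (nat_lit 170)))) (XT.nd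 (nat_lit 156) (nat_lit 0) (nat_lit 76) (XT.nd (nat_lit 78) (nat_lit 0) (nat_lit 0) (XT.lf (nat_lit 0) (nat_lit 3664390899) (nat_lit 1140) (nat_lit 8632087296) (nat_lit 1216) (nat_lit 3581074384) (nat_lit 196) (nat_lit 5) (nat_lit 211) (nat_lit 5) (nat_lit 212) (nat_lit 5) (nat_lit 307) (nat_lit 304) (nat_lit 169)) (XT.lf (nat_lit 0) (nat_lit 4187893731) (nat_lit 1140) (nat_lit 1334043881) (nat_lit 1216) (nat_lit 10590045820) (nat_lit 196) (nat_lit 5) (nat_lit 211) (nat_lit 5) (nat_lit 212) (nat_lit 5) (nat_lit 308) (nat_lit 304) (nat_lit 168))) (XT.nd (nat_lit 78) (nat_lit 0) (nat_lit 0) (XT.lf (nat_lit 0) (nat_lit 4792443611) (nat_lit 1140) (nat_lit 10066450443) (nat_lit 1216) (nat_lit 1492604516) (nat_lit 197) (nat_lit 5) (nat_lit 212) (nat_lit 5) (nat_lit 213) (nat_lit 5) (nat_lit 309) (nat_lit 304) (nat_lit 167)) (XT.lf (nat_lit 0) (nat_lit 5473825021) (nat_lit 1140) (nat_lit 2498581024) (nat_lit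 1216) (nat_lit 8624043548) (nat_lit 197) (nat_lit 5) (nat_lit 212) (nat_lit 5) (nat_lit 213) (nat_lit 5) (nat_lit 310) (nat_lit 304) (nat_lit 166))))) (XT.nd (nat_lit 234) (nat_lit 0) (nat_lit 152) (XT.nd (nat_lit 78) (nat_lit 0) (nat_lit 76) (XT.lf (nat_lit 76) (nat_lit 5395751471) (nat_lit 0) (nat_lit 822460536) (nat_lit 1216) (nat_lit 10629271168) (nat_lit 198) (nat_lit 5) (nat_lit 197) (nat_lit 5) (nat_lit 213) (nat_lit 5) (nat_lit 311) (nat_lit 304) (nat_lit 165)) (XT.nd (nat_lit 78) (nat_lit 0) (nat_lit 0) (XT.lf (nat_lit 0) (nat_lit 7064240299) (nat_lit 1140) (nat_lit 3596414680) (nat_lit 1216) (nat_lit 6443024127) (nat_lit 198) (nat_lit 5) (nat_lit 213) (nat_lit 5) (nat_lit 214) (nat_lit 5) (nat_lit 312) (nat_lit 304) (nat_lit 164)) (XT.lf (nat_lit 76) (nat_lit 4569646332) (nat_lit 0) (nat_lit 3409279869) (nat_lit 1216) (nat_lit 9387346736) (nat_lit 199) (nat_lit 5) (nat_lit 198) (nat_lit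 5) (nat_lit 214) (nat_lit 5) (nat_lit 313) (nat_lit 304) (nat_lit 163)))) (XT.nd (nat_lit 156) (nat_lit 0) (nat_lit 76) (XT.nd (nat_lit 78) (nat_lit 0) (nat_lit 0) (XT.lf (nat_lit 0) (nat_lit 8988185621) (nat_lit 1140) (nat_lit 4626804414) (nat_lit 1216) (nat_lit 4019750582) (nat_lit 199) (nat_lit 5) (nat_lit 214) (nat_lit 5) (nat_lit 215) (nat_lit 5) (nat_lit 314) (nat_lit 304) (nat_lit 162)) (XT.lf (nat_lit 76) (nat_lit 3822958635) (nat_lit 0) (nat_lit 6266950500) (nat_lit 1216) (nat_lit 7819497336) (nat_lit 200) (nat_lit 5) (nat_lit 199) (nat_lit 5) (nat_lit 215) (nat_lit 5) (nat_lit 315) (nat_lit 304) (nat_lit 161))) (XT.nd (nat_lit 78) (nat_lit 0) (nat_lit 0) (XT.lf (nat_lit 0) (nat_lit 11276268396) (nat_lit 1140) (nat_lit 5589038760) (nat_lit 1216) (nat_lit 1325467068) (nat_lit 200) (nat_lit 5) (nat_lit 215) (nat_lit 5) (nat_lit 216) (nat_lit 5) (nat_lit 316) (nat_lit 304) (nat_lit 160))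 (XT.lf (nat_lit 76) (nat_lit 3156811373) (nat_lit 0) (nat_lit 9425926224) (nat_lit 1216) (nat_lit 5895319012) (nat_lit 201) (nat_lit 5) (nat_lit 200) (nat_lit 5) (nat_lit 216) (nat_lit 5) (nat_lit 317) (nat_lit 304) (nat_lit 159))))))) (XT.nd (nat_lit 1092) (nat_lit 2812) (nat_lit 0) (XT.nd (nat_lit 546) (nat_lit 2128) (nat_lit 0) (XT.nd (nat_lit 234) (nat_lit 1748) (nat_lit 0) (XT.nd (nat_lit 78) (nat_lit 0) (nat_lit 76) (XT.lf (nat_lit 76) (nat_lit 12273633016) (nat_lit 0) (nat_lit 1703503083) (nat_lit 1216) (nat_lit 4795368214) (nat_lit 201) (nat_lit 5) (nat_lit 200) (nat_lit 5) (nat_lit 216) (nat_lit 5) (nat_lit 318) (nat_lit 304) (nat_lit 158)) (XT.nd (nat_lit 78) (nat_lit 0) (nat_lit 0) (XT.lf (nat_lit 76) (nat_lit 2572233920) (nat_lit 0) (nat_lit 12918480437) (nat_lit 1216) (nat_lit 3582759304) (nat_lit 202) (nat_lit 5) (nat_lit 201) (nat_lit 5) (nat_lit 217) (nat_lit 5) (nat_lit 319) (nat_lit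 304) (nat_lit 157)) (XT.lf (nat_lit 76) (nat_lit 12025501085) (nat_lit 0) (nat_lit 5099222921) (nat_lit 1216) (nat_lit 2256505756) (nat_lit 202) (nat_lit 5) (nat_lit 201) (nat_lit 5) (nat_lit 217) (nat_lit 5) (nat_lit 320) (nat_lit 304) (nat_lit 156)))) (XT.nd (nat_lit 156) (nat_lit 684) (nat_lit 0) (XT.nd (nat_lit 78) (nat_lit 76) (nat_lit 0) (XT.lf (nat_lit 0) (nat_lit 2070092830) (nat_lit 1140) (nat_lit 16778883787) (nat_lit 1216) (nat_lit 848013398) (nat_lit 187) (nat_lit 5) (nat_lit 202) (nat_lit 5) (nat_lit 203) (nat_lit 5) (nat_lit 321) (nat_lit 304) (nat_lit 155)) (XT.lf (nat_lit 0) (nat_lit 709467796) (nat_lit 1216) (nat_lit 8153673268) (nat_lit 76) (nat_lit 11155361012) (nat_lit 186) (nat_lit 5) (nat_lit 202) (nat_lit 5) (nat_lit 187) (nat_lit 5) (nat_lit 322) (nat_lit 304) (nat_lit 154))) (XT.nd (nat_lit 78) (nat_lit 0) (nat_lit 0) (XT.lf (nat_lit 0) (nat_lit 1621025845) (nat_lit 684)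 (nat_lit 684384041) (nat_lit 760) (nat_lit 18043741763) (nat_lit 177) (nat_lit 5) (nat_lit 186) (nat_lit 5) (nat_lit 187) (nat_lit 5) (nat_lit 323) (nat_lit 304) (nat_lit 153)) (XT.lf (nat_lit 0) (nat_lit 4100127753) (nat_lit 760) (nat_lit 8912470030) (nat_lit 76) (nat_lit 7672603244) (nat_lit 177) (nat_lit 5) (nat_lit 187) (nat_lit 5) (nat_lit 178) (nat_lit 5) (nat_lit 324) (nat_lit 304) (nat_lit 152))))) (XT.nd (nat_lit 234) (nat_lit 988) (nat_lit 0) (XT.nd (nat_lit 78) (nat_lit 532) (nat_lit 0) (XT.lf (nat_lit 0) (nat_lit 1208526746) (nat_lit 608) (nat_lit 4752094475) (nat_lit 684) (nat_lit 15070359672) (nat_lit 169) (nat_lit 5) (nat_lit 177) (nat_lit 5) (nat_lit 178) (nat_lit 5) (nat_lit 325) (nat_lit 304) (nat_lit 151)) (XT.nd (nat_lit 78) (nat_lit 532) (nat_lit 0) (XT.lf (nat_lit 0) (nat_lit 7997603016) (nat_lit 684) (nat_lit 9611660163) (nat_lit 76) (nat_lit 3774257596) (nat_lit 169) (nat_lit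 5) (nat_lit 178) (nat_lit 5) (nat_lit 170) (nat_lit 5) (nat_lit 326) (nat_lit 304) (nat_lit 150)) (XT.lf (nat_lit 0) (nat_lit 869472685) (nat_lit 532) (nat_lit 9275490945) (nat_lit 608) (nat_lit 11600201768) (nat_lit 162) (nat_lit 5) (nat_lit 169) (nat_lit 5) (nat_lit 170) (nat_lit 5) (nat_lit 327) (nat_lit 304) (nat_lit 149)))) (XT.nd (nat_lit 156) (nat_lit 456) (nat_lit 0) (XT.nd (nat_lit 78) (nat_lit 532) (nat_lit 0) (XT.lf (nat_lit 0) (nat_lit 11856225925) (nat_lit 532) (nat_lit 591561719) (nat_lit 608) (nat_lit 9667146873) (nat_lit 162) (nat_lit 5) (nat_lit 169) (nat_lit 5) (nat_lit 170) (nat_lit 5) (nat_lit 328) (nat_lit 304) (nat_lit 148)) (XT.lf (nat_lit 0) (nat_lit 602390711) (nat_lit 532) (nat_lit 14297549767) (nat_lit 608) (nat_lit 7593455154) (nat_lit 155) (nat_lit 5) (nat_lit 162) (nat_lit 5) (nat_lit 163) (nat_lit 5) (nat_lit 329) (nat_lit 304) (nat_lit 147))) (XT.nd (nat_lit 78)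 (nat_lit 456) (nat_lit 0) (XT.lf (nat_lit 0) (nat_lit 11987844152) (nat_lit 532) (nat_lit 5541481061) (nat_lit 608) (nat_lit 5350781411) (nat_lit 155) (nat_lit 5) (nat_lit 162) (nat_lit 5) (nat_lit 163) (nat_lit 5) (nat_lit 330) (nat_lit 304) (nat_lit 146)) (XT.lf (nat_lit 0) (nat_lit 405120204) (nat_lit 456) (nat_lit 19864232108) (nat_lit 532) (nat_lit 3008119696) (nat_lit 149) (nat_lit 5) (nat_lit 155) (nat_lit 5) (nat_lit 156) (nat_lit 5) (nat_lit 331) (nat_lit 304) (nat_lit 145)))))) (XT.nd (nat_lit 546) (nat_lit 1292) (nat_lit 0) (XT.nd (nat_lit 234) (nat_lit 912) (nat_lit 0) (XT.nd (nat_lit 78) (nat_lit 608) (nat_lit 0) (XT.lf (nat_lit 0) (nat_lit 12203002095) (nat_lit 456) (nat_lit 11047444477) (nat_lit 532) (nat_lit 431551509) (nat_lit 149) (nat_lit 5) (nat_lit 155) (nat_lit 5) (nat_lit 156) (nat_lit 5) (nat_lit 332) (nat_lit 304) (nat_lit 144)) (XT.nd (nat_lit 78) (nat_lit 0) (nat_lit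 0) (XT.lf (nat_lit 0) (nat_lit 233668540) (nat_lit 532) (nat_lit 1942174563) (nat_lit 608) (nat_lit 21922274511) (nat_lit 141) (nat_lit 5) (nat_lit 148) (nat_lit 5) (nat_lit 149) (nat_lit 5) (nat_lit 333) (nat_lit 304) (nat_lit 143)) (XT.lf (nat_lit 0) (nat_lit 5036077229) (nat_lit 608) (nat_lit 12072917082) (nat_lit 76) (nat_lit 7412104728) (nat_lit 141) (nat_lit 5) (nat_lit 149) (nat_lit 5) (nat_lit 142) (nat_lit 5) (nat_lit 334) (nat_lit 304) (nat_lit 142)))) (XT.nd (nat_lit 156) (nat_lit 456) (nat_lit 0) (XT.nd (nat_lit 78) (nat_lit 0) (nat_lit 0) (XT.lf (nat_lit 0) (nat_lit 48452935) (nat_lit 456) (nat_lit 7948260248) (nat_lit 532) (nat_lit 16959623956) (nat_lit 135) (nat_lit 5) (nat_lit 141) (nat_lit 5) (nat_lit 142) (nat_lit 5) (nat_lit 335) (nat_lit 304) (nat_lit 141)) (XT.lf (nat_lit 0) (nat_lit 11178574067) (nat_lit 532) (nat_lit 12641250351) (nat_lit 76) (nat_lit 1580840720) (nat_lit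 135) (nat_lit 5) (nat_lit 142) (nat_lit 5) (nat_lit 136) (nat_lit 5) (nat_lit 336) (nat_lit 304) (nat_lit 140))) (XT.nd (nat_lit 78) (nat_lit 456) (nat_lit 0) (XT.lf (nat_lit 0) (nat_lit 14529721573) (nat_lit 532) (nat_lit 90865083) (nat_lit 76) (nat_lit 11235526185) (nat_lit 135) (nat_lit 5) (nat_lit 142) (nat_lit 5) (nat_lit 136) (nat_lit 5) (nat_lit 337) (nat_lit 304) (nat_lit 139)) (XT.lf (nat_lit 0) (nat_lit 13085996419) (nat_lit 456) (nat_lit 5016474532) (nat_lit 532) (nat_lit 8219125648) (nat_lit 129) (nat_lit 5) (nat_lit 135) (nat_lit 5) (nat_lit 136) (nat_lit 5) (nat_lit 338) (nat_lit 304) (nat_lit 138))))) (XT.nd (nat_lit 234) (nat_lit 836) (nat_lit 0) (XT.nd (nat_lit 78) (nat_lit 456) (nat_lit 0) (XT.lf (nat_lit 0) (nat_lit 21825554624) (nat_lit 532) (nat_lit 193343101) (nat_lit 76) (nat_lit 4780857102) (nat_lit 129) (nat_lit 5) (nat_lit 136) (nat_lit 5) (nat_lit 130) (nat_lit 5) (nat_lit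 339) (nat_lit 304) (nat_lit 137)) (XT.nd (nat_lit 78) (nat_lit 76) (nat_lit 0) (XT.lf (nat_lit 0) (nat_lit 13447610093) (nat_lit 380) (nat_lit 12387147056) (nat_lit 456) (nat_lit 1452272243) (nat_lit 124) (nat_lit 5) (nat_lit 129) (nat_lit 5) (nat_lit 130) (nat_lit 5) (nat_lit 340) (nat_lit 304) (nat_lit 136)) (XT.lf (nat_lit 0) (nat_lit 2130361408) (nat_lit 456) (nat_lit 313394111) (nat_lit 76) (nat_lit 25344618610) (nat_lit 123) (nat_lit 5) (nat_lit 129) (nat_lit 5) (nat_lit 124) (nat_lit 5) (nat_lit 341) (nat_lit 304) (nat_lit 135)))) (XT.nd (nat_lit 156) (nat_lit 380) (nat_lit 0) (XT.nd (nat_lit 78) (nat_lit 0) (nat_lit 0) (XT.lf (nat_lit 0) (nat_lit 5996674141) (nat_lit 532) (nat_lit 14507398871) (nat_lit 76) (nat_lit 7794097158) (nat_lit 117) (nat_lit 5) (nat_lit 124) (nat_lit 5) (nat_lit 118) (nat_lit 5) (nat_lit 342) (nat_lit 304) (nat_lit 134)) (XT.lf (nat_lit 0) (nat_lit 10002091153)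 (nat_lit 532) (nat_lit 528178575) (nat_lit 76) (nat_lit 18292300809) (nat_lit 117) (nat_lit 5) (nat_lit 124) (nat_lit 5) (nat_lit 118) (nat_lit 5) (nat_lit 343) (nat_lit 304) (nat_lit 133))) (XT.nd (nat_lit 78) (nat_lit 0) (nat_lit 0) (XT.lf (nat_lit 0) (nat_lit 14141246107) (nat_lit 380) (nat_lit 118206740) (nat_lit 456) (nat_lit 15099300382) (nat_lit 112) (nat_lit 5) (nat_lit 117) (nat_lit 5) (nat_lit 118) (nat_lit 5) (nat_lit 344) (nat_lit 304) (nat_lit 132)) (XT.lf (nat_lit 0) (nat_lit 18747785796) (nat_lit 456) (nat_lit 756472234) (nat_lit 76) (nat_lit 10403669530) (nat_lit 112) (nat_lit 5) (nat_lit 118) (nat_lit 5) (nat_lit 113) (nat_lit 5) (nat_lit 345) (nat_lit 304) (nat_lit 131))))))))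
noncomputable def xc203 : XT := (XT.nd (nat_lit 2184) (nat_lit 1900) (nat_lit 0) (XT.nd (nat_lit 1092) (nat_lit 1824) (nat_lit 0) (XT.nd (nat_lit 546) (nat_lit 988) (nat_lit 0) (XT.nd (nat_lit 234) (nat_lit 684) (nat_lit 0) (XT.nd (nat_lit 78) (nat_lit 380) (nat_lit 0) (XT.lf (nat_lit 0) (nat_lit 14413447392) (nat_lit 380) (nat_lit 9093072258) (nat_lit 456) (nat_lit 6962988503) (nat_lit 107) (nat_lit 5) (nat_lit 112) (nat_lit 5) (nat_lit 113) (nat_lit 5) (nat_lit 346) (nat_lit 304) (nat_lit 130)) (XT.nd (nat_lit 78) (nat_lit 380) (nat_lit 0) (XT.lf (nat_lit 0) (nat_lit 28427489914) (nat_lit 456) (nat_lit 1014578956) (nat_lit 76) (nat_lit 1605286522) (nat_lit 107) (nat_lit 5) (nat_lit 113) (nat_lit 5) (nat_lit 108) (nat_lit 5) (nat_lit 347) (nat_lit 304) (nat_lit 129)) (XT.lf (nat_lit 0) (nat_lit 2046871275) (nat_lit 380) (nat_lit 16986367908) (nat_lit 76) (nat_lit 12601882914) (nat_lit 102) (nat_lit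 5) (nat_lit 107) (nat_lit 5) (nat_lit 103) (nat_lit 5) (nat_lit 348) (nat_lit 304) (nat_lit 128)))) (XT.nd (nat_lit 156) (nat_lit 304) (nat_lit 0) (XT.nd (nat_lit 78) (nat_lit 380) (nat_lit 0) (XT.lf (nat_lit 0) (nat_lit 6807524484) (nat_lit 380) (nat_lit 1468446353) (nat_lit 76) (nat_lit 23963578823) (nat_lit 102) (nat_lit 5) (nat_lit 107) (nat_lit 5) (nat_lit 103) (nat_lit 5) (nat_lit 349) (nat_lit 304) (nat_lit 127)) (XT.lf (nat_lit 0) (nat_lit 11877939486) (nat_lit 456) (nat_lit 18087344140) (nat_lit 76) (nat_lit 2891821231) (nat_lit 97) (nat_lit 5) (nat_lit 103) (nat_lit 5) (nat_lit 98) (nat_lit 5) (nat_lit 350) (nat_lit 304) (nat_lit 126))) (XT.nd (nat_lit 78) (nat_lit 304) (nat_lit 0) (XT.lf (nat_lit 0) (nat_lit 17193766260) (nat_lit 456) (nat_lit 2054497160) (nat_lit 76) (nat_lit 14242127293) (nat_lit 97) (nat_lit 5) (nat_lit 103) (nat_lit 5) (nat_lit 98) (nat_lit 5) (nat_lit 351) (nat_lit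 304) (nat_lit 125)) (XT.lf (nat_lit 0) (nat_lit 14742268339) (nat_lit 304) (nat_lit 8065000298) (nat_lit 380) (nat_lit 11331263378) (nat_lit 93) (nat_lit 5) (nat_lit 97) (nat_lit 5) (nat_lit 98) (nat_lit 5) (nat_lit 352) (nat_lit 304) (nat_lit 124))))) (XT.nd (nat_lit 234) (nat_lit 608) (nat_lit 0) (XT.nd (nat_lit 78) (nat_lit 380) (nat_lit 0) (XT.lf (nat_lit 0) (nat_lit 28639861844) (nat_lit 380) (nat_lit 2758637906) (nat_lit 76) (nat_lit 3406100047) (nat_lit 93) (nat_lit 5) (nat_lit 98) (nat_lit 5) (nat_lit 94) (nat_lit 5) (nat_lit 353) (nat_lit 304) (nat_lit 123)) (XT.nd (nat_lit 78) (nat_lit 76) (nat_lit 0) (XT.lf (nat_lit 0) (nat_lit 14578085968) (nat_lit 304) (nat_lit 20285967081) (nat_lit 380) (nat_lit 620100688) (nat_lit 89) (nat_lit 5) (nat_lit 93) (nat_lit 5) (nat_lit 94) (nat_lit 5) (nat_lit 354) (nat_lit 304) (nat_lit 122)) (XT.lf (nat_lit 0) (nat_lit 5016320614) (nat_lit 380) (nat_lit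 3745683808) (nat_lit 76) (nat_lit 27419880760) (nat_lit 88) (nat_lit 5) (nat_lit 93) (nat_lit 5) (nat_lit 89) (nat_lit 5) (nat_lit 355) (nat_lit 304) (nat_lit 121)))) (XT.nd (nat_lit 156) (nat_lit 304) (nat_lit 0) (XT.nd (nat_lit 78) (nat_lit 0) (nat_lit 0) (XT.lf (nat_lit 0) (nat_lit 10973853746) (nat_lit 380) (nat_lit 22731796392) (nat_lit 76) (nat_lit 3189782263) (nat_lit 84) (nat_lit 5) (nat_lit 89) (nat_lit 5) (nat_lit 85) (nat_lit 5) (nat_lit 356) (nat_lit 304) (nat_lit 120)) (XT.lf (nat_lit 0) (nat_lit 17231853997) (nat_lit 380) (nat_lit 5033939074) (nat_lit 76) (nat_lit 15360943160) (nat_lit 84) (nat_lit 5) (nat_lit 89) (nat_lit 5) (nat_lit 85) (nat_lit 5) (nat_lit 357) (nat_lit 304) (nat_lit 119))) (XT.nd (nat_lit 78) (nat_lit 0) (nat_lit 0) (XT.lf (nat_lit 0) (nat_lit 13452923311) (nat_lit 304) (nat_lit 10350872214) (nat_lit 380) (nat_lit 14572399966) (nat_lit 80) (nat_lit 5) (nat_lit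 84) (nat_lit 5) (nat_lit 85) (nat_lit 5) (nat_lit 358) (nat_lit 304) (nat_lit 118)) (XT.lf (nat_lit 0) (nat_lit 30639621281) (nat_lit 380) (nat_lit 6572488612) (nat_lit 76) (nat_lit 1934029143) (nat_lit 80) (nat_lit 5) (nat_lit 85) (nat_lit 5) (nat_lit 81) (nat_lit 5) (nat_lit 359) (nat_lit 304) (nat_lit 117)))))) (XT.nd (nat_lit 546) (nat_lit 760) (nat_lit 0) (XT.nd (nat_lit 234) (nat_lit 456) (nat_lit 0) (XT.nd (nat_lit 78) (nat_lit 380) (nat_lit 0) (XT.lf (nat_lit 0) (nat_lit 12465223007) (nat_lit 228) (nat_lit 25434614940) (nat_lit 304) (nat_lit 2032765676) (nat_lit 77) (nat_lit 5) (nat_lit 80) (nat_lit 5) (nat_lit 81) (nat_lit 5) (nat_lit 360) (nat_lit 304) (nat_lit 116)) (XT.nd (nat_lit 78) (nat_lit 304) (nat_lit 0) (XT.lf (nat_lit 0) (nat_lit 4608799224) (nat_lit 304) (nat_lit 8581460640) (nat_lit 76) (nat_lit 27549146196) (nat_lit 76) (nat_lit 5) (nat_lit 80) (nat_lit 5) (nat_lit 77) (nat_lit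 5) (nat_lit 361) (nat_lit 304) (nat_lit 115)) (XT.lf (nat_lit 0) (nat_lit 11062536169) (nat_lit 304) (nat_lit 449668206) (nat_lit 380) (nat_lit 30054502936) (nat_lit 72) (nat_lit 5) (nat_lit 76) (nat_lit 5) (nat_lit 77) (nat_lit 5) (nat_lit 362) (nat_lit 304) (nat_lit 114)))) (XT.nd (nat_lit 156) (nat_lit 228) (nat_lit 0) (XT.nd (nat_lit 78) (nat_lit 228) (nat_lit 0) (XT.lf (nat_lit 0) (nat_lit 18829188326) (nat_lit 380) (nat_lit 11071420482) (nat_lit 76) (nat_lit 12512026465) (nat_lit 72) (nat_lit 5) (nat_lit 77) (nat_lit 5) (nat_lit 73) (nat_lit 5) (nat_lit 363) (nat_lit 304) (nat_lit 113)) (XT.lf (nat_lit 0) (nat_lit 9113546213) (nat_lit 228) (nat_lit 17341416754) (nat_lit 304) (nat_lit 16826301586) (nat_lit 69) (nat_lit 5) (nat_lit 72) (nat_lit 5) (nat_lit 73) (nat_lit 5) (nat_lit 364) (nat_lit 304) (nat_lit 112))) (XT.nd (nat_lit 78) (nat_lit 228) (nat_lit 0) (XT.lf (nat_lit 0) (nat_lit 30126903451)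 (nat_lit 228) (nat_lit 4291672396) (nat_lit 304) (nat_lit 9754106774) (nat_lit 69) (nat_lit 5) (nat_lit 72) (nat_lit 5) (nat_lit 73) (nat_lit 5) (nat_lit 365) (nat_lit 304) (nat_lit 111)) (XT.lf (nat_lit 0) (nat_lit 6718916661) (nat_lit 228) (nat_lit 36052050157) (nat_lit 304) (nat_lit 2315382127) (nat_lit 66) (nat_lit 5) (nat_lit 69) (nat_lit 5) (nat_lit 70) (nat_lit 5) (nat_lit 366) (nat_lit 304) (nat_lit 110))))) (XT.nd (nat_lit 234) (nat_lit 456) (nat_lit 0) (XT.nd (nat_lit 78) (nat_lit 228) (nat_lit 0) (XT.lf (nat_lit 0) (nat_lit 5425249110) (nat_lit 304) (nat_lit 17728057454) (nat_lit 76) (nat_lit 22867086346) (nat_lit 65) (nat_lit 5) (nat_lit 69) (nat_lit 5) (nat_lit 66) (nat_lit 5) (nat_lit 367) (nat_lit 304) (nat_lit 109)) (XT.nd (nat_lit 78) (nat_lit 0) (nat_lit 0) (XT.lf (nat_lit 0) (nat_lit 3573346269) (nat_lit 228) (nat_lit 9809986160) (nat_lit 304) (nat_lit 33597486581) (nat_lit 62)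 (nat_lit 5) (nat_lit 65) (nat_lit 5) (nat_lit 66) (nat_lit 5) (nat_lit 368) (nat_lit 304) (nat_lit 108)) (XT.lf (nat_lit 0) (nat_lit 21796206897) (nat_lit 304) (nat_lit 22131054855) (nat_lit 76) (nat_lit 4036316284) (nat_lit 62) (nat_lit 5) (nat_lit 66) (nat_lit 5) (nat_lit 63) (nat_lit 5) (nat_lit 369) (nat_lit 304) (nat_lit 107)))) (XT.nd (nat_lit 156) (nat_lit 228) (nat_lit 0) (XT.nd (nat_lit 78) (nat_lit 228) (nat_lit 0) (XT.lf (nat_lit 0) (nat_lit 30556115664) (nat_lit 304) (nat_lit 317339480) (nat_lit 76) (nat_lit 18099526803) (nat_lit 62) (nat_lit 5) (nat_lit 66) (nat_lit 5) (nat_lit 63) (nat_lit 5) (nat_lit 370) (nat_lit 304) (nat_lit 106)) (XT.lf (nat_lit 0) (nat_lit 22587802889) (nat_lit 228) (nat_lit 17205738320) (nat_lit 304) (nat_lit 10212686692) (nat_lit 59) (nat_lit 5) (nat_lit 62) (nat_lit 5) (nat_lit 63) (nat_lit 5) (nat_lit 371) (nat_lit 304) (nat_lit 105))) (XT.nd (nat_lit 78)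 (nat_lit 228) (nat_lit 0) (XT.lf (nat_lit 0) (nat_lit 46182887625) (nat_lit 228) (nat_lit 3126032554) (nat_lit 304) (nat_lit 1761527604) (nat_lit 59) (nat_lit 5) (nat_lit 62) (nat_lit 5) (nat_lit 63) (nat_lit 5) (nat_lit 372) (nat_lit 304) (nat_lit 104)) (XT.lf (nat_lit 0) (nat_lit 7096034395) (nat_lit 228) (nat_lit 33659049381) (nat_lit 76) (nat_lit 11400858979) (nat_lit 56) (nat_lit 5) (nat_lit 59) (nat_lit 5) (nat_lit 57) (nat_lit 5) (nat_lit 373) (nat_lit 304) (nat_lit 103))))))) (XT.nd (nat_lit 1092) (nat_lit 684) (nat_lit 0) (XT.nd (nat_lit 546) (nat_lit 532) (nat_lit 0) (XT.nd (nat_lit 234) (nat_lit 456) (nat_lit 0) (XT.nd (nat_lit 78) (nat_lit 228) (nat_lit 0) (XT.lf (nat_lit 0) (nat_lit 16262403916) (nat_lit 228) (nat_lit 10642009735) (nat_lit 76) (nat_lit 26366712474) (nat_lit 56) (nat_lit 5) (nat_lit 59) (nat_lit 5) (nat_lit 57) (nat_lit 5) (nat_lit 374) (nat_lit 304) (nat_lit 102))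 (XT.nd (nat_lit 78) (nat_lit 0) (nat_lit 0) (XT.lf (nat_lit 0) (nat_lit 13321928885) (nat_lit 228) (nat_lit 12507652778) (nat_lit 304) (nat_lit 28586410123) (nat_lit 53) (nat_lit 5) (nat_lit 56) (nat_lit 5) (nat_lit 57) (nat_lit 5) (nat_lit 375) (nat_lit 304) (nat_lit 101)) (XT.lf (nat_lit 0) (nat_lit 35812390305) (nat_lit 304) (nat_lit 17396008897) (nat_lit 76) (nat_lit 2382947013) (nat_lit 53) (nat_lit 5) (nat_lit 57) (nat_lit 5) (nat_lit 54) (nat_lit 5) (nat_lit 376) (nat_lit 304) (nat_lit 100)))) (XT.nd (nat_lit 156) (nat_lit 304) (nat_lit 0) (XT.nd (nat_lit 78) (nat_lit 0) (nat_lit 0) (XT.lf (nat_lit 0) (nat_lit 7022700505) (nat_lit 152) (nat_lit 39261169241) (nat_lit 228) (nat_lit 10512417165) (nat_lit 51) (nat_lit 5) (nat_lit 53) (nat_lit 5) (nat_lit 54) (nat_lit 5) (nat_lit 377) (nat_lit 304) (nat_lit 99)) (XT.lf (nat_lit 0) (nat_lit 32527120241) (nat_lit 152) (nat_lit 24715910485) (nat_lit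 228) (nat_lit 789140180) (nat_lit 51) (nat_lit 5) (nat_lit 53) (nat_lit 5) (nat_lit 54) (nat_lit 5) (nat_lit 378) (nat_lit 304) (nat_lit 98))) (XT.nd (nat_lit 78) (nat_lit 228) (nat_lit 0) (XT.lf (nat_lit 0) (nat_lit 9043717813) (nat_lit 228) (nat_lit 600537434) (nat_lit 76) (nat_lit 49658279407) (nat_lit 50) (nat_lit 5) (nat_lit 53) (nat_lit 5) (nat_lit 51) (nat_lit 5) (nat_lit 379) (nat_lit 304) (nat_lit 97)) (XT.lf (nat_lit 0) (nat_lit 19458177213) (nat_lit 304) (nat_lit 35124137991) (nat_lit 76) (nat_lit 6019386508) (nat_lit 47) (nat_lit 5) (nat_lit 51) (nat_lit 5) (nat_lit 48) (nat_lit 5) (nat_lit 380) (nat_lit 304) (nat_lit 96))))) (XT.nd (nat_lit 234) (nat_lit 380) (nat_lit 0) (XT.nd (nat_lit 78) (nat_lit 152) (nat_lit 0) (XT.lf (nat_lit 0) (nat_lit 30284670685) (nat_lit 304) (nat_lit 9688203174) (nat_lit 76) (nat_lit 21963982972) (nat_lit 47) (nat_lit 5) (nat_lit 51) (nat_lit 5) (nat_lit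 48) (nat_lit 5) (nat_lit 381) (nat_lit 304) (nat_lit 95)) (XT.nd (nat_lit 78) (nat_lit 0) (nat_lit 0) (XT.lf (nat_lit 0) (nat_lit 16836127698) (nat_lit 152) (nat_lit 24759717336) (nat_lit 228) (nat_lit 21711426018) (nat_lit 45) (nat_lit 5) (nat_lit 47) (nat_lit 5) (nat_lit 48) (nat_lit 5) (nat_lit 382) (nat_lit 304) (nat_lit 94)) (XT.lf (nat_lit 0) (nat_lit 44351603209) (nat_lit 152) (nat_lit 8990656455) (nat_lit 228) (nat_lit 11373661884) (nat_lit 45) (nat_lit 5) (nat_lit 47) (nat_lit 5) (nat_lit 48) (nat_lit 5) (nat_lit 383) (nat_lit 304) (nat_lit 93)))) (XT.nd (nat_lit 156) (nat_lit 152) (nat_lit 0) (XT.nd (nat_lit 78) (nat_lit 76) (nat_lit 0) (XT.lf (nat_lit 0) (nat_lit 6581293973) (nat_lit 152) (nat_lit 58990859391) (nat_lit 228) (nat_lit 590746566) (nat_lit 43) (nat_lit 5) (nat_lit 45) (nat_lit 5) (nat_lit 46) (nat_lit 5) (nat_lit 384) (nat_lit 304) (nat_lit 92)) (XT.lf (nat_lit 0) (nat_lit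 10605273246) (nat_lit 228) (nat_lit 33089674705) (nat_lit 76) (nat_lit 23946463678) (nat_lit 42) (nat_lit 5) (nat_lit 45) (nat_lit 5) (nat_lit 43) (nat_lit 5) (nat_lit 385) (nat_lit 304) (nat_lit 91))) (XT.nd (nat_lit 78) (nat_lit 152) (nat_lit 0) (XT.lf (nat_lit 0) (nat_lit 22123478135) (nat_lit 228) (nat_lit 5811887008) (nat_lit 76) (nat_lit 41228793617) (nat_lit 42) (nat_lit 5) (nat_lit 45) (nat_lit 5) (nat_lit 43) (nat_lit 5) (nat_lit 386) (nat_lit 304) (nat_lit 90)) (XT.lf (nat_lit 0) (nat_lit 22724711686) (nat_lit 152) (nat_lit 11479192289) (nat_lit 228) (nat_lit 36522184948) (nat_lit 40) (nat_lit 5) (nat_lit 42) (nat_lit 5) (nat_lit 43) (nat_lit 5) (nat_lit 387) (nat_lit 304) (nat_lit 89)))))) (XT.nd (nat_lit 546) (nat_lit 152) (nat_lit 0) (XT.nd (nat_lit 234) (nat_lit 380) (nat_lit 0) (XT.nd (nat_lit 78) (nat_lit 152) (nat_lit 0) (XT.lf (nat_lit 0) (nat_lit 46756842578) (nat_lit 228) (nat_lit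 20152714799) (nat_lit 76) (nat_lit 5422017451) (nat_lit 40) (nat_lit 5) (nat_lit 43) (nat_lit 5) (nat_lit 41) (nat_lit 5) (nat_lit 388) (nat_lit 304) (nat_lit 88)) (XT.nd (nat_lit 78) (nat_lit 0) (nat_lit 0) (XT.lf (nat_lit 0) (nat_lit 8582334762) (nat_lit 152) (nat_lit 51298482640) (nat_lit 228) (nat_lit 14098575280) (nat_lit 38) (nat_lit 5) (nat_lit 40) (nat_lit 5) (nat_lit 41) (nat_lit 5) (nat_lit 389) (nat_lit 304) (nat_lit 87)) (XT.lf (nat_lit 0) (nat_lit 38589685392) (nat_lit 152) (nat_lit 35010645208) (nat_lit 228) (nat_lit 2070260686) (nat_lit 38) (nat_lit 5) (nat_lit 40) (nat_lit 5) (nat_lit 41) (nat_lit 5) (nat_lit 390) (nat_lit 304) (nat_lit 86)))) (XT.nd (nat_lit 156) (nat_lit 152) (nat_lit 0) (XT.nd (nat_lit 78) (nat_lit 152) (nat_lit 0) (XT.lf (nat_lit 0) (nat_lit 10115892704) (nat_lit 228) (nat_lit 8017272509) (nat_lit 76) (nat_lit 59276435180) (nat_lit 37) (nat_lit 5) (nat_lit 40)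 (nat_lit 5) (nat_lit 38) (nat_lit 5) (nat_lit 391) (nat_lit 304) (nat_lit 85)) (XT.lf (nat_lit 0) (nat_lit 22330796825) (nat_lit 152) (nat_lit 508277398) (nat_lit 228) (nat_lit 56354699732) (nat_lit 35) (nat_lit 5) (nat_lit 37) (nat_lit 5) (nat_lit 38) (nat_lit 5) (nat_lit 392) (nat_lit 304) (nat_lit 84))) (XT.nd (nat_lit 78) (nat_lit 152) (nat_lit 0) (XT.lf (nat_lit 0) (nat_lit 36193735852) (nat_lit 228) (nat_lit 27448549390) (nat_lit 76) (nat_lit 17381694642) (nat_lit 35) (nat_lit 5) (nat_lit 38) (nat_lit 5) (nat_lit 36) (nat_lit 5) (nat_lit 393) (nat_lit 304) (nat_lit 83)) (XT.lf (nat_lit 0) (nat_lit 2897152064) (nat_lit 152) (nat_lit 47083219723) (nat_lit 228) (nat_lit 32927780852) (nat_lit 33) (nat_lit 5) (nat_lit 35) (nat_lit 5) (nat_lit 36) (nat_lit 5) (nat_lit 394) (nat_lit 304) (nat_lit 82))))) (XT.nd (nat_lit 234) (nat_lit 0) (nat_lit 0) (XT.nd (nat_lit 78) (nat_lit 152) (nat_lit 0) (XT.lf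 (nat_lit 0) (nat_lit 34713258458) (nat_lit 152) (nat_lit 29742997419) (nat_lit 228) (nat_lit 20384325887) (nat_lit 33) (nat_lit 5) (nat_lit 35) (nat_lit 5) (nat_lit 36) (nat_lit 5) (nat_lit 395) (nat_lit 304) (nat_lit 81)) (XT.nd (nat_lit 78) (nat_lit 152) (nat_lit 0) (XT.lf (nat_lit 0) (nat_lit 67481290319) (nat_lit 152) (nat_lit 11883643209) (nat_lit 228) (nat_lit 7466095366) (nat_lit 33) (nat_lit 5) (nat_lit 35) (nat_lit 5) (nat_lit 36) (nat_lit 5) (nat_lit 396) (nat_lit 304) (nat_lit 80)) (XT.lf (nat_lit 0) (nat_lit 5909120444) (nat_lit 152) (nat_lit 76403093774) (nat_lit 76) (nat_lit 6561790038) (nat_lit 31) (nat_lit 5) (nat_lit 33) (nat_lit 5) (nat_lit 32) (nat_lit 5) (nat_lit 397) (nat_lit 304) (nat_lit 79)))) (XT.nd (nat_lit 33462) (nat_lit 0) (nat_lit 12464) (XT.nd (nat_lit 33384) (nat_lit 0) (nat_lit 12464) (XT.lf (nat_lit 0) (nat_lit 19849074159) (nat_lit 152) (nat_lit 45525615240) (nat_lit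 76) (nat_lit 25591956138) (nat_lit 31) (nat_lit 5) (nat_lit 33) (nat_lit 5) (nat_lit 32) (nat_lit 5) (nat_lit 398) (nat_lit 304) (nat_lit 78)) (XT.lf (nat_lit 0) (nat_lit 763424512) (nat_lit 0) (nat_lit 763424512) (nat_lit 1140) (nat_lit 6296231909) (nat_lit 195) (nat_lit 5) (nat_lit 195) (nat_lit 3) (nat_lit 210) (nat_lit 3) (nat_lit 305) (nat_lit 305) (nat_lit 170))) (XT.nd (nat_lit 78) (nat_lit 0) (nat_lit 0) (XT.lf (nat_lit 0) (nat_lit 3413361046) (nat_lit 1140) (nat_lit 7069855735) (nat_lit 1216) (nat_lit 5387915134) (nat_lit 195) (nat_lit 5) (nat_lit 210) (nat_lit 3) (nat_lit 211) (nat_lit 5) (nat_lit 306) (nat_lit 305) (nat_lit 169)) (XT.lf (nat_lit 76) (nat_lit 173900918) (nat_lit 0) (nat_lit 3616563475) (nat_lit 1216) (nat_lit 12312199121) (nat_lit 196) (nat_lit 5) (nat_lit 195) (nat_lit 5) (nat_lit 211) (nat_lit 5) (nat_lit 307) (nat_lit 305) (nat_lit 168))))))))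
noncomputable def xc204 : XT := (XT.nd (nat_lit 2106) (nat_lit 4940) (nat_lit 0) (XT.nd (nat_lit 1014) (nat_lit 4180) (nat_lit 0) (XT.nd (nat_lit 468) (nat_lit 0) (nat_lit 152) (XT.nd (nat_lit 234) (nat_lit 0) (nat_lit 76) (XT.nd (nat_lit 78) (nat_lit 0) (nat_lit 0) (XT.lf (nat_lit 0) (nat_lit 4274349391) (nat_lit 1140) (nat_lit 8598791198) (nat_lit 1216) (nat_lit 3465148038) (nat_lit 196) (nat_lit 5) (nat_lit 211) (nat_lit 5) (nat_lit 212) (nat_lit 5) (nat_lit 308) (nat_lit 305) (nat_lit 167)) (XT.nd (nat_lit 78) (nat_lit 0) (nat_lit 76) (XT.lf (nat_lit 0) (nat_lit 4798993422) (nat_lit 1140) (nat_lit 1090318869) (nat_lit 1216) (nat_lit 10690894206) (nat_lit 196) (nat_lit 5) (nat_lit 211) (nat_lit 5) (nat_lit 212) (nat_lit 5) (nat_lit 309) (nat_lit 305) (nat_lit 166)) (XT.lf (nat_lit 0) (nat_lit 5408385100) (nat_lit 1140) (nat_lit 10070847056) (nat_lit 1216) (nat_lit 1348090452) (nat_lit 197) (nat_lit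 5) (nat_lit 212) (nat_lit 5) (nat_lit 213) (nat_lit 5) (nat_lit 310) (nat_lit 305) (nat_lit 165)))) (XT.nd (nat_lit 78) (nat_lit 0) (nat_lit 0) (XT.lf (nat_lit 0) (nat_lit 6096455480) (nat_lit 1140) (nat_lit 2284609425) (nat_lit 1216) (nat_lit 8698986021) (nat_lit 197) (nat_lit 5) (nat_lit 212) (nat_lit 5) (nat_lit 213) (nat_lit 5) (nat_lit 311) (nat_lit 305) (nat_lit 164)) (XT.nd (nat_lit 78) (nat_lit 0) (nat_lit 76) (XT.lf (nat_lit 76) (nat_lit 5843720407) (nat_lit 0) (nat_lit 1008851888) (nat_lit 1216) (nat_lit 10486376993) (nat_lit 198) (nat_lit 5) (nat_lit 197) (nat_lit 5) (nat_lit 213) (nat_lit 5) (nat_lit 312) (nat_lit 305) (nat_lit 163)) (XT.lf (nat_lit 0) (nat_lit 7709429062) (nat_lit 1140) (nat_lit 3411482555) (nat_lit 1216) (nat_lit 6482371313) (nat_lit 198) (nat_lit 5) (nat_lit 213) (nat_lit 5) (nat_lit 214) (nat_lit 5) (nat_lit 313) (nat_lit 305) (nat_lit 162))))) (XT.nd (nat_lit 234)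 (nat_lit 0) (nat_lit 152) (XT.nd (nat_lit 78) (nat_lit 0) (nat_lit 76) (XT.lf (nat_lit 76) (nat_lit 4996689458) (nat_lit 0) (nat_lit 3645034027) (nat_lit 1216) (nat_lit 9232340868) (nat_lit 199) (nat_lit 5) (nat_lit 198) (nat_lit 5) (nat_lit 214) (nat_lit 5) (nat_lit 314) (nat_lit 305) (nat_lit 161)) (XT.nd (nat_lit 78) (nat_lit 0) (nat_lit 0) (XT.lf (nat_lit 0) (nat_lit 9667682109) (nat_lit 1140) (nat_lit 4470041984) (nat_lit 1216) (nat_lit 4013283713) (nat_lit 199) (nat_lit 5) (nat_lit 214) (nat_lit 5) (nat_lit 215) (nat_lit 5) (nat_lit 315) (nat_lit 305) (nat_lit 160)) (XT.lf (nat_lit 76) (nat_lit 4230316245) (nat_lit 0) (nat_lit 6563016990) (nat_lit 1216) (nat_lit 7640868089) (nat_lit 200) (nat_lit 5) (nat_lit 199) (nat_lit 5) (nat_lit 215) (nat_lit 5) (nat_lit 316) (nat_lit 305) (nat_lit 159)))) (XT.nd (nat_lit 156) (nat_lit 0) (nat_lit 0) (XT.nd (nat_lit 78) (nat_lit 0) (nat_lit 0) (XT.lf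 (nat_lit 0) (nat_lit 12002603154) (nat_lit 1140) (nat_lit 5459433310) (nat_lit 1216) (nat_lit 1262367609) (nat_lit 200) (nat_lit 5) (nat_lit 215) (nat_lit 5) (nat_lit 216) (nat_lit 5) (nat_lit 317) (nat_lit 305) (nat_lit 158)) (XT.lf (nat_lit 76) (nat_lit 3545877851) (nat_lit 0) (nat_lit 9793915837) (nat_lit 1216) (nat_lit 5680778587) (nat_lit 201) (nat_lit 5) (nat_lit 200) (nat_lit 5) (nat_lit 216) (nat_lit 5) (nat_lit 318) (nat_lit 305) (nat_lit 157))) (XT.nd (nat_lit 78) (nat_lit 0) (nat_lit 76) (XT.lf (nat_lit 76) (nat_lit 12927630489) (nat_lit 0) (nat_lit 1837338105) (nat_lit 1216) (nat_lit 4559229266) (nat_lit 201) (nat_lit 5) (nat_lit 200) (nat_lit 5) (nat_lit 216) (nat_lit 5) (nat_lit 319) (nat_lit 305) (nat_lit 156)) (XT.lf (nat_lit 76) (nat_lit 2944544045) (nat_lit 0) (nat_lit 13370741616) (nat_lit 1216) (nat_lit 3319183091) (nat_lit 202) (nat_lit 5) (nat_lit 201) (nat_lit 5) (nat_lit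 217) (nat_lit 5) (nat_lit 320) (nat_lit 305) (nat_lit 155)))))) (XT.nd (nat_lit 546) (nat_lit 2128) (nat_lit 0) (XT.nd (nat_lit 234) (nat_lit 1292) (nat_lit 0) (XT.nd (nat_lit 78) (nat_lit 1140) (nat_lit 0) (XT.lf (nat_lit 76) (nat_lit 12672812824) (nat_lit 0) (nat_lit 5315021711) (nat_lit 1216) (nat_lit 1963949480) (nat_lit 202) (nat_lit 5) (nat_lit 201) (nat_lit 5) (nat_lit 217) (nat_lit 5) (nat_lit 321) (nat_lit 305) (nat_lit 154)) (XT.nd (nat_lit 78) (nat_lit 76) (nat_lit 0) (XT.lf (nat_lit 0) (nat_lit 2427306951) (nat_lit 1140) (nat_lit 17328582478) (nat_lit 1216) (nat_lit 521377103) (nat_lit 187) (nat_lit 5) (nat_lit 202) (nat_lit 5) (nat_lit 203) (nat_lit 5) (nat_lit 322) (nat_lit 305) (nat_lit 153)) (XT.lf (nat_lit 0) (nat_lit 1065903687) (nat_lit 1216) (nat_lit 8104729928) (nat_lit 76) (nat_lit 11438001468) (nat_lit 186) (nat_lit 5) (nat_lit 202) (nat_lit 5) (nat_lit 187) (nat_lit 5) (nat_lit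 323) (nat_lit 305) (nat_lit 152)))) (XT.nd (nat_lit 156) (nat_lit 608) (nat_lit 0) (XT.nd (nat_lit 78) (nat_lit 0) (nat_lit 0) (XT.lf (nat_lit 0) (nat_lit 1960332183) (nat_lit 684) (nat_lit 742424305) (nat_lit 760) (nat_lit 18246667388) (nat_lit 177) (nat_lit 5) (nat_lit 186) (nat_lit 5) (nat_lit 187) (nat_lit 5) (nat_lit 324) (nat_lit 305) (nat_lit 151)) (XT.lf (nat_lit 0) (nat_lit 4541407069) (nat_lit 760) (nat_lit 8887379624) (nat_lit 76) (nat_lit 7867075698) (nat_lit 177) (nat_lit 5) (nat_lit 187) (nat_lit 5) (nat_lit 178) (nat_lit 5) (nat_lit 325) (nat_lit 305) (nat_lit 150))) (XT.nd (nat_lit 78) (nat_lit 0) (nat_lit 0) (XT.lf (nat_lit 0) (nat_lit 1534379757) (nat_lit 608) (nat_lit 4916849210) (nat_lit 684) (nat_lit 15200991367) (nat_lit 169) (nat_lit 5) (nat_lit 177) (nat_lit 5) (nat_lit 178) (nat_lit 5) (nat_lit 326) (nat_lit 305) (nat_lit 149)) (XT.lf (nat_lit 0) (nat_lit 8540031870) (nat_lit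 684) (nat_lit 9609232767) (nat_lit 76) (nat_lit 3866360220) (nat_lit 169) (nat_lit 5) (nat_lit 178) (nat_lit 5) (nat_lit 170) (nat_lit 5) (nat_lit 327) (nat_lit 305) (nat_lit 148))))) (XT.nd (nat_lit 234) (nat_lit 1064) (nat_lit 0) (XT.nd (nat_lit 78) (nat_lit 532) (nat_lit 0) (XT.lf (nat_lit 0) (nat_lit 1183483309) (nat_lit 532) (nat_lit 9562287016) (nat_lit 608) (nat_lit 11642539293) (nat_lit 162) (nat_lit 5) (nat_lit 169) (nat_lit 5) (nat_lit 170) (nat_lit 5) (nat_lit 328) (nat_lit 305) (nat_lit 147)) (XT.nd (nat_lit 78) (nat_lit 532) (nat_lit 0) (XT.lf (nat_lit 0) (nat_lit 12491452939) (nat_lit 532) (nat_lit 617591427) (nat_lit 608) (nat_lit 9660395718) (nat_lit 162) (nat_lit 5) (nat_lit 169) (nat_lit 5) (nat_lit 170) (nat_lit 5) (nat_lit 329) (nat_lit 305) (nat_lit 146)) (XT.lf (nat_lit 0) (nat_lit 906195713) (nat_lit 532) (nat_lit 14722852218) (nat_lit 608) (nat_lit 7530387482) (nat_lit 155)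 (nat_lit 5) (nat_lit 162) (nat_lit 5) (nat_lit 163) (nat_lit 5) (nat_lit 330) (nat_lit 305) (nat_lit 145)))) (XT.nd (nat_lit 156) (nat_lit 608) (nat_lit 0) (XT.nd (nat_lit 78) (nat_lit 456) (nat_lit 0) (XT.lf (nat_lit 0) (nat_lit 12624890429) (nat_lit 532) (nat_lit 5704207005) (nat_lit 608) (nat_lit 5228905507) (nat_lit 155) (nat_lit 5) (nat_lit 162) (nat_lit 5) (nat_lit 163) (nat_lit 5) (nat_lit 331) (nat_lit 305) (nat_lit 144)) (XT.lf (nat_lit 0) (nat_lit 700355037) (nat_lit 456) (nat_lit 20445746846) (nat_lit 532) (nat_lit 2821352559) (nat_lit 149) (nat_lit 5) (nat_lit 155) (nat_lit 5) (nat_lit 156) (nat_lit 5) (nat_lit 332) (nat_lit 305) (nat_lit 143))) (XT.nd (nat_lit 78) (nat_lit 608) (nat_lit 0) (XT.lf (nat_lit 0) (nat_lit 12843928301) (nat_lit 456) (nat_lit 11364875359) (nat_lit 532) (nat_lit 175555600) (nat_lit 149) (nat_lit 5) (nat_lit 155) (nat_lit 5) (nat_lit 156) (nat_lit 5) (nat_lit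 333) (nat_lit 305) (nat_lit 142)) (XT.lf (nat_lit 0) (nat_lit 518279738) (nat_lit 532) (nat_lit 1981521130) (nat_lit 608) (nat_lit 22313242045) (nat_lit 141) (nat_lit 5) (nat_lit 148) (nat_lit 5) (nat_lit 149) (nat_lit 5) (nat_lit 334) (nat_lit 305) (nat_lit 141))))))) (XT.nd (nat_lit 1092) (nat_lit 2356) (nat_lit 0) (XT.nd (nat_lit 546) (nat_lit 1292) (nat_lit 0) (XT.nd (nat_lit 234) (nat_lit 836) (nat_lit 0) (XT.nd (nat_lit 78) (nat_lit 456) (nat_lit 0) (XT.lf (nat_lit 0) (nat_lit 5438484137) (nat_lit 608) (nat_lit 12157980795) (nat_lit 76) (nat_lit 7652477092) (nat_lit 141) (nat_lit 5) (nat_lit 149) (nat_lit 5) (nat_lit 142) (nat_lit 5) (nat_lit 335) (nat_lit 305) (nat_lit 140)) (XT.nd (nat_lit 78) (nat_lit 0) (nat_lit 0) (XT.lf (nat_lit 0) (nat_lit 324313423) (nat_lit 456) (nat_lit 8158943381) (nat_lit 532) (nat_lit 17214128224) (nat_lit 135) (nat_lit 5) (nat_lit 141) (nat_lit 5) (nat_lit 142)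 (nat_lit 5) (nat_lit 336) (nat_lit 305) (nat_lit 139)) (XT.lf (nat_lit 0) (nat_lit 11753648877) (nat_lit 532) (nat_lit 12746912876) (nat_lit 76) (nat_lit 1654695929) (nat_lit 135) (nat_lit 5) (nat_lit 142) (nat_lit 5) (nat_lit 136) (nat_lit 5) (nat_lit 337) (nat_lit 305) (nat_lit 138)))) (XT.nd (nat_lit 156) (nat_lit 380) (nat_lit 0) (XT.nd (nat_lit 78) (nat_lit 0) (nat_lit 0) (XT.lf (nat_lit 0) (nat_lit 175439196) (nat_lit 456) (nat_lit 15024595975) (nat_lit 532) (nat_lit 11424499384) (nat_lit 129) (nat_lit 5) (nat_lit 135) (nat_lit 5) (nat_lit 136) (nat_lit 5) (nat_lit 338) (nat_lit 305) (nat_lit 137)) (XT.lf (nat_lit 0) (nat_lit 13741579105) (nat_lit 456) (nat_lit 5132450936) (nat_lit 532) (nat_lit 8230137565) (nat_lit 129) (nat_lit 5) (nat_lit 135) (nat_lit 5) (nat_lit 136) (nat_lit 5) (nat_lit 339) (nat_lit 305) (nat_lit 136))) (XT.nd (nat_lit 78) (nat_lit 0) (nat_lit 0) (XT.lf (nat_lit 0)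 (nat_lit 63996553) (nat_lit 380) (nat_lit 22639092085) (nat_lit 456) (nat_lit 4893759946) (nat_lit 124) (nat_lit 5) (nat_lit 129) (nat_lit 5) (nat_lit 130) (nat_lit 5) (nat_lit 340) (nat_lit 305) (nat_lit 135)) (XT.lf (nat_lit 0) (nat_lit 14110361980) (nat_lit 380) (nat_lit 12717612410) (nat_lit 456) (nat_lit 1270911069) (nat_lit 124) (nat_lit 5) (nat_lit 129) (nat_lit 5) (nat_lit 130) (nat_lit 5) (nat_lit 341) (nat_lit 305) (nat_lit 134))))) (XT.nd (nat_lit 234) (nat_lit 760) (nat_lit 0) (XT.nd (nat_lit 78) (nat_lit 456) (nat_lit 0) (XT.lf (nat_lit 0) (nat_lit 2408388910) (nat_lit 456) (nat_lit 66566574) (nat_lit 76) (nat_lit 26140448821) (nat_lit 123) (nat_lit 5) (nat_lit 129) (nat_lit 5) (nat_lit 124) (nat_lit 5) (nat_lit 342) (nat_lit 305) (nat_lit 133)) (XT.nd (nat_lit 78) (nat_lit 0) (nat_lit 0) (XT.lf (nat_lit 0) (nat_lit 6387310673) (nat_lit 532) (nat_lit 14682819331) (nat_lit 76) (nat_lit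 8070471387) (nat_lit 117) (nat_lit 5) (nat_lit 124) (nat_lit 5) (nat_lit 118) (nat_lit 5) (nat_lit 343) (nat_lit 305) (nat_lit 132)) (XT.lf (nat_lit 0) (nat_lit 10506752245) (nat_lit 532) (nat_lit 291789460) (nat_lit 76) (nat_lit 18882381789) (nat_lit 117) (nat_lit 5) (nat_lit 124) (nat_lit 5) (nat_lit 118) (nat_lit 5) (nat_lit 344) (nat_lit 305) (nat_lit 131)))) (XT.nd (nat_lit 156) (nat_lit 380) (nat_lit 0) (XT.nd (nat_lit 78) (nat_lit 0) (nat_lit 0) (XT.lf (nat_lit 0) (nat_lit 14815245075) (nat_lit 380) (nat_lit 73031400) (nat_lit 456) (nat_lit 15345027365) (nat_lit 112) (nat_lit 5) (nat_lit 117) (nat_lit 5) (nat_lit 118) (nat_lit 5) (nat_lit 345) (nat_lit 305) (nat_lit 130)) (XT.lf (nat_lit 0) (nat_lit 19505858578) (nat_lit 456) (nat_lit 531103070) (nat_lit 76) (nat_lit 10762159042) (nat_lit 112) (nat_lit 5) (nat_lit 118) (nat_lit 5) (nat_lit 113) (nat_lit 5) (nat_lit 346) (nat_lit 305) (nat_lit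 129))) (XT.nd (nat_lit 78) (nat_lit 0) (nat_lit 0) (XT.lf (nat_lit 0) (nat_lit 15091482151) (nat_lit 380) (nat_lit 9312535226) (nat_lit 456) (nat_lit 6973636550) (nat_lit 107) (nat_lit 5) (nat_lit 112) (nat_lit 5) (nat_lit 113) (nat_lit 5) (nat_lit 347) (nat_lit 305) (nat_lit 128)) (XT.lf (nat_lit 0) (nat_lit 29467513417) (nat_lit 456) (nat_lit 801270524) (nat_lit 76) (nat_lit 1704210705) (nat_lit 107) (nat_lit 5) (nat_lit 113) (nat_lit 5) (nat_lit 108) (nat_lit 5) (nat_lit 348) (nat_lit 305) (nat_lit 127)))))) (XT.nd (nat_lit 546) (nat_lit 988) (nat_lit 0) (XT.nd (nat_lit 234) (nat_lit 608) (nat_lit 0) (XT.nd (nat_lit 78) (nat_lit 380) (nat_lit 0) (XT.lf (nat_lit 0) (nat_lit 2294323821) (nat_lit 380) (nat_lit 17250744174) (nat_lit 76) (nat_lit 13033370427) (nat_lit 102) (nat_lit 5) (nat_lit 107) (nat_lit 5) (nat_lit 103) (nat_lit 5) (nat_lit 349) (nat_lit 305) (nat_lit 126)) (XT.nd (nat_lit 78)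 (nat_lit 380) (nat_lit 0) (XT.lf (nat_lit 0) (nat_lit 7192377799) (nat_lit 380) (nat_lit 1274427150) (nat_lit 76) (nat_lit 24734360969) (nat_lit 102) (nat_lit 5) (nat_lit 107) (nat_lit 5) (nat_lit 103) (nat_lit 5) (nat_lit 350) (nat_lit 305) (nat_lit 125)) (XT.lf (nat_lit 0) (nat_lit 12412468866) (nat_lit 456) (nat_lit 18389308491) (nat_lit 76) (nat_lit 3035547916) (nat_lit 97) (nat_lit 5) (nat_lit 103) (nat_lit 5) (nat_lit 98) (nat_lit 5) (nat_lit 351) (nat_lit 305) (nat_lit 124)))) (XT.nd (nat_lit 156) (nat_lit 304) (nat_lit 0) (XT.nd (nat_lit 78) (nat_lit 304) (nat_lit 0) (XT.lf (nat_lit 0) (nat_lit 17882580408) (nat_lit 456) (nat_lit 1882485499) (nat_lit 76) (nat_lit 14724703779) (nat_lit 97) (nat_lit 5) (nat_lit 103) (nat_lit 5) (nat_lit 98) (nat_lit 5) (nat_lit 352) (nat_lit 305) (nat_lit 123)) (XT.lf (nat_lit 0) (nat_lit 15415892312) (nat_lit 304) (nat_lit 8245780611) (nat_lit 380) (nat_lit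 11495770910) (nat_lit 93) (nat_lit 5) (nat_lit 97) (nat_lit 5) (nat_lit 98) (nat_lit 5) (nat_lit 353) (nat_lit 305) (nat_lit 122))) (XT.nd (nat_lit 78) (nat_lit 304) (nat_lit 0) (XT.lf (nat_lit 0) (nat_lit 29664857919) (nat_lit 380) (nat_lit 2612259116) (nat_lit 76) (nat_lit 3566512229) (nat_lit 93) (nat_lit 5) (nat_lit 98) (nat_lit 5) (nat_lit 94) (nat_lit 5) (nat_lit 354) (nat_lit 305) (nat_lit 121)) (XT.lf (nat_lit 0) (nat_lit 15242320025) (nat_lit 304) (nat_lit 20830806723) (nat_lit 380) (nat_lit 470526435) (nat_lit 89) (nat_lit 5) (nat_lit 93) (nat_lit 5) (nat_lit 94) (nat_lit 5) (nat_lit 355) (nat_lit 305) (nat_lit 120))))) (XT.nd (nat_lit 234) (nat_lit 608) (nat_lit 0) (XT.nd (nat_lit 78) (nat_lit 304) (nat_lit 0) (XT.lf (nat_lit 0) (nat_lit 5326902979) (nat_lit 380) (nat_lit 3634462069) (nat_lit 76) (nat_lit 28301050801) (nat_lit 88) (nat_lit 5) (nat_lit 93) (nat_lit 5) (nat_lit 89) (nat_lit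 5) (nat_lit 356) (nat_lit 305) (nat_lit 119)) (XT.nd (nat_lit 78) (nat_lit 0) (nat_lit 0) (XT.lf (nat_lit 0) (nat_lit 11461241133) (nat_lit 380) (nat_lit 23188117538) (nat_lit 76) (nat_lit 3348072030) (nat_lit 84) (nat_lit 5) (nat_lit 89) (nat_lit 5) (nat_lit 85) (nat_lit 5) (nat_lit 357) (nat_lit 305) (nat_lit 118)) (XT.lf (nat_lit 0) (nat_lit 17902374446) (nat_lit 380) (nat_lit 4965896327) (nat_lit 76) (nat_lit 15882544560) (nat_lit 84) (nat_lit 5) (nat_lit 89) (nat_lit 5) (nat_lit 85) (nat_lit 5) (nat_lit 358) (nat_lit 305) (nat_lit 117)))) (XT.nd (nat_lit 156) (nat_lit 304) (nat_lit 0) (XT.nd (nat_lit 78) (nat_lit 0) (nat_lit 0) (XT.lf (nat_lit 0) (nat_lit 14073424273) (nat_lit 304) (nat_lit 10595662288) (nat_lit 380) (nat_lit 14853746821) (nat_lit 80) (nat_lit 5) (nat_lit 84) (nat_lit 5) (nat_lit 85) (nat_lit 5) (nat_lit 359) (nat_lit 305) (nat_lit 116)) (XT.lf (nat_lit 0) (nat_lit 31706197362)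 (nat_lit 380) (nat_lit 6555168765) (nat_lit 76) (nat_lit 2054626080) (nat_lit 80) (nat_lit 5) (nat_lit 85) (nat_lit 5) (nat_lit 81) (nat_lit 5) (nat_lit 360) (nat_lit 305) (nat_lit 115))) (XT.nd (nat_lit 78) (nat_lit 76) (nat_lit 0) (XT.lf (nat_lit 0) (nat_lit 13051571316) (nat_lit 228) (nat_lit 26130398012) (nat_lit 304) (nat_lit 1944152124) (nat_lit 77) (nat_lit 5) (nat_lit 80) (nat_lit 5) (nat_lit 81) (nat_lit 5) (nat_lit 361) (nat_lit 305) (nat_lit 114)) (XT.lf (nat_lit 0) (nat_lit 4889468399) (nat_lit 304) (nat_lit 8629764765) (nat_lit 76) (nat_lit 28437982824) (nat_lit 76) (nat_lit 5) (nat_lit 80) (nat_lit 5) (nat_lit 77) (nat_lit 5) (nat_lit 362) (nat_lit 305) (nat_lit 113))))))))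
noncomputable def xc205 : XT := (XT.nd (nat_lit 2184) (nat_lit 532) (nat_lit 0) (XT.nd (nat_lit 1092) (nat_lit 1140) (nat_lit 0) (XT.nd (nat_lit 546) (nat_lit 684) (nat_lit 0) (XT.nd (nat_lit 234) (nat_lit 532) (nat_lit 0) (XT.nd (nat_lit 78) (nat_lit 228) (nat_lit 0) (XT.lf (nat_lit 0) (nat_lit 11601501559) (nat_lit 304) (nat_lit 396317091) (nat_lit 380) (nat_lit 30811585255) (nat_lit 72) (nat_lit 5) (nat_lit 76) (nat_lit 5) (nat_lit 77) (nat_lit 5) (nat_lit 363) (nat_lit 305) (nat_lit 112)) (XT.nd (nat_lit 78) (nat_lit 228) (nat_lit 0) (XT.lf (nat_lit 0) (nat_lit 19530851026) (nat_lit 380) (nat_lit 11198950076) (nat_lit 76) (nat_lit 12951015268) (nat_lit 72) (nat_lit 5) (nat_lit 77) (nat_lit 5) (nat_lit 73) (nat_lit 5) (nat_lit 364) (nat_lit 305) (nat_lit 111)) (XT.lf (nat_lit 0) (nat_lit 9589559610) (nat_lit 228) (nat_lit 17793802790) (nat_lit 304) (nat_lit 17192205971) (nat_lit 69) (nat_lit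 5) (nat_lit 72) (nat_lit 5) (nat_lit 73) (nat_lit 5) (nat_lit 365) (nat_lit 305) (nat_lit 110)))) (XT.nd (nat_lit 156) (nat_lit 304) (nat_lit 0) (XT.nd (nat_lit 78) (nat_lit 228) (nat_lit 0) (XT.lf (nat_lit 0) (nat_lit 31227416390) (nat_lit 228) (nat_lit 4354542503) (nat_lit 304) (nat_lit 9911890499) (nat_lit 69) (nat_lit 5) (nat_lit 72) (nat_lit 5) (nat_lit 73) (nat_lit 5) (nat_lit 366) (nat_lit 305) (nat_lit 109)) (XT.lf (nat_lit 0) (nat_lit 7118608794) (nat_lit 228) (nat_lit 37065021669) (nat_lit 304) (nat_lit 2251336566) (nat_lit 66) (nat_lit 5) (nat_lit 69) (nat_lit 5) (nat_lit 70) (nat_lit 5) (nat_lit 367) (nat_lit 305) (nat_lit 108))) (XT.nd (nat_lit 78) (nat_lit 228) (nat_lit 0) (XT.lf (nat_lit 0) (nat_lit 5715095731) (nat_lit 304) (nat_lit 18064934454) (nat_lit 76) (nat_lit 23617080452) (nat_lit 65) (nat_lit 5) (nat_lit 69) (nat_lit 5) (nat_lit 66) (nat_lit 5) (nat_lit 368) (nat_lit 305)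 (nat_lit 107)) (XT.lf (nat_lit 0) (nat_lit 3873599962) (nat_lit 228) (nat_lit 10036475707) (nat_lit 304) (nat_lit 34476331596) (nat_lit 62) (nat_lit 5) (nat_lit 65) (nat_lit 5) (nat_lit 66) (nat_lit 5) (nat_lit 369) (nat_lit 305) (nat_lit 106))))) (XT.nd (nat_lit 234) (nat_lit 456) (nat_lit 0) (XT.nd (nat_lit 78) (nat_lit 228) (nat_lit 0) (XT.lf (nat_lit 0) (nat_lit 22572321356) (nat_lit 304) (nat_lit 22604464376) (nat_lit 76) (nat_lit 4221956082) (nat_lit 62) (nat_lit 5) (nat_lit 66) (nat_lit 5) (nat_lit 63) (nat_lit 5) (nat_lit 370) (nat_lit 305) (nat_lit 105)) (XT.nd (nat_lit 78) (nat_lit 228) (nat_lit 0) (XT.lf (nat_lit 0) (nat_lit 31591467340) (nat_lit 304) (nat_lit 141886728) (nat_lit 76) (nat_lit 18705182810) (nat_lit 62) (nat_lit 5) (nat_lit 66) (nat_lit 5) (nat_lit 63) (nat_lit 5) (nat_lit 371) (nat_lit 305) (nat_lit 104)) (XT.lf (nat_lit 0) (nat_lit 23448596452) (nat_lit 228) (nat_lit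 17655723485) (nat_lit 304) (nat_lit 10398513315) (nat_lit 59) (nat_lit 5) (nat_lit 62) (nat_lit 5) (nat_lit 63) (nat_lit 5) (nat_lit 372) (nat_lit 305) (nat_lit 103)))) (XT.nd (nat_lit 156) (nat_lit 228) (nat_lit 0) (XT.nd (nat_lit 78) (nat_lit 228) (nat_lit 0) (XT.lf (nat_lit 0) (nat_lit 47746198988) (nat_lit 228) (nat_lit 3155554322) (nat_lit 304) (nat_lit 1697330736) (nat_lit 59) (nat_lit 5) (nat_lit 62) (nat_lit 5) (nat_lit 63) (nat_lit 5) (nat_lit 373) (nat_lit 305) (nat_lit 102)) (XT.lf (nat_lit 0) (nat_lit 7422674202) (nat_lit 228) (nat_lit 34487577872) (nat_lit 76) (nat_lit 11806890025) (nat_lit 56) (nat_lit 5) (nat_lit 59) (nat_lit 5) (nat_lit 57) (nat_lit 5) (nat_lit 374) (nat_lit 305) (nat_lit 101))) (XT.nd (nat_lit 78) (nat_lit 228) (nat_lit 0) (XT.lf (nat_lit 0) (nat_lit 16860721447) (nat_lit 228) (nat_lit 10785305958) (nat_lit 76) (nat_lit 27219854894) (nat_lit 56) (nat_lit 5) (nat_lit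 59) (nat_lit 5) (nat_lit 57) (nat_lit 5) (nat_lit 375) (nat_lit 305) (nat_lit 100)) (XT.lf (nat_lit 0) (nat_lit 13895825683) (nat_lit 228) (nat_lit 12817546878) (nat_lit 304) (nat_lit 29331769498) (nat_lit 53) (nat_lit 5) (nat_lit 56) (nat_lit 5) (nat_lit 57) (nat_lit 5) (nat_lit 376) (nat_lit 305) (nat_lit 99)))))) (XT.nd (nat_lit 546) (nat_lit 532) (nat_lit 0) (XT.nd (nat_lit 234) (nat_lit 456) (nat_lit 0) (XT.nd (nat_lit 78) (nat_lit 152) (nat_lit 0) (XT.lf (nat_lit 0) (nat_lit 36993103269) (nat_lit 304) (nat_lit 17746102401) (nat_lit 76) (nat_lit 2516630134) (nat_lit 53) (nat_lit 5) (nat_lit 57) (nat_lit 5) (nat_lit 54) (nat_lit 5) (nat_lit 377) (nat_lit 305) (nat_lit 98)) (XT.nd (nat_lit 78) (nat_lit 0) (nat_lit 0) (XT.lf (nat_lit 0) (nat_lit 7403484100) (nat_lit 152) (nat_lit 40373780806) (nat_lit 228) (nat_lit 10719705445) (nat_lit 51) (nat_lit 5) (nat_lit 53) (nat_lit 5) (nat_lit 54) (nat_lit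 5) (nat_lit 378) (nat_lit 305) (nat_lit 97)) (XT.lf (nat_lit 0) (nat_lit 33668081984) (nat_lit 152) (nat_lit 25394064001) (nat_lit 228) (nat_lit 707878235) (nat_lit 51) (nat_lit 5) (nat_lit 53) (nat_lit 5) (nat_lit 54) (nat_lit 5) (nat_lit 379) (nat_lit 305) (nat_lit 96)))) (XT.nd (nat_lit 156) (nat_lit 152) (nat_lit 0) (XT.nd (nat_lit 78) (nat_lit 228) (nat_lit 0) (XT.lf (nat_lit 0) (nat_lit 9414921064) (nat_lit 228) (nat_lit 456173714) (nat_lit 76) (nat_lit 51207465358) (nat_lit 50) (nat_lit 5) (nat_lit 53) (nat_lit 5) (nat_lit 51) (nat_lit 5) (nat_lit 380) (nat_lit 305) (nat_lit 95)) (XT.lf (nat_lit 0) (nat_lit 20141048852) (nat_lit 304) (nat_lit 36014664653) (nat_lit 76) (nat_lit 6261013229) (nat_lit 47) (nat_lit 5) (nat_lit 51) (nat_lit 5) (nat_lit 48) (nat_lit 5) (nat_lit 381) (nat_lit 305) (nat_lit 94))) (XT.nd (nat_lit 78) (nat_lit 152) (nat_lit 0) (XT.lf (nat_lit 0) (nat_lit 31289449954)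 (nat_lit 304) (nat_lit 9820405117) (nat_lit 76) (nat_lit 22682169573) (nat_lit 47) (nat_lit 5) (nat_lit 51) (nat_lit 5) (nat_lit 48) (nat_lit 5) (nat_lit 382) (nat_lit 305) (nat_lit 93)) (XT.lf (nat_lit 0) (nat_lit 17498102307) (nat_lit 152) (nat_lit 25440562274) (nat_lit 228) (nat_lit 22264927036) (nat_lit 45) (nat_lit 5) (nat_lit 47) (nat_lit 5) (nat_lit 48) (nat_lit 5) (nat_lit 383) (nat_lit 305) (nat_lit 92))))) (XT.nd (nat_lit 234) (nat_lit 304) (nat_lit 0) (XT.nd (nat_lit 78) (nat_lit 228) (nat_lit 0) (XT.lf (nat_lit 0) (nat_lit 45834472449) (nat_lit 152) (nat_lit 9200233835) (nat_lit 228) (nat_lit 11619879738) (nat_lit 45) (nat_lit 5) (nat_lit 47) (nat_lit 5) (nat_lit 48) (nat_lit 5) (nat_lit 384) (nat_lit 305) (nat_lit 91)) (XT.nd (nat_lit 78) (nat_lit 76) (nat_lit 0) (XT.lf (nat_lit 0) (nat_lit 6931773726) (nat_lit 152) (nat_lit 60699070658) (nat_lit 228) (nat_lit 514150336) (nat_lit 43)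 (nat_lit 5) (nat_lit 45) (nat_lit 5) (nat_lit 46) (nat_lit 5) (nat_lit 385) (nat_lit 305) (nat_lit 90)) (XT.lf (nat_lit 0) (nat_lit 11013216036) (nat_lit 228) (nat_lit 33931950876) (nat_lit 76) (nat_lit 24722749778) (nat_lit 42) (nat_lit 5) (nat_lit 45) (nat_lit 5) (nat_lit 43) (nat_lit 5) (nat_lit 386) (nat_lit 305) (nat_lit 89)))) (XT.nd (nat_lit 156) (nat_lit 152) (nat_lit 0) (XT.nd (nat_lit 78) (nat_lit 152) (nat_lit 0) (XT.lf (nat_lit 0) (nat_lit 22874351986) (nat_lit 228) (nat_lit 5840210540) (nat_lit 76) (nat_lit 42521863435) (nat_lit 42) (nat_lit 5) (nat_lit 45) (nat_lit 5) (nat_lit 43) (nat_lit 5) (nat_lit 387) (nat_lit 305) (nat_lit 88)) (XT.lf (nat_lit 0) (nat_lit 23551054418) (nat_lit 152) (nat_lit 11764987263) (nat_lit 228) (nat_lit 37529208054) (nat_lit 40) (nat_lit 5) (nat_lit 42) (nat_lit 5) (nat_lit 43) (nat_lit 5) (nat_lit 388) (nat_lit 305) (nat_lit 87))) (XT.nd (nat_lit 78)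 (nat_lit 152) (nat_lit 0) (XT.lf (nat_lit 0) (nat_lit 48243609702) (nat_lit 228) (nat_lit 20614907774) (nat_lit 76) (nat_lit 5640442705) (nat_lit 40) (nat_lit 5) (nat_lit 43) (nat_lit 5) (nat_lit 41) (nat_lit 5) (nat_lit 389) (nat_lit 305) (nat_lit 86)) (XT.lf (nat_lit 0) (nat_lit 8980797308) (nat_lit 152) (nat_lit 52779413365) (nat_lit 228) (nat_lit 14436035856) (nat_lit 38) (nat_lit 5) (nat_lit 40) (nat_lit 5) (nat_lit 41) (nat_lit 5) (nat_lit 390) (nat_lit 305) (nat_lit 85))))))) (XT.nd (nat_lit 34476) (nat_lit 0) (nat_lit 11096) (XT.nd (nat_lit 546) (nat_lit 152) (nat_lit 0) (XT.nd (nat_lit 234) (nat_lit 152) (nat_lit 0) (XT.nd (nat_lit 78) (nat_lit 228) (nat_lit 0) (XT.lf (nat_lit 0) (nat_lit 39884261879) (nat_lit 152) (nat_lit 36004630822) (nat_lit 228) (nat_lit 2049362019) (nat_lit 38) (nat_lit 5) (nat_lit 40) (nat_lit 5) (nat_lit 41) (nat_lit 5) (nat_lit 391) (nat_lit 305) (nat_lit 84))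 (XT.nd (nat_lit 78) (nat_lit 152) (nat_lit 0) (XT.lf (nat_lit 0) (nat_lit 10498385729) (nat_lit 228) (nat_lit 8123283577) (nat_lit 76) (nat_lit 61107813038) (nat_lit 37) (nat_lit 5) (nat_lit 40) (nat_lit 5) (nat_lit 38) (nat_lit 5) (nat_lit 392) (nat_lit 305) (nat_lit 83)) (XT.lf (nat_lit 0) (nat_lit 23133909140) (nat_lit 152) (nat_lit 468332398) (nat_lit 228) (nat_lit 57964971245) (nat_lit 35) (nat_lit 5) (nat_lit 37) (nat_lit 5) (nat_lit 38) (nat_lit 5) (nat_lit 393) (nat_lit 305) (nat_lit 82)))) (XT.nd (nat_lit 156) (nat_lit 0) (nat_lit 0) (XT.nd (nat_lit 78) (nat_lit 152) (nat_lit 0) (XT.lf (nat_lit 0) (nat_lit 37355786414) (nat_lit 228) (nat_lit 28140906602) (nat_lit 76) (nat_lit 17955685579) (nat_lit 35) (nat_lit 5) (nat_lit 38) (nat_lit 5) (nat_lit 36) (nat_lit 5) (nat_lit 394) (nat_lit 305) (nat_lit 81)) (XT.lf (nat_lit 0) (nat_lit 3113880608) (nat_lit 152) (nat_lit 48441168131) (nat_lit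 228) (nat_lit 33838057950) (nat_lit 33) (nat_lit 5) (nat_lit 35) (nat_lit 5) (nat_lit 36) (nat_lit 5) (nat_lit 395) (nat_lit 305) (nat_lit 80))) (XT.nd (nat_lit 78) (nat_lit 0) (nat_lit 0) (XT.lf (nat_lit 0) (nat_lit 35880689204) (nat_lit 152) (nat_lit 30582327941) (nat_lit 228) (nat_lit 20920558258) (nat_lit 33) (nat_lit 5) (nat_lit 35) (nat_lit 5) (nat_lit 36) (nat_lit 5) (nat_lit 396) (nat_lit 305) (nat_lit 79)) (XT.lf (nat_lit 0) (nat_lit 69628091157) (nat_lit 152) (nat_lit 12188735611) (nat_lit 228) (nat_lit 7616973950) (nat_lit 33) (nat_lit 5) (nat_lit 35) (nat_lit 5) (nat_lit 36) (nat_lit 5) (nat_lit 397) (nat_lit 305) (nat_lit 78))))) (XT.nd (nat_lit 33618) (nat_lit 0) (nat_lit 12464) (XT.nd (nat_lit 33462) (nat_lit 0) (nat_lit 12464) (XT.lf (nat_lit 0) (nat_lit 6157660934) (nat_lit 152) (nat_lit 78570928342) (nat_lit 76) (nat_lit 6809468177) (nat_lit 31) (nat_lit 5) (nat_lit 33) (nat_lit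 5) (nat_lit 32) (nat_lit 5) (nat_lit 398) (nat_lit 305) (nat_lit 77)) (XT.nd (nat_lit 78) (nat_lit 0) (nat_lit 0) (XT.lf (nat_lit 0) (nat_lit 915590048) (nat_lit 0) (nat_lit 915590048) (nat_lit 1140) (nat_lit 6218533789) (nat_lit 195) (nat_lit 5) (nat_lit 195) (nat_lit 3) (nat_lit 210) (nat_lit 3) (nat_lit 306) (nat_lit 306) (nat_lit 168)) (XT.lf (nat_lit 0) (nat_lit 4015340609) (nat_lit 1140) (nat_lit 7012893483) (nat_lit 1216) (nat_lit 5303454690) (nat_lit 195) (nat_lit 5) (nat_lit 210) (nat_lit 3) (nat_lit 211) (nat_lit 5) (nat_lit 307) (nat_lit 306) (nat_lit 167)))) (XT.nd (nat_lit 156) (nat_lit 0) (nat_lit 76) (XT.nd (nat_lit 78) (nat_lit 0) (nat_lit 76) (XT.lf (nat_lit 76) (nat_lit 445538047) (nat_lit 0) (nat_lit 3946229167) (nat_lit 1216) (nat_lit 12178775989) (nat_lit 196) (nat_lit 5) (nat_lit 195) (nat_lit 5) (nat_lit 211) (nat_lit 5) (nat_lit 308) (nat_lit 306) (nat_lit 166)) (XT.lf (nat_lit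 0) (nat_lit 4873903055) (nat_lit 1140) (nat_lit 8581273062) (nat_lit 1216) (nat_lit 3358565598) (nat_lit 196) (nat_lit 5) (nat_lit 211) (nat_lit 5) (nat_lit 212) (nat_lit 5) (nat_lit 309) (nat_lit 306) (nat_lit 165))) (XT.nd (nat_lit 78) (nat_lit 0) (nat_lit 76) (XT.lf (nat_lit 0) (nat_lit 5400558547) (nat_lit 1140) (nat_lit 855570308) (nat_lit 1216) (nat_lit 10807216294) (nat_lit 196) (nat_lit 5) (nat_lit 211) (nat_lit 5) (nat_lit 212) (nat_lit 5) (nat_lit 310) (nat_lit 306) (nat_lit 164)) (XT.lf (nat_lit 0) (nat_lit 6015700447) (nat_lit 1140) (nat_lit 10092458846) (nat_lit 1216) (nat_lit 1210107113) (nat_lit 197) (nat_lit 5) (nat_lit 212) (nat_lit 5) (nat_lit 213) (nat_lit 5) (nat_lit 311) (nat_lit 306) (nat_lit 163)))))) (XT.nd (nat_lit 546) (nat_lit 1520) (nat_lit 0) (XT.nd (nat_lit 234) (nat_lit 0) (nat_lit 76) (XT.nd (nat_lit 78) (nat_lit 0) (nat_lit 0) (XT.lf (nat_lit 0) (nat_lit 6711449916)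 (nat_lit 1140) (nat_lit 2080804387) (nat_lit 1216) (nat_lit 8786726424) (nat_lit 197) (nat_lit 5) (nat_lit 212) (nat_lit 5) (nat_lit 213) (nat_lit 5) (nat_lit 312) (nat_lit 306) (nat_lit 162)) (XT.nd (nat_lit 78) (nat_lit 0) (nat_lit 76) (XT.lf (nat_lit 76) (nat_lit 6288705308) (nat_lit 0) (nat_lit 1191551732) (nat_lit 1216) (nat_lit 10365703611) (nat_lit 198) (nat_lit 5) (nat_lit 197) (nat_lit 5) (nat_lit 213) (nat_lit 5) (nat_lit 313) (nat_lit 306) (nat_lit 161)) (XT.lf (nat_lit 0) (nat_lit 8349102502) (nat_lit 1140) (nat_lit 3237811794) (nat_lit 1216) (nat_lit 6531735903) (nat_lit 198) (nat_lit 5) (nat_lit 213) (nat_lit 5) (nat_lit 214) (nat_lit 5) (nat_lit 314) (nat_lit 306) (nat_lit 160)))) (XT.nd (nat_lit 156) (nat_lit 0) (nat_lit 76) (XT.nd (nat_lit 78) (nat_lit 0) (nat_lit 76) (XT.lf (nat_lit 76) (nat_lit 5419899348) (nat_lit 0) (nat_lit 3880198754) (nat_lit 1216) (nat_lit 9097748959) (nat_lit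 199) (nat_lit 5) (nat_lit 198) (nat_lit 5) (nat_lit 214) (nat_lit 5) (nat_lit 315) (nat_lit 306) (nat_lit 159)) (XT.lf (nat_lit 0) (nat_lit 10344036372) (nat_lit 1140) (nat_lit 4325543411) (nat_lit 1216) (nat_lit 4013916567) (nat_lit 199) (nat_lit 5) (nat_lit 214) (nat_lit 5) (nat_lit 215) (nat_lit 5) (nat_lit 316) (nat_lit 306) (nat_lit 158))) (XT.nd (nat_lit 78) (nat_lit 0) (nat_lit 76) (XT.lf (nat_lit 76) (nat_lit 4633094194) (nat_lit 0) (nat_lit 6861762504) (nat_lit 1216) (nat_lit 7480600148) (nat_lit 200) (nat_lit 5) (nat_lit 199) (nat_lit 5) (nat_lit 215) (nat_lit 5) (nat_lit 317) (nat_lit 306) (nat_lit 157)) (XT.lf (nat_lit 0) (nat_lit 12728452486) (nat_lit 1140) (nat_lit 5343004590) (nat_lit 1216) (nat_lit 1203279951) (nat_lit 200) (nat_lit 5) (nat_lit 215) (nat_lit 5) (nat_lit 216) (nat_lit 5) (nat_lit 318) (nat_lit 306) (nat_lit 156))))) (XT.nd (nat_lit 234) (nat_lit 1748) (nat_lit 0)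 (XT.nd (nat_lit 78) (nat_lit 0) (nat_lit 0) (XT.lf (nat_lit 76) (nat_lit 3929718732) (nat_lit 0) (nat_lit 10168053632) (nat_lit 1216) (nat_lit 5482269911) (nat_lit 201) (nat_lit 5) (nat_lit 200) (nat_lit 5) (nat_lit 216) (nat_lit 5) (nat_lit 319) (nat_lit 306) (nat_lit 155)) (XT.nd (nat_lit 78) (nat_lit 0) (nat_lit 76) (XT.lf (nat_lit 76) (nat_lit 13584842457) (nat_lit 0) (nat_lit 1970439141) (nat_lit 1216) (nat_lit 4337819703) (nat_lit 201) (nat_lit 5) (nat_lit 200) (nat_lit 5) (nat_lit 216) (nat_lit 5) (nat_lit 320) (nat_lit 306) (nat_lit 154)) (XT.lf (nat_lit 76) (nat_lit 3311081052) (nat_lit 0) (nat_lit 13832856197) (nat_lit 1216) (nat_lit 3068999895) (nat_lit 202) (nat_lit 5) (nat_lit 201) (nat_lit 5) (nat_lit 217) (nat_lit 5) (nat_lit 321) (nat_lit 306) (nat_lit 153)))) (XT.nd (nat_lit 156) (nat_lit 760) (nat_lit 0) (XT.nd (nat_lit 78) (nat_lit 1064) (nat_lit 0) (XT.lf (nat_lit 76) (nat_lit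 13323094962) (nat_lit 0) (nat_lit 5533688220) (nat_lit 1216) (nat_lit 1683296423) (nat_lit 202) (nat_lit 5) (nat_lit 201) (nat_lit 5) (nat_lit 217) (nat_lit 5) (nat_lit 322) (nat_lit 306) (nat_lit 152)) (XT.lf (nat_lit 0) (nat_lit 2778296898) (nat_lit 1140) (nat_lit 17892112473) (nat_lit 1216) (nat_lit 205152361) (nat_lit 187) (nat_lit 5) (nat_lit 202) (nat_lit 5) (nat_lit 203) (nat_lit 5) (nat_lit 323) (nat_lit 306) (nat_lit 151))) (XT.nd (nat_lit 78) (nat_lit 684) (nat_lit 0) (XT.lf (nat_lit 0) (nat_lit 1413793568) (nat_lit 1216) (nat_lit 8071169462) (nat_lit 76) (nat_lit 11732107321) (nat_lit 186) (nat_lit 5) (nat_lit 202) (nat_lit 5) (nat_lit 187) (nat_lit 5) (nat_lit 324) (nat_lit 306) (nat_lit 150)) (XT.lf (nat_lit 0) (nat_lit 2293131744) (nat_lit 684) (nat_lit 800052622) (nat_lit 760) (nat_lit 18475105558) (nat_lit 177) (nat_lit 5) (nat_lit 186) (nat_lit 5) (nat_lit 187) (nat_lit 5) (nat_lit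 325) (nat_lit 306) (nat_lit 149))))))))
noncomputable def xc206 : XT := (XT.nd (nat_lit 2106) (nat_lit 3496) (nat_lit 0) (XT.nd (nat_lit 1014) (nat_lit 2888) (nat_lit 0) (XT.nd (nat_lit 468) (nat_lit 1520) (nat_lit 0) (XT.nd (nat_lit 234) (nat_lit 1064) (nat_lit 0) (XT.nd (nat_lit 78) (nat_lit 608) (nat_lit 0) (XT.lf (nat_lit 0) (nat_lit 4977654449) (nat_lit 760) (nat_lit 8878325164) (nat_lit 76) (nat_lit 8069431977) (nat_lit 177) (nat_lit 5) (nat_lit 187) (nat_lit 5) (nat_lit 178) (nat_lit 5) (nat_lit 326) (nat_lit 306) (nat_lit 148)) (XT.nd (nat_lit 78) (nat_lit 0) (nat_lit 0) (XT.lf (nat_lit 0) (nat_lit 1853384293) (nat_lit 608) (nat_lit 5085272681) (nat_lit 684) (nat_lit 15353996228) (nat_lit 169) (nat_lit 5) (nat_lit 177) (nat_lit 5) (nat_lit 178) (nat_lit 5) (nat_lit 327) (nat_lit 306) (nat_lit 147)) (XT.lf (nat_lit 0) (nat_lit 9081368809) (nat_lit 684) (nat_lit 9623424350) (nat_lit 76) (nat_lit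 3962438591) (nat_lit 169) (nat_lit 5) (nat_lit 178) (nat_lit 5) (nat_lit 170) (nat_lit 5) (nat_lit 328) (nat_lit 306) (nat_lit 146)))) (XT.nd (nat_lit 78) (nat_lit 532) (nat_lit 0) (XT.lf (nat_lit 0) (nat_lit 1490386097) (nat_lit 532) (nat_lit 9857197236) (nat_lit 608) (nat_lit 11703693568) (nat_lit 162) (nat_lit 5) (nat_lit 169) (nat_lit 5) (nat_lit 170) (nat_lit 5) (nat_lit 329) (nat_lit 306) (nat_lit 145)) (XT.nd (nat_lit 78) (nat_lit 532) (nat_lit 0) (XT.lf (nat_lit 0) (nat_lit 13129690011) (nat_lit 532) (nat_lit 643926558) (nat_lit 608) (nat_lit 9670477586) (nat_lit 162) (nat_lit 5) (nat_lit 169) (nat_lit 5) (nat_lit 170) (nat_lit 5) (nat_lit 330) (nat_lit 306) (nat_lit 144)) (XT.lf (nat_lit 0) (nat_lit 1202712607) (nat_lit 532) (nat_lit 15161121777) (nat_lit 608) (nat_lit 7482124984) (nat_lit 155) (nat_lit 5) (nat_lit 162) (nat_lit 5) (nat_lit 163) (nat_lit 5) (nat_lit 331) (nat_lit 306)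 (nat_lit 143))))) (XT.nd (nat_lit 234) (nat_lit 988) (nat_lit 0) (XT.nd (nat_lit 78) (nat_lit 532) (nat_lit 0) (XT.lf (nat_lit 0) (nat_lit 13265123571) (nat_lit 532) (nat_lit 5872016704) (nat_lit 608) (nat_lit 5119584204) (nat_lit 155) (nat_lit 5) (nat_lit 162) (nat_lit 5) (nat_lit 163) (nat_lit 5) (nat_lit 332) (nat_lit 306) (nat_lit 142)) (XT.nd (nat_lit 78) (nat_lit 76) (nat_lit 0) (XT.lf (nat_lit 0) (nat_lit 988196895) (nat_lit 456) (nat_lit 21045534347) (nat_lit 532) (nat_lit 2644883956) (nat_lit 149) (nat_lit 5) (nat_lit 155) (nat_lit 5) (nat_lit 156) (nat_lit 5) (nat_lit 333) (nat_lit 306) (nat_lit 141)) (XT.lf (nat_lit 0) (nat_lit 71263506) (nat_lit 532) (nat_lit 11620649264) (nat_lit 76) (nat_lit 13416322446) (nat_lit 148) (nat_lit 5) (nat_lit 155) (nat_lit 5) (nat_lit 149) (nat_lit 5) (nat_lit 334) (nat_lit 306) (nat_lit 140)))) (XT.nd (nat_lit 156) (nat_lit 456) (nat_lit 0) (XT.nd (nat_lit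 78) (nat_lit 0) (nat_lit 0) (XT.lf (nat_lit 0) (nat_lit 795493830) (nat_lit 532) (nat_lit 2023134103) (nat_lit 608) (nat_lit 22731248317) (nat_lit 141) (nat_lit 5) (nat_lit 148) (nat_lit 5) (nat_lit 149) (nat_lit 5) (nat_lit 335) (nat_lit 306) (nat_lit 139)) (XT.lf (nat_lit 0) (nat_lit 5838536193) (nat_lit 608) (nat_lit 12261504459) (nat_lit 76) (nat_lit 7899026824) (nat_lit 141) (nat_lit 5) (nat_lit 149) (nat_lit 5) (nat_lit 142) (nat_lit 5) (nat_lit 336) (nat_lit 306) (nat_lit 138))) (XT.nd (nat_lit 78) (nat_lit 0) (nat_lit 0) (XT.lf (nat_lit 0) (nat_lit 592697646) (nat_lit 456) (nat_lit 8377540813) (nat_lit 532) (nat_lit 17490864587) (nat_lit 135) (nat_lit 5) (nat_lit 141) (nat_lit 5) (nat_lit 142) (nat_lit 5) (nat_lit 337) (nat_lit 306) (nat_lit 137)) (XT.lf (nat_lit 0) (nat_lit 12332215161) (nat_lit 532) (nat_lit 12871449601) (nat_lit 76) (nat_lit 1729249604) (nat_lit 135) (nat_lit 5) (nat_lit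 142) (nat_lit 5) (nat_lit 136) (nat_lit 5) (nat_lit 338) (nat_lit 306) (nat_lit 136)))))) (XT.nd (nat_lit 546) (nat_lit 1520) (nat_lit 0) (XT.nd (nat_lit 234) (nat_lit 532) (nat_lit 0) (XT.nd (nat_lit 78) (nat_lit 380) (nat_lit 0) (XT.lf (nat_lit 0) (nat_lit 436044890) (nat_lit 456) (nat_lit 15441821395) (nat_lit 532) (nat_lit 11538533538) (nat_lit 129) (nat_lit 5) (nat_lit 135) (nat_lit 5) (nat_lit 136) (nat_lit 5) (nat_lit 339) (nat_lit 306) (nat_lit 135)) (XT.nd (nat_lit 78) (nat_lit 380) (nat_lit 0) (XT.lf (nat_lit 0) (nat_lit 14401731836) (nat_lit 456) (nat_lit 5253888096) (nat_lit 532) (nat_lit 8255002053) (nat_lit 129) (nat_lit 5) (nat_lit 135) (nat_lit 5) (nat_lit 136) (nat_lit 5) (nat_lit 340) (nat_lit 306) (nat_lit 134)) (XT.lf (nat_lit 0) (nat_lit 317686920) (nat_lit 380) (nat_lit 23278314306) (nat_lit 456) (nat_lit 4822194743) (nat_lit 124) (nat_lit 5) (nat_lit 129) (nat_lit 5) (nat_lit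 130) (nat_lit 5) (nat_lit 341) (nat_lit 306) (nat_lit 133)))) (XT.nd (nat_lit 156) (nat_lit 0) (nat_lit 0) (XT.nd (nat_lit 78) (nat_lit 532) (nat_lit 0) (XT.lf (nat_lit 0) (nat_lit 14778110189) (nat_lit 380) (nat_lit 13060353849) (nat_lit 456) (nat_lit 1097020924) (nat_lit 124) (nat_lit 5) (nat_lit 129) (nat_lit 5) (nat_lit 130) (nat_lit 5) (nat_lit 342) (nat_lit 306) (nat_lit 132)) (XT.lf (nat_lit 0) (nat_lit 176399361) (nat_lit 456) (nat_lit 2507762362) (nat_lit 532) (nat_lit 26783412868) (nat_lit 117) (nat_lit 5) (nat_lit 123) (nat_lit 5) (nat_lit 124) (nat_lit 5) (nat_lit 343) (nat_lit 306) (nat_lit 131))) (XT.nd (nat_lit 78) (nat_lit 0) (nat_lit 0) (XT.lf (nat_lit 0) (nat_lit 6777569175) (nat_lit 532) (nat_lit 14878416073) (nat_lit 76) (nat_lit 8352694224) (nat_lit 117) (nat_lit 5) (nat_lit 124) (nat_lit 5) (nat_lit 118) (nat_lit 5) (nat_lit 344) (nat_lit 306) (nat_lit 130)) (XT.lf (nat_lit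 0) (nat_lit 11014808387) (nat_lit 532) (nat_lit 62787962) (nat_lit 76) (nat_lit 19487793724) (nat_lit 117) (nat_lit 5) (nat_lit 124) (nat_lit 5) (nat_lit 118) (nat_lit 5) (nat_lit 345) (nat_lit 306) (nat_lit 129))))) (XT.nd (nat_lit 234) (nat_lit 760) (nat_lit 0) (XT.nd (nat_lit 78) (nat_lit 380) (nat_lit 0) (XT.lf (nat_lit 0) (nat_lit 15495126676) (nat_lit 380) (nat_lit 29297616) (nat_lit 456) (nat_lit 15610023271) (nat_lit 112) (nat_lit 5) (nat_lit 117) (nat_lit 5) (nat_lit 118) (nat_lit 5) (nat_lit 346) (nat_lit 306) (nat_lit 128)) (XT.nd (nat_lit 78) (nat_lit 380) (nat_lit 0) (XT.lf (nat_lit 0) (nat_lit 20275443052) (nat_lit 456) (nat_lit 313212682) (nat_lit 76) (nat_lit 11128740871) (nat_lit 112) (nat_lit 5) (nat_lit 118) (nat_lit 5) (nat_lit 113) (nat_lit 5) (nat_lit 347) (nat_lit 306) (nat_lit 127)) (XT.lf (nat_lit 0) (nat_lit 15775757708) (nat_lit 380) (nat_lit 9541643398) (nat_lit 456)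 (nat_lit 6995983917) (nat_lit 107) (nat_lit 5) (nat_lit 112) (nat_lit 5) (nat_lit 113) (nat_lit 5) (nat_lit 348) (nat_lit 306) (nat_lit 126)))) (XT.nd (nat_lit 156) (nat_lit 380) (nat_lit 0) (XT.nd (nat_lit 78) (nat_lit 380) (nat_lit 0) (XT.lf (nat_lit 0) (nat_lit 30527991648) (nat_lit 456) (nat_lit 595554844) (nat_lit 76) (nat_lit 1803188461) (nat_lit 107) (nat_lit 5) (nat_lit 113) (nat_lit 5) (nat_lit 108) (nat_lit 5) (nat_lit 349) (nat_lit 306) (nat_lit 125)) (XT.lf (nat_lit 0) (nat_lit 2538520118) (nat_lit 380) (nat_lit 17537128059) (nat_lit 76) (nat_lit 13474735405) (nat_lit 102) (nat_lit 5) (nat_lit 107) (nat_lit 5) (nat_lit 103) (nat_lit 5) (nat_lit 350) (nat_lit 306) (nat_lit 124))) (XT.nd (nat_lit 78) (nat_lit 380) (nat_lit 0) (XT.lf (nat_lit 0) (nat_lit 7578407951) (nat_lit 380) (nat_lit 1088253712) (nat_lit 76) (nat_lit 25525288755) (nat_lit 102) (nat_lit 5) (nat_lit 107) (nat_lit 5)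 (nat_lit 103) (nat_lit 5) (nat_lit 351) (nat_lit 306) (nat_lit 123)) (XT.lf (nat_lit 0) (nat_lit 12952805223) (nat_lit 456) (nat_lit 18714146410) (nat_lit 76) (nat_lit 3180315972) (nat_lit 97) (nat_lit 5) (nat_lit 103) (nat_lit 5) (nat_lit 98) (nat_lit 5) (nat_lit 352) (nat_lit 306) (nat_lit 122))))))) (XT.nd (nat_lit 1092) (nat_lit 1368) (nat_lit 0) (XT.nd (nat_lit 546) (nat_lit 1140) (nat_lit 0) (XT.nd (nat_lit 234) (nat_lit 684) (nat_lit 0) (XT.nd (nat_lit 78) (nat_lit 304) (nat_lit 0) (XT.lf (nat_lit 0) (nat_lit 18582128006) (nat_lit 456) (nat_lit 1718725757) (nat_lit 76) (nat_lit 15218582386) (nat_lit 97) (nat_lit 5) (nat_lit 103) (nat_lit 5) (nat_lit 98) (nat_lit 5) (nat_lit 353) (nat_lit 306) (nat_lit 121)) (XT.nd (nat_lit 78) (nat_lit 0) (nat_lit 0) (XT.lf (nat_lit 0) (nat_lit 16096444228) (nat_lit 304) (nat_lit 8435495723) (nat_lit 380) (nat_lit 11675284088) (nat_lit 93) (nat_lit 5) (nat_lit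 97) (nat_lit 5) (nat_lit 98) (nat_lit 5) (nat_lit 354) (nat_lit 306) (nat_lit 120)) (XT.lf (nat_lit 0) (nat_lit 30711086266) (nat_lit 380) (nat_lit 2474642415) (nat_lit 76) (nat_lit 3728394183) (nat_lit 93) (nat_lit 5) (nat_lit 98) (nat_lit 5) (nat_lit 94) (nat_lit 5) (nat_lit 355) (nat_lit 306) (nat_lit 119)))) (XT.nd (nat_lit 156) (nat_lit 304) (nat_lit 0) (XT.nd (nat_lit 78) (nat_lit 76) (nat_lit 0) (XT.lf (nat_lit 0) (nat_lit 15913456604) (nat_lit 304) (nat_lit 21395650455) (nat_lit 380) (nat_lit 326119018) (nat_lit 89) (nat_lit 5) (nat_lit 93) (nat_lit 5) (nat_lit 94) (nat_lit 5) (nat_lit 356) (nat_lit 306) (nat_lit 118)) (XT.lf (nat_lit 0) (nat_lit 5637612837) (nat_lit 380) (nat_lit 3532738788) (nat_lit 76) (nat_lit 29205293578) (nat_lit 88) (nat_lit 5) (nat_lit 93) (nat_lit 5) (nat_lit 89) (nat_lit 5) (nat_lit 357) (nat_lit 306) (nat_lit 117))) (XT.nd (nat_lit 78) (nat_lit 0) (nat_lit 0)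 (XT.lf (nat_lit 0) (nat_lit 11954170434) (nat_lit 380) (nat_lit 23671080561) (nat_lit 76) (nat_lit 3507517205) (nat_lit 84) (nat_lit 5) (nat_lit 89) (nat_lit 5) (nat_lit 85) (nat_lit 5) (nat_lit 358) (nat_lit 306) (nat_lit 116)) (XT.lf (nat_lit 0) (nat_lit 18584195260) (nat_lit 380) (nat_lit 4908387292) (nat_lit 76) (nat_lit 16416305378) (nat_lit 84) (nat_lit 5) (nat_lit 89) (nat_lit 5) (nat_lit 85) (nat_lit 5) (nat_lit 359) (nat_lit 306) (nat_lit 115))))) (XT.nd (nat_lit 234) (nat_lit 608) (nat_lit 0) (XT.nd (nat_lit 78) (nat_lit 228) (nat_lit 0) (XT.lf (nat_lit 0) (nat_lit 14700088555) (nat_lit 304) (nat_lit 10851569586) (nat_lit 380) (nat_lit 15152479082) (nat_lit 80) (nat_lit 5) (nat_lit 84) (nat_lit 5) (nat_lit 85) (nat_lit 5) (nat_lit 360) (nat_lit 306) (nat_lit 114)) (XT.nd (nat_lit 78) (nat_lit 228) (nat_lit 0) (XT.lf (nat_lit 0) (nat_lit 32796310084) (nat_lit 380) (nat_lit 6549642184)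 (nat_lit 76) (nat_lit 2175248802) (nat_lit 80) (nat_lit 5) (nat_lit 85) (nat_lit 5) (nat_lit 81) (nat_lit 5) (nat_lit 361) (nat_lit 306) (nat_lit 113)) (XT.lf (nat_lit 0) (nat_lit 13643317927) (nat_lit 228) (nat_lit 26850915311) (nat_lit 304) (nat_lit 1861467619) (nat_lit 77) (nat_lit 5) (nat_lit 80) (nat_lit 5) (nat_lit 81) (nat_lit 5) (nat_lit 362) (nat_lit 306) (nat_lit 112)))) (XT.nd (nat_lit 156) (nat_lit 228) (nat_lit 0) (XT.nd (nat_lit 78) (nat_lit 304) (nat_lit 0) (XT.lf (nat_lit 0) (nat_lit 5170383009) (nat_lit 304) (nat_lit 8691523488) (nat_lit 76) (nat_lit 29349904704) (nat_lit 76) (nat_lit 5) (nat_lit 80) (nat_lit 5) (nat_lit 77) (nat_lit 5) (nat_lit 363) (nat_lit 306) (nat_lit 111)) (XT.lf (nat_lit 0) (nat_lit 12144748137) (nat_lit 304) (nat_lit 345202399) (nat_lit 380) (nat_lit 31599677964) (nat_lit 72) (nat_lit 5) (nat_lit 76) (nat_lit 5) (nat_lit 77) (nat_lit 5) (nat_lit 364) (nat_lit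 306) (nat_lit 110))) (XT.nd (nat_lit 78) (nat_lit 228) (nat_lit 0) (XT.lf (nat_lit 0) (nat_lit 20245711471) (nat_lit 380) (nat_lit 11342051182) (nat_lit 76) (nat_lit 13399521226) (nat_lit 72) (nat_lit 5) (nat_lit 77) (nat_lit 5) (nat_lit 73) (nat_lit 5) (nat_lit 365) (nat_lit 306) (nat_lit 109)) (XT.lf (nat_lit 0) (nat_lit 10068222938) (nat_lit 228) (nat_lit 18263655645) (nat_lit 304) (nat_lit 17577060035) (nat_lit 69) (nat_lit 5) (nat_lit 72) (nat_lit 5) (nat_lit 73) (nat_lit 5) (nat_lit 366) (nat_lit 306) (nat_lit 108)))))) (XT.nd (nat_lit 546) (nat_lit 608) (nat_lit 0) (XT.nd (nat_lit 234) (nat_lit 456) (nat_lit 0) (XT.nd (nat_lit 78) (nat_lit 304) (nat_lit 0) (XT.lf (nat_lit 0) (nat_lit 32349652998) (nat_lit 228) (nat_lit 4423080498) (nat_lit 304) (nat_lit 10082148074) (nat_lit 69) (nat_lit 5) (nat_lit 72) (nat_lit 5) (nat_lit 73) (nat_lit 5) (nat_lit 367) (nat_lit 306) (nat_lit 107)) (XT.nd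 (nat_lit 78) (nat_lit 76) (nat_lit 0) (XT.lf (nat_lit 0) (nat_lit 7518918527) (nat_lit 228) (nat_lit 38112319673) (nat_lit 304) (nat_lit 2193033488) (nat_lit 66) (nat_lit 5) (nat_lit 69) (nat_lit 5) (nat_lit 70) (nat_lit 5) (nat_lit 368) (nat_lit 306) (nat_lit 106)) (XT.lf (nat_lit 0) (nat_lit 6006342313) (nat_lit 304) (nat_lit 18423109537) (nat_lit 76) (nat_lit 24385901580) (nat_lit 65) (nat_lit 5) (nat_lit 69) (nat_lit 5) (nat_lit 66) (nat_lit 5) (nat_lit 369) (nat_lit 306) (nat_lit 105)))) (XT.nd (nat_lit 156) (nat_lit 228) (nat_lit 0) (XT.nd (nat_lit 78) (nat_lit 0) (nat_lit 0) (XT.lf (nat_lit 0) (nat_lit 4171779216) (nat_lit 228) (nat_lit 10273652515) (nat_lit 304) (nat_lit 35388951657) (nat_lit 62) (nat_lit 5) (nat_lit 65) (nat_lit 5) (nat_lit 66) (nat_lit 5) (nat_lit 370) (nat_lit 306) (nat_lit 104)) (XT.lf (nat_lit 0) (nat_lit 23364702847) (nat_lit 304) (nat_lit 23103012932) (nat_lit 76)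 (nat_lit 4409459622) (nat_lit 62) (nat_lit 5) (nat_lit 66) (nat_lit 5) (nat_lit 63) (nat_lit 5) (nat_lit 371) (nat_lit 306) (nat_lit 103))) (XT.nd (nat_lit 78) (nat_lit 0) (nat_lit 0) (XT.lf (nat_lit 0) (nat_lit 28772865) (nat_lit 228) (nat_lit 32622571242) (nat_lit 304) (nat_lit 19296914690) (nat_lit 59) (nat_lit 5) (nat_lit 62) (nat_lit 5) (nat_lit 63) (nat_lit 5) (nat_lit 372) (nat_lit 306) (nat_lit 102)) (XT.lf (nat_lit 0) (nat_lit 24324699719) (nat_lit 228) (nat_lit 18123007608) (nat_lit 304) (nat_lit 10596835029) (nat_lit 59) (nat_lit 5) (nat_lit 62) (nat_lit 5) (nat_lit 63) (nat_lit 5) (nat_lit 373) (nat_lit 306) (nat_lit 101))))) (XT.nd (nat_lit 234) (nat_lit 380) (nat_lit 0) (XT.nd (nat_lit 78) (nat_lit 228) (nat_lit 0) (XT.lf (nat_lit 0) (nat_lit 49346201824) (nat_lit 228) (nat_lit 3189650484) (nat_lit 304) (nat_lit 1637926691) (nat_lit 59) (nat_lit 5) (nat_lit 62) (nat_lit 5) (nat_lit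 63) (nat_lit 5) (nat_lit 374) (nat_lit 306) (nat_lit 100)) (XT.nd (nat_lit 78) (nat_lit 0) (nat_lit 0) (XT.lf (nat_lit 0) (nat_lit 7752582985) (nat_lit 228) (nat_lit 35351366306) (nat_lit 76) (nat_lit 12221427838) (nat_lit 56) (nat_lit 5) (nat_lit 59) (nat_lit 5) (nat_lit 57) (nat_lit 5) (nat_lit 375) (nat_lit 306) (nat_lit 99)) (XT.lf (nat_lit 0) (nat_lit 17470648485) (nat_lit 228) (nat_lit 10943002125) (nat_lit 76) (nat_lit 28095024435) (nat_lit 56) (nat_lit 5) (nat_lit 59) (nat_lit 5) (nat_lit 57) (nat_lit 5) (nat_lit 376) (nat_lit 306) (nat_lit 98)))) (XT.nd (nat_lit 156) (nat_lit 152) (nat_lit 0) (XT.nd (nat_lit 78) (nat_lit 0) (nat_lit 0) (XT.lf (nat_lit 0) (nat_lit 14476937357) (nat_lit 228) (nat_lit 13140488326) (nat_lit 304) (nat_lit 30105932284) (nat_lit 53) (nat_lit 5) (nat_lit 56) (nat_lit 5) (nat_lit 57) (nat_lit 5) (nat_lit 377) (nat_lit 306) (nat_lit 97)) (XT.lf (nat_lit 0) (nat_lit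 38203133199) (nat_lit 304) (nat_lit 18116559972) (nat_lit 76) (nat_lit 2650753519) (nat_lit 53) (nat_lit 5) (nat_lit 57) (nat_lit 5) (nat_lit 54) (nat_lit 5) (nat_lit 378) (nat_lit 306) (nat_lit 96))) (XT.nd (nat_lit 78) (nat_lit 0) (nat_lit 0) (XT.lf (nat_lit 0) (nat_lit 7785926618) (nat_lit 152) (nat_lit 41523514814) (nat_lit 228) (nat_lit 10939416850) (nat_lit 51) (nat_lit 5) (nat_lit 53) (nat_lit 5) (nat_lit 54) (nat_lit 5) (nat_lit 379) (nat_lit 306) (nat_lit 95)) (XT.lf (nat_lit 0) (nat_lit 34833792400) (nat_lit 152) (nat_lit 26096197167) (nat_lit 228) (nat_lit 630202196) (nat_lit 51) (nat_lit 5) (nat_lit 53) (nat_lit 5) (nat_lit 54) (nat_lit 5) (nat_lit 380) (nat_lit 306) (nat_lit 94))))))))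
noncomputable def xc207 : XT := (XT.nd (nat_lit 35646) (nat_lit 0) (nat_lit 6384) (XT.nd (nat_lit 1092) (nat_lit 152) (nat_lit 0) (XT.nd (nat_lit 546) (nat_lit 532) (nat_lit 0) (XT.nd (nat_lit 234) (nat_lit 380) (nat_lit 0) (XT.nd (nat_lit 78) (nat_lit 228) (nat_lit 0) (XT.lf (nat_lit 0) (nat_lit 9791526219) (nat_lit 228) (nat_lit 316800349) (nat_lit 76) (nat_lit 52799714928) (nat_lit 50) (nat_lit 5) (nat_lit 53) (nat_lit 5) (nat_lit 51) (nat_lit 5) (nat_lit 381) (nat_lit 306) (nat_lit 93)) (XT.nd (nat_lit 78) (nat_lit 0) (nat_lit 0) (XT.lf (nat_lit 0) (nat_lit 20838716383) (nat_lit 304) (nat_lit 36941275318) (nat_lit 76) (nat_lit 6506384511) (nat_lit 47) (nat_lit 5) (nat_lit 51) (nat_lit 5) (nat_lit 48) (nat_lit 5) (nat_lit 382) (nat_lit 306) (nat_lit 92)) (XT.lf (nat_lit 0) (nat_lit 32318848079) (nat_lit 304) (nat_lit 9965668461) (nat_lit 76) (nat_lit 23418499598) (nat_lit 47) (nat_lit 5) (nat_lit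 51) (nat_lit 5) (nat_lit 48) (nat_lit 5) (nat_lit 383) (nat_lit 306) (nat_lit 91)))) (XT.nd (nat_lit 156) (nat_lit 228) (nat_lit 0) (XT.nd (nat_lit 78) (nat_lit 0) (nat_lit 0) (XT.lf (nat_lit 0) (nat_lit 18170929983) (nat_lit 152) (nat_lit 26145388547) (nat_lit 228) (nat_lit 22840649602) (nat_lit 45) (nat_lit 5) (nat_lit 47) (nat_lit 5) (nat_lit 48) (nat_lit 5) (nat_lit 384) (nat_lit 306) (nat_lit 90)) (XT.lf (nat_lit 0) (nat_lit 47353083910) (nat_lit 152) (nat_lit 9419550952) (nat_lit 228) (nat_lit 11878937058) (nat_lit 45) (nat_lit 5) (nat_lit 47) (nat_lit 5) (nat_lit 48) (nat_lit 5) (nat_lit 385) (nat_lit 306) (nat_lit 89))) (XT.nd (nat_lit 78) (nat_lit 76) (nat_lit 0) (XT.lf (nat_lit 0) (nat_lit 7283982697) (nat_lit 152) (nat_lit 62462059449) (nat_lit 228) (nat_lit 440670495) (nat_lit 43) (nat_lit 5) (nat_lit 45) (nat_lit 5) (nat_lit 46) (nat_lit 5) (nat_lit 386) (nat_lit 306) (nat_lit 88))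 (XT.lf (nat_lit 0) (nat_lit 11428243107) (nat_lit 228) (nat_lit 34808129715) (nat_lit 76) (nat_lit 25519001213) (nat_lit 42) (nat_lit 5) (nat_lit 45) (nat_lit 5) (nat_lit 43) (nat_lit 5) (nat_lit 387) (nat_lit 306) (nat_lit 87))))) (XT.nd (nat_lit 234) (nat_lit 380) (nat_lit 0) (XT.nd (nat_lit 78) (nat_lit 152) (nat_lit 0) (XT.lf (nat_lit 0) (nat_lit 23642748167) (nat_lit 228) (nat_lit 5877766675) (nat_lit 76) (nat_lit 43850498893) (nat_lit 42) (nat_lit 5) (nat_lit 45) (nat_lit 5) (nat_lit 43) (nat_lit 5) (nat_lit 388) (nat_lit 306) (nat_lit 86)) (XT.nd (nat_lit 78) (nat_lit 0) (nat_lit 0) (XT.lf (nat_lit 0) (nat_lit 24393886721) (nat_lit 152) (nat_lit 12062718864) (nat_lit 228) (nat_lit 38571530292) (nat_lit 40) (nat_lit 5) (nat_lit 42) (nat_lit 5) (nat_lit 43) (nat_lit 5) (nat_lit 389) (nat_lit 306) (nat_lit 85)) (XT.lf (nat_lit 0) (nat_lit 49770154345) (nat_lit 228) (nat_lit 21099140219) (nat_lit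 76) (nat_lit 5862219593) (nat_lit 40) (nat_lit 5) (nat_lit 43) (nat_lit 5) (nat_lit 41) (nat_lit 5) (nat_lit 390) (nat_lit 306) (nat_lit 84)))) (XT.nd (nat_lit 156) (nat_lit 228) (nat_lit 0) (XT.nd (nat_lit 78) (nat_lit 0) (nat_lit 0) (XT.lf (nat_lit 0) (nat_lit 9383120184) (nat_lit 152) (nat_lit 54308102812) (nat_lit 228) (nat_lit 14788528109) (nat_lit 38) (nat_lit 5) (nat_lit 40) (nat_lit 5) (nat_lit 41) (nat_lit 5) (nat_lit 391) (nat_lit 306) (nat_lit 83)) (XT.lf (nat_lit 0) (nat_lit 41209817849) (nat_lit 152) (nat_lit 37031669791) (nat_lit 228) (nat_lit 2032601304) (nat_lit 38) (nat_lit 5) (nat_lit 40) (nat_lit 5) (nat_lit 41) (nat_lit 5) (nat_lit 392) (nat_lit 306) (nat_lit 82))) (XT.nd (nat_lit 78) (nat_lit 152) (nat_lit 0) (XT.lf (nat_lit 0) (nat_lit 10887817690) (nat_lit 228) (nat_lit 8240196235) (nat_lit 76) (nat_lit 62991084947) (nat_lit 37) (nat_lit 5) (nat_lit 40) (nat_lit 5) (nat_lit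 38) (nat_lit 5) (nat_lit 393) (nat_lit 306) (nat_lit 81)) (XT.lf (nat_lit 0) (nat_lit 23953469265) (nat_lit 152) (nat_lit 430357372) (nat_lit 228) (nat_lit 59628164441) (nat_lit 35) (nat_lit 5) (nat_lit 37) (nat_lit 5) (nat_lit 38) (nat_lit 5) (nat_lit 394) (nat_lit 306) (nat_lit 80)))))) (XT.nd (nat_lit 34008) (nat_lit 0) (nat_lit 12388) (XT.nd (nat_lit 234) (nat_lit 0) (nat_lit 0) (XT.nd (nat_lit 78) (nat_lit 152) (nat_lit 0) (XT.lf (nat_lit 0) (nat_lit 38548322092) (nat_lit 228) (nat_lit 28861560165) (nat_lit 76) (nat_lit 18543880228) (nat_lit 35) (nat_lit 5) (nat_lit 38) (nat_lit 5) (nat_lit 36) (nat_lit 5) (nat_lit 395) (nat_lit 306) (nat_lit 79)) (XT.nd (nat_lit 78) (nat_lit 0) (nat_lit 0) (XT.lf (nat_lit 0) (nat_lit 3329659155) (nat_lit 152) (nat_lit 49842986281) (nat_lit 228) (nat_lit 34780095412) (nat_lit 33) (nat_lit 5) (nat_lit 35) (nat_lit 5) (nat_lit 36) (nat_lit 5) (nat_lit 396) (nat_lit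 306) (nat_lit 78)) (XT.lf (nat_lit 0) (nat_lit 37075908064) (nat_lit 152) (nat_lit 31449878464) (nat_lit 228) (nat_lit 21477199980) (nat_lit 33) (nat_lit 5) (nat_lit 35) (nat_lit 5) (nat_lit 36) (nat_lit 5) (nat_lit 397) (nat_lit 306) (nat_lit 77)))) (XT.nd (nat_lit 33618) (nat_lit 0) (nat_lit 12312) (XT.nd (nat_lit 33540) (nat_lit 0) (nat_lit 12312) (XT.lf (nat_lit 0) (nat_lit 71832271934) (nat_lit 152) (nat_lit 12505932325) (nat_lit 228) (nat_lit 7776575376) (nat_lit 33) (nat_lit 5) (nat_lit 35) (nat_lit 5) (nat_lit 36) (nat_lit 5) (nat_lit 398) (nat_lit 306) (nat_lit 76)) (XT.lf (nat_lit 0) (nat_lit 1064900336) (nat_lit 0) (nat_lit 1064900336) (nat_lit 1140) (nat_lit 6153807799) (nat_lit 195) (nat_lit 5) (nat_lit 195) (nat_lit 3) (nat_lit 210) (nat_lit 3) (nat_lit 307) (nat_lit 307) (nat_lit 166))) (XT.nd (nat_lit 78) (nat_lit 0) (nat_lit 0) (XT.lf (nat_lit 0) (nat_lit 4606701697) (nat_lit 1140)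 (nat_lit 6969667390) (nat_lit 1216) (nat_lit 5230587460) (nat_lit 195) (nat_lit 5) (nat_lit 210) (nat_lit 3) (nat_lit 211) (nat_lit 5) (nat_lit 308) (nat_lit 307) (nat_lit 165)) (XT.lf (nat_lit 76) (nat_lit 710030685) (nat_lit 0) (nat_lit 4273088836) (nat_lit 1216) (nat_lit 12070212315) (nat_lit 196) (nat_lit 5) (nat_lit 195) (nat_lit 5) (nat_lit 211) (nat_lit 5) (nat_lit 309) (nat_lit 307) (nat_lit 164))))) (XT.nd (nat_lit 234) (nat_lit 0) (nat_lit 76) (XT.nd (nat_lit 78) (nat_lit 0) (nat_lit 0) (XT.lf (nat_lit 0) (nat_lit 5464387451) (nat_lit 1140) (nat_lit 8579043169) (nat_lit 1216) (nat_lit 3260871363) (nat_lit 196) (nat_lit 5) (nat_lit 211) (nat_lit 5) (nat_lit 212) (nat_lit 5) (nat_lit 310) (nat_lit 307) (nat_lit 163)) (XT.nd (nat_lit 78) (nat_lit 0) (nat_lit 76) (XT.lf (nat_lit 0) (nat_lit 5993902784) (nat_lit 1140) (nat_lit 629132480) (nat_lit 1216) (nat_lit 10938761711) (nat_lit 196) (nat_lit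 5) (nat_lit 211) (nat_lit 5) (nat_lit 212) (nat_lit 5) (nat_lit 311) (nat_lit 307) (nat_lit 162)) (XT.lf (nat_lit 0) (nat_lit 6615686773) (nat_lit 1140) (nat_lit 10130821620) (nat_lit 1216) (nat_lit 1078226660) (nat_lit 197) (nat_lit 5) (nat_lit 212) (nat_lit 5) (nat_lit 213) (nat_lit 5) (nat_lit 312) (nat_lit 307) (nat_lit 161)))) (XT.nd (nat_lit 156) (nat_lit 0) (nat_lit 76) (XT.nd (nat_lit 78) (nat_lit 0) (nat_lit 0) (XT.lf (nat_lit 0) (nat_lit 7320089833) (nat_lit 1140) (nat_lit 1886518817) (nat_lit 1216) (nat_lit 8887043104) (nat_lit 197) (nat_lit 5) (nat_lit 212) (nat_lit 5) (nat_lit 213) (nat_lit 5) (nat_lit 313) (nat_lit 307) (nat_lit 160)) (XT.lf (nat_lit 76) (nat_lit 6731559406) (nat_lit 0) (nat_lit 1370982220) (nat_lit 1216) (nat_lit 10266396002) (nat_lit 198) (nat_lit 5) (nat_lit 197) (nat_lit 5) (nat_lit 213) (nat_lit 5) (nat_lit 314) (nat_lit 307) (nat_lit 159))) (XT.nd (nat_lit 78)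 (nat_lit 0) (nat_lit 0) (XT.lf (nat_lit 0) (nat_lit 8984522856) (nat_lit 1140) (nat_lit 3074775313) (nat_lit 1216) (nat_lit 6590911140) (nat_lit 198) (nat_lit 5) (nat_lit 213) (nat_lit 5) (nat_lit 214) (nat_lit 5) (nat_lit 315) (nat_lit 307) (nat_lit 158)) (XT.lf (nat_lit 76) (nat_lit 5840116468) (nat_lit 0) (nat_lit 4115196201) (nat_lit 1216) (nat_lit 8982744642) (nat_lit 199) (nat_lit 5) (nat_lit 198) (nat_lit 5) (nat_lit 214) (nat_lit 5) (nat_lit 316) (nat_lit 307) (nat_lit 157))))))) (XT.nd (nat_lit 1092) (nat_lit 3420) (nat_lit 0) (XT.nd (nat_lit 546) (nat_lit 2812) (nat_lit 0) (XT.nd (nat_lit 234) (nat_lit 0) (nat_lit 76) (XT.nd (nat_lit 78) (nat_lit 0) (nat_lit 0) (XT.lf (nat_lit 0) (nat_lit 11018504697) (nat_lit 1140) (nat_lit 4192702650) (nat_lit 1216) (nat_lit 4021443444) (nat_lit 199) (nat_lit 5) (nat_lit 214) (nat_lit 5) (nat_lit 215) (nat_lit 5) (nat_lit 317) (nat_lit 307) (nat_lit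 156)) (XT.nd (nat_lit 78) (nat_lit 0) (nat_lit 76) (XT.lf (nat_lit 76) (nat_lit 5032119504) (nat_lit 0) (nat_lit 7163623491) (nat_lit 1216) (nat_lit 7337882717) (nat_lit 200) (nat_lit 5) (nat_lit 199) (nat_lit 5) (nat_lit 215) (nat_lit 5) (nat_lit 318) (nat_lit 307) (nat_lit 155)) (XT.lf (nat_lit 0) (nat_lit 13455080532) (nat_lit 1140) (nat_lit 5239168308) (nat_lit 1216) (nat_lit 1147985488) (nat_lit 200) (nat_lit 5) (nat_lit 215) (nat_lit 5) (nat_lit 216) (nat_lit 5) (nat_lit 319) (nat_lit 307) (nat_lit 154)))) (XT.nd (nat_lit 156) (nat_lit 0) (nat_lit 76) (XT.nd (nat_lit 78) (nat_lit 0) (nat_lit 0) (XT.lf (nat_lit 76) (nat_lit 4309147240) (nat_lit 0) (nat_lit 10548804846) (nat_lit 1216) (nat_lit 5298984183) (nat_lit 201) (nat_lit 5) (nat_lit 200) (nat_lit 5) (nat_lit 216) (nat_lit 5) (nat_lit 320) (nat_lit 307) (nat_lit 153)) (XT.lf (nat_lit 76) (nat_lit 14246307096) (nat_lit 0) (nat_lit 2103056786)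 (nat_lit 1216) (nat_lit 4130329221) (nat_lit 201) (nat_lit 5) (nat_lit 200) (nat_lit 5) (nat_lit 216) (nat_lit 5) (nat_lit 321) (nat_lit 307) (nat_lit 152))) (XT.nd (nat_lit 78) (nat_lit 0) (nat_lit 0) (XT.lf (nat_lit 76) (nat_lit 3672644312) (nat_lit 0) (nat_lit 14305333007) (nat_lit 1216) (nat_lit 2831388784) (nat_lit 202) (nat_lit 5) (nat_lit 201) (nat_lit 5) (nat_lit 217) (nat_lit 5) (nat_lit 322) (nat_lit 307) (nat_lit 151)) (XT.lf (nat_lit 76) (nat_lit 13977380847) (nat_lit 0) (nat_lit 5755515491) (nat_lit 1216) (nat_lit 1413716570) (nat_lit 202) (nat_lit 5) (nat_lit 201) (nat_lit 5) (nat_lit 217) (nat_lit 5) (nat_lit 323) (nat_lit 307) (nat_lit 150))))) (XT.nd (nat_lit 234) (nat_lit 1140) (nat_lit 0) (XT.nd (nat_lit 78) (nat_lit 684) (nat_lit 0) (XT.lf (nat_lit 0) (nat_lit 99527854) (nat_lit 1216) (nat_lit 18369508496) (nat_lit 76) (nat_lit 3023315513) (nat_lit 186) (nat_lit 5) (nat_lit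 202) (nat_lit 5) (nat_lit 187) (nat_lit 5) (nat_lit 324) (nat_lit 307) (nat_lit 149)) (XT.nd (nat_lit 78) (nat_lit 684) (nat_lit 0) (XT.lf (nat_lit 0) (nat_lit 1753985459) (nat_lit 1216) (nat_lit 8052486030) (nat_lit 76) (nat_lit 12037851112) (nat_lit 186) (nat_lit 5) (nat_lit 202) (nat_lit 5) (nat_lit 187) (nat_lit 5) (nat_lit 325) (nat_lit 307) (nat_lit 148)) (XT.lf (nat_lit 0) (nat_lit 2620187168) (nat_lit 684) (nat_lit 857380232) (nat_lit 760) (nat_lit 18728706589) (nat_lit 177) (nat_lit 5) (nat_lit 186) (nat_lit 5) (nat_lit 187) (nat_lit 5) (nat_lit 326) (nat_lit 307) (nat_lit 147)))) (XT.nd (nat_lit 156) (nat_lit 532) (nat_lit 0) (XT.nd (nat_lit 78) (nat_lit 608) (nat_lit 0) (XT.lf (nat_lit 0) (nat_lit 5409767727) (nat_lit 760) (nat_lit 8884823993) (nat_lit 76) (nat_lit 8279790935) (nat_lit 177) (nat_lit 5) (nat_lit 187) (nat_lit 5) (nat_lit 178) (nat_lit 5) (nat_lit 327) (nat_lit 307) (nat_lit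 146)) (XT.lf (nat_lit 0) (nat_lit 2166289191) (nat_lit 608) (nat_lit 5257548077) (nat_lit 684) (nat_lit 15528986102) (nat_lit 169) (nat_lit 5) (nat_lit 177) (nat_lit 5) (nat_lit 178) (nat_lit 5) (nat_lit 328) (nat_lit 307) (nat_lit 145))) (XT.nd (nat_lit 78) (nat_lit 532) (nat_lit 0) (XT.lf (nat_lit 0) (nat_lit 9622577884) (nat_lit 684) (nat_lit 9653775304) (nat_lit 76) (nat_lit 4062542367) (nat_lit 169) (nat_lit 5) (nat_lit 178) (nat_lit 5) (nat_lit 170) (nat_lit 5) (nat_lit 329) (nat_lit 307) (nat_lit 144)) (XT.lf (nat_lit 0) (nat_lit 1790916596) (nat_lit 532) (nat_lit 10160493141) (nat_lit 608) (nat_lit 11783221847) (nat_lit 162) (nat_lit 5) (nat_lit 169) (nat_lit 5) (nat_lit 170) (nat_lit 5) (nat_lit 330) (nat_lit 307) (nat_lit 143)))))) (XT.nd (nat_lit 546) (nat_lit 1824) (nat_lit 0) (XT.nd (nat_lit 234) (nat_lit 1064) (nat_lit 0) (XT.nd (nat_lit 78) (nat_lit 532) (nat_lit 0) (XT.lf (nat_lit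 0) (nat_lit 13771948591) (nat_lit 532) (nat_lit 670603566) (nat_lit 608) (nat_lit 9696919556) (nat_lit 162) (nat_lit 5) (nat_lit 169) (nat_lit 5) (nat_lit 170) (nat_lit 5) (nat_lit 331) (nat_lit 307) (nat_lit 142)) (XT.nd (nat_lit 78) (nat_lit 0) (nat_lit 0) (XT.lf (nat_lit 0) (nat_lit 1492664304) (nat_lit 532) (nat_lit 15612735517) (nat_lit 608) (nat_lit 7448153327) (nat_lit 155) (nat_lit 5) (nat_lit 162) (nat_lit 5) (nat_lit 163) (nat_lit 5) (nat_lit 332) (nat_lit 307) (nat_lit 141)) (XT.lf (nat_lit 0) (nat_lit 13909553317) (nat_lit 532) (nat_lit 6045051075) (nat_lit 608) (nat_lit 5022263569) (nat_lit 155) (nat_lit 5) (nat_lit 162) (nat_lit 5) (nat_lit 163) (nat_lit 5) (nat_lit 333) (nat_lit 307) (nat_lit 140)))) (XT.nd (nat_lit 156) (nat_lit 532) (nat_lit 0) (XT.nd (nat_lit 78) (nat_lit 76) (nat_lit 0) (XT.lf (nat_lit 0) (nat_lit 1269356806) (nat_lit 456) (nat_lit 21664095302) (nat_lit 532)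 (nat_lit 2478110030) (nat_lit 149) (nat_lit 5) (nat_lit 155) (nat_lit 5) (nat_lit 156) (nat_lit 5) (nat_lit 334) (nat_lit 307) (nat_lit 139)) (XT.lf (nat_lit 0) (nat_lit 307690487) (nat_lit 532) (nat_lit 11720181694) (nat_lit 76) (nat_lit 13826345536) (nat_lit 148) (nat_lit 5) (nat_lit 155) (nat_lit 5) (nat_lit 149) (nat_lit 5) (nat_lit 335) (nat_lit 307) (nat_lit 138))) (XT.nd (nat_lit 78) (nat_lit 0) (nat_lit 0) (XT.lf (nat_lit 0) (nat_lit 1066003663) (nat_lit 532) (nat_lit 2067019133) (nat_lit 608) (nat_lit 23176225648) (nat_lit 141) (nat_lit 5) (nat_lit 148) (nat_lit 5) (nat_lit 149) (nat_lit 5) (nat_lit 336) (nat_lit 307) (nat_lit 137)) (XT.lf (nat_lit 0) (nat_lit 6236990922) (nat_lit 608) (nat_lit 12383128686) (nat_lit 76) (nat_lit 8151998589) (nat_lit 141) (nat_lit 5) (nat_lit 149) (nat_lit 5) (nat_lit 142) (nat_lit 5) (nat_lit 337) (nat_lit 307) (nat_lit 136))))) (XT.nd (nat_lit 234) (nat_lit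 912) (nat_lit 0) (XT.nd (nat_lit 78) (nat_lit 456) (nat_lit 0) (XT.lf (nat_lit 0) (nat_lit 854285552) (nat_lit 456) (nat_lit 8604198483) (nat_lit 532) (nat_lit 17789662084) (nat_lit 135) (nat_lit 5) (nat_lit 141) (nat_lit 5) (nat_lit 142) (nat_lit 5) (nat_lit 338) (nat_lit 307) (nat_lit 135)) (XT.nd (nat_lit 78) (nat_lit 456) (nat_lit 0) (XT.lf (nat_lit 0) (nat_lit 12915167588) (nat_lit 532) (nat_lit 13014525257) (nat_lit 76) (nat_lit 1804609793) (nat_lit 135) (nat_lit 5) (nat_lit 142) (nat_lit 5) (nat_lit 136) (nat_lit 5) (nat_lit 339) (nat_lit 307) (nat_lit 134)) (XT.lf (nat_lit 0) (nat_lit 689811050) (nat_lit 456) (nat_lit 15873487330) (nat_lit 532) (nat_lit 11669117079) (nat_lit 129) (nat_lit 5) (nat_lit 135) (nat_lit 5) (nat_lit 136) (nat_lit 5) (nat_lit 340) (nat_lit 307) (nat_lit 133)))) (XT.nd (nat_lit 156) (nat_lit 532) (nat_lit 0) (XT.nd (nat_lit 78) (nat_lit 380) (nat_lit 0) (XT.lf (nat_lit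 0) (nat_lit 15067458367) (nat_lit 456) (nat_lit 5380836092) (nat_lit 532) (nat_lit 8293358459) (nat_lit 129) (nat_lit 5) (nat_lit 135) (nat_lit 5) (nat_lit 136) (nat_lit 5) (nat_lit 341) (nat_lit 307) (nat_lit 132)) (XT.lf (nat_lit 0) (nat_lit 564535343) (nat_lit 380) (nat_lit 23939006518) (nat_lit 456) (nat_lit 4761018374) (nat_lit 124) (nat_lit 5) (nat_lit 129) (nat_lit 5) (nat_lit 130) (nat_lit 5) (nat_lit 342) (nat_lit 307) (nat_lit 131))) (XT.nd (nat_lit 78) (nat_lit 532) (nat_lit 0) (XT.lf (nat_lit 0) (nat_lit 15451859140) (nat_lit 380) (nat_lit 13415604059) (nat_lit 456) (nat_lit 930084745) (nat_lit 124) (nat_lit 5) (nat_lit 129) (nat_lit 5) (nat_lit 130) (nat_lit 5) (nat_lit 343) (nat_lit 307) (nat_lit 130)) (XT.lf (nat_lit 0) (nat_lit 413878619) (nat_lit 456) (nat_lit 2543279760) (nat_lit 532) (nat_lit 27388493776) (nat_lit 117) (nat_lit 5) (nat_lit 123) (nat_lit 5) (nat_lit 124) (nat_lit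 5) (nat_lit 344) (nat_lit 307) (nat_lit 129))))))))
noncomputable def xc208 : XT := (XT.nd (nat_lit 2106) (nat_lit 2204) (nat_lit 0) (XT.nd (nat_lit 1014) (nat_lit 2052) (nat_lit 0) (XT.nd (nat_lit 468) (nat_lit 1368) (nat_lit 0) (XT.nd (nat_lit 234) (nat_lit 380) (nat_lit 0) (XT.nd (nat_lit 78) (nat_lit 380) (nat_lit 0) (XT.lf (nat_lit 0) (nat_lit 7168132731) (nat_lit 532) (nat_lit 15093938282) (nat_lit 76) (nat_lit 8641081342) (nat_lit 117) (nat_lit 5) (nat_lit 124) (nat_lit 5) (nat_lit 118) (nat_lit 5) (nat_lit 345) (nat_lit 307) (nat_lit 128)) (XT.nd (nat_lit 78) (nat_lit 0) (nat_lit 0) (XT.lf (nat_lit 0) (nat_lit 162608538) (nat_lit 380) (nat_lit 11365990183) (nat_lit 456) (nat_lit 19948087227) (nat_lit 112) (nat_lit 5) (nat_lit 117) (nat_lit 5) (nat_lit 118) (nat_lit 5) (nat_lit 346) (nat_lit 307) (nat_lit 127)) (XT.lf (nat_lit 0) (nat_lit 16168904535) (nat_lit 456) (nat_lit 15881197350)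 (nat_lit 76) (nat_lit 12856054) (nat_lit 112) (nat_lit 5) (nat_lit 118) (nat_lit 5) (nat_lit 113) (nat_lit 5) (nat_lit 347) (nat_lit 307) (nat_lit 126)))) (XT.nd (nat_lit 78) (nat_lit 380) (nat_lit 0) (XT.lf (nat_lit 0) (nat_lit 21057529246) (nat_lit 456) (nat_lit 102208007) (nat_lit 76) (nat_lit 11503810618) (nat_lit 112) (nat_lit 5) (nat_lit 118) (nat_lit 5) (nat_lit 113) (nat_lit 5) (nat_lit 348) (nat_lit 307) (nat_lit 125)) (XT.nd (nat_lit 78) (nat_lit 0) (nat_lit 0) (XT.lf (nat_lit 0) (nat_lit 16467270701) (nat_lit 380) (nat_lit 9780510397) (nat_lit 456) (nat_lit 7029728333) (nat_lit 107) (nat_lit 5) (nat_lit 112) (nat_lit 5) (nat_lit 113) (nat_lit 5) (nat_lit 349) (nat_lit 307) (nat_lit 124)) (XT.lf (nat_lit 0) (nat_lit 31610155112) (nat_lit 456) (nat_lit 396856502) (nat_lit 76) (nat_lit 1902388681) (nat_lit 107) (nat_lit 5) (nat_lit 113) (nat_lit 5) (nat_lit 108) (nat_lit 5) (nat_lit 350)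 (nat_lit 307) (nat_lit 123))))) (XT.nd (nat_lit 234) (nat_lit 608) (nat_lit 0) (XT.nd (nat_lit 78) (nat_lit 380) (nat_lit 0) (XT.lf (nat_lit 0) (nat_lit 2779975545) (nat_lit 380) (nat_lit 17845371752) (nat_lit 76) (nat_lit 13926450241) (nat_lit 102) (nat_lit 5) (nat_lit 107) (nat_lit 5) (nat_lit 103) (nat_lit 5) (nat_lit 351) (nat_lit 307) (nat_lit 122)) (XT.nd (nat_lit 78) (nat_lit 380) (nat_lit 0) (XT.lf (nat_lit 0) (nat_lit 7966245455) (nat_lit 380) (nat_lit 909376908) (nat_lit 76) (nat_lit 26337137490) (nat_lit 102) (nat_lit 5) (nat_lit 107) (nat_lit 5) (nat_lit 103) (nat_lit 5) (nat_lit 352) (nat_lit 307) (nat_lit 121)) (XT.lf (nat_lit 0) (nat_lit 13499709949) (nat_lit 456) (nat_lit 19061751087) (nat_lit 76) (nat_lit 3326344377) (nat_lit 97) (nat_lit 5) (nat_lit 103) (nat_lit 5) (nat_lit 98) (nat_lit 5) (nat_lit 353) (nat_lit 307) (nat_lit 120)))) (XT.nd (nat_lit 156) (nat_lit 304) (nat_lit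 0) (XT.nd (nat_lit 78) (nat_lit 304) (nat_lit 0) (XT.lf (nat_lit 0) (nat_lit 19293301137) (nat_lit 456) (nat_lit 1562695573) (nat_lit 76) (nat_lit 15724284446) (nat_lit 97) (nat_lit 5) (nat_lit 103) (nat_lit 5) (nat_lit 98) (nat_lit 5) (nat_lit 354) (nat_lit 307) (nat_lit 119)) (XT.lf (nat_lit 0) (nat_lit 16784894296) (nat_lit 304) (nat_lit 8634212112) (nat_lit 380) (nat_lit 11869675000) (nat_lit 93) (nat_lit 5) (nat_lit 97) (nat_lit 5) (nat_lit 98) (nat_lit 5) (nat_lit 355) (nat_lit 307) (nat_lit 118))) (XT.nd (nat_lit 78) (nat_lit 304) (nat_lit 0) (XT.lf (nat_lit 0) (nat_lit 31779730203) (nat_lit 380) (nat_lit 2345295607) (nat_lit 76) (nat_lit 3891981881) (nat_lit 93) (nat_lit 5) (nat_lit 98) (nat_lit 5) (nat_lit 94) (nat_lit 5) (nat_lit 356) (nat_lit 307) (nat_lit 117)) (XT.lf (nat_lit 0) (nat_lit 16592450442) (nat_lit 304) (nat_lit 21980888364) (nat_lit 380) (nat_lit 186479259) (nat_lit 89)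 (nat_lit 5) (nat_lit 93) (nat_lit 5) (nat_lit 94) (nat_lit 5) (nat_lit 357) (nat_lit 307) (nat_lit 116)))))) (XT.nd (nat_lit 546) (nat_lit 1064) (nat_lit 0) (XT.nd (nat_lit 234) (nat_lit 608) (nat_lit 0) (XT.nd (nat_lit 78) (nat_lit 304) (nat_lit 0) (XT.lf (nat_lit 0) (nat_lit 5948981554) (nat_lit 380) (nat_lit 3440062130) (nat_lit 76) (nat_lit 30133494287) (nat_lit 88) (nat_lit 5) (nat_lit 93) (nat_lit 5) (nat_lit 89) (nat_lit 5) (nat_lit 358) (nat_lit 307) (nat_lit 115)) (XT.nd (nat_lit 78) (nat_lit 0) (nat_lit 0) (XT.lf (nat_lit 0) (nat_lit 12453329120) (nat_lit 380) (nat_lit 24180741206) (nat_lit 76) (nat_lit 3668358722) (nat_lit 84) (nat_lit 5) (nat_lit 89) (nat_lit 5) (nat_lit 85) (nat_lit 5) (nat_lit 359) (nat_lit 307) (nat_lit 114)) (XT.lf (nat_lit 0) (nat_lit 19278161479) (nat_lit 380) (nat_lit 4861006122) (nat_lit 76) (nat_lit 16962790656) (nat_lit 84) (nat_lit 5) (nat_lit 89) (nat_lit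 5) (nat_lit 85) (nat_lit 5) (nat_lit 360) (nat_lit 307) (nat_lit 113)))) (XT.nd (nat_lit 156) (nat_lit 304) (nat_lit 0) (XT.nd (nat_lit 78) (nat_lit 0) (nat_lit 0) (XT.lf (nat_lit 0) (nat_lit 15333815835) (nat_lit 304) (nat_lit 11118711007) (nat_lit 380) (nat_lit 15468604831) (nat_lit 80) (nat_lit 5) (nat_lit 84) (nat_lit 5) (nat_lit 85) (nat_lit 5) (nat_lit 361) (nat_lit 307) (nat_lit 112)) (XT.lf (nat_lit 0) (nat_lit 33911151220) (nat_lit 380) (nat_lit 6555555859) (nat_lit 76) (nat_lit 2296104287) (nat_lit 80) (nat_lit 5) (nat_lit 85) (nat_lit 5) (nat_lit 81) (nat_lit 5) (nat_lit 362) (nat_lit 307) (nat_lit 111))) (XT.nd (nat_lit 78) (nat_lit 76) (nat_lit 0) (XT.lf (nat_lit 0) (nat_lit 14241324667) (nat_lit 228) (nat_lit 27596687239) (nat_lit 304) (nat_lit 1784397075) (nat_lit 77) (nat_lit 5) (nat_lit 80) (nat_lit 5) (nat_lit 81) (nat_lit 5) (nat_lit 363) (nat_lit 307) (nat_lit 110)) (XT.lf (nat_lit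 0) (nat_lit 5452019675) (nat_lit 304) (nat_lit 8766451284) (nat_lit 76) (nat_lit 30285809890) (nat_lit 76) (nat_lit 5) (nat_lit 80) (nat_lit 5) (nat_lit 77) (nat_lit 5) (nat_lit 364) (nat_lit 307) (nat_lit 109))))) (XT.nd (nat_lit 234) (nat_lit 532) (nat_lit 0) (XT.nd (nat_lit 78) (nat_lit 228) (nat_lit 0) (XT.lf (nat_lit 0) (nat_lit 12693086746) (nat_lit 304) (nat_lit 296170965) (nat_lit 380) (nat_lit 32419235040) (nat_lit 72) (nat_lit 5) (nat_lit 76) (nat_lit 5) (nat_lit 77) (nat_lit 5) (nat_lit 365) (nat_lit 307) (nat_lit 108)) (XT.nd (nat_lit 78) (nat_lit 228) (nat_lit 0) (XT.lf (nat_lit 0) (nat_lit 20974616337) (nat_lit 380) (nat_lit 11500516698) (nat_lit 76) (nat_lit 13858039525) (nat_lit 72) (nat_lit 5) (nat_lit 77) (nat_lit 5) (nat_lit 73) (nat_lit 5) (nat_lit 366) (nat_lit 307) (nat_lit 107)) (XT.lf (nat_lit 0) (nat_lit 10550283332) (nat_lit 228) (nat_lit 18751275723) (nat_lit 304) (nat_lit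 17980974613) (nat_lit 69) (nat_lit 5) (nat_lit 72) (nat_lit 5) (nat_lit 73) (nat_lit 5) (nat_lit 367) (nat_lit 307) (nat_lit 106)))) (XT.nd (nat_lit 156) (nat_lit 304) (nat_lit 0) (XT.nd (nat_lit 78) (nat_lit 228) (nat_lit 0) (XT.lf (nat_lit 0) (nat_lit 33494913176) (nat_lit 228) (nat_lit 4497239329) (nat_lit 304) (nat_lit 10264809386) (nat_lit 69) (nat_lit 5) (nat_lit 72) (nat_lit 5) (nat_lit 73) (nat_lit 5) (nat_lit 368) (nat_lit 307) (nat_lit 105)) (XT.lf (nat_lit 0) (nat_lit 7920517254) (nat_lit 228) (nat_lit 39194747943) (nat_lit 304) (nat_lit 2140205231) (nat_lit 66) (nat_lit 5) (nat_lit 69) (nat_lit 5) (nat_lit 70) (nat_lit 5) (nat_lit 369) (nat_lit 307) (nat_lit 104))) (XT.nd (nat_lit 78) (nat_lit 228) (nat_lit 0) (XT.lf (nat_lit 0) (nat_lit 6299449643) (nat_lit 304) (nat_lit 18802579191) (nat_lit 76) (nat_lit 25174325374) (nat_lit 65) (nat_lit 5) (nat_lit 69) (nat_lit 5) (nat_lit 66) (nat_lit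 5) (nat_lit 370) (nat_lit 307) (nat_lit 103)) (XT.lf (nat_lit 0) (nat_lit 4468457954) (nat_lit 228) (nat_lit 10521613751) (nat_lit 304) (nat_lit 36335934669) (nat_lit 62) (nat_lit 5) (nat_lit 65) (nat_lit 5) (nat_lit 66) (nat_lit 5) (nat_lit 371) (nat_lit 307) (nat_lit 102))))))) (XT.nd (nat_lit 1092) (nat_lit 912) (nat_lit 0) (XT.nd (nat_lit 546) (nat_lit 608) (nat_lit 0) (XT.nd (nat_lit 234) (nat_lit 456) (nat_lit 0) (XT.nd (nat_lit 78) (nat_lit 228) (nat_lit 0) (XT.lf (nat_lit 0) (nat_lit 24174242151) (nat_lit 304) (nat_lit 23626826880) (nat_lit 76) (nat_lit 4599095525) (nat_lit 62) (nat_lit 5) (nat_lit 66) (nat_lit 5) (nat_lit 63) (nat_lit 5) (nat_lit 372) (nat_lit 307) (nat_lit 101)) (XT.nd (nat_lit 78) (nat_lit 0) (nat_lit 0) (XT.lf (nat_lit 0) (nat_lit 197252918) (nat_lit 228) (nat_lit 33540677912) (nat_lit 304) (nat_lit 19765498163) (nat_lit 59) (nat_lit 5) (nat_lit 62) (nat_lit 5) (nat_lit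 63) (nat_lit 5) (nat_lit 373) (nat_lit 307) (nat_lit 100)) (XT.lf (nat_lit 0) (nat_lit 25217175533) (nat_lit 228) (nat_lit 18607891557) (nat_lit 304) (nat_lit 10807629432) (nat_lit 59) (nat_lit 5) (nat_lit 62) (nat_lit 5) (nat_lit 63) (nat_lit 5) (nat_lit 374) (nat_lit 307) (nat_lit 99)))) (XT.nd (nat_lit 156) (nat_lit 228) (nat_lit 0) (XT.nd (nat_lit 78) (nat_lit 228) (nat_lit 0) (XT.lf (nat_lit 0) (nat_lit 50984582852) (nat_lit 228) (nat_lit 3228246523) (nat_lit 304) (nat_lit 1583073572) (nat_lit 59) (nat_lit 5) (nat_lit 62) (nat_lit 5) (nat_lit 63) (nat_lit 5) (nat_lit 375) (nat_lit 307) (nat_lit 98)) (XT.lf (nat_lit 0) (nat_lit 8086233674) (nat_lit 228) (nat_lit 36250875245) (nat_lit 76) (nat_lit 12644938532) (nat_lit 56) (nat_lit 5) (nat_lit 59) (nat_lit 5) (nat_lit 57) (nat_lit 5) (nat_lit 376) (nat_lit 307) (nat_lit 97))) (XT.nd (nat_lit 78) (nat_lit 228) (nat_lit 0) (XT.lf (nat_lit 0) (nat_lit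 18092897259) (nat_lit 228) (nat_lit 11114950393) (nat_lit 76) (nat_lit 28993086682) (nat_lit 56) (nat_lit 5) (nat_lit 59) (nat_lit 5) (nat_lit 57) (nat_lit 5) (nat_lit 377) (nat_lit 307) (nat_lit 96)) (XT.lf (nat_lit 0) (nat_lit 15066054511) (nat_lit 228) (nat_lit 13476653245) (nat_lit 304) (nat_lit 30909392750) (nat_lit 53) (nat_lit 5) (nat_lit 56) (nat_lit 5) (nat_lit 57) (nat_lit 5) (nat_lit 378) (nat_lit 307) (nat_lit 95))))) (XT.nd (nat_lit 234) (nat_lit 456) (nat_lit 0) (XT.nd (nat_lit 78) (nat_lit 152) (nat_lit 0) (XT.lf (nat_lit 0) (nat_lit 39443710023) (nat_lit 304) (nat_lit 18507426457) (nat_lit 76) (nat_lit 2785535319) (nat_lit 53) (nat_lit 5) (nat_lit 57) (nat_lit 5) (nat_lit 54) (nat_lit 5) (nat_lit 379) (nat_lit 307) (nat_lit 94)) (XT.nd (nat_lit 78) (nat_lit 0) (nat_lit 0) (XT.lf (nat_lit 0) (nat_lit 8170638356) (nat_lit 152) (nat_lit 42711270012) (nat_lit 228) (nat_lit 11171567913)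 (nat_lit 51) (nat_lit 5) (nat_lit 53) (nat_lit 5) (nat_lit 54) (nat_lit 5) (nat_lit 380) (nat_lit 307) (nat_lit 93)) (XT.lf (nat_lit 0) (nat_lit 36025538151) (nat_lit 152) (nat_lit 26822820707) (nat_lit 228) (nat_lit 555873851) (nat_lit 51) (nat_lit 5) (nat_lit 53) (nat_lit 5) (nat_lit 54) (nat_lit 5) (nat_lit 381) (nat_lit 307) (nat_lit 92)))) (XT.nd (nat_lit 156) (nat_lit 152) (nat_lit 0) (XT.nd (nat_lit 78) (nat_lit 228) (nat_lit 0) (XT.lf (nat_lit 0) (nat_lit 10174024502) (nat_lit 228) (nat_lit 182031972) (nat_lit 76) (nat_lit 54436515885) (nat_lit 50) (nat_lit 5) (nat_lit 53) (nat_lit 5) (nat_lit 51) (nat_lit 5) (nat_lit 382) (nat_lit 307) (nat_lit 91)) (XT.lf (nat_lit 0) (nat_lit 21551950328) (nat_lit 304) (nat_lit 37904514733) (nat_lit 76) (nat_lit 6755813850) (nat_lit 47) (nat_lit 5) (nat_lit 51) (nat_lit 5) (nat_lit 48) (nat_lit 5) (nat_lit 383) (nat_lit 307) (nat_lit 90))) (XT.nd (nat_lit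 78) (nat_lit 152) (nat_lit 0) (XT.lf (nat_lit 0) (nat_lit 33373920758) (nat_lit 304) (nat_lit 10123862937) (nat_lit 76) (nat_lit 24173712648) (nat_lit 47) (nat_lit 5) (nat_lit 51) (nat_lit 5) (nat_lit 48) (nat_lit 5) (nat_lit 384) (nat_lit 307) (nat_lit 89)) (XT.lf (nat_lit 0) (nat_lit 18855453307) (nat_lit 152) (nat_lit 26874711467) (nat_lit 228) (nat_lit 23438937952) (nat_lit 45) (nat_lit 5) (nat_lit 47) (nat_lit 5) (nat_lit 48) (nat_lit 5) (nat_lit 385) (nat_lit 307) (nat_lit 88)))))) (XT.nd (nat_lit 546) (nat_lit 380) (nat_lit 0) (XT.nd (nat_lit 234) (nat_lit 304) (nat_lit 0) (XT.nd (nat_lit 78) (nat_lit 228) (nat_lit 0) (XT.lf (nat_lit 0) (nat_lit 48909011791) (nat_lit 152) (nat_lit 9648701814) (nat_lit 228) (nat_lit 12150906005) (nat_lit 45) (nat_lit 5) (nat_lit 47) (nat_lit 5) (nat_lit 48) (nat_lit 5) (nat_lit 386) (nat_lit 307) (nat_lit 87)) (XT.nd (nat_lit 78) (nat_lit 76) (nat_lit 0)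 (XT.lf (nat_lit 0) (nat_lit 7638477065) (nat_lit 152) (nat_lit 64281266383) (nat_lit 228) (nat_lit 370089731) (nat_lit 43) (nat_lit 5) (nat_lit 45) (nat_lit 5) (nat_lit 46) (nat_lit 5) (nat_lit 387) (nat_lit 307) (nat_lit 86)) (XT.lf (nat_lit 0) (nat_lit 11850862848) (nat_lit 228) (nat_lit 35718732653) (nat_lit 76) (nat_lit 26336007711) (nat_lit 42) (nat_lit 5) (nat_lit 45) (nat_lit 5) (nat_lit 43) (nat_lit 5) (nat_lit 388) (nat_lit 307) (nat_lit 85)))) (XT.nd (nat_lit 156) (nat_lit 152) (nat_lit 0) (XT.nd (nat_lit 78) (nat_lit 152) (nat_lit 0) (XT.lf (nat_lit 0) (nat_lit 24429479590) (nat_lit 228) (nat_lit 5924351177) (nat_lit 76) (nat_lit 45215952172) (nat_lit 42) (nat_lit 5) (nat_lit 45) (nat_lit 5) (nat_lit 43) (nat_lit 5) (nat_lit 389) (nat_lit 307) (nat_lit 84)) (XT.lf (nat_lit 0) (nat_lit 25254179777) (nat_lit 152) (nat_lit 12372552152) (nat_lit 228) (nat_lit 39649918538) (nat_lit 40) (nat_lit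 5) (nat_lit 42) (nat_lit 5) (nat_lit 43) (nat_lit 5) (nat_lit 390) (nat_lit 307) (nat_lit 83))) (XT.nd (nat_lit 78) (nat_lit 152) (nat_lit 0) (XT.lf (nat_lit 0) (nat_lit 51337946836) (nat_lit 228) (nat_lit 21605604116) (nat_lit 76) (nat_lit 6087632421) (nat_lit 40) (nat_lit 5) (nat_lit 43) (nat_lit 5) (nat_lit 41) (nat_lit 5) (nat_lit 391) (nat_lit 307) (nat_lit 82)) (XT.lf (nat_lit 0) (nat_lit 9789883802) (nat_lit 152) (nat_lit 55885792542) (nat_lit 228) (nat_lit 15156221257) (nat_lit 38) (nat_lit 5) (nat_lit 40) (nat_lit 5) (nat_lit 41) (nat_lit 5) (nat_lit 392) (nat_lit 307) (nat_lit 81))))) (XT.nd (nat_lit 234) (nat_lit 152) (nat_lit 0) (XT.nd (nat_lit 78) (nat_lit 228) (nat_lit 0) (XT.lf (nat_lit 0) (nat_lit 42567733756) (nat_lit 152) (nat_lit 38092568085) (nat_lit 228) (nat_lit 2019829154) (nat_lit 38) (nat_lit 5) (nat_lit 40) (nat_lit 5) (nat_lit 41) (nat_lit 5) (nat_lit 393) (nat_lit 307)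 (nat_lit 80)) (XT.nd (nat_lit 78) (nat_lit 152) (nat_lit 0) (XT.lf (nat_lit 0) (nat_lit 11284657131) (nat_lit 228) (nat_lit 8367894299) (nat_lit 76) (nat_lit 64927982656) (nat_lit 37) (nat_lit 5) (nat_lit 40) (nat_lit 5) (nat_lit 38) (nat_lit 5) (nat_lit 394) (nat_lit 307) (nat_lit 79)) (XT.lf (nat_lit 0) (nat_lit 24790409521) (nat_lit 152) (nat_lit 394229542) (nat_lit 228) (nat_lit 61345602134) (nat_lit 35) (nat_lit 5) (nat_lit 37) (nat_lit 5) (nat_lit 38) (nat_lit 5) (nat_lit 395) (nat_lit 307) (nat_lit 78)))) (XT.nd (nat_lit 33774) (nat_lit 0) (nat_lit 12312) (XT.nd (nat_lit 78) (nat_lit 152) (nat_lit 0) (XT.lf (nat_lit 0) (nat_lit 39772508663) (nat_lit 228) (nat_lit 29610926967) (nat_lit 76) (nat_lit 19146877831) (nat_lit 35) (nat_lit 5) (nat_lit 38) (nat_lit 5) (nat_lit 36) (nat_lit 5) (nat_lit 396) (nat_lit 307) (nat_lit 77)) (XT.lf (nat_lit 0) (nat_lit 3544886972) (nat_lit 152) (nat_lit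 51289810516) (nat_lit 228) (nat_lit 35754590482) (nat_lit 33) (nat_lit 5) (nat_lit 35) (nat_lit 5) (nat_lit 36) (nat_lit 5) (nat_lit 397) (nat_lit 307) (nat_lit 76))) (XT.nd (nat_lit 78) (nat_lit 0) (nat_lit 0) (XT.lf (nat_lit 0) (nat_lit 1211695670) (nat_lit 0) (nat_lit 1211695670) (nat_lit 1140) (nat_lit 6101564644) (nat_lit 195) (nat_lit 5) (nat_lit 195) (nat_lit 3) (nat_lit 210) (nat_lit 3) (nat_lit 308) (nat_lit 308) (nat_lit 164)) (XT.lf (nat_lit 0) (nat_lit 5188771980) (nat_lit 1140) (nat_lit 6939702931) (nat_lit 1216) (nat_lit 5168850289) (nat_lit 195) (nat_lit 5) (nat_lit 210) (nat_lit 3) (nat_lit 211) (nat_lit 5) (nat_lit 309) (nat_lit 308) (nat_lit 163))))))))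
noncomputable def xc209 : XT := (XT.nd (nat_lit 2184) (nat_lit 4940) (nat_lit 0) (XT.nd (nat_lit 1092) (nat_lit 4104) (nat_lit 0) (XT.nd (nat_lit 546) (nat_lit 0) (nat_lit 228) (XT.nd (nat_lit 234) (nat_lit 0) (nat_lit 152) (XT.nd (nat_lit 78) (nat_lit 0) (nat_lit 76) (XT.lf (nat_lit 76) (nat_lit 968042414) (nat_lit 0) (nat_lit 4597787104) (nat_lit 1216) (nat_lit 11985597077) (nat_lit 196) (nat_lit 5) (nat_lit 195) (nat_lit 5) (nat_lit 211) (nat_lit 5) (nat_lit 310) (nat_lit 308) (nat_lit 162)) (XT.nd (nat_lit 78) (nat_lit 0) (nat_lit 0) (XT.lf (nat_lit 0) (nat_lit 6047083618) (nat_lit 1140) (nat_lit 8591652389) (nat_lit 1216) (nat_lit 3171638211) (nat_lit 196) (nat_lit 5) (nat_lit 211) (nat_lit 5) (nat_lit 212) (nat_lit 5) (nat_lit 311) (nat_lit 308) (nat_lit 161)) (XT.lf (nat_lit 0) (nat_lit 6580287385) (nat_lit 1140) (nat_lit 410373372) (nat_lit 1216) (nat_lit 11085313600) (nat_lit 196) (nat_lit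 5) (nat_lit 211) (nat_lit 5) (nat_lit 212) (nat_lit 5) (nat_lit 312) (nat_lit 308) (nat_lit 160)))) (XT.nd (nat_lit 156) (nat_lit 0) (nat_lit 0) (XT.nd (nat_lit 78) (nat_lit 0) (nat_lit 0) (XT.lf (nat_lit 0) (nat_lit 7209590793) (nat_lit 1140) (nat_lit 10185513550) (nat_lit 1216) (nat_lit 952044223) (nat_lit 197) (nat_lit 5) (nat_lit 212) (nat_lit 5) (nat_lit 213) (nat_lit 5) (nat_lit 313) (nat_lit 308) (nat_lit 159)) (XT.lf (nat_lit 0) (nat_lit 7923608467) (nat_lit 1140) (nat_lit 1701140868) (nat_lit 1216) (nat_lit 8999742517) (nat_lit 197) (nat_lit 5) (nat_lit 212) (nat_lit 5) (nat_lit 213) (nat_lit 5) (nat_lit 314) (nat_lit 308) (nat_lit 158))) (XT.nd (nat_lit 78) (nat_lit 0) (nat_lit 76) (XT.lf (nat_lit 76) (nat_lit 7173107413) (nat_lit 0) (nat_lit 1547547577) (nat_lit 1216) (nat_lit 10187660842) (nat_lit 198) (nat_lit 5) (nat_lit 197) (nat_lit 5) (nat_lit 213) (nat_lit 5) (nat_lit 315) (nat_lit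 308) (nat_lit 157)) (XT.lf (nat_lit 0) (nat_lit 9616908272) (nat_lit 1140) (nat_lit 2921782609) (nat_lit 1216) (nat_lit 6659713185) (nat_lit 198) (nat_lit 5) (nat_lit 213) (nat_lit 5) (nat_lit 214) (nat_lit 5) (nat_lit 316) (nat_lit 308) (nat_lit 156))))) (XT.nd (nat_lit 234) (nat_lit 0) (nat_lit 152) (XT.nd (nat_lit 78) (nat_lit 0) (nat_lit 76) (XT.lf (nat_lit 76) (nat_lit 6258151652) (nat_lit 0) (nat_lit 4350435936) (nat_lit 1216) (nat_lit 8886559354) (nat_lit 199) (nat_lit 5) (nat_lit 198) (nat_lit 5) (nat_lit 214) (nat_lit 5) (nat_lit 317) (nat_lit 308) (nat_lit 155)) (XT.nd (nat_lit 78) (nat_lit 0) (nat_lit 0) (XT.lf (nat_lit 0) (nat_lit 11692303531) (nat_lit 1140) (nat_lit 4070951387) (nat_lit 1216) (nat_lit 4035676512) (nat_lit 199) (nat_lit 5) (nat_lit 214) (nat_lit 5) (nat_lit 215) (nat_lit 5) (nat_lit 318) (nat_lit 308) (nat_lit 154)) (XT.lf (nat_lit 76) (nat_lit 5428188644) (nat_lit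 0) (nat_lit 7469029048) (nat_lit 1216) (nat_lit 7211958839) (nat_lit 200) (nat_lit 5) (nat_lit 199) (nat_lit 5) (nat_lit 215) (nat_lit 5) (nat_lit 319) (nat_lit 308) (nat_lit 153)))) (XT.nd (nat_lit 156) (nat_lit 0) (nat_lit 0) (XT.nd (nat_lit 78) (nat_lit 0) (nat_lit 0) (XT.lf (nat_lit 0) (nat_lit 14183715955) (nat_lit 1140) (nat_lit 5147378874) (nat_lit 1216) (nat_lit 1096278516) (nat_lit 200) (nat_lit 5) (nat_lit 215) (nat_lit 5) (nat_lit 216) (nat_lit 5) (nat_lit 320) (nat_lit 308) (nat_lit 152)) (XT.lf (nat_lit 76) (nat_lit 4684945312) (nat_lit 0) (nat_lit 10936632555) (nat_lit 1216) (nat_lit 5130162375) (nat_lit 201) (nat_lit 5) (nat_lit 200) (nat_lit 5) (nat_lit 216) (nat_lit 5) (nat_lit 321) (nat_lit 308) (nat_lit 151))) (XT.nd (nat_lit 78) (nat_lit 0) (nat_lit 76) (XT.lf (nat_lit 76) (nat_lit 14913039663) (nat_lit 0) (nat_lit 2235433502) (nat_lit 1216) (nat_lit 3935995084) (nat_lit 201)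 (nat_lit 5) (nat_lit 200) (nat_lit 5) (nat_lit 216) (nat_lit 5) (nat_lit 322) (nat_lit 308) (nat_lit 150)) (XT.lf (nat_lit 76) (nat_lit 4030001347) (nat_lit 0) (nat_lit 14788683894) (nat_lit 1216) (nat_lit 2605574383) (nat_lit 202) (nat_lit 5) (nat_lit 201) (nat_lit 5) (nat_lit 217) (nat_lit 5) (nat_lit 323) (nat_lit 308) (nat_lit 149)))))) (XT.nd (nat_lit 546) (nat_lit 2128) (nat_lit 0) (XT.nd (nat_lit 234) (nat_lit 1292) (nat_lit 0) (XT.nd (nat_lit 78) (nat_lit 1140) (nat_lit 0) (XT.lf (nat_lit 76) (nat_lit 14636680628) (nat_lit 0) (nat_lit 5980793478) (nat_lit 1216) (nat_lit 1154423150) (nat_lit 202) (nat_lit 5) (nat_lit 201) (nat_lit 5) (nat_lit 217) (nat_lit 5) (nat_lit 324) (nat_lit 308) (nat_lit 148)) (XT.nd (nat_lit 78) (nat_lit 0) (nat_lit 0) (XT.lf (nat_lit 0) (nat_lit 391618626) (nat_lit 1216) (nat_lit 18667371891) (nat_lit 76) (nat_lit 3069141747) (nat_lit 186) (nat_lit 5) (nat_lit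 202) (nat_lit 5) (nat_lit 187) (nat_lit 5) (nat_lit 325) (nat_lit 308) (nat_lit 147)) (XT.lf (nat_lit 0) (nat_lit 2087289428) (nat_lit 1216) (nat_lit 8048214145) (nat_lit 76) (nat_lit 12355420401) (nat_lit 186) (nat_lit 5) (nat_lit 202) (nat_lit 5) (nat_lit 187) (nat_lit 5) (nat_lit 326) (nat_lit 308) (nat_lit 146)))) (XT.nd (nat_lit 156) (nat_lit 608) (nat_lit 0) (XT.nd (nat_lit 78) (nat_lit 0) (nat_lit 0) (XT.lf (nat_lit 0) (nat_lit 2942228990) (nat_lit 684) (nat_lit 914514621) (nat_lit 760) (nat_lit 19007174313) (nat_lit 177) (nat_lit 5) (nat_lit 186) (nat_lit 5) (nat_lit 187) (nat_lit 5) (nat_lit 327) (nat_lit 308) (nat_lit 145)) (XT.lf (nat_lit 0) (nat_lit 5838611465) (nat_lit 760) (nat_lit 8906434292) (nat_lit 76) (nat_lit 8498281750) (nat_lit 177) (nat_lit 5) (nat_lit 187) (nat_lit 5) (nat_lit 178) (nat_lit 5) (nat_lit 328) (nat_lit 308) (nat_lit 144))) (XT.nd (nat_lit 78) (nat_lit 0) (nat_lit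 0) (XT.lf (nat_lit 0) (nat_lit 2473810969) (nat_lit 608) (nat_lit 5433859887) (nat_lit 684) (nat_lit 15725622005) (nat_lit 169) (nat_lit 5) (nat_lit 177) (nat_lit 5) (nat_lit 178) (nat_lit 5) (nat_lit 329) (nat_lit 308) (nat_lit 143)) (XT.lf (nat_lit 0) (nat_lit 10164594847) (nat_lit 684) (nat_lit 9699867236) (nat_lit 76) (nat_lit 4166726697) (nat_lit 169) (nat_lit 5) (nat_lit 178) (nat_lit 5) (nat_lit 170) (nat_lit 5) (nat_lit 330) (nat_lit 308) (nat_lit 142))))) (XT.nd (nat_lit 234) (nat_lit 1064) (nat_lit 0) (XT.nd (nat_lit 78) (nat_lit 532) (nat_lit 0) (XT.lf (nat_lit 0) (nat_lit 2085777957) (nat_lit 532) (nat_lit 10472452801) (nat_lit 608) (nat_lit 11880725923) (nat_lit 162) (nat_lit 5) (nat_lit 169) (nat_lit 5) (nat_lit 170) (nat_lit 5) (nat_lit 331) (nat_lit 308) (nat_lit 141)) (XT.nd (nat_lit 78) (nat_lit 532) (nat_lit 0) (XT.lf (nat_lit 0) (nat_lit 14419217596) (nat_lit 532) (nat_lit 697658436)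 (nat_lit 608) (nat_lit 9739290658) (nat_lit 162) (nat_lit 5) (nat_lit 169) (nat_lit 5) (nat_lit 170) (nat_lit 5) (nat_lit 332) (nat_lit 308) (nat_lit 140)) (XT.lf (nat_lit 0) (nat_lit 1776741358) (nat_lit 532) (nat_lit 16078082504) (nat_lit 608) (nat_lit 7427997771) (nat_lit 155) (nat_lit 5) (nat_lit 162) (nat_lit 5) (nat_lit 163) (nat_lit 5) (nat_lit 333) (nat_lit 308) (nat_lit 139)))) (XT.nd (nat_lit 156) (nat_lit 608) (nat_lit 0) (XT.nd (nat_lit 78) (nat_lit 456) (nat_lit 0) (XT.lf (nat_lit 0) (nat_lit 14559167222) (nat_lit 532) (nat_lit 6223455929) (nat_lit 608) (nat_lit 4936426470) (nat_lit 155) (nat_lit 5) (nat_lit 162) (nat_lit 5) (nat_lit 163) (nat_lit 5) (nat_lit 334) (nat_lit 308) (nat_lit 138)) (XT.lf (nat_lit 0) (nat_lit 1544513581) (nat_lit 456) (nat_lit 22301948149) (nat_lit 532) (nat_lit 2320461207) (nat_lit 149) (nat_lit 5) (nat_lit 155) (nat_lit 5) (nat_lit 156) (nat_lit 5) (nat_lit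 335) (nat_lit 308) (nat_lit 137))) (XT.nd (nat_lit 78) (nat_lit 532) (nat_lit 0) (XT.lf (nat_lit 0) (nat_lit 537761126) (nat_lit 532) (nat_lit 11836998712) (nat_lit 76) (nat_lit 14248236870) (nat_lit 148) (nat_lit 5) (nat_lit 155) (nat_lit 5) (nat_lit 149) (nat_lit 5) (nat_lit 336) (nat_lit 308) (nat_lit 136)) (XT.lf (nat_lit 0) (nat_lit 1330470359) (nat_lit 532) (nat_lit 2113185618) (nat_lit 608) (nat_lit 23648154779) (nat_lit 141) (nat_lit 5) (nat_lit 148) (nat_lit 5) (nat_lit 149) (nat_lit 5) (nat_lit 337) (nat_lit 308) (nat_lit 135))))))) (XT.nd (nat_lit 1092) (nat_lit 2356) (nat_lit 0) (XT.nd (nat_lit 546) (nat_lit 1292) (nat_lit 0) (XT.nd (nat_lit 234) (nat_lit 836) (nat_lit 0) (XT.nd (nat_lit 78) (nat_lit 456) (nat_lit 0) (XT.lf (nat_lit 0) (nat_lit 6634581039) (nat_lit 608) (nat_lit 12522535728) (nat_lit 76) (nat_lit 8411640987) (nat_lit 141) (nat_lit 5) (nat_lit 149) (nat_lit 5) (nat_lit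 142) (nat_lit 5) (nat_lit 338) (nat_lit 308) (nat_lit 134)) (XT.nd (nat_lit 78) (nat_lit 0) (nat_lit 0) (XT.lf (nat_lit 0) (nat_lit 1109725577) (nat_lit 456) (nat_lit 8839071960) (nat_lit 532) (nat_lit 18110392722) (nat_lit 135) (nat_lit 5) (nat_lit 141) (nat_lit 5) (nat_lit 142) (nat_lit 5) (nat_lit 339) (nat_lit 308) (nat_lit 133)) (XT.lf (nat_lit 0) (nat_lit 13503382322) (nat_lit 532) (nat_lit 13175846272) (nat_lit 76) (nat_lit 1880882784) (nat_lit 135) (nat_lit 5) (nat_lit 142) (nat_lit 5) (nat_lit 136) (nat_lit 5) (nat_lit 340) (nat_lit 308) (nat_lit 132)))) (XT.nd (nat_lit 156) (nat_lit 380) (nat_lit 0) (XT.nd (nat_lit 78) (nat_lit 0) (nat_lit 0) (XT.lf (nat_lit 0) (nat_lit 937373902) (nat_lit 456) (nat_lit 16319916565) (nat_lit 532) (nat_lit 11815992868) (nat_lit 129) (nat_lit 5) (nat_lit 135) (nat_lit 5) (nat_lit 136) (nat_lit 5) (nat_lit 341) (nat_lit 308) (nat_lit 131)) (XT.lf (nat_lit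 0) (nat_lit 15739742817) (nat_lit 456) (nat_lit 5513353033) (nat_lit 532) (nat_lit 8344879870) (nat_lit 129) (nat_lit 5) (nat_lit 135) (nat_lit 5) (nat_lit 136) (nat_lit 5) (nat_lit 342) (nat_lit 308) (nat_lit 130))) (XT.nd (nat_lit 78) (nat_lit 0) (nat_lit 0) (XT.lf (nat_lit 0) (nat_lit 805166205) (nat_lit 380) (nat_lit 24621681175) (nat_lit 456) (nat_lit 4709822900) (nat_lit 124) (nat_lit 5) (nat_lit 129) (nat_lit 5) (nat_lit 130) (nat_lit 5) (nat_lit 343) (nat_lit 308) (nat_lit 129)) (XT.lf (nat_lit 0) (nat_lit 16132594334) (nat_lit 380) (nat_lit 13783610493) (nat_lit 456) (nat_lit 769612506) (nat_lit 124) (nat_lit 5) (nat_lit 129) (nat_lit 5) (nat_lit 130) (nat_lit 5) (nat_lit 344) (nat_lit 308) (nat_lit 128))))) (XT.nd (nat_lit 234) (nat_lit 380) (nat_lit 0) (XT.nd (nat_lit 78) (nat_lit 380) (nat_lit 0) (XT.lf (nat_lit 0) (nat_lit 645153756) (nat_lit 456) (nat_lit 2582142511) (nat_lit 532)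 (nat_lit 28023117315) (nat_lit 117) (nat_lit 5) (nat_lit 123) (nat_lit 5) (nat_lit 124) (nat_lit 5) (nat_lit 345) (nat_lit 308) (nat_lit 127)) (XT.nd (nat_lit 78) (nat_lit 380) (nat_lit 0) (XT.lf (nat_lit 0) (nat_lit 7559665053) (nat_lit 532) (nat_lit 15329176759) (nat_lit 76) (nat_lit 8935949839) (nat_lit 117) (nat_lit 5) (nat_lit 124) (nat_lit 5) (nat_lit 118) (nat_lit 5) (nat_lit 346) (nat_lit 308) (nat_lit 126)) (XT.lf (nat_lit 0) (nat_lit 382933332) (nat_lit 380) (nat_lit 11664942258) (nat_lit 456) (nat_lit 20367752423) (nat_lit 112) (nat_lit 5) (nat_lit 117) (nat_lit 5) (nat_lit 118) (nat_lit 5) (nat_lit 347) (nat_lit 308) (nat_lit 125)))) (XT.nd (nat_lit 156) (nat_lit 0) (nat_lit 0) (XT.nd (nat_lit 78) (nat_lit 380) (nat_lit 0) (XT.lf (nat_lit 0) (nat_lit 16822731771) (nat_lit 456) (nat_lit 16143651663) (nat_lit 76) (nat_lit 53249036) (nat_lit 112) (nat_lit 5) (nat_lit 118) (nat_lit 5) (nat_lit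 113) (nat_lit 5) (nat_lit 348) (nat_lit 308) (nat_lit 124)) (XT.lf (nat_lit 0) (nat_lit 104514337) (nat_lit 380) (nat_lit 21749590198) (nat_lit 456) (nat_lit 11784257294) (nat_lit 107) (nat_lit 5) (nat_lit 112) (nat_lit 5) (nat_lit 113) (nat_lit 5) (nat_lit 349) (nat_lit 308) (nat_lit 123))) (XT.nd (nat_lit 78) (nat_lit 0) (nat_lit 0) (XT.lf (nat_lit 0) (nat_lit 17167001200) (nat_lit 380) (nat_lit 10029263344) (nat_lit 456) (nat_lit 7074595957) (nat_lit 107) (nat_lit 5) (nat_lit 112) (nat_lit 5) (nat_lit 113) (nat_lit 5) (nat_lit 350) (nat_lit 308) (nat_lit 122)) (XT.lf (nat_lit 0) (nat_lit 32715235819) (nat_lit 456) (nat_lit 204628926) (nat_lit 76) (nat_lit 2001975722) (nat_lit 107) (nat_lit 5) (nat_lit 113) (nat_lit 5) (nat_lit 108) (nat_lit 5) (nat_lit 351) (nat_lit 308) (nat_lit 121)))))) (XT.nd (nat_lit 546) (nat_lit 988) (nat_lit 0) (XT.nd (nat_lit 234) (nat_lit 608) (nat_lit 0) (XT.nd (nat_lit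 78) (nat_lit 380) (nat_lit 0) (XT.lf (nat_lit 0) (nat_lit 3019185749) (nat_lit 380) (nat_lit 18175369394) (nat_lit 76) (nat_lit 14388991391) (nat_lit 102) (nat_lit 5) (nat_lit 107) (nat_lit 5) (nat_lit 103) (nat_lit 5) (nat_lit 352) (nat_lit 308) (nat_lit 120)) (XT.nd (nat_lit 78) (nat_lit 380) (nat_lit 0) (XT.lf (nat_lit 0) (nat_lit 8356505573) (nat_lit 380) (nat_lit 737276166) (nat_lit 76) (nat_lit 27170695927) (nat_lit 102) (nat_lit 5) (nat_lit 107) (nat_lit 5) (nat_lit 103) (nat_lit 5) (nat_lit 353) (nat_lit 308) (nat_lit 119)) (XT.lf (nat_lit 0) (nat_lit 14053933568) (nat_lit 456) (nat_lit 19432058031) (nat_lit 76) (nat_lit 3473847901) (nat_lit 97) (nat_lit 5) (nat_lit 103) (nat_lit 5) (nat_lit 98) (nat_lit 5) (nat_lit 354) (nat_lit 308) (nat_lit 118)))) (XT.nd (nat_lit 156) (nat_lit 304) (nat_lit 0) (XT.nd (nat_lit 78) (nat_lit 304) (nat_lit 0) (XT.lf (nat_lit 0) (nat_lit 20016985919) (nat_lit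 456) (nat_lit 1413901112) (nat_lit 76) (nat_lit 16242336468) (nat_lit 97) (nat_lit 5) (nat_lit 103) (nat_lit 5) (nat_lit 98) (nat_lit 5) (nat_lit 355) (nat_lit 308) (nat_lit 117)) (XT.lf (nat_lit 0) (nat_lit 17482198069) (nat_lit 304) (nat_lit 8842009817) (nat_lit 380) (nat_lit 12078845077) (nat_lit 93) (nat_lit 5) (nat_lit 97) (nat_lit 5) (nat_lit 98) (nat_lit 5) (nat_lit 356) (nat_lit 308) (nat_lit 116))) (XT.nd (nat_lit 78) (nat_lit 304) (nat_lit 0) (XT.lf (nat_lit 0) (nat_lit 32871977183) (nat_lit 380) (nat_lit 2223755068) (nat_lit 76) (nat_lit 4057507359) (nat_lit 93) (nat_lit 5) (nat_lit 98) (nat_lit 5) (nat_lit 94) (nat_lit 5) (nat_lit 357) (nat_lit 308) (nat_lit 115)) (XT.lf (nat_lit 0) (nat_lit 17280241996) (nat_lit 304) (nat_lit 22586934295) (nat_lit 380) (nat_lit 51227818) (nat_lit 89) (nat_lit 5) (nat_lit 93) (nat_lit 5) (nat_lit 94) (nat_lit 5) (nat_lit 358) (nat_lit 308) (nat_lit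 114))))) (XT.nd (nat_lit 234) (nat_lit 608) (nat_lit 0) (XT.nd (nat_lit 78) (nat_lit 304) (nat_lit 0) (XT.lf (nat_lit 0) (nat_lit 6261526155) (nat_lit 380) (nat_lit 3356009002) (nat_lit 76) (nat_lit 31086553599) (nat_lit 88) (nat_lit 5) (nat_lit 93) (nat_lit 5) (nat_lit 89) (nat_lit 5) (nat_lit 359) (nat_lit 308) (nat_lit 113)) (XT.nd (nat_lit 78) (nat_lit 0) (nat_lit 0) (XT.lf (nat_lit 0) (nat_lit 12959395364) (nat_lit 380) (nat_lit 24717199569) (nat_lit 76) (nat_lit 3830832898) (nat_lit 84) (nat_lit 5) (nat_lit 89) (nat_lit 5) (nat_lit 85) (nat_lit 5) (nat_lit 360) (nat_lit 308) (nat_lit 112)) (XT.lf (nat_lit 0) (nat_lit 19985114451) (nat_lit 380) (nat_lit 4823376235) (nat_lit 76) (nat_lit 17522570894) (nat_lit 84) (nat_lit 5) (nat_lit 89) (nat_lit 5) (nat_lit 85) (nat_lit 5) (nat_lit 361) (nat_lit 308) (nat_lit 111)))) (XT.nd (nat_lit 156) (nat_lit 304) (nat_lit 0) (XT.nd (nat_lit 78) (nat_lit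 0) (nat_lit 0) (XT.lf (nat_lit 0) (nat_lit 15975491753) (nat_lit 304) (nat_lit 11397219395) (nat_lit 380) (nat_lit 15802161871) (nat_lit 80) (nat_lit 5) (nat_lit 84) (nat_lit 5) (nat_lit 85) (nat_lit 5) (nat_lit 362) (nat_lit 308) (nat_lit 110)) (XT.lf (nat_lit 0) (nat_lit 35051920419) (nat_lit 380) (nat_lit 6572586763) (nat_lit 76) (nat_lit 2417393883) (nat_lit 80) (nat_lit 5) (nat_lit 85) (nat_lit 5) (nat_lit 81) (nat_lit 5) (nat_lit 363) (nat_lit 308) (nat_lit 109))) (XT.nd (nat_lit 78) (nat_lit 76) (nat_lit 0) (XT.lf (nat_lit 0) (nat_lit 14846439043) (nat_lit 228) (nat_lit 28368262538) (nat_lit 304) (nat_lit 1712644255) (nat_lit 77) (nat_lit 5) (nat_lit 80) (nat_lit 5) (nat_lit 81) (nat_lit 5) (nat_lit 364) (nat_lit 308) (nat_lit 108)) (XT.lf (nat_lit 0) (nat_lit 5734842377) (nat_lit 304) (nat_lit 8854293621) (nat_lit 76) (nat_lit 31246611583) (nat_lit 76) (nat_lit 5) (nat_lit 80) (nat_lit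 5) (nat_lit 77) (nat_lit 5) (nat_lit 365) (nat_lit 308) (nat_lit 107))))))))
noncomputable def xc210 : XT := (XT.nd (nat_lit 2106) (nat_lit 380) (nat_lit 0) (XT.nd (nat_lit 1014) (nat_lit 1216) (nat_lit 0) (XT.nd (nat_lit 468) (nat_lit 684) (nat_lit 0) (XT.nd (nat_lit 234) (nat_lit 304) (nat_lit 0) (XT.nd (nat_lit 78) (nat_lit 228) (nat_lit 0) (XT.lf (nat_lit 0) (nat_lit 13247313381) (nat_lit 304) (nat_lit 249077674) (nat_lit 380) (nat_lit 33270751423) (nat_lit 72) (nat_lit 5) (nat_lit 76) (nat_lit 5) (nat_lit 77) (nat_lit 5) (nat_lit 366) (nat_lit 308) (nat_lit 106)) (XT.nd (nat_lit 78) (nat_lit 228) (nat_lit 0) (XT.lf (nat_lit 0) (nat_lit 21718411829) (nat_lit 380) (nat_lit 11674172015) (nat_lit 76) (nat_lit 14327068166) (nat_lit 72) (nat_lit 5) (nat_lit 77) (nat_lit 5) (nat_lit 73) (nat_lit 5) (nat_lit 367) (nat_lit 308) (nat_lit 105)) (XT.lf (nat_lit 0) (nat_lit 11036472014) (nat_lit 228) (nat_lit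 19256985272) (nat_lit 304) (nat_lit 18404090133) (nat_lit 69) (nat_lit 5) (nat_lit 72) (nat_lit 5) (nat_lit 73) (nat_lit 5) (nat_lit 368) (nat_lit 308) (nat_lit 104)))) (XT.nd (nat_lit 78) (nat_lit 304) (nat_lit 0) (XT.lf (nat_lit 0) (nat_lit 34664498612) (nat_lit 228) (nat_lit 4576982991) (nat_lit 304) (nat_lit 10459827727) (nat_lit 69) (nat_lit 5) (nat_lit 72) (nat_lit 5) (nat_lit 73) (nat_lit 5) (nat_lit 369) (nat_lit 308) (nat_lit 103)) (XT.nd (nat_lit 78) (nat_lit 76) (nat_lit 0) (XT.lf (nat_lit 0) (nat_lit 8324059033) (nat_lit 228) (nat_lit 40313147343) (nat_lit 304) (nat_lit 2092601357) (nat_lit 66) (nat_lit 5) (nat_lit 69) (nat_lit 5) (nat_lit 70) (nat_lit 5) (nat_lit 370) (nat_lit 308) (nat_lit 102)) (XT.lf (nat_lit 0) (nat_lit 6594868292) (nat_lit 304) (nat_lit 19203376680) (nat_lit 76) (nat_lit 25983138647) (nat_lit 65) (nat_lit 5) (nat_lit 69) (nat_lit 5) (nat_lit 66) (nat_lit 5) (nat_lit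 371) (nat_lit 308) (nat_lit 101))))) (XT.nd (nat_lit 234) (nat_lit 228) (nat_lit 0) (XT.nd (nat_lit 78) (nat_lit 228) (nat_lit 0) (XT.lf (nat_lit 0) (nat_lit 4764190796) (nat_lit 228) (nat_lit 10780472325) (nat_lit 304) (nat_lit 37317910591) (nat_lit 62) (nat_lit 5) (nat_lit 65) (nat_lit 5) (nat_lit 66) (nat_lit 5) (nat_lit 372) (nat_lit 308) (nat_lit 100)) (XT.nd (nat_lit 78) (nat_lit 228) (nat_lit 0) (XT.lf (nat_lit 0) (nat_lit 25001833652) (nat_lit 304) (nat_lit 24176072406) (nat_lit 76) (nat_lit 4791128259) (nat_lit 62) (nat_lit 5) (nat_lit 66) (nat_lit 5) (nat_lit 63) (nat_lit 5) (nat_lit 373) (nat_lit 308) (nat_lit 99)) (XT.lf (nat_lit 0) (nat_lit 361165478) (nat_lit 228) (nat_lit 34489804775) (nat_lit 304) (nat_lit 20254472188) (nat_lit 59) (nat_lit 5) (nat_lit 62) (nat_lit 5) (nat_lit 63) (nat_lit 5) (nat_lit 374) (nat_lit 308) (nat_lit 98)))) (XT.nd (nat_lit 156) (nat_lit 228) (nat_lit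 0) (XT.nd (nat_lit 78) (nat_lit 0) (nat_lit 0) (XT.lf (nat_lit 0) (nat_lit 26127083977) (nat_lit 228) (nat_lit 19110697745) (nat_lit 304) (nat_lit 11030896257) (nat_lit 59) (nat_lit 5) (nat_lit 62) (nat_lit 5) (nat_lit 63) (nat_lit 5) (nat_lit 375) (nat_lit 308) (nat_lit 97)) (XT.lf (nat_lit 0) (nat_lit 52663045753) (nat_lit 228) (nat_lit 3271277843) (nat_lit 304) (nat_lit 1532544363) (nat_lit 59) (nat_lit 5) (nat_lit 62) (nat_lit 5) (nat_lit 63) (nat_lit 5) (nat_lit 376) (nat_lit 308) (nat_lit 96))) (XT.nd (nat_lit 78) (nat_lit 0) (nat_lit 0) (XT.lf (nat_lit 0) (nat_lit 8424091868) (nat_lit 228) (nat_lit 37186613351) (nat_lit 76) (nat_lit 13077890099) (nat_lit 56) (nat_lit 5) (nat_lit 59) (nat_lit 5) (nat_lit 57) (nat_lit 5) (nat_lit 377) (nat_lit 308) (nat_lit 95)) (XT.lf (nat_lit 0) (nat_lit 18728180472) (nat_lit 228) (nat_lit 11301031767) (nat_lit 76) (nat_lit 29914921429) (nat_lit 56) (nat_lit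 5) (nat_lit 59) (nat_lit 5) (nat_lit 57) (nat_lit 5) (nat_lit 378) (nat_lit 308) (nat_lit 94)))))) (XT.nd (nat_lit 546) (nat_lit 532) (nat_lit 0) (XT.nd (nat_lit 234) (nat_lit 304) (nat_lit 0) (XT.nd (nat_lit 78) (nat_lit 152) (nat_lit 0) (XT.lf (nat_lit 0) (nat_lit 15663958508) (nat_lit 228) (nat_lit 13826235404) (nat_lit 304) (nat_lit 31742681222) (nat_lit 53) (nat_lit 5) (nat_lit 56) (nat_lit 5) (nat_lit 57) (nat_lit 5) (nat_lit 379) (nat_lit 308) (nat_lit 93)) (XT.nd (nat_lit 78) (nat_lit 152) (nat_lit 0) (XT.lf (nat_lit 0) (nat_lit 40716080451) (nat_lit 304) (nat_lit 18918780541) (nat_lit 76) (nat_lit 2921188470) (nat_lit 53) (nat_lit 5) (nat_lit 57) (nat_lit 5) (nat_lit 54) (nat_lit 5) (nat_lit 380) (nat_lit 308) (nat_lit 92)) (XT.lf (nat_lit 0) (nat_lit 8558215739) (nat_lit 152) (nat_lit 43937984447) (nat_lit 228) (nat_lit 11416196105) (nat_lit 51) (nat_lit 5) (nat_lit 53) (nat_lit 5) (nat_lit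 54) (nat_lit 5) (nat_lit 381) (nat_lit 308) (nat_lit 91)))) (XT.nd (nat_lit 156) (nat_lit 228) (nat_lit 0) (XT.nd (nat_lit 78) (nat_lit 76) (nat_lit 0) (XT.lf (nat_lit 0) (nat_lit 37244613259) (nat_lit 152) (nat_lit 27574472644) (nat_lit 228) (nat_lit 484667693) (nat_lit 51) (nat_lit 5) (nat_lit 53) (nat_lit 5) (nat_lit 54) (nat_lit 5) (nat_lit 382) (nat_lit 308) (nat_lit 90)) (XT.lf (nat_lit 0) (nat_lit 10562902977) (nat_lit 228) (nat_lit 51502369) (nat_lit 76) (nat_lit 56119389390) (nat_lit 50) (nat_lit 5) (nat_lit 53) (nat_lit 5) (nat_lit 51) (nat_lit 5) (nat_lit 383) (nat_lit 308) (nat_lit 89))) (XT.nd (nat_lit 78) (nat_lit 0) (nat_lit 0) (XT.lf (nat_lit 0) (nat_lit 22281525572) (nat_lit 304) (nat_lit 38904974858) (nat_lit 76) (nat_lit 7009612597) (nat_lit 47) (nat_lit 5) (nat_lit 51) (nat_lit 5) (nat_lit 48) (nat_lit 5) (nat_lit 384) (nat_lit 308) (nat_lit 88)) (XT.lf (nat_lit 0) (nat_lit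 34455737152) (nat_lit 304) (nat_lit 10294884342) (nat_lit 76) (nat_lit 24948559301) (nat_lit 47) (nat_lit 5) (nat_lit 51) (nat_lit 5) (nat_lit 48) (nat_lit 5) (nat_lit 385) (nat_lit 308) (nat_lit 87))))) (XT.nd (nat_lit 234) (nat_lit 228) (nat_lit 0) (XT.nd (nat_lit 78) (nat_lit 152) (nat_lit 0) (XT.lf (nat_lit 0) (nat_lit 19552510463) (nat_lit 152) (nat_lit 27629073523) (nat_lit 228) (nat_lit 24060165154) (nat_lit 45) (nat_lit 5) (nat_lit 47) (nat_lit 5) (nat_lit 48) (nat_lit 5) (nat_lit 386) (nat_lit 308) (nat_lit 86)) (XT.nd (nat_lit 78) (nat_lit 152) (nat_lit 0) (XT.lf (nat_lit 0) (nat_lit 50503848705) (nat_lit 152) (nat_lit 9887794628) (nat_lit 228) (nat_lit 12435878879) (nat_lit 45) (nat_lit 5) (nat_lit 47) (nat_lit 5) (nat_lit 48) (nat_lit 5) (nat_lit 387) (nat_lit 308) (nat_lit 85)) (XT.lf (nat_lit 0) (nat_lit 7995800750) (nat_lit 152) (nat_lit 66158186937) (nat_lit 228) (nat_lit 302202058)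 (nat_lit 43) (nat_lit 5) (nat_lit 45) (nat_lit 5) (nat_lit 46) (nat_lit 5) (nat_lit 388) (nat_lit 308) (nat_lit 84)))) (XT.nd (nat_lit 156) (nat_lit 152) (nat_lit 0) (XT.nd (nat_lit 78) (nat_lit 0) (nat_lit 0) (XT.lf (nat_lit 0) (nat_lit 12281581916) (nat_lit 228) (nat_lit 36664325217) (nat_lit 76) (nat_lit 27174571740) (nat_lit 42) (nat_lit 5) (nat_lit 45) (nat_lit 5) (nat_lit 43) (nat_lit 5) (nat_lit 389) (nat_lit 308) (nat_lit 83)) (XT.lf (nat_lit 0) (nat_lit 25235367068) (nat_lit 228) (nat_lit 5979781308) (nat_lit 76) (nat_lit 46619502385) (nat_lit 42) (nat_lit 5) (nat_lit 45) (nat_lit 5) (nat_lit 43) (nat_lit 5) (nat_lit 390) (nat_lit 308) (nat_lit 82))) (XT.nd (nat_lit 78) (nat_lit 0) (nat_lit 0) (XT.lf (nat_lit 0) (nat_lit 26132906550) (nat_lit 152) (nat_lit 12694668224) (nat_lit 228) (nat_lit 40765179444) (nat_lit 40) (nat_lit 5) (nat_lit 42) (nat_lit 5) (nat_lit 43) (nat_lit 5) (nat_lit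 391) (nat_lit 308) (nat_lit 81)) (XT.lf (nat_lit 0) (nat_lit 52948485714) (nat_lit 228) (nat_lit 22134524139) (nat_lit 76) (nat_lit 6316963477) (nat_lit 40) (nat_lit 5) (nat_lit 43) (nat_lit 5) (nat_lit 41) (nat_lit 5) (nat_lit 392) (nat_lit 308) (nat_lit 80))))))) (XT.nd (nat_lit 34788) (nat_lit 0) (nat_lit 10184) (XT.nd (nat_lit 34242) (nat_lit 0) (nat_lit 12160) (XT.nd (nat_lit 234) (nat_lit 152) (nat_lit 0) (XT.nd (nat_lit 78) (nat_lit 76) (nat_lit 0) (XT.lf (nat_lit 0) (nat_lit 10201659318) (nat_lit 152) (nat_lit 57513772337) (nat_lit 228) (nat_lit 15539305770) (nat_lit 38) (nat_lit 5) (nat_lit 40) (nat_lit 5) (nat_lit 41) (nat_lit 5) (nat_lit 393) (nat_lit 308) (nat_lit 79)) (XT.nd (nat_lit 78) (nat_lit 76) (nat_lit 0) (XT.lf (nat_lit 0) (nat_lit 43959405576) (nat_lit 152) (nat_lit 39188166505) (nat_lit 228) (nat_lit 2010907402) (nat_lit 38) (nat_lit 5) (nat_lit 40) (nat_lit 5) (nat_lit 41)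 (nat_lit 5) (nat_lit 394) (nat_lit 308) (nat_lit 78)) (XT.lf (nat_lit 0) (nat_lit 11689371706) (nat_lit 228) (nat_lit 8506283543) (nat_lit 76) (nat_lit 66920279822) (nat_lit 37) (nat_lit 5) (nat_lit 40) (nat_lit 5) (nat_lit 38) (nat_lit 5) (nat_lit 395) (nat_lit 308) (nat_lit 77)))) (XT.nd (nat_lit 33852) (nat_lit 0) (nat_lit 12160) (XT.nd (nat_lit 78) (nat_lit 0) (nat_lit 0) (XT.lf (nat_lit 0) (nat_lit 25645665003) (nat_lit 152) (nat_lit 359832891) (nat_lit 228) (nat_lit 63118662025) (nat_lit 35) (nat_lit 5) (nat_lit 37) (nat_lit 5) (nat_lit 38) (nat_lit 5) (nat_lit 396) (nat_lit 308) (nat_lit 76)) (XT.lf (nat_lit 0) (nat_lit 41029532455) (nat_lit 228) (nat_lit 30389461202) (nat_lit 76) (nat_lit 19765285671) (nat_lit 35) (nat_lit 5) (nat_lit 38) (nat_lit 5) (nat_lit 36) (nat_lit 5) (nat_lit 397) (nat_lit 308) (nat_lit 75))) (XT.nd (nat_lit 78) (nat_lit 0) (nat_lit 0) (XT.lf (nat_lit 0) (nat_lit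 1356302100) (nat_lit 0) (nat_lit 1356302100) (nat_lit 1140) (nat_lit 6061350778) (nat_lit 195) (nat_lit 5) (nat_lit 195) (nat_lit 3) (nat_lit 210) (nat_lit 3) (nat_lit 309) (nat_lit 309) (nat_lit 162)) (XT.lf (nat_lit 0) (nat_lit 5762824463) (nat_lit 1140) (nat_lit 6922562244) (nat_lit 1216) (nat_lit 5117812683) (nat_lit 195) (nat_lit 5) (nat_lit 210) (nat_lit 3) (nat_lit 211) (nat_lit 5) (nat_lit 310) (nat_lit 309) (nat_lit 161))))) (XT.nd (nat_lit 234) (nat_lit 0) (nat_lit 152) (XT.nd (nat_lit 78) (nat_lit 0) (nat_lit 76) (XT.lf (nat_lit 76) (nat_lit 1220206327) (nat_lit 0) (nat_lit 4920946095) (nat_lit 1216) (nat_lit 11924087029) (nat_lit 196) (nat_lit 5) (nat_lit 195) (nat_lit 5) (nat_lit 211) (nat_lit 5) (nat_lit 311) (nat_lit 309) (nat_lit 160)) (XT.nd (nat_lit 78) (nat_lit 0) (nat_lit 0) (XT.lf (nat_lit 0) (nat_lit 6623221872) (nat_lit 1140) (nat_lit 8618690231) (nat_lit 1216) (nat_lit 3090466034)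 (nat_lit 196) (nat_lit 5) (nat_lit 211) (nat_lit 5) (nat_lit 212) (nat_lit 5) (nat_lit 312) (nat_lit 309) (nat_lit 159)) (XT.lf (nat_lit 0) (nat_lit 7160924886) (nat_lit 1140) (nat_lit 198692602) (nat_lit 1216) (nat_lit 11246687257) (nat_lit 196) (nat_lit 5) (nat_lit 211) (nat_lit 5) (nat_lit 212) (nat_lit 5) (nat_lit 313) (nat_lit 309) (nat_lit 158)))) (XT.nd (nat_lit 156) (nat_lit 0) (nat_lit 0) (XT.nd (nat_lit 78) (nat_lit 0) (nat_lit 0) (XT.lf (nat_lit 0) (nat_lit 7798612438) (nat_lit 1140) (nat_lit 10256153215) (nat_lit 1216) (nat_lit 831176540) (nat_lit 197) (nat_lit 5) (nat_lit 212) (nat_lit 5) (nat_lit 213) (nat_lit 5) (nat_lit 314) (nat_lit 309) (nat_lit 157)) (XT.lf (nat_lit 0) (nat_lit 8523194314) (nat_lit 1140) (nat_lit 1524091850) (nat_lit 1216) (nat_lit 9124658084) (nat_lit 197) (nat_lit 5) (nat_lit 212) (nat_lit 5) (nat_lit 213) (nat_lit 5) (nat_lit 315) (nat_lit 309) (nat_lit 156)))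 (XT.nd (nat_lit 78) (nat_lit 0) (nat_lit 76) (XT.lf (nat_lit 76) (nat_lit 7614147769) (nat_lit 0) (nat_lit 1721635321) (nat_lit 1216) (nat_lit 10128763341) (nat_lit 198) (nat_lit 5) (nat_lit 197) (nat_lit 5) (nat_lit 213) (nat_lit 5) (nat_lit 316) (nat_lit 309) (nat_lit 155)) (XT.lf (nat_lit 0) (nat_lit 10247436191) (nat_lit 1140) (nat_lit 2778277671) (nat_lit 1216) (nat_lit 6737980129) (nat_lit 198) (nat_lit 5) (nat_lit 213) (nat_lit 5) (nat_lit 214) (nat_lit 5) (nat_lit 317) (nat_lit 309) (nat_lit 154)))))) (XT.nd (nat_lit 546) (nat_lit 2204) (nat_lit 0) (XT.nd (nat_lit 234) (nat_lit 0) (nat_lit 152) (XT.nd (nat_lit 78) (nat_lit 0) (nat_lit 76) (XT.lf (nat_lit 76) (nat_lit 6674788359) (nat_lit 0) (nat_lit 4586316012) (nat_lit 1216) (nat_lit 8808479325) (nat_lit 199) (nat_lit 5) (nat_lit 198) (nat_lit 5) (nat_lit 214) (nat_lit 5) (nat_lit 318) (nat_lit 309) (nat_lit 153)) (XT.nd (nat_lit 78) (nat_lit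 0) (nat_lit 0) (XT.lf (nat_lit 0) (nat_lit 12366612737) (nat_lit 1140) (nat_lit 3959756955) (nat_lit 1216) (nat_lit 4056444954) (nat_lit 199) (nat_lit 5) (nat_lit 214) (nat_lit 5) (nat_lit 215) (nat_lit 5) (nat_lit 319) (nat_lit 309) (nat_lit 152)) (XT.lf (nat_lit 76) (nat_lit 5822069797) (nat_lit 0) (nat_lit 7778401883) (nat_lit 1216) (nat_lit 7102122525) (nat_lit 200) (nat_lit 5) (nat_lit 199) (nat_lit 5) (nat_lit 215) (nat_lit 5) (nat_lit 320) (nat_lit 309) (nat_lit 151)))) (XT.nd (nat_lit 156) (nat_lit 0) (nat_lit 0) (XT.nd (nat_lit 78) (nat_lit 0) (nat_lit 0) (XT.lf (nat_lit 0) (nat_lit 14915555086) (nat_lit 1140) (nat_lit 5067127337) (nat_lit 1216) (nat_lit 1047965498) (nat_lit 200) (nat_lit 5) (nat_lit 215) (nat_lit 5) (nat_lit 216) (nat_lit 5) (nat_lit 321) (nat_lit 309) (nat_lit 150)) (XT.lf (nat_lit 76) (nat_lit 5057865860) (nat_lit 0) (nat_lit 11331998534) (nat_lit 1216) (nat_lit 4975092476)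 (nat_lit 201) (nat_lit 5) (nat_lit 200) (nat_lit 5) (nat_lit 216) (nat_lit 5) (nat_lit 322) (nat_lit 309) (nat_lit 149))) (XT.nd (nat_lit 78) (nat_lit 0) (nat_lit 76) (XT.lf (nat_lit 76) (nat_lit 15586034919) (nat_lit 0) (nat_lit 2367804277) (nat_lit 1216) (nat_lit 3754099432) (nat_lit 201) (nat_lit 5) (nat_lit 200) (nat_lit 5) (nat_lit 216) (nat_lit 5) (nat_lit 323) (nat_lit 309) (nat_lit 148)) (XT.lf (nat_lit 76) (nat_lit 4383890082) (nat_lit 0) (nat_lit 15283424530) (nat_lit 1216) (nat_lit 2390824220) (nat_lit 202) (nat_lit 5) (nat_lit 201) (nat_lit 5) (nat_lit 217) (nat_lit 5) (nat_lit 324) (nat_lit 309) (nat_lit 147))))) (XT.nd (nat_lit 234) (nat_lit 1292) (nat_lit 0) (XT.nd (nat_lit 78) (nat_lit 1140) (nat_lit 0) (XT.lf (nat_lit 76) (nat_lit 15301983663) (nat_lit 0) (nat_lit 6209809630) (nat_lit 1216) (nat_lit 904670024) (nat_lit 202) (nat_lit 5) (nat_lit 201) (nat_lit 5) (nat_lit 217) (nat_lit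 5) (nat_lit 325) (nat_lit 309) (nat_lit 146)) (XT.nd (nat_lit 78) (nat_lit 0) (nat_lit 0) (XT.lf (nat_lit 0) (nat_lit 675876316) (nat_lit 1216) (nat_lit 18988707158) (nat_lit 76) (nat_lit 3118918675) (nat_lit 186) (nat_lit 5) (nat_lit 202) (nat_lit 5) (nat_lit 187) (nat_lit 5) (nat_lit 326) (nat_lit 309) (nat_lit 145)) (XT.lf (nat_lit 0) (nat_lit 2414480082) (nat_lit 1216) (nat_lit 8057926696) (nat_lit 76) (nat_lit 12685017649) (nat_lit 186) (nat_lit 5) (nat_lit 202) (nat_lit 5) (nat_lit 187) (nat_lit 5) (nat_lit 327) (nat_lit 309) (nat_lit 144)))) (XT.nd (nat_lit 156) (nat_lit 608) (nat_lit 0) (XT.nd (nat_lit 78) (nat_lit 0) (nat_lit 0) (XT.lf (nat_lit 0) (nat_lit 3259957832) (nat_lit 684) (nat_lit 971559807) (nat_lit 760) (nat_lit 19310264013) (nat_lit 177) (nat_lit 5) (nat_lit 186) (nat_lit 5) (nat_lit 187) (nat_lit 5) (nat_lit 328) (nat_lit 309) (nat_lit 143)) (XT.lf (nat_lit 0) (nat_lit 6265019414)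 (nat_lit 760) (nat_lit 8942753138) (nat_lit 76) (nat_lit 8725043838) (nat_lit 177) (nat_lit 5) (nat_lit 187) (nat_lit 5) (nat_lit 178) (nat_lit 5) (nat_lit 329) (nat_lit 309) (nat_lit 142))) (XT.nd (nat_lit 78) (nat_lit 0) (nat_lit 0) (XT.lf (nat_lit 0) (nat_lit 2776636009) (nat_lit 608) (nat_lit 5614394175) (nat_lit 684) (nat_lit 15943612098) (nat_lit 169) (nat_lit 5) (nat_lit 177) (nat_lit 5) (nat_lit 178) (nat_lit 5) (nat_lit 330) (nat_lit 309) (nat_lit 141)) (XT.lf (nat_lit 0) (nat_lit 10708329589) (nat_lit 684) (nat_lit 9761321045) (nat_lit 76) (nat_lit 4275052146) (nat_lit 169) (nat_lit 5) (nat_lit 178) (nat_lit 5) (nat_lit 170) (nat_lit 5) (nat_lit 331) (nat_lit 309) (nat_lit 140))))))))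
noncomputable def xc211 : XT := (XT.nd (nat_lit 2184) (nat_lit 3268) (nat_lit 0) (XT.nd (nat_lit 1092) (nat_lit 2736) (nat_lit 0) (XT.nd (nat_lit 546) (nat_lit 1292) (nat_lit 0) (XT.nd (nat_lit 234) (nat_lit 1064) (nat_lit 0) (XT.nd (nat_lit 78) (nat_lit 532) (nat_lit 0) (XT.lf (nat_lit 0) (nat_lit 2375643090) (nat_lit 532) (nat_lit 10793361106) (nat_lit 608) (nat_lit 11995850142) (nat_lit 162) (nat_lit 5) (nat_lit 169) (nat_lit 5) (nat_lit 170) (nat_lit 5) (nat_lit 332) (nat_lit 309) (nat_lit 139)) (XT.nd (nat_lit 78) (nat_lit 532) (nat_lit 0) (XT.lf (nat_lit 0) (nat_lit 15072465768) (nat_lit 532) (nat_lit 725126753) (nat_lit 608) (nat_lit 9797199903) (nat_lit 162) (nat_lit 5) (nat_lit 169) (nat_lit 5) (nat_lit 170) (nat_lit 5) (nat_lit 333) (nat_lit 309) (nat_lit 138)) (XT.lf (nat_lit 0) (nat_lit 2055604090) (nat_lit 532) (nat_lit 16557564127) (nat_lit 608) (nat_lit 7421221193) (nat_lit 155)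 (nat_lit 5) (nat_lit 162) (nat_lit 5) (nat_lit 163) (nat_lit 5) (nat_lit 334) (nat_lit 309) (nat_lit 137)))) (XT.nd (nat_lit 156) (nat_lit 608) (nat_lit 0) (XT.nd (nat_lit 78) (nat_lit 456) (nat_lit 0) (XT.lf (nat_lit 0) (nat_lit 15214933006) (nat_lit 532) (nat_lit 6407382081) (nat_lit 608) (nat_lit 4861590612) (nat_lit 155) (nat_lit 5) (nat_lit 162) (nat_lit 5) (nat_lit 163) (nat_lit 5) (nat_lit 335) (nat_lit 309) (nat_lit 136)) (XT.lf (nat_lit 0) (nat_lit 1814315923) (nat_lit 456) (nat_lit 22959629450) (nat_lit 532) (nat_lit 2171400216) (nat_lit 149) (nat_lit 5) (nat_lit 155) (nat_lit 5) (nat_lit 156) (nat_lit 5) (nat_lit 336) (nat_lit 309) (nat_lit 135))) (XT.nd (nat_lit 78) (nat_lit 532) (nat_lit 0) (XT.lf (nat_lit 0) (nat_lit 762056769) (nat_lit 532) (nat_lit 11970798057) (nat_lit 76) (nat_lit 14682377319) (nat_lit 148) (nat_lit 5) (nat_lit 155) (nat_lit 5) (nat_lit 149) (nat_lit 5) (nat_lit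 337) (nat_lit 309) (nat_lit 134)) (XT.lf (nat_lit 0) (nat_lit 1589525374) (nat_lit 532) (nat_lit 2161646614) (nat_lit 608) (nat_lit 24147063426) (nat_lit 141) (nat_lit 5) (nat_lit 148) (nat_lit 5) (nat_lit 149) (nat_lit 5) (nat_lit 338) (nat_lit 309) (nat_lit 133))))) (XT.nd (nat_lit 234) (nat_lit 836) (nat_lit 0) (XT.nd (nat_lit 78) (nat_lit 456) (nat_lit 0) (XT.lf (nat_lit 0) (nat_lit 7032016423) (nat_lit 608) (nat_lit 12679447713) (nat_lit 76) (nat_lit 8678206862) (nat_lit 141) (nat_lit 5) (nat_lit 149) (nat_lit 5) (nat_lit 142) (nat_lit 5) (nat_lit 339) (nat_lit 309) (nat_lit 132)) (XT.nd (nat_lit 78) (nat_lit 0) (nat_lit 0) (XT.lf (nat_lit 0) (nat_lit 1359636684) (nat_lit 456) (nat_lit 9082326427) (nat_lit 532) (nat_lit 18452970010) (nat_lit 135) (nat_lit 5) (nat_lit 141) (nat_lit 5) (nat_lit 142) (nat_lit 5) (nat_lit 340) (nat_lit 309) (nat_lit 131)) (XT.lf (nat_lit 0) (nat_lit 14097719069)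 (nat_lit 532) (nat_lit 13355159040) (nat_lit 76) (nat_lit 1958173343) (nat_lit 135) (nat_lit 5) (nat_lit 142) (nat_lit 5) (nat_lit 136) (nat_lit 5) (nat_lit 341) (nat_lit 309) (nat_lit 130)))) (XT.nd (nat_lit 156) (nat_lit 380) (nat_lit 0) (XT.nd (nat_lit 78) (nat_lit 0) (nat_lit 0) (XT.lf (nat_lit 0) (nat_lit 1179340458) (nat_lit 456) (nat_lit 16781447905) (nat_lit 532) (nat_lit 11978939311) (nat_lit 129) (nat_lit 5) (nat_lit 135) (nat_lit 5) (nat_lit 136) (nat_lit 5) (nat_lit 342) (nat_lit 309) (nat_lit 129)) (XT.lf (nat_lit 0) (nat_lit 16419551936) (nat_lit 456) (nat_lit 5651504929) (nat_lit 532) (nat_lit 8409271564) (nat_lit 129) (nat_lit 5) (nat_lit 135) (nat_lit 5) (nat_lit 136) (nat_lit 5) (nat_lit 343) (nat_lit 309) (nat_lit 128))) (XT.nd (nat_lit 78) (nat_lit 0) (nat_lit 0) (XT.lf (nat_lit 0) (nat_lit 1040174996) (nat_lit 380) (nat_lit 25326873660) (nat_lit 456) (nat_lit 4668229449) (nat_lit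 124) (nat_lit 5) (nat_lit 129) (nat_lit 5) (nat_lit 130) (nat_lit 5) (nat_lit 344) (nat_lit 309) (nat_lit 127)) (XT.lf (nat_lit 0) (nat_lit 16821284596) (nat_lit 380) (nat_lit 14164635361) (nat_lit 456) (nat_lit 615139582) (nat_lit 124) (nat_lit 5) (nat_lit 129) (nat_lit 5) (nat_lit 130) (nat_lit 5) (nat_lit 345) (nat_lit 309) (nat_lit 126)))))) (XT.nd (nat_lit 546) (nat_lit 1444) (nat_lit 0) (XT.nd (nat_lit 234) (nat_lit 380) (nat_lit 0) (XT.nd (nat_lit 78) (nat_lit 380) (nat_lit 0) (XT.lf (nat_lit 0) (nat_lit 870803758) (nat_lit 456) (nat_lit 2624320104) (nat_lit 532) (nat_lit 28687515920) (nat_lit 117) (nat_lit 5) (nat_lit 123) (nat_lit 5) (nat_lit 124) (nat_lit 5) (nat_lit 346) (nat_lit 309) (nat_lit 125)) (XT.nd (nat_lit 78) (nat_lit 380) (nat_lit 0) (XT.lf (nat_lit 0) (nat_lit 7952812192) (nat_lit 532) (nat_lit 15583962353) (nat_lit 76) (nat_lit 9237618735) (nat_lit 117) (nat_lit 5) (nat_lit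 124) (nat_lit 5) (nat_lit 118) (nat_lit 5) (nat_lit 347) (nat_lit 309) (nat_lit 124)) (XT.lf (nat_lit 0) (nat_lit 597500357) (nat_lit 380) (nat_lit 11975275454) (nat_lit 456) (nat_lit 20810270130) (nat_lit 112) (nat_lit 5) (nat_lit 117) (nat_lit 5) (nat_lit 118) (nat_lit 5) (nat_lit 348) (nat_lit 309) (nat_lit 123)))) (XT.nd (nat_lit 156) (nat_lit 0) (nat_lit 0) (XT.nd (nat_lit 78) (nat_lit 380) (nat_lit 0) (XT.lf (nat_lit 0) (nat_lit 17486486303) (nat_lit 456) (nat_lit 16426263025) (nat_lit 76) (nat_lit 92557225) (nat_lit 112) (nat_lit 5) (nat_lit 118) (nat_lit 5) (nat_lit 113) (nat_lit 5) (nat_lit 349) (nat_lit 309) (nat_lit 122)) (XT.lf (nat_lit 0) (nat_lit 307370522) (nat_lit 380) (nat_lit 22358716385) (nat_lit 456) (nat_lit 11976596444) (nat_lit 107) (nat_lit 5) (nat_lit 112) (nat_lit 5) (nat_lit 113) (nat_lit 5) (nat_lit 350) (nat_lit 309) (nat_lit 121))) (XT.nd (nat_lit 78) (nat_lit 0) (nat_lit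 0) (XT.lf (nat_lit 0) (nat_lit 17875914881) (nat_lit 380) (nat_lit 10288042681) (nat_lit 456) (nat_lit 7130340079) (nat_lit 107) (nat_lit 5) (nat_lit 112) (nat_lit 5) (nat_lit 113) (nat_lit 5) (nat_lit 351) (nat_lit 309) (nat_lit 120)) (XT.lf (nat_lit 0) (nat_lit 33844469359) (nat_lit 456) (nat_lit 18352608) (nat_lit 76) (nat_lit 2102109816) (nat_lit 107) (nat_lit 5) (nat_lit 113) (nat_lit 5) (nat_lit 108) (nat_lit 5) (nat_lit 352) (nat_lit 309) (nat_lit 119))))) (XT.nd (nat_lit 234) (nat_lit 684) (nat_lit 0) (XT.nd (nat_lit 78) (nat_lit 380) (nat_lit 0) (XT.lf (nat_lit 0) (nat_lit 3256628073) (nat_lit 380) (nat_lit 18527055671) (nat_lit 76) (nat_lit 14862840077) (nat_lit 102) (nat_lit 5) (nat_lit 107) (nat_lit 5) (nat_lit 103) (nat_lit 5) (nat_lit 353) (nat_lit 309) (nat_lit 118)) (XT.nd (nat_lit 78) (nat_lit 380) (nat_lit 0) (XT.lf (nat_lit 0) (nat_lit 8749789820) (nat_lit 380) (nat_lit 571457747)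 (nat_lit 76) (nat_lit 28026767237) (nat_lit 102) (nat_lit 5) (nat_lit 107) (nat_lit 5) (nat_lit 103) (nat_lit 5) (nat_lit 354) (nat_lit 309) (nat_lit 117)) (XT.lf (nat_lit 0) (nat_lit 14616217350) (nat_lit 456) (nat_lit 19825043724) (nat_lit 76) (nat_lit 3623037598) (nat_lit 97) (nat_lit 5) (nat_lit 103) (nat_lit 5) (nat_lit 98) (nat_lit 5) (nat_lit 355) (nat_lit 309) (nat_lit 116)))) (XT.nd (nat_lit 156) (nat_lit 380) (nat_lit 0) (XT.nd (nat_lit 78) (nat_lit 304) (nat_lit 0) (XT.lf (nat_lit 0) (nat_lit 20754064211) (nat_lit 456) (nat_lit 1271875381) (nat_lit 76) (nat_lit 16773270892) (nat_lit 97) (nat_lit 5) (nat_lit 103) (nat_lit 5) (nat_lit 98) (nat_lit 5) (nat_lit 356) (nat_lit 309) (nat_lit 115)) (XT.lf (nat_lit 0) (nat_lit 18189298513) (nat_lit 304) (nat_lit 9058982188) (nat_lit 380) (nat_lit 12302724076) (nat_lit 93) (nat_lit 5) (nat_lit 97) (nat_lit 5) (nat_lit 98) (nat_lit 5) (nat_lit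 357) (nat_lit 309) (nat_lit 114))) (XT.nd (nat_lit 78) (nat_lit 380) (nat_lit 0) (XT.lf (nat_lit 0) (nat_lit 33989020723) (nat_lit 380) (nat_lit 2109584123) (nat_lit 76) (nat_lit 4225199233) (nat_lit 93) (nat_lit 5) (nat_lit 98) (nat_lit 5) (nat_lit 94) (nat_lit 5) (nat_lit 358) (nat_lit 309) (nat_lit 113)) (XT.lf (nat_lit 0) (nat_lit 78435028) (nat_lit 380) (nat_lit 23134998808) (nat_lit 76) (nat_lit 17898532415) (nat_lit 88) (nat_lit 5) (nat_lit 93) (nat_lit 5) (nat_lit 89) (nat_lit 5) (nat_lit 359) (nat_lit 309) (nat_lit 112))))))) (XT.nd (nat_lit 1092) (nat_lit 1292) (nat_lit 0) (XT.nd (nat_lit 546) (nat_lit 1064) (nat_lit 0) (XT.nd (nat_lit 234) (nat_lit 608) (nat_lit 0) (XT.nd (nat_lit 78) (nat_lit 304) (nat_lit 0) (XT.lf (nat_lit 0) (nat_lit 6575750633) (nat_lit 380) (nat_lit 3280183482) (nat_lit 76) (nat_lit 32065388763) (nat_lit 88) (nat_lit 5) (nat_lit 93) (nat_lit 5) (nat_lit 89) (nat_lit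 5) (nat_lit 360) (nat_lit 309) (nat_lit 111)) (XT.nd (nat_lit 78) (nat_lit 0) (nat_lit 0) (XT.lf (nat_lit 0) (nat_lit 13473039485) (nat_lit 380) (nat_lit 25280598983) (nat_lit 76) (nat_lit 3995171981) (nat_lit 84) (nat_lit 5) (nat_lit 89) (nat_lit 5) (nat_lit 85) (nat_lit 5) (nat_lit 361) (nat_lit 309) (nat_lit 110)) (XT.lf (nat_lit 0) (nat_lit 20705893379) (nat_lit 380) (nat_lit 4795148810) (nat_lit 76) (nat_lit 18096222872) (nat_lit 84) (nat_lit 5) (nat_lit 89) (nat_lit 5) (nat_lit 85) (nat_lit 5) (nat_lit 362) (nat_lit 309) (nat_lit 109)))) (XT.nd (nat_lit 156) (nat_lit 304) (nat_lit 0) (XT.nd (nat_lit 78) (nat_lit 0) (nat_lit 0) (XT.lf (nat_lit 0) (nat_lit 16625989838) (nat_lit 304) (nat_lit 11687243299) (nat_lit 380) (nat_lit 16153216919) (nat_lit 80) (nat_lit 5) (nat_lit 84) (nat_lit 5) (nat_lit 85) (nat_lit 5) (nat_lit 363) (nat_lit 309) (nat_lit 108)) (XT.lf (nat_lit 0) (nat_lit 36219827040)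 (nat_lit 380) (nat_lit 6600440422) (nat_lit 76) (nat_lit 2539313821) (nat_lit 80) (nat_lit 5) (nat_lit 85) (nat_lit 5) (nat_lit 81) (nat_lit 5) (nat_lit 364) (nat_lit 309) (nat_lit 107))) (XT.nd (nat_lit 78) (nat_lit 76) (nat_lit 0) (XT.lf (nat_lit 0) (nat_lit 15459496120) (nat_lit 228) (nat_lit 29166218399) (nat_lit 304) (nat_lit 1645930707) (nat_lit 77) (nat_lit 5) (nat_lit 80) (nat_lit 5) (nat_lit 81) (nat_lit 5) (nat_lit 365) (nat_lit 309) (nat_lit 106)) (XT.lf (nat_lit 0) (nat_lit 6019303627) (nat_lit 304) (nat_lit 8954825624) (nat_lit 76) (nat_lit 32233239261) (nat_lit 76) (nat_lit 5) (nat_lit 80) (nat_lit 5) (nat_lit 77) (nat_lit 5) (nat_lit 366) (nat_lit 309) (nat_lit 105))))) (XT.nd (nat_lit 234) (nat_lit 532) (nat_lit 0) (XT.nd (nat_lit 78) (nat_lit 228) (nat_lit 0) (XT.lf (nat_lit 0) (nat_lit 13808210992) (nat_lit 304) (nat_lit 203784975) (nat_lit 380) (nat_lit 34154762675) (nat_lit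 72) (nat_lit 5) (nat_lit 76) (nat_lit 5) (nat_lit 77) (nat_lit 5) (nat_lit 367) (nat_lit 309) (nat_lit 104)) (XT.nd (nat_lit 78) (nat_lit 228) (nat_lit 0) (XT.lf (nat_lit 0) (nat_lit 22477945144) (nat_lit 380) (nat_lit 11862873767) (nat_lit 76) (nat_lit 14807108749) (nat_lit 72) (nat_lit 5) (nat_lit 77) (nat_lit 5) (nat_lit 73) (nat_lit 5) (nat_lit 368) (nat_lit 309) (nat_lit 103)) (XT.lf (nat_lit 0) (nat_lit 11527506019) (nat_lit 228) (nat_lit 19781128308) (nat_lit 304) (nat_lit 18846576001) (nat_lit 69) (nat_lit 5) (nat_lit 72) (nat_lit 5) (nat_lit 73) (nat_lit 5) (nat_lit 369) (nat_lit 309) (nat_lit 102)))) (XT.nd (nat_lit 156) (nat_lit 304) (nat_lit 0) (XT.nd (nat_lit 78) (nat_lit 228) (nat_lit 0) (XT.lf (nat_lit 0) (nat_lit 35859714973) (nat_lit 228) (nat_lit 4662286150) (nat_lit 304) (nat_lit 10667179030) (nat_lit 69) (nat_lit 5) (nat_lit 72) (nat_lit 5) (nat_lit 73) (nat_lit 5) (nat_lit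 370) (nat_lit 309) (nat_lit 101)) (XT.lf (nat_lit 0) (nat_lit 8730182219) (nat_lit 228) (nat_lit 41468396190) (nat_lit 304) (nat_lit 2049987720) (nat_lit 66) (nat_lit 5) (nat_lit 69) (nat_lit 5) (nat_lit 70) (nat_lit 5) (nat_lit 371) (nat_lit 309) (nat_lit 100))) (XT.nd (nat_lit 78) (nat_lit 228) (nat_lit 0) (XT.lf (nat_lit 0) (nat_lit 6893039687) (nat_lit 304) (nat_lit 19625571027) (nat_lit 76) (nat_lit 26813140405) (nat_lit 65) (nat_lit 5) (nat_lit 69) (nat_lit 5) (nat_lit 66) (nat_lit 5) (nat_lit 372) (nat_lit 309) (nat_lit 99)) (XT.lf (nat_lit 0) (nat_lit 5059514582) (nat_lit 228) (nat_lit 11050356625) (nat_lit 304) (nat_lit 38335551294) (nat_lit 62) (nat_lit 5) (nat_lit 65) (nat_lit 5) (nat_lit 66) (nat_lit 5) (nat_lit 373) (nat_lit 309) (nat_lit 98)))))) (XT.nd (nat_lit 546) (nat_lit 608) (nat_lit 0) (XT.nd (nat_lit 234) (nat_lit 456) (nat_lit 0) (XT.nd (nat_lit 78) (nat_lit 228) (nat_lit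 0) (XT.lf (nat_lit 0) (nat_lit 25848376772) (nat_lit 304) (nat_lit 24750954654) (nat_lit 76) (nat_lit 4985818718) (nat_lit 62) (nat_lit 5) (nat_lit 66) (nat_lit 5) (nat_lit 63) (nat_lit 5) (nat_lit 374) (nat_lit 309) (nat_lit 97)) (XT.nd (nat_lit 78) (nat_lit 0) (nat_lit 0) (XT.lf (nat_lit 0) (nat_lit 520925858) (nat_lit 228) (nat_lit 35470682842) (nat_lit 304) (nat_lit 20764084938) (nat_lit 59) (nat_lit 5) (nat_lit 62) (nat_lit 5) (nat_lit 63) (nat_lit 5) (nat_lit 375) (nat_lit 309) (nat_lit 96)) (XT.lf (nat_lit 0) (nat_lit 27055484278) (nat_lit 228) (nat_lit 19631770060) (nat_lit 304) (nat_lit 11266656721) (nat_lit 59) (nat_lit 5) (nat_lit 62) (nat_lit 5) (nat_lit 63) (nat_lit 5) (nat_lit 376) (nat_lit 309) (nat_lit 95)))) (XT.nd (nat_lit 156) (nat_lit 228) (nat_lit 0) (XT.nd (nat_lit 78) (nat_lit 228) (nat_lit 0) (XT.lf (nat_lit 0) (nat_lit 54383313613) (nat_lit 228) (nat_lit 3318689366) (nat_lit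 304) (nat_lit 1486126109) (nat_lit 59) (nat_lit 5) (nat_lit 62) (nat_lit 5) (nat_lit 63) (nat_lit 5) (nat_lit 377) (nat_lit 309) (nat_lit 94)) (XT.lf (nat_lit 0) (nat_lit 8766616852) (nat_lit 228) (nat_lit 38159136861) (nat_lit 76) (nat_lit 13520753158) (nat_lit 56) (nat_lit 5) (nat_lit 59) (nat_lit 5) (nat_lit 57) (nat_lit 5) (nat_lit 378) (nat_lit 309) (nat_lit 93))) (XT.nd (nat_lit 78) (nat_lit 228) (nat_lit 0) (XT.lf (nat_lit 0) (nat_lit 19377212516) (nat_lit 228) (nat_lit 11501155059) (nat_lit 76) (nat_lit 30861423787) (nat_lit 56) (nat_lit 5) (nat_lit 59) (nat_lit 5) (nat_lit 57) (nat_lit 5) (nat_lit 379) (nat_lit 309) (nat_lit 92)) (XT.lf (nat_lit 0) (nat_lit 16271423084) (nat_lit 228) (nat_lit 14189446033) (nat_lit 304) (nat_lit 32606363949) (nat_lit 53) (nat_lit 5) (nat_lit 56) (nat_lit 5) (nat_lit 57) (nat_lit 5) (nat_lit 380) (nat_lit 309) (nat_lit 91))))) (XT.nd (nat_lit 234) (nat_lit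 456) (nat_lit 0) (XT.nd (nat_lit 78) (nat_lit 152) (nat_lit 0) (XT.lf (nat_lit 0) (nat_lit 42021509633) (nat_lit 304) (nat_lit 19350733900) (nat_lit 76) (nat_lit 3057921204) (nat_lit 53) (nat_lit 5) (nat_lit 57) (nat_lit 5) (nat_lit 54) (nat_lit 5) (nat_lit 381) (nat_lit 309) (nat_lit 90)) (XT.nd (nat_lit 78) (nat_lit 0) (nat_lit 0) (XT.lf (nat_lit 0) (nat_lit 8949242758) (nat_lit 152) (nat_lit 45204635938) (nat_lit 228) (nat_lit 11673359295) (nat_lit 51) (nat_lit 5) (nat_lit 53) (nat_lit 5) (nat_lit 54) (nat_lit 5) (nat_lit 382) (nat_lit 309) (nat_lit 89)) (XT.lf (nat_lit 0) (nat_lit 38492321121) (nat_lit 152) (nat_lit 28351718432) (nat_lit 228) (nat_lit 416370157) (nat_lit 51) (nat_lit 5) (nat_lit 53) (nat_lit 5) (nat_lit 54) (nat_lit 5) (nat_lit 383) (nat_lit 309) (nat_lit 88)))) (XT.nd (nat_lit 156) (nat_lit 152) (nat_lit 0) (XT.nd (nat_lit 78) (nat_lit 0) (nat_lit 0) (XT.lf (nat_lit 0) (nat_lit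 76632075) (nat_lit 228) (nat_lit 10882750069) (nat_lit 304) (nat_lit 57773996196) (nat_lit 47) (nat_lit 5) (nat_lit 50) (nat_lit 5) (nat_lit 51) (nat_lit 5) (nat_lit 384) (nat_lit 309) (nat_lit 87)) (XT.lf (nat_lit 0) (nat_lit 23028222574) (nat_lit 304) (nat_lit 39943294508) (nat_lit 76) (nat_lit 7268090561) (nat_lit 47) (nat_lit 5) (nat_lit 51) (nat_lit 5) (nat_lit 48) (nat_lit 5) (nat_lit 385) (nat_lit 309) (nat_lit 86))) (XT.nd (nat_lit 78) (nat_lit 152) (nat_lit 0) (XT.lf (nat_lit 0) (nat_lit 35565381339) (nat_lit 304) (nat_lit 10478653595) (nat_lit 76) (nat_lit 25743802086) (nat_lit 47) (nat_lit 5) (nat_lit 51) (nat_lit 5) (nat_lit 48) (nat_lit 5) (nat_lit 386) (nat_lit 309) (nat_lit 85)) (XT.lf (nat_lit 0) (nat_lit 20262936806) (nat_lit 152) (nat_lit 28409044525) (nat_lit 228) (nat_lit 24704732918) (nat_lit 45) (nat_lit 5) (nat_lit 47) (nat_lit 5) (nat_lit 48) (nat_lit 5) (nat_lit 387) (nat_lit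 309) (nat_lit 84))))))))
noncomputable def xc212 : XT := (XT.nd (nat_lit 35880) (nat_lit 0) (nat_lit 5092) (XT.nd (nat_lit 34788) (nat_lit 0) (nat_lit 12236) (XT.nd (nat_lit 468) (nat_lit 380) (nat_lit 0) (XT.nd (nat_lit 234) (nat_lit 152) (nat_lit 0) (XT.nd (nat_lit 78) (nat_lit 228) (nat_lit 0) (XT.lf (nat_lit 0) (nat_lit 52139207884) (nat_lit 152) (nat_lit 10136951570) (nat_lit 228) (nat_lit 12733967681) (nat_lit 45) (nat_lit 5) (nat_lit 47) (nat_lit 5) (nat_lit 48) (nat_lit 5) (nat_lit 388) (nat_lit 309) (nat_lit 83)) (XT.nd (nat_lit 78) (nat_lit 76) (nat_lit 0) (XT.lf (nat_lit 0) (nat_lit 8356486699) (nat_lit 152) (nat_lit 68094372420) (nat_lit 228) (nat_lit 236812125) (nat_lit 43) (nat_lit 5) (nat_lit 45) (nat_lit 5) (nat_lit 46) (nat_lit 5) (nat_lit 389) (nat_lit 309) (nat_lit 82)) (XT.lf (nat_lit 0) (nat_lit 12720906160) (nat_lit 228) (nat_lit 37645516717) (nat_lit 76) (nat_lit 28035509521)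 (nat_lit 42) (nat_lit 5) (nat_lit 45) (nat_lit 5) (nat_lit 43) (nat_lit 5) (nat_lit 390) (nat_lit 309) (nat_lit 81)))) (XT.nd (nat_lit 78) (nat_lit 152) (nat_lit 0) (XT.lf (nat_lit 0) (nat_lit 26061240495) (nat_lit 228) (nat_lit 6043894887) (nat_lit 76) (nat_lit 48062457000) (nat_lit 42) (nat_lit 5) (nat_lit 45) (nat_lit 5) (nat_lit 43) (nat_lit 5) (nat_lit 391) (nat_lit 309) (nat_lit 80)) (XT.nd (nat_lit 78) (nat_lit 0) (nat_lit 0) (XT.lf (nat_lit 0) (nat_lit 27031043412) (nat_lit 152) (nat_lit 13029264051) (nat_lit 228) (nat_lit 41918159665) (nat_lit 40) (nat_lit 5) (nat_lit 42) (nat_lit 5) (nat_lit 43) (nat_lit 5) (nat_lit 392) (nat_lit 309) (nat_lit 79)) (XT.lf (nat_lit 0) (nat_lit 54603299482) (nat_lit 228) (nat_lit 22686157091) (nat_lit 76) (nat_lit 6550493575) (nat_lit 40) (nat_lit 5) (nat_lit 43) (nat_lit 5) (nat_lit 41) (nat_lit 5) (nat_lit 393) (nat_lit 309) (nat_lit 78))))) (XT.nd (nat_lit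 234) (nat_lit 152) (nat_lit 0) (XT.nd (nat_lit 78) (nat_lit 76) (nat_lit 0) (XT.lf (nat_lit 0) (nat_lit 10619009882) (nat_lit 152) (nat_lit 59193381020) (nat_lit 228) (nat_lit 15937993072) (nat_lit 38) (nat_lit 5) (nat_lit 40) (nat_lit 5) (nat_lit 41) (nat_lit 5) (nat_lit 394) (nat_lit 309) (nat_lit 77)) (XT.nd (nat_lit 78) (nat_lit 76) (nat_lit 0) (XT.lf (nat_lit 0) (nat_lit 45386246757) (nat_lit 152) (nat_lit 40319341124) (nat_lit 228) (nat_lit 2005708536) (nat_lit 38) (nat_lit 5) (nat_lit 40) (nat_lit 5) (nat_lit 41) (nat_lit 5) (nat_lit 395) (nat_lit 309) (nat_lit 76)) (XT.lf (nat_lit 0) (nat_lit 12102429011) (nat_lit 228) (nat_lit 8655290897) (nat_lit 76) (nat_lit 68969793850) (nat_lit 37) (nat_lit 5) (nat_lit 40) (nat_lit 5) (nat_lit 38) (nat_lit 5) (nat_lit 396) (nat_lit 309) (nat_lit 75)))) (XT.nd (nat_lit 33930) (nat_lit 0) (nat_lit 12160) (XT.nd (nat_lit 33852) (nat_lit 0) (nat_lit 12160)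 (XT.lf (nat_lit 0) (nat_lit 26520175114) (nat_lit 152) (nat_lit 327057760) (nat_lit 228) (nat_lit 64948777478) (nat_lit 35) (nat_lit 5) (nat_lit 37) (nat_lit 5) (nat_lit 38) (nat_lit 5) (nat_lit 397) (nat_lit 309) (nat_lit 74)) (XT.lf (nat_lit 0) (nat_lit 1499032411) (nat_lit 0) (nat_lit 1499032411) (nat_lit 1140) (nat_lit 6032746580) (nat_lit 195) (nat_lit 5) (nat_lit 195) (nat_lit 3) (nat_lit 210) (nat_lit 3) (nat_lit 310) (nat_lit 310) (nat_lit 160))) (XT.nd (nat_lit 78) (nat_lit 0) (nat_lit 0) (XT.lf (nat_lit 0) (nat_lit 6330081261) (nat_lit 1140) (nat_lit 6917842302) (nat_lit 1216) (nat_lit 5077075110) (nat_lit 195) (nat_lit 5) (nat_lit 210) (nat_lit 3) (nat_lit 211) (nat_lit 5) (nat_lit 311) (nat_lit 310) (nat_lit 159)) (XT.lf (nat_lit 76) (nat_lit 1467127004) (nat_lit 0) (nat_lit 5243167161) (nat_lit 1216) (nat_lit 11884903277) (nat_lit 196) (nat_lit 5) (nat_lit 195) (nat_lit 5) (nat_lit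 211) (nat_lit 5) (nat_lit 312) (nat_lit 310) (nat_lit 158)))))) (XT.nd (nat_lit 546) (nat_lit 0) (nat_lit 228) (XT.nd (nat_lit 234) (nat_lit 0) (nat_lit 76) (XT.nd (nat_lit 78) (nat_lit 0) (nat_lit 0) (XT.lf (nat_lit 0) (nat_lit 7193985401) (nat_lit 1140) (nat_lit 8659783004) (nat_lit 1216) (nat_lit 3016980257) (nat_lit 196) (nat_lit 5) (nat_lit 211) (nat_lit 5) (nat_lit 212) (nat_lit 5) (nat_lit 313) (nat_lit 310) (nat_lit 157)) (XT.nd (nat_lit 78) (nat_lit 0) (nat_lit 76) (XT.lf (nat_lit 76) (nat_lit 6609510) (nat_lit 0) (nat_lit 7730436631) (nat_lit 1216) (nat_lit 11416182910) (nat_lit 197) (nat_lit 5) (nat_lit 196) (nat_lit 5) (nat_lit 212) (nat_lit 5) (nat_lit 314) (nat_lit 310) (nat_lit 156)) (XT.lf (nat_lit 0) (nat_lit 8383908281) (nat_lit 1140) (nat_lit 10342397768) (nat_lit 1216) (nat_lit 715260663) (nat_lit 197) (nat_lit 5) (nat_lit 212) (nat_lit 5) (nat_lit 213) (nat_lit 5) (nat_lit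 315) (nat_lit 310) (nat_lit 155)))) (XT.nd (nat_lit 156) (nat_lit 0) (nat_lit 76) (XT.nd (nat_lit 78) (nat_lit 0) (nat_lit 0) (XT.lf (nat_lit 0) (nat_lit 9119994483) (nat_lit 1140) (nat_lit 1354824273) (nat_lit 1216) (nat_lit 9261649114) (nat_lit 197) (nat_lit 5) (nat_lit 212) (nat_lit 5) (nat_lit 213) (nat_lit 5) (nat_lit 316) (nat_lit 310) (nat_lit 154)) (XT.lf (nat_lit 76) (nat_lit 8055454787) (nat_lit 0) (nat_lit 1893617415) (nat_lit 1216) (nat_lit 10089024274) (nat_lit 198) (nat_lit 5) (nat_lit 197) (nat_lit 5) (nat_lit 213) (nat_lit 5) (nat_lit 317) (nat_lit 310) (nat_lit 153))) (XT.nd (nat_lit 78) (nat_lit 0) (nat_lit 0) (XT.lf (nat_lit 0) (nat_lit 10877246563) (nat_lit 1140) (nat_lit 2643737024) (nat_lit 1216) (nat_lit 6825571083) (nat_lit 198) (nat_lit 5) (nat_lit 213) (nat_lit 5) (nat_lit 214) (nat_lit 5) (nat_lit 318) (nat_lit 310) (nat_lit 152)) (XT.lf (nat_lit 76) (nat_lit 7090784821)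 (nat_lit 0) (nat_lit 4823223994) (nat_lit 1216) (nat_lit 8747842754) (nat_lit 199) (nat_lit 5) (nat_lit 198) (nat_lit 5) (nat_lit 214) (nat_lit 5) (nat_lit 319) (nat_lit 310) (nat_lit 151))))) (XT.nd (nat_lit 234) (nat_lit 0) (nat_lit 76) (XT.nd (nat_lit 78) (nat_lit 0) (nat_lit 0) (XT.lf (nat_lit 0) (nat_lit 13042578695) (nat_lit 1140) (nat_lit 3858620383) (nat_lit 1216) (nat_lit 4083594186) (nat_lit 199) (nat_lit 5) (nat_lit 214) (nat_lit 5) (nat_lit 215) (nat_lit 5) (nat_lit 320) (nat_lit 310) (nat_lit 150)) (XT.nd (nat_lit 78) (nat_lit 0) (nat_lit 76) (XT.lf (nat_lit 76) (nat_lit 6214505002) (nat_lit 0) (nat_lit 8092159221) (nat_lit 1216) (nat_lit 7007716054) (nat_lit 200) (nat_lit 5) (nat_lit 199) (nat_lit 5) (nat_lit 215) (nat_lit 5) (nat_lit 321) (nat_lit 310) (nat_lit 149)) (XT.lf (nat_lit 0) (nat_lit 15651764931) (nat_lit 1140) (nat_lit 4997939438) (nat_lit 1216) (nat_lit 1002864380) (nat_lit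 200) (nat_lit 5) (nat_lit 215) (nat_lit 5) (nat_lit 216) (nat_lit 5) (nat_lit 322) (nat_lit 310) (nat_lit 148)))) (XT.nd (nat_lit 156) (nat_lit 0) (nat_lit 76) (XT.nd (nat_lit 78) (nat_lit 0) (nat_lit 0) (XT.lf (nat_lit 76) (nat_lit 5428634910) (nat_lit 0) (nat_lit 11735364092) (nat_lit 1216) (nat_lit 4833106896) (nat_lit 201) (nat_lit 5) (nat_lit 200) (nat_lit 5) (nat_lit 216) (nat_lit 5) (nat_lit 323) (nat_lit 310) (nat_lit 147)) (XT.lf (nat_lit 76) (nat_lit 16266269437) (nat_lit 0) (nat_lit 2500397243) (nat_lit 1216) (nat_lit 3583966731) (nat_lit 201) (nat_lit 5) (nat_lit 200) (nat_lit 5) (nat_lit 216) (nat_lit 5) (nat_lit 324) (nat_lit 310) (nat_lit 146))) (XT.nd (nat_lit 78) (nat_lit 0) (nat_lit 0) (XT.lf (nat_lit 76) (nat_lit 4735020975) (nat_lit 0) (nat_lit 15790075176) (nat_lit 1216) (nat_lit 2186446209) (nat_lit 202) (nat_lit 5) (nat_lit 201) (nat_lit 5) (nat_lit 217) (nat_lit 5) (nat_lit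 325) (nat_lit 310) (nat_lit 145)) (XT.lf (nat_lit 76) (nat_lit 15974260833) (nat_lit 0) (nat_lit 6442849463) (nat_lit 1216) (nat_lit 663749215) (nat_lit 202) (nat_lit 5) (nat_lit 201) (nat_lit 5) (nat_lit 217) (nat_lit 5) (nat_lit 326) (nat_lit 310) (nat_lit 144))))))) (XT.nd (nat_lit 1092) (nat_lit 2964) (nat_lit 0) (XT.nd (nat_lit 546) (nat_lit 1596) (nat_lit 0) (XT.nd (nat_lit 234) (nat_lit 1140) (nat_lit 0) (XT.nd (nat_lit 78) (nat_lit 684) (nat_lit 0) (XT.lf (nat_lit 0) (nat_lit 953018597) (nat_lit 1216) (nat_lit 19333384030) (nat_lit 76) (nat_lit 3172616950) (nat_lit 186) (nat_lit 5) (nat_lit 202) (nat_lit 5) (nat_lit 187) (nat_lit 5) (nat_lit 327) (nat_lit 310) (nat_lit 143)) (XT.nd (nat_lit 78) (nat_lit 684) (nat_lit 0) (XT.lf (nat_lit 0) (nat_lit 2736298942) (nat_lit 1216) (nat_lit 8081233096) (nat_lit 76) (nat_lit 13026860135) (nat_lit 186) (nat_lit 5) (nat_lit 202) (nat_lit 5) (nat_lit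 187) (nat_lit 5) (nat_lit 328) (nat_lit 310) (nat_lit 142)) (XT.lf (nat_lit 0) (nat_lit 3574046484) (nat_lit 684) (nat_lit 1028616628) (nat_lit 760) (nat_lit 19637780503) (nat_lit 177) (nat_lit 5) (nat_lit 186) (nat_lit 5) (nat_lit 187) (nat_lit 5) (nat_lit 329) (nat_lit 310) (nat_lit 141)))) (XT.nd (nat_lit 156) (nat_lit 532) (nat_lit 0) (XT.nd (nat_lit 78) (nat_lit 608) (nat_lit 0) (XT.lf (nat_lit 0) (nat_lit 6689796846) (nat_lit 760) (nat_lit 8993414672) (nat_lit 76) (nat_lit 8960226802) (nat_lit 177) (nat_lit 5) (nat_lit 187) (nat_lit 5) (nat_lit 178) (nat_lit 5) (nat_lit 330) (nat_lit 310) (nat_lit 140)) (XT.lf (nat_lit 0) (nat_lit 3075422609) (nat_lit 608) (nat_lit 5799338858) (nat_lit 684) (nat_lit 16182709823) (nat_lit 169) (nat_lit 5) (nat_lit 177) (nat_lit 5) (nat_lit 178) (nat_lit 5) (nat_lit 331) (nat_lit 310) (nat_lit 139))) (XT.nd (nat_lit 78) (nat_lit 532) (nat_lit 0) (XT.lf (nat_lit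 0) (nat_lit 11254668454) (nat_lit 684) (nat_lit 9837795131) (nat_lit 76) (nat_lit 4387584649) (nat_lit 169) (nat_lit 5) (nat_lit 178) (nat_lit 5) (nat_lit 170) (nat_lit 5) (nat_lit 332) (nat_lit 310) (nat_lit 138)) (XT.lf (nat_lit 0) (nat_lit 2661156697) (nat_lit 532) (nat_lit 11123510060) (nat_lit 608) (nat_lit 12128279555) (nat_lit 162) (nat_lit 5) (nat_lit 169) (nat_lit 5) (nat_lit 170) (nat_lit 5) (nat_lit 333) (nat_lit 310) (nat_lit 137))))) (XT.nd (nat_lit 234) (nat_lit 1064) (nat_lit 0) (XT.nd (nat_lit 78) (nat_lit 532) (nat_lit 0) (XT.lf (nat_lit 0) (nat_lit 15732643930) (nat_lit 532) (nat_lit 753043779) (nat_lit 608) (nat_lit 9870294452) (nat_lit 162) (nat_lit 5) (nat_lit 169) (nat_lit 5) (nat_lit 170) (nat_lit 5) (nat_lit 334) (nat_lit 310) (nat_lit 136)) (XT.nd (nat_lit 78) (nat_lit 0) (nat_lit 0) (XT.lf (nat_lit 0) (nat_lit 2329884608) (nat_lit 532) (nat_lit 17051594424) (nat_lit 608)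 (nat_lit 7427422244) (nat_lit 155) (nat_lit 5) (nat_lit 162) (nat_lit 5) (nat_lit 163) (nat_lit 5) (nat_lit 335) (nat_lit 310) (nat_lit 135)) (XT.lf (nat_lit 0) (nat_lit 15877800798) (nat_lit 532) (nat_lit 6596985459) (nat_lit 608) (nat_lit 4797306696) (nat_lit 155) (nat_lit 5) (nat_lit 162) (nat_lit 5) (nat_lit 163) (nat_lit 5) (nat_lit 336) (nat_lit 310) (nat_lit 134)))) (XT.nd (nat_lit 156) (nat_lit 532) (nat_lit 0) (XT.nd (nat_lit 78) (nat_lit 76) (nat_lit 0) (XT.lf (nat_lit 0) (nat_lit 2079384419) (nat_lit 456) (nat_lit 23637694285) (nat_lit 532) (nat_lit 2030420224) (nat_lit 149) (nat_lit 5) (nat_lit 155) (nat_lit 5) (nat_lit 156) (nat_lit 5) (nat_lit 337) (nat_lit 310) (nat_lit 133)) (XT.lf (nat_lit 0) (nat_lit 981131885) (nat_lit 532) (nat_lit 12121315517) (nat_lit 76) (nat_lit 15129157757) (nat_lit 148) (nat_lit 5) (nat_lit 155) (nat_lit 5) (nat_lit 149) (nat_lit 5) (nat_lit 338) (nat_lit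 310) (nat_lit 132))) (XT.nd (nat_lit 78) (nat_lit 0) (nat_lit 0) (XT.lf (nat_lit 0) (nat_lit 1843772455) (nat_lit 532) (nat_lit 2212418745) (nat_lit 608) (nat_lit 24673024960) (nat_lit 141) (nat_lit 5) (nat_lit 148) (nat_lit 5) (nat_lit 149) (nat_lit 5) (nat_lit 339) (nat_lit 310) (nat_lit 131)) (XT.lf (nat_lit 0) (nat_lit 7429986015) (nat_lit 608) (nat_lit 12853625012) (nat_lit 76) (nat_lit 8951953621) (nat_lit 141) (nat_lit 5) (nat_lit 149) (nat_lit 5) (nat_lit 142) (nat_lit 5) (nat_lit 340) (nat_lit 310) (nat_lit 130)))))) (XT.nd (nat_lit 546) (nat_lit 1140) (nat_lit 0) (XT.nd (nat_lit 234) (nat_lit 912) (nat_lit 0) (XT.nd (nat_lit 78) (nat_lit 456) (nat_lit 0) (XT.lf (nat_lit 0) (nat_lit 1604610289) (nat_lit 456) (nat_lit 9334136695) (nat_lit 532) (nat_lit 18817347598) (nat_lit 135) (nat_lit 5) (nat_lit 141) (nat_lit 5) (nat_lit 142) (nat_lit 5) (nat_lit 341) (nat_lit 310) (nat_lit 129)) (XT.nd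 (nat_lit 78) (nat_lit 456) (nat_lit 0) (XT.lf (nat_lit 0) (nat_lit 14699023039) (nat_lit 532) (nat_lit 13552248330) (nat_lit 76) (nat_lit 2036584936) (nat_lit 135) (nat_lit 5) (nat_lit 142) (nat_lit 5) (nat_lit 136) (nat_lit 5) (nat_lit 342) (nat_lit 310) (nat_lit 128)) (XT.lf (nat_lit 0) (nat_lit 1416290414) (nat_lit 456) (nat_lit 17258436298) (nat_lit 532) (nat_lit 12157768945) (nat_lit 129) (nat_lit 5) (nat_lit 135) (nat_lit 5) (nat_lit 136) (nat_lit 5) (nat_lit 343) (nat_lit 310) (nat_lit 127)))) (XT.nd (nat_lit 156) (nat_lit 532) (nat_lit 0) (XT.nd (nat_lit 78) (nat_lit 380) (nat_lit 0) (XT.lf (nat_lit 0) (nat_lit 17107837272) (nat_lit 456) (nat_lit 5795365567) (nat_lit 532) (nat_lit 8486269570) (nat_lit 129) (nat_lit 5) (nat_lit 135) (nat_lit 5) (nat_lit 136) (nat_lit 5) (nat_lit 344) (nat_lit 310) (nat_lit 126)) (XT.lf (nat_lit 0) (nat_lit 1270130180) (nat_lit 380) (nat_lit 26055142544)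 (nat_lit 456) (nat_lit 4635886722) (nat_lit 124) (nat_lit 5) (nat_lit 129) (nat_lit 5) (nat_lit 130) (nat_lit 5) (nat_lit 345) (nat_lit 310) (nat_lit 125))) (XT.nd (nat_lit 78) (nat_lit 532) (nat_lit 0) (XT.lf (nat_lit 0) (nat_lit 17518884235) (nat_lit 380) (nat_lit 14558955659) (nat_lit 456) (nat_lit 466225215) (nat_lit 124) (nat_lit 5) (nat_lit 129) (nat_lit 5) (nat_lit 130) (nat_lit 5) (nat_lit 346) (nat_lit 310) (nat_lit 124)) (XT.lf (nat_lit 0) (nat_lit 1091381060) (nat_lit 456) (nat_lit 2669788624) (nat_lit 532) (nat_lit 29381966533) (nat_lit 117) (nat_lit 5) (nat_lit 123) (nat_lit 5) (nat_lit 124) (nat_lit 5) (nat_lit 347) (nat_lit 310) (nat_lit 123))))) (XT.nd (nat_lit 234) (nat_lit 760) (nat_lit 0) (XT.nd (nat_lit 78) (nat_lit 380) (nat_lit 0) (XT.lf (nat_lit 0) (nat_lit 8348204162) (nat_lit 532) (nat_lit 15858164504) (nat_lit 76) (nat_lit 9546409471) (nat_lit 117) (nat_lit 5) (nat_lit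 124) (nat_lit 5) (nat_lit 118) (nat_lit 5) (nat_lit 348) (nat_lit 310) (nat_lit 122)) (XT.nd (nat_lit 78) (nat_lit 0) (nat_lit 0) (XT.lf (nat_lit 0) (nat_lit 806846826) (nat_lit 380) (nat_lit 12297192712) (nat_lit 456) (nat_lit 21275736811) (nat_lit 112) (nat_lit 5) (nat_lit 117) (nat_lit 5) (nat_lit 118) (nat_lit 5) (nat_lit 349) (nat_lit 310) (nat_lit 121)) (XT.lf (nat_lit 0) (nat_lit 18161022055) (nat_lit 456) (nat_lit 16728931029) (nat_lit 76) (nat_lit 130879911) (nat_lit 112) (nat_lit 5) (nat_lit 118) (nat_lit 5) (nat_lit 113) (nat_lit 5) (nat_lit 350) (nat_lit 310) (nat_lit 120)))) (XT.nd (nat_lit 156) (nat_lit 380) (nat_lit 0) (XT.nd (nat_lit 78) (nat_lit 0) (nat_lit 0) (XT.lf (nat_lit 0) (nat_lit 504847604) (nat_lit 380) (nat_lit 22988605486) (nat_lit 456) (nat_lit 12183958651) (nat_lit 107) (nat_lit 5) (nat_lit 112) (nat_lit 5) (nat_lit 113) (nat_lit 5) (nat_lit 351) (nat_lit 310) (nat_lit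 119)) (XT.lf (nat_lit 0) (nat_lit 18594965111) (nat_lit 380) (nat_lit 10557002029) (nat_lit 456) (nat_lit 7196739907) (nat_lit 107) (nat_lit 5) (nat_lit 112) (nat_lit 5) (nat_lit 113) (nat_lit 5) (nat_lit 352) (nat_lit 310) (nat_lit 118))) (XT.nd (nat_lit 78) (nat_lit 76) (nat_lit 0) (XT.lf (nat_lit 0) (nat_lit 165699984) (nat_lit 304) (nat_lit 34834989758) (nat_lit 380) (nat_lit 2038840301) (nat_lit 103) (nat_lit 5) (nat_lit 107) (nat_lit 5) (nat_lit 108) (nat_lit 5) (nat_lit 353) (nat_lit 310) (nat_lit 117)) (XT.lf (nat_lit 0) (nat_lit 3492762915) (nat_lit 380) (nat_lit 18900404522) (nat_lit 76) (nat_lit 15348482980) (nat_lit 102) (nat_lit 5) (nat_lit 107) (nat_lit 5) (nat_lit 103) (nat_lit 5) (nat_lit 354) (nat_lit 310) (nat_lit 116))))))))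
noncomputable def xc213 : XT := (XT.nd (nat_lit 2184) (nat_lit 1216) (nat_lit 0) (XT.nd (nat_lit 1092) (nat_lit 1444) (nat_lit 0) (XT.nd (nat_lit 546) (nat_lit 1216) (nat_lit 0) (XT.nd (nat_lit 234) (nat_lit 684) (nat_lit 0) (XT.nd (nat_lit 78) (nat_lit 380) (nat_lit 0) (XT.lf (nat_lit 0) (nat_lit 9146687398) (nat_lit 380) (nat_lit 411453111) (nat_lit 76) (nat_lit 28906169963) (nat_lit 102) (nat_lit 5) (nat_lit 107) (nat_lit 5) (nat_lit 103) (nat_lit 5) (nat_lit 355) (nat_lit 310) (nat_lit 115)) (XT.nd (nat_lit 78) (nat_lit 0) (nat_lit 0) (XT.lf (nat_lit 0) (nat_lit 15187294855) (nat_lit 456) (nat_lit 20240724391) (nat_lit 76) (nat_lit 3774121280) (nat_lit 97) (nat_lit 5) (nat_lit 103) (nat_lit 5) (nat_lit 98) (nat_lit 5) (nat_lit 356) (nat_lit 310) (nat_lit 114)) (XT.lf (nat_lit 0) (nat_lit 21505415248) (nat_lit 456) (nat_lit 1136176647) (nat_lit 76) (nat_lit 17317626838) (nat_lit 97) (nat_lit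 5) (nat_lit 103) (nat_lit 5) (nat_lit 98) (nat_lit 5) (nat_lit 357) (nat_lit 310) (nat_lit 113)))) (XT.nd (nat_lit 156) (nat_lit 380) (nat_lit 0) (XT.nd (nat_lit 78) (nat_lit 0) (nat_lit 0) (XT.lf (nat_lit 0) (nat_lit 18907128003) (nat_lit 304) (nat_lit 9285235654) (nat_lit 380) (nat_lit 12541269127) (nat_lit 93) (nat_lit 5) (nat_lit 97) (nat_lit 5) (nat_lit 98) (nat_lit 5) (nat_lit 358) (nat_lit 310) (nat_lit 112)) (XT.lf (nat_lit 0) (nat_lit 35132062280) (nat_lit 380) (nat_lit 2002371509) (nat_lit 76) (nat_lit 4395283188) (nat_lit 93) (nat_lit 5) (nat_lit 98) (nat_lit 5) (nat_lit 94) (nat_lit 5) (nat_lit 359) (nat_lit 310) (nat_lit 111))) (XT.nd (nat_lit 78) (nat_lit 0) (nat_lit 0) (XT.lf (nat_lit 0) (nat_lit 203485838) (nat_lit 380) (nat_lit 23657683928) (nat_lit 76) (nat_lit 18480380189) (nat_lit 88) (nat_lit 5) (nat_lit 93) (nat_lit 5) (nat_lit 89) (nat_lit 5) (nat_lit 360) (nat_lit 310) (nat_lit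 110)) (XT.lf (nat_lit 0) (nat_lit 6892147190) (nat_lit 380) (nat_lit 3212215352) (nat_lit 76) (nat_lit 33070934699) (nat_lit 88) (nat_lit 5) (nat_lit 93) (nat_lit 5) (nat_lit 89) (nat_lit 5) (nat_lit 361) (nat_lit 310) (nat_lit 109))))) (XT.nd (nat_lit 234) (nat_lit 608) (nat_lit 0) (XT.nd (nat_lit 78) (nat_lit 304) (nat_lit 0) (XT.lf (nat_lit 0) (nat_lit 13994925324) (nat_lit 380) (nat_lit 25871124999) (nat_lit 76) (nat_lit 4161604665) (nat_lit 84) (nat_lit 5) (nat_lit 89) (nat_lit 5) (nat_lit 85) (nat_lit 5) (nat_lit 362) (nat_lit 310) (nat_lit 108)) (XT.nd (nat_lit 78) (nat_lit 304) (nat_lit 0) (XT.lf (nat_lit 0) (nat_lit 21441336835) (nat_lit 380) (nat_lit 4776001378) (nat_lit 76) (nat_lit 18684330456) (nat_lit 84) (nat_lit 5) (nat_lit 89) (nat_lit 5) (nat_lit 85) (nat_lit 5) (nat_lit 363) (nat_lit 310) (nat_lit 107)) (XT.lf (nat_lit 0) (nat_lit 17286173371) (nat_lit 304) (nat_lit 11988946772)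 (nat_lit 380) (nat_lit 16521864885) (nat_lit 80) (nat_lit 5) (nat_lit 84) (nat_lit 5) (nat_lit 85) (nat_lit 5) (nat_lit 364) (nat_lit 310) (nat_lit 106)))) (XT.nd (nat_lit 156) (nat_lit 380) (nat_lit 0) (XT.nd (nat_lit 78) (nat_lit 228) (nat_lit 0) (XT.lf (nat_lit 0) (nat_lit 37416091950) (nat_lit 380) (nat_lit 6638849578) (nat_lit 76) (nat_lit 2662055703) (nat_lit 80) (nat_lit 5) (nat_lit 85) (nat_lit 5) (nat_lit 81) (nat_lit 5) (nat_lit 365) (nat_lit 310) (nat_lit 105)) (XT.lf (nat_lit 0) (nat_lit 16081320314) (nat_lit 228) (nat_lit 29991160635) (nat_lit 304) (nat_lit 1583994767) (nat_lit 77) (nat_lit 5) (nat_lit 80) (nat_lit 5) (nat_lit 81) (nat_lit 5) (nat_lit 366) (nat_lit 310) (nat_lit 104))) (XT.nd (nat_lit 78) (nat_lit 304) (nat_lit 0) (XT.lf (nat_lit 0) (nat_lit 6305845578) (nat_lit 304) (nat_lit 9067850820) (nat_lit 76) (nat_lit 33246639804) (nat_lit 76) (nat_lit 5) (nat_lit 80) (nat_lit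 5) (nat_lit 77) (nat_lit 5) (nat_lit 367) (nat_lit 310) (nat_lit 103)) (XT.lf (nat_lit 0) (nat_lit 14376551213) (nat_lit 304) (nat_lit 160162423) (nat_lit 380) (nat_lit 35071844720) (nat_lit 72) (nat_lit 5) (nat_lit 76) (nat_lit 5) (nat_lit 77) (nat_lit 5) (nat_lit 368) (nat_lit 310) (nat_lit 102)))))) (XT.nd (nat_lit 546) (nat_lit 684) (nat_lit 0) (XT.nd (nat_lit 234) (nat_lit 532) (nat_lit 0) (XT.nd (nat_lit 78) (nat_lit 228) (nat_lit 0) (XT.lf (nat_lit 0) (nat_lit 23254065911) (nat_lit 380) (nat_lit 12066508677) (nat_lit 76) (nat_lit 15298667226) (nat_lit 72) (nat_lit 5) (nat_lit 77) (nat_lit 5) (nat_lit 73) (nat_lit 5) (nat_lit 369) (nat_lit 310) (nat_lit 101)) (XT.nd (nat_lit 78) (nat_lit 0) (nat_lit 0) (XT.lf (nat_lit 0) (nat_lit 12024089844) (nat_lit 228) (nat_lit 20324070574) (nat_lit 304) (nat_lit 19308630049) (nat_lit 69) (nat_lit 5) (nat_lit 72) (nat_lit 5) (nat_lit 73) (nat_lit 5) (nat_lit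 370) (nat_lit 310) (nat_lit 100)) (XT.lf (nat_lit 0) (nat_lit 37081874038) (nat_lit 228) (nat_lit 4753133779) (nat_lit 304) (nat_lit 10886861165) (nat_lit 69) (nat_lit 5) (nat_lit 72) (nat_lit 5) (nat_lit 73) (nat_lit 5) (nat_lit 371) (nat_lit 310) (nat_lit 99)))) (XT.nd (nat_lit 156) (nat_lit 228) (nat_lit 0) (XT.nd (nat_lit 78) (nat_lit 76) (nat_lit 0) (XT.lf (nat_lit 0) (nat_lit 9139511020) (nat_lit 228) (nat_lit 42661410680) (nat_lit 304) (nat_lit 2012145587) (nat_lit 66) (nat_lit 5) (nat_lit 69) (nat_lit 5) (nat_lit 70) (nat_lit 5) (nat_lit 372) (nat_lit 310) (nat_lit 98)) (XT.lf (nat_lit 0) (nat_lit 7194397139) (nat_lit 304) (nat_lit 20069266093) (nat_lit 76) (nat_lit 27665142874) (nat_lit 65) (nat_lit 5) (nat_lit 69) (nat_lit 5) (nat_lit 66) (nat_lit 5) (nat_lit 373) (nat_lit 310) (nat_lit 97))) (XT.nd (nat_lit 78) (nat_lit 0) (nat_lit 0) (XT.lf (nat_lit 0) (nat_lit 5354949809) (nat_lit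 228) (nat_lit 11331410288) (nat_lit 304) (nat_lit 39389570501) (nat_lit 62) (nat_lit 5) (nat_lit 65) (nat_lit 5) (nat_lit 66) (nat_lit 5) (nat_lit 374) (nat_lit 310) (nat_lit 96)) (XT.lf (nat_lit 0) (nat_lit 26714777374) (nat_lit 304) (nat_lit 25351716940) (nat_lit 76) (nat_lit 5183424772) (nat_lit 62) (nat_lit 5) (nat_lit 66) (nat_lit 5) (nat_lit 63) (nat_lit 5) (nat_lit 375) (nat_lit 310) (nat_lit 95))))) (XT.nd (nat_lit 234) (nat_lit 456) (nat_lit 0) (XT.nd (nat_lit 78) (nat_lit 0) (nat_lit 0) (XT.lf (nat_lit 0) (nat_lit 676930121) (nat_lit 228) (nat_lit 36484076514) (nat_lit 304) (nat_lit 21294612901) (nat_lit 59) (nat_lit 5) (nat_lit 62) (nat_lit 5) (nat_lit 63) (nat_lit 5) (nat_lit 376) (nat_lit 310) (nat_lit 94)) (XT.nd (nat_lit 78) (nat_lit 0) (nat_lit 0) (XT.lf (nat_lit 0) (nat_lit 28003436659) (nat_lit 228) (nat_lit 20171473829) (nat_lit 304) (nat_lit 11514952942) (nat_lit 59) (nat_lit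 5) (nat_lit 62) (nat_lit 5) (nat_lit 63) (nat_lit 5) (nat_lit 377) (nat_lit 310) (nat_lit 93)) (XT.lf (nat_lit 0) (nat_lit 56147131324) (nat_lit 228) (nat_lit 3370435160) (nat_lit 304) (nat_lit 1443619134) (nat_lit 59) (nat_lit 5) (nat_lit 62) (nat_lit 5) (nat_lit 63) (nat_lit 5) (nat_lit 378) (nat_lit 310) (nat_lit 92)))) (XT.nd (nat_lit 156) (nat_lit 228) (nat_lit 0) (XT.nd (nat_lit 78) (nat_lit 0) (nat_lit 0) (XT.lf (nat_lit 0) (nat_lit 9114262571) (nat_lit 228) (nat_lit 39169049160) (nat_lit 76) (nat_lit 13974001690) (nat_lit 56) (nat_lit 5) (nat_lit 59) (nat_lit 5) (nat_lit 57) (nat_lit 5) (nat_lit 379) (nat_lit 310) (nat_lit 91)) (XT.lf (nat_lit 0) (nat_lit 20040710651) (nat_lit 228) (nat_lit 11715255918) (nat_lit 76) (nat_lit 31833505274) (nat_lit 56) (nat_lit 5) (nat_lit 59) (nat_lit 5) (nat_lit 57) (nat_lit 5) (nat_lit 380) (nat_lit 310) (nat_lit 90))) (XT.nd (nat_lit 78) (nat_lit 0) (nat_lit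 0) (XT.lf (nat_lit 0) (nat_lit 16889215905) (nat_lit 228) (nat_lit 14566513678) (nat_lit 304) (nat_lit 33501043028) (nat_lit 53) (nat_lit 5) (nat_lit 56) (nat_lit 5) (nat_lit 57) (nat_lit 5) (nat_lit 381) (nat_lit 310) (nat_lit 89)) (XT.lf (nat_lit 0) (nat_lit 43361282803) (nat_lit 304) (nat_lit 19803430431) (nat_lit 76) (nat_lit 3195937546) (nat_lit 53) (nat_lit 5) (nat_lit 57) (nat_lit 5) (nat_lit 54) (nat_lit 5) (nat_lit 382) (nat_lit 310) (nat_lit 88))))))) (XT.nd (nat_lit 1092) (nat_lit 76) (nat_lit 0) (XT.nd (nat_lit 546) (nat_lit 532) (nat_lit 0) (XT.nd (nat_lit 234) (nat_lit 152) (nat_lit 0) (XT.nd (nat_lit 78) (nat_lit 304) (nat_lit 0) (XT.lf (nat_lit 0) (nat_lit 9344292335) (nat_lit 152) (nat_lit 46512242597) (nat_lit 228) (nat_lit 11943135253) (nat_lit 51) (nat_lit 5) (nat_lit 53) (nat_lit 5) (nat_lit 54) (nat_lit 5) (nat_lit 383) (nat_lit 310) (nat_lit 87)) (XT.nd (nat_lit 78) (nat_lit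 304) (nat_lit 0) (XT.lf (nat_lit 0) (nat_lit 39769976477) (nat_lit 152) (nat_lit 29155151131) (nat_lit 228) (nat_lit 350778911) (nat_lit 51) (nat_lit 5) (nat_lit 53) (nat_lit 5) (nat_lit 54) (nat_lit 5) (nat_lit 384) (nat_lit 310) (nat_lit 86)) (XT.lf (nat_lit 0) (nat_lit 202161562) (nat_lit 228) (nat_lit 11161515432) (nat_lit 304) (nat_lit 59429397258) (nat_lit 47) (nat_lit 5) (nat_lit 50) (nat_lit 5) (nat_lit 51) (nat_lit 5) (nat_lit 385) (nat_lit 310) (nat_lit 85)))) (XT.nd (nat_lit 156) (nat_lit 152) (nat_lit 0) (XT.nd (nat_lit 78) (nat_lit 0) (nat_lit 0) (XT.lf (nat_lit 0) (nat_lit 23792828544) (nat_lit 304) (nat_lit 41020159093) (nat_lit 76) (nat_lit 7531556585) (nat_lit 47) (nat_lit 5) (nat_lit 51) (nat_lit 5) (nat_lit 48) (nat_lit 5) (nat_lit 386) (nat_lit 310) (nat_lit 84)) (XT.lf (nat_lit 0) (nat_lit 36703953743) (nat_lit 304) (nat_lit 10675115873) (nat_lit 76) (nat_lit 26560216446) (nat_lit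 47) (nat_lit 5) (nat_lit 51) (nat_lit 5) (nat_lit 48) (nat_lit 5) (nat_lit 387) (nat_lit 310) (nat_lit 83))) (XT.nd (nat_lit 78) (nat_lit 0) (nat_lit 0) (XT.lf (nat_lit 0) (nat_lit 20987566384) (nat_lit 152) (nat_lit 29215221786) (nat_lit 228) (nat_lit 25373071445) (nat_lit 45) (nat_lit 5) (nat_lit 47) (nat_lit 5) (nat_lit 48) (nat_lit 5) (nat_lit 388) (nat_lit 310) (nat_lit 82)) (XT.lf (nat_lit 0) (nat_lit 53816725357) (nat_lit 152) (nat_lit 10396308588) (nat_lit 228) (nat_lit 13045303741) (nat_lit 45) (nat_lit 5) (nat_lit 47) (nat_lit 5) (nat_lit 48) (nat_lit 5) (nat_lit 389) (nat_lit 310) (nat_lit 81))))) (XT.nd (nat_lit 234) (nat_lit 304) (nat_lit 0) (XT.nd (nat_lit 78) (nat_lit 76) (nat_lit 0) (XT.lf (nat_lit 0) (nat_lit 8721058128) (nat_lit 152) (nat_lit 70091431017) (nat_lit 228) (nat_lit 173734573) (nat_lit 43) (nat_lit 5) (nat_lit 45) (nat_lit 5) (nat_lit 46) (nat_lit 5) (nat_lit 390)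 (nat_lit 310) (nat_lit 80)) (XT.nd (nat_lit 78) (nat_lit 0) (nat_lit 0) (XT.lf (nat_lit 0) (nat_lit 13169341514) (nat_lit 228) (nat_lit 38662960024) (nat_lit 76) (nat_lit 28919652033) (nat_lit 42) (nat_lit 5) (nat_lit 45) (nat_lit 5) (nat_lit 43) (nat_lit 5) (nat_lit 391) (nat_lit 310) (nat_lit 79)) (XT.lf (nat_lit 0) (nat_lit 26907940010) (nat_lit 228) (nat_lit 6116549409) (nat_lit 76) (nat_lit 49546153260) (nat_lit 42) (nat_lit 5) (nat_lit 45) (nat_lit 5) (nat_lit 43) (nat_lit 5) (nat_lit 392) (nat_lit 310) (nat_lit 78)))) (XT.nd (nat_lit 156) (nat_lit 152) (nat_lit 0) (XT.nd (nat_lit 78) (nat_lit 0) (nat_lit 0) (XT.lf (nat_lit 0) (nat_lit 27949571723) (nat_lit 152) (nat_lit 13376552359) (nat_lit 228) (nat_lit 43109746153) (nat_lit 40) (nat_lit 5) (nat_lit 42) (nat_lit 5) (nat_lit 43) (nat_lit 5) (nat_lit 393) (nat_lit 310) (nat_lit 77)) (XT.lf (nat_lit 0) (nat_lit 56303948375) (nat_lit 228)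 (nat_lit 23260791411) (nat_lit 76) (nat_lit 6788502578) (nat_lit 40) (nat_lit 5) (nat_lit 43) (nat_lit 5) (nat_lit 41) (nat_lit 5) (nat_lit 394) (nat_lit 310) (nat_lit 76))) (XT.nd (nat_lit 78) (nat_lit 0) (nat_lit 0) (XT.lf (nat_lit 0) (nat_lit 11042491842) (nat_lit 152) (nat_lit 60926007328) (nat_lit 228) (nat_lit 16352515303) (nat_lit 38) (nat_lit 5) (nat_lit 40) (nat_lit 5) (nat_lit 41) (nat_lit 5) (nat_lit 395) (nat_lit 310) (nat_lit 75)) (XT.lf (nat_lit 0) (nat_lit 46849690144) (nat_lit 152) (nat_lit 41487003763) (nat_lit 228) (nat_lit 2004115170) (nat_lit 38) (nat_lit 5) (nat_lit 40) (nat_lit 5) (nat_lit 41) (nat_lit 5) (nat_lit 396) (nat_lit 310) (nat_lit 74)))))) (XT.nd (nat_lit 34398) (nat_lit 0) (nat_lit 12160) (XT.nd (nat_lit 34086) (nat_lit 0) (nat_lit 12008) (XT.nd (nat_lit 33930) (nat_lit 0) (nat_lit 12008) (XT.lf (nat_lit 0) (nat_lit 12524297388) (nat_lit 228) (nat_lit 8814863703)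 (nat_lit 76) (nat_lit 71078387745) (nat_lit 37) (nat_lit 5) (nat_lit 40) (nat_lit 5) (nat_lit 38) (nat_lit 5) (nat_lit 397) (nat_lit 310) (nat_lit 73)) (XT.nd (nat_lit 78) (nat_lit 0) (nat_lit 0) (XT.lf (nat_lit 0) (nat_lit 1640187046) (nat_lit 0) (nat_lit 1640187046) (nat_lit 1140) (nat_lit 6015364643) (nat_lit 195) (nat_lit 5) (nat_lit 195) (nat_lit 3) (nat_lit 210) (nat_lit 3) (nat_lit 311) (nat_lit 311) (nat_lit 158)) (XT.lf (nat_lit 0) (nat_lit 6891717193) (nat_lit 1140) (nat_lit 6925173207) (nat_lit 1216) (nat_lit 5046267416) (nat_lit 195) (nat_lit 5) (nat_lit 210) (nat_lit 3) (nat_lit 211) (nat_lit 5) (nat_lit 312) (nat_lit 311) (nat_lit 157)))) (XT.nd (nat_lit 156) (nat_lit 0) (nat_lit 76) (XT.nd (nat_lit 78) (nat_lit 0) (nat_lit 76) (XT.lf (nat_lit 76) (nat_lit 1709382390) (nat_lit 0) (nat_lit 5565032525) (nat_lit 1216) (nat_lit 11867328062) (nat_lit 196) (nat_lit 5) (nat_lit 195) (nat_lit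 5) (nat_lit 211) (nat_lit 5) (nat_lit 313) (nat_lit 311) (nat_lit 156)) (XT.lf (nat_lit 0) (nat_lit 7760513676) (nat_lit 1140) (nat_lit 8714592110) (nat_lit 1216) (nat_lit 2950830452) (nat_lit 196) (nat_lit 5) (nat_lit 211) (nat_lit 5) (nat_lit 212) (nat_lit 5) (nat_lit 314) (nat_lit 311) (nat_lit 155))) (XT.nd (nat_lit 78) (nat_lit 0) (nat_lit 76) (XT.lf (nat_lit 76) (nat_lit 209782528) (nat_lit 0) (nat_lit 8101820009) (nat_lit 1216) (nat_lit 11405548459) (nat_lit 197) (nat_lit 5) (nat_lit 196) (nat_lit 5) (nat_lit 212) (nat_lit 5) (nat_lit 315) (nat_lit 311) (nat_lit 154)) (XT.lf (nat_lit 0) (nat_lit 8966594790) (nat_lit 1140) (nat_lit 10443941223) (nat_lit 1216) (nat_lit 603952743) (nat_lit 197) (nat_lit 5) (nat_lit 212) (nat_lit 5) (nat_lit 213) (nat_lit 5) (nat_lit 316) (nat_lit 311) (nat_lit 153))))) (XT.nd (nat_lit 234) (nat_lit 0) (nat_lit 76) (XT.nd (nat_lit 78) (nat_lit 0) (nat_lit 0)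 (XT.lf (nat_lit 0) (nat_lit 9715117872) (nat_lit 1140) (nat_lit 1192819993) (nat_lit 1216) (nat_lit 9410599811) (nat_lit 197) (nat_lit 5) (nat_lit 212) (nat_lit 5) (nat_lit 213) (nat_lit 5) (nat_lit 317) (nat_lit 311) (nat_lit 152)) (XT.nd (nat_lit 78) (nat_lit 0) (nat_lit 76) (XT.lf (nat_lit 76) (nat_lit 8497780684) (nat_lit 0) (nat_lit 2063851364) (nat_lit 1216) (nat_lit 10067817194) (nat_lit 198) (nat_lit 5) (nat_lit 197) (nat_lit 5) (nat_lit 213) (nat_lit 5) (nat_lit 318) (nat_lit 311) (nat_lit 151)) (XT.lf (nat_lit 0) (nat_lit 11507444896) (nat_lit 1140) (nat_lit 2517667875) (nat_lit 1216) (nat_lit 6922365315) (nat_lit 198) (nat_lit 5) (nat_lit 213) (nat_lit 5) (nat_lit 214) (nat_lit 5) (nat_lit 319) (nat_lit 311) (nat_lit 150)))) (XT.nd (nat_lit 156) (nat_lit 0) (nat_lit 76) (XT.nd (nat_lit 78) (nat_lit 0) (nat_lit 76) (XT.lf (nat_lit 76) (nat_lit 7506876083) (nat_lit 0) (nat_lit 5061537928)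 (nat_lit 1216) (nat_lit 8704037156) (nat_lit 199) (nat_lit 5) (nat_lit 198) (nat_lit 5) (nat_lit 214) (nat_lit 5) (nat_lit 320) (nat_lit 311) (nat_lit 149)) (XT.lf (nat_lit 0) (nat_lit 13721317245) (nat_lit 1140) (nat_lit 3767074554) (nat_lit 1216) (nat_lit 4116985114) (nat_lit 199) (nat_lit 5) (nat_lit 214) (nat_lit 5) (nat_lit 215) (nat_lit 5) (nat_lit 321) (nat_lit 311) (nat_lit 148))) (XT.nd (nat_lit 78) (nat_lit 0) (nat_lit 76) (XT.lf (nat_lit 76) (nat_lit 6606212196) (nat_lit 0) (nat_lit 8410713687) (nat_lit 1216) (nat_lit 6928127432) (nat_lit 200) (nat_lit 5) (nat_lit 199) (nat_lit 5) (nat_lit 215) (nat_lit 5) (nat_lit 322) (nat_lit 311) (nat_lit 147)) (XT.lf (nat_lit 0) (nat_lit 16393486031) (nat_lit 1140) (nat_lit 4939373786) (nat_lit 1216) (nat_lit 960803943) (nat_lit 200) (nat_lit 5) (nat_lit 215) (nat_lit 5) (nat_lit 216) (nat_lit 5) (nat_lit 323) (nat_lit 311) (nat_lit 146))))))))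
noncomputable def xc214 : XT := (XT.nd (nat_lit 2106) (nat_lit 4028) (nat_lit 0) (XT.nd (nat_lit 1014) (nat_lit 3268) (nat_lit 0) (XT.nd (nat_lit 468) (nat_lit 2356) (nat_lit 0) (XT.nd (nat_lit 234) (nat_lit 1064) (nat_lit 0) (XT.nd (nat_lit 78) (nat_lit 0) (nat_lit 0) (XT.lf (nat_lit 76) (nat_lit 5797953638) (nat_lit 0) (nat_lit 12147190876) (nat_lit 1216) (nat_lit 4703580022) (nat_lit 201) (nat_lit 5) (nat_lit 200) (nat_lit 5) (nat_lit 216) (nat_lit 5) (nat_lit 324) (nat_lit 311) (nat_lit 145)) (XT.nd (nat_lit 78) (nat_lit 0) (nat_lit 76) (XT.lf (nat_lit 76) (nat_lit 16954703812) (nat_lit 0) (nat_lit 2633434268) (nat_lit 1216) (nat_lit 3424961382) (nat_lit 201) (nat_lit 5) (nat_lit 200) (nat_lit 5) (nat_lit 216) (nat_lit 5) (nat_lit 325) (nat_lit 311) (nat_lit 144)) (XT.lf (nat_lit 76) (nat_lit 5084079041) (nat_lit 0) (nat_lit 16309161455) (nat_lit 1216) (nat_lit 1991786284) (nat_lit 202) (nat_lit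 5) (nat_lit 201) (nat_lit 5) (nat_lit 217) (nat_lit 5) (nat_lit 326) (nat_lit 311) (nat_lit 143)))) (XT.nd (nat_lit 78) (nat_lit 1140) (nat_lit 0) (XT.lf (nat_lit 76) (nat_lit 16654466753) (nat_lit 0) (nat_lit 6680197106) (nat_lit 1216) (nat_lit 430988573) (nat_lit 202) (nat_lit 5) (nat_lit 201) (nat_lit 5) (nat_lit 217) (nat_lit 5) (nat_lit 327) (nat_lit 311) (nat_lit 142)) (XT.nd (nat_lit 78) (nat_lit 0) (nat_lit 0) (XT.lf (nat_lit 0) (nat_lit 1223729987) (nat_lit 1216) (nat_lit 19701316229) (nat_lit 76) (nat_lit 3230214834) (nat_lit 186) (nat_lit 5) (nat_lit 202) (nat_lit 5) (nat_lit 187) (nat_lit 5) (nat_lit 328) (nat_lit 311) (nat_lit 141)) (XT.lf (nat_lit 0) (nat_lit 3053456680) (nat_lit 1216) (nat_lit 8117777543) (nat_lit 76) (nat_lit 13381179895) (nat_lit 186) (nat_lit 5) (nat_lit 202) (nat_lit 5) (nat_lit 187) (nat_lit 5) (nat_lit 329) (nat_lit 311) (nat_lit 140))))) (XT.nd (nat_lit 234)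 (nat_lit 1064) (nat_lit 0) (XT.nd (nat_lit 78) (nat_lit 608) (nat_lit 0) (XT.lf (nat_lit 0) (nat_lit 3885141869) (nat_lit 684) (nat_lit 1085783005) (nat_lit 760) (nat_lit 19989576345) (nat_lit 177) (nat_lit 5) (nat_lit 186) (nat_lit 5) (nat_lit 187) (nat_lit 5) (nat_lit 330) (nat_lit 311) (nat_lit 139)) (XT.nd (nat_lit 78) (nat_lit 608) (nat_lit 0) (XT.lf (nat_lit 0) (nat_lit 7113722772) (nat_lit 760) (nat_lit 9058088391) (nat_lit 76) (nat_lit 9203990387) (nat_lit 177) (nat_lit 5) (nat_lit 187) (nat_lit 5) (nat_lit 178) (nat_lit 5) (nat_lit 331) (nat_lit 311) (nat_lit 138)) (XT.lf (nat_lit 0) (nat_lit 3370802943) (nat_lit 608) (nat_lit 5988883977) (nat_lit 684) (nat_lit 16442712148) (nat_lit 169) (nat_lit 5) (nat_lit 177) (nat_lit 5) (nat_lit 178) (nat_lit 5) (nat_lit 332) (nat_lit 311) (nat_lit 137)))) (XT.nd (nat_lit 156) (nat_lit 532) (nat_lit 0) (XT.nd (nat_lit 78) (nat_lit 532) (nat_lit 0)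 (XT.lf (nat_lit 0) (nat_lit 11804476457) (nat_lit 684) (nat_lit 9928983707) (nat_lit 76) (nat_lit 4504395466) (nat_lit 169) (nat_lit 5) (nat_lit 178) (nat_lit 5) (nat_lit 170) (nat_lit 5) (nat_lit 333) (nat_lit 311) (nat_lit 136)) (XT.lf (nat_lit 0) (nat_lit 2942937213) (nat_lit 532) (nat_lit 11463199074) (nat_lit 608) (nat_lit 12277738186) (nat_lit 162) (nat_lit 5) (nat_lit 169) (nat_lit 5) (nat_lit 170) (nat_lit 5) (nat_lit 334) (nat_lit 311) (nat_lit 135))) (XT.nd (nat_lit 78) (nat_lit 532) (nat_lit 0) (XT.lf (nat_lit 0) (nat_lit 16400687146) (nat_lit 532) (nat_lit 781444522) (nat_lit 608) (nat_lit 9958257892) (nat_lit 162) (nat_lit 5) (nat_lit 169) (nat_lit 5) (nat_lit 170) (nat_lit 5) (nat_lit 335) (nat_lit 311) (nat_lit 134)) (XT.lf (nat_lit 0) (nat_lit 2600188721) (nat_lit 532) (nat_lit 17560600427) (nat_lit 608) (nat_lit 7446233616) (nat_lit 155) (nat_lit 5) (nat_lit 162) (nat_lit 5) (nat_lit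 163) (nat_lit 5) (nat_lit 336) (nat_lit 311) (nat_lit 133)))))) (XT.nd (nat_lit 546) (nat_lit 1748) (nat_lit 0) (XT.nd (nat_lit 234) (nat_lit 988) (nat_lit 0) (XT.nd (nat_lit 78) (nat_lit 532) (nat_lit 0) (XT.lf (nat_lit 0) (nat_lit 16548705283) (nat_lit 532) (nat_lit 6792427226) (nat_lit 608) (nat_lit 4743156677) (nat_lit 155) (nat_lit 5) (nat_lit 162) (nat_lit 5) (nat_lit 163) (nat_lit 5) (nat_lit 337) (nat_lit 311) (nat_lit 132)) (XT.nd (nat_lit 78) (nat_lit 76) (nat_lit 0) (XT.lf (nat_lit 0) (nat_lit 2340313428) (nat_lit 456) (nat_lit 24336716668) (nat_lit 532) (nat_lit 1897043079) (nat_lit 149) (nat_lit 5) (nat_lit 155) (nat_lit 5) (nat_lit 156) (nat_lit 5) (nat_lit 338) (nat_lit 311) (nat_lit 131)) (XT.lf (nat_lit 0) (nat_lit 1195515802) (nat_lit 532) (nat_lit 12288323367) (nat_lit 76) (nat_lit 15588979439) (nat_lit 148) (nat_lit 5) (nat_lit 155) (nat_lit 5) (nat_lit 149) (nat_lit 5) (nat_lit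 339) (nat_lit 311) (nat_lit 130)))) (XT.nd (nat_lit 156) (nat_lit 456) (nat_lit 0) (XT.nd (nat_lit 78) (nat_lit 0) (nat_lit 0) (XT.lf (nat_lit 0) (nat_lit 2093789484) (nat_lit 532) (nat_lit 2265522133) (nat_lit 608) (nat_lit 25226157202) (nat_lit 141) (nat_lit 5) (nat_lit 148) (nat_lit 5) (nat_lit 149) (nat_lit 5) (nat_lit 340) (nat_lit 311) (nat_lit 129)) (XT.lf (nat_lit 0) (nat_lit 7829159607) (nat_lit 608) (nat_lit 13044864705) (nat_lit 76) (nat_lit 9233143535) (nat_lit 141) (nat_lit 5) (nat_lit 149) (nat_lit 5) (nat_lit 142) (nat_lit 5) (nat_lit 341) (nat_lit 311) (nat_lit 128))) (XT.nd (nat_lit 78) (nat_lit 0) (nat_lit 0) (XT.lf (nat_lit 0) (nat_lit 1845212076) (nat_lit 456) (nat_lit 9594687211) (nat_lit 532) (nat_lit 19203518028) (nat_lit 135) (nat_lit 5) (nat_lit 141) (nat_lit 5) (nat_lit 142) (nat_lit 5) (nat_lit 342) (nat_lit 311) (nat_lit 127)) (XT.lf (nat_lit 0) (nat_lit 15308126823)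 (nat_lit 532) (nat_lit 13766935789) (nat_lit 76) (nat_lit 2116219945) (nat_lit 135) (nat_lit 5) (nat_lit 142) (nat_lit 5) (nat_lit 136) (nat_lit 5) (nat_lit 343) (nat_lit 311) (nat_lit 126))))) (XT.nd (nat_lit 234) (nat_lit 912) (nat_lit 0) (XT.nd (nat_lit 78) (nat_lit 380) (nat_lit 0) (XT.lf (nat_lit 0) (nat_lit 1648777941) (nat_lit 456) (nat_lit 17751252970) (nat_lit 532) (nat_lit 12352327119) (nat_lit 129) (nat_lit 5) (nat_lit 135) (nat_lit 5) (nat_lit 136) (nat_lit 5) (nat_lit 344) (nat_lit 311) (nat_lit 125)) (XT.nd (nat_lit 78) (nat_lit 380) (nat_lit 0) (XT.lf (nat_lit 0) (nat_lit 17805537259) (nat_lit 456) (nat_lit 5945016421) (nat_lit 532) (nat_lit 8575639313) (nat_lit 129) (nat_lit 5) (nat_lit 135) (nat_lit 5) (nat_lit 136) (nat_lit 5) (nat_lit 345) (nat_lit 311) (nat_lit 124)) (XT.lf (nat_lit 0) (nat_lit 1495574960) (nat_lit 380) (nat_lit 26807069865) (nat_lit 456) (nat_lit 4612469581)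 (nat_lit 124) (nat_lit 5) (nat_lit 129) (nat_lit 5) (nat_lit 130) (nat_lit 5) (nat_lit 346) (nat_lit 311) (nat_lit 123)))) (XT.nd (nat_lit 156) (nat_lit 380) (nat_lit 0) (XT.nd (nat_lit 78) (nat_lit 532) (nat_lit 0) (XT.lf (nat_lit 0) (nat_lit 18226335106) (nat_lit 380) (nat_lit 14966863207) (nat_lit 456) (nat_lit 322451057) (nat_lit 124) (nat_lit 5) (nat_lit 129) (nat_lit 5) (nat_lit 130) (nat_lit 5) (nat_lit 347) (nat_lit 311) (nat_lit 122)) (XT.lf (nat_lit 0) (nat_lit 1307413273) (nat_lit 456) (nat_lit 2718530522) (nat_lit 532) (nat_lit 30106789782) (nat_lit 117) (nat_lit 5) (nat_lit 123) (nat_lit 5) (nat_lit 124) (nat_lit 5) (nat_lit 348) (nat_lit 311) (nat_lit 121))) (XT.nd (nat_lit 78) (nat_lit 380) (nat_lit 0) (XT.lf (nat_lit 0) (nat_lit 8746456494) (nat_lit 532) (nat_lit 16151689889) (nat_lit 76) (nat_lit 9862646391) (nat_lit 117) (nat_lit 5) (nat_lit 124) (nat_lit 5) (nat_lit 118) (nat_lit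 5) (nat_lit 349) (nat_lit 311) (nat_lit 120)) (XT.lf (nat_lit 0) (nat_lit 1011485314) (nat_lit 380) (nat_lit 12630911015) (nat_lit 456) (nat_lit 21764285639) (nat_lit 112) (nat_lit 5) (nat_lit 117) (nat_lit 5) (nat_lit 118) (nat_lit 5) (nat_lit 350) (nat_lit 311) (nat_lit 119))))))) (XT.nd (nat_lit 1092) (nat_lit 1900) (nat_lit 0) (XT.nd (nat_lit 546) (nat_lit 988) (nat_lit 0) (XT.nd (nat_lit 234) (nat_lit 760) (nat_lit 0) (XT.nd (nat_lit 78) (nat_lit 380) (nat_lit 0) (XT.lf (nat_lit 0) (nat_lit 18847186643) (nat_lit 456) (nat_lit 17051592732) (nat_lit 76) (nat_lit 168311793) (nat_lit 112) (nat_lit 5) (nat_lit 118) (nat_lit 5) (nat_lit 113) (nat_lit 5) (nat_lit 351) (nat_lit 311) (nat_lit 118)) (XT.nd (nat_lit 78) (nat_lit 0) (nat_lit 0) (XT.lf (nat_lit 0) (nat_lit 697442337) (nat_lit 380) (nat_lit 23639737502) (nat_lit 456) (nat_lit 12406263455) (nat_lit 107) (nat_lit 5) (nat_lit 112) (nat_lit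 5) (nat_lit 113) (nat_lit 5) (nat_lit 352) (nat_lit 311) (nat_lit 117)) (XT.lf (nat_lit 0) (nat_lit 19325094942) (nat_lit 380) (nat_lit 10836308062) (nat_lit 456) (nat_lit 7273599428) (nat_lit 107) (nat_lit 5) (nat_lit 112) (nat_lit 5) (nat_lit 113) (nat_lit 5) (nat_lit 353) (nat_lit 311) (nat_lit 116)))) (XT.nd (nat_lit 156) (nat_lit 380) (nat_lit 0) (XT.nd (nat_lit 78) (nat_lit 76) (nat_lit 0) (XT.lf (nat_lit 0) (nat_lit 345031792) (nat_lit 304) (nat_lit 35838652181) (nat_lit 380) (nat_lit 1962926726) (nat_lit 103) (nat_lit 5) (nat_lit 107) (nat_lit 5) (nat_lit 108) (nat_lit 5) (nat_lit 354) (nat_lit 311) (nat_lit 115)) (XT.lf (nat_lit 0) (nat_lit 3728035010) (nat_lit 380) (nat_lit 19295427951) (nat_lit 76) (nat_lit 15846412915) (nat_lit 102) (nat_lit 5) (nat_lit 107) (nat_lit 5) (nat_lit 103) (nat_lit 5) (nat_lit 355) (nat_lit 311) (nat_lit 114))) (XT.nd (nat_lit 78) (nat_lit 380) (nat_lit 0)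 (XT.lf (nat_lit 0) (nat_lit 9547776570) (nat_lit 380) (nat_lit 256817377) (nat_lit 76) (nat_lit 29809738990) (nat_lit 102) (nat_lit 5) (nat_lit 107) (nat_lit 5) (nat_lit 103) (nat_lit 5) (nat_lit 356) (nat_lit 311) (nat_lit 113)) (XT.lf (nat_lit 0) (nat_lit 15767893420) (nat_lit 456) (nat_lit 20679154865) (nat_lit 76) (nat_lit 3927303966) (nat_lit 97) (nat_lit 5) (nat_lit 103) (nat_lit 5) (nat_lit 98) (nat_lit 5) (nat_lit 357) (nat_lit 311) (nat_lit 112))))) (XT.nd (nat_lit 234) (nat_lit 684) (nat_lit 0) (XT.nd (nat_lit 78) (nat_lit 304) (nat_lit 0) (XT.lf (nat_lit 0) (nat_lit 22271917238) (nat_lit 456) (nat_lit 1006386939) (nat_lit 76) (nat_lit 17875950835) (nat_lit 97) (nat_lit 5) (nat_lit 103) (nat_lit 5) (nat_lit 98) (nat_lit 5) (nat_lit 358) (nat_lit 311) (nat_lit 111)) (XT.nd (nat_lit 78) (nat_lit 0) (nat_lit 0) (XT.lf (nat_lit 0) (nat_lit 19636610232) (nat_lit 304) (nat_lit 9520889530) (nat_lit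 380) (nat_lit 12794463869) (nat_lit 93) (nat_lit 5) (nat_lit 97) (nat_lit 5) (nat_lit 98) (nat_lit 5) (nat_lit 359) (nat_lit 311) (nat_lit 110)) (XT.lf (nat_lit 0) (nat_lit 36302313087) (nat_lit 380) (nat_lit 1901729922) (nat_lit 76) (nat_lit 4567982459) (nat_lit 93) (nat_lit 5) (nat_lit 98) (nat_lit 5) (nat_lit 94) (nat_lit 5) (nat_lit 360) (nat_lit 311) (nat_lit 109)))) (XT.nd (nat_lit 156) (nat_lit 304) (nat_lit 0) (XT.nd (nat_lit 78) (nat_lit 0) (nat_lit 0) (XT.lf (nat_lit 0) (nat_lit 325244820) (nat_lit 380) (nat_lit 24205886645) (nat_lit 76) (nat_lit 19077106423) (nat_lit 88) (nat_lit 5) (nat_lit 93) (nat_lit 5) (nat_lit 89) (nat_lit 5) (nat_lit 361) (nat_lit 311) (nat_lit 108)) (XT.lf (nat_lit 0) (nat_lit 7211197437) (nat_lit 380) (nat_lit 3151758704) (nat_lit 76) (nat_lit 34104145097) (nat_lit 88) (nat_lit 5) (nat_lit 93) (nat_lit 5) (nat_lit 89) (nat_lit 5) (nat_lit 362) (nat_lit 311)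 (nat_lit 107))) (XT.nd (nat_lit 78) (nat_lit 0) (nat_lit 0) (XT.lf (nat_lit 0) (nat_lit 14525711584) (nat_lit 380) (nat_lit 26489004481) (nat_lit 76) (nat_lit 4330356589) (nat_lit 84) (nat_lit 5) (nat_lit 89) (nat_lit 5) (nat_lit 85) (nat_lit 5) (nat_lit 363) (nat_lit 311) (nat_lit 106)) (XT.lf (nat_lit 0) (nat_lit 22192284222) (nat_lit 380) (nat_lit 4765636499) (nat_lit 76) (nat_lit 19287485403) (nat_lit 84) (nat_lit 5) (nat_lit 89) (nat_lit 5) (nat_lit 85) (nat_lit 5) (nat_lit 364) (nat_lit 311) (nat_lit 105)))))) (XT.nd (nat_lit 546) (nat_lit 760) (nat_lit 0) (XT.nd (nat_lit 234) (nat_lit 608) (nat_lit 0) (XT.nd (nat_lit 78) (nat_lit 228) (nat_lit 0) (XT.lf (nat_lit 0) (nat_lit 17956897170) (nat_lit 304) (nat_lit 12302509202) (nat_lit 380) (nat_lit 16908228210) (nat_lit 80) (nat_lit 5) (nat_lit 84) (nat_lit 5) (nat_lit 85) (nat_lit 5) (nat_lit 365) (nat_lit 311) (nat_lit 104)) (XT.nd (nat_lit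 78) (nat_lit 228) (nat_lit 0) (XT.lf (nat_lit 0) (nat_lit 38641949296) (nat_lit 380) (nat_lit 6687572935) (nat_lit 76) (nat_lit 2785806965) (nat_lit 80) (nat_lit 5) (nat_lit 85) (nat_lit 5) (nat_lit 81) (nat_lit 5) (nat_lit 366) (nat_lit 311) (nat_lit 103)) (XT.lf (nat_lit 0) (nat_lit 16712727132) (nat_lit 228) (nat_lit 30843723887) (nat_lit 304) (nat_lit 1526590619) (nat_lit 77) (nat_lit 5) (nat_lit 80) (nat_lit 5) (nat_lit 81) (nat_lit 5) (nat_lit 367) (nat_lit 311) (nat_lit 102)))) (XT.nd (nat_lit 156) (nat_lit 228) (nat_lit 0) (XT.nd (nat_lit 78) (nat_lit 304) (nat_lit 0) (XT.lf (nat_lit 0) (nat_lit 6594901087) (nat_lit 304) (nat_lit 9193199971) (nat_lit 76) (nat_lit 34287778620) (nat_lit 76) (nat_lit 5) (nat_lit 80) (nat_lit 5) (nat_lit 77) (nat_lit 5) (nat_lit 368) (nat_lit 311) (nat_lit 101)) (XT.lf (nat_lit 0) (nat_lit 14953096021) (nat_lit 304) (nat_lit 118086251) (nat_lit 380) (nat_lit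 36022613657) (nat_lit 72) (nat_lit 5) (nat_lit 76) (nat_lit 5) (nat_lit 77) (nat_lit 5) (nat_lit 369) (nat_lit 311) (nat_lit 100))) (XT.nd (nat_lit 78) (nat_lit 228) (nat_lit 0) (XT.lf (nat_lit 0) (nat_lit 24047627573) (nat_lit 380) (nat_lit 12284992481) (nat_lit 76) (nat_lit 15802254648) (nat_lit 72) (nat_lit 5) (nat_lit 77) (nat_lit 5) (nat_lit 73) (nat_lit 5) (nat_lit 370) (nat_lit 311) (nat_lit 99)) (XT.lf (nat_lit 0) (nat_lit 12526917020) (nat_lit 228) (nat_lit 20886199530) (nat_lit 304) (nat_lit 19790478043) (nat_lit 69) (nat_lit 5) (nat_lit 72) (nat_lit 5) (nat_lit 73) (nat_lit 5) (nat_lit 371) (nat_lit 311) (nat_lit 98))))) (XT.nd (nat_lit 234) (nat_lit 456) (nat_lit 0) (XT.nd (nat_lit 78) (nat_lit 304) (nat_lit 0) (XT.lf (nat_lit 0) (nat_lit 38332295775) (nat_lit 228) (nat_lit 4849520840) (nat_lit 304) (nat_lit 11118893303) (nat_lit 69) (nat_lit 5) (nat_lit 72) (nat_lit 5) (nat_lit 73)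 (nat_lit 5) (nat_lit 372) (nat_lit 311) (nat_lit 97)) (XT.nd (nat_lit 78) (nat_lit 76) (nat_lit 0) (XT.lf (nat_lit 0) (nat_lit 9552656983) (nat_lit 228) (nat_lit 43893145359) (nat_lit 304) (nat_lit 1978870814) (nat_lit 66) (nat_lit 5) (nat_lit 69) (nat_lit 5) (nat_lit 70) (nat_lit 5) (nat_lit 373) (nat_lit 311) (nat_lit 96)) (XT.lf (nat_lit 0) (nat_lit 7499366824) (nat_lit 304) (nat_lit 20534599741) (nat_lit 76) (nat_lit 28539972507) (nat_lit 65) (nat_lit 5) (nat_lit 69) (nat_lit 5) (nat_lit 66) (nat_lit 5) (nat_lit 374) (nat_lit 311) (nat_lit 95)))) (XT.nd (nat_lit 156) (nat_lit 228) (nat_lit 0) (XT.nd (nat_lit 78) (nat_lit 0) (nat_lit 0) (XT.lf (nat_lit 0) (nat_lit 5651002007) (nat_lit 228) (nat_lit 11623792001) (nat_lit 304) (nat_lit 40480723794) (nat_lit 62) (nat_lit 5) (nat_lit 65) (nat_lit 5) (nat_lit 66) (nat_lit 5) (nat_lit 375) (nat_lit 311) (nat_lit 94)) (XT.lf (nat_lit 0) (nat_lit 27601949132)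 (nat_lit 304) (nat_lit 25978640063) (nat_lit 76) (nat_lit 5384201804) (nat_lit 62) (nat_lit 5) (nat_lit 66) (nat_lit 5) (nat_lit 63) (nat_lit 5) (nat_lit 376) (nat_lit 311) (nat_lit 93))) (XT.nd (nat_lit 78) (nat_lit 0) (nat_lit 0) (XT.lf (nat_lit 0) (nat_lit 829556328) (nat_lit 228) (nat_lit 37530783923) (nat_lit 304) (nat_lit 21846360530) (nat_lit 59) (nat_lit 5) (nat_lit 62) (nat_lit 5) (nat_lit 63) (nat_lit 5) (nat_lit 377) (nat_lit 311) (nat_lit 92)) (XT.lf (nat_lit 0) (nat_lit 28972004130) (nat_lit 228) (nat_lit 20730195824) (nat_lit 304) (nat_lit 11775847396) (nat_lit 59) (nat_lit 5) (nat_lit 62) (nat_lit 5) (nat_lit 63) (nat_lit 5) (nat_lit 378) (nat_lit 311) (nat_lit 91))))))))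
noncomputable def xc215 : XT := (XT.nd (nat_lit 36192) (nat_lit 0) (nat_lit 6004) (XT.nd (nat_lit 1092) (nat_lit 304) (nat_lit 0) (XT.nd (nat_lit 546) (nat_lit 684) (nat_lit 0) (XT.nd (nat_lit 234) (nat_lit 380) (nat_lit 0) (XT.nd (nat_lit 78) (nat_lit 228) (nat_lit 0) (XT.lf (nat_lit 0) (nat_lit 57956267955) (nat_lit 228) (nat_lit 3426478099) (nat_lit 304) (nat_lit 1404836315) (nat_lit 59) (nat_lit 5) (nat_lit 62) (nat_lit 5) (nat_lit 63) (nat_lit 5) (nat_lit 379) (nat_lit 311) (nat_lit 90)) (XT.nd (nat_lit 78) (nat_lit 0) (nat_lit 0) (XT.lf (nat_lit 0) (nat_lit 9467478565) (nat_lit 228) (nat_lit 40217000447) (nat_lit 76) (nat_lit 14438113754) (nat_lit 56) (nat_lit 5) (nat_lit 59) (nat_lit 5) (nat_lit 57) (nat_lit 5) (nat_lit 380) (nat_lit 311) (nat_lit 89)) (XT.lf (nat_lit 0) (nat_lit 20719396162) (nat_lit 228) (nat_lit 11943295938) (nat_lit 76) (nat_lit 32832094911) (nat_lit 56) (nat_lit 5)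 (nat_lit 59) (nat_lit 5) (nat_lit 57) (nat_lit 5) (nat_lit 381) (nat_lit 311) (nat_lit 88)))) (XT.nd (nat_lit 156) (nat_lit 152) (nat_lit 0) (XT.nd (nat_lit 78) (nat_lit 0) (nat_lit 0) (XT.lf (nat_lit 0) (nat_lit 17518100063) (nat_lit 228) (nat_lit 14957684096) (nat_lit 304) (nat_lit 34427356402) (nat_lit 53) (nat_lit 5) (nat_lit 56) (nat_lit 5) (nat_lit 57) (nat_lit 5) (nat_lit 382) (nat_lit 311) (nat_lit 87)) (XT.lf (nat_lit 0) (nat_lit 44736706903) (nat_lit 304) (nat_lit 20277045564) (nat_lit 76) (nat_lit 3335437791) (nat_lit 53) (nat_lit 5) (nat_lit 57) (nat_lit 5) (nat_lit 54) (nat_lit 5) (nat_lit 383) (nat_lit 311) (nat_lit 86))) (XT.nd (nat_lit 78) (nat_lit 0) (nat_lit 0) (XT.lf (nat_lit 0) (nat_lit 9743927632) (nat_lit 152) (nat_lit 47861863415) (nat_lit 228) (nat_lit 12225621203) (nat_lit 51) (nat_lit 5) (nat_lit 53) (nat_lit 5) (nat_lit 54) (nat_lit 5) (nat_lit 384) (nat_lit 311) (nat_lit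 85)) (XT.lf (nat_lit 0) (nat_lit 41078907351) (nat_lit 152) (nat_lit 29985391627) (nat_lit 228) (nat_lit 287702174) (nat_lit 51) (nat_lit 5) (nat_lit 53) (nat_lit 5) (nat_lit 54) (nat_lit 5) (nat_lit 385) (nat_lit 311) (nat_lit 84))))) (XT.nd (nat_lit 234) (nat_lit 380) (nat_lit 0) (XT.nd (nat_lit 78) (nat_lit 0) (nat_lit 0) (XT.lf (nat_lit 0) (nat_lit 324382997) (nat_lit 228) (nat_lit 11451382915) (nat_lit 304) (nat_lit 61138927470) (nat_lit 47) (nat_lit 5) (nat_lit 50) (nat_lit 5) (nat_lit 51) (nat_lit 5) (nat_lit 386) (nat_lit 311) (nat_lit 83)) (XT.nd (nat_lit 78) (nat_lit 0) (nat_lit 0) (XT.lf (nat_lit 0) (nat_lit 24576138609) (nat_lit 304) (nat_lit 42136300439) (nat_lit 76) (nat_lit 7800319105) (nat_lit 47) (nat_lit 5) (nat_lit 51) (nat_lit 5) (nat_lit 48) (nat_lit 5) (nat_lit 387) (nat_lit 311) (nat_lit 82)) (XT.lf (nat_lit 0) (nat_lit 37872572557) (nat_lit 304) (nat_lit 10884239809) (nat_lit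 76) (nat_lit 27398591699) (nat_lit 47) (nat_lit 5) (nat_lit 51) (nat_lit 5) (nat_lit 48) (nat_lit 5) (nat_lit 388) (nat_lit 311) (nat_lit 81)))) (XT.nd (nat_lit 156) (nat_lit 228) (nat_lit 0) (XT.nd (nat_lit 78) (nat_lit 0) (nat_lit 0) (XT.lf (nat_lit 0) (nat_lit 21727233411) (nat_lit 152) (nat_lit 30048230353) (nat_lit 228) (nat_lit 26065639345) (nat_lit 45) (nat_lit 5) (nat_lit 47) (nat_lit 5) (nat_lit 48) (nat_lit 5) (nat_lit 389) (nat_lit 311) (nat_lit 80)) (XT.lf (nat_lit 0) (nat_lit 55538062104) (nat_lit 152) (nat_lit 10666015237) (nat_lit 228) (nat_lit 13370037374) (nat_lit 45) (nat_lit 5) (nat_lit 47) (nat_lit 5) (nat_lit 48) (nat_lit 5) (nat_lit 390) (nat_lit 311) (nat_lit 79))) (XT.nd (nat_lit 78) (nat_lit 76) (nat_lit 0) (XT.lf (nat_lit 0) (nat_lit 9090029704) (nat_lit 152) (nat_lit 72151028905) (nat_lit 228) (nat_lit 112793423) (nat_lit 43) (nat_lit 5) (nat_lit 45) (nat_lit 5) (nat_lit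 46) (nat_lit 5) (nat_lit 391) (nat_lit 311) (nat_lit 78)) (XT.lf (nat_lit 0) (nat_lit 13627394866) (nat_lit 228) (nat_lit 39717351422) (nat_lit 76) (nat_lit 29827846012) (nat_lit 42) (nat_lit 5) (nat_lit 45) (nat_lit 5) (nat_lit 43) (nat_lit 5) (nat_lit 392) (nat_lit 311) (nat_lit 77)))))) (XT.nd (nat_lit 34554) (nat_lit 0) (nat_lit 12008) (XT.nd (nat_lit 234) (nat_lit 152) (nat_lit 0) (XT.nd (nat_lit 78) (nat_lit 152) (nat_lit 0) (XT.lf (nat_lit 0) (nat_lit 27776317149) (nat_lit 228) (nat_lit 6197621229) (nat_lit 76) (nat_lit 51071959622) (nat_lit 42) (nat_lit 5) (nat_lit 45) (nat_lit 5) (nat_lit 43) (nat_lit 5) (nat_lit 393) (nat_lit 311) (nat_lit 76)) (XT.nd (nat_lit 78) (nat_lit 0) (nat_lit 0) (XT.lf (nat_lit 0) (nat_lit 28889479374) (nat_lit 152) (nat_lit 13736761540) (nat_lit 228) (nat_lit 44340866511) (nat_lit 40) (nat_lit 5) (nat_lit 42) (nat_lit 5) (nat_lit 43) (nat_lit 5) (nat_lit 394)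 (nat_lit 311) (nat_lit 75)) (XT.lf (nat_lit 0) (nat_lit 58052026114) (nat_lit 228) (nat_lit 23858746746) (nat_lit 76) (nat_lit 7031269915) (nat_lit 40) (nat_lit 5) (nat_lit 43) (nat_lit 5) (nat_lit 41) (nat_lit 5) (nat_lit 395) (nat_lit 311) (nat_lit 74)))) (XT.nd (nat_lit 34164) (nat_lit 0) (nat_lit 11932) (XT.nd (nat_lit 34086) (nat_lit 0) (nat_lit 11932) (XT.lf (nat_lit 0) (nat_lit 11472655902) (nat_lit 152) (nat_lit 62713090854) (nat_lit 228) (nat_lit 16783125110) (nat_lit 38) (nat_lit 5) (nat_lit 40) (nat_lit 5) (nat_lit 41) (nat_lit 5) (nat_lit 396) (nat_lit 311) (nat_lit 73)) (XT.lf (nat_lit 0) (nat_lit 1780054984) (nat_lit 0) (nat_lit 1780054984) (nat_lit 1140) (nat_lit 6008848173) (nat_lit 195) (nat_lit 5) (nat_lit 195) (nat_lit 3) (nat_lit 210) (nat_lit 3) (nat_lit 312) (nat_lit 312) (nat_lit 156))) (XT.nd (nat_lit 78) (nat_lit 0) (nat_lit 0) (XT.lf (nat_lit 0) (nat_lit 7448863180) (nat_lit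 1140) (nat_lit 6944216589) (nat_lit 1216) (nat_lit 5025047324) (nat_lit 195) (nat_lit 5) (nat_lit 210) (nat_lit 3) (nat_lit 211) (nat_lit 5) (nat_lit 313) (nat_lit 312) (nat_lit 155)) (XT.lf (nat_lit 76) (nat_lit 1947525560) (nat_lit 0) (nat_lit 5887106838) (nat_lit 1216) (nat_lit 11870701741) (nat_lit 196) (nat_lit 5) (nat_lit 195) (nat_lit 5) (nat_lit 211) (nat_lit 5) (nat_lit 314) (nat_lit 312) (nat_lit 154))))) (XT.nd (nat_lit 234) (nat_lit 0) (nat_lit 76) (XT.nd (nat_lit 78) (nat_lit 0) (nat_lit 0) (XT.lf (nat_lit 0) (nat_lit 8323905684) (nat_lit 1140) (nat_lit 8782812432) (nat_lit 1216) (nat_lit 2891689033) (nat_lit 196) (nat_lit 5) (nat_lit 211) (nat_lit 5) (nat_lit 212) (nat_lit 5) (nat_lit 315) (nat_lit 312) (nat_lit 153)) (XT.nd (nat_lit 78) (nat_lit 0) (nat_lit 76) (XT.lf (nat_lit 76) (nat_lit 407399158) (nat_lit 0) (nat_lit 8476338724) (nat_lit 1216) (nat_lit 11414865503) (nat_lit 197)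 (nat_lit 5) (nat_lit 196) (nat_lit 5) (nat_lit 212) (nat_lit 5) (nat_lit 316) (nat_lit 312) (nat_lit 152)) (XT.lf (nat_lit 0) (nat_lit 9547751425) (nat_lit 1140) (nat_lit 10560512849) (nat_lit 1216) (nat_lit 496926883) (nat_lit 197) (nat_lit 5) (nat_lit 212) (nat_lit 5) (nat_lit 213) (nat_lit 5) (nat_lit 317) (nat_lit 312) (nat_lit 151)))) (XT.nd (nat_lit 156) (nat_lit 0) (nat_lit 76) (XT.nd (nat_lit 78) (nat_lit 0) (nat_lit 0) (XT.lf (nat_lit 0) (nat_lit 10309638195) (nat_lit 1140) (nat_lit 1037588466) (nat_lit 1216) (nat_lit 9571418346) (nat_lit 197) (nat_lit 5) (nat_lit 212) (nat_lit 5) (nat_lit 213) (nat_lit 5) (nat_lit 318) (nat_lit 312) (nat_lit 150)) (XT.lf (nat_lit 76) (nat_lit 8941857523) (nat_lit 0) (nat_lit 2232681247) (nat_lit 1216) (nat_lit 10064565813) (nat_lit 198) (nat_lit 5) (nat_lit 197) (nat_lit 5) (nat_lit 213) (nat_lit 5) (nat_lit 319) (nat_lit 312) (nat_lit 149))) (XT.nd (nat_lit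 78) (nat_lit 0) (nat_lit 0) (XT.lf (nat_lit 0) (nat_lit 12139105171) (nat_lit 1140) (nat_lit 2399606377) (nat_lit 1216) (nat_lit 7028261461) (nat_lit 198) (nat_lit 5) (nat_lit 213) (nat_lit 5) (nat_lit 214) (nat_lit 5) (nat_lit 320) (nat_lit 312) (nat_lit 148)) (XT.lf (nat_lit 76) (nat_lit 7923775943) (nat_lit 0) (nat_lit 5301627268) (nat_lit 1216) (nat_lit 8676496869) (nat_lit 199) (nat_lit 5) (nat_lit 198) (nat_lit 5) (nat_lit 214) (nat_lit 5) (nat_lit 321) (nat_lit 312) (nat_lit 147))))))) (XT.nd (nat_lit 1092) (nat_lit 3420) (nat_lit 0) (XT.nd (nat_lit 546) (nat_lit 2812) (nat_lit 0) (XT.nd (nat_lit 234) (nat_lit 0) (nat_lit 76) (XT.nd (nat_lit 78) (nat_lit 0) (nat_lit 0) (XT.lf (nat_lit 0) (nat_lit 14403916503) (nat_lit 1140) (nat_lit 3684682473) (nat_lit 1216) (nat_lit 4156493445) (nat_lit 199) (nat_lit 5) (nat_lit 214) (nat_lit 5) (nat_lit 215) (nat_lit 5) (nat_lit 322) (nat_lit 312) (nat_lit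 146)) (XT.nd (nat_lit 78) (nat_lit 0) (nat_lit 76) (XT.lf (nat_lit 76) (nat_lit 6997887151) (nat_lit 0) (nat_lit 8734474149) (nat_lit 1216) (nat_lit 6862788012) (nat_lit 200) (nat_lit 5) (nat_lit 199) (nat_lit 5) (nat_lit 215) (nat_lit 5) (nat_lit 323) (nat_lit 312) (nat_lit 145)) (XT.lf (nat_lit 0) (nat_lit 17141835199) (nat_lit 1140) (nat_lit 4891020137) (nat_lit 1216) (nat_lit 921623189) (nat_lit 200) (nat_lit 5) (nat_lit 215) (nat_lit 5) (nat_lit 216) (nat_lit 5) (nat_lit 324) (nat_lit 312) (nat_lit 144)))) (XT.nd (nat_lit 156) (nat_lit 0) (nat_lit 76) (XT.nd (nat_lit 78) (nat_lit 0) (nat_lit 0) (XT.lf (nat_lit 76) (nat_lit 6166500296) (nat_lit 0) (nat_lit 12567941658) (nat_lit 1216) (nat_lit 4585925917) (nat_lit 201) (nat_lit 5) (nat_lit 200) (nat_lit 5) (nat_lit 216) (nat_lit 5) (nat_lit 325) (nat_lit 312) (nat_lit 143)) (XT.lf (nat_lit 76) (nat_lit 17652284780) (nat_lit 0) (nat_lit 2767131525)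 (nat_lit 1216) (nat_lit 3276485461) (nat_lit 201) (nat_lit 5) (nat_lit 200) (nat_lit 5) (nat_lit 216) (nat_lit 5) (nat_lit 326) (nat_lit 312) (nat_lit 142))) (XT.nd (nat_lit 78) (nat_lit 0) (nat_lit 0) (XT.lf (nat_lit 76) (nat_lit 5431725776) (nat_lit 0) (nat_lit 16841215094) (nat_lit 1216) (nat_lit 1806226165) (nat_lit 202) (nat_lit 5) (nat_lit 201) (nat_lit 5) (nat_lit 217) (nat_lit 5) (nat_lit 327) (nat_lit 312) (nat_lit 141)) (XT.lf (nat_lit 76) (nat_lit 17343541885) (nat_lit 0) (nat_lit 6922135830) (nat_lit 1216) (nat_lit 205749583) (nat_lit 202) (nat_lit 5) (nat_lit 201) (nat_lit 5) (nat_lit 217) (nat_lit 5) (nat_lit 328) (nat_lit 312) (nat_lit 140))))) (XT.nd (nat_lit 234) (nat_lit 1140) (nat_lit 0) (XT.nd (nat_lit 78) (nat_lit 684) (nat_lit 0) (XT.lf (nat_lit 0) (nat_lit 1488663994) (nat_lit 1216) (nat_lit 20092460041) (nat_lit 76) (nat_lit 3291697935) (nat_lit 186) (nat_lit 5) (nat_lit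 202) (nat_lit 5) (nat_lit 187) (nat_lit 5) (nat_lit 329) (nat_lit 312) (nat_lit 139)) (XT.nd (nat_lit 78) (nat_lit 684) (nat_lit 0) (XT.lf (nat_lit 0) (nat_lit 3366635241) (nat_lit 1216) (nat_lit 8167237399) (nat_lit 76) (nat_lit 13748223696) (nat_lit 186) (nat_lit 5) (nat_lit 202) (nat_lit 5) (nat_lit 187) (nat_lit 5) (nat_lit 330) (nat_lit 312) (nat_lit 138)) (XT.lf (nat_lit 0) (nat_lit 4193866915) (nat_lit 684) (nat_lit 1143154192) (nat_lit 760) (nat_lit 20365550211) (nat_lit 177) (nat_lit 5) (nat_lit 186) (nat_lit 5) (nat_lit 187) (nat_lit 5) (nat_lit 331) (nat_lit 312) (nat_lit 137)))) (XT.nd (nat_lit 156) (nat_lit 532) (nat_lit 0) (XT.nd (nat_lit 78) (nat_lit 608) (nat_lit 0) (XT.lf (nat_lit 0) (nat_lit 7537552044) (nat_lit 760) (nat_lit 9136477549) (nat_lit 76) (nat_lit 9456504462) (nat_lit 177) (nat_lit 5) (nat_lit 187) (nat_lit 5) (nat_lit 178) (nat_lit 5) (nat_lit 332) (nat_lit 312) (nat_lit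 136)) (XT.lf (nat_lit 0) (nat_lit 3663384902) (nat_lit 608) (nat_lit 6183221956) (nat_lit 684) (nat_lit 16723457959) (nat_lit 169) (nat_lit 5) (nat_lit 177) (nat_lit 5) (nat_lit 178) (nat_lit 5) (nat_lit 333) (nat_lit 312) (nat_lit 135))) (XT.nd (nat_lit 78) (nat_lit 532) (nat_lit 0) (XT.lf (nat_lit 0) (nat_lit 12358599392) (nat_lit 684) (nat_lit 10034615233) (nat_lit 76) (nat_lit 4625561148) (nat_lit 169) (nat_lit 5) (nat_lit 178) (nat_lit 5) (nat_lit 170) (nat_lit 5) (nat_lit 334) (nat_lit 312) (nat_lit 134)) (XT.lf (nat_lit 0) (nat_lit 3221578628) (nat_lit 532) (nat_lit 11812735269) (nat_lit 608) (nat_lit 12443987425) (nat_lit 162) (nat_lit 5) (nat_lit 169) (nat_lit 5) (nat_lit 170) (nat_lit 5) (nat_lit 335) (nat_lit 312) (nat_lit 133)))))) (XT.nd (nat_lit 546) (nat_lit 1824) (nat_lit 0) (XT.nd (nat_lit 234) (nat_lit 1064) (nat_lit 0) (XT.nd (nat_lit 78) (nat_lit 532) (nat_lit 0) (XT.lf (nat_lit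 0) (nat_lit 17077516788) (nat_lit 532) (nat_lit 810363803) (nat_lit 608) (nat_lit 10060808632) (nat_lit 162) (nat_lit 5) (nat_lit 169) (nat_lit 5) (nat_lit 170) (nat_lit 5) (nat_lit 336) (nat_lit 312) (nat_lit 132)) (XT.nd (nat_lit 78) (nat_lit 0) (nat_lit 0) (XT.lf (nat_lit 0) (nat_lit 2867097742) (nat_lit 532) (nat_lit 18085022521) (nat_lit 608) (nat_lit 7477320411) (nat_lit 155) (nat_lit 5) (nat_lit 162) (nat_lit 5) (nat_lit 163) (nat_lit 5) (nat_lit 337) (nat_lit 312) (nat_lit 131)) (XT.lf (nat_lit 0) (nat_lit 17228567762) (nat_lit 532) (nat_lit 6993873909) (nat_lit 608) (nat_lit 4698752141) (nat_lit 155) (nat_lit 5) (nat_lit 162) (nat_lit 5) (nat_lit 163) (nat_lit 5) (nat_lit 338) (nat_lit 312) (nat_lit 130)))) (XT.nd (nat_lit 156) (nat_lit 532) (nat_lit 0) (XT.nd (nat_lit 78) (nat_lit 76) (nat_lit 0) (XT.lf (nat_lit 0) (nat_lit 2597672871) (nat_lit 456) (nat_lit 25057289990) (nat_lit 532)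 (nat_lit 1770817647) (nat_lit 149) (nat_lit 5) (nat_lit 155) (nat_lit 5) (nat_lit 156) (nat_lit 5) (nat_lit 339) (nat_lit 312) (nat_lit 129)) (XT.lf (nat_lit 0) (nat_lit 1405714352) (nat_lit 532) (nat_lit 12471628911) (nat_lit 76) (nat_lit 16062254391) (nat_lit 148) (nat_lit 5) (nat_lit 155) (nat_lit 5) (nat_lit 149) (nat_lit 5) (nat_lit 340) (nat_lit 312) (nat_lit 128))) (XT.nd (nat_lit 78) (nat_lit 0) (nat_lit 0) (XT.lf (nat_lit 0) (nat_lit 2340130226) (nat_lit 532) (nat_lit 2320980327) (nat_lit 608) (nat_lit 25806621336) (nat_lit 141) (nat_lit 5) (nat_lit 148) (nat_lit 5) (nat_lit 149) (nat_lit 5) (nat_lit 341) (nat_lit 312) (nat_lit 127)) (XT.lf (nat_lit 0) (nat_lit 8230189557) (nat_lit 608) (nat_lit 13252999167) (nat_lit 76) (nat_lit 9522044059) (nat_lit 141) (nat_lit 5) (nat_lit 149) (nat_lit 5) (nat_lit 142) (nat_lit 5) (nat_lit 342) (nat_lit 312) (nat_lit 126))))) (XT.nd (nat_lit 234) (nat_lit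 912) (nat_lit 0) (XT.nd (nat_lit 78) (nat_lit 456) (nat_lit 0) (XT.lf (nat_lit 0) (nat_lit 2081983726) (nat_lit 456) (nat_lit 9864172106) (nat_lit 532) (nat_lit 19611511591) (nat_lit 135) (nat_lit 5) (nat_lit 141) (nat_lit 5) (nat_lit 142) (nat_lit 5) (nat_lit 343) (nat_lit 312) (nat_lit 125)) (XT.nd (nat_lit 78) (nat_lit 456) (nat_lit 0) (XT.lf (nat_lit 0) (nat_lit 15925852194) (nat_lit 532) (nat_lit 13999078569) (nat_lit 76) (nat_lit 2197179878) (nat_lit 135) (nat_lit 5) (nat_lit 142) (nat_lit 5) (nat_lit 136) (nat_lit 5) (nat_lit 344) (nat_lit 312) (nat_lit 124)) (XT.lf (nat_lit 0) (nat_lit 1877333384) (nat_lit 456) (nat_lit 18260285595) (nat_lit 532) (nat_lit 12562490773) (nat_lit 129) (nat_lit 5) (nat_lit 135) (nat_lit 5) (nat_lit 136) (nat_lit 5) (nat_lit 345) (nat_lit 312) (nat_lit 123)))) (XT.nd (nat_lit 156) (nat_lit 532) (nat_lit 0) (XT.nd (nat_lit 78) (nat_lit 380) (nat_lit 0) (XT.lf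 (nat_lit 0) (nat_lit 18513579206) (nat_lit 456) (nat_lit 6100546560) (nat_lit 532) (nat_lit 8677174357) (nat_lit 129) (nat_lit 5) (nat_lit 135) (nat_lit 5) (nat_lit 136) (nat_lit 5) (nat_lit 346) (nat_lit 312) (nat_lit 122)) (XT.lf (nat_lit 0) (nat_lit 1717028951) (nat_lit 380) (nat_lit 27583261455) (nat_lit 456) (nat_lit 4597677733) (nat_lit 124) (nat_lit 5) (nat_lit 129) (nat_lit 5) (nat_lit 130) (nat_lit 5) (nat_lit 347) (nat_lit 312) (nat_lit 121))) (XT.nd (nat_lit 78) (nat_lit 532) (nat_lit 0) (XT.lf (nat_lit 0) (nat_lit 18944568599) (nat_lit 380) (nat_lit 15388664728) (nat_lit 456) (nat_lit 183419796) (nat_lit 124) (nat_lit 5) (nat_lit 129) (nat_lit 5) (nat_lit 130) (nat_lit 5) (nat_lit 348) (nat_lit 312) (nat_lit 120)) (XT.lf (nat_lit 0) (nat_lit 1519404812) (nat_lit 456) (nat_lit 2770534396) (nat_lit 532) (nat_lit 30862349261) (nat_lit 117) (nat_lit 5) (nat_lit 123) (nat_lit 5) (nat_lit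 124) (nat_lit 5) (nat_lit 349) (nat_lit 312) (nat_lit 119))))))))
noncomputable def xc216 : XT := (XT.nd (nat_lit 2106) (nat_lit 1672) (nat_lit 0) (XT.nd (nat_lit 1014) (nat_lit 1976) (nat_lit 0) (XT.nd (nat_lit 468) (nat_lit 1140) (nat_lit 0) (XT.nd (nat_lit 234) (nat_lit 684) (nat_lit 0) (XT.nd (nat_lit 78) (nat_lit 380) (nat_lit 0) (XT.lf (nat_lit 0) (nat_lit 9148171714) (nat_lit 532) (nat_lit 16464481184) (nat_lit 76) (nat_lit 10186657214) (nat_lit 117) (nat_lit 5) (nat_lit 124) (nat_lit 5) (nat_lit 118) (nat_lit 5) (nat_lit 350) (nat_lit 312) (nat_lit 118)) (XT.nd (nat_lit 78) (nat_lit 0) (nat_lit 0) (XT.lf (nat_lit 0) (nat_lit 1211905360) (nat_lit 380) (nat_lit 12976661345) (nat_lit 456) (nat_lit 22276085662) (nat_lit 112) (nat_lit 5) (nat_lit 117) (nat_lit 5) (nat_lit 118) (nat_lit 5) (nat_lit 351) (nat_lit 312) (nat_lit 117)) (XT.lf (nat_lit 0) (nat_lit 19545823023) (nat_lit 456) (nat_lit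 17394221456) (nat_lit 76) (nat_lit 204943279) (nat_lit 112) (nat_lit 5) (nat_lit 118) (nat_lit 5) (nat_lit 113) (nat_lit 5) (nat_lit 352) (nat_lit 312) (nat_lit 116)))) (XT.nd (nat_lit 78) (nat_lit 304) (nat_lit 0) (XT.lf (nat_lit 0) (nat_lit 885628595) (nat_lit 380) (nat_lit 24312615037) (nat_lit 456) (nat_lit 12643458469) (nat_lit 107) (nat_lit 5) (nat_lit 112) (nat_lit 5) (nat_lit 113) (nat_lit 5) (nat_lit 353) (nat_lit 312) (nat_lit 115)) (XT.nd (nat_lit 78) (nat_lit 304) (nat_lit 0) (XT.lf (nat_lit 0) (nat_lit 20067239040) (nat_lit 380) (nat_lit 11126140421) (nat_lit 456) (nat_lit 7360746354) (nat_lit 107) (nat_lit 5) (nat_lit 112) (nat_lit 5) (nat_lit 113) (nat_lit 5) (nat_lit 354) (nat_lit 312) (nat_lit 114)) (XT.lf (nat_lit 0) (nat_lit 519734530) (nat_lit 304) (nat_lit 36874800276) (nat_lit 380) (nat_lit 1892604626) (nat_lit 103) (nat_lit 5) (nat_lit 107) (nat_lit 5) (nat_lit 108) (nat_lit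 5) (nat_lit 355) (nat_lit 312) (nat_lit 113))))) (XT.nd (nat_lit 234) (nat_lit 684) (nat_lit 0) (XT.nd (nat_lit 78) (nat_lit 380) (nat_lit 0) (XT.lf (nat_lit 0) (nat_lit 3962874653) (nat_lit 380) (nat_lit 19712174938) (nat_lit 76) (nat_lit 16357129505) (nat_lit 102) (nat_lit 5) (nat_lit 107) (nat_lit 5) (nat_lit 103) (nat_lit 5) (nat_lit 356) (nat_lit 312) (nat_lit 112)) (XT.nd (nat_lit 78) (nat_lit 380) (nat_lit 0) (XT.lf (nat_lit 0) (nat_lit 9953625977) (nat_lit 380) (nat_lit 107127868) (nat_lit 76) (nat_lit 30738326502) (nat_lit 102) (nat_lit 5) (nat_lit 107) (nat_lit 5) (nat_lit 103) (nat_lit 5) (nat_lit 357) (nat_lit 312) (nat_lit 111)) (XT.lf (nat_lit 0) (nat_lit 16358735594) (nat_lit 456) (nat_lit 21140427562) (nat_lit 76) (nat_lit 4082788320) (nat_lit 97) (nat_lit 5) (nat_lit 103) (nat_lit 5) (nat_lit 98) (nat_lit 5) (nat_lit 358) (nat_lit 312) (nat_lit 110)))) (XT.nd (nat_lit 156) (nat_lit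 380) (nat_lit 0) (XT.nd (nat_lit 78) (nat_lit 304) (nat_lit 0) (XT.lf (nat_lit 0) (nat_lit 23054448903) (nat_lit 456) (nat_lit 882110636) (nat_lit 76) (nat_lit 18448797550) (nat_lit 97) (nat_lit 5) (nat_lit 103) (nat_lit 5) (nat_lit 98) (nat_lit 5) (nat_lit 359) (nat_lit 312) (nat_lit 109)) (XT.lf (nat_lit 0) (nat_lit 20378662060) (nat_lit 304) (nat_lit 9766075840) (nat_lit 380) (nat_lit 13062317644) (nat_lit 93) (nat_lit 5) (nat_lit 97) (nat_lit 5) (nat_lit 98) (nat_lit 5) (nat_lit 360) (nat_lit 312) (nat_lit 108))) (XT.nd (nat_lit 78) (nat_lit 380) (nat_lit 0) (XT.lf (nat_lit 0) (nat_lit 37500995958) (nat_lit 380) (nat_lit 1807294655) (nat_lit 76) (nat_lit 4743518281) (nat_lit 93) (nat_lit 5) (nat_lit 98) (nat_lit 5) (nat_lit 94) (nat_lit 5) (nat_lit 361) (nat_lit 312) (nat_lit 107)) (XT.lf (nat_lit 0) (nat_lit 444017535) (nat_lit 380) (nat_lit 24779807800) (nat_lit 76) (nat_lit 19689305400)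 (nat_lit 88) (nat_lit 5) (nat_lit 93) (nat_lit 5) (nat_lit 89) (nat_lit 5) (nat_lit 362) (nat_lit 312) (nat_lit 106)))))) (XT.nd (nat_lit 546) (nat_lit 1064) (nat_lit 0) (XT.nd (nat_lit 234) (nat_lit 608) (nat_lit 0) (XT.nd (nat_lit 78) (nat_lit 304) (nat_lit 0) (XT.lf (nat_lit 0) (nat_lit 7533373526) (nat_lit 380) (nat_lit 3098490646) (nat_lit 76) (nat_lit 35165993513) (nat_lit 88) (nat_lit 5) (nat_lit 93) (nat_lit 5) (nat_lit 89) (nat_lit 5) (nat_lit 363) (nat_lit 312) (nat_lit 105)) (XT.nd (nat_lit 78) (nat_lit 0) (nat_lit 0) (XT.lf (nat_lit 0) (nat_lit 15066053107) (nat_lit 380) (nat_lit 27134504790) (nat_lit 76) (nat_lit 4501650815) (nat_lit 84) (nat_lit 5) (nat_lit 89) (nat_lit 5) (nat_lit 85) (nat_lit 5) (nat_lit 364) (nat_lit 312) (nat_lit 104)) (XT.lf (nat_lit 0) (nat_lit 22959577191) (nat_lit 380) (nat_lit 4763780520) (nat_lit 76) (nat_lit 19906288147) (nat_lit 84) (nat_lit 5) (nat_lit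 89) (nat_lit 5) (nat_lit 85) (nat_lit 5) (nat_lit 365) (nat_lit 312) (nat_lit 103)))) (XT.nd (nat_lit 156) (nat_lit 304) (nat_lit 0) (XT.nd (nat_lit 78) (nat_lit 0) (nat_lit 0) (XT.lf (nat_lit 0) (nat_lit 18639009306) (nat_lit 304) (nat_lit 12628125178) (nat_lit 380) (nat_lit 17312456279) (nat_lit 80) (nat_lit 5) (nat_lit 84) (nat_lit 5) (nat_lit 85) (nat_lit 5) (nat_lit 366) (nat_lit 312) (nat_lit 102)) (XT.lf (nat_lit 0) (nat_lit 39898648237) (nat_lit 380) (nat_lit 6746393986) (nat_lit 76) (nat_lit 2910751323) (nat_lit 80) (nat_lit 5) (nat_lit 85) (nat_lit 5) (nat_lit 81) (nat_lit 5) (nat_lit 367) (nat_lit 312) (nat_lit 101))) (XT.nd (nat_lit 78) (nat_lit 76) (nat_lit 0) (XT.lf (nat_lit 0) (nat_lit 17354524826) (nat_lit 228) (nat_lit 31724571877) (nat_lit 304) (nat_lit 1473487413) (nat_lit 77) (nat_lit 5) (nat_lit 80) (nat_lit 5) (nat_lit 81) (nat_lit 5) (nat_lit 368) (nat_lit 312) (nat_lit 100))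 (XT.lf (nat_lit 0) (nat_lit 6886894732) (nat_lit 304) (nat_lit 9330729995) (nat_lit 76) (nat_lit 35357640768) (nat_lit 76) (nat_lit 5) (nat_lit 80) (nat_lit 5) (nat_lit 77) (nat_lit 5) (nat_lit 369) (nat_lit 312) (nat_lit 99))))) (XT.nd (nat_lit 234) (nat_lit 532) (nat_lit 0) (XT.nd (nat_lit 78) (nat_lit 228) (nat_lit 0) (XT.lf (nat_lit 0) (nat_lit 15538599329) (nat_lit 304) (nat_lit 77438957) (nat_lit 380) (nat_lit 37007725658) (nat_lit 72) (nat_lit 5) (nat_lit 76) (nat_lit 5) (nat_lit 77) (nat_lit 5) (nat_lit 370) (nat_lit 312) (nat_lit 98)) (XT.nd (nat_lit 78) (nat_lit 228) (nat_lit 0) (XT.lf (nat_lit 0) (nat_lit 24859488755) (nat_lit 380) (nat_lit 12518268944) (nat_lit 76) (nat_lit 16318387897) (nat_lit 72) (nat_lit 5) (nat_lit 77) (nat_lit 5) (nat_lit 73) (nat_lit 5) (nat_lit 371) (nat_lit 312) (nat_lit 97)) (XT.lf (nat_lit 0) (nat_lit 13036671634) (nat_lit 228) (nat_lit 21467924398) (nat_lit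 304) (nat_lit 20292373260) (nat_lit 69) (nat_lit 5) (nat_lit 72) (nat_lit 5) (nat_lit 73) (nat_lit 5) (nat_lit 372) (nat_lit 312) (nat_lit 96)))) (XT.nd (nat_lit 156) (nat_lit 304) (nat_lit 0) (XT.nd (nat_lit 78) (nat_lit 228) (nat_lit 0) (XT.lf (nat_lit 0) (nat_lit 39612310379) (nat_lit 228) (nat_lit 4951451981) (nat_lit 304) (nat_lit 11363315322) (nat_lit 69) (nat_lit 5) (nat_lit 72) (nat_lit 5) (nat_lit 73) (nat_lit 5) (nat_lit 373) (nat_lit 312) (nat_lit 95)) (XT.lf (nat_lit 0) (nat_lit 9970220415) (nat_lit 228) (nat_lit 45164593655) (nat_lit 304) (nat_lit 1949973067) (nat_lit 66) (nat_lit 5) (nat_lit 69) (nat_lit 5) (nat_lit 70) (nat_lit 5) (nat_lit 374) (nat_lit 312) (nat_lit 94))) (XT.nd (nat_lit 78) (nat_lit 228) (nat_lit 0) (XT.lf (nat_lit 0) (nat_lit 7808368726) (nat_lit 304) (nat_lit 21021743083) (nat_lit 76) (nat_lit 29438471001) (nat_lit 65) (nat_lit 5) (nat_lit 69) (nat_lit 5) (nat_lit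 66) (nat_lit 5) (nat_lit 375) (nat_lit 312) (nat_lit 93)) (XT.lf (nat_lit 0) (nat_lit 5948163045) (nat_lit 228) (nat_lit 11927675338) (nat_lit 304) (nat_lit 41609808697) (nat_lit 62) (nat_lit 5) (nat_lit 65) (nat_lit 5) (nat_lit 66) (nat_lit 5) (nat_lit 376) (nat_lit 312) (nat_lit 92))))))) (XT.nd (nat_lit 1092) (nat_lit 380) (nat_lit 0) (XT.nd (nat_lit 546) (nat_lit 608) (nat_lit 0) (XT.nd (nat_lit 234) (nat_lit 456) (nat_lit 0) (XT.nd (nat_lit 78) (nat_lit 228) (nat_lit 0) (XT.lf (nat_lit 0) (nat_lit 28510814879) (nat_lit 304) (nat_lit 26632041696) (nat_lit 76) (nat_lit 5588403217) (nat_lit 62) (nat_lit 5) (nat_lit 66) (nat_lit 5) (nat_lit 63) (nat_lit 5) (nat_lit 377) (nat_lit 312) (nat_lit 91)) (XT.nd (nat_lit 78) (nat_lit 0) (nat_lit 0) (XT.lf (nat_lit 0) (nat_lit 979165708) (nat_lit 228) (nat_lit 38611637325) (nat_lit 304) (nat_lit 22419659953) (nat_lit 59) (nat_lit 5) (nat_lit 62) (nat_lit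 5) (nat_lit 63) (nat_lit 5) (nat_lit 378) (nat_lit 312) (nat_lit 90)) (XT.lf (nat_lit 0) (nat_lit 29962254245) (nat_lit 228) (nat_lit 21308344305) (nat_lit 304) (nat_lit 12049422437) (nat_lit 59) (nat_lit 5) (nat_lit 62) (nat_lit 5) (nat_lit 63) (nat_lit 5) (nat_lit 379) (nat_lit 312) (nat_lit 89)))) (XT.nd (nat_lit 156) (nat_lit 228) (nat_lit 0) (XT.nd (nat_lit 78) (nat_lit 228) (nat_lit 0) (XT.lf (nat_lit 0) (nat_lit 59812519092) (nat_lit 228) (nat_lit 3486789535) (nat_lit 304) (nat_lit 1369602394) (nat_lit 59) (nat_lit 5) (nat_lit 62) (nat_lit 5) (nat_lit 63) (nat_lit 5) (nat_lit 380) (nat_lit 312) (nat_lit 88)) (XT.lf (nat_lit 0) (nat_lit 9826710874) (nat_lit 228) (nat_lit 41303687492) (nat_lit 76) (nat_lit 14913572194) (nat_lit 56) (nat_lit 5) (nat_lit 59) (nat_lit 5) (nat_lit 57) (nat_lit 5) (nat_lit 381) (nat_lit 312) (nat_lit 87))) (XT.nd (nat_lit 78) (nat_lit 228) (nat_lit 0) (XT.lf (nat_lit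 0) (nat_lit 21413995476) (nat_lit 228) (nat_lit 12185261837) (nat_lit 76) (nat_lit 33858140310) (nat_lit 56) (nat_lit 5) (nat_lit 59) (nat_lit 5) (nat_lit 57) (nat_lit 5) (nat_lit 382) (nat_lit 312) (nat_lit 86)) (XT.lf (nat_lit 0) (nat_lit 18158835525) (nat_lit 228) (nat_lit 15363220167) (nat_lit 304) (nat_lit 35385977907) (nat_lit 53) (nat_lit 5) (nat_lit 56) (nat_lit 5) (nat_lit 57) (nat_lit 5) (nat_lit 383) (nat_lit 312) (nat_lit 85))))) (XT.nd (nat_lit 234) (nat_lit 456) (nat_lit 0) (XT.nd (nat_lit 78) (nat_lit 152) (nat_lit 0) (XT.lf (nat_lit 0) (nat_lit 46149112208) (nat_lit 304) (nat_lit 20771785643) (nat_lit 76) (nat_lit 3476618956) (nat_lit 53) (nat_lit 5) (nat_lit 57) (nat_lit 5) (nat_lit 54) (nat_lit 5) (nat_lit 384) (nat_lit 312) (nat_lit 84)) (XT.nd (nat_lit 78) (nat_lit 0) (nat_lit 0) (XT.lf (nat_lit 0) (nat_lit 10148703305) (nat_lit 152) (nat_lit 49254598892) (nat_lit 228) (nat_lit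 12520933426) (nat_lit 51) (nat_lit 5) (nat_lit 53) (nat_lit 5) (nat_lit 54) (nat_lit 5) (nat_lit 385) (nat_lit 312) (nat_lit 83)) (XT.lf (nat_lit 0) (nat_lit 42420456944) (nat_lit 152) (nat_lit 30843088885) (nat_lit 228) (nat_lit 226958082) (nat_lit 51) (nat_lit 5) (nat_lit 53) (nat_lit 5) (nat_lit 54) (nat_lit 5) (nat_lit 386) (nat_lit 312) (nat_lit 82)))) (XT.nd (nat_lit 156) (nat_lit 152) (nat_lit 0) (XT.nd (nat_lit 78) (nat_lit 0) (nat_lit 0) (XT.lf (nat_lit 0) (nat_lit 443603212) (nat_lit 228) (nat_lit 11752528343) (nat_lit 304) (nat_lit 62903954276) (nat_lit 47) (nat_lit 5) (nat_lit 50) (nat_lit 5) (nat_lit 51) (nat_lit 5) (nat_lit 387) (nat_lit 312) (nat_lit 81)) (XT.lf (nat_lit 0) (nat_lit 25378956944) (nat_lit 304) (nat_lit 43292496694) (nat_lit 76) (nat_lit 8074686698) (nat_lit 47) (nat_lit 5) (nat_lit 51) (nat_lit 5) (nat_lit 48) (nat_lit 5) (nat_lit 388) (nat_lit 312) (nat_lit 80)))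 (XT.nd (nat_lit 78) (nat_lit 152) (nat_lit 0) (XT.lf (nat_lit 0) (nat_lit 39072375148) (nat_lit 304) (nat_lit 11106016752) (nat_lit 76) (nat_lit 28259731994) (nat_lit 47) (nat_lit 5) (nat_lit 51) (nat_lit 5) (nat_lit 48) (nat_lit 5) (nat_lit 389) (nat_lit 312) (nat_lit 79)) (XT.lf (nat_lit 0) (nat_lit 22482773701) (nat_lit 152) (nat_lit 30908723274) (nat_lit 228) (nat_lit 26782923594) (nat_lit 45) (nat_lit 5) (nat_lit 47) (nat_lit 5) (nat_lit 48) (nat_lit 5) (nat_lit 390) (nat_lit 312) (nat_lit 78)))))) (XT.nd (nat_lit 34632) (nat_lit 0) (nat_lit 11780) (XT.nd (nat_lit 234) (nat_lit 152) (nat_lit 0) (XT.nd (nat_lit 78) (nat_lit 228) (nat_lit 0) (XT.lf (nat_lit 0) (nat_lit 57304906188) (nat_lit 152) (nat_lit 10946234540) (nat_lit 228) (nat_lit 13708337591) (nat_lit 45) (nat_lit 5) (nat_lit 47) (nat_lit 5) (nat_lit 48) (nat_lit 5) (nat_lit 391) (nat_lit 312) (nat_lit 77)) (XT.nd (nat_lit 78) (nat_lit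 76) (nat_lit 0) (XT.lf (nat_lit 0) (nat_lit 9463908682) (nat_lit 152) (nat_lit 74274891431) (nat_lit 228) (nat_lit 53821502) (nat_lit 43) (nat_lit 5) (nat_lit 45) (nat_lit 5) (nat_lit 46) (nat_lit 5) (nat_lit 392) (nat_lit 312) (nat_lit 76)) (XT.lf (nat_lit 0) (nat_lit 14095574905) (nat_lit 228) (nat_lit 40809430545) (nat_lit 76) (nat_lit 30760954950) (nat_lit 42) (nat_lit 5) (nat_lit 45) (nat_lit 5) (nat_lit 43) (nat_lit 5) (nat_lit 393) (nat_lit 312) (nat_lit 75)))) (XT.nd (nat_lit 156) (nat_lit 0) (nat_lit 0) (XT.nd (nat_lit 78) (nat_lit 152) (nat_lit 0) (XT.lf (nat_lit 0) (nat_lit 28667235977) (nat_lit 228) (nat_lit 6287004797) (nat_lit 76) (nat_lit 52641277205) (nat_lit 42) (nat_lit 5) (nat_lit 45) (nat_lit 5) (nat_lit 43) (nat_lit 5) (nat_lit 394) (nat_lit 312) (nat_lit 74)) (XT.lf (nat_lit 0) (nat_lit 29851762303) (nat_lit 152) (nat_lit 14110135580) (nat_lit 228) (nat_lit 45612489410) (nat_lit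 40) (nat_lit 5) (nat_lit 42) (nat_lit 5) (nat_lit 43) (nat_lit 5) (nat_lit 395) (nat_lit 312) (nat_lit 73))) (XT.nd (nat_lit 34164) (nat_lit 0) (nat_lit 11780) (XT.lf (nat_lit 0) (nat_lit 59849161680) (nat_lit 228) (nat_lit 24480373596) (nat_lit 76) (nat_lit 7279075069) (nat_lit 40) (nat_lit 5) (nat_lit 43) (nat_lit 5) (nat_lit 41) (nat_lit 5) (nat_lit 396) (nat_lit 312) (nat_lit 72)) (XT.lf (nat_lit 0) (nat_lit 1918914573) (nat_lit 0) (nat_lit 1918914573) (nat_lit 1140) (nat_lit 6012869476) (nat_lit 195) (nat_lit 5) (nat_lit 195) (nat_lit 3) (nat_lit 210) (nat_lit 3) (nat_lit 313) (nat_lit 313) (nat_lit 154))))) (XT.nd (nat_lit 234) (nat_lit 0) (nat_lit 76) (XT.nd (nat_lit 78) (nat_lit 0) (nat_lit 0) (XT.lf (nat_lit 0) (nat_lit 8002609471) (nat_lit 1140) (nat_lit 6974664103) (nat_lit 1216) (nat_lit 5013099042) (nat_lit 195) (nat_lit 5) (nat_lit 210) (nat_lit 3) (nat_lit 211) (nat_lit 5) (nat_lit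 314) (nat_lit 313) (nat_lit 153)) (XT.nd (nat_lit 78) (nat_lit 0) (nat_lit 76) (XT.lf (nat_lit 76) (nat_lit 2182086400) (nat_lit 0) (nat_lit 6209938667) (nat_lit 1216) (nat_lit 11894419963) (nat_lit 196) (nat_lit 5) (nat_lit 195) (nat_lit 5) (nat_lit 211) (nat_lit 5) (nat_lit 315) (nat_lit 313) (nat_lit 152)) (XT.lf (nat_lit 0) (nat_lit 8885223003) (nat_lit 1140) (nat_lit 8864170834) (nat_lit 1216) (nat_lit 2839250023) (nat_lit 196) (nat_lit 5) (nat_lit 211) (nat_lit 5) (nat_lit 212) (nat_lit 5) (nat_lit 316) (nat_lit 313) (nat_lit 151)))) (XT.nd (nat_lit 156) (nat_lit 0) (nat_lit 76) (XT.nd (nat_lit 78) (nat_lit 0) (nat_lit 76) (XT.lf (nat_lit 76) (nat_lit 599961554) (nat_lit 0) (nat_lit 8854546423) (nat_lit 1216) (nat_lit 11443568976) (nat_lit 197) (nat_lit 5) (nat_lit 196) (nat_lit 5) (nat_lit 212) (nat_lit 5) (nat_lit 317) (nat_lit 313) (nat_lit 150)) (XT.lf (nat_lit 0) (nat_lit 10128423567)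 (nat_lit 1140) (nat_lit 10691875685) (nat_lit 1216) (nat_lit 393874049) (nat_lit 197) (nat_lit 5) (nat_lit 212) (nat_lit 5) (nat_lit 213) (nat_lit 5) (nat_lit 318) (nat_lit 313) (nat_lit 149))) (XT.nd (nat_lit 78) (nat_lit 0) (nat_lit 0) (XT.lf (nat_lit 0) (nat_lit 10904596855) (nat_lit 1140) (nat_lit 888665101) (nat_lit 1216) (nat_lit 9744036003) (nat_lit 197) (nat_lit 5) (nat_lit 212) (nat_lit 5) (nat_lit 213) (nat_lit 5) (nat_lit 319) (nat_lit 313) (nat_lit 148)) (XT.lf (nat_lit 76) (nat_lit 9388399062) (nat_lit 0) (nat_lit 2400438706) (nat_lit 1216) (nat_lit 10078741550) (nat_lit 198) (nat_lit 5) (nat_lit 197) (nat_lit 5) (nat_lit 213) (nat_lit 5) (nat_lit 320) (nat_lit 313) (nat_lit 147))))))))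
noncomputable def xc217 : XT := (XT.nd (nat_lit 2184) (nat_lit 4484) (nat_lit 0) (XT.nd (nat_lit 1092) (nat_lit 3420) (nat_lit 0) (XT.nd (nat_lit 546) (nat_lit 2204) (nat_lit 0) (XT.nd (nat_lit 234) (nat_lit 0) (nat_lit 76) (XT.nd (nat_lit 78) (nat_lit 0) (nat_lit 0) (XT.lf (nat_lit 0) (nat_lit 12773272602) (nat_lit 1140) (nat_lit 2289115980) (nat_lit 1216) (nat_lit 7143176781) (nat_lit 198) (nat_lit 5) (nat_lit 213) (nat_lit 5) (nat_lit 214) (nat_lit 5) (nat_lit 321) (nat_lit 313) (nat_lit 146)) (XT.nd (nat_lit 78) (nat_lit 0) (nat_lit 76) (XT.lf (nat_lit 76) (nat_lit 8342178804) (nat_lit 0) (nat_lit 5543853767) (nat_lit 1216) (nat_lit 8664700719) (nat_lit 199) (nat_lit 5) (nat_lit 198) (nat_lit 5) (nat_lit 214) (nat_lit 5) (nat_lit 322) (nat_lit 313) (nat_lit 145)) (XT.lf (nat_lit 0) (nat_lit 15091439541) (nat_lit 1140) (nat_lit 3611035637) (nat_lit 1216) (nat_lit 4202009039) (nat_lit 199) (nat_lit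 5) (nat_lit 214) (nat_lit 5) (nat_lit 215) (nat_lit 5) (nat_lit 323) (nat_lit 313) (nat_lit 144)))) (XT.nd (nat_lit 156) (nat_lit 0) (nat_lit 76) (XT.nd (nat_lit 78) (nat_lit 0) (nat_lit 76) (XT.lf (nat_lit 76) (nat_lit 7390205318) (nat_lit 0) (nat_lit 9063846531) (nat_lit 1216) (nat_lit 6811170245) (nat_lit 200) (nat_lit 5) (nat_lit 199) (nat_lit 5) (nat_lit 215) (nat_lit 5) (nat_lit 324) (nat_lit 313) (nat_lit 143)) (XT.lf (nat_lit 0) (nat_lit 17897908133) (nat_lit 1140) (nat_lit 4852497784) (nat_lit 1216) (nat_lit 885170771) (nat_lit 200) (nat_lit 5) (nat_lit 215) (nat_lit 5) (nat_lit 216) (nat_lit 5) (nat_lit 325) (nat_lit 313) (nat_lit 142))) (XT.nd (nat_lit 78) (nat_lit 0) (nat_lit 0) (XT.lf (nat_lit 76) (nat_lit 6534932057) (nat_lit 0) (nat_lit 12998081102) (nat_lit 1216) (nat_lit 4479596158) (nat_lit 201) (nat_lit 5) (nat_lit 200) (nat_lit 5) (nat_lit 216) (nat_lit 5) (nat_lit 326) (nat_lit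 313) (nat_lit 141)) (XT.lf (nat_lit 76) (nat_lit 18359947257) (nat_lit 0) (nat_lit 2901700027) (nat_lit 1216) (nat_lit 3137976591) (nat_lit 201) (nat_lit 5) (nat_lit 200) (nat_lit 5) (nat_lit 216) (nat_lit 5) (nat_lit 327) (nat_lit 313) (nat_lit 140))))) (XT.nd (nat_lit 234) (nat_lit 1216) (nat_lit 0) (XT.nd (nat_lit 78) (nat_lit 1216) (nat_lit 0) (XT.lf (nat_lit 76) (nat_lit 5778600976) (nat_lit 0) (nat_lit 17386774664) (nat_lit 1216) (nat_lit 1629181254) (nat_lit 202) (nat_lit 5) (nat_lit 201) (nat_lit 5) (nat_lit 217) (nat_lit 5) (nat_lit 328) (nat_lit 313) (nat_lit 139)) (XT.nd (nat_lit 78) (nat_lit 0) (nat_lit 76) (XT.lf (nat_lit 0) (nat_lit 12329343) (nat_lit 1216) (nat_lit 7156494717) (nat_lit 1292) (nat_lit 18029960730) (nat_lit 185) (nat_lit 5) (nat_lit 201) (nat_lit 5) (nat_lit 202) (nat_lit 5) (nat_lit 329) (nat_lit 313) (nat_lit 138)) (XT.lf (nat_lit 0) (nat_lit 1748445137) (nat_lit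 1216) (nat_lit 20506812997) (nat_lit 76) (nat_lit 3357058975) (nat_lit 186) (nat_lit 5) (nat_lit 202) (nat_lit 5) (nat_lit 187) (nat_lit 5) (nat_lit 330) (nat_lit 313) (nat_lit 137)))) (XT.nd (nat_lit 156) (nat_lit 608) (nat_lit 0) (XT.nd (nat_lit 78) (nat_lit 684) (nat_lit 0) (XT.lf (nat_lit 0) (nat_lit 3676489856) (nat_lit 1216) (nat_lit 8229321661) (nat_lit 76) (nat_lit 14128253030) (nat_lit 186) (nat_lit 5) (nat_lit 202) (nat_lit 5) (nat_lit 187) (nat_lit 5) (nat_lit 331) (nat_lit 313) (nat_lit 136)) (XT.lf (nat_lit 0) (nat_lit 4500822322) (nat_lit 684) (nat_lit 1200823026) (nat_lit 760) (nat_lit 20765645358) (nat_lit 177) (nat_lit 5) (nat_lit 186) (nat_lit 5) (nat_lit 187) (nat_lit 5) (nat_lit 332) (nat_lit 313) (nat_lit 135))) (XT.nd (nat_lit 78) (nat_lit 608) (nat_lit 0) (XT.lf (nat_lit 0) (nat_lit 7962017364) (nat_lit 760) (nat_lit 9228317664) (nat_lit 76) (nat_lit 9717949020) (nat_lit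 177) (nat_lit 5) (nat_lit 187) (nat_lit 5) (nat_lit 178) (nat_lit 5) (nat_lit 333) (nat_lit 313) (nat_lit 134)) (XT.lf (nat_lit 0) (nat_lit 3953753855) (nat_lit 608) (nat_lit 6382547874) (nat_lit 684) (nat_lit 17024826554) (nat_lit 169) (nat_lit 5) (nat_lit 177) (nat_lit 5) (nat_lit 178) (nat_lit 5) (nat_lit 334) (nat_lit 313) (nat_lit 133)))))) (XT.nd (nat_lit 546) (nat_lit 1824) (nat_lit 0) (XT.nd (nat_lit 234) (nat_lit 1064) (nat_lit 0) (XT.nd (nat_lit 78) (nat_lit 532) (nat_lit 0) (XT.lf (nat_lit 0) (nat_lit 12917865849) (nat_lit 684) (nat_lit 10154450952) (nat_lit 76) (nat_lit 4751163517) (nat_lit 169) (nat_lit 5) (nat_lit 178) (nat_lit 5) (nat_lit 170) (nat_lit 5) (nat_lit 335) (nat_lit 313) (nat_lit 132)) (XT.nd (nat_lit 78) (nat_lit 0) (nat_lit 0) (XT.lf (nat_lit 0) (nat_lit 3497652228) (nat_lit 532) (nat_lit 12172433778) (nat_lit 608) (nat_lit 12626824527) (nat_lit 162) (nat_lit 5) (nat_lit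 169) (nat_lit 5) (nat_lit 170) (nat_lit 5) (nat_lit 336) (nat_lit 313) (nat_lit 131)) (XT.lf (nat_lit 0) (nat_lit 17764042526) (nat_lit 532) (nat_lit 839836320) (nat_lit 608) (nat_lit 10177698405) (nat_lit 162) (nat_lit 5) (nat_lit 169) (nat_lit 5) (nat_lit 170) (nat_lit 5) (nat_lit 337) (nat_lit 313) (nat_lit 130)))) (XT.nd (nat_lit 156) (nat_lit 532) (nat_lit 0) (XT.nd (nat_lit 78) (nat_lit 0) (nat_lit 0) (XT.lf (nat_lit 0) (nat_lit 3131170209) (nat_lit 532) (nat_lit 18625314814) (nat_lit 608) (nat_lit 7520378629) (nat_lit 155) (nat_lit 5) (nat_lit 162) (nat_lit 5) (nat_lit 163) (nat_lit 5) (nat_lit 338) (nat_lit 313) (nat_lit 129)) (XT.lf (nat_lit 0) (nat_lit 17918298129) (nat_lit 532) (nat_lit 7201497521) (nat_lit 608) (nat_lit 4663732769) (nat_lit 155) (nat_lit 5) (nat_lit 162) (nat_lit 5) (nat_lit 163) (nat_lit 5) (nat_lit 339) (nat_lit 313) (nat_lit 128))) (XT.nd (nat_lit 78) (nat_lit 76)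 (nat_lit 0) (XT.lf (nat_lit 0) (nat_lit 2852009919) (nat_lit 456) (nat_lit 25800027467) (nat_lit 532) (nat_lit 1651318248) (nat_lit 149) (nat_lit 5) (nat_lit 155) (nat_lit 5) (nat_lit 156) (nat_lit 5) (nat_lit 340) (nat_lit 313) (nat_lit 127)) (XT.lf (nat_lit 0) (nat_lit 1612211426) (nat_lit 532) (nat_lit 12671073134) (nat_lit 76) (nat_lit 16549405810) (nat_lit 148) (nat_lit 5) (nat_lit 155) (nat_lit 5) (nat_lit 149) (nat_lit 5) (nat_lit 341) (nat_lit 313) (nat_lit 126))))) (XT.nd (nat_lit 234) (nat_lit 836) (nat_lit 0) (XT.nd (nat_lit 78) (nat_lit 456) (nat_lit 0) (XT.lf (nat_lit 0) (nat_lit 2583325986) (nat_lit 532) (nat_lit 2378820247) (nat_lit 608) (nat_lit 26414620917) (nat_lit 141) (nat_lit 5) (nat_lit 148) (nat_lit 5) (nat_lit 149) (nat_lit 5) (nat_lit 342) (nat_lit 313) (nat_lit 125)) (XT.nd (nat_lit 78) (nat_lit 456) (nat_lit 0) (XT.lf (nat_lit 0) (nat_lit 8633712420) (nat_lit 608) (nat_lit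 13477894753) (nat_lit 76) (nat_lit 9818928133) (nat_lit 141) (nat_lit 5) (nat_lit 149) (nat_lit 5) (nat_lit 142) (nat_lit 5) (nat_lit 343) (nat_lit 313) (nat_lit 124)) (XT.lf (nat_lit 0) (nat_lit 2315444545) (nat_lit 456) (nat_lit 10142795242) (nat_lit 532) (nat_lit 20041395275) (nat_lit 135) (nat_lit 5) (nat_lit 141) (nat_lit 5) (nat_lit 142) (nat_lit 5) (nat_lit 344) (nat_lit 313) (nat_lit 123)))) (XT.nd (nat_lit 156) (nat_lit 380) (nat_lit 0) (XT.nd (nat_lit 78) (nat_lit 456) (nat_lit 0) (XT.lf (nat_lit 0) (nat_lit 16553011835) (nat_lit 532) (nat_lit 14248568040) (nat_lit 76) (nat_lit 2279565568) (nat_lit 135) (nat_lit 5) (nat_lit 142) (nat_lit 5) (nat_lit 136) (nat_lit 5) (nat_lit 345) (nat_lit 313) (nat_lit 122)) (XT.lf (nat_lit 0) (nat_lit 2102464871) (nat_lit 456) (nat_lit 18785938480) (nat_lit 532) (nat_lit 12788167307) (nat_lit 129) (nat_lit 5) (nat_lit 135) (nat_lit 5) (nat_lit 136) (nat_lit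 5) (nat_lit 346) (nat_lit 313) (nat_lit 121))) (XT.nd (nat_lit 78) (nat_lit 380) (nat_lit 0) (XT.lf (nat_lit 0) (nat_lit 19232881229) (nat_lit 456) (nat_lit 6262052585) (nat_lit 532) (nat_lit 8790695229) (nat_lit 129) (nat_lit 5) (nat_lit 135) (nat_lit 5) (nat_lit 136) (nat_lit 5) (nat_lit 347) (nat_lit 313) (nat_lit 120)) (XT.lf (nat_lit 0) (nat_lit 1934989760) (nat_lit 380) (nat_lit 28384347284) (nat_lit 456) (nat_lit 4591234479) (nat_lit 124) (nat_lit 5) (nat_lit 129) (nat_lit 5) (nat_lit 130) (nat_lit 5) (nat_lit 348) (nat_lit 313) (nat_lit 119))))))) (XT.nd (nat_lit 1092) (nat_lit 2128) (nat_lit 0) (XT.nd (nat_lit 546) (nat_lit 1064) (nat_lit 0) (XT.nd (nat_lit 234) (nat_lit 760) (nat_lit 0) (XT.nd (nat_lit 78) (nat_lit 532) (nat_lit 0) (XT.lf (nat_lit 0) (nat_lit 19674507541) (nat_lit 380) (nat_lit 15824681938) (nat_lit 456) (nat_lit 48753861) (nat_lit 124) (nat_lit 5) (nat_lit 129) (nat_lit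 5) (nat_lit 130) (nat_lit 5) (nat_lit 349) (nat_lit 313) (nat_lit 118)) (XT.nd (nat_lit 78) (nat_lit 0) (nat_lit 0) (XT.lf (nat_lit 0) (nat_lit 1727838441) (nat_lit 456) (nat_lit 2825794795) (nat_lit 532) (nat_lit 31649050905) (nat_lit 117) (nat_lit 5) (nat_lit 123) (nat_lit 5) (nat_lit 124) (nat_lit 5) (nat_lit 350) (nat_lit 313) (nat_lit 117)) (XT.lf (nat_lit 0) (nat_lit 9553940766) (nat_lit 532) (nat_lit 16796515910) (nat_lit 76) (nat_lit 10518773503) (nat_lit 117) (nat_lit 5) (nat_lit 124) (nat_lit 5) (nat_lit 118) (nat_lit 5) (nat_lit 351) (nat_lit 313) (nat_lit 116)))) (XT.nd (nat_lit 156) (nat_lit 380) (nat_lit 0) (XT.nd (nat_lit 78) (nat_lit 0) (nat_lit 0) (XT.lf (nat_lit 0) (nat_lit 1408574978) (nat_lit 380) (nat_lit 13334688682) (nat_lit 456) (nat_lit 22811341040) (nat_lit 112) (nat_lit 5) (nat_lit 117) (nat_lit 5) (nat_lit 118) (nat_lit 5) (nat_lit 352) (nat_lit 313) (nat_lit 115)) (XT.lf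 (nat_lit 0) (nat_lit 20257771077) (nat_lit 456) (nat_lit 17756825688) (nat_lit 76) (nat_lit 240860767) (nat_lit 112) (nat_lit 5) (nat_lit 118) (nat_lit 5) (nat_lit 113) (nat_lit 5) (nat_lit 353) (nat_lit 313) (nat_lit 114))) (XT.nd (nat_lit 78) (nat_lit 0) (nat_lit 0) (XT.lf (nat_lit 0) (nat_lit 1069858861) (nat_lit 380) (nat_lit 25007763504) (nat_lit 456) (nat_lit 12895518479) (nat_lit 107) (nat_lit 5) (nat_lit 112) (nat_lit 5) (nat_lit 113) (nat_lit 5) (nat_lit 354) (nat_lit 313) (nat_lit 113)) (XT.lf (nat_lit 0) (nat_lit 20822325540) (nat_lit 380) (nat_lit 11426691639) (nat_lit 456) (nat_lit 7458031128) (nat_lit 107) (nat_lit 5) (nat_lit 112) (nat_lit 5) (nat_lit 113) (nat_lit 5) (nat_lit 355) (nat_lit 313) (nat_lit 112))))) (XT.nd (nat_lit 234) (nat_lit 304) (nat_lit 0) (XT.nd (nat_lit 78) (nat_lit 456) (nat_lit 0) (XT.lf (nat_lit 0) (nat_lit 690243886) (nat_lit 304) (nat_lit 37944272232) (nat_lit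 380) (nat_lit 1827590041) (nat_lit 103) (nat_lit 5) (nat_lit 107) (nat_lit 5) (nat_lit 108) (nat_lit 5) (nat_lit 356) (nat_lit 313) (nat_lit 111)) (XT.nd (nat_lit 78) (nat_lit 380) (nat_lit 0) (XT.lf (nat_lit 0) (nat_lit 4197698863) (nat_lit 380) (nat_lit 20150730448) (nat_lit 76) (nat_lit 16881139838) (nat_lit 102) (nat_lit 5) (nat_lit 107) (nat_lit 5) (nat_lit 103) (nat_lit 5) (nat_lit 357) (nat_lit 313) (nat_lit 110)) (XT.lf (nat_lit 0) (nat_lit 38773883) (nat_lit 380) (nat_lit 10326394728) (nat_lit 456) (nat_lit 31654401781) (nat_lit 97) (nat_lit 5) (nat_lit 102) (nat_lit 5) (nat_lit 103) (nat_lit 5) (nat_lit 358) (nat_lit 313) (nat_lit 109)))) (XT.nd (nat_lit 156) (nat_lit 304) (nat_lit 0) (XT.nd (nat_lit 78) (nat_lit 0) (nat_lit 0) (XT.lf (nat_lit 0) (nat_lit 16960540524) (nat_lit 456) (nat_lit 21624671543) (nat_lit 76) (nat_lit 4240775066) (nat_lit 97) (nat_lit 5) (nat_lit 103) (nat_lit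 5) (nat_lit 98) (nat_lit 5) (nat_lit 359) (nat_lit 313) (nat_lit 108)) (XT.lf (nat_lit 0) (nat_lit 23853890974) (nat_lit 456) (nat_lit 762973133) (nat_lit 76) (nat_lit 19036730502) (nat_lit 97) (nat_lit 5) (nat_lit 103) (nat_lit 5) (nat_lit 98) (nat_lit 5) (nat_lit 360) (nat_lit 313) (nat_lit 107))) (XT.nd (nat_lit 78) (nat_lit 0) (nat_lit 0) (XT.lf (nat_lit 0) (nat_lit 21134195284) (nat_lit 304) (nat_lit 10020939182) (nat_lit 380) (nat_lit 13344864767) (nat_lit 93) (nat_lit 5) (nat_lit 97) (nat_lit 5) (nat_lit 98) (nat_lit 5) (nat_lit 361) (nat_lit 313) (nat_lit 106)) (XT.lf (nat_lit 0) (nat_lit 38729347052) (nat_lit 380) (nat_lit 1718722314) (nat_lit 76) (nat_lit 4922110329) (nat_lit 93) (nat_lit 5) (nat_lit 98) (nat_lit 5) (nat_lit 94) (nat_lit 5) (nat_lit 362) (nat_lit 313) (nat_lit 105)))))) (XT.nd (nat_lit 546) (nat_lit 912) (nat_lit 0) (XT.nd (nat_lit 234) (nat_lit 532) (nat_lit 0) (XT.nd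 (nat_lit 78) (nat_lit 304) (nat_lit 0) (XT.lf (nat_lit 0) (nat_lit 560095503) (nat_lit 380) (nat_lit 25379686675) (nat_lit 76) (nat_lit 20317580739) (nat_lit 88) (nat_lit 5) (nat_lit 93) (nat_lit 5) (nat_lit 89) (nat_lit 5) (nat_lit 363) (nat_lit 313) (nat_lit 104)) (XT.nd (nat_lit 78) (nat_lit 304) (nat_lit 0) (XT.lf (nat_lit 0) (nat_lit 7859139239) (nat_lit 380) (nat_lit 3052110065) (nat_lit 76) (nat_lit 36257474461) (nat_lit 88) (nat_lit 5) (nat_lit 93) (nat_lit 5) (nat_lit 89) (nat_lit 5) (nat_lit 364) (nat_lit 313) (nat_lit 103)) (XT.lf (nat_lit 0) (nat_lit 15616602121) (nat_lit 380) (nat_lit 27807933066) (nat_lit 76) (nat_lit 4675708283) (nat_lit 84) (nat_lit 5) (nat_lit 89) (nat_lit 5) (nat_lit 85) (nat_lit 5) (nat_lit 365) (nat_lit 313) (nat_lit 102)))) (XT.nd (nat_lit 156) (nat_lit 228) (nat_lit 0) (XT.nd (nat_lit 78) (nat_lit 304) (nat_lit 0) (XT.lf (nat_lit 0) (nat_lit 23744061032) (nat_lit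 380) (nat_lit 4770182414) (nat_lit 76) (nat_lit 20541348581) (nat_lit 84) (nat_lit 5) (nat_lit 89) (nat_lit 5) (nat_lit 85) (nat_lit 5) (nat_lit 366) (nat_lit 313) (nat_lit 101)) (XT.lf (nat_lit 0) (nat_lit 19333352759) (nat_lit 304) (nat_lit 12966004374) (nat_lit 380) (nat_lit 17734724889) (nat_lit 80) (nat_lit 5) (nat_lit 84) (nat_lit 5) (nat_lit 85) (nat_lit 5) (nat_lit 367) (nat_lit 313) (nat_lit 100))) (XT.nd (nat_lit 78) (nat_lit 228) (nat_lit 0) (XT.lf (nat_lit 0) (nat_lit 41187454666) (nat_lit 380) (nat_lit 6815119921) (nat_lit 76) (nat_lit 3037069195) (nat_lit 80) (nat_lit 5) (nat_lit 85) (nat_lit 5) (nat_lit 81) (nat_lit 5) (nat_lit 368) (nat_lit 313) (nat_lit 99)) (XT.lf (nat_lit 0) (nat_lit 18007516006) (nat_lit 228) (nat_lit 32634397706) (nat_lit 304) (nat_lit 1424468429) (nat_lit 77) (nat_lit 5) (nat_lit 80) (nat_lit 5) (nat_lit 81) (nat_lit 5) (nat_lit 369) (nat_lit 313) (nat_lit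 98))))) (XT.nd (nat_lit 234) (nat_lit 532) (nat_lit 0) (XT.nd (nat_lit 78) (nat_lit 304) (nat_lit 0) (XT.lf (nat_lit 0) (nat_lit 7182243786) (nat_lit 304) (nat_lit 9480322952) (nat_lit 76) (nat_lit 36457232079) (nat_lit 76) (nat_lit 5) (nat_lit 80) (nat_lit 5) (nat_lit 77) (nat_lit 5) (nat_lit 370) (nat_lit 313) (nat_lit 97)) (XT.nd (nat_lit 78) (nat_lit 0) (nat_lit 0) (XT.lf (nat_lit 0) (nat_lit 16133808517) (nat_lit 304) (nat_lit 38108924) (nat_lit 380) (nat_lit 38027876921) (nat_lit 72) (nat_lit 5) (nat_lit 76) (nat_lit 5) (nat_lit 77) (nat_lit 5) (nat_lit 371) (nat_lit 313) (nat_lit 96)) (XT.lf (nat_lit 0) (nat_lit 25690514585) (nat_lit 380) (nat_lit 12766308942) (nat_lit 76) (nat_lit 16847590405) (nat_lit 72) (nat_lit 5) (nat_lit 77) (nat_lit 5) (nat_lit 73) (nat_lit 5) (nat_lit 372) (nat_lit 313) (nat_lit 95)))) (XT.nd (nat_lit 156) (nat_lit 304) (nat_lit 0) (XT.nd (nat_lit 78) (nat_lit 0)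 (nat_lit 0) (XT.lf (nat_lit 0) (nat_lit 13554029773) (nat_lit 228) (nat_lit 22069676223) (nat_lit 304) (nat_lit 20814596128) (nat_lit 69) (nat_lit 5) (nat_lit 72) (nat_lit 5) (nat_lit 73) (nat_lit 5) (nat_lit 373) (nat_lit 313) (nat_lit 94)) (XT.lf (nat_lit 0) (nat_lit 40923260264) (nat_lit 228) (nat_lit 5058941262) (nat_lit 304) (nat_lit 11620187277) (nat_lit 69) (nat_lit 5) (nat_lit 72) (nat_lit 5) (nat_lit 73) (nat_lit 5) (nat_lit 374) (nat_lit 313) (nat_lit 93))) (XT.nd (nat_lit 78) (nat_lit 76) (nat_lit 0) (XT.lf (nat_lit 0) (nat_lit 10392791749) (nat_lit 228) (nat_lit 46476788449) (nat_lit 304) (nat_lit 1925275096) (nat_lit 66) (nat_lit 5) (nat_lit 69) (nat_lit 5) (nat_lit 70) (nat_lit 5) (nat_lit 375) (nat_lit 313) (nat_lit 92)) (XT.lf (nat_lit 0) (nat_lit 8121817543) (nat_lit 304) (nat_lit 21530899805) (nat_lit 76) (nat_lit 30361496296) (nat_lit 65) (nat_lit 5) (nat_lit 69) (nat_lit 5)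 (nat_lit 66) (nat_lit 5) (nat_lit 376) (nat_lit 313) (nat_lit 91))))))))
noncomputable def xc218 : XT := (XT.nd (nat_lit 36270) (nat_lit 0) (nat_lit 6764) (XT.nd (nat_lit 1014) (nat_lit 532) (nat_lit 0) (XT.nd (nat_lit 468) (nat_lit 684) (nat_lit 0) (XT.nd (nat_lit 234) (nat_lit 228) (nat_lit 0) (XT.nd (nat_lit 78) (nat_lit 228) (nat_lit 0) (XT.lf (nat_lit 0) (nat_lit 6246912373) (nat_lit 228) (nat_lit 12243248624) (nat_lit 304) (nat_lit 42777664829) (nat_lit 62) (nat_lit 5) (nat_lit 65) (nat_lit 5) (nat_lit 66) (nat_lit 5) (nat_lit 377) (nat_lit 313) (nat_lit 90)) (XT.nd (nat_lit 78) (nat_lit 228) (nat_lit 0) (XT.lf (nat_lit 0) (nat_lit 29442307931) (nat_lit 304) (nat_lit 27312275858) (nat_lit 76) (nat_lit 5796280932) (nat_lit 62) (nat_lit 5) (nat_lit 66) (nat_lit 5) (nat_lit 63) (nat_lit 5) (nat_lit 378) (nat_lit 313) (nat_lit 89)) (XT.lf (nat_lit 0) (nat_lit 1126103778) (nat_lit 228) (nat_lit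 39727503537) (nat_lit 304) (nat_lit 23014870741) (nat_lit 59) (nat_lit 5) (nat_lit 62) (nat_lit 5) (nat_lit 63) (nat_lit 5) (nat_lit 379) (nat_lit 313) (nat_lit 88)))) (XT.nd (nat_lit 78) (nat_lit 228) (nat_lit 0) (XT.lf (nat_lit 0) (nat_lit 30975260803) (nat_lit 228) (nat_lit 21906349093) (nat_lit 304) (nat_lit 12335779857) (nat_lit 59) (nat_lit 5) (nat_lit 62) (nat_lit 5) (nat_lit 63) (nat_lit 5) (nat_lit 380) (nat_lit 313) (nat_lit 87)) (XT.nd (nat_lit 78) (nat_lit 228) (nat_lit 0) (XT.lf (nat_lit 0) (nat_lit 61717709160) (nat_lit 228) (nat_lit 3551349006) (nat_lit 304) (nat_lit 1337753327) (nat_lit 59) (nat_lit 5) (nat_lit 62) (nat_lit 5) (nat_lit 63) (nat_lit 5) (nat_lit 381) (nat_lit 313) (nat_lit 86)) (XT.lf (nat_lit 0) (nat_lit 10192402908) (nat_lit 228) (nat_lit 42429853477) (nat_lit 76) (nat_lit 15400865332) (nat_lit 56) (nat_lit 5) (nat_lit 59) (nat_lit 5) (nat_lit 57) (nat_lit 5) (nat_lit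 382) (nat_lit 313) (nat_lit 85))))) (XT.nd (nat_lit 234) (nat_lit 456) (nat_lit 0) (XT.nd (nat_lit 78) (nat_lit 228) (nat_lit 0) (XT.lf (nat_lit 0) (nat_lit 22125241271) (nat_lit 228) (nat_lit 12441164702) (nat_lit 76) (nat_lit 34912608764) (nat_lit 56) (nat_lit 5) (nat_lit 59) (nat_lit 5) (nat_lit 57) (nat_lit 5) (nat_lit 383) (nat_lit 313) (nat_lit 84)) (XT.nd (nat_lit 78) (nat_lit 0) (nat_lit 0) (XT.lf (nat_lit 0) (nat_lit 18812180532) (nat_lit 228) (nat_lit 15783401859) (nat_lit 304) (nat_lit 36377617393) (nat_lit 53) (nat_lit 5) (nat_lit 56) (nat_lit 5) (nat_lit 57) (nat_lit 5) (nat_lit 384) (nat_lit 313) (nat_lit 83)) (XT.lf (nat_lit 0) (nat_lit 47599853928) (nat_lit 304) (nat_lit 21287887381) (nat_lit 76) (nat_lit 3619675212) (nat_lit 53) (nat_lit 5) (nat_lit 57) (nat_lit 5) (nat_lit 54) (nat_lit 5) (nat_lit 385) (nat_lit 313) (nat_lit 82)))) (XT.nd (nat_lit 156) (nat_lit 304) (nat_lit 0)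 (XT.nd (nat_lit 78) (nat_lit 0) (nat_lit 0) (XT.lf (nat_lit 0) (nat_lit 10559166708) (nat_lit 152) (nat_lit 50691591722) (nat_lit 228) (nat_lit 12829206907) (nat_lit 51) (nat_lit 5) (nat_lit 53) (nat_lit 5) (nat_lit 54) (nat_lit 5) (nat_lit 386) (nat_lit 313) (nat_lit 81)) (XT.lf (nat_lit 0) (nat_lit 43795985511) (nat_lit 152) (nat_lit 31728920254) (nat_lit 228) (nat_lit 168374084) (nat_lit 51) (nat_lit 5) (nat_lit 53) (nat_lit 5) (nat_lit 54) (nat_lit 5) (nat_lit 387) (nat_lit 313) (nat_lit 80))) (XT.nd (nat_lit 78) (nat_lit 0) (nat_lit 0) (XT.lf (nat_lit 0) (nat_lit 560114933) (nat_lit 228) (nat_lit 12065141840) (nat_lit 304) (nat_lit 64725900864) (nat_lit 47) (nat_lit 5) (nat_lit 50) (nat_lit 5) (nat_lit 51) (nat_lit 5) (nat_lit 388) (nat_lit 313) (nat_lit 79)) (XT.lf (nat_lit 0) (nat_lit 26202097899) (nat_lit 304) (nat_lit 44489572323) (nat_lit 76) (nat_lit 8354968603) (nat_lit 47) (nat_lit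 5) (nat_lit 51) (nat_lit 5) (nat_lit 48) (nat_lit 5) (nat_lit 389) (nat_lit 313) (nat_lit 78)))))) (XT.nd (nat_lit 34710) (nat_lit 0) (nat_lit 11780) (XT.nd (nat_lit 234) (nat_lit 380) (nat_lit 0) (XT.nd (nat_lit 78) (nat_lit 152) (nat_lit 0) (XT.lf (nat_lit 0) (nat_lit 40304519458) (nat_lit 304) (nat_lit 11340460097) (nat_lit 76) (nat_lit 29144457258) (nat_lit 47) (nat_lit 5) (nat_lit 51) (nat_lit 5) (nat_lit 48) (nat_lit 5) (nat_lit 390) (nat_lit 313) (nat_lit 77)) (XT.nd (nat_lit 78) (nat_lit 0) (nat_lit 0) (XT.lf (nat_lit 0) (nat_lit 23255026058) (nat_lit 152) (nat_lit 31797381911) (nat_lit 228) (nat_lit 27525439550) (nat_lit 45) (nat_lit 5) (nat_lit 47) (nat_lit 5) (nat_lit 48) (nat_lit 5) (nat_lit 391) (nat_lit 313) (nat_lit 76)) (XT.lf (nat_lit 0) (nat_lit 59118974875) (nat_lit 152) (nat_lit 11237142875) (nat_lit 228) (nat_lit 14060391843) (nat_lit 45) (nat_lit 5) (nat_lit 47) (nat_lit 5)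 (nat_lit 48) (nat_lit 5) (nat_lit 392) (nat_lit 313) (nat_lit 75)))) (XT.nd (nat_lit 156) (nat_lit 152) (nat_lit 0) (XT.nd (nat_lit 78) (nat_lit 0) (nat_lit 0) (XT.lf (nat_lit 0) (nat_lit 3274924) (nat_lit 228) (nat_lit 76461496368) (nat_lit 76) (nat_lit 9839887998) (nat_lit 42) (nat_lit 5) (nat_lit 45) (nat_lit 5) (nat_lit 43) (nat_lit 5) (nat_lit 393) (nat_lit 313) (nat_lit 74)) (XT.lf (nat_lit 0) (nat_lit 14574392942) (nat_lit 228) (nat_lit 41939980385) (nat_lit 76) (nat_lit 31719860097) (nat_lit 42) (nat_lit 5) (nat_lit 45) (nat_lit 5) (nat_lit 43) (nat_lit 5) (nat_lit 394) (nat_lit 313) (nat_lit 73))) (XT.nd (nat_lit 78) (nat_lit 152) (nat_lit 0) (XT.lf (nat_lit 0) (nat_lit 29581574211) (nat_lit 228) (nat_lit 6384611955) (nat_lit 76) (nat_lit 54255541248) (nat_lit 42) (nat_lit 5) (nat_lit 45) (nat_lit 5) (nat_lit 43) (nat_lit 5) (nat_lit 395) (nat_lit 313) (nat_lit 72)) (XT.lf (nat_lit 0)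 (nat_lit 30837425972) (nat_lit 152) (nat_lit 14496934033) (nat_lit 228) (nat_lit 46925625052) (nat_lit 40) (nat_lit 5) (nat_lit 42) (nat_lit 5) (nat_lit 43) (nat_lit 5) (nat_lit 396) (nat_lit 313) (nat_lit 71))))) (XT.nd (nat_lit 234) (nat_lit 0) (nat_lit 76) (XT.nd (nat_lit 78) (nat_lit 0) (nat_lit 0) (XT.lf (nat_lit 0) (nat_lit 2057034313) (nat_lit 0) (nat_lit 2057034313) (nat_lit 1140) (nat_lit 6027128554) (nat_lit 195) (nat_lit 5) (nat_lit 195) (nat_lit 3) (nat_lit 210) (nat_lit 3) (nat_lit 314) (nat_lit 314) (nat_lit 152)) (XT.nd (nat_lit 78) (nat_lit 0) (nat_lit 0) (XT.lf (nat_lit 0) (nat_lit 8554008704) (nat_lit 1140) (nat_lit 7016236024) (nat_lit 1216) (nat_lit 5010131940) (nat_lit 195) (nat_lit 5) (nat_lit 210) (nat_lit 3) (nat_lit 211) (nat_lit 5) (nat_lit 315) (nat_lit 314) (nat_lit 151)) (XT.lf (nat_lit 76) (nat_lit 2413573190) (nat_lit 0) (nat_lit 6534061903) (nat_lit 1216) (nat_lit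 11937931014) (nat_lit 196) (nat_lit 5) (nat_lit 195) (nat_lit 5) (nat_lit 211) (nat_lit 5) (nat_lit 316) (nat_lit 314) (nat_lit 150)))) (XT.nd (nat_lit 156) (nat_lit 0) (nat_lit 76) (XT.nd (nat_lit 78) (nat_lit 0) (nat_lit 0) (XT.lf (nat_lit 0) (nat_lit 9445492718) (nat_lit 1140) (nat_lit 8958424765) (nat_lit 1216) (nat_lit 2793227900) (nat_lit 196) (nat_lit 5) (nat_lit 211) (nat_lit 5) (nat_lit 212) (nat_lit 5) (nat_lit 317) (nat_lit 314) (nat_lit 149)) (XT.lf (nat_lit 76) (nat_lit 787948544) (nat_lit 0) (nat_lit 9236986979) (nat_lit 1216) (nat_lit 11491143656) (nat_lit 197) (nat_lit 5) (nat_lit 196) (nat_lit 5) (nat_lit 212) (nat_lit 5) (nat_lit 318) (nat_lit 314) (nat_lit 148))) (XT.nd (nat_lit 78) (nat_lit 0) (nat_lit 0) (XT.lf (nat_lit 0) (nat_lit 10709625317) (nat_lit 1140) (nat_lit 10837825141) (nat_lit 1216) (nat_lit 294501054) (nat_lit 197) (nat_lit 5) (nat_lit 212) (nat_lit 5) (nat_lit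 213) (nat_lit 5) (nat_lit 319) (nat_lit 314) (nat_lit 147)) (XT.lf (nat_lit 0) (nat_lit 11501005676) (nat_lit 1140) (nat_lit 745609700) (nat_lit 1216) (nat_lit 9928406388) (nat_lit 197) (nat_lit 5) (nat_lit 212) (nat_lit 5) (nat_lit 213) (nat_lit 5) (nat_lit 320) (nat_lit 314) (nat_lit 146))))))) (XT.nd (nat_lit 1092) (nat_lit 3648) (nat_lit 0) (XT.nd (nat_lit 546) (nat_lit 1520) (nat_lit 0) (XT.nd (nat_lit 234) (nat_lit 0) (nat_lit 152) (XT.nd (nat_lit 78) (nat_lit 0) (nat_lit 76) (XT.lf (nat_lit 76) (nat_lit 9838102512) (nat_lit 0) (nat_lit 2567443876) (nat_lit 1216) (nat_lit 10109861231) (nat_lit 198) (nat_lit 5) (nat_lit 197) (nat_lit 5) (nat_lit 213) (nat_lit 5) (nat_lit 321) (nat_lit 314) (nat_lit 145)) (XT.nd (nat_lit 78) (nat_lit 0) (nat_lit 0) (XT.lf (nat_lit 0) (nat_lit 13410966281) (nat_lit 1140) (nat_lit 2185785889) (nat_lit 1216) (nat_lit 7267046480) (nat_lit 198) (nat_lit 5) (nat_lit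 213) (nat_lit 5) (nat_lit 214) (nat_lit 5) (nat_lit 322) (nat_lit 314) (nat_lit 144)) (XT.lf (nat_lit 76) (nat_lit 8762761430) (nat_lit 0) (nat_lit 5788572323) (nat_lit 1216) (nat_lit 8668169824) (nat_lit 199) (nat_lit 5) (nat_lit 198) (nat_lit 5) (nat_lit 214) (nat_lit 5) (nat_lit 323) (nat_lit 314) (nat_lit 143)))) (XT.nd (nat_lit 156) (nat_lit 0) (nat_lit 76) (XT.nd (nat_lit 78) (nat_lit 0) (nat_lit 0) (XT.lf (nat_lit 0) (nat_lit 15784926947) (nat_lit 1140) (nat_lit 3545752501) (nat_lit 1216) (nat_lit 4253435312) (nat_lit 199) (nat_lit 5) (nat_lit 214) (nat_lit 5) (nat_lit 215) (nat_lit 5) (nat_lit 324) (nat_lit 314) (nat_lit 142)) (XT.lf (nat_lit 76) (nat_lit 7783823582) (nat_lit 0) (nat_lit 9399234599) (nat_lit 1216) (nat_lit 6772785578) (nat_lit 200) (nat_lit 5) (nat_lit 199) (nat_lit 5) (nat_lit 215) (nat_lit 5) (nat_lit 325) (nat_lit 314) (nat_lit 141))) (XT.nd (nat_lit 78) (nat_lit 0)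 (nat_lit 0) (XT.lf (nat_lit 0) (nat_lit 18662781919) (nat_lit 1140) (nat_lit 4823454039) (nat_lit 1216) (nat_lit 851304446) (nat_lit 200) (nat_lit 5) (nat_lit 215) (nat_lit 5) (nat_lit 216) (nat_lit 5) (nat_lit 326) (nat_lit 314) (nat_lit 140)) (XT.lf (nat_lit 76) (nat_lit 6903886750) (nat_lit 0) (nat_lit 13438076502) (nat_lit 1216) (nat_lit 4384077796) (nat_lit 201) (nat_lit 5) (nat_lit 200) (nat_lit 5) (nat_lit 216) (nat_lit 5) (nat_lit 327) (nat_lit 314) (nat_lit 139))))) (XT.nd (nat_lit 234) (nat_lit 608) (nat_lit 0) (XT.nd (nat_lit 78) (nat_lit 1140) (nat_lit 0) (XT.lf (nat_lit 76) (nat_lit 19078616288) (nat_lit 0) (nat_lit 3037346142) (nat_lit 1216) (nat_lit 3008905941) (nat_lit 201) (nat_lit 5) (nat_lit 200) (nat_lit 5) (nat_lit 216) (nat_lit 5) (nat_lit 328) (nat_lit 314) (nat_lit 138)) (XT.nd (nat_lit 78) (nat_lit 1216) (nat_lit 0) (XT.lf (nat_lit 76) (nat_lit 6125324475) (nat_lit 0) (nat_lit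 17946386309) (nat_lit 1216) (nat_lit 1460098641) (nat_lit 202) (nat_lit 5) (nat_lit 201) (nat_lit 5) (nat_lit 217) (nat_lit 5) (nat_lit 329) (nat_lit 314) (nat_lit 137)) (XT.lf (nat_lit 0) (nat_lit 220179713) (nat_lit 1216) (nat_lit 7198515287) (nat_lit 1292) (nat_lit 18529599906) (nat_lit 185) (nat_lit 5) (nat_lit 201) (nat_lit 5) (nat_lit 202) (nat_lit 5) (nat_lit 330) (nat_lit 314) (nat_lit 136)))) (XT.nd (nat_lit 156) (nat_lit 684) (nat_lit 0) (XT.nd (nat_lit 78) (nat_lit 0) (nat_lit 0) (XT.lf (nat_lit 0) (nat_lit 2003670877) (nat_lit 1216) (nat_lit 20944412669) (nat_lit 76) (nat_lit 3426297562) (nat_lit 186) (nat_lit 5) (nat_lit 202) (nat_lit 5) (nat_lit 187) (nat_lit 5) (nat_lit 331) (nat_lit 314) (nat_lit 135)) (XT.lf (nat_lit 0) (nat_lit 3983650945) (nat_lit 1216) (nat_lit 8303769546) (nat_lit 76) (nat_lit 14521544134) (nat_lit 186) (nat_lit 5) (nat_lit 202) (nat_lit 5) (nat_lit 187) (nat_lit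 5) (nat_lit 332) (nat_lit 314) (nat_lit 134))) (XT.nd (nat_lit 78) (nat_lit 0) (nat_lit 0) (XT.lf (nat_lit 0) (nat_lit 4806588250) (nat_lit 684) (nat_lit 1258880150) (nat_lit 760) (nat_lit 21189848238) (nat_lit 177) (nat_lit 5) (nat_lit 186) (nat_lit 5) (nat_lit 187) (nat_lit 5) (nat_lit 333) (nat_lit 314) (nat_lit 133)) (XT.lf (nat_lit 0) (nat_lit 8387831187) (nat_lit 760) (nat_lit 9333375119) (nat_lit 76) (nat_lit 9988514189) (nat_lit 177) (nat_lit 5) (nat_lit 187) (nat_lit 5) (nat_lit 178) (nat_lit 5) (nat_lit 334) (nat_lit 314) (nat_lit 132)))))) (XT.nd (nat_lit 546) (nat_lit 1520) (nat_lit 0) (XT.nd (nat_lit 234) (nat_lit 988) (nat_lit 0) (XT.nd (nat_lit 78) (nat_lit 532) (nat_lit 0) (XT.lf (nat_lit 0) (nat_lit 4242474309) (nat_lit 608) (nat_lit 6587059713) (nat_lit 684) (nat_lit 17346736264) (nat_lit 169) (nat_lit 5) (nat_lit 177) (nat_lit 5) (nat_lit 178) (nat_lit 5) (nat_lit 335) (nat_lit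 314) (nat_lit 131)) (XT.nd (nat_lit 78) (nat_lit 532) (nat_lit 0) (XT.lf (nat_lit 0) (nat_lit 13483089142) (nat_lit 684) (nat_lit 10288283521) (nat_lit 76) (nat_lit 4881289650) (nat_lit 169) (nat_lit 5) (nat_lit 178) (nat_lit 5) (nat_lit 170) (nat_lit 5) (nat_lit 336) (nat_lit 314) (nat_lit 130)) (XT.lf (nat_lit 0) (nat_lit 3771708235) (nat_lit 532) (nat_lit 12542618056) (nat_lit 608) (nat_lit 12826081217) (nat_lit 162) (nat_lit 5) (nat_lit 169) (nat_lit 5) (nat_lit 170) (nat_lit 5) (nat_lit 337) (nat_lit 314) (nat_lit 129)))) (XT.nd (nat_lit 156) (nat_lit 456) (nat_lit 0) (XT.nd (nat_lit 78) (nat_lit 532) (nat_lit 0) (XT.lf (nat_lit 0) (nat_lit 18461164229) (nat_lit 532) (nat_lit 869896715) (nat_lit 608) (nat_lit 10308710867) (nat_lit 162) (nat_lit 5) (nat_lit 169) (nat_lit 5) (nat_lit 170) (nat_lit 5) (nat_lit 338) (nat_lit 314) (nat_lit 128)) (XT.lf (nat_lit 0) (nat_lit 3392943504) (nat_lit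 532) (nat_lit 19181945515) (nat_lit 608) (nat_lit 7575133739) (nat_lit 155) (nat_lit 5) (nat_lit 162) (nat_lit 5) (nat_lit 163) (nat_lit 5) (nat_lit 339) (nat_lit 314) (nat_lit 127))) (XT.nd (nat_lit 78) (nat_lit 456) (nat_lit 0) (XT.lf (nat_lit 0) (nat_lit 18618796770) (nat_lit 532) (nat_lit 7415475706) (nat_lit 608) (nat_lit 4637764899) (nat_lit 155) (nat_lit 5) (nat_lit 162) (nat_lit 5) (nat_lit 163) (nat_lit 5) (nat_lit 340) (nat_lit 314) (nat_lit 126)) (XT.lf (nat_lit 0) (nat_lit 3103850603) (nat_lit 456) (nat_lit 26565562628) (nat_lit 532) (nat_lit 1538143187) (nat_lit 149) (nat_lit 5) (nat_lit 155) (nat_lit 5) (nat_lit 156) (nat_lit 5) (nat_lit 341) (nat_lit 314) (nat_lit 125))))) (XT.nd (nat_lit 234) (nat_lit 912) (nat_lit 0) (XT.nd (nat_lit 78) (nat_lit 532) (nat_lit 0) (XT.lf (nat_lit 0) (nat_lit 1815470449) (nat_lit 532) (nat_lit 12886529445) (nat_lit 76) (nat_lit 17050868460) (nat_lit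 148) (nat_lit 5) (nat_lit 155) (nat_lit 5) (nat_lit 149) (nat_lit 5) (nat_lit 342) (nat_lit 314) (nat_lit 124)) (XT.nd (nat_lit 78) (nat_lit 0) (nat_lit 0) (XT.lf (nat_lit 0) (nat_lit 2823887179) (nat_lit 532) (nat_lit 2439072130) (nat_lit 608) (nat_lit 27050400990) (nat_lit 141) (nat_lit 5) (nat_lit 148) (nat_lit 5) (nat_lit 149) (nat_lit 5) (nat_lit 343) (nat_lit 314) (nat_lit 123)) (XT.lf (nat_lit 0) (nat_lit 9040350502) (nat_lit 608) (nat_lit 13719450570) (nat_lit 76) (nat_lit 10124074496) (nat_lit 141) (nat_lit 5) (nat_lit 149) (nat_lit 5) (nat_lit 142) (nat_lit 5) (nat_lit 344) (nat_lit 314) (nat_lit 122)))) (XT.nd (nat_lit 156) (nat_lit 456) (nat_lit 0) (XT.nd (nat_lit 78) (nat_lit 0) (nat_lit 0) (XT.lf (nat_lit 0) (nat_lit 2546093015) (nat_lit 456) (nat_lit 10430770279) (nat_lit 532) (nat_lit 20493271818) (nat_lit 135) (nat_lit 5) (nat_lit 141) (nat_lit 5) (nat_lit 142) (nat_lit 5) (nat_lit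 345) (nat_lit 314) (nat_lit 121)) (XT.lf (nat_lit 0) (nat_lit 17190411009) (nat_lit 532) (nat_lit 14515328610) (nat_lit 76) (nat_lit 2363477367) (nat_lit 135) (nat_lit 5) (nat_lit 142) (nat_lit 5) (nat_lit 136) (nat_lit 5) (nat_lit 346) (nat_lit 314) (nat_lit 120))) (XT.nd (nat_lit 78) (nat_lit 0) (nat_lit 0) (XT.lf (nat_lit 0) (nat_lit 2324659832) (nat_lit 456) (nat_lit 19328632778) (nat_lit 532) (nat_lit 13029293531) (nat_lit 129) (nat_lit 5) (nat_lit 135) (nat_lit 5) (nat_lit 136) (nat_lit 5) (nat_lit 347) (nat_lit 314) (nat_lit 119)) (XT.lf (nat_lit 0) (nat_lit 19964354088) (nat_lit 456) (nat_lit 6429638574) (nat_lit 532) (nat_lit 8916048323) (nat_lit 129) (nat_lit 5) (nat_lit 135) (nat_lit 5) (nat_lit 136) (nat_lit 5) (nat_lit 348) (nat_lit 314) (nat_lit 118))))))))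
noncomputable def xc219 : XT := (XT.nd (nat_lit 2184) (nat_lit 1824) (nat_lit 0) (XT.nd (nat_lit 1092) (nat_lit 2052) (nat_lit 0) (XT.nd (nat_lit 546) (nat_lit 1064) (nat_lit 0) (XT.nd (nat_lit 234) (nat_lit 760) (nat_lit 0) (XT.nd (nat_lit 78) (nat_lit 532) (nat_lit 0) (XT.lf (nat_lit 0) (nat_lit 2149934486) (nat_lit 380) (nat_lit 29210981846) (nat_lit 456) (nat_lit 4592885563) (nat_lit 124) (nat_lit 5) (nat_lit 129) (nat_lit 5) (nat_lit 130) (nat_lit 5) (nat_lit 349) (nat_lit 314) (nat_lit 117)) (XT.nd (nat_lit 78) (nat_lit 456) (nat_lit 0) (XT.lf (nat_lit 0) (nat_lit 80307527) (nat_lit 456) (nat_lit 16194133185) (nat_lit 76) (nat_lit 20335949566) (nat_lit 123) (nat_lit 5) (nat_lit 129) (nat_lit 5) (nat_lit 124) (nat_lit 5) (nat_lit 350) (nat_lit 314) (nat_lit 116)) (XT.lf (nat_lit 0) (nat_lit 1933176738) (nat_lit 456) (nat_lit 2884312032) (nat_lit 532) (nat_lit 32467342460) (nat_lit 117) (nat_lit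 5) (nat_lit 123) (nat_lit 5) (nat_lit 124) (nat_lit 5) (nat_lit 351) (nat_lit 314) (nat_lit 115)))) (XT.nd (nat_lit 156) (nat_lit 380) (nat_lit 0) (XT.nd (nat_lit 78) (nat_lit 380) (nat_lit 0) (XT.lf (nat_lit 0) (nat_lit 9964344360) (nat_lit 532) (nat_lit 17147805384) (nat_lit 76) (nat_lit 10859331121) (nat_lit 117) (nat_lit 5) (nat_lit 124) (nat_lit 5) (nat_lit 118) (nat_lit 5) (nat_lit 352) (nat_lit 314) (nat_lit 114)) (XT.lf (nat_lit 0) (nat_lit 1601942094) (nat_lit 380) (nat_lit 13705252008) (nat_lit 456) (nat_lit 23370290386) (nat_lit 112) (nat_lit 5) (nat_lit 117) (nat_lit 5) (nat_lit 118) (nat_lit 5) (nat_lit 353) (nat_lit 314) (nat_lit 113))) (XT.nd (nat_lit 78) (nat_lit 380) (nat_lit 0) (XT.lf (nat_lit 0) (nat_lit 20983869147) (nat_lit 456) (nat_lit 18139448064) (nat_lit 76) (nat_lit 276146906) (nat_lit 112) (nat_lit 5) (nat_lit 118) (nat_lit 5) (nat_lit 113) (nat_lit 5) (nat_lit 354)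 (nat_lit 314) (nat_lit 112)) (XT.lf (nat_lit 0) (nat_lit 1250565625) (nat_lit 380) (nat_lit 25725731367) (nat_lit 456) (nat_lit 13162444599) (nat_lit 107) (nat_lit 5) (nat_lit 112) (nat_lit 5) (nat_lit 113) (nat_lit 5) (nat_lit 355) (nat_lit 314) (nat_lit 111))))) (XT.nd (nat_lit 234) (nat_lit 684) (nat_lit 0) (XT.nd (nat_lit 78) (nat_lit 380) (nat_lit 0) (XT.lf (nat_lit 0) (nat_lit 21591277829) (nat_lit 380) (nat_lit 11738167104) (nat_lit 456) (nat_lit 7565326010) (nat_lit 107) (nat_lit 5) (nat_lit 112) (nat_lit 5) (nat_lit 113) (nat_lit 5) (nat_lit 356) (nat_lit 314) (nat_lit 110)) (XT.nd (nat_lit 78) (nat_lit 76) (nat_lit 0) (XT.lf (nat_lit 0) (nat_lit 856975634) (nat_lit 304) (nat_lit 39047939212) (nat_lit 380) (nat_lit 1767616419) (nat_lit 103) (nat_lit 5) (nat_lit 107) (nat_lit 5) (nat_lit 108) (nat_lit 5) (nat_lit 357) (nat_lit 314) (nat_lit 109)) (XT.lf (nat_lit 0) (nat_lit 4432912485)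 (nat_lit 380) (nat_lit 20611214527) (nat_lit 76) (nat_lit 17418959129) (nat_lit 102) (nat_lit 5) (nat_lit 107) (nat_lit 5) (nat_lit 103) (nat_lit 5) (nat_lit 358) (nat_lit 314) (nat_lit 108)))) (XT.nd (nat_lit 156) (nat_lit 304) (nat_lit 0) (XT.nd (nat_lit 78) (nat_lit 0) (nat_lit 0) (XT.lf (nat_lit 0) (nat_lit 182562798) (nat_lit 380) (nat_lit 10601031543) (nat_lit 456) (nat_lit 32493250108) (nat_lit 97) (nat_lit 5) (nat_lit 102) (nat_lit 5) (nat_lit 103) (nat_lit 5) (nat_lit 359) (nat_lit 314) (nat_lit 107)) (XT.lf (nat_lit 0) (nat_lit 17574025287) (nat_lit 456) (nat_lit 22132051668) (nat_lit 76) (nat_lit 4401463392) (nat_lit 97) (nat_lit 5) (nat_lit 103) (nat_lit 5) (nat_lit 98) (nat_lit 5) (nat_lit 360) (nat_lit 314) (nat_lit 106))) (XT.nd (nat_lit 78) (nat_lit 304) (nat_lit 0) (XT.lf (nat_lit 0) (nat_lit 24671127652) (nat_lit 456) (nat_lit 648619588) (nat_lit 76) (nat_lit 19640322779) (nat_lit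 97) (nat_lit 5) (nat_lit 103) (nat_lit 5) (nat_lit 98) (nat_lit 5) (nat_lit 361) (nat_lit 314) (nat_lit 105)) (XT.lf (nat_lit 0) (nat_lit 21904118364) (nat_lit 304) (nat_lit 10285636608) (nat_lit 380) (nat_lit 13642163857) (nat_lit 93) (nat_lit 5) (nat_lit 97) (nat_lit 5) (nat_lit 98) (nat_lit 5) (nat_lit 362) (nat_lit 314) (nat_lit 104)))))) (XT.nd (nat_lit 546) (nat_lit 1064) (nat_lit 0) (XT.nd (nat_lit 234) (nat_lit 608) (nat_lit 0) (XT.nd (nat_lit 78) (nat_lit 380) (nat_lit 0) (XT.lf (nat_lit 0) (nat_lit 39988617619) (nat_lit 380) (nat_lit 1635689600) (nat_lit 76) (nat_lit 5103977146) (nat_lit 93) (nat_lit 5) (nat_lit 98) (nat_lit 5) (nat_lit 94) (nat_lit 5) (nat_lit 363) (nat_lit 314) (nat_lit 103)) (XT.nd (nat_lit 78) (nat_lit 0) (nat_lit 0) (XT.lf (nat_lit 0) (nat_lit 673757113) (nat_lit 380) (nat_lit 26005800284) (nat_lit 76) (nat_lit 20962546163) (nat_lit 88) (nat_lit 5) (nat_lit 93) (nat_lit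 5) (nat_lit 89) (nat_lit 5) (nat_lit 364) (nat_lit 314) (nat_lit 102)) (XT.lf (nat_lit 0) (nat_lit 8188951032) (nat_lit 380) (nat_lit 3012336483) (nat_lit 76) (nat_lit 37379604522) (nat_lit 88) (nat_lit 5) (nat_lit 93) (nat_lit 5) (nat_lit 89) (nat_lit 5) (nat_lit 365) (nat_lit 314) (nat_lit 101)))) (XT.nd (nat_lit 156) (nat_lit 304) (nat_lit 0) (XT.nd (nat_lit 78) (nat_lit 0) (nat_lit 0) (XT.lf (nat_lit 0) (nat_lit 16178009432) (nat_lit 380) (nat_lit 28509635600) (nat_lit 76) (nat_lit 4852748259) (nat_lit 84) (nat_lit 5) (nat_lit 89) (nat_lit 5) (nat_lit 85) (nat_lit 5) (nat_lit 366) (nat_lit 314) (nat_lit 100)) (XT.lf (nat_lit 0) (nat_lit 24546586015) (nat_lit 380) (nat_lit 4784612684) (nat_lit 76) (nat_lit 21193286833) (nat_lit 84) (nat_lit 5) (nat_lit 89) (nat_lit 5) (nat_lit 85) (nat_lit 5) (nat_lit 367) (nat_lit 314) (nat_lit 99))) (XT.nd (nat_lit 78) (nat_lit 0) (nat_lit 0) (XT.lf (nat_lit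 0) (nat_lit 20040767022) (nat_lit 304) (nat_lit 13316371479) (nat_lit 380) (nat_lit 18175235786) (nat_lit 80) (nat_lit 5) (nat_lit 84) (nat_lit 5) (nat_lit 85) (nat_lit 5) (nat_lit 368) (nat_lit 314) (nat_lit 98)) (XT.lf (nat_lit 0) (nat_lit 42509652895) (nat_lit 380) (nat_lit 6893580602) (nat_lit 76) (nat_lit 3164938113) (nat_lit 80) (nat_lit 5) (nat_lit 85) (nat_lit 5) (nat_lit 81) (nat_lit 5) (nat_lit 369) (nat_lit 314) (nat_lit 97))))) (XT.nd (nat_lit 234) (nat_lit 456) (nat_lit 0) (XT.nd (nat_lit 78) (nat_lit 380) (nat_lit 0) (XT.lf (nat_lit 0) (nat_lit 18672499178) (nat_lit 228) (nat_lit 33573924192) (nat_lit 304) (nat_lit 1379330292) (nat_lit 77) (nat_lit 5) (nat_lit 80) (nat_lit 5) (nat_lit 81) (nat_lit 5) (nat_lit 370) (nat_lit 314) (nat_lit 96)) (XT.nd (nat_lit 78) (nat_lit 304) (nat_lit 0) (XT.lf (nat_lit 0) (nat_lit 7481359146) (nat_lit 304) (nat_lit 9641885112) (nat_lit 76) (nat_lit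 37587580286) (nat_lit 76) (nat_lit 5) (nat_lit 80) (nat_lit 5) (nat_lit 77) (nat_lit 5) (nat_lit 371) (nat_lit 314) (nat_lit 95)) (XT.lf (nat_lit 0) (nat_lit 16739456063) (nat_lit 380) (nat_lit 39083793862) (nat_lit 76) (nat_lit 9751) (nat_lit 72) (nat_lit 5) (nat_lit 77) (nat_lit 5) (nat_lit 73) (nat_lit 5) (nat_lit 372) (nat_lit 314) (nat_lit 94)))) (XT.nd (nat_lit 156) (nat_lit 228) (nat_lit 0) (XT.nd (nat_lit 78) (nat_lit 228) (nat_lit 0) (XT.lf (nat_lit 0) (nat_lit 26541577998) (nat_lit 380) (nat_lit 13029109625) (nat_lit 76) (nat_lit 17390392866) (nat_lit 72) (nat_lit 5) (nat_lit 77) (nat_lit 5) (nat_lit 73) (nat_lit 5) (nat_lit 373) (nat_lit 314) (nat_lit 93)) (XT.lf (nat_lit 0) (nat_lit 14079660932) (nat_lit 228) (nat_lit 22691907987) (nat_lit 304) (nat_lit 21357453910) (nat_lit 69) (nat_lit 5) (nat_lit 72) (nat_lit 5) (nat_lit 73) (nat_lit 5) (nat_lit 374) (nat_lit 314) (nat_lit 92)))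 (XT.nd (nat_lit 78) (nat_lit 228) (nat_lit 0) (XT.lf (nat_lit 0) (nat_lit 42266502019) (nat_lit 228) (nat_lit 5172011905) (nat_lit 304) (nat_lit 11889588913) (nat_lit 69) (nat_lit 5) (nat_lit 72) (nat_lit 5) (nat_lit 73) (nat_lit 5) (nat_lit 375) (nat_lit 314) (nat_lit 91)) (XT.lf (nat_lit 0) (nat_lit 10820952843) (nat_lit 228) (nat_lit 47830802711) (nat_lit 304) (nat_lit 1904612042) (nat_lit 66) (nat_lit 5) (nat_lit 69) (nat_lit 5) (nat_lit 70) (nat_lit 5) (nat_lit 376) (nat_lit 314) (nat_lit 90))))))) (XT.nd (nat_lit 1092) (nat_lit 380) (nat_lit 0) (XT.nd (nat_lit 546) (nat_lit 684) (nat_lit 0) (XT.nd (nat_lit 234) (nat_lit 456) (nat_lit 0) (XT.nd (nat_lit 78) (nat_lit 228) (nat_lit 0) (XT.lf (nat_lit 0) (nat_lit 8440123549) (nat_lit 304) (nat_lit 22062305572) (nat_lit 76) (nat_lit 31309923582) (nat_lit 65) (nat_lit 5) (nat_lit 69) (nat_lit 5) (nat_lit 66) (nat_lit 5) (nat_lit 377) (nat_lit 314)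 (nat_lit 89)) (XT.nd (nat_lit 78) (nat_lit 0) (nat_lit 0) (XT.lf (nat_lit 0) (nat_lit 6547718215) (nat_lit 228) (nat_lit 12570714833) (nat_lit 304) (nat_lit 43985174123) (nat_lit 62) (nat_lit 5) (nat_lit 65) (nat_lit 5) (nat_lit 66) (nat_lit 5) (nat_lit 378) (nat_lit 314) (nat_lit 88)) (XT.lf (nat_lit 0) (nat_lit 30397373385) (nat_lit 304) (nat_lit 28019732465) (nat_lit 76) (nat_lit 6008085864) (nat_lit 62) (nat_lit 5) (nat_lit 66) (nat_lit 5) (nat_lit 63) (nat_lit 5) (nat_lit 379) (nat_lit 314) (nat_lit 87)))) (XT.nd (nat_lit 156) (nat_lit 228) (nat_lit 0) (XT.nd (nat_lit 78) (nat_lit 0) (nat_lit 0) (XT.lf (nat_lit 0) (nat_lit 1270701387) (nat_lit 228) (nat_lit 40879284429) (nat_lit 304) (nat_lit 23632379724) (nat_lit 59) (nat_lit 5) (nat_lit 62) (nat_lit 5) (nat_lit 63) (nat_lit 5) (nat_lit 380) (nat_lit 314) (nat_lit 86)) (XT.lf (nat_lit 0) (nat_lit 32012105515) (nat_lit 228) (nat_lit 22524661688)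 (nat_lit 304) (nat_lit 12635040496) (nat_lit 59) (nat_lit 5) (nat_lit 62) (nat_lit 5) (nat_lit 63) (nat_lit 5) (nat_lit 381) (nat_lit 314) (nat_lit 85))) (XT.nd (nat_lit 78) (nat_lit 228) (nat_lit 0) (XT.lf (nat_lit 0) (nat_lit 63673693725) (nat_lit 228) (nat_lit 3620143964) (nat_lit 304) (nat_lit 1309135678) (nat_lit 59) (nat_lit 5) (nat_lit 62) (nat_lit 5) (nat_lit 63) (nat_lit 5) (nat_lit 382) (nat_lit 314) (nat_lit 84)) (XT.lf (nat_lit 0) (nat_lit 10564996287) (nat_lit 228) (nat_lit 43596287926) (nat_lit 76) (nat_lit 15900487646) (nat_lit 56) (nat_lit 5) (nat_lit 59) (nat_lit 5) (nat_lit 57) (nat_lit 5) (nat_lit 383) (nat_lit 314) (nat_lit 83))))) (XT.nd (nat_lit 234) (nat_lit 456) (nat_lit 0) (XT.nd (nat_lit 78) (nat_lit 228) (nat_lit 0) (XT.lf (nat_lit 0) (nat_lit 22853873549) (nat_lit 228) (nat_lit 12711039298) (nat_lit 76) (nat_lit 35996488342) (nat_lit 56) (nat_lit 5) (nat_lit 59) (nat_lit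 5) (nat_lit 57) (nat_lit 5) (nat_lit 384) (nat_lit 314) (nat_lit 82)) (XT.nd (nat_lit 78) (nat_lit 0) (nat_lit 0) (XT.lf (nat_lit 0) (nat_lit 19478892956) (nat_lit 228) (nat_lit 16218526205) (nat_lit 304) (nat_lit 37403020899) (nat_lit 53) (nat_lit 5) (nat_lit 56) (nat_lit 5) (nat_lit 57) (nat_lit 5) (nat_lit 385) (nat_lit 314) (nat_lit 81)) (XT.lf (nat_lit 0) (nat_lit 49090313826) (nat_lit 304) (nat_lit 21825617384) (nat_lit 76) (nat_lit 3764798307) (nat_lit 53) (nat_lit 5) (nat_lit 57) (nat_lit 5) (nat_lit 54) (nat_lit 5) (nat_lit 386) (nat_lit 314) (nat_lit 80)))) (XT.nd (nat_lit 156) (nat_lit 304) (nat_lit 0) (XT.nd (nat_lit 78) (nat_lit 0) (nat_lit 0) (XT.lf (nat_lit 0) (nat_lit 10975859048) (nat_lit 152) (nat_lit 52174027534) (nat_lit 228) (nat_lit 13150595018) (nat_lit 51) (nat_lit 5) (nat_lit 53) (nat_lit 5) (nat_lit 54) (nat_lit 5) (nat_lit 387) (nat_lit 314) (nat_lit 79)) (XT.lf (nat_lit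 0) (nat_lit 45206872200) (nat_lit 152) (nat_lit 32643591803) (nat_lit 228) (nat_lit 111786378) (nat_lit 51) (nat_lit 5) (nat_lit 53) (nat_lit 5) (nat_lit 54) (nat_lit 5) (nat_lit 388) (nat_lit 314) (nat_lit 78))) (XT.nd (nat_lit 78) (nat_lit 0) (nat_lit 0) (XT.lf (nat_lit 0) (nat_lit 674197695) (nat_lit 228) (nat_lit 12389427746) (nat_lit 304) (nat_lit 66606246991) (nat_lit 47) (nat_lit 5) (nat_lit 50) (nat_lit 5) (nat_lit 51) (nat_lit 5) (nat_lit 389) (nat_lit 314) (nat_lit 77)) (XT.lf (nat_lit 0) (nat_lit 27046387103) (nat_lit 304) (nat_lit 45728398175) (nat_lit 76) (nat_lit 8641475239) (nat_lit 47) (nat_lit 5) (nat_lit 51) (nat_lit 5) (nat_lit 48) (nat_lit 5) (nat_lit 390) (nat_lit 314) (nat_lit 76)))))) (XT.nd (nat_lit 34788) (nat_lit 0) (nat_lit 11628) (XT.nd (nat_lit 234) (nat_lit 228) (nat_lit 0) (XT.nd (nat_lit 78) (nat_lit 152) (nat_lit 0) (XT.lf (nat_lit 0) (nat_lit 41570185398) (nat_lit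 304) (nat_lit 11587604660) (nat_lit 76) (nat_lit 30053604158) (nat_lit 47) (nat_lit 5) (nat_lit 51) (nat_lit 5) (nat_lit 48) (nat_lit 5) (nat_lit 391) (nat_lit 314) (nat_lit 75)) (XT.nd (nat_lit 78) (nat_lit 0) (nat_lit 0) (XT.lf (nat_lit 0) (nat_lit 24044833637) (nat_lit 152) (nat_lit 32714916279) (nat_lit 228) (nat_lit 28293731013) (nat_lit 45) (nat_lit 5) (nat_lit 47) (nat_lit 5) (nat_lit 48) (nat_lit 5) (nat_lit 392) (nat_lit 314) (nat_lit 74)) (XT.lf (nat_lit 0) (nat_lit 60982016739) (nat_lit 152) (nat_lit 11538929891) (nat_lit 228) (nat_lit 14426405808) (nat_lit 45) (nat_lit 5) (nat_lit 47) (nat_lit 5) (nat_lit 48) (nat_lit 5) (nat_lit 393) (nat_lit 314) (nat_lit 73)))) (XT.nd (nat_lit 156) (nat_lit 0) (nat_lit 0) (XT.nd (nat_lit 78) (nat_lit 0) (nat_lit 0) (XT.lf (nat_lit 0) (nat_lit 57694327) (nat_lit 228) (nat_lit 78664338273) (nat_lit 76) (nat_lit 10170110365) (nat_lit 42) (nat_lit 5)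 (nat_lit 45) (nat_lit 5) (nat_lit 43) (nat_lit 5) (nat_lit 394) (nat_lit 314) (nat_lit 72)) (XT.lf (nat_lit 0) (nat_lit 15064363716) (nat_lit 228) (nat_lit 43109827383) (nat_lit 76) (nat_lit 32705461461) (nat_lit 42) (nat_lit 5) (nat_lit 45) (nat_lit 5) (nat_lit 43) (nat_lit 5) (nat_lit 395) (nat_lit 314) (nat_lit 71))) (XT.nd (nat_lit 34320) (nat_lit 0) (nat_lit 11628) (XT.lf (nat_lit 0) (nat_lit 30520224336) (nat_lit 228) (nat_lit 6490371271) (nat_lit 76) (nat_lit 55916222593) (nat_lit 42) (nat_lit 5) (nat_lit 45) (nat_lit 5) (nat_lit 43) (nat_lit 5) (nat_lit 396) (nat_lit 314) (nat_lit 70)) (XT.lf (nat_lit 0) (nat_lit 2194673615) (nat_lit 0) (nat_lit 2194673615) (nat_lit 1140) (nat_lit 6051351773) (nat_lit 195) (nat_lit 5) (nat_lit 195) (nat_lit 3) (nat_lit 210) (nat_lit 3) (nat_lit 315) (nat_lit 315) (nat_lit 150))))) (XT.nd (nat_lit 234) (nat_lit 0) (nat_lit 76) (XT.nd (nat_lit 78) (nat_lit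 0) (nat_lit 0) (XT.lf (nat_lit 0) (nat_lit 9104078819) (nat_lit 1140) (nat_lit 7068679931) (nat_lit 1216) (nat_lit 5015879320) (nat_lit 195) (nat_lit 5) (nat_lit 210) (nat_lit 3) (nat_lit 211) (nat_lit 5) (nat_lit 316) (nat_lit 315) (nat_lit 149)) (XT.nd (nat_lit 78) (nat_lit 0) (nat_lit 76) (XT.lf (nat_lit 76) (nat_lit 2642474116) (nat_lit 0) (nat_lit 6859997113) (nat_lit 1216) (nat_lit 12000733336) (nat_lit 196) (nat_lit 5) (nat_lit 195) (nat_lit 5) (nat_lit 211) (nat_lit 5) (nat_lit 317) (nat_lit 315) (nat_lit 148)) (XT.lf (nat_lit 0) (nat_lit 10005710196) (nat_lit 1140) (nat_lit 9065360942) (nat_lit 1216) (nat_lit 2753356508) (nat_lit 196) (nat_lit 5) (nat_lit 211) (nat_lit 5) (nat_lit 212) (nat_lit 5) (nat_lit 318) (nat_lit 315) (nat_lit 147)))) (XT.nd (nat_lit 156) (nat_lit 0) (nat_lit 76) (XT.nd (nat_lit 78) (nat_lit 0) (nat_lit 76) (XT.lf (nat_lit 76) (nat_lit 971817130) (nat_lit 0) (nat_lit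 9624195714) (nat_lit 1216) (nat_lit 11557121825) (nat_lit 197) (nat_lit 5) (nat_lit 196) (nat_lit 5) (nat_lit 212) (nat_lit 5) (nat_lit 319) (nat_lit 315) (nat_lit 146)) (XT.lf (nat_lit 0) (nat_lit 11292342149) (nat_lit 1140) (nat_lit 10998187707) (nat_lit 1216) (nat_lit 198529584) (nat_lit 197) (nat_lit 5) (nat_lit 212) (nat_lit 5) (nat_lit 213) (nat_lit 5) (nat_lit 320) (nat_lit 315) (nat_lit 145))) (XT.nd (nat_lit 78) (nat_lit 0) (nat_lit 0) (XT.lf (nat_lit 0) (nat_lit 12099849510) (nat_lit 1140) (nat_lit 608004993) (nat_lit 1216) (nat_lit 10124504695) (nat_lit 197) (nat_lit 5) (nat_lit 212) (nat_lit 5) (nat_lit 213) (nat_lit 5) (nat_lit 321) (nat_lit 315) (nat_lit 144)) (XT.lf (nat_lit 76) (nat_lit 10291650223) (nat_lit 0) (nat_lit 2734006271) (nat_lit 1216) (nat_lit 10157484936) (nat_lit 198) (nat_lit 5) (nat_lit 197) (nat_lit 5) (nat_lit 213) (nat_lit 5) (nat_lit 322) (nat_lit 315) (nat_lit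 143))))))))
noncomputable def xc220 : XT := (XT.nd (nat_lit 2106) (nat_lit 4788) (nat_lit 0) (XT.nd (nat_lit 1014) (nat_lit 3648) (nat_lit 0) (XT.nd (nat_lit 468) (nat_lit 1596) (nat_lit 0) (XT.nd (nat_lit 234) (nat_lit 0) (nat_lit 76) (XT.nd (nat_lit 78) (nat_lit 0) (nat_lit 0) (XT.lf (nat_lit 0) (nat_lit 14053181687) (nat_lit 1140) (nat_lit 2089229603) (nat_lit 1216) (nat_lit 7399823070) (nat_lit 198) (nat_lit 5) (nat_lit 213) (nat_lit 5) (nat_lit 214) (nat_lit 5) (nat_lit 323) (nat_lit 315) (nat_lit 142)) (XT.nd (nat_lit 78) (nat_lit 0) (nat_lit 76) (XT.lf (nat_lit 76) (nat_lit 9186184627) (nat_lit 0) (nat_lit 6036131785) (nat_lit 1216) (nat_lit 8686465540) (nat_lit 199) (nat_lit 5) (nat_lit 198) (nat_lit 5) (nat_lit 214) (nat_lit 5) (nat_lit 324) (nat_lit 315) (nat_lit 141)) (XT.lf (nat_lit 0) (nat_lit 16485399273) (nat_lit 1140) (nat_lit 3488477037) (nat_lit 1216) (nat_lit 4310688670) (nat_lit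 199) (nat_lit 5) (nat_lit 214) (nat_lit 5) (nat_lit 215) (nat_lit 5) (nat_lit 325) (nat_lit 315) (nat_lit 140)))) (XT.nd (nat_lit 78) (nat_lit 0) (nat_lit 76) (XT.lf (nat_lit 76) (nat_lit 8179381937) (nat_lit 0) (nat_lit 9741040718) (nat_lit 1216) (nat_lit 6747182480) (nat_lit 200) (nat_lit 5) (nat_lit 199) (nat_lit 5) (nat_lit 215) (nat_lit 5) (nat_lit 326) (nat_lit 315) (nat_lit 139)) (XT.nd (nat_lit 78) (nat_lit 0) (nat_lit 0) (XT.lf (nat_lit 0) (nat_lit 19437517429) (nat_lit 1140) (nat_lit 4803562807) (nat_lit 1216) (nat_lit 819890570) (nat_lit 200) (nat_lit 5) (nat_lit 215) (nat_lit 5) (nat_lit 216) (nat_lit 5) (nat_lit 327) (nat_lit 315) (nat_lit 138)) (XT.lf (nat_lit 76) (nat_lit 7273984531) (nat_lit 0) (nat_lit 13888398520) (nat_lit 1216) (nat_lit 4298891443) (nat_lit 201) (nat_lit 5) (nat_lit 200) (nat_lit 5) (nat_lit 216) (nat_lit 5) (nat_lit 328) (nat_lit 315) (nat_lit 137))))) (XT.nd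 (nat_lit 234) (nat_lit 608) (nat_lit 0) (XT.nd (nat_lit 78) (nat_lit 1140) (nat_lit 0) (XT.lf (nat_lit 76) (nat_lit 19809208930) (nat_lit 0) (nat_lit 3174272083) (nat_lit 1216) (nat_lit 2888776336) (nat_lit 201) (nat_lit 5) (nat_lit 200) (nat_lit 5) (nat_lit 216) (nat_lit 5) (nat_lit 329) (nat_lit 315) (nat_lit 136)) (XT.nd (nat_lit 78) (nat_lit 1216) (nat_lit 0) (XT.lf (nat_lit 76) (nat_lit 6472497792) (nat_lit 0) (nat_lit 18520604466) (nat_lit 1216) (nat_lit 1298455233) (nat_lit 202) (nat_lit 5) (nat_lit 201) (nat_lit 5) (nat_lit 217) (nat_lit 5) (nat_lit 330) (nat_lit 315) (nat_lit 135)) (XT.lf (nat_lit 0) (nat_lit 422355365) (nat_lit 1216) (nat_lit 7251708683) (nat_lit 1292) (nat_lit 19046596730) (nat_lit 185) (nat_lit 5) (nat_lit 201) (nat_lit 5) (nat_lit 202) (nat_lit 5) (nat_lit 331) (nat_lit 315) (nat_lit 134)))) (XT.nd (nat_lit 156) (nat_lit 684) (nat_lit 0) (XT.nd (nat_lit 78) (nat_lit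 0) (nat_lit 0) (XT.lf (nat_lit 0) (nat_lit 2254913425) (nat_lit 1216) (nat_lit 21405335568) (nat_lit 76) (nat_lit 3499419997) (nat_lit 186) (nat_lit 5) (nat_lit 202) (nat_lit 5) (nat_lit 187) (nat_lit 5) (nat_lit 332) (nat_lit 315) (nat_lit 133)) (XT.lf (nat_lit 0) (nat_lit 4288725931) (nat_lit 1216) (nat_lit 8390349156) (nat_lit 76) (nat_lit 14928388038) (nat_lit 186) (nat_lit 5) (nat_lit 202) (nat_lit 5) (nat_lit 187) (nat_lit 5) (nat_lit 333) (nat_lit 315) (nat_lit 132))) (XT.nd (nat_lit 78) (nat_lit 0) (nat_lit 0) (XT.lf (nat_lit 0) (nat_lit 5111725908) (nat_lit 684) (nat_lit 1317414236) (nat_lit 760) (nat_lit 21638187213) (nat_lit 177) (nat_lit 5) (nat_lit 186) (nat_lit 5) (nat_lit 187) (nat_lit 5) (nat_lit 334) (nat_lit 315) (nat_lit 131)) (XT.lf (nat_lit 0) (nat_lit 8815687541) (nat_lit 760) (nat_lit 9451445866) (nat_lit 76) (nat_lit 10268400266) (nat_lit 177) (nat_lit 5) (nat_lit 187) (nat_lit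 5) (nat_lit 178) (nat_lit 5) (nat_lit 335) (nat_lit 315) (nat_lit 130)))))) (XT.nd (nat_lit 546) (nat_lit 1520) (nat_lit 0) (XT.nd (nat_lit 234) (nat_lit 988) (nat_lit 0) (XT.nd (nat_lit 78) (nat_lit 532) (nat_lit 0) (XT.lf (nat_lit 0) (nat_lit 4530091491) (nat_lit 608) (nat_lit 6796958621) (nat_lit 684) (nat_lit 17689143171) (nat_lit 169) (nat_lit 5) (nat_lit 177) (nat_lit 5) (nat_lit 178) (nat_lit 5) (nat_lit 336) (nat_lit 315) (nat_lit 129)) (XT.nd (nat_lit 78) (nat_lit 532) (nat_lit 0) (XT.lf (nat_lit 0) (nat_lit 14055069155) (nat_lit 684) (nat_lit 10435935741) (nat_lit 76) (nat_lit 5016031882) (nat_lit 169) (nat_lit 5) (nat_lit 178) (nat_lit 5) (nat_lit 170) (nat_lit 5) (nat_lit 337) (nat_lit 315) (nat_lit 128)) (XT.lf (nat_lit 0) (nat_lit 4044277373) (nat_lit 532) (nat_lit 12923620196) (nat_lit 608) (nat_lit 13041622401) (nat_lit 162) (nat_lit 5) (nat_lit 169) (nat_lit 5) (nat_lit 170) (nat_lit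 5) (nat_lit 338) (nat_lit 315) (nat_lit 127)))) (XT.nd (nat_lit 156) (nat_lit 456) (nat_lit 0) (XT.nd (nat_lit 78) (nat_lit 532) (nat_lit 0) (XT.lf (nat_lit 0) (nat_lit 19169773807) (nat_lit 532) (nat_lit 900579634) (nat_lit 608) (nat_lit 10453660297) (nat_lit 162) (nat_lit 5) (nat_lit 169) (nat_lit 5) (nat_lit 170) (nat_lit 5) (nat_lit 339) (nat_lit 315) (nat_lit 126)) (XT.lf (nat_lit 0) (nat_lit 3652935399) (nat_lit 532) (nat_lit 19755397337) (nat_lit 608) (nat_lit 7641339350) (nat_lit 155) (nat_lit 5) (nat_lit 162) (nat_lit 5) (nat_lit 163) (nat_lit 5) (nat_lit 340) (nat_lit 315) (nat_lit 125))) (XT.nd (nat_lit 78) (nat_lit 456) (nat_lit 0) (XT.lf (nat_lit 0) (nat_lit 19330956392) (nat_lit 532) (nat_lit 7635991876) (nat_lit 608) (nat_lit 4620540175) (nat_lit 155) (nat_lit 5) (nat_lit 162) (nat_lit 5) (nat_lit 163) (nat_lit 5) (nat_lit 341) (nat_lit 315) (nat_lit 124)) (XT.lf (nat_lit 0) (nat_lit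 3353701333) (nat_lit 456) (nat_lit 27354549807) (nat_lit 532) (nat_lit 1430913359) (nat_lit 149) (nat_lit 5) (nat_lit 155) (nat_lit 5) (nat_lit 156) (nat_lit 5) (nat_lit 342) (nat_lit 315) (nat_lit 123))))) (XT.nd (nat_lit 234) (nat_lit 912) (nat_lit 0) (XT.nd (nat_lit 78) (nat_lit 532) (nat_lit 0) (XT.lf (nat_lit 0) (nat_lit 2015935769) (nat_lit 532) (nat_lit 13117902515) (nat_lit 76) (nat_lit 17567089091) (nat_lit 148) (nat_lit 5) (nat_lit 155) (nat_lit 5) (nat_lit 149) (nat_lit 5) (nat_lit 343) (nat_lit 315) (nat_lit 122)) (XT.nd (nat_lit 78) (nat_lit 0) (nat_lit 0) (XT.lf (nat_lit 0) (nat_lit 3062304815) (nat_lit 532) (nat_lit 2501769485) (nat_lit 608) (nat_lit 27714247308) (nat_lit 141) (nat_lit 5) (nat_lit 148) (nat_lit 5) (nat_lit 149) (nat_lit 5) (nat_lit 344) (nat_lit 315) (nat_lit 121)) (XT.lf (nat_lit 0) (nat_lit 9450713350) (nat_lit 608) (nat_lit 13977597358) (nat_lit 76) (nat_lit 10437768001)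 (nat_lit 141) (nat_lit 5) (nat_lit 149) (nat_lit 5) (nat_lit 142) (nat_lit 5) (nat_lit 345) (nat_lit 315) (nat_lit 120)))) (XT.nd (nat_lit 156) (nat_lit 456) (nat_lit 0) (XT.nd (nat_lit 78) (nat_lit 0) (nat_lit 0) (XT.lf (nat_lit 0) (nat_lit 2774408252) (nat_lit 456) (nat_lit 10728320760) (nat_lit 532) (nat_lit 20967278838) (nat_lit 135) (nat_lit 5) (nat_lit 141) (nat_lit 5) (nat_lit 142) (nat_lit 5) (nat_lit 346) (nat_lit 315) (nat_lit 119)) (XT.lf (nat_lit 0) (nat_lit 17838849155) (nat_lit 532) (nat_lit 14799316631) (nat_lit 76) (nat_lit 2449015331) (nat_lit 135) (nat_lit 5) (nat_lit 142) (nat_lit 5) (nat_lit 136) (nat_lit 5) (nat_lit 347) (nat_lit 315) (nat_lit 118))) (XT.nd (nat_lit 78) (nat_lit 0) (nat_lit 0) (XT.lf (nat_lit 0) (nat_lit 2544386446) (nat_lit 456) (nat_lit 19888806724) (nat_lit 532) (nat_lit 13285834704) (nat_lit 129) (nat_lit 5) (nat_lit 135) (nat_lit 5) (nat_lit 136) (nat_lit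 5) (nat_lit 348) (nat_lit 315) (nat_lit 117)) (XT.lf (nat_lit 0) (nat_lit 20708902981) (nat_lit 456) (nat_lit 6603416044) (nat_lit 532) (nat_lit 9053104886) (nat_lit 129) (nat_lit 5) (nat_lit 135) (nat_lit 5) (nat_lit 136) (nat_lit 5) (nat_lit 349) (nat_lit 315) (nat_lit 116))))))) (XT.nd (nat_lit 1092) (nat_lit 2052) (nat_lit 0) (XT.nd (nat_lit 546) (nat_lit 1064) (nat_lit 0) (XT.nd (nat_lit 234) (nat_lit 760) (nat_lit 0) (XT.nd (nat_lit 78) (nat_lit 532) (nat_lit 0) (XT.lf (nat_lit 0) (nat_lit 2362321137) (nat_lit 380) (nat_lit 30063844568) (nat_lit 456) (nat_lit 4602398070) (nat_lit 124) (nat_lit 5) (nat_lit 129) (nat_lit 5) (nat_lit 130) (nat_lit 5) (nat_lit 350) (nat_lit 315) (nat_lit 115)) (XT.nd (nat_lit 78) (nat_lit 456) (nat_lit 0) (XT.lf (nat_lit 0) (nat_lit 204824492) (nat_lit 456) (nat_lit 16533833157) (nat_lit 76) (nat_lit 20966268446) (nat_lit 123) (nat_lit 5) (nat_lit 129) (nat_lit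 5) (nat_lit 124) (nat_lit 5) (nat_lit 351) (nat_lit 315) (nat_lit 114)) (XT.lf (nat_lit 0) (nat_lit 2135863475) (nat_lit 456) (nat_lit 2946092024) (nat_lit 532) (nat_lit 33317713028) (nat_lit 117) (nat_lit 5) (nat_lit 123) (nat_lit 5) (nat_lit 124) (nat_lit 5) (nat_lit 352) (nat_lit 315) (nat_lit 113)))) (XT.nd (nat_lit 156) (nat_lit 380) (nat_lit 0) (XT.nd (nat_lit 78) (nat_lit 380) (nat_lit 0) (XT.lf (nat_lit 0) (nat_lit 10379954275) (nat_lit 532) (nat_lit 17518393750) (nat_lit 76) (nat_lit 11208670686) (nat_lit 117) (nat_lit 5) (nat_lit 124) (nat_lit 5) (nat_lit 118) (nat_lit 5) (nat_lit 353) (nat_lit 315) (nat_lit 112)) (XT.lf (nat_lit 0) (nat_lit 1792435899) (nat_lit 380) (nat_lit 14088624353) (nat_lit 456) (nat_lit 23953206161) (nat_lit 112) (nat_lit 5) (nat_lit 117) (nat_lit 5) (nat_lit 118) (nat_lit 5) (nat_lit 354) (nat_lit 315) (nat_lit 111))) (XT.nd (nat_lit 78) (nat_lit 380) (nat_lit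 0) (XT.lf (nat_lit 0) (nat_lit 21724955528) (nat_lit 456) (nat_lit 18542164455) (nat_lit 76) (nat_lit 310880852) (nat_lit 112) (nat_lit 5) (nat_lit 118) (nat_lit 5) (nat_lit 113) (nat_lit 5) (nat_lit 355) (nat_lit 315) (nat_lit 110)) (XT.lf (nat_lit 0) (nat_lit 1428162713) (nat_lit 380) (nat_lit 26467090410) (nat_lit 456) (nat_lit 13444263518) (nat_lit 107) (nat_lit 5) (nat_lit 112) (nat_lit 5) (nat_lit 113) (nat_lit 5) (nat_lit 356) (nat_lit 315) (nat_lit 109))))) (XT.nd (nat_lit 234) (nat_lit 684) (nat_lit 0) (XT.nd (nat_lit 78) (nat_lit 380) (nat_lit 0) (XT.lf (nat_lit 0) (nat_lit 22375016280) (nat_lit 380) (nat_lit 12060785033) (nat_lit 456) (nat_lit 7682524218) (nat_lit 107) (nat_lit 5) (nat_lit 112) (nat_lit 5) (nat_lit 113) (nat_lit 5) (nat_lit 357) (nat_lit 315) (nat_lit 108)) (XT.nd (nat_lit 78) (nat_lit 76) (nat_lit 0) (XT.lf (nat_lit 0) (nat_lit 1020326935) (nat_lit 304) (nat_lit 40186705896)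 (nat_lit 380) (nat_lit 1712433653) (nat_lit 103) (nat_lit 5) (nat_lit 107) (nat_lit 5) (nat_lit 108) (nat_lit 5) (nat_lit 358) (nat_lit 315) (nat_lit 107)) (XT.lf (nat_lit 0) (nat_lit 4668909245) (nat_lit 380) (nat_lit 21093781489) (nat_lit 76) (nat_lit 17971111366) (nat_lit 102) (nat_lit 5) (nat_lit 107) (nat_lit 5) (nat_lit 103) (nat_lit 5) (nat_lit 359) (nat_lit 315) (nat_lit 106)))) (XT.nd (nat_lit 156) (nat_lit 304) (nat_lit 0) (XT.nd (nat_lit 78) (nat_lit 0) (nat_lit 0) (XT.lf (nat_lit 0) (nat_lit 322478082) (nat_lit 380) (nat_lit 10885925504) (nat_lit 456) (nat_lit 33363623324) (nat_lit 97) (nat_lit 5) (nat_lit 102) (nat_lit 5) (nat_lit 103) (nat_lit 5) (nat_lit 360) (nat_lit 315) (nat_lit 105)) (XT.lf (nat_lit 0) (nat_lit 18199906190) (nat_lit 456) (nat_lit 22662767841) (nat_lit 76) (nat_lit 4565051335) (nat_lit 97) (nat_lit 5) (nat_lit 103) (nat_lit 5) (nat_lit 98) (nat_lit 5) (nat_lit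 361) (nat_lit 315) (nat_lit 104))) (XT.nd (nat_lit 78) (nat_lit 304) (nat_lit 0) (XT.lf (nat_lit 0) (nat_lit 25507048029) (nat_lit 456) (nat_lit 538713732) (nat_lit 76) (nat_lit 20260157745) (nat_lit 97) (nat_lit 5) (nat_lit 103) (nat_lit 5) (nat_lit 98) (nat_lit 5) (nat_lit 362) (nat_lit 315) (nat_lit 103)) (XT.lf (nat_lit 0) (nat_lit 22689338080) (nat_lit 304) (nat_lit 10560337528) (nat_lit 380) (nat_lit 13954297231) (nat_lit 93) (nat_lit 5) (nat_lit 97) (nat_lit 5) (nat_lit 98) (nat_lit 5) (nat_lit 363) (nat_lit 315) (nat_lit 102)))))) (XT.nd (nat_lit 546) (nat_lit 1064) (nat_lit 0) (XT.nd (nat_lit 234) (nat_lit 608) (nat_lit 0) (XT.nd (nat_lit 78) (nat_lit 380) (nat_lit 0) (XT.lf (nat_lit 0) (nat_lit 41280075710) (nat_lit 380) (nat_lit 1557892173) (nat_lit 76) (nat_lit 5289336546) (nat_lit 93) (nat_lit 5) (nat_lit 98) (nat_lit 5) (nat_lit 94) (nat_lit 5) (nat_lit 364) (nat_lit 315) (nat_lit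 101)) (XT.nd (nat_lit 78) (nat_lit 0) (nat_lit 0) (XT.lf (nat_lit 0) (nat_lit 785268483) (nat_lit 380) (nat_lit 26658462755) (nat_lit 76) (nat_lit 21624826265) (nat_lit 88) (nat_lit 5) (nat_lit 93) (nat_lit 5) (nat_lit 89) (nat_lit 5) (nat_lit 365) (nat_lit 315) (nat_lit 100)) (XT.lf (nat_lit 0) (nat_lit 8523259035) (nat_lit 380) (nat_lit 2978908968) (nat_lit 76) (nat_lit 38533423450) (nat_lit 88) (nat_lit 5) (nat_lit 93) (nat_lit 5) (nat_lit 89) (nat_lit 5) (nat_lit 366) (nat_lit 315) (nat_lit 99)))) (XT.nd (nat_lit 156) (nat_lit 304) (nat_lit 0) (XT.nd (nat_lit 78) (nat_lit 0) (nat_lit 0) (XT.lf (nat_lit 0) (nat_lit 16750925591) (nat_lit 380) (nat_lit 29239997287) (nat_lit 76) (nat_lit 5032988760) (nat_lit 84) (nat_lit 5) (nat_lit 89) (nat_lit 5) (nat_lit 85) (nat_lit 5) (nat_lit 367) (nat_lit 315) (nat_lit 98)) (XT.lf (nat_lit 0) (nat_lit 25368008719) (nat_lit 380) (nat_lit 4806862346) (nat_lit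 76) (nat_lit 21862734033) (nat_lit 84) (nat_lit 5) (nat_lit 89) (nat_lit 5) (nat_lit 85) (nat_lit 5) (nat_lit 368) (nat_lit 315) (nat_lit 97))) (XT.nd (nat_lit 78) (nat_lit 0) (nat_lit 0) (XT.lf (nat_lit 0) (nat_lit 20762089647) (nat_lit 304) (nat_lit 13679466143) (nat_lit 380) (nat_lit 18634216255) (nat_lit 80) (nat_lit 5) (nat_lit 84) (nat_lit 5) (nat_lit 85) (nat_lit 5) (nat_lit 369) (nat_lit 315) (nat_lit 96)) (XT.lf (nat_lit 0) (nat_lit 43866547335) (nat_lit 380) (nat_lit 6981627613) (nat_lit 76) (nat_lit 3294533105) (nat_lit 80) (nat_lit 5) (nat_lit 85) (nat_lit 5) (nat_lit 81) (nat_lit 5) (nat_lit 370) (nat_lit 315) (nat_lit 95))))) (XT.nd (nat_lit 234) (nat_lit 456) (nat_lit 0) (XT.nd (nat_lit 78) (nat_lit 380) (nat_lit 0) (XT.lf (nat_lit 0) (nat_lit 19350270243) (nat_lit 228) (nat_lit 34543904247) (nat_lit 304) (nat_lit 1337882234) (nat_lit 77) (nat_lit 5) (nat_lit 80) (nat_lit 5) (nat_lit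 81) (nat_lit 5) (nat_lit 371) (nat_lit 315) (nat_lit 94)) (XT.nd (nat_lit 78) (nat_lit 304) (nat_lit 0) (XT.lf (nat_lit 0) (nat_lit 7784646226) (nat_lit 304) (nat_lit 9815346088) (nat_lit 76) (nat_lit 38749736156) (nat_lit 76) (nat_lit 5) (nat_lit 80) (nat_lit 5) (nat_lit 77) (nat_lit 5) (nat_lit 372) (nat_lit 315) (nat_lit 93)) (XT.lf (nat_lit 0) (nat_lit 17319647488) (nat_lit 380) (nat_lit 40139619731) (nat_lit 76) (nat_lit 36296208) (nat_lit 72) (nat_lit 5) (nat_lit 77) (nat_lit 5) (nat_lit 73) (nat_lit 5) (nat_lit 373) (nat_lit 315) (nat_lit 92)))) (XT.nd (nat_lit 156) (nat_lit 228) (nat_lit 0) (XT.nd (nat_lit 78) (nat_lit 228) (nat_lit 0) (XT.lf (nat_lit 0) (nat_lit 27413561012) (nat_lit 380) (nat_lit 13306693645) (nat_lit 76) (nat_lit 17947333938) (nat_lit 72) (nat_lit 5) (nat_lit 77) (nat_lit 5) (nat_lit 73) (nat_lit 5) (nat_lit 374) (nat_lit 315) (nat_lit 91)) (XT.lf (nat_lit 0) (nat_lit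 14614229350) (nat_lit 228) (nat_lit 23335094746) (nat_lit 304) (nat_lit 21921280457) (nat_lit 69) (nat_lit 5) (nat_lit 72) (nat_lit 5) (nat_lit 73) (nat_lit 5) (nat_lit 375) (nat_lit 315) (nat_lit 90))) (XT.nd (nat_lit 78) (nat_lit 228) (nat_lit 0) (XT.lf (nat_lit 0) (nat_lit 43643408332) (nat_lit 228) (nat_lit 5290696068) (nat_lit 304) (nat_lit 12171619230) (nat_lit 69) (nat_lit 5) (nat_lit 72) (nat_lit 5) (nat_lit 73) (nat_lit 5) (nat_lit 376) (nat_lit 315) (nat_lit 89)) (XT.lf (nat_lit 0) (nat_lit 11255278235) (nat_lit 228) (nat_lit 49227750176) (nat_lit 304) (nat_lit 1887830801) (nat_lit 66) (nat_lit 5) (nat_lit 69) (nat_lit 5) (nat_lit 70) (nat_lit 5) (nat_lit 377) (nat_lit 315) (nat_lit 88))))))))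
noncomputable def xc221 : XT := (XT.nd (nat_lit 36582) (nat_lit 0) (nat_lit 5700) (XT.nd (nat_lit 1092) (nat_lit 380) (nat_lit 0) (XT.nd (nat_lit 546) (nat_lit 684) (nat_lit 0) (XT.nd (nat_lit 234) (nat_lit 456) (nat_lit 0) (XT.nd (nat_lit 78) (nat_lit 228) (nat_lit 0) (XT.lf (nat_lit 0) (nat_lit 8763693435) (nat_lit 304) (nat_lit 22616227499) (nat_lit 76) (nat_lit 32284646303) (nat_lit 65) (nat_lit 5) (nat_lit 69) (nat_lit 5) (nat_lit 66) (nat_lit 5) (nat_lit 378) (nat_lit 315) (nat_lit 87)) (XT.nd (nat_lit 78) (nat_lit 0) (nat_lit 0) (XT.lf (nat_lit 0) (nat_lit 6851038695) (nat_lit 228) (nat_lit 12910291505) (nat_lit 304) (nat_lit 45233261112) (nat_lit 62) (nat_lit 5) (nat_lit 65) (nat_lit 5) (nat_lit 66) (nat_lit 5) (nat_lit 379) (nat_lit 315) (nat_lit 86)) (XT.lf (nat_lit 0) (nat_lit 31376969407) (nat_lit 304) (nat_lit 28754836958) (nat_lit 76) (nat_lit 6224068382) (nat_lit 62) (nat_lit 5)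 (nat_lit 66) (nat_lit 5) (nat_lit 63) (nat_lit 5) (nat_lit 380) (nat_lit 315) (nat_lit 85)))) (XT.nd (nat_lit 156) (nat_lit 228) (nat_lit 0) (XT.nd (nat_lit 78) (nat_lit 0) (nat_lit 0) (XT.lf (nat_lit 0) (nat_lit 1413275718) (nat_lit 228) (nat_lit 42067917449) (nat_lit 304) (nat_lit 24272600867) (nat_lit 59) (nat_lit 5) (nat_lit 62) (nat_lit 5) (nat_lit 63) (nat_lit 5) (nat_lit 381) (nat_lit 315) (nat_lit 84)) (XT.lf (nat_lit 0) (nat_lit 33073879642) (nat_lit 228) (nat_lit 23163755409) (nat_lit 304) (nat_lit 12947343897) (nat_lit 59) (nat_lit 5) (nat_lit 62) (nat_lit 5) (nat_lit 63) (nat_lit 5) (nat_lit 382) (nat_lit 315) (nat_lit 83))) (XT.nd (nat_lit 78) (nat_lit 228) (nat_lit 0) (XT.lf (nat_lit 0) (nat_lit 65682361781) (nat_lit 228) (nat_lit 3693169516) (nat_lit 304) (nat_lit 1283606045) (nat_lit 59) (nat_lit 5) (nat_lit 62) (nat_lit 5) (nat_lit 63) (nat_lit 5) (nat_lit 383) (nat_lit 315) (nat_lit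 82)) (XT.lf (nat_lit 0) (nat_lit 10944931652) (nat_lit 228) (nat_lit 44803826714) (nat_lit 76) (nat_lit 16412940446) (nat_lit 56) (nat_lit 5) (nat_lit 59) (nat_lit 5) (nat_lit 57) (nat_lit 5) (nat_lit 384) (nat_lit 315) (nat_lit 81))))) (XT.nd (nat_lit 234) (nat_lit 456) (nat_lit 0) (XT.nd (nat_lit 78) (nat_lit 228) (nat_lit 0) (XT.lf (nat_lit 0) (nat_lit 23600640703) (nat_lit 228) (nat_lit 12994943438) (nat_lit 76) (nat_lit 37110788982) (nat_lit 56) (nat_lit 5) (nat_lit 59) (nat_lit 5) (nat_lit 57) (nat_lit 5) (nat_lit 385) (nat_lit 315) (nat_lit 80)) (XT.nd (nat_lit 78) (nat_lit 0) (nat_lit 0) (XT.lf (nat_lit 0) (nat_lit 20159731616) (nat_lit 228) (nat_lit 16668907318) (nat_lit 304) (nat_lit 38462970874) (nat_lit 53) (nat_lit 5) (nat_lit 56) (nat_lit 5) (nat_lit 57) (nat_lit 5) (nat_lit 386) (nat_lit 315) (nat_lit 79)) (XT.lf (nat_lit 0) (nat_lit 50621901815) (nat_lit 304) (nat_lit 22385271739)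 (nat_lit 76) (nat_lit 3912177959) (nat_lit 53) (nat_lit 5) (nat_lit 57) (nat_lit 5) (nat_lit 54) (nat_lit 5) (nat_lit 387) (nat_lit 315) (nat_lit 78)))) (XT.nd (nat_lit 156) (nat_lit 304) (nat_lit 0) (XT.nd (nat_lit 78) (nat_lit 0) (nat_lit 0) (XT.lf (nat_lit 0) (nat_lit 11399316493) (nat_lit 152) (nat_lit 53703135683) (nat_lit 228) (nat_lit 13485269248) (nat_lit 51) (nat_lit 5) (nat_lit 53) (nat_lit 5) (nat_lit 54) (nat_lit 5) (nat_lit 388) (nat_lit 315) (nat_lit 77)) (XT.lf (nat_lit 0) (nat_lit 46654516885) (nat_lit 152) (nat_lit 33587838706) (nat_lit 228) (nat_lit 57039367) (nat_lit 51) (nat_lit 5) (nat_lit 53) (nat_lit 5) (nat_lit 54) (nat_lit 5) (nat_lit 389) (nat_lit 315) (nat_lit 76))) (XT.nd (nat_lit 78) (nat_lit 0) (nat_lit 0) (XT.lf (nat_lit 0) (nat_lit 786118710) (nat_lit 228) (nat_lit 12725604545) (nat_lit 304) (nat_lit 68546529887) (nat_lit 47) (nat_lit 5) (nat_lit 50) (nat_lit 5)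 (nat_lit 51) (nat_lit 5) (nat_lit 390) (nat_lit 315) (nat_lit 75)) (XT.lf (nat_lit 0) (nat_lit 27912662557) (nat_lit 304) (nat_lit 47009891634) (nat_lit 76) (nat_lit 8934518702) (nat_lit 47) (nat_lit 5) (nat_lit 51) (nat_lit 5) (nat_lit 48) (nat_lit 5) (nat_lit 391) (nat_lit 315) (nat_lit 74)))))) (XT.nd (nat_lit 34944) (nat_lit 0) (nat_lit 11704) (XT.nd (nat_lit 234) (nat_lit 228) (nat_lit 0) (XT.nd (nat_lit 78) (nat_lit 152) (nat_lit 0) (XT.lf (nat_lit 0) (nat_lit 42870576243) (nat_lit 304) (nat_lit 11847506114) (nat_lit 76) (nat_lit 30988027046) (nat_lit 47) (nat_lit 5) (nat_lit 51) (nat_lit 5) (nat_lit 48) (nat_lit 5) (nat_lit 392) (nat_lit 315) (nat_lit 73)) (XT.nd (nat_lit 78) (nat_lit 0) (nat_lit 0) (XT.lf (nat_lit 0) (nat_lit 24853045266) (nat_lit 152) (nat_lit 33662065447) (nat_lit 228) (nat_lit 29088370332) (nat_lit 45) (nat_lit 5) (nat_lit 47) (nat_lit 5) (nat_lit 48) (nat_lit 5) (nat_lit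 393) (nat_lit 315) (nat_lit 72)) (XT.lf (nat_lit 0) (nat_lit 62895813766) (nat_lit 152) (nat_lit 11851798447) (nat_lit 228) (nat_lit 14806603214) (nat_lit 45) (nat_lit 5) (nat_lit 47) (nat_lit 5) (nat_lit 48) (nat_lit 5) (nat_lit 394) (nat_lit 315) (nat_lit 71)))) (XT.nd (nat_lit 34554) (nat_lit 0) (nat_lit 11628) (XT.nd (nat_lit 34476) (nat_lit 0) (nat_lit 11628) (XT.lf (nat_lit 0) (nat_lit 110628056) (nat_lit 228) (nat_lit 80938489378) (nat_lit 76) (nat_lit 10508228783) (nat_lit 42) (nat_lit 5) (nat_lit 45) (nat_lit 5) (nat_lit 43) (nat_lit 5) (nat_lit 395) (nat_lit 315) (nat_lit 70)) (XT.lf (nat_lit 0) (nat_lit 2332083501) (nat_lit 0) (nat_lit 2332083501) (nat_lit 1140) (nat_lit 6085290633) (nat_lit 195) (nat_lit 5) (nat_lit 195) (nat_lit 3) (nat_lit 210) (nat_lit 3) (nat_lit 316) (nat_lit 316) (nat_lit 148))) (XT.nd (nat_lit 78) (nat_lit 0) (nat_lit 0) (XT.lf (nat_lit 0) (nat_lit 9653805814)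 (nat_lit 1140) (nat_lit 7131769480) (nat_lit 1216) (nat_lit 5030097261) (nat_lit 195) (nat_lit 5) (nat_lit 210) (nat_lit 3) (nat_lit 211) (nat_lit 5) (nat_lit 317) (nat_lit 316) (nat_lit 147)) (XT.lf (nat_lit 76) (nat_lit 2869258690) (nat_lit 0) (nat_lit 7188252822) (nat_lit 1216) (nat_lit 12082373199) (nat_lit 196) (nat_lit 5) (nat_lit 195) (nat_lit 5) (nat_lit 211) (nat_lit 5) (nat_lit 318) (nat_lit 316) (nat_lit 146))))) (XT.nd (nat_lit 234) (nat_lit 0) (nat_lit 76) (XT.nd (nat_lit 78) (nat_lit 0) (nat_lit 0) (XT.lf (nat_lit 0) (nat_lit 10566841720) (nat_lit 1140) (nat_lit 9184794137) (nat_lit 1216) (nat_lit 2719388037) (nat_lit 196) (nat_lit 5) (nat_lit 211) (nat_lit 5) (nat_lit 212) (nat_lit 5) (nat_lit 319) (nat_lit 316) (nat_lit 145)) (XT.nd (nat_lit 78) (nat_lit 0) (nat_lit 76) (XT.lf (nat_lit 76) (nat_lit 1152003908) (nat_lit 0) (nat_lit 10016700572) (nat_lit 1216) (nat_lit 11641081083)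 (nat_lit 197) (nat_lit 5) (nat_lit 196) (nat_lit 5) (nat_lit 212) (nat_lit 5) (nat_lit 320) (nat_lit 316) (nat_lit 144)) (XT.lf (nat_lit 0) (nat_lit 11877533446) (nat_lit 1140) (nat_lit 11172819747) (nat_lit 1216) (nat_lit 105695293) (nat_lit 197) (nat_lit 5) (nat_lit 212) (nat_lit 5) (nat_lit 213) (nat_lit 5) (nat_lit 321) (nat_lit 316) (nat_lit 143)))) (XT.nd (nat_lit 156) (nat_lit 0) (nat_lit 76) (XT.nd (nat_lit 78) (nat_lit 0) (nat_lit 0) (XT.lf (nat_lit 0) (nat_lit 12702088715) (nat_lit 1140) (nat_lit 475455249) (nat_lit 1216) (nat_lit 10332327040) (nat_lit 197) (nat_lit 5) (nat_lit 212) (nat_lit 5) (nat_lit 213) (nat_lit 5) (nat_lit 322) (nat_lit 316) (nat_lit 142)) (XT.lf (nat_lit 76) (nat_lit 10749711291) (nat_lit 0) (nat_lit 2900425629) (nat_lit 1216) (nat_lit 10221213977) (nat_lit 198) (nat_lit 5) (nat_lit 197) (nat_lit 5) (nat_lit 213) (nat_lit 5) (nat_lit 323) (nat_lit 316) (nat_lit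 141))) (XT.nd (nat_lit 78) (nat_lit 0) (nat_lit 0) (XT.lf (nat_lit 0) (nat_lit 14700893093) (nat_lit 1140) (nat_lit 1999083546) (nat_lit 1216) (nat_lit 7541475784) (nat_lit 198) (nat_lit 5) (nat_lit 213) (nat_lit 5) (nat_lit 214) (nat_lit 5) (nat_lit 324) (nat_lit 316) (nat_lit 140)) (XT.lf (nat_lit 76) (nat_lit 9613094846) (nat_lit 0) (nat_lit 6286875737) (nat_lit 1216) (nat_lit 8719187530) (nat_lit 199) (nat_lit 5) (nat_lit 198) (nat_lit 5) (nat_lit 214) (nat_lit 5) (nat_lit 325) (nat_lit 316) (nat_lit 139))))))) (XT.nd (nat_lit 1092) (nat_lit 3420) (nat_lit 0) (XT.nd (nat_lit 546) (nat_lit 1748) (nat_lit 0) (XT.nd (nat_lit 234) (nat_lit 1064) (nat_lit 0) (XT.nd (nat_lit 78) (nat_lit 0) (nat_lit 0) (XT.lf (nat_lit 0) (nat_lit 17193859372) (nat_lit 1140) (nat_lit 3438877375) (nat_lit 1216) (nat_lit 4373697989) (nat_lit 199) (nat_lit 5) (nat_lit 214) (nat_lit 5) (nat_lit 215) (nat_lit 5) (nat_lit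 326) (nat_lit 316) (nat_lit 138)) (XT.nd (nat_lit 78) (nat_lit 0) (nat_lit 76) (XT.lf (nat_lit 76) (nat_lit 8577505074) (nat_lit 0) (nat_lit 10089666586) (nat_lit 1216) (nat_lit 6733944580) (nat_lit 200) (nat_lit 5) (nat_lit 199) (nat_lit 5) (nat_lit 215) (nat_lit 5) (nat_lit 327) (nat_lit 316) (nat_lit 137)) (XT.lf (nat_lit 0) (nat_lit 20223161618) (nat_lit 1140) (nat_lit 4792523256) (nat_lit 1216) (nat_lit 790803613) (nat_lit 200) (nat_lit 5) (nat_lit 215) (nat_lit 5) (nat_lit 216) (nat_lit 5) (nat_lit 328) (nat_lit 316) (nat_lit 136)))) (XT.nd (nat_lit 156) (nat_lit 1140) (nat_lit 0) (XT.nd (nat_lit 78) (nat_lit 0) (nat_lit 0) (XT.lf (nat_lit 76) (nat_lit 7645829458) (nat_lit 0) (nat_lit 14349521889) (nat_lit 1216) (nat_lit 4223589464) (nat_lit 201) (nat_lit 5) (nat_lit 200) (nat_lit 5) (nat_lit 216) (nat_lit 5) (nat_lit 329) (nat_lit 316) (nat_lit 135)) (XT.lf (nat_lit 76) (nat_lit 20552636063)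 (nat_lit 0) (nat_lit 3312676375) (nat_lit 1216) (nat_lit 2777120478) (nat_lit 201) (nat_lit 5) (nat_lit 200) (nat_lit 5) (nat_lit 216) (nat_lit 5) (nat_lit 330) (nat_lit 316) (nat_lit 134))) (XT.nd (nat_lit 78) (nat_lit 1216) (nat_lit 0) (XT.lf (nat_lit 76) (nat_lit 6820705701) (nat_lit 0) (nat_lit 19109992575) (nat_lit 1216) (nat_lit 1143755984) (nat_lit 202) (nat_lit 5) (nat_lit 201) (nat_lit 5) (nat_lit 217) (nat_lit 5) (nat_lit 331) (nat_lit 316) (nat_lit 133)) (XT.lf (nat_lit 0) (nat_lit 619369754) (nat_lit 1216) (nat_lit 7315841090) (nat_lit 1292) (nat_lit 19581335971) (nat_lit 185) (nat_lit 5) (nat_lit 201) (nat_lit 5) (nat_lit 202) (nat_lit 5) (nat_lit 332) (nat_lit 316) (nat_lit 132))))) (XT.nd (nat_lit 234) (nat_lit 1140) (nat_lit 0) (XT.nd (nat_lit 78) (nat_lit 684) (nat_lit 0) (XT.lf (nat_lit 0) (nat_lit 2502721466) (nat_lit 1216) (nat_lit 21889696144) (nat_lit 76) (nat_lit 3576439082)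 (nat_lit 186) (nat_lit 5) (nat_lit 202) (nat_lit 5) (nat_lit 187) (nat_lit 5) (nat_lit 333) (nat_lit 316) (nat_lit 131)) (XT.nd (nat_lit 78) (nat_lit 684) (nat_lit 0) (XT.lf (nat_lit 0) (nat_lit 4592300950) (nat_lit 1216) (nat_lit 8488856241) (nat_lit 76) (nat_lit 15349090636) (nat_lit 186) (nat_lit 5) (nat_lit 202) (nat_lit 5) (nat_lit 187) (nat_lit 5) (nat_lit 334) (nat_lit 316) (nat_lit 130)) (XT.lf (nat_lit 0) (nat_lit 5416779081) (nat_lit 684) (nat_lit 1376512195) (nat_lit 760) (nat_lit 22110731386) (nat_lit 177) (nat_lit 5) (nat_lit 186) (nat_lit 5) (nat_lit 187) (nat_lit 5) (nat_lit 335) (nat_lit 316) (nat_lit 129)))) (XT.nd (nat_lit 156) (nat_lit 532) (nat_lit 0) (XT.nd (nat_lit 78) (nat_lit 608) (nat_lit 0) (XT.lf (nat_lit 0) (nat_lit 9246263755) (nat_lit 760) (nat_lit 9582354209) (nat_lit 76) (nat_lit 10557817767) (nat_lit 177) (nat_lit 5) (nat_lit 187) (nat_lit 5) (nat_lit 178) (nat_lit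 5) (nat_lit 336) (nat_lit 316) (nat_lit 128)) (XT.lf (nat_lit 0) (nat_lit 4817132847) (nat_lit 608) (nat_lit 7012449167) (nat_lit 684) (nat_lit 18052039937) (nat_lit 169) (nat_lit 5) (nat_lit 177) (nat_lit 5) (nat_lit 178) (nat_lit 5) (nat_lit 337) (nat_lit 316) (nat_lit 127))) (XT.nd (nat_lit 78) (nat_lit 532) (nat_lit 0) (XT.lf (nat_lit 0) (nat_lit 14634594109) (nat_lit 684) (nat_lit 10597259372) (nat_lit 76) (nat_lit 5155487806) (nat_lit 169) (nat_lit 5) (nat_lit 178) (nat_lit 5) (nat_lit 170) (nat_lit 5) (nat_lit 338) (nat_lit 316) (nat_lit 126)) (XT.lf (nat_lit 0) (nat_lit 4315872346) (nat_lit 532) (nat_lit 13315781246) (nat_lit 608) (nat_lit 13273344961) (nat_lit 162) (nat_lit 5) (nat_lit 169) (nat_lit 5) (nat_lit 170) (nat_lit 5) (nat_lit 339) (nat_lit 316) (nat_lit 125)))))) (XT.nd (nat_lit 546) (nat_lit 1824) (nat_lit 0) (XT.nd (nat_lit 234) (nat_lit 1064) (nat_lit 0) (XT.nd (nat_lit 78)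 (nat_lit 532) (nat_lit 0) (XT.lf (nat_lit 0) (nat_lit 19890756975) (nat_lit 532) (nat_lit 931919784) (nat_lit 608) (nat_lit 10612390385) (nat_lit 162) (nat_lit 5) (nat_lit 169) (nat_lit 5) (nat_lit 170) (nat_lit 5) (nat_lit 340) (nat_lit 316) (nat_lit 124)) (XT.nd (nat_lit 78) (nat_lit 0) (nat_lit 0) (XT.lf (nat_lit 0) (nat_lit 3911645518) (nat_lit 532) (nat_lit 20346167897) (nat_lit 608) (nat_lit 7718775967) (nat_lit 155) (nat_lit 5) (nat_lit 162) (nat_lit 5) (nat_lit 163) (nat_lit 5) (nat_lit 341) (nat_lit 316) (nat_lit 123)) (XT.lf (nat_lit 0) (nat_lit 20055663779) (nat_lit 532) (nat_lit 7863235361) (nat_lit 608) (nat_lit 4611774280) (nat_lit 155) (nat_lit 5) (nat_lit 162) (nat_lit 5) (nat_lit 163) (nat_lit 5) (nat_lit 342) (nat_lit 316) (nat_lit 122)))) (XT.nd (nat_lit 156) (nat_lit 532) (nat_lit 0) (XT.nd (nat_lit 78) (nat_lit 76) (nat_lit 0) (XT.lf (nat_lit 0) (nat_lit 3602050342) (nat_lit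 456) (nat_lit 28167664669) (nat_lit 532) (nat_lit 1329270938) (nat_lit 149) (nat_lit 5) (nat_lit 155) (nat_lit 5) (nat_lit 156) (nat_lit 5) (nat_lit 343) (nat_lit 316) (nat_lit 121)) (XT.lf (nat_lit 0) (nat_lit 2214033981) (nat_lit 532) (nat_lit 13365127202) (nat_lit 76) (nat_lit 18098526852) (nat_lit 148) (nat_lit 5) (nat_lit 155) (nat_lit 5) (nat_lit 149) (nat_lit 5) (nat_lit 344) (nat_lit 316) (nat_lit 120))) (XT.nd (nat_lit 78) (nat_lit 0) (nat_lit 0) (XT.lf (nat_lit 0) (nat_lit 3299051914) (nat_lit 532) (nat_lit 2566949057) (nat_lit 608) (nat_lit 28406485632) (nat_lit 141) (nat_lit 5) (nat_lit 148) (nat_lit 5) (nat_lit 149) (nat_lit 5) (nat_lit 345) (nat_lit 316) (nat_lit 119)) (XT.lf (nat_lit 0) (nat_lit 9865399170) (nat_lit 608) (nat_lit 14252296446) (nat_lit 76) (nat_lit 10760299919) (nat_lit 141) (nat_lit 5) (nat_lit 149) (nat_lit 5) (nat_lit 142) (nat_lit 5) (nat_lit 346) (nat_lit 316)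 (nat_lit 118))))) (XT.nd (nat_lit 234) (nat_lit 912) (nat_lit 0) (XT.nd (nat_lit 78) (nat_lit 456) (nat_lit 0) (XT.lf (nat_lit 0) (nat_lit 3000851403) (nat_lit 456) (nat_lit 11035680207) (nat_lit 532) (nat_lit 21463588055) (nat_lit 135) (nat_lit 5) (nat_lit 141) (nat_lit 5) (nat_lit 142) (nat_lit 5) (nat_lit 347) (nat_lit 316) (nat_lit 117)) (XT.nd (nat_lit 78) (nat_lit 456) (nat_lit 0) (XT.lf (nat_lit 0) (nat_lit 18499121441) (nat_lit 532) (nat_lit 15100519397) (nat_lit 76) (nat_lit 2536279403) (nat_lit 135) (nat_lit 5) (nat_lit 142) (nat_lit 5) (nat_lit 136) (nat_lit 5) (nat_lit 348) (nat_lit 316) (nat_lit 116)) (XT.lf (nat_lit 0) (nat_lit 2762095000) (nat_lit 456) (nat_lit 20466915890) (nat_lit 532) (nat_lit 13557783642) (nat_lit 129) (nat_lit 5) (nat_lit 135) (nat_lit 5) (nat_lit 136) (nat_lit 5) (nat_lit 349) (nat_lit 316) (nat_lit 115)))) (XT.nd (nat_lit 156) (nat_lit 532) (nat_lit 0) (XT.nd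 (nat_lit 78) (nat_lit 380) (nat_lit 0) (XT.lf (nat_lit 0) (nat_lit 21467429257) (nat_lit 456) (nat_lit 6783503928) (nat_lit 532) (nat_lit 9201760069) (nat_lit 129) (nat_lit 5) (nat_lit 135) (nat_lit 5) (nat_lit 136) (nat_lit 5) (nat_lit 350) (nat_lit 316) (nat_lit 114)) (XT.lf (nat_lit 0) (nat_lit 2572589976) (nat_lit 380) (nat_lit 30943640259) (nat_lit 456) (nat_lit 4619559407) (nat_lit 124) (nat_lit 5) (nat_lit 129) (nat_lit 5) (nat_lit 130) (nat_lit 5) (nat_lit 351) (nat_lit 316) (nat_lit 113))) (XT.nd (nat_lit 78) (nat_lit 456) (nat_lit 0) (XT.lf (nat_lit 0) (nat_lit 326067483) (nat_lit 456) (nat_lit 16892112245) (nat_lit 76) (nat_lit 21614335011) (nat_lit 123) (nat_lit 5) (nat_lit 129) (nat_lit 5) (nat_lit 124) (nat_lit 5) (nat_lit 352) (nat_lit 316) (nat_lit 112)) (XT.lf (nat_lit 0) (nat_lit 2336324935) (nat_lit 456) (nat_lit 3011146130) (nat_lit 532) (nat_lit 34200692713) (nat_lit 117) (nat_lit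 5) (nat_lit 123) (nat_lit 5) (nat_lit 124) (nat_lit 5) (nat_lit 353) (nat_lit 316) (nat_lit 111))))))))
noncomputable def xc222 : XT := (XT.nd (nat_lit 2184) (nat_lit 1292) (nat_lit 0) (XT.nd (nat_lit 1092) (nat_lit 1976) (nat_lit 0) (XT.nd (nat_lit 546) (nat_lit 1064) (nat_lit 0) (XT.nd (nat_lit 234) (nat_lit 760) (nat_lit 0) (XT.nd (nat_lit 78) (nat_lit 380) (nat_lit 0) (XT.lf (nat_lit 0) (nat_lit 10801334602) (nat_lit 532) (nat_lit 17908357105) (nat_lit 76) (nat_lit 11567138018) (nat_lit 117) (nat_lit 5) (nat_lit 124) (nat_lit 5) (nat_lit 118) (nat_lit 5) (nat_lit 354) (nat_lit 316) (nat_lit 110)) (XT.nd (nat_lit 78) (nat_lit 0) (nat_lit 0) (XT.lf (nat_lit 0) (nat_lit 1980468135) (nat_lit 380) (nat_lit 14485092854) (nat_lit 456) (nat_lit 24560394167) (nat_lit 112) (nat_lit 5) (nat_lit 117) (nat_lit 5) (nat_lit 118) (nat_lit 5) (nat_lit 355) (nat_lit 316) (nat_lit 109)) (XT.lf (nat_lit 0) (nat_lit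 22481869909) (nat_lit 456) (nat_lit 18965083125) (nat_lit 76) (nat_lit 345138505) (nat_lit 112) (nat_lit 5) (nat_lit 118) (nat_lit 5) (nat_lit 113) (nat_lit 5) (nat_lit 356) (nat_lit 316) (nat_lit 108)))) (XT.nd (nat_lit 156) (nat_lit 380) (nat_lit 0) (XT.nd (nat_lit 78) (nat_lit 0) (nat_lit 0) (XT.lf (nat_lit 0) (nat_lit 1603046542) (nat_lit 380) (nat_lit 27232436050) (nat_lit 456) (nat_lit 13741026791) (nat_lit 107) (nat_lit 5) (nat_lit 112) (nat_lit 5) (nat_lit 113) (nat_lit 5) (nat_lit 357) (nat_lit 316) (nat_lit 107)) (XT.lf (nat_lit 0) (nat_lit 23174459921) (nat_lit 380) (nat_lit 12394776474) (nat_lit 456) (nat_lit 7809539136) (nat_lit 107) (nat_lit 5) (nat_lit 112) (nat_lit 5) (nat_lit 113) (nat_lit 5) (nat_lit 358) (nat_lit 316) (nat_lit 106))) (XT.nd (nat_lit 78) (nat_lit 76) (nat_lit 0) (XT.lf (nat_lit 0) (nat_lit 1180677560) (nat_lit 304) (nat_lit 41361511058) (nat_lit 380) (nat_lit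 1661807174) (nat_lit 103) (nat_lit 5) (nat_lit 107) (nat_lit 5) (nat_lit 108) (nat_lit 5) (nat_lit 359) (nat_lit 316) (nat_lit 105)) (XT.lf (nat_lit 0) (nat_lit 4906072747) (nat_lit 380) (nat_lit 21598619183) (nat_lit 76) (nat_lit 18538129959) (nat_lit 102) (nat_lit 5) (nat_lit 107) (nat_lit 5) (nat_lit 103) (nat_lit 5) (nat_lit 360) (nat_lit 316) (nat_lit 104))))) (XT.nd (nat_lit 234) (nat_lit 684) (nat_lit 0) (XT.nd (nat_lit 78) (nat_lit 0) (nat_lit 0) (XT.lf (nat_lit 0) (nat_lit 458873510) (nat_lit 380) (nat_lit 11181268484) (nat_lit 456) (nat_lit 34266102118) (nat_lit 97) (nat_lit 5) (nat_lit 102) (nat_lit 5) (nat_lit 103) (nat_lit 5) (nat_lit 361) (nat_lit 316) (nat_lit 103)) (XT.nd (nat_lit 78) (nat_lit 0) (nat_lit 0) (XT.lf (nat_lit 0) (nat_lit 18838900024) (nat_lit 456) (nat_lit 23217054329) (nat_lit 76) (nat_lit 4731736159) (nat_lit 97) (nat_lit 5) (nat_lit 103) (nat_lit 5) (nat_lit 98)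 (nat_lit 5) (nat_lit 362) (nat_lit 316) (nat_lit 102)) (XT.lf (nat_lit 0) (nat_lit 26362547478) (nat_lit 456) (nat_lit 432936748) (nat_lit 76) (nat_lit 20896829744) (nat_lit 97) (nat_lit 5) (nat_lit 103) (nat_lit 5) (nat_lit 98) (nat_lit 5) (nat_lit 363) (nat_lit 316) (nat_lit 101)))) (XT.nd (nat_lit 156) (nat_lit 380) (nat_lit 0) (XT.nd (nat_lit 78) (nat_lit 0) (nat_lit 0) (XT.lf (nat_lit 0) (nat_lit 23490761144) (nat_lit 304) (nat_lit 10845223648) (nat_lit 380) (nat_lit 14281370353) (nat_lit 93) (nat_lit 5) (nat_lit 97) (nat_lit 5) (nat_lit 98) (nat_lit 5) (nat_lit 364) (nat_lit 316) (nat_lit 100)) (XT.lf (nat_lit 0) (nat_lit 42605007873) (nat_lit 380) (nat_lit 1485043572) (nat_lit 76) (nat_lit 5478406014) (nat_lit 93) (nat_lit 5) (nat_lit 98) (nat_lit 5) (nat_lit 94) (nat_lit 5) (nat_lit 365) (nat_lit 316) (nat_lit 99))) (XT.nd (nat_lit 78) (nat_lit 0) (nat_lit 0) (XT.lf (nat_lit 0) (nat_lit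 894884277) (nat_lit 380) (nat_lit 27338024784) (nat_lit 76) (nat_lit 22305057259) (nat_lit 88) (nat_lit 5) (nat_lit 93) (nat_lit 5) (nat_lit 89) (nat_lit 5) (nat_lit 366) (nat_lit 316) (nat_lit 98)) (XT.lf (nat_lit 0) (nat_lit 8862508010) (nat_lit 380) (nat_lit 2951585117) (nat_lit 76) (nat_lit 39719995286) (nat_lit 88) (nat_lit 5) (nat_lit 93) (nat_lit 5) (nat_lit 89) (nat_lit 5) (nat_lit 367) (nat_lit 316) (nat_lit 97)))))) (XT.nd (nat_lit 546) (nat_lit 760) (nat_lit 0) (XT.nd (nat_lit 234) (nat_lit 608) (nat_lit 0) (XT.nd (nat_lit 78) (nat_lit 304) (nat_lit 0) (XT.lf (nat_lit 0) (nat_lit 17336002022) (nat_lit 380) (nat_lit 29999441167) (nat_lit 76) (nat_lit 5216646961) (nat_lit 84) (nat_lit 5) (nat_lit 89) (nat_lit 5) (nat_lit 85) (nat_lit 5) (nat_lit 368) (nat_lit 316) (nat_lit 96)) (XT.nd (nat_lit 78) (nat_lit 304) (nat_lit 0) (XT.lf (nat_lit 0) (nat_lit 26209193313) (nat_lit 380) (nat_lit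 4836741965) (nat_lit 76) (nat_lit 22550333081) (nat_lit 84) (nat_lit 5) (nat_lit 89) (nat_lit 5) (nat_lit 85) (nat_lit 5) (nat_lit 369) (nat_lit 316) (nat_lit 95)) (XT.lf (nat_lit 0) (nat_lit 21498157741) (nat_lit 304) (nat_lit 14055542954) (nat_lit 380) (nat_lit 19111918768) (nat_lit 80) (nat_lit 5) (nat_lit 84) (nat_lit 5) (nat_lit 85) (nat_lit 5) (nat_lit 370) (nat_lit 316) (nat_lit 94)))) (XT.nd (nat_lit 156) (nat_lit 380) (nat_lit 0) (XT.nd (nat_lit 78) (nat_lit 228) (nat_lit 0) (XT.lf (nat_lit 0) (nat_lit 45259464156) (nat_lit 380) (nat_lit 7079133367) (nat_lit 76) (nat_lit 3426027076) (nat_lit 80) (nat_lit 5) (nat_lit 85) (nat_lit 5) (nat_lit 81) (nat_lit 5) (nat_lit 371) (nat_lit 316) (nat_lit 93)) (XT.lf (nat_lit 0) (nat_lit 20041623943) (nat_lit 228) (nat_lit 35545121298) (nat_lit 304) (nat_lit 1299945398) (nat_lit 77) (nat_lit 5) (nat_lit 80) (nat_lit 5) (nat_lit 81) (nat_lit 5) (nat_lit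 372) (nat_lit 316) (nat_lit 92))) (XT.nd (nat_lit 78) (nat_lit 304) (nat_lit 0) (XT.lf (nat_lit 0) (nat_lit 8092505818) (nat_lit 304) (nat_lit 10000658032) (nat_lit 76) (nat_lit 39944774628) (nat_lit 76) (nat_lit 5) (nat_lit 80) (nat_lit 5) (nat_lit 77) (nat_lit 5) (nat_lit 373) (nat_lit 316) (nat_lit 91)) (XT.lf (nat_lit 0) (nat_lit 17912766693) (nat_lit 380) (nat_lit 41233818742) (nat_lit 76) (nat_lit 71588284) (nat_lit 72) (nat_lit 5) (nat_lit 77) (nat_lit 5) (nat_lit 73) (nat_lit 5) (nat_lit 374) (nat_lit 316) (nat_lit 90))))) (XT.nd (nat_lit 234) (nat_lit 532) (nat_lit 0) (XT.nd (nat_lit 78) (nat_lit 228) (nat_lit 0) (XT.lf (nat_lit 0) (nat_lit 28307355978) (nat_lit 380) (nat_lit 13599108453) (nat_lit 76) (nat_lit 18518960937) (nat_lit 72) (nat_lit 5) (nat_lit 77) (nat_lit 5) (nat_lit 73) (nat_lit 5) (nat_lit 375) (nat_lit 316) (nat_lit 89)) (XT.nd (nat_lit 78) (nat_lit 0) (nat_lit 0) (XT.lf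 (nat_lit 0) (nat_lit 15158395310) (nat_lit 228) (nat_lit 23999733807) (nat_lit 304) (nat_lit 22506436007) (nat_lit 69) (nat_lit 5) (nat_lit 72) (nat_lit 5) (nat_lit 73) (nat_lit 5) (nat_lit 376) (nat_lit 316) (nat_lit 88)) (XT.lf (nat_lit 0) (nat_lit 45055369882) (nat_lit 228) (nat_lit 5415034638) (nat_lit 304) (nat_lit 12466396095) (nat_lit 69) (nat_lit 5) (nat_lit 72) (nat_lit 5) (nat_lit 73) (nat_lit 5) (nat_lit 377) (nat_lit 316) (nat_lit 87)))) (XT.nd (nat_lit 156) (nat_lit 228) (nat_lit 0) (XT.nd (nat_lit 78) (nat_lit 76) (nat_lit 0) (XT.lf (nat_lit 0) (nat_lit 11696336342) (nat_lit 228) (nat_lit 50668786079) (nat_lit 304) (nat_lit 1874789410) (nat_lit 66) (nat_lit 5) (nat_lit 69) (nat_lit 5) (nat_lit 70) (nat_lit 5) (nat_lit 378) (nat_lit 316) (nat_lit 86)) (XT.lf (nat_lit 0) (nat_lit 9092931111) (nat_lit 304) (nat_lit 23192963696) (nat_lit 76) (nat_lit 33286577165) (nat_lit 65) (nat_lit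 5) (nat_lit 69) (nat_lit 5) (nat_lit 66) (nat_lit 5) (nat_lit 379) (nat_lit 316) (nat_lit 85))) (XT.nd (nat_lit 78) (nat_lit 0) (nat_lit 0) (XT.lf (nat_lit 0) (nat_lit 7157322928) (nat_lit 228) (nat_lit 13262210700) (nat_lit 304) (nat_lit 46522893279) (nat_lit 62) (nat_lit 5) (nat_lit 65) (nat_lit 5) (nat_lit 66) (nat_lit 5) (nat_lit 380) (nat_lit 316) (nat_lit 84)) (XT.lf (nat_lit 0) (nat_lit 32382068497) (nat_lit 304) (nat_lit 29518049998) (nat_lit 76) (nat_lit 6444478756) (nat_lit 62) (nat_lit 5) (nat_lit 66) (nat_lit 5) (nat_lit 63) (nat_lit 5) (nat_lit 381) (nat_lit 316) (nat_lit 83))))))) (XT.nd (nat_lit 35568) (nat_lit 0) (nat_lit 11400) (XT.nd (nat_lit 546) (nat_lit 608) (nat_lit 0) (XT.nd (nat_lit 234) (nat_lit 456) (nat_lit 0) (XT.nd (nat_lit 78) (nat_lit 0) (nat_lit 0) (XT.lf (nat_lit 0) (nat_lit 1554131234) (nat_lit 228) (nat_lit 43294376207) (nat_lit 304) (nat_lit 24935975190) (nat_lit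 59) (nat_lit 5) (nat_lit 62) (nat_lit 5) (nat_lit 63) (nat_lit 5) (nat_lit 382) (nat_lit 316) (nat_lit 82)) (XT.nd (nat_lit 78) (nat_lit 0) (nat_lit 0) (XT.lf (nat_lit 0) (nat_lit 34161685588) (nat_lit 228) (nat_lit 23824125580) (nat_lit 304) (nat_lit 13272847997) (nat_lit 59) (nat_lit 5) (nat_lit 62) (nat_lit 5) (nat_lit 63) (nat_lit 5) (nat_lit 383) (nat_lit 316) (nat_lit 81)) (XT.lf (nat_lit 0) (nat_lit 67745638029) (nat_lit 228) (nat_lit 3770428203) (nat_lit 304) (nat_lit 1261030520) (nat_lit 59) (nat_lit 5) (nat_lit 62) (nat_lit 5) (nat_lit 63) (nat_lit 5) (nat_lit 384) (nat_lit 316) (nat_lit 80)))) (XT.nd (nat_lit 156) (nat_lit 228) (nat_lit 0) (XT.nd (nat_lit 78) (nat_lit 0) (nat_lit 0) (XT.lf (nat_lit 0) (nat_lit 11332649454) (nat_lit 228) (nat_lit 46053352157) (nat_lit 76) (nat_lit 16938732533) (nat_lit 56) (nat_lit 5) (nat_lit 59) (nat_lit 5) (nat_lit 57) (nat_lit 5) (nat_lit 385) (nat_lit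 316) (nat_lit 79)) (XT.lf (nat_lit 0) (nat_lit 24366300557) (nat_lit 228) (nat_lit 13292957414) (nat_lit 76) (nat_lit 38256543597) (nat_lit 56) (nat_lit 5) (nat_lit 59) (nat_lit 5) (nat_lit 57) (nat_lit 5) (nat_lit 386) (nat_lit 316) (nat_lit 78))) (XT.nd (nat_lit 78) (nat_lit 0) (nat_lit 0) (XT.lf (nat_lit 0) (nat_lit 20855457556) (nat_lit 228) (nat_lit 17134876439) (nat_lit 304) (nat_lit 39558286477) (nat_lit 53) (nat_lit 5) (nat_lit 56) (nat_lit 5) (nat_lit 57) (nat_lit 5) (nat_lit 387) (nat_lit 316) (nat_lit 77)) (XT.lf (nat_lit 0) (nat_lit 52196057573) (nat_lit 304) (nat_lit 22967175668) (nat_lit 76) (nat_lit 4062002251) (nat_lit 53) (nat_lit 5) (nat_lit 57) (nat_lit 5) (nat_lit 54) (nat_lit 5) (nat_lit 388) (nat_lit 316) (nat_lit 76))))) (XT.nd (nat_lit 234) (nat_lit 152) (nat_lit 0) (XT.nd (nat_lit 78) (nat_lit 304) (nat_lit 0) (XT.lf (nat_lit 0) (nat_lit 11830071249) (nat_lit 152) (nat_lit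 55280190091) (nat_lit 228) (nat_lit 13833418974) (nat_lit 51) (nat_lit 5) (nat_lit 53) (nat_lit 5) (nat_lit 54) (nat_lit 5) (nat_lit 389) (nat_lit 316) (nat_lit 75)) (XT.nd (nat_lit 78) (nat_lit 304) (nat_lit 0) (XT.lf (nat_lit 0) (nat_lit 48140341965) (nat_lit 152) (nat_lit 34562425651) (nat_lit 228) (nat_lit 3985158) (nat_lit 51) (nat_lit 5) (nat_lit 53) (nat_lit 5) (nat_lit 54) (nat_lit 5) (nat_lit 390) (nat_lit 316) (nat_lit 74)) (XT.lf (nat_lit 0) (nat_lit 896133682) (nat_lit 228) (nat_lit 13073904840) (nat_lit 304) (nat_lit 70548345226) (nat_lit 47) (nat_lit 5) (nat_lit 50) (nat_lit 5) (nat_lit 51) (nat_lit 5) (nat_lit 391) (nat_lit 316) (nat_lit 73)))) (XT.nd (nat_lit 156) (nat_lit 152) (nat_lit 0) (XT.nd (nat_lit 78) (nat_lit 0) (nat_lit 0) (XT.lf (nat_lit 0) (nat_lit 28801775718) (nat_lit 304) (nat_lit 48335016843) (nat_lit 76) (nat_lit 9234413256) (nat_lit 47) (nat_lit 5) (nat_lit 51)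 (nat_lit 5) (nat_lit 48) (nat_lit 5) (nat_lit 392) (nat_lit 316) (nat_lit 72)) (XT.lf (nat_lit 0) (nat_lit 44206920020) (nat_lit 304) (nat_lit 12120240482) (nat_lit 76) (nat_lit 31948598919) (nat_lit 47) (nat_lit 5) (nat_lit 51) (nat_lit 5) (nat_lit 48) (nat_lit 5) (nat_lit 393) (nat_lit 316) (nat_lit 71))) (XT.nd (nat_lit 78) (nat_lit 0) (nat_lit 0) (XT.lf (nat_lit 0) (nat_lit 25680516745) (nat_lit 152) (nat_lit 34639597954) (nat_lit 228) (nat_lit 29909958559) (nat_lit 45) (nat_lit 5) (nat_lit 47) (nat_lit 5) (nat_lit 48) (nat_lit 5) (nat_lit 394) (nat_lit 316) (nat_lit 70)) (XT.lf (nat_lit 0) (nat_lit 64862183442) (nat_lit 152) (nat_lit 12175964579) (nat_lit 228) (nat_lit 15201225696) (nat_lit 45) (nat_lit 5) (nat_lit 47) (nat_lit 5) (nat_lit 48) (nat_lit 5) (nat_lit 395) (nat_lit 316) (nat_lit 69)))))) (XT.nd (nat_lit 546) (nat_lit 0) (nat_lit 152) (XT.nd (nat_lit 234) (nat_lit 0) (nat_lit 76)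 (XT.nd (nat_lit 78) (nat_lit 0) (nat_lit 0) (XT.lf (nat_lit 0) (nat_lit 2469507292) (nat_lit 0) (nat_lit 2469507292) (nat_lit 1140) (nat_lit 6128720599) (nat_lit 195) (nat_lit 5) (nat_lit 195) (nat_lit 3) (nat_lit 210) (nat_lit 3) (nat_lit 317) (nat_lit 317) (nat_lit 146)) (XT.nd (nat_lit 78) (nat_lit 0) (nat_lit 0) (XT.lf (nat_lit 0) (nat_lit 10204146383) (nat_lit 1140) (nat_lit 7205303252) (nat_lit 1216) (nat_lit 5052563531) (nat_lit 195) (nat_lit 5) (nat_lit 210) (nat_lit 3) (nat_lit 211) (nat_lit 5) (nat_lit 318) (nat_lit 317) (nat_lit 145)) (XT.lf (nat_lit 76) (nat_lit 3094379104) (nat_lit 0) (nat_lit 7519326738) (nat_lit 1216) (nat_lit 12182442531) (nat_lit 196) (nat_lit 5) (nat_lit 195) (nat_lit 5) (nat_lit 211) (nat_lit 5) (nat_lit 319) (nat_lit 317) (nat_lit 144)))) (XT.nd (nat_lit 156) (nat_lit 0) (nat_lit 76) (XT.nd (nat_lit 78) (nat_lit 0) (nat_lit 0) (XT.lf (nat_lit 0) (nat_lit 11129827007)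 (nat_lit 1140) (nat_lit 9316566038) (nat_lit 1216) (nat_lit 2691092059) (nat_lit 196) (nat_lit 5) (nat_lit 211) (nat_lit 5) (nat_lit 212) (nat_lit 5) (nat_lit 320) (nat_lit 317) (nat_lit 143)) (XT.lf (nat_lit 76) (nat_lit 1328926419) (nat_lit 0) (nat_lit 10415023237) (nat_lit 1216) (nat_lit 11742642295) (nat_lit 197) (nat_lit 5) (nat_lit 196) (nat_lit 5) (nat_lit 212) (nat_lit 5) (nat_lit 321) (nat_lit 317) (nat_lit 142))) (XT.nd (nat_lit 78) (nat_lit 0) (nat_lit 0) (XT.lf (nat_lit 0) (nat_lit 12466134906) (nat_lit 1140) (nat_lit 11361606385) (nat_lit 1216) (nat_lit 15746933) (nat_lit 197) (nat_lit 5) (nat_lit 212) (nat_lit 5) (nat_lit 213) (nat_lit 5) (nat_lit 322) (nat_lit 317) (nat_lit 141)) (XT.lf (nat_lit 0) (nat_lit 13308661529) (nat_lit 1140) (nat_lit 347584969) (nat_lit 1216) (nat_lit 10551889843) (nat_lit 197) (nat_lit 5) (nat_lit 212) (nat_lit 5) (nat_lit 213) (nat_lit 5) (nat_lit 323)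 (nat_lit 317) (nat_lit 140))))) (XT.nd (nat_lit 234) (nat_lit 0) (nat_lit 152) (XT.nd (nat_lit 78) (nat_lit 0) (nat_lit 76) (XT.lf (nat_lit 76) (nat_lit 11212943097) (nat_lit 0) (nat_lit 3066992709) (nat_lit 1216) (nat_lit 10300689019) (nat_lit 198) (nat_lit 5) (nat_lit 197) (nat_lit 5) (nat_lit 213) (nat_lit 5) (nat_lit 324) (nat_lit 317) (nat_lit 139)) (XT.nd (nat_lit 78) (nat_lit 0) (nat_lit 0) (XT.lf (nat_lit 0) (nat_lit 15355055861) (nat_lit 1140) (nat_lit 1915005770) (nat_lit 1216) (nat_lit 7691990037) (nat_lit 198) (nat_lit 5) (nat_lit 213) (nat_lit 5) (nat_lit 214) (nat_lit 5) (nat_lit 325) (nat_lit 317) (nat_lit 138)) (XT.lf (nat_lit 76) (nat_lit 10044125717) (nat_lit 0) (nat_lit 6541143239) (nat_lit 1216) (nat_lit 8765971964) (nat_lit 199) (nat_lit 5) (nat_lit 198) (nat_lit 5) (nat_lit 214) (nat_lit 5) (nat_lit 326) (nat_lit 317) (nat_lit 137)))) (XT.nd (nat_lit 156) (nat_lit 0) (nat_lit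 76) (XT.nd (nat_lit 78) (nat_lit 0) (nat_lit 0) (XT.lf (nat_lit 0) (nat_lit 17911294648) (nat_lit 1140) (nat_lit 3396644533) (nat_lit 1216) (nat_lit 4442404130) (nat_lit 199) (nat_lit 5) (nat_lit 214) (nat_lit 5) (nat_lit 215) (nat_lit 5) (nat_lit 327) (nat_lit 317) (nat_lit 136)) (XT.lf (nat_lit 76) (nat_lit 8978803907) (nat_lit 0) (nat_lit 10445513947) (nat_lit 1216) (nat_lit 6732688928) (nat_lit 200) (nat_lit 5) (nat_lit 199) (nat_lit 5) (nat_lit 215) (nat_lit 5) (nat_lit 328) (nat_lit 317) (nat_lit 135))) (XT.nd (nat_lit 78) (nat_lit 0) (nat_lit 0) (XT.lf (nat_lit 0) (nat_lit 21020749732) (nat_lit 1140) (nat_lit 4790058559) (nat_lit 1216) (nat_lit 763925710) (nat_lit 200) (nat_lit 5) (nat_lit 215) (nat_lit 5) (nat_lit 216) (nat_lit 5) (nat_lit 329) (nat_lit 317) (nat_lit 134)) (XT.lf (nat_lit 76) (nat_lit 8020011007) (nat_lit 0) (nat_lit 14821926118) (nat_lit 1216) (nat_lit 4157754286) (nat_lit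 201) (nat_lit 5) (nat_lit 200) (nat_lit 5) (nat_lit 216) (nat_lit 5) (nat_lit 330) (nat_lit 317) (nat_lit 133))))))))
noncomputable def xc223 : XT := (XT.nd (nat_lit 2184) (nat_lit 3876) (nat_lit 0) (XT.nd (nat_lit 1092) (nat_lit 3192) (nat_lit 0) (XT.nd (nat_lit 546) (nat_lit 2128) (nat_lit 0) (XT.nd (nat_lit 234) (nat_lit 608) (nat_lit 0) (XT.nd (nat_lit 78) (nat_lit 1140) (nat_lit 0) (XT.lf (nat_lit 76) (nat_lit 21309804141) (nat_lit 0) (nat_lit 3452754309) (nat_lit 1216) (nat_lit 2673499275) (nat_lit 201) (nat_lit 5) (nat_lit 200) (nat_lit 5) (nat_lit 216) (nat_lit 5) (nat_lit 331) (nat_lit 317) (nat_lit 132)) (XT.nd (nat_lit 78) (nat_lit 1216) (nat_lit 0) (XT.lf (nat_lit 76) (nat_lit 7170517723) (nat_lit 0) (nat_lit 19715123794) (nat_lit 1216) (nat_lit 995532227) (nat_lit 202) (nat_lit 5) (nat_lit 201) (nat_lit 5) (nat_lit 217) (nat_lit 5) (nat_lit 332) (nat_lit 317) (nat_lit 131)) (XT.lf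 (nat_lit 0) (nat_lit 811712490) (nat_lit 1216) (nat_lit 7390704339) (nat_lit 1292) (nat_lit 20134221746) (nat_lit 185) (nat_lit 5) (nat_lit 201) (nat_lit 5) (nat_lit 202) (nat_lit 5) (nat_lit 333) (nat_lit 317) (nat_lit 130)))) (XT.nd (nat_lit 156) (nat_lit 684) (nat_lit 0) (XT.nd (nat_lit 78) (nat_lit 0) (nat_lit 0) (XT.lf (nat_lit 0) (nat_lit 2747621791) (nat_lit 1216) (nat_lit 22397645873) (nat_lit 76) (nat_lit 3657373960) (nat_lit 186) (nat_lit 5) (nat_lit 202) (nat_lit 5) (nat_lit 187) (nat_lit 5) (nat_lit 334) (nat_lit 317) (nat_lit 129)) (XT.lf (nat_lit 0) (nat_lit 4894942485) (nat_lit 1216) (nat_lit 8599113040) (nat_lit 76) (nat_lit 15783972778) (nat_lit 186) (nat_lit 5) (nat_lit 202) (nat_lit 5) (nat_lit 187) (nat_lit 5) (nat_lit 335) (nat_lit 317) (nat_lit 128))) (XT.nd (nat_lit 78) (nat_lit 0) (nat_lit 0) (XT.lf (nat_lit 0) (nat_lit 5722275569) (nat_lit 684) (nat_lit 1436259376) (nat_lit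 760) (nat_lit 22607589529) (nat_lit 177) (nat_lit 5) (nat_lit 186) (nat_lit 5) (nat_lit 187) (nat_lit 5) (nat_lit 336) (nat_lit 317) (nat_lit 127)) (XT.lf (nat_lit 0) (nat_lit 9680222115) (nat_lit 760) (nat_lit 9725951678) (nat_lit 76) (nat_lit 10856987489) (nat_lit 177) (nat_lit 5) (nat_lit 187) (nat_lit 5) (nat_lit 178) (nat_lit 5) (nat_lit 337) (nat_lit 317) (nat_lit 126))))) (XT.nd (nat_lit 234) (nat_lit 988) (nat_lit 0) (XT.nd (nat_lit 78) (nat_lit 532) (nat_lit 0) (XT.lf (nat_lit 0) (nat_lit 5104109469) (nat_lit 608) (nat_lit 7233739586) (nat_lit 684) (nat_lit 18435454723) (nat_lit 169) (nat_lit 5) (nat_lit 177) (nat_lit 5) (nat_lit 178) (nat_lit 5) (nat_lit 338) (nat_lit 317) (nat_lit 125)) (XT.nd (nat_lit 78) (nat_lit 532) (nat_lit 0) (XT.lf (nat_lit 0) (nat_lit 15222442264) (nat_lit 684) (nat_lit 10772134039) (nat_lit 76) (nat_lit 5299760289) (nat_lit 169) (nat_lit 5) (nat_lit 178) (nat_lit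 5) (nat_lit 170) (nat_lit 5) (nat_lit 339) (nat_lit 317) (nat_lit 124)) (XT.lf (nat_lit 0) (nat_lit 4586989248) (nat_lit 532) (nat_lit 13719451539) (nat_lit 608) (nat_lit 13521176649) (nat_lit 162) (nat_lit 5) (nat_lit 169) (nat_lit 5) (nat_lit 170) (nat_lit 5) (nat_lit 340) (nat_lit 317) (nat_lit 123)))) (XT.nd (nat_lit 156) (nat_lit 456) (nat_lit 0) (XT.nd (nat_lit 78) (nat_lit 532) (nat_lit 0) (XT.lf (nat_lit 0) (nat_lit 20624994957) (nat_lit 532) (nat_lit 963951994) (nat_lit 608) (nat_lit 10784773105) (nat_lit 162) (nat_lit 5) (nat_lit 169) (nat_lit 5) (nat_lit 170) (nat_lit 5) (nat_lit 341) (nat_lit 317) (nat_lit 122)) (XT.lf (nat_lit 0) (nat_lit 4169556724) (nat_lit 532) (nat_lit 20954770145) (nat_lit 608) (nat_lit 7807249827) (nat_lit 155) (nat_lit 5) (nat_lit 162) (nat_lit 5) (nat_lit 163) (nat_lit 5) (nat_lit 342) (nat_lit 317) (nat_lit 121))) (XT.nd (nat_lit 78) (nat_lit 456) (nat_lit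 0) (XT.lf (nat_lit 0) (nat_lit 20793801499) (nat_lit 532) (nat_lit 8097401559) (nat_lit 608) (nat_lit 4611205743) (nat_lit 155) (nat_lit 5) (nat_lit 162) (nat_lit 5) (nat_lit 163) (nat_lit 5) (nat_lit 343) (nat_lit 317) (nat_lit 120)) (XT.lf (nat_lit 0) (nat_lit 3849369058) (nat_lit 456) (nat_lit 29005604749) (nat_lit 532) (nat_lit 1232878143) (nat_lit 149) (nat_lit 5) (nat_lit 155) (nat_lit 5) (nat_lit 156) (nat_lit 5) (nat_lit 344) (nat_lit 317) (nat_lit 119)))))) (XT.nd (nat_lit 546) (nat_lit 1672) (nat_lit 0) (XT.nd (nat_lit 234) (nat_lit 912) (nat_lit 0) (XT.nd (nat_lit 78) (nat_lit 532) (nat_lit 0) (XT.lf (nat_lit 0) (nat_lit 2410175182) (nat_lit 532) (nat_lit 13628167559) (nat_lit 76) (nat_lit 18645653728) (nat_lit 148) (nat_lit 5) (nat_lit 155) (nat_lit 5) (nat_lit 149) (nat_lit 5) (nat_lit 345) (nat_lit 317) (nat_lit 118)) (XT.nd (nat_lit 78) (nat_lit 0) (nat_lit 0) (XT.lf (nat_lit 0)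 (nat_lit 3534584838) (nat_lit 532) (nat_lit 2634650797) (nat_lit 608) (nat_lit 29127481128) (nat_lit 141) (nat_lit 5) (nat_lit 148) (nat_lit 5) (nat_lit 149) (nat_lit 5) (nat_lit 346) (nat_lit 317) (nat_lit 117)) (XT.lf (nat_lit 0) (nat_lit 10284996190) (nat_lit 608) (nat_lit 14543538793) (nat_lit 76) (nat_lit 11091968260) (nat_lit 141) (nat_lit 5) (nat_lit 149) (nat_lit 5) (nat_lit 142) (nat_lit 5) (nat_lit 347) (nat_lit 317) (nat_lit 116)))) (XT.nd (nat_lit 156) (nat_lit 456) (nat_lit 0) (XT.nd (nat_lit 78) (nat_lit 0) (nat_lit 0) (XT.lf (nat_lit 0) (nat_lit 3225866956) (nat_lit 456) (nat_lit 11353092233) (nat_lit 532) (nat_lit 21982404597) (nat_lit 135) (nat_lit 5) (nat_lit 141) (nat_lit 5) (nat_lit 142) (nat_lit 5) (nat_lit 348) (nat_lit 317) (nat_lit 115)) (XT.lf (nat_lit 0) (nat_lit 19172020253) (nat_lit 532) (nat_lit 15418954214) (nat_lit 76) (nat_lit 2625369587) (nat_lit 135) (nat_lit 5)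 (nat_lit 142) (nat_lit 5) (nat_lit 136) (nat_lit 5) (nat_lit 349) (nat_lit 317) (nat_lit 114))) (XT.nd (nat_lit 78) (nat_lit 0) (nat_lit 0) (XT.lf (nat_lit 0) (nat_lit 2978219196) (nat_lit 456) (nat_lit 21063433466) (nat_lit 532) (nat_lit 13845159904) (nat_lit 129) (nat_lit 5) (nat_lit 135) (nat_lit 5) (nat_lit 136) (nat_lit 5) (nat_lit 350) (nat_lit 317) (nat_lit 113)) (XT.lf (nat_lit 0) (nat_lit 22240832081) (nat_lit 456) (nat_lit 6970028559) (nat_lit 532) (nat_lit 9361932048) (nat_lit 129) (nat_lit 5) (nat_lit 135) (nat_lit 5) (nat_lit 136) (nat_lit 5) (nat_lit 351) (nat_lit 317) (nat_lit 112))))) (XT.nd (nat_lit 234) (nat_lit 760) (nat_lit 0) (XT.nd (nat_lit 78) (nat_lit 532) (nat_lit 0) (XT.lf (nat_lit 0) (nat_lit 2781164796) (nat_lit 380) (nat_lit 31851099579) (nat_lit 456) (nat_lit 4644176348) (nat_lit 124) (nat_lit 5) (nat_lit 129) (nat_lit 5) (nat_lit 130) (nat_lit 5) (nat_lit 352) (nat_lit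 317) (nat_lit 111)) (XT.nd (nat_lit 78) (nat_lit 456) (nat_lit 0) (XT.lf (nat_lit 0) (nat_lit 444340652) (nat_lit 456) (nat_lit 17269046310) (nat_lit 76) (nat_lit 22280748388) (nat_lit 123) (nat_lit 5) (nat_lit 129) (nat_lit 5) (nat_lit 124) (nat_lit 5) (nat_lit 353) (nat_lit 317) (nat_lit 110)) (XT.lf (nat_lit 0) (nat_lit 2534971149) (nat_lit 456) (nat_lit 3079491020) (nat_lit 532) (nat_lit 35116852332) (nat_lit 117) (nat_lit 5) (nat_lit 123) (nat_lit 5) (nat_lit 124) (nat_lit 5) (nat_lit 354) (nat_lit 317) (nat_lit 109)))) (XT.nd (nat_lit 156) (nat_lit 380) (nat_lit 0) (XT.nd (nat_lit 78) (nat_lit 380) (nat_lit 0) (XT.lf (nat_lit 0) (nat_lit 11229042939) (nat_lit 532) (nat_lit 18317802692) (nat_lit 76) (nat_lit 11935084586) (nat_lit 117) (nat_lit 5) (nat_lit 124) (nat_lit 5) (nat_lit 118) (nat_lit 5) (nat_lit 355) (nat_lit 317) (nat_lit 108)) (XT.lf (nat_lit 0) (nat_lit 2166434314) (nat_lit 380)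 (nat_lit 14894958836) (nat_lit 456) (nat_lit 25192193099) (nat_lit 112) (nat_lit 5) (nat_lit 117) (nat_lit 5) (nat_lit 118) (nat_lit 5) (nat_lit 356) (nat_lit 317) (nat_lit 107))) (XT.nd (nat_lit 78) (nat_lit 380) (nat_lit 0) (XT.lf (nat_lit 0) (nat_lit 23255454779) (nat_lit 456) (nat_lit 19408343976) (nat_lit 76) (nat_lit 378992733) (nat_lit 112) (nat_lit 5) (nat_lit 118) (nat_lit 5) (nat_lit 113) (nat_lit 5) (nat_lit 357) (nat_lit 317) (nat_lit 106)) (XT.lf (nat_lit 0) (nat_lit 1775597310) (nat_lit 380) (nat_lit 28022387666) (nat_lit 456) (nat_lit 14052810207) (nat_lit 107) (nat_lit 5) (nat_lit 112) (nat_lit 5) (nat_lit 113) (nat_lit 5) (nat_lit 358) (nat_lit 317) (nat_lit 105))))))) (XT.nd (nat_lit 1092) (nat_lit 1824) (nat_lit 0) (XT.nd (nat_lit 546) (nat_lit 988) (nat_lit 0) (XT.nd (nat_lit 234) (nat_lit 684) (nat_lit 0) (XT.nd (nat_lit 78) (nat_lit 380) (nat_lit 0) (XT.lf (nat_lit 0) (nat_lit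 23990528060) (nat_lit 380) (nat_lit 12740385336) (nat_lit 456) (nat_lit 7946303575) (nat_lit 107) (nat_lit 5) (nat_lit 112) (nat_lit 5) (nat_lit 113) (nat_lit 5) (nat_lit 359) (nat_lit 317) (nat_lit 104)) (XT.nd (nat_lit 78) (nat_lit 76) (nat_lit 0) (XT.lf (nat_lit 0) (nat_lit 1338391049) (nat_lit 304) (nat_lit 42573328192) (nat_lit 380) (nat_lit 1615517088) (nat_lit 103) (nat_lit 5) (nat_lit 107) (nat_lit 5) (nat_lit 108) (nat_lit 5) (nat_lit 360) (nat_lit 317) (nat_lit 103)) (XT.lf (nat_lit 0) (nat_lit 5144777434) (nat_lit 380) (nat_lit 22125948340) (nat_lit 76) (nat_lit 19120558381) (nat_lit 102) (nat_lit 5) (nat_lit 107) (nat_lit 5) (nat_lit 103) (nat_lit 5) (nat_lit 361) (nat_lit 317) (nat_lit 102)))) (XT.nd (nat_lit 156) (nat_lit 304) (nat_lit 0) (XT.nd (nat_lit 78) (nat_lit 0) (nat_lit 0) (XT.lf (nat_lit 0) (nat_lit 592086493) (nat_lit 380) (nat_lit 11487264757) (nat_lit 456) (nat_lit 35201305554)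 (nat_lit 97) (nat_lit 5) (nat_lit 102) (nat_lit 5) (nat_lit 103) (nat_lit 5) (nat_lit 362) (nat_lit 317) (nat_lit 101)) (XT.lf (nat_lit 0) (nat_lit 19491725285) (nat_lit 456) (nat_lit 23795179167) (nat_lit 76) (nat_lit 4901714716) (nat_lit 97) (nat_lit 5) (nat_lit 103) (nat_lit 5) (nat_lit 98) (nat_lit 5) (nat_lit 363) (nat_lit 317) (nat_lit 100))) (XT.nd (nat_lit 78) (nat_lit 304) (nat_lit 0) (XT.lf (nat_lit 0) (nat_lit 27238529010) (nat_lit 456) (nat_lit 330986218) (nat_lit 76) (nat_lit 21550944803) (nat_lit 97) (nat_lit 5) (nat_lit 103) (nat_lit 5) (nat_lit 98) (nat_lit 5) (nat_lit 364) (nat_lit 317) (nat_lit 99)) (XT.lf (nat_lit 0) (nat_lit 24309295762) (nat_lit 304) (nat_lit 11140488920) (nat_lit 380) (nat_lit 14623511347) (nat_lit 93) (nat_lit 5) (nat_lit 97) (nat_lit 5) (nat_lit 98) (nat_lit 5) (nat_lit 365) (nat_lit 317) (nat_lit 98))))) (XT.nd (nat_lit 234) (nat_lit 608) (nat_lit 0) (XT.nd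 (nat_lit 78) (nat_lit 380) (nat_lit 0) (XT.lf (nat_lit 0) (nat_lit 43964720831) (nat_lit 380) (nat_lit 1416874202) (nat_lit 76) (nat_lit 5671403093) (nat_lit 93) (nat_lit 5) (nat_lit 98) (nat_lit 5) (nat_lit 94) (nat_lit 5) (nat_lit 366) (nat_lit 317) (nat_lit 97)) (XT.nd (nat_lit 78) (nat_lit 0) (nat_lit 0) (XT.lf (nat_lit 0) (nat_lit 1002848479) (nat_lit 380) (nat_lit 28044873178) (nat_lit 76) (nat_lit 23003887746) (nat_lit 88) (nat_lit 5) (nat_lit 93) (nat_lit 5) (nat_lit 89) (nat_lit 5) (nat_lit 367) (nat_lit 317) (nat_lit 96)) (XT.lf (nat_lit 0) (nat_lit 9207138273) (nat_lit 380) (nat_lit 2930140097) (nat_lit 76) (nat_lit 40940409484) (nat_lit 88) (nat_lit 5) (nat_lit 93) (nat_lit 5) (nat_lit 89) (nat_lit 5) (nat_lit 368) (nat_lit 317) (nat_lit 95)))) (XT.nd (nat_lit 156) (nat_lit 304) (nat_lit 0) (XT.nd (nat_lit 78) (nat_lit 0) (nat_lit 0) (XT.lf (nat_lit 0) (nat_lit 17933892114) (nat_lit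 380) (nat_lit 30788428043) (nat_lit 76) (nat_lit 5403939601) (nat_lit 84) (nat_lit 5) (nat_lit 89) (nat_lit 5) (nat_lit 85) (nat_lit 5) (nat_lit 369) (nat_lit 317) (nat_lit 94)) (XT.lf (nat_lit 0) (nat_lit 27071012833) (nat_lit 380) (nat_lit 4874080768) (nat_lit 76) (nat_lit 23256739415) (nat_lit 84) (nat_lit 5) (nat_lit 89) (nat_lit 5) (nat_lit 85) (nat_lit 5) (nat_lit 370) (nat_lit 317) (nat_lit 93))) (XT.nd (nat_lit 78) (nat_lit 0) (nat_lit 0) (XT.lf (nat_lit 0) (nat_lit 22249809425) (nat_lit 304) (nat_lit 14444871441) (nat_lit 380) (nat_lit 19608620686) (nat_lit 80) (nat_lit 5) (nat_lit 84) (nat_lit 5) (nat_lit 85) (nat_lit 5) (nat_lit 371) (nat_lit 317) (nat_lit 92)) (XT.lf (nat_lit 0) (nat_lit 46689752936) (nat_lit 380) (nat_lit 7185990285) (nat_lit 76) (nat_lit 3559591164) (nat_lit 80) (nat_lit 5) (nat_lit 85) (nat_lit 5) (nat_lit 81) (nat_lit 5) (nat_lit 372) (nat_lit 317) (nat_lit 91))))))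 (XT.nd (nat_lit 546) (nat_lit 760) (nat_lit 0) (XT.nd (nat_lit 234) (nat_lit 456) (nat_lit 0) (XT.nd (nat_lit 78) (nat_lit 380) (nat_lit 0) (XT.lf (nat_lit 0) (nat_lit 20747355264) (nat_lit 228) (nat_lit 36578389749) (nat_lit 304) (nat_lit 1265352184) (nat_lit 77) (nat_lit 5) (nat_lit 80) (nat_lit 5) (nat_lit 81) (nat_lit 5) (nat_lit 373) (nat_lit 317) (nat_lit 90)) (XT.nd (nat_lit 78) (nat_lit 304) (nat_lit 0) (XT.lf (nat_lit 0) (nat_lit 8405334915) (nat_lit 304) (nat_lit 10197794902) (nat_lit 76) (nat_lit 41173795958) (nat_lit 76) (nat_lit 5) (nat_lit 80) (nat_lit 5) (nat_lit 77) (nat_lit 5) (nat_lit 374) (nat_lit 317) (nat_lit 89)) (XT.lf (nat_lit 0) (nat_lit 18519458563) (nat_lit 380) (nat_lit 42367157574) (nat_lit 76) (nat_lit 105975720) (nat_lit 72) (nat_lit 5) (nat_lit 77) (nat_lit 5) (nat_lit 73) (nat_lit 5) (nat_lit 375) (nat_lit 317) (nat_lit 88)))) (XT.nd (nat_lit 156) (nat_lit 228)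 (nat_lit 0) (XT.nd (nat_lit 78) (nat_lit 228) (nat_lit 0) (XT.lf (nat_lit 0) (nat_lit 29223866822) (nat_lit 380) (nat_lit 13906425659) (nat_lit 76) (nat_lit 19105830529) (nat_lit 72) (nat_lit 5) (nat_lit 77) (nat_lit 5) (nat_lit 73) (nat_lit 5) (nat_lit 376) (nat_lit 317) (nat_lit 87)) (XT.lf (nat_lit 0) (nat_lit 15712816393) (nat_lit 228) (nat_lit 24686344936) (nat_lit 304) (nat_lit 23113307036) (nat_lit 69) (nat_lit 5) (nat_lit 72) (nat_lit 5) (nat_lit 73) (nat_lit 5) (nat_lit 377) (nat_lit 317) (nat_lit 86))) (XT.nd (nat_lit 78) (nat_lit 228) (nat_lit 0) (XT.lf (nat_lit 0) (nat_lit 46503797216) (nat_lit 228) (nat_lit 5545077051) (nat_lit 304) (nat_lit 12774055889) (nat_lit 69) (nat_lit 5) (nat_lit 72) (nat_lit 5) (nat_lit 73) (nat_lit 5) (nat_lit 378) (nat_lit 317) (nat_lit 85)) (XT.lf (nat_lit 0) (nat_lit 12144690624) (nat_lit 228) (nat_lit 52155107930) (nat_lit 304) (nat_lit 1865356483) (nat_lit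 66) (nat_lit 5) (nat_lit 69) (nat_lit 5) (nat_lit 70) (nat_lit 5) (nat_lit 379) (nat_lit 317) (nat_lit 84))))) (XT.nd (nat_lit 234) (nat_lit 456) (nat_lit 0) (XT.nd (nat_lit 78) (nat_lit 228) (nat_lit 0) (XT.lf (nat_lit 0) (nat_lit 9428238483) (nat_lit 304) (nat_lit 23792842882) (nat_lit 76) (nat_lit 34316649146) (nat_lit 65) (nat_lit 5) (nat_lit 69) (nat_lit 5) (nat_lit 66) (nat_lit 5) (nat_lit 380) (nat_lit 317) (nat_lit 83)) (XT.nd (nat_lit 78) (nat_lit 0) (nat_lit 0) (XT.lf (nat_lit 0) (nat_lit 7467012050) (nat_lit 228) (nat_lit 13626718976) (nat_lit 304) (nat_lit 47855081476) (nat_lit 62) (nat_lit 5) (nat_lit 65) (nat_lit 5) (nat_lit 66) (nat_lit 5) (nat_lit 381) (nat_lit 317) (nat_lit 82)) (XT.lf (nat_lit 0) (nat_lit 33413658752) (nat_lit 304) (nat_lit 30309867238) (nat_lit 76) (nat_lit 6669567593) (nat_lit 62) (nat_lit 5) (nat_lit 66) (nat_lit 5) (nat_lit 63) (nat_lit 5) (nat_lit 382) (nat_lit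 317) (nat_lit 81)))) (XT.nd (nat_lit 156) (nat_lit 228) (nat_lit 0) (XT.nd (nat_lit 78) (nat_lit 0) (nat_lit 0) (XT.lf (nat_lit 0) (nat_lit 1693560566) (nat_lit 228) (nat_lit 44559671094) (nat_lit 304) (nat_lit 25622970740) (nat_lit 59) (nat_lit 5) (nat_lit 62) (nat_lit 5) (nat_lit 63) (nat_lit 5) (nat_lit 383) (nat_lit 317) (nat_lit 80)) (XT.lf (nat_lit 0) (nat_lit 35276638482) (nat_lit 228) (nat_lit 24506289737) (nat_lit 304) (nat_lit 13611728868) (nat_lit 59) (nat_lit 5) (nat_lit 62) (nat_lit 5) (nat_lit 63) (nat_lit 5) (nat_lit 384) (nat_lit 317) (nat_lit 79))) (XT.nd (nat_lit 78) (nat_lit 228) (nat_lit 0) (XT.lf (nat_lit 0) (nat_lit 69865485156) (nat_lit 228) (nat_lit 3851929776) (nat_lit 304) (nat_lit 1241284185) (nat_lit 59) (nat_lit 5) (nat_lit 62) (nat_lit 5) (nat_lit 63) (nat_lit 5) (nat_lit 385) (nat_lit 317) (nat_lit 78)) (XT.lf (nat_lit 0) (nat_lit 11728590717) (nat_lit 228) (nat_lit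 47345793180) (nat_lit 76) (nat_lit 17478380863) (nat_lit 56) (nat_lit 5) (nat_lit 59) (nat_lit 5) (nat_lit 57) (nat_lit 5) (nat_lit 386) (nat_lit 317) (nat_lit 77))))))))
noncomputable def xc224 : XT := (XT.nd (nat_lit 36660) (nat_lit 0) (nat_lit 3952) (XT.nd (nat_lit 35568) (nat_lit 0) (nat_lit 10640) (XT.nd (nat_lit 468) (nat_lit 152) (nat_lit 0) (XT.nd (nat_lit 234) (nat_lit 456) (nat_lit 0) (XT.nd (nat_lit 78) (nat_lit 228) (nat_lit 0) (XT.lf (nat_lit 0) (nat_lit 25151621399) (nat_lit 228) (nat_lit 13605183474) (nat_lit 76) (nat_lit 39434809181) (nat_lit 56) (nat_lit 5) (nat_lit 59) (nat_lit 5) (nat_lit 57) (nat_lit 5) (nat_lit 387) (nat_lit 317) (nat_lit 76)) (XT.nd (nat_lit 78) (nat_lit 0) (nat_lit 0) (XT.lf (nat_lit 0) (nat_lit 21566835291) (nat_lit 228) (nat_lit 17616782004) (nat_lit 304) (nat_lit 40689823908) (nat_lit 53) (nat_lit 5) (nat_lit 56) (nat_lit 5) (nat_lit 57) (nat_lit 5) (nat_lit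 388) (nat_lit 317) (nat_lit 75)) (XT.lf (nat_lit 0) (nat_lit 53814252151) (nat_lit 304) (nat_lit 23571683234) (nat_lit 76) (nat_lit 4214457996) (nat_lit 53) (nat_lit 5) (nat_lit 57) (nat_lit 5) (nat_lit 54) (nat_lit 5) (nat_lit 389) (nat_lit 317) (nat_lit 74)))) (XT.nd (nat_lit 78) (nat_lit 304) (nat_lit 0) (XT.lf (nat_lit 0) (nat_lit 12268652584) (nat_lit 152) (nat_lit 56906510148) (nat_lit 228) (nat_lit 14195251262) (nat_lit 51) (nat_lit 5) (nat_lit 53) (nat_lit 5) (nat_lit 54) (nat_lit 5) (nat_lit 390) (nat_lit 317) (nat_lit 73)) (XT.nd (nat_lit 78) (nat_lit 228) (nat_lit 0) (XT.lf (nat_lit 0) (nat_lit 46589692) (nat_lit 228) (nat_lit 35521087151) (nat_lit 76) (nat_lit 49618734006) (nat_lit 50) (nat_lit 5) (nat_lit 53) (nat_lit 5) (nat_lit 51) (nat_lit 5) (nat_lit 391) (nat_lit 317) (nat_lit 72)) (XT.lf (nat_lit 0) (nat_lit 1004487586) (nat_lit 228) (nat_lit 13434575335) (nat_lit 304) (nat_lit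 72613348173) (nat_lit 47) (nat_lit 5) (nat_lit 50) (nat_lit 5) (nat_lit 51) (nat_lit 5) (nat_lit 392) (nat_lit 317) (nat_lit 71))))) (XT.nd (nat_lit 34788) (nat_lit 0) (nat_lit 11400) (XT.nd (nat_lit 78) (nat_lit 152) (nat_lit 0) (XT.lf (nat_lit 0) (nat_lit 29714592572) (nat_lit 304) (nat_lit 49704785004) (nat_lit 76) (nat_lit 9541475811) (nat_lit 47) (nat_lit 5) (nat_lit 51) (nat_lit 5) (nat_lit 48) (nat_lit 5) (nat_lit 393) (nat_lit 317) (nat_lit 70)) (XT.nd (nat_lit 78) (nat_lit 152) (nat_lit 0) (XT.lf (nat_lit 0) (nat_lit 45580470904) (nat_lit 304) (nat_lit 12405903673) (nat_lit 76) (nat_lit 32936212379) (nat_lit 47) (nat_lit 5) (nat_lit 51) (nat_lit 5) (nat_lit 48) (nat_lit 5) (nat_lit 394) (nat_lit 317) (nat_lit 69)) (XT.lf (nat_lit 0) (nat_lit 26528112114) (nat_lit 152) (nat_lit 35648312278) (nat_lit 228) (nat_lit 30759125652) (nat_lit 45) (nat_lit 5) (nat_lit 47) (nat_lit 5) (nat_lit 48)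 (nat_lit 5) (nat_lit 395) (nat_lit 317) (nat_lit 68)))) (XT.nd (nat_lit 156) (nat_lit 0) (nat_lit 0) (XT.nd (nat_lit 78) (nat_lit 0) (nat_lit 0) (XT.lf (nat_lit 0) (nat_lit 2607181243) (nat_lit 0) (nat_lit 2607181243) (nat_lit 1140) (nat_lit 6181440024) (nat_lit 195) (nat_lit 5) (nat_lit 195) (nat_lit 3) (nat_lit 210) (nat_lit 3) (nat_lit 318) (nat_lit 318) (nat_lit 144)) (XT.lf (nat_lit 0) (nat_lit 10756030406) (nat_lit 1140) (nat_lit 7289103680) (nat_lit 1216) (nat_lit 5083076579) (nat_lit 195) (nat_lit 5) (nat_lit 210) (nat_lit 3) (nat_lit 211) (nat_lit 5) (nat_lit 319) (nat_lit 318) (nat_lit 143))) (XT.nd (nat_lit 78) (nat_lit 0) (nat_lit 76) (XT.lf (nat_lit 76) (nat_lit 3318271512) (nat_lit 0) (nat_lit 7853706928) (nat_lit 1216) (nat_lit 12300576884) (nat_lit 196) (nat_lit 5) (nat_lit 195) (nat_lit 5) (nat_lit 211) (nat_lit 5) (nat_lit 320) (nat_lit 318) (nat_lit 142)) (XT.lf (nat_lit 0) (nat_lit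 11695581591) (nat_lit 1140) (nat_lit 9460544193) (nat_lit 1216) (nat_lit 2668254626) (nat_lit 196) (nat_lit 5) (nat_lit 211) (nat_lit 5) (nat_lit 212) (nat_lit 5) (nat_lit 321) (nat_lit 318) (nat_lit 141)))))) (XT.nd (nat_lit 546) (nat_lit 836) (nat_lit 0) (XT.nd (nat_lit 234) (nat_lit 0) (nat_lit 76) (XT.nd (nat_lit 78) (nat_lit 0) (nat_lit 0) (XT.lf (nat_lit 76) (nat_lit 1502984422) (nat_lit 0) (nat_lit 10819680219) (nat_lit 1216) (nat_lit 11861467685) (nat_lit 197) (nat_lit 5) (nat_lit 196) (nat_lit 5) (nat_lit 212) (nat_lit 5) (nat_lit 322) (nat_lit 318) (nat_lit 140)) (XT.nd (nat_lit 78) (nat_lit 0) (nat_lit 76) (XT.lf (nat_lit 76) (nat_lit 12986783836) (nat_lit 0) (nat_lit 72978527) (nat_lit 1216) (nat_lit 11492183450) (nat_lit 197) (nat_lit 5) (nat_lit 196) (nat_lit 5) (nat_lit 212) (nat_lit 5) (nat_lit 323) (nat_lit 318) (nat_lit 139)) (XT.lf (nat_lit 0) (nat_lit 13920486322) (nat_lit 1140)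 (nat_lit 224037650) (nat_lit 1216) (nat_lit 10783229262) (nat_lit 197) (nat_lit 5) (nat_lit 212) (nat_lit 5) (nat_lit 213) (nat_lit 5) (nat_lit 324) (nat_lit 318) (nat_lit 138)))) (XT.nd (nat_lit 156) (nat_lit 0) (nat_lit 76) (XT.nd (nat_lit 78) (nat_lit 0) (nat_lit 76) (XT.lf (nat_lit 76) (nat_lit 11681992779) (nat_lit 0) (nat_lit 3233990059) (nat_lit 1216) (nat_lit 10395588303) (nat_lit 198) (nat_lit 5) (nat_lit 197) (nat_lit 5) (nat_lit 213) (nat_lit 5) (nat_lit 325) (nat_lit 318) (nat_lit 137)) (XT.lf (nat_lit 0) (nat_lit 16016608635) (nat_lit 1140) (nat_lit 1836674735) (nat_lit 1216) (nat_lit 7851366932) (nat_lit 198) (nat_lit 5) (nat_lit 213) (nat_lit 5) (nat_lit 214) (nat_lit 5) (nat_lit 326) (nat_lit 318) (nat_lit 136))) (XT.nd (nat_lit 78) (nat_lit 0) (nat_lit 76) (XT.lf (nat_lit 76) (nat_lit 10479899507) (nat_lit 0) (nat_lit 6799269543) (nat_lit 1216) (nat_lit 8826489823) (nat_lit 199)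 (nat_lit 5) (nat_lit 198) (nat_lit 5) (nat_lit 214) (nat_lit 5) (nat_lit 327) (nat_lit 318) (nat_lit 135)) (XT.lf (nat_lit 0) (nat_lit 18638679197) (nat_lit 1140) (nat_lit 3361491212) (nat_lit 1216) (nat_lit 4516759486) (nat_lit 199) (nat_lit 5) (nat_lit 214) (nat_lit 5) (nat_lit 215) (nat_lit 5) (nat_lit 328) (nat_lit 318) (nat_lit 134))))) (XT.nd (nat_lit 234) (nat_lit 1064) (nat_lit 0) (XT.nd (nat_lit 78) (nat_lit 0) (nat_lit 76) (XT.lf (nat_lit 76) (nat_lit 9383877028) (nat_lit 0) (nat_lit 10808985279) (nat_lit 1216) (nat_lit 6743064365) (nat_lit 200) (nat_lit 5) (nat_lit 199) (nat_lit 5) (nat_lit 215) (nat_lit 5) (nat_lit 329) (nat_lit 318) (nat_lit 133)) (XT.nd (nat_lit 78) (nat_lit 0) (nat_lit 0) (XT.lf (nat_lit 0) (nat_lit 21831307435) (nat_lit 1140) (nat_lit 4795914717) (nat_lit 1216) (nat_lit 739146233) (nat_lit 200) (nat_lit 5) (nat_lit 215) (nat_lit 5) (nat_lit 216) (nat_lit 5) (nat_lit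 330) (nat_lit 318) (nat_lit 132)) (XT.lf (nat_lit 76) (nat_lit 8397105508) (nat_lit 0) (nat_lit 15306096177) (nat_lit 1216) (nat_lit 4100996801) (nat_lit 201) (nat_lit 5) (nat_lit 200) (nat_lit 5) (nat_lit 216) (nat_lit 5) (nat_lit 331) (nat_lit 318) (nat_lit 131)))) (XT.nd (nat_lit 156) (nat_lit 1140) (nat_lit 0) (XT.nd (nat_lit 78) (nat_lit 0) (nat_lit 76) (XT.lf (nat_lit 76) (nat_lit 22081616878) (nat_lit 0) (nat_lit 3594698370) (nat_lit 1216) (nat_lit 2577500260) (nat_lit 201) (nat_lit 5) (nat_lit 200) (nat_lit 5) (nat_lit 216) (nat_lit 5) (nat_lit 332) (nat_lit 318) (nat_lit 130)) (XT.lf (nat_lit 76) (nat_lit 7522489558) (nat_lit 0) (nat_lit 20336581694) (nat_lit 1216) (nat_lit 853340096) (nat_lit 202) (nat_lit 5) (nat_lit 201) (nat_lit 5) (nat_lit 217) (nat_lit 5) (nat_lit 333) (nat_lit 318) (nat_lit 129))) (XT.nd (nat_lit 78) (nat_lit 0) (nat_lit 76) (XT.lf (nat_lit 0) (nat_lit 999850879)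 (nat_lit 1216) (nat_lit 7476114805) (nat_lit 1292) (nat_lit 20705677653) (nat_lit 185) (nat_lit 5) (nat_lit 201) (nat_lit 5) (nat_lit 202) (nat_lit 5) (nat_lit 334) (nat_lit 318) (nat_lit 128)) (XT.lf (nat_lit 0) (nat_lit 2990120838) (nat_lit 1216) (nat_lit 22929372444) (nat_lit 76) (nat_lit 3742249959) (nat_lit 186) (nat_lit 5) (nat_lit 202) (nat_lit 5) (nat_lit 187) (nat_lit 5) (nat_lit 335) (nat_lit 318) (nat_lit 127))))))) (XT.nd (nat_lit 1092) (nat_lit 2888) (nat_lit 0) (XT.nd (nat_lit 546) (nat_lit 2052) (nat_lit 0) (XT.nd (nat_lit 234) (nat_lit 1140) (nat_lit 0) (XT.nd (nat_lit 78) (nat_lit 684) (nat_lit 0) (XT.lf (nat_lit 0) (nat_lit 5197198908) (nat_lit 1216) (nat_lit 8720967203) (nat_lit 76) (nat_lit 16233370388) (nat_lit 186) (nat_lit 5) (nat_lit 202) (nat_lit 5) (nat_lit 187) (nat_lit 5) (nat_lit 336) (nat_lit 318) (nat_lit 126)) (XT.nd (nat_lit 78) (nat_lit 0) (nat_lit 0) (XT.lf (nat_lit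 0) (nat_lit 6028728561) (nat_lit 684) (nat_lit 1496739764) (nat_lit 760) (nat_lit 23128909120) (nat_lit 177) (nat_lit 5) (nat_lit 186) (nat_lit 5) (nat_lit 187) (nat_lit 5) (nat_lit 337) (nat_lit 318) (nat_lit 125)) (XT.lf (nat_lit 0) (nat_lit 10118211442) (nat_lit 760) (nat_lit 9882115978) (nat_lit 76) (nat_lit 11166140596) (nat_lit 177) (nat_lit 5) (nat_lit 187) (nat_lit 5) (nat_lit 178) (nat_lit 5) (nat_lit 338) (nat_lit 318) (nat_lit 124)))) (XT.nd (nat_lit 156) (nat_lit 532) (nat_lit 0) (XT.nd (nat_lit 78) (nat_lit 0) (nat_lit 0) (XT.lf (nat_lit 0) (nat_lit 5391517452) (nat_lit 608) (nat_lit 7461042041) (nat_lit 684) (nat_lit 18839450203) (nat_lit 169) (nat_lit 5) (nat_lit 177) (nat_lit 5) (nat_lit 178) (nat_lit 5) (nat_lit 339) (nat_lit 318) (nat_lit 123)) (XT.lf (nat_lit 0) (nat_lit 15819383541) (nat_lit 684) (nat_lit 10960466205) (nat_lit 76) (nat_lit 5448957498) (nat_lit 169) (nat_lit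 5) (nat_lit 178) (nat_lit 5) (nat_lit 170) (nat_lit 5) (nat_lit 340) (nat_lit 318) (nat_lit 122))) (XT.nd (nat_lit 78) (nat_lit 0) (nat_lit 0) (XT.lf (nat_lit 0) (nat_lit 4858108899) (nat_lit 532) (nat_lit 14134991024) (nat_lit 608) (nat_lit 13785075063) (nat_lit 162) (nat_lit 5) (nat_lit 169) (nat_lit 5) (nat_lit 170) (nat_lit 5) (nat_lit 341) (nat_lit 318) (nat_lit 121)) (XT.lf (nat_lit 0) (nat_lit 21373366140) (nat_lit 532) (nat_lit 996711272) (nat_lit 608) (nat_lit 10970707672) (nat_lit 162) (nat_lit 5) (nat_lit 169) (nat_lit 5) (nat_lit 170) (nat_lit 5) (nat_lit 342) (nat_lit 318) (nat_lit 120))))) (XT.nd (nat_lit 234) (nat_lit 1064) (nat_lit 0) (XT.nd (nat_lit 78) (nat_lit 456) (nat_lit 0) (XT.lf (nat_lit 0) (nat_lit 4427136441) (nat_lit 532) (nat_lit 21581732801) (nat_lit 608) (nat_lit 7906591822) (nat_lit 155) (nat_lit 5) (nat_lit 162) (nat_lit 5) (nat_lit 163) (nat_lit 5) (nat_lit 343)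 (nat_lit 318) (nat_lit 119)) (XT.nd (nat_lit 78) (nat_lit 456) (nat_lit 0) (XT.lf (nat_lit 0) (nat_lit 21546249540) (nat_lit 532) (nat_lit 8338692102) (nat_lit 608) (nat_lit 4618594827) (nat_lit 155) (nat_lit 5) (nat_lit 162) (nat_lit 5) (nat_lit 163) (nat_lit 5) (nat_lit 344) (nat_lit 318) (nat_lit 118)) (XT.lf (nat_lit 0) (nat_lit 4096113402) (nat_lit 456) (nat_lit 29869090019) (nat_lit 532) (nat_lit 1141416073) (nat_lit 149) (nat_lit 5) (nat_lit 155) (nat_lit 5) (nat_lit 156) (nat_lit 5) (nat_lit 345) (nat_lit 318) (nat_lit 117)))) (XT.nd (nat_lit 156) (nat_lit 456) (nat_lit 0) (XT.nd (nat_lit 78) (nat_lit 532) (nat_lit 0) (XT.lf (nat_lit 0) (nat_lit 2604754149) (nat_lit 532) (nat_lit 13907015923) (nat_lit 76) (nat_lit 19208954973) (nat_lit 148) (nat_lit 5) (nat_lit 155) (nat_lit 5) (nat_lit 149) (nat_lit 5) (nat_lit 346) (nat_lit 318) (nat_lit 116)) (XT.lf (nat_lit 0) (nat_lit 3769344568) (nat_lit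 532) (nat_lit 2704917833) (nat_lit 608) (nat_lit 29877637853) (nat_lit 141) (nat_lit 5) (nat_lit 148) (nat_lit 5) (nat_lit 149) (nat_lit 5) (nat_lit 347) (nat_lit 318) (nat_lit 115))) (XT.nd (nat_lit 78) (nat_lit 456) (nat_lit 0) (XT.lf (nat_lit 0) (nat_lit 10710083964) (nat_lit 608) (nat_lit 14851344113) (nat_lit 76) (nat_lit 11433078090) (nat_lit 141) (nat_lit 5) (nat_lit 149) (nat_lit 5) (nat_lit 142) (nat_lit 5) (nat_lit 348) (nat_lit 318) (nat_lit 114)) (XT.lf (nat_lit 0) (nat_lit 3449883997) (nat_lit 456) (nat_lit 11680810666) (nat_lit 532) (nat_lit 22523966375) (nat_lit 135) (nat_lit 5) (nat_lit 141) (nat_lit 5) (nat_lit 142) (nat_lit 5) (nat_lit 349) (nat_lit 318) (nat_lit 113)))))) (XT.nd (nat_lit 546) (nat_lit 1520) (nat_lit 0) (XT.nd (nat_lit 234) (nat_lit 912) (nat_lit 0) (XT.nd (nat_lit 78) (nat_lit 456) (nat_lit 0) (XT.lf (nat_lit 0) (nat_lit 19858336642) (nat_lit 532) (nat_lit 15754667562)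 (nat_lit 76) (nat_lit 2716386120) (nat_lit 135) (nat_lit 5) (nat_lit 142) (nat_lit 5) (nat_lit 136) (nat_lit 5) (nat_lit 350) (nat_lit 318) (nat_lit 112)) (XT.nd (nat_lit 78) (nat_lit 0) (nat_lit 0) (XT.lf (nat_lit 0) (nat_lit 3193177371) (nat_lit 456) (nat_lit 21678850561) (nat_lit 532) (nat_lit 14148009048) (nat_lit 129) (nat_lit 5) (nat_lit 135) (nat_lit 5) (nat_lit 136) (nat_lit 5) (nat_lit 351) (nat_lit 318) (nat_lit 111)) (XT.lf (nat_lit 0) (nat_lit 23030010053) (nat_lit 456) (nat_lit 7163123679) (nat_lit 532) (nat_lit 9533561221) (nat_lit 129) (nat_lit 5) (nat_lit 135) (nat_lit 5) (nat_lit 136) (nat_lit 5) (nat_lit 352) (nat_lit 318) (nat_lit 110)))) (XT.nd (nat_lit 156) (nat_lit 456) (nat_lit 0) (XT.nd (nat_lit 78) (nat_lit 76) (nat_lit 0) (XT.lf (nat_lit 0) (nat_lit 2988454128) (nat_lit 380) (nat_lit 32786979547) (nat_lit 456) (nat_lit 4676074133) (nat_lit 124) (nat_lit 5) (nat_lit 129)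 (nat_lit 5) (nat_lit 130) (nat_lit 5) (nat_lit 353) (nat_lit 318) (nat_lit 109)) (XT.lf (nat_lit 0) (nat_lit 559934181) (nat_lit 456) (nat_lit 17664741130) (nat_lit 76) (nat_lit 22966121851) (nat_lit 123) (nat_lit 5) (nat_lit 129) (nat_lit 5) (nat_lit 124) (nat_lit 5) (nat_lit 354) (nat_lit 318) (nat_lit 108))) (XT.nd (nat_lit 78) (nat_lit 0) (nat_lit 0) (XT.lf (nat_lit 0) (nat_lit 2732197082) (nat_lit 456) (nat_lit 3151148543) (nat_lit 532) (nat_lit 36066803220) (nat_lit 117) (nat_lit 5) (nat_lit 123) (nat_lit 5) (nat_lit 124) (nat_lit 5) (nat_lit 355) (nat_lit 318) (nat_lit 107)) (XT.lf (nat_lit 0) (nat_lit 11663631542) (nat_lit 532) (nat_lit 18746868184) (nat_lit 76) (nat_lit 12312867944) (nat_lit 117) (nat_lit 5) (nat_lit 124) (nat_lit 5) (nat_lit 118) (nat_lit 5) (nat_lit 356) (nat_lit 318) (nat_lit 106))))) (XT.nd (nat_lit 234) (nat_lit 760) (nat_lit 0) (XT.nd (nat_lit 78) (nat_lit 380) (nat_lit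 0) (XT.lf (nat_lit 0) (nat_lit 2350714867) (nat_lit 380) (nat_lit 15318537922) (nat_lit 456) (nat_lit 25848974169) (nat_lit 112) (nat_lit 5) (nat_lit 117) (nat_lit 5) (nat_lit 118) (nat_lit 5) (nat_lit 357) (nat_lit 318) (nat_lit 105)) (XT.nd (nat_lit 78) (nat_lit 380) (nat_lit 0) (XT.lf (nat_lit 0) (nat_lit 24046556797) (nat_lit 456) (nat_lit 19872117867) (nat_lit 76) (nat_lit 412513588) (nat_lit 112) (nat_lit 5) (nat_lit 118) (nat_lit 5) (nat_lit 113) (nat_lit 5) (nat_lit 358) (nat_lit 318) (nat_lit 104)) (XT.lf (nat_lit 0) (nat_lit 1946180123) (nat_lit 380) (nat_lit 28837588974) (nat_lit 456) (nat_lit 14379713217) (nat_lit 107) (nat_lit 5) (nat_lit 112) (nat_lit 5) (nat_lit 113) (nat_lit 5) (nat_lit 359) (nat_lit 318) (nat_lit 103)))) (XT.nd (nat_lit 156) (nat_lit 456) (nat_lit 0) (XT.nd (nat_lit 78) (nat_lit 304) (nat_lit 0) (XT.lf (nat_lit 0) (nat_lit 24824141857) (nat_lit 380) (nat_lit 13097868428)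 (nat_lit 456) (nat_lit 8092769093) (nat_lit 107) (nat_lit 5) (nat_lit 112) (nat_lit 5) (nat_lit 113) (nat_lit 5) (nat_lit 360) (nat_lit 318) (nat_lit 102)) (XT.lf (nat_lit 0) (nat_lit 1493815816) (nat_lit 304) (nat_lit 43823166177) (nat_lit 380) (nat_lit 1573357376) (nat_lit 103) (nat_lit 5) (nat_lit 107) (nat_lit 5) (nat_lit 108) (nat_lit 5) (nat_lit 361) (nat_lit 318) (nat_lit 101))) (XT.nd (nat_lit 78) (nat_lit 380) (nat_lit 0) (XT.lf (nat_lit 0) (nat_lit 5385389495) (nat_lit 380) (nat_lit 22676021994) (nat_lit 76) (nat_lit 19718950817) (nat_lit 102) (nat_lit 5) (nat_lit 107) (nat_lit 5) (nat_lit 103) (nat_lit 5) (nat_lit 362) (nat_lit 318) (nat_lit 100)) (XT.lf (nat_lit 0) (nat_lit 722439132) (nat_lit 380) (nat_lit 11804130997) (nat_lit 456) (nat_lit 36169891024) (nat_lit 97) (nat_lit 5) (nat_lit 102) (nat_lit 5) (nat_lit 103) (nat_lit 5) (nat_lit 363) (nat_lit 318) (nat_lit 99))))))))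
noncomputable def xc225 : XT := (XT.nd (nat_lit 2184) (nat_lit 304) (nat_lit 0) (XT.nd (nat_lit 1092) (nat_lit 1596) (nat_lit 0) (XT.nd (nat_lit 546) (nat_lit 912) (nat_lit 0) (XT.nd (nat_lit 234) (nat_lit 684) (nat_lit 0) (XT.nd (nat_lit 78) (nat_lit 304) (nat_lit 0) (XT.lf (nat_lit 0) (nat_lit 20159103362) (nat_lit 456) (nat_lit 24397443636) (nat_lit 76) (nat_lit 5075183795) (nat_lit 97) (nat_lit 5) (nat_lit 103) (nat_lit 5) (nat_lit 98) (nat_lit 5) (nat_lit 364) (nat_lit 318) (nat_lit 98)) (XT.nd (nat_lit 78) (nat_lit 304) (nat_lit 0) (XT.lf (nat_lit 0) (nat_lit 28135904606) (nat_lit 456) (nat_lit 232575119) (nat_lit 76) (nat_lit 22223121340) (nat_lit 97) (nat_lit 5) (nat_lit 103) (nat_lit 5) (nat_lit 98) (nat_lit 5) (nat_lit 365) (nat_lit 318) (nat_lit 97)) (XT.lf (nat_lit 0) (nat_lit 25145853156) (nat_lit 304) (nat_lit 11446339522) (nat_lit 380) (nat_lit 14980870550) (nat_lit 93) (nat_lit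 5) (nat_lit 97) (nat_lit 5) (nat_lit 98) (nat_lit 5) (nat_lit 366) (nat_lit 318) (nat_lit 96)))) (XT.nd (nat_lit 156) (nat_lit 304) (nat_lit 0) (XT.nd (nat_lit 78) (nat_lit 380) (nat_lit 0) (XT.lf (nat_lit 0) (nat_lit 45360543143) (nat_lit 380) (nat_lit 1353130379) (nat_lit 76) (nat_lit 5868545750) (nat_lit 93) (nat_lit 5) (nat_lit 98) (nat_lit 5) (nat_lit 94) (nat_lit 5) (nat_lit 367) (nat_lit 318) (nat_lit 95)) (XT.lf (nat_lit 0) (nat_lit 1109395121) (nat_lit 380) (nat_lit 28779430467) (nat_lit 76) (nat_lit 23721979465) (nat_lit 88) (nat_lit 5) (nat_lit 93) (nat_lit 5) (nat_lit 89) (nat_lit 5) (nat_lit 368) (nat_lit 318) (nat_lit 94))) (XT.nd (nat_lit 78) (nat_lit 304) (nat_lit 0) (XT.lf (nat_lit 0) (nat_lit 9557586584) (nat_lit 380) (nat_lit 2914365751) (nat_lit 76) (nat_lit 42195782047) (nat_lit 88) (nat_lit 5) (nat_lit 93) (nat_lit 5) (nat_lit 89) (nat_lit 5) (nat_lit 369) (nat_lit 318) (nat_lit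 93)) (XT.lf (nat_lit 0) (nat_lit 18545252296) (nat_lit 380) (nat_lit 31607456169) (nat_lit 76) (nat_lit 5595083363) (nat_lit 84) (nat_lit 5) (nat_lit 89) (nat_lit 5) (nat_lit 85) (nat_lit 5) (nat_lit 370) (nat_lit 318) (nat_lit 92))))) (XT.nd (nat_lit 234) (nat_lit 608) (nat_lit 0) (XT.nd (nat_lit 78) (nat_lit 304) (nat_lit 0) (XT.lf (nat_lit 0) (nat_lit 27954350419) (nat_lit 380) (nat_lit 4918725799) (nat_lit 76) (nat_lit 23982621766) (nat_lit 84) (nat_lit 5) (nat_lit 89) (nat_lit 5) (nat_lit 85) (nat_lit 5) (nat_lit 371) (nat_lit 318) (nat_lit 91)) (XT.nd (nat_lit 78) (nat_lit 0) (nat_lit 0) (XT.lf (nat_lit 0) (nat_lit 23017885244) (nat_lit 304) (nat_lit 14847736105) (nat_lit 380) (nat_lit 20124624008) (nat_lit 80) (nat_lit 5) (nat_lit 84) (nat_lit 5) (nat_lit 85) (nat_lit 5) (nat_lit 372) (nat_lit 318) (nat_lit 90)) (XT.lf (nat_lit 0) (nat_lit 48158788304) (nat_lit 380) (nat_lit 7302110022)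 (nat_lit 76) (nat_lit 3695395089) (nat_lit 80) (nat_lit 5) (nat_lit 85) (nat_lit 5) (nat_lit 81) (nat_lit 5) (nat_lit 373) (nat_lit 318) (nat_lit 89)))) (XT.nd (nat_lit 156) (nat_lit 304) (nat_lit 0) (XT.nd (nat_lit 78) (nat_lit 76) (nat_lit 0) (XT.lf (nat_lit 0) (nat_lit 21468260795) (nat_lit 228) (nat_lit 37644555478) (nat_lit 304) (nat_lit 1233945631) (nat_lit 77) (nat_lit 5) (nat_lit 80) (nat_lit 5) (nat_lit 81) (nat_lit 5) (nat_lit 374) (nat_lit 318) (nat_lit 88)) (XT.lf (nat_lit 0) (nat_lit 8723527502) (nat_lit 304) (nat_lit 10406751776) (nat_lit 76) (nat_lit 42437926880) (nat_lit 76) (nat_lit 5) (nat_lit 80) (nat_lit 5) (nat_lit 77) (nat_lit 5) (nat_lit 375) (nat_lit 318) (nat_lit 87))) (XT.nd (nat_lit 78) (nat_lit 0) (nat_lit 0) (XT.lf (nat_lit 0) (nat_lit 19140372577) (nat_lit 380) (nat_lit 43540447983) (nat_lit 76) (nat_lit 139544083) (nat_lit 72) (nat_lit 5) (nat_lit 77) (nat_lit 5)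 (nat_lit 73) (nat_lit 5) (nat_lit 376) (nat_lit 318) (nat_lit 86)) (XT.lf (nat_lit 0) (nat_lit 30164010261) (nat_lit 380) (nat_lit 14228740450) (nat_lit 76) (nat_lit 19708509417) (nat_lit 72) (nat_lit 5) (nat_lit 77) (nat_lit 5) (nat_lit 73) (nat_lit 5) (nat_lit 377) (nat_lit 318) (nat_lit 85)))))) (XT.nd (nat_lit 546) (nat_lit 608) (nat_lit 0) (XT.nd (nat_lit 234) (nat_lit 532) (nat_lit 0) (XT.nd (nat_lit 78) (nat_lit 228) (nat_lit 0) (XT.lf (nat_lit 0) (nat_lit 16278148688) (nat_lit 228) (nat_lit 25395470598) (nat_lit 304) (nat_lit 23742306161) (nat_lit 69) (nat_lit 5) (nat_lit 72) (nat_lit 5) (nat_lit 73) (nat_lit 5) (nat_lit 378) (nat_lit 318) (nat_lit 84)) (XT.nd (nat_lit 78) (nat_lit 228) (nat_lit 0) (XT.lf (nat_lit 0) (nat_lit 47990122591) (nat_lit 228) (nat_lit 5680881124) (nat_lit 304) (nat_lit 13094753211) (nat_lit 69) (nat_lit 5) (nat_lit 72) (nat_lit 5) (nat_lit 73) (nat_lit 5) (nat_lit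 379) (nat_lit 318) (nat_lit 83)) (XT.lf (nat_lit 0) (nat_lit 12600900691) (nat_lit 228) (nat_lit 53687956350) (nat_lit 304) (nat_lit 1859410675) (nat_lit 66) (nat_lit 5) (nat_lit 69) (nat_lit 5) (nat_lit 70) (nat_lit 5) (nat_lit 380) (nat_lit 318) (nat_lit 82)))) (XT.nd (nat_lit 156) (nat_lit 228) (nat_lit 0) (XT.nd (nat_lit 78) (nat_lit 228) (nat_lit 0) (XT.lf (nat_lit 0) (nat_lit 9770016205) (nat_lit 304) (nat_lit 24416224054) (nat_lit 76) (nat_lit 35375816511) (nat_lit 65) (nat_lit 5) (nat_lit 69) (nat_lit 5) (nat_lit 66) (nat_lit 5) (nat_lit 381) (nat_lit 318) (nat_lit 81)) (XT.lf (nat_lit 0) (nat_lit 7780540211) (nat_lit 228) (nat_lit 14004077389) (nat_lit 304) (nat_lit 49230880398) (nat_lit 62) (nat_lit 5) (nat_lit 65) (nat_lit 5) (nat_lit 66) (nat_lit 5) (nat_lit 382) (nat_lit 318) (nat_lit 80))) (XT.nd (nat_lit 78) (nat_lit 228) (nat_lit 0) (XT.lf (nat_lit 0) (nat_lit 34472745111) (nat_lit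 304) (nat_lit 31130819150) (nat_lit 76) (nat_lit 6899586260) (nat_lit 62) (nat_lit 5) (nat_lit 66) (nat_lit 5) (nat_lit 63) (nat_lit 5) (nat_lit 383) (nat_lit 318) (nat_lit 79)) (XT.lf (nat_lit 0) (nat_lit 1831845369) (nat_lit 228) (nat_lit 45864849954) (nat_lit 304) (nat_lit 26334082611) (nat_lit 59) (nat_lit 5) (nat_lit 62) (nat_lit 5) (nat_lit 63) (nat_lit 5) (nat_lit 384) (nat_lit 318) (nat_lit 78))))) (XT.nd (nat_lit 234) (nat_lit 380) (nat_lit 0) (XT.nd (nat_lit 78) (nat_lit 228) (nat_lit 0) (XT.lf (nat_lit 0) (nat_lit 36419867720) (nat_lit 228) (nat_lit 25210787873) (nat_lit 304) (nat_lit 13964180491) (nat_lit 59) (nat_lit 5) (nat_lit 62) (nat_lit 5) (nat_lit 63) (nat_lit 5) (nat_lit 385) (nat_lit 318) (nat_lit 77)) (XT.nd (nat_lit 78) (nat_lit 228) (nat_lit 0) (XT.lf (nat_lit 0) (nat_lit 72043906103) (nat_lit 228) (nat_lit 3937691013) (nat_lit 304) (nat_lit 1224250629) (nat_lit 59) (nat_lit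 5) (nat_lit 62) (nat_lit 5) (nat_lit 63) (nat_lit 5) (nat_lit 386) (nat_lit 318) (nat_lit 76)) (XT.lf (nat_lit 0) (nat_lit 12133197783) (nat_lit 228) (nat_lit 48682125557) (nat_lit 76) (nat_lit 18032411199) (nat_lit 56) (nat_lit 5) (nat_lit 59) (nat_lit 5) (nat_lit 57) (nat_lit 5) (nat_lit 387) (nat_lit 318) (nat_lit 75)))) (XT.nd (nat_lit 156) (nat_lit 152) (nat_lit 0) (XT.nd (nat_lit 78) (nat_lit 228) (nat_lit 0) (XT.lf (nat_lit 0) (nat_lit 25957382997) (nat_lit 228) (nat_lit 13931745367) (nat_lit 76) (nat_lit 40646667932) (nat_lit 56) (nat_lit 5) (nat_lit 59) (nat_lit 5) (nat_lit 57) (nat_lit 5) (nat_lit 388) (nat_lit 318) (nat_lit 74)) (XT.lf (nat_lit 0) (nat_lit 22294634024) (nat_lit 228) (nat_lit 18114989745) (nat_lit 304) (nat_lit 41858476808) (nat_lit 53) (nat_lit 5) (nat_lit 56) (nat_lit 5) (nat_lit 57) (nat_lit 5) (nat_lit 389) (nat_lit 318) (nat_lit 73))) (XT.nd (nat_lit 78) (nat_lit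 152) (nat_lit 0) (XT.lf (nat_lit 0) (nat_lit 55477989595) (nat_lit 304) (nat_lit 24199177114) (nat_lit 76) (nat_lit 4369731095) (nat_lit 53) (nat_lit 5) (nat_lit 57) (nat_lit 5) (nat_lit 54) (nat_lit 5) (nat_lit 390) (nat_lit 318) (nat_lit 72)) (XT.lf (nat_lit 0) (nat_lit 12715587830) (nat_lit 152) (nat_lit 58583461653) (nat_lit 228) (nat_lit 14570990710) (nat_lit 51) (nat_lit 5) (nat_lit 53) (nat_lit 5) (nat_lit 54) (nat_lit 5) (nat_lit 391) (nat_lit 318) (nat_lit 71))))))) (XT.nd (nat_lit 35802) (nat_lit 0) (nat_lit 8740) (XT.nd (nat_lit 35256) (nat_lit 0) (nat_lit 11324) (XT.nd (nat_lit 34944) (nat_lit 0) (nat_lit 11248) (XT.nd (nat_lit 78) (nat_lit 228) (nat_lit 0) (XT.lf (nat_lit 0) (nat_lit 95696223) (nat_lit 228) (nat_lit 36509166248) (nat_lit 76) (nat_lit 51135683740) (nat_lit 50) (nat_lit 5) (nat_lit 53) (nat_lit 5) (nat_lit 51) (nat_lit 5) (nat_lit 392) (nat_lit 318) (nat_lit 70)) (XT.nd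 (nat_lit 78) (nat_lit 0) (nat_lit 0) (XT.lf (nat_lit 0) (nat_lit 1111415403) (nat_lit 228) (nat_lit 13807876852) (nat_lit 304) (nat_lit 74743254499) (nat_lit 47) (nat_lit 5) (nat_lit 50) (nat_lit 5) (nat_lit 51) (nat_lit 5) (nat_lit 393) (nat_lit 318) (nat_lit 69)) (XT.lf (nat_lit 0) (nat_lit 30651994702) (nat_lit 304) (nat_lit 51120254744) (nat_lit 76) (nat_lit 9856026388) (nat_lit 47) (nat_lit 5) (nat_lit 51) (nat_lit 5) (nat_lit 48) (nat_lit 5) (nat_lit 394) (nat_lit 318) (nat_lit 68)))) (XT.nd (nat_lit 156) (nat_lit 0) (nat_lit 0) (XT.nd (nat_lit 78) (nat_lit 0) (nat_lit 0) (XT.lf (nat_lit 0) (nat_lit 2745335159) (nat_lit 0) (nat_lit 2745335159) (nat_lit 1140) (nat_lit 6243269129) (nat_lit 195) (nat_lit 5) (nat_lit 195) (nat_lit 3) (nat_lit 210) (nat_lit 3) (nat_lit 319) (nat_lit 319) (nat_lit 142)) (XT.lf (nat_lit 0) (nat_lit 11310363343) (nat_lit 1140) (nat_lit 7383016050) (nat_lit 1216)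 (nat_lit 5121454579) (nat_lit 195) (nat_lit 5) (nat_lit 210) (nat_lit 3) (nat_lit 211) (nat_lit 5) (nat_lit 320) (nat_lit 319) (nat_lit 141))) (XT.nd (nat_lit 78) (nat_lit 0) (nat_lit 76) (XT.lf (nat_lit 76) (nat_lit 3541357254) (nat_lit 0) (nat_lit 8191872937) (nat_lit 1216) (nat_lit 12436453533) (nat_lit 196) (nat_lit 5) (nat_lit 195) (nat_lit 5) (nat_lit 211) (nat_lit 5) (nat_lit 321) (nat_lit 319) (nat_lit 140)) (XT.lf (nat_lit 0) (nat_lit 12264999114) (nat_lit 1140) (nat_lit 9616621028) (nat_lit 1216) (nat_lit 2650677423) (nat_lit 196) (nat_lit 5) (nat_lit 211) (nat_lit 5) (nat_lit 212) (nat_lit 5) (nat_lit 322) (nat_lit 319) (nat_lit 139))))) (XT.nd (nat_lit 234) (nat_lit 0) (nat_lit 76) (XT.nd (nat_lit 78) (nat_lit 0) (nat_lit 0) (XT.lf (nat_lit 76) (nat_lit 1674561098) (nat_lit 0) (nat_lit 11231183893) (nat_lit 1216) (nat_lit 11997259044) (nat_lit 197) (nat_lit 5) (nat_lit 196) (nat_lit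 5) (nat_lit 212) (nat_lit 5) (nat_lit 323) (nat_lit 319) (nat_lit 138)) (XT.nd (nat_lit 78) (nat_lit 0) (nat_lit 76) (XT.lf (nat_lit 76) (nat_lit 13499190403) (nat_lit 0) (nat_lit 159549695) (nat_lit 1216) (nat_lit 11623305583) (nat_lit 197) (nat_lit 5) (nat_lit 196) (nat_lit 5) (nat_lit 212) (nat_lit 5) (nat_lit 324) (nat_lit 319) (nat_lit 137)) (XT.lf (nat_lit 0) (nat_lit 14538463761) (nat_lit 1140) (nat_lit 104474618) (nat_lit 1216) (nat_lit 11026400684) (nat_lit 197) (nat_lit 5) (nat_lit 212) (nat_lit 5) (nat_lit 213) (nat_lit 5) (nat_lit 325) (nat_lit 319) (nat_lit 136)))) (XT.nd (nat_lit 156) (nat_lit 0) (nat_lit 76) (XT.nd (nat_lit 78) (nat_lit 0) (nat_lit 76) (XT.lf (nat_lit 76) (nat_lit 12157498644) (nat_lit 0) (nat_lit 3401692737) (nat_lit 1216) (nat_lit 10505626010) (nat_lit 198) (nat_lit 5) (nat_lit 197) (nat_lit 5) (nat_lit 213) (nat_lit 5) (nat_lit 326) (nat_lit 319) (nat_lit 135))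 (XT.lf (nat_lit 0) (nat_lit 16686475447) (nat_lit 1140) (nat_lit 1763788167) (nat_lit 1216) (nat_lit 8019622798) (nat_lit 198) (nat_lit 5) (nat_lit 213) (nat_lit 5) (nat_lit 214) (nat_lit 5) (nat_lit 327) (nat_lit 319) (nat_lit 134))) (XT.nd (nat_lit 78) (nat_lit 0) (nat_lit 76) (XT.lf (nat_lit 76) (nat_lit 10921028530) (nat_lit 0) (nat_lit 7061586782) (nat_lit 1216) (nat_lit 8900445326) (nat_lit 199) (nat_lit 5) (nat_lit 198) (nat_lit 5) (nat_lit 214) (nat_lit 5) (nat_lit 328) (nat_lit 319) (nat_lit 133)) (XT.lf (nat_lit 0) (nat_lit 19376975883) (nat_lit 1140) (nat_lit 3333150675) (nat_lit 1216) (nat_lit 4596727566) (nat_lit 199) (nat_lit 5) (nat_lit 214) (nat_lit 5) (nat_lit 215) (nat_lit 5) (nat_lit 329) (nat_lit 319) (nat_lit 132)))))) (XT.nd (nat_lit 546) (nat_lit 1748) (nat_lit 0) (XT.nd (nat_lit 234) (nat_lit 1064) (nat_lit 0) (XT.nd (nat_lit 78) (nat_lit 0) (nat_lit 76) (XT.lf (nat_lit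 76) (nat_lit 9793312090) (nat_lit 0) (nat_lit 11180484466) (nat_lit 1216) (nat_lit 6764749990) (nat_lit 200) (nat_lit 5) (nat_lit 199) (nat_lit 5) (nat_lit 215) (nat_lit 5) (nat_lit 330) (nat_lit 319) (nat_lit 131)) (XT.nd (nat_lit 78) (nat_lit 0) (nat_lit 0) (XT.lf (nat_lit 0) (nat_lit 22655852853) (nat_lit 1140) (nat_lit 4809859462) (nat_lit 1216) (nat_lit 716361388) (nat_lit 200) (nat_lit 5) (nat_lit 215) (nat_lit 5) (nat_lit 216) (nat_lit 5) (nat_lit 331) (nat_lit 319) (nat_lit 130)) (XT.lf (nat_lit 76) (nat_lit 8777677520) (nat_lit 0) (nat_lit 15802523171) (nat_lit 1216) (nat_lit 4052954866) (nat_lit 201) (nat_lit 5) (nat_lit 200) (nat_lit 5) (nat_lit 216) (nat_lit 5) (nat_lit 332) (nat_lit 319) (nat_lit 129)))) (XT.nd (nat_lit 156) (nat_lit 1140) (nat_lit 0) (XT.nd (nat_lit 78) (nat_lit 0) (nat_lit 76) (XT.lf (nat_lit 76) (nat_lit 22868976886) (nat_lit 0) (nat_lit 3738698650) (nat_lit 1216)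 (nat_lit 2488736104) (nat_lit 201) (nat_lit 5) (nat_lit 200) (nat_lit 5) (nat_lit 216) (nat_lit 5) (nat_lit 333) (nat_lit 319) (nat_lit 128)) (XT.lf (nat_lit 76) (nat_lit 7877164435) (nat_lit 0) (nat_lit 20974960968) (nat_lit 1216) (nat_lit 716759040) (nat_lit 202) (nat_lit 5) (nat_lit 201) (nat_lit 5) (nat_lit 217) (nat_lit 5) (nat_lit 334) (nat_lit 319) (nat_lit 127))) (XT.nd (nat_lit 78) (nat_lit 0) (nat_lit 76) (XT.lf (nat_lit 0) (nat_lit 1184231376) (nat_lit 1216) (nat_lit 7571912374) (nat_lit 1292) (nat_lit 21296146931) (nat_lit 185) (nat_lit 5) (nat_lit 201) (nat_lit 5) (nat_lit 202) (nat_lit 5) (nat_lit 335) (nat_lit 319) (nat_lit 126)) (XT.lf (nat_lit 0) (nat_lit 3230706162) (nat_lit 1216) (nat_lit 23485099028) (nat_lit 76) (nat_lit 3831098454) (nat_lit 186) (nat_lit 5) (nat_lit 202) (nat_lit 5) (nat_lit 187) (nat_lit 5) (nat_lit 336) (nat_lit 319) (nat_lit 125))))) (XT.nd (nat_lit 234)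 (nat_lit 1140) (nat_lit 0) (XT.nd (nat_lit 78) (nat_lit 684) (nat_lit 0) (XT.lf (nat_lit 0) (nat_lit 5499601961) (nat_lit 1216) (nat_lit 8854290792) (nat_lit 76) (nat_lit 16697634604) (nat_lit 186) (nat_lit 5) (nat_lit 202) (nat_lit 5) (nat_lit 187) (nat_lit 5) (nat_lit 337) (nat_lit 319) (nat_lit 124)) (XT.nd (nat_lit 78) (nat_lit 0) (nat_lit 0) (XT.lf (nat_lit 0) (nat_lit 6336637949) (nat_lit 684) (nat_lit 1558036156) (nat_lit 760) (nat_lit 23674875465) (nat_lit 177) (nat_lit 5) (nat_lit 186) (nat_lit 5) (nat_lit 187) (nat_lit 5) (nat_lit 338) (nat_lit 319) (nat_lit 123)) (XT.lf (nat_lit 0) (nat_lit 10560868600) (nat_lit 760) (nat_lit 10050750020) (nat_lit 76) (nat_lit 11485518708) (nat_lit 177) (nat_lit 5) (nat_lit 187) (nat_lit 5) (nat_lit 178) (nat_lit 5) (nat_lit 339) (nat_lit 319) (nat_lit 122)))) (XT.nd (nat_lit 156) (nat_lit 532) (nat_lit 0) (XT.nd (nat_lit 78) (nat_lit 0) (nat_lit 0)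 (XT.lf (nat_lit 0) (nat_lit 5679839183) (nat_lit 608) (nat_lit 7694572866) (nat_lit 684) (nat_lit 19264122670) (nat_lit 169) (nat_lit 5) (nat_lit 177) (nat_lit 5) (nat_lit 178) (nat_lit 5) (nat_lit 340) (nat_lit 319) (nat_lit 121)) (XT.lf (nat_lit 0) (nat_lit 16426181099) (nat_lit 684) (nat_lit 11162188236) (nat_lit 76) (nat_lit 5603192932) (nat_lit 169) (nat_lit 5) (nat_lit 178) (nat_lit 5) (nat_lit 170) (nat_lit 5) (nat_lit 341) (nat_lit 319) (nat_lit 120))) (XT.nd (nat_lit 78) (nat_lit 0) (nat_lit 0) (XT.lf (nat_lit 0) (nat_lit 5129698121) (nat_lit 532) (nat_lit 14562769606) (nat_lit 608) (nat_lit 14065026708) (nat_lit 162) (nat_lit 5) (nat_lit 169) (nat_lit 5) (nat_lit 170) (nat_lit 5) (nat_lit 342) (nat_lit 319) (nat_lit 119)) (XT.lf (nat_lit 0) (nat_lit 22136747663) (nat_lit 532) (nat_lit 1030232854) (nat_lit 608) (nat_lit 11170119575) (nat_lit 162) (nat_lit 5) (nat_lit 169) (nat_lit 5) (nat_lit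 170) (nat_lit 5) (nat_lit 343) (nat_lit 319) (nat_lit 118))))))))
noncomputable def xc226 : XT := (XT.nd (nat_lit 2106) (nat_lit 3116) (nat_lit 0) (XT.nd (nat_lit 1014) (nat_lit 2204) (nat_lit 0) (XT.nd (nat_lit 468) (nat_lit 1824) (nat_lit 0) (XT.nd (nat_lit 234) (nat_lit 608) (nat_lit 0) (XT.nd (nat_lit 78) (nat_lit 456) (nat_lit 0) (XT.lf (nat_lit 0) (nat_lit 4684837909) (nat_lit 532) (nat_lit 22227600800) (nat_lit 608) (nat_lit 8016656482) (nat_lit 155) (nat_lit 5) (nat_lit 162) (nat_lit 5) (nat_lit 163) (nat_lit 5) (nat_lit 344) (nat_lit 319) (nat_lit 117)) (XT.nd (nat_lit 78) (nat_lit 456) (nat_lit 0) (XT.lf (nat_lit 0) (nat_lit 22313886905) (nat_lit 532) (nat_lit 8587315016) (nat_lit 608) (nat_lit 4633722483) (nat_lit 155) (nat_lit 5) (nat_lit 162) (nat_lit 5) (nat_lit 163) (nat_lit 5) (nat_lit 345) (nat_lit 319) (nat_lit 116)) (XT.lf (nat_lit 0) (nat_lit 4342725028) (nat_lit 456) (nat_lit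 30758863471) (nat_lit 532) (nat_lit 1054583605) (nat_lit 149) (nat_lit 5) (nat_lit 155) (nat_lit 5) (nat_lit 156) (nat_lit 5) (nat_lit 346) (nat_lit 319) (nat_lit 115)))) (XT.nd (nat_lit 78) (nat_lit 532) (nat_lit 0) (XT.lf (nat_lit 0) (nat_lit 2798151474) (nat_lit 532) (nat_lit 14201692078) (nat_lit 76) (nat_lit 19788929564) (nat_lit 148) (nat_lit 5) (nat_lit 155) (nat_lit 5) (nat_lit 149) (nat_lit 5) (nat_lit 347) (nat_lit 319) (nat_lit 114)) (XT.nd (nat_lit 78) (nat_lit 0) (nat_lit 0) (XT.lf (nat_lit 0) (nat_lit 4003757911) (nat_lit 532) (nat_lit 2777796458) (nat_lit 608) (nat_lit 30657398312) (nat_lit 141) (nat_lit 5) (nat_lit 148) (nat_lit 5) (nat_lit 149) (nat_lit 5) (nat_lit 348) (nat_lit 319) (nat_lit 113)) (XT.lf (nat_lit 0) (nat_lit 11141234619) (nat_lit 608) (nat_lit 15175760065) (nat_lit 76) (nat_lit 11783941845) (nat_lit 141) (nat_lit 5) (nat_lit 149) (nat_lit 5) (nat_lit 142) (nat_lit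 5) (nat_lit 349) (nat_lit 319) (nat_lit 112))))) (XT.nd (nat_lit 234) (nat_lit 912) (nat_lit 0) (XT.nd (nat_lit 78) (nat_lit 456) (nat_lit 0) (XT.lf (nat_lit 0) (nat_lit 3673317394) (nat_lit 456) (nat_lit 12019099692) (nat_lit 532) (nat_lit 23088543544) (nat_lit 135) (nat_lit 5) (nat_lit 141) (nat_lit 5) (nat_lit 142) (nat_lit 5) (nat_lit 350) (nat_lit 319) (nat_lit 111)) (XT.nd (nat_lit 78) (nat_lit 456) (nat_lit 0) (XT.lf (nat_lit 0) (nat_lit 20558861727) (nat_lit 532) (nat_lit 16107734323) (nat_lit 76) (nat_lit 2809429636) (nat_lit 135) (nat_lit 5) (nat_lit 142) (nat_lit 5) (nat_lit 136) (nat_lit 5) (nat_lit 351) (nat_lit 319) (nat_lit 110)) (XT.lf (nat_lit 0) (nat_lit 3407373672) (nat_lit 456) (nat_lit 22313676527) (nat_lit 532) (nat_lit 14466401951) (nat_lit 129) (nat_lit 5) (nat_lit 135) (nat_lit 5) (nat_lit 136) (nat_lit 5) (nat_lit 352) (nat_lit 319) (nat_lit 109)))) (XT.nd (nat_lit 156)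 (nat_lit 532) (nat_lit 0) (XT.nd (nat_lit 78) (nat_lit 380) (nat_lit 0) (XT.lf (nat_lit 0) (nat_lit 23835862762) (nat_lit 456) (nat_lit 7362930447) (nat_lit 532) (nat_lit 9716609447) (nat_lit 129) (nat_lit 5) (nat_lit 135) (nat_lit 5) (nat_lit 136) (nat_lit 5) (nat_lit 353) (nat_lit 319) (nat_lit 108)) (XT.lf (nat_lit 0) (nat_lit 3194852391) (nat_lit 380) (nat_lit 33752064078) (nat_lit 456) (nat_lit 4715095629) (nat_lit 124) (nat_lit 5) (nat_lit 129) (nat_lit 5) (nat_lit 130) (nat_lit 5) (nat_lit 354) (nat_lit 319) (nat_lit 107))) (XT.nd (nat_lit 78) (nat_lit 456) (nat_lit 0) (XT.lf (nat_lit 0) (nat_lit 673125183) (nat_lit 456) (nat_lit 18079331710) (nat_lit 76) (nat_lit 23671083459) (nat_lit 123) (nat_lit 5) (nat_lit 129) (nat_lit 5) (nat_lit 124) (nat_lit 5) (nat_lit 355) (nat_lit 319) (nat_lit 106)) (XT.lf (nat_lit 0) (nat_lit 2928383750) (nat_lit 456) (nat_lit 3226145619) (nat_lit 532) (nat_lit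 37051197098) (nat_lit 117) (nat_lit 5) (nat_lit 123) (nat_lit 5) (nat_lit 124) (nat_lit 5) (nat_lit 356) (nat_lit 319) (nat_lit 105)))))) (XT.nd (nat_lit 546) (nat_lit 1064) (nat_lit 0) (XT.nd (nat_lit 234) (nat_lit 760) (nat_lit 0) (XT.nd (nat_lit 78) (nat_lit 380) (nat_lit 0) (XT.lf (nat_lit 0) (nat_lit 12105648430) (nat_lit 532) (nat_lit 19195721031) (nat_lit 76) (nat_lit 12700852173) (nat_lit 117) (nat_lit 5) (nat_lit 124) (nat_lit 5) (nat_lit 118) (nat_lit 5) (nat_lit 357) (nat_lit 319) (nat_lit 104)) (XT.nd (nat_lit 78) (nat_lit 0) (nat_lit 0) (XT.lf (nat_lit 0) (nat_lit 2533676246) (nat_lit 380) (nat_lit 15756160154) (nat_lit 456) (nat_lit 26531140799) (nat_lit 112) (nat_lit 5) (nat_lit 117) (nat_lit 5) (nat_lit 118) (nat_lit 5) (nat_lit 358) (nat_lit 319) (nat_lit 103)) (XT.lf (nat_lit 0) (nat_lit 24856028132) (nat_lit 456) (nat_lit 20356606007) (nat_lit 76) (nat_lit 445768505) (nat_lit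 112) (nat_lit 5) (nat_lit 118) (nat_lit 5) (nat_lit 113) (nat_lit 5) (nat_lit 359) (nat_lit 319) (nat_lit 102)))) (XT.nd (nat_lit 156) (nat_lit 380) (nat_lit 0) (XT.nd (nat_lit 78) (nat_lit 0) (nat_lit 0) (XT.lf (nat_lit 0) (nat_lit 2115146067) (nat_lit 380) (nat_lit 29678708421) (nat_lit 456) (nat_lit 14721858411) (nat_lit 107) (nat_lit 5) (nat_lit 112) (nat_lit 5) (nat_lit 113) (nat_lit 5) (nat_lit 360) (nat_lit 319) (nat_lit 101)) (XT.lf (nat_lit 0) (nat_lit 25676225860) (nat_lit 380) (nat_lit 13467495527) (nat_lit 456) (nat_lit 8248905368) (nat_lit 107) (nat_lit 5) (nat_lit 112) (nat_lit 5) (nat_lit 113) (nat_lit 5) (nat_lit 361) (nat_lit 319) (nat_lit 100))) (XT.nd (nat_lit 78) (nat_lit 76) (nat_lit 0) (XT.lf (nat_lit 0) (nat_lit 1647286181) (nat_lit 304) (nat_lit 45112069984) (nat_lit 380) (nat_lit 1535135131) (nat_lit 103) (nat_lit 5) (nat_lit 107) (nat_lit 5) (nat_lit 108) (nat_lit 5) (nat_lit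 362) (nat_lit 319) (nat_lit 99)) (XT.lf (nat_lit 0) (nat_lit 5628267740) (nat_lit 380) (nat_lit 23249124977) (nat_lit 76) (nat_lit 20333872801) (nat_lit 102) (nat_lit 5) (nat_lit 107) (nat_lit 5) (nat_lit 103) (nat_lit 5) (nat_lit 363) (nat_lit 319) (nat_lit 98))))) (XT.nd (nat_lit 234) (nat_lit 684) (nat_lit 0) (XT.nd (nat_lit 78) (nat_lit 0) (nat_lit 0) (XT.lf (nat_lit 0) (nat_lit 850239220) (nat_lit 380) (nat_lit 12132096285) (nat_lit 456) (nat_lit 37172554259) (nat_lit 97) (nat_lit 5) (nat_lit 102) (nat_lit 5) (nat_lit 103) (nat_lit 5) (nat_lit 364) (nat_lit 319) (nat_lit 97)) (XT.nd (nat_lit 78) (nat_lit 0) (nat_lit 0) (XT.lf (nat_lit 0) (nat_lit 20841759691) (nat_lit 456) (nat_lit 25024181814) (nat_lit 76) (nat_lit 5252340467) (nat_lit 97) (nat_lit 5) (nat_lit 103) (nat_lit 5) (nat_lit 98) (nat_lit 5) (nat_lit 365) (nat_lit 319) (nat_lit 96)) (XT.lf (nat_lit 0) (nat_lit 29055596530) (nat_lit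 456) (nat_lit 137430886) (nat_lit 76) (nat_lit 22913990861) (nat_lit 97) (nat_lit 5) (nat_lit 103) (nat_lit 5) (nat_lit 98) (nat_lit 5) (nat_lit 366) (nat_lit 319) (nat_lit 95)))) (XT.nd (nat_lit 156) (nat_lit 380) (nat_lit 0) (XT.nd (nat_lit 78) (nat_lit 0) (nat_lit 0) (XT.lf (nat_lit 0) (nat_lit 26001349047) (nat_lit 304) (nat_lit 11762993855) (nat_lit 380) (nat_lit 15353620130) (nat_lit 93) (nat_lit 5) (nat_lit 97) (nat_lit 5) (nat_lit 98) (nat_lit 5) (nat_lit 367) (nat_lit 319) (nat_lit 94)) (XT.lf (nat_lit 0) (nat_lit 46793826860) (nat_lit 380) (nat_lit 1293573428) (nat_lit 76) (nat_lit 6070052743) (nat_lit 93) (nat_lit 5) (nat_lit 98) (nat_lit 5) (nat_lit 94) (nat_lit 5) (nat_lit 368) (nat_lit 319) (nat_lit 93))) (XT.nd (nat_lit 78) (nat_lit 0) (nat_lit 0) (XT.lf (nat_lit 0) (nat_lit 1214748977) (nat_lit 380) (nat_lit 29542154596) (nat_lit 76) (nat_lit 24460008051) (nat_lit 88) (nat_lit 5)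 (nat_lit 93) (nat_lit 5) (nat_lit 89) (nat_lit 5) (nat_lit 369) (nat_lit 319) (nat_lit 92)) (XT.lf (nat_lit 0) (nat_lit 9914287000) (nat_lit 380) (nat_lit 2904069748) (nat_lit 76) (nat_lit 43487256675) (nat_lit 88) (nat_lit 5) (nat_lit 93) (nat_lit 5) (nat_lit 89) (nat_lit 5) (nat_lit 370) (nat_lit 319) (nat_lit 91))))))) (XT.nd (nat_lit 1092) (nat_lit 1140) (nat_lit 0) (XT.nd (nat_lit 546) (nat_lit 760) (nat_lit 0) (XT.nd (nat_lit 234) (nat_lit 608) (nat_lit 0) (XT.nd (nat_lit 78) (nat_lit 304) (nat_lit 0) (XT.lf (nat_lit 0) (nat_lit 19170743070) (nat_lit 380) (nat_lit 32457061026) (nat_lit 76) (nat_lit 5790295250) (nat_lit 84) (nat_lit 5) (nat_lit 89) (nat_lit 5) (nat_lit 85) (nat_lit 5) (nat_lit 371) (nat_lit 319) (nat_lit 90)) (XT.nd (nat_lit 78) (nat_lit 304) (nat_lit 0) (XT.lf (nat_lit 0) (nat_lit 28860100549) (nat_lit 380) (nat_lit 4970541138) (nat_lit 76) (nat_lit 24728662930) (nat_lit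 84) (nat_lit 5) (nat_lit 89) (nat_lit 5) (nat_lit 85) (nat_lit 5) (nat_lit 372) (nat_lit 319) (nat_lit 89)) (XT.lf (nat_lit 0) (nat_lit 23803229545) (nat_lit 304) (nat_lit 15264436471) (nat_lit 380) (nat_lit 20660255181) (nat_lit 80) (nat_lit 5) (nat_lit 84) (nat_lit 5) (nat_lit 85) (nat_lit 5) (nat_lit 373) (nat_lit 319) (nat_lit 88)))) (XT.nd (nat_lit 156) (nat_lit 380) (nat_lit 0) (XT.nd (nat_lit 78) (nat_lit 228) (nat_lit 0) (XT.lf (nat_lit 0) (nat_lit 49667971578) (nat_lit 380) (nat_lit 7427422760) (nat_lit 76) (nat_lit 3833607484) (nat_lit 80) (nat_lit 5) (nat_lit 85) (nat_lit 5) (nat_lit 81) (nat_lit 5) (nat_lit 374) (nat_lit 319) (nat_lit 87)) (XT.lf (nat_lit 0) (nat_lit 22205140058) (nat_lit 228) (nat_lit 38744496381) (nat_lit 304) (nat_lit 1205578837) (nat_lit 77) (nat_lit 5) (nat_lit 80) (nat_lit 5) (nat_lit 81) (nat_lit 5) (nat_lit 375) (nat_lit 319) (nat_lit 86))) (XT.nd (nat_lit 78)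 (nat_lit 304) (nat_lit 0) (XT.lf (nat_lit 0) (nat_lit 9047475329) (nat_lit 304) (nat_lit 10627544231) (nat_lit 76) (nat_lit 43738321772) (nat_lit 76) (nat_lit 5) (nat_lit 80) (nat_lit 5) (nat_lit 77) (nat_lit 5) (nat_lit 376) (nat_lit 319) (nat_lit 85)) (XT.lf (nat_lit 0) (nat_lit 19776163788) (nat_lit 380) (nat_lit 44754546880) (nat_lit 76) (nat_lit 172375038) (nat_lit 72) (nat_lit 5) (nat_lit 77) (nat_lit 5) (nat_lit 73) (nat_lit 5) (nat_lit 377) (nat_lit 319) (nat_lit 84))))) (XT.nd (nat_lit 234) (nat_lit 532) (nat_lit 0) (XT.nd (nat_lit 78) (nat_lit 228) (nat_lit 0) (XT.lf (nat_lit 0) (nat_lit 31128717009) (nat_lit 380) (nat_lit 14566171069) (nat_lit 76) (nat_lit 20327575023) (nat_lit 72) (nat_lit 5) (nat_lit 77) (nat_lit 5) (nat_lit 73) (nat_lit 5) (nat_lit 378) (nat_lit 319) (nat_lit 83)) (XT.nd (nat_lit 78) (nat_lit 0) (nat_lit 0) (XT.lf (nat_lit 0) (nat_lit 16855047963) (nat_lit 228) (nat_lit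 26127676232) (nat_lit 304) (nat_lit 24393872089) (nat_lit 69) (nat_lit 5) (nat_lit 72) (nat_lit 5) (nat_lit 73) (nat_lit 5) (nat_lit 379) (nat_lit 319) (nat_lit 82)) (XT.lf (nat_lit 0) (nat_lit 49515801817) (nat_lit 228) (nat_lit 5822512912) (nat_lit 304) (nat_lit 13428660606) (nat_lit 69) (nat_lit 5) (nat_lit 72) (nat_lit 5) (nat_lit 73) (nat_lit 5) (nat_lit 380) (nat_lit 319) (nat_lit 81)))) (XT.nd (nat_lit 156) (nat_lit 228) (nat_lit 0) (XT.nd (nat_lit 78) (nat_lit 76) (nat_lit 0) (XT.lf (nat_lit 0) (nat_lit 13065523383) (nat_lit 228) (nat_lit 55268615950) (nat_lit 304) (nat_lit 1856840178) (nat_lit 66) (nat_lit 5) (nat_lit 69) (nat_lit 5) (nat_lit 70) (nat_lit 5) (nat_lit 381) (nat_lit 319) (nat_lit 80)) (XT.lf (nat_lit 0) (nat_lit 10118664403) (nat_lit 304) (nat_lit 25063496227) (nat_lit 76) (nat_lit 36465055840) (nat_lit 65) (nat_lit 5) (nat_lit 69) (nat_lit 5) (nat_lit 66) (nat_lit 5) (nat_lit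 382) (nat_lit 319) (nat_lit 79))) (XT.nd (nat_lit 78) (nat_lit 0) (nat_lit 0) (XT.lf (nat_lit 0) (nat_lit 8098335529) (nat_lit 228) (nat_lit 14394561519) (nat_lit 304) (nat_lit 50651389125) (nat_lit 62) (nat_lit 5) (nat_lit 65) (nat_lit 5) (nat_lit 66) (nat_lit 5) (nat_lit 383) (nat_lit 319) (nat_lit 78)) (XT.lf (nat_lit 0) (nat_lit 35560350592) (nat_lit 304) (nat_lit 31981470933) (nat_lit 76) (nat_lit 7134787287) (nat_lit 62) (nat_lit 5) (nat_lit 66) (nat_lit 5) (nat_lit 63) (nat_lit 5) (nat_lit 384) (nat_lit 319) (nat_lit 77)))))) (XT.nd (nat_lit 546) (nat_lit 456) (nat_lit 0) (XT.nd (nat_lit 234) (nat_lit 456) (nat_lit 0) (XT.nd (nat_lit 78) (nat_lit 0) (nat_lit 0) (XT.lf (nat_lit 0) (nat_lit 1969257122) (nat_lit 228) (nat_lit 47210998796) (nat_lit 304) (nat_lit 27069833008) (nat_lit 59) (nat_lit 5) (nat_lit 62) (nat_lit 5) (nat_lit 63) (nat_lit 5) (nat_lit 385) (nat_lit 319) (nat_lit 76)) (XT.nd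 (nat_lit 78) (nat_lit 0) (nat_lit 0) (XT.lf (nat_lit 0) (nat_lit 37592518500) (nat_lit 228) (nat_lit 25938182716) (nat_lit 304) (nat_lit 14330414564) (nat_lit 59) (nat_lit 5) (nat_lit 62) (nat_lit 5) (nat_lit 63) (nat_lit 5) (nat_lit 386) (nat_lit 319) (nat_lit 75)) (XT.lf (nat_lit 0) (nat_lit 74282946343) (nat_lit 228) (nat_lit 4027735537) (nat_lit 304) (nat_lit 1209821506) (nat_lit 59) (nat_lit 5) (nat_lit 62) (nat_lit 5) (nat_lit 63) (nat_lit 5) (nat_lit 387) (nat_lit 319) (nat_lit 74)))) (XT.nd (nat_lit 156) (nat_lit 228) (nat_lit 0) (XT.nd (nat_lit 78) (nat_lit 0) (nat_lit 0) (XT.lf (nat_lit 0) (nat_lit 12546915033) (nat_lit 228) (nat_lit 50063372225) (nat_lit 76) (nat_lit 18601358753) (nat_lit 56) (nat_lit 5) (nat_lit 59) (nat_lit 5) (nat_lit 57) (nat_lit 5) (nat_lit 388) (nat_lit 319) (nat_lit 73)) (XT.lf (nat_lit 0) (nat_lit 26784377610) (nat_lit 228) (nat_lit 14272787925) (nat_lit 76)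 (nat_lit 41893228376) (nat_lit 56) (nat_lit 5) (nat_lit 59) (nat_lit 5) (nat_lit 57) (nat_lit 5) (nat_lit 389) (nat_lit 319) (nat_lit 72))) (XT.nd (nat_lit 78) (nat_lit 0) (nat_lit 0) (XT.lf (nat_lit 0) (nat_lit 23039628831) (nat_lit 228) (nat_lit 18629882817) (nat_lit 304) (nat_lit 43065176708) (nat_lit 53) (nat_lit 5) (nat_lit 56) (nat_lit 5) (nat_lit 57) (nat_lit 5) (nat_lit 390) (nat_lit 319) (nat_lit 71)) (XT.lf (nat_lit 0) (nat_lit 57188808573) (nat_lit 304) (nat_lit 24850068427) (nat_lit 76) (nat_lit 4528006890) (nat_lit 53) (nat_lit 5) (nat_lit 57) (nat_lit 5) (nat_lit 54) (nat_lit 5) (nat_lit 391) (nat_lit 319) (nat_lit 70))))) (XT.nd (nat_lit 35022) (nat_lit 0) (nat_lit 11248) (XT.nd (nat_lit 78) (nat_lit 304) (nat_lit 0) (XT.lf (nat_lit 0) (nat_lit 13171403348) (nat_lit 152) (nat_lit 60312457822) (nat_lit 228) (nat_lit 14960879325) (nat_lit 51) (nat_lit 5) (nat_lit 53) (nat_lit 5) (nat_lit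 54) (nat_lit 5) (nat_lit 392) (nat_lit 319) (nat_lit 69)) (XT.nd (nat_lit 78) (nat_lit 228) (nat_lit 0) (XT.lf (nat_lit 0) (nat_lit 143537268) (nat_lit 228) (nat_lit 37531339607) (nat_lit 76) (nat_lit 52696512395) (nat_lit 50) (nat_lit 5) (nat_lit 53) (nat_lit 5) (nat_lit 51) (nat_lit 5) (nat_lit 393) (nat_lit 319) (nat_lit 68)) (XT.lf (nat_lit 0) (nat_lit 1217142810) (nat_lit 228) (nat_lit 14194084367) (nat_lit 304) (nat_lit 76939841776) (nat_lit 47) (nat_lit 5) (nat_lit 50) (nat_lit 5) (nat_lit 51) (nat_lit 5) (nat_lit 394) (nat_lit 319) (nat_lit 67)))) (XT.nd (nat_lit 156) (nat_lit 0) (nat_lit 0) (XT.nd (nat_lit 78) (nat_lit 0) (nat_lit 0) (XT.lf (nat_lit 0) (nat_lit 2884192979) (nat_lit 0) (nat_lit 2884192979) (nat_lit 1140) (nat_lit 6314049063) (nat_lit 195) (nat_lit 5) (nat_lit 195) (nat_lit 3) (nat_lit 210) (nat_lit 3) (nat_lit 320) (nat_lit 320) (nat_lit 140)) (XT.lf (nat_lit 0) (nat_lit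 11868028493) (nat_lit 1140) (nat_lit 7486907568) (nat_lit 1216) (nat_lit 5167534546) (nat_lit 195) (nat_lit 5) (nat_lit 210) (nat_lit 3) (nat_lit 211) (nat_lit 5) (nat_lit 321) (nat_lit 320) (nat_lit 139))) (XT.nd (nat_lit 78) (nat_lit 0) (nat_lit 76) (XT.lf (nat_lit 76) (nat_lit 3764044004) (nat_lit 0) (nat_lit 8534296860) (nat_lit 1216) (nat_lit 12589789709) (nat_lit 196) (nat_lit 5) (nat_lit 195) (nat_lit 5) (nat_lit 211) (nat_lit 5) (nat_lit 322) (nat_lit 320) (nat_lit 138)) (XT.lf (nat_lit 0) (nat_lit 12838953494) (nat_lit 1140) (nat_lit 9784712937) (nat_lit 1216) (nat_lit 2638176969) (nat_lit 196) (nat_lit 5) (nat_lit 211) (nat_lit 5) (nat_lit 212) (nat_lit 5) (nat_lit 323) (nat_lit 320) (nat_lit 137))))))))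
noncomputable def xc227 : XT := (XT.nd (nat_lit 2184) (nat_lit 4788) (nat_lit 0) (XT.nd (nat_lit 1092) (nat_lit 3800) (nat_lit 0) (XT.nd (nat_lit 546) (nat_lit 836) (nat_lit 0) (XT.nd (nat_lit 234) (nat_lit 0) (nat_lit 76) (XT.nd (nat_lit 78) (nat_lit 0) (nat_lit 0) (XT.lf (nat_lit 76) (nat_lit 1844024195) (nat_lit 0) (nat_lit 11650043500) (nat_lit 1216) (nat_lit 12149756067) (nat_lit 197) (nat_lit 5) (nat_lit 196) (nat_lit 5) (nat_lit 212) (nat_lit 5) (nat_lit 324) (nat_lit 320) (nat_lit 136)) (XT.nd (nat_lit 78) (nat_lit 0) (nat_lit 76) (XT.lf (nat_lit 76) (nat_lit 14019919769) (nat_lit 0) (nat_lit 243874137) (nat_lit 1216) (nat_lit 11770625384) (nat_lit 197) (nat_lit 5) (nat_lit 196) (nat_lit 5) (nat_lit 212) (nat_lit 5) (nat_lit 325) (nat_lit 320) (nat_lit 135)) (XT.lf (nat_lit 76) (nat_lit 11653479) (nat_lit 0) (nat_lit 15151937417) (nat_lit 1216) (nat_lit 11269936800) (nat_lit 198) (nat_lit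 5) (nat_lit 197) (nat_lit 5) (nat_lit 213) (nat_lit 5) (nat_lit 326) (nat_lit 320) (nat_lit 134)))) (XT.nd (nat_lit 156) (nat_lit 0) (nat_lit 76) (XT.nd (nat_lit 78) (nat_lit 0) (nat_lit 76) (XT.lf (nat_lit 76) (nat_lit 12640091529) (nat_lit 0) (nat_lit 3570369002) (nat_lit 1216) (nat_lit 10630550712) (nat_lit 198) (nat_lit 5) (nat_lit 197) (nat_lit 5) (nat_lit 213) (nat_lit 5) (nat_lit 327) (nat_lit 320) (nat_lit 133)) (XT.lf (nat_lit 0) (nat_lit 17365567734) (nat_lit 1140) (nat_lit 1696061968) (nat_lit 1216) (nat_lit 8196788782) (nat_lit 198) (nat_lit 5) (nat_lit 213) (nat_lit 5) (nat_lit 214) (nat_lit 5) (nat_lit 328) (nat_lit 320) (nat_lit 132))) (XT.nd (nat_lit 78) (nat_lit 0) (nat_lit 76) (XT.lf (nat_lit 76) (nat_lit 11368116487) (nat_lit 0) (nat_lit 7328424631) (nat_lit 1216) (nat_lit 8987574443) (nat_lit 199) (nat_lit 5) (nat_lit 198) (nat_lit 5) (nat_lit 214) (nat_lit 5) (nat_lit 329)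 (nat_lit 320) (nat_lit 131)) (XT.lf (nat_lit 0) (nat_lit 20127138311) (nat_lit 1140) (nat_lit 3311375685) (nat_lit 1216) (nat_lit 4682282608) (nat_lit 199) (nat_lit 5) (nat_lit 214) (nat_lit 5) (nat_lit 215) (nat_lit 5) (nat_lit 330) (nat_lit 320) (nat_lit 130))))) (XT.nd (nat_lit 234) (nat_lit 1064) (nat_lit 0) (XT.nd (nat_lit 78) (nat_lit 0) (nat_lit 76) (XT.lf (nat_lit 76) (nat_lit 10207687144) (nat_lit 0) (nat_lit 11560417455) (nat_lit 1216) (nat_lit 6797453724) (nat_lit 200) (nat_lit 5) (nat_lit 199) (nat_lit 5) (nat_lit 215) (nat_lit 5) (nat_lit 331) (nat_lit 320) (nat_lit 129)) (XT.nd (nat_lit 78) (nat_lit 0) (nat_lit 0) (XT.lf (nat_lit 0) (nat_lit 23495398543) (nat_lit 1140) (nat_lit 4831681218) (nat_lit 1216) (nat_lit 695473842) (nat_lit 200) (nat_lit 5) (nat_lit 215) (nat_lit 5) (nat_lit 216) (nat_lit 5) (nat_lit 332) (nat_lit 320) (nat_lit 128)) (XT.lf (nat_lit 76) (nat_lit 9162281149)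 (nat_lit 0) (nat_lit 16311705010) (nat_lit 1216) (nat_lit 4013291897) (nat_lit 201) (nat_lit 5) (nat_lit 200) (nat_lit 5) (nat_lit 216) (nat_lit 5) (nat_lit 333) (nat_lit 320) (nat_lit 127)))) (XT.nd (nat_lit 156) (nat_lit 1140) (nat_lit 0) (XT.nd (nat_lit 78) (nat_lit 0) (nat_lit 76) (XT.lf (nat_lit 76) (nat_lit 23672787263) (nat_lit 0) (nat_lit 3884943245) (nat_lit 1216) (nat_lit 2406843220) (nat_lit 201) (nat_lit 5) (nat_lit 200) (nat_lit 5) (nat_lit 216) (nat_lit 5) (nat_lit 334) (nat_lit 320) (nat_lit 126)) (XT.lf (nat_lit 76) (nat_lit 8235074421) (nat_lit 0) (nat_lit 21630868127) (nat_lit 1216) (nat_lit 585390419) (nat_lit 202) (nat_lit 5) (nat_lit 201) (nat_lit 5) (nat_lit 217) (nat_lit 5) (nat_lit 335) (nat_lit 320) (nat_lit 125))) (XT.nd (nat_lit 78) (nat_lit 0) (nat_lit 76) (XT.lf (nat_lit 0) (nat_lit 1365280958) (nat_lit 1216) (nat_lit 7677959486) (nat_lit 1292) (nat_lit 21906092654)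 (nat_lit 185) (nat_lit 5) (nat_lit 201) (nat_lit 5) (nat_lit 202) (nat_lit 5) (nat_lit 336) (nat_lit 320) (nat_lit 124)) (XT.lf (nat_lit 0) (nat_lit 3469847818) (nat_lit 1216) (nat_lit 24065083623) (nat_lit 76) (nat_lit 3923956751) (nat_lit 186) (nat_lit 5) (nat_lit 202) (nat_lit 5) (nat_lit 187) (nat_lit 5) (nat_lit 337) (nat_lit 320) (nat_lit 123)))))) (XT.nd (nat_lit 546) (nat_lit 2052) (nat_lit 0) (XT.nd (nat_lit 234) (nat_lit 1140) (nat_lit 0) (XT.nd (nat_lit 78) (nat_lit 684) (nat_lit 0) (XT.lf (nat_lit 0) (nat_lit 5802668148) (nat_lit 1216) (nat_lit 8998979345) (nat_lit 76) (nat_lit 17177131936) (nat_lit 186) (nat_lit 5) (nat_lit 202) (nat_lit 5) (nat_lit 187) (nat_lit 5) (nat_lit 338) (nat_lit 320) (nat_lit 122)) (XT.nd (nat_lit 78) (nat_lit 0) (nat_lit 0) (XT.lf (nat_lit 0) (nat_lit 6646491570) (nat_lit 684) (nat_lit 1620230346) (nat_lit 760) (nat_lit 24245710919) (nat_lit 177) (nat_lit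 5) (nat_lit 186) (nat_lit 5) (nat_lit 187) (nat_lit 5) (nat_lit 339) (nat_lit 320) (nat_lit 121)) (XT.lf (nat_lit 0) (nat_lit 11008819942) (nat_lit 760) (nat_lit 10231781016) (nat_lit 76) (nat_lit 11815374017) (nat_lit 177) (nat_lit 5) (nat_lit 187) (nat_lit 5) (nat_lit 178) (nat_lit 5) (nat_lit 340) (nat_lit 320) (nat_lit 120)))) (XT.nd (nat_lit 156) (nat_lit 532) (nat_lit 0) (XT.nd (nat_lit 78) (nat_lit 0) (nat_lit 0) (XT.lf (nat_lit 0) (nat_lit 5969544574) (nat_lit 608) (nat_lit 7934552821) (nat_lit 684) (nat_lit 19709601220) (nat_lit 169) (nat_lit 5) (nat_lit 177) (nat_lit 5) (nat_lit 178) (nat_lit 5) (nat_lit 341) (nat_lit 320) (nat_lit 119)) (XT.lf (nat_lit 0) (nat_lit 17043592841) (nat_lit 684) (nat_lit 11377257527) (nat_lit 76) (nat_lit 5762585457) (nat_lit 169) (nat_lit 5) (nat_lit 178) (nat_lit 5) (nat_lit 170) (nat_lit 5) (nat_lit 342) (nat_lit 320) (nat_lit 118))) (XT.nd (nat_lit 78)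 (nat_lit 0) (nat_lit 0) (XT.lf (nat_lit 0) (nat_lit 5402210947) (nat_lit 532) (nat_lit 15003167495) (nat_lit 608) (nat_lit 14361046122) (nat_lit 162) (nat_lit 5) (nat_lit 169) (nat_lit 5) (nat_lit 170) (nat_lit 5) (nat_lit 343) (nat_lit 320) (nat_lit 117)) (XT.lf (nat_lit 0) (nat_lit 22916016969) (nat_lit 532) (nat_lit 1064552267) (nat_lit 608) (nat_lit 11382959680) (nat_lit 162) (nat_lit 5) (nat_lit 169) (nat_lit 5) (nat_lit 170) (nat_lit 5) (nat_lit 344) (nat_lit 320) (nat_lit 116))))) (XT.nd (nat_lit 234) (nat_lit 1064) (nat_lit 0) (XT.nd (nat_lit 78) (nat_lit 456) (nat_lit 0) (XT.lf (nat_lit 0) (nat_lit 4943101375) (nat_lit 532) (nat_lit 22892935767) (nat_lit 608) (nat_lit 8137321041) (nat_lit 155) (nat_lit 5) (nat_lit 162) (nat_lit 5) (nat_lit 163) (nat_lit 5) (nat_lit 345) (nat_lit 320) (nat_lit 115)) (XT.nd (nat_lit 78) (nat_lit 456) (nat_lit 0) (XT.lf (nat_lit 0) (nat_lit 23097593152) (nat_lit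 532) (nat_lit 8843484896) (nat_lit 608) (nat_lit 4656389366) (nat_lit 155) (nat_lit 5) (nat_lit 162) (nat_lit 5) (nat_lit 163) (nat_lit 5) (nat_lit 346) (nat_lit 320) (nat_lit 114)) (XT.lf (nat_lit 0) (nat_lit 4589632496) (nat_lit 456) (nat_lit 31675691729) (nat_lit 532) (nat_lit 972096361) (nat_lit 149) (nat_lit 5) (nat_lit 155) (nat_lit 5) (nat_lit 156) (nat_lit 5) (nat_lit 347) (nat_lit 320) (nat_lit 113)))) (XT.nd (nat_lit 156) (nat_lit 456) (nat_lit 0) (XT.nd (nat_lit 78) (nat_lit 532) (nat_lit 0) (XT.lf (nat_lit 0) (nat_lit 2990734627) (nat_lit 532) (nat_lit 14512242489) (nat_lit 76) (nat_lit 20386090657) (nat_lit 148) (nat_lit 5) (nat_lit 155) (nat_lit 5) (nat_lit 149) (nat_lit 5) (nat_lit 348) (nat_lit 320) (nat_lit 112)) (XT.lf (nat_lit 0) (nat_lit 4238238643) (nat_lit 532) (nat_lit 2853336110) (nat_lit 608) (nat_lit 31467243104) (nat_lit 141) (nat_lit 5) (nat_lit 148) (nat_lit 5) (nat_lit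 149) (nat_lit 5) (nat_lit 349) (nat_lit 320) (nat_lit 111))) (XT.nd (nat_lit 78) (nat_lit 456) (nat_lit 0) (XT.lf (nat_lit 0) (nat_lit 11579014061) (nat_lit 608) (nat_lit 15516861531) (nat_lit 76) (nat_lit 12144879661) (nat_lit 141) (nat_lit 5) (nat_lit 149) (nat_lit 5) (nat_lit 142) (nat_lit 5) (nat_lit 350) (nat_lit 320) (nat_lit 110)) (XT.lf (nat_lit 0) (nat_lit 3896568925) (nat_lit 456) (nat_lit 12368234004) (nat_lit 532) (nat_lit 23676438024) (nat_lit 135) (nat_lit 5) (nat_lit 141) (nat_lit 5) (nat_lit 142) (nat_lit 5) (nat_lit 351) (nat_lit 320) (nat_lit 109))))))) (XT.nd (nat_lit 1092) (nat_lit 1900) (nat_lit 0) (XT.nd (nat_lit 546) (nat_lit 1520) (nat_lit 0) (XT.nd (nat_lit 234) (nat_lit 912) (nat_lit 0) (XT.nd (nat_lit 78) (nat_lit 456) (nat_lit 0) (XT.lf (nat_lit 0) (nat_lit 21274388051) (nat_lit 532) (nat_lit 16478257081) (nat_lit 76) (nat_lit 2904601330) (nat_lit 135) (nat_lit 5) (nat_lit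 142) (nat_lit 5) (nat_lit 136) (nat_lit 5) (nat_lit 352) (nat_lit 320) (nat_lit 108)) (XT.nd (nat_lit 78) (nat_lit 0) (nat_lit 0) (XT.lf (nat_lit 0) (nat_lit 3621199161) (nat_lit 456) (nat_lit 22968439306) (nat_lit 532) (nat_lit 14800434195) (nat_lit 129) (nat_lit 5) (nat_lit 135) (nat_lit 5) (nat_lit 136) (nat_lit 5) (nat_lit 353) (nat_lit 320) (nat_lit 107)) (XT.lf (nat_lit 0) (nat_lit 24659292313) (nat_lit 456) (nat_lit 7569597471) (nat_lit 532) (nat_lit 9911059366) (nat_lit 129) (nat_lit 5) (nat_lit 135) (nat_lit 5) (nat_lit 136) (nat_lit 5) (nat_lit 354) (nat_lit 320) (nat_lit 106)))) (XT.nd (nat_lit 156) (nat_lit 456) (nat_lit 0) (XT.nd (nat_lit 78) (nat_lit 76) (nat_lit 0) (XT.lf (nat_lit 0) (nat_lit 3400740983) (nat_lit 380) (nat_lit 34747164547) (nat_lit 456) (nat_lit 4761100550) (nat_lit 124) (nat_lit 5) (nat_lit 129) (nat_lit 5) (nat_lit 130) (nat_lit 5) (nat_lit 355) (nat_lit 320) (nat_lit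 105)) (XT.lf (nat_lit 0) (nat_lit 784178564) (nat_lit 456) (nat_lit 18512981664) (nat_lit 76) (nat_lit 24396276716) (nat_lit 123) (nat_lit 5) (nat_lit 129) (nat_lit 5) (nat_lit 124) (nat_lit 5) (nat_lit 356) (nat_lit 320) (nat_lit 104))) (XT.nd (nat_lit 78) (nat_lit 0) (nat_lit 0) (XT.lf (nat_lit 0) (nat_lit 3123899279) (nat_lit 456) (nat_lit 3304514132) (nat_lit 532) (nat_lit 38070726017) (nat_lit 117) (nat_lit 5) (nat_lit 123) (nat_lit 5) (nat_lit 124) (nat_lit 5) (nat_lit 357) (nat_lit 320) (nat_lit 103)) (XT.lf (nat_lit 0) (nat_lit 12555638452) (nat_lit 532) (nat_lit 19664557881) (nat_lit 76) (nat_lit 13099408316) (nat_lit 117) (nat_lit 5) (nat_lit 124) (nat_lit 5) (nat_lit 118) (nat_lit 5) (nat_lit 358) (nat_lit 320) (nat_lit 102))))) (XT.nd (nat_lit 234) (nat_lit 760) (nat_lit 0) (XT.nd (nat_lit 78) (nat_lit 380) (nat_lit 0) (XT.lf (nat_lit 0) (nat_lit 2715671953) (nat_lit 380) (nat_lit 16208170149)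 (nat_lit 456) (nat_lit 27239128378) (nat_lit 112) (nat_lit 5) (nat_lit 117) (nat_lit 5) (nat_lit 118) (nat_lit 5) (nat_lit 359) (nat_lit 320) (nat_lit 101)) (XT.nd (nat_lit 78) (nat_lit 380) (nat_lit 0) (XT.lf (nat_lit 0) (nat_lit 25684727762) (nat_lit 456) (nat_lit 20862039415) (nat_lit 76) (nat_lit 478822502) (nat_lit 112) (nat_lit 5) (nat_lit 118) (nat_lit 5) (nat_lit 113) (nat_lit 5) (nat_lit 360) (nat_lit 320) (nat_lit 100)) (XT.lf (nat_lit 0) (nat_lit 2282833213) (nat_lit 380) (nat_lit 30546439622) (nat_lit 456) (nat_lit 15079391058) (nat_lit 107) (nat_lit 5) (nat_lit 112) (nat_lit 5) (nat_lit 113) (nat_lit 5) (nat_lit 361) (nat_lit 320) (nat_lit 99)))) (XT.nd (nat_lit 156) (nat_lit 456) (nat_lit 0) (XT.nd (nat_lit 78) (nat_lit 304) (nat_lit 0) (XT.lf (nat_lit 0) (nat_lit 26547709495) (nat_lit 380) (nat_lit 13849549469) (nat_lit 456) (nat_lit 8414699611) (nat_lit 107) (nat_lit 5) (nat_lit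 112) (nat_lit 5) (nat_lit 113) (nat_lit 5) (nat_lit 362) (nat_lit 320) (nat_lit 98)) (XT.lf (nat_lit 0) (nat_lit 1799123365) (nat_lit 304) (nat_lit 46441121425) (nat_lit 380) (nat_lit 1500669846) (nat_lit 103) (nat_lit 5) (nat_lit 107) (nat_lit 5) (nat_lit 108) (nat_lit 5) (nat_lit 363) (nat_lit 320) (nat_lit 97))) (XT.nd (nat_lit 78) (nat_lit 380) (nat_lit 0) (XT.lf (nat_lit 0) (nat_lit 5873764428) (nat_lit 380) (nat_lit 23845573488) (nat_lit 76) (nat_lit 20965901859) (nat_lit 102) (nat_lit 5) (nat_lit 107) (nat_lit 5) (nat_lit 103) (nat_lit 5) (nat_lit 364) (nat_lit 320) (nat_lit 96)) (XT.lf (nat_lit 0) (nat_lit 975781192) (nat_lit 380) (nat_lit 12471402145) (nat_lit 456) (nat_lit 38210029410) (nat_lit 97) (nat_lit 5) (nat_lit 102) (nat_lit 5) (nat_lit 103) (nat_lit 5) (nat_lit 365) (nat_lit 320) (nat_lit 95)))))) (XT.nd (nat_lit 546) (nat_lit 912) (nat_lit 0) (XT.nd (nat_lit 234) (nat_lit 684)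 (nat_lit 0) (XT.nd (nat_lit 78) (nat_lit 304) (nat_lit 0) (XT.lf (nat_lit 0) (nat_lit 21540424895) (nat_lit 456) (nat_lit 25675760193) (nat_lit 76) (nat_lit 5433382410) (nat_lit 97) (nat_lit 5) (nat_lit 103) (nat_lit 5) (nat_lit 98) (nat_lit 5) (nat_lit 366) (nat_lit 320) (nat_lit 94)) (XT.nd (nat_lit 78) (nat_lit 304) (nat_lit 0) (XT.lf (nat_lit 0) (nat_lit 29998538613) (nat_lit 456) (nat_lit 45294517) (nat_lit 76) (nat_lit 23624198673) (nat_lit 97) (nat_lit 5) (nat_lit 103) (nat_lit 5) (nat_lit 98) (nat_lit 5) (nat_lit 367) (nat_lit 320) (nat_lit 93)) (XT.lf (nat_lit 0) (nat_lit 26876705095) (nat_lit 304) (nat_lit 12090682565) (nat_lit 380) (nat_lit 15741953744) (nat_lit 93) (nat_lit 5) (nat_lit 97) (nat_lit 5) (nat_lit 98) (nat_lit 5) (nat_lit 368) (nat_lit 320) (nat_lit 92)))) (XT.nd (nat_lit 156) (nat_lit 304) (nat_lit 0) (XT.nd (nat_lit 78) (nat_lit 380) (nat_lit 0) (XT.lf (nat_lit 0) (nat_lit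 48265949161) (nat_lit 380) (nat_lit 1237978839) (nat_lit 76) (nat_lit 6276143977) (nat_lit 93) (nat_lit 5) (nat_lit 98) (nat_lit 5) (nat_lit 94) (nat_lit 5) (nat_lit 369) (nat_lit 320) (nat_lit 91)) (XT.lf (nat_lit 0) (nat_lit 1319126221) (nat_lit 380) (nat_lit 30333538675) (nat_lit 76) (nat_lit 25218663794) (nat_lit 88) (nat_lit 5) (nat_lit 93) (nat_lit 5) (nat_lit 89) (nat_lit 5) (nat_lit 370) (nat_lit 320) (nat_lit 90))) (XT.nd (nat_lit 78) (nat_lit 304) (nat_lit 0) (XT.lf (nat_lit 0) (nat_lit 10277671701) (nat_lit 380) (nat_lit 2899074792) (nat_lit 76) (nat_lit 44816005931) (nat_lit 88) (nat_lit 5) (nat_lit 93) (nat_lit 5) (nat_lit 89) (nat_lit 5) (nat_lit 371) (nat_lit 320) (nat_lit 89)) (XT.lf (nat_lit 0) (nat_lit 19811030039) (nat_lit 380) (nat_lit 33337815153) (nat_lit 76) (nat_lit 5989792954) (nat_lit 84) (nat_lit 5) (nat_lit 89) (nat_lit 5) (nat_lit 85) (nat_lit 5) (nat_lit 372) (nat_lit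 320) (nat_lit 88))))) (XT.nd (nat_lit 234) (nat_lit 608) (nat_lit 0) (XT.nd (nat_lit 78) (nat_lit 304) (nat_lit 0) (XT.lf (nat_lit 0) (nat_lit 29789170242) (nat_lit 380) (nat_lit 5029407174) (nat_lit 76) (nat_lit 25495560533) (nat_lit 84) (nat_lit 5) (nat_lit 89) (nat_lit 5) (nat_lit 85) (nat_lit 5) (nat_lit 373) (nat_lit 320) (nat_lit 87)) (XT.nd (nat_lit 78) (nat_lit 0) (nat_lit 0) (XT.lf (nat_lit 0) (nat_lit 24606691824) (nat_lit 304) (nat_lit 15695287165) (nat_lit 380) (nat_lit 21215864940) (nat_lit 80) (nat_lit 5) (nat_lit 84) (nat_lit 5) (nat_lit 85) (nat_lit 5) (nat_lit 374) (nat_lit 320) (nat_lit 86)) (XT.lf (nat_lit 0) (nat_lit 51218732400) (nat_lit 380) (nat_lit 7561876547) (nat_lit 76) (nat_lit 3974396217) (nat_lit 80) (nat_lit 5) (nat_lit 85) (nat_lit 5) (nat_lit 81) (nat_lit 5) (nat_lit 375) (nat_lit 320) (nat_lit 85)))) (XT.nd (nat_lit 156) (nat_lit 304) (nat_lit 0) (XT.nd (nat_lit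 78) (nat_lit 76) (nat_lit 0) (XT.lf (nat_lit 0) (nat_lit 22958796795) (nat_lit 228) (nat_lit 39879122948) (nat_lit 304) (nat_lit 1180114416) (nat_lit 77) (nat_lit 5) (nat_lit 80) (nat_lit 5) (nat_lit 81) (nat_lit 5) (nat_lit 376) (nat_lit 320) (nat_lit 84)) (XT.lf (nat_lit 0) (nat_lit 9377568645) (nat_lit 304) (nat_lit 10860207773) (nat_lit 76) (nat_lit 45076163844) (nat_lit 76) (nat_lit 5) (nat_lit 80) (nat_lit 5) (nat_lit 77) (nat_lit 5) (nat_lit 377) (nat_lit 320) (nat_lit 83))) (XT.nd (nat_lit 78) (nat_lit 0) (nat_lit 0) (XT.lf (nat_lit 0) (nat_lit 20427493789) (nat_lit 380) (nat_lit 46010356495) (nat_lit 76) (nat_lit 204546604) (nat_lit 72) (nat_lit 5) (nat_lit 77) (nat_lit 5) (nat_lit 73) (nat_lit 5) (nat_lit 378) (nat_lit 320) (nat_lit 82)) (XT.lf (nat_lit 0) (nat_lit 32118932973) (nat_lit 380) (nat_lit 14918858345) (nat_lit 76) (nat_lit 20963616171) (nat_lit 72) (nat_lit 5) (nat_lit 77)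 (nat_lit 5) (nat_lit 73) (nat_lit 5) (nat_lit 379) (nat_lit 320) (nat_lit 81))))))))
noncomputable def xc228 : XT := (XT.nd (nat_lit 36972) (nat_lit 0) (nat_lit 4712) (XT.nd (nat_lit 1014) (nat_lit 228) (nat_lit 0) (XT.nd (nat_lit 468) (nat_lit 684) (nat_lit 0) (XT.nd (nat_lit 234) (nat_lit 304) (nat_lit 0) (XT.nd (nat_lit 78) (nat_lit 228) (nat_lit 0) (XT.lf (nat_lit 0) (nat_lit 17444170808) (nat_lit 228) (nat_lit 26883550553) (nat_lit 304) (nat_lit 25068469609) (nat_lit 69) (nat_lit 5) (nat_lit 72) (nat_lit 5) (nat_lit 73) (nat_lit 5) (nat_lit 380) (nat_lit 320) (nat_lit 80)) (XT.nd (nat_lit 78) (nat_lit 228) (nat_lit 0) (XT.lf (nat_lit 0) (nat_lit 51082316071) (nat_lit 228) (nat_lit 5970046585) (nat_lit 304) (nat_lit 13775968344) (nat_lit 69) (nat_lit 5) (nat_lit 72) (nat_lit 5) (nat_lit 73) (nat_lit 5) (nat_lit 381) (nat_lit 320) (nat_lit 79)) (XT.lf (nat_lit 0) (nat_lit 13539113810) (nat_lit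 228) (nat_lit 56898416259) (nat_lit 304) (nat_lit 1857542257) (nat_lit 66) (nat_lit 5) (nat_lit 69) (nat_lit 5) (nat_lit 70) (nat_lit 5) (nat_lit 382) (nat_lit 320) (nat_lit 78)))) (XT.nd (nat_lit 78) (nat_lit 228) (nat_lit 0) (XT.lf (nat_lit 0) (nat_lit 10474583381) (nat_lit 304) (nat_lit 25735078229) (nat_lit 76) (nat_lit 37585367052) (nat_lit 65) (nat_lit 5) (nat_lit 69) (nat_lit 5) (nat_lit 66) (nat_lit 5) (nat_lit 383) (nat_lit 320) (nat_lit 77)) (XT.nd (nat_lit 78) (nat_lit 0) (nat_lit 0) (XT.lf (nat_lit 0) (nat_lit 8420821001) (nat_lit 228) (nat_lit 14798461528) (nat_lit 304) (nat_lit 52117751720) (nat_lit 62) (nat_lit 5) (nat_lit 65) (nat_lit 5) (nat_lit 66) (nat_lit 5) (nat_lit 384) (nat_lit 320) (nat_lit 76)) (XT.lf (nat_lit 0) (nat_lit 36677517531) (nat_lit 304) (nat_lit 32862422468) (nat_lit 76) (nat_lit 7375424779) (nat_lit 62) (nat_lit 5) (nat_lit 66) (nat_lit 5) (nat_lit 63) (nat_lit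 5) (nat_lit 385) (nat_lit 320) (nat_lit 75))))) (XT.nd (nat_lit 234) (nat_lit 456) (nat_lit 0) (XT.nd (nat_lit 78) (nat_lit 0) (nat_lit 0) (XT.lf (nat_lit 0) (nat_lit 2106057893) (nat_lit 228) (nat_lit 48599242553) (nat_lit 304) (nat_lit 27830771356) (nat_lit 59) (nat_lit 5) (nat_lit 62) (nat_lit 5) (nat_lit 63) (nat_lit 5) (nat_lit 386) (nat_lit 320) (nat_lit 74)) (XT.nd (nat_lit 78) (nat_lit 0) (nat_lit 0) (XT.lf (nat_lit 0) (nat_lit 38795753335) (nat_lit 228) (nat_lit 26689060036) (nat_lit 304) (nat_lit 14710660359) (nat_lit 59) (nat_lit 5) (nat_lit 62) (nat_lit 5) (nat_lit 63) (nat_lit 5) (nat_lit 387) (nat_lit 320) (nat_lit 73)) (XT.lf (nat_lit 0) (nat_lit 76584696169) (nat_lit 228) (nat_lit 4122093660) (nat_lit 304) (nat_lit 1197896110) (nat_lit 59) (nat_lit 5) (nat_lit 62) (nat_lit 5) (nat_lit 63) (nat_lit 5) (nat_lit 388) (nat_lit 320) (nat_lit 72)))) (XT.nd (nat_lit 156) (nat_lit 228)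 (nat_lit 0) (XT.nd (nat_lit 78) (nat_lit 0) (nat_lit 0) (XT.lf (nat_lit 0) (nat_lit 12970189593) (nat_lit 228) (nat_lit 51490603679) (nat_lit 76) (nat_lit 19185768842) (nat_lit 56) (nat_lit 5) (nat_lit 59) (nat_lit 5) (nat_lit 57) (nat_lit 5) (nat_lit 389) (nat_lit 320) (nat_lit 71)) (XT.lf (nat_lit 0) (nat_lit 27633410986) (nat_lit 228) (nat_lit 14628476696) (nat_lit 76) (nat_lit 43175626515) (nat_lit 56) (nat_lit 5) (nat_lit 59) (nat_lit 5) (nat_lit 57) (nat_lit 5) (nat_lit 390) (nat_lit 320) (nat_lit 70))) (XT.nd (nat_lit 78) (nat_lit 0) (nat_lit 0) (XT.lf (nat_lit 0) (nat_lit 23802601828) (nat_lit 228) (nat_lit 19161861947) (nat_lit 304) (nat_lit 44310893529) (nat_lit 53) (nat_lit 5) (nat_lit 56) (nat_lit 5) (nat_lit 57) (nat_lit 5) (nat_lit 391) (nat_lit 320) (nat_lit 69)) (XT.lf (nat_lit 0) (nat_lit 58948284020) (nat_lit 304) (nat_lit 25524796607) (nat_lit 76) (nat_lit 4689470495) (nat_lit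 53) (nat_lit 5) (nat_lit 57) (nat_lit 5) (nat_lit 54) (nat_lit 5) (nat_lit 392) (nat_lit 320) (nat_lit 68)))))) (XT.nd (nat_lit 35412) (nat_lit 0) (nat_lit 11096) (XT.nd (nat_lit 35100) (nat_lit 0) (nat_lit 11020) (XT.nd (nat_lit 78) (nat_lit 76) (nat_lit 0) (XT.lf (nat_lit 0) (nat_lit 13636625459) (nat_lit 152) (nat_lit 62094960333) (nat_lit 228) (nat_lit 15365176431) (nat_lit 51) (nat_lit 5) (nat_lit 53) (nat_lit 5) (nat_lit 54) (nat_lit 5) (nat_lit 393) (nat_lit 320) (nat_lit 67)) (XT.nd (nat_lit 34944) (nat_lit 0) (nat_lit 11020) (XT.lf (nat_lit 0) (nat_lit 190232072) (nat_lit 228) (nat_lit 38588374499) (nat_lit 76) (nat_lit 54302629883) (nat_lit 50) (nat_lit 5) (nat_lit 53) (nat_lit 5) (nat_lit 51) (nat_lit 5) (nat_lit 394) (nat_lit 320) (nat_lit 66)) (XT.lf (nat_lit 0) (nat_lit 3023973331) (nat_lit 0) (nat_lit 3023973331) (nat_lit 1140) (nat_lit 6393641013) (nat_lit 195) (nat_lit 5) (nat_lit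 195) (nat_lit 3) (nat_lit 210) (nat_lit 3) (nat_lit 321) (nat_lit 321) (nat_lit 138)))) (XT.nd (nat_lit 156) (nat_lit 0) (nat_lit 76) (XT.nd (nat_lit 78) (nat_lit 0) (nat_lit 0) (XT.lf (nat_lit 0) (nat_lit 12429889171) (nat_lit 1140) (nat_lit 7600666493) (nat_lit 1216) (nat_lit 5221171507) (nat_lit 195) (nat_lit 5) (nat_lit 210) (nat_lit 3) (nat_lit 211) (nat_lit 5) (nat_lit 322) (nat_lit 321) (nat_lit 137)) (XT.lf (nat_lit 76) (nat_lit 3986726878) (nat_lit 0) (nat_lit 8881444378) (nat_lit 1216) (nat_lit 12760340946) (nat_lit 196) (nat_lit 5) (nat_lit 195) (nat_lit 5) (nat_lit 211) (nat_lit 5) (nat_lit 323) (nat_lit 321) (nat_lit 136))) (XT.nd (nat_lit 78) (nat_lit 0) (nat_lit 0) (XT.lf (nat_lit 0) (nat_lit 13418301010) (nat_lit 1140) (nat_lit 9964759441) (nat_lit 1216) (nat_lit 2630583871) (nat_lit 196) (nat_lit 5) (nat_lit 211) (nat_lit 5) (nat_lit 212) (nat_lit 5) (nat_lit 324) (nat_lit 321)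 (nat_lit 135)) (XT.lf (nat_lit 76) (nat_lit 2011727109) (nat_lit 0) (nat_lit 12076766117) (nat_lit 1216) (nat_lit 12318734801) (nat_lit 197) (nat_lit 5) (nat_lit 196) (nat_lit 5) (nat_lit 212) (nat_lit 5) (nat_lit 325) (nat_lit 321) (nat_lit 134))))) (XT.nd (nat_lit 234) (nat_lit 0) (nat_lit 152) (XT.nd (nat_lit 78) (nat_lit 0) (nat_lit 76) (XT.lf (nat_lit 76) (nat_lit 14549626283) (nat_lit 0) (nat_lit 326162509) (nat_lit 1216) (nat_lit 11933924778) (nat_lit 197) (nat_lit 5) (nat_lit 196) (nat_lit 5) (nat_lit 212) (nat_lit 5) (nat_lit 326) (nat_lit 321) (nat_lit 133)) (XT.nd (nat_lit 78) (nat_lit 0) (nat_lit 0) (XT.lf (nat_lit 76) (nat_lit 126437962) (nat_lit 0) (nat_lit 15671180475) (nat_lit 1216) (nat_lit 11423331915) (nat_lit 198) (nat_lit 5) (nat_lit 197) (nat_lit 5) (nat_lit 213) (nat_lit 5) (nat_lit 327) (nat_lit 321) (nat_lit 132)) (XT.lf (nat_lit 76) (nat_lit 13130396100) (nat_lit 0) (nat_lit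 3740280981) (nat_lit 1216) (nat_lit 10770143944) (nat_lit 198) (nat_lit 5) (nat_lit 197) (nat_lit 5) (nat_lit 213) (nat_lit 5) (nat_lit 328) (nat_lit 321) (nat_lit 131)))) (XT.nd (nat_lit 156) (nat_lit 0) (nat_lit 76) (XT.nd (nat_lit 78) (nat_lit 0) (nat_lit 0) (XT.lf (nat_lit 0) (nat_lit 18054786273) (nat_lit 1140) (nat_lit 1633229204) (nat_lit 1216) (nat_lit 8382910469) (nat_lit 198) (nat_lit 5) (nat_lit 213) (nat_lit 5) (nat_lit 214) (nat_lit 5) (nat_lit 329) (nat_lit 321) (nat_lit 130)) (XT.lf (nat_lit 76) (nat_lit 11821759755) (nat_lit 0) (nat_lit 7600110952) (nat_lit 1216) (nat_lit 9087643526) (nat_lit 199) (nat_lit 5) (nat_lit 198) (nat_lit 5) (nat_lit 214) (nat_lit 5) (nat_lit 330) (nat_lit 321) (nat_lit 129))) (XT.nd (nat_lit 78) (nat_lit 0) (nat_lit 0) (XT.lf (nat_lit 0) (nat_lit 20890112751) (nat_lit 1140) (nat_lit 3295937513) (nat_lit 1216) (nat_lit 4773409221) (nat_lit 199) (nat_lit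 5) (nat_lit 214) (nat_lit 5) (nat_lit 215) (nat_lit 5) (nat_lit 331) (nat_lit 321) (nat_lit 128)) (XT.lf (nat_lit 76) (nat_lit 10627571912) (nat_lit 0) (nat_lit 11949192892) (nat_lit 1216) (nat_lit 6840910972) (nat_lit 200) (nat_lit 5) (nat_lit 199) (nat_lit 5) (nat_lit 215) (nat_lit 5) (nat_lit 332) (nat_lit 321) (nat_lit 127))))))) (XT.nd (nat_lit 1092) (nat_lit 3268) (nat_lit 0) (XT.nd (nat_lit 546) (nat_lit 2280) (nat_lit 0) (XT.nd (nat_lit 234) (nat_lit 1140) (nat_lit 0) (XT.nd (nat_lit 78) (nat_lit 0) (nat_lit 0) (XT.lf (nat_lit 0) (nat_lit 24350953406) (nat_lit 1140) (nat_lit 4861188136) (nat_lit 1216) (nat_lit 676392362) (nat_lit 200) (nat_lit 5) (nat_lit 215) (nat_lit 5) (nat_lit 216) (nat_lit 5) (nat_lit 333) (nat_lit 321) (nat_lit 126)) (XT.nd (nat_lit 78) (nat_lit 0) (nat_lit 0) (XT.lf (nat_lit 76) (nat_lit 9551461302) (nat_lit 0) (nat_lit 16834147069) (nat_lit 1216) (nat_lit 3981695541)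 (nat_lit 201) (nat_lit 5) (nat_lit 200) (nat_lit 5) (nat_lit 216) (nat_lit 5) (nat_lit 334) (nat_lit 321) (nat_lit 125)) (XT.lf (nat_lit 76) (nat_lit 24493953132) (nat_lit 0) (nat_lit 4033618638) (nat_lit 1216) (nat_lit 2331480446) (nat_lit 201) (nat_lit 5) (nat_lit 200) (nat_lit 5) (nat_lit 216) (nat_lit 5) (nat_lit 335) (nat_lit 321) (nat_lit 124)))) (XT.nd (nat_lit 156) (nat_lit 0) (nat_lit 76) (XT.nd (nat_lit 78) (nat_lit 1216) (nat_lit 0) (XT.lf (nat_lit 76) (nat_lit 8596741652) (nat_lit 0) (nat_lit 22304922205) (nat_lit 1216) (nat_lit 458856183) (nat_lit 202) (nat_lit 5) (nat_lit 201) (nat_lit 5) (nat_lit 217) (nat_lit 5) (nat_lit 336) (nat_lit 321) (nat_lit 123)) (XT.lf (nat_lit 0) (nat_lit 1543408433) (nat_lit 1216) (nat_lit 7794140235) (nat_lit 1292) (nat_lit 22535997947) (nat_lit 185) (nat_lit 5) (nat_lit 201) (nat_lit 5) (nat_lit 202) (nat_lit 5) (nat_lit 337) (nat_lit 321) (nat_lit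 122))) (XT.nd (nat_lit 78) (nat_lit 0) (nat_lit 0) (XT.lf (nat_lit 0) (nat_lit 3707999688) (nat_lit 1216) (nat_lit 24669618490) (nat_lit 76) (nat_lit 4020867973) (nat_lit 186) (nat_lit 5) (nat_lit 202) (nat_lit 5) (nat_lit 187) (nat_lit 5) (nat_lit 338) (nat_lit 321) (nat_lit 121)) (XT.lf (nat_lit 0) (nat_lit 6106900071) (nat_lit 1216) (nat_lit 9154951015) (nat_lit 76) (nat_lit 17672244457) (nat_lit 186) (nat_lit 5) (nat_lit 202) (nat_lit 5) (nat_lit 187) (nat_lit 5) (nat_lit 339) (nat_lit 321) (nat_lit 120))))) (XT.nd (nat_lit 234) (nat_lit 1064) (nat_lit 0) (XT.nd (nat_lit 78) (nat_lit 608) (nat_lit 0) (XT.lf (nat_lit 0) (nat_lit 6958766403) (nat_lit 684) (nat_lit 1683403290) (nat_lit 760) (nat_lit 24841674187) (nat_lit 177) (nat_lit 5) (nat_lit 186) (nat_lit 5) (nat_lit 187) (nat_lit 5) (nat_lit 340) (nat_lit 321) (nat_lit 119)) (XT.nd (nat_lit 78) (nat_lit 608) (nat_lit 0) (XT.lf (nat_lit 0)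 (nat_lit 11462682698) (nat_lit 760) (nat_lit 10425159647) (nat_lit 76) (nat_lit 12155969414) (nat_lit 177) (nat_lit 5) (nat_lit 187) (nat_lit 5) (nat_lit 178) (nat_lit 5) (nat_lit 341) (nat_lit 321) (nat_lit 118)) (XT.lf (nat_lit 0) (nat_lit 6261092232) (nat_lit 608) (nat_lit 8181207343) (nat_lit 684) (nat_lit 20176047018) (nat_lit 169) (nat_lit 5) (nat_lit 177) (nat_lit 5) (nat_lit 178) (nat_lit 5) (nat_lit 342) (nat_lit 321) (nat_lit 117)))) (XT.nd (nat_lit 156) (nat_lit 532) (nat_lit 0) (XT.nd (nat_lit 78) (nat_lit 532) (nat_lit 0) (XT.lf (nat_lit 0) (nat_lit 17672372876) (nat_lit 684) (nat_lit 11605655697) (nat_lit 76) (nat_lit 5927259360) (nat_lit 169) (nat_lit 5) (nat_lit 178) (nat_lit 5) (nat_lit 170) (nat_lit 5) (nat_lit 343) (nat_lit 321) (nat_lit 116)) (XT.lf (nat_lit 0) (nat_lit 5676089777) (nat_lit 532) (nat_lit 15456575556) (nat_lit 608) (nat_lit 14673175097) (nat_lit 162) (nat_lit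 5) (nat_lit 169) (nat_lit 5) (nat_lit 170) (nat_lit 5) (nat_lit 344) (nat_lit 321) (nat_lit 115))) (XT.nd (nat_lit 78) (nat_lit 532) (nat_lit 0) (XT.lf (nat_lit 0) (nat_lit 23712053305) (nat_lit 532) (nat_lit 1099705376) (nat_lit 608) (nat_lit 11609203412) (nat_lit 162) (nat_lit 5) (nat_lit 169) (nat_lit 5) (nat_lit 170) (nat_lit 5) (nat_lit 345) (nat_lit 321) (nat_lit 114)) (XT.lf (nat_lit 0) (nat_lit 5202355232) (nat_lit 532) (nat_lit 23578316490) (nat_lit 608) (nat_lit 8268484564) (nat_lit 155) (nat_lit 5) (nat_lit 162) (nat_lit 5) (nat_lit 163) (nat_lit 5) (nat_lit 346) (nat_lit 321) (nat_lit 113)))))) (XT.nd (nat_lit 546) (nat_lit 1748) (nat_lit 0) (XT.nd (nat_lit 234) (nat_lit 988) (nat_lit 0) (XT.nd (nat_lit 78) (nat_lit 532) (nat_lit 0) (XT.lf (nat_lit 0) (nat_lit 23898249893) (nat_lit 532) (nat_lit 9107423084) (nat_lit 608) (nat_lit 4686414922) (nat_lit 155) (nat_lit 5) (nat_lit 162) (nat_lit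 5) (nat_lit 163) (nat_lit 5) (nat_lit 347) (nat_lit 321) (nat_lit 112)) (XT.nd (nat_lit 78) (nat_lit 76) (nat_lit 0) (XT.lf (nat_lit 0) (nat_lit 4837252395) (nat_lit 456) (nat_lit 32620365680) (nat_lit 532) (nat_lit 893685727) (nat_lit 149) (nat_lit 5) (nat_lit 155) (nat_lit 5) (nat_lit 156) (nat_lit 5) (nat_lit 348) (nat_lit 321) (nat_lit 111)) (XT.lf (nat_lit 0) (nat_lit 3182858975) (nat_lit 532) (nat_lit 14838739606) (nat_lit 76) (nat_lit 21000966058) (nat_lit 148) (nat_lit 5) (nat_lit 155) (nat_lit 5) (nat_lit 149) (nat_lit 5) (nat_lit 349) (nat_lit 321) (nat_lit 110)))) (XT.nd (nat_lit 156) (nat_lit 456) (nat_lit 0) (XT.nd (nat_lit 78) (nat_lit 0) (nat_lit 0) (XT.lf (nat_lit 0) (nat_lit 4473188606) (nat_lit 532) (nat_lit 2931589373) (nat_lit 608) (nat_lit 32307690638) (nat_lit 141) (nat_lit 5) (nat_lit 148) (nat_lit 5) (nat_lit 149) (nat_lit 5) (nat_lit 350) (nat_lit 321) (nat_lit 109)) (XT.lf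 (nat_lit 0) (nat_lit 12023983130) (nat_lit 608) (nat_lit 15874749943) (nat_lit 76) (nat_lit 12516219699) (nat_lit 141) (nat_lit 5) (nat_lit 149) (nat_lit 5) (nat_lit 142) (nat_lit 5) (nat_lit 351) (nat_lit 321) (nat_lit 108))) (XT.nd (nat_lit 78) (nat_lit 0) (nat_lit 0) (XT.lf (nat_lit 0) (nat_lit 4120028354) (nat_lit 456) (nat_lit 12728498973) (nat_lit 532) (nat_lit 24287983095) (nat_lit 135) (nat_lit 5) (nat_lit 141) (nat_lit 5) (nat_lit 142) (nat_lit 5) (nat_lit 352) (nat_lit 321) (nat_lit 107)) (XT.lf (nat_lit 0) (nat_lit 22005710909) (nat_lit 532) (nat_lit 16866365495) (nat_lit 76) (nat_lit 3002003112) (nat_lit 135) (nat_lit 5) (nat_lit 142) (nat_lit 5) (nat_lit 136) (nat_lit 5) (nat_lit 353) (nat_lit 321) (nat_lit 106))))) (XT.nd (nat_lit 234) (nat_lit 912) (nat_lit 0) (XT.nd (nat_lit 78) (nat_lit 380) (nat_lit 0) (XT.lf (nat_lit 0) (nat_lit 3835032872) (nat_lit 456) (nat_lit 23643685796)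 (nat_lit 532) (nat_lit 15150225507) (nat_lit 129) (nat_lit 5) (nat_lit 135) (nat_lit 5) (nat_lit 136) (nat_lit 5) (nat_lit 354) (nat_lit 321) (nat_lit 105)) (XT.nd (nat_lit 78) (nat_lit 380) (nat_lit 0) (XT.lf (nat_lit 0) (nat_lit 25501204808) (nat_lit 456) (nat_lit 7783280842) (nat_lit 532) (nat_lit 10116913756) (nat_lit 129) (nat_lit 5) (nat_lit 135) (nat_lit 5) (nat_lit 136) (nat_lit 5) (nat_lit 355) (nat_lit 321) (nat_lit 104)) (XT.lf (nat_lit 0) (nat_lit 3606489312) (nat_lit 380) (nat_lit 35773120390) (nat_lit 456) (nat_lit 4813964721) (nat_lit 124) (nat_lit 5) (nat_lit 129) (nat_lit 5) (nat_lit 130) (nat_lit 5) (nat_lit 356) (nat_lit 321) (nat_lit 103)))) (XT.nd (nat_lit 156) (nat_lit 380) (nat_lit 0) (XT.nd (nat_lit 78) (nat_lit 456) (nat_lit 0) (XT.lf (nat_lit 0) (nat_lit 893347833) (nat_lit 456) (nat_lit 18965882664) (nat_lit 76) (nat_lit 25142361222) (nat_lit 123) (nat_lit 5) (nat_lit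 129) (nat_lit 5) (nat_lit 124) (nat_lit 5) (nat_lit 357) (nat_lit 321) (nat_lit 102)) (XT.lf (nat_lit 0) (nat_lit 3319099919) (nat_lit 456) (nat_lit 3386290846) (nat_lit 532) (nat_lit 39126122382) (nat_lit 117) (nat_lit 5) (nat_lit 123) (nat_lit 5) (nat_lit 124) (nat_lit 5) (nat_lit 358) (nat_lit 321) (nat_lit 101))) (XT.nd (nat_lit 78) (nat_lit 380) (nat_lit 0) (XT.lf (nat_lit 0) (nat_lit 13014144318) (nat_lit 532) (nat_lit 20153604071) (nat_lit 76) (nat_lit 13508914817) (nat_lit 117) (nat_lit 5) (nat_lit 124) (nat_lit 5) (nat_lit 118) (nat_lit 5) (nat_lit 359) (nat_lit 321) (nat_lit 100)) (XT.lf (nat_lit 0) (nat_lit 2897043535) (nat_lit 380) (nat_lit 16674927263) (nat_lit 456) (nat_lit 27973404082) (nat_lit 112) (nat_lit 5) (nat_lit 117) (nat_lit 5) (nat_lit 118) (nat_lit 5) (nat_lit 360) (nat_lit 321) (nat_lit 99))))))))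
noncomputable def xc229 : XT := (XT.nd (nat_lit 2184) (nat_lit 608) (nat_lit 0) (XT.nd (nat_lit 1092) (nat_lit 1900) (nat_lit 0) (XT.nd (nat_lit 546) (nat_lit 988) (nat_lit 0) (XT.nd (nat_lit 234) (nat_lit 760) (nat_lit 0) (XT.nd (nat_lit 78) (nat_lit 380) (nat_lit 0) (XT.lf (nat_lit 0) (nat_lit 26533522763) (nat_lit 456) (nat_lit 21388678455) (nat_lit 76) (nat_lit 511738351) (nat_lit 112) (nat_lit 5) (nat_lit 118) (nat_lit 5) (nat_lit 113) (nat_lit 5) (nat_lit 361) (nat_lit 321) (nat_lit 98)) (XT.nd (nat_lit 78) (nat_lit 0) (nat_lit 0) (XT.lf (nat_lit 0) (nat_lit 2449567587) (nat_lit 380) (nat_lit 31441501816) (nat_lit 456) (nat_lit 15452478694) (nat_lit 107) (nat_lit 5) (nat_lit 112) (nat_lit 5) (nat_lit 113) (nat_lit 5) (nat_lit 362) (nat_lit 321) (nat_lit 97)) (XT.lf (nat_lit 0) (nat_lit 27439528524) (nat_lit 380) (nat_lit 14244326250) (nat_lit 456) (nat_lit 8590156041) (nat_lit 107) (nat_lit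 5) (nat_lit 112) (nat_lit 5) (nat_lit 113) (nat_lit 5) (nat_lit 363) (nat_lit 321) (nat_lit 96)))) (XT.nd (nat_lit 156) (nat_lit 380) (nat_lit 0) (XT.nd (nat_lit 78) (nat_lit 76) (nat_lit 0) (XT.lf (nat_lit 0) (nat_lit 1949636418) (nat_lit 304) (nat_lit 47811439940) (nat_lit 380) (nat_lit 1469792742) (nat_lit 103) (nat_lit 5) (nat_lit 107) (nat_lit 5) (nat_lit 108) (nat_lit 5) (nat_lit 364) (nat_lit 321) (nat_lit 95)) (XT.lf (nat_lit 0) (nat_lit 6122226071) (nat_lit 380) (nat_lit 24465714715) (nat_lit 76) (nat_lit 21615628161) (nat_lit 102) (nat_lit 5) (nat_lit 107) (nat_lit 5) (nat_lit 103) (nat_lit 5) (nat_lit 365) (nat_lit 321) (nat_lit 94))) (XT.nd (nat_lit 78) (nat_lit 0) (nat_lit 0) (XT.lf (nat_lit 0) (nat_lit 1099347017) (nat_lit 380) (nat_lit 12822302595) (nat_lit 456) (nat_lit 39283089198) (nat_lit 97) (nat_lit 5) (nat_lit 102) (nat_lit 5) (nat_lit 103) (nat_lit 5) (nat_lit 366) (nat_lit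 321) (nat_lit 93)) (XT.lf (nat_lit 0) (nat_lit 22255835882) (nat_lit 456) (nat_lit 26352577372) (nat_lit 76) (nat_lit 5618508238) (nat_lit 97) (nat_lit 5) (nat_lit 103) (nat_lit 5) (nat_lit 98) (nat_lit 5) (nat_lit 367) (nat_lit 321) (nat_lit 92))))) (XT.nd (nat_lit 234) (nat_lit 684) (nat_lit 0) (XT.nd (nat_lit 78) (nat_lit 0) (nat_lit 0) (XT.lf (nat_lit 0) (nat_lit 44957549) (nat_lit 304) (nat_lit 30921152140) (nat_lit 380) (nat_lit 24309879201) (nat_lit 93) (nat_lit 5) (nat_lit 97) (nat_lit 5) (nat_lit 98) (nat_lit 5) (nat_lit 368) (nat_lit 321) (nat_lit 91)) (XT.nd (nat_lit 78) (nat_lit 0) (nat_lit 0) (XT.lf (nat_lit 0) (nat_lit 27772850321) (nat_lit 304) (nat_lit 12429648584) (nat_lit 380) (nat_lit 16146086247) (nat_lit 93) (nat_lit 5) (nat_lit 97) (nat_lit 5) (nat_lit 98) (nat_lit 5) (nat_lit 369) (nat_lit 321) (nat_lit 90)) (XT.lf (nat_lit 0) (nat_lit 49778314002) (nat_lit 380) (nat_lit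 1186135461) (nat_lit 76) (nat_lit 6487040843) (nat_lit 93) (nat_lit 5) (nat_lit 98) (nat_lit 5) (nat_lit 94) (nat_lit 5) (nat_lit 370) (nat_lit 321) (nat_lit 89)))) (XT.nd (nat_lit 156) (nat_lit 304) (nat_lit 0) (XT.nd (nat_lit 78) (nat_lit 0) (nat_lit 0) (XT.lf (nat_lit 0) (nat_lit 1422735048) (nat_lit 380) (nat_lit 31154110808) (nat_lit 76) (nat_lit 25998652403) (nat_lit 88) (nat_lit 5) (nat_lit 93) (nat_lit 5) (nat_lit 89) (nat_lit 5) (nat_lit 371) (nat_lit 321) (nat_lit 88)) (XT.lf (nat_lit 0) (nat_lit 10648171795) (nat_lit 380) (nat_lit 2899217884) (nat_lit 76) (nat_lit 46183232414) (nat_lit 88) (nat_lit 5) (nat_lit 93) (nat_lit 5) (nat_lit 89) (nat_lit 5) (nat_lit 372) (nat_lit 321) (nat_lit 87))) (XT.nd (nat_lit 78) (nat_lit 0) (nat_lit 0) (XT.lf (nat_lit 0) (nat_lit 20466784898) (nat_lit 380) (nat_lit 34250328057) (nat_lit 76) (nat_lit 6193795204) (nat_lit 84) (nat_lit 5) (nat_lit 89) (nat_lit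 5) (nat_lit 85) (nat_lit 5) (nat_lit 373) (nat_lit 321) (nat_lit 86)) (XT.lf (nat_lit 0) (nat_lit 30742480259) (nat_lit 380) (nat_lit 5095219922) (nat_lit 76) (nat_lit 26284027796) (nat_lit 84) (nat_lit 5) (nat_lit 89) (nat_lit 5) (nat_lit 85) (nat_lit 5) (nat_lit 374) (nat_lit 321) (nat_lit 85)))))) (XT.nd (nat_lit 546) (nat_lit 760) (nat_lit 0) (XT.nd (nat_lit 234) (nat_lit 608) (nat_lit 0) (XT.nd (nat_lit 78) (nat_lit 228) (nat_lit 0) (XT.lf (nat_lit 0) (nat_lit 25429128032) (nat_lit 304) (nat_lit 16140618021) (nat_lit 380) (nat_lit 21791828213) (nat_lit 80) (nat_lit 5) (nat_lit 84) (nat_lit 5) (nat_lit 85) (nat_lit 5) (nat_lit 375) (nat_lit 321) (nat_lit 84)) (XT.nd (nat_lit 78) (nat_lit 228) (nat_lit 0) (XT.lf (nat_lit 0) (nat_lit 52812530375) (nat_lit 380) (nat_lit 7705436683) (nat_lit 76) (nat_lit 4117928706) (nat_lit 80) (nat_lit 5) (nat_lit 85) (nat_lit 5) (nat_lit 81) (nat_lit 5) (nat_lit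 376) (nat_lit 321) (nat_lit 83)) (XT.lf (nat_lit 0) (nat_lit 23730040230) (nat_lit 228) (nat_lit 41049378883) (nat_lit 304) (nat_lit 1157423979) (nat_lit 77) (nat_lit 5) (nat_lit 80) (nat_lit 5) (nat_lit 81) (nat_lit 5) (nat_lit 377) (nat_lit 321) (nat_lit 82)))) (XT.nd (nat_lit 156) (nat_lit 228) (nat_lit 0) (XT.nd (nat_lit 78) (nat_lit 304) (nat_lit 0) (XT.lf (nat_lit 0) (nat_lit 9714196917) (nat_lit 304) (nat_lit 11104797318) (nat_lit 76) (nat_lit 46452666328) (nat_lit 76) (nat_lit 5) (nat_lit 80) (nat_lit 5) (nat_lit 77) (nat_lit 5) (nat_lit 378) (nat_lit 321) (nat_lit 81)) (XT.lf (nat_lit 0) (nat_lit 21095031664) (nat_lit 380) (nat_lit 47308824612) (nat_lit 76) (nat_lit 236133387) (nat_lit 72) (nat_lit 5) (nat_lit 77) (nat_lit 5) (nat_lit 73) (nat_lit 5) (nat_lit 379) (nat_lit 321) (nat_lit 80))) (XT.nd (nat_lit 78) (nat_lit 228) (nat_lit 0) (XT.lf (nat_lit 0) (nat_lit 33135620439) (nat_lit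 380) (nat_lit 15286965282) (nat_lit 76) (nat_lit 21617233768) (nat_lit 72) (nat_lit 5) (nat_lit 77) (nat_lit 5) (nat_lit 73) (nat_lit 5) (nat_lit 380) (nat_lit 321) (nat_lit 79)) (XT.lf (nat_lit 0) (nat_lit 18046175738) (nat_lit 228) (nat_lit 27663705891) (nat_lit 304) (nat_lit 25766589640) (nat_lit 69) (nat_lit 5) (nat_lit 72) (nat_lit 5) (nat_lit 73) (nat_lit 5) (nat_lit 381) (nat_lit 321) (nat_lit 78))))) (XT.nd (nat_lit 234) (nat_lit 456) (nat_lit 0) (XT.nd (nat_lit 78) (nat_lit 304) (nat_lit 0) (XT.lf (nat_lit 0) (nat_lit 52691173714) (nat_lit 228) (nat_lit 6123564314) (nat_lit 304) (nat_lit 14136884232) (nat_lit 69) (nat_lit 5) (nat_lit 72) (nat_lit 5) (nat_lit 73) (nat_lit 5) (nat_lit 382) (nat_lit 321) (nat_lit 77)) (XT.nd (nat_lit 78) (nat_lit 76) (nat_lit 0) (XT.lf (nat_lit 0) (nat_lit 14022226357) (nat_lit 228) (nat_lit 58578732713) (nat_lit 304) (nat_lit 1861422803) (nat_lit 66) (nat_lit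 5) (nat_lit 69) (nat_lit 5) (nat_lit 70) (nat_lit 5) (nat_lit 383) (nat_lit 321) (nat_lit 76)) (XT.lf (nat_lit 0) (nat_lit 10838174305) (nat_lit 304) (nat_lit 26431418553) (nat_lit 76) (nat_lit 38737774455) (nat_lit 65) (nat_lit 5) (nat_lit 69) (nat_lit 5) (nat_lit 66) (nat_lit 5) (nat_lit 384) (nat_lit 321) (nat_lit 75)))) (XT.nd (nat_lit 156) (nat_lit 228) (nat_lit 0) (XT.nd (nat_lit 78) (nat_lit 0) (nat_lit 0) (XT.lf (nat_lit 0) (nat_lit 8748415379) (nat_lit 228) (nat_lit 15216082225) (nat_lit 304) (nat_lit 53631157889) (nat_lit 62) (nat_lit 5) (nat_lit 65) (nat_lit 5) (nat_lit 66) (nat_lit 5) (nat_lit 385) (nat_lit 321) (nat_lit 74)) (XT.lf (nat_lit 0) (nat_lit 37825308814) (nat_lit 304) (nat_lit 33774308346) (nat_lit 76) (nat_lit 7621754798) (nat_lit 62) (nat_lit 5) (nat_lit 66) (nat_lit 5) (nat_lit 63) (nat_lit 5) (nat_lit 386) (nat_lit 321) (nat_lit 73))) (XT.nd (nat_lit 78) (nat_lit 0)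 (nat_lit 0) (XT.lf (nat_lit 0) (nat_lit 2242501066) (nat_lit 228) (nat_lit 50030745887) (nat_lit 304) (nat_lit 28617474456) (nat_lit 59) (nat_lit 5) (nat_lit 62) (nat_lit 5) (nat_lit 63) (nat_lit 5) (nat_lit 387) (nat_lit 321) (nat_lit 72)) (XT.lf (nat_lit 0) (nat_lit 40030753542) (nat_lit 228) (nat_lit 27464028980) (nat_lit 304) (nat_lit 15105164595) (nat_lit 59) (nat_lit 5) (nat_lit 62) (nat_lit 5) (nat_lit 63) (nat_lit 5) (nat_lit 388) (nat_lit 321) (nat_lit 71))))))) (XT.nd (nat_lit 36036) (nat_lit 0) (nat_lit 8968) (XT.nd (nat_lit 35490) (nat_lit 0) (nat_lit 10944) (XT.nd (nat_lit 234) (nat_lit 380) (nat_lit 0) (XT.nd (nat_lit 78) (nat_lit 228) (nat_lit 0) (XT.lf (nat_lit 0) (nat_lit 78951292985) (nat_lit 228) (nat_lit 4220802239) (nat_lit 304) (nat_lit 1188380980) (nat_lit 59) (nat_lit 5) (nat_lit 62) (nat_lit 5) (nat_lit 63) (nat_lit 5) (nat_lit 389) (nat_lit 321) (nat_lit 70)) (XT.nd (nat_lit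 78) (nat_lit 0) (nat_lit 0) (XT.lf (nat_lit 0) (nat_lit 13403472027) (nat_lit 228) (nat_lit 52964938424) (nat_lit 76) (nat_lit 19786197526) (nat_lit 56) (nat_lit 5) (nat_lit 59) (nat_lit 5) (nat_lit 57) (nat_lit 5) (nat_lit 390) (nat_lit 321) (nat_lit 69)) (XT.lf (nat_lit 0) (nat_lit 28505303360) (nat_lit 228) (nat_lit 14998997632) (nat_lit 76) (nat_lit 44495026980) (nat_lit 56) (nat_lit 5) (nat_lit 59) (nat_lit 5) (nat_lit 57) (nat_lit 5) (nat_lit 391) (nat_lit 321) (nat_lit 68)))) (XT.nd (nat_lit 156) (nat_lit 152) (nat_lit 0) (XT.nd (nat_lit 78) (nat_lit 0) (nat_lit 0) (XT.lf (nat_lit 0) (nat_lit 24584343313) (nat_lit 228) (nat_lit 19711345618) (nat_lit 304) (nat_lit 45596636133) (nat_lit 53) (nat_lit 5) (nat_lit 56) (nat_lit 5) (nat_lit 57) (nat_lit 5) (nat_lit 392) (nat_lit 321) (nat_lit 67)) (XT.lf (nat_lit 0) (nat_lit 60758028788) (nat_lit 304) (nat_lit 26223829343) (nat_lit 76) (nat_lit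 4854307119) (nat_lit 53) (nat_lit 5) (nat_lit 57) (nat_lit 5) (nat_lit 54) (nat_lit 5) (nat_lit 393) (nat_lit 321) (nat_lit 66))) (XT.nd (nat_lit 35022) (nat_lit 0) (nat_lit 10944) (XT.lf (nat_lit 0) (nat_lit 14111781355) (nat_lit 152) (nat_lit 63932480437) (nat_lit 228) (nat_lit 15784158612) (nat_lit 51) (nat_lit 5) (nat_lit 53) (nat_lit 5) (nat_lit 54) (nat_lit 5) (nat_lit 394) (nat_lit 321) (nat_lit 65)) (XT.lf (nat_lit 0) (nat_lit 3164890063) (nat_lit 0) (nat_lit 3164890063) (nat_lit 1140) (nat_lit 6481925385) (nat_lit 195) (nat_lit 5) (nat_lit 195) (nat_lit 3) (nat_lit 210) (nat_lit 3) (nat_lit 322) (nat_lit 322) (nat_lit 136))))) (XT.nd (nat_lit 234) (nat_lit 0) (nat_lit 76) (XT.nd (nat_lit 78) (nat_lit 0) (nat_lit 0) (XT.lf (nat_lit 0) (nat_lit 12996790769) (nat_lit 1140) (nat_lit 7724201332) (nat_lit 1216) (nat_lit 5282237725) (nat_lit 195) (nat_lit 5) (nat_lit 210) (nat_lit 3) (nat_lit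 211) (nat_lit 5) (nat_lit 323) (nat_lit 322) (nat_lit 135)) (XT.nd (nat_lit 78) (nat_lit 0) (nat_lit 76) (XT.lf (nat_lit 76) (nat_lit 4209789476) (nat_lit 0) (nat_lit 9233775741) (nat_lit 1216) (nat_lit 12947899545) (nat_lit 196) (nat_lit 5) (nat_lit 195) (nat_lit 5) (nat_lit 211) (nat_lit 5) (nat_lit 324) (nat_lit 322) (nat_lit 134)) (XT.lf (nat_lit 0) (nat_lit 14003882287) (nat_lit 1140) (nat_lit 10156722412) (nat_lit 1216) (nat_lit 2627742119) (nat_lit 196) (nat_lit 5) (nat_lit 211) (nat_lit 5) (nat_lit 212) (nat_lit 5) (nat_lit 325) (nat_lit 322) (nat_lit 133)))) (XT.nd (nat_lit 156) (nat_lit 0) (nat_lit 76) (XT.nd (nat_lit 78) (nat_lit 0) (nat_lit 0) (XT.lf (nat_lit 76) (nat_lit 2178009914) (nat_lit 0) (nat_lit 12511857594) (nat_lit 1216) (nat_lit 12504006197) (nat_lit 197) (nat_lit 5) (nat_lit 196) (nat_lit 5) (nat_lit 212) (nat_lit 5) (nat_lit 326) (nat_lit 322) (nat_lit 132)) (XT.lf (nat_lit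 76) (nat_lit 15088960695) (nat_lit 0) (nat_lit 406615824) (nat_lit 1216) (nat_lit 12113019562) (nat_lit 197) (nat_lit 5) (nat_lit 196) (nat_lit 5) (nat_lit 212) (nat_lit 5) (nat_lit 327) (nat_lit 322) (nat_lit 131))) (XT.nd (nat_lit 78) (nat_lit 0) (nat_lit 0) (XT.lf (nat_lit 76) (nat_lit 238096950) (nat_lit 0) (nat_lit 16202287645) (nat_lit 1216) (nat_lit 11591931591) (nat_lit 198) (nat_lit 5) (nat_lit 197) (nat_lit 5) (nat_lit 213) (nat_lit 5) (nat_lit 328) (nat_lit 322) (nat_lit 130)) (XT.lf (nat_lit 76) (nat_lit 13629032108) (nat_lit 0) (nat_lit 3911685289) (nat_lit 1216) (nat_lit 10924218863) (nat_lit 198) (nat_lit 5) (nat_lit 197) (nat_lit 5) (nat_lit 213) (nat_lit 5) (nat_lit 329) (nat_lit 322) (nat_lit 129)))))) (XT.nd (nat_lit 546) (nat_lit 2204) (nat_lit 0) (XT.nd (nat_lit 234) (nat_lit 0) (nat_lit 76) (XT.nd (nat_lit 78) (nat_lit 0) (nat_lit 0) (XT.lf (nat_lit 0) (nat_lit 18755023043)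 (nat_lit 1140) (nat_lit 1575039141) (nat_lit 1216) (nat_lit 8578047536) (nat_lit 198) (nat_lit 5) (nat_lit 213) (nat_lit 5) (nat_lit 214) (nat_lit 5) (nat_lit 330) (nat_lit 322) (nat_lit 128)) (XT.nd (nat_lit 78) (nat_lit 0) (nat_lit 76) (XT.lf (nat_lit 76) (nat_lit 12282548634) (nat_lit 0) (nat_lit 7876972402) (nat_lit 1216) (nat_lit 9200448013) (nat_lit 199) (nat_lit 5) (nat_lit 198) (nat_lit 5) (nat_lit 214) (nat_lit 5) (nat_lit 331) (nat_lit 322) (nat_lit 127)) (XT.lf (nat_lit 0) (nat_lit 21666839973) (nat_lit 1140) (nat_lit 3286625006) (nat_lit 1216) (nat_lit 4870102057) (nat_lit 199) (nat_lit 5) (nat_lit 214) (nat_lit 5) (nat_lit 215) (nat_lit 5) (nat_lit 332) (nat_lit 322) (nat_lit 126)))) (XT.nd (nat_lit 156) (nat_lit 0) (nat_lit 76) (XT.nd (nat_lit 78) (nat_lit 0) (nat_lit 76) (XT.lf (nat_lit 76) (nat_lit 11053529010) (nat_lit 0) (nat_lit 12347222750) (nat_lit 1216) (nat_lit 6894883362)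 (nat_lit 200) (nat_lit 5) (nat_lit 199) (nat_lit 5) (nat_lit 215) (nat_lit 5) (nat_lit 333) (nat_lit 322) (nat_lit 125)) (XT.lf (nat_lit 0) (nat_lit 25223524526) (nat_lit 1140) (nat_lit 4898207192) (nat_lit 1216) (nat_lit 659031484) (nat_lit 200) (nat_lit 5) (nat_lit 215) (nat_lit 5) (nat_lit 216) (nat_lit 5) (nat_lit 334) (nat_lit 322) (nat_lit 124))) (XT.nd (nat_lit 78) (nat_lit 0) (nat_lit 0) (XT.lf (nat_lit 76) (nat_lit 9945754900) (nat_lit 0) (nat_lit 17370362835) (nat_lit 1216) (nat_lit 3957876435) (nat_lit 201) (nat_lit 5) (nat_lit 200) (nat_lit 5) (nat_lit 216) (nat_lit 5) (nat_lit 335) (nat_lit 322) (nat_lit 123)) (XT.lf (nat_lit 76) (nat_lit 25333383142) (nat_lit 0) (nat_lit 4184910066) (nat_lit 1216) (nat_lit 2262327799) (nat_lit 201) (nat_lit 5) (nat_lit 200) (nat_lit 5) (nat_lit 216) (nat_lit 5) (nat_lit 336) (nat_lit 322) (nat_lit 122))))) (XT.nd (nat_lit 234) (nat_lit 1216) (nat_lit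 0) (XT.nd (nat_lit 78) (nat_lit 1216) (nat_lit 0) (XT.lf (nat_lit 76) (nat_lit 8962679531) (nat_lit 0) (nat_lit 22997755453) (nat_lit 1216) (nat_lit 336797617) (nat_lit 202) (nat_lit 5) (nat_lit 201) (nat_lit 5) (nat_lit 217) (nat_lit 5) (nat_lit 337) (nat_lit 322) (nat_lit 121)) (XT.nd (nat_lit 78) (nat_lit 0) (nat_lit 76) (XT.lf (nat_lit 0) (nat_lit 1719005668) (nat_lit 1216) (nat_lit 7920359545) (nat_lit 1292) (nat_lit 23186366238) (nat_lit 185) (nat_lit 5) (nat_lit 201) (nat_lit 5) (nat_lit 202) (nat_lit 5) (nat_lit 338) (nat_lit 322) (nat_lit 120)) (XT.lf (nat_lit 0) (nat_lit 3945600725) (nat_lit 1216) (nat_lit 25299029656) (nat_lit 76) (nat_lit 4121880966) (nat_lit 186) (nat_lit 5) (nat_lit 202) (nat_lit 5) (nat_lit 187) (nat_lit 5) (nat_lit 339) (nat_lit 322) (nat_lit 119)))) (XT.nd (nat_lit 156) (nat_lit 608) (nat_lit 0) (XT.nd (nat_lit 78) (nat_lit 684) (nat_lit 0) (XT.lf (nat_lit 0) (nat_lit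 6412787701) (nat_lit 1216) (nat_lit 9322145770) (nat_lit 76) (nat_lit 18183369998) (nat_lit 186) (nat_lit 5) (nat_lit 202) (nat_lit 5) (nat_lit 187) (nat_lit 5) (nat_lit 340) (nat_lit 322) (nat_lit 118)) (XT.lf (nat_lit 0) (nat_lit 7273929702) (nat_lit 684) (nat_lit 1747635273) (nat_lit 760) (nat_lit 25463059713) (nat_lit 177) (nat_lit 5) (nat_lit 186) (nat_lit 5) (nat_lit 187) (nat_lit 5) (nat_lit 341) (nat_lit 322) (nat_lit 117))) (XT.nd (nat_lit 78) (nat_lit 608) (nat_lit 0) (XT.lf (nat_lit 0) (nat_lit 11923066296) (nat_lit 760) (nat_lit 10630859295) (nat_lit 76) (nat_lit 12507578628) (nat_lit 177) (nat_lit 5) (nat_lit 187) (nat_lit 5) (nat_lit 178) (nat_lit 5) (nat_lit 342) (nat_lit 322) (nat_lit 116)) (XT.lf (nat_lit 0) (nat_lit 6554930580) (nat_lit 608) (nat_lit 8434766795) (nat_lit 684) (nat_lit 20663652646) (nat_lit 169) (nat_lit 5) (nat_lit 177) (nat_lit 5) (nat_lit 178) (nat_lit 5) (nat_lit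 343) (nat_lit 322) (nat_lit 115))))))))
noncomputable def xc230 : XT := (XT.nd (nat_lit 2106) (nat_lit 3040) (nat_lit 0) (XT.nd (nat_lit 1014) (nat_lit 2736) (nat_lit 0) (XT.nd (nat_lit 468) (nat_lit 1520) (nat_lit 0) (XT.nd (nat_lit 234) (nat_lit 988) (nat_lit 0) (XT.nd (nat_lit 78) (nat_lit 532) (nat_lit 0) (XT.lf (nat_lit 0) (nat_lit 18313272924) (nat_lit 684) (nat_lit 11847387857) (nat_lit 76) (nat_lit 6097344405) (nat_lit 169) (nat_lit 5) (nat_lit 178) (nat_lit 5) (nat_lit 170) (nat_lit 5) (nat_lit 344) (nat_lit 322) (nat_lit 114)) (XT.nd (nat_lit 78) (nat_lit 0) (nat_lit 0) (XT.lf (nat_lit 0) (nat_lit 5951766477) (nat_lit 532) (nat_lit 15923395677) (nat_lit 608) (nat_lit 15001481944) (nat_lit 162) (nat_lit 5) (nat_lit 169) (nat_lit 5) (nat_lit 170) (nat_lit 5) (nat_lit 345) (nat_lit 322) (nat_lit 113)) (XT.lf (nat_lit 0) (nat_lit 24525739182) (nat_lit 532) (nat_lit 1135728435) (nat_lit 608)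 (nat_lit 11848849995) (nat_lit 162) (nat_lit 5) (nat_lit 169) (nat_lit 5) (nat_lit 170) (nat_lit 5) (nat_lit 346) (nat_lit 322) (nat_lit 112)))) (XT.nd (nat_lit 78) (nat_lit 456) (nat_lit 0) (XT.lf (nat_lit 0) (nat_lit 5463017099) (nat_lit 532) (nat_lit 24284339423) (nat_lit 608) (nat_lit 8410067135) (nat_lit 155) (nat_lit 5) (nat_lit 162) (nat_lit 5) (nat_lit 163) (nat_lit 5) (nat_lit 347) (nat_lit 322) (nat_lit 111)) (XT.nd (nat_lit 78) (nat_lit 456) (nat_lit 0) (XT.lf (nat_lit 0) (nat_lit 24716742254) (nat_lit 532) (nat_lit 9379357853) (nat_lit 608) (nat_lit 4723636529) (nat_lit 155) (nat_lit 5) (nat_lit 162) (nat_lit 5) (nat_lit 163) (nat_lit 5) (nat_lit 348) (nat_lit 322) (nat_lit 110)) (XT.lf (nat_lit 0) (nat_lit 5085990406) (nat_lit 456) (nat_lit 33593701129) (nat_lit 532) (nat_lit 819097935) (nat_lit 149) (nat_lit 5) (nat_lit 155) (nat_lit 5) (nat_lit 156) (nat_lit 5) (nat_lit 349) (nat_lit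 322) (nat_lit 109))))) (XT.nd (nat_lit 234) (nat_lit 912) (nat_lit 0) (XT.nd (nat_lit 78) (nat_lit 532) (nat_lit 0) (XT.lf (nat_lit 0) (nat_lit 3374868741) (nat_lit 532) (nat_lit 15181281228) (nat_lit 76) (nat_lit 21634098708) (nat_lit 148) (nat_lit 5) (nat_lit 155) (nat_lit 5) (nat_lit 149) (nat_lit 5) (nat_lit 350) (nat_lit 322) (nat_lit 108)) (XT.nd (nat_lit 78) (nat_lit 0) (nat_lit 0) (XT.lf (nat_lit 0) (nat_lit 4708998746) (nat_lit 532) (nat_lit 3012611971) (nat_lit 608) (nat_lit 33179296925) (nat_lit 141) (nat_lit 5) (nat_lit 148) (nat_lit 5) (nat_lit 149) (nat_lit 5) (nat_lit 351) (nat_lit 322) (nat_lit 107)) (XT.lf (nat_lit 0) (nat_lit 12476698708) (nat_lit 608) (nat_lit 16249552688) (nat_lit 76) (nat_lit 12898298473) (nat_lit 141) (nat_lit 5) (nat_lit 149) (nat_lit 5) (nat_lit 142) (nat_lit 5) (nat_lit 352) (nat_lit 322) (nat_lit 106)))) (XT.nd (nat_lit 156) (nat_lit 456) (nat_lit 0) (XT.nd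 (nat_lit 78) (nat_lit 0) (nat_lit 0) (XT.lf (nat_lit 0) (nat_lit 4344074451) (nat_lit 456) (nat_lit 13100190825) (nat_lit 532) (nat_lit 24923543062) (nat_lit 135) (nat_lit 5) (nat_lit 141) (nat_lit 5) (nat_lit 142) (nat_lit 5) (nat_lit 353) (nat_lit 322) (nat_lit 105)) (XT.lf (nat_lit 0) (nat_lit 22753629637) (nat_lit 532) (nat_lit 17272215732) (nat_lit 76) (nat_lit 3101737768) (nat_lit 135) (nat_lit 5) (nat_lit 142) (nat_lit 5) (nat_lit 136) (nat_lit 5) (nat_lit 354) (nat_lit 322) (nat_lit 104))) (XT.nd (nat_lit 78) (nat_lit 0) (nat_lit 0) (XT.lf (nat_lit 0) (nat_lit 4049242815) (nat_lit 456) (nat_lit 24339982241) (nat_lit 532) (nat_lit 15515919271) (nat_lit 129) (nat_lit 5) (nat_lit 135) (nat_lit 5) (nat_lit 136) (nat_lit 5) (nat_lit 355) (nat_lit 322) (nat_lit 103)) (XT.lf (nat_lit 0) (nat_lit 26362511783) (nat_lit 456) (nat_lit 8004144191) (nat_lit 532) (nat_lit 10334194954) (nat_lit 129) (nat_lit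 5) (nat_lit 135) (nat_lit 5) (nat_lit 136) (nat_lit 5) (nat_lit 356) (nat_lit 322) (nat_lit 102)))))) (XT.nd (nat_lit 546) (nat_lit 1064) (nat_lit 0) (XT.nd (nat_lit 234) (nat_lit 760) (nat_lit 0) (XT.nd (nat_lit 78) (nat_lit 532) (nat_lit 0) (XT.lf (nat_lit 0) (nat_lit 3812455789) (nat_lit 380) (nat_lit 36830799726) (nat_lit 456) (nat_lit 4873579398) (nat_lit 124) (nat_lit 5) (nat_lit 129) (nat_lit 5) (nat_lit 130) (nat_lit 5) (nat_lit 357) (nat_lit 322) (nat_lit 101)) (XT.nd (nat_lit 78) (nat_lit 456) (nat_lit 0) (XT.lf (nat_lit 0) (nat_lit 1000875868) (nat_lit 456) (nat_lit 19438253950) (nat_lit 76) (nat_lit 25910013343) (nat_lit 123) (nat_lit 5) (nat_lit 129) (nat_lit 5) (nat_lit 124) (nat_lit 5) (nat_lit 358) (nat_lit 322) (nat_lit 100)) (XT.lf (nat_lit 0) (nat_lit 3514331000) (nat_lit 456) (nat_lit 3471517323) (nat_lit 532) (nat_lit 40218159031) (nat_lit 117) (nat_lit 5) (nat_lit 123) (nat_lit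 5) (nat_lit 124) (nat_lit 5) (nat_lit 359) (nat_lit 322) (nat_lit 99)))) (XT.nd (nat_lit 156) (nat_lit 380) (nat_lit 0) (XT.nd (nat_lit 78) (nat_lit 380) (nat_lit 0) (XT.lf (nat_lit 0) (nat_lit 13481707598) (nat_lit 532) (nat_lit 20663113176) (nat_lit 76) (nat_lit 13929757953) (nat_lit 117) (nat_lit 5) (nat_lit 124) (nat_lit 5) (nat_lit 118) (nat_lit 5) (nat_lit 360) (nat_lit 322) (nat_lit 98)) (XT.lf (nat_lit 0) (nat_lit 3078121515) (nat_lit 380) (nat_lit 17156805781) (nat_lit 456) (nat_lit 28734466750) (nat_lit 112) (nat_lit 5) (nat_lit 117) (nat_lit 5) (nat_lit 118) (nat_lit 5) (nat_lit 361) (nat_lit 322) (nat_lit 97))) (XT.nd (nat_lit 78) (nat_lit 380) (nat_lit 0) (XT.lf (nat_lit 0) (nat_lit 27403289562) (nat_lit 456) (nat_lit 21936812422) (nat_lit 76) (nat_lit 544576763) (nat_lit 112) (nat_lit 5) (nat_lit 118) (nat_lit 5) (nat_lit 113) (nat_lit 5) (nat_lit 362) (nat_lit 322) (nat_lit 96))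 (XT.lf (nat_lit 0) (nat_lit 2615664075) (nat_lit 380) (nat_lit 32364640363) (nat_lit 456) (nat_lit 15841310766) (nat_lit 107) (nat_lit 5) (nat_lit 112) (nat_lit 5) (nat_lit 113) (nat_lit 5) (nat_lit 363) (nat_lit 322) (nat_lit 95))))) (XT.nd (nat_lit 234) (nat_lit 684) (nat_lit 0) (XT.nd (nat_lit 78) (nat_lit 380) (nat_lit 0) (XT.lf (nat_lit 0) (nat_lit 28352626478) (nat_lit 380) (nat_lit 14652135156) (nat_lit 456) (nat_lit 8775295392) (nat_lit 107) (nat_lit 5) (nat_lit 112) (nat_lit 5) (nat_lit 113) (nat_lit 5) (nat_lit 364) (nat_lit 322) (nat_lit 94)) (XT.nd (nat_lit 78) (nat_lit 76) (nat_lit 0) (XT.lf (nat_lit 0) (nat_lit 2099123109) (nat_lit 304) (nat_lit 49224183433) (nat_lit 380) (nat_lit 1442346135) (nat_lit 103) (nat_lit 5) (nat_lit 107) (nat_lit 5) (nat_lit 108) (nat_lit 5) (nat_lit 365) (nat_lit 322) (nat_lit 93)) (XT.lf (nat_lit 0) (nat_lit 6373994192) (nat_lit 380) (nat_lit 25109926540)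 (nat_lit 76) (nat_lit 22283655160) (nat_lit 102) (nat_lit 5) (nat_lit 107) (nat_lit 5) (nat_lit 103) (nat_lit 5) (nat_lit 366) (nat_lit 322) (nat_lit 92)))) (XT.nd (nat_lit 156) (nat_lit 304) (nat_lit 0) (XT.nd (nat_lit 78) (nat_lit 0) (nat_lit 0) (XT.lf (nat_lit 0) (nat_lit 1221207048) (nat_lit 380) (nat_lit 13185064223) (nat_lit 456) (nat_lit 40392545118) (nat_lit 97) (nat_lit 5) (nat_lit 102) (nat_lit 5) (nat_lit 103) (nat_lit 5) (nat_lit 367) (nat_lit 322) (nat_lit 91)) (XT.lf (nat_lit 0) (nat_lit 22988736937) (nat_lit 456) (nat_lit 27055063802) (nat_lit 76) (nat_lit 5807917812) (nat_lit 97) (nat_lit 5) (nat_lit 103) (nat_lit 5) (nat_lit 98) (nat_lit 5) (nat_lit 368) (nat_lit 322) (nat_lit 90))) (XT.nd (nat_lit 78) (nat_lit 0) (nat_lit 0) (XT.lf (nat_lit 0) (nat_lit 133533531) (nat_lit 304) (nat_lit 31825724123) (nat_lit 380) (nat_lit 24973033723) (nat_lit 93) (nat_lit 5) (nat_lit 97) (nat_lit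 5) (nat_lit 98) (nat_lit 5) (nat_lit 369) (nat_lit 322) (nat_lit 89)) (XT.lf (nat_lit 0) (nat_lit 28690722486) (nat_lit 304) (nat_lit 12780147186) (nat_lit 380) (nat_lit 16566253442) (nat_lit 93) (nat_lit 5) (nat_lit 97) (nat_lit 5) (nat_lit 98) (nat_lit 5) (nat_lit 370) (nat_lit 322) (nat_lit 88))))))) (XT.nd (nat_lit 1092) (nat_lit 988) (nat_lit 0) (XT.nd (nat_lit 546) (nat_lit 1064) (nat_lit 0) (XT.nd (nat_lit 234) (nat_lit 608) (nat_lit 0) (XT.nd (nat_lit 78) (nat_lit 380) (nat_lit 0) (XT.lf (nat_lit 0) (nat_lit 51332353747) (nat_lit 380) (nat_lit 1137844755) (nat_lit 76) (nat_lit 6702966563) (nat_lit 93) (nat_lit 5) (nat_lit 98) (nat_lit 5) (nat_lit 94) (nat_lit 5) (nat_lit 371) (nat_lit 322) (nat_lit 87)) (XT.nd (nat_lit 78) (nat_lit 0) (nat_lit 0) (XT.lf (nat_lit 0) (nat_lit 1525776267) (nat_lit 380) (nat_lit 32004433984) (nat_lit 76) (nat_lit 26800695766) (nat_lit 88) (nat_lit 5) (nat_lit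 93) (nat_lit 5) (nat_lit 89) (nat_lit 5) (nat_lit 372) (nat_lit 322) (nat_lit 86)) (XT.lf (nat_lit 0) (nat_lit 11026218082) (nat_lit 380) (nat_lit 2904349616) (nat_lit 76) (nat_lit 47590169961) (nat_lit 88) (nat_lit 5) (nat_lit 93) (nat_lit 5) (nat_lit 89) (nat_lit 5) (nat_lit 373) (nat_lit 322) (nat_lit 85)))) (XT.nd (nat_lit 156) (nat_lit 304) (nat_lit 0) (XT.nd (nat_lit 78) (nat_lit 0) (nat_lit 0) (XT.lf (nat_lit 0) (nat_lit 21138686416) (nat_lit 380) (nat_lit 35195246182) (nat_lit 76) (nat_lit 6402522115) (nat_lit 84) (nat_lit 5) (nat_lit 89) (nat_lit 5) (nat_lit 85) (nat_lit 5) (nat_lit 374) (nat_lit 322) (nat_lit 84)) (XT.lf (nat_lit 0) (nat_lit 31720966290) (nat_lit 380) (nat_lit 5167890387) (nat_lit 76) (nat_lit 27094794315) (nat_lit 84) (nat_lit 5) (nat_lit 89) (nat_lit 5) (nat_lit 85) (nat_lit 5) (nat_lit 375) (nat_lit 322) (nat_lit 83))) (XT.nd (nat_lit 78) (nat_lit 0) (nat_lit 0) (XT.lf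 (nat_lit 0) (nat_lit 26271401866) (nat_lit 304) (nat_lit 16600774201) (nat_lit 380) (nat_lit 22388544060) (nat_lit 80) (nat_lit 5) (nat_lit 84) (nat_lit 5) (nat_lit 85) (nat_lit 5) (nat_lit 376) (nat_lit 322) (nat_lit 82)) (XT.lf (nat_lit 0) (nat_lit 54450856707) (nat_lit 380) (nat_lit 7858085163) (nat_lit 76) (nat_lit 4264372216) (nat_lit 80) (nat_lit 5) (nat_lit 85) (nat_lit 5) (nat_lit 81) (nat_lit 5) (nat_lit 377) (nat_lit 322) (nat_lit 81))))) (XT.nd (nat_lit 234) (nat_lit 456) (nat_lit 0) (XT.nd (nat_lit 78) (nat_lit 380) (nat_lit 0) (XT.lf (nat_lit 0) (nat_lit 24519686305) (nat_lit 228) (nat_lit 42256241763) (nat_lit 304) (nat_lit 1137387655) (nat_lit 77) (nat_lit 5) (nat_lit 80) (nat_lit 5) (nat_lit 81) (nat_lit 5) (nat_lit 378) (nat_lit 322) (nat_lit 80)) (XT.nd (nat_lit 78) (nat_lit 304) (nat_lit 0) (XT.lf (nat_lit 0) (nat_lit 10057749522) (nat_lit 304) (nat_lit 11361386719) (nat_lit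 76) (nat_lit 47869073698) (nat_lit 76) (nat_lit 5) (nat_lit 80) (nat_lit 5) (nat_lit 77) (nat_lit 5) (nat_lit 379) (nat_lit 322) (nat_lit 79)) (XT.lf (nat_lit 0) (nat_lit 21779454922) (nat_lit 380) (nat_lit 48650944871) (nat_lit 76) (nat_lit 267206818) (nat_lit 72) (nat_lit 5) (nat_lit 77) (nat_lit 5) (nat_lit 73) (nat_lit 5) (nat_lit 380) (nat_lit 322) (nat_lit 78)))) (XT.nd (nat_lit 156) (nat_lit 228) (nat_lit 0) (XT.nd (nat_lit 78) (nat_lit 228) (nat_lit 0) (XT.lf (nat_lit 0) (nat_lit 34179759255) (nat_lit 380) (nat_lit 15670676688) (nat_lit 76) (nat_lit 22289041489) (nat_lit 72) (nat_lit 5) (nat_lit 77) (nat_lit 5) (nat_lit 73) (nat_lit 5) (nat_lit 381) (nat_lit 322) (nat_lit 77)) (XT.lf (nat_lit 0) (nat_lit 18661724273) (nat_lit 228) (nat_lit 28468778554) (nat_lit 304) (nat_lit 26488749307) (nat_lit 69) (nat_lit 5) (nat_lit 72) (nat_lit 5) (nat_lit 73) (nat_lit 5) (nat_lit 382) (nat_lit 322)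 (nat_lit 76))) (XT.nd (nat_lit 78) (nat_lit 228) (nat_lit 0) (XT.lf (nat_lit 0) (nat_lit 54343912094) (nat_lit 228) (nat_lit 6283156182) (nat_lit 304) (nat_lit 14511633455) (nat_lit 69) (nat_lit 5) (nat_lit 72) (nat_lit 5) (nat_lit 73) (nat_lit 5) (nat_lit 383) (nat_lit 322) (nat_lit 75)) (XT.lf (nat_lit 0) (nat_lit 14515415660) (nat_lit 228) (nat_lit 60310987678) (nat_lit 304) (nat_lit 1868395922) (nat_lit 66) (nat_lit 5) (nat_lit 69) (nat_lit 5) (nat_lit 70) (nat_lit 5) (nat_lit 384) (nat_lit 322) (nat_lit 74)))))) (XT.nd (nat_lit 546) (nat_lit 228) (nat_lit 0) (XT.nd (nat_lit 234) (nat_lit 456) (nat_lit 0) (XT.nd (nat_lit 78) (nat_lit 228) (nat_lit 0) (XT.lf (nat_lit 0) (nat_lit 11209839868) (nat_lit 304) (nat_lit 27152995267) (nat_lit 76) (nat_lit 39923327796) (nat_lit 65) (nat_lit 5) (nat_lit 69) (nat_lit 5) (nat_lit 66) (nat_lit 5) (nat_lit 385) (nat_lit 322) (nat_lit 73)) (XT.nd (nat_lit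 78) (nat_lit 0) (nat_lit 0) (XT.lf (nat_lit 0) (nat_lit 9081534018) (nat_lit 228) (nat_lit 15647743173) (nat_lit 304) (nat_lit 55192843703) (nat_lit 62) (nat_lit 5) (nat_lit 65) (nat_lit 5) (nat_lit 66) (nat_lit 5) (nat_lit 386) (nat_lit 322) (nat_lit 72)) (XT.lf (nat_lit 0) (nat_lit 39004809106) (nat_lit 304) (nat_lit 34717797944) (nat_lit 76) (nat_lit 7874035754) (nat_lit 62) (nat_lit 5) (nat_lit 66) (nat_lit 5) (nat_lit 63) (nat_lit 5) (nat_lit 387) (nat_lit 322) (nat_lit 71)))) (XT.nd (nat_lit 156) (nat_lit 228) (nat_lit 0) (XT.nd (nat_lit 78) (nat_lit 0) (nat_lit 0) (XT.lf (nat_lit 0) (nat_lit 2378832028) (nat_lit 228) (nat_lit 51506714033) (nat_lit 304) (nat_lit 29430546676) (nat_lit 59) (nat_lit 5) (nat_lit 62) (nat_lit 5) (nat_lit 63) (nat_lit 5) (nat_lit 388) (nat_lit 322) (nat_lit 70)) (XT.lf (nat_lit 0) (nat_lit 41298720741) (nat_lit 228) (nat_lit 28263722441) (nat_lit 304) (nat_lit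 15514191365) (nat_lit 59) (nat_lit 5) (nat_lit 62) (nat_lit 5) (nat_lit 63) (nat_lit 5) (nat_lit 389) (nat_lit 322) (nat_lit 69))) (XT.nd (nat_lit 78) (nat_lit 228) (nat_lit 0) (XT.lf (nat_lit 0) (nat_lit 81384923611) (nat_lit 228) (nat_lit 4323904551) (nat_lit 304) (nat_lit 1181189527) (nat_lit 59) (nat_lit 5) (nat_lit 62) (nat_lit 5) (nat_lit 63) (nat_lit 5) (nat_lit 390) (nat_lit 322) (nat_lit 68)) (XT.lf (nat_lit 0) (nat_lit 13847217007) (nat_lit 228) (nat_lit 54487543505) (nat_lit 76) (nat_lit 20403212257) (nat_lit 56) (nat_lit 5) (nat_lit 59) (nat_lit 5) (nat_lit 57) (nat_lit 5) (nat_lit 391) (nat_lit 322) (nat_lit 67))))) (XT.nd (nat_lit 35334) (nat_lit 0) (nat_lit 10792) (XT.nd (nat_lit 78) (nat_lit 228) (nat_lit 0) (XT.lf (nat_lit 0) (nat_lit 29400890441) (nat_lit 228) (nat_lit 15384556811) (nat_lit 76) (nat_lit 45852624202) (nat_lit 56) (nat_lit 5) (nat_lit 59) (nat_lit 5) (nat_lit 57)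 (nat_lit 5) (nat_lit 392) (nat_lit 322) (nat_lit 66)) (XT.nd (nat_lit 35178) (nat_lit 0) (nat_lit 10792) (XT.lf (nat_lit 0) (nat_lit 25385652884) (nat_lit 228) (nat_lit 20278770266) (nat_lit 304) (nat_lit 46923452926) (nat_lit 53) (nat_lit 5) (nat_lit 56) (nat_lit 5) (nat_lit 57) (nat_lit 5) (nat_lit 393) (nat_lit 322) (nat_lit 65)) (XT.lf (nat_lit 0) (nat_lit 3307152754) (nat_lit 0) (nat_lit 3307152754) (nat_lit 1140) (nat_lit 6578801039) (nat_lit 195) (nat_lit 5) (nat_lit 195) (nat_lit 3) (nat_lit 210) (nat_lit 3) (nat_lit 323) (nat_lit 323) (nat_lit 134)))) (XT.nd (nat_lit 156) (nat_lit 0) (nat_lit 76) (XT.nd (nat_lit 78) (nat_lit 0) (nat_lit 0) (XT.lf (nat_lit 0) (nat_lit 13569562739) (nat_lit 1140) (nat_lit 7857440091) (nat_lit 1216) (nat_lit 5350621976) (nat_lit 195) (nat_lit 5) (nat_lit 210) (nat_lit 3) (nat_lit 211) (nat_lit 5) (nat_lit 324) (nat_lit 323) (nat_lit 133)) (XT.lf (nat_lit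 76) (nat_lit 4433604879) (nat_lit 0) (nat_lit 9591746719) (nat_lit 1216) (nat_lit 13152293144) (nat_lit 196) (nat_lit 5) (nat_lit 195) (nat_lit 5) (nat_lit 211) (nat_lit 5) (nat_lit 325) (nat_lit 323) (nat_lit 132))) (XT.nd (nat_lit 78) (nat_lit 0) (nat_lit 0) (XT.lf (nat_lit 0) (nat_lit 14596524203) (nat_lit 1140) (nat_lit 10360585350) (nat_lit 1216) (nat_lit 2629508431) (nat_lit 196) (nat_lit 5) (nat_lit 211) (nat_lit 5) (nat_lit 212) (nat_lit 5) (nat_lit 326) (nat_lit 323) (nat_lit 131)) (XT.lf (nat_lit 76) (nat_lit 2343200330) (nat_lit 0) (nat_lit 12955823457) (nat_lit 1216) (nat_lit 12705414772) (nat_lit 197) (nat_lit 5) (nat_lit 196) (nat_lit 5) (nat_lit 212) (nat_lit 5) (nat_lit 327) (nat_lit 323) (nat_lit 130))))))))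
noncomputable def xc231 : XT := (XT.nd (nat_lit 2184) (nat_lit 5016) (nat_lit 0) (XT.nd (nat_lit 1092) (nat_lit 3800) (nat_lit 0) (XT.nd (nat_lit 546) (nat_lit 836) (nat_lit 0) (XT.nd (nat_lit 234) (nat_lit 0) (nat_lit 152) (XT.nd (nat_lit 78) (nat_lit 0) (nat_lit 76) (XT.lf (nat_lit 76) (nat_lit 15638571378) (nat_lit 0) (nat_lit 485426081) (nat_lit 1216) (nat_lit 12307758100) (nat_lit 197) (nat_lit 5) (nat_lit 196) (nat_lit 5) (nat_lit 212) (nat_lit 5) (nat_lit 328) (nat_lit 323) (nat_lit 129)) (XT.nd (nat_lit 78) (nat_lit 0) (nat_lit 0) (XT.lf (nat_lit 76) (nat_lit 346913767) (nat_lit 0) (nat_lit 16745828002) (nat_lit 1216) (nat_lit 11775583326) (nat_lit 198) (nat_lit 5) (nat_lit 197) (nat_lit 5) (nat_lit 213) (nat_lit 5) (nat_lit 329) (nat_lit 323) (nat_lit 128)) (XT.lf (nat_lit 76) (nat_lit 14136615603) (nat_lit 0) (nat_lit 4084833642) (nat_lit 1216) (nat_lit 11092619009) (nat_lit 198) (nat_lit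 5) (nat_lit 197) (nat_lit 5) (nat_lit 213) (nat_lit 5) (nat_lit 330) (nat_lit 323) (nat_lit 127)))) (XT.nd (nat_lit 156) (nat_lit 0) (nat_lit 76) (XT.nd (nat_lit 78) (nat_lit 0) (nat_lit 0) (XT.lf (nat_lit 0) (nat_lit 19467163019) (nat_lit 1140) (nat_lit 1521256345) (nat_lit 1216) (nat_lit 8782273449) (nat_lit 198) (nat_lit 5) (nat_lit 213) (nat_lit 5) (nat_lit 214) (nat_lit 5) (nat_lit 331) (nat_lit 323) (nat_lit 126)) (XT.lf (nat_lit 76) (nat_lit 12751068534) (nat_lit 0) (nat_lit 8159335039) (nat_lit 1216) (nat_lit 9325811232) (nat_lit 199) (nat_lit 5) (nat_lit 198) (nat_lit 5) (nat_lit 214) (nat_lit 5) (nat_lit 332) (nat_lit 323) (nat_lit 125))) (XT.nd (nat_lit 78) (nat_lit 0) (nat_lit 0) (XT.lf (nat_lit 0) (nat_lit 22458257028) (nat_lit 1140) (nat_lit 3283243708) (nat_lit 1216) (nat_lit 4972365511) (nat_lit 199) (nat_lit 5) (nat_lit 214) (nat_lit 5) (nat_lit 215) (nat_lit 5) (nat_lit 333) (nat_lit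 323) (nat_lit 124)) (XT.lf (nat_lit 76) (nat_lit 11486115124) (nat_lit 0) (nat_lit 12754922937) (nat_lit 1216) (nat_lit 6959157577) (nat_lit 200) (nat_lit 5) (nat_lit 199) (nat_lit 5) (nat_lit 215) (nat_lit 5) (nat_lit 334) (nat_lit 323) (nat_lit 123))))) (XT.nd (nat_lit 234) (nat_lit 1140) (nat_lit 0) (XT.nd (nat_lit 78) (nat_lit 0) (nat_lit 0) (XT.lf (nat_lit 0) (nat_lit 26114118957) (nat_lit 1140) (nat_lit 4942583337) (nat_lit 1216) (nat_lit 643311196) (nat_lit 200) (nat_lit 5) (nat_lit 215) (nat_lit 5) (nat_lit 216) (nat_lit 5) (nat_lit 335) (nat_lit 323) (nat_lit 122)) (XT.nd (nat_lit 78) (nat_lit 0) (nat_lit 0) (XT.lf (nat_lit 76) (nat_lit 10345692029) (nat_lit 0) (nat_lit 17920874564) (nat_lit 1216) (nat_lit 3941567039) (nat_lit 201) (nat_lit 5) (nat_lit 200) (nat_lit 5) (nat_lit 216) (nat_lit 5) (nat_lit 336) (nat_lit 323) (nat_lit 121)) (XT.lf (nat_lit 76) (nat_lit 26191990930) (nat_lit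 0) (nat_lit 4339001876) (nat_lit 1216) (nat_lit 2199085314) (nat_lit 201) (nat_lit 5) (nat_lit 200) (nat_lit 5) (nat_lit 216) (nat_lit 5) (nat_lit 337) (nat_lit 323) (nat_lit 120)))) (XT.nd (nat_lit 156) (nat_lit 0) (nat_lit 76) (XT.nd (nat_lit 78) (nat_lit 1216) (nat_lit 0) (XT.lf (nat_lit 76) (nat_lit 9333393859) (nat_lit 0) (nat_lit 23710014048) (nat_lit 1216) (nat_lit 218874162) (nat_lit 202) (nat_lit 5) (nat_lit 201) (nat_lit 5) (nat_lit 217) (nat_lit 5) (nat_lit 338) (nat_lit 323) (nat_lit 119)) (XT.lf (nat_lit 0) (nat_lit 1892448758) (nat_lit 1216) (nat_lit 8056542395) (nat_lit 1292) (nat_lit 23857721532) (nat_lit 185) (nat_lit 5) (nat_lit 201) (nat_lit 5) (nat_lit 202) (nat_lit 5) (nat_lit 339) (nat_lit 323) (nat_lit 118))) (XT.nd (nat_lit 78) (nat_lit 0) (nat_lit 0) (XT.lf (nat_lit 0) (nat_lit 4183076153) (nat_lit 1216) (nat_lit 25953676492) (nat_lit 76) (nat_lit 4227050218) (nat_lit 186)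 (nat_lit 5) (nat_lit 202) (nat_lit 5) (nat_lit 187) (nat_lit 5) (nat_lit 340) (nat_lit 323) (nat_lit 117)) (XT.lf (nat_lit 0) (nat_lit 6720809590) (nat_lit 1216) (nat_lit 9500524655) (nat_lit 76) (nat_lit 18710922382) (nat_lit 186) (nat_lit 5) (nat_lit 202) (nat_lit 5) (nat_lit 187) (nat_lit 5) (nat_lit 341) (nat_lit 323) (nat_lit 116)))))) (XT.nd (nat_lit 546) (nat_lit 1520) (nat_lit 0) (XT.nd (nat_lit 234) (nat_lit 1064) (nat_lit 0) (XT.nd (nat_lit 78) (nat_lit 608) (nat_lit 0) (XT.lf (nat_lit 0) (nat_lit 7592440087) (nat_lit 684) (nat_lit 1813006063) (nat_lit 760) (nat_lit 26110197145) (nat_lit 177) (nat_lit 5) (nat_lit 186) (nat_lit 5) (nat_lit 187) (nat_lit 5) (nat_lit 342) (nat_lit 323) (nat_lit 115)) (XT.nd (nat_lit 78) (nat_lit 608) (nat_lit 0) (XT.lf (nat_lit 0) (nat_lit 12390573647) (nat_lit 760) (nat_lit 10848875336) (nat_lit 76) (nat_lit 12870486382) (nat_lit 177) (nat_lit 5) (nat_lit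 187) (nat_lit 5) (nat_lit 178) (nat_lit 5) (nat_lit 343) (nat_lit 323) (nat_lit 114)) (XT.lf (nat_lit 0) (nat_lit 6851498924) (nat_lit 608) (nat_lit 8695466724) (nat_lit 684) (nat_lit 21172641513) (nat_lit 169) (nat_lit 5) (nat_lit 177) (nat_lit 5) (nat_lit 178) (nat_lit 5) (nat_lit 344) (nat_lit 323) (nat_lit 113)))) (XT.nd (nat_lit 156) (nat_lit 532) (nat_lit 0) (XT.nd (nat_lit 78) (nat_lit 532) (nat_lit 0) (XT.lf (nat_lit 0) (nat_lit 18967043683) (nat_lit 684) (nat_lit 12102481930) (nat_lit 76) (nat_lit 6272975891) (nat_lit 169) (nat_lit 5) (nat_lit 178) (nat_lit 5) (nat_lit 170) (nat_lit 5) (nat_lit 345) (nat_lit 323) (nat_lit 112)) (XT.lf (nat_lit 0) (nat_lit 6229663430) (nat_lit 532) (nat_lit 16404041138) (nat_lit 608) (nat_lit 15346060849) (nat_lit 162) (nat_lit 5) (nat_lit 169) (nat_lit 5) (nat_lit 170) (nat_lit 5) (nat_lit 346) (nat_lit 323) (nat_lit 111))) (XT.nd (nat_lit 78) (nat_lit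 532) (nat_lit 0) (XT.lf (nat_lit 0) (nat_lit 25357961803) (nat_lit 532) (nat_lit 1172658142) (nat_lit 608) (nat_lit 12101921753) (nat_lit 162) (nat_lit 5) (nat_lit 169) (nat_lit 5) (nat_lit 170) (nat_lit 5) (nat_lit 347) (nat_lit 323) (nat_lit 110)) (XT.lf (nat_lit 0) (nat_lit 5725494859) (nat_lit 532) (nat_lit 25011619194) (nat_lit 608) (nat_lit 8562009110) (nat_lit 155) (nat_lit 5) (nat_lit 162) (nat_lit 5) (nat_lit 163) (nat_lit 5) (nat_lit 348) (nat_lit 323) (nat_lit 109))))) (XT.nd (nat_lit 234) (nat_lit 988) (nat_lit 0) (XT.nd (nat_lit 78) (nat_lit 532) (nat_lit 0) (XT.lf (nat_lit 0) (nat_lit 25553960295) (nat_lit 532) (nat_lit 9659524596) (nat_lit 608) (nat_lit 4767908694) (nat_lit 155) (nat_lit 5) (nat_lit 162) (nat_lit 5) (nat_lit 163) (nat_lit 5) (nat_lit 349) (nat_lit 323) (nat_lit 108)) (XT.nd (nat_lit 78) (nat_lit 76) (nat_lit 0) (XT.lf (nat_lit 0) (nat_lit 5336242321) (nat_lit 456)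 (nat_lit 34596539478) (nat_lit 532) (nat_lit 748093189) (nat_lit 149) (nat_lit 5) (nat_lit 155) (nat_lit 5) (nat_lit 156) (nat_lit 5) (nat_lit 350) (nat_lit 323) (nat_lit 107)) (XT.lf (nat_lit 0) (nat_lit 3567097928) (nat_lit 532) (nat_lit 15539989939) (nat_lit 76) (nat_lit 22286047174) (nat_lit 148) (nat_lit 5) (nat_lit 155) (nat_lit 5) (nat_lit 149) (nat_lit 5) (nat_lit 351) (nat_lit 323) (nat_lit 106)))) (XT.nd (nat_lit 156) (nat_lit 456) (nat_lit 0) (XT.nd (nat_lit 78) (nat_lit 0) (nat_lit 0) (XT.lf (nat_lit 0) (nat_lit 4946050103) (nat_lit 532) (nat_lit 3096462776) (nat_lit 608) (nat_lit 34082655443) (nat_lit 141) (nat_lit 5) (nat_lit 148) (nat_lit 5) (nat_lit 149) (nat_lit 5) (nat_lit 352) (nat_lit 323) (nat_lit 105)) (XT.lf (nat_lit 0) (nat_lit 12937714803) (nat_lit 608) (nat_lit 16641422572) (nat_lit 76) (nat_lit 13291461193) (nat_lit 141) (nat_lit 5) (nat_lit 149) (nat_lit 5) (nat_lit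 142) (nat_lit 5) (nat_lit 353) (nat_lit 323) (nat_lit 104))) (XT.nd (nat_lit 78) (nat_lit 0) (nat_lit 0) (XT.lf (nat_lit 0) (nat_lit 4569075963) (nat_lit 456) (nat_lit 13483616836) (nat_lit 532) (nat_lit 25583512973) (nat_lit 135) (nat_lit 5) (nat_lit 141) (nat_lit 5) (nat_lit 142) (nat_lit 5) (nat_lit 354) (nat_lit 323) (nat_lit 103)) (XT.lf (nat_lit 0) (nat_lit 23518948867) (nat_lit 532) (nat_lit 17695989963) (nat_lit 76) (nat_lit 3203909103) (nat_lit 135) (nat_lit 5) (nat_lit 142) (nat_lit 5) (nat_lit 136) (nat_lit 5) (nat_lit 355) (nat_lit 323) (nat_lit 102))))))) (XT.nd (nat_lit 1092) (nat_lit 2128) (nat_lit 0) (XT.nd (nat_lit 546) (nat_lit 1140) (nat_lit 0) (XT.nd (nat_lit 234) (nat_lit 912) (nat_lit 0) (XT.nd (nat_lit 78) (nat_lit 380) (nat_lit 0) (XT.lf (nat_lit 0) (nat_lit 4264186925) (nat_lit 456) (nat_lit 25057914644) (nat_lit 532) (nat_lit 15897682078) (nat_lit 129) (nat_lit 5) (nat_lit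 135) (nat_lit 5) (nat_lit 136) (nat_lit 5) (nat_lit 356) (nat_lit 323) (nat_lit 101)) (XT.nd (nat_lit 78) (nat_lit 380) (nat_lit 0) (XT.lf (nat_lit 0) (nat_lit 27244131628) (nat_lit 456) (nat_lit 8232358745) (nat_lit 532) (nat_lit 10562944325) (nat_lit 129) (nat_lit 5) (nat_lit 135) (nat_lit 5) (nat_lit 136) (nat_lit 5) (nat_lit 357) (nat_lit 323) (nat_lit 100)) (XT.lf (nat_lit 0) (nat_lit 4018988759) (nat_lit 380) (nat_lit 37921100026) (nat_lit 456) (nat_lit 4939850626) (nat_lit 124) (nat_lit 5) (nat_lit 129) (nat_lit 5) (nat_lit 130) (nat_lit 5) (nat_lit 358) (nat_lit 323) (nat_lit 99)))) (XT.nd (nat_lit 156) (nat_lit 380) (nat_lit 0) (XT.nd (nat_lit 78) (nat_lit 456) (nat_lit 0) (XT.lf (nat_lit 0) (nat_lit 1106995651) (nat_lit 456) (nat_lit 19930341908) (nat_lit 76) (nat_lit 26699926887) (nat_lit 123) (nat_lit 5) (nat_lit 129) (nat_lit 5) (nat_lit 124) (nat_lit 5) (nat_lit 359) (nat_lit 323)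 (nat_lit 98)) (XT.lf (nat_lit 0) (nat_lit 3709927849) (nat_lit 456) (nat_lit 3560239854) (nat_lit 532) (nat_lit 41347649394) (nat_lit 117) (nat_lit 5) (nat_lit 123) (nat_lit 5) (nat_lit 124) (nat_lit 5) (nat_lit 360) (nat_lit 323) (nat_lit 97))) (XT.nd (nat_lit 78) (nat_lit 380) (nat_lit 0) (XT.lf (nat_lit 0) (nat_lit 13958869686) (nat_lit 532) (nat_lit 21193366628) (nat_lit 76) (nat_lit 14362332275) (nat_lit 117) (nat_lit 5) (nat_lit 124) (nat_lit 5) (nat_lit 118) (nat_lit 5) (nat_lit 361) (nat_lit 323) (nat_lit 96)) (XT.lf (nat_lit 0) (nat_lit 3259226281) (nat_lit 380) (nat_lit 17654195127) (nat_lit 456) (nat_lit 29522846822) (nat_lit 112) (nat_lit 5) (nat_lit 117) (nat_lit 5) (nat_lit 118) (nat_lit 5) (nat_lit 362) (nat_lit 323) (nat_lit 95))))) (XT.nd (nat_lit 234) (nat_lit 760) (nat_lit 0) (XT.nd (nat_lit 78) (nat_lit 380) (nat_lit 0) (XT.lf (nat_lit 0) (nat_lit 28294915176) (nat_lit 456)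 (nat_lit 22506759205) (nat_lit 76) (nat_lit 577396544) (nat_lit 112) (nat_lit 5) (nat_lit 118) (nat_lit 5) (nat_lit 113) (nat_lit 5) (nat_lit 363) (nat_lit 323) (nat_lit 94)) (XT.nd (nat_lit 78) (nat_lit 0) (nat_lit 0) (XT.lf (nat_lit 0) (nat_lit 2781427297) (nat_lit 380) (nat_lit 33316627261) (nat_lit 456) (nat_lit 16246098312) (nat_lit 107) (nat_lit 5) (nat_lit 112) (nat_lit 5) (nat_lit 113) (nat_lit 5) (nat_lit 364) (nat_lit 323) (nat_lit 93)) (XT.lf (nat_lit 0) (nat_lit 29287956048) (nat_lit 380) (nat_lit 15073298908) (nat_lit 456) (nat_lit 8970154471) (nat_lit 107) (nat_lit 5) (nat_lit 112) (nat_lit 5) (nat_lit 113) (nat_lit 5) (nat_lit 365) (nat_lit 323) (nat_lit 92)))) (XT.nd (nat_lit 156) (nat_lit 380) (nat_lit 0) (XT.nd (nat_lit 78) (nat_lit 76) (nat_lit 0) (XT.lf (nat_lit 0) (nat_lit 2247870766) (nat_lit 304) (nat_lit 50680549142) (nat_lit 380) (nat_lit 1418182841) (nat_lit 103) (nat_lit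 5) (nat_lit 107) (nat_lit 5) (nat_lit 108) (nat_lit 5) (nat_lit 366) (nat_lit 323) (nat_lit 91)) (XT.lf (nat_lit 0) (nat_lit 6629406061) (nat_lit 380) (nat_lit 25778617289) (nat_lit 76) (nat_lit 22970600251) (nat_lit 102) (nat_lit 5) (nat_lit 107) (nat_lit 5) (nat_lit 103) (nat_lit 5) (nat_lit 367) (nat_lit 323) (nat_lit 90))) (XT.nd (nat_lit 78) (nat_lit 0) (nat_lit 0) (XT.lf (nat_lit 0) (nat_lit 1341620826) (nat_lit 380) (nat_lit 13559966276) (nat_lit 456) (nat_lit 41539247708) (nat_lit 97) (nat_lit 5) (nat_lit 102) (nat_lit 5) (nat_lit 103) (nat_lit 5) (nat_lit 368) (nat_lit 323) (nat_lit 89)) (XT.lf (nat_lit 0) (nat_lit 23739880786) (nat_lit 456) (nat_lit 27783681602) (nat_lit 76) (nat_lit 6001812550) (nat_lit 97) (nat_lit 5) (nat_lit 103) (nat_lit 5) (nat_lit 98) (nat_lit 5) (nat_lit 369) (nat_lit 323) (nat_lit 88)))))) (XT.nd (nat_lit 546) (nat_lit 1140) (nat_lit 0) (XT.nd (nat_lit 234) (nat_lit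 684) (nat_lit 0) (XT.nd (nat_lit 78) (nat_lit 0) (nat_lit 0) (XT.lf (nat_lit 0) (nat_lit 219759591) (nat_lit 304) (nat_lit 32758757152) (nat_lit 380) (nat_lit 25659879694) (nat_lit 93) (nat_lit 5) (nat_lit 97) (nat_lit 5) (nat_lit 98) (nat_lit 5) (nat_lit 370) (nat_lit 323) (nat_lit 87)) (XT.nd (nat_lit 78) (nat_lit 0) (nat_lit 0) (XT.lf (nat_lit 0) (nat_lit 29631269456) (nat_lit 304) (nat_lit 13142446073) (nat_lit 380) (nat_lit 17002711880) (nat_lit 93) (nat_lit 5) (nat_lit 97) (nat_lit 5) (nat_lit 98) (nat_lit 5) (nat_lit 371) (nat_lit 323) (nat_lit 86)) (XT.lf (nat_lit 0) (nat_lit 52929530811) (nat_lit 380) (nat_lit 1092920082) (nat_lit 76) (nat_lit 6924146515) (nat_lit 93) (nat_lit 5) (nat_lit 98) (nat_lit 5) (nat_lit 94) (nat_lit 5) (nat_lit 372) (nat_lit 323) (nat_lit 85)))) (XT.nd (nat_lit 156) (nat_lit 304) (nat_lit 0) (XT.nd (nat_lit 78) (nat_lit 0) (nat_lit 0) (XT.lf (nat_lit 0) (nat_lit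 1628443860) (nat_lit 380) (nat_lit 32885106029) (nat_lit 76) (nat_lit 27625532731) (nat_lit 88) (nat_lit 5) (nat_lit 93) (nat_lit 5) (nat_lit 89) (nat_lit 5) (nat_lit 373) (nat_lit 323) (nat_lit 84)) (XT.lf (nat_lit 0) (nat_lit 11412241813) (nat_lit 380) (nat_lit 2914333527) (nat_lit 76) (nat_lit 49038084857) (nat_lit 88) (nat_lit 5) (nat_lit 93) (nat_lit 5) (nat_lit 89) (nat_lit 5) (nat_lit 374) (nat_lit 323) (nat_lit 83))) (XT.nd (nat_lit 78) (nat_lit 0) (nat_lit 0) (XT.lf (nat_lit 0) (nat_lit 21827421399) (nat_lit 380) (nat_lit 36173252954) (nat_lit 76) (nat_lit 6616195532) (nat_lit 84) (nat_lit 5) (nat_lit 89) (nat_lit 5) (nat_lit 85) (nat_lit 5) (nat_lit 375) (nat_lit 323) (nat_lit 82)) (XT.lf (nat_lit 0) (nat_lit 32725580124) (nat_lit 380) (nat_lit 5247343979) (nat_lit 76) (nat_lit 27928606837) (nat_lit 84) (nat_lit 5) (nat_lit 89) (nat_lit 5) (nat_lit 85) (nat_lit 5) (nat_lit 376) (nat_lit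 323) (nat_lit 81))))) (XT.nd (nat_lit 234) (nat_lit 608) (nat_lit 0) (XT.nd (nat_lit 78) (nat_lit 228) (nat_lit 0) (XT.lf (nat_lit 0) (nat_lit 27134386031) (nat_lit 304) (nat_lit 17076116343) (nat_lit 380) (nat_lit 23006435655) (nat_lit 80) (nat_lit 5) (nat_lit 84) (nat_lit 5) (nat_lit 85) (nat_lit 5) (nat_lit 377) (nat_lit 323) (nat_lit 80)) (XT.nd (nat_lit 78) (nat_lit 228) (nat_lit 0) (XT.lf (nat_lit 0) (nat_lit 56135235855) (nat_lit 380) (nat_lit 8019820159) (nat_lit 76) (nat_lit 4413894153) (nat_lit 80) (nat_lit 5) (nat_lit 85) (nat_lit 5) (nat_lit 81) (nat_lit 5) (nat_lit 378) (nat_lit 323) (nat_lit 79)) (XT.lf (nat_lit 0) (nat_lit 25328558890) (nat_lit 228) (nat_lit 43500723730) (nat_lit 304) (nat_lit 1119893634) (nat_lit 77) (nat_lit 5) (nat_lit 80) (nat_lit 5) (nat_lit 81) (nat_lit 5) (nat_lit 379) (nat_lit 323) (nat_lit 78)))) (XT.nd (nat_lit 156) (nat_lit 228) (nat_lit 0) (XT.nd (nat_lit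 78) (nat_lit 304) (nat_lit 0) (XT.lf (nat_lit 0) (nat_lit 10408616419) (nat_lit 304) (nat_lit 11630068345) (nat_lit 76) (nat_lit 49326662905) (nat_lit 76) (nat_lit 5) (nat_lit 80) (nat_lit 5) (nat_lit 77) (nat_lit 5) (nat_lit 380) (nat_lit 323) (nat_lit 77)) (XT.lf (nat_lit 0) (nat_lit 22481450417) (nat_lit 380) (nat_lit 50037757147) (nat_lit 76) (nat_lit 297835361) (nat_lit 72) (nat_lit 5) (nat_lit 77) (nat_lit 5) (nat_lit 73) (nat_lit 5) (nat_lit 381) (nat_lit 323) (nat_lit 76))) (XT.nd (nat_lit 78) (nat_lit 228) (nat_lit 0) (XT.lf (nat_lit 0) (nat_lit 35252348000) (nat_lit 380) (nat_lit 16070198861) (nat_lit 76) (nat_lit 22979666460) (nat_lit 72) (nat_lit 5) (nat_lit 77) (nat_lit 5) (nat_lit 73) (nat_lit 5) (nat_lit 382) (nat_lit 323) (nat_lit 75)) (XT.lf (nat_lit 0) (nat_lit 19291481989) (nat_lit 228) (nat_lit 29299429229) (nat_lit 304) (nat_lit 27235492074) (nat_lit 69) (nat_lit 5) (nat_lit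 72) (nat_lit 5) (nat_lit 73) (nat_lit 5) (nat_lit 383) (nat_lit 323) (nat_lit 74))))))))
noncomputable def xc232 : XT := (XT.nd (nat_lit 37284) (nat_lit 0) (nat_lit 3496) (XT.nd (nat_lit 36192) (nat_lit 0) (nat_lit 9804) (XT.nd (nat_lit 468) (nat_lit 228) (nat_lit 0) (XT.nd (nat_lit 234) (nat_lit 456) (nat_lit 0) (XT.nd (nat_lit 78) (nat_lit 304) (nat_lit 0) (XT.lf (nat_lit 0) (nat_lit 56042099348) (nat_lit 228) (nat_lit 6448920109) (nat_lit 304) (nat_lit 14900458467) (nat_lit 69) (nat_lit 5) (nat_lit 72) (nat_lit 5) (nat_lit 73) (nat_lit 5) (nat_lit 384) (nat_lit 323) (nat_lit 73)) (XT.nd (nat_lit 78) (nat_lit 76) (nat_lit 0) (XT.lf (nat_lit 0) (nat_lit 15019237552) (nat_lit 228) (nat_lit 62096651536) (nat_lit 304) (nat_lit 1878383547) (nat_lit 66) (nat_lit 5) (nat_lit 69) (nat_lit 5) (nat_lit 70) (nat_lit 5) (nat_lit 385) (nat_lit 323) (nat_lit 72)) (XT.lf (nat_lit 0) (nat_lit 11589984940) (nat_lit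 304) (nat_lit 27900315974) (nat_lit 76) (nat_lit 41143103327) (nat_lit 65) (nat_lit 5) (nat_lit 69) (nat_lit 5) (nat_lit 66) (nat_lit 5) (nat_lit 386) (nat_lit 323) (nat_lit 71)))) (XT.nd (nat_lit 78) (nat_lit 228) (nat_lit 0) (XT.lf (nat_lit 0) (nat_lit 9420589688) (nat_lit 228) (nat_lit 16093778807) (nat_lit 304) (nat_lit 56804092372) (nat_lit 62) (nat_lit 5) (nat_lit 65) (nat_lit 5) (nat_lit 66) (nat_lit 5) (nat_lit 387) (nat_lit 323) (nat_lit 70)) (XT.nd (nat_lit 78) (nat_lit 228) (nat_lit 0) (XT.lf (nat_lit 0) (nat_lit 40217126090) (nat_lit 304) (nat_lit 35693595572) (nat_lit 76) (nat_lit 8132528776) (nat_lit 62) (nat_lit 5) (nat_lit 66) (nat_lit 5) (nat_lit 63) (nat_lit 5) (nat_lit 388) (nat_lit 323) (nat_lit 69)) (XT.lf (nat_lit 0) (nat_lit 2515288826) (nat_lit 228) (nat_lit 53028393698) (nat_lit 304) (nat_lit 30270620194) (nat_lit 59) (nat_lit 5) (nat_lit 62) (nat_lit 5) (nat_lit 63) (nat_lit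 5) (nat_lit 389) (nat_lit 323) (nat_lit 68))))) (XT.nd (nat_lit 234) (nat_lit 0) (nat_lit 0) (XT.nd (nat_lit 78) (nat_lit 228) (nat_lit 0) (XT.lf (nat_lit 0) (nat_lit 42600878321) (nat_lit 228) (nat_lit 29088797458) (nat_lit 304) (nat_lit 15938022074) (nat_lit 59) (nat_lit 5) (nat_lit 62) (nat_lit 5) (nat_lit 63) (nat_lit 5) (nat_lit 390) (nat_lit 323) (nat_lit 67)) (XT.nd (nat_lit 78) (nat_lit 228) (nat_lit 0) (XT.lf (nat_lit 0) (nat_lit 83887826619) (nat_lit 228) (nat_lit 4431450176) (nat_lit 304) (nat_lit 1176241688) (nat_lit 59) (nat_lit 5) (nat_lit 62) (nat_lit 5) (nat_lit 63) (nat_lit 5) (nat_lit 391) (nat_lit 323) (nat_lit 66)) (XT.lf (nat_lit 0) (nat_lit 14301883984) (nat_lit 228) (nat_lit 56059635101) (nat_lit 76) (nat_lit 21037392521) (nat_lit 56) (nat_lit 5) (nat_lit 59) (nat_lit 5) (nat_lit 57) (nat_lit 5) (nat_lit 392) (nat_lit 323) (nat_lit 65)))) (XT.nd (nat_lit 35334) (nat_lit 0)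 (nat_lit 10564) (XT.nd (nat_lit 35256) (nat_lit 0) (nat_lit 10564) (XT.lf (nat_lit 0) (nat_lit 30321024403) (nat_lit 228) (nat_lit 15785380206) (nat_lit 76) (nat_lit 47249643603) (nat_lit 56) (nat_lit 5) (nat_lit 59) (nat_lit 5) (nat_lit 57) (nat_lit 5) (nat_lit 393) (nat_lit 323) (nat_lit 64)) (XT.lf (nat_lit 0) (nat_lit 3450967194) (nat_lit 0) (nat_lit 3450967194) (nat_lit 1140) (nat_lit 6684184574) (nat_lit 195) (nat_lit 5) (nat_lit 195) (nat_lit 3) (nat_lit 210) (nat_lit 3) (nat_lit 324) (nat_lit 324) (nat_lit 132))) (XT.nd (nat_lit 78) (nat_lit 0) (nat_lit 0) (XT.lf (nat_lit 0) (nat_lit 14149020482) (nat_lit 1140) (nat_lit 8000329586) (nat_lit 1216) (nat_lit 5426228881) (nat_lit 195) (nat_lit 5) (nat_lit 210) (nat_lit 3) (nat_lit 211) (nat_lit 5) (nat_lit 325) (nat_lit 324) (nat_lit 131)) (XT.lf (nat_lit 76) (nat_lit 4658536599) (nat_lit 0) (nat_lit 9955809524) (nat_lit 1216) (nat_lit 13373383394)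 (nat_lit 196) (nat_lit 5) (nat_lit 195) (nat_lit 5) (nat_lit 211) (nat_lit 5) (nat_lit 326) (nat_lit 324) (nat_lit 130)))))) (XT.nd (nat_lit 546) (nat_lit 836) (nat_lit 0) (XT.nd (nat_lit 234) (nat_lit 0) (nat_lit 76) (XT.nd (nat_lit 78) (nat_lit 0) (nat_lit 0) (XT.lf (nat_lit 0) (nat_lit 15197041710) (nat_lit 1140) (nat_lit 10576352732) (nat_lit 1216) (nat_lit 2635751633) (nat_lit 196) (nat_lit 5) (nat_lit 211) (nat_lit 5) (nat_lit 212) (nat_lit 5) (nat_lit 327) (nat_lit 324) (nat_lit 129)) (XT.nd (nat_lit 78) (nat_lit 0) (nat_lit 0) (XT.lf (nat_lit 76) (nat_lit 2507614654) (nat_lit 0) (nat_lit 13409169794) (nat_lit 1216) (nat_lit 12922837362) (nat_lit 197) (nat_lit 5) (nat_lit 196) (nat_lit 5) (nat_lit 212) (nat_lit 5) (nat_lit 328) (nat_lit 324) (nat_lit 128)) (XT.lf (nat_lit 76) (nat_lit 16199105523) (nat_lit 0) (nat_lit 562776857) (nat_lit 1216) (nat_lit 12518020111) (nat_lit 197) (nat_lit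 5) (nat_lit 196) (nat_lit 5) (nat_lit 212) (nat_lit 5) (nat_lit 329) (nat_lit 324) (nat_lit 127)))) (XT.nd (nat_lit 156) (nat_lit 0) (nat_lit 76) (XT.nd (nat_lit 78) (nat_lit 0) (nat_lit 0) (XT.lf (nat_lit 76) (nat_lit 453158589) (nat_lit 0) (nat_lit 17302375457) (nat_lit 1216) (nat_lit 11974164981) (nat_lit 198) (nat_lit 5) (nat_lit 197) (nat_lit 5) (nat_lit 213) (nat_lit 5) (nat_lit 330) (nat_lit 324) (nat_lit 126)) (XT.lf (nat_lit 76) (nat_lit 14653760100) (nat_lit 0) (nat_lit 4259973423) (nat_lit 1216) (nat_lit 11275217147) (nat_lit 198) (nat_lit 5) (nat_lit 197) (nat_lit 5) (nat_lit 213) (nat_lit 5) (nat_lit 331) (nat_lit 324) (nat_lit 125))) (XT.nd (nat_lit 78) (nat_lit 0) (nat_lit 0) (XT.lf (nat_lit 0) (nat_lit 20192085897) (nat_lit 1140) (nat_lit 1471659829) (nat_lit 1216) (nat_lit 8995675188) (nat_lit 198) (nat_lit 5) (nat_lit 213) (nat_lit 5) (nat_lit 214) (nat_lit 5) (nat_lit 332) (nat_lit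 324) (nat_lit 124)) (XT.lf (nat_lit 76) (nat_lit 13227901129) (nat_lit 0) (nat_lit 8447524899) (nat_lit 1216) (nat_lit 9463583287) (nat_lit 199) (nat_lit 5) (nat_lit 198) (nat_lit 5) (nat_lit 214) (nat_lit 5) (nat_lit 333) (nat_lit 324) (nat_lit 123))))) (XT.nd (nat_lit 234) (nat_lit 1064) (nat_lit 0) (XT.nd (nat_lit 78) (nat_lit 0) (nat_lit 0) (XT.lf (nat_lit 0) (nat_lit 23265298977) (nat_lit 1140) (nat_lit 3285615044) (nat_lit 1216) (nat_lit 5080213441) (nat_lit 199) (nat_lit 5) (nat_lit 214) (nat_lit 5) (nat_lit 215) (nat_lit 5) (nat_lit 334) (nat_lit 324) (nat_lit 122)) (XT.nd (nat_lit 78) (nat_lit 0) (nat_lit 76) (XT.lf (nat_lit 76) (nat_lit 11925882142) (nat_lit 0) (nat_lit 13172713905) (nat_lit 1216) (nat_lit 7033544251) (nat_lit 200) (nat_lit 5) (nat_lit 199) (nat_lit 5) (nat_lit 215) (nat_lit 5) (nat_lit 335) (nat_lit 324) (nat_lit 121)) (XT.lf (nat_lit 0) (nat_lit 27023745463) (nat_lit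 1140) (nat_lit 4994178708) (nat_lit 1216) (nat_lit 629156641) (nat_lit 200) (nat_lit 5) (nat_lit 215) (nat_lit 5) (nat_lit 216) (nat_lit 5) (nat_lit 336) (nat_lit 324) (nat_lit 120)))) (XT.nd (nat_lit 156) (nat_lit 1140) (nat_lit 0) (XT.nd (nat_lit 78) (nat_lit 0) (nat_lit 0) (XT.lf (nat_lit 76) (nat_lit 10751797055) (nat_lit 0) (nat_lit 18486213915) (nat_lit 1216) (nat_lit 3932520536) (nat_lit 201) (nat_lit 5) (nat_lit 200) (nat_lit 5) (nat_lit 216) (nat_lit 5) (nat_lit 337) (nat_lit 324) (nat_lit 119)) (XT.lf (nat_lit 76) (nat_lit 27070696546) (nat_lit 0) (nat_lit 4496077868) (nat_lit 1216) (nat_lit 2141471937) (nat_lit 201) (nat_lit 5) (nat_lit 200) (nat_lit 5) (nat_lit 216) (nat_lit 5) (nat_lit 338) (nat_lit 324) (nat_lit 118))) (XT.nd (nat_lit 78) (nat_lit 1216) (nat_lit 0) (XT.lf (nat_lit 76) (nat_lit 9709383932) (nat_lit 0) (nat_lit 24442358802) (nat_lit 1216) (nat_lit 104762298) (nat_lit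 202) (nat_lit 5) (nat_lit 201) (nat_lit 5) (nat_lit 217) (nat_lit 5) (nat_lit 339) (nat_lit 324) (nat_lit 117)) (XT.lf (nat_lit 0) (nat_lit 2064099138) (nat_lit 1216) (nat_lit 8202633109) (nat_lit 1292) (nat_lit 24550608712) (nat_lit 185) (nat_lit 5) (nat_lit 201) (nat_lit 5) (nat_lit 202) (nat_lit 5) (nat_lit 340) (nat_lit 324) (nat_lit 116))))))) (XT.nd (nat_lit 1092) (nat_lit 2964) (nat_lit 0) (XT.nd (nat_lit 546) (nat_lit 1596) (nat_lit 0) (XT.nd (nat_lit 234) (nat_lit 1140) (nat_lit 0) (XT.nd (nat_lit 78) (nat_lit 684) (nat_lit 0) (XT.lf (nat_lit 0) (nat_lit 4420838591) (nat_lit 1216) (nat_lit 26633951361) (nat_lit 76) (nat_lit 4336435786) (nat_lit 186) (nat_lit 5) (nat_lit 202) (nat_lit 5) (nat_lit 187) (nat_lit 5) (nat_lit 341) (nat_lit 324) (nat_lit 115)) (XT.nd (nat_lit 78) (nat_lit 684) (nat_lit 0) (XT.lf (nat_lit 0) (nat_lit 7031434027) (nat_lit 1216) (nat_lit 9690069107) (nat_lit 76)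 (nat_lit 19255331667) (nat_lit 186) (nat_lit 5) (nat_lit 202) (nat_lit 5) (nat_lit 187) (nat_lit 5) (nat_lit 342) (nat_lit 324) (nat_lit 114)) (XT.lf (nat_lit 0) (nat_lit 7914748584) (nat_lit 684) (nat_lit 1879595069) (nat_lit 760) (nat_lit 26783450879) (nat_lit 177) (nat_lit 5) (nat_lit 186) (nat_lit 5) (nat_lit 187) (nat_lit 5) (nat_lit 343) (nat_lit 324) (nat_lit 113)))) (XT.nd (nat_lit 156) (nat_lit 532) (nat_lit 0) (XT.nd (nat_lit 78) (nat_lit 608) (nat_lit 0) (XT.lf (nat_lit 0) (nat_lit 12865802367) (nat_lit 760) (nat_lit 11079224490) (nat_lit 76) (nat_lit 13244988565) (nat_lit 177) (nat_lit 5) (nat_lit 187) (nat_lit 5) (nat_lit 178) (nat_lit 5) (nat_lit 344) (nat_lit 324) (nat_lit 112)) (XT.lf (nat_lit 0) (nat_lit 7151228478) (nat_lit 608) (nat_lit 8963548112) (nat_lit 684) (nat_lit 21703267349) (nat_lit 169) (nat_lit 5) (nat_lit 177) (nat_lit 5) (nat_lit 178) (nat_lit 5) (nat_lit 345) (nat_lit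 324) (nat_lit 111))) (XT.nd (nat_lit 78) (nat_lit 532) (nat_lit 0) (XT.lf (nat_lit 0) (nat_lit 19634436153) (nat_lit 684) (nat_lit 12370988037) (nat_lit 76) (nat_lit 6454294732) (nat_lit 169) (nat_lit 5) (nat_lit 178) (nat_lit 5) (nat_lit 170) (nat_lit 5) (nat_lit 346) (nat_lit 324) (nat_lit 110)) (XT.lf (nat_lit 0) (nat_lit 6510194543) (nat_lit 532) (nat_lit 16898936988) (nat_lit 608) (nat_lit 15707031275) (nat_lit 162) (nat_lit 5) (nat_lit 169) (nat_lit 5) (nat_lit 170) (nat_lit 5) (nat_lit 347) (nat_lit 324) (nat_lit 109))))) (XT.nd (nat_lit 234) (nat_lit 1064) (nat_lit 0) (XT.nd (nat_lit 78) (nat_lit 532) (nat_lit 0) (XT.lf (nat_lit 0) (nat_lit 26209614453) (nat_lit 532) (nat_lit 1210531688) (nat_lit 608) (nat_lit 12368463484) (nat_lit 162) (nat_lit 5) (nat_lit 169) (nat_lit 5) (nat_lit 170) (nat_lit 5) (nat_lit 348) (nat_lit 324) (nat_lit 108)) (XT.nd (nat_lit 78) (nat_lit 0) (nat_lit 0) (XT.lf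 (nat_lit 0) (nat_lit 5990187640) (nat_lit 532) (nat_lit 25760789137) (nat_lit 608) (nat_lit 8724270421) (nat_lit 155) (nat_lit 5) (nat_lit 162) (nat_lit 5) (nat_lit 163) (nat_lit 5) (nat_lit 349) (nat_lit 324) (nat_lit 107)) (XT.lf (nat_lit 0) (nat_lit 26410800401) (nat_lit 532) (nat_lit 9948166030) (nat_lit 608) (nat_lit 4819102302) (nat_lit 155) (nat_lit 5) (nat_lit 162) (nat_lit 5) (nat_lit 163) (nat_lit 5) (nat_lit 350) (nat_lit 324) (nat_lit 106)))) (XT.nd (nat_lit 156) (nat_lit 532) (nat_lit 0) (XT.nd (nat_lit 78) (nat_lit 76) (nat_lit 0) (XT.lf (nat_lit 0) (nat_lit 5588395008) (nat_lit 456) (nat_lit 35629748430) (nat_lit 532) (nat_lit 680444851) (nat_lit 149) (nat_lit 5) (nat_lit 155) (nat_lit 5) (nat_lit 156) (nat_lit 5) (nat_lit 351) (nat_lit 324) (nat_lit 105)) (XT.lf (nat_lit 0) (nat_lit 3759871188) (nat_lit 532) (nat_lit 15915012594) (nat_lit 76) (nat_lit 22957386158) (nat_lit 148)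 (nat_lit 5) (nat_lit 155) (nat_lit 5) (nat_lit 149) (nat_lit 5) (nat_lit 352) (nat_lit 324) (nat_lit 104))) (XT.nd (nat_lit 78) (nat_lit 0) (nat_lit 0) (XT.lf (nat_lit 0) (nat_lit 5184714758) (nat_lit 532) (nat_lit 3183203813) (nat_lit 608) (nat_lit 35018397064) (nat_lit 141) (nat_lit 5) (nat_lit 148) (nat_lit 5) (nat_lit 149) (nat_lit 5) (nat_lit 353) (nat_lit 324) (nat_lit 103)) (XT.lf (nat_lit 0) (nat_lit 13407583577) (nat_lit 608) (nat_lit 17050537342) (nat_lit 76) (nat_lit 13696062099) (nat_lit 141) (nat_lit 5) (nat_lit 149) (nat_lit 5) (nat_lit 142) (nat_lit 5) (nat_lit 354) (nat_lit 324) (nat_lit 102)))))) (XT.nd (nat_lit 546) (nat_lit 1140) (nat_lit 0) (XT.nd (nat_lit 234) (nat_lit 912) (nat_lit 0) (XT.nd (nat_lit 78) (nat_lit 456) (nat_lit 0) (XT.lf (nat_lit 0) (nat_lit 4795392542) (nat_lit 456) (nat_lit 13879095543) (nat_lit 532) (nat_lit 26268318408) (nat_lit 135) (nat_lit 5) (nat_lit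 141) (nat_lit 5) (nat_lit 142) (nat_lit 5) (nat_lit 355) (nat_lit 324) (nat_lit 101)) (XT.nd (nat_lit 78) (nat_lit 456) (nat_lit 0) (XT.lf (nat_lit 0) (nat_lit 24302479761) (nat_lit 532) (nat_lit 18137895922) (nat_lit 76) (nat_lit 3308622099) (nat_lit 135) (nat_lit 5) (nat_lit 142) (nat_lit 5) (nat_lit 136) (nat_lit 5) (nat_lit 356) (nat_lit 324) (nat_lit 100)) (XT.lf (nat_lit 0) (nat_lit 4480213982) (nat_lit 456) (nat_lit 25798089198) (nat_lit 532) (nat_lit 16295703339) (nat_lit 129) (nat_lit 5) (nat_lit 135) (nat_lit 5) (nat_lit 136) (nat_lit 5) (nat_lit 357) (nat_lit 324) (nat_lit 99)))) (XT.nd (nat_lit 156) (nat_lit 532) (nat_lit 0) (XT.nd (nat_lit 78) (nat_lit 380) (nat_lit 0) (XT.lf (nat_lit 0) (nat_lit 28146990964) (nat_lit 456) (nat_lit 8468103406) (nat_lit 532) (nat_lit 10803221780) (nat_lit 129) (nat_lit 5) (nat_lit 135) (nat_lit 5) (nat_lit 136) (nat_lit 5) (nat_lit 358) (nat_lit 324)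 (nat_lit 98)) (XT.lf (nat_lit 0) (nat_lit 4226427398) (nat_lit 380) (nat_lit 39044948795) (nat_lit 456) (nat_lit 5012698654) (nat_lit 124) (nat_lit 5) (nat_lit 129) (nat_lit 5) (nat_lit 130) (nat_lit 5) (nat_lit 359) (nat_lit 324) (nat_lit 97))) (XT.nd (nat_lit 78) (nat_lit 456) (nat_lit 0) (XT.lf (nat_lit 0) (nat_lit 1211930948) (nat_lit 456) (nat_lit 20442419702) (nat_lit 76) (nat_lit 27512813792) (nat_lit 123) (nat_lit 5) (nat_lit 129) (nat_lit 5) (nat_lit 124) (nat_lit 5) (nat_lit 360) (nat_lit 324) (nat_lit 96)) (XT.lf (nat_lit 0) (nat_lit 3906216654) (nat_lit 456) (nat_lit 3652509403) (nat_lit 532) (nat_lit 42515447705) (nat_lit 117) (nat_lit 5) (nat_lit 123) (nat_lit 5) (nat_lit 124) (nat_lit 5) (nat_lit 361) (nat_lit 324) (nat_lit 95))))) (XT.nd (nat_lit 234) (nat_lit 760) (nat_lit 0) (XT.nd (nat_lit 78) (nat_lit 380) (nat_lit 0) (XT.lf (nat_lit 0) (nat_lit 14446172735) (nat_lit 532) (nat_lit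 21744673382) (nat_lit 76) (nat_lit 14807041043) (nat_lit 117) (nat_lit 5) (nat_lit 124) (nat_lit 5) (nat_lit 118) (nat_lit 5) (nat_lit 362) (nat_lit 324) (nat_lit 94)) (XT.nd (nat_lit 78) (nat_lit 0) (nat_lit 0) (XT.lf (nat_lit 0) (nat_lit 3440668939) (nat_lit 380) (nat_lit 18167500096) (nat_lit 456) (nat_lit 30339106333) (nat_lit 112) (nat_lit 5) (nat_lit 117) (nat_lit 5) (nat_lit 118) (nat_lit 5) (nat_lit 363) (nat_lit 324) (nat_lit 93)) (XT.lf (nat_lit 0) (nat_lit 29209298427) (nat_lit 456) (nat_lit 23098864999) (nat_lit 76) (nat_lit 610254757) (nat_lit 112) (nat_lit 5) (nat_lit 118) (nat_lit 5) (nat_lit 113) (nat_lit 5) (nat_lit 364) (nat_lit 324) (nat_lit 92)))) (XT.nd (nat_lit 156) (nat_lit 380) (nat_lit 0) (XT.nd (nat_lit 78) (nat_lit 0) (nat_lit 0) (XT.lf (nat_lit 0) (nat_lit 2947152422) (nat_lit 380) (nat_lit 34298261707) (nat_lit 456) (nat_lit 16667073705) (nat_lit 107) (nat_lit 5) (nat_lit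 112) (nat_lit 5) (nat_lit 113) (nat_lit 5) (nat_lit 365) (nat_lit 324) (nat_lit 91)) (XT.lf (nat_lit 0) (nat_lit 30246480464) (nat_lit 380) (nat_lit 15508153824) (nat_lit 456) (nat_lit 9174785750) (nat_lit 107) (nat_lit 5) (nat_lit 112) (nat_lit 5) (nat_lit 113) (nat_lit 5) (nat_lit 366) (nat_lit 324) (nat_lit 90))) (XT.nd (nat_lit 78) (nat_lit 76) (nat_lit 0) (XT.lf (nat_lit 0) (nat_lit 2396157077) (nat_lit 304) (nat_lit 52181774557) (nat_lit 380) (nat_lit 1397165617) (nat_lit 103) (nat_lit 5) (nat_lit 107) (nat_lit 5) (nat_lit 108) (nat_lit 5) (nat_lit 367) (nat_lit 324) (nat_lit 89)) (XT.lf (nat_lit 0) (nat_lit 6888795400) (nat_lit 380) (nat_lit 26472225552) (nat_lit 76) (nat_lit 23677095425) (nat_lit 102) (nat_lit 5) (nat_lit 107) (nat_lit 5) (nat_lit 103) (nat_lit 5) (nat_lit 368) (nat_lit 324) (nat_lit 88))))))))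
noncomputable def xc233 : XT := (XT.nd (nat_lit 37440) (nat_lit 0) (nat_lit 6460) (XT.nd (nat_lit 1092) (nat_lit 1216) (nat_lit 0) (XT.nd (nat_lit 546) (nat_lit 1216) (nat_lit 0) (XT.nd (nat_lit 234) (nat_lit 380) (nat_lit 0) (XT.nd (nat_lit 78) (nat_lit 304) (nat_lit 0) (XT.lf (nat_lit 0) (nat_lit 1460837842) (nat_lit 380) (nat_lit 13947300779) (nat_lit 456) (nat_lit 42724086876) (nat_lit 97) (nat_lit 5) (nat_lit 102) (nat_lit 5) (nat_lit 103) (nat_lit 5) (nat_lit 369) (nat_lit 324) (nat_lit 87)) (XT.nd (nat_lit 78) (nat_lit 304) (nat_lit 0) (XT.lf (nat_lit 0) (nat_lit 24510029646) (nat_lit 456) (nat_lit 28538924434) (nat_lit 76) (nat_lit 6200395727) (nat_lit 97) (nat_lit 5) (nat_lit 103) (nat_lit 5) (nat_lit 98) (nat_lit 5) (nat_lit 370) (nat_lit 324) (nat_lit 86)) (XT.lf (nat_lit 0) (nat_lit 303852665) (nat_lit 304) (nat_lit 33721029061) (nat_lit 380) (nat_lit 26370909904) (nat_lit 93) (nat_lit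 5) (nat_lit 97) (nat_lit 5) (nat_lit 98) (nat_lit 5) (nat_lit 371) (nat_lit 324) (nat_lit 85)))) (XT.nd (nat_lit 156) (nat_lit 380) (nat_lit 0) (XT.nd (nat_lit 78) (nat_lit 0) (nat_lit 0) (XT.lf (nat_lit 0) (nat_lit 30595450537) (nat_lit 304) (nat_lit 13516825470) (nat_lit 380) (nat_lit 17455738692) (nat_lit 93) (nat_lit 5) (nat_lit 97) (nat_lit 5) (nat_lit 98) (nat_lit 5) (nat_lit 372) (nat_lit 324) (nat_lit 84)) (XT.lf (nat_lit 0) (nat_lit 54571339303) (nat_lit 380) (nat_lit 1051186038) (nat_lit 76) (nat_lit 7150808563) (nat_lit 93) (nat_lit 5) (nat_lit 98) (nat_lit 5) (nat_lit 94) (nat_lit 5) (nat_lit 373) (nat_lit 324) (nat_lit 83))) (XT.nd (nat_lit 78) (nat_lit 0) (nat_lit 0) (XT.lf (nat_lit 0) (nat_lit 1730925514) (nat_lit 380) (nat_lit 33796759620) (nat_lit 76) (nat_lit 28473919876) (nat_lit 88) (nat_lit 5) (nat_lit 93) (nat_lit 5) (nat_lit 89) (nat_lit 5) (nat_lit 374) (nat_lit 324) (nat_lit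 82)) (XT.lf (nat_lit 0) (nat_lit 11806675416) (nat_lit 380) (nat_lit 2929045485) (nat_lit 76) (nat_lit 50528277076) (nat_lit 88) (nat_lit 5) (nat_lit 93) (nat_lit 5) (nat_lit 89) (nat_lit 5) (nat_lit 375) (nat_lit 324) (nat_lit 81))))) (XT.nd (nat_lit 234) (nat_lit 608) (nat_lit 0) (XT.nd (nat_lit 78) (nat_lit 304) (nat_lit 0) (XT.lf (nat_lit 0) (nat_lit 22533685639) (nat_lit 380) (nat_lit 37185068873) (nat_lit 76) (nat_lit 6835039351) (nat_lit 84) (nat_lit 5) (nat_lit 89) (nat_lit 5) (nat_lit 85) (nat_lit 5) (nat_lit 376) (nat_lit 324) (nat_lit 80)) (XT.nd (nat_lit 78) (nat_lit 304) (nat_lit 0) (XT.lf (nat_lit 0) (nat_lit 33757290826) (nat_lit 380) (nat_lit 5333519959) (nat_lit 76) (nat_lit 28786230045) (nat_lit 84) (nat_lit 5) (nat_lit 89) (nat_lit 5) (nat_lit 85) (nat_lit 5) (nat_lit 377) (nat_lit 324) (nat_lit 79)) (XT.lf (nat_lit 0) (nat_lit 28018963477) (nat_lit 304) (nat_lit 17567020737)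 (nat_lit 380) (nat_lit 23645950312) (nat_lit 80) (nat_lit 5) (nat_lit 84) (nat_lit 5) (nat_lit 85) (nat_lit 5) (nat_lit 378) (nat_lit 324) (nat_lit 78)))) (XT.nd (nat_lit 156) (nat_lit 380) (nat_lit 0) (XT.nd (nat_lit 78) (nat_lit 228) (nat_lit 0) (XT.lf (nat_lit 0) (nat_lit 57867227182) (nat_lit 380) (nat_lit 8190655541) (nat_lit 76) (nat_lit 4566662349) (nat_lit 80) (nat_lit 5) (nat_lit 85) (nat_lit 5) (nat_lit 81) (nat_lit 5) (nat_lit 379) (nat_lit 324) (nat_lit 77)) (XT.lf (nat_lit 0) (nat_lit 26157490965) (nat_lit 228) (nat_lit 44783872235) (nat_lit 304) (nat_lit 1104837741) (nat_lit 77) (nat_lit 5) (nat_lit 80) (nat_lit 5) (nat_lit 81) (nat_lit 5) (nat_lit 380) (nat_lit 324) (nat_lit 76))) (XT.nd (nat_lit 78) (nat_lit 304) (nat_lit 0) (XT.lf (nat_lit 0) (nat_lit 10767188806) (nat_lit 304) (nat_lit 11910952698) (nat_lit 76) (nat_lit 50826744625) (nat_lit 76) (nat_lit 5) (nat_lit 80) (nat_lit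 5) (nat_lit 77) (nat_lit 5) (nat_lit 381) (nat_lit 324) (nat_lit 75)) (XT.lf (nat_lit 0) (nat_lit 23201715257) (nat_lit 380) (nat_lit 51470347990) (nat_lit 76) (nat_lit 328084719) (nat_lit 72) (nat_lit 5) (nat_lit 77) (nat_lit 5) (nat_lit 73) (nat_lit 5) (nat_lit 382) (nat_lit 324) (nat_lit 74)))))) (XT.nd (nat_lit 546) (nat_lit 456) (nat_lit 0) (XT.nd (nat_lit 234) (nat_lit 532) (nat_lit 0) (XT.nd (nat_lit 78) (nat_lit 228) (nat_lit 0) (XT.lf (nat_lit 0) (nat_lit 36354405166) (nat_lit 380) (nat_lit 16485759322) (nat_lit 76) (nat_lit 23689749947) (nat_lit 72) (nat_lit 5) (nat_lit 77) (nat_lit 5) (nat_lit 73) (nat_lit 5) (nat_lit 383) (nat_lit 324) (nat_lit 73)) (XT.nd (nat_lit 78) (nat_lit 0) (nat_lit 0) (XT.lf (nat_lit 0) (nat_lit 19936119548) (nat_lit 228) (nat_lit 30156343409) (nat_lit 304) (nat_lit 28007387912) (nat_lit 69) (nat_lit 5) (nat_lit 72) (nat_lit 5) (nat_lit 73) (nat_lit 5) (nat_lit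 384) (nat_lit 324) (nat_lit 72)) (XT.lf (nat_lit 0) (nat_lit 57787336211) (nat_lit 228) (nat_lit 6620961792) (nat_lit 304) (nat_lit 15303618896) (nat_lit 69) (nat_lit 5) (nat_lit 72) (nat_lit 5) (nat_lit 73) (nat_lit 5) (nat_lit 385) (nat_lit 324) (nat_lit 71)))) (XT.nd (nat_lit 156) (nat_lit 228) (nat_lit 0) (XT.nd (nat_lit 78) (nat_lit 76) (nat_lit 0) (XT.lf (nat_lit 0) (nat_lit 15534249991) (nat_lit 228) (nat_lit 63937243823) (nat_lit 304) (nat_lit 1891315078) (nat_lit 66) (nat_lit 5) (nat_lit 69) (nat_lit 5) (nat_lit 70) (nat_lit 5) (nat_lit 386) (nat_lit 324) (nat_lit 70)) (XT.lf (nat_lit 0) (nat_lit 11979017203) (nat_lit 304) (nat_lit 28673917826) (nat_lit 76) (nat_lit 42398204889) (nat_lit 65) (nat_lit 5) (nat_lit 69) (nat_lit 5) (nat_lit 66) (nat_lit 5) (nat_lit 387) (nat_lit 324) (nat_lit 69))) (XT.nd (nat_lit 78) (nat_lit 0) (nat_lit 0) (XT.lf (nat_lit 0) (nat_lit 9765993362) (nat_lit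 228) (nat_lit 16554538574) (nat_lit 304) (nat_lit 58466235088) (nat_lit 62) (nat_lit 5) (nat_lit 65) (nat_lit 5) (nat_lit 66) (nat_lit 5) (nat_lit 388) (nat_lit 324) (nat_lit 68)) (XT.lf (nat_lit 0) (nat_lit 41463391696) (nat_lit 304) (nat_lit 36702440661) (nat_lit 76) (nat_lit 8397498088) (nat_lit 62) (nat_lit 5) (nat_lit 66) (nat_lit 5) (nat_lit 63) (nat_lit 5) (nat_lit 389) (nat_lit 324) (nat_lit 67))))) (XT.nd (nat_lit 234) (nat_lit 228) (nat_lit 0) (XT.nd (nat_lit 78) (nat_lit 0) (nat_lit 0) (XT.lf (nat_lit 0) (nat_lit 2652102790) (nat_lit 228) (nat_lit 54597073998) (nat_lit 304) (nat_lit 31138355274) (nat_lit 59) (nat_lit 5) (nat_lit 62) (nat_lit 5) (nat_lit 63) (nat_lit 5) (nat_lit 390) (nat_lit 324) (nat_lit 66)) (XT.nd (nat_lit 78) (nat_lit 0) (nat_lit 0) (XT.lf (nat_lit 0) (nat_lit 43938472923) (nat_lit 228) (nat_lit 29939935643) (nat_lit 304) (nat_lit 16376955430) (nat_lit 59) (nat_lit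 5) (nat_lit 62) (nat_lit 5) (nat_lit 63) (nat_lit 5) (nat_lit 391) (nat_lit 324) (nat_lit 65)) (XT.lf (nat_lit 0) (nat_lit 86462294671) (nat_lit 228) (nat_lit 4543494906) (nat_lit 304) (nat_lit 1173463592) (nat_lit 59) (nat_lit 5) (nat_lit 62) (nat_lit 5) (nat_lit 63) (nat_lit 5) (nat_lit 392) (nat_lit 324) (nat_lit 64)))) (XT.nd (nat_lit 35412) (nat_lit 0) (nat_lit 10564) (XT.nd (nat_lit 35334) (nat_lit 0) (nat_lit 10564) (XT.lf (nat_lit 0) (nat_lit 14767937832) (nat_lit 228) (nat_lit 57682479193) (nat_lit 76) (nat_lit 21689330486) (nat_lit 56) (nat_lit 5) (nat_lit 59) (nat_lit 5) (nat_lit 57) (nat_lit 5) (nat_lit 393) (nat_lit 324) (nat_lit 63)) (XT.lf (nat_lit 0) (nat_lit 3596535853) (nat_lit 0) (nat_lit 3596535853) (nat_lit 1140) (nat_lit 6798009672) (nat_lit 195) (nat_lit 5) (nat_lit 195) (nat_lit 3) (nat_lit 210) (nat_lit 3) (nat_lit 325) (nat_lit 325) (nat_lit 130))) (XT.nd (nat_lit 78)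 (nat_lit 0) (nat_lit 0) (XT.lf (nat_lit 0) (nat_lit 14735967166) (nat_lit 1140) (nat_lit 8152834800) (nat_lit 1216) (nat_lit 5508978276) (nat_lit 195) (nat_lit 5) (nat_lit 210) (nat_lit 3) (nat_lit 211) (nat_lit 5) (nat_lit 326) (nat_lit 325) (nat_lit 129)) (XT.lf (nat_lit 76) (nat_lit 4884939482) (nat_lit 0) (nat_lit 10326413684) (nat_lit 1216) (nat_lit 13611064729) (nat_lit 196) (nat_lit 5) (nat_lit 195) (nat_lit 5) (nat_lit 211) (nat_lit 5) (nat_lit 327) (nat_lit 325) (nat_lit 128))))))) (XT.nd (nat_lit 1092) (nat_lit 3344) (nat_lit 0) (XT.nd (nat_lit 546) (nat_lit 836) (nat_lit 0) (XT.nd (nat_lit 234) (nat_lit 0) (nat_lit 76) (XT.nd (nat_lit 78) (nat_lit 0) (nat_lit 0) (XT.lf (nat_lit 0) (nat_lit 15806239586) (nat_lit 1140) (nat_lit 10804049405) (nat_lit 1216) (nat_lit 2646352082) (nat_lit 196) (nat_lit 5) (nat_lit 211) (nat_lit 5) (nat_lit 212) (nat_lit 5) (nat_lit 328) (nat_lit 325) (nat_lit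 127)) (XT.nd (nat_lit 78) (nat_lit 0) (nat_lit 0) (XT.lf (nat_lit 76) (nat_lit 2671558631) (nat_lit 0) (nat_lit 13872404105) (nat_lit 1216) (nat_lit 13156181966) (nat_lit 197) (nat_lit 5) (nat_lit 196) (nat_lit 5) (nat_lit 212) (nat_lit 5) (nat_lit 329) (nat_lit 325) (nat_lit 126)) (XT.lf (nat_lit 76) (nat_lit 16771210279) (nat_lit 0) (nat_lit 638843869) (nat_lit 1216) (nat_lit 12743715553) (nat_lit 197) (nat_lit 5) (nat_lit 196) (nat_lit 5) (nat_lit 212) (nat_lit 5) (nat_lit 330) (nat_lit 325) (nat_lit 125)))) (XT.nd (nat_lit 156) (nat_lit 0) (nat_lit 76) (XT.nd (nat_lit 78) (nat_lit 0) (nat_lit 0) (XT.lf (nat_lit 76) (nat_lit 557089297) (nat_lit 0) (nat_lit 17872509606) (nat_lit 1216) (nat_lit 12187583686) (nat_lit 198) (nat_lit 5) (nat_lit 197) (nat_lit 5) (nat_lit 213) (nat_lit 5) (nat_lit 331) (nat_lit 325) (nat_lit 124)) (XT.lf (nat_lit 76) (nat_lit 15181077709) (nat_lit 0) (nat_lit 4437348243)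 (nat_lit 1216) (nat_lit 11471914201) (nat_lit 198) (nat_lit 5) (nat_lit 197) (nat_lit 5) (nat_lit 213) (nat_lit 5) (nat_lit 332) (nat_lit 325) (nat_lit 123))) (XT.nd (nat_lit 78) (nat_lit 0) (nat_lit 0) (XT.lf (nat_lit 0) (nat_lit 20930667767) (nat_lit 1140) (nat_lit 1426042250) (nat_lit 1216) (nat_lit 9218352999) (nat_lit 198) (nat_lit 5) (nat_lit 213) (nat_lit 5) (nat_lit 214) (nat_lit 5) (nat_lit 333) (nat_lit 325) (nat_lit 122)) (XT.lf (nat_lit 76) (nat_lit 13713625464) (nat_lit 0) (nat_lit 8741868553) (nat_lit 1216) (nat_lit 9613640016) (nat_lit 199) (nat_lit 5) (nat_lit 198) (nat_lit 5) (nat_lit 214) (nat_lit 5) (nat_lit 334) (nat_lit 325) (nat_lit 121))))) (XT.nd (nat_lit 234) (nat_lit 1064) (nat_lit 0) (XT.nd (nat_lit 78) (nat_lit 0) (nat_lit 0) (XT.lf (nat_lit 0) (nat_lit 24088900549) (nat_lit 1140) (nat_lit 3293575543) (nat_lit 1216) (nat_lit 5193668920) (nat_lit 199) (nat_lit 5) (nat_lit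 214) (nat_lit 5) (nat_lit 215) (nat_lit 5) (nat_lit 335) (nat_lit 325) (nat_lit 120)) (XT.nd (nat_lit 78) (nat_lit 0) (nat_lit 76) (XT.lf (nat_lit 76) (nat_lit 12373378245) (nat_lit 0) (nat_lit 13601021234) (nat_lit 1216) (nat_lit 7117876949) (nat_lit 200) (nat_lit 5) (nat_lit 199) (nat_lit 5) (nat_lit 215) (nat_lit 5) (nat_lit 336) (nat_lit 325) (nat_lit 119)) (XT.lf (nat_lit 0) (nat_lit 27953416199) (nat_lit 1140) (nat_lit 5052871890) (nat_lit 1216) (nat_lit 616497839) (nat_lit 200) (nat_lit 5) (nat_lit 215) (nat_lit 5) (nat_lit 216) (nat_lit 5) (nat_lit 337) (nat_lit 325) (nat_lit 118)))) (XT.nd (nat_lit 156) (nat_lit 1140) (nat_lit 0) (XT.nd (nat_lit 78) (nat_lit 0) (nat_lit 0) (XT.lf (nat_lit 76) (nat_lit 11164589693) (nat_lit 0) (nat_lit 19066922601) (nat_lit 1216) (nat_lit 3930509806) (nat_lit 201) (nat_lit 5) (nat_lit 200) (nat_lit 5) (nat_lit 216) (nat_lit 5) (nat_lit 338) (nat_lit 325)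 (nat_lit 117)) (XT.lf (nat_lit 76) (nat_lit 27970427856) (nat_lit 0) (nat_lit 4656321630) (nat_lit 1216) (nat_lit 2089224497) (nat_lit 201) (nat_lit 5) (nat_lit 200) (nat_lit 5) (nat_lit 216) (nat_lit 5) (nat_lit 339) (nat_lit 325) (nat_lit 116))) (XT.nd (nat_lit 78) (nat_lit 0) (nat_lit 0) (XT.lf (nat_lit 0) (nat_lit 5731437) (nat_lit 1216) (nat_lit 25189676554) (nat_lit 1292) (nat_lit 10085354275) (nat_lit 185) (nat_lit 5) (nat_lit 201) (nat_lit 5) (nat_lit 202) (nat_lit 5) (nat_lit 340) (nat_lit 325) (nat_lit 115)) (XT.lf (nat_lit 0) (nat_lit 2234304624) (nat_lit 1216) (nat_lit 8358594695) (nat_lit 1292) (nat_lit 25265593874) (nat_lit 185) (nat_lit 5) (nat_lit 201) (nat_lit 5) (nat_lit 202) (nat_lit 5) (nat_lit 341) (nat_lit 325) (nat_lit 114)))))) (XT.nd (nat_lit 546) (nat_lit 1596) (nat_lit 0) (XT.nd (nat_lit 234) (nat_lit 1140) (nat_lit 0) (XT.nd (nat_lit 78) (nat_lit 684) (nat_lit 0) (XT.lf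 (nat_lit 0) (nat_lit 4659289136) (nat_lit 1216) (nat_lit 27340279331) (nat_lit 76) (nat_lit 4450103242) (nat_lit 186) (nat_lit 5) (nat_lit 202) (nat_lit 5) (nat_lit 187) (nat_lit 5) (nat_lit 342) (nat_lit 325) (nat_lit 113)) (XT.nd (nat_lit 78) (nat_lit 684) (nat_lit 0) (XT.lf (nat_lit 0) (nat_lit 7345120143) (nat_lit 1216) (nat_lit 9890780335) (nat_lit 76) (nat_lit 19817044416) (nat_lit 186) (nat_lit 5) (nat_lit 202) (nat_lit 5) (nat_lit 187) (nat_lit 5) (nat_lit 343) (nat_lit 325) (nat_lit 112)) (XT.lf (nat_lit 0) (nat_lit 8241299624) (nat_lit 684) (nat_lit 1947481483) (nat_lit 760) (nat_lit 27483219669) (nat_lit 177) (nat_lit 5) (nat_lit 186) (nat_lit 5) (nat_lit 187) (nat_lit 5) (nat_lit 344) (nat_lit 325) (nat_lit 111)))) (XT.nd (nat_lit 156) (nat_lit 532) (nat_lit 0) (XT.nd (nat_lit 78) (nat_lit 608) (nat_lit 0) (XT.lf (nat_lit 0) (nat_lit 13349345964) (nat_lit 760) (nat_lit 11321944229)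 (nat_lit 76) (nat_lit 13631392413) (nat_lit 177) (nat_lit 5) (nat_lit 187) (nat_lit 5) (nat_lit 178) (nat_lit 5) (nat_lit 345) (nat_lit 325) (nat_lit 110)) (XT.lf (nat_lit 0) (nat_lit 7454543338) (nat_lit 608) (nat_lit 9239257635) (nat_lit 684) (nat_lit 22255813754) (nat_lit 169) (nat_lit 5) (nat_lit 177) (nat_lit 5) (nat_lit 178) (nat_lit 5) (nat_lit 346) (nat_lit 325) (nat_lit 109))) (XT.nd (nat_lit 78) (nat_lit 532) (nat_lit 0) (XT.lf (nat_lit 0) (nat_lit 20316202916) (nat_lit 684) (nat_lit 12652977938) (nat_lit 76) (nat_lit 6641447529) (nat_lit 169) (nat_lit 5) (nat_lit 178) (nat_lit 5) (nat_lit 170) (nat_lit 5) (nat_lit 347) (nat_lit 325) (nat_lit 108)) (XT.lf (nat_lit 0) (nat_lit 6793766200) (nat_lit 532) (nat_lit 17408520439) (nat_lit 608) (nat_lit 16084537435) (nat_lit 162) (nat_lit 5) (nat_lit 169) (nat_lit 5) (nat_lit 170) (nat_lit 5) (nat_lit 348) (nat_lit 325) (nat_lit 107))))) (XT.nd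 (nat_lit 234) (nat_lit 1064) (nat_lit 0) (XT.nd (nat_lit 78) (nat_lit 532) (nat_lit 0) (XT.lf (nat_lit 0) (nat_lit 27081597858) (nat_lit 532) (nat_lit 1249386806) (nat_lit 608) (nat_lit 12648541876) (nat_lit 162) (nat_lit 5) (nat_lit 169) (nat_lit 5) (nat_lit 170) (nat_lit 5) (nat_lit 349) (nat_lit 325) (nat_lit 106)) (XT.nd (nat_lit 78) (nat_lit 0) (nat_lit 0) (XT.lf (nat_lit 0) (nat_lit 6257486761) (nat_lit 532) (nat_lit 26532501836) (nat_lit 608) (nat_lit 8896829939) (nat_lit 155) (nat_lit 5) (nat_lit 162) (nat_lit 5) (nat_lit 163) (nat_lit 5) (nat_lit 350) (nat_lit 325) (nat_lit 105)) (XT.lf (nat_lit 0) (nat_lit 27288166638) (nat_lit 532) (nat_lit 10245532395) (nat_lit 608) (nat_lit 4877103920) (nat_lit 155) (nat_lit 5) (nat_lit 162) (nat_lit 5) (nat_lit 163) (nat_lit 5) (nat_lit 351) (nat_lit 325) (nat_lit 104)))) (XT.nd (nat_lit 156) (nat_lit 532) (nat_lit 0) (XT.nd (nat_lit 78) (nat_lit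 76) (nat_lit 0) (XT.lf (nat_lit 0) (nat_lit 5842827345) (nat_lit 456) (nat_lit 36694222716) (nat_lit 532) (nat_lit 615938663) (nat_lit 149) (nat_lit 5) (nat_lit 155) (nat_lit 5) (nat_lit 156) (nat_lit 5) (nat_lit 352) (nat_lit 325) (nat_lit 103)) (XT.lf (nat_lit 0) (nat_lit 3953504651) (nat_lit 532) (nat_lit 16306519864) (nat_lit 76) (nat_lit 23648707016) (nat_lit 148) (nat_lit 5) (nat_lit 155) (nat_lit 5) (nat_lit 149) (nat_lit 5) (nat_lit 353) (nat_lit 325) (nat_lit 102))) (XT.nd (nat_lit 78) (nat_lit 0) (nat_lit 0) (XT.lf (nat_lit 0) (nat_lit 5425356729) (nat_lit 532) (nat_lit 3272900280) (nat_lit 608) (nat_lit 35987190051) (nat_lit 141) (nat_lit 5) (nat_lit 148) (nat_lit 5) (nat_lit 149) (nat_lit 5) (nat_lit 354) (nat_lit 325) (nat_lit 101)) (XT.lf (nat_lit 0) (nat_lit 13886856357) (nat_lit 608) (nat_lit 17477099266) (nat_lit 76) (nat_lit 14112464812) (nat_lit 141) (nat_lit 5) (nat_lit 149)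 (nat_lit 5) (nat_lit 142) (nat_lit 5) (nat_lit 355) (nat_lit 325) (nat_lit 100))))))))
noncomputable def xc234 : XT := (XT.nd (nat_lit 2106) (nat_lit 1292) (nat_lit 0) (XT.nd (nat_lit 1014) (nat_lit 2052) (nat_lit 0) (XT.nd (nat_lit 468) (nat_lit 1520) (nat_lit 0) (XT.nd (nat_lit 234) (nat_lit 456) (nat_lit 0) (XT.nd (nat_lit 78) (nat_lit 456) (nat_lit 0) (XT.lf (nat_lit 0) (nat_lit 5023375630) (nat_lit 456) (nat_lit 14286956958) (nat_lit 532) (nat_lit 26978415323) (nat_lit 135) (nat_lit 5) (nat_lit 141) (nat_lit 5) (nat_lit 142) (nat_lit 5) (nat_lit 356) (nat_lit 325) (nat_lit 99)) (XT.nd (nat_lit 78) (nat_lit 456) (nat_lit 0) (XT.lf (nat_lit 0) (nat_lit 25105041221) (nat_lit 532) (nat_lit 18598166517) (nat_lit 76) (nat_lit 3415983055) (nat_lit 135) (nat_lit 5) (nat_lit 142) (nat_lit 5) (nat_lit 136) (nat_lit 5) (nat_lit 357) (nat_lit 325) (nat_lit 98)) (XT.lf (nat_lit 0) (nat_lit 4697664466)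 (nat_lit 456) (nat_lit 26561132746) (nat_lit 532) (nat_lit 16710194949) (nat_lit 129) (nat_lit 5) (nat_lit 135) (nat_lit 5) (nat_lit 136) (nat_lit 5) (nat_lit 358) (nat_lit 325) (nat_lit 97)))) (XT.nd (nat_lit 78) (nat_lit 456) (nat_lit 0) (XT.lf (nat_lit 0) (nat_lit 29072025998) (nat_lit 456) (nat_lit 8711564830) (nat_lit 532) (nat_lit 11055105336) (nat_lit 129) (nat_lit 5) (nat_lit 135) (nat_lit 5) (nat_lit 136) (nat_lit 5) (nat_lit 359) (nat_lit 325) (nat_lit 96)) (XT.nd (nat_lit 78) (nat_lit 76) (nat_lit 0) (XT.lf (nat_lit 0) (nat_lit 4435102561) (nat_lit 380) (nat_lit 40203304298) (nat_lit 456) (nat_lit 5092057376) (nat_lit 124) (nat_lit 5) (nat_lit 129) (nat_lit 5) (nat_lit 130) (nat_lit 5) (nat_lit 360) (nat_lit 325) (nat_lit 95)) (XT.lf (nat_lit 0) (nat_lit 1315896971) (nat_lit 456) (nat_lit 20974786964) (nat_lit 76) (nat_lit 28349404820) (nat_lit 123) (nat_lit 5) (nat_lit 129) (nat_lit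 5) (nat_lit 124) (nat_lit 5) (nat_lit 361) (nat_lit 325) (nat_lit 94))))) (XT.nd (nat_lit 234) (nat_lit 684) (nat_lit 0) (XT.nd (nat_lit 78) (nat_lit 380) (nat_lit 0) (XT.lf (nat_lit 0) (nat_lit 4103515293) (nat_lit 456) (nat_lit 3748381560) (nat_lit 532) (nat_lit 43722449293) (nat_lit 117) (nat_lit 5) (nat_lit 123) (nat_lit 5) (nat_lit 124) (nat_lit 5) (nat_lit 362) (nat_lit 325) (nat_lit 93)) (XT.nd (nat_lit 78) (nat_lit 380) (nat_lit 0) (XT.lf (nat_lit 0) (nat_lit 14944160574) (nat_lit 532) (nat_lit 22317369655) (nat_lit 76) (nat_lit 15264296671) (nat_lit 117) (nat_lit 5) (nat_lit 124) (nat_lit 5) (nat_lit 118) (nat_lit 5) (nat_lit 363) (nat_lit 325) (nat_lit 92)) (XT.lf (nat_lit 0) (nat_lit 3622752113) (nat_lit 380) (nat_lit 18697141099) (nat_lit 456) (nat_lit 31183838960) (nat_lit 112) (nat_lit 5) (nat_lit 117) (nat_lit 5) (nat_lit 118) (nat_lit 5) (nat_lit 364) (nat_lit 325) (nat_lit 91))))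 (XT.nd (nat_lit 156) (nat_lit 304) (nat_lit 0) (XT.nd (nat_lit 78) (nat_lit 380) (nat_lit 0) (XT.lf (nat_lit 0) (nat_lit 30147351154) (nat_lit 456) (nat_lit 23713504072) (nat_lit 76) (nat_lit 643206868) (nat_lit 112) (nat_lit 5) (nat_lit 118) (nat_lit 5) (nat_lit 113) (nat_lit 5) (nat_lit 365) (nat_lit 325) (nat_lit 90)) (XT.lf (nat_lit 0) (nat_lit 3113125960) (nat_lit 380) (nat_lit 35310370675) (nat_lit 456) (nat_lit 17104490426) (nat_lit 107) (nat_lit 5) (nat_lit 112) (nat_lit 5) (nat_lit 113) (nat_lit 5) (nat_lit 366) (nat_lit 325) (nat_lit 89))) (XT.nd (nat_lit 78) (nat_lit 304) (nat_lit 0) (XT.lf (nat_lit 0) (nat_lit 31229174845) (nat_lit 380) (nat_lit 15957050008) (nat_lit 456) (nat_lit 9389257001) (nat_lit 107) (nat_lit 5) (nat_lit 112) (nat_lit 5) (nat_lit 113) (nat_lit 5) (nat_lit 367) (nat_lit 325) (nat_lit 88)) (XT.lf (nat_lit 0) (nat_lit 2544250845) (nat_lit 304) (nat_lit 53729138381)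 (nat_lit 380) (nat_lit 1379166635) (nat_lit 103) (nat_lit 5) (nat_lit 107) (nat_lit 5) (nat_lit 108) (nat_lit 5) (nat_lit 368) (nat_lit 325) (nat_lit 87)))))) (XT.nd (nat_lit 546) (nat_lit 912) (nat_lit 0) (XT.nd (nat_lit 234) (nat_lit 684) (nat_lit 0) (XT.nd (nat_lit 78) (nat_lit 380) (nat_lit 0) (XT.lf (nat_lit 0) (nat_lit 7152493061) (nat_lit 380) (nat_lit 27191220053) (nat_lit 76) (nat_lit 24403787934) (nat_lit 102) (nat_lit 5) (nat_lit 107) (nat_lit 5) (nat_lit 103) (nat_lit 5) (nat_lit 369) (nat_lit 325) (nat_lit 86)) (XT.nd (nat_lit 78) (nat_lit 0) (nat_lit 0) (XT.lf (nat_lit 0) (nat_lit 1579098260) (nat_lit 380) (nat_lit 14347372657) (nat_lit 456) (nat_lit 43947992287) (nat_lit 97) (nat_lit 5) (nat_lit 102) (nat_lit 5) (nat_lit 103) (nat_lit 5) (nat_lit 370) (nat_lit 325) (nat_lit 85)) (XT.lf (nat_lit 0) (nat_lit 25299956265) (nat_lit 456) (nat_lit 29321317432) (nat_lit 76) (nat_lit 6403872769)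 (nat_lit 97) (nat_lit 5) (nat_lit 103) (nat_lit 5) (nat_lit 98) (nat_lit 5) (nat_lit 371) (nat_lit 325) (nat_lit 84)))) (XT.nd (nat_lit 156) (nat_lit 380) (nat_lit 0) (XT.nd (nat_lit 78) (nat_lit 0) (nat_lit 0) (XT.lf (nat_lit 0) (nat_lit 386019698) (nat_lit 304) (nat_lit 34713345385) (nat_lit 380) (nat_lit 27106644440) (nat_lit 93) (nat_lit 5) (nat_lit 97) (nat_lit 5) (nat_lit 98) (nat_lit 5) (nat_lit 372) (nat_lit 325) (nat_lit 83)) (XT.lf (nat_lit 0) (nat_lit 31584237794) (nat_lit 304) (nat_lit 13903578245) (nat_lit 380) (nat_lit 17925631473) (nat_lit 93) (nat_lit 5) (nat_lit 97) (nat_lit 5) (nat_lit 98) (nat_lit 5) (nat_lit 373) (nat_lit 325) (nat_lit 82))) (XT.nd (nat_lit 78) (nat_lit 380) (nat_lit 0) (XT.lf (nat_lit 0) (nat_lit 56259306674) (nat_lit 380) (nat_lit 1012477820) (nat_lit 76) (nat_lit 7383183373) (nat_lit 93) (nat_lit 5) (nat_lit 98) (nat_lit 5) (nat_lit 94) (nat_lit 5) (nat_lit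 374) (nat_lit 325) (nat_lit 81)) (XT.lf (nat_lit 0) (nat_lit 1833403132) (nat_lit 380) (nat_lit 34740062362) (nat_lit 76) (nat_lit 29346632300) (nat_lit 88) (nat_lit 5) (nat_lit 93) (nat_lit 5) (nat_lit 89) (nat_lit 5) (nat_lit 375) (nat_lit 325) (nat_lit 80))))) (XT.nd (nat_lit 234) (nat_lit 608) (nat_lit 0) (XT.nd (nat_lit 78) (nat_lit 304) (nat_lit 0) (XT.lf (nat_lit 0) (nat_lit 12209953205) (nat_lit 380) (nat_lit 2948373114) (nat_lit 76) (nat_lit 52062081531) (nat_lit 88) (nat_lit 5) (nat_lit 93) (nat_lit 5) (nat_lit 89) (nat_lit 5) (nat_lit 376) (nat_lit 325) (nat_lit 79)) (XT.nd (nat_lit 78) (nat_lit 0) (nat_lit 0) (XT.lf (nat_lit 0) (nat_lit 23258184847) (nat_lit 380) (nat_lit 38231451678) (nat_lit 76) (nat_lit 7059279855) (nat_lit 84) (nat_lit 5) (nat_lit 89) (nat_lit 5) (nat_lit 85) (nat_lit 5) (nat_lit 377) (nat_lit 325) (nat_lit 78)) (XT.lf (nat_lit 0) (nat_lit 34817085900) (nat_lit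 380) (nat_lit 5426370935) (nat_lit 76) (nat_lit 29668447357) (nat_lit 84) (nat_lit 5) (nat_lit 89) (nat_lit 5) (nat_lit 85) (nat_lit 5) (nat_lit 378) (nat_lit 325) (nat_lit 77)))) (XT.nd (nat_lit 156) (nat_lit 304) (nat_lit 0) (XT.nd (nat_lit 78) (nat_lit 0) (nat_lit 0) (XT.lf (nat_lit 0) (nat_lit 28926028626) (nat_lit 304) (nat_lit 18073879511) (nat_lit 380) (nat_lit 24307559557) (nat_lit 80) (nat_lit 5) (nat_lit 84) (nat_lit 5) (nat_lit 85) (nat_lit 5) (nat_lit 379) (nat_lit 325) (nat_lit 76)) (XT.lf (nat_lit 0) (nat_lit 59648426626) (nat_lit 380) (nat_lit 8370620449) (nat_lit 76) (nat_lit 4722845340) (nat_lit 80) (nat_lit 5) (nat_lit 85) (nat_lit 5) (nat_lit 81) (nat_lit 5) (nat_lit 380) (nat_lit 325) (nat_lit 75))) (XT.nd (nat_lit 78) (nat_lit 76) (nat_lit 0) (XT.lf (nat_lit 0) (nat_lit 27007325798) (nat_lit 228) (nat_lit 46106770806) (nat_lit 304) (nat_lit 1092123037) (nat_lit 77) (nat_lit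 5) (nat_lit 80) (nat_lit 5) (nat_lit 81) (nat_lit 5) (nat_lit 381) (nat_lit 325) (nat_lit 74)) (XT.lf (nat_lit 0) (nat_lit 11133859758) (nat_lit 304) (nat_lit 12204168075) (nat_lit 76) (nat_lit 52370664535) (nat_lit 76) (nat_lit 5) (nat_lit 80) (nat_lit 5) (nat_lit 77) (nat_lit 5) (nat_lit 382) (nat_lit 325) (nat_lit 73))))))) (XT.nd (nat_lit 36426) (nat_lit 0) (nat_lit 9576) (XT.nd (nat_lit 546) (nat_lit 228) (nat_lit 0) (XT.nd (nat_lit 234) (nat_lit 532) (nat_lit 0) (XT.nd (nat_lit 78) (nat_lit 228) (nat_lit 0) (XT.lf (nat_lit 0) (nat_lit 23940957711) (nat_lit 380) (nat_lit 52949851143) (nat_lit 76) (nat_lit 358018030) (nat_lit 72) (nat_lit 5) (nat_lit 77) (nat_lit 5) (nat_lit 73) (nat_lit 5) (nat_lit 383) (nat_lit 325) (nat_lit 72)) (XT.nd (nat_lit 78) (nat_lit 228) (nat_lit 0) (XT.lf (nat_lit 0) (nat_lit 37486970327) (nat_lit 380) (nat_lit 16917606580) (nat_lit 76) (nat_lit 24419948046) (nat_lit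 72) (nat_lit 5) (nat_lit 77) (nat_lit 5) (nat_lit 73) (nat_lit 5) (nat_lit 384) (nat_lit 325) (nat_lit 71)) (XT.lf (nat_lit 0) (nat_lit 20596313699) (nat_lit 228) (nat_lit 31040231847) (nat_lit 304) (nat_lit 28805033505) (nat_lit 69) (nat_lit 5) (nat_lit 72) (nat_lit 5) (nat_lit 73) (nat_lit 5) (nat_lit 385) (nat_lit 325) (nat_lit 70)))) (XT.nd (nat_lit 156) (nat_lit 304) (nat_lit 0) (XT.nd (nat_lit 78) (nat_lit 228) (nat_lit 0) (XT.lf (nat_lit 0) (nat_lit 59581257817) (nat_lit 228) (nat_lit 6799394661) (nat_lit 304) (nat_lit 15721391498) (nat_lit 69) (nat_lit 5) (nat_lit 72) (nat_lit 5) (nat_lit 73) (nat_lit 5) (nat_lit 386) (nat_lit 325) (nat_lit 69)) (XT.lf (nat_lit 0) (nat_lit 16061013953) (nat_lit 228) (nat_lit 65834334407) (nat_lit 304) (nat_lit 1907127038) (nat_lit 66) (nat_lit 5) (nat_lit 69) (nat_lit 5) (nat_lit 70) (nat_lit 5) (nat_lit 387) (nat_lit 325) (nat_lit 68))) (XT.nd (nat_lit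 78) (nat_lit 228) (nat_lit 0) (XT.lf (nat_lit 0) (nat_lit 12377347766) (nat_lit 304) (nat_lit 29474367591) (nat_lit 76) (nat_lit 43689765007) (nat_lit 65) (nat_lit 5) (nat_lit 69) (nat_lit 5) (nat_lit 66) (nat_lit 5) (nat_lit 388) (nat_lit 325) (nat_lit 67)) (XT.lf (nat_lit 0) (nat_lit 10118154975) (nat_lit 228) (nat_lit 17030387100) (nat_lit 304) (nat_lit 60180651911) (nat_lit 62) (nat_lit 5) (nat_lit 65) (nat_lit 5) (nat_lit 66) (nat_lit 5) (nat_lit 389) (nat_lit 325) (nat_lit 66))))) (XT.nd (nat_lit 234) (nat_lit 0) (nat_lit 0) (XT.nd (nat_lit 78) (nat_lit 228) (nat_lit 0) (XT.lf (nat_lit 0) (nat_lit 42744763354) (nat_lit 304) (nat_lit 37745108021) (nat_lit 76) (nat_lit 8669211370) (nat_lit 62) (nat_lit 5) (nat_lit 66) (nat_lit 5) (nat_lit 63) (nat_lit 5) (nat_lit 390) (nat_lit 325) (nat_lit 65)) (XT.nd (nat_lit 78) (nat_lit 0) (nat_lit 0) (XT.lf (nat_lit 0) (nat_lit 2789499128) (nat_lit 228)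 (nat_lit 56214087443) (nat_lit 304) (nat_lit 32034440587) (nat_lit 59) (nat_lit 5) (nat_lit 62) (nat_lit 5) (nat_lit 63) (nat_lit 5) (nat_lit 391) (nat_lit 325) (nat_lit 64)) (XT.lf (nat_lit 0) (nat_lit 45312775901) (nat_lit 228) (nat_lit 30817843640) (nat_lit 304) (nat_lit 16831307447) (nat_lit 59) (nat_lit 5) (nat_lit 62) (nat_lit 5) (nat_lit 63) (nat_lit 5) (nat_lit 392) (nat_lit 325) (nat_lit 63)))) (XT.nd (nat_lit 35490) (nat_lit 0) (nat_lit 10336) (XT.nd (nat_lit 35412) (nat_lit 0) (nat_lit 10336) (XT.lf (nat_lit 0) (nat_lit 89110676900) (nat_lit 228) (nat_lit 4660100654) (nat_lit 304) (nat_lit 1172787261) (nat_lit 59) (nat_lit 5) (nat_lit 62) (nat_lit 5) (nat_lit 63) (nat_lit 5) (nat_lit 393) (nat_lit 325) (nat_lit 62)) (XT.lf (nat_lit 0) (nat_lit 3744058324) (nat_lit 0) (nat_lit 3744058324) (nat_lit 1140) (nat_lit 6920226483) (nat_lit 195) (nat_lit 5) (nat_lit 195) (nat_lit 3) (nat_lit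 210) (nat_lit 3) (nat_lit 326) (nat_lit 326) (nat_lit 128))) (XT.nd (nat_lit 78) (nat_lit 0) (nat_lit 0) (XT.lf (nat_lit 0) (nat_lit 15331195459) (nat_lit 1140) (nat_lit 8314938297) (nat_lit 1216) (nat_lit 5598804630) (nat_lit 195) (nat_lit 5) (nat_lit 210) (nat_lit 3) (nat_lit 211) (nat_lit 5) (nat_lit 327) (nat_lit 326) (nat_lit 127)) (XT.lf (nat_lit 76) (nat_lit 5113160570) (nat_lit 0) (nat_lit 10704006899) (nat_lit 1216) (nat_lit 13865263231) (nat_lit 196) (nat_lit 5) (nat_lit 195) (nat_lit 5) (nat_lit 211) (nat_lit 5) (nat_lit 328) (nat_lit 326) (nat_lit 126)))))) (XT.nd (nat_lit 546) (nat_lit 836) (nat_lit 0) (XT.nd (nat_lit 234) (nat_lit 0) (nat_lit 76) (XT.nd (nat_lit 78) (nat_lit 0) (nat_lit 0) (XT.lf (nat_lit 0) (nat_lit 16424914120) (nat_lit 1140) (nat_lit 11043720035) (nat_lit 1216) (nat_lit 2661201123) (nat_lit 196) (nat_lit 5) (nat_lit 211) (nat_lit 5) (nat_lit 212) (nat_lit 5) (nat_lit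 329) (nat_lit 326) (nat_lit 125)) (XT.nd (nat_lit 78) (nat_lit 0) (nat_lit 0) (XT.lf (nat_lit 76) (nat_lit 2835328292) (nat_lit 0) (nat_lit 14346036137) (nat_lit 1216) (nat_lit 13405386686) (nat_lit 197) (nat_lit 5) (nat_lit 196) (nat_lit 5) (nat_lit 212) (nat_lit 5) (nat_lit 330) (nat_lit 326) (nat_lit 124)) (XT.lf (nat_lit 76) (nat_lit 17355533871) (nat_lit 0) (nat_lit 713795504) (nat_lit 1216) (nat_lit 12984783583) (nat_lit 197) (nat_lit 5) (nat_lit 196) (nat_lit 5) (nat_lit 212) (nat_lit 5) (nat_lit 331) (nat_lit 326) (nat_lit 123)))) (XT.nd (nat_lit 156) (nat_lit 0) (nat_lit 76) (XT.nd (nat_lit 78) (nat_lit 0) (nat_lit 0) (XT.lf (nat_lit 76) (nat_lit 658952274) (nat_lit 0) (nat_lit 18456816562) (nat_lit 1216) (nat_lit 12415774827) (nat_lit 198) (nat_lit 5) (nat_lit 197) (nat_lit 5) (nat_lit 213) (nat_lit 5) (nat_lit 332) (nat_lit 326) (nat_lit 122)) (XT.lf (nat_lit 76) (nat_lit 15719180232)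 (nat_lit 0) (nat_lit 4617198464) (nat_lit 1216) (nat_lit 11682638258) (nat_lit 198) (nat_lit 5) (nat_lit 197) (nat_lit 5) (nat_lit 213) (nat_lit 5) (nat_lit 333) (nat_lit 326) (nat_lit 121))) (XT.nd (nat_lit 78) (nat_lit 0) (nat_lit 0) (XT.lf (nat_lit 0) (nat_lit 21683782723) (nat_lit 1140) (nat_lit 1384209158) (nat_lit 1216) (nat_lit 9450420184) (nat_lit 198) (nat_lit 5) (nat_lit 213) (nat_lit 5) (nat_lit 214) (nat_lit 5) (nat_lit 334) (nat_lit 326) (nat_lit 120)) (XT.lf (nat_lit 76) (nat_lit 14208819035) (nat_lit 0) (nat_lit 9042693662) (nat_lit 1216) (nat_lit 9775882028) (nat_lit 199) (nat_lit 5) (nat_lit 198) (nat_lit 5) (nat_lit 214) (nat_lit 5) (nat_lit 335) (nat_lit 326) (nat_lit 119))))) (XT.nd (nat_lit 234) (nat_lit 1064) (nat_lit 0) (XT.nd (nat_lit 78) (nat_lit 0) (nat_lit 0) (XT.lf (nat_lit 0) (nat_lit 24929997769) (nat_lit 1140) (nat_lit 3306976125) (nat_lit 1216) (nat_lit 5312764006)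 (nat_lit 199) (nat_lit 5) (nat_lit 214) (nat_lit 5) (nat_lit 215) (nat_lit 5) (nat_lit 336) (nat_lit 326) (nat_lit 118)) (XT.nd (nat_lit 78) (nat_lit 0) (nat_lit 76) (XT.lf (nat_lit 76) (nat_lit 12829148956) (nat_lit 0) (nat_lit 14040276219) (nat_lit 1216) (nat_lit 7212011212) (nat_lit 200) (nat_lit 5) (nat_lit 199) (nat_lit 5) (nat_lit 215) (nat_lit 5) (nat_lit 337) (nat_lit 326) (nat_lit 117)) (XT.lf (nat_lit 0) (nat_lit 28904148360) (nat_lit 1140) (nat_lit 5118557228) (nat_lit 1216) (nat_lit 605269426) (nat_lit 200) (nat_lit 5) (nat_lit 215) (nat_lit 5) (nat_lit 216) (nat_lit 5) (nat_lit 338) (nat_lit 326) (nat_lit 116)))) (XT.nd (nat_lit 156) (nat_lit 1140) (nat_lit 0) (XT.nd (nat_lit 78) (nat_lit 0) (nat_lit 0) (XT.lf (nat_lit 76) (nat_lit 11584586038) (nat_lit 0) (nat_lit 19663553023) (nat_lit 1216) (nat_lit 3935326462) (nat_lit 201) (nat_lit 5) (nat_lit 200) (nat_lit 5) (nat_lit 216) (nat_lit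 5) (nat_lit 339) (nat_lit 326) (nat_lit 115)) (XT.lf (nat_lit 76) (nat_lit 28892121910) (nat_lit 0) (nat_lit 4819916855) (nat_lit 1216) (nat_lit 2042096728) (nat_lit 201) (nat_lit 5) (nat_lit 200) (nat_lit 5) (nat_lit 216) (nat_lit 5) (nat_lit 340) (nat_lit 326) (nat_lit 114))) (XT.nd (nat_lit 78) (nat_lit 0) (nat_lit 0) (XT.lf (nat_lit 0) (nat_lit 111032032) (nat_lit 1216) (nat_lit 25857874222) (nat_lit 1292) (nat_lit 10367008981) (nat_lit 185) (nat_lit 5) (nat_lit 201) (nat_lit 5) (nat_lit 202) (nat_lit 5) (nat_lit 341) (nat_lit 326) (nat_lit 113)) (XT.lf (nat_lit 0) (nat_lit 2403400415) (nat_lit 1216) (nat_lit 8524408237) (nat_lit 1292) (nat_lit 26003264679) (nat_lit 185) (nat_lit 5) (nat_lit 201) (nat_lit 5) (nat_lit 202) (nat_lit 5) (nat_lit 342) (nat_lit 326) (nat_lit 112))))))))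
noncomputable def xc235 : XT := (XT.nd (nat_lit 2184) (nat_lit 3268) (nat_lit 0) (XT.nd (nat_lit 1092) (nat_lit 2964) (nat_lit 0) (XT.nd (nat_lit 546) (nat_lit 1596) (nat_lit 0) (XT.nd (nat_lit 234) (nat_lit 1140) (nat_lit 0) (XT.nd (nat_lit 78) (nat_lit 684) (nat_lit 0) (XT.lf (nat_lit 0) (nat_lit 4898818388) (nat_lit 1216) (nat_lit 28073117959) (nat_lit 76) (nat_lit 4568123620) (nat_lit 186) (nat_lit 5) (nat_lit 202) (nat_lit 5) (nat_lit 187) (nat_lit 5) (nat_lit 343) (nat_lit 326) (nat_lit 111)) (XT.nd (nat_lit 78) (nat_lit 684) (nat_lit 0) (XT.lf (nat_lit 0) (nat_lit 7662318968) (nat_lit 1216) (nat_lit 10102678742) (nat_lit 76) (nat_lit 20396523981) (nat_lit 186) (nat_lit 5) (nat_lit 202) (nat_lit 5) (nat_lit 187) (nat_lit 5) (nat_lit 344) (nat_lit 326) (nat_lit 110)) (XT.lf (nat_lit 0) (nat_lit 8572531997) (nat_lit 684) (nat_lit 2016744425) (nat_lit 760) (nat_lit 28209936322) (nat_lit 177)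 (nat_lit 5) (nat_lit 186) (nat_lit 5) (nat_lit 187) (nat_lit 5) (nat_lit 345) (nat_lit 326) (nat_lit 109)))) (XT.nd (nat_lit 156) (nat_lit 532) (nat_lit 0) (XT.nd (nat_lit 78) (nat_lit 608) (nat_lit 0) (XT.lf (nat_lit 0) (nat_lit 13841794980) (nat_lit 760) (nat_lit 11577092239) (nat_lit 76) (nat_lit 14030016711) (nat_lit 177) (nat_lit 5) (nat_lit 187) (nat_lit 5) (nat_lit 178) (nat_lit 5) (nat_lit 346) (nat_lit 326) (nat_lit 108)) (XT.lf (nat_lit 0) (nat_lit 7761861422) (nat_lit 608) (nat_lit 9522847918) (nat_lit 684) (nat_lit 22830593817) (nat_lit 169) (nat_lit 5) (nat_lit 177) (nat_lit 5) (nat_lit 178) (nat_lit 5) (nat_lit 347) (nat_lit 326) (nat_lit 107))) (XT.nd (nat_lit 78) (nat_lit 532) (nat_lit 0) (XT.lf (nat_lit 0) (nat_lit 21013099390) (nat_lit 684) (nat_lit 12948544522) (nat_lit 76) (nat_lit 6834586661) (nat_lit 169) (nat_lit 5) (nat_lit 178) (nat_lit 5) (nat_lit 170) (nat_lit 5) (nat_lit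 348) (nat_lit 326) (nat_lit 106)) (XT.lf (nat_lit 0) (nat_lit 7080778188) (nat_lit 532) (nat_lit 17933241263) (nat_lit 608) (nat_lit 16478747817) (nat_lit 162) (nat_lit 5) (nat_lit 169) (nat_lit 5) (nat_lit 170) (nat_lit 5) (nat_lit 349) (nat_lit 326) (nat_lit 105))))) (XT.nd (nat_lit 234) (nat_lit 1064) (nat_lit 0) (XT.nd (nat_lit 78) (nat_lit 532) (nat_lit 0) (XT.lf (nat_lit 0) (nat_lit 27974821524) (nat_lit 532) (nat_lit 1289261818) (nat_lit 608) (nat_lit 12942244986) (nat_lit 162) (nat_lit 5) (nat_lit 169) (nat_lit 5) (nat_lit 170) (nat_lit 5) (nat_lit 350) (nat_lit 326) (nat_lit 104)) (XT.nd (nat_lit 78) (nat_lit 0) (nat_lit 0) (XT.lf (nat_lit 0) (nat_lit 6527776631) (nat_lit 532) (nat_lit 27327429691) (nat_lit 608) (nat_lit 9079684884) (nat_lit 155) (nat_lit 5) (nat_lit 162) (nat_lit 5) (nat_lit 163) (nat_lit 5) (nat_lit 351) (nat_lit 326) (nat_lit 103)) (XT.lf (nat_lit 0) (nat_lit 28186972091)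 (nat_lit 532) (nat_lit 10551881667) (nat_lit 608) (nat_lit 4941815142) (nat_lit 155) (nat_lit 5) (nat_lit 162) (nat_lit 5) (nat_lit 163) (nat_lit 5) (nat_lit 352) (nat_lit 326) (nat_lit 102)))) (XT.nd (nat_lit 156) (nat_lit 532) (nat_lit 0) (XT.nd (nat_lit 78) (nat_lit 76) (nat_lit 0) (XT.lf (nat_lit 0) (nat_lit 6099911097) (nat_lit 456) (nat_lit 37790884852) (nat_lit 532) (nat_lit 554372018) (nat_lit 149) (nat_lit 5) (nat_lit 155) (nat_lit 5) (nat_lit 156) (nat_lit 5) (nat_lit 353) (nat_lit 326) (nat_lit 101)) (XT.lf (nat_lit 0) (nat_lit 4148306726) (nat_lit 532) (nat_lit 16714705837) (nat_lit 76) (nat_lit 24360618290) (nat_lit 148) (nat_lit 5) (nat_lit 155) (nat_lit 5) (nat_lit 149) (nat_lit 5) (nat_lit 354) (nat_lit 326) (nat_lit 100))) (XT.nd (nat_lit 78) (nat_lit 0) (nat_lit 0) (XT.lf (nat_lit 0) (nat_lit 5668332841) (nat_lit 532) (nat_lit 3365620564) (nat_lit 608) (nat_lit 36989740125) (nat_lit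 141) (nat_lit 5) (nat_lit 148) (nat_lit 5) (nat_lit 149) (nat_lit 5) (nat_lit 355) (nat_lit 326) (nat_lit 99)) (XT.lf (nat_lit 0) (nat_lit 14376084606) (nat_lit 608) (nat_lit 17921334766) (nat_lit 76) (nat_lit 14541042687) (nat_lit 141) (nat_lit 5) (nat_lit 149) (nat_lit 5) (nat_lit 142) (nat_lit 5) (nat_lit 356) (nat_lit 326) (nat_lit 98)))))) (XT.nd (nat_lit 546) (nat_lit 1140) (nat_lit 0) (XT.nd (nat_lit 234) (nat_lit 912) (nat_lit 0) (XT.nd (nat_lit 78) (nat_lit 456) (nat_lit 0) (XT.lf (nat_lit 0) (nat_lit 5253369304) (nat_lit 456) (nat_lit 14707542808) (nat_lit 532) (nat_lit 27714289945) (nat_lit 135) (nat_lit 5) (nat_lit 141) (nat_lit 5) (nat_lit 142) (nat_lit 5) (nat_lit 357) (nat_lit 326) (nat_lit 97)) (XT.nd (nat_lit 78) (nat_lit 456) (nat_lit 0) (XT.lf (nat_lit 0) (nat_lit 25927461065) (nat_lit 532) (nat_lit 19077059497) (nat_lit 76) (nat_lit 3526099735) (nat_lit 135) (nat_lit 5) (nat_lit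 142) (nat_lit 5) (nat_lit 136) (nat_lit 5) (nat_lit 358) (nat_lit 326) (nat_lit 96)) (XT.lf (nat_lit 0) (nat_lit 4916871396) (nat_lit 456) (nat_lit 27347693255) (nat_lit 532) (nat_lit 17141390994) (nat_lit 129) (nat_lit 5) (nat_lit 135) (nat_lit 5) (nat_lit 136) (nat_lit 5) (nat_lit 359) (nat_lit 326) (nat_lit 95)))) (XT.nd (nat_lit 156) (nat_lit 532) (nat_lit 0) (XT.nd (nat_lit 78) (nat_lit 380) (nat_lit 0) (XT.lf (nat_lit 0) (nat_lit 30020183862) (nat_lit 456) (nat_lit 8962937529) (nat_lit 532) (nat_lit 11318690726) (nat_lit 129) (nat_lit 5) (nat_lit 135) (nat_lit 5) (nat_lit 136) (nat_lit 5) (nat_lit 360) (nat_lit 326) (nat_lit 94)) (XT.lf (nat_lit 0) (nat_lit 4645337598) (nat_lit 380) (nat_lit 41397156315) (nat_lit 456) (nat_lit 5177873827) (nat_lit 124) (nat_lit 5) (nat_lit 129) (nat_lit 5) (nat_lit 130) (nat_lit 5) (nat_lit 361) (nat_lit 326) (nat_lit 93))) (XT.nd (nat_lit 78) (nat_lit 456)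 (nat_lit 0) (XT.lf (nat_lit 0) (nat_lit 1419100993) (nat_lit 456) (nat_lit 21527769541) (nat_lit 76) (nat_lit 29210450274) (nat_lit 123) (nat_lit 5) (nat_lit 129) (nat_lit 5) (nat_lit 124) (nat_lit 5) (nat_lit 362) (nat_lit 326) (nat_lit 92)) (XT.lf (nat_lit 0) (nat_lit 4302134126) (nat_lit 456) (nat_lit 3847916496) (nat_lit 532) (nat_lit 44969590917) (nat_lit 117) (nat_lit 5) (nat_lit 123) (nat_lit 5) (nat_lit 124) (nat_lit 5) (nat_lit 363) (nat_lit 326) (nat_lit 91))))) (XT.nd (nat_lit 234) (nat_lit 760) (nat_lit 0) (XT.nd (nat_lit 78) (nat_lit 380) (nat_lit 0) (XT.lf (nat_lit 0) (nat_lit 15453379591) (nat_lit 532) (nat_lit 22911818703) (nat_lit 76) (nat_lit 15734521166) (nat_lit 117) (nat_lit 5) (nat_lit 124) (nat_lit 5) (nat_lit 118) (nat_lit 5) (nat_lit 364) (nat_lit 326) (nat_lit 90)) (XT.nd (nat_lit 78) (nat_lit 0) (nat_lit 0) (XT.lf (nat_lit 0) (nat_lit 3805770718) (nat_lit 380) (nat_lit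 19243554437) (nat_lit 456) (nat_lit 32057670122) (nat_lit 112) (nat_lit 5) (nat_lit 117) (nat_lit 5) (nat_lit 118) (nat_lit 5) (nat_lit 365) (nat_lit 326) (nat_lit 89)) (XT.lf (nat_lit 0) (nat_lit 31109999395) (nat_lit 456) (nat_lit 24351078601) (nat_lit 76) (nat_lit 676306890) (nat_lit 112) (nat_lit 5) (nat_lit 118) (nat_lit 5) (nat_lit 113) (nat_lit 5) (nat_lit 366) (nat_lit 326) (nat_lit 88)))) (XT.nd (nat_lit 156) (nat_lit 380) (nat_lit 0) (XT.nd (nat_lit 78) (nat_lit 0) (nat_lit 0) (XT.lf (nat_lit 0) (nat_lit 3279626503) (nat_lit 380) (nat_lit 36353809532) (nat_lit 456) (nat_lit 17558622885) (nat_lit 107) (nat_lit 5) (nat_lit 112) (nat_lit 5) (nat_lit 113) (nat_lit 5) (nat_lit 367) (nat_lit 326) (nat_lit 87)) (XT.lf (nat_lit 0) (nat_lit 32237027531) (nat_lit 380) (nat_lit 16420351544) (nat_lit 456) (nat_lit 9613650970) (nat_lit 107) (nat_lit 5) (nat_lit 112) (nat_lit 5) (nat_lit 113) (nat_lit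 5) (nat_lit 368) (nat_lit 326) (nat_lit 86))) (XT.nd (nat_lit 78) (nat_lit 76) (nat_lit 0) (XT.lf (nat_lit 0) (nat_lit 2692412715) (nat_lit 304) (nat_lit 55323961525) (nat_lit 380) (nat_lit 1364066991) (nat_lit 103) (nat_lit 5) (nat_lit 107) (nat_lit 5) (nat_lit 108) (nat_lit 5) (nat_lit 369) (nat_lit 326) (nat_lit 85)) (XT.lf (nat_lit 0) (nat_lit 7420827678) (nat_lit 380) (nat_lit 27936099584) (nat_lit 76) (nat_lit 25151340960) (nat_lit 102) (nat_lit 5) (nat_lit 107) (nat_lit 5) (nat_lit 103) (nat_lit 5) (nat_lit 370) (nat_lit 326) (nat_lit 84))))))) (XT.nd (nat_lit 1092) (nat_lit 988) (nat_lit 0) (XT.nd (nat_lit 546) (nat_lit 1216) (nat_lit 0) (XT.nd (nat_lit 234) (nat_lit 380) (nat_lit 0) (XT.nd (nat_lit 78) (nat_lit 304) (nat_lit 0) (XT.lf (nat_lit 0) (nat_lit 1696633600) (nat_lit 380) (nat_lit 14760499893) (nat_lit 456) (nat_lit 45211933803) (nat_lit 97) (nat_lit 5) (nat_lit 102) (nat_lit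 5) (nat_lit 103) (nat_lit 5) (nat_lit 371) (nat_lit 326) (nat_lit 83)) (XT.nd (nat_lit 78) (nat_lit 304) (nat_lit 0) (XT.lf (nat_lit 0) (nat_lit 26110444943) (nat_lit 456) (nat_lit 30131417192) (nat_lit 76) (nat_lit 6612451551) (nat_lit 97) (nat_lit 5) (nat_lit 103) (nat_lit 5) (nat_lit 98) (nat_lit 5) (nat_lit 372) (nat_lit 326) (nat_lit 82)) (XT.lf (nat_lit 0) (nat_lit 466458290) (nat_lit 304) (nat_lit 35736539932) (nat_lit 380) (nat_lit 27867630783) (nat_lit 93) (nat_lit 5) (nat_lit 97) (nat_lit 5) (nat_lit 98) (nat_lit 5) (nat_lit 373) (nat_lit 326) (nat_lit 81)))) (XT.nd (nat_lit 156) (nat_lit 380) (nat_lit 0) (XT.nd (nat_lit 78) (nat_lit 0) (nat_lit 0) (XT.lf (nat_lit 0) (nat_lit 32598617356) (nat_lit 304) (nat_lit 14303010044) (nat_lit 380) (nat_lit 18412708194) (nat_lit 93) (nat_lit 5) (nat_lit 97) (nat_lit 5) (nat_lit 98) (nat_lit 5) (nat_lit 374) (nat_lit 326) (nat_lit 80)) (XT.lf (nat_lit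 0) (nat_lit 57994995377) (nat_lit 380) (nat_lit 976640637) (nat_lit 76) (nat_lit 7621504733) (nat_lit 93) (nat_lit 5) (nat_lit 98) (nat_lit 5) (nat_lit 94) (nat_lit 5) (nat_lit 375) (nat_lit 326) (nat_lit 79))) (XT.nd (nat_lit 78) (nat_lit 0) (nat_lit 0) (XT.lf (nat_lit 0) (nat_lit 1936053310) (nat_lit 380) (nat_lit 35715716917) (nat_lit 76) (nat_lit 30244464418) (nat_lit 88) (nat_lit 5) (nat_lit 93) (nat_lit 5) (nat_lit 89) (nat_lit 5) (nat_lit 376) (nat_lit 326) (nat_lit 78)) (XT.lf (nat_lit 0) (nat_lit 12622512077) (nat_lit 380) (nat_lit 2972215264) (nat_lit 76) (nat_lit 53640869365) (nat_lit 88) (nat_lit 5) (nat_lit 93) (nat_lit 5) (nat_lit 89) (nat_lit 5) (nat_lit 377) (nat_lit 326) (nat_lit 77))))) (XT.nd (nat_lit 234) (nat_lit 608) (nat_lit 0) (XT.nd (nat_lit 78) (nat_lit 304) (nat_lit 0) (XT.lf (nat_lit 0) (nat_lit 24001635586) (nat_lit 380) (nat_lit 39313196565) (nat_lit 76) (nat_lit 7289146028)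 (nat_lit 84) (nat_lit 5) (nat_lit 89) (nat_lit 5) (nat_lit 85) (nat_lit 5) (nat_lit 378) (nat_lit 326) (nat_lit 76)) (XT.nd (nat_lit 78) (nat_lit 304) (nat_lit 0) (XT.lf (nat_lit 0) (nat_lit 35905972451) (nat_lit 380) (nat_lit 5525862390) (nat_lit 76) (nat_lit 30576061727) (nat_lit 84) (nat_lit 5) (nat_lit 89) (nat_lit 5) (nat_lit 85) (nat_lit 5) (nat_lit 379) (nat_lit 326) (nat_lit 75)) (XT.lf (nat_lit 0) (nat_lit 29856488573) (nat_lit 304) (nat_lit 18597100846) (nat_lit 380) (nat_lit 24991759231) (nat_lit 80) (nat_lit 5) (nat_lit 84) (nat_lit 5) (nat_lit 85) (nat_lit 5) (nat_lit 380) (nat_lit 326) (nat_lit 74)))) (XT.nd (nat_lit 156) (nat_lit 380) (nat_lit 0) (XT.nd (nat_lit 78) (nat_lit 228) (nat_lit 0) (XT.lf (nat_lit 0) (nat_lit 61480468386) (nat_lit 380) (nat_lit 8559758897) (nat_lit 76) (nat_lit 4882612631) (nat_lit 80) (nat_lit 5) (nat_lit 85) (nat_lit 5) (nat_lit 81) (nat_lit 5) (nat_lit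 381) (nat_lit 326) (nat_lit 73)) (XT.lf (nat_lit 0) (nat_lit 27878918089) (nat_lit 228) (nat_lit 47470539869) (nat_lit 304) (nat_lit 1081659433) (nat_lit 77) (nat_lit 5) (nat_lit 80) (nat_lit 5) (nat_lit 81) (nat_lit 5) (nat_lit 382) (nat_lit 326) (nat_lit 72))) (XT.nd (nat_lit 78) (nat_lit 304) (nat_lit 0) (XT.lf (nat_lit 0) (nat_lit 11509024847) (nat_lit 304) (nat_lit 12509860274) (nat_lit 76) (nat_lit 53959804617) (nat_lit 76) (nat_lit 5) (nat_lit 80) (nat_lit 5) (nat_lit 77) (nat_lit 5) (nat_lit 383) (nat_lit 326) (nat_lit 71)) (XT.lf (nat_lit 0) (nat_lit 24699898099) (nat_lit 380) (nat_lit 54477448113) (nat_lit 76) (nat_lit 387696048) (nat_lit 72) (nat_lit 5) (nat_lit 77) (nat_lit 5) (nat_lit 73) (nat_lit 5) (nat_lit 384) (nat_lit 326) (nat_lit 70)))))) (XT.nd (nat_lit 546) (nat_lit 228) (nat_lit 0) (XT.nd (nat_lit 234) (nat_lit 532) (nat_lit 0) (XT.nd (nat_lit 78) (nat_lit 228) (nat_lit 0)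 (XT.lf (nat_lit 0) (nat_lit 38651105317) (nat_lit 380) (nat_lit 17366009958) (nat_lit 76) (nat_lit 25170932388) (nat_lit 72) (nat_lit 5) (nat_lit 77) (nat_lit 5) (nat_lit 73) (nat_lit 5) (nat_lit 385) (nat_lit 326) (nat_lit 69)) (XT.nd (nat_lit 78) (nat_lit 0) (nat_lit 0) (XT.lf (nat_lit 0) (nat_lit 21272748275) (nat_lit 228) (nat_lit 31951831050) (nat_lit 304) (nat_lit 29629052506) (nat_lit 69) (nat_lit 5) (nat_lit 72) (nat_lit 5) (nat_lit 73) (nat_lit 5) (nat_lit 386) (nat_lit 326) (nat_lit 68)) (XT.lf (nat_lit 0) (nat_lit 61425535517) (nat_lit 228) (nat_lit 6984339848) (nat_lit 304) (nat_lit 16154070132) (nat_lit 69) (nat_lit 5) (nat_lit 72) (nat_lit 5) (nat_lit 73) (nat_lit 5) (nat_lit 387) (nat_lit 326) (nat_lit 67)))) (XT.nd (nat_lit 156) (nat_lit 228) (nat_lit 0) (XT.nd (nat_lit 78) (nat_lit 76) (nat_lit 0) (XT.lf (nat_lit 0) (nat_lit 16600094312) (nat_lit 228) (nat_lit 67789544728) (nat_lit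 304) (nat_lit 1925762763) (nat_lit 66) (nat_lit 5) (nat_lit 69) (nat_lit 5) (nat_lit 70) (nat_lit 5) (nat_lit 388) (nat_lit 326) (nat_lit 66)) (XT.lf (nat_lit 0) (nat_lit 12785391781) (nat_lit 304) (nat_lit 30302261763) (nat_lit 76) (nat_lit 45018946006) (nat_lit 65) (nat_lit 5) (nat_lit 69) (nat_lit 5) (nat_lit 66) (nat_lit 5) (nat_lit 389) (nat_lit 326) (nat_lit 65))) (XT.nd (nat_lit 78) (nat_lit 0) (nat_lit 0) (XT.lf (nat_lit 0) (nat_lit 10477484157) (nat_lit 228) (nat_lit 17521704377) (nat_lit 304) (nat_lit 61948772732) (nat_lit 62) (nat_lit 5) (nat_lit 65) (nat_lit 5) (nat_lit 66) (nat_lit 5) (nat_lit 390) (nat_lit 326) (nat_lit 64)) (XT.lf (nat_lit 0) (nat_lit 44062425236) (nat_lit 304) (nat_lit 38822408136) (nat_lit 76) (nat_lit 8947940119) (nat_lit 62) (nat_lit 5) (nat_lit 66) (nat_lit 5) (nat_lit 63) (nat_lit 5) (nat_lit 391) (nat_lit 326) (nat_lit 63))))) (XT.nd (nat_lit 35724) (nat_lit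 0) (nat_lit 10336) (XT.nd (nat_lit 35568) (nat_lit 0) (nat_lit 10336) (XT.lf (nat_lit 0) (nat_lit 2927697490) (nat_lit 228) (nat_lit 57880810966) (nat_lit 304) (nat_lit 32959593565) (nat_lit 59) (nat_lit 5) (nat_lit 62) (nat_lit 5) (nat_lit 63) (nat_lit 5) (nat_lit 392) (nat_lit 326) (nat_lit 62)) (XT.nd (nat_lit 78) (nat_lit 0) (nat_lit 0) (XT.lf (nat_lit 0) (nat_lit 3893731752) (nat_lit 0) (nat_lit 3893731752) (nat_lit 1140) (nat_lit 7050801060) (nat_lit 195) (nat_lit 5) (nat_lit 195) (nat_lit 3) (nat_lit 210) (nat_lit 3) (nat_lit 327) (nat_lit 327) (nat_lit 126)) (XT.lf (nat_lit 0) (nat_lit 15935489205) (nat_lit 1140) (nat_lit 8486639677) (nat_lit 1216) (nat_lit 5695656511) (nat_lit 195) (nat_lit 5) (nat_lit 210) (nat_lit 3) (nat_lit 211) (nat_lit 5) (nat_lit 328) (nat_lit 327) (nat_lit 125)))) (XT.nd (nat_lit 156) (nat_lit 0) (nat_lit 76) (XT.nd (nat_lit 78) (nat_lit 0) (nat_lit 76) (XT.lf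 (nat_lit 76) (nat_lit 5343539933) (nat_lit 0) (nat_lit 11089035867) (nat_lit 1216) (nat_lit 14135935579) (nat_lit 196) (nat_lit 5) (nat_lit 195) (nat_lit 5) (nat_lit 211) (nat_lit 5) (nat_lit 329) (nat_lit 327) (nat_lit 124)) (XT.lf (nat_lit 0) (nat_lit 17053854725) (nat_lit 1140) (nat_lit 11295428608) (nat_lit 1216) (nat_lit 2680200583) (nat_lit 196) (nat_lit 5) (nat_lit 211) (nat_lit 5) (nat_lit 212) (nat_lit 5) (nat_lit 330) (nat_lit 327) (nat_lit 123))) (XT.nd (nat_lit 78) (nat_lit 0) (nat_lit 0) (XT.lf (nat_lit 76) (nat_lit 2999210747) (nat_lit 0) (nat_lit 14830578695) (nat_lit 1216) (nat_lit 13670418737) (nat_lit 197) (nat_lit 5) (nat_lit 196) (nat_lit 5) (nat_lit 212) (nat_lit 5) (nat_lit 331) (nat_lit 327) (nat_lit 122)) (XT.lf (nat_lit 76) (nat_lit 17952726690) (nat_lit 0) (nat_lit 787793325) (nat_lit 1216) (nat_lit 13241191606) (nat_lit 197) (nat_lit 5) (nat_lit 196) (nat_lit 5) (nat_lit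 212) (nat_lit 5) (nat_lit 332) (nat_lit 327) (nat_lit 121))))))))
noncomputable def xc236 : XT := (XT.nd (nat_lit 2106) (nat_lit 5016) (nat_lit 0) (XT.nd (nat_lit 1014) (nat_lit 3800) (nat_lit 0) (XT.nd (nat_lit 468) (nat_lit 912) (nat_lit 0) (XT.nd (nat_lit 234) (nat_lit 0) (nat_lit 76) (XT.nd (nat_lit 78) (nat_lit 0) (nat_lit 0) (XT.lf (nat_lit 76) (nat_lit 758983164) (nat_lit 0) (nat_lit 19055889771) (nat_lit 1216) (nat_lit 12658701112) (nat_lit 198) (nat_lit 5) (nat_lit 197) (nat_lit 5) (nat_lit 213) (nat_lit 5) (nat_lit 333) (nat_lit 327) (nat_lit 120)) (XT.nd (nat_lit 78) (nat_lit 0) (nat_lit 76) (XT.lf (nat_lit 76) (nat_lit 16268680223) (nat_lit 0) (nat_lit 4799761711) (nat_lit 1216) (nat_lit 11907343659) (nat_lit 198) (nat_lit 5) (nat_lit 197) (nat_lit 5) (nat_lit 213) (nat_lit 5) (nat_lit 334) (nat_lit 327) (nat_lit 119)) (XT.lf (nat_lit 0) (nat_lit 22452304426) (nat_lit 1140) (nat_lit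 1345978284) (nat_lit 1216) (nat_lit 9692002914) (nat_lit 198) (nat_lit 5) (nat_lit 213) (nat_lit 5) (nat_lit 214) (nat_lit 5) (nat_lit 335) (nat_lit 327) (nat_lit 118)))) (XT.nd (nat_lit 78) (nat_lit 0) (nat_lit 76) (XT.lf (nat_lit 76) (nat_lit 14714058822) (nat_lit 0) (nat_lit 9350329503) (nat_lit 1216) (nat_lit 9950233814) (nat_lit 199) (nat_lit 5) (nat_lit 198) (nat_lit 5) (nat_lit 214) (nat_lit 5) (nat_lit 336) (nat_lit 327) (nat_lit 117)) (XT.nd (nat_lit 78) (nat_lit 0) (nat_lit 0) (XT.lf (nat_lit 0) (nat_lit 25789529528) (nat_lit 1140) (nat_lit 3325681417) (nat_lit 1216) (nat_lit 5437539534) (nat_lit 199) (nat_lit 5) (nat_lit 214) (nat_lit 5) (nat_lit 215) (nat_lit 5) (nat_lit 337) (nat_lit 327) (nat_lit 116)) (XT.lf (nat_lit 76) (nat_lit 13293738161) (nat_lit 0) (nat_lit 14490916449) (nat_lit 1216) (nat_lit 7315823669) (nat_lit 200) (nat_lit 5) (nat_lit 199) (nat_lit 5) (nat_lit 215) (nat_lit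 5) (nat_lit 338) (nat_lit 327) (nat_lit 115))))) (XT.nd (nat_lit 234) (nat_lit 1140) (nat_lit 0) (XT.nd (nat_lit 78) (nat_lit 0) (nat_lit 0) (XT.lf (nat_lit 0) (nat_lit 29876965784) (nat_lit 1140) (nat_lit 5191144183) (nat_lit 1216) (nat_lit 595410402) (nat_lit 200) (nat_lit 5) (nat_lit 215) (nat_lit 5) (nat_lit 216) (nat_lit 5) (nat_lit 339) (nat_lit 327) (nat_lit 114)) (XT.nd (nat_lit 78) (nat_lit 0) (nat_lit 0) (XT.lf (nat_lit 76) (nat_lit 12012299559) (nat_lit 0) (nat_lit 20276668911) (nat_lit 1216) (nat_lit 3946779941) (nat_lit 201) (nat_lit 5) (nat_lit 200) (nat_lit 5) (nat_lit 216) (nat_lit 5) (nat_lit 340) (nat_lit 327) (nat_lit 113)) (XT.lf (nat_lit 76) (nat_lit 29836726286) (nat_lit 0) (nat_lit 4987047659) (nat_lit 1216) (nat_lit 1999858354) (nat_lit 201) (nat_lit 5) (nat_lit 200) (nat_lit 5) (nat_lit 216) (nat_lit 5) (nat_lit 341) (nat_lit 327) (nat_lit 112)))) (XT.nd (nat_lit 156) (nat_lit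 0) (nat_lit 76) (XT.nd (nat_lit 78) (nat_lit 0) (nat_lit 0) (XT.lf (nat_lit 0) (nat_lit 213456831) (nat_lit 1216) (nat_lit 26551140255) (nat_lit 1292) (nat_lit 10658313414) (nat_lit 185) (nat_lit 5) (nat_lit 201) (nat_lit 5) (nat_lit 202) (nat_lit 5) (nat_lit 342) (nat_lit 327) (nat_lit 111)) (XT.lf (nat_lit 0) (nat_lit 2571710036) (nat_lit 1216) (nat_lit 8700072334) (nat_lit 1292) (nat_lit 26764230739) (nat_lit 185) (nat_lit 5) (nat_lit 201) (nat_lit 5) (nat_lit 202) (nat_lit 5) (nat_lit 343) (nat_lit 327) (nat_lit 110))) (XT.nd (nat_lit 78) (nat_lit 0) (nat_lit 0) (XT.lf (nat_lit 0) (nat_lit 5139807426) (nat_lit 1216) (nat_lit 28832957126) (nat_lit 76) (nat_lit 4690573380) (nat_lit 186) (nat_lit 5) (nat_lit 202) (nat_lit 5) (nat_lit 187) (nat_lit 5) (nat_lit 344) (nat_lit 327) (nat_lit 109)) (XT.lf (nat_lit 0) (nat_lit 7983474446) (nat_lit 1216) (nat_lit 10325803404) (nat_lit 76) (nat_lit 20994250819)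 (nat_lit 186) (nat_lit 5) (nat_lit 202) (nat_lit 5) (nat_lit 187) (nat_lit 5) (nat_lit 345) (nat_lit 327) (nat_lit 108)))))) (XT.nd (nat_lit 546) (nat_lit 1520) (nat_lit 0) (XT.nd (nat_lit 234) (nat_lit 1064) (nat_lit 0) (XT.nd (nat_lit 78) (nat_lit 608) (nat_lit 0) (XT.lf (nat_lit 0) (nat_lit 8908879778) (nat_lit 684) (nat_lit 2087463081) (nat_lit 760) (nat_lit 28964067443) (nat_lit 177) (nat_lit 5) (nat_lit 186) (nat_lit 5) (nat_lit 187) (nat_lit 5) (nat_lit 346) (nat_lit 327) (nat_lit 107)) (XT.nd (nat_lit 78) (nat_lit 608) (nat_lit 0) (XT.lf (nat_lit 0) (nat_lit 14343738090) (nat_lit 760) (nat_lit 11844745927) (nat_lit 76) (nat_lit 14441192003) (nat_lit 177) (nat_lit 5) (nat_lit 187) (nat_lit 5) (nat_lit 178) (nat_lit 5) (nat_lit 347) (nat_lit 327) (nat_lit 106)) (XT.lf (nat_lit 0) (nat_lit 8073595373) (nat_lit 608) (nat_lit 9814577803) (nat_lit 684) (nat_lit 23427949797) (nat_lit 169) (nat_lit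 5) (nat_lit 177) (nat_lit 5) (nat_lit 178) (nat_lit 5) (nat_lit 348) (nat_lit 327) (nat_lit 105)))) (XT.nd (nat_lit 156) (nat_lit 532) (nat_lit 0) (XT.nd (nat_lit 78) (nat_lit 532) (nat_lit 0) (XT.lf (nat_lit 0) (nat_lit 21725885044) (nat_lit 684) (nat_lit 13257801354) (nat_lit 76) (nat_lit 7033870379) (nat_lit 169) (nat_lit 5) (nat_lit 178) (nat_lit 5) (nat_lit 170) (nat_lit 5) (nat_lit 349) (nat_lit 327) (nat_lit 104)) (XT.lf (nat_lit 0) (nat_lit 7371624572) (nat_lit 532) (nat_lit 18473562198) (nat_lit 608) (nat_lit 16889854770) (nat_lit 162) (nat_lit 5) (nat_lit 169) (nat_lit 5) (nat_lit 170) (nat_lit 5) (nat_lit 350) (nat_lit 327) (nat_lit 103))) (XT.nd (nat_lit 78) (nat_lit 532) (nat_lit 0) (XT.lf (nat_lit 0) (nat_lit 28890205042) (nat_lit 532) (nat_lit 1330195689) (nat_lit 608) (nat_lit 13249681771) (nat_lit 162) (nat_lit 5) (nat_lit 169) (nat_lit 5) (nat_lit 170) (nat_lit 5) (nat_lit 351)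 (nat_lit 327) (nat_lit 102)) (XT.lf (nat_lit 0) (nat_lit 6801435614) (nat_lit 532) (nat_lit 28146265495) (nat_lit 608) (nat_lit 9272850289) (nat_lit 155) (nat_lit 5) (nat_lit 162) (nat_lit 5) (nat_lit 163) (nat_lit 5) (nat_lit 352) (nat_lit 327) (nat_lit 101))))) (XT.nd (nat_lit 234) (nat_lit 988) (nat_lit 0) (XT.nd (nat_lit 78) (nat_lit 532) (nat_lit 0) (XT.lf (nat_lit 0) (nat_lit 29108140169) (nat_lit 532) (nat_lit 10867479781) (nat_lit 608) (nat_lit 5013151983) (nat_lit 155) (nat_lit 5) (nat_lit 162) (nat_lit 5) (nat_lit 163) (nat_lit 5) (nat_lit 353) (nat_lit 327) (nat_lit 100)) (XT.nd (nat_lit 78) (nat_lit 76) (nat_lit 0) (XT.lf (nat_lit 0) (nat_lit 6360011769) (nat_lit 456) (nat_lit 38920685914) (nat_lit 532) (nat_lit 495553272) (nat_lit 149) (nat_lit 5) (nat_lit 155) (nat_lit 5) (nat_lit 156) (nat_lit 5) (nat_lit 354) (nat_lit 327) (nat_lit 99)) (XT.lf (nat_lit 0) (nat_lit 4344578846) (nat_lit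 532) (nat_lit 17139787674) (nat_lit 76) (nat_lit 25093746259) (nat_lit 148) (nat_lit 5) (nat_lit 155) (nat_lit 5) (nat_lit 149) (nat_lit 5) (nat_lit 355) (nat_lit 327) (nat_lit 98)))) (XT.nd (nat_lit 156) (nat_lit 456) (nat_lit 0) (XT.nd (nat_lit 78) (nat_lit 0) (nat_lit 0) (XT.lf (nat_lit 0) (nat_lit 5913993544) (nat_lit 532) (nat_lit 3461436269) (nat_lit 608) (nat_lit 38026790584) (nat_lit 141) (nat_lit 5) (nat_lit 148) (nat_lit 5) (nat_lit 149) (nat_lit 5) (nat_lit 356) (nat_lit 327) (nat_lit 97)) (XT.lf (nat_lit 0) (nat_lit 14875820871) (nat_lit 608) (nat_lit 18383494105) (nat_lit 76) (nat_lit 14982179172) (nat_lit 141) (nat_lit 5) (nat_lit 149) (nat_lit 5) (nat_lit 142) (nat_lit 5) (nat_lit 357) (nat_lit 327) (nat_lit 96))) (XT.nd (nat_lit 78) (nat_lit 0) (nat_lit 0) (XT.lf (nat_lit 0) (nat_lit 5485711079) (nat_lit 456) (nat_lit 15141206778) (nat_lit 532) (nat_lit 28476458734) (nat_lit 135)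 (nat_lit 5) (nat_lit 141) (nat_lit 5) (nat_lit 142) (nat_lit 5) (nat_lit 358) (nat_lit 327) (nat_lit 95)) (XT.lf (nat_lit 0) (nat_lit 26770577204) (nat_lit 532) (nat_lit 19574857175) (nat_lit 76) (nat_lit 3639081510) (nat_lit 135) (nat_lit 5) (nat_lit 142) (nat_lit 5) (nat_lit 136) (nat_lit 5) (nat_lit 359) (nat_lit 327) (nat_lit 94))))))) (XT.nd (nat_lit 1092) (nat_lit 2128) (nat_lit 0) (XT.nd (nat_lit 546) (nat_lit 1140) (nat_lit 0) (XT.nd (nat_lit 234) (nat_lit 912) (nat_lit 0) (XT.nd (nat_lit 78) (nat_lit 380) (nat_lit 0) (XT.lf (nat_lit 0) (nat_lit 5138161113) (nat_lit 456) (nat_lit 28158440319) (nat_lit 532) (nat_lit 17589547510) (nat_lit 129) (nat_lit 5) (nat_lit 135) (nat_lit 5) (nat_lit 136) (nat_lit 5) (nat_lit 360) (nat_lit 327) (nat_lit 93)) (XT.nd (nat_lit 78) (nat_lit 380) (nat_lit 0) (XT.lf (nat_lit 0) (nat_lit 30992423917) (nat_lit 456) (nat_lit 9222423972) (nat_lit 532) (nat_lit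 11594091046) (nat_lit 129) (nat_lit 5) (nat_lit 135) (nat_lit 5) (nat_lit 136) (nat_lit 5) (nat_lit 361) (nat_lit 327) (nat_lit 92)) (XT.lf (nat_lit 0) (nat_lit 4857449126) (nat_lit 380) (nat_lit 42627526927) (nat_lit 456) (nat_lit 5270107704) (nat_lit 124) (nat_lit 5) (nat_lit 129) (nat_lit 5) (nat_lit 130) (nat_lit 5) (nat_lit 362) (nat_lit 327) (nat_lit 91)))) (XT.nd (nat_lit 156) (nat_lit 380) (nat_lit 0) (XT.nd (nat_lit 78) (nat_lit 456) (nat_lit 0) (XT.lf (nat_lit 0) (nat_lit 1521742939) (nat_lit 456) (nat_lit 22101719290) (nat_lit 76) (nat_lit 30096720715) (nat_lit 123) (nat_lit 5) (nat_lit 129) (nat_lit 5) (nat_lit 124) (nat_lit 5) (nat_lit 363) (nat_lit 327) (nat_lit 90)) (XT.lf (nat_lit 0) (nat_lit 4502376749) (nat_lit 456) (nat_lit 3951178941) (nat_lit 532) (nat_lit 46257851183) (nat_lit 117) (nat_lit 5) (nat_lit 123) (nat_lit 5) (nat_lit 124) (nat_lit 5) (nat_lit 364) (nat_lit 327)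 (nat_lit 89))) (XT.nd (nat_lit 78) (nat_lit 380) (nat_lit 0) (XT.lf (nat_lit 0) (nat_lit 15974379603) (nat_lit 532) (nat_lit 23528410664) (nat_lit 76) (nat_lit 16218146579) (nat_lit 117) (nat_lit 5) (nat_lit 124) (nat_lit 5) (nat_lit 118) (nat_lit 5) (nat_lit 365) (nat_lit 327) (nat_lit 88)) (XT.lf (nat_lit 0) (nat_lit 3990012688) (nat_lit 380) (nat_lit 19807192585) (nat_lit 456) (nat_lit 32961257133) (nat_lit 112) (nat_lit 5) (nat_lit 117) (nat_lit 5) (nat_lit 118) (nat_lit 5) (nat_lit 366) (nat_lit 327) (nat_lit 87))))) (XT.nd (nat_lit 234) (nat_lit 760) (nat_lit 0) (XT.nd (nat_lit 78) (nat_lit 380) (nat_lit 0) (XT.lf (nat_lit 0) (nat_lit 32098184575) (nat_lit 456) (nat_lit 25012018544) (nat_lit 76) (nat_lit 709607518) (nat_lit 112) (nat_lit 5) (nat_lit 118) (nat_lit 5) (nat_lit 113) (nat_lit 5) (nat_lit 367) (nat_lit 327) (nat_lit 86)) (XT.nd (nat_lit 78) (nat_lit 0) (nat_lit 0) (XT.lf (nat_lit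 0) (nat_lit 3446925435) (nat_lit 380) (nat_lit 37429462688) (nat_lit 456) (nat_lit 18029766288) (nat_lit 107) (nat_lit 5) (nat_lit 112) (nat_lit 5) (nat_lit 113) (nat_lit 5) (nat_lit 368) (nat_lit 327) (nat_lit 85)) (XT.lf (nat_lit 0) (nat_lit 33271041402) (nat_lit 380) (nat_lit 16898436722) (nat_lit 456) (nat_lit 9848065078) (nat_lit 107) (nat_lit 5) (nat_lit 112) (nat_lit 5) (nat_lit 113) (nat_lit 5) (nat_lit 369) (nat_lit 327) (nat_lit 84)))) (XT.nd (nat_lit 156) (nat_lit 380) (nat_lit 0) (XT.nd (nat_lit 78) (nat_lit 76) (nat_lit 0) (XT.lf (nat_lit 0) (nat_lit 2840895855) (nat_lit 304) (nat_lit 56967608162) (nat_lit 380) (nat_lit 1351756232) (nat_lit 103) (nat_lit 5) (nat_lit 107) (nat_lit 5) (nat_lit 108) (nat_lit 5) (nat_lit 370) (nat_lit 327) (nat_lit 83)) (XT.lf (nat_lit 0) (nat_lit 7694126300) (nat_lit 380) (nat_lit 28707392987) (nat_lit 76) (nat_lit 25920434292) (nat_lit 102) (nat_lit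 5) (nat_lit 107) (nat_lit 5) (nat_lit 103) (nat_lit 5) (nat_lit 371) (nat_lit 327) (nat_lit 82))) (XT.nd (nat_lit 78) (nat_lit 0) (nat_lit 0) (XT.lf (nat_lit 0) (nat_lit 1813667393) (nat_lit 380) (nat_lit 15187013690) (nat_lit 456) (nat_lit 46516921987) (nat_lit 97) (nat_lit 5) (nat_lit 102) (nat_lit 5) (nat_lit 103) (nat_lit 5) (nat_lit 372) (nat_lit 327) (nat_lit 81)) (XT.lf (nat_lit 0) (nat_lit 26942292544) (nat_lit 456) (nat_lit 30969811811) (nat_lit 76) (nat_lit 6826342676) (nat_lit 97) (nat_lit 5) (nat_lit 103) (nat_lit 5) (nat_lit 98) (nat_lit 5) (nat_lit 373) (nat_lit 327) (nat_lit 80)))))) (XT.nd (nat_lit 546) (nat_lit 1140) (nat_lit 0) (XT.nd (nat_lit 234) (nat_lit 684) (nat_lit 0) (XT.nd (nat_lit 78) (nat_lit 0) (nat_lit 0) (XT.lf (nat_lit 0) (nat_lit 545357308) (nat_lit 304) (nat_lit 36791475403) (nat_lit 380) (nat_lit 28654443956) (nat_lit 93) (nat_lit 5) (nat_lit 97) (nat_lit 5) (nat_lit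 98) (nat_lit 5) (nat_lit 374) (nat_lit 327) (nat_lit 79)) (XT.nd (nat_lit 78) (nat_lit 0) (nat_lit 0) (XT.lf (nat_lit 0) (nat_lit 33639590701) (nat_lit 304) (nat_lit 14715439446) (nat_lit 380) (nat_lit 18917307157) (nat_lit 93) (nat_lit 5) (nat_lit 97) (nat_lit 5) (nat_lit 98) (nat_lit 5) (nat_lit 375) (nat_lit 327) (nat_lit 78)) (XT.lf (nat_lit 0) (nat_lit 59780004540) (nat_lit 380) (nat_lit 943529150) (nat_lit 76) (nat_lit 7866009861) (nat_lit 93) (nat_lit 5) (nat_lit 98) (nat_lit 5) (nat_lit 94) (nat_lit 5) (nat_lit 376) (nat_lit 327) (nat_lit 77)))) (XT.nd (nat_lit 156) (nat_lit 304) (nat_lit 0) (XT.nd (nat_lit 78) (nat_lit 0) (nat_lit 0) (XT.lf (nat_lit 0) (nat_lit 2039047798) (nat_lit 380) (nat_lit 36724461197) (nat_lit 76) (nat_lit 31168230765) (nat_lit 88) (nat_lit 5) (nat_lit 93) (nat_lit 5) (nat_lit 89) (nat_lit 5) (nat_lit 377) (nat_lit 327) (nat_lit 76)) (XT.lf (nat_lit 0) (nat_lit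 13044792186) (nat_lit 380) (nat_lit 3000481501) (nat_lit 76) (nat_lit 55266049247) (nat_lit 88) (nat_lit 5) (nat_lit 93) (nat_lit 5) (nat_lit 89) (nat_lit 5) (nat_lit 378) (nat_lit 327) (nat_lit 75))) (XT.nd (nat_lit 78) (nat_lit 0) (nat_lit 0) (XT.lf (nat_lit 0) (nat_lit 24764766182) (nat_lit 380) (nat_lit 40431136469) (nat_lit 76) (nat_lit 7524869875) (nat_lit 84) (nat_lit 5) (nat_lit 89) (nat_lit 5) (nat_lit 85) (nat_lit 5) (nat_lit 379) (nat_lit 327) (nat_lit 74)) (XT.lf (nat_lit 0) (nat_lit 37024978351) (nat_lit 380) (nat_lit 5631972249) (nat_lit 76) (nat_lit 31509896458) (nat_lit 84) (nat_lit 5) (nat_lit 89) (nat_lit 5) (nat_lit 85) (nat_lit 5) (nat_lit 380) (nat_lit 327) (nat_lit 73))))) (XT.nd (nat_lit 234) (nat_lit 608) (nat_lit 0) (XT.nd (nat_lit 78) (nat_lit 228) (nat_lit 0) (XT.lf (nat_lit 0) (nat_lit 30811264282) (nat_lit 304) (nat_lit 19137109215) (nat_lit 380) (nat_lit 25699069636)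 (nat_lit 80) (nat_lit 5) (nat_lit 84) (nat_lit 5) (nat_lit 85) (nat_lit 5) (nat_lit 381) (nat_lit 327) (nat_lit 72)) (XT.nd (nat_lit 78) (nat_lit 228) (nat_lit 0) (XT.lf (nat_lit 0) (nat_lit 63365026618) (nat_lit 380) (nat_lit 8758129413) (nat_lit 76) (nat_lit 5046134963) (nat_lit 80) (nat_lit 5) (nat_lit 85) (nat_lit 5) (nat_lit 81) (nat_lit 5) (nat_lit 382) (nat_lit 327) (nat_lit 71)) (XT.lf (nat_lit 0) (nat_lit 28773135115) (nat_lit 228) (nat_lit 48876337599) (nat_lit 304) (nat_lit 1073363344) (nat_lit 77) (nat_lit 5) (nat_lit 80) (nat_lit 5) (nat_lit 81) (nat_lit 5) (nat_lit 383) (nat_lit 327) (nat_lit 70)))) (XT.nd (nat_lit 156) (nat_lit 228) (nat_lit 0) (XT.nd (nat_lit 78) (nat_lit 304) (nat_lit 0) (XT.lf (nat_lit 0) (nat_lit 11893082750) (nat_lit 304) (nat_lit 12828192331) (nat_lit 76) (nat_lit 55595584470) (nat_lit 76) (nat_lit 5) (nat_lit 80) (nat_lit 5) (nat_lit 77) (nat_lit 5) (nat_lit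 384) (nat_lit 327) (nat_lit 69)) (XT.lf (nat_lit 0) (nat_lit 25479269683) (nat_lit 380) (nat_lit 56054368819) (nat_lit 76) (nat_lit 417177318) (nat_lit 72) (nat_lit 5) (nat_lit 77) (nat_lit 5) (nat_lit 73) (nat_lit 5) (nat_lit 385) (nat_lit 327) (nat_lit 68))) (XT.nd (nat_lit 78) (nat_lit 228) (nat_lit 0) (XT.lf (nat_lit 0) (nat_lit 39847895409) (nat_lit 380) (nat_lit 17831259443) (nat_lit 76) (nat_lit 25943390834) (nat_lit 72) (nat_lit 5) (nat_lit 77) (nat_lit 5) (nat_lit 73) (nat_lit 5) (nat_lit 386) (nat_lit 327) (nat_lit 67)) (XT.lf (nat_lit 0) (nat_lit 21966115156) (nat_lit 228) (nat_lit 32891903795) (nat_lit 304) (nat_lit 30480095818) (nat_lit 69) (nat_lit 5) (nat_lit 72) (nat_lit 5) (nat_lit 73) (nat_lit 5) (nat_lit 387) (nat_lit 327) (nat_lit 66))))))))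
noncomputable def xc237 : XT := (XT.nd (nat_lit 37830) (nat_lit 0) (nat_lit 1976) (XT.nd (nat_lit 36738) (nat_lit 0) (nat_lit 7600) (XT.nd (nat_lit 36192) (nat_lit 0) (nat_lit 10184) (XT.nd (nat_lit 234) (nat_lit 228) (nat_lit 0) (XT.nd (nat_lit 78) (nat_lit 304) (nat_lit 0) (XT.lf (nat_lit 0) (nat_lit 63321878702) (nat_lit 228) (nat_lit 7175926173) (nat_lit 304) (nat_lit 16601965767) (nat_lit 69) (nat_lit 5) (nat_lit 72) (nat_lit 5) (nat_lit 73) (nat_lit 5) (nat_lit 388) (nat_lit 327) (nat_lit 65)) (XT.nd (nat_lit 78) (nat_lit 76) (nat_lit 0) (XT.lf (nat_lit 0) (nat_lit 17152060701) (nat_lit 228) (nat_lit 69804549091) (nat_lit 304) (nat_lit 1947172100) (nat_lit 66) (nat_lit 5) (nat_lit 69) (nat_lit 5) (nat_lit 70) (nat_lit 5) (nat_lit 389) (nat_lit 327) (nat_lit 64)) (XT.lf (nat_lit 0) (nat_lit 13203569032) (nat_lit 304) (nat_lit 31158226727) (nat_lit 76) (nat_lit 46386941146) (nat_lit 65) (nat_lit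 5) (nat_lit 69) (nat_lit 5) (nat_lit 66) (nat_lit 5) (nat_lit 390) (nat_lit 327) (nat_lit 63)))) (XT.nd (nat_lit 35802) (nat_lit 0) (nat_lit 10108) (XT.nd (nat_lit 35724) (nat_lit 0) (nat_lit 10108) (XT.lf (nat_lit 0) (nat_lit 10844390955) (nat_lit 228) (nat_lit 18028885968) (nat_lit 304) (nat_lit 63772078278) (nat_lit 62) (nat_lit 5) (nat_lit 65) (nat_lit 5) (nat_lit 66) (nat_lit 5) (nat_lit 391) (nat_lit 327) (nat_lit 62)) (XT.lf (nat_lit 0) (nat_lit 4045751244) (nat_lit 0) (nat_lit 4045751244) (nat_lit 1140) (nat_lit 7189714840) (nat_lit 195) (nat_lit 5) (nat_lit 195) (nat_lit 3) (nat_lit 210) (nat_lit 3) (nat_lit 328) (nat_lit 328) (nat_lit 124))) (XT.nd (nat_lit 78) (nat_lit 0) (nat_lit 0) (XT.lf (nat_lit 0) (nat_lit 16549625031) (nat_lit 1140) (nat_lit 8667955081) (nat_lit 1216) (nat_lit 5799496084) (nat_lit 195) (nat_lit 5) (nat_lit 210) (nat_lit 3) (nat_lit 211) (nat_lit 5) (nat_lit 329)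 (nat_lit 328) (nat_lit 123)) (XT.lf (nat_lit 76) (nat_lit 5576411449) (nat_lit 0) (nat_lit 11481947080) (nat_lit 1216) (nat_lit 14423068081) (nat_lit 196) (nat_lit 5) (nat_lit 195) (nat_lit 5) (nat_lit 211) (nat_lit 5) (nat_lit 330) (nat_lit 328) (nat_lit 122))))) (XT.nd (nat_lit 234) (nat_lit 0) (nat_lit 76) (XT.nd (nat_lit 78) (nat_lit 0) (nat_lit 0) (XT.lf (nat_lit 0) (nat_lit 17693845502) (nat_lit 1140) (nat_lit 11559257978) (nat_lit 1216) (nat_lit 2703262295) (nat_lit 196) (nat_lit 5) (nat_lit 211) (nat_lit 5) (nat_lit 212) (nat_lit 5) (nat_lit 331) (nat_lit 328) (nat_lit 121)) (XT.nd (nat_lit 78) (nat_lit 0) (nat_lit 0) (XT.lf (nat_lit 76) (nat_lit 3163484936) (nat_lit 0) (nat_lit 15326548441) (nat_lit 1216) (nat_lit 13951273547) (nat_lit 197) (nat_lit 5) (nat_lit 196) (nat_lit 5) (nat_lit 212) (nat_lit 5) (nat_lit 332) (nat_lit 328) (nat_lit 120)) (XT.lf (nat_lit 76) (nat_lit 18563442341)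 (nat_lit 0) (nat_lit 860992546) (nat_lit 1216) (nat_lit 13512934390) (nat_lit 197) (nat_lit 5) (nat_lit 196) (nat_lit 5) (nat_lit 212) (nat_lit 5) (nat_lit 333) (nat_lit 328) (nat_lit 119)))) (XT.nd (nat_lit 156) (nat_lit 0) (nat_lit 76) (XT.nd (nat_lit 78) (nat_lit 0) (nat_lit 0) (XT.lf (nat_lit 76) (nat_lit 857407595) (nat_lit 0) (nat_lit 19670330827) (nat_lit 1216) (nat_lit 12916351711) (nat_lit 198) (nat_lit 5) (nat_lit 197) (nat_lit 5) (nat_lit 213) (nat_lit 5) (nat_lit 334) (nat_lit 328) (nat_lit 118)) (XT.lf (nat_lit 76) (nat_lit 16830192024) (nat_lit 0) (nat_lit 4985273361) (nat_lit 1216) (nat_lit 12146010149) (nat_lit 198) (nat_lit 5) (nat_lit 197) (nat_lit 5) (nat_lit 213) (nat_lit 5) (nat_lit 335) (nat_lit 328) (nat_lit 117))) (XT.nd (nat_lit 78) (nat_lit 0) (nat_lit 0) (XT.lf (nat_lit 0) (nat_lit 23237107626) (nat_lit 1140) (nat_lit 1311178870) (nat_lit 1216) (nat_lit 9943240071) (nat_lit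 198) (nat_lit 5) (nat_lit 213) (nat_lit 5) (nat_lit 214) (nat_lit 5) (nat_lit 336) (nat_lit 328) (nat_lit 116)) (XT.lf (nat_lit 76) (nat_lit 15229922302) (nat_lit 0) (nat_lit 9665107492) (nat_lit 1216) (nat_lit 10136642916) (nat_lit 199) (nat_lit 5) (nat_lit 198) (nat_lit 5) (nat_lit 214) (nat_lit 5) (nat_lit 337) (nat_lit 328) (nat_lit 115)))))) (XT.nd (nat_lit 546) (nat_lit 1748) (nat_lit 0) (XT.nd (nat_lit 234) (nat_lit 1064) (nat_lit 0) (XT.nd (nat_lit 78) (nat_lit 0) (nat_lit 0) (XT.lf (nat_lit 0) (nat_lit 26668439116) (nat_lit 1140) (nat_lit 3349569127) (nat_lit 1216) (nat_lit 5568044935) (nat_lit 199) (nat_lit 5) (nat_lit 214) (nat_lit 5) (nat_lit 215) (nat_lit 5) (nat_lit 338) (nat_lit 328) (nat_lit 114)) (XT.nd (nat_lit 78) (nat_lit 0) (nat_lit 76) (XT.lf (nat_lit 76) (nat_lit 13767689091) (nat_lit 0) (nat_lit 14953386372) (nat_lit 1216) (nat_lit 7429211209) (nat_lit 200) (nat_lit 5) (nat_lit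 199) (nat_lit 5) (nat_lit 215) (nat_lit 5) (nat_lit 339) (nat_lit 328) (nat_lit 113)) (XT.lf (nat_lit 0) (nat_lit 30872900521) (nat_lit 1140) (nat_lit 5270556743) (nat_lit 1216) (nat_lit 586863904) (nat_lit 200) (nat_lit 5) (nat_lit 215) (nat_lit 5) (nat_lit 216) (nat_lit 5) (nat_lit 340) (nat_lit 328) (nat_lit 112)))) (XT.nd (nat_lit 156) (nat_lit 1140) (nat_lit 0) (XT.nd (nat_lit 78) (nat_lit 0) (nat_lit 0) (XT.lf (nat_lit 76) (nat_lit 12448242059) (nat_lit 0) (nat_lit 20906845966) (nat_lit 1216) (nat_lit 3964696664) (nat_lit 201) (nat_lit 5) (nat_lit 200) (nat_lit 5) (nat_lit 216) (nat_lit 5) (nat_lit 341) (nat_lit 328) (nat_lit 111)) (XT.lf (nat_lit 76) (nat_lit 30805200417) (nat_lit 0) (nat_lit 5157898884) (nat_lit 1216) (nat_lit 1962294226) (nat_lit 201) (nat_lit 5) (nat_lit 200) (nat_lit 5) (nat_lit 216) (nat_lit 5) (nat_lit 342) (nat_lit 328) (nat_lit 110))) (XT.nd (nat_lit 78) (nat_lit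 0) (nat_lit 0) (XT.lf (nat_lit 0) (nat_lit 313265981) (nat_lit 1216) (nat_lit 27269938396) (nat_lit 1292) (nat_lit 10959488175) (nat_lit 185) (nat_lit 5) (nat_lit 201) (nat_lit 5) (nat_lit 202) (nat_lit 5) (nat_lit 343) (nat_lit 328) (nat_lit 109)) (XT.lf (nat_lit 0) (nat_lit 2739546236) (nat_lit 1216) (nat_lit 8885602595) (nat_lit 1292) (nat_lit 27549124029) (nat_lit 185) (nat_lit 5) (nat_lit 201) (nat_lit 5) (nat_lit 202) (nat_lit 5) (nat_lit 344) (nat_lit 328) (nat_lit 108))))) (XT.nd (nat_lit 234) (nat_lit 1140) (nat_lit 0) (XT.nd (nat_lit 78) (nat_lit 684) (nat_lit 0) (XT.lf (nat_lit 0) (nat_lit 5382628744) (nat_lit 1216) (nat_lit 29620318946) (nat_lit 76) (nat_lit 4817534385) (nat_lit 186) (nat_lit 5) (nat_lit 202) (nat_lit 5) (nat_lit 187) (nat_lit 5) (nat_lit 345) (nat_lit 328) (nat_lit 107)) (XT.nd (nat_lit 78) (nat_lit 684) (nat_lit 0) (XT.lf (nat_lit 0) (nat_lit 8309024403) (nat_lit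 1216) (nat_lit 10560211590) (nat_lit 76) (nat_lit 21610722813) (nat_lit 186) (nat_lit 5) (nat_lit 202) (nat_lit 5) (nat_lit 187) (nat_lit 5) (nat_lit 346) (nat_lit 328) (nat_lit 106)) (XT.lf (nat_lit 0) (nat_lit 9250773206) (nat_lit 684) (nat_lit 2159716837) (nat_lit 760) (nat_lit 29746113258) (nat_lit 177) (nat_lit 5) (nat_lit 186) (nat_lit 5) (nat_lit 187) (nat_lit 5) (nat_lit 347) (nat_lit 328) (nat_lit 105)))) (XT.nd (nat_lit 156) (nat_lit 532) (nat_lit 0) (XT.nd (nat_lit 78) (nat_lit 608) (nat_lit 0) (XT.lf (nat_lit 0) (nat_lit 14855763175) (nat_lit 760) (nat_lit 12125001982) (nat_lit 76) (nat_lit 14865260820) (nat_lit 177) (nat_lit 5) (nat_lit 187) (nat_lit 5) (nat_lit 178) (nat_lit 5) (nat_lit 348) (nat_lit 328) (nat_lit 104)) (XT.lf (nat_lit 0) (nat_lit 8390153416) (nat_lit 608) (nat_lit 10114712609) (nat_lit 684) (nat_lit 24048252865) (nat_lit 169) (nat_lit 5) (nat_lit 177) (nat_lit 5)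 (nat_lit 178) (nat_lit 5) (nat_lit 349) (nat_lit 328) (nat_lit 103))) (XT.nd (nat_lit 78) (nat_lit 532) (nat_lit 0) (XT.lf (nat_lit 0) (nat_lit 22455324591) (nat_lit 684) (nat_lit 13580882265) (nat_lit 76) (nat_lit 7239462905) (nat_lit 169) (nat_lit 5) (nat_lit 178) (nat_lit 5) (nat_lit 170) (nat_lit 5) (nat_lit 350) (nat_lit 328) (nat_lit 102)) (XT.lf (nat_lit 0) (nat_lit 7666694545) (nat_lit 532) (nat_lit 19029959371) (nat_lit 608) (nat_lit 17318074137) (nat_lit 162) (nat_lit 5) (nat_lit 169) (nat_lit 5) (nat_lit 170) (nat_lit 5) (nat_lit 351) (nat_lit 328) (nat_lit 101))))))) (XT.nd (nat_lit 1092) (nat_lit 2204) (nat_lit 0) (XT.nd (nat_lit 546) (nat_lit 1824) (nat_lit 0) (XT.nd (nat_lit 234) (nat_lit 1064) (nat_lit 0) (XT.nd (nat_lit 78) (nat_lit 532) (nat_lit 0) (XT.lf (nat_lit 0) (nat_lit 29828679383) (nat_lit 532) (nat_lit 1372228072) (nat_lit 608) (nat_lit 13570981664) (nat_lit 162) (nat_lit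 5) (nat_lit 169) (nat_lit 5) (nat_lit 170) (nat_lit 5) (nat_lit 352) (nat_lit 328) (nat_lit 100)) (XT.nd (nat_lit 78) (nat_lit 0) (nat_lit 0) (XT.lf (nat_lit 0) (nat_lit 7078836852) (nat_lit 532) (nat_lit 28989723036) (nat_lit 608) (nat_lit 9476358503) (nat_lit 155) (nat_lit 5) (nat_lit 162) (nat_lit 5) (nat_lit 163) (nat_lit 5) (nat_lit 353) (nat_lit 328) (nat_lit 99)) (XT.lf (nat_lit 0) (nat_lit 30052605899) (nat_lit 532) (nat_lit 11192600850) (nat_lit 608) (nat_lit 5091044314) (nat_lit 155) (nat_lit 5) (nat_lit 162) (nat_lit 5) (nat_lit 163) (nat_lit 5) (nat_lit 354) (nat_lit 328) (nat_lit 98)))) (XT.nd (nat_lit 156) (nat_lit 532) (nat_lit 0) (XT.nd (nat_lit 78) (nat_lit 76) (nat_lit 0) (XT.lf (nat_lit 0) (nat_lit 6623489413) (nat_lit 456) (nat_lit 40084606347) (nat_lit 532) (nat_lit 439301098) (nat_lit 149) (nat_lit 5) (nat_lit 155) (nat_lit 5) (nat_lit 156) (nat_lit 5) (nat_lit 355) (nat_lit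 328) (nat_lit 97)) (XT.lf (nat_lit 0) (nat_lit 4542616201) (nat_lit 532) (nat_lit 17582005304) (nat_lit 76) (nat_lit 25848735497) (nat_lit 148) (nat_lit 5) (nat_lit 155) (nat_lit 5) (nat_lit 149) (nat_lit 5) (nat_lit 356) (nat_lit 328) (nat_lit 96))) (XT.nd (nat_lit 78) (nat_lit 0) (nat_lit 0) (XT.lf (nat_lit 0) (nat_lit 6162683704) (nat_lit 532) (nat_lit 3560422243) (nat_lit 608) (nat_lit 39099122489) (nat_lit 141) (nat_lit 5) (nat_lit 148) (nat_lit 5) (nat_lit 149) (nat_lit 5) (nat_lit 357) (nat_lit 328) (nat_lit 95)) (XT.lf (nat_lit 0) (nat_lit 15386619700) (nat_lit 608) (nat_lit 18863851126) (nat_lit 76) (nat_lit 15436268172) (nat_lit 141) (nat_lit 5) (nat_lit 149) (nat_lit 5) (nat_lit 142) (nat_lit 5) (nat_lit 358) (nat_lit 328) (nat_lit 94))))) (XT.nd (nat_lit 234) (nat_lit 912) (nat_lit 0) (XT.nd (nat_lit 78) (nat_lit 456) (nat_lit 0) (XT.lf (nat_lit 0) (nat_lit 5720732686) (nat_lit 456)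 (nat_lit 15588314775) (nat_lit 532) (nat_lit 29265468389) (nat_lit 135) (nat_lit 5) (nat_lit 141) (nat_lit 5) (nat_lit 142) (nat_lit 5) (nat_lit 359) (nat_lit 328) (nat_lit 93)) (XT.nd (nat_lit 78) (nat_lit 456) (nat_lit 0) (XT.lf (nat_lit 0) (nat_lit 27635238781) (nat_lit 532) (nat_lit 20091866199) (nat_lit 76) (nat_lit 3755039498) (nat_lit 135) (nat_lit 5) (nat_lit 142) (nat_lit 5) (nat_lit 136) (nat_lit 5) (nat_lit 360) (nat_lit 328) (nat_lit 92)) (XT.lf (nat_lit 0) (nat_lit 5361854044) (nat_lit 456) (nat_lit 28994065680) (nat_lit 532) (nat_lit 18054942283) (nat_lit 129) (nat_lit 5) (nat_lit 135) (nat_lit 5) (nat_lit 136) (nat_lit 5) (nat_lit 361) (nat_lit 328) (nat_lit 91)))) (XT.nd (nat_lit 156) (nat_lit 532) (nat_lit 0) (XT.nd (nat_lit 78) (nat_lit 380) (nat_lit 0) (XT.lf (nat_lit 0) (nat_lit 31989719059) (nat_lit 456) (nat_lit 9490234702) (nat_lit 532) (nat_lit 11881436445) (nat_lit 129)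 (nat_lit 5) (nat_lit 135) (nat_lit 5) (nat_lit 136) (nat_lit 5) (nat_lit 362) (nat_lit 328) (nat_lit 90)) (XT.lf (nat_lit 0) (nat_lit 5071747771) (nat_lit 380) (nat_lit 43895471334) (nat_lit 456) (nat_lit 5368730930) (nat_lit 124) (nat_lit 5) (nat_lit 129) (nat_lit 5) (nat_lit 130) (nat_lit 5) (nat_lit 363) (nat_lit 328) (nat_lit 89))) (XT.nd (nat_lit 78) (nat_lit 456) (nat_lit 0) (XT.lf (nat_lit 0) (nat_lit 1624015943) (nat_lit 456) (nat_lit 22697013929) (nat_lit 76) (nat_lit 31009007700) (nat_lit 123) (nat_lit 5) (nat_lit 129) (nat_lit 5) (nat_lit 124) (nat_lit 5) (nat_lit 364) (nat_lit 328) (nat_lit 88)) (XT.lf (nat_lit 0) (nat_lit 4704540707) (nat_lit 456) (nat_lit 4058238158) (nat_lit 532) (nat_lit 47588251002) (nat_lit 117) (nat_lit 5) (nat_lit 123) (nat_lit 5) (nat_lit 124) (nat_lit 5) (nat_lit 365) (nat_lit 328) (nat_lit 87)))))) (XT.nd (nat_lit 546) (nat_lit 1064) (nat_lit 0) (XT.nd (nat_lit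 234) (nat_lit 760) (nat_lit 0) (XT.nd (nat_lit 78) (nat_lit 380) (nat_lit 0) (XT.lf (nat_lit 0) (nat_lit 16507714699) (nat_lit 532) (nat_lit 24167562448) (nat_lit 76) (nat_lit 16715615453) (nat_lit 117) (nat_lit 5) (nat_lit 124) (nat_lit 5) (nat_lit 118) (nat_lit 5) (nat_lit 366) (nat_lit 328) (nat_lit 86)) (XT.nd (nat_lit 78) (nat_lit 0) (nat_lit 0) (XT.lf (nat_lit 0) (nat_lit 4175759678) (nat_lit 380) (nat_lit 20388524505) (nat_lit 456) (nat_lit 33895289405) (nat_lit 112) (nat_lit 5) (nat_lit 117) (nat_lit 5) (nat_lit 118) (nat_lit 5) (nat_lit 367) (nat_lit 328) (nat_lit 85)) (XT.lf (nat_lit 0) (nat_lit 33112864675) (nat_lit 456) (nat_lit 25696781575) (nat_lit 76) (nat_lit 743160255) (nat_lit 112) (nat_lit 5) (nat_lit 118) (nat_lit 5) (nat_lit 113) (nat_lit 5) (nat_lit 368) (nat_lit 328) (nat_lit 84)))) (XT.nd (nat_lit 156) (nat_lit 380) (nat_lit 0) (XT.nd (nat_lit 78) (nat_lit 0) (nat_lit 0)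 (XT.lf (nat_lit 0) (nat_lit 3615287610) (nat_lit 380) (nat_lit 38538244268) (nat_lit 456) (nat_lit 18518236539) (nat_lit 107) (nat_lit 5) (nat_lit 112) (nat_lit 5) (nat_lit 113) (nat_lit 5) (nat_lit 369) (nat_lit 328) (nat_lit 83)) (XT.lf (nat_lit 0) (nat_lit 34332235181) (nat_lit 380) (nat_lit 17391698270) (nat_lit 456) (nat_lit 10092611169) (nat_lit 107) (nat_lit 5) (nat_lit 112) (nat_lit 5) (nat_lit 113) (nat_lit 5) (nat_lit 370) (nat_lit 328) (nat_lit 82))) (XT.nd (nat_lit 78) (nat_lit 76) (nat_lit 0) (XT.lf (nat_lit 0) (nat_lit 2989946616) (nat_lit 304) (nat_lit 58661486808) (nat_lit 380) (nat_lit 1342131929) (nat_lit 103) (nat_lit 5) (nat_lit 107) (nat_lit 5) (nat_lit 108) (nat_lit 5) (nat_lit 371) (nat_lit 328) (nat_lit 81)) (XT.lf (nat_lit 0) (nat_lit 7972714998) (nat_lit 380) (nat_lit 29505659188) (nat_lit 76) (nat_lit 26711765017) (nat_lit 102) (nat_lit 5) (nat_lit 107) (nat_lit 5) (nat_lit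 103) (nat_lit 5) (nat_lit 372) (nat_lit 328) (nat_lit 80))))) (XT.nd (nat_lit 234) (nat_lit 380) (nat_lit 0) (XT.nd (nat_lit 78) (nat_lit 304) (nat_lit 0) (XT.lf (nat_lit 0) (nat_lit 1930415792) (nat_lit 380) (nat_lit 15627258655) (nat_lit 456) (nat_lit 47864008655) (nat_lit 97) (nat_lit 5) (nat_lit 102) (nat_lit 5) (nat_lit 103) (nat_lit 5) (nat_lit 373) (nat_lit 328) (nat_lit 79)) (XT.nd (nat_lit 78) (nat_lit 304) (nat_lit 0) (XT.lf (nat_lit 0) (nat_lit 27796309510) (nat_lit 456) (nat_lit 31837120987) (nat_lit 76) (nat_lit 7045759762) (nat_lit 97) (nat_lit 5) (nat_lit 103) (nat_lit 5) (nat_lit 98) (nat_lit 5) (nat_lit 374) (nat_lit 328) (nat_lit 78)) (XT.lf (nat_lit 0) (nat_lit 622897470) (nat_lit 304) (nat_lit 37879044035) (nat_lit 380) (nat_lit 29467686709) (nat_lit 93) (nat_lit 5) (nat_lit 97) (nat_lit 5) (nat_lit 98) (nat_lit 5) (nat_lit 375) (nat_lit 328) (nat_lit 77)))) (XT.nd (nat_lit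 156) (nat_lit 380) (nat_lit 0) (XT.nd (nat_lit 78) (nat_lit 0) (nat_lit 0) (XT.lf (nat_lit 0) (nat_lit 34708175939) (nat_lit 304) (nat_lit 15141198134) (nat_lit 380) (nat_lit 19439786988) (nat_lit 93) (nat_lit 5) (nat_lit 97) (nat_lit 5) (nat_lit 98) (nat_lit 5) (nat_lit 376) (nat_lit 328) (nat_lit 76)) (XT.lf (nat_lit 0) (nat_lit 61615971649) (nat_lit 380) (nat_lit 913006948) (nat_lit 76) (nat_lit 8116939714) (nat_lit 93) (nat_lit 5) (nat_lit 98) (nat_lit 5) (nat_lit 94) (nat_lit 5) (nat_lit 377) (nat_lit 328) (nat_lit 75))) (XT.nd (nat_lit 78) (nat_lit 0) (nat_lit 0) (XT.lf (nat_lit 0) (nat_lit 2142553938) (nat_lit 380) (nat_lit 37767068606) (nat_lit 76) (nat_lit 32118766815) (nat_lit 88) (nat_lit 5) (nat_lit 93) (nat_lit 5) (nat_lit 89) (nat_lit 5) (nat_lit 378) (nat_lit 328) (nat_lit 74)) (XT.lf (nat_lit 0) (nat_lit 13477237607) (nat_lit 380) (nat_lit 3033091647) (nat_lit 76) (nat_lit 56939068711)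 (nat_lit 88) (nat_lit 5) (nat_lit 93) (nat_lit 5) (nat_lit 89) (nat_lit 5) (nat_lit 379) (nat_lit 328) (nat_lit 73))))))))
noncomputable def xc238 : XT := (XT.nd (nat_lit 37986) (nat_lit 0) (nat_lit 2736) (XT.nd (nat_lit 36894) (nat_lit 0) (nat_lit 9044) (XT.nd (nat_lit 546) (nat_lit 456) (nat_lit 0) (XT.nd (nat_lit 234) (nat_lit 608) (nat_lit 0) (XT.nd (nat_lit 78) (nat_lit 304) (nat_lit 0) (XT.lf (nat_lit 0) (nat_lit 25548317639) (nat_lit 380) (nat_lit 41586142395) (nat_lit 76) (nat_lit 7766686727) (nat_lit 84) (nat_lit 5) (nat_lit 89) (nat_lit 5) (nat_lit 85) (nat_lit 5) (nat_lit 380) (nat_lit 328) (nat_lit 72)) (XT.nd (nat_lit 78) (nat_lit 304) (nat_lit 0) (XT.lf (nat_lit 0) (nat_lit 38175153402) (nat_lit 380) (nat_lit 5744690477) (nat_lit 76) (nat_lit 32470796028) (nat_lit 84) (nat_lit 5) (nat_lit 89) (nat_lit 5) (nat_lit 85) (nat_lit 5) (nat_lit 381) (nat_lit 328) (nat_lit 71)) (XT.lf (nat_lit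 0) (nat_lit 31791291768) (nat_lit 304) (nat_lit 19694345635) (nat_lit 380) (nat_lit 26430035718) (nat_lit 80) (nat_lit 5) (nat_lit 84) (nat_lit 5) (nat_lit 85) (nat_lit 5) (nat_lit 382) (nat_lit 328) (nat_lit 70)))) (XT.nd (nat_lit 156) (nat_lit 380) (nat_lit 0) (XT.nd (nat_lit 78) (nat_lit 228) (nat_lit 0) (XT.lf (nat_lit 0) (nat_lit 65303817157) (nat_lit 380) (nat_lit 8965804720) (nat_lit 76) (nat_lit 5213584573) (nat_lit 80) (nat_lit 5) (nat_lit 85) (nat_lit 5) (nat_lit 81) (nat_lit 5) (nat_lit 383) (nat_lit 328) (nat_lit 69)) (XT.lf (nat_lit 0) (nat_lit 29690857856) (nat_lit 228) (nat_lit 50325360815) (nat_lit 304) (nat_lit 1067157353) (nat_lit 77) (nat_lit 5) (nat_lit 80) (nat_lit 5) (nat_lit 81) (nat_lit 5) (nat_lit 384) (nat_lit 328) (nat_lit 68))) (XT.nd (nat_lit 78) (nat_lit 304) (nat_lit 0) (XT.lf (nat_lit 0) (nat_lit 12286435849) (nat_lit 304) (nat_lit 13159344302) (nat_lit 76) (nat_lit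 57279462670) (nat_lit 76) (nat_lit 5) (nat_lit 80) (nat_lit 5) (nat_lit 77) (nat_lit 5) (nat_lit 385) (nat_lit 328) (nat_lit 67)) (XT.lf (nat_lit 0) (nat_lit 26279819552) (nat_lit 380) (nat_lit 57681892298) (nat_lit 76) (nat_lit 446518340) (nat_lit 72) (nat_lit 5) (nat_lit 77) (nat_lit 5) (nat_lit 73) (nat_lit 5) (nat_lit 386) (nat_lit 328) (nat_lit 66))))) (XT.nd (nat_lit 234) (nat_lit 228) (nat_lit 0) (XT.nd (nat_lit 78) (nat_lit 228) (nat_lit 0) (XT.lf (nat_lit 0) (nat_lit 41078450504) (nat_lit 380) (nat_lit 18313665590) (nat_lit 76) (nat_lit 26738028193) (nat_lit 72) (nat_lit 5) (nat_lit 77) (nat_lit 5) (nat_lit 73) (nat_lit 5) (nat_lit 387) (nat_lit 328) (nat_lit 65)) (XT.nd (nat_lit 78) (nat_lit 0) (nat_lit 0) (XT.lf (nat_lit 0) (nat_lit 22677115231) (nat_lit 228) (nat_lit 33861239675) (nat_lit 304) (nat_lit 31358841927) (nat_lit 69) (nat_lit 5) (nat_lit 72) (nat_lit 5) (nat_lit 73) (nat_lit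 5) (nat_lit 388) (nat_lit 328) (nat_lit 64)) (XT.lf (nat_lit 0) (nat_lit 65272036636) (nat_lit 228) (nat_lit 7374290139) (nat_lit 304) (nat_lit 17065406521) (nat_lit 69) (nat_lit 5) (nat_lit 72) (nat_lit 5) (nat_lit 73) (nat_lit 5) (nat_lit 389) (nat_lit 328) (nat_lit 63)))) (XT.nd (nat_lit 35958) (nat_lit 0) (nat_lit 9804) (XT.nd (nat_lit 35880) (nat_lit 0) (nat_lit 9804) (XT.lf (nat_lit 0) (nat_lit 17717488352) (nat_lit 228) (nat_lit 71881076007) (nat_lit 304) (nat_lit 1971311133) (nat_lit 66) (nat_lit 5) (nat_lit 69) (nat_lit 5) (nat_lit 70) (nat_lit 5) (nat_lit 390) (nat_lit 328) (nat_lit 62)) (XT.lf (nat_lit 0) (nat_lit 4200310264) (nat_lit 0) (nat_lit 4200310264) (nat_lit 1140) (nat_lit 7336964158) (nat_lit 195) (nat_lit 5) (nat_lit 195) (nat_lit 3) (nat_lit 210) (nat_lit 3) (nat_lit 329) (nat_lit 329) (nat_lit 122))) (XT.nd (nat_lit 78) (nat_lit 0) (nat_lit 0) (XT.lf (nat_lit 0) (nat_lit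 17174373891) (nat_lit 1140) (nat_lit 8858916737) (nat_lit 1216) (nat_lit 5910298646) (nat_lit 195) (nat_lit 5) (nat_lit 210) (nat_lit 3) (nat_lit 211) (nat_lit 5) (nat_lit 330) (nat_lit 329) (nat_lit 121)) (XT.lf (nat_lit 76) (nat_lit 5812103564) (nat_lit 0) (nat_lit 11883187599) (nat_lit 1216) (nat_lit 14726675794) (nat_lit 196) (nat_lit 5) (nat_lit 195) (nat_lit 5) (nat_lit 211) (nat_lit 5) (nat_lit 331) (nat_lit 329) (nat_lit 120)))))) (XT.nd (nat_lit 546) (nat_lit 836) (nat_lit 0) (XT.nd (nat_lit 234) (nat_lit 0) (nat_lit 76) (XT.nd (nat_lit 78) (nat_lit 0) (nat_lit 0) (XT.lf (nat_lit 0) (nat_lit 18345666745) (nat_lit 1140) (nat_lit 11835309458) (nat_lit 1216) (nat_lit 2730307656) (nat_lit 196) (nat_lit 5) (nat_lit 211) (nat_lit 5) (nat_lit 212) (nat_lit 5) (nat_lit 332) (nat_lit 329) (nat_lit 119)) (XT.nd (nat_lit 78) (nat_lit 0) (nat_lit 0) (XT.lf (nat_lit 76) (nat_lit 3328422348) (nat_lit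 0) (nat_lit 15834466663) (nat_lit 1216) (nat_lit 14247973924) (nat_lit 197) (nat_lit 5) (nat_lit 196) (nat_lit 5) (nat_lit 212) (nat_lit 5) (nat_lit 333) (nat_lit 329) (nat_lit 118)) (XT.lf (nat_lit 76) (nat_lit 19188338683) (nat_lit 0) (nat_lit 933542487) (nat_lit 1216) (nat_lit 13800033268) (nat_lit 197) (nat_lit 5) (nat_lit 196) (nat_lit 5) (nat_lit 212) (nat_lit 5) (nat_lit 334) (nat_lit 329) (nat_lit 117)))) (XT.nd (nat_lit 156) (nat_lit 0) (nat_lit 76) (XT.nd (nat_lit 78) (nat_lit 0) (nat_lit 0) (XT.lf (nat_lit 76) (nat_lit 954441856) (nat_lit 0) (nat_lit 20300750265) (nat_lit 1216) (nat_lit 13188741466) (nat_lit 198) (nat_lit 5) (nat_lit 197) (nat_lit 5) (nat_lit 213) (nat_lit 5) (nat_lit 335) (nat_lit 329) (nat_lit 116)) (XT.lf (nat_lit 76) (nat_lit 17404332769) (nat_lit 0) (nat_lit 5173967012) (nat_lit 1216) (nat_lit 12398642107) (nat_lit 198) (nat_lit 5) (nat_lit 197) (nat_lit 5) (nat_lit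 213) (nat_lit 5) (nat_lit 336) (nat_lit 329) (nat_lit 115))) (XT.nd (nat_lit 78) (nat_lit 0) (nat_lit 0) (XT.lf (nat_lit 0) (nat_lit 24039069631) (nat_lit 1140) (nat_lit 1279651042) (nat_lit 1216) (nat_lit 10204283122) (nat_lit 198) (nat_lit 5) (nat_lit 213) (nat_lit 5) (nat_lit 214) (nat_lit 5) (nat_lit 337) (nat_lit 329) (nat_lit 114)) (XT.lf (nat_lit 76) (nat_lit 15756988428) (nat_lit 0) (nat_lit 9987361691) (nat_lit 1216) (nat_lit 10335079169) (nat_lit 199) (nat_lit 5) (nat_lit 198) (nat_lit 5) (nat_lit 214) (nat_lit 5) (nat_lit 338) (nat_lit 329) (nat_lit 113))))) (XT.nd (nat_lit 234) (nat_lit 1064) (nat_lit 0) (XT.nd (nat_lit 78) (nat_lit 0) (nat_lit 0) (XT.lf (nat_lit 0) (nat_lit 27567675721) (nat_lit 1140) (nat_lit 3378529447) (nat_lit 1216) (nat_lit 5704338063) (nat_lit 199) (nat_lit 5) (nat_lit 214) (nat_lit 5) (nat_lit 215) (nat_lit 5) (nat_lit 339) (nat_lit 329) (nat_lit 112)) (XT.nd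 (nat_lit 78) (nat_lit 0) (nat_lit 76) (XT.lf (nat_lit 76) (nat_lit 14251545275) (nat_lit 0) (nat_lit 15428137863) (nat_lit 1216) (nat_lit 7552090212) (nat_lit 200) (nat_lit 5) (nat_lit 199) (nat_lit 5) (nat_lit 215) (nat_lit 5) (nat_lit 340) (nat_lit 329) (nat_lit 111)) (XT.lf (nat_lit 0) (nat_lit 31892994374) (nat_lit 1140) (nat_lit 5356732862) (nat_lit 1216) (nat_lit 579576984) (nat_lit 200) (nat_lit 5) (nat_lit 215) (nat_lit 5) (nat_lit 216) (nat_lit 5) (nat_lit 341) (nat_lit 329) (nat_lit 110)))) (XT.nd (nat_lit 156) (nat_lit 1140) (nat_lit 0) (XT.nd (nat_lit 78) (nat_lit 0) (nat_lit 0) (XT.lf (nat_lit 76) (nat_lit 12892924605) (nat_lit 0) (nat_lit 21554672505) (nat_lit 1216) (nat_lit 3988919235) (nat_lit 201) (nat_lit 5) (nat_lit 200) (nat_lit 5) (nat_lit 216) (nat_lit 5) (nat_lit 342) (nat_lit 329) (nat_lit 109)) (XT.lf (nat_lit 76) (nat_lit 31798516899) (nat_lit 0) (nat_lit 5332656394) (nat_lit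 1216) (nat_lit 1929203509) (nat_lit 201) (nat_lit 5) (nat_lit 200) (nat_lit 5) (nat_lit 216) (nat_lit 5) (nat_lit 343) (nat_lit 329) (nat_lit 108))) (XT.nd (nat_lit 78) (nat_lit 0) (nat_lit 0) (XT.lf (nat_lit 0) (nat_lit 410707552) (nat_lit 1216) (nat_lit 28014762849) (nat_lit 1292) (nat_lit 11270764440) (nat_lit 185) (nat_lit 5) (nat_lit 201) (nat_lit 5) (nat_lit 202) (nat_lit 5) (nat_lit 344) (nat_lit 329) (nat_lit 107)) (XT.lf (nat_lit 0) (nat_lit 2907211838) (nat_lit 1216) (nat_lit 9081031159) (nat_lit 1292) (nat_lit 28358599322) (nat_lit 185) (nat_lit 5) (nat_lit 201) (nat_lit 5) (nat_lit 202) (nat_lit 5) (nat_lit 345) (nat_lit 329) (nat_lit 106))))))) (XT.nd (nat_lit 1092) (nat_lit 2964) (nat_lit 0) (XT.nd (nat_lit 546) (nat_lit 1596) (nat_lit 0) (XT.nd (nat_lit 234) (nat_lit 1140) (nat_lit 0) (XT.nd (nat_lit 78) (nat_lit 684) (nat_lit 0) (XT.lf (nat_lit 0) (nat_lit 5627647145) (nat_lit 1216)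 (nat_lit 30435757722) (nat_lit 76) (nat_lit 4949093883) (nat_lit 186) (nat_lit 5) (nat_lit 202) (nat_lit 5) (nat_lit 187) (nat_lit 5) (nat_lit 346) (nat_lit 329) (nat_lit 105)) (XT.nd (nat_lit 78) (nat_lit 684) (nat_lit 0) (XT.lf (nat_lit 0) (nat_lit 8639401483) (nat_lit 1216) (nat_lit 10805978334) (nat_lit 76) (nat_lit 22246455629) (nat_lit 186) (nat_lit 5) (nat_lit 202) (nat_lit 5) (nat_lit 187) (nat_lit 5) (nat_lit 347) (nat_lit 329) (nat_lit 104)) (XT.lf (nat_lit 0) (nat_lit 9598639540) (nat_lit 684) (nat_lit 2233585413) (nat_lit 760) (nat_lit 30556607497) (nat_lit 177) (nat_lit 5) (nat_lit 186) (nat_lit 5) (nat_lit 187) (nat_lit 5) (nat_lit 348) (nat_lit 329) (nat_lit 103)))) (XT.nd (nat_lit 156) (nat_lit 532) (nat_lit 0) (XT.nd (nat_lit 78) (nat_lit 608) (nat_lit 0) (XT.lf (nat_lit 0) (nat_lit 15378458355) (nat_lit 760) (nat_lit 12417975982) (nat_lit 76) (nat_lit 15302577922) (nat_lit 177)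 (nat_lit 5) (nat_lit 187) (nat_lit 5) (nat_lit 178) (nat_lit 5) (nat_lit 349) (nat_lit 329) (nat_lit 102)) (XT.lf (nat_lit 0) (nat_lit 8711940195) (nat_lit 608) (nat_lit 10423524400) (nat_lit 684) (nat_lit 24691902895) (nat_lit 169) (nat_lit 5) (nat_lit 177) (nat_lit 5) (nat_lit 178) (nat_lit 5) (nat_lit 350) (nat_lit 329) (nat_lit 101))) (XT.nd (nat_lit 78) (nat_lit 532) (nat_lit 0) (XT.lf (nat_lit 0) (nat_lit 23202189151) (nat_lit 684) (nat_lit 13917940999) (nat_lit 76) (nat_lit 7451534542) (nat_lit 169) (nat_lit 5) (nat_lit 178) (nat_lit 5) (nat_lit 170) (nat_lit 5) (nat_lit 351) (nat_lit 329) (nat_lit 100)) (XT.lf (nat_lit 0) (nat_lit 7966373235) (nat_lit 532) (nat_lit 19602922727) (nat_lit 608) (nat_lit 17763644944) (nat_lit 162) (nat_lit 5) (nat_lit 169) (nat_lit 5) (nat_lit 170) (nat_lit 5) (nat_lit 352) (nat_lit 329) (nat_lit 99))))) (XT.nd (nat_lit 234) (nat_lit 1064) (nat_lit 0) (XT.nd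 (nat_lit 78) (nat_lit 532) (nat_lit 0) (XT.lf (nat_lit 0) (nat_lit 30791188167) (nat_lit 532) (nat_lit 1415399355) (nat_lit 608) (nat_lit 13906294204) (nat_lit 162) (nat_lit 5) (nat_lit 169) (nat_lit 5) (nat_lit 170) (nat_lit 5) (nat_lit 353) (nat_lit 329) (nat_lit 98)) (XT.nd (nat_lit 78) (nat_lit 0) (nat_lit 0) (XT.lf (nat_lit 0) (nat_lit 7360349070) (nat_lit 532) (nat_lit 29858537713) (nat_lit 608) (nat_lit 9690258746) (nat_lit 155) (nat_lit 5) (nat_lit 162) (nat_lit 5) (nat_lit 163) (nat_lit 5) (nat_lit 354) (nat_lit 329) (nat_lit 97)) (XT.lf (nat_lit 0) (nat_lit 31021317194) (nat_lit 532) (nat_lit 11527527406) (nat_lit 608) (nat_lit 5175435341) (nat_lit 155) (nat_lit 5) (nat_lit 162) (nat_lit 5) (nat_lit 163) (nat_lit 5) (nat_lit 355) (nat_lit 329) (nat_lit 96)))) (XT.nd (nat_lit 156) (nat_lit 532) (nat_lit 0) (XT.nd (nat_lit 78) (nat_lit 76) (nat_lit 0) (XT.lf (nat_lit 0) (nat_lit 6890699413)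 (nat_lit 456) (nat_lit 41283656796) (nat_lit 532) (nat_lit 385443867) (nat_lit 149) (nat_lit 5) (nat_lit 155) (nat_lit 5) (nat_lit 156) (nat_lit 5) (nat_lit 356) (nat_lit 329) (nat_lit 95)) (XT.lf (nat_lit 0) (nat_lit 4742708421) (nat_lit 532) (nat_lit 18041621179) (nat_lit 76) (nat_lit 26626249453) (nat_lit 148) (nat_lit 5) (nat_lit 155) (nat_lit 5) (nat_lit 149) (nat_lit 5) (nat_lit 357) (nat_lit 329) (nat_lit 94))) (XT.nd (nat_lit 78) (nat_lit 0) (nat_lit 0) (XT.lf (nat_lit 0) (nat_lit 6414743358) (nat_lit 532) (nat_lit 3662656615) (nat_lit 608) (nat_lit 40207554914) (nat_lit 141) (nat_lit 5) (nat_lit 148) (nat_lit 5) (nat_lit 149) (nat_lit 5) (nat_lit 358) (nat_lit 329) (nat_lit 93)) (XT.lf (nat_lit 0) (nat_lit 15909038541) (nat_lit 608) (nat_lit 19362703033) (nat_lit 76) (nat_lit 15903714428) (nat_lit 141) (nat_lit 5) (nat_lit 149) (nat_lit 5) (nat_lit 142) (nat_lit 5) (nat_lit 359) (nat_lit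 329) (nat_lit 92)))))) (XT.nd (nat_lit 546) (nat_lit 1140) (nat_lit 0) (XT.nd (nat_lit 234) (nat_lit 912) (nat_lit 0) (XT.nd (nat_lit 78) (nat_lit 456) (nat_lit 0) (XT.lf (nat_lit 0) (nat_lit 5958760807) (nat_lit 456) (nat_lit 16049245200) (nat_lit 532) (nat_lit 30081895908) (nat_lit 135) (nat_lit 5) (nat_lit 141) (nat_lit 5) (nat_lit 142) (nat_lit 5) (nat_lit 360) (nat_lit 329) (nat_lit 91)) (XT.nd (nat_lit 78) (nat_lit 456) (nat_lit 0) (XT.lf (nat_lit 0) (nat_lit 28522307314) (nat_lit 532) (nat_lit 20628417366) (nat_lit 76) (nat_lit 3874086708) (nat_lit 135) (nat_lit 5) (nat_lit 142) (nat_lit 5) (nat_lit 136) (nat_lit 5) (nat_lit 361) (nat_lit 329) (nat_lit 90)) (XT.lf (nat_lit 0) (nat_lit 5588265417) (nat_lit 456) (nat_lit 29855283778) (nat_lit 532) (nat_lit 18537874695) (nat_lit 129) (nat_lit 5) (nat_lit 135) (nat_lit 5) (nat_lit 136) (nat_lit 5) (nat_lit 362) (nat_lit 329) (nat_lit 89))))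 (XT.nd (nat_lit 156) (nat_lit 532) (nat_lit 0) (XT.nd (nat_lit 78) (nat_lit 380) (nat_lit 0) (XT.lf (nat_lit 0) (nat_lit 33013056992) (nat_lit 456) (nat_lit 9766588469) (nat_lit 532) (nat_lit 12180873853) (nat_lit 129) (nat_lit 5) (nat_lit 135) (nat_lit 5) (nat_lit 136) (nat_lit 5) (nat_lit 363) (nat_lit 329) (nat_lit 88)) (XT.lf (nat_lit 0) (nat_lit 5288538881) (nat_lit 380) (nat_lit 45202078711) (nat_lit 456) (nat_lit 5473727248) (nat_lit 124) (nat_lit 5) (nat_lit 129) (nat_lit 5) (nat_lit 130) (nat_lit 5) (nat_lit 364) (nat_lit 329) (nat_lit 87))) (XT.nd (nat_lit 78) (nat_lit 456) (nat_lit 0) (XT.lf (nat_lit 0) (nat_lit 1726106875) (nat_lit 456) (nat_lit 23314056933) (nat_lit 76) (nat_lit 31948124536) (nat_lit 123) (nat_lit 5) (nat_lit 129) (nat_lit 5) (nat_lit 124) (nat_lit 5) (nat_lit 365) (nat_lit 329) (nat_lit 86)) (XT.lf (nat_lit 0) (nat_lit 4908918191) (nat_lit 456) (nat_lit 4169167928)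 (nat_lit 532) (nat_lit 48961854121) (nat_lit 117) (nat_lit 5) (nat_lit 123) (nat_lit 5) (nat_lit 124) (nat_lit 5) (nat_lit 366) (nat_lit 329) (nat_lit 85))))) (XT.nd (nat_lit 234) (nat_lit 760) (nat_lit 0) (XT.nd (nat_lit 78) (nat_lit 380) (nat_lit 0) (XT.lf (nat_lit 0) (nat_lit 17053944074) (nat_lit 532) (nat_lit 24829717668) (nat_lit 76) (nat_lit 17227381283) (nat_lit 117) (nat_lit 5) (nat_lit 124) (nat_lit 5) (nat_lit 118) (nat_lit 5) (nat_lit 367) (nat_lit 329) (nat_lit 84)) (XT.nd (nat_lit 78) (nat_lit 0) (nat_lit 0) (XT.lf (nat_lit 0) (nat_lit 4363287733) (nat_lit 380) (nat_lit 20988035969) (nat_lit 456) (nat_lit 34860488703) (nat_lit 112) (nat_lit 5) (nat_lit 117) (nat_lit 5) (nat_lit 118) (nat_lit 5) (nat_lit 368) (nat_lit 329) (nat_lit 83)) (XT.lf (nat_lit 0) (nat_lit 34155015402) (nat_lit 456) (nat_lit 26405853063) (nat_lit 76) (nat_lit 777015541) (nat_lit 112) (nat_lit 5) (nat_lit 118)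 (nat_lit 5) (nat_lit 113) (nat_lit 5) (nat_lit 369) (nat_lit 329) (nat_lit 82)))) (XT.nd (nat_lit 156) (nat_lit 380) (nat_lit 0) (XT.nd (nat_lit 78) (nat_lit 0) (nat_lit 0) (XT.lf (nat_lit 0) (nat_lit 3784972002) (nat_lit 380) (nat_lit 39681098826) (nat_lit 456) (nat_lit 19024370177) (nat_lit 107) (nat_lit 5) (nat_lit 112) (nat_lit 5) (nat_lit 113) (nat_lit 5) (nat_lit 370) (nat_lit 329) (nat_lit 81)) (XT.lf (nat_lit 0) (nat_lit 35421644725) (nat_lit 380) (nat_lit 17900543615) (nat_lit 456) (nat_lit 10347415272) (nat_lit 107) (nat_lit 5) (nat_lit 112) (nat_lit 5) (nat_lit 113) (nat_lit 5) (nat_lit 371) (nat_lit 329) (nat_lit 80))) (XT.nd (nat_lit 78) (nat_lit 76) (nat_lit 0) (XT.lf (nat_lit 0) (nat_lit 3139805146) (nat_lit 304) (nat_lit 60407051462) (nat_lit 380) (nat_lit 1335099262) (nat_lit 103) (nat_lit 5) (nat_lit 107) (nat_lit 5) (nat_lit 108) (nat_lit 5) (nat_lit 372) (nat_lit 329) (nat_lit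 79)) (XT.lf (nat_lit 0) (nat_lit 8256919456) (nat_lit 380) (nat_lit 30331487283) (nat_lit 76) (nat_lit 27526048211) (nat_lit 102) (nat_lit 5) (nat_lit 107) (nat_lit 5) (nat_lit 103) (nat_lit 5) (nat_lit 373) (nat_lit 329) (nat_lit 78))))))))
noncomputable def xc239 : XT := (XT.nd (nat_lit 38142) (nat_lit 0) (nat_lit 3268) (XT.nd (nat_lit 1092) (nat_lit 228) (nat_lit 0) (XT.nd (nat_lit 546) (nat_lit 1216) (nat_lit 0) (XT.nd (nat_lit 234) (nat_lit 380) (nat_lit 0) (XT.nd (nat_lit 78) (nat_lit 304) (nat_lit 0) (XT.lf (nat_lit 0) (nat_lit 2047088165) (nat_lit 380) (nat_lit 16081593009) (nat_lit 456) (nat_lit 49254287486) (nat_lit 97) (nat_lit 5) (nat_lit 102) (nat_lit 5) (nat_lit 103) (nat_lit 5) (nat_lit 374) (nat_lit 329) (nat_lit 77)) (XT.nd (nat_lit 78) (nat_lit 304) (nat_lit 0) (XT.lf (nat_lit 0) (nat_lit 28673320850) (nat_lit 456) (nat_lit 32733996160) (nat_lit 76) (nat_lit 7270919722) (nat_lit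 97) (nat_lit 5) (nat_lit 103) (nat_lit 5) (nat_lit 98) (nat_lit 5) (nat_lit 375) (nat_lit 329) (nat_lit 76)) (XT.lf (nat_lit 0) (nat_lit 699251885) (nat_lit 304) (nat_lit 39000168273) (nat_lit 380) (nat_lit 30307989753) (nat_lit 93) (nat_lit 5) (nat_lit 97) (nat_lit 5) (nat_lit 98) (nat_lit 5) (nat_lit 376) (nat_lit 329) (nat_lit 75)))) (XT.nd (nat_lit 156) (nat_lit 380) (nat_lit 0) (XT.nd (nat_lit 78) (nat_lit 0) (nat_lit 0) (XT.lf (nat_lit 0) (nat_lit 35805409073) (nat_lit 304) (nat_lit 15580631085) (nat_lit 380) (nat_lit 19980526658) (nat_lit 93) (nat_lit 5) (nat_lit 97) (nat_lit 5) (nat_lit 98) (nat_lit 5) (nat_lit 377) (nat_lit 329) (nat_lit 74)) (XT.lf (nat_lit 0) (nat_lit 63504574253) (nat_lit 380) (nat_lit 884946053) (nat_lit 76) (nat_lit 8374539298) (nat_lit 93) (nat_lit 5) (nat_lit 98) (nat_lit 5) (nat_lit 94) (nat_lit 5) (nat_lit 378) (nat_lit 329) (nat_lit 73))) (XT.nd (nat_lit 78)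 (nat_lit 0) (nat_lit 0) (XT.lf (nat_lit 0) (nat_lit 2246735076) (nat_lit 380) (nat_lit 38844348335) (nat_lit 76) (nat_lit 33096929808) (nat_lit 88) (nat_lit 5) (nat_lit 93) (nat_lit 5) (nat_lit 89) (nat_lit 5) (nat_lit 379) (nat_lit 329) (nat_lit 72)) (XT.lf (nat_lit 0) (nat_lit 13920296988) (nat_lit 380) (nat_lit 3069975340) (nat_lit 76) (nat_lit 58661415518) (nat_lit 88) (nat_lit 5) (nat_lit 93) (nat_lit 5) (nat_lit 89) (nat_lit 5) (nat_lit 380) (nat_lit 329) (nat_lit 71))))) (XT.nd (nat_lit 234) (nat_lit 608) (nat_lit 0) (XT.nd (nat_lit 78) (nat_lit 304) (nat_lit 0) (XT.lf (nat_lit 0) (nat_lit 26353044548) (nat_lit 380) (nat_lit 42779123813) (nat_lit 76) (nat_lit 8014835558) (nat_lit 84) (nat_lit 5) (nat_lit 89) (nat_lit 5) (nat_lit 85) (nat_lit 5) (nat_lit 381) (nat_lit 329) (nat_lit 70)) (XT.nd (nat_lit 78) (nat_lit 304) (nat_lit 0) (XT.lf (nat_lit 0) (nat_lit 39357570509) (nat_lit 380) (nat_lit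 5864018711) (nat_lit 76) (nat_lit 33459626928) (nat_lit 84) (nat_lit 5) (nat_lit 89) (nat_lit 5) (nat_lit 85) (nat_lit 5) (nat_lit 382) (nat_lit 329) (nat_lit 69)) (XT.lf (nat_lit 0) (nat_lit 32797523271) (nat_lit 304) (nat_lit 20269267949) (nat_lit 380) (nat_lit 27185227292) (nat_lit 80) (nat_lit 5) (nat_lit 84) (nat_lit 5) (nat_lit 85) (nat_lit 5) (nat_lit 383) (nat_lit 329) (nat_lit 68)))) (XT.nd (nat_lit 156) (nat_lit 380) (nat_lit 0) (XT.nd (nat_lit 78) (nat_lit 228) (nat_lit 0) (XT.lf (nat_lit 0) (nat_lit 67298599256) (nat_lit 380) (nat_lit 9182871449) (nat_lit 76) (nat_lit 5385135442) (nat_lit 80) (nat_lit 5) (nat_lit 85) (nat_lit 5) (nat_lit 81) (nat_lit 5) (nat_lit 384) (nat_lit 329) (nat_lit 67)) (XT.lf (nat_lit 0) (nat_lit 30632982108) (nat_lit 228) (nat_lit 51818845919) (nat_lit 304) (nat_lit 1062969895) (nat_lit 77) (nat_lit 5) (nat_lit 80) (nat_lit 5) (nat_lit 81) (nat_lit 5) (nat_lit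 385) (nat_lit 329) (nat_lit 66))) (XT.nd (nat_lit 78) (nat_lit 304) (nat_lit 0) (XT.lf (nat_lit 0) (nat_lit 12689490812) (nat_lit 304) (nat_lit 13503513076) (nat_lit 76) (nat_lit 59012938138) (nat_lit 76) (nat_lit 5) (nat_lit 80) (nat_lit 5) (nat_lit 77) (nat_lit 5) (nat_lit 386) (nat_lit 329) (nat_lit 65)) (XT.lf (nat_lit 0) (nat_lit 27102309510) (nat_lit 380) (nat_lit 59361347478) (nat_lit 76) (nat_lit 475773729) (nat_lit 72) (nat_lit 5) (nat_lit 77) (nat_lit 5) (nat_lit 73) (nat_lit 5) (nat_lit 387) (nat_lit 329) (nat_lit 64)))))) (XT.nd (nat_lit 36504) (nat_lit 0) (nat_lit 9652) (XT.nd (nat_lit 36192) (nat_lit 0) (nat_lit 9576) (XT.nd (nat_lit 78) (nat_lit 228) (nat_lit 0) (XT.lf (nat_lit 0) (nat_lit 42343906321) (nat_lit 380) (nat_lit 18813559452) (nat_lit 76) (nat_lit 27555566940) (nat_lit 72) (nat_lit 5) (nat_lit 77) (nat_lit 5) (nat_lit 73) (nat_lit 5) (nat_lit 388) (nat_lit 329) (nat_lit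 63)) (XT.nd (nat_lit 36036) (nat_lit 0) (nat_lit 9576) (XT.lf (nat_lit 0) (nat_lit 23406459342) (nat_lit 228) (nat_lit 34860655682) (nat_lit 304) (nat_lit 32265997263) (nat_lit 69) (nat_lit 5) (nat_lit 72) (nat_lit 5) (nat_lit 73) (nat_lit 5) (nat_lit 389) (nat_lit 329) (nat_lit 62)) (XT.lf (nat_lit 0) (nat_lit 4357601014) (nat_lit 0) (nat_lit 4357601014) (nat_lit 1140) (nat_lit 7492559813) (nat_lit 195) (nat_lit 5) (nat_lit 195) (nat_lit 3) (nat_lit 210) (nat_lit 3) (nat_lit 330) (nat_lit 330) (nat_lit 120)))) (XT.nd (nat_lit 156) (nat_lit 0) (nat_lit 76) (XT.nd (nat_lit 78) (nat_lit 0) (nat_lit 0) (XT.lf (nat_lit 0) (nat_lit 17810502562) (nat_lit 1140) (nat_lit 9059572544) (nat_lit 1216) (nat_lit 6028052210) (nat_lit 195) (nat_lit 5) (nat_lit 210) (nat_lit 3) (nat_lit 211) (nat_lit 5) (nat_lit 331) (nat_lit 330) (nat_lit 119)) (XT.lf (nat_lit 76) (nat_lit 6050940016) (nat_lit 0) (nat_lit 12293205808)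 (nat_lit 1216) (nat_lit 15046801708) (nat_lit 196) (nat_lit 5) (nat_lit 195) (nat_lit 5) (nat_lit 211) (nat_lit 5) (nat_lit 332) (nat_lit 330) (nat_lit 118))) (XT.nd (nat_lit 78) (nat_lit 0) (nat_lit 0) (XT.lf (nat_lit 0) (nat_lit 19010096392) (nat_lit 1140) (nat_lit 12123702460) (nat_lit 1216) (nat_lit 2761267213) (nat_lit 196) (nat_lit 5) (nat_lit 211) (nat_lit 5) (nat_lit 212) (nat_lit 5) (nat_lit 333) (nat_lit 330) (nat_lit 117)) (XT.lf (nat_lit 76) (nat_lit 3494287710) (nat_lit 0) (nat_lit 16354860045) (nat_lit 1216) (nat_lit 14560569303) (nat_lit 197) (nat_lit 5) (nat_lit 196) (nat_lit 5) (nat_lit 212) (nat_lit 5) (nat_lit 334) (nat_lit 330) (nat_lit 116))))) (XT.nd (nat_lit 234) (nat_lit 0) (nat_lit 152) (XT.nd (nat_lit 78) (nat_lit 0) (nat_lit 76) (XT.lf (nat_lit 76) (nat_lit 19828078836) (nat_lit 0) (nat_lit 1005586996) (nat_lit 1216) (nat_lit 14102535393) (nat_lit 197) (nat_lit 5) (nat_lit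 196) (nat_lit 5) (nat_lit 212) (nat_lit 5) (nat_lit 335) (nat_lit 330) (nat_lit 115)) (XT.nd (nat_lit 78) (nat_lit 0) (nat_lit 0) (XT.lf (nat_lit 76) (nat_lit 1050293543) (nat_lit 0) (nat_lit 20947768355) (nat_lit 1216) (nat_lit 13475910171) (nat_lit 198) (nat_lit 5) (nat_lit 197) (nat_lit 5) (nat_lit 213) (nat_lit 5) (nat_lit 336) (nat_lit 330) (nat_lit 114)) (XT.lf (nat_lit 76) (nat_lit 17991723365) (nat_lit 0) (nat_lit 5366074937) (nat_lit 1216) (nat_lit 12665267837) (nat_lit 198) (nat_lit 5) (nat_lit 197) (nat_lit 5) (nat_lit 213) (nat_lit 5) (nat_lit 337) (nat_lit 330) (nat_lit 113)))) (XT.nd (nat_lit 156) (nat_lit 0) (nat_lit 76) (XT.nd (nat_lit 78) (nat_lit 0) (nat_lit 0) (XT.lf (nat_lit 0) (nat_lit 24859071748) (nat_lit 1140) (nat_lit 1251245217) (nat_lit 1216) (nat_lit 10475296005) (nat_lit 198) (nat_lit 5) (nat_lit 213) (nat_lit 5) (nat_lit 214) (nat_lit 5) (nat_lit 338) (nat_lit 330)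 (nat_lit 112)) (XT.lf (nat_lit 76) (nat_lit 16295838581) (nat_lit 0) (nat_lit 10317429307) (nat_lit 1216) (nat_lit 10545534001) (nat_lit 199) (nat_lit 5) (nat_lit 198) (nat_lit 5) (nat_lit 214) (nat_lit 5) (nat_lit 339) (nat_lit 330) (nat_lit 111))) (XT.nd (nat_lit 78) (nat_lit 0) (nat_lit 0) (XT.lf (nat_lit 0) (nat_lit 28488195889) (nat_lit 1140) (nat_lit 3412464505) (nat_lit 1216) (nat_lit 5846485060) (nat_lit 199) (nat_lit 5) (nat_lit 214) (nat_lit 5) (nat_lit 215) (nat_lit 5) (nat_lit 340) (nat_lit 330) (nat_lit 110)) (XT.lf (nat_lit 76) (nat_lit 14745851470) (nat_lit 0) (nat_lit 15915630788) (nat_lit 1216) (nat_lit 7684395842) (nat_lit 200) (nat_lit 5) (nat_lit 199) (nat_lit 5) (nat_lit 215) (nat_lit 5) (nat_lit 341) (nat_lit 330) (nat_lit 109))))))) (XT.nd (nat_lit 1092) (nat_lit 3268) (nat_lit 0) (XT.nd (nat_lit 546) (nat_lit 2280) (nat_lit 0) (XT.nd (nat_lit 234) (nat_lit 1140) (nat_lit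 0) (XT.nd (nat_lit 78) (nat_lit 0) (nat_lit 0) (XT.lf (nat_lit 0) (nat_lit 32938300407) (nat_lit 1140) (nat_lit 5449623948) (nat_lit 1216) (nat_lit 573500408) (nat_lit 200) (nat_lit 5) (nat_lit 215) (nat_lit 5) (nat_lit 216) (nat_lit 5) (nat_lit 342) (nat_lit 330) (nat_lit 108)) (XT.nd (nat_lit 78) (nat_lit 0) (nat_lit 0) (XT.lf (nat_lit 76) (nat_lit 13346858430) (nat_lit 0) (nat_lit 22220750102) (nat_lit 1216) (nat_lit 4019305702) (nat_lit 201) (nat_lit 5) (nat_lit 200) (nat_lit 5) (nat_lit 216) (nat_lit 5) (nat_lit 343) (nat_lit 330) (nat_lit 107)) (XT.lf (nat_lit 76) (nat_lit 32817662782) (nat_lit 0) (nat_lit 5511507368) (nat_lit 1216) (nat_lit 1900398926) (nat_lit 201) (nat_lit 5) (nat_lit 200) (nat_lit 5) (nat_lit 216) (nat_lit 5) (nat_lit 344) (nat_lit 330) (nat_lit 106)))) (XT.nd (nat_lit 156) (nat_lit 0) (nat_lit 76) (XT.nd (nat_lit 78) (nat_lit 0) (nat_lit 0) (XT.lf (nat_lit 0) (nat_lit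 506018307) (nat_lit 1216) (nat_lit 28786138245) (nat_lit 1292) (nat_lit 11592384045) (nat_lit 185) (nat_lit 5) (nat_lit 201) (nat_lit 5) (nat_lit 202) (nat_lit 5) (nat_lit 345) (nat_lit 330) (nat_lit 105)) (XT.lf (nat_lit 0) (nat_lit 3075000551) (nat_lit 1216) (nat_lit 9286406279) (nat_lit 1292) (nat_lit 29193334653) (nat_lit 185) (nat_lit 5) (nat_lit 201) (nat_lit 5) (nat_lit 202) (nat_lit 5) (nat_lit 346) (nat_lit 330) (nat_lit 104))) (XT.nd (nat_lit 78) (nat_lit 0) (nat_lit 0) (XT.lf (nat_lit 0) (nat_lit 5875220586) (nat_lit 1216) (nat_lit 31279859965) (nat_lit 76) (nat_lit 5085344497) (nat_lit 186) (nat_lit 5) (nat_lit 202) (nat_lit 5) (nat_lit 187) (nat_lit 5) (nat_lit 347) (nat_lit 330) (nat_lit 103)) (XT.lf (nat_lit 0) (nat_lit 8975034039) (nat_lit 1216) (nat_lit 11063196044) (nat_lit 76) (nat_lit 22901983082) (nat_lit 186) (nat_lit 5) (nat_lit 202) (nat_lit 5) (nat_lit 187) (nat_lit 5)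 (nat_lit 348) (nat_lit 330) (nat_lit 102))))) (XT.nd (nat_lit 234) (nat_lit 1064) (nat_lit 0) (XT.nd (nat_lit 78) (nat_lit 608) (nat_lit 0) (XT.lf (nat_lit 0) (nat_lit 9952903879) (nat_lit 684) (nat_lit 2309148985) (nat_lit 760) (nat_lit 31396117337) (nat_lit 177) (nat_lit 5) (nat_lit 186) (nat_lit 5) (nat_lit 187) (nat_lit 5) (nat_lit 349) (nat_lit 330) (nat_lit 101)) (XT.nd (nat_lit 78) (nat_lit 608) (nat_lit 0) (XT.lf (nat_lit 0) (nat_lit 15912412997) (nat_lit 760) (nat_lit 12723802037) (nat_lit 76) (nat_lit 15753510550) (nat_lit 177) (nat_lit 5) (nat_lit 187) (nat_lit 5) (nat_lit 178) (nat_lit 5) (nat_lit 350) (nat_lit 330) (nat_lit 100)) (XT.lf (nat_lit 0) (nat_lit 9039357575) (nat_lit 608) (nat_lit 10741292262) (nat_lit 684) (nat_lit 25359328324) (nat_lit 169) (nat_lit 5) (nat_lit 177) (nat_lit 5) (nat_lit 178) (nat_lit 5) (nat_lit 351) (nat_lit 330) (nat_lit 99)))) (XT.nd (nat_lit 156) (nat_lit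 532) (nat_lit 0) (XT.nd (nat_lit 78) (nat_lit 532) (nat_lit 0) (XT.lf (nat_lit 0) (nat_lit 23967257391) (nat_lit 684) (nat_lit 14269150891) (nat_lit 76) (nat_lit 7670261793) (nat_lit 169) (nat_lit 5) (nat_lit 178) (nat_lit 5) (nat_lit 170) (nat_lit 5) (nat_lit 352) (nat_lit 330) (nat_lit 98)) (XT.lf (nat_lit 0) (nat_lit 8271042493) (nat_lit 532) (nat_lit 20192956468) (nat_lit 608) (nat_lit 18226829137) (nat_lit 162) (nat_lit 5) (nat_lit 169) (nat_lit 5) (nat_lit 170) (nat_lit 5) (nat_lit 353) (nat_lit 330) (nat_lit 97))) (XT.nd (nat_lit 78) (nat_lit 532) (nat_lit 0) (XT.lf (nat_lit 0) (nat_lit 31778688919) (nat_lit 532) (nat_lit 1459750715) (nat_lit 608) (nat_lit 14255788705) (nat_lit 162) (nat_lit 5) (nat_lit 169) (nat_lit 5) (nat_lit 170) (nat_lit 5) (nat_lit 354) (nat_lit 330) (nat_lit 96)) (XT.lf (nat_lit 0) (nat_lit 7646337326) (nat_lit 532) (nat_lit 30753467175) (nat_lit 608) (nat_lit 9914616700)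 (nat_lit 155) (nat_lit 5) (nat_lit 162) (nat_lit 5) (nat_lit 163) (nat_lit 5) (nat_lit 355) (nat_lit 330) (nat_lit 95)))))) (XT.nd (nat_lit 546) (nat_lit 1748) (nat_lit 0) (XT.nd (nat_lit 234) (nat_lit 988) (nat_lit 0) (XT.nd (nat_lit 78) (nat_lit 532) (nat_lit 0) (XT.lf (nat_lit 0) (nat_lit 32015236112) (nat_lit 532) (nat_lit 11872550636) (nat_lit 608) (nat_lit 5266281111) (nat_lit 155) (nat_lit 5) (nat_lit 162) (nat_lit 5) (nat_lit 163) (nat_lit 5) (nat_lit 356) (nat_lit 330) (nat_lit 94)) (XT.nd (nat_lit 78) (nat_lit 76) (nat_lit 0) (XT.lf (nat_lit 0) (nat_lit 7161993227) (nat_lit 456) (nat_lit 42518878970) (nat_lit 532) (nat_lit 333819074) (nat_lit 149) (nat_lit 5) (nat_lit 155) (nat_lit 5) (nat_lit 156) (nat_lit 5) (nat_lit 357) (nat_lit 330) (nat_lit 93)) (XT.lf (nat_lit 0) (nat_lit 4945140237) (nat_lit 532) (nat_lit 18518920071) (nat_lit 76) (nat_lit 27426971039) (nat_lit 148) (nat_lit 5)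 (nat_lit 155) (nat_lit 5) (nat_lit 149) (nat_lit 5) (nat_lit 358) (nat_lit 330) (nat_lit 92)))) (XT.nd (nat_lit 156) (nat_lit 456) (nat_lit 0) (XT.nd (nat_lit 78) (nat_lit 0) (nat_lit 0) (XT.lf (nat_lit 0) (nat_lit 6670508445) (nat_lit 532) (nat_lit 3768220831) (nat_lit 608) (nat_lit 41352945243) (nat_lit 141) (nat_lit 5) (nat_lit 148) (nat_lit 5) (nat_lit 149) (nat_lit 5) (nat_lit 359) (nat_lit 330) (nat_lit 91)) (XT.lf (nat_lit 0) (nat_lit 16443638616) (nat_lit 608) (nat_lit 19880370223) (nat_lit 76) (nat_lit 16384933892) (nat_lit 141) (nat_lit 5) (nat_lit 149) (nat_lit 5) (nat_lit 142) (nat_lit 5) (nat_lit 360) (nat_lit 330) (nat_lit 90))) (XT.nd (nat_lit 78) (nat_lit 0) (nat_lit 0) (XT.lf (nat_lit 0) (nat_lit 6200117788) (nat_lit 456) (nat_lit 16524389237) (nat_lit 532) (nat_lit 30926348702) (nat_lit 135) (nat_lit 5) (nat_lit 141) (nat_lit 5) (nat_lit 142) (nat_lit 5) (nat_lit 361) (nat_lit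 330) (nat_lit 89)) (XT.lf (nat_lit 0) (nat_lit 29432657812) (nat_lit 532) (nat_lit 21184865496) (nat_lit 76) (nat_lit 3996338177) (nat_lit 135) (nat_lit 5) (nat_lit 142) (nat_lit 5) (nat_lit 136) (nat_lit 5) (nat_lit 362) (nat_lit 330) (nat_lit 88))))) (XT.nd (nat_lit 234) (nat_lit 912) (nat_lit 0) (XT.nd (nat_lit 78) (nat_lit 380) (nat_lit 0) (XT.lf (nat_lit 0) (nat_lit 5817705962) (nat_lit 456) (nat_lit 30742832317) (nat_lit 532) (nat_lit 19038665610) (nat_lit 129) (nat_lit 5) (nat_lit 135) (nat_lit 5) (nat_lit 136) (nat_lit 5) (nat_lit 363) (nat_lit 330) (nat_lit 87)) (XT.nd (nat_lit 78) (nat_lit 380) (nat_lit 0) (XT.lf (nat_lit 0) (nat_lit 34063441501) (nat_lit 456) (nat_lit 10051712361) (nat_lit 532) (nat_lit 12492566742) (nat_lit 129) (nat_lit 5) (nat_lit 135) (nat_lit 5) (nat_lit 136) (nat_lit 5) (nat_lit 364) (nat_lit 330) (nat_lit 86)) (XT.lf (nat_lit 0) (nat_lit 5508123199) (nat_lit 380)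 (nat_lit 46548473089) (nat_lit 456) (nat_lit 5585091851) (nat_lit 124) (nat_lit 5) (nat_lit 129) (nat_lit 5) (nat_lit 130) (nat_lit 5) (nat_lit 365) (nat_lit 330) (nat_lit 85)))) (XT.nd (nat_lit 156) (nat_lit 380) (nat_lit 0) (XT.nd (nat_lit 78) (nat_lit 456) (nat_lit 0) (XT.lf (nat_lit 0) (nat_lit 1828196853) (nat_lit 456) (nat_lit 23953277478) (nat_lit 76) (nat_lit 32914907046) (nat_lit 123) (nat_lit 5) (nat_lit 129) (nat_lit 5) (nat_lit 124) (nat_lit 5) (nat_lit 366) (nat_lit 330) (nat_lit 84)) (XT.lf (nat_lit 0) (nat_lit 5115796692) (nat_lit 456) (nat_lit 4284046554) (nat_lit 532) (nat_lit 50379767703) (nat_lit 117) (nat_lit 5) (nat_lit 123) (nat_lit 5) (nat_lit 124) (nat_lit 5) (nat_lit 367) (nat_lit 330) (nat_lit 83))) (XT.nd (nat_lit 78) (nat_lit 380) (nat_lit 0) (XT.lf (nat_lit 0) (nat_lit 17613632840) (nat_lit 532) (nat_lit 25515346635) (nat_lit 76) (nat_lit 17753908978) (nat_lit 117)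 (nat_lit 5) (nat_lit 124) (nat_lit 5) (nat_lit 118) (nat_lit 5) (nat_lit 368) (nat_lit 330) (nat_lit 82)) (XT.lf (nat_lit 0) (nat_lit 4552867922) (nat_lit 380) (nat_lit 21606229907) (nat_lit 456) (nat_lit 35857609439) (nat_lit 112) (nat_lit 5) (nat_lit 117) (nat_lit 5) (nat_lit 118) (nat_lit 5) (nat_lit 369) (nat_lit 330) (nat_lit 81))))))))
noncomputable def xc240 : XT := (XT.nd (nat_lit 38220) (nat_lit 0) (nat_lit 3952) (XT.nd (nat_lit 1014) (nat_lit 912) (nat_lit 0) (XT.nd (nat_lit 468) (nat_lit 988) (nat_lit 0) (XT.nd (nat_lit 234) (nat_lit 760) (nat_lit 0) (XT.nd (nat_lit 78) (nat_lit 380) (nat_lit 0) (XT.lf (nat_lit 0) (nat_lit 35225631354) (nat_lit 456) (nat_lit 27139746103) (nat_lit 76) (nat_lit 811222867) (nat_lit 112) (nat_lit 5) (nat_lit 118) (nat_lit 5) (nat_lit 113) (nat_lit 5) (nat_lit 370) (nat_lit 330) (nat_lit 80)) (XT.nd (nat_lit 78) (nat_lit 0) (nat_lit 0) (XT.lf (nat_lit 0)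 (nat_lit 3956232317) (nat_lit 380) (nat_lit 40859002080) (nat_lit 456) (nat_lit 19548524358) (nat_lit 107) (nat_lit 5) (nat_lit 112) (nat_lit 5) (nat_lit 113) (nat_lit 5) (nat_lit 371) (nat_lit 330) (nat_lit 79)) (XT.lf (nat_lit 0) (nat_lit 36540324314) (nat_lit 380) (nat_lit 18425395156) (nat_lit 456) (nat_lit 10612617416) (nat_lit 107) (nat_lit 5) (nat_lit 112) (nat_lit 5) (nat_lit 113) (nat_lit 5) (nat_lit 372) (nat_lit 330) (nat_lit 78)))) (XT.nd (nat_lit 78) (nat_lit 456) (nat_lit 0) (XT.lf (nat_lit 0) (nat_lit 3290705996) (nat_lit 304) (nat_lit 62205802784) (nat_lit 380) (nat_lit 1330570634) (nat_lit 103) (nat_lit 5) (nat_lit 107) (nat_lit 5) (nat_lit 108) (nat_lit 5) (nat_lit 373) (nat_lit 330) (nat_lit 77)) (XT.nd (nat_lit 78) (nat_lit 380) (nat_lit 0) (XT.lf (nat_lit 0) (nat_lit 8547065542) (nat_lit 380) (nat_lit 31185496676) (nat_lit 76) (nat_lit 28364017653) (nat_lit 102) (nat_lit 5)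 (nat_lit 107) (nat_lit 5) (nat_lit 103) (nat_lit 5) (nat_lit 374) (nat_lit 330) (nat_lit 76)) (XT.lf (nat_lit 0) (nat_lit 2163887651) (nat_lit 380) (nat_lit 16550388801) (nat_lit 456) (nat_lit 50688894687) (nat_lit 97) (nat_lit 5) (nat_lit 102) (nat_lit 5) (nat_lit 103) (nat_lit 5) (nat_lit 375) (nat_lit 330) (nat_lit 75))))) (XT.nd (nat_lit 234) (nat_lit 684) (nat_lit 0) (XT.nd (nat_lit 78) (nat_lit 304) (nat_lit 0) (XT.lf (nat_lit 0) (nat_lit 29574167149) (nat_lit 456) (nat_lit 33661120713) (nat_lit 76) (nat_lit 7502043041) (nat_lit 97) (nat_lit 5) (nat_lit 103) (nat_lit 5) (nat_lit 98) (nat_lit 5) (nat_lit 376) (nat_lit 330) (nat_lit 74)) (XT.nd (nat_lit 78) (nat_lit 0) (nat_lit 0) (XT.lf (nat_lit 0) (nat_lit 774586584) (nat_lit 304) (nat_lit 40155801483) (nat_lit 380) (nat_lit 31176012029) (nat_lit 93) (nat_lit 5) (nat_lit 97) (nat_lit 5) (nat_lit 98) (nat_lit 5) (nat_lit 377) (nat_lit 330)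 (nat_lit 73)) (XT.lf (nat_lit 0) (nat_lit 36932345269) (nat_lit 304) (nat_lit 16034096776) (nat_lit 380) (nat_lit 20539925549) (nat_lit 93) (nat_lit 5) (nat_lit 97) (nat_lit 5) (nat_lit 98) (nat_lit 5) (nat_lit 378) (nat_lit 330) (nat_lit 72)))) (XT.nd (nat_lit 156) (nat_lit 304) (nat_lit 0) (XT.nd (nat_lit 78) (nat_lit 380) (nat_lit 0) (XT.lf (nat_lit 0) (nat_lit 65447531685) (nat_lit 380) (nat_lit 859226451) (nat_lit 76) (nat_lit 8639057965) (nat_lit 93) (nat_lit 5) (nat_lit 98) (nat_lit 5) (nat_lit 94) (nat_lit 5) (nat_lit 379) (nat_lit 330) (nat_lit 71)) (XT.lf (nat_lit 0) (nat_lit 2351750966) (nat_lit 380) (nat_lit 39957145720) (nat_lit 76) (nat_lit 34103599591) (nat_lit 88) (nat_lit 5) (nat_lit 93) (nat_lit 5) (nat_lit 89) (nat_lit 5) (nat_lit 380) (nat_lit 330) (nat_lit 70))) (XT.nd (nat_lit 78) (nat_lit 304) (nat_lit 0) (XT.lf (nat_lit 0) (nat_lit 14374424187) (nat_lit 380) (nat_lit 3111071624)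 (nat_lit 76) (nat_lit 60434619041) (nat_lit 88) (nat_lit 5) (nat_lit 93) (nat_lit 5) (nat_lit 89) (nat_lit 5) (nat_lit 381) (nat_lit 330) (nat_lit 69)) (XT.lf (nat_lit 0) (nat_lit 27179715986) (nat_lit 380) (nat_lit 44011029101) (nat_lit 76) (nat_lit 8269559284) (nat_lit 84) (nat_lit 5) (nat_lit 89) (nat_lit 5) (nat_lit 85) (nat_lit 5) (nat_lit 382) (nat_lit 330) (nat_lit 68)))))) (XT.nd (nat_lit 36660) (nat_lit 0) (nat_lit 9348) (XT.nd (nat_lit 234) (nat_lit 608) (nat_lit 0) (XT.nd (nat_lit 78) (nat_lit 304) (nat_lit 0) (XT.lf (nat_lit 0) (nat_lit 40573326849) (nat_lit 380) (nat_lit 5989969926) (nat_lit 76) (nat_lit 34477278511) (nat_lit 84) (nat_lit 5) (nat_lit 89) (nat_lit 5) (nat_lit 85) (nat_lit 5) (nat_lit 383) (nat_lit 330) (nat_lit 67)) (XT.nd (nat_lit 78) (nat_lit 0) (nat_lit 0) (XT.lf (nat_lit 0) (nat_lit 33830928420) (nat_lit 304) (nat_lit 20862351119) (nat_lit 380) (nat_lit 27965239292)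 (nat_lit 80) (nat_lit 5) (nat_lit 84) (nat_lit 5) (nat_lit 85) (nat_lit 5) (nat_lit 384) (nat_lit 330) (nat_lit 66)) (XT.lf (nat_lit 0) (nat_lit 69351177353) (nat_lit 380) (nat_lit 9409429877) (nat_lit 76) (nat_lit 5560963548) (nat_lit 80) (nat_lit 5) (nat_lit 85) (nat_lit 5) (nat_lit 81) (nat_lit 5) (nat_lit 385) (nat_lit 330) (nat_lit 65)))) (XT.nd (nat_lit 156) (nat_lit 304) (nat_lit 0) (XT.nd (nat_lit 78) (nat_lit 76) (nat_lit 0) (XT.lf (nat_lit 0) (nat_lit 31600419604) (nat_lit 228) (nat_lit 53358069869) (nat_lit 304) (nat_lit 1060734966) (nat_lit 77) (nat_lit 5) (nat_lit 80) (nat_lit 5) (nat_lit 81) (nat_lit 5) (nat_lit 386) (nat_lit 330) (nat_lit 64)) (XT.lf (nat_lit 0) (nat_lit 13102659170) (nat_lit 304) (nat_lit 13860912223) (nat_lit 76) (nat_lit 60797551551) (nat_lit 76) (nat_lit 5) (nat_lit 80) (nat_lit 5) (nat_lit 77) (nat_lit 5) (nat_lit 387) (nat_lit 330) (nat_lit 63))) (XT.nd (nat_lit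 36192) (nat_lit 0) (nat_lit 9348) (XT.lf (nat_lit 0) (nat_lit 27947516953) (nat_lit 380) (nat_lit 61094114013) (nat_lit 76) (nat_lit 504996360) (nat_lit 72) (nat_lit 5) (nat_lit 77) (nat_lit 5) (nat_lit 73) (nat_lit 5) (nat_lit 388) (nat_lit 330) (nat_lit 62)) (XT.lf (nat_lit 0) (nat_lit 4517814804) (nat_lit 0) (nat_lit 4517814804) (nat_lit 1140) (nat_lit 7656526664) (nat_lit 195) (nat_lit 5) (nat_lit 195) (nat_lit 3) (nat_lit 210) (nat_lit 3) (nat_lit 331) (nat_lit 331) (nat_lit 118))))) (XT.nd (nat_lit 234) (nat_lit 0) (nat_lit 76) (XT.nd (nat_lit 78) (nat_lit 0) (nat_lit 0) (XT.lf (nat_lit 0) (nat_lit 18458775084) (nat_lit 1140) (nat_lit 9269985703) (nat_lit 1216) (nat_lit 6152757103) (nat_lit 195) (nat_lit 5) (nat_lit 210) (nat_lit 3) (nat_lit 211) (nat_lit 5) (nat_lit 332) (nat_lit 331) (nat_lit 117)) (XT.nd (nat_lit 78) (nat_lit 0) (nat_lit 76) (XT.lf (nat_lit 76) (nat_lit 6293240527) (nat_lit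 0) (nat_lit 12712452149) (nat_lit 1216) (nat_lit 15383516004) (nat_lit 196) (nat_lit 5) (nat_lit 195) (nat_lit 5) (nat_lit 211) (nat_lit 5) (nat_lit 333) (nat_lit 331) (nat_lit 116)) (XT.lf (nat_lit 0) (nat_lit 19687911439) (nat_lit 1140) (nat_lit 12424574168) (nat_lit 1216) (nat_lit 2796080276) (nat_lit 196) (nat_lit 5) (nat_lit 211) (nat_lit 5) (nat_lit 212) (nat_lit 5) (nat_lit 334) (nat_lit 331) (nat_lit 115)))) (XT.nd (nat_lit 156) (nat_lit 0) (nat_lit 76) (XT.nd (nat_lit 78) (nat_lit 0) (nat_lit 0) (XT.lf (nat_lit 76) (nat_lit 3661339635) (nat_lit 0) (nat_lit 16888261414) (nat_lit 1216) (nat_lit 14889135049) (nat_lit 197) (nat_lit 5) (nat_lit 196) (nat_lit 5) (nat_lit 212) (nat_lit 5) (nat_lit 335) (nat_lit 331) (nat_lit 114)) (XT.lf (nat_lit 76) (nat_lit 20483332165) (nat_lit 0) (nat_lit 1077264867) (nat_lit 1216) (nat_lit 14420513073) (nat_lit 197) (nat_lit 5) (nat_lit 196) (nat_lit 5)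 (nat_lit 212) (nat_lit 5) (nat_lit 336) (nat_lit 331) (nat_lit 113))) (XT.nd (nat_lit 78) (nat_lit 0) (nat_lit 0) (XT.lf (nat_lit 76) (nat_lit 1145162167) (nat_lit 0) (nat_lit 21612015886) (nat_lit 1216) (nat_lit 13777921910) (nat_lit 198) (nat_lit 5) (nat_lit 197) (nat_lit 5) (nat_lit 213) (nat_lit 5) (nat_lit 337) (nat_lit 331) (nat_lit 112)) (XT.lf (nat_lit 76) (nat_lit 18592989452) (nat_lit 0) (nat_lit 5561828526) (nat_lit 1216) (nat_lit 12945938915) (nat_lit 198) (nat_lit 5) (nat_lit 197) (nat_lit 5) (nat_lit 213) (nat_lit 5) (nat_lit 338) (nat_lit 331) (nat_lit 111))))))) (XT.nd (nat_lit 1092) (nat_lit 3420) (nat_lit 0) (XT.nd (nat_lit 546) (nat_lit 2204) (nat_lit 0) (XT.nd (nat_lit 234) (nat_lit 0) (nat_lit 76) (XT.nd (nat_lit 78) (nat_lit 0) (nat_lit 0) (XT.lf (nat_lit 0) (nat_lit 25698000680) (nat_lit 1140) (nat_lit 1225821544) (nat_lit 1216) (nat_lit 10756455054) (nat_lit 198) (nat_lit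 5) (nat_lit 213) (nat_lit 5) (nat_lit 214) (nat_lit 5) (nat_lit 339) (nat_lit 331) (nat_lit 110)) (XT.nd (nat_lit 78) (nat_lit 0) (nat_lit 76) (XT.lf (nat_lit 76) (nat_lit 16847057503) (nat_lit 0) (nat_lit 10655651184) (nat_lit 1216) (nat_lit 10768019784) (nat_lit 199) (nat_lit 5) (nat_lit 198) (nat_lit 5) (nat_lit 214) (nat_lit 5) (nat_lit 340) (nat_lit 331) (nat_lit 109)) (XT.lf (nat_lit 0) (nat_lit 29430964959) (nat_lit 1140) (nat_lit 3451287846) (nat_lit 1216) (nat_lit 5994560217) (nat_lit 199) (nat_lit 5) (nat_lit 214) (nat_lit 5) (nat_lit 215) (nat_lit 5) (nat_lit 341) (nat_lit 331) (nat_lit 108)))) (XT.nd (nat_lit 156) (nat_lit 0) (nat_lit 76) (XT.nd (nat_lit 78) (nat_lit 0) (nat_lit 76) (XT.lf (nat_lit 76) (nat_lit 15251154563) (nat_lit 0) (nat_lit 16416333560) (nat_lit 1216) (nat_lit 7826081382) (nat_lit 200) (nat_lit 5) (nat_lit 199) (nat_lit 5) (nat_lit 215) (nat_lit 5) (nat_lit 342)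 (nat_lit 331) (nat_lit 107)) (XT.lf (nat_lit 0) (nat_lit 34009884428) (nat_lit 1140) (nat_lit 5549194389) (nat_lit 1216) (nat_lit 568588458) (nat_lit 200) (nat_lit 5) (nat_lit 215) (nat_lit 5) (nat_lit 216) (nat_lit 5) (nat_lit 343) (nat_lit 331) (nat_lit 106))) (XT.nd (nat_lit 78) (nat_lit 0) (nat_lit 0) (XT.lf (nat_lit 76) (nat_lit 13810555810) (nat_lit 0) (nat_lit 22905694238) (nat_lit 1216) (nat_lit 4055728864) (nat_lit 201) (nat_lit 5) (nat_lit 200) (nat_lit 5) (nat_lit 216) (nat_lit 5) (nat_lit 344) (nat_lit 331) (nat_lit 105)) (XT.lf (nat_lit 76) (nat_lit 33863640848) (nat_lit 0) (nat_lit 5694640583) (nat_lit 1216) (nat_lit 1875706030) (nat_lit 201) (nat_lit 5) (nat_lit 200) (nat_lit 5) (nat_lit 216) (nat_lit 5) (nat_lit 345) (nat_lit 331) (nat_lit 104))))) (XT.nd (nat_lit 234) (nat_lit 1216) (nat_lit 0) (XT.nd (nat_lit 78) (nat_lit 0) (nat_lit 0) (XT.lf (nat_lit 0) (nat_lit 599424447) (nat_lit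 1216) (nat_lit 29584619660) (nat_lit 1292) (nat_lit 11924599597) (nat_lit 185) (nat_lit 5) (nat_lit 201) (nat_lit 5) (nat_lit 202) (nat_lit 5) (nat_lit 346) (nat_lit 331) (nat_lit 103)) (XT.nd (nat_lit 78) (nat_lit 0) (nat_lit 76) (XT.lf (nat_lit 0) (nat_lit 3243197743) (nat_lit 1216) (nat_lit 9501791931) (nat_lit 1292) (nat_lit 30054031810) (nat_lit 185) (nat_lit 5) (nat_lit 201) (nat_lit 5) (nat_lit 202) (nat_lit 5) (nat_lit 347) (nat_lit 331) (nat_lit 102)) (XT.lf (nat_lit 0) (nat_lit 6125701001) (nat_lit 1216) (nat_lit 32153244462) (nat_lit 76) (nat_lit 5226384234) (nat_lit 186) (nat_lit 5) (nat_lit 202) (nat_lit 5) (nat_lit 187) (nat_lit 5) (nat_lit 348) (nat_lit 331) (nat_lit 101)))) (XT.nd (nat_lit 156) (nat_lit 608) (nat_lit 0) (XT.nd (nat_lit 78) (nat_lit 684) (nat_lit 0) (XT.lf (nat_lit 0) (nat_lit 9316347000) (nat_lit 1216) (nat_lit 11331974157) (nat_lit 76) (nat_lit 23577857529) (nat_lit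 186) (nat_lit 5) (nat_lit 202) (nat_lit 5) (nat_lit 187) (nat_lit 5) (nat_lit 349) (nat_lit 331) (nat_lit 100)) (XT.lf (nat_lit 0) (nat_lit 10313989962) (nat_lit 684) (nat_lit 2386488315) (nat_lit 760) (nat_lit 32265243400) (nat_lit 177) (nat_lit 5) (nat_lit 186) (nat_lit 5) (nat_lit 187) (nat_lit 5) (nat_lit 350) (nat_lit 331) (nat_lit 99))) (XT.nd (nat_lit 78) (nat_lit 608) (nat_lit 0) (XT.lf (nat_lit 0) (nat_lit 16458218690) (nat_lit 760) (nat_lit 13042632485) (nat_lit 76) (nat_lit 16218438696) (nat_lit 177) (nat_lit 5) (nat_lit 187) (nat_lit 5) (nat_lit 178) (nat_lit 5) (nat_lit 351) (nat_lit 331) (nat_lit 98)) (XT.lf (nat_lit 0) (nat_lit 9372805409) (nat_lit 608) (nat_lit 11068302572) (nat_lit 684) (nat_lit 26050986054) (nat_lit 169) (nat_lit 5) (nat_lit 177) (nat_lit 5) (nat_lit 178) (nat_lit 5) (nat_lit 352) (nat_lit 331) (nat_lit 97)))))) (XT.nd (nat_lit 546) (nat_lit 1824) (nat_lit 0)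 (XT.nd (nat_lit 234) (nat_lit 1064) (nat_lit 0) (XT.nd (nat_lit 78) (nat_lit 532) (nat_lit 0) (XT.lf (nat_lit 0) (nat_lit 24751316649) (nat_lit 684) (nat_lit 14634704598) (nat_lit 76) (nat_lit 7895827479) (nat_lit 169) (nat_lit 5) (nat_lit 178) (nat_lit 5) (nat_lit 170) (nat_lit 5) (nat_lit 353) (nat_lit 331) (nat_lit 96)) (XT.nd (nat_lit 78) (nat_lit 0) (nat_lit 0) (XT.lf (nat_lit 0) (nat_lit 8581081638) (nat_lit 532) (nat_lit 20800579511) (nat_lit 608) (nat_lit 18707911365) (nat_lit 162) (nat_lit 5) (nat_lit 169) (nat_lit 5) (nat_lit 170) (nat_lit 5) (nat_lit 354) (nat_lit 331) (nat_lit 95)) (XT.lf (nat_lit 0) (nat_lit 32792154316) (nat_lit 532) (nat_lit 1505324156) (nat_lit 608) (nat_lit 14619653972) (nat_lit 162) (nat_lit 5) (nat_lit 169) (nat_lit 5) (nat_lit 170) (nat_lit 5) (nat_lit 355) (nat_lit 331) (nat_lit 94)))) (XT.nd (nat_lit 156) (nat_lit 532) (nat_lit 0) (XT.nd (nat_lit 78) (nat_lit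 0) (nat_lit 0) (XT.lf (nat_lit 0) (nat_lit 7937163759) (nat_lit 532) (nat_lit 31675291975) (nat_lit 608) (nat_lit 10149514142) (nat_lit 155) (nat_lit 5) (nat_lit 162) (nat_lit 5) (nat_lit 163) (nat_lit 5) (nat_lit 356) (nat_lit 331) (nat_lit 93)) (XT.lf (nat_lit 0) (nat_lit 33035340101) (nat_lit 532) (nat_lit 12227970635) (nat_lit 608) (nat_lit 5363550070) (nat_lit 155) (nat_lit 5) (nat_lit 162) (nat_lit 5) (nat_lit 163) (nat_lit 5) (nat_lit 357) (nat_lit 331) (nat_lit 92))) (XT.nd (nat_lit 78) (nat_lit 76) (nat_lit 0) (XT.lf (nat_lit 0) (nat_lit 7437719112) (nat_lit 456) (nat_lit 43791346526) (nat_lit 532) (nat_lit 284272794) (nat_lit 149) (nat_lit 5) (nat_lit 155) (nat_lit 5) (nat_lit 156) (nat_lit 5) (nat_lit 358) (nat_lit 331) (nat_lit 91)) (XT.lf (nat_lit 0) (nat_lit 5150192120) (nat_lit 532) (nat_lit 19014208906) (nat_lit 76) (nat_lit 28251603249) (nat_lit 148) (nat_lit 5) (nat_lit 155) (nat_lit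 5) (nat_lit 149) (nat_lit 5) (nat_lit 359) (nat_lit 331) (nat_lit 90))))) (XT.nd (nat_lit 234) (nat_lit 836) (nat_lit 0) (XT.nd (nat_lit 78) (nat_lit 456) (nat_lit 0) (XT.lf (nat_lit 0) (nat_lit 6930311497) (nat_lit 532) (nat_lit 3877199699) (nat_lit 608) (nat_lit 42536189536) (nat_lit 141) (nat_lit 5) (nat_lit 148) (nat_lit 5) (nat_lit 149) (nat_lit 5) (nat_lit 360) (nat_lit 331) (nat_lit 89)) (XT.nd (nat_lit 78) (nat_lit 456) (nat_lit 0) (XT.lf (nat_lit 0) (nat_lit 16990985778) (nat_lit 608) (nat_lit 20417196166) (nat_lit 76) (nat_lit 16880354122) (nat_lit 141) (nat_lit 5) (nat_lit 149) (nat_lit 5) (nat_lit 142) (nat_lit 5) (nat_lit 361) (nat_lit 331) (nat_lit 88)) (XT.lf (nat_lit 0) (nat_lit 6445122318) (nat_lit 456) (nat_lit 17014151154) (nat_lit 532) (nat_lit 31799464751) (nat_lit 135) (nat_lit 5) (nat_lit 141) (nat_lit 5) (nat_lit 142) (nat_lit 5) (nat_lit 362) (nat_lit 331) (nat_lit 87))))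 (XT.nd (nat_lit 156) (nat_lit 380) (nat_lit 0) (XT.nd (nat_lit 78) (nat_lit 456) (nat_lit 0) (XT.lf (nat_lit 0) (nat_lit 30367179896) (nat_lit 532) (nat_lit 21761589337) (nat_lit 76) (nat_lit 4121911107) (nat_lit 135) (nat_lit 5) (nat_lit 142) (nat_lit 5) (nat_lit 136) (nat_lit 5) (nat_lit 363) (nat_lit 331) (nat_lit 86)) (XT.lf (nat_lit 0) (nat_lit 6050482577) (nat_lit 456) (nat_lit 31657472857) (nat_lit 532) (nat_lit 19557657300) (nat_lit 129) (nat_lit 5) (nat_lit 135) (nat_lit 5) (nat_lit 136) (nat_lit 5) (nat_lit 364) (nat_lit 331) (nat_lit 85))) (XT.nd (nat_lit 78) (nat_lit 380) (nat_lit 0) (XT.lf (nat_lit 0) (nat_lit 35141893713) (nat_lit 456) (nat_lit 10345841956) (nat_lit 532) (nat_lit 12816694931) (nat_lit 129) (nat_lit 5) (nat_lit 135) (nat_lit 5) (nat_lit 136) (nat_lit 5) (nat_lit 365) (nat_lit 331) (nat_lit 84)) (XT.lf (nat_lit 0) (nat_lit 5730797522) (nat_lit 380) (nat_lit 47935814281)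 (nat_lit 456) (nat_lit 5702831038) (nat_lit 124) (nat_lit 5) (nat_lit 129) (nat_lit 5) (nat_lit 130) (nat_lit 5) (nat_lit 366) (nat_lit 331) (nat_lit 83))))))))
noncomputable def xc241 : XT := (XT.nd (nat_lit 38376) (nat_lit 0) (nat_lit 4028) (XT.nd (nat_lit 1092) (nat_lit 1292) (nat_lit 0) (XT.nd (nat_lit 546) (nat_lit 1064) (nat_lit 0) (XT.nd (nat_lit 234) (nat_lit 760) (nat_lit 0) (XT.nd (nat_lit 78) (nat_lit 456) (nat_lit 0) (XT.lf (nat_lit 0) (nat_lit 1930461716) (nat_lit 456) (nat_lit 24615130433) (nat_lit 76) (nat_lit 33910214352) (nat_lit 123) (nat_lit 5) (nat_lit 129) (nat_lit 5) (nat_lit 124) (nat_lit 5) (nat_lit 367) (nat_lit 331) (nat_lit 82)) (XT.nd (nat_lit 78) (nat_lit 0) (nat_lit 0) (XT.lf (nat_lit 0) (nat_lit 5325459635) (nat_lit 456) (nat_lit 4402956853) (nat_lit 532) (nat_lit 51843142974) (nat_lit 117) (nat_lit 5) (nat_lit 123) (nat_lit 5) (nat_lit 124) (nat_lit 5) (nat_lit 368)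 (nat_lit 331) (nat_lit 81)) (XT.lf (nat_lit 0) (nat_lit 18187352829) (nat_lit 532) (nat_lit 26224946385) (nat_lit 76) (nat_lit 18295675325) (nat_lit 117) (nat_lit 5) (nat_lit 124) (nat_lit 5) (nat_lit 118) (nat_lit 5) (nat_lit 369) (nat_lit 331) (nat_lit 80)))) (XT.nd (nat_lit 156) (nat_lit 380) (nat_lit 0) (XT.nd (nat_lit 78) (nat_lit 0) (nat_lit 0) (XT.lf (nat_lit 0) (nat_lit 4744766956) (nat_lit 380) (nat_lit 22243626777) (nat_lit 456) (nat_lit 36887439028) (nat_lit 112) (nat_lit 5) (nat_lit 117) (nat_lit 5) (nat_lit 118) (nat_lit 5) (nat_lit 370) (nat_lit 331) (nat_lit 79)) (XT.lf (nat_lit 0) (nat_lit 36325727176) (nat_lit 456) (nat_lit 27899001591) (nat_lit 76) (nat_lit 845830889) (nat_lit 112) (nat_lit 5) (nat_lit 118) (nat_lit 5) (nat_lit 113) (nat_lit 5) (nat_lit 371) (nat_lit 331) (nat_lit 78))) (XT.nd (nat_lit 78) (nat_lit 0) (nat_lit 0) (XT.lf (nat_lit 0) (nat_lit 4129317584) (nat_lit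 380) (nat_lit 42072961688) (nat_lit 456) (nat_lit 20091076871) (nat_lit 107) (nat_lit 5) (nat_lit 112) (nat_lit 5) (nat_lit 113) (nat_lit 5) (nat_lit 372) (nat_lit 331) (nat_lit 77)) (XT.lf (nat_lit 0) (nat_lit 37689347925) (nat_lit 380) (nat_lit 18966690550) (nat_lit 456) (nat_lit 10888371455) (nat_lit 107) (nat_lit 5) (nat_lit 112) (nat_lit 5) (nat_lit 113) (nat_lit 5) (nat_lit 373) (nat_lit 331) (nat_lit 76))))) (XT.nd (nat_lit 234) (nat_lit 304) (nat_lit 0) (XT.nd (nat_lit 78) (nat_lit 456) (nat_lit 0) (XT.lf (nat_lit 0) (nat_lit 3442878674) (nat_lit 304) (nat_lit 64059289317) (nat_lit 380) (nat_lit 1328465314) (nat_lit 103) (nat_lit 5) (nat_lit 107) (nat_lit 5) (nat_lit 108) (nat_lit 5) (nat_lit 374) (nat_lit 331) (nat_lit 75)) (XT.nd (nat_lit 78) (nat_lit 380) (nat_lit 0) (XT.lf (nat_lit 0) (nat_lit 8843479867) (nat_lit 380) (nat_lit 32068337262) (nat_lit 76) (nat_lit 29226426537) (nat_lit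 102) (nat_lit 5) (nat_lit 107) (nat_lit 5) (nat_lit 103) (nat_lit 5) (nat_lit 375) (nat_lit 331) (nat_lit 74)) (XT.lf (nat_lit 0) (nat_lit 2281011690) (nat_lit 380) (nat_lit 17034032147) (nat_lit 456) (nat_lit 52169009710) (nat_lit 97) (nat_lit 5) (nat_lit 102) (nat_lit 5) (nat_lit 103) (nat_lit 5) (nat_lit 376) (nat_lit 331) (nat_lit 73)))) (XT.nd (nat_lit 156) (nat_lit 0) (nat_lit 0) (XT.nd (nat_lit 78) (nat_lit 304) (nat_lit 0) (XT.lf (nat_lit 0) (nat_lit 30499705552) (nat_lit 456) (nat_lit 34619210220) (nat_lit 76) (nat_lit 7739354051) (nat_lit 97) (nat_lit 5) (nat_lit 103) (nat_lit 5) (nat_lit 98) (nat_lit 5) (nat_lit 377) (nat_lit 331) (nat_lit 72)) (XT.lf (nat_lit 0) (nat_lit 849061001) (nat_lit 304) (nat_lit 41346928692) (nat_lit 380) (nat_lit 32072441022) (nat_lit 93) (nat_lit 5) (nat_lit 97) (nat_lit 5) (nat_lit 98) (nat_lit 5) (nat_lit 378) (nat_lit 331) (nat_lit 71))) (XT.nd (nat_lit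 78) (nat_lit 0) (nat_lit 0) (XT.lf (nat_lit 0) (nat_lit 38090060112) (nat_lit 304) (nat_lit 16501967412) (nat_lit 380) (nat_lit 21118403540) (nat_lit 93) (nat_lit 5) (nat_lit 97) (nat_lit 5) (nat_lit 98) (nat_lit 5) (nat_lit 379) (nat_lit 331) (nat_lit 70)) (XT.lf (nat_lit 0) (nat_lit 67446606805) (nat_lit 380) (nat_lit 835735657) (nat_lit 76) (nat_lit 8910749723) (nat_lit 93) (nat_lit 5) (nat_lit 98) (nat_lit 5) (nat_lit 94) (nat_lit 5) (nat_lit 380) (nat_lit 331) (nat_lit 69)))))) (XT.nd (nat_lit 546) (nat_lit 76) (nat_lit 0) (XT.nd (nat_lit 234) (nat_lit 532) (nat_lit 0) (XT.nd (nat_lit 78) (nat_lit 304) (nat_lit 0) (XT.lf (nat_lit 0) (nat_lit 2457758145) (nat_lit 380) (nat_lit 41106342639) (nat_lit 76) (nat_lit 35139679479) (nat_lit 88) (nat_lit 5) (nat_lit 93) (nat_lit 5) (nat_lit 89) (nat_lit 5) (nat_lit 381) (nat_lit 331) (nat_lit 68)) (XT.nd (nat_lit 78) (nat_lit 304) (nat_lit 0) (XT.lf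 (nat_lit 0) (nat_lit 14840078902) (nat_lit 380) (nat_lit 3156328576) (nat_lit 76) (nat_lit 62260251690) (nat_lit 88) (nat_lit 5) (nat_lit 93) (nat_lit 5) (nat_lit 89) (nat_lit 5) (nat_lit 382) (nat_lit 331) (nat_lit 67)) (XT.lf (nat_lit 0) (nat_lit 28029116422) (nat_lit 380) (nat_lit 45282846045) (nat_lit 76) (nat_lit 8531105068) (nat_lit 84) (nat_lit 5) (nat_lit 89) (nat_lit 5) (nat_lit 85) (nat_lit 5) (nat_lit 383) (nat_lit 331) (nat_lit 66)))) (XT.nd (nat_lit 156) (nat_lit 228) (nat_lit 0) (XT.nd (nat_lit 78) (nat_lit 304) (nat_lit 0) (XT.lf (nat_lit 0) (nat_lit 41823545059) (nat_lit 380) (nat_lit 6122568123) (nat_lit 76) (nat_lit 35524663862) (nat_lit 84) (nat_lit 5) (nat_lit 89) (nat_lit 5) (nat_lit 85) (nat_lit 5) (nat_lit 384) (nat_lit 331) (nat_lit 65)) (XT.lf (nat_lit 0) (nat_lit 34892495400) (nat_lit 304) (nat_lit 21474087552) (nat_lit 380) (nat_lit 28770692070) (nat_lit 80) (nat_lit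 5) (nat_lit 84) (nat_lit 5) (nat_lit 85) (nat_lit 5) (nat_lit 385) (nat_lit 331) (nat_lit 64))) (XT.nd (nat_lit 78) (nat_lit 228) (nat_lit 0) (XT.lf (nat_lit 0) (nat_lit 71463402860) (nat_lit 380) (nat_lit 9645593709) (nat_lit 76) (nat_lit 5741247109) (nat_lit 80) (nat_lit 5) (nat_lit 85) (nat_lit 5) (nat_lit 81) (nat_lit 5) (nat_lit 386) (nat_lit 331) (nat_lit 63)) (XT.lf (nat_lit 0) (nat_lit 32594099108) (nat_lit 228) (nat_lit 54944351198) (nat_lit 304) (nat_lit 1060391848) (nat_lit 77) (nat_lit 5) (nat_lit 80) (nat_lit 5) (nat_lit 81) (nat_lit 5) (nat_lit 387) (nat_lit 331) (nat_lit 62))))) (XT.nd (nat_lit 36426) (nat_lit 0) (nat_lit 9044) (XT.nd (nat_lit 36270) (nat_lit 0) (nat_lit 9044) (XT.lf (nat_lit 0) (nat_lit 13526357886) (nat_lit 304) (nat_lit 14231771879) (nat_lit 76) (nat_lit 62634886778) (nat_lit 76) (nat_lit 5) (nat_lit 80) (nat_lit 5) (nat_lit 77) (nat_lit 5) (nat_lit 388) (nat_lit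 331) (nat_lit 61)) (XT.nd (nat_lit 78) (nat_lit 0) (nat_lit 0) (XT.lf (nat_lit 0) (nat_lit 4681142405) (nat_lit 0) (nat_lit 4681142405) (nat_lit 1140) (nat_lit 7828903260) (nat_lit 195) (nat_lit 5) (nat_lit 195) (nat_lit 3) (nat_lit 210) (nat_lit 3) (nat_lit 332) (nat_lit 332) (nat_lit 116)) (XT.lf (nat_lit 0) (nat_lit 19119954159) (nat_lit 1140) (nat_lit 9490234377) (nat_lit 1216) (nat_lit 6284425618) (nat_lit 195) (nat_lit 5) (nat_lit 210) (nat_lit 3) (nat_lit 211) (nat_lit 5) (nat_lit 333) (nat_lit 332) (nat_lit 115)))) (XT.nd (nat_lit 156) (nat_lit 0) (nat_lit 76) (XT.nd (nat_lit 78) (nat_lit 0) (nat_lit 76) (XT.lf (nat_lit 76) (nat_lit 6539321475) (nat_lit 0) (nat_lit 13141379833) (nat_lit 1216) (nat_lit 15736915391) (nat_lit 196) (nat_lit 5) (nat_lit 195) (nat_lit 5) (nat_lit 211) (nat_lit 5) (nat_lit 334) (nat_lit 332) (nat_lit 114)) (XT.lf (nat_lit 0) (nat_lit 20379889299) (nat_lit 1140)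 (nat_lit 12738079265) (nat_lit 1216) (nat_lit 2834694560) (nat_lit 196) (nat_lit 5) (nat_lit 211) (nat_lit 5) (nat_lit 212) (nat_lit 5) (nat_lit 335) (nat_lit 332) (nat_lit 113))) (XT.nd (nat_lit 78) (nat_lit 0) (nat_lit 0) (XT.lf (nat_lit 76) (nat_lit 3829831245) (nat_lit 0) (nat_lit 17435210481) (nat_lit 1216) (nat_lit 15233771837) (nat_lit 197) (nat_lit 5) (nat_lit 196) (nat_lit 5) (nat_lit 212) (nat_lit 5) (nat_lit 336) (nat_lit 332) (nat_lit 112)) (XT.lf (nat_lit 76) (nat_lit 21154775257) (nat_lit 0) (nat_lit 1148710214) (nat_lit 1216) (nat_lit 14754063161) (nat_lit 197) (nat_lit 5) (nat_lit 196) (nat_lit 5) (nat_lit 212) (nat_lit 5) (nat_lit 337) (nat_lit 332) (nat_lit 111))))))) (XT.nd (nat_lit 1092) (nat_lit 3648) (nat_lit 0) (XT.nd (nat_lit 546) (nat_lit 1520) (nat_lit 0) (XT.nd (nat_lit 234) (nat_lit 0) (nat_lit 76) (XT.nd (nat_lit 78) (nat_lit 0) (nat_lit 0) (XT.lf (nat_lit 76) (nat_lit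 1239239737) (nat_lit 0) (nat_lit 22294134946) (nat_lit 1216) (nat_lit 14094864463) (nat_lit 198) (nat_lit 5) (nat_lit 197) (nat_lit 5) (nat_lit 213) (nat_lit 5) (nat_lit 338) (nat_lit 332) (nat_lit 110)) (XT.nd (nat_lit 78) (nat_lit 0) (nat_lit 76) (XT.lf (nat_lit 76) (nat_lit 19208762345) (nat_lit 0) (nat_lit 5761458704) (nat_lit 1216) (nat_lit 13240729602) (nat_lit 198) (nat_lit 5) (nat_lit 197) (nat_lit 5) (nat_lit 213) (nat_lit 5) (nat_lit 339) (nat_lit 332) (nat_lit 109)) (XT.lf (nat_lit 0) (nat_lit 26556749900) (nat_lit 1140) (nat_lit 1203249381) (nat_lit 1216) (nat_lit 11047948940) (nat_lit 198) (nat_lit 5) (nat_lit 213) (nat_lit 5) (nat_lit 214) (nat_lit 5) (nat_lit 340) (nat_lit 332) (nat_lit 108)))) (XT.nd (nat_lit 156) (nat_lit 0) (nat_lit 76) (XT.nd (nat_lit 78) (nat_lit 0) (nat_lit 76) (XT.lf (nat_lit 76) (nat_lit 17411234206) (nat_lit 0) (nat_lit 11002372277) (nat_lit 1216) (nat_lit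 11002569250) (nat_lit 199) (nat_lit 5) (nat_lit 198) (nat_lit 5) (nat_lit 214) (nat_lit 5) (nat_lit 341) (nat_lit 332) (nat_lit 107)) (XT.lf (nat_lit 0) (nat_lit 30396958470) (nat_lit 1140) (nat_lit 3494923951) (nat_lit 1216) (nat_lit 6148645874) (nat_lit 199) (nat_lit 5) (nat_lit 214) (nat_lit 5) (nat_lit 215) (nat_lit 5) (nat_lit 342) (nat_lit 332) (nat_lit 106))) (XT.nd (nat_lit 78) (nat_lit 0) (nat_lit 76) (XT.lf (nat_lit 76) (nat_lit 15768004451) (nat_lit 0) (nat_lit 16930723697) (nat_lit 1216) (nat_lit 7977117631) (nat_lit 200) (nat_lit 5) (nat_lit 199) (nat_lit 5) (nat_lit 215) (nat_lit 5) (nat_lit 343) (nat_lit 332) (nat_lit 105)) (XT.lf (nat_lit 0) (nat_lit 35108826458) (nat_lit 1140) (nat_lit 5655421114) (nat_lit 1216) (nat_lit 564798753) (nat_lit 200) (nat_lit 5) (nat_lit 215) (nat_lit 5) (nat_lit 216) (nat_lit 5) (nat_lit 344) (nat_lit 332) (nat_lit 104))))) (XT.nd (nat_lit 234) (nat_lit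 608) (nat_lit 0) (XT.nd (nat_lit 78) (nat_lit 1140) (nat_lit 0) (XT.lf (nat_lit 76) (nat_lit 14284530913) (nat_lit 0) (nat_lit 23610134962) (nat_lit 1216) (nat_lit 4098075620) (nat_lit 201) (nat_lit 5) (nat_lit 200) (nat_lit 5) (nat_lit 216) (nat_lit 5) (nat_lit 345) (nat_lit 332) (nat_lit 103)) (XT.nd (nat_lit 78) (nat_lit 1140) (nat_lit 0) (XT.lf (nat_lit 76) (nat_lit 34937470878) (nat_lit 0) (nat_lit 5882246691) (nat_lit 1216) (nat_lit 1854962542) (nat_lit 201) (nat_lit 5) (nat_lit 200) (nat_lit 5) (nat_lit 216) (nat_lit 5) (nat_lit 346) (nat_lit 332) (nat_lit 102)) (XT.lf (nat_lit 0) (nat_lit 691142302) (nat_lit 1216) (nat_lit 30410792681) (nat_lit 1292) (nat_lit 12267674592) (nat_lit 185) (nat_lit 5) (nat_lit 201) (nat_lit 5) (nat_lit 202) (nat_lit 5) (nat_lit 347) (nat_lit 332) (nat_lit 101)))) (XT.nd (nat_lit 156) (nat_lit 608) (nat_lit 0) (XT.nd (nat_lit 78) (nat_lit 0) (nat_lit 76) (XT.lf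 (nat_lit 0) (nat_lit 3412081172) (nat_lit 1216) (nat_lit 9727267466) (nat_lit 1292) (nat_lit 30941416849) (nat_lit 185) (nat_lit 5) (nat_lit 201) (nat_lit 5) (nat_lit 202) (nat_lit 5) (nat_lit 348) (nat_lit 332) (nat_lit 100)) (XT.lf (nat_lit 0) (nat_lit 6379435079) (nat_lit 1216) (nat_lit 33056562410) (nat_lit 76) (nat_lit 5372316493) (nat_lit 186) (nat_lit 5) (nat_lit 202) (nat_lit 5) (nat_lit 187) (nat_lit 5) (nat_lit 349) (nat_lit 332) (nat_lit 99))) (XT.nd (nat_lit 78) (nat_lit 684) (nat_lit 0) (XT.lf (nat_lit 0) (nat_lit 9663762699) (nat_lit 1216) (nat_lit 11612438832) (nat_lit 76) (nat_lit 24274650276) (nat_lit 186) (nat_lit 5) (nat_lit 202) (nat_lit 5) (nat_lit 187) (nat_lit 5) (nat_lit 350) (nat_lit 332) (nat_lit 98)) (XT.lf (nat_lit 0) (nat_lit 10682320931) (nat_lit 684) (nat_lit 2465684868) (nat_lit 760) (nat_lit 33164619822) (nat_lit 177) (nat_lit 5) (nat_lit 186) (nat_lit 5) (nat_lit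 187) (nat_lit 5) (nat_lit 351) (nat_lit 332) (nat_lit 97)))))) (XT.nd (nat_lit 546) (nat_lit 1976) (nat_lit 0) (XT.nd (nat_lit 234) (nat_lit 1064) (nat_lit 0) (XT.nd (nat_lit 78) (nat_lit 608) (nat_lit 0) (XT.lf (nat_lit 0) (nat_lit 17016470202) (nat_lit 760) (nat_lit 13374637624) (nat_lit 76) (nat_lit 16697755388) (nat_lit 177) (nat_lit 5) (nat_lit 187) (nat_lit 5) (nat_lit 178) (nat_lit 5) (nat_lit 352) (nat_lit 332) (nat_lit 96)) (XT.nd (nat_lit 78) (nat_lit 0) (nat_lit 0) (XT.lf (nat_lit 0) (nat_lit 9712682291) (nat_lit 608) (nat_lit 11404849286) (nat_lit 684) (nat_lit 26767361407) (nat_lit 169) (nat_lit 5) (nat_lit 177) (nat_lit 5) (nat_lit 178) (nat_lit 5) (nat_lit 353) (nat_lit 332) (nat_lit 95)) (XT.lf (nat_lit 0) (nat_lit 25555164035) (nat_lit 684) (nat_lit 15014813866) (nat_lit 76) (nat_lit 8128420875) (nat_lit 169) (nat_lit 5) (nat_lit 178) (nat_lit 5) (nat_lit 170) (nat_lit 5) (nat_lit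 354) (nat_lit 332) (nat_lit 94)))) (XT.nd (nat_lit 156) (nat_lit 532) (nat_lit 0) (XT.nd (nat_lit 78) (nat_lit 0) (nat_lit 0) (XT.lf (nat_lit 0) (nat_lit 8896868193) (nat_lit 532) (nat_lit 21426325945) (nat_lit 608) (nat_lit 19207198808) (nat_lit 162) (nat_lit 5) (nat_lit 169) (nat_lit 5) (nat_lit 170) (nat_lit 5) (nat_lit 355) (nat_lit 332) (nat_lit 93)) (XT.lf (nat_lit 0) (nat_lit 33832573417) (nat_lit 532) (nat_lit 1552162569) (nat_lit 608) (nat_lit 14998098060) (nat_lit 162) (nat_lit 5) (nat_lit 169) (nat_lit 5) (nat_lit 170) (nat_lit 5) (nat_lit 356) (nat_lit 332) (nat_lit 92))) (XT.nd (nat_lit 78) (nat_lit 0) (nat_lit 0) (XT.lf (nat_lit 0) (nat_lit 8233188289) (nat_lit 532) (nat_lit 32624816249) (nat_lit 608) (nat_lit 10395048621) (nat_lit 155) (nat_lit 5) (nat_lit 162) (nat_lit 5) (nat_lit 163) (nat_lit 5) (nat_lit 357) (nat_lit 332) (nat_lit 91)) (XT.lf (nat_lit 0) (nat_lit 34082623234)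 (nat_lit 532) (nat_lit 12594096662) (nat_lit 608) (nat_lit 5467222644) (nat_lit 155) (nat_lit 5) (nat_lit 162) (nat_lit 5) (nat_lit 163) (nat_lit 5) (nat_lit 358) (nat_lit 332) (nat_lit 90))))) (XT.nd (nat_lit 234) (nat_lit 912) (nat_lit 0) (XT.nd (nat_lit 78) (nat_lit 608) (nat_lit 0) (XT.lf (nat_lit 0) (nat_lit 7718222810) (nat_lit 456) (nat_lit 45102165993) (nat_lit 532) (nat_lit 236659162) (nat_lit 149) (nat_lit 5) (nat_lit 155) (nat_lit 5) (nat_lit 156) (nat_lit 5) (nat_lit 359) (nat_lit 332) (nat_lit 89)) (XT.nd (nat_lit 78) (nat_lit 532) (nat_lit 0) (XT.lf (nat_lit 0) (nat_lit 5358140880) (nat_lit 532) (nat_lit 19527816654) (nat_lit 76) (nat_lit 29100869772) (nat_lit 148) (nat_lit 5) (nat_lit 155) (nat_lit 5) (nat_lit 149) (nat_lit 5) (nat_lit 360) (nat_lit 332) (nat_lit 88)) (XT.lf (nat_lit 0) (nat_lit 7194482317) (nat_lit 532) (nat_lit 3989681440) (nat_lit 608) (nat_lit 43758222941) (nat_lit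 141) (nat_lit 5) (nat_lit 148) (nat_lit 5) (nat_lit 149) (nat_lit 5) (nat_lit 361) (nat_lit 332) (nat_lit 87)))) (XT.nd (nat_lit 156) (nat_lit 456) (nat_lit 0) (XT.nd (nat_lit 78) (nat_lit 456) (nat_lit 0) (XT.lf (nat_lit 0) (nat_lit 17551651353) (nat_lit 608) (nat_lit 20973547319) (nat_lit 76) (nat_lit 17390414678) (nat_lit 141) (nat_lit 5) (nat_lit 149) (nat_lit 5) (nat_lit 142) (nat_lit 5) (nat_lit 362) (nat_lit 332) (nat_lit 86)) (XT.lf (nat_lit 0) (nat_lit 6694090085) (nat_lit 456) (nat_lit 17518948617) (nat_lit 532) (nat_lit 32701912817) (nat_lit 135) (nat_lit 5) (nat_lit 141) (nat_lit 5) (nat_lit 142) (nat_lit 5) (nat_lit 363) (nat_lit 332) (nat_lit 85))) (XT.nd (nat_lit 78) (nat_lit 456) (nat_lit 0) (XT.lf (nat_lit 0) (nat_lit 31326778901) (nat_lit 532) (nat_lit 22358991524) (nat_lit 76) (nat_lit 4250925011) (nat_lit 135) (nat_lit 5) (nat_lit 142) (nat_lit 5) (nat_lit 136) (nat_lit 5) (nat_lit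 364) (nat_lit 332) (nat_lit 84)) (XT.lf (nat_lit 0) (nat_lit 6286898965) (nat_lit 456) (nat_lit 32599991435) (nat_lit 532) (nat_lit 20095213414) (nat_lit 129) (nat_lit 5) (nat_lit 135) (nat_lit 5) (nat_lit 136) (nat_lit 5) (nat_lit 365) (nat_lit 332) (nat_lit 83))))))))
noncomputable def xc242 : XT := (XT.nd (nat_lit 38454) (nat_lit 0) (nat_lit 4180) (XT.nd (nat_lit 1014) (nat_lit 1292) (nat_lit 0) (XT.nd (nat_lit 468) (nat_lit 1140) (nat_lit 0) (XT.nd (nat_lit 234) (nat_lit 836) (nat_lit 0) (XT.nd (nat_lit 78) (nat_lit 456) (nat_lit 0) (XT.lf (nat_lit 0) (nat_lit 36249453349) (nat_lit 456) (nat_lit 10649221480) (nat_lit 532) (nat_lit 13153454414) (nat_lit 129) (nat_lit 5) (nat_lit 135) (nat_lit 5) (nat_lit 136) (nat_lit 5) (nat_lit 366) (nat_lit 332) (nat_lit 82)) (XT.nd (nat_lit 78) (nat_lit 76) (nat_lit 0) (XT.lf (nat_lit 0) (nat_lit 5956855321) (nat_lit 380) (nat_lit 49365298831) (nat_lit 456)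 (nat_lit 5826961904) (nat_lit 124) (nat_lit 5) (nat_lit 129) (nat_lit 5) (nat_lit 130) (nat_lit 5) (nat_lit 367) (nat_lit 332) (nat_lit 81)) (XT.lf (nat_lit 0) (nat_lit 2033072483) (nat_lit 456) (nat_lit 25300096392) (nat_lit 76) (nat_lit 34934929675) (nat_lit 123) (nat_lit 5) (nat_lit 129) (nat_lit 5) (nat_lit 124) (nat_lit 5) (nat_lit 368) (nat_lit 332) (nat_lit 80)))) (XT.nd (nat_lit 78) (nat_lit 380) (nat_lit 0) (XT.lf (nat_lit 0) (nat_lit 5538186986) (nat_lit 456) (nat_lit 4525986179) (nat_lit 532) (nat_lit 53353175919) (nat_lit 117) (nat_lit 5) (nat_lit 123) (nat_lit 5) (nat_lit 124) (nat_lit 5) (nat_lit 369) (nat_lit 332) (nat_lit 79)) (XT.nd (nat_lit 78) (nat_lit 380) (nat_lit 0) (XT.lf (nat_lit 0) (nat_lit 18775683380) (nat_lit 532) (nat_lit 26959040757) (nat_lit 76) (nat_lit 18853169467) (nat_lit 117) (nat_lit 5) (nat_lit 124) (nat_lit 5) (nat_lit 118) (nat_lit 5) (nat_lit 370) (nat_lit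 332) (nat_lit 78)) (XT.lf (nat_lit 0) (nat_lit 4939247769) (nat_lit 380) (nat_lit 22900764944) (nat_lit 456) (nat_lit 37950798277) (nat_lit 112) (nat_lit 5) (nat_lit 117) (nat_lit 5) (nat_lit 118) (nat_lit 5) (nat_lit 371) (nat_lit 332) (nat_lit 77))))) (XT.nd (nat_lit 234) (nat_lit 760) (nat_lit 0) (XT.nd (nat_lit 78) (nat_lit 380) (nat_lit 0) (XT.lf (nat_lit 0) (nat_lit 37456338733) (nat_lit 456) (nat_lit 28684188346) (nat_lit 76) (nat_lit 880887534) (nat_lit 112) (nat_lit 5) (nat_lit 118) (nat_lit 5) (nat_lit 113) (nat_lit 5) (nat_lit 372) (nat_lit 332) (nat_lit 76)) (XT.nd (nat_lit 78) (nat_lit 0) (nat_lit 0) (XT.lf (nat_lit 0) (nat_lit 4304472725) (nat_lit 380) (nat_lit 43324018052) (nat_lit 456) (nat_lit 20652426184) (nat_lit 107) (nat_lit 5) (nat_lit 112) (nat_lit 5) (nat_lit 113) (nat_lit 5) (nat_lit 373) (nat_lit 332) (nat_lit 75)) (XT.lf (nat_lit 0) (nat_lit 38869810511) (nat_lit 380)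 (nat_lit 19524883028) (nat_lit 456) (nat_lit 11174844935) (nat_lit 107) (nat_lit 5) (nat_lit 112) (nat_lit 5) (nat_lit 113) (nat_lit 5) (nat_lit 374) (nat_lit 332) (nat_lit 74)))) (XT.nd (nat_lit 156) (nat_lit 380) (nat_lit 0) (XT.nd (nat_lit 78) (nat_lit 76) (nat_lit 0) (XT.lf (nat_lit 0) (nat_lit 3596548198) (nat_lit 304) (nat_lit 65969108763) (nat_lit 380) (nat_lit 1328709094) (nat_lit 103) (nat_lit 5) (nat_lit 107) (nat_lit 5) (nat_lit 108) (nat_lit 5) (nat_lit 375) (nat_lit 332) (nat_lit 73)) (XT.lf (nat_lit 0) (nat_lit 9146490323) (nat_lit 380) (nat_lit 32980689656) (nat_lit 76) (nat_lit 30114048209) (nat_lit 102) (nat_lit 5) (nat_lit 107) (nat_lit 5) (nat_lit 103) (nat_lit 5) (nat_lit 376) (nat_lit 332) (nat_lit 72))) (XT.nd (nat_lit 78) (nat_lit 0) (nat_lit 0) (XT.lf (nat_lit 0) (nat_lit 2398652532) (nat_lit 380) (nat_lit 17532923487) (nat_lit 456) (nat_lit 53695856024) (nat_lit 97) (nat_lit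 5) (nat_lit 102) (nat_lit 5) (nat_lit 103) (nat_lit 5) (nat_lit 377) (nat_lit 332) (nat_lit 71)) (XT.lf (nat_lit 0) (nat_lit 31450810761) (nat_lit 456) (nat_lit 35609012736) (nat_lit 76) (nat_lit 7983081208) (nat_lit 97) (nat_lit 5) (nat_lit 103) (nat_lit 5) (nat_lit 98) (nat_lit 5) (nat_lit 378) (nat_lit 332) (nat_lit 70)))))) (XT.nd (nat_lit 546) (nat_lit 304) (nat_lit 0) (XT.nd (nat_lit 234) (nat_lit 684) (nat_lit 0) (XT.nd (nat_lit 78) (nat_lit 0) (nat_lit 0) (XT.lf (nat_lit 0) (nat_lit 922828447) (nat_lit 304) (nat_lit 42574567361) (nat_lit 380) (nat_lit 32997993111) (nat_lit 93) (nat_lit 5) (nat_lit 97) (nat_lit 5) (nat_lit 98) (nat_lit 5) (nat_lit 379) (nat_lit 332) (nat_lit 69)) (XT.nd (nat_lit 78) (nat_lit 0) (nat_lit 0) (XT.lf (nat_lit 0) (nat_lit 39279650864) (nat_lit 304) (nat_lit 16984629160) (nat_lit 380) (nat_lit 21716401141) (nat_lit 93) (nat_lit 5) (nat_lit 97) (nat_lit 5) (nat_lit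 98) (nat_lit 5) (nat_lit 380) (nat_lit 332) (nat_lit 68)) (XT.lf (nat_lit 0) (nat_lit 69503607771) (nat_lit 380) (nat_lit 814368300) (nat_lit 76) (nat_lit 9189873533) (nat_lit 93) (nat_lit 5) (nat_lit 98) (nat_lit 5) (nat_lit 94) (nat_lit 5) (nat_lit 381) (nat_lit 332) (nat_lit 67)))) (XT.nd (nat_lit 156) (nat_lit 304) (nat_lit 0) (XT.nd (nat_lit 78) (nat_lit 0) (nat_lit 0) (XT.lf (nat_lit 0) (nat_lit 2564910297) (nat_lit 380) (nat_lit 42292857970) (nat_lit 76) (nat_lit 36206097123) (nat_lit 88) (nat_lit 5) (nat_lit 93) (nat_lit 5) (nat_lit 89) (nat_lit 5) (nat_lit 382) (nat_lit 332) (nat_lit 66)) (XT.lf (nat_lit 0) (nat_lit 15317727296) (nat_lit 380) (nat_lit 3205702950) (nat_lit 76) (nat_lit 64139930367) (nat_lit 88) (nat_lit 5) (nat_lit 93) (nat_lit 5) (nat_lit 89) (nat_lit 5) (nat_lit 383) (nat_lit 332) (nat_lit 65))) (XT.nd (nat_lit 78) (nat_lit 0) (nat_lit 0) (XT.lf (nat_lit 0) (nat_lit 28902046617)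 (nat_lit 380) (nat_lit 46595602396) (nat_lit 76) (nat_lit 8799724623) (nat_lit 84) (nat_lit 5) (nat_lit 89) (nat_lit 5) (nat_lit 85) (nat_lit 5) (nat_lit 384) (nat_lit 332) (nat_lit 64)) (XT.lf (nat_lit 0) (nat_lit 43109374423) (nat_lit 380) (nat_lit 6261848049) (nat_lit 76) (nat_lit 36602720674) (nat_lit 84) (nat_lit 5) (nat_lit 89) (nat_lit 5) (nat_lit 85) (nat_lit 5) (nat_lit 385) (nat_lit 332) (nat_lit 63))))) (XT.nd (nat_lit 36582) (nat_lit 0) (nat_lit 8740) (XT.nd (nat_lit 78) (nat_lit 0) (nat_lit 0) (XT.lf (nat_lit 0) (nat_lit 35983232113) (nat_lit 304) (nat_lit 22104987432) (nat_lit 380) (nat_lit 29602231721) (nat_lit 80) (nat_lit 5) (nat_lit 84) (nat_lit 5) (nat_lit 85) (nat_lit 5) (nat_lit 386) (nat_lit 332) (nat_lit 62)) (XT.nd (nat_lit 36426) (nat_lit 0) (nat_lit 8740) (XT.lf (nat_lit 0) (nat_lit 73637175986) (nat_lit 380) (nat_lit 9891489879) (nat_lit 76) (nat_lit 5926166825) (nat_lit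 80) (nat_lit 5) (nat_lit 85) (nat_lit 5) (nat_lit 81) (nat_lit 5) (nat_lit 387) (nat_lit 332) (nat_lit 61)) (XT.lf (nat_lit 0) (nat_lit 4847774393) (nat_lit 0) (nat_lit 4847774393) (nat_lit 1140) (nat_lit 8009741511) (nat_lit 195) (nat_lit 5) (nat_lit 195) (nat_lit 3) (nat_lit 210) (nat_lit 3) (nat_lit 333) (nat_lit 333) (nat_lit 114)))) (XT.nd (nat_lit 156) (nat_lit 0) (nat_lit 76) (XT.nd (nat_lit 78) (nat_lit 0) (nat_lit 0) (XT.lf (nat_lit 0) (nat_lit 19794802498) (nat_lit 1140) (nat_lit 9720411389) (nat_lit 1216) (nat_lit 6423081680) (nat_lit 195) (nat_lit 5) (nat_lit 210) (nat_lit 3) (nat_lit 211) (nat_lit 5) (nat_lit 334) (nat_lit 333) (nat_lit 113)) (XT.lf (nat_lit 76) (nat_lit 6789496531) (nat_lit 0) (nat_lit 13580445548) (nat_lit 1216) (nat_lit 16107122491) (nat_lit 196) (nat_lit 5) (nat_lit 195) (nat_lit 5) (nat_lit 211) (nat_lit 5) (nat_lit 335) (nat_lit 333) (nat_lit 112))) (XT.nd (nat_lit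 78) (nat_lit 0) (nat_lit 0) (XT.lf (nat_lit 0) (nat_lit 21086809135) (nat_lit 1140) (nat_lit 13064389681) (nat_lit 1216) (nat_lit 2877065848) (nat_lit 196) (nat_lit 5) (nat_lit 211) (nat_lit 5) (nat_lit 212) (nat_lit 5) (nat_lit 336) (nat_lit 333) (nat_lit 111)) (XT.lf (nat_lit 76) (nat_lit 4000010772) (nat_lit 0) (nat_lit 17996254564) (nat_lit 1216) (nat_lit 15594605086) (nat_lit 197) (nat_lit 5) (nat_lit 196) (nat_lit 5) (nat_lit 212) (nat_lit 5) (nat_lit 337) (nat_lit 333) (nat_lit 110))))))) (XT.nd (nat_lit 1092) (nat_lit 3800) (nat_lit 0) (XT.nd (nat_lit 546) (nat_lit 836) (nat_lit 0) (XT.nd (nat_lit 234) (nat_lit 0) (nat_lit 152) (XT.nd (nat_lit 78) (nat_lit 0) (nat_lit 76) (XT.lf (nat_lit 76) (nat_lit 21843092874) (nat_lit 0) (nat_lit 1220052850) (nat_lit 1216) (nat_lit 15103306505) (nat_lit 197) (nat_lit 5) (nat_lit 196) (nat_lit 5) (nat_lit 212) (nat_lit 5) (nat_lit 338) (nat_lit 333)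 (nat_lit 109)) (XT.nd (nat_lit 78) (nat_lit 0) (nat_lit 0) (XT.lf (nat_lit 76) (nat_lit 1332711307) (nat_lit 0) (nat_lit 22994779696) (nat_lit 1216) (nat_lit 14426848765) (nat_lit 198) (nat_lit 5) (nat_lit 197) (nat_lit 5) (nat_lit 213) (nat_lit 5) (nat_lit 339) (nat_lit 333) (nat_lit 108)) (XT.lf (nat_lit 76) (nat_lit 19839679951) (nat_lit 0) (nat_lit 5965196351) (nat_lit 1216) (nat_lit 13549736314) (nat_lit 198) (nat_lit 5) (nat_lit 197) (nat_lit 5) (nat_lit 213) (nat_lit 5) (nat_lit 340) (nat_lit 333) (nat_lit 107)))) (XT.nd (nat_lit 156) (nat_lit 0) (nat_lit 76) (XT.nd (nat_lit 78) (nat_lit 0) (nat_lit 0) (XT.lf (nat_lit 0) (nat_lit 27436220990) (nat_lit 1140) (nat_lit 1183406803) (nat_lit 1216) (nat_lit 11349978637) (nat_lit 198) (nat_lit 5) (nat_lit 213) (nat_lit 5) (nat_lit 214) (nat_lit 5) (nat_lit 341) (nat_lit 333) (nat_lit 106)) (XT.lf (nat_lit 76) (nat_lit 17988962860) (nat_lit 0) (nat_lit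 11357942132) (nat_lit 1216) (nat_lit 11249234953) (nat_lit 199) (nat_lit 5) (nat_lit 198) (nat_lit 5) (nat_lit 214) (nat_lit 5) (nat_lit 342) (nat_lit 333) (nat_lit 105))) (XT.nd (nat_lit 78) (nat_lit 0) (nat_lit 0) (XT.lf (nat_lit 0) (nat_lit 31387163541) (nat_lit 1140) (nat_lit 3543307790) (nat_lit 1216) (nat_lit 6308832322) (nat_lit 199) (nat_lit 5) (nat_lit 214) (nat_lit 5) (nat_lit 215) (nat_lit 5) (nat_lit 343) (nat_lit 333) (nat_lit 104)) (XT.lf (nat_lit 76) (nat_lit 16296954897) (nat_lit 0) (nat_lit 17459288380) (nat_lit 1216) (nat_lit 8137492342) (nat_lit 200) (nat_lit 5) (nat_lit 199) (nat_lit 5) (nat_lit 215) (nat_lit 5) (nat_lit 344) (nat_lit 333) (nat_lit 103))))) (XT.nd (nat_lit 234) (nat_lit 1140) (nat_lit 0) (XT.nd (nat_lit 78) (nat_lit 0) (nat_lit 0) (XT.lf (nat_lit 0) (nat_lit 36236222177) (nat_lit 1140) (nat_lit 5768293187) (nat_lit 1216) (nat_lit 562092080) (nat_lit 200) (nat_lit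 5) (nat_lit 215) (nat_lit 5) (nat_lit 216) (nat_lit 5) (nat_lit 345) (nat_lit 333) (nat_lit 102)) (XT.nd (nat_lit 78) (nat_lit 0) (nat_lit 0) (XT.lf (nat_lit 76) (nat_lit 14769300632) (nat_lit 0) (nat_lit 24334717545) (nat_lit 1216) (nat_lit 4146246365) (nat_lit 201) (nat_lit 5) (nat_lit 200) (nat_lit 5) (nat_lit 216) (nat_lit 5) (nat_lit 346) (nat_lit 333) (nat_lit 101)) (XT.lf (nat_lit 76) (nat_lit 36040190918) (nat_lit 0) (nat_lit 6074518493) (nat_lit 1216) (nat_lit 1838017705) (nat_lit 201) (nat_lit 5) (nat_lit 200) (nat_lit 5) (nat_lit 216) (nat_lit 5) (nat_lit 347) (nat_lit 333) (nat_lit 100)))) (XT.nd (nat_lit 156) (nat_lit 0) (nat_lit 76) (XT.nd (nat_lit 78) (nat_lit 0) (nat_lit 0) (XT.lf (nat_lit 0) (nat_lit 781378995) (nat_lit 1216) (nat_lit 31265273527) (nat_lit 1292) (nat_lit 12621883552) (nat_lit 185) (nat_lit 5) (nat_lit 201) (nat_lit 5) (nat_lit 202) (nat_lit 5) (nat_lit 348) (nat_lit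 333) (nat_lit 99)) (XT.lf (nat_lit 0) (nat_lit 3581921688) (nat_lit 1216) (nat_lit 9962927302) (nat_lit 1292) (nat_lit 31856240638) (nat_lit 185) (nat_lit 5) (nat_lit 201) (nat_lit 5) (nat_lit 202) (nat_lit 5) (nat_lit 349) (nat_lit 333) (nat_lit 98))) (XT.nd (nat_lit 78) (nat_lit 0) (nat_lit 0) (XT.lf (nat_lit 0) (nat_lit 6636765014) (nat_lit 1216) (nat_lit 33990497583) (nat_lit 76) (nat_lit 5523250086) (nat_lit 186) (nat_lit 5) (nat_lit 202) (nat_lit 5) (nat_lit 187) (nat_lit 5) (nat_lit 350) (nat_lit 333) (nat_lit 97)) (XT.lf (nat_lit 0) (nat_lit 10017701680) (nat_lit 1216) (nat_lit 11904732677) (nat_lit 76) (nat_lit 24992952015) (nat_lit 186) (nat_lit 5) (nat_lit 202) (nat_lit 5) (nat_lit 187) (nat_lit 5) (nat_lit 351) (nat_lit 333) (nat_lit 96)))))) (XT.nd (nat_lit 546) (nat_lit 1520) (nat_lit 0) (XT.nd (nat_lit 234) (nat_lit 1064) (nat_lit 0) (XT.nd (nat_lit 78) (nat_lit 608) (nat_lit 0)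 (XT.lf (nat_lit 0) (nat_lit 11058320082) (nat_lit 684) (nat_lit 2546820937) (nat_lit 760) (nat_lit 34094914359) (nat_lit 177) (nat_lit 5) (nat_lit 186) (nat_lit 5) (nat_lit 187) (nat_lit 5) (nat_lit 352) (nat_lit 333) (nat_lit 95)) (XT.nd (nat_lit 78) (nat_lit 608) (nat_lit 0) (XT.lf (nat_lit 0) (nat_lit 17587766411) (nat_lit 760) (nat_lit 13720005477) (nat_lit 76) (nat_lit 17191866983) (nat_lit 177) (nat_lit 5) (nat_lit 187) (nat_lit 5) (nat_lit 178) (nat_lit 5) (nat_lit 353) (nat_lit 333) (nat_lit 94)) (XT.lf (nat_lit 0) (nat_lit 10059386278) (nat_lit 608) (nat_lit 11751234219) (nat_lit 684) (nat_lit 27508968141) (nat_lit 169) (nat_lit 5) (nat_lit 177) (nat_lit 5) (nat_lit 178) (nat_lit 5) (nat_lit 354) (nat_lit 333) (nat_lit 93)))) (XT.nd (nat_lit 156) (nat_lit 532) (nat_lit 0) (XT.nd (nat_lit 78) (nat_lit 532) (nat_lit 0) (XT.lf (nat_lit 0) (nat_lit 26379607518) (nat_lit 684) (nat_lit 15409709344)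 (nat_lit 76) (nat_lit 8368237844) (nat_lit 169) (nat_lit 5) (nat_lit 178) (nat_lit 5) (nat_lit 170) (nat_lit 5) (nat_lit 355) (nat_lit 333) (nat_lit 92)) (XT.lf (nat_lit 0) (nat_lit 9218778581) (nat_lit 532) (nat_lit 22070745518) (nat_lit 608) (nat_lit 19725021053) (nat_lit 162) (nat_lit 5) (nat_lit 169) (nat_lit 5) (nat_lit 170) (nat_lit 5) (nat_lit 356) (nat_lit 333) (nat_lit 91))) (XT.nd (nat_lit 78) (nat_lit 532) (nat_lit 0) (XT.lf (nat_lit 0) (nat_lit 34900952893) (nat_lit 532) (nat_lit 1600309771) (nat_lit 608) (nat_lit 15391348069) (nat_lit 162) (nat_lit 5) (nat_lit 169) (nat_lit 5) (nat_lit 170) (nat_lit 5) (nat_lit 357) (nat_lit 333) (nat_lit 90)) (XT.lf (nat_lit 0) (nat_lit 8534769306) (nat_lit 532) (nat_lit 33602868413) (nat_lit 608) (nat_lit 10651333159) (nat_lit 155) (nat_lit 5) (nat_lit 162) (nat_lit 5) (nat_lit 163) (nat_lit 5) (nat_lit 358) (nat_lit 333) (nat_lit 89))))) (XT.nd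 (nat_lit 234) (nat_lit 988) (nat_lit 0) (XT.nd (nat_lit 78) (nat_lit 532) (nat_lit 0) (XT.lf (nat_lit 0) (nat_lit 35158097434) (nat_lit 532) (nat_lit 12971247404) (nat_lit 608) (nat_lit 5577290857) (nat_lit 155) (nat_lit 5) (nat_lit 162) (nat_lit 5) (nat_lit 163) (nat_lit 5) (nat_lit 359) (nat_lit 333) (nat_lit 88)) (XT.nd (nat_lit 78) (nat_lit 76) (nat_lit 0) (XT.lf (nat_lit 0) (nat_lit 8003848224) (nat_lit 456) (nat_lit 46452477718) (nat_lit 532) (nat_lit 190839891) (nat_lit 149) (nat_lit 5) (nat_lit 155) (nat_lit 5) (nat_lit 156) (nat_lit 5) (nat_lit 360) (nat_lit 333) (nat_lit 87)) (XT.lf (nat_lit 0) (nat_lit 5569260257) (nat_lit 532) (nat_lit 20060094250) (nat_lit 76) (nat_lit 29975515646) (nat_lit 148) (nat_lit 5) (nat_lit 155) (nat_lit 5) (nat_lit 149) (nat_lit 5) (nat_lit 361) (nat_lit 333) (nat_lit 86)))) (XT.nd (nat_lit 156) (nat_lit 456) (nat_lit 0) (XT.nd (nat_lit 78) (nat_lit 0) (nat_lit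 0) (XT.lf (nat_lit 0) (nat_lit 7463348622) (nat_lit 532) (nat_lit 4105757735) (nat_lit 608) (nat_lit 45020020171) (nat_lit 141) (nat_lit 5) (nat_lit 148) (nat_lit 5) (nat_lit 149) (nat_lit 5) (nat_lit 362) (nat_lit 333) (nat_lit 85)) (XT.lf (nat_lit 0) (nat_lit 18126212961) (nat_lit 608) (nat_lit 21549813092) (nat_lit 76) (nat_lit 17915567529) (nat_lit 141) (nat_lit 5) (nat_lit 149) (nat_lit 5) (nat_lit 142) (nat_lit 5) (nat_lit 363) (nat_lit 333) (nat_lit 84))) (XT.nd (nat_lit 78) (nat_lit 0) (nat_lit 0) (XT.lf (nat_lit 0) (nat_lit 6947334408) (nat_lit 456) (nat_lit 18039213020) (nat_lit 532) (nat_lit 33634392695) (nat_lit 135) (nat_lit 5) (nat_lit 141) (nat_lit 5) (nat_lit 142) (nat_lit 5) (nat_lit 364) (nat_lit 333) (nat_lit 83)) (XT.lf (nat_lit 0) (nat_lit 32312376979) (nat_lit 532) (nat_lit 22977498575) (nat_lit 76) (nat_lit 4383501843) (nat_lit 135) (nat_lit 5) (nat_lit 142) (nat_lit 5) (nat_lit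 136) (nat_lit 5) (nat_lit 365) (nat_lit 333) (nat_lit 82))))))))
noncomputable def xc243 : XT := (XT.nd (nat_lit 38688) (nat_lit 0) (nat_lit 3420) (XT.nd (nat_lit 1092) (nat_lit 988) (nat_lit 0) (XT.nd (nat_lit 546) (nat_lit 1140) (nat_lit 0) (XT.nd (nat_lit 234) (nat_lit 912) (nat_lit 0) (XT.nd (nat_lit 78) (nat_lit 380) (nat_lit 0) (XT.lf (nat_lit 0) (nat_lit 6527256249) (nat_lit 456) (nat_lit 33571199202) (nat_lit 532) (nat_lit 20651718977) (nat_lit 129) (nat_lit 5) (nat_lit 135) (nat_lit 5) (nat_lit 136) (nat_lit 5) (nat_lit 366) (nat_lit 333) (nat_lit 81)) (XT.nd (nat_lit 78) (nat_lit 380) (nat_lit 0) (XT.lf (nat_lit 0) (nat_lit 37387179975) (nat_lit 456) (nat_lit 10962103972) (nat_lit 532) (nat_lit 13503057232) (nat_lit 129) (nat_lit 5) (nat_lit 135) (nat_lit 5) (nat_lit 136) (nat_lit 5) (nat_lit 367) (nat_lit 333) (nat_lit 80)) (XT.lf (nat_lit 0) (nat_lit 6186587349) (nat_lit 380) (nat_lit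 50838161012) (nat_lit 456) (nat_lit 5957512051) (nat_lit 124) (nat_lit 5) (nat_lit 129) (nat_lit 5) (nat_lit 130) (nat_lit 5) (nat_lit 368) (nat_lit 333) (nat_lit 79)))) (XT.nd (nat_lit 156) (nat_lit 380) (nat_lit 0) (XT.nd (nat_lit 78) (nat_lit 456) (nat_lit 0) (XT.lf (nat_lit 0) (nat_lit 2136195787) (nat_lit 456) (nat_lit 26008681758) (nat_lit 76) (nat_lit 35989961157) (nat_lit 123) (nat_lit 5) (nat_lit 129) (nat_lit 5) (nat_lit 124) (nat_lit 5) (nat_lit 369) (nat_lit 333) (nat_lit 78)) (XT.lf (nat_lit 0) (nat_lit 5754255833) (nat_lit 456) (nat_lit 4653226429) (nat_lit 532) (nat_lit 54911108039) (nat_lit 117) (nat_lit 5) (nat_lit 123) (nat_lit 5) (nat_lit 124) (nat_lit 5) (nat_lit 370) (nat_lit 333) (nat_lit 77))) (XT.nd (nat_lit 78) (nat_lit 380) (nat_lit 0) (XT.lf (nat_lit 0) (nat_lit 19379212122) (nat_lit 532) (nat_lit 27718180516) (nat_lit 76) (nat_lit 19426893388) (nat_lit 117) (nat_lit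 5) (nat_lit 124) (nat_lit 5) (nat_lit 118) (nat_lit 5) (nat_lit 371) (nat_lit 333) (nat_lit 76)) (XT.lf (nat_lit 0) (nat_lit 5136570082) (nat_lit 380) (nat_lit 23578201092) (nat_lit 456) (nat_lit 39048541830) (nat_lit 112) (nat_lit 5) (nat_lit 117) (nat_lit 5) (nat_lit 118) (nat_lit 5) (nat_lit 372) (nat_lit 333) (nat_lit 75))))) (XT.nd (nat_lit 234) (nat_lit 760) (nat_lit 0) (XT.nd (nat_lit 78) (nat_lit 380) (nat_lit 0) (XT.lf (nat_lit 0) (nat_lit 38618524269) (nat_lit 456) (nat_lit 29495903277) (nat_lit 76) (nat_lit 916440109) (nat_lit 112) (nat_lit 5) (nat_lit 118) (nat_lit 5) (nat_lit 113) (nat_lit 5) (nat_lit 373) (nat_lit 333) (nat_lit 74)) (XT.nd (nat_lit 78) (nat_lit 0) (nat_lit 0) (XT.lf (nat_lit 0) (nat_lit 4481939090) (nat_lit 380) (nat_lit 44613245158) (nat_lit 456) (nat_lit 21232991529) (nat_lit 107) (nat_lit 5) (nat_lit 112) (nat_lit 5) (nat_lit 113) (nat_lit 5) (nat_lit 374) (nat_lit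 333) (nat_lit 73)) (XT.lf (nat_lit 0) (nat_lit 40082829276) (nat_lit 380) (nat_lit 20100441717) (nat_lit 456) (nat_lit 11472218982) (nat_lit 107) (nat_lit 5) (nat_lit 112) (nat_lit 5) (nat_lit 113) (nat_lit 5) (nat_lit 375) (nat_lit 333) (nat_lit 72)))) (XT.nd (nat_lit 156) (nat_lit 380) (nat_lit 0) (XT.nd (nat_lit 78) (nat_lit 76) (nat_lit 0) (XT.lf (nat_lit 0) (nat_lit 3751935608) (nat_lit 304) (nat_lit 67936909302) (nat_lit 380) (nat_lit 1331233975) (nat_lit 103) (nat_lit 5) (nat_lit 107) (nat_lit 5) (nat_lit 108) (nat_lit 5) (nat_lit 376) (nat_lit 333) (nat_lit 71)) (XT.lf (nat_lit 0) (nat_lit 9456426611) (nat_lit 380) (nat_lit 33923265475) (nat_lit 76) (nat_lit 31027676909) (nat_lit 102) (nat_lit 5) (nat_lit 107) (nat_lit 5) (nat_lit 103) (nat_lit 5) (nat_lit 377) (nat_lit 333) (nat_lit 70))) (XT.nd (nat_lit 78) (nat_lit 0) (nat_lit 0) (XT.lf (nat_lit 0) (nat_lit 2516997715) (nat_lit 380)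 (nat_lit 18047477857) (nat_lit 456) (nat_lit 55270701939) (nat_lit 97) (nat_lit 5) (nat_lit 102) (nat_lit 5) (nat_lit 103) (nat_lit 5) (nat_lit 378) (nat_lit 333) (nat_lit 69)) (XT.lf (nat_lit 0) (nat_lit 32428376032) (nat_lit 456) (nat_lit 36631309142) (nat_lit 76) (nat_lit 8233457361) (nat_lit 97) (nat_lit 5) (nat_lit 103) (nat_lit 5) (nat_lit 98) (nat_lit 5) (nat_lit 379) (nat_lit 333) (nat_lit 68)))))) (XT.nd (nat_lit 37050) (nat_lit 0) (nat_lit 8436) (XT.nd (nat_lit 234) (nat_lit 684) (nat_lit 0) (XT.nd (nat_lit 78) (nat_lit 0) (nat_lit 0) (XT.lf (nat_lit 0) (nat_lit 996036551) (nat_lit 304) (nat_lit 43839768193) (nat_lit 380) (nat_lit 33953413967) (nat_lit 93) (nat_lit 5) (nat_lit 97) (nat_lit 5) (nat_lit 98) (nat_lit 5) (nat_lit 380) (nat_lit 333) (nat_lit 67)) (XT.nd (nat_lit 78) (nat_lit 0) (nat_lit 0) (XT.lf (nat_lit 0) (nat_lit 40502237720) (nat_lit 304) (nat_lit 17482482416) (nat_lit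 380) (nat_lit 22334379643) (nat_lit 93) (nat_lit 5) (nat_lit 97) (nat_lit 5) (nat_lit 98) (nat_lit 5) (nat_lit 381) (nat_lit 333) (nat_lit 66)) (XT.lf (nat_lit 0) (nat_lit 71620389830) (nat_lit 380) (nat_lit 795025736) (nat_lit 76) (nat_lit 9476693614) (nat_lit 93) (nat_lit 5) (nat_lit 98) (nat_lit 5) (nat_lit 94) (nat_lit 5) (nat_lit 382) (nat_lit 333) (nat_lit 65)))) (XT.nd (nat_lit 156) (nat_lit 304) (nat_lit 0) (XT.nd (nat_lit 78) (nat_lit 0) (nat_lit 0) (XT.lf (nat_lit 0) (nat_lit 2673358602) (nat_lit 380) (nat_lit 43517648094) (nat_lit 76) (nat_lit 37303805402) (nat_lit 88) (nat_lit 5) (nat_lit 93) (nat_lit 5) (nat_lit 89) (nat_lit 5) (nat_lit 383) (nat_lit 333) (nat_lit 64)) (XT.lf (nat_lit 0) (nat_lit 15807842607) (nat_lit 380) (nat_lit 3259159849) (nat_lit 76) (nat_lit 66075317953) (nat_lit 88) (nat_lit 5) (nat_lit 93) (nat_lit 5) (nat_lit 89) (nat_lit 5) (nat_lit 384) (nat_lit 333) (nat_lit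 63))) (XT.nd (nat_lit 78) (nat_lit 0) (nat_lit 0) (XT.lf (nat_lit 0) (nat_lit 29799324533) (nat_lit 380) (nat_lit 47950366471) (nat_lit 76) (nat_lit 9075674514) (nat_lit 84) (nat_lit 5) (nat_lit 89) (nat_lit 5) (nat_lit 85) (nat_lit 5) (nat_lit 385) (nat_lit 333) (nat_lit 62)) (XT.lf (nat_lit 0) (nat_lit 44431992080) (nat_lit 380) (nat_lit 6407854950) (nat_lit 76) (nat_lit 37712412151) (nat_lit 84) (nat_lit 5) (nat_lit 89) (nat_lit 5) (nat_lit 85) (nat_lit 5) (nat_lit 386) (nat_lit 333) (nat_lit 61))))) (XT.nd (nat_lit 234) (nat_lit 0) (nat_lit 76) (XT.nd (nat_lit 78) (nat_lit 0) (nat_lit 0) (XT.lf (nat_lit 0) (nat_lit 5017901484) (nat_lit 0) (nat_lit 5017901484) (nat_lit 1140) (nat_lit 8199106385) (nat_lit 195) (nat_lit 5) (nat_lit 195) (nat_lit 3) (nat_lit 210) (nat_lit 3) (nat_lit 334) (nat_lit 334) (nat_lit 112)) (XT.nd (nat_lit 78) (nat_lit 0) (nat_lit 0) (XT.lf (nat_lit 0) (nat_lit 20484084140)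 (nat_lit 1140) (nat_lit 9960623957) (nat_lit 1216) (nat_lit 6568760551) (nat_lit 195) (nat_lit 5) (nat_lit 210) (nat_lit 3) (nat_lit 211) (nat_lit 5) (nat_lit 335) (nat_lit 334) (nat_lit 111)) (XT.lf (nat_lit 76) (nat_lit 7044077281) (nat_lit 0) (nat_lit 14030110134) (nat_lit 1216) (nat_lit 16494285302) (nat_lit 196) (nat_lit 5) (nat_lit 195) (nat_lit 5) (nat_lit 211) (nat_lit 5) (nat_lit 336) (nat_lit 334) (nat_lit 110)))) (XT.nd (nat_lit 156) (nat_lit 0) (nat_lit 0) (XT.nd (nat_lit 78) (nat_lit 0) (nat_lit 0) (XT.lf (nat_lit 0) (nat_lit 21809453147) (nat_lit 1140) (nat_lit 13403694392) (nat_lit 1216) (nat_lit 2923157681) (nat_lit 196) (nat_lit 5) (nat_lit 211) (nat_lit 5) (nat_lit 212) (nat_lit 5) (nat_lit 337) (nat_lit 334) (nat_lit 109)) (XT.lf (nat_lit 76) (nat_lit 4172122124) (nat_lit 0) (nat_lit 18571949316) (nat_lit 1216) (nat_lit 15971784451) (nat_lit 197) (nat_lit 5) (nat_lit 196) (nat_lit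 5) (nat_lit 212) (nat_lit 5) (nat_lit 338) (nat_lit 334) (nat_lit 108))) (XT.nd (nat_lit 78) (nat_lit 0) (nat_lit 76) (XT.lf (nat_lit 76) (nat_lit 22548978892) (nat_lit 0) (nat_lit 1291418625) (nat_lit 1216) (nat_lit 15468387461) (nat_lit 197) (nat_lit 5) (nat_lit 196) (nat_lit 5) (nat_lit 212) (nat_lit 5) (nat_lit 339) (nat_lit 334) (nat_lit 107)) (XT.lf (nat_lit 76) (nat_lit 1425755496) (nat_lit 0) (nat_lit 23714617150) (nat_lit 1216) (nat_lit 14774008426) (nat_lit 198) (nat_lit 5) (nat_lit 197) (nat_lit 5) (nat_lit 213) (nat_lit 5) (nat_lit 340) (nat_lit 334) (nat_lit 106))))))) (XT.nd (nat_lit 1092) (nat_lit 3648) (nat_lit 0) (XT.nd (nat_lit 546) (nat_lit 1520) (nat_lit 0) (XT.nd (nat_lit 234) (nat_lit 0) (nat_lit 152) (XT.nd (nat_lit 78) (nat_lit 0) (nat_lit 76) (XT.lf (nat_lit 76) (nat_lit 20486387679) (nat_lit 0) (nat_lit 6173272692) (nat_lit 1216) (nat_lit 13873077140) (nat_lit 198) (nat_lit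 5) (nat_lit 197) (nat_lit 5) (nat_lit 213) (nat_lit 5) (nat_lit 341) (nat_lit 334) (nat_lit 105)) (XT.nd (nat_lit 78) (nat_lit 0) (nat_lit 0) (XT.lf (nat_lit 0) (nat_lit 28337324956) (nat_lit 1140) (nat_lit 1166180135) (nat_lit 1216) (nat_lit 11662757408) (nat_lit 198) (nat_lit 5) (nat_lit 213) (nat_lit 5) (nat_lit 214) (nat_lit 5) (nat_lit 342) (nat_lit 334) (nat_lit 104)) (XT.lf (nat_lit 76) (nat_lit 18580843667) (nat_lit 0) (nat_lit 11722715355) (nat_lit 1216) (nat_lit 11508088782) (nat_lit 199) (nat_lit 5) (nat_lit 198) (nat_lit 5) (nat_lit 214) (nat_lit 5) (nat_lit 343) (nat_lit 334) (nat_lit 103)))) (XT.nd (nat_lit 156) (nat_lit 0) (nat_lit 76) (XT.nd (nat_lit 78) (nat_lit 0) (nat_lit 0) (XT.lf (nat_lit 0) (nat_lit 32402580234) (nat_lit 1140) (nat_lit 3596384401) (nat_lit 1216) (nat_lit 6475217729) (nat_lit 199) (nat_lit 5) (nat_lit 214) (nat_lit 5) (nat_lit 215) (nat_lit 5) (nat_lit 344)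 (nat_lit 334) (nat_lit 102)) (XT.lf (nat_lit 76) (nat_lit 16838564376) (nat_lit 0) (nat_lit 18002525013) (nat_lit 1216) (nat_lit 8307209706) (nat_lit 200) (nat_lit 5) (nat_lit 199) (nat_lit 5) (nat_lit 215) (nat_lit 5) (nat_lit 345) (nat_lit 334) (nat_lit 101))) (XT.nd (nat_lit 78) (nat_lit 0) (nat_lit 0) (XT.lf (nat_lit 0) (nat_lit 37393184349) (nat_lit 1140) (nat_lit 5887811431) (nat_lit 1216) (nat_lit 560432234) (nat_lit 200) (nat_lit 5) (nat_lit 215) (nat_lit 5) (nat_lit 216) (nat_lit 5) (nat_lit 346) (nat_lit 334) (nat_lit 100)) (XT.lf (nat_lit 76) (nat_lit 15265385392) (nat_lit 0) (nat_lit 25080103151) (nat_lit 1216) (nat_lit 4200154424) (nat_lit 201) (nat_lit 5) (nat_lit 200) (nat_lit 5) (nat_lit 216) (nat_lit 5) (nat_lit 347) (nat_lit 334) (nat_lit 99))))) (XT.nd (nat_lit 234) (nat_lit 608) (nat_lit 0) (XT.nd (nat_lit 78) (nat_lit 1140) (nat_lit 0) (XT.lf (nat_lit 76) (nat_lit 37172858530)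 (nat_lit 0) (nat_lit 6271651213) (nat_lit 1216) (nat_lit 1824731700) (nat_lit 201) (nat_lit 5) (nat_lit 200) (nat_lit 5) (nat_lit 216) (nat_lit 5) (nat_lit 348) (nat_lit 334) (nat_lit 98)) (XT.nd (nat_lit 78) (nat_lit 0) (nat_lit 0) (XT.lf (nat_lit 0) (nat_lit 870333065) (nat_lit 1216) (nat_lit 32148709219) (nat_lit 1292) (nat_lit 12987512180) (nat_lit 185) (nat_lit 5) (nat_lit 201) (nat_lit 5) (nat_lit 202) (nat_lit 5) (nat_lit 349) (nat_lit 334) (nat_lit 97)) (XT.lf (nat_lit 0) (nat_lit 3752983902) (nat_lit 1216) (nat_lit 10208880641) (nat_lit 1292) (nat_lit 32799279431) (nat_lit 185) (nat_lit 5) (nat_lit 201) (nat_lit 5) (nat_lit 202) (nat_lit 5) (nat_lit 350) (nat_lit 334) (nat_lit 96)))) (XT.nd (nat_lit 156) (nat_lit 684) (nat_lit 0) (XT.nd (nat_lit 78) (nat_lit 0) (nat_lit 0) (XT.lf (nat_lit 0) (nat_lit 6898029227) (nat_lit 1216) (nat_lit 34955766569) (nat_lit 76) (nat_lit 5679299269) (nat_lit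 186) (nat_lit 5) (nat_lit 202) (nat_lit 5) (nat_lit 187) (nat_lit 5) (nat_lit 351) (nat_lit 334) (nat_lit 95)) (XT.lf (nat_lit 0) (nat_lit 10378583470) (nat_lit 1216) (nat_lit 12209014520) (nat_lit 76) (nat_lit 25733373275) (nat_lit 186) (nat_lit 5) (nat_lit 202) (nat_lit 5) (nat_lit 187) (nat_lit 5) (nat_lit 352) (nat_lit 334) (nat_lit 94))) (XT.nd (nat_lit 78) (nat_lit 0) (nat_lit 0) (XT.lf (nat_lit 0) (nat_lit 11442411585) (nat_lit 684) (nat_lit 2629979759) (nat_lit 760) (nat_lit 35056828565) (nat_lit 177) (nat_lit 5) (nat_lit 186) (nat_lit 5) (nat_lit 187) (nat_lit 5) (nat_lit 353) (nat_lit 334) (nat_lit 93)) (XT.lf (nat_lit 0) (nat_lit 18172711217) (nat_lit 760) (nat_lit 14078941606) (nat_lit 76) (nat_lit 17701193483) (nat_lit 177) (nat_lit 5) (nat_lit 187) (nat_lit 5) (nat_lit 178) (nat_lit 5) (nat_lit 354) (nat_lit 334) (nat_lit 92)))))) (XT.nd (nat_lit 546) (nat_lit 1520) (nat_lit 0) (XT.nd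 (nat_lit 234) (nat_lit 988) (nat_lit 0) (XT.nd (nat_lit 78) (nat_lit 532) (nat_lit 0) (XT.lf (nat_lit 0) (nat_lit 10413315587) (nat_lit 608) (nat_lit 12107767337) (nat_lit 684) (nat_lit 28276348497) (nat_lit 169) (nat_lit 5) (nat_lit 177) (nat_lit 5) (nat_lit 178) (nat_lit 5) (nat_lit 355) (nat_lit 334) (nat_lit 91)) (XT.nd (nat_lit 78) (nat_lit 532) (nat_lit 0) (XT.lf (nat_lit 0) (nat_lit 27225467007) (nat_lit 684) (nat_lit 15819640421) (nat_lit 76) (nat_lit 8615480985) (nat_lit 169) (nat_lit 5) (nat_lit 178) (nat_lit 5) (nat_lit 170) (nat_lit 5) (nat_lit 356) (nat_lit 334) (nat_lit 90)) (XT.lf (nat_lit 0) (nat_lit 9547188806) (nat_lit 532) (nat_lit 22734404121) (nat_lit 608) (nat_lit 20261730003) (nat_lit 162) (nat_lit 5) (nat_lit 169) (nat_lit 5) (nat_lit 170) (nat_lit 5) (nat_lit 357) (nat_lit 334) (nat_lit 89)))) (XT.nd (nat_lit 156) (nat_lit 456) (nat_lit 0) (XT.nd (nat_lit 78) (nat_lit 532)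 (nat_lit 0) (XT.lf (nat_lit 0) (nat_lit 35998318244) (nat_lit 532) (nat_lit 1649810557) (nat_lit 608) (nat_lit 15799649986) (nat_lit 162) (nat_lit 5) (nat_lit 169) (nat_lit 5) (nat_lit 170) (nat_lit 5) (nat_lit 358) (nat_lit 334) (nat_lit 88)) (XT.lf (nat_lit 0) (nat_lit 8842264330) (nat_lit 532) (nat_lit 34610301885) (nat_lit 608) (nat_lit 10918496002) (nat_lit 155) (nat_lit 5) (nat_lit 162) (nat_lit 5) (nat_lit 163) (nat_lit 5) (nat_lit 359) (nat_lit 334) (nat_lit 87))) (XT.nd (nat_lit 78) (nat_lit 456) (nat_lit 0) (XT.lf (nat_lit 0) (nat_lit 36262793701) (nat_lit 532) (nat_lit 13359751253) (nat_lit 608) (nat_lit 5693757979) (nat_lit 155) (nat_lit 5) (nat_lit 162) (nat_lit 5) (nat_lit 163) (nat_lit 5) (nat_lit 360) (nat_lit 334) (nat_lit 86)) (XT.lf (nat_lit 0) (nat_lit 8294938061) (nat_lit 456) (nat_lit 47843456842) (nat_lit 532) (nat_lit 146683811) (nat_lit 149) (nat_lit 5) (nat_lit 155) (nat_lit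 5) (nat_lit 156) (nat_lit 5) (nat_lit 361) (nat_lit 334) (nat_lit 85))))) (XT.nd (nat_lit 234) (nat_lit 912) (nat_lit 0) (XT.nd (nat_lit 78) (nat_lit 532) (nat_lit 0) (XT.lf (nat_lit 0) (nat_lit 5783821475) (nat_lit 532) (nat_lit 20611414559) (nat_lit 76) (nat_lit 30876307914) (nat_lit 148) (nat_lit 5) (nat_lit 155) (nat_lit 5) (nat_lit 149) (nat_lit 5) (nat_lit 362) (nat_lit 334) (nat_lit 84)) (XT.nd (nat_lit 78) (nat_lit 0) (nat_lit 0) (XT.lf (nat_lit 0) (nat_lit 7737236673) (nat_lit 532) (nat_lit 4225523785) (nat_lit 608) (nat_lit 46322596025) (nat_lit 141) (nat_lit 5) (nat_lit 148) (nat_lit 5) (nat_lit 149) (nat_lit 5) (nat_lit 363) (nat_lit 334) (nat_lit 83)) (XT.lf (nat_lit 0) (nat_lit 18715255327) (nat_lit 608) (nat_lit 22146405848) (nat_lit 76) (nat_lit 18456277473) (nat_lit 141) (nat_lit 5) (nat_lit 149) (nat_lit 5) (nat_lit 142) (nat_lit 5) (nat_lit 364) (nat_lit 334) (nat_lit 82))))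 (XT.nd (nat_lit 156) (nat_lit 456) (nat_lit 0) (XT.nd (nat_lit 78) (nat_lit 0) (nat_lit 0) (XT.lf (nat_lit 0) (nat_lit 7205166845) (nat_lit 456) (nat_lit 18575389830) (nat_lit 532) (nat_lit 34597635516) (nat_lit 135) (nat_lit 5) (nat_lit 141) (nat_lit 5) (nat_lit 142) (nat_lit 5) (nat_lit 365) (nat_lit 334) (nat_lit 81)) (XT.lf (nat_lit 0) (nat_lit 33324914195) (nat_lit 532) (nat_lit 23617560930) (nat_lit 76) (nat_lit 4519766141) (nat_lit 135) (nat_lit 5) (nat_lit 142) (nat_lit 5) (nat_lit 136) (nat_lit 5) (nat_lit 366) (nat_lit 334) (nat_lit 80))) (XT.nd (nat_lit 78) (nat_lit 0) (nat_lit 0) (XT.lf (nat_lit 0) (nat_lit 6771853573) (nat_lit 456) (nat_lit 34571933089) (nat_lit 532) (nat_lit 21227580435) (nat_lit 129) (nat_lit 5) (nat_lit 135) (nat_lit 5) (nat_lit 136) (nat_lit 5) (nat_lit 367) (nat_lit 334) (nat_lit 79)) (XT.lf (nat_lit 0) (nat_lit 38556154244) (nat_lit 456) (nat_lit 11284751471)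 (nat_lit 532) (nat_lit 13865731365) (nat_lit 129) (nat_lit 5) (nat_lit 135) (nat_lit 5) (nat_lit 136) (nat_lit 5) (nat_lit 368) (nat_lit 334) (nat_lit 78))))))))
noncomputable def xc244 : XT := (XT.nd (nat_lit 38766) (nat_lit 0) (nat_lit 2204) (XT.nd (nat_lit 1014) (nat_lit 380) (nat_lit 0) (XT.nd (nat_lit 468) (nat_lit 1444) (nat_lit 0) (XT.nd (nat_lit 234) (nat_lit 380) (nat_lit 0) (XT.nd (nat_lit 78) (nat_lit 532) (nat_lit 0) (XT.lf (nat_lit 0) (nat_lit 6420282215) (nat_lit 380) (nat_lit 52355673848) (nat_lit 456) (nat_lit 6094519333) (nat_lit 124) (nat_lit 5) (nat_lit 129) (nat_lit 5) (nat_lit 130) (nat_lit 5) (nat_lit 369) (nat_lit 334) (nat_lit 77)) (XT.nd (nat_lit 78) (nat_lit 456) (nat_lit 0) (XT.lf (nat_lit 0) (nat_lit 2239994290) (nat_lit 456) (nat_lit 26741418857) (nat_lit 76) (nat_lit 37076242697) (nat_lit 123) (nat_lit 5) (nat_lit 129) (nat_lit 5) (nat_lit 124) (nat_lit 5) (nat_lit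 370) (nat_lit 334) (nat_lit 76)) (XT.lf (nat_lit 0) (nat_lit 5973940946) (nat_lit 456) (nat_lit 4784774080) (nat_lit 532) (nat_lit 56518227162) (nat_lit 117) (nat_lit 5) (nat_lit 123) (nat_lit 5) (nat_lit 124) (nat_lit 5) (nat_lit 371) (nat_lit 334) (nat_lit 75)))) (XT.nd (nat_lit 78) (nat_lit 380) (nat_lit 0) (XT.lf (nat_lit 0) (nat_lit 19998535738) (nat_lit 532) (nat_lit 28502943517) (nat_lit 76) (nat_lit 20017362398) (nat_lit 117) (nat_lit 5) (nat_lit 124) (nat_lit 5) (nat_lit 118) (nat_lit 5) (nat_lit 372) (nat_lit 334) (nat_lit 74)) (XT.nd (nat_lit 78) (nat_lit 0) (nat_lit 0) (XT.lf (nat_lit 0) (nat_lit 5336990948) (nat_lit 380) (nat_lit 24276510646) (nat_lit 456) (nat_lit 40181558651) (nat_lit 112) (nat_lit 5) (nat_lit 117) (nat_lit 5) (nat_lit 118) (nat_lit 5) (nat_lit 373) (nat_lit 334) (nat_lit 73)) (XT.lf (nat_lit 0) (nat_lit 39813365578) (nat_lit 456) (nat_lit 30334771591) (nat_lit 76)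 (nat_lit 952535394) (nat_lit 112) (nat_lit 5) (nat_lit 118) (nat_lit 5) (nat_lit 113) (nat_lit 5) (nat_lit 374) (nat_lit 334) (nat_lit 72))))) (XT.nd (nat_lit 234) (nat_lit 760) (nat_lit 0) (XT.nd (nat_lit 78) (nat_lit 304) (nat_lit 0) (XT.lf (nat_lit 0) (nat_lit 4661954981) (nat_lit 380) (nat_lit 45941751443) (nat_lit 456) (nat_lit 21833213021) (nat_lit 107) (nat_lit 5) (nat_lit 112) (nat_lit 5) (nat_lit 113) (nat_lit 5) (nat_lit 375) (nat_lit 334) (nat_lit 71)) (XT.nd (nat_lit 78) (nat_lit 304) (nat_lit 0) (XT.lf (nat_lit 0) (nat_lit 41329544949) (nat_lit 380) (nat_lit 20693851988) (nat_lit 456) (nat_lit 11780688217) (nat_lit 107) (nat_lit 5) (nat_lit 112) (nat_lit 5) (nat_lit 113) (nat_lit 5) (nat_lit 376) (nat_lit 334) (nat_lit 70)) (XT.lf (nat_lit 0) (nat_lit 3909258465) (nat_lit 304) (nat_lit 69964390957) (nat_lit 380) (nat_lit 1335977863) (nat_lit 103) (nat_lit 5) (nat_lit 107) (nat_lit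 5) (nat_lit 108) (nat_lit 5) (nat_lit 377) (nat_lit 334) (nat_lit 69)))) (XT.nd (nat_lit 156) (nat_lit 304) (nat_lit 0) (XT.nd (nat_lit 78) (nat_lit 380) (nat_lit 0) (XT.lf (nat_lit 0) (nat_lit 9773620755) (nat_lit 380) (nat_lit 34896807656) (nat_lit 76) (nat_lit 31968128532) (nat_lit 102) (nat_lit 5) (nat_lit 107) (nat_lit 5) (nat_lit 103) (nat_lit 5) (nat_lit 378) (nat_lit 334) (nat_lit 68)) (XT.lf (nat_lit 0) (nat_lit 2636230530) (nat_lit 380) (nat_lit 18578125179) (nat_lit 456) (nat_lit 56894861488) (nat_lit 97) (nat_lit 5) (nat_lit 102) (nat_lit 5) (nat_lit 103) (nat_lit 5) (nat_lit 379) (nat_lit 334) (nat_lit 67))) (XT.nd (nat_lit 78) (nat_lit 304) (nat_lit 0) (XT.lf (nat_lit 0) (nat_lit 33433314173) (nat_lit 456) (nat_lit 37686913535) (nat_lit 76) (nat_lit 8490720030) (nat_lit 97) (nat_lit 5) (nat_lit 103) (nat_lit 5) (nat_lit 98) (nat_lit 5) (nat_lit 380) (nat_lit 334) (nat_lit 66)) (XT.lf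 (nat_lit 0) (nat_lit 1068827677) (nat_lit 304) (nat_lit 45143615977) (nat_lit 380) (nat_lit 34939478977) (nat_lit 93) (nat_lit 5) (nat_lit 97) (nat_lit 5) (nat_lit 98) (nat_lit 5) (nat_lit 381) (nat_lit 334) (nat_lit 65)))))) (XT.nd (nat_lit 37206) (nat_lit 0) (nat_lit 8208) (XT.nd (nat_lit 234) (nat_lit 0) (nat_lit 0) (XT.nd (nat_lit 78) (nat_lit 380) (nat_lit 0) (XT.lf (nat_lit 0) (nat_lit 41758965075) (nat_lit 304) (nat_lit 17995942071) (nat_lit 380) (nat_lit 22972821315) (nat_lit 93) (nat_lit 5) (nat_lit 97) (nat_lit 5) (nat_lit 98) (nat_lit 5) (nat_lit 382) (nat_lit 334) (nat_lit 64)) (XT.nd (nat_lit 78) (nat_lit 380) (nat_lit 0) (XT.lf (nat_lit 0) (nat_lit 73798857143) (nat_lit 380) (nat_lit 777615679) (nat_lit 76) (nat_lit 9771479741) (nat_lit 93) (nat_lit 5) (nat_lit 98) (nat_lit 5) (nat_lit 94) (nat_lit 5) (nat_lit 383) (nat_lit 334) (nat_lit 63)) (XT.lf (nat_lit 0) (nat_lit 2783252071)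 (nat_lit 380) (nat_lit 44781707450) (nat_lit 76) (nat_lit 38433783326) (nat_lit 88) (nat_lit 5) (nat_lit 93) (nat_lit 5) (nat_lit 89) (nat_lit 5) (nat_lit 384) (nat_lit 334) (nat_lit 62)))) (XT.nd (nat_lit 36816) (nat_lit 0) (nat_lit 8132) (XT.nd (nat_lit 36738) (nat_lit 0) (nat_lit 8132) (XT.lf (nat_lit 0) (nat_lit 16310905760) (nat_lit 380) (nat_lit 3316672424) (nat_lit 76) (nat_lit 68068124833) (nat_lit 88) (nat_lit 5) (nat_lit 93) (nat_lit 5) (nat_lit 89) (nat_lit 5) (nat_lit 385) (nat_lit 334) (nat_lit 61)) (XT.lf (nat_lit 0) (nat_lit 5191714860) (nat_lit 0) (nat_lit 5191714860) (nat_lit 1140) (nat_lit 8397075646) (nat_lit 195) (nat_lit 5) (nat_lit 195) (nat_lit 3) (nat_lit 210) (nat_lit 3) (nat_lit 335) (nat_lit 335) (nat_lit 110))) (XT.nd (nat_lit 78) (nat_lit 0) (nat_lit 0) (XT.lf (nat_lit 0) (nat_lit 21188565724) (nat_lit 1140) (nat_lit 10210993460) (nat_lit 1216) (nat_lit 6721508560)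 (nat_lit 195) (nat_lit 5) (nat_lit 210) (nat_lit 3) (nat_lit 211) (nat_lit 5) (nat_lit 336) (nat_lit 335) (nat_lit 109)) (XT.lf (nat_lit 76) (nat_lit 7303373823) (nat_lit 0) (nat_lit 14490839265) (nat_lit 1216) (nat_lit 16898576710) (nat_lit 196) (nat_lit 5) (nat_lit 195) (nat_lit 5) (nat_lit 211) (nat_lit 5) (nat_lit 337) (nat_lit 335) (nat_lit 108))))) (XT.nd (nat_lit 234) (nat_lit 0) (nat_lit 76) (XT.nd (nat_lit 78) (nat_lit 0) (nat_lit 0) (XT.lf (nat_lit 0) (nat_lit 22548607829) (nat_lit 1140) (nat_lit 13756199248) (nat_lit 1216) (nat_lit 2972941070) (nat_lit 196) (nat_lit 5) (nat_lit 211) (nat_lit 5) (nat_lit 212) (nat_lit 5) (nat_lit 338) (nat_lit 335) (nat_lit 107)) (XT.nd (nat_lit 78) (nat_lit 0) (nat_lit 0) (XT.lf (nat_lit 76) (nat_lit 4346405430) (nat_lit 0) (nat_lit 19162859436) (nat_lit 1216) (nat_lit 16365483383) (nat_lit 197) (nat_lit 5) (nat_lit 196) (nat_lit 5) (nat_lit 212) (nat_lit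 5) (nat_lit 339) (nat_lit 335) (nat_lit 106)) (XT.lf (nat_lit 76) (nat_lit 23273137231) (nat_lit 0) (nat_lit 1362929766) (nat_lit 1216) (nat_lit 15849473452) (nat_lit 197) (nat_lit 5) (nat_lit 196) (nat_lit 5) (nat_lit 212) (nat_lit 5) (nat_lit 340) (nat_lit 335) (nat_lit 105)))) (XT.nd (nat_lit 156) (nat_lit 0) (nat_lit 76) (XT.nd (nat_lit 78) (nat_lit 0) (nat_lit 0) (XT.lf (nat_lit 76) (nat_lit 1518544987) (nat_lit 0) (nat_lit 24454327946) (nat_lit 1216) (nat_lit 15136499297) (nat_lit 198) (nat_lit 5) (nat_lit 197) (nat_lit 5) (nat_lit 213) (nat_lit 5) (nat_lit 341) (nat_lit 335) (nat_lit 104)) (XT.lf (nat_lit 76) (nat_lit 21149539334) (nat_lit 0) (nat_lit 6385919689) (nat_lit 1216) (nat_lit 14210891413) (nat_lit 198) (nat_lit 5) (nat_lit 197) (nat_lit 5) (nat_lit 213) (nat_lit 5) (nat_lit 342) (nat_lit 335) (nat_lit 103))) (XT.nd (nat_lit 78) (nat_lit 0) (nat_lit 0) (XT.lf (nat_lit 0) (nat_lit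 29260983527) (nat_lit 1140) (nat_lit 1151463521) (nat_lit 1216) (nat_lit 11986510818) (nat_lit 198) (nat_lit 5) (nat_lit 213) (nat_lit 5) (nat_lit 214) (nat_lit 5) (nat_lit 343) (nat_lit 335) (nat_lit 102)) (XT.lf (nat_lit 76) (nat_lit 19187483721) (nat_lit 0) (nat_lit 12097052069) (nat_lit 1216) (nat_lit 11779221519) (nat_lit 199) (nat_lit 5) (nat_lit 198) (nat_lit 5) (nat_lit 214) (nat_lit 5) (nat_lit 344) (nat_lit 335) (nat_lit 101))))))) (XT.nd (nat_lit 1092) (nat_lit 3420) (nat_lit 0) (XT.nd (nat_lit 546) (nat_lit 1748) (nat_lit 0) (XT.nd (nat_lit 234) (nat_lit 1064) (nat_lit 0) (XT.nd (nat_lit 78) (nat_lit 0) (nat_lit 0) (XT.lf (nat_lit 0) (nat_lit 33444222905) (nat_lit 1140) (nat_lit 3654108507) (nat_lit 1216) (nat_lit 6647908078) (nat_lit 199) (nat_lit 5) (nat_lit 214) (nat_lit 5) (nat_lit 215) (nat_lit 5) (nat_lit 345) (nat_lit 335) (nat_lit 100)) (XT.nd (nat_lit 78) (nat_lit 0) (nat_lit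 76) (XT.lf (nat_lit 76) (nat_lit 17393396895) (nat_lit 0) (nat_lit 18560941778) (nat_lit 1216) (nat_lit 8486289879) (nat_lit 200) (nat_lit 5) (nat_lit 199) (nat_lit 5) (nat_lit 215) (nat_lit 5) (nat_lit 346) (nat_lit 335) (nat_lit 99)) (XT.lf (nat_lit 0) (nat_lit 38580844245) (nat_lit 1140) (nat_lit 6013988096) (nat_lit 1216) (nat_lit 559785867) (nat_lit 200) (nat_lit 5) (nat_lit 215) (nat_lit 5) (nat_lit 216) (nat_lit 5) (nat_lit 347) (nat_lit 335) (nat_lit 98)))) (XT.nd (nat_lit 156) (nat_lit 1140) (nat_lit 0) (XT.nd (nat_lit 78) (nat_lit 0) (nat_lit 0) (XT.lf (nat_lit 76) (nat_lit 15773309949) (nat_lit 0) (nat_lit 25846969512) (nat_lit 1216) (nat_lit 4259725526) (nat_lit 201) (nat_lit 5) (nat_lit 200) (nat_lit 5) (nat_lit 216) (nat_lit 5) (nat_lit 348) (nat_lit 335) (nat_lit 97)) (XT.lf (nat_lit 76) (nat_lit 38336552048) (nat_lit 0) (nat_lit 6473842756) (nat_lit 1216) (nat_lit 1814975078) (nat_lit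 201) (nat_lit 5) (nat_lit 200) (nat_lit 5) (nat_lit 216) (nat_lit 5) (nat_lit 349) (nat_lit 335) (nat_lit 96))) (XT.nd (nat_lit 78) (nat_lit 0) (nat_lit 0) (XT.lf (nat_lit 0) (nat_lit 958195060) (nat_lit 1216) (nat_lit 33061777797) (nat_lit 1292) (nat_lit 13364857519) (nat_lit 185) (nat_lit 5) (nat_lit 201) (nat_lit 5) (nat_lit 202) (nat_lit 5) (nat_lit 350) (nat_lit 335) (nat_lit 95)) (XT.lf (nat_lit 0) (nat_lit 3925526821) (nat_lit 1216) (nat_lit 10465251237) (nat_lit 1292) (nat_lit 33771335458) (nat_lit 185) (nat_lit 5) (nat_lit 201) (nat_lit 5) (nat_lit 202) (nat_lit 5) (nat_lit 351) (nat_lit 335) (nat_lit 94))))) (XT.nd (nat_lit 234) (nat_lit 1140) (nat_lit 0) (XT.nd (nat_lit 78) (nat_lit 684) (nat_lit 0) (XT.lf (nat_lit 0) (nat_lit 7163563055) (nat_lit 1216) (nat_lit 35953119045) (nat_lit 76) (nat_lit 5840583781) (nat_lit 186) (nat_lit 5) (nat_lit 202) (nat_lit 5) (nat_lit 187) (nat_lit 5)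 (nat_lit 352) (nat_lit 335) (nat_lit 93)) (XT.nd (nat_lit 78) (nat_lit 684) (nat_lit 0) (XT.lf (nat_lit 0) (nat_lit 10746827335) (nat_lit 1216) (nat_lit 12525459207) (nat_lit 76) (nat_lit 26496544895) (nat_lit 186) (nat_lit 5) (nat_lit 202) (nat_lit 5) (nat_lit 187) (nat_lit 5) (nat_lit 353) (nat_lit 335) (nat_lit 92)) (XT.lf (nat_lit 0) (nat_lit 11835021193) (nat_lit 684) (nat_lit 2715245626) (nat_lit 760) (nat_lit 36051098014) (nat_lit 177) (nat_lit 5) (nat_lit 186) (nat_lit 5) (nat_lit 187) (nat_lit 5) (nat_lit 354) (nat_lit 335) (nat_lit 91)))) (XT.nd (nat_lit 156) (nat_lit 532) (nat_lit 0) (XT.nd (nat_lit 78) (nat_lit 608) (nat_lit 0) (XT.lf (nat_lit 0) (nat_lit 18771914435) (nat_lit 760) (nat_lit 14451668949) (nat_lit 76) (nat_lit 18226168859) (nat_lit 177) (nat_lit 5) (nat_lit 187) (nat_lit 5) (nat_lit 178) (nat_lit 5) (nat_lit 355) (nat_lit 335) (nat_lit 90)) (XT.lf (nat_lit 0) (nat_lit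 10774869284) (nat_lit 608) (nat_lit 12474767057) (nat_lit 684) (nat_lit 29070073312) (nat_lit 169) (nat_lit 5) (nat_lit 177) (nat_lit 5) (nat_lit 178) (nat_lit 5) (nat_lit 356) (nat_lit 335) (nat_lit 89))) (XT.nd (nat_lit 78) (nat_lit 532) (nat_lit 0) (XT.lf (nat_lit 0) (nat_lit 28093575406) (nat_lit 684) (nat_lit 16244875121) (nat_lit 76) (nat_lit 8870359786) (nat_lit 169) (nat_lit 5) (nat_lit 178) (nat_lit 5) (nat_lit 170) (nat_lit 5) (nat_lit 357) (nat_lit 335) (nat_lit 88)) (XT.lf (nat_lit 0) (nat_lit 9882475115) (nat_lit 532) (nat_lit 23417884295) (nat_lit 608) (nat_lit 20817699839) (nat_lit 162) (nat_lit 5) (nat_lit 169) (nat_lit 5) (nat_lit 170) (nat_lit 5) (nat_lit 358) (nat_lit 335) (nat_lit 87)))))) (XT.nd (nat_lit 546) (nat_lit 1824) (nat_lit 0) (XT.nd (nat_lit 234) (nat_lit 1064) (nat_lit 0) (XT.nd (nat_lit 78) (nat_lit 532) (nat_lit 0) (XT.lf (nat_lit 0) (nat_lit 37125715020) (nat_lit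 532) (nat_lit 1700710749) (nat_lit 608) (nat_lit 16223268550) (nat_lit 162) (nat_lit 5) (nat_lit 169) (nat_lit 5) (nat_lit 170) (nat_lit 5) (nat_lit 359) (nat_lit 335) (nat_lit 86)) (XT.nd (nat_lit 78) (nat_lit 0) (nat_lit 0) (XT.lf (nat_lit 0) (nat_lit 9156030652) (nat_lit 532) (nat_lit 35647995822) (nat_lit 608) (nat_lit 11196680393) (nat_lit 155) (nat_lit 5) (nat_lit 162) (nat_lit 5) (nat_lit 163) (nat_lit 5) (nat_lit 360) (nat_lit 335) (nat_lit 85)) (XT.lf (nat_lit 0) (nat_lit 37397763331) (nat_lit 532) (nat_lit 13759946587) (nat_lit 608) (nat_lit 5816638205) (nat_lit 155) (nat_lit 5) (nat_lit 162) (nat_lit 5) (nat_lit 163) (nat_lit 5) (nat_lit 361) (nat_lit 335) (nat_lit 84)))) (XT.nd (nat_lit 156) (nat_lit 532) (nat_lit 0) (XT.nd (nat_lit 78) (nat_lit 76) (nat_lit 0) (XT.lf (nat_lit 0) (nat_lit 8591834454) (nat_lit 456) (nat_lit 49276314316) (nat_lit 532) (nat_lit 104066439) (nat_lit 149)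 (nat_lit 5) (nat_lit 155) (nat_lit 5) (nat_lit 156) (nat_lit 5) (nat_lit 362) (nat_lit 335) (nat_lit 83)) (XT.lf (nat_lit 0) (nat_lit 6002093788) (nat_lit 532) (nat_lit 21182172380) (nat_lit 76) (nat_lit 31804036306) (nat_lit 148) (nat_lit 5) (nat_lit 155) (nat_lit 5) (nat_lit 149) (nat_lit 5) (nat_lit 363) (nat_lit 335) (nat_lit 82))) (XT.nd (nat_lit 78) (nat_lit 0) (nat_lit 0) (XT.lf (nat_lit 0) (nat_lit 8016471872) (nat_lit 532) (nat_lit 4349078374) (nat_lit 608) (nat_lit 47667005971) (nat_lit 141) (nat_lit 5) (nat_lit 148) (nat_lit 5) (nat_lit 149) (nat_lit 5) (nat_lit 364) (nat_lit 335) (nat_lit 81)) (XT.lf (nat_lit 0) (nat_lit 19319371087) (nat_lit 608) (nat_lit 22763760945) (nat_lit 76) (nat_lit 19013022558) (nat_lit 141) (nat_lit 5) (nat_lit 149) (nat_lit 5) (nat_lit 142) (nat_lit 5) (nat_lit 365) (nat_lit 335) (nat_lit 80))))) (XT.nd (nat_lit 234) (nat_lit 912) (nat_lit 0) (XT.nd (nat_lit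 78) (nat_lit 456) (nat_lit 0) (XT.lf (nat_lit 0) (nat_lit 7467897782) (nat_lit 456) (nat_lit 19127938941) (nat_lit 532) (nat_lit 35592404096) (nat_lit 135) (nat_lit 5) (nat_lit 141) (nat_lit 5) (nat_lit 142) (nat_lit 5) (nat_lit 366) (nat_lit 335) (nat_lit 79)) (XT.nd (nat_lit 78) (nat_lit 456) (nat_lit 0) (XT.lf (nat_lit 0) (nat_lit 34365349627) (nat_lit 532) (nat_lit 24279653030) (nat_lit 76) (nat_lit 4659845169) (nat_lit 135) (nat_lit 5) (nat_lit 142) (nat_lit 5) (nat_lit 136) (nat_lit 5) (nat_lit 367) (nat_lit 335) (nat_lit 78)) (XT.lf (nat_lit 0) (nat_lit 7020988665) (nat_lit 456) (nat_lit 35603056499) (nat_lit 532) (nat_lit 21823225727) (nat_lit 129) (nat_lit 5) (nat_lit 135) (nat_lit 5) (nat_lit 136) (nat_lit 5) (nat_lit 368) (nat_lit 335) (nat_lit 77)))) (XT.nd (nat_lit 156) (nat_lit 532) (nat_lit 0) (XT.nd (nat_lit 78) (nat_lit 380) (nat_lit 0) (XT.lf (nat_lit 0) (nat_lit 39757479148)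 (nat_lit 456) (nat_lit 11617435197) (nat_lit 532) (nat_lit 14241720664) (nat_lit 129) (nat_lit 5) (nat_lit 135) (nat_lit 5) (nat_lit 136) (nat_lit 5) (nat_lit 369) (nat_lit 335) (nat_lit 76)) (XT.lf (nat_lit 0) (nat_lit 6658226948) (nat_lit 380) (nat_lit 53919150176) (nat_lit 456) (nat_lit 6238031623) (nat_lit 124) (nat_lit 5) (nat_lit 129) (nat_lit 5) (nat_lit 130) (nat_lit 5) (nat_lit 370) (nat_lit 335) (nat_lit 75))) (XT.nd (nat_lit 78) (nat_lit 456) (nat_lit 0) (XT.lf (nat_lit 0) (nat_lit 2344627082) (nat_lit 456) (nat_lit 27498866103) (nat_lit 76) (nat_lit 38194734809) (nat_lit 123) (nat_lit 5) (nat_lit 129) (nat_lit 5) (nat_lit 124) (nat_lit 5) (nat_lit 371) (nat_lit 335) (nat_lit 74)) (XT.lf (nat_lit 0) (nat_lit 6197515324) (nat_lit 456) (nat_lit 4920730214) (nat_lit 532) (nat_lit 58175868314) (nat_lit 117) (nat_lit 5) (nat_lit 123) (nat_lit 5) (nat_lit 124) (nat_lit 5) (nat_lit 372) (nat_lit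 335) (nat_lit 73))))))))
noncomputable def xc245 : XT := (XT.nd (nat_lit 39000) (nat_lit 0) (nat_lit 760) (XT.nd (nat_lit 37908) (nat_lit 0) (nat_lit 6992) (XT.nd (nat_lit 546) (nat_lit 684) (nat_lit 0) (XT.nd (nat_lit 234) (nat_lit 760) (nat_lit 0) (XT.nd (nat_lit 78) (nat_lit 380) (nat_lit 0) (XT.lf (nat_lit 0) (nat_lit 20634260735) (nat_lit 532) (nat_lit 29313934910) (nat_lit 76) (nat_lit 20625105636) (nat_lit 117) (nat_lit 5) (nat_lit 124) (nat_lit 5) (nat_lit 118) (nat_lit 5) (nat_lit 373) (nat_lit 335) (nat_lit 72)) (XT.nd (nat_lit 78) (nat_lit 0) (nat_lit 0) (XT.lf (nat_lit 0) (nat_lit 5540765266) (nat_lit 380) (nat_lit 24996288218) (nat_lit 456) (nat_lit 41350772558) (nat_lit 112) (nat_lit 5) (nat_lit 117) (nat_lit 5) (nat_lit 118) (nat_lit 5) (nat_lit 374) (nat_lit 335) (nat_lit 71)) (XT.lf (nat_lit 0) (nat_lit 41041969187) (nat_lit 456) (nat_lit 31201447046) (nat_lit 76) (nat_lit 989219743)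 (nat_lit 112) (nat_lit 5) (nat_lit 118) (nat_lit 5) (nat_lit 113) (nat_lit 5) (nat_lit 375) (nat_lit 335) (nat_lit 70)))) (XT.nd (nat_lit 156) (nat_lit 380) (nat_lit 0) (XT.nd (nat_lit 78) (nat_lit 0) (nat_lit 0) (XT.lf (nat_lit 0) (nat_lit 4844756149) (nat_lit 380) (nat_lit 47310680705) (nat_lit 456) (nat_lit 22453551806) (nat_lit 107) (nat_lit 5) (nat_lit 112) (nat_lit 5) (nat_lit 113) (nat_lit 5) (nat_lit 376) (nat_lit 335) (nat_lit 69)) (XT.lf (nat_lit 0) (nat_lit 42611123063) (nat_lit 380) (nat_lit 21305615818) (nat_lit 456) (nat_lit 12100460703) (nat_lit 107) (nat_lit 5) (nat_lit 112) (nat_lit 5) (nat_lit 113) (nat_lit 5) (nat_lit 377) (nat_lit 335) (nat_lit 68))) (XT.nd (nat_lit 78) (nat_lit 76) (nat_lit 0) (XT.lf (nat_lit 0) (nat_lit 4068731325) (nat_lit 304) (nat_lit 72053307016) (nat_lit 380) (nat_lit 1342884297) (nat_lit 103) (nat_lit 5) (nat_lit 107) (nat_lit 5) (nat_lit 108) (nat_lit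 5) (nat_lit 378) (nat_lit 335) (nat_lit 67)) (XT.lf (nat_lit 0) (nat_lit 10098407610) (nat_lit 380) (nat_lit 35902090825) (nat_lit 76) (nat_lit 32936241401) (nat_lit 102) (nat_lit 5) (nat_lit 107) (nat_lit 5) (nat_lit 103) (nat_lit 5) (nat_lit 379) (nat_lit 335) (nat_lit 66))))) (XT.nd (nat_lit 234) (nat_lit 0) (nat_lit 0) (XT.nd (nat_lit 78) (nat_lit 304) (nat_lit 0) (XT.lf (nat_lit 0) (nat_lit 2756530457) (nat_lit 380) (nat_lit 19125310565) (nat_lit 456) (nat_lit 58569695353) (nat_lit 97) (nat_lit 5) (nat_lit 102) (nat_lit 5) (nat_lit 103) (nat_lit 5) (nat_lit 380) (nat_lit 335) (nat_lit 65)) (XT.nd (nat_lit 78) (nat_lit 304) (nat_lit 0) (XT.lf (nat_lit 0) (nat_lit 34466558540) (nat_lit 456) (nat_lit 38776673659) (nat_lit 76) (nat_lit 8755111672) (nat_lit 97) (nat_lit 5) (nat_lit 103) (nat_lit 5) (nat_lit 98) (nat_lit 5) (nat_lit 381) (nat_lit 335) (nat_lit 64)) (XT.lf (nat_lit 0) (nat_lit 1141339326)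 (nat_lit 304) (nat_lit 46487230459) (nat_lit 380) (nat_lit 35956993717) (nat_lit 93) (nat_lit 5) (nat_lit 97) (nat_lit 5) (nat_lit 98) (nat_lit 5) (nat_lit 382) (nat_lit 335) (nat_lit 63)))) (XT.nd (nat_lit 36972) (nat_lit 0) (nat_lit 7752) (XT.nd (nat_lit 78) (nat_lit 0) (nat_lit 0) (XT.lf (nat_lit 0) (nat_lit 43051002782) (nat_lit 304) (nat_lit 18525437811) (nat_lit 380) (nat_lit 23632229615) (nat_lit 93) (nat_lit 5) (nat_lit 97) (nat_lit 5) (nat_lit 98) (nat_lit 5) (nat_lit 383) (nat_lit 335) (nat_lit 62)) (XT.lf (nat_lit 0) (nat_lit 76040964641) (nat_lit 380) (nat_lit 762051861) (nat_lit 76) (nat_lit 10074507552) (nat_lit 93) (nat_lit 5) (nat_lit 98) (nat_lit 5) (nat_lit 94) (nat_lit 5) (nat_lit 384) (nat_lit 335) (nat_lit 61))) (XT.nd (nat_lit 78) (nat_lit 0) (nat_lit 0) (XT.lf (nat_lit 0) (nat_lit 5369406480) (nat_lit 0) (nat_lit 5369406480) (nat_lit 1140) (nat_lit 8603739606) (nat_lit 195)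 (nat_lit 5) (nat_lit 195) (nat_lit 3) (nat_lit 210) (nat_lit 3) (nat_lit 336) (nat_lit 336) (nat_lit 108)) (XT.lf (nat_lit 0) (nat_lit 21909017738) (nat_lit 1140) (nat_lit 10471655231) (nat_lit 1216) (nat_lit 6881382860) (nat_lit 195) (nat_lit 5) (nat_lit 210) (nat_lit 3) (nat_lit 211) (nat_lit 5) (nat_lit 337) (nat_lit 336) (nat_lit 107)))))) (XT.nd (nat_lit 546) (nat_lit 760) (nat_lit 0) (XT.nd (nat_lit 234) (nat_lit 0) (nat_lit 76) (XT.nd (nat_lit 78) (nat_lit 0) (nat_lit 76) (XT.lf (nat_lit 76) (nat_lit 7567695344) (nat_lit 0) (nat_lit 14963104105) (nat_lit 1216) (nat_lit 17320194063) (nat_lit 196) (nat_lit 5) (nat_lit 195) (nat_lit 5) (nat_lit 211) (nat_lit 5) (nat_lit 338) (nat_lit 336) (nat_lit 106)) (XT.nd (nat_lit 78) (nat_lit 0) (nat_lit 0) (XT.lf (nat_lit 0) (nat_lit 23305065204) (nat_lit 1140) (nat_lit 14122126837) (nat_lit 1216) (nat_lit 3026394227) (nat_lit 196) (nat_lit 5) (nat_lit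 211) (nat_lit 5) (nat_lit 212) (nat_lit 5) (nat_lit 339) (nat_lit 336) (nat_lit 105)) (XT.lf (nat_lit 76) (nat_lit 4523097566) (nat_lit 0) (nat_lit 19769559377) (nat_lit 1216) (nat_lit 16775898726) (nat_lit 197) (nat_lit 5) (nat_lit 196) (nat_lit 5) (nat_lit 212) (nat_lit 5) (nat_lit 340) (nat_lit 336) (nat_lit 104)))) (XT.nd (nat_lit 156) (nat_lit 0) (nat_lit 76) (XT.nd (nat_lit 78) (nat_lit 0) (nat_lit 76) (XT.lf (nat_lit 76) (nat_lit 24016282779) (nat_lit 0) (nat_lit 1434705192) (nat_lit 1216) (nat_lit 16246754589) (nat_lit 197) (nat_lit 5) (nat_lit 196) (nat_lit 5) (nat_lit 212) (nat_lit 5) (nat_lit 341) (nat_lit 336) (nat_lit 103)) (XT.lf (nat_lit 76) (nat_lit 1611246991) (nat_lit 0) (nat_lit 25214607122) (nat_lit 1216) (nat_lit 15514499090) (nat_lit 198) (nat_lit 5) (nat_lit 197) (nat_lit 5) (nat_lit 213) (nat_lit 5) (nat_lit 342) (nat_lit 336) (nat_lit 102))) (XT.nd (nat_lit 78) (nat_lit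 0) (nat_lit 76) (XT.lf (nat_lit 76) (nat_lit 21829797995) (nat_lit 0) (nat_lit 6603370423) (nat_lit 1216) (nat_lit 14563339334) (nat_lit 198) (nat_lit 5) (nat_lit 197) (nat_lit 5) (nat_lit 213) (nat_lit 5) (nat_lit 343) (nat_lit 336) (nat_lit 101)) (XT.lf (nat_lit 0) (nat_lit 30208130426) (nat_lit 1140) (nat_lit 1139158507) (nat_lit 1216) (nat_lit 12321476759) (nat_lit 198) (nat_lit 5) (nat_lit 213) (nat_lit 5) (nat_lit 214) (nat_lit 5) (nat_lit 344) (nat_lit 336) (nat_lit 100))))) (XT.nd (nat_lit 234) (nat_lit 988) (nat_lit 0) (XT.nd (nat_lit 78) (nat_lit 0) (nat_lit 76) (XT.lf (nat_lit 76) (nat_lit 19809497849) (nat_lit 0) (nat_lit 12481318380) (nat_lit 1216) (nat_lit 12062742452) (nat_lit 199) (nat_lit 5) (nat_lit 198) (nat_lit 5) (nat_lit 214) (nat_lit 5) (nat_lit 345) (nat_lit 336) (nat_lit 99)) (XT.nd (nat_lit 78) (nat_lit 0) (nat_lit 0) (XT.lf (nat_lit 0) (nat_lit 34513121524) (nat_lit 1140)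 (nat_lit 3716444152) (nat_lit 1216) (nat_lit 6827017126) (nat_lit 199) (nat_lit 5) (nat_lit 214) (nat_lit 5) (nat_lit 215) (nat_lit 5) (nat_lit 346) (nat_lit 336) (nat_lit 98)) (XT.lf (nat_lit 76) (nat_lit 17962022809) (nat_lit 0) (nat_lit 19135058196) (nat_lit 1216) (nat_lit 8674768558) (nat_lit 200) (nat_lit 5) (nat_lit 199) (nat_lit 5) (nat_lit 215) (nat_lit 5) (nat_lit 347) (nat_lit 336) (nat_lit 97)))) (XT.nd (nat_lit 156) (nat_lit 1140) (nat_lit 0) (XT.nd (nat_lit 78) (nat_lit 0) (nat_lit 0) (XT.lf (nat_lit 0) (nat_lit 39800353055) (nat_lit 1140) (nat_lit 6146846538) (nat_lit 1216) (nat_lit 560122345) (nat_lit 200) (nat_lit 5) (nat_lit 215) (nat_lit 5) (nat_lit 216) (nat_lit 5) (nat_lit 348) (nat_lit 336) (nat_lit 96)) (XT.lf (nat_lit 76) (nat_lit 16293604162) (nat_lit 0) (nat_lit 26636011614) (nat_lit 1216) (nat_lit 4324897317) (nat_lit 201) (nat_lit 5) (nat_lit 200) (nat_lit 5) (nat_lit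 216) (nat_lit 5) (nat_lit 349) (nat_lit 336) (nat_lit 95))) (XT.nd (nat_lit 78) (nat_lit 1140) (nat_lit 0) (XT.lf (nat_lit 76) (nat_lit 39532371828) (nat_lit 0) (nat_lit 6681293976) (nat_lit 1216) (nat_lit 1808628239) (nat_lit 201) (nat_lit 5) (nat_lit 200) (nat_lit 5) (nat_lit 216) (nat_lit 5) (nat_lit 350) (nat_lit 336) (nat_lit 94)) (XT.lf (nat_lit 0) (nat_lit 1045148098) (nat_lit 1216) (nat_lit 34005188584) (nat_lit 1292) (nat_lit 13754228143) (nat_lit 185) (nat_lit 5) (nat_lit 201) (nat_lit 5) (nat_lit 202) (nat_lit 5) (nat_lit 351) (nat_lit 336) (nat_lit 93))))))) (XT.nd (nat_lit 1092) (nat_lit 2888) (nat_lit 0) (XT.nd (nat_lit 546) (nat_lit 2128) (nat_lit 0) (XT.nd (nat_lit 234) (nat_lit 1216) (nat_lit 0) (XT.nd (nat_lit 78) (nat_lit 0) (nat_lit 76) (XT.lf (nat_lit 0) (nat_lit 4099804456) (nat_lit 1216) (nat_lit 10732177175) (nat_lit 1292) (nat_lit 34773237559) (nat_lit 185) (nat_lit 5)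 (nat_lit 201) (nat_lit 5) (nat_lit 202) (nat_lit 5) (nat_lit 352) (nat_lit 336) (nat_lit 92)) (XT.nd (nat_lit 78) (nat_lit 0) (nat_lit 0) (XT.lf (nat_lit 0) (nat_lit 7433699423) (nat_lit 1216) (nat_lit 36983338102) (nat_lit 76) (nat_lit 6007228888) (nat_lit 186) (nat_lit 5) (nat_lit 202) (nat_lit 5) (nat_lit 187) (nat_lit 5) (nat_lit 353) (nat_lit 336) (nat_lit 91)) (XT.lf (nat_lit 0) (nat_lit 11122853005) (nat_lit 1216) (nat_lit 12854257436) (nat_lit 76) (nat_lit 27283118517) (nat_lit 186) (nat_lit 5) (nat_lit 202) (nat_lit 5) (nat_lit 187) (nat_lit 5) (nat_lit 354) (nat_lit 336) (nat_lit 90)))) (XT.nd (nat_lit 156) (nat_lit 608) (nat_lit 0) (XT.nd (nat_lit 78) (nat_lit 0) (nat_lit 0) (XT.lf (nat_lit 0) (nat_lit 12236576930) (nat_lit 684) (nat_lit 2802704008) (nat_lit 760) (nat_lit 37078492574) (nat_lit 177) (nat_lit 5) (nat_lit 186) (nat_lit 5) (nat_lit 187) (nat_lit 5) (nat_lit 355) (nat_lit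 336) (nat_lit 89)) (XT.lf (nat_lit 0) (nat_lit 19385992672) (nat_lit 760) (nat_lit 14838427704) (nat_lit 76) (nat_lit 18767241389) (nat_lit 177) (nat_lit 5) (nat_lit 187) (nat_lit 5) (nat_lit 178) (nat_lit 5) (nat_lit 356) (nat_lit 336) (nat_lit 88))) (XT.nd (nat_lit 78) (nat_lit 0) (nat_lit 0) (XT.lf (nat_lit 0) (nat_lit 11144447938) (nat_lit 608) (nat_lit 12852560545) (nat_lit 684) (nat_lit 29890742162) (nat_lit 169) (nat_lit 5) (nat_lit 177) (nat_lit 5) (nat_lit 178) (nat_lit 5) (nat_lit 357) (nat_lit 336) (nat_lit 87)) (XT.lf (nat_lit 0) (nat_lit 28984779680) (nat_lit 684) (nat_lit 16685700013) (nat_lit 76) (nat_lit 9133090780) (nat_lit 169) (nat_lit 5) (nat_lit 178) (nat_lit 5) (nat_lit 170) (nat_lit 5) (nat_lit 358) (nat_lit 336) (nat_lit 86))))) (XT.nd (nat_lit 234) (nat_lit 1064) (nat_lit 0) (XT.nd (nat_lit 78) (nat_lit 532) (nat_lit 0) (XT.lf (nat_lit 0) (nat_lit 10225014638) (nat_lit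 532) (nat_lit 24121785752) (nat_lit 608) (nat_lit 21393327013) (nat_lit 162) (nat_lit 5) (nat_lit 169) (nat_lit 5) (nat_lit 170) (nat_lit 5) (nat_lit 359) (nat_lit 336) (nat_lit 85)) (XT.nd (nat_lit 78) (nat_lit 532) (nat_lit 0) (XT.lf (nat_lit 0) (nat_lit 38284210033) (nat_lit 532) (nat_lit 1753057243) (nat_lit 608) (nat_lit 16662487168) (nat_lit 162) (nat_lit 5) (nat_lit 169) (nat_lit 5) (nat_lit 170) (nat_lit 5) (nat_lit 360) (nat_lit 336) (nat_lit 84)) (XT.lf (nat_lit 0) (nat_lit 9476425959) (nat_lit 532) (nat_lit 36716855887) (nat_lit 608) (nat_lit 11486044384) (nat_lit 155) (nat_lit 5) (nat_lit 162) (nat_lit 5) (nat_lit 163) (nat_lit 5) (nat_lit 361) (nat_lit 336) (nat_lit 83)))) (XT.nd (nat_lit 156) (nat_lit 608) (nat_lit 0) (XT.nd (nat_lit 78) (nat_lit 456) (nat_lit 0) (XT.lf (nat_lit 0) (nat_lit 38564079130) (nat_lit 532) (nat_lit 14172182062) (nat_lit 608) (nat_lit 5945956360) (nat_lit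 155) (nat_lit 5) (nat_lit 162) (nat_lit 5) (nat_lit 163) (nat_lit 5) (nat_lit 362) (nat_lit 336) (nat_lit 82)) (XT.lf (nat_lit 0) (nat_lit 8894879573) (nat_lit 456) (nat_lit 50752297938) (nat_lit 532) (nat_lit 62869564) (nat_lit 149) (nat_lit 5) (nat_lit 155) (nat_lit 5) (nat_lit 156) (nat_lit 5) (nat_lit 363) (nat_lit 336) (nat_lit 81))) (XT.nd (nat_lit 78) (nat_lit 532) (nat_lit 0) (XT.lf (nat_lit 0) (nat_lit 6224344997) (nat_lit 532) (nat_lit 21772784488) (nat_lit 76) (nat_lit 32759513937) (nat_lit 148) (nat_lit 5) (nat_lit 155) (nat_lit 5) (nat_lit 149) (nat_lit 5) (nat_lit 364) (nat_lit 336) (nat_lit 80)) (XT.lf (nat_lit 0) (nat_lit 8301379356) (nat_lit 532) (nat_lit 4476523933) (nat_lit 608) (nat_lit 49054346781) (nat_lit 141) (nat_lit 5) (nat_lit 148) (nat_lit 5) (nat_lit 149) (nat_lit 5) (nat_lit 365) (nat_lit 336) (nat_lit 79)))))) (XT.nd (nat_lit 546) (nat_lit 1520) (nat_lit 0) (XT.nd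 (nat_lit 234) (nat_lit 912) (nat_lit 0) (XT.nd (nat_lit 78) (nat_lit 456) (nat_lit 0) (XT.lf (nat_lit 0) (nat_lit 19939161569) (nat_lit 608) (nat_lit 23402336815) (nat_lit 76) (nat_lit 19586294525) (nat_lit 141) (nat_lit 5) (nat_lit 149) (nat_lit 5) (nat_lit 142) (nat_lit 5) (nat_lit 366) (nat_lit 336) (nat_lit 78)) (XT.nd (nat_lit 78) (nat_lit 0) (nat_lit 0) (XT.lf (nat_lit 0) (nat_lit 7735836997) (nat_lit 456) (nat_lit 19697335047) (nat_lit 532) (nat_lit 36619493322) (nat_lit 135) (nat_lit 5) (nat_lit 141) (nat_lit 5) (nat_lit 142) (nat_lit 5) (nat_lit 367) (nat_lit 336) (nat_lit 77)) (XT.lf (nat_lit 0) (nat_lit 35434662465) (nat_lit 532) (nat_lit 24964273437) (nat_lit 76) (nat_lit 4803869050) (nat_lit 135) (nat_lit 5) (nat_lit 142) (nat_lit 5) (nat_lit 136) (nat_lit 5) (nat_lit 368) (nat_lit 336) (nat_lit 76)))) (XT.nd (nat_lit 156) (nat_lit 456) (nat_lit 0) (XT.nd (nat_lit 78) (nat_lit 0) (nat_lit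 0) (XT.lf (nat_lit 0) (nat_lit 7274958400) (nat_lit 456) (nat_lit 36665460021) (nat_lit 532) (nat_lit 22439104401) (nat_lit 129) (nat_lit 5) (nat_lit 135) (nat_lit 5) (nat_lit 136) (nat_lit 5) (nat_lit 369) (nat_lit 336) (nat_lit 75)) (XT.lf (nat_lit 0) (nat_lit 40992281265) (nat_lit 456) (nat_lit 11960435755) (nat_lit 532) (nat_lit 14631284810) (nat_lit 129) (nat_lit 5) (nat_lit 135) (nat_lit 5) (nat_lit 136) (nat_lit 5) (nat_lit 370) (nat_lit 336) (nat_lit 74))) (XT.nd (nat_lit 78) (nat_lit 76) (nat_lit 0) (XT.lf (nat_lit 0) (nat_lit 6900707537) (nat_lit 380) (nat_lit 55529943752) (nat_lit 456) (nat_lit 6388106599) (nat_lit 124) (nat_lit 5) (nat_lit 129) (nat_lit 5) (nat_lit 130) (nat_lit 5) (nat_lit 371) (nat_lit 336) (nat_lit 73)) (XT.lf (nat_lit 0) (nat_lit 2450250052) (nat_lit 456) (nat_lit 28281608202) (nat_lit 76) (nat_lit 39346425502) (nat_lit 123) (nat_lit 5) (nat_lit 129) (nat_lit 5)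 (nat_lit 124) (nat_lit 5) (nat_lit 372) (nat_lit 336) (nat_lit 72))))) (XT.nd (nat_lit 234) (nat_lit 684) (nat_lit 0) (XT.nd (nat_lit 78) (nat_lit 380) (nat_lit 0) (XT.lf (nat_lit 0) (nat_lit 6425250709) (nat_lit 456) (nat_lit 5061200561) (nat_lit 532) (nat_lit 59885414640) (nat_lit 117) (nat_lit 5) (nat_lit 123) (nat_lit 5) (nat_lit 124) (nat_lit 5) (nat_lit 373) (nat_lit 336) (nat_lit 71)) (XT.nd (nat_lit 78) (nat_lit 380) (nat_lit 0) (XT.lf (nat_lit 0) (nat_lit 21287004199) (nat_lit 532) (nat_lit 30151787388) (nat_lit 76) (nat_lit 21250666578) (nat_lit 117) (nat_lit 5) (nat_lit 124) (nat_lit 5) (nat_lit 118) (nat_lit 5) (nat_lit 374) (nat_lit 336) (nat_lit 70)) (XT.lf (nat_lit 0) (nat_lit 5748146288) (nat_lit 380) (nat_lit 25738148071) (nat_lit 456) (nat_lit 42557142795) (nat_lit 112) (nat_lit 5) (nat_lit 117) (nat_lit 5) (nat_lit 118) (nat_lit 5) (nat_lit 375) (nat_lit 336) (nat_lit 69))))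 (XT.nd (nat_lit 156) (nat_lit 304) (nat_lit 0) (XT.nd (nat_lit 78) (nat_lit 380) (nat_lit 0) (XT.lf (nat_lit 0) (nat_lit 42305467531) (nat_lit 456) (nat_lit 32096612248) (nat_lit 76) (nat_lit 1026539174) (nat_lit 112) (nat_lit 5) (nat_lit 118) (nat_lit 5) (nat_lit 113) (nat_lit 5) (nat_lit 376) (nat_lit 336) (nat_lit 68)) (XT.lf (nat_lit 0) (nat_lit 5030576276) (nat_lit 380) (nat_lit 48721213039) (nat_lit 456) (nat_lit 23094490243) (nat_lit 107) (nat_lit 5) (nat_lit 112) (nat_lit 5) (nat_lit 113) (nat_lit 5) (nat_lit 377) (nat_lit 336) (nat_lit 67))) (XT.nd (nat_lit 78) (nat_lit 304) (nat_lit 0) (XT.lf (nat_lit 0) (nat_lit 43928755243) (nat_lit 380) (nat_lit 21936252169) (nat_lit 456) (nat_lit 12431757905) (nat_lit 107) (nat_lit 5) (nat_lit 112) (nat_lit 5) (nat_lit 113) (nat_lit 5) (nat_lit 378) (nat_lit 336) (nat_lit 66)) (XT.lf (nat_lit 0) (nat_lit 4230566200) (nat_lit 304) (nat_lit 74205465497)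 (nat_lit 380) (nat_lit 1351902185) (nat_lit 103) (nat_lit 5) (nat_lit 107) (nat_lit 5) (nat_lit 108) (nat_lit 5) (nat_lit 379) (nat_lit 336) (nat_lit 65))))))))
noncomputable def xc246 : XT := (XT.nd (nat_lit 39078) (nat_lit 0) (nat_lit 304) (XT.nd (nat_lit 37986) (nat_lit 0) (nat_lit 5776) (XT.nd (nat_lit 37440) (nat_lit 0) (nat_lit 7752) (XT.nd (nat_lit 234) (nat_lit 304) (nat_lit 0) (XT.nd (nat_lit 78) (nat_lit 380) (nat_lit 0) (XT.lf (nat_lit 0) (nat_lit 10431125350) (nat_lit 380) (nat_lit 36939921708) (nat_lit 76) (nat_lit 33932877058) (nat_lit 102) (nat_lit 5) (nat_lit 107) (nat_lit 5) (nat_lit 103) (nat_lit 5) (nat_lit 380) (nat_lit 336) (nat_lit 64)) (XT.nd (nat_lit 78) (nat_lit 0) (nat_lit 0) (XT.lf (nat_lit 0) (nat_lit 2878073587) (nat_lit 380) (nat_lit 19689494645) (nat_lit 456) (nat_lit 60296611853) (nat_lit 97) (nat_lit 5) (nat_lit 102) (nat_lit 5) (nat_lit 103) (nat_lit 5) (nat_lit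 381) (nat_lit 336) (nat_lit 63)) (XT.lf (nat_lit 0) (nat_lit 35529064055) (nat_lit 456) (nat_lit 39901471388) (nat_lit 76) (nat_lit 9026879964) (nat_lit 97) (nat_lit 5) (nat_lit 103) (nat_lit 5) (nat_lit 98) (nat_lit 5) (nat_lit 382) (nat_lit 336) (nat_lit 62)))) (XT.nd (nat_lit 37050) (nat_lit 0) (nat_lit 7752) (XT.lf (nat_lit 0) (nat_lit 1213704511) (nat_lit 304) (nat_lit 47871767255) (nat_lit 380) (nat_lit 37006794462) (nat_lit 93) (nat_lit 5) (nat_lit 97) (nat_lit 5) (nat_lit 98) (nat_lit 5) (nat_lit 383) (nat_lit 336) (nat_lit 61)) (XT.nd (nat_lit 78) (nat_lit 0) (nat_lit 0) (XT.lf (nat_lit 0) (nat_lit 5551169394) (nat_lit 0) (nat_lit 5551169394) (nat_lit 1140) (nat_lit 8819200924) (nat_lit 195) (nat_lit 5) (nat_lit 195) (nat_lit 3) (nat_lit 210) (nat_lit 3) (nat_lit 337) (nat_lit 337) (nat_lit 106)) (XT.lf (nat_lit 0) (nat_lit 22646215729) (nat_lit 1140) (nat_lit 10742758387) (nat_lit 1216)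 (nat_lit 7048451213) (nat_lit 195) (nat_lit 5) (nat_lit 210) (nat_lit 3) (nat_lit 211) (nat_lit 5) (nat_lit 338) (nat_lit 337) (nat_lit 105))))) (XT.nd (nat_lit 234) (nat_lit 0) (nat_lit 76) (XT.nd (nat_lit 78) (nat_lit 0) (nat_lit 76) (XT.lf (nat_lit 76) (nat_lit 7837350681) (nat_lit 0) (nat_lit 15447381960) (nat_lit 1216) (nat_lit 17759358798) (nat_lit 196) (nat_lit 5) (nat_lit 195) (nat_lit 5) (nat_lit 211) (nat_lit 5) (nat_lit 339) (nat_lit 337) (nat_lit 104)) (XT.nd (nat_lit 78) (nat_lit 0) (nat_lit 0) (XT.lf (nat_lit 0) (nat_lit 24079624022) (nat_lit 1140) (nat_lit 14501716375) (nat_lit 1216) (nat_lit 3083502318) (nat_lit 196) (nat_lit 5) (nat_lit 211) (nat_lit 5) (nat_lit 212) (nat_lit 5) (nat_lit 340) (nat_lit 337) (nat_lit 103)) (XT.lf (nat_lit 76) (nat_lit 4702432659) (nat_lit 0) (nat_lit 20392634054) (nat_lit 1216) (nat_lit 17203250381) (nat_lit 197) (nat_lit 5) (nat_lit 196) (nat_lit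 5) (nat_lit 212) (nat_lit 5) (nat_lit 341) (nat_lit 337) (nat_lit 102)))) (XT.nd (nat_lit 156) (nat_lit 0) (nat_lit 76) (XT.nd (nat_lit 78) (nat_lit 0) (nat_lit 76) (XT.lf (nat_lit 76) (nat_lit 24779142297) (nat_lit 0) (nat_lit 1506860809) (nat_lit 1216) (nat_lit 16660443337) (nat_lit 197) (nat_lit 5) (nat_lit 196) (nat_lit 5) (nat_lit 212) (nat_lit 5) (nat_lit 342) (nat_lit 337) (nat_lit 101)) (XT.lf (nat_lit 76) (nat_lit 1704023703) (nat_lit 0) (nat_lit 25996164892) (nat_lit 1216) (nat_lit 15908207052) (nat_lit 198) (nat_lit 5) (nat_lit 197) (nat_lit 5) (nat_lit 213) (nat_lit 5) (nat_lit 343) (nat_lit 337) (nat_lit 100))) (XT.nd (nat_lit 78) (nat_lit 0) (nat_lit 76) (XT.lf (nat_lit 76) (nat_lit 22527836888) (nat_lit 0) (nat_lit 6825859454) (nat_lit 1216) (nat_lit 14930601640) (nat_lit 198) (nat_lit 5) (nat_lit 197) (nat_lit 5) (nat_lit 213) (nat_lit 5) (nat_lit 344) (nat_lit 337) (nat_lit 99))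 (XT.lf (nat_lit 0) (nat_lit 31179712630) (nat_lit 1140) (nat_lit 1129173663) (nat_lit 1216) (nat_lit 12667905507) (nat_lit 198) (nat_lit 5) (nat_lit 213) (nat_lit 5) (nat_lit 214) (nat_lit 5) (nat_lit 345) (nat_lit 337) (nat_lit 98)))))) (XT.nd (nat_lit 546) (nat_lit 1216) (nat_lit 0) (XT.nd (nat_lit 234) (nat_lit 988) (nat_lit 0) (XT.nd (nat_lit 78) (nat_lit 0) (nat_lit 76) (XT.lf (nat_lit 76) (nat_lit 20447509447) (nat_lit 0) (nat_lit 12875886830) (nat_lit 1216) (nat_lit 12358779016) (nat_lit 199) (nat_lit 5) (nat_lit 198) (nat_lit 5) (nat_lit 214) (nat_lit 5) (nat_lit 346) (nat_lit 337) (nat_lit 97)) (XT.nd (nat_lit 78) (nat_lit 0) (nat_lit 0) (XT.lf (nat_lit 0) (nat_lit 35610323005) (nat_lit 1140) (nat_lit 3783364368) (nat_lit 1216) (nat_lit 7012666366) (nat_lit 199) (nat_lit 5) (nat_lit 214) (nat_lit 5) (nat_lit 215) (nat_lit 5) (nat_lit 347) (nat_lit 337) (nat_lit 96)) (XT.lf (nat_lit 76)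 (nat_lit 18545019610) (nat_lit 0) (nat_lit 19725405695) (nat_lit 1216) (nat_lit 8872696583) (nat_lit 200) (nat_lit 5) (nat_lit 199) (nat_lit 5) (nat_lit 215) (nat_lit 5) (nat_lit 348) (nat_lit 337) (nat_lit 95)))) (XT.nd (nat_lit 156) (nat_lit 1140) (nat_lit 0) (XT.nd (nat_lit 78) (nat_lit 0) (nat_lit 0) (XT.lf (nat_lit 0) (nat_lit 41052883283) (nat_lit 1140) (nat_lit 6286420941) (nat_lit 1216) (nat_lit 561413623) (nat_lit 200) (nat_lit 5) (nat_lit 215) (nat_lit 5) (nat_lit 216) (nat_lit 5) (nat_lit 349) (nat_lit 337) (nat_lit 94)) (XT.lf (nat_lit 76) (nat_lit 16826803761) (nat_lit 0) (nat_lit 27447942387) (nat_lit 1216) (nat_lit 4395618906) (nat_lit 201) (nat_lit 5) (nat_lit 200) (nat_lit 5) (nat_lit 216) (nat_lit 5) (nat_lit 350) (nat_lit 337) (nat_lit 93))) (XT.nd (nat_lit 78) (nat_lit 1140) (nat_lit 0) (XT.lf (nat_lit 76) (nat_lit 40761441501) (nat_lit 0) (nat_lit 6894208937) (nat_lit 1216)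 (nat_lit 1805580939) (nat_lit 201) (nat_lit 5) (nat_lit 200) (nat_lit 5) (nat_lit 216) (nat_lit 5) (nat_lit 351) (nat_lit 337) (nat_lit 92)) (XT.lf (nat_lit 0) (nat_lit 1131368396) (nat_lit 1216) (nat_lit 34979682495) (nat_lit 1292) (nat_lit 14155944343) (nat_lit 185) (nat_lit 5) (nat_lit 201) (nat_lit 5) (nat_lit 202) (nat_lit 5) (nat_lit 352) (nat_lit 337) (nat_lit 91))))) (XT.nd (nat_lit 234) (nat_lit 1216) (nat_lit 0) (XT.nd (nat_lit 78) (nat_lit 0) (nat_lit 76) (XT.lf (nat_lit 0) (nat_lit 4276066410) (nat_lit 1216) (nat_lit 11009810698) (nat_lit 1292) (nat_lit 35805841827) (nat_lit 185) (nat_lit 5) (nat_lit 201) (nat_lit 5) (nat_lit 202) (nat_lit 5) (nat_lit 353) (nat_lit 337) (nat_lit 90)) (XT.nd (nat_lit 78) (nat_lit 0) (nat_lit 0) (XT.lf (nat_lit 0) (nat_lit 7708769484) (nat_lit 1216) (nat_lit 38047240627) (nat_lit 76) (nat_lit 6179365439) (nat_lit 186) (nat_lit 5) (nat_lit 202) (nat_lit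 5) (nat_lit 187) (nat_lit 5) (nat_lit 354) (nat_lit 337) (nat_lit 89)) (XT.lf (nat_lit 0) (nat_lit 11507081390) (nat_lit 1216) (nat_lit 13195615626) (nat_lit 76) (nat_lit 28093767106) (nat_lit 186) (nat_lit 5) (nat_lit 202) (nat_lit 5) (nat_lit 187) (nat_lit 5) (nat_lit 355) (nat_lit 337) (nat_lit 88)))) (XT.nd (nat_lit 156) (nat_lit 608) (nat_lit 0) (XT.nd (nat_lit 78) (nat_lit 0) (nat_lit 0) (XT.lf (nat_lit 0) (nat_lit 12647509755) (nat_lit 684) (nat_lit 2892441659) (nat_lit 760) (nat_lit 38139816735) (nat_lit 177) (nat_lit 5) (nat_lit 186) (nat_lit 5) (nat_lit 187) (nat_lit 5) (nat_lit 356) (nat_lit 337) (nat_lit 87)) (XT.lf (nat_lit 0) (nat_lit 20015570194) (nat_lit 760) (nat_lit 15239475235) (nat_lit 76) (nat_lit 19324874018) (nat_lit 177) (nat_lit 5) (nat_lit 187) (nat_lit 5) (nat_lit 178) (nat_lit 5) (nat_lit 357) (nat_lit 337) (nat_lit 86))) (XT.nd (nat_lit 78) (nat_lit 0) (nat_lit 0) (XT.lf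 (nat_lit 0) (nat_lit 11522454272) (nat_lit 608) (nat_lit 13241484025) (nat_lit 684) (nat_lit 30738983562) (nat_lit 169) (nat_lit 5) (nat_lit 177) (nat_lit 5) (nat_lit 178) (nat_lit 5) (nat_lit 358) (nat_lit 337) (nat_lit 85)) (XT.lf (nat_lit 0) (nat_lit 29899941895) (nat_lit 684) (nat_lit 17142420168) (nat_lit 76) (nat_lit 9403897718) (nat_lit 169) (nat_lit 5) (nat_lit 178) (nat_lit 5) (nat_lit 170) (nat_lit 5) (nat_lit 359) (nat_lit 337) (nat_lit 84))))))) (XT.nd (nat_lit 1092) (nat_lit 1976) (nat_lit 0) (XT.nd (nat_lit 546) (nat_lit 1368) (nat_lit 0) (XT.nd (nat_lit 234) (nat_lit 1064) (nat_lit 0) (XT.nd (nat_lit 78) (nat_lit 532) (nat_lit 0) (XT.lf (nat_lit 0) (nat_lit 10575186012) (nat_lit 532) (nat_lit 24846725899) (nat_lit 608) (nat_lit 21989030282) (nat_lit 162) (nat_lit 5) (nat_lit 169) (nat_lit 5) (nat_lit 170) (nat_lit 5) (nat_lit 360) (nat_lit 337) (nat_lit 83)) (XT.nd (nat_lit 78) (nat_lit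 532) (nat_lit 0) (XT.lf (nat_lit 0) (nat_lit 39474892582) (nat_lit 532) (nat_lit 1806898062) (nat_lit 608) (nat_lit 17117607859) (nat_lit 162) (nat_lit 5) (nat_lit 169) (nat_lit 5) (nat_lit 170) (nat_lit 5) (nat_lit 361) (nat_lit 337) (nat_lit 82)) (XT.lf (nat_lit 0) (nat_lit 9803808931) (nat_lit 532) (nat_lit 37817815038) (nat_lit 608) (nat_lit 11786760675) (nat_lit 155) (nat_lit 5) (nat_lit 162) (nat_lit 5) (nat_lit 163) (nat_lit 5) (nat_lit 362) (nat_lit 337) (nat_lit 81)))) (XT.nd (nat_lit 156) (nat_lit 608) (nat_lit 0) (XT.nd (nat_lit 78) (nat_lit 456) (nat_lit 0) (XT.lf (nat_lit 0) (nat_lit 39762836644) (nat_lit 532) (nat_lit 14596816917) (nat_lit 608) (nat_lit 6081747633) (nat_lit 155) (nat_lit 5) (nat_lit 162) (nat_lit 5) (nat_lit 163) (nat_lit 5) (nat_lit 363) (nat_lit 337) (nat_lit 80)) (XT.lf (nat_lit 0) (nat_lit 9204416209) (nat_lit 456) (nat_lit 52272693431) (nat_lit 532) (nat_lit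 22980867) (nat_lit 149) (nat_lit 5) (nat_lit 155) (nat_lit 5) (nat_lit 156) (nat_lit 5) (nat_lit 364) (nat_lit 337) (nat_lit 79))) (XT.nd (nat_lit 78) (nat_lit 532) (nat_lit 0) (XT.lf (nat_lit 0) (nat_lit 6450841956) (nat_lit 532) (nat_lit 22383689708) (nat_lit 76) (nat_lit 33743578025) (nat_lit 148) (nat_lit 5) (nat_lit 155) (nat_lit 5) (nat_lit 149) (nat_lit 5) (nat_lit 365) (nat_lit 337) (nat_lit 78)) (XT.lf (nat_lit 0) (nat_lit 8592284558) (nat_lit 532) (nat_lit 4607966608) (nat_lit 608) (nat_lit 50485757211) (nat_lit 141) (nat_lit 5) (nat_lit 148) (nat_lit 5) (nat_lit 149) (nat_lit 5) (nat_lit 366) (nat_lit 337) (nat_lit 77))))) (XT.nd (nat_lit 234) (nat_lit 912) (nat_lit 0) (XT.nd (nat_lit 78) (nat_lit 456) (nat_lit 0) (XT.lf (nat_lit 0) (nat_lit 20575237585) (nat_lit 608) (nat_lit 24062615084) (nat_lit 76) (nat_lit 20176599253) (nat_lit 141) (nat_lit 5) (nat_lit 149) (nat_lit 5) (nat_lit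 142) (nat_lit 5) (nat_lit 367) (nat_lit 337) (nat_lit 76)) (XT.nd (nat_lit 78) (nat_lit 0) (nat_lit 0) (XT.lf (nat_lit 0) (nat_lit 8009294218) (nat_lit 456) (nat_lit 20284068029) (nat_lit 532) (nat_lit 37679730589) (nat_lit 135) (nat_lit 5) (nat_lit 141) (nat_lit 5) (nat_lit 142) (nat_lit 5) (nat_lit 368) (nat_lit 337) (nat_lit 75)) (XT.lf (nat_lit 0) (nat_lit 36533853106) (nat_lit 532) (nat_lit 25671944986) (nat_lit 76) (nat_lit 4951970913) (nat_lit 135) (nat_lit 5) (nat_lit 142) (nat_lit 5) (nat_lit 136) (nat_lit 5) (nat_lit 369) (nat_lit 337) (nat_lit 74)))) (XT.nd (nat_lit 156) (nat_lit 456) (nat_lit 0) (XT.nd (nat_lit 78) (nat_lit 0) (nat_lit 0) (XT.lf (nat_lit 0) (nat_lit 7534059329) (nat_lit 456) (nat_lit 37760062173) (nat_lit 532) (nat_lit 23075687752) (nat_lit 129) (nat_lit 5) (nat_lit 135) (nat_lit 5) (nat_lit 136) (nat_lit 5) (nat_lit 370) (nat_lit 337) (nat_lit 73)) (XT.lf (nat_lit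 0) (nat_lit 42261712011) (nat_lit 456) (nat_lit 12314043343) (nat_lit 532) (nat_lit 15034699296) (nat_lit 129) (nat_lit 5) (nat_lit 135) (nat_lit 5) (nat_lit 136) (nat_lit 5) (nat_lit 371) (nat_lit 337) (nat_lit 72))) (XT.nd (nat_lit 78) (nat_lit 76) (nat_lit 0) (XT.lf (nat_lit 0) (nat_lit 7148009449) (nat_lit 380) (nat_lit 57189450389) (nat_lit 456) (nat_lit 6544811562) (nat_lit 124) (nat_lit 5) (nat_lit 129) (nat_lit 5) (nat_lit 130) (nat_lit 5) (nat_lit 372) (nat_lit 337) (nat_lit 71)) (XT.lf (nat_lit 0) (nat_lit 2557016256) (nat_lit 456) (nat_lit 29090256387) (nat_lit 76) (nat_lit 40532331179) (nat_lit 123) (nat_lit 5) (nat_lit 129) (nat_lit 5) (nat_lit 124) (nat_lit 5) (nat_lit 373) (nat_lit 337) (nat_lit 70)))))) (XT.nd (nat_lit 546) (nat_lit 456) (nat_lit 0) (XT.nd (nat_lit 234) (nat_lit 684) (nat_lit 0) (XT.nd (nat_lit 78) (nat_lit 380) (nat_lit 0) (XT.lf (nat_lit 0) (nat_lit 6657418094)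 (nat_lit 456) (nat_lit 5206295548) (nat_lit 532) (nat_lit 61648298389) (nat_lit 117) (nat_lit 5) (nat_lit 123) (nat_lit 5) (nat_lit 124) (nat_lit 5) (nat_lit 374) (nat_lit 337) (nat_lit 69)) (XT.nd (nat_lit 78) (nat_lit 380) (nat_lit 0) (XT.lf (nat_lit 0) (nat_lit 21957394551) (nat_lit 532) (nat_lit 31017161474) (nat_lit 76) (nat_lit 21894603554) (nat_lit 117) (nat_lit 5) (nat_lit 124) (nat_lit 5) (nat_lit 118) (nat_lit 5) (nat_lit 375) (nat_lit 337) (nat_lit 68)) (XT.lf (nat_lit 0) (nat_lit 5959386099) (nat_lit 380) (nat_lit 26502724604) (nat_lit 456) (nat_lit 43801664658) (nat_lit 112) (nat_lit 5) (nat_lit 117) (nat_lit 5) (nat_lit 118) (nat_lit 5) (nat_lit 376) (nat_lit 337) (nat_lit 67)))) (XT.nd (nat_lit 156) (nat_lit 304) (nat_lit 0) (XT.nd (nat_lit 78) (nat_lit 380) (nat_lit 0) (XT.lf (nat_lit 0) (nat_lit 43605020161) (nat_lit 456) (nat_lit 33020978983) (nat_lit 76) (nat_lit 1064539457)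 (nat_lit 112) (nat_lit 5) (nat_lit 118) (nat_lit 5) (nat_lit 113) (nat_lit 5) (nat_lit 377) (nat_lit 337) (nat_lit 66)) (XT.lf (nat_lit 0) (nat_lit 5219647436) (nat_lit 380) (nat_lit 50174565815) (nat_lit 456) (nat_lit 23756532116) (nat_lit 107) (nat_lit 5) (nat_lit 112) (nat_lit 5) (nat_lit 113) (nat_lit 5) (nat_lit 378) (nat_lit 337) (nat_lit 65))) (XT.nd (nat_lit 78) (nat_lit 304) (nat_lit 0) (XT.lf (nat_lit 0) (nat_lit 45283660494) (nat_lit 380) (nat_lit 22586297390) (nat_lit 456) (nat_lit 12774814687) (nat_lit 107) (nat_lit 5) (nat_lit 112) (nat_lit 5) (nat_lit 113) (nat_lit 5) (nat_lit 379) (nat_lit 337) (nat_lit 64)) (XT.lf (nat_lit 0) (nat_lit 4394972992) (nat_lit 304) (nat_lit 76422730670) (nat_lit 380) (nat_lit 1362985557) (nat_lit 103) (nat_lit 5) (nat_lit 107) (nat_lit 5) (nat_lit 108) (nat_lit 5) (nat_lit 380) (nat_lit 337) (nat_lit 63))))) (XT.nd (nat_lit 37362) (nat_lit 0) (nat_lit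 7448) (XT.nd (nat_lit 78) (nat_lit 380) (nat_lit 0) (XT.lf (nat_lit 0) (nat_lit 10772115960) (nat_lit 380) (nat_lit 38011139586) (nat_lit 76) (nat_lit 34958921070) (nat_lit 102) (nat_lit 5) (nat_lit 107) (nat_lit 5) (nat_lit 103) (nat_lit 5) (nat_lit 381) (nat_lit 337) (nat_lit 62)) (XT.nd (nat_lit 37206) (nat_lit 0) (nat_lit 7448) (XT.lf (nat_lit 0) (nat_lit 3001033021) (nat_lit 380) (nat_lit 20271153905) (nat_lit 456) (nat_lit 62077067979) (nat_lit 97) (nat_lit 5) (nat_lit 102) (nat_lit 5) (nat_lit 103) (nat_lit 5) (nat_lit 382) (nat_lit 337) (nat_lit 61)) (XT.lf (nat_lit 0) (nat_lit 5737198036) (nat_lit 0) (nat_lit 5737198036) (nat_lit 1140) (nat_lit 9043574415) (nat_lit 195) (nat_lit 5) (nat_lit 195) (nat_lit 3) (nat_lit 210) (nat_lit 3) (nat_lit 338) (nat_lit 338) (nat_lit 104)))) (XT.nd (nat_lit 156) (nat_lit 0) (nat_lit 76) (XT.nd (nat_lit 78) (nat_lit 0) (nat_lit 0) (XT.lf (nat_lit 0) (nat_lit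 23400941498) (nat_lit 1140) (nat_lit 11024465683) (nat_lit 1216) (nat_lit 7222791795) (nat_lit 195) (nat_lit 5) (nat_lit 210) (nat_lit 3) (nat_lit 211) (nat_lit 5) (nat_lit 339) (nat_lit 338) (nat_lit 103)) (XT.lf (nat_lit 76) (nat_lit 8112648858) (nat_lit 0) (nat_lit 15944156922) (nat_lit 1216) (nat_lit 18216316123) (nat_lit 196) (nat_lit 5) (nat_lit 195) (nat_lit 5) (nat_lit 211) (nat_lit 5) (nat_lit 340) (nat_lit 338) (nat_lit 102))) (XT.nd (nat_lit 78) (nat_lit 0) (nat_lit 0) (XT.lf (nat_lit 0) (nat_lit 24873090943) (nat_lit 1140) (nat_lit 14895223643) (nat_lit 1216) (nat_lit 3144257235) (nat_lit 196) (nat_lit 5) (nat_lit 211) (nat_lit 5) (nat_lit 212) (nat_lit 5) (nat_lit 341) (nat_lit 338) (nat_lit 101)) (XT.lf (nat_lit 76) (nat_lit 4884642566) (nat_lit 0) (nat_lit 21032679543) (nat_lit 1216) (nat_lit 17647781009) (nat_lit 197) (nat_lit 5) (nat_lit 196) (nat_lit 5) (nat_lit 212) (nat_lit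 5) (nat_lit 342) (nat_lit 338) (nat_lit 100))))))))
noncomputable def xc247 : XT := (XT.nd (nat_lit 2184) (nat_lit 2432) (nat_lit 0) (XT.nd (nat_lit 1092) (nat_lit 3800) (nat_lit 0) (XT.nd (nat_lit 546) (nat_lit 836) (nat_lit 0) (XT.nd (nat_lit 234) (nat_lit 0) (nat_lit 152) (XT.nd (nat_lit 78) (nat_lit 0) (nat_lit 76) (XT.lf (nat_lit 76) (nat_lit 25562455330) (nat_lit 0) (nat_lit 1579509805) (nat_lit 1216) (nat_lit 17090774226) (nat_lit 197) (nat_lit 5) (nat_lit 196) (nat_lit 5) (nat_lit 212) (nat_lit 5) (nat_lit 343) (nat_lit 338) (nat_lit 99)) (XT.nd (nat_lit 78) (nat_lit 0) (nat_lit 0) (XT.lf (nat_lit 76) (nat_lit 1797032718) (nat_lit 0) (nat_lit 26799727429) (nat_lit 1216) (nat_lit 16317843677) (nat_lit 198) (nat_lit 5) (nat_lit 197) (nat_lit 5) (nat_lit 213) (nat_lit 5) (nat_lit 344) (nat_lit 338) (nat_lit 98)) (XT.lf (nat_lit 76) (nat_lit 23244340251) (nat_lit 0) (nat_lit 7053623190) (nat_lit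 1216) (nat_lit 15312879313) (nat_lit 198) (nat_lit 5) (nat_lit 197) (nat_lit 5) (nat_lit 213) (nat_lit 5) (nat_lit 345) (nat_lit 338) (nat_lit 97)))) (XT.nd (nat_lit 156) (nat_lit 0) (nat_lit 76) (XT.nd (nat_lit 78) (nat_lit 0) (nat_lit 0) (XT.lf (nat_lit 0) (nat_lit 32176691615) (nat_lit 1140) (nat_lit 1121424215) (nat_lit 1216) (nat_lit 13026059784) (nat_lit 198) (nat_lit 5) (nat_lit 213) (nat_lit 5) (nat_lit 214) (nat_lit 5) (nat_lit 346) (nat_lit 338) (nat_lit 96)) (XT.lf (nat_lit 76) (nat_lit 21102151303) (nat_lit 0) (nat_lit 13281136853) (nat_lit 1216) (nat_lit 12667476490) (nat_lit 199) (nat_lit 5) (nat_lit 198) (nat_lit 5) (nat_lit 214) (nat_lit 5) (nat_lit 347) (nat_lit 338) (nat_lit 95))) (XT.nd (nat_lit 78) (nat_lit 0) (nat_lit 0) (XT.lf (nat_lit 0) (nat_lit 36736892508) (nat_lit 1140) (nat_lit 3854850870) (nat_lit 1216) (nat_lit 7204985019) (nat_lit 199) (nat_lit 5) (nat_lit 214) (nat_lit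 5) (nat_lit 215) (nat_lit 5) (nat_lit 348) (nat_lit 338) (nat_lit 94)) (XT.lf (nat_lit 76) (nat_lit 19142972721) (nat_lit 0) (nat_lit 20332528177) (nat_lit 1216) (nat_lit 9080139587) (nat_lit 200) (nat_lit 5) (nat_lit 199) (nat_lit 5) (nat_lit 215) (nat_lit 5) (nat_lit 349) (nat_lit 338) (nat_lit 93))))) (XT.nd (nat_lit 234) (nat_lit 1140) (nat_lit 0) (XT.nd (nat_lit 78) (nat_lit 0) (nat_lit 0) (XT.lf (nat_lit 0) (nat_lit 42339630152) (nat_lit 1140) (nat_lit 6432756058) (nat_lit 1216) (nat_lit 563634114) (nat_lit 200) (nat_lit 5) (nat_lit 215) (nat_lit 5) (nat_lit 216) (nat_lit 5) (nat_lit 350) (nat_lit 338) (nat_lit 92)) (XT.nd (nat_lit 78) (nat_lit 0) (nat_lit 0) (XT.lf (nat_lit 76) (nat_lit 17373451096) (nat_lit 0) (nat_lit 28283493417) (nat_lit 1216) (nat_lit 4471850437) (nat_lit 201) (nat_lit 5) (nat_lit 200) (nat_lit 5) (nat_lit 216) (nat_lit 5) (nat_lit 351) (nat_lit 338) (nat_lit 91)) (XT.lf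 (nat_lit 76) (nat_lit 42024909233) (nat_lit 0) (nat_lit 7112795164) (nat_lit 1216) (nat_lit 1805731828) (nat_lit 201) (nat_lit 5) (nat_lit 200) (nat_lit 5) (nat_lit 216) (nat_lit 5) (nat_lit 352) (nat_lit 338) (nat_lit 90)))) (XT.nd (nat_lit 156) (nat_lit 0) (nat_lit 76) (XT.nd (nat_lit 78) (nat_lit 0) (nat_lit 0) (XT.lf (nat_lit 0) (nat_lit 1217025778) (nat_lit 1216) (nat_lit 35986032394) (nat_lit 1292) (nat_lit 14570338345) (nat_lit 185) (nat_lit 5) (nat_lit 201) (nat_lit 5) (nat_lit 202) (nat_lit 5) (nat_lit 353) (nat_lit 338) (nat_lit 89)) (XT.lf (nat_lit 0) (nat_lit 4454558432) (nat_lit 1216) (nat_lit 11298318052) (nat_lit 1292) (nat_lit 36870032297) (nat_lit 185) (nat_lit 5) (nat_lit 201) (nat_lit 5) (nat_lit 202) (nat_lit 5) (nat_lit 354) (nat_lit 338) (nat_lit 88))) (XT.nd (nat_lit 78) (nat_lit 0) (nat_lit 0) (XT.lf (nat_lit 0) (nat_lit 7989103242) (nat_lit 1216) (nat_lit 39145677717) (nat_lit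 76) (nat_lit 6357129930) (nat_lit 186) (nat_lit 5) (nat_lit 202) (nat_lit 5) (nat_lit 187) (nat_lit 5) (nat_lit 355) (nat_lit 338) (nat_lit 87)) (XT.lf (nat_lit 0) (nat_lit 11899935263) (nat_lit 1216) (nat_lit 13549755815) (nat_lit 76) (nat_lit 28929185486) (nat_lit 186) (nat_lit 5) (nat_lit 202) (nat_lit 5) (nat_lit 187) (nat_lit 5) (nat_lit 356) (nat_lit 338) (nat_lit 86)))))) (XT.nd (nat_lit 546) (nat_lit 1520) (nat_lit 0) (XT.nd (nat_lit 234) (nat_lit 1064) (nat_lit 0) (XT.nd (nat_lit 78) (nat_lit 608) (nat_lit 0) (XT.lf (nat_lit 0) (nat_lit 13068254228) (nat_lit 684) (nat_lit 2984546731) (nat_lit 760) (nat_lit 39235909987) (nat_lit 177) (nat_lit 5) (nat_lit 186) (nat_lit 5) (nat_lit 187) (nat_lit 5) (nat_lit 357) (nat_lit 338) (nat_lit 85)) (XT.nd (nat_lit 78) (nat_lit 608) (nat_lit 0) (XT.lf (nat_lit 0) (nat_lit 20661279775) (nat_lit 760) (nat_lit 15655086016) (nat_lit 76) (nat_lit 19899544725)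 (nat_lit 177) (nat_lit 5) (nat_lit 187) (nat_lit 5) (nat_lit 178) (nat_lit 5) (nat_lit 358) (nat_lit 338) (nat_lit 84)) (XT.lf (nat_lit 0) (nat_lit 11909293793) (nat_lit 608) (nat_lit 13641883098) (nat_lit 684) (nat_lit 31615455205) (nat_lit 169) (nat_lit 5) (nat_lit 177) (nat_lit 5) (nat_lit 178) (nat_lit 5) (nat_lit 359) (nat_lit 338) (nat_lit 83)))) (XT.nd (nat_lit 156) (nat_lit 532) (nat_lit 0) (XT.nd (nat_lit 78) (nat_lit 532) (nat_lit 0) (XT.lf (nat_lit 0) (nat_lit 30839940270) (nat_lit 684) (nat_lit 17615359146) (nat_lit 76) (nat_lit 9683011742) (nat_lit 169) (nat_lit 5) (nat_lit 178) (nat_lit 5) (nat_lit 170) (nat_lit 5) (nat_lit 360) (nat_lit 338) (nat_lit 82)) (XT.lf (nat_lit 0) (nat_lit 10933369989) (nat_lit 532) (nat_lit 25593340396) (nat_lit 608) (nat_lit 22605250779) (nat_lit 162) (nat_lit 5) (nat_lit 169) (nat_lit 5) (nat_lit 170) (nat_lit 5) (nat_lit 361) (nat_lit 338) (nat_lit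 81))) (XT.nd (nat_lit 78) (nat_lit 532) (nat_lit 0) (XT.lf (nat_lit 0) (nat_lit 40698875666) (nat_lit 532) (nat_lit 1862282402) (nat_lit 608) (nat_lit 17588951230) (nat_lit 162) (nat_lit 5) (nat_lit 169) (nat_lit 5) (nat_lit 170) (nat_lit 5) (nat_lit 362) (nat_lit 338) (nat_lit 80)) (XT.lf (nat_lit 0) (nat_lit 10138539839) (nat_lit 532) (nat_lit 38951834336) (nat_lit 608) (nat_lit 12099016488) (nat_lit 155) (nat_lit 5) (nat_lit 162) (nat_lit 5) (nat_lit 163) (nat_lit 5) (nat_lit 363) (nat_lit 338) (nat_lit 79))))) (XT.nd (nat_lit 234) (nat_lit 988) (nat_lit 0) (XT.nd (nat_lit 78) (nat_lit 532) (nat_lit 0) (XT.lf (nat_lit 0) (nat_lit 40995155375) (nat_lit 532) (nat_lit 15034221275) (nat_lit 608) (nat_lit 6224057336) (nat_lit 155) (nat_lit 5) (nat_lit 162) (nat_lit 5) (nat_lit 163) (nat_lit 5) (nat_lit 364) (nat_lit 338) (nat_lit 78)) (XT.nd (nat_lit 78) (nat_lit 0) (nat_lit 0) (XT.lf (nat_lit 0)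 (nat_lit 15399956) (nat_lit 532) (nat_lit 53823270087) (nat_lit 76) (nat_lit 9505232883) (nat_lit 148) (nat_lit 5) (nat_lit 155) (nat_lit 5) (nat_lit 149) (nat_lit 5) (nat_lit 365) (nat_lit 338) (nat_lit 77)) (XT.lf (nat_lit 0) (nat_lit 6681851057) (nat_lit 532) (nat_lit 23015349033) (nat_lit 76) (nat_lit 34757090635) (nat_lit 148) (nat_lit 5) (nat_lit 155) (nat_lit 5) (nat_lit 149) (nat_lit 5) (nat_lit 366) (nat_lit 338) (nat_lit 76)))) (XT.nd (nat_lit 156) (nat_lit 456) (nat_lit 0) (XT.nd (nat_lit 78) (nat_lit 0) (nat_lit 0) (XT.lf (nat_lit 0) (nat_lit 8889513761) (nat_lit 532) (nat_lit 4743516340) (nat_lit 608) (nat_lit 51962418745) (nat_lit 141) (nat_lit 5) (nat_lit 148) (nat_lit 5) (nat_lit 149) (nat_lit 5) (nat_lit 367) (nat_lit 338) (nat_lit 75)) (XT.lf (nat_lit 0) (nat_lit 21228220200) (nat_lit 608) (nat_lit 24745100724) (nat_lit 76) (nat_lit 20784457220) (nat_lit 141) (nat_lit 5) (nat_lit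 149) (nat_lit 5) (nat_lit 142) (nat_lit 5) (nat_lit 368) (nat_lit 338) (nat_lit 74))) (XT.nd (nat_lit 78) (nat_lit 0) (nat_lit 0) (XT.lf (nat_lit 0) (nat_lit 8288579654) (nat_lit 456) (nat_lit 20888643354) (nat_lit 532) (nat_lit 38773976280) (nat_lit 135) (nat_lit 5) (nat_lit 141) (nat_lit 5) (nat_lit 142) (nat_lit 5) (nat_lit 369) (nat_lit 338) (nat_lit 73)) (XT.lf (nat_lit 0) (nat_lit 37663944265) (nat_lit 532) (nat_lit 26403214982) (nat_lit 76) (nat_lit 5104287031) (nat_lit 135) (nat_lit 5) (nat_lit 142) (nat_lit 5) (nat_lit 136) (nat_lit 5) (nat_lit 370) (nat_lit 338) (nat_lit 72))))))) (XT.nd (nat_lit 38376) (nat_lit 0) (nat_lit 6232) (XT.nd (nat_lit 546) (nat_lit 684) (nat_lit 0) (XT.nd (nat_lit 234) (nat_lit 912) (nat_lit 0) (XT.nd (nat_lit 78) (nat_lit 380) (nat_lit 0) (XT.lf (nat_lit 0) (nat_lit 7798588203) (nat_lit 456) (nat_lit 38887810170) (nat_lit 532) (nat_lit 23733469008) (nat_lit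 129) (nat_lit 5) (nat_lit 135) (nat_lit 5) (nat_lit 136) (nat_lit 5) (nat_lit 371) (nat_lit 338) (nat_lit 71)) (XT.nd (nat_lit 78) (nat_lit 380) (nat_lit 0) (XT.lf (nat_lit 0) (nat_lit 43566948900) (nat_lit 456) (nat_lit 12678557975) (nat_lit 532) (nat_lit 15452255442) (nat_lit 129) (nat_lit 5) (nat_lit 135) (nat_lit 5) (nat_lit 136) (nat_lit 5) (nat_lit 372) (nat_lit 338) (nat_lit 70)) (XT.lf (nat_lit 0) (nat_lit 7400418142) (nat_lit 380) (nat_lit 58899109133) (nat_lit 456) (nat_lit 6708223272) (nat_lit 124) (nat_lit 5) (nat_lit 129) (nat_lit 5) (nat_lit 130) (nat_lit 5) (nat_lit 373) (nat_lit 338) (nat_lit 69)))) (XT.nd (nat_lit 156) (nat_lit 380) (nat_lit 0) (XT.nd (nat_lit 78) (nat_lit 456) (nat_lit 0) (XT.lf (nat_lit 0) (nat_lit 2665076261) (nat_lit 456) (nat_lit 29925448704) (nat_lit 76) (nat_lit 41753497562) (nat_lit 123) (nat_lit 5) (nat_lit 129) (nat_lit 5) (nat_lit 124) (nat_lit 5) (nat_lit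 374) (nat_lit 338) (nat_lit 68)) (XT.lf (nat_lit 0) (nat_lit 6894288214) (nat_lit 456) (nat_lit 5356130348) (nat_lit 532) (nat_lit 63466001944) (nat_lit 117) (nat_lit 5) (nat_lit 123) (nat_lit 5) (nat_lit 124) (nat_lit 5) (nat_lit 375) (nat_lit 338) (nat_lit 67))) (XT.nd (nat_lit 78) (nat_lit 380) (nat_lit 0) (XT.lf (nat_lit 0) (nat_lit 22646072299) (nat_lit 532) (nat_lit 31910745848) (nat_lit 76) (nat_lit 22557490278) (nat_lit 117) (nat_lit 5) (nat_lit 124) (nat_lit 5) (nat_lit 118) (nat_lit 5) (nat_lit 376) (nat_lit 338) (nat_lit 66)) (XT.lf (nat_lit 0) (nat_lit 6174736089) (nat_lit 380) (nat_lit 27290672863) (nat_lit 456) (nat_lit 45085370154) (nat_lit 112) (nat_lit 5) (nat_lit 117) (nat_lit 5) (nat_lit 118) (nat_lit 5) (nat_lit 377) (nat_lit 338) (nat_lit 65))))) (XT.nd (nat_lit 234) (nat_lit 304) (nat_lit 0) (XT.nd (nat_lit 78) (nat_lit 380) (nat_lit 0) (XT.lf (nat_lit 0) (nat_lit 44941814939)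 (nat_lit 456) (nat_lit 33975288593) (nat_lit 76) (nat_lit 1103266204) (nat_lit 112) (nat_lit 5) (nat_lit 118) (nat_lit 5) (nat_lit 113) (nat_lit 5) (nat_lit 378) (nat_lit 338) (nat_lit 64)) (XT.nd (nat_lit 78) (nat_lit 0) (nat_lit 0) (XT.lf (nat_lit 0) (nat_lit 5412200543) (nat_lit 380) (nat_lit 51671994688) (nat_lit 456) (nat_lit 24440202881) (nat_lit 107) (nat_lit 5) (nat_lit 112) (nat_lit 5) (nat_lit 113) (nat_lit 5) (nat_lit 379) (nat_lit 338) (nat_lit 63)) (XT.lf (nat_lit 0) (nat_lit 46677086507) (nat_lit 380) (nat_lit 23256305630) (nat_lit 456) (nat_lit 13129879323) (nat_lit 107) (nat_lit 5) (nat_lit 112) (nat_lit 5) (nat_lit 113) (nat_lit 5) (nat_lit 380) (nat_lit 338) (nat_lit 62)))) (XT.nd (nat_lit 37440) (nat_lit 0) (nat_lit 6992) (XT.nd (nat_lit 37362) (nat_lit 0) (nat_lit 6992) (XT.lf (nat_lit 0) (nat_lit 4562159919) (nat_lit 304) (nat_lit 78707024624) (nat_lit 380) (nat_lit 1376093342)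 (nat_lit 103) (nat_lit 5) (nat_lit 107) (nat_lit 5) (nat_lit 108) (nat_lit 5) (nat_lit 381) (nat_lit 338) (nat_lit 61)) (XT.lf (nat_lit 0) (nat_lit 5927688528) (nat_lit 0) (nat_lit 5927688528) (nat_lit 1140) (nat_lit 9276986901) (nat_lit 195) (nat_lit 5) (nat_lit 195) (nat_lit 3) (nat_lit 210) (nat_lit 3) (nat_lit 339) (nat_lit 339) (nat_lit 102))) (XT.nd (nat_lit 78) (nat_lit 0) (nat_lit 0) (XT.lf (nat_lit 0) (nat_lit 24173984255) (nat_lit 1140) (nat_lit 11316953395) (nat_lit 1216) (nat_lit 7404493031) (nat_lit 195) (nat_lit 5) (nat_lit 210) (nat_lit 3) (nat_lit 211) (nat_lit 5) (nat_lit 340) (nat_lit 339) (nat_lit 101)) (XT.lf (nat_lit 76) (nat_lit 8393899619) (nat_lit 0) (nat_lit 16453920505) (nat_lit 1216) (nat_lit 18691334744) (nat_lit 196) (nat_lit 5) (nat_lit 195) (nat_lit 5) (nat_lit 211) (nat_lit 5) (nat_lit 341) (nat_lit 339) (nat_lit 100)))))) (XT.nd (nat_lit 546) (nat_lit 836) (nat_lit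 0) (XT.nd (nat_lit 234) (nat_lit 0) (nat_lit 76) (XT.nd (nat_lit 78) (nat_lit 0) (nat_lit 0) (XT.lf (nat_lit 0) (nat_lit 25686281692) (nat_lit 1140) (nat_lit 15302920938) (nat_lit 1216) (nat_lit 3208657389) (nat_lit 196) (nat_lit 5) (nat_lit 211) (nat_lit 5) (nat_lit 212) (nat_lit 5) (nat_lit 342) (nat_lit 339) (nat_lit 99)) (XT.nd (nat_lit 78) (nat_lit 0) (nat_lit 0) (XT.lf (nat_lit 76) (nat_lit 5069957342) (nat_lit 0) (nat_lit 21690303786) (nat_lit 1216) (nat_lit 18109755788) (nat_lit 197) (nat_lit 5) (nat_lit 196) (nat_lit 5) (nat_lit 212) (nat_lit 5) (nat_lit 343) (nat_lit 339) (nat_lit 98)) (XT.lf (nat_lit 76) (nat_lit 26366975106) (nat_lit 0) (nat_lit 1652762922) (nat_lit 1216) (nat_lit 17538003616) (nat_lit 197) (nat_lit 5) (nat_lit 196) (nat_lit 5) (nat_lit 212) (nat_lit 5) (nat_lit 344) (nat_lit 339) (nat_lit 97)))) (XT.nd (nat_lit 156) (nat_lit 0) (nat_lit 76) (XT.nd (nat_lit 78) (nat_lit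 0) (nat_lit 0) (XT.lf (nat_lit 76) (nat_lit 1890427443) (nat_lit 0) (nat_lit 27626037652) (nat_lit 1216) (nat_lit 16743650467) (nat_lit 198) (nat_lit 5) (nat_lit 197) (nat_lit 5) (nat_lit 213) (nat_lit 5) (nat_lit 345) (nat_lit 339) (nat_lit 96)) (XT.lf (nat_lit 76) (nat_lit 23980004190) (nat_lit 0) (nat_lit 7286900235) (nat_lit 1216) (nat_lit 15710393343) (nat_lit 198) (nat_lit 5) (nat_lit 197) (nat_lit 5) (nat_lit 213) (nat_lit 5) (nat_lit 346) (nat_lit 339) (nat_lit 95))) (XT.nd (nat_lit 78) (nat_lit 0) (nat_lit 0) (XT.lf (nat_lit 0) (nat_lit 33200044588) (nat_lit 1140) (nat_lit 1115831709) (nat_lit 1216) (nat_lit 13396214857) (nat_lit 198) (nat_lit 5) (nat_lit 213) (nat_lit 5) (nat_lit 214) (nat_lit 5) (nat_lit 347) (nat_lit 339) (nat_lit 94)) (XT.lf (nat_lit 76) (nat_lit 21774066415) (nat_lit 0) (nat_lit 13697455225) (nat_lit 1216) (nat_lit 12988997725) (nat_lit 199) (nat_lit 5) (nat_lit 198)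 (nat_lit 5) (nat_lit 214) (nat_lit 5) (nat_lit 348) (nat_lit 339) (nat_lit 93))))) (XT.nd (nat_lit 234) (nat_lit 1064) (nat_lit 0) (XT.nd (nat_lit 78) (nat_lit 0) (nat_lit 0) (XT.lf (nat_lit 0) (nat_lit 37893914744) (nat_lit 1140) (nat_lit 3930893767) (nat_lit 1216) (nat_lit 7404110026) (nat_lit 199) (nat_lit 5) (nat_lit 214) (nat_lit 5) (nat_lit 215) (nat_lit 5) (nat_lit 349) (nat_lit 339) (nat_lit 92)) (XT.nd (nat_lit 78) (nat_lit 0) (nat_lit 76) (XT.lf (nat_lit 76) (nat_lit 19756476271) (nat_lit 0) (nat_lit 20956982588) (nat_lit 1216) (nat_lit 9297177676) (nat_lit 200) (nat_lit 5) (nat_lit 199) (nat_lit 5) (nat_lit 215) (nat_lit 5) (nat_lit 350) (nat_lit 339) (nat_lit 91)) (XT.lf (nat_lit 0) (nat_lit 43661812995) (nat_lit 1140) (nat_lit 6585906983) (nat_lit 1216) (nat_lit 566760577) (nat_lit 200) (nat_lit 5) (nat_lit 215) (nat_lit 5) (nat_lit 216) (nat_lit 5) (nat_lit 351) (nat_lit 339) (nat_lit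 90)))) (XT.nd (nat_lit 156) (nat_lit 1140) (nat_lit 0) (XT.nd (nat_lit 78) (nat_lit 0) (nat_lit 0) (XT.lf (nat_lit 76) (nat_lit 17934095878) (nat_lit 0) (nat_lit 29143415656) (nat_lit 1216) (nat_lit 4553562707) (nat_lit 201) (nat_lit 5) (nat_lit 200) (nat_lit 5) (nat_lit 216) (nat_lit 5) (nat_lit 352) (nat_lit 339) (nat_lit 89)) (XT.lf (nat_lit 76) (nat_lit 43323948986) (nat_lit 0) (nat_lit 7337263909) (nat_lit 1216) (nat_lit 1808988013) (nat_lit 201) (nat_lit 5) (nat_lit 200) (nat_lit 5) (nat_lit 216) (nat_lit 5) (nat_lit 353) (nat_lit 339) (nat_lit 88))) (XT.nd (nat_lit 78) (nat_lit 0) (nat_lit 0) (XT.lf (nat_lit 0) (nat_lit 1302284153) (nat_lit 1216) (nat_lit 37025043495) (nat_lit 1292) (nat_lit 14997754529) (nat_lit 185) (nat_lit 5) (nat_lit 201) (nat_lit 5) (nat_lit 202) (nat_lit 5) (nat_lit 354) (nat_lit 339) (nat_lit 87)) (XT.lf (nat_lit 0) (nat_lit 4635522954) (nat_lit 1216) (nat_lit 11597879370)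 (nat_lit 1292) (nat_lit 37966721649) (nat_lit 185) (nat_lit 5) (nat_lit 201) (nat_lit 5) (nat_lit 202) (nat_lit 5) (nat_lit 355) (nat_lit 339) (nat_lit 86))))))))
noncomputable def xc248 : XT := (XT.nd (nat_lit 39546) (nat_lit 0) (nat_lit 2584) (XT.nd (nat_lit 1014) (nat_lit 2584) (nat_lit 0) (XT.nd (nat_lit 468) (nat_lit 2128) (nat_lit 0) (XT.nd (nat_lit 234) (nat_lit 608) (nat_lit 0) (XT.nd (nat_lit 78) (nat_lit 684) (nat_lit 0) (XT.lf (nat_lit 0) (nat_lit 8275030156) (nat_lit 1216) (nat_lit 40279535155) (nat_lit 76) (nat_lit 6540664572) (nat_lit 186) (nat_lit 5) (nat_lit 202) (nat_lit 5) (nat_lit 187) (nat_lit 5) (nat_lit 356) (nat_lit 339) (nat_lit 85)) (XT.nd (nat_lit 78) (nat_lit 684) (nat_lit 0) (XT.lf (nat_lit 0) (nat_lit 12301839939) (nat_lit 1216) (nat_lit 13916915583) (nat_lit 76) (nat_lit 29790090899) (nat_lit 186) (nat_lit 5) (nat_lit 202) (nat_lit 5) (nat_lit 187) (nat_lit 5) (nat_lit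 357) (nat_lit 339) (nat_lit 84)) (XT.lf (nat_lit 0) (nat_lit 13499249144) (nat_lit 684) (nat_lit 3079108887) (nat_lit 760) (nat_lit 40367647245) (nat_lit 177) (nat_lit 5) (nat_lit 186) (nat_lit 5) (nat_lit 187) (nat_lit 5) (nat_lit 358) (nat_lit 339) (nat_lit 83)))) (XT.nd (nat_lit 78) (nat_lit 608) (nat_lit 0) (XT.lf (nat_lit 0) (nat_lit 21323763540) (nat_lit 760) (nat_lit 16085551608) (nat_lit 76) (nat_lit 20491746908) (nat_lit 177) (nat_lit 5) (nat_lit 187) (nat_lit 5) (nat_lit 178) (nat_lit 5) (nat_lit 359) (nat_lit 339) (nat_lit 82)) (XT.nd (nat_lit 78) (nat_lit 0) (nat_lit 0) (XT.lf (nat_lit 0) (nat_lit 12305375409) (nat_lit 608) (nat_lit 14054113058) (nat_lit 684) (nat_lit 32520844241) (nat_lit 169) (nat_lit 5) (nat_lit 177) (nat_lit 5) (nat_lit 178) (nat_lit 5) (nat_lit 360) (nat_lit 339) (nat_lit 81)) (XT.lf (nat_lit 0) (nat_lit 31805670213) (nat_lit 684) (nat_lit 18104859012) (nat_lit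 76) (nat_lit 9970671565) (nat_lit 169) (nat_lit 5) (nat_lit 178) (nat_lit 5) (nat_lit 170) (nat_lit 5) (nat_lit 361) (nat_lit 339) (nat_lit 80))))) (XT.nd (nat_lit 234) (nat_lit 1064) (nat_lit 0) (XT.nd (nat_lit 78) (nat_lit 532) (nat_lit 0) (XT.lf (nat_lit 0) (nat_lit 11299950027) (nat_lit 532) (nat_lit 26362283713) (nat_lit 608) (nat_lit 23242452122) (nat_lit 162) (nat_lit 5) (nat_lit 169) (nat_lit 5) (nat_lit 170) (nat_lit 5) (nat_lit 362) (nat_lit 339) (nat_lit 79)) (XT.nd (nat_lit 78) (nat_lit 532) (nat_lit 0) (XT.lf (nat_lit 0) (nat_lit 41957297216) (nat_lit 532) (nat_lit 1919260685) (nat_lit 608) (nat_lit 18076856485) (nat_lit 162) (nat_lit 5) (nat_lit 169) (nat_lit 5) (nat_lit 170) (nat_lit 5) (nat_lit 363) (nat_lit 339) (nat_lit 78)) (XT.lf (nat_lit 0) (nat_lit 10480981114) (nat_lit 532) (nat_lit 40119903785) (nat_lit 608) (nat_lit 12423013463) (nat_lit 155) (nat_lit 5) (nat_lit 162) (nat_lit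 5) (nat_lit 163) (nat_lit 5) (nat_lit 364) (nat_lit 339) (nat_lit 77)))) (XT.nd (nat_lit 156) (nat_lit 532) (nat_lit 0) (XT.nd (nat_lit 78) (nat_lit 532) (nat_lit 0) (XT.lf (nat_lit 0) (nat_lit 42262180016) (nat_lit 532) (nat_lit 15484776476) (nat_lit 608) (nat_lit 6372940688) (nat_lit 155) (nat_lit 5) (nat_lit 162) (nat_lit 5) (nat_lit 163) (nat_lit 5) (nat_lit 365) (nat_lit 339) (nat_lit 76)) (XT.lf (nat_lit 0) (nat_lit 52254035) (nat_lit 532) (nat_lit 55399277543) (nat_lit 76) (nat_lit 9791560034) (nat_lit 148) (nat_lit 5) (nat_lit 155) (nat_lit 5) (nat_lit 149) (nat_lit 5) (nat_lit 366) (nat_lit 339) (nat_lit 75))) (XT.nd (nat_lit 78) (nat_lit 532) (nat_lit 0) (XT.lf (nat_lit 0) (nat_lit 6917638706) (nat_lit 532) (nat_lit 23668245770) (nat_lit 76) (nat_lit 35800939436) (nat_lit 148) (nat_lit 5) (nat_lit 155) (nat_lit 5) (nat_lit 149) (nat_lit 5) (nat_lit 367) (nat_lit 339) (nat_lit 74)) (XT.lf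 (nat_lit 0) (nat_lit 9193394637) (nat_lit 532) (nat_lit 4883286939) (nat_lit 608) (nat_lit 53485556383) (nat_lit 141) (nat_lit 5) (nat_lit 148) (nat_lit 5) (nat_lit 149) (nat_lit 5) (nat_lit 368) (nat_lit 339) (nat_lit 73)))))) (XT.nd (nat_lit 546) (nat_lit 1216) (nat_lit 0) (XT.nd (nat_lit 234) (nat_lit 912) (nat_lit 0) (XT.nd (nat_lit 78) (nat_lit 456) (nat_lit 0) (XT.lf (nat_lit 0) (nat_lit 21898741503) (nat_lit 608) (nat_lit 25450322241) (nat_lit 76) (nat_lit 21410403972) (nat_lit 141) (nat_lit 5) (nat_lit 149) (nat_lit 5) (nat_lit 142) (nat_lit 5) (nat_lit 369) (nat_lit 339) (nat_lit 72)) (XT.nd (nat_lit 78) (nat_lit 0) (nat_lit 0) (XT.lf (nat_lit 0) (nat_lit 8574004514) (nat_lit 456) (nat_lit 21511582498) (nat_lit 532) (nat_lit 39903124282) (nat_lit 135) (nat_lit 5) (nat_lit 141) (nat_lit 5) (nat_lit 142) (nat_lit 5) (nat_lit 370) (nat_lit 339) (nat_lit 71)) (XT.lf (nat_lit 0) (nat_lit 38825982081)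 (nat_lit 532) (nat_lit 27158655429) (nat_lit 76) (nat_lit 5260956966) (nat_lit 135) (nat_lit 5) (nat_lit 142) (nat_lit 5) (nat_lit 136) (nat_lit 5) (nat_lit 371) (nat_lit 339) (nat_lit 70)))) (XT.nd (nat_lit 156) (nat_lit 456) (nat_lit 0) (XT.nd (nat_lit 78) (nat_lit 0) (nat_lit 0) (XT.lf (nat_lit 0) (nat_lit 8068842480) (nat_lit 456) (nat_lit 40049680719) (nat_lit 532) (nat_lit 24412963532) (nat_lit 129) (nat_lit 5) (nat_lit 135) (nat_lit 5) (nat_lit 136) (nat_lit 5) (nat_lit 372) (nat_lit 339) (nat_lit 69)) (XT.lf (nat_lit 0) (nat_lit 44909196814) (nat_lit 456) (nat_lit 13054289709) (nat_lit 532) (nat_lit 15884260439) (nat_lit 129) (nat_lit 5) (nat_lit 135) (nat_lit 5) (nat_lit 136) (nat_lit 5) (nat_lit 373) (nat_lit 339) (nat_lit 68))) (XT.nd (nat_lit 78) (nat_lit 76) (nat_lit 0) (XT.lf (nat_lit 0) (nat_lit 7658219554) (nat_lit 380) (nat_lit 60660403486) (nat_lit 456) (nat_lit 6878427801) (nat_lit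 124) (nat_lit 5) (nat_lit 129) (nat_lit 5) (nat_lit 130) (nat_lit 5) (nat_lit 374) (nat_lit 339) (nat_lit 67)) (XT.lf (nat_lit 0) (nat_lit 2774578475) (nat_lit 456) (nat_lit 30787850327) (nat_lit 76) (nat_lit 43011000640) (nat_lit 123) (nat_lit 5) (nat_lit 129) (nat_lit 5) (nat_lit 124) (nat_lit 5) (nat_lit 375) (nat_lit 339) (nat_lit 66))))) (XT.nd (nat_lit 234) (nat_lit 380) (nat_lit 0) (XT.nd (nat_lit 78) (nat_lit 380) (nat_lit 0) (XT.lf (nat_lit 0) (nat_lit 7136132014) (nat_lit 456) (nat_lit 5510824940) (nat_lit 532) (nat_lit 65340058922) (nat_lit 117) (nat_lit 5) (nat_lit 123) (nat_lit 5) (nat_lit 124) (nat_lit 5) (nat_lit 376) (nat_lit 339) (nat_lit 65)) (XT.nd (nat_lit 78) (nat_lit 380) (nat_lit 0) (XT.lf (nat_lit 0) (nat_lit 23353690787) (nat_lit 532) (nat_lit 32833257714) (nat_lit 76) (nat_lit 23239916389) (nat_lit 117) (nat_lit 5) (nat_lit 124) (nat_lit 5) (nat_lit 118) (nat_lit 5) (nat_lit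 377) (nat_lit 339) (nat_lit 64)) (XT.lf (nat_lit 0) (nat_lit 6394447402) (nat_lit 380) (nat_lit 28102669060) (nat_lit 456) (nat_lit 46409328710) (nat_lit 112) (nat_lit 5) (nat_lit 117) (nat_lit 5) (nat_lit 118) (nat_lit 5) (nat_lit 378) (nat_lit 339) (nat_lit 63)))) (XT.nd (nat_lit 37596) (nat_lit 0) (nat_lit 6688) (XT.nd (nat_lit 78) (nat_lit 380) (nat_lit 0) (XT.lf (nat_lit 0) (nat_lit 46317069267) (nat_lit 456) (nat_lit 34960312394) (nat_lit 76) (nat_lit 1142764946) (nat_lit 112) (nat_lit 5) (nat_lit 118) (nat_lit 5) (nat_lit 113) (nat_lit 5) (nat_lit 379) (nat_lit 339) (nat_lit 62)) (XT.lf (nat_lit 0) (nat_lit 5608465780) (nat_lit 380) (nat_lit 53214794644) (nat_lit 456) (nat_lit 25146049933) (nat_lit 107) (nat_lit 5) (nat_lit 112) (nat_lit 5) (nat_lit 113) (nat_lit 5) (nat_lit 380) (nat_lit 339) (nat_lit 61))) (XT.nd (nat_lit 78) (nat_lit 0) (nat_lit 0) (XT.lf (nat_lit 0) (nat_lit 6122838960)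 (nat_lit 0) (nat_lit 6122838960) (nat_lit 1140) (nat_lit 9519577075) (nat_lit 195) (nat_lit 5) (nat_lit 195) (nat_lit 3) (nat_lit 210) (nat_lit 3) (nat_lit 340) (nat_lit 340) (nat_lit 100)) (XT.lf (nat_lit 0) (nat_lit 24966141772) (nat_lit 1140) (nat_lit 11620411230) (nat_lit 1216) (nat_lit 7593653443) (nat_lit 195) (nat_lit 5) (nat_lit 210) (nat_lit 3) (nat_lit 211) (nat_lit 5) (nat_lit 341) (nat_lit 340) (nat_lit 99))))))) (XT.nd (nat_lit 1092) (nat_lit 3344) (nat_lit 0) (XT.nd (nat_lit 546) (nat_lit 760) (nat_lit 0) (XT.nd (nat_lit 234) (nat_lit 0) (nat_lit 76) (XT.nd (nat_lit 78) (nat_lit 0) (nat_lit 76) (XT.lf (nat_lit 76) (nat_lit 8681413936) (nat_lit 0) (nat_lit 16977172276) (nat_lit 1216) (nat_lit 19184706643) (nat_lit 196) (nat_lit 5) (nat_lit 195) (nat_lit 5) (nat_lit 211) (nat_lit 5) (nat_lit 342) (nat_lit 340) (nat_lit 98)) (XT.nd (nat_lit 78) (nat_lit 0) (nat_lit 0) (XT.lf (nat_lit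 0) (nat_lit 26520022203) (nat_lit 1140) (nat_lit 15725097062) (nat_lit 1216) (nat_lit 3276707513) (nat_lit 196) (nat_lit 5) (nat_lit 211) (nat_lit 5) (nat_lit 212) (nat_lit 5) (nat_lit 343) (nat_lit 340) (nat_lit 97)) (XT.lf (nat_lit 76) (nat_lit 5258605689) (nat_lit 0) (nat_lit 22366127289) (nat_lit 1216) (nat_lit 18589462212) (nat_lit 197) (nat_lit 5) (nat_lit 196) (nat_lit 5) (nat_lit 212) (nat_lit 5) (nat_lit 344) (nat_lit 340) (nat_lit 96)))) (XT.nd (nat_lit 156) (nat_lit 0) (nat_lit 76) (XT.nd (nat_lit 78) (nat_lit 0) (nat_lit 76) (XT.lf (nat_lit 76) (nat_lit 27193469434) (nat_lit 0) (nat_lit 1726728712) (nat_lit 1216) (nat_lit 18002409502) (nat_lit 197) (nat_lit 5) (nat_lit 196) (nat_lit 5) (nat_lit 212) (nat_lit 5) (nat_lit 345) (nat_lit 340) (nat_lit 95)) (XT.lf (nat_lit 76) (nat_lit 1984357482) (nat_lit 0) (nat_lit 28475856014) (nat_lit 1216) (nat_lit 17185889739) (nat_lit 198) (nat_lit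 5) (nat_lit 197) (nat_lit 5) (nat_lit 213) (nat_lit 5) (nat_lit 346) (nat_lit 340) (nat_lit 94))) (XT.nd (nat_lit 78) (nat_lit 0) (nat_lit 76) (XT.lf (nat_lit 76) (nat_lit 24735537535) (nat_lit 0) (nat_lit 7525931740) (nat_lit 1216) (nat_lit 16123384520) (nat_lit 198) (nat_lit 5) (nat_lit 197) (nat_lit 5) (nat_lit 213) (nat_lit 5) (nat_lit 347) (nat_lit 340) (nat_lit 93)) (XT.lf (nat_lit 0) (nat_lit 34250765716) (nat_lit 1140) (nat_lit 1112323691) (nat_lit 1216) (nat_lit 13778658640) (nat_lit 198) (nat_lit 5) (nat_lit 213) (nat_lit 5) (nat_lit 214) (nat_lit 5) (nat_lit 348) (nat_lit 340) (nat_lit 92))))) (XT.nd (nat_lit 234) (nat_lit 988) (nat_lit 0) (XT.nd (nat_lit 78) (nat_lit 0) (nat_lit 76) (XT.lf (nat_lit 76) (nat_lit 22463908799) (nat_lit 0) (nat_lit 14125236518) (nat_lit 1216) (nat_lit 13323522912) (nat_lit 199) (nat_lit 5) (nat_lit 198) (nat_lit 5) (nat_lit 214) (nat_lit 5) (nat_lit 349)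 (nat_lit 340) (nat_lit 91)) (XT.nd (nat_lit 78) (nat_lit 0) (nat_lit 0) (XT.lf (nat_lit 0) (nat_lit 39082495275) (nat_lit 1140) (nat_lit 4011491303) (nat_lit 1216) (nat_lit 7610186061) (nat_lit 199) (nat_lit 5) (nat_lit 214) (nat_lit 5) (nat_lit 215) (nat_lit 5) (nat_lit 350) (nat_lit 340) (nat_lit 90)) (XT.lf (nat_lit 76) (nat_lit 20386133863) (nat_lit 0) (nat_lit 21599339502) (nat_lit 1216) (nat_lit 9523905148) (nat_lit 200) (nat_lit 5) (nat_lit 199) (nat_lit 5) (nat_lit 215) (nat_lit 5) (nat_lit 351) (nat_lit 340) (nat_lit 89)))) (XT.nd (nat_lit 156) (nat_lit 1140) (nat_lit 0) (XT.nd (nat_lit 78) (nat_lit 0) (nat_lit 0) (XT.lf (nat_lit 0) (nat_lit 45020676660) (nat_lit 1140) (nat_lit 6745938941) (nat_lit 1216) (nat_lit 570772010) (nat_lit 200) (nat_lit 5) (nat_lit 215) (nat_lit 5) (nat_lit 216) (nat_lit 5) (nat_lit 352) (nat_lit 340) (nat_lit 88)) (XT.lf (nat_lit 76) (nat_lit 18509295915) (nat_lit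 0) (nat_lit 30028480154) (nat_lit 1216) (nat_lit 4640736803) (nat_lit 201) (nat_lit 5) (nat_lit 200) (nat_lit 5) (nat_lit 216) (nat_lit 5) (nat_lit 353) (nat_lit 340) (nat_lit 87))) (XT.nd (nat_lit 78) (nat_lit 1140) (nat_lit 0) (XT.lf (nat_lit 76) (nat_lit 44659761786) (nat_lit 0) (nat_lit 7567830397) (nat_lit 1216) (nat_lit 1815264657) (nat_lit 201) (nat_lit 5) (nat_lit 200) (nat_lit 5) (nat_lit 216) (nat_lit 5) (nat_lit 354) (nat_lit 340) (nat_lit 86)) (XT.lf (nat_lit 0) (nat_lit 1387301968) (nat_lit 1216) (nat_lit 38097553806) (nat_lit 1292) (nat_lit 15438549673) (nat_lit 185) (nat_lit 5) (nat_lit 201) (nat_lit 5) (nat_lit 202) (nat_lit 5) (nat_lit 355) (nat_lit 340) (nat_lit 85)))))) (XT.nd (nat_lit 546) (nat_lit 2128) (nat_lit 0) (XT.nd (nat_lit 234) (nat_lit 1216) (nat_lit 0) (XT.nd (nat_lit 78) (nat_lit 0) (nat_lit 76) (XT.lf (nat_lit 0) (nat_lit 4819199604) (nat_lit 1216) (nat_lit 11908688572)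 (nat_lit 1292) (nat_lit 39096851947) (nat_lit 185) (nat_lit 5) (nat_lit 201) (nat_lit 5) (nat_lit 202) (nat_lit 5) (nat_lit 356) (nat_lit 340) (nat_lit 84)) (XT.nd (nat_lit 78) (nat_lit 0) (nat_lit 0) (XT.lf (nat_lit 0) (nat_lit 8566879720) (nat_lit 1216) (nat_lit 41449733922) (nat_lit 76) (nat_lit 6730117373) (nat_lit 186) (nat_lit 5) (nat_lit 202) (nat_lit 5) (nat_lit 187) (nat_lit 5) (nat_lit 357) (nat_lit 340) (nat_lit 83)) (XT.lf (nat_lit 0) (nat_lit 12713223932) (nat_lit 1216) (nat_lit 14297348014) (nat_lit 76) (nat_lit 30677223590) (nat_lit 186) (nat_lit 5) (nat_lit 202) (nat_lit 5) (nat_lit 187) (nat_lit 5) (nat_lit 358) (nat_lit 340) (nat_lit 82)))) (XT.nd (nat_lit 156) (nat_lit 608) (nat_lit 0) (XT.nd (nat_lit 78) (nat_lit 0) (nat_lit 0) (XT.lf (nat_lit 0) (nat_lit 13940938175) (nat_lit 684) (nat_lit 3176219409) (nat_lit 760) (nat_lit 41535939325) (nat_lit 177) (nat_lit 5) (nat_lit 186)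 (nat_lit 5) (nat_lit 187) (nat_lit 5) (nat_lit 359) (nat_lit 340) (nat_lit 81)) (XT.lf (nat_lit 0) (nat_lit 22003673799) (nat_lit 760) (nat_lit 16531180661) (nat_lit 76) (nat_lit 21101989787) (nat_lit 177) (nat_lit 5) (nat_lit 187) (nat_lit 5) (nat_lit 178) (nat_lit 5) (nat_lit 360) (nat_lit 340) (nat_lit 80))) (XT.nd (nat_lit 78) (nat_lit 0) (nat_lit 0) (XT.lf (nat_lit 0) (nat_lit 12711112034) (nat_lit 608) (nat_lit 14478539228) (nat_lit 684) (nat_lit 33455867607) (nat_lit 169) (nat_lit 5) (nat_lit 177) (nat_lit 5) (nat_lit 178) (nat_lit 5) (nat_lit 361) (nat_lit 340) (nat_lit 79)) (XT.lf (nat_lit 0) (nat_lit 32798045367) (nat_lit 684) (nat_lit 18611280390) (nat_lit 76) (nat_lit 10267123668) (nat_lit 169) (nat_lit 5) (nat_lit 178) (nat_lit 5) (nat_lit 170) (nat_lit 5) (nat_lit 362) (nat_lit 340) (nat_lit 78))))) (XT.nd (nat_lit 234) (nat_lit 1064) (nat_lit 0) (XT.nd (nat_lit 78) (nat_lit 532)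 (nat_lit 0) (XT.lf (nat_lit 0) (nat_lit 11675312877) (nat_lit 532) (nat_lit 27154229710) (nat_lit 608) (nat_lit 23901120558) (nat_lit 162) (nat_lit 5) (nat_lit 169) (nat_lit 5) (nat_lit 170) (nat_lit 5) (nat_lit 363) (nat_lit 340) (nat_lit 77)) (XT.nd (nat_lit 78) (nat_lit 532) (nat_lit 0) (XT.lf (nat_lit 0) (nat_lit 43251321326) (nat_lit 532) (nat_lit 1977884609) (nat_lit 608) (nat_lit 18581681473) (nat_lit 162) (nat_lit 5) (nat_lit 169) (nat_lit 5) (nat_lit 170) (nat_lit 5) (nat_lit 364) (nat_lit 340) (nat_lit 76)) (XT.lf (nat_lit 0) (nat_lit 10831497906) (nat_lit 532) (nat_lit 41323043191) (nat_lit 608) (nat_lit 12758967586) (nat_lit 155) (nat_lit 5) (nat_lit 162) (nat_lit 5) (nat_lit 163) (nat_lit 5) (nat_lit 365) (nat_lit 340) (nat_lit 75)))) (XT.nd (nat_lit 156) (nat_lit 532) (nat_lit 0) (XT.nd (nat_lit 78) (nat_lit 532) (nat_lit 0) (XT.lf (nat_lit 0) (nat_lit 43565081687) (nat_lit 532) (nat_lit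 15948875394) (nat_lit 608) (nat_lit 6528462617) (nat_lit 155) (nat_lit 5) (nat_lit 162) (nat_lit 5) (nat_lit 163) (nat_lit 5) (nat_lit 366) (nat_lit 340) (nat_lit 74)) (XT.lf (nat_lit 0) (nat_lit 88124683) (nat_lit 532) (nat_lit 57024786224) (nat_lit 76) (nat_lit 10086409827) (nat_lit 148) (nat_lit 5) (nat_lit 155) (nat_lit 5) (nat_lit 149) (nat_lit 5) (nat_lit 367) (nat_lit 340) (nat_lit 73))) (XT.nd (nat_lit 78) (nat_lit 532) (nat_lit 0) (XT.lf (nat_lit 0) (nat_lit 7158471776) (nat_lit 532) (nat_lit 24342885720) (nat_lit 76) (nat_lit 36876038485) (nat_lit 148) (nat_lit 5) (nat_lit 155) (nat_lit 5) (nat_lit 149) (nat_lit 5) (nat_lit 368) (nat_lit 340) (nat_lit 72)) (XT.lf (nat_lit 0) (nat_lit 9504256767) (nat_lit 532) (nat_lit 5027396170) (nat_lit 608) (nat_lit 55056439480) (nat_lit 141) (nat_lit 5) (nat_lit 148) (nat_lit 5) (nat_lit 149) (nat_lit 5) (nat_lit 369) (nat_lit 340) (nat_lit 71))))))))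
noncomputable def xc249 : XT := (XT.nd (nat_lit 39780) (nat_lit 0) (nat_lit 380) (XT.nd (nat_lit 38688) (nat_lit 0) (nat_lit 5548) (XT.nd (nat_lit 546) (nat_lit 836) (nat_lit 0) (XT.nd (nat_lit 234) (nat_lit 912) (nat_lit 0) (XT.nd (nat_lit 78) (nat_lit 456) (nat_lit 0) (XT.lf (nat_lit 0) (nat_lit 22587445380) (nat_lit 608) (nat_lit 26178831904) (nat_lit 76) (nat_lit 22054990608) (nat_lit 141) (nat_lit 5) (nat_lit 149) (nat_lit 5) (nat_lit 142) (nat_lit 5) (nat_lit 370) (nat_lit 340) (nat_lit 70)) (XT.nd (nat_lit 78) (nat_lit 0) (nat_lit 0) (XT.lf (nat_lit 0) (nat_lit 8865881516) (nat_lit 456) (nat_lit 22153423367) (nat_lit 532) (nat_lit 41068102556) (nat_lit 135) (nat_lit 5) (nat_lit 141) (nat_lit 5) (nat_lit 142) (nat_lit 5) (nat_lit 371) (nat_lit 340) (nat_lit 69)) (XT.lf (nat_lit 0) (nat_lit 40021037242) (nat_lit 532) (nat_lit 27938863293) (nat_lit 76) (nat_lit 5422123712) (nat_lit 135) (nat_lit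 5) (nat_lit 142) (nat_lit 5) (nat_lit 136) (nat_lit 5) (nat_lit 372) (nat_lit 340) (nat_lit 68)))) (XT.nd (nat_lit 156) (nat_lit 456) (nat_lit 0) (XT.nd (nat_lit 78) (nat_lit 0) (nat_lit 0) (XT.lf (nat_lit 0) (nat_lit 8345120809) (nat_lit 456) (nat_lit 41246680845) (nat_lit 532) (nat_lit 25114709072) (nat_lit 129) (nat_lit 5) (nat_lit 135) (nat_lit 5) (nat_lit 136) (nat_lit 5) (nat_lit 373) (nat_lit 340) (nat_lit 67)) (XT.lf (nat_lit 0) (nat_lit 46289689277) (nat_lit 456) (nat_lit 13441558889) (nat_lit 532) (nat_lit 16331037413) (nat_lit 129) (nat_lit 5) (nat_lit 135) (nat_lit 5) (nat_lit 136) (nat_lit 5) (nat_lit 374) (nat_lit 340) (nat_lit 66))) (XT.nd (nat_lit 78) (nat_lit 76) (nat_lit 0) (XT.lf (nat_lit 0) (nat_lit 7921700582) (nat_lit 380) (nat_lit 62474862662) (nat_lit 456) (nat_lit 7055520414) (nat_lit 124) (nat_lit 5) (nat_lit 129) (nat_lit 5) (nat_lit 130) (nat_lit 5) (nat_lit 375) (nat_lit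 340) (nat_lit 65)) (XT.lf (nat_lit 0) (nat_lit 2885669469) (nat_lit 456) (nat_lit 31678153912) (nat_lit 76) (nat_lit 44305947636) (nat_lit 123) (nat_lit 5) (nat_lit 129) (nat_lit 5) (nat_lit 124) (nat_lit 5) (nat_lit 376) (nat_lit 340) (nat_lit 64))))) (XT.nd (nat_lit 37830) (nat_lit 0) (nat_lit 6308) (XT.nd (nat_lit 78) (nat_lit 380) (nat_lit 0) (XT.lf (nat_lit 0) (nat_lit 7383221115) (nat_lit 456) (nat_lit 5670504182) (nat_lit 532) (nat_lit 67272055317) (nat_lit 117) (nat_lit 5) (nat_lit 123) (nat_lit 5) (nat_lit 124) (nat_lit 5) (nat_lit 377) (nat_lit 340) (nat_lit 63)) (XT.nd (nat_lit 78) (nat_lit 380) (nat_lit 0) (XT.lf (nat_lit 0) (nat_lit 24080916950) (nat_lit 532) (nat_lit 33785443201) (nat_lit 76) (nat_lit 23942487999) (nat_lit 117) (nat_lit 5) (nat_lit 124) (nat_lit 5) (nat_lit 118) (nat_lit 5) (nat_lit 378) (nat_lit 340) (nat_lit 62)) (XT.lf (nat_lit 0) (nat_lit 6618771379) (nat_lit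 380) (nat_lit 28939411128) (nat_lit 456) (nat_lit 47774647925) (nat_lit 112) (nat_lit 5) (nat_lit 117) (nat_lit 5) (nat_lit 118) (nat_lit 5) (nat_lit 379) (nat_lit 340) (nat_lit 61)))) (XT.nd (nat_lit 156) (nat_lit 0) (nat_lit 0) (XT.nd (nat_lit 78) (nat_lit 0) (nat_lit 0) (XT.lf (nat_lit 0) (nat_lit 6322849679) (nat_lit 0) (nat_lit 6322849679) (nat_lit 1140) (nat_lit 9771495396) (nat_lit 195) (nat_lit 5) (nat_lit 195) (nat_lit 3) (nat_lit 210) (nat_lit 3) (nat_lit 341) (nat_lit 341) (nat_lit 98)) (XT.lf (nat_lit 0) (nat_lit 25778221500) (nat_lit 1140) (nat_lit 11935042262) (nat_lit 1216) (nat_lit 7790381531) (nat_lit 195) (nat_lit 5) (nat_lit 210) (nat_lit 3) (nat_lit 211) (nat_lit 5) (nat_lit 342) (nat_lit 341) (nat_lit 97))) (XT.nd (nat_lit 78) (nat_lit 0) (nat_lit 76) (XT.lf (nat_lit 76) (nat_lit 8975504509) (nat_lit 0) (nat_lit 17514420478) (nat_lit 1216) (nat_lit 19696746906) (nat_lit 196)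 (nat_lit 5) (nat_lit 195) (nat_lit 5) (nat_lit 211) (nat_lit 5) (nat_lit 343) (nat_lit 341) (nat_lit 96)) (XT.lf (nat_lit 0) (nat_lit 27375149742) (nat_lit 1140) (nat_lit 16162057340) (nat_lit 1216) (nat_lit 3348418486) (nat_lit 196) (nat_lit 5) (nat_lit 211) (nat_lit 5) (nat_lit 212) (nat_lit 5) (nat_lit 344) (nat_lit 341) (nat_lit 95)))))) (XT.nd (nat_lit 546) (nat_lit 836) (nat_lit 0) (XT.nd (nat_lit 234) (nat_lit 0) (nat_lit 76) (XT.nd (nat_lit 78) (nat_lit 0) (nat_lit 0) (XT.lf (nat_lit 76) (nat_lit 5450815388) (nat_lit 0) (nat_lit 23060783830) (nat_lit 1216) (nat_lit 19087209940) (nat_lit 197) (nat_lit 5) (nat_lit 196) (nat_lit 5) (nat_lit 212) (nat_lit 5) (nat_lit 345) (nat_lit 341) (nat_lit 94)) (XT.nd (nat_lit 78) (nat_lit 0) (nat_lit 76) (XT.lf (nat_lit 76) (nat_lit 28042721603) (nat_lit 0) (nat_lit 1801513798) (nat_lit 1216) (nat_lit 18484291362) (nat_lit 197) (nat_lit 5) (nat_lit 196)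 (nat_lit 5) (nat_lit 212) (nat_lit 5) (nat_lit 346) (nat_lit 341) (nat_lit 93)) (XT.lf (nat_lit 76) (nat_lit 2078969001) (nat_lit 0) (nat_lit 29349961304) (nat_lit 1216) (nat_lit 17644844467) (nat_lit 198) (nat_lit 5) (nat_lit 197) (nat_lit 5) (nat_lit 213) (nat_lit 5) (nat_lit 347) (nat_lit 341) (nat_lit 92)))) (XT.nd (nat_lit 156) (nat_lit 0) (nat_lit 76) (XT.nd (nat_lit 78) (nat_lit 0) (nat_lit 76) (XT.lf (nat_lit 76) (nat_lit 25511662685) (nat_lit 0) (nat_lit 7770961740) (nat_lit 1216) (nat_lit 16552113275) (nat_lit 198) (nat_lit 5) (nat_lit 197) (nat_lit 5) (nat_lit 213) (nat_lit 5) (nat_lit 348) (nat_lit 341) (nat_lit 91)) (XT.lf (nat_lit 0) (nat_lit 35329867338) (nat_lit 1140) (nat_lit 1110833406) (nat_lit 1216) (nat_lit 14173691826) (nat_lit 198) (nat_lit 5) (nat_lit 213) (nat_lit 5) (nat_lit 214) (nat_lit 5) (nat_lit 349) (nat_lit 341) (nat_lit 90))) (XT.nd (nat_lit 78) (nat_lit 0) (nat_lit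 76) (XT.lf (nat_lit 76) (nat_lit 23172344294) (nat_lit 0) (nat_lit 14564883553) (nat_lit 1216) (nat_lit 13671249388) (nat_lit 199) (nat_lit 5) (nat_lit 198) (nat_lit 5) (nat_lit 214) (nat_lit 5) (nat_lit 350) (nat_lit 341) (nat_lit 89)) (XT.lf (nat_lit 0) (nat_lit 40303761809) (nat_lit 1140) (nat_lit 4096649619) (nat_lit 1216) (nat_lit 7823365557) (nat_lit 199) (nat_lit 5) (nat_lit 214) (nat_lit 5) (nat_lit 215) (nat_lit 5) (nat_lit 351) (nat_lit 341) (nat_lit 88))))) (XT.nd (nat_lit 234) (nat_lit 1064) (nat_lit 0) (XT.nd (nat_lit 78) (nat_lit 0) (nat_lit 76) (XT.lf (nat_lit 76) (nat_lit 21032559337) (nat_lit 0) (nat_lit 22260183705) (nat_lit 1216) (nat_lit 9760430241) (nat_lit 200) (nat_lit 5) (nat_lit 199) (nat_lit 5) (nat_lit 215) (nat_lit 5) (nat_lit 352) (nat_lit 341) (nat_lit 87)) (XT.nd (nat_lit 78) (nat_lit 0) (nat_lit 0) (XT.lf (nat_lit 0) (nat_lit 46417492901) (nat_lit 1140) (nat_lit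 6912927109) (nat_lit 1216) (nat_lit 575649544) (nat_lit 200) (nat_lit 5) (nat_lit 215) (nat_lit 5) (nat_lit 216) (nat_lit 5) (nat_lit 353) (nat_lit 341) (nat_lit 86)) (XT.lf (nat_lit 76) (nat_lit 19099617832) (nat_lit 0) (nat_lit 30939478803) (nat_lit 1216) (nat_lit 4733363765) (nat_lit 201) (nat_lit 5) (nat_lit 200) (nat_lit 5) (nat_lit 216) (nat_lit 5) (nat_lit 354) (nat_lit 341) (nat_lit 85)))) (XT.nd (nat_lit 156) (nat_lit 0) (nat_lit 0) (XT.nd (nat_lit 78) (nat_lit 1140) (nat_lit 0) (XT.lf (nat_lit 76) (nat_lit 46033577008) (nat_lit 0) (nat_lit 7804714090) (nat_lit 1216) (nat_lit 1824484596) (nat_lit 201) (nat_lit 5) (nat_lit 200) (nat_lit 5) (nat_lit 216) (nat_lit 5) (nat_lit 355) (nat_lit 341) (nat_lit 84)) (XT.lf (nat_lit 0) (nat_lit 1472232640) (nat_lit 1216) (nat_lit 39204434616) (nat_lit 1292) (nat_lit 15893093200) (nat_lit 185) (nat_lit 5) (nat_lit 201) (nat_lit 5) (nat_lit 202) (nat_lit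 5) (nat_lit 356) (nat_lit 341) (nat_lit 83))) (XT.nd (nat_lit 78) (nat_lit 0) (nat_lit 76) (XT.lf (nat_lit 0) (nat_lit 5005825701) (nat_lit 1216) (nat_lit 12230953303) (nat_lit 1292) (nat_lit 40261395405) (nat_lit 185) (nat_lit 5) (nat_lit 201) (nat_lit 5) (nat_lit 202) (nat_lit 5) (nat_lit 357) (nat_lit 341) (nat_lit 82)) (XT.lf (nat_lit 0) (nat_lit 8864982028) (nat_lit 1216) (nat_lit 42657230758) (nat_lit 76) (nat_lit 6925642218) (nat_lit 186) (nat_lit 5) (nat_lit 202) (nat_lit 5) (nat_lit 187) (nat_lit 5) (nat_lit 358) (nat_lit 341) (nat_lit 81))))))) (XT.nd (nat_lit 1092) (nat_lit 1368) (nat_lit 0) (XT.nd (nat_lit 546) (nat_lit 2052) (nat_lit 0) (XT.nd (nat_lit 234) (nat_lit 1140) (nat_lit 0) (XT.nd (nat_lit 78) (nat_lit 684) (nat_lit 0) (XT.lf (nat_lit 0) (nat_lit 13134519598) (nat_lit 1216) (nat_lit 14691321676) (nat_lit 76) (nat_lit 31591347409) (nat_lit 186) (nat_lit 5) (nat_lit 202) (nat_lit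 5) (nat_lit 187) (nat_lit 5) (nat_lit 359) (nat_lit 341) (nat_lit 80)) (XT.nd (nat_lit 78) (nat_lit 0) (nat_lit 0) (XT.lf (nat_lit 0) (nat_lit 14393770482) (nat_lit 684) (nat_lit 3275971308) (nat_lit 760) (nat_lit 42741733465) (nat_lit 177) (nat_lit 5) (nat_lit 186) (nat_lit 5) (nat_lit 187) (nat_lit 5) (nat_lit 360) (nat_lit 341) (nat_lit 79)) (XT.lf (nat_lit 0) (nat_lit 22701673874) (nat_lit 760) (nat_lit 16992298949) (nat_lit 76) (nat_lit 21730798817) (nat_lit 177) (nat_lit 5) (nat_lit 187) (nat_lit 5) (nat_lit 178) (nat_lit 5) (nat_lit 361) (nat_lit 341) (nat_lit 78)))) (XT.nd (nat_lit 156) (nat_lit 532) (nat_lit 0) (XT.nd (nat_lit 78) (nat_lit 0) (nat_lit 0) (XT.lf (nat_lit 0) (nat_lit 13126921182) (nat_lit 608) (nat_lit 14915537293) (nat_lit 684) (nat_lit 34421272393) (nat_lit 169) (nat_lit 5) (nat_lit 177) (nat_lit 5) (nat_lit 178) (nat_lit 5) (nat_lit 362) (nat_lit 341) (nat_lit 77)) (XT.lf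 (nat_lit 0) (nat_lit 33817998650) (nat_lit 684) (nat_lit 19135002539) (nat_lit 76) (nat_lit 10572622490) (nat_lit 169) (nat_lit 5) (nat_lit 178) (nat_lit 5) (nat_lit 170) (nat_lit 5) (nat_lit 363) (nat_lit 341) (nat_lit 76))) (XT.nd (nat_lit 78) (nat_lit 0) (nat_lit 0) (XT.lf (nat_lit 0) (nat_lit 12059849151) (nat_lit 532) (nat_lit 27969872236) (nat_lit 608) (nat_lit 24581765139) (nat_lit 162) (nat_lit 5) (nat_lit 169) (nat_lit 5) (nat_lit 170) (nat_lit 5) (nat_lit 364) (nat_lit 341) (nat_lit 75)) (XT.lf (nat_lit 0) (nat_lit 44582139497) (nat_lit 532) (nat_lit 2038207199) (nat_lit 608) (nat_lit 19103802756) (nat_lit 162) (nat_lit 5) (nat_lit 169) (nat_lit 5) (nat_lit 170) (nat_lit 5) (nat_lit 365) (nat_lit 341) (nat_lit 74))))) (XT.nd (nat_lit 234) (nat_lit 988) (nat_lit 0) (XT.nd (nat_lit 78) (nat_lit 532) (nat_lit 0) (XT.lf (nat_lit 0) (nat_lit 11190458640) (nat_lit 532) (nat_lit 42562303055)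 (nat_lit 608) (nat_lit 13107109146) (nat_lit 155) (nat_lit 5) (nat_lit 162) (nat_lit 5) (nat_lit 163) (nat_lit 5) (nat_lit 366) (nat_lit 341) (nat_lit 73)) (XT.nd (nat_lit 78) (nat_lit 532) (nat_lit 0) (XT.lf (nat_lit 0) (nat_lit 44905059183) (nat_lit 532) (nat_lit 16426922789) (nat_lit 608) (nat_lit 6690697594) (nat_lit 155) (nat_lit 5) (nat_lit 162) (nat_lit 5) (nat_lit 163) (nat_lit 5) (nat_lit 367) (nat_lit 341) (nat_lit 72)) (XT.lf (nat_lit 0) (nat_lit 123102315) (nat_lit 532) (nat_lit 58701153672) (nat_lit 76) (nat_lit 10390041798) (nat_lit 148) (nat_lit 5) (nat_lit 155) (nat_lit 5) (nat_lit 149) (nat_lit 5) (nat_lit 368) (nat_lit 341) (nat_lit 71)))) (XT.nd (nat_lit 156) (nat_lit 456) (nat_lit 0) (XT.nd (nat_lit 78) (nat_lit 532) (nat_lit 0) (XT.lf (nat_lit 0) (nat_lit 7404618057) (nat_lit 532) (nat_lit 25039797400) (nat_lit 76) (nat_lit 37983329033) (nat_lit 148) (nat_lit 5) (nat_lit 155)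 (nat_lit 5) (nat_lit 149) (nat_lit 5) (nat_lit 369) (nat_lit 341) (nat_lit 70)) (XT.lf (nat_lit 0) (nat_lit 9822432157) (nat_lit 532) (nat_lit 5175965837) (nat_lit 608) (nat_lit 56676382646) (nat_lit 141) (nat_lit 5) (nat_lit 148) (nat_lit 5) (nat_lit 149) (nat_lit 5) (nat_lit 370) (nat_lit 341) (nat_lit 69))) (XT.nd (nat_lit 78) (nat_lit 456) (nat_lit 0) (XT.lf (nat_lit 0) (nat_lit 23294988275) (nat_lit 608) (nat_lit 26931206001) (nat_lit 76) (nat_lit 22718784277) (nat_lit 141) (nat_lit 5) (nat_lit 149) (nat_lit 5) (nat_lit 142) (nat_lit 5) (nat_lit 371) (nat_lit 341) (nat_lit 68)) (XT.lf (nat_lit 0) (nat_lit 9164525382) (nat_lit 456) (nat_lit 22814720757) (nat_lit 532) (nat_lit 42269873737) (nat_lit 135) (nat_lit 5) (nat_lit 141) (nat_lit 5) (nat_lit 142) (nat_lit 5) (nat_lit 372) (nat_lit 341) (nat_lit 67)))))) (XT.nd (nat_lit 38298) (nat_lit 0) (nat_lit 5928) (XT.nd (nat_lit 234) (nat_lit 912)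 (nat_lit 0) (XT.nd (nat_lit 78) (nat_lit 456) (nat_lit 0) (XT.lf (nat_lit 0) (nat_lit 41250206108) (nat_lit 532) (nat_lit 28744460808) (nat_lit 76) (nat_lit 5587933844) (nat_lit 135) (nat_lit 5) (nat_lit 142) (nat_lit 5) (nat_lit 136) (nat_lit 5) (nat_lit 373) (nat_lit 341) (nat_lit 66)) (XT.nd (nat_lit 78) (nat_lit 0) (nat_lit 0) (XT.lf (nat_lit 0) (nat_lit 8627723519) (nat_lit 456) (nat_lit 42479848735) (nat_lit 532) (nat_lit 25839266034) (nat_lit 129) (nat_lit 5) (nat_lit 135) (nat_lit 5) (nat_lit 136) (nat_lit 5) (nat_lit 374) (nat_lit 341) (nat_lit 65)) (XT.lf (nat_lit 0) (nat_lit 47709689747) (nat_lit 456) (nat_lit 13840696399) (nat_lit 532) (nat_lit 16792925515) (nat_lit 129) (nat_lit 5) (nat_lit 135) (nat_lit 5) (nat_lit 136) (nat_lit 5) (nat_lit 375) (nat_lit 341) (nat_lit 64)))) (XT.nd (nat_lit 156) (nat_lit 456) (nat_lit 0) (XT.nd (nat_lit 78) (nat_lit 76) (nat_lit 0) (XT.lf (nat_lit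 0) (nat_lit 8191149545) (nat_lit 380) (nat_lit 64344062894) (nat_lit 456) (nat_lit 7239605462) (nat_lit 124) (nat_lit 5) (nat_lit 129) (nat_lit 5) (nat_lit 130) (nat_lit 5) (nat_lit 376) (nat_lit 341) (nat_lit 63)) (XT.lf (nat_lit 0) (nat_lit 2998494280) (nat_lit 456) (nat_lit 32597079994) (nat_lit 76) (nat_lit 45639478009) (nat_lit 123) (nat_lit 5) (nat_lit 129) (nat_lit 5) (nat_lit 124) (nat_lit 5) (nat_lit 377) (nat_lit 341) (nat_lit 62))) (XT.nd (nat_lit 37830) (nat_lit 0) (nat_lit 5928) (XT.lf (nat_lit 0) (nat_lit 7635828259) (nat_lit 456) (nat_lit 5835297877) (nat_lit 532) (nat_lit 69263630707) (nat_lit 117) (nat_lit 5) (nat_lit 123) (nat_lit 5) (nat_lit 124) (nat_lit 5) (nat_lit 378) (nat_lit 341) (nat_lit 61)) (XT.lf (nat_lit 0) (nat_lit 6527923567) (nat_lit 0) (nat_lit 6527923567) (nat_lit 1140) (nat_lit 10032904005) (nat_lit 195) (nat_lit 5) (nat_lit 195) (nat_lit 3) (nat_lit 210) (nat_lit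 3) (nat_lit 342) (nat_lit 342) (nat_lit 96))))) (XT.nd (nat_lit 234) (nat_lit 0) (nat_lit 76) (XT.nd (nat_lit 78) (nat_lit 0) (nat_lit 0) (XT.lf (nat_lit 0) (nat_lit 26611041681) (nat_lit 1140) (nat_lit 12261062890) (nat_lit 1216) (nat_lit 7994795669) (nat_lit 195) (nat_lit 5) (nat_lit 210) (nat_lit 3) (nat_lit 211) (nat_lit 5) (nat_lit 343) (nat_lit 342) (nat_lit 95)) (XT.nd (nat_lit 78) (nat_lit 0) (nat_lit 76) (XT.lf (nat_lit 76) (nat_lit 9276486258) (nat_lit 0) (nat_lit 18066182656) (nat_lit 1216) (nat_lit 20227793590) (nat_lit 196) (nat_lit 5) (nat_lit 195) (nat_lit 5) (nat_lit 211) (nat_lit 5) (nat_lit 344) (nat_lit 342) (nat_lit 94)) (XT.lf (nat_lit 0) (nat_lit 28252514022) (nat_lit 1140) (nat_lit 16614123667) (nat_lit 1216) (nat_lit 3423807177) (nat_lit 196) (nat_lit 5) (nat_lit 211) (nat_lit 5) (nat_lit 212) (nat_lit 5) (nat_lit 345) (nat_lit 342) (nat_lit 93)))) (XT.nd (nat_lit 156) (nat_lit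 0) (nat_lit 76) (XT.nd (nat_lit 78) (nat_lit 0) (nat_lit 0) (XT.lf (nat_lit 76) (nat_lit 5646813720) (nat_lit 0) (nat_lit 23774921155) (nat_lit 1216) (nat_lit 19603330680) (nat_lit 197) (nat_lit 5) (nat_lit 196) (nat_lit 5) (nat_lit 212) (nat_lit 5) (nat_lit 346) (nat_lit 342) (nat_lit 92)) (XT.lf (nat_lit 76) (nat_lit 28915531280) (nat_lit 0) (nat_lit 1877223106) (nat_lit 1216) (nat_lit 18983970045) (nat_lit 197) (nat_lit 5) (nat_lit 196) (nat_lit 5) (nat_lit 212) (nat_lit 5) (nat_lit 347) (nat_lit 342) (nat_lit 91))) (XT.nd (nat_lit 78) (nat_lit 0) (nat_lit 0) (XT.lf (nat_lit 76) (nat_lit 2174405085) (nat_lit 0) (nat_lit 30249151452) (nat_lit 1216) (nat_lit 18120818168) (nat_lit 198) (nat_lit 5) (nat_lit 197) (nat_lit 5) (nat_lit 213) (nat_lit 5) (nat_lit 348) (nat_lit 342) (nat_lit 90)) (XT.lf (nat_lit 76) (nat_lit 26309116463) (nat_lit 0) (nat_lit 8022237494) (nat_lit 1216) (nat_lit 16996859554)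 (nat_lit 198) (nat_lit 5) (nat_lit 197) (nat_lit 5) (nat_lit 213) (nat_lit 5) (nat_lit 349) (nat_lit 342) (nat_lit 89))))))))
noncomputable def xc250 : XT := (XT.nd (nat_lit 2106) (nat_lit 380) (nat_lit 0) (XT.nd (nat_lit 1014) (nat_lit 3648) (nat_lit 0) (XT.nd (nat_lit 468) (nat_lit 1596) (nat_lit 0) (XT.nd (nat_lit 234) (nat_lit 0) (nat_lit 76) (XT.nd (nat_lit 78) (nat_lit 0) (nat_lit 0) (XT.lf (nat_lit 0) (nat_lit 36438381183) (nat_lit 1140) (nat_lit 1111299519) (nat_lit 1216) (nat_lit 14581628027) (nat_lit 198) (nat_lit 5) (nat_lit 213) (nat_lit 5) (nat_lit 214) (nat_lit 5) (nat_lit 350) (nat_lit 342) (nat_lit 88)) (XT.nd (nat_lit 78) (nat_lit 0) (nat_lit 76) (XT.lf (nat_lit 76) (nat_lit 23900051366) (nat_lit 0) (nat_lit 15016807851) (nat_lit 1216) (nat_lit 14032391478) (nat_lit 199) (nat_lit 5) (nat_lit 198) (nat_lit 5) (nat_lit 214) (nat_lit 5) (nat_lit 351) (nat_lit 342) (nat_lit 87)) (XT.lf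 (nat_lit 0) (nat_lit 41558865498) (nat_lit 1140) (nat_lit 4186382529) (nat_lit 1216) (nat_lit 8043808737) (nat_lit 199) (nat_lit 5) (nat_lit 214) (nat_lit 5) (nat_lit 215) (nat_lit 5) (nat_lit 352) (nat_lit 342) (nat_lit 86)))) (XT.nd (nat_lit 78) (nat_lit 0) (nat_lit 76) (XT.lf (nat_lit 76) (nat_lit 21696377533) (nat_lit 0) (nat_lit 22940114788) (nat_lit 1216) (nat_lit 10006874912) (nat_lit 200) (nat_lit 5) (nat_lit 199) (nat_lit 5) (nat_lit 215) (nat_lit 5) (nat_lit 353) (nat_lit 342) (nat_lit 85)) (XT.nd (nat_lit 78) (nat_lit 0) (nat_lit 0) (XT.lf (nat_lit 0) (nat_lit 47853561793) (nat_lit 1140) (nat_lit 7086956453) (nat_lit 1216) (nat_lit 581376353) (nat_lit 200) (nat_lit 5) (nat_lit 215) (nat_lit 5) (nat_lit 216) (nat_lit 5) (nat_lit 354) (nat_lit 342) (nat_lit 84)) (XT.lf (nat_lit 76) (nat_lit 19705637792) (nat_lit 0) (nat_lit 31877225091) (nat_lit 1216) (nat_lit 4831444288) (nat_lit 201)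 (nat_lit 5) (nat_lit 200) (nat_lit 5) (nat_lit 216) (nat_lit 5) (nat_lit 355) (nat_lit 342) (nat_lit 83))))) (XT.nd (nat_lit 234) (nat_lit 608) (nat_lit 0) (XT.nd (nat_lit 78) (nat_lit 1140) (nat_lit 0) (XT.lf (nat_lit 76) (nat_lit 47446653663) (nat_lit 0) (nat_lit 8048138933) (nat_lit 1216) (nat_lit 1836577978) (nat_lit 201) (nat_lit 5) (nat_lit 200) (nat_lit 5) (nat_lit 216) (nat_lit 5) (nat_lit 356) (nat_lit 342) (nat_lit 82)) (XT.nd (nat_lit 78) (nat_lit 0) (nat_lit 0) (XT.lf (nat_lit 0) (nat_lit 1557224968) (nat_lit 1216) (nat_lit 40346591027) (nat_lit 1292) (nat_lit 16361767452) (nat_lit 185) (nat_lit 5) (nat_lit 201) (nat_lit 5) (nat_lit 202) (nat_lit 5) (nat_lit 357) (nat_lit 342) (nat_lit 81)) (XT.lf (nat_lit 0) (nat_lit 5195636734) (nat_lit 1216) (nat_lit 12564894884) (nat_lit 1292) (nat_lit 41461355186) (nat_lit 185) (nat_lit 5) (nat_lit 201) (nat_lit 5) (nat_lit 202) (nat_lit 5) (nat_lit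 358) (nat_lit 342) (nat_lit 80)))) (XT.nd (nat_lit 156) (nat_lit 684) (nat_lit 0) (XT.nd (nat_lit 78) (nat_lit 0) (nat_lit 0) (XT.lf (nat_lit 0) (nat_lit 9169668333) (nat_lit 1216) (nat_lit 43903018770) (nat_lit 76) (nat_lit 7127398971) (nat_lit 186) (nat_lit 5) (nat_lit 202) (nat_lit 5) (nat_lit 187) (nat_lit 5) (nat_lit 359) (nat_lit 342) (nat_lit 79)) (XT.lf (nat_lit 0) (nat_lit 13566163772) (nat_lit 1216) (nat_lit 15099120637) (nat_lit 76) (nat_lit 32533250440) (nat_lit 186) (nat_lit 5) (nat_lit 202) (nat_lit 5) (nat_lit 187) (nat_lit 5) (nat_lit 360) (nat_lit 342) (nat_lit 78))) (XT.nd (nat_lit 78) (nat_lit 0) (nat_lit 0) (XT.lf (nat_lit 0) (nat_lit 14858201339) (nat_lit 684) (nat_lit 3378459437) (nat_lit 760) (nat_lit 43986013898) (nat_lit 177) (nat_lit 5) (nat_lit 186) (nat_lit 5) (nat_lit 187) (nat_lit 5) (nat_lit 361) (nat_lit 342) (nat_lit 77)) (XT.lf (nat_lit 0) (nat_lit 23418438918)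 (nat_lit 760) (nat_lit 17469249432) (nat_lit 76) (nat_lit 22378716124) (nat_lit 177) (nat_lit 5) (nat_lit 187) (nat_lit 5) (nat_lit 178) (nat_lit 5) (nat_lit 362) (nat_lit 342) (nat_lit 76)))))) (XT.nd (nat_lit 546) (nat_lit 1444) (nat_lit 0) (XT.nd (nat_lit 234) (nat_lit 1064) (nat_lit 0) (XT.nd (nat_lit 78) (nat_lit 532) (nat_lit 0) (XT.lf (nat_lit 0) (nat_lit 13553225554) (nat_lit 608) (nat_lit 15365493644) (nat_lit 684) (nat_lit 35417836249) (nat_lit 169) (nat_lit 5) (nat_lit 177) (nat_lit 5) (nat_lit 178) (nat_lit 5) (nat_lit 363) (nat_lit 342) (nat_lit 75)) (XT.nd (nat_lit 78) (nat_lit 532) (nat_lit 0) (XT.lf (nat_lit 0) (nat_lit 34866483299) (nat_lit 684) (nat_lit 19676423468) (nat_lit 76) (nat_lit 10887430641) (nat_lit 169) (nat_lit 5) (nat_lit 178) (nat_lit 5) (nat_lit 170) (nat_lit 5) (nat_lit 364) (nat_lit 342) (nat_lit 74)) (XT.lf (nat_lit 0) (nat_lit 12453953879) (nat_lit 532) (nat_lit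 28809925735) (nat_lit 608) (nat_lit 25284917937) (nat_lit 162) (nat_lit 5) (nat_lit 169) (nat_lit 5) (nat_lit 170) (nat_lit 5) (nat_lit 365) (nat_lit 342) (nat_lit 73)))) (XT.nd (nat_lit 156) (nat_lit 532) (nat_lit 0) (XT.nd (nat_lit 78) (nat_lit 532) (nat_lit 0) (XT.lf (nat_lit 0) (nat_lit 45950971890) (nat_lit 532) (nat_lit 2100282864) (nat_lit 608) (nat_lit 19643615716) (nat_lit 162) (nat_lit 5) (nat_lit 169) (nat_lit 5) (nat_lit 170) (nat_lit 5) (nat_lit 366) (nat_lit 342) (nat_lit 72)) (XT.lf (nat_lit 0) (nat_lit 11558235550) (nat_lit 532) (nat_lit 43838765480) (nat_lit 608) (nat_lit 13467682711) (nat_lit 155) (nat_lit 5) (nat_lit 162) (nat_lit 5) (nat_lit 163) (nat_lit 5) (nat_lit 367) (nat_lit 342) (nat_lit 71))) (XT.nd (nat_lit 78) (nat_lit 532) (nat_lit 0) (XT.lf (nat_lit 0) (nat_lit 46283340231) (nat_lit 532) (nat_lit 16919335651) (nat_lit 608) (nat_lit 6859729484) (nat_lit 155) (nat_lit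 5) (nat_lit 162) (nat_lit 5) (nat_lit 163) (nat_lit 5) (nat_lit 368) (nat_lit 342) (nat_lit 70)) (XT.lf (nat_lit 0) (nat_lit 157273179) (nat_lit 532) (nat_lit 60429785475) (nat_lit 76) (nat_lit 10702723046) (nat_lit 148) (nat_lit 5) (nat_lit 155) (nat_lit 5) (nat_lit 149) (nat_lit 5) (nat_lit 369) (nat_lit 342) (nat_lit 69))))) (XT.nd (nat_lit 234) (nat_lit 912) (nat_lit 0) (XT.nd (nat_lit 78) (nat_lit 532) (nat_lit 0) (XT.lf (nat_lit 0) (nat_lit 7656346691) (nat_lit 532) (nat_lit 25759532286) (nat_lit 76) (nat_lit 39123780355) (nat_lit 148) (nat_lit 5) (nat_lit 155) (nat_lit 5) (nat_lit 149) (nat_lit 5) (nat_lit 370) (nat_lit 342) (nat_lit 68)) (XT.nd (nat_lit 78) (nat_lit 0) (nat_lit 0) (XT.lf (nat_lit 0) (nat_lit 10148255737) (nat_lit 532) (nat_lit 5329121880) (nat_lit 608) (nat_lit 58346746688) (nat_lit 141) (nat_lit 5) (nat_lit 148) (nat_lit 5) (nat_lit 149) (nat_lit 5) (nat_lit 371) (nat_lit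 342) (nat_lit 67)) (XT.lf (nat_lit 0) (nat_lit 24022039952) (nat_lit 608) (nat_lit 27708045130) (nat_lit 76) (nat_lit 23402368685) (nat_lit 141) (nat_lit 5) (nat_lit 149) (nat_lit 5) (nat_lit 142) (nat_lit 5) (nat_lit 372) (nat_lit 342) (nat_lit 66)))) (XT.nd (nat_lit 156) (nat_lit 456) (nat_lit 0) (XT.nd (nat_lit 78) (nat_lit 0) (nat_lit 0) (XT.lf (nat_lit 0) (nat_lit 9470253321) (nat_lit 456) (nat_lit 23496046806) (nat_lit 532) (nat_lit 43509435783) (nat_lit 135) (nat_lit 5) (nat_lit 141) (nat_lit 5) (nat_lit 142) (nat_lit 5) (nat_lit 373) (nat_lit 342) (nat_lit 65)) (XT.lf (nat_lit 0) (nat_lit 42514611858) (nat_lit 532) (nat_lit 29576095807) (nat_lit 76) (nat_lit 5758537663) (nat_lit 135) (nat_lit 5) (nat_lit 142) (nat_lit 5) (nat_lit 136) (nat_lit 5) (nat_lit 374) (nat_lit 342) (nat_lit 64))) (XT.nd (nat_lit 78) (nat_lit 0) (nat_lit 0) (XT.lf (nat_lit 0) (nat_lit 8916953081) (nat_lit 456) (nat_lit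 43750254627) (nat_lit 532) (nat_lit 26587217782) (nat_lit 129) (nat_lit 5) (nat_lit 135) (nat_lit 5) (nat_lit 136) (nat_lit 5) (nat_lit 375) (nat_lit 342) (nat_lit 63)) (XT.lf (nat_lit 0) (nat_lit 49170492921) (nat_lit 456) (nat_lit 14252043922) (nat_lit 532) (nat_lit 17270280044) (nat_lit 129) (nat_lit 5) (nat_lit 135) (nat_lit 5) (nat_lit 136) (nat_lit 5) (nat_lit 376) (nat_lit 342) (nat_lit 62))))))) (XT.nd (nat_lit 39000) (nat_lit 0) (nat_lit 2356) (XT.nd (nat_lit 38454) (nat_lit 0) (nat_lit 5548) (XT.nd (nat_lit 38142) (nat_lit 0) (nat_lit 5396) (XT.nd (nat_lit 37986) (nat_lit 0) (nat_lit 5396) (XT.lf (nat_lit 0) (nat_lit 8466856644) (nat_lit 380) (nat_lit 66269628774) (nat_lit 456) (nat_lit 7430796298) (nat_lit 124) (nat_lit 5) (nat_lit 129) (nat_lit 5) (nat_lit 130) (nat_lit 5) (nat_lit 377) (nat_lit 342) (nat_lit 61)) (XT.nd (nat_lit 78) (nat_lit 0) (nat_lit 0) (XT.lf (nat_lit 0) (nat_lit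 6738266314) (nat_lit 0) (nat_lit 6738266314) (nat_lit 1140) (nat_lit 10303976662) (nat_lit 195) (nat_lit 5) (nat_lit 195) (nat_lit 3) (nat_lit 210) (nat_lit 3) (nat_lit 343) (nat_lit 343) (nat_lit 94)) (XT.lf (nat_lit 0) (nat_lit 27465432444) (nat_lit 1140) (nat_lit 12598702828) (nat_lit 1216) (nat_lit 8207024016) (nat_lit 195) (nat_lit 5) (nat_lit 210) (nat_lit 3) (nat_lit 211) (nat_lit 5) (nat_lit 344) (nat_lit 343) (nat_lit 93)))) (XT.nd (nat_lit 156) (nat_lit 0) (nat_lit 76) (XT.nd (nat_lit 78) (nat_lit 0) (nat_lit 76) (XT.lf (nat_lit 76) (nat_lit 9584676796) (nat_lit 0) (nat_lit 18632986274) (nat_lit 1216) (nat_lit 20778207638) (nat_lit 196) (nat_lit 5) (nat_lit 195) (nat_lit 5) (nat_lit 211) (nat_lit 5) (nat_lit 345) (nat_lit 343) (nat_lit 92)) (XT.lf (nat_lit 0) (nat_lit 29152978299) (nat_lit 1140) (nat_lit 17081634574) (nat_lit 1216) (nat_lit 3502896298) (nat_lit 196) (nat_lit 5) (nat_lit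 211) (nat_lit 5) (nat_lit 212) (nat_lit 5) (nat_lit 346) (nat_lit 343) (nat_lit 91))) (XT.nd (nat_lit 78) (nat_lit 0) (nat_lit 0) (XT.lf (nat_lit 76) (nat_lit 5846827869) (nat_lit 0) (nat_lit 24509201696) (nat_lit 1216) (nat_lit 20138178117) (nat_lit 197) (nat_lit 5) (nat_lit 196) (nat_lit 5) (nat_lit 212) (nat_lit 5) (nat_lit 347) (nat_lit 343) (nat_lit 90)) (XT.lf (nat_lit 76) (nat_lit 29812715410) (nat_lit 0) (nat_lit 1953960097) (nat_lit 1216) (nat_lit 19501787707) (nat_lit 197) (nat_lit 5) (nat_lit 196) (nat_lit 5) (nat_lit 212) (nat_lit 5) (nat_lit 348) (nat_lit 343) (nat_lit 89))))) (XT.nd (nat_lit 234) (nat_lit 0) (nat_lit 76) (XT.nd (nat_lit 78) (nat_lit 0) (nat_lit 0) (XT.lf (nat_lit 76) (nat_lit 2270806070) (nat_lit 0) (nat_lit 31174244347) (nat_lit 1216) (nat_lit 18614134831) (nat_lit 198) (nat_lit 5) (nat_lit 197) (nat_lit 5) (nat_lit 213) (nat_lit 5) (nat_lit 349) (nat_lit 343) (nat_lit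 88)) (XT.nd (nat_lit 78) (nat_lit 0) (nat_lit 76) (XT.lf (nat_lit 76) (nat_lit 27128650959) (nat_lit 0) (nat_lit 8280009814) (nat_lit 1216) (nat_lit 17457922737) (nat_lit 198) (nat_lit 5) (nat_lit 197) (nat_lit 5) (nat_lit 213) (nat_lit 5) (nat_lit 350) (nat_lit 343) (nat_lit 87)) (XT.lf (nat_lit 0) (nat_lit 37577359581) (nat_lit 1140) (nat_lit 1113665850) (nat_lit 1216) (nat_lit 15002793944) (nat_lit 198) (nat_lit 5) (nat_lit 213) (nat_lit 5) (nat_lit 214) (nat_lit 5) (nat_lit 351) (nat_lit 343) (nat_lit 86)))) (XT.nd (nat_lit 156) (nat_lit 0) (nat_lit 76) (XT.nd (nat_lit 78) (nat_lit 0) (nat_lit 76) (XT.lf (nat_lit 76) (nat_lit 24647721909) (nat_lit 0) (nat_lit 15481430091) (nat_lit 1216) (nat_lit 14407180367) (nat_lit 199) (nat_lit 5) (nat_lit 198) (nat_lit 5) (nat_lit 214) (nat_lit 5) (nat_lit 352) (nat_lit 343) (nat_lit 85)) (XT.lf (nat_lit 0) (nat_lit 42848982235) (nat_lit 1140) (nat_lit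 4280711324) (nat_lit 1216) (nat_lit 8271683667) (nat_lit 199) (nat_lit 5) (nat_lit 214) (nat_lit 5) (nat_lit 215) (nat_lit 5) (nat_lit 353) (nat_lit 343) (nat_lit 84))) (XT.nd (nat_lit 78) (nat_lit 0) (nat_lit 76) (XT.lf (nat_lit 76) (nat_lit 22378225043) (nat_lit 0) (nat_lit 23639747745) (nat_lit 1216) (nat_lit 10263374649) (nat_lit 200) (nat_lit 5) (nat_lit 199) (nat_lit 5) (nat_lit 215) (nat_lit 5) (nat_lit 354) (nat_lit 343) (nat_lit 83)) (XT.lf (nat_lit 0) (nat_lit 49330213143) (nat_lit 1140) (nat_lit 7268121590) (nat_lit 1216) (nat_lit 587937564) (nat_lit 200) (nat_lit 5) (nat_lit 215) (nat_lit 5) (nat_lit 216) (nat_lit 5) (nat_lit 355) (nat_lit 343) (nat_lit 82)))))) (XT.nd (nat_lit 546) (nat_lit 1672) (nat_lit 0) (XT.nd (nat_lit 234) (nat_lit 608) (nat_lit 0) (XT.nd (nat_lit 78) (nat_lit 1140) (nat_lit 0) (XT.lf (nat_lit 76) (nat_lit 20327942213) (nat_lit 0) (nat_lit 32842554873) (nat_lit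 1216) (nat_lit 4934988437) (nat_lit 201) (nat_lit 5) (nat_lit 200) (nat_lit 5) (nat_lit 216) (nat_lit 5) (nat_lit 356) (nat_lit 343) (nat_lit 81)) (XT.nd (nat_lit 78) (nat_lit 1140) (nat_lit 0) (XT.lf (nat_lit 76) (nat_lit 48900281707) (nat_lit 0) (nat_lit 8298333616) (nat_lit 1216) (nat_lit 1851481939) (nat_lit 201) (nat_lit 5) (nat_lit 200) (nat_lit 5) (nat_lit 216) (nat_lit 5) (nat_lit 357) (nat_lit 343) (nat_lit 80)) (XT.lf (nat_lit 0) (nat_lit 1642423524) (nat_lit 1216) (nat_lit 41524962527) (nat_lit 1292) (nat_lit 16844967969) (nat_lit 185) (nat_lit 5) (nat_lit 201) (nat_lit 5) (nat_lit 202) (nat_lit 5) (nat_lit 358) (nat_lit 343) (nat_lit 79)))) (XT.nd (nat_lit 156) (nat_lit 608) (nat_lit 0) (XT.nd (nat_lit 78) (nat_lit 0) (nat_lit 76) (XT.lf (nat_lit 0) (nat_lit 5388866813) (nat_lit 1216) (nat_lit 12910748303) (nat_lit 1292) (nat_lit 42697766224) (nat_lit 185) (nat_lit 5) (nat_lit 201)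 (nat_lit 5) (nat_lit 202) (nat_lit 5) (nat_lit 359) (nat_lit 343) (nat_lit 78)) (XT.lf (nat_lit 0) (nat_lit 9481271573) (nat_lit 1216) (nat_lit 45188128081) (nat_lit 76) (nat_lit 7335553570) (nat_lit 186) (nat_lit 5) (nat_lit 202) (nat_lit 5) (nat_lit 187) (nat_lit 5) (nat_lit 360) (nat_lit 343) (nat_lit 77))) (XT.nd (nat_lit 78) (nat_lit 684) (nat_lit 0) (XT.lf (nat_lit 0) (nat_lit 14008598385) (nat_lit 1216) (nat_lit 15521044496) (nat_lit 76) (nat_lit 33503745651) (nat_lit 186) (nat_lit 5) (nat_lit 202) (nat_lit 5) (nat_lit 187) (nat_lit 5) (nat_lit 361) (nat_lit 343) (nat_lit 76)) (XT.lf (nat_lit 0) (nat_lit 15334692729) (nat_lit 684) (nat_lit 3483780597) (nat_lit 760) (nat_lit 45269802468) (nat_lit 177) (nat_lit 5) (nat_lit 186) (nat_lit 5) (nat_lit 187) (nat_lit 5) (nat_lit 362) (nat_lit 343) (nat_lit 75))))) (XT.nd (nat_lit 234) (nat_lit 1064) (nat_lit 0) (XT.nd (nat_lit 78) (nat_lit 608)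 (nat_lit 0) (XT.lf (nat_lit 0) (nat_lit 24154656736) (nat_lit 760) (nat_lit 17962392344) (nat_lit 76) (nat_lit 23046300949) (nat_lit 177) (nat_lit 5) (nat_lit 187) (nat_lit 5) (nat_lit 178) (nat_lit 5) (nat_lit 363) (nat_lit 343) (nat_lit 74)) (XT.nd (nat_lit 78) (nat_lit 0) (nat_lit 0) (XT.lf (nat_lit 0) (nat_lit 13990453611) (nat_lit 608) (nat_lit 15828805736) (nat_lit 684) (nat_lit 36446367833) (nat_lit 169) (nat_lit 5) (nat_lit 177) (nat_lit 5) (nat_lit 178) (nat_lit 5) (nat_lit 364) (nat_lit 343) (nat_lit 73)) (XT.lf (nat_lit 0) (nat_lit 35944473924) (nat_lit 684) (nat_lit 20235960071) (nat_lit 76) (nat_lit 11211819115) (nat_lit 169) (nat_lit 5) (nat_lit 178) (nat_lit 5) (nat_lit 170) (nat_lit 5) (nat_lit 365) (nat_lit 343) (nat_lit 72)))) (XT.nd (nat_lit 156) (nat_lit 532) (nat_lit 0) (XT.nd (nat_lit 78) (nat_lit 0) (nat_lit 0) (XT.lf (nat_lit 0) (nat_lit 12858027065) (nat_lit 532) (nat_lit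 29675125885) (nat_lit 608) (nat_lit 26011134288) (nat_lit 162) (nat_lit 5) (nat_lit 169) (nat_lit 5) (nat_lit 170) (nat_lit 5) (nat_lit 366) (nat_lit 343) (nat_lit 71)) (XT.lf (nat_lit 0) (nat_lit 47359068590) (nat_lit 532) (nat_lit 2164167445) (nat_lit 608) (nat_lit 20201534686) (nat_lit 162) (nat_lit 5) (nat_lit 169) (nat_lit 5) (nat_lit 170) (nat_lit 5) (nat_lit 367) (nat_lit 343) (nat_lit 70))) (XT.nd (nat_lit 78) (nat_lit 0) (nat_lit 0) (XT.lf (nat_lit 0) (nat_lit 11935205212) (nat_lit 532) (nat_lit 45153545122) (nat_lit 608) (nat_lit 13840947136) (nat_lit 155) (nat_lit 5) (nat_lit 162) (nat_lit 5) (nat_lit 163) (nat_lit 5) (nat_lit 368) (nat_lit 343) (nat_lit 69)) (XT.lf (nat_lit 0) (nat_lit 47701182763) (nat_lit 532) (nat_lit 17426543563) (nat_lit 608) (nat_lit 7035651411) (nat_lit 155) (nat_lit 5) (nat_lit 162) (nat_lit 5) (nat_lit 163) (nat_lit 5) (nat_lit 369) (nat_lit 343) (nat_lit 68))))))))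
noncomputable def xc251 : XT := (XT.nd (nat_lit 40248) (nat_lit 0) (nat_lit 456) (XT.nd (nat_lit 39156) (nat_lit 0) (nat_lit 3648) (XT.nd (nat_lit 38610) (nat_lit 0) (nat_lit 5016) (XT.nd (nat_lit 234) (nat_lit 912) (nat_lit 0) (XT.nd (nat_lit 78) (nat_lit 532) (nat_lit 0) (XT.lf (nat_lit 0) (nat_lit 190719619) (nat_lit 532) (nat_lit 62212136285) (nat_lit 76) (nat_lit 11024728476) (nat_lit 148) (nat_lit 5) (nat_lit 155) (nat_lit 5) (nat_lit 149) (nat_lit 5) (nat_lit 370) (nat_lit 343) (nat_lit 67)) (XT.nd (nat_lit 78) (nat_lit 532) (nat_lit 0) (XT.lf (nat_lit 0) (nat_lit 7913928591) (nat_lit 532) (nat_lit 26502665095) (nat_lit 76) (nat_lit 40298390599) (nat_lit 148) (nat_lit 5) (nat_lit 155) (nat_lit 5) (nat_lit 149) (nat_lit 5) (nat_lit 371) (nat_lit 343) (nat_lit 66)) (XT.lf (nat_lit 0) (nat_lit 10482065851) (nat_lit 532) (nat_lit 5486994470) (nat_lit 608) (nat_lit 60068939609) (nat_lit 141)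 (nat_lit 5) (nat_lit 148) (nat_lit 5) (nat_lit 149) (nat_lit 5) (nat_lit 372) (nat_lit 343) (nat_lit 65)))) (XT.nd (nat_lit 156) (nat_lit 456) (nat_lit 0) (XT.nd (nat_lit 78) (nat_lit 456) (nat_lit 0) (XT.lf (nat_lit 0) (nat_lit 24769284268) (nat_lit 608) (nat_lit 28509974532) (nat_lit 76) (nat_lit 24106344617) (nat_lit 141) (nat_lit 5) (nat_lit 149) (nat_lit 5) (nat_lit 142) (nat_lit 5) (nat_lit 373) (nat_lit 343) (nat_lit 64)) (XT.lf (nat_lit 0) (nat_lit 9783385501) (nat_lit 456) (nat_lit 24197991484) (nat_lit 532) (nat_lit 44787822669) (nat_lit 135) (nat_lit 5) (nat_lit 141) (nat_lit 5) (nat_lit 142) (nat_lit 5) (nat_lit 374) (nat_lit 343) (nat_lit 63))) (XT.nd (nat_lit 78) (nat_lit 456) (nat_lit 0) (XT.lf (nat_lit 0) (nat_lit 43815405634) (nat_lit 532) (nat_lit 30434442094) (nat_lit 76) (nat_lit 5934089346) (nat_lit 135) (nat_lit 5) (nat_lit 142) (nat_lit 5) (nat_lit 136) (nat_lit 5) (nat_lit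 375) (nat_lit 343) (nat_lit 62)) (XT.lf (nat_lit 0) (nat_lit 9213114569) (nat_lit 456) (nat_lit 45059001713) (nat_lit 532) (nat_lit 27359170979) (nat_lit 129) (nat_lit 5) (nat_lit 135) (nat_lit 5) (nat_lit 136) (nat_lit 5) (nat_lit 376) (nat_lit 343) (nat_lit 61))))) (XT.nd (nat_lit 234) (nat_lit 0) (nat_lit 76) (XT.nd (nat_lit 78) (nat_lit 0) (nat_lit 0) (XT.lf (nat_lit 0) (nat_lit 6954086695) (nat_lit 0) (nat_lit 6954086695) (nat_lit 1140) (nat_lit 10584898712) (nat_lit 195) (nat_lit 5) (nat_lit 195) (nat_lit 3) (nat_lit 210) (nat_lit 3) (nat_lit 344) (nat_lit 344) (nat_lit 92)) (XT.nd (nat_lit 78) (nat_lit 0) (nat_lit 0) (XT.lf (nat_lit 0) (nat_lit 28342236884) (nat_lit 1140) (nat_lit 12948205104) (nat_lit 1216) (nat_lit 8427204457) (nat_lit 195) (nat_lit 5) (nat_lit 210) (nat_lit 3) (nat_lit 211) (nat_lit 5) (nat_lit 345) (nat_lit 344) (nat_lit 91)) (XT.lf (nat_lit 76) (nat_lit 9900396900)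 (nat_lit 0) (nat_lit 19215369338) (nat_lit 1216) (nat_lit 21348372833) (nat_lit 196) (nat_lit 5) (nat_lit 195) (nat_lit 5) (nat_lit 211) (nat_lit 5) (nat_lit 346) (nat_lit 344) (nat_lit 90)))) (XT.nd (nat_lit 156) (nat_lit 0) (nat_lit 0) (XT.nd (nat_lit 78) (nat_lit 0) (nat_lit 0) (XT.lf (nat_lit 0) (nat_lit 30077420467) (nat_lit 1140) (nat_lit 17564945328) (nat_lit 1216) (nat_lit 3585714270) (nat_lit 196) (nat_lit 5) (nat_lit 211) (nat_lit 5) (nat_lit 212) (nat_lit 5) (nat_lit 347) (nat_lit 344) (nat_lit 89)) (XT.lf (nat_lit 76) (nat_lit 6051085318) (nat_lit 0) (nat_lit 25264303279) (nat_lit 1216) (nat_lit 20692127889) (nat_lit 197) (nat_lit 5) (nat_lit 196) (nat_lit 5) (nat_lit 212) (nat_lit 5) (nat_lit 348) (nat_lit 344) (nat_lit 88))) (XT.nd (nat_lit 78) (nat_lit 0) (nat_lit 76) (XT.lf (nat_lit 76) (nat_lit 30735109118) (nat_lit 0) (nat_lit 2031826989) (nat_lit 1216) (nat_lit 20038107773) (nat_lit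 197) (nat_lit 5) (nat_lit 196) (nat_lit 5) (nat_lit 212) (nat_lit 5) (nat_lit 349) (nat_lit 344) (nat_lit 87)) (XT.lf (nat_lit 76) (nat_lit 2368309866) (nat_lit 0) (nat_lit 32126078663) (nat_lit 1216) (nat_lit 19125138872) (nat_lit 198) (nat_lit 5) (nat_lit 197) (nat_lit 5) (nat_lit 213) (nat_lit 5) (nat_lit 350) (nat_lit 344) (nat_lit 86)))))) (XT.nd (nat_lit 546) (nat_lit 1520) (nat_lit 0) (XT.nd (nat_lit 234) (nat_lit 0) (nat_lit 152) (XT.nd (nat_lit 78) (nat_lit 0) (nat_lit 76) (XT.lf (nat_lit 76) (nat_lit 27971034384) (nat_lit 0) (nat_lit 8544533396) (nat_lit 1216) (nat_lit 17935621580) (nat_lit 198) (nat_lit 5) (nat_lit 197) (nat_lit 5) (nat_lit 213) (nat_lit 5) (nat_lit 351) (nat_lit 344) (nat_lit 85)) (XT.nd (nat_lit 78) (nat_lit 0) (nat_lit 0) (XT.lf (nat_lit 0) (nat_lit 38747876677) (nat_lit 1140) (nat_lit 1117881128) (nat_lit 1216) (nat_lit 15437529545) (nat_lit 198) (nat_lit 5) (nat_lit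 213) (nat_lit 5) (nat_lit 214) (nat_lit 5) (nat_lit 352) (nat_lit 344) (nat_lit 84)) (XT.lf (nat_lit 76) (nat_lit 25416062041) (nat_lit 0) (nat_lit 15959180567) (nat_lit 1216) (nat_lit 14795864007) (nat_lit 199) (nat_lit 5) (nat_lit 198) (nat_lit 5) (nat_lit 214) (nat_lit 5) (nat_lit 353) (nat_lit 344) (nat_lit 83)))) (XT.nd (nat_lit 156) (nat_lit 0) (nat_lit 76) (XT.nd (nat_lit 78) (nat_lit 0) (nat_lit 0) (XT.lf (nat_lit 0) (nat_lit 44175313962) (nat_lit 1140) (nat_lit 4379664588) (nat_lit 1216) (nat_lit 8507166318) (nat_lit 199) (nat_lit 5) (nat_lit 214) (nat_lit 5) (nat_lit 215) (nat_lit 5) (nat_lit 354) (nat_lit 344) (nat_lit 82)) (XT.lf (nat_lit 76) (nat_lit 23078750968) (nat_lit 0) (nat_lit 24359713590) (nat_lit 1216) (nat_lit 10530078312) (nat_lit 200) (nat_lit 5) (nat_lit 199) (nat_lit 5) (nat_lit 215) (nat_lit 5) (nat_lit 355) (nat_lit 344) (nat_lit 81))) (XT.nd (nat_lit 78) (nat_lit 0)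 (nat_lit 0) (XT.lf (nat_lit 0) (nat_lit 50848807911) (nat_lit 1140) (nat_lit 7456526669) (nat_lit 1216) (nat_lit 595320171) (nat_lit 200) (nat_lit 5) (nat_lit 215) (nat_lit 5) (nat_lit 216) (nat_lit 5) (nat_lit 356) (nat_lit 344) (nat_lit 80)) (XT.lf (nat_lit 76) (nat_lit 20967128473) (nat_lit 0) (nat_lit 33836327164) (nat_lit 1216) (nat_lit 5044015393) (nat_lit 201) (nat_lit 5) (nat_lit 200) (nat_lit 5) (nat_lit 216) (nat_lit 5) (nat_lit 357) (nat_lit 344) (nat_lit 79))))) (XT.nd (nat_lit 234) (nat_lit 608) (nat_lit 0) (XT.nd (nat_lit 78) (nat_lit 1140) (nat_lit 0) (XT.lf (nat_lit 76) (nat_lit 50395783356) (nat_lit 0) (nat_lit 8555531823) (nat_lit 1216) (nat_lit 1869140283) (nat_lit 201) (nat_lit 5) (nat_lit 200) (nat_lit 5) (nat_lit 216) (nat_lit 5) (nat_lit 358) (nat_lit 344) (nat_lit 78)) (XT.nd (nat_lit 78) (nat_lit 0) (nat_lit 0) (XT.lf (nat_lit 0) (nat_lit 1727969023) (nat_lit 1216) (nat_lit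 42740523609) (nat_lit 1292) (nat_lit 17343103788) (nat_lit 185) (nat_lit 5) (nat_lit 201) (nat_lit 5) (nat_lit 202) (nat_lit 5) (nat_lit 359) (nat_lit 344) (nat_lit 77)) (XT.lf (nat_lit 0) (nat_lit 5585749122) (nat_lit 1216) (nat_lit 13268762215) (nat_lit 1292) (nat_lit 43971696083) (nat_lit 185) (nat_lit 5) (nat_lit 201) (nat_lit 5) (nat_lit 202) (nat_lit 5) (nat_lit 360) (nat_lit 344) (nat_lit 76)))) (XT.nd (nat_lit 156) (nat_lit 684) (nat_lit 0) (XT.nd (nat_lit 78) (nat_lit 0) (nat_lit 0) (XT.lf (nat_lit 0) (nat_lit 9800126903) (nat_lit 1216) (nat_lit 46513626526) (nat_lit 76) (nat_lit 7550278136) (nat_lit 186) (nat_lit 5) (nat_lit 202) (nat_lit 5) (nat_lit 187) (nat_lit 5) (nat_lit 361) (nat_lit 344) (nat_lit 75)) (XT.lf (nat_lit 0) (nat_lit 14462271077) (nat_lit 1216) (nat_lit 15957408455) (nat_lit 76) (nat_lit 34503671574) (nat_lit 186) (nat_lit 5) (nat_lit 202) (nat_lit 5) (nat_lit 187)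 (nat_lit 5) (nat_lit 362) (nat_lit 344) (nat_lit 74))) (XT.nd (nat_lit 78) (nat_lit 0) (nat_lit 0) (XT.lf (nat_lit 0) (nat_lit 15823713952) (nat_lit 684) (nat_lit 3592033648) (nat_lit 760) (nat_lit 46594159293) (nat_lit 177) (nat_lit 5) (nat_lit 186) (nat_lit 5) (nat_lit 187) (nat_lit 5) (nat_lit 363) (nat_lit 344) (nat_lit 73)) (XT.lf (nat_lit 0) (nat_lit 24911028599) (nat_lit 760) (nat_lit 18472105315) (nat_lit 76) (nat_lit 23734130114) (nat_lit 177) (nat_lit 5) (nat_lit 187) (nat_lit 5) (nat_lit 178) (nat_lit 5) (nat_lit 364) (nat_lit 344) (nat_lit 72))))))) (XT.nd (nat_lit 39312) (nat_lit 0) (nat_lit 3800) (XT.nd (nat_lit 546) (nat_lit 988) (nat_lit 0) (XT.nd (nat_lit 234) (nat_lit 1064) (nat_lit 0) (XT.nd (nat_lit 78) (nat_lit 532) (nat_lit 0) (XT.lf (nat_lit 0) (nat_lit 14439040148) (nat_lit 608) (nat_lit 16305882447) (nat_lit 684) (nat_lit 37507707305) (nat_lit 169) (nat_lit 5) (nat_lit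 177) (nat_lit 5) (nat_lit 178) (nat_lit 5) (nat_lit 365) (nat_lit 344) (nat_lit 71)) (XT.nd (nat_lit 78) (nat_lit 532) (nat_lit 0) (XT.lf (nat_lit 0) (nat_lit 37052967559) (nat_lit 684) (nat_lit 20814048299) (nat_lit 76) (nat_lit 11546067509) (nat_lit 169) (nat_lit 5) (nat_lit 178) (nat_lit 5) (nat_lit 170) (nat_lit 5) (nat_lit 366) (nat_lit 344) (nat_lit 70)) (XT.lf (nat_lit 0) (nat_lit 13272474231) (nat_lit 532) (nat_lit 30566230239) (nat_lit 608) (nat_lit 26760993072) (nat_lit 162) (nat_lit 5) (nat_lit 169) (nat_lit 5) (nat_lit 170) (nat_lit 5) (nat_lit 367) (nat_lit 344) (nat_lit 69)))) (XT.nd (nat_lit 156) (nat_lit 532) (nat_lit 0) (XT.nd (nat_lit 78) (nat_lit 532) (nat_lit 0) (XT.lf (nat_lit 0) (nat_lit 48807710894) (nat_lit 532) (nat_lit 2229918272) (nat_lit 608) (nat_lit 20777993110) (nat_lit 162) (nat_lit 5) (nat_lit 169) (nat_lit 5) (nat_lit 170) (nat_lit 5) (nat_lit 368) (nat_lit 344)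 (nat_lit 68)) (XT.lf (nat_lit 0) (nat_lit 12321749063) (nat_lit 532) (nat_lit 46507790157) (nat_lit 608) (nat_lit 14227175591) (nat_lit 155) (nat_lit 5) (nat_lit 162) (nat_lit 5) (nat_lit 163) (nat_lit 5) (nat_lit 369) (nat_lit 344) (nat_lit 67))) (XT.nd (nat_lit 78) (nat_lit 532) (nat_lit 0) (XT.lf (nat_lit 0) (nat_lit 49159876202) (nat_lit 532) (nat_lit 17948989076) (nat_lit 608) (nat_lit 7218565653) (nat_lit 155) (nat_lit 5) (nat_lit 162) (nat_lit 5) (nat_lit 163) (nat_lit 5) (nat_lit 370) (nat_lit 344) (nat_lit 66)) (XT.lf (nat_lit 0) (nat_lit 223520333) (nat_lit 532) (nat_lit 64049710899) (nat_lit 76) (nat_lit 11356341043) (nat_lit 148) (nat_lit 5) (nat_lit 155) (nat_lit 5) (nat_lit 149) (nat_lit 5) (nat_lit 371) (nat_lit 344) (nat_lit 65))))) (XT.nd (nat_lit 234) (nat_lit 456) (nat_lit 0) (XT.nd (nat_lit 78) (nat_lit 532) (nat_lit 0) (XT.lf (nat_lit 0) (nat_lit 8177636862) (nat_lit 532) (nat_lit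 27269794101) (nat_lit 76) (nat_lit 41508187669) (nat_lit 148) (nat_lit 5) (nat_lit 155) (nat_lit 5) (nat_lit 149) (nat_lit 5) (nat_lit 372) (nat_lit 344) (nat_lit 64)) (XT.nd (nat_lit 78) (nat_lit 0) (nat_lit 0) (XT.lf (nat_lit 0) (nat_lit 10824204744) (nat_lit 532) (nat_lit 5649718107) (nat_lit 608) (nat_lit 61844417657) (nat_lit 141) (nat_lit 5) (nat_lit 148) (nat_lit 5) (nat_lit 149) (nat_lit 5) (nat_lit 373) (nat_lit 344) (nat_lit 63)) (XT.lf (nat_lit 0) (nat_lit 25537419933) (nat_lit 608) (nat_lit 29337644441) (nat_lit 76) (nat_lit 24831330481) (nat_lit 141) (nat_lit 5) (nat_lit 149) (nat_lit 5) (nat_lit 142) (nat_lit 5) (nat_lit 374) (nat_lit 344) (nat_lit 62)))) (XT.nd (nat_lit 38376) (nat_lit 0) (nat_lit 4560) (XT.nd (nat_lit 38298) (nat_lit 0) (nat_lit 4560) (XT.lf (nat_lit 0) (nat_lit 10104245517) (nat_lit 456) (nat_lit 24921163082) (nat_lit 532) (nat_lit 46106105112) (nat_lit 135) (nat_lit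 5) (nat_lit 141) (nat_lit 5) (nat_lit 142) (nat_lit 5) (nat_lit 375) (nat_lit 344) (nat_lit 61)) (XT.lf (nat_lit 0) (nat_lit 7175596836) (nat_lit 0) (nat_lit 7175596836) (nat_lit 1140) (nat_lit 10875867060) (nat_lit 195) (nat_lit 5) (nat_lit 195) (nat_lit 3) (nat_lit 210) (nat_lit 3) (nat_lit 345) (nat_lit 345) (nat_lit 90))) (XT.nd (nat_lit 78) (nat_lit 0) (nat_lit 0) (XT.lf (nat_lit 0) (nat_lit 29242312141) (nat_lit 1140) (nat_lit 13309826101) (nat_lit 1216) (nat_lit 8655484556) (nat_lit 195) (nat_lit 5) (nat_lit 210) (nat_lit 3) (nat_lit 211) (nat_lit 5) (nat_lit 346) (nat_lit 345) (nat_lit 89)) (XT.lf (nat_lit 76) (nat_lit 10223970971) (nat_lit 0) (nat_lit 19813881013) (nat_lit 1216) (nat_lit 21938695792) (nat_lit 196) (nat_lit 5) (nat_lit 195) (nat_lit 5) (nat_lit 211) (nat_lit 5) (nat_lit 347) (nat_lit 345) (nat_lit 88)))))) (XT.nd (nat_lit 546) (nat_lit 836) (nat_lit 0) (XT.nd (nat_lit 234)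 (nat_lit 0) (nat_lit 76) (XT.nd (nat_lit 78) (nat_lit 0) (nat_lit 0) (XT.lf (nat_lit 0) (nat_lit 31026734145) (nat_lit 1140) (nat_lit 18064428063) (nat_lit 1216) (nat_lit 3672295107) (nat_lit 196) (nat_lit 5) (nat_lit 211) (nat_lit 5) (nat_lit 212) (nat_lit 5) (nat_lit 348) (nat_lit 345) (nat_lit 87)) (XT.nd (nat_lit 78) (nat_lit 0) (nat_lit 0) (XT.lf (nat_lit 76) (nat_lit 6259814232) (nat_lit 0) (nat_lit 26040919842) (nat_lit 1216) (nat_lit 21265577584) (nat_lit 197) (nat_lit 5) (nat_lit 196) (nat_lit 5) (nat_lit 212) (nat_lit 5) (nat_lit 349) (nat_lit 345) (nat_lit 86)) (XT.lf (nat_lit 76) (nat_lit 31683566619) (nat_lit 0) (nat_lit 2110924968) (nat_lit 1216) (nat_lit 20593314947) (nat_lit 197) (nat_lit 5) (nat_lit 196) (nat_lit 5) (nat_lit 212) (nat_lit 5) (nat_lit 350) (nat_lit 345) (nat_lit 85)))) (XT.nd (nat_lit 156) (nat_lit 0) (nat_lit 76) (XT.nd (nat_lit 78) (nat_lit 0) (nat_lit 0) (XT.lf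 (nat_lit 76) (nat_lit 2467052265) (nat_lit 0) (nat_lit 33105514700) (nat_lit 1216) (nat_lit 19654195137) (nat_lit 198) (nat_lit 5) (nat_lit 197) (nat_lit 5) (nat_lit 213) (nat_lit 5) (nat_lit 351) (nat_lit 345) (nat_lit 84)) (XT.lf (nat_lit 76) (nat_lit 28837051924) (nat_lit 0) (nat_lit 8816067142) (nat_lit 1216) (nat_lit 18430294206) (nat_lit 198) (nat_lit 5) (nat_lit 197) (nat_lit 5) (nat_lit 213) (nat_lit 5) (nat_lit 352) (nat_lit 345) (nat_lit 83))) (XT.nd (nat_lit 78) (nat_lit 0) (nat_lit 0) (XT.lf (nat_lit 0) (nat_lit 39951029640) (nat_lit 1140) (nat_lit 1123898759) (nat_lit 1216) (nat_lit 15886188264) (nat_lit 198) (nat_lit 5) (nat_lit 213) (nat_lit 5) (nat_lit 214) (nat_lit 5) (nat_lit 353) (nat_lit 345) (nat_lit 82)) (XT.lf (nat_lit 76) (nat_lit 26205792913) (nat_lit 0) (nat_lit 16450499649) (nat_lit 1216) (nat_lit 15198707058) (nat_lit 199) (nat_lit 5) (nat_lit 198) (nat_lit 5) (nat_lit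 214) (nat_lit 5) (nat_lit 354) (nat_lit 345) (nat_lit 81))))) (XT.nd (nat_lit 234) (nat_lit 1064) (nat_lit 0) (XT.nd (nat_lit 78) (nat_lit 0) (nat_lit 0) (XT.lf (nat_lit 0) (nat_lit 45539089980) (nat_lit 1140) (nat_lit 4483278038) (nat_lit 1216) (nat_lit 8750440635) (nat_lit 199) (nat_lit 5) (nat_lit 214) (nat_lit 5) (nat_lit 215) (nat_lit 5) (nat_lit 355) (nat_lit 345) (nat_lit 80)) (XT.nd (nat_lit 78) (nat_lit 0) (nat_lit 76) (XT.lf (nat_lit 76) (nat_lit 23798617665) (nat_lit 0) (nat_lit 25100659972) (nat_lit 1216) (nat_lit 10807147993) (nat_lit 200) (nat_lit 5) (nat_lit 199) (nat_lit 5) (nat_lit 215) (nat_lit 5) (nat_lit 356) (nat_lit 345) (nat_lit 79)) (XT.lf (nat_lit 0) (nat_lit 52410739651) (nat_lit 1140) (nat_lit 7652285277) (nat_lit 1216) (nat_lit 603512966) (nat_lit 200) (nat_lit 5) (nat_lit 215) (nat_lit 5) (nat_lit 216) (nat_lit 5) (nat_lit 357) (nat_lit 345) (nat_lit 78)))) (XT.nd (nat_lit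 156) (nat_lit 1140) (nat_lit 0) (XT.nd (nat_lit 78) (nat_lit 0) (nat_lit 0) (XT.lf (nat_lit 76) (nat_lit 21623805626) (nat_lit 0) (nat_lit 34859424939) (nat_lit 1216) (nat_lit 5158553219) (nat_lit 201) (nat_lit 5) (nat_lit 200) (nat_lit 5) (nat_lit 216) (nat_lit 5) (nat_lit 358) (nat_lit 345) (nat_lit 77)) (XT.lf (nat_lit 76) (nat_lit 51934514429) (nat_lit 0) (nat_lit 8819972496) (nat_lit 1216) (nat_lit 1889503195) (nat_lit 201) (nat_lit 5) (nat_lit 200) (nat_lit 5) (nat_lit 216) (nat_lit 5) (nat_lit 359) (nat_lit 345) (nat_lit 76))) (XT.nd (nat_lit 78) (nat_lit 0) (nat_lit 0) (XT.lf (nat_lit 0) (nat_lit 1813998681) (nat_lit 1216) (nat_lit 43994284426) (nat_lit 1292) (nat_lit 17856597749) (nat_lit 185) (nat_lit 5) (nat_lit 201) (nat_lit 5) (nat_lit 202) (nat_lit 5) (nat_lit 360) (nat_lit 345) (nat_lit 75)) (XT.lf (nat_lit 0) (nat_lit 5786516341) (nat_lit 1216) (nat_lit 13639198974) (nat_lit 1292)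 (nat_lit 45284245847) (nat_lit 185) (nat_lit 5) (nat_lit 201) (nat_lit 5) (nat_lit 202) (nat_lit 5) (nat_lit 361) (nat_lit 345) (nat_lit 74))))))))
noncomputable def xc252 : XT := (XT.nd (nat_lit 40482) (nat_lit 0) (nat_lit 532) (XT.nd (nat_lit 39390) (nat_lit 0) (nat_lit 4104) (XT.nd (nat_lit 468) (nat_lit 2128) (nat_lit 0) (XT.nd (nat_lit 234) (nat_lit 608) (nat_lit 0) (XT.nd (nat_lit 78) (nat_lit 684) (nat_lit 0) (XT.lf (nat_lit 0) (nat_lit 10126572207) (nat_lit 1216) (nat_lit 47880620393) (nat_lit 76) (nat_lit 7771751095) (nat_lit 186) (nat_lit 5) (nat_lit 202) (nat_lit 5) (nat_lit 187) (nat_lit 5) (nat_lit 362) (nat_lit 345) (nat_lit 73)) (XT.nd (nat_lit 78) (nat_lit 684) (nat_lit 0) (XT.lf (nat_lit 0) (nat_lit 14927635808) (nat_lit 1216) (nat_lit 16408543399) (nat_lit 76) (nat_lit 35533892997) (nat_lit 186) (nat_lit 5) (nat_lit 202) (nat_lit 5) (nat_lit 187) (nat_lit 5) (nat_lit 363) (nat_lit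 345) (nat_lit 72)) (XT.lf (nat_lit 0) (nat_lit 16325742216) (nat_lit 684) (nat_lit 3703319620) (nat_lit 760) (nat_lit 47960183479) (nat_lit 177) (nat_lit 5) (nat_lit 186) (nat_lit 5) (nat_lit 187) (nat_lit 5) (nat_lit 364) (nat_lit 345) (nat_lit 71)))) (XT.nd (nat_lit 78) (nat_lit 608) (nat_lit 0) (XT.lf (nat_lit 0) (nat_lit 25688270063) (nat_lit 760) (nat_lit 18998783509) (nat_lit 76) (nat_lit 24442798505) (nat_lit 177) (nat_lit 5) (nat_lit 187) (nat_lit 5) (nat_lit 178) (nat_lit 5) (nat_lit 365) (nat_lit 345) (nat_lit 70)) (XT.nd (nat_lit 78) (nat_lit 0) (nat_lit 0) (XT.lf (nat_lit 0) (nat_lit 14899426858) (nat_lit 608) (nat_lit 16797144451) (nat_lit 684) (nat_lit 38602726852) (nat_lit 169) (nat_lit 5) (nat_lit 177) (nat_lit 5) (nat_lit 178) (nat_lit 5) (nat_lit 366) (nat_lit 345) (nat_lit 69)) (XT.lf (nat_lit 0) (nat_lit 38192984730) (nat_lit 684) (nat_lit 21411143351) (nat_lit 76) (nat_lit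 11890464258) (nat_lit 169) (nat_lit 5) (nat_lit 178) (nat_lit 5) (nat_lit 170) (nat_lit 5) (nat_lit 367) (nat_lit 345) (nat_lit 68))))) (XT.nd (nat_lit 234) (nat_lit 1064) (nat_lit 0) (XT.nd (nat_lit 78) (nat_lit 532) (nat_lit 0) (XT.lf (nat_lit 0) (nat_lit 13697706949) (nat_lit 532) (nat_lit 31484018897) (nat_lit 608) (nat_lit 27535097024) (nat_lit 162) (nat_lit 5) (nat_lit 169) (nat_lit 5) (nat_lit 170) (nat_lit 5) (nat_lit 368) (nat_lit 345) (nat_lit 67)) (XT.nd (nat_lit 78) (nat_lit 532) (nat_lit 0) (XT.lf (nat_lit 0) (nat_lit 50298212601) (nat_lit 532) (nat_lit 2297594219) (nat_lit 608) (nat_lit 21373443738) (nat_lit 162) (nat_lit 5) (nat_lit 169) (nat_lit 5) (nat_lit 170) (nat_lit 5) (nat_lit 369) (nat_lit 345) (nat_lit 66)) (XT.lf (nat_lit 0) (nat_lit 12718253919) (nat_lit 532) (nat_lit 47902683285) (nat_lit 608) (nat_lit 14626655616) (nat_lit 155) (nat_lit 5) (nat_lit 162) (nat_lit 5) (nat_lit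 163) (nat_lit 5) (nat_lit 370) (nat_lit 345) (nat_lit 65)))) (XT.nd (nat_lit 156) (nat_lit 532) (nat_lit 0) (XT.nd (nat_lit 78) (nat_lit 532) (nat_lit 0) (XT.lf (nat_lit 0) (nat_lit 50660742764) (nat_lit 532) (nat_lit 18487128091) (nat_lit 608) (nat_lit 7408583552) (nat_lit 155) (nat_lit 5) (nat_lit 162) (nat_lit 5) (nat_lit 163) (nat_lit 5) (nat_lit 371) (nat_lit 345) (nat_lit 64)) (XT.lf (nat_lit 0) (nat_lit 255750616) (nat_lit 532) (nat_lit 65944065385) (nat_lit 76) (nat_lit 11697852004) (nat_lit 148) (nat_lit 5) (nat_lit 155) (nat_lit 5) (nat_lit 149) (nat_lit 5) (nat_lit 372) (nat_lit 345) (nat_lit 63))) (XT.nd (nat_lit 78) (nat_lit 532) (nat_lit 0) (XT.lf (nat_lit 0) (nat_lit 8447747203) (nat_lit 532) (nat_lit 28061541477) (nat_lit 76) (nat_lit 42754230124) (nat_lit 148) (nat_lit 5) (nat_lit 155) (nat_lit 5) (nat_lit 149) (nat_lit 5) (nat_lit 373) (nat_lit 345) (nat_lit 62)) (XT.lf (nat_lit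 0) (nat_lit 11175019035) (nat_lit 532) (nat_lit 5817431729) (nat_lit 608) (nat_lit 63674686429) (nat_lit 141) (nat_lit 5) (nat_lit 148) (nat_lit 5) (nat_lit 149) (nat_lit 5) (nat_lit 374) (nat_lit 345) (nat_lit 61)))))) (XT.nd (nat_lit 546) (nat_lit 0) (nat_lit 152) (XT.nd (nat_lit 234) (nat_lit 0) (nat_lit 76) (XT.nd (nat_lit 78) (nat_lit 0) (nat_lit 0) (XT.lf (nat_lit 0) (nat_lit 7403012483) (nat_lit 0) (nat_lit 7403012483) (nat_lit 1140) (nat_lit 11177090181) (nat_lit 195) (nat_lit 5) (nat_lit 195) (nat_lit 3) (nat_lit 210) (nat_lit 3) (nat_lit 346) (nat_lit 346) (nat_lit 88)) (XT.nd (nat_lit 78) (nat_lit 0) (nat_lit 0) (XT.lf (nat_lit 0) (nat_lit 30166530464) (nat_lit 1140) (nat_lit 13683835602) (nat_lit 1216) (nat_lit 8892021527) (nat_lit 195) (nat_lit 5) (nat_lit 210) (nat_lit 3) (nat_lit 211) (nat_lit 5) (nat_lit 347) (nat_lit 346) (nat_lit 87)) (XT.lf (nat_lit 76) (nat_lit 10555727488)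 (nat_lit 0) (nat_lit 20429082244) (nat_lit 1216) (nat_lit 22549606006) (nat_lit 196) (nat_lit 5) (nat_lit 195) (nat_lit 5) (nat_lit 211) (nat_lit 5) (nat_lit 348) (nat_lit 346) (nat_lit 86)))) (XT.nd (nat_lit 156) (nat_lit 0) (nat_lit 0) (XT.nd (nat_lit 78) (nat_lit 0) (nat_lit 0) (XT.lf (nat_lit 0) (nat_lit 32001829753) (nat_lit 1140) (nat_lit 18580471918) (nat_lit 1216) (nat_lit 3762678315) (nat_lit 196) (nat_lit 5) (nat_lit 211) (nat_lit 5) (nat_lit 212) (nat_lit 5) (nat_lit 349) (nat_lit 346) (nat_lit 85)) (XT.lf (nat_lit 76) (nat_lit 6473243832) (nat_lit 0) (nat_lit 26839762165) (nat_lit 1216) (nat_lit 21858946796) (nat_lit 197) (nat_lit 5) (nat_lit 196) (nat_lit 5) (nat_lit 212) (nat_lit 5) (nat_lit 350) (nat_lit 346) (nat_lit 84))) (XT.nd (nat_lit 78) (nat_lit 0) (nat_lit 76) (XT.lf (nat_lit 76) (nat_lit 32658962135) (nat_lit 0) (nat_lit 2191354395) (nat_lit 1216) (nat_lit 21167815254) (nat_lit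 197) (nat_lit 5) (nat_lit 196) (nat_lit 5) (nat_lit 212) (nat_lit 5) (nat_lit 351) (nat_lit 346) (nat_lit 83)) (XT.lf (nat_lit 76) (nat_lit 2567167239) (nat_lit 0) (nat_lit 34113435233) (nat_lit 1216) (nat_lit 20201688932) (nat_lit 198) (nat_lit 5) (nat_lit 197) (nat_lit 5) (nat_lit 213) (nat_lit 5) (nat_lit 352) (nat_lit 346) (nat_lit 82))))) (XT.nd (nat_lit 234) (nat_lit 0) (nat_lit 152) (XT.nd (nat_lit 78) (nat_lit 0) (nat_lit 76) (XT.lf (nat_lit 76) (nat_lit 29727506594) (nat_lit 0) (nat_lit 9094874489) (nat_lit 1216) (nat_lit 18942298121) (nat_lit 198) (nat_lit 5) (nat_lit 197) (nat_lit 5) (nat_lit 213) (nat_lit 5) (nat_lit 353) (nat_lit 346) (nat_lit 81)) (XT.nd (nat_lit 78) (nat_lit 0) (nat_lit 0) (XT.lf (nat_lit 0) (nat_lit 41187939889) (nat_lit 1140) (nat_lit 1131676611) (nat_lit 1216) (nat_lit 16349137220) (nat_lit 198) (nat_lit 5) (nat_lit 213) (nat_lit 5) (nat_lit 214) (nat_lit 5) (nat_lit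 354) (nat_lit 346) (nat_lit 80)) (XT.lf (nat_lit 76) (nat_lit 27017651506) (nat_lit 0) (nat_lit 16955838245) (nat_lit 1216) (nat_lit 15615990855) (nat_lit 199) (nat_lit 5) (nat_lit 198) (nat_lit 5) (nat_lit 214) (nat_lit 5) (nat_lit 355) (nat_lit 346) (nat_lit 79)))) (XT.nd (nat_lit 156) (nat_lit 0) (nat_lit 76) (XT.nd (nat_lit 78) (nat_lit 0) (nat_lit 0) (XT.lf (nat_lit 0) (nat_lit 46941568269) (nat_lit 1140) (nat_lit 4591594376) (nat_lit 1216) (nat_lit 9001698625) (nat_lit 199) (nat_lit 5) (nat_lit 214) (nat_lit 5) (nat_lit 215) (nat_lit 5) (nat_lit 356) (nat_lit 346) (nat_lit 78)) (XT.lf (nat_lit 76) (nat_lit 24538501513) (nat_lit 0) (nat_lit 25863251809) (nat_lit 1216) (nat_lit 11094758920) (nat_lit 200) (nat_lit 5) (nat_lit 199) (nat_lit 5) (nat_lit 215) (nat_lit 5) (nat_lit 357) (nat_lit 346) (nat_lit 77))) (XT.nd (nat_lit 78) (nat_lit 0) (nat_lit 0) (XT.lf (nat_lit 0) (nat_lit 54017435959)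 (nat_lit 1140) (nat_lit 7855520351) (nat_lit 1216) (nat_lit 612506459) (nat_lit 200) (nat_lit 5) (nat_lit 215) (nat_lit 5) (nat_lit 216) (nat_lit 5) (nat_lit 358) (nat_lit 346) (nat_lit 76)) (XT.lf (nat_lit 76) (nat_lit 22298595108) (nat_lit 0) (nat_lit 35912755958) (nat_lit 1216) (nat_lit 5278638655) (nat_lit 201) (nat_lit 5) (nat_lit 200) (nat_lit 5) (nat_lit 216) (nat_lit 5) (nat_lit 359) (nat_lit 346) (nat_lit 75))))))) (XT.nd (nat_lit 39624) (nat_lit 0) (nat_lit 3572) (XT.nd (nat_lit 546) (nat_lit 2204) (nat_lit 0) (XT.nd (nat_lit 234) (nat_lit 608) (nat_lit 0) (XT.nd (nat_lit 78) (nat_lit 1140) (nat_lit 0) (XT.lf (nat_lit 76) (nat_lit 53517865699) (nat_lit 0) (nat_lit 9091900089) (nat_lit 1216) (nat_lit 1912526969) (nat_lit 201) (nat_lit 5) (nat_lit 200) (nat_lit 5) (nat_lit 216) (nat_lit 5) (nat_lit 360) (nat_lit 346) (nat_lit 74)) (XT.nd (nat_lit 78) (nat_lit 0) (nat_lit 0) (XT.lf (nat_lit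 0) (nat_lit 1900646549) (nat_lit 1216) (nat_lit 45287291495) (nat_lit 1292) (nat_lit 18385886828) (nat_lit 185) (nat_lit 5) (nat_lit 201) (nat_lit 5) (nat_lit 202) (nat_lit 5) (nat_lit 361) (nat_lit 346) (nat_lit 73)) (XT.lf (nat_lit 0) (nat_lit 5991401061) (nat_lit 1216) (nat_lit 14022334687) (nat_lit 1292) (nat_lit 46636551034) (nat_lit 185) (nat_lit 5) (nat_lit 201) (nat_lit 5) (nat_lit 202) (nat_lit 5) (nat_lit 362) (nat_lit 346) (nat_lit 72)))) (XT.nd (nat_lit 156) (nat_lit 684) (nat_lit 0) (XT.nd (nat_lit 78) (nat_lit 0) (nat_lit 0) (XT.lf (nat_lit 0) (nat_lit 10460948595) (nat_lit 1216) (nat_lit 49290255210) (nat_lit 76) (nat_lit 8000157294) (nat_lit 186) (nat_lit 5) (nat_lit 202) (nat_lit 5) (nat_lit 187) (nat_lit 5) (nat_lit 363) (nat_lit 346) (nat_lit 71)) (XT.lf (nat_lit 0) (nat_lit 15405153447) (nat_lit 1216) (nat_lit 16874796016) (nat_lit 76) (nat_lit 36595301696) (nat_lit 186) (nat_lit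 5) (nat_lit 202) (nat_lit 5) (nat_lit 187) (nat_lit 5) (nat_lit 364) (nat_lit 346) (nat_lit 70))) (XT.nd (nat_lit 78) (nat_lit 0) (nat_lit 0) (XT.lf (nat_lit 0) (nat_lit 16841263229) (nat_lit 684) (nat_lit 3817741824) (nat_lit 760) (nat_lit 49369013874) (nat_lit 177) (nat_lit 5) (nat_lit 186) (nat_lit 5) (nat_lit 187) (nat_lit 5) (nat_lit 365) (nat_lit 346) (nat_lit 69)) (XT.lf (nat_lit 0) (nat_lit 26487111780) (nat_lit 760) (nat_lit 19542839798) (nat_lit 76) (nat_lit 25172919568) (nat_lit 177) (nat_lit 5) (nat_lit 187) (nat_lit 5) (nat_lit 178) (nat_lit 5) (nat_lit 366) (nat_lit 346) (nat_lit 68))))) (XT.nd (nat_lit 234) (nat_lit 1064) (nat_lit 0) (XT.nd (nat_lit 78) (nat_lit 532) (nat_lit 0) (XT.lf (nat_lit 0) (nat_lit 15372062887) (nat_lit 608) (nat_lit 17303024597) (nat_lit 684) (nat_lit 39732331260) (nat_lit 169) (nat_lit 5) (nat_lit 177) (nat_lit 5) (nat_lit 178) (nat_lit 5) (nat_lit 367)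 (nat_lit 346) (nat_lit 67)) (XT.nd (nat_lit 78) (nat_lit 532) (nat_lit 0) (XT.lf (nat_lit 0) (nat_lit 39365570523) (nat_lit 684) (nat_lit 22027719901) (nat_lit 76) (nat_lit 12245306873) (nat_lit 169) (nat_lit 5) (nat_lit 178) (nat_lit 5) (nat_lit 170) (nat_lit 5) (nat_lit 368) (nat_lit 346) (nat_lit 66)) (XT.lf (nat_lit 0) (nat_lit 14134143381) (nat_lit 532) (nat_lit 32429295191) (nat_lit 608) (nat_lit 28334073074) (nat_lit 162) (nat_lit 5) (nat_lit 169) (nat_lit 5) (nat_lit 170) (nat_lit 5) (nat_lit 369) (nat_lit 346) (nat_lit 65)))) (XT.nd (nat_lit 156) (nat_lit 532) (nat_lit 0) (XT.nd (nat_lit 78) (nat_lit 532) (nat_lit 0) (XT.lf (nat_lit 0) (nat_lit 51831921331) (nat_lit 532) (nat_lit 2367255761) (nat_lit 608) (nat_lit 21988358836) (nat_lit 162) (nat_lit 5) (nat_lit 169) (nat_lit 5) (nat_lit 170) (nat_lit 5) (nat_lit 370) (nat_lit 346) (nat_lit 64)) (XT.lf (nat_lit 0) (nat_lit 13125112484)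 (nat_lit 532) (nat_lit 49339442757) (nat_lit 608) (nat_lit 15039689197) (nat_lit 155) (nat_lit 5) (nat_lit 162) (nat_lit 5) (nat_lit 163) (nat_lit 5) (nat_lit 371) (nat_lit 346) (nat_lit 63))) (XT.nd (nat_lit 78) (nat_lit 532) (nat_lit 0) (XT.lf (nat_lit 0) (nat_lit 52205138782) (nat_lit 532) (nat_lit 19041430257) (nat_lit 608) (nat_lit 7605825439) (nat_lit 155) (nat_lit 5) (nat_lit 162) (nat_lit 5) (nat_lit 163) (nat_lit 5) (nat_lit 372) (nat_lit 346) (nat_lit 62)) (XT.lf (nat_lit 0) (nat_lit 287482587) (nat_lit 532) (nat_lit 67896808271) (nat_lit 76) (nat_lit 12049561180) (nat_lit 148) (nat_lit 5) (nat_lit 155) (nat_lit 5) (nat_lit 149) (nat_lit 5) (nat_lit 373) (nat_lit 346) (nat_lit 61)))))) (XT.nd (nat_lit 546) (nat_lit 0) (nat_lit 152) (XT.nd (nat_lit 234) (nat_lit 0) (nat_lit 76) (XT.nd (nat_lit 78) (nat_lit 0) (nat_lit 0) (XT.lf (nat_lit 0) (nat_lit 7636553270) (nat_lit 0) (nat_lit 7636553270)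 (nat_lit 1140) (nat_lit 11488788133) (nat_lit 195) (nat_lit 5) (nat_lit 195) (nat_lit 3) (nat_lit 210) (nat_lit 3) (nat_lit 347) (nat_lit 347) (nat_lit 86)) (XT.nd (nat_lit 78) (nat_lit 0) (nat_lit 0) (XT.lf (nat_lit 0) (nat_lit 31115780274) (nat_lit 1140) (nat_lit 14070516866) (nat_lit 1216) (nat_lit 9136982224) (nat_lit 195) (nat_lit 5) (nat_lit 210) (nat_lit 3) (nat_lit 211) (nat_lit 5) (nat_lit 348) (nat_lit 347) (nat_lit 85)) (XT.lf (nat_lit 76) (nat_lit 10895999452) (nat_lit 0) (nat_lit 21061546380) (nat_lit 1216) (nat_lit 23181555907) (nat_lit 196) (nat_lit 5) (nat_lit 195) (nat_lit 5) (nat_lit 211) (nat_lit 5) (nat_lit 349) (nat_lit 347) (nat_lit 84)))) (XT.nd (nat_lit 156) (nat_lit 0) (nat_lit 0) (XT.nd (nat_lit 78) (nat_lit 0) (nat_lit 0) (XT.lf (nat_lit 0) (nat_lit 33003635597) (nat_lit 1140) (nat_lit 19113483223) (nat_lit 1216) (nat_lit 3856908797) (nat_lit 196) (nat_lit 5) (nat_lit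 211) (nat_lit 5) (nat_lit 212) (nat_lit 5) (nat_lit 350) (nat_lit 347) (nat_lit 83)) (XT.lf (nat_lit 76) (nat_lit 6691604756) (nat_lit 0) (nat_lit 27661558601) (nat_lit 1216) (nat_lit 22472677198) (nat_lit 197) (nat_lit 5) (nat_lit 196) (nat_lit 5) (nat_lit 212) (nat_lit 5) (nat_lit 351) (nat_lit 347) (nat_lit 82))) (XT.nd (nat_lit 78) (nat_lit 0) (nat_lit 76) (XT.lf (nat_lit 76) (nat_lit 33662190814) (nat_lit 0) (nat_lit 2273214998) (nat_lit 1216) (nat_lit 21762036118) (nat_lit 197) (nat_lit 5) (nat_lit 196) (nat_lit 5) (nat_lit 212) (nat_lit 5) (nat_lit 352) (nat_lit 347) (nat_lit 81)) (XT.lf (nat_lit 76) (nat_lit 2668787220) (nat_lit 0) (nat_lit 35150746379) (nat_lit 1216) (nat_lit 20768026093) (nat_lit 198) (nat_lit 5) (nat_lit 197) (nat_lit 5) (nat_lit 213) (nat_lit 5) (nat_lit 353) (nat_lit 347) (nat_lit 80))))) (XT.nd (nat_lit 234) (nat_lit 0) (nat_lit 152) (XT.nd (nat_lit 78) (nat_lit 0)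 (nat_lit 76) (XT.lf (nat_lit 76) (nat_lit 30643220106) (nat_lit 0) (nat_lit 9381223722) (nat_lit 1216) (nat_lit 19472010262) (nat_lit 198) (nat_lit 5) (nat_lit 197) (nat_lit 5) (nat_lit 213) (nat_lit 5) (nat_lit 354) (nat_lit 347) (nat_lit 79)) (XT.nd (nat_lit 78) (nat_lit 0) (nat_lit 0) (XT.lf (nat_lit 0) (nat_lit 42459754313) (nat_lit 1140) (nat_lit 1141176810) (nat_lit 1216) (nat_lit 16826757447) (nat_lit 198) (nat_lit 5) (nat_lit 213) (nat_lit 5) (nat_lit 214) (nat_lit 5) (nat_lit 355) (nat_lit 347) (nat_lit 78)) (XT.lf (nat_lit 76) (nat_lit 27852391444) (nat_lit 0) (nat_lit 17475658276) (nat_lit 1216) (nat_lit 16048013408) (nat_lit 199) (nat_lit 5) (nat_lit 198) (nat_lit 5) (nat_lit 214) (nat_lit 5) (nat_lit 356) (nat_lit 347) (nat_lit 77)))) (XT.nd (nat_lit 156) (nat_lit 0) (nat_lit 76) (XT.nd (nat_lit 78) (nat_lit 0) (nat_lit 0) (XT.lf (nat_lit 0) (nat_lit 48384036817) (nat_lit 1140) (nat_lit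 4704663158) (nat_lit 1216) (nat_lit 9261140451) (nat_lit 199) (nat_lit 5) (nat_lit 214) (nat_lit 5) (nat_lit 215) (nat_lit 5) (nat_lit 357) (nat_lit 347) (nat_lit 76)) (XT.lf (nat_lit 76) (nat_lit 25299093656) (nat_lit 0) (nat_lit 26648171927) (nat_lit 1216) (nat_lit 11393099365) (nat_lit 200) (nat_lit 5) (nat_lit 199) (nat_lit 5) (nat_lit 215) (nat_lit 5) (nat_lit 358) (nat_lit 347) (nat_lit 75))) (XT.nd (nat_lit 78) (nat_lit 0) (nat_lit 0) (XT.lf (nat_lit 0) (nat_lit 55670359942) (nat_lit 1140) (nat_lit 8066364127) (nat_lit 1216) (nat_lit 622292817) (nat_lit 200) (nat_lit 5) (nat_lit 215) (nat_lit 5) (nat_lit 216) (nat_lit 5) (nat_lit 359) (nat_lit 347) (nat_lit 74)) (XT.lf (nat_lit 76) (nat_lit 22992131444) (nat_lit 0) (nat_lit 36997253605) (nat_lit 1216) (nat_lit 5404316919) (nat_lit 201) (nat_lit 5) (nat_lit 200) (nat_lit 5) (nat_lit 216) (nat_lit 5) (nat_lit 360) (nat_lit 347) (nat_lit 73))))))))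
noncomputable def xc253 : XT := (XT.nd (nat_lit 40872) (nat_lit 0) (nat_lit 532) (XT.nd (nat_lit 39780) (nat_lit 0) (nat_lit 2280) (XT.nd (nat_lit 546) (nat_lit 1672) (nat_lit 0) (XT.nd (nat_lit 234) (nat_lit 608) (nat_lit 0) (XT.nd (nat_lit 78) (nat_lit 1140) (nat_lit 0) (XT.lf (nat_lit 76) (nat_lit 55147264274) (nat_lit 0) (nat_lit 9371564829) (nat_lit 1216) (nat_lit 1938173754) (nat_lit 201) (nat_lit 5) (nat_lit 200) (nat_lit 5) (nat_lit 216) (nat_lit 5) (nat_lit 361) (nat_lit 347) (nat_lit 72)) (XT.nd (nat_lit 78) (nat_lit 0) (nat_lit 0) (XT.lf (nat_lit 0) (nat_lit 1988043839) (nat_lit 1216) (nat_lit 46620628438) (nat_lit 1292) (nat_lit 18931422473) (nat_lit 185) (nat_lit 5) (nat_lit 201) (nat_lit 5) (nat_lit 202) (nat_lit 5) (nat_lit 362) (nat_lit 347) (nat_lit 71)) (XT.lf (nat_lit 0) (nat_lit 6200636194) (nat_lit 1216) (nat_lit 14418459288) (nat_lit 1292) (nat_lit 48029782557) (nat_lit 185)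 (nat_lit 5) (nat_lit 201) (nat_lit 5) (nat_lit 202) (nat_lit 5) (nat_lit 363) (nat_lit 347) (nat_lit 70)))) (XT.nd (nat_lit 156) (nat_lit 684) (nat_lit 0) (XT.nd (nat_lit 78) (nat_lit 0) (nat_lit 0) (XT.lf (nat_lit 0) (nat_lit 10803600902) (nat_lit 1216) (nat_lit 50743716570) (nat_lit 76) (nat_lit 8235688138) (nat_lit 186) (nat_lit 5) (nat_lit 202) (nat_lit 5) (nat_lit 187) (nat_lit 5) (nat_lit 364) (nat_lit 347) (nat_lit 69)) (XT.lf (nat_lit 0) (nat_lit 15895292371) (nat_lit 1216) (nat_lit 17356528930) (nat_lit 76) (nat_lit 37688817180) (nat_lit 186) (nat_lit 5) (nat_lit 202) (nat_lit 5) (nat_lit 187) (nat_lit 5) (nat_lit 365) (nat_lit 347) (nat_lit 68))) (XT.nd (nat_lit 78) (nat_lit 0) (nat_lit 0) (XT.lf (nat_lit 0) (nat_lit 17370771789) (nat_lit 684) (nat_lit 3935405963) (nat_lit 760) (nat_lit 50821829876) (nat_lit 177) (nat_lit 5) (nat_lit 186) (nat_lit 5) (nat_lit 187) (nat_lit 5) (nat_lit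 366) (nat_lit 347) (nat_lit 67)) (XT.lf (nat_lit 0) (nat_lit 27308300319) (nat_lit 760) (nat_lit 20104704957) (nat_lit 76) (nat_lit 25925125825) (nat_lit 177) (nat_lit 5) (nat_lit 187) (nat_lit 5) (nat_lit 178) (nat_lit 5) (nat_lit 367) (nat_lit 347) (nat_lit 66))))) (XT.nd (nat_lit 234) (nat_lit 532) (nat_lit 0) (XT.nd (nat_lit 78) (nat_lit 532) (nat_lit 0) (XT.lf (nat_lit 0) (nat_lit 15857405397) (nat_lit 608) (nat_lit 17823968302) (nat_lit 684) (nat_lit 40897458518) (nat_lit 169) (nat_lit 5) (nat_lit 177) (nat_lit 5) (nat_lit 178) (nat_lit 5) (nat_lit 368) (nat_lit 347) (nat_lit 65)) (XT.nd (nat_lit 78) (nat_lit 532) (nat_lit 0) (XT.lf (nat_lit 0) (nat_lit 40571795676) (nat_lit 684) (nat_lit 22664272348) (nat_lit 76) (nat_lit 12610902187) (nat_lit 169) (nat_lit 5) (nat_lit 178) (nat_lit 5) (nat_lit 170) (nat_lit 5) (nat_lit 369) (nat_lit 347) (nat_lit 64)) (XT.lf (nat_lit 0) (nat_lit 14582208801)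 (nat_lit 532) (nat_lit 33402886392) (nat_lit 608) (nat_lit 29158572729) (nat_lit 162) (nat_lit 5) (nat_lit 169) (nat_lit 5) (nat_lit 170) (nat_lit 5) (nat_lit 370) (nat_lit 347) (nat_lit 63)))) (XT.nd (nat_lit 38844) (nat_lit 0) (nat_lit 3040) (XT.nd (nat_lit 78) (nat_lit 532) (nat_lit 0) (XT.lf (nat_lit 0) (nat_lit 53410219864) (nat_lit 532) (nat_lit 2438965031) (nat_lit 608) (nat_lit 22623230439) (nat_lit 162) (nat_lit 5) (nat_lit 169) (nat_lit 5) (nat_lit 170) (nat_lit 5) (nat_lit 371) (nat_lit 347) (nat_lit 62)) (XT.lf (nat_lit 0) (nat_lit 13542723854) (nat_lit 532) (nat_lit 50819323442) (nat_lit 608) (nat_lit 15466592864) (nat_lit 155) (nat_lit 5) (nat_lit 162) (nat_lit 5) (nat_lit 163) (nat_lit 5) (nat_lit 372) (nat_lit 347) (nat_lit 61))) (XT.nd (nat_lit 78) (nat_lit 0) (nat_lit 0) (XT.lf (nat_lit 0) (nat_lit 7876442980) (nat_lit 0) (nat_lit 7876442980) (nat_lit 1140) (nat_lit 11811192607)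 (nat_lit 195) (nat_lit 5) (nat_lit 195) (nat_lit 3) (nat_lit 210) (nat_lit 3) (nat_lit 348) (nat_lit 348) (nat_lit 84)) (XT.lf (nat_lit 0) (nat_lit 32090967224) (nat_lit 1140) (nat_lit 14470166726) (nat_lit 1216) (nat_lit 9390543148) (nat_lit 195) (nat_lit 5) (nat_lit 210) (nat_lit 3) (nat_lit 211) (nat_lit 5) (nat_lit 349) (nat_lit 348) (nat_lit 83)))))) (XT.nd (nat_lit 546) (nat_lit 760) (nat_lit 0) (XT.nd (nat_lit 234) (nat_lit 0) (nat_lit 76) (XT.nd (nat_lit 78) (nat_lit 0) (nat_lit 76) (XT.lf (nat_lit 76) (nat_lit 11245124830) (nat_lit 0) (nat_lit 21711859797) (nat_lit 1216) (nat_lit 23835020984) (nat_lit 196) (nat_lit 5) (nat_lit 195) (nat_lit 5) (nat_lit 211) (nat_lit 5) (nat_lit 350) (nat_lit 348) (nat_lit 82)) (XT.nd (nat_lit 78) (nat_lit 0) (nat_lit 0) (XT.lf (nat_lit 0) (nat_lit 34033098941) (nat_lit 1140) (nat_lit 19663885690) (nat_lit 1216) (nat_lit 3955036772) (nat_lit 196) (nat_lit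 5) (nat_lit 211) (nat_lit 5) (nat_lit 212) (nat_lit 5) (nat_lit 351) (nat_lit 348) (nat_lit 81)) (XT.lf (nat_lit 76) (nat_lit 6915129418) (nat_lit 0) (nat_lit 28507055816) (nat_lit 1216) (nat_lit 23107232666) (nat_lit 197) (nat_lit 5) (nat_lit 196) (nat_lit 5) (nat_lit 212) (nat_lit 5) (nat_lit 352) (nat_lit 348) (nat_lit 80)))) (XT.nd (nat_lit 156) (nat_lit 0) (nat_lit 76) (XT.nd (nat_lit 78) (nat_lit 0) (nat_lit 76) (XT.lf (nat_lit 76) (nat_lit 34694169663) (nat_lit 0) (nat_lit 2356606067) (nat_lit 1216) (nat_lit 22376426475) (nat_lit 197) (nat_lit 5) (nat_lit 196) (nat_lit 5) (nat_lit 212) (nat_lit 5) (nat_lit 353) (nat_lit 348) (nat_lit 79)) (XT.lf (nat_lit 76) (nat_lit 2772043375) (nat_lit 0) (nat_lit 36218378478) (nat_lit 1216) (nat_lit 21353633087) (nat_lit 198) (nat_lit 5) (nat_lit 197) (nat_lit 5) (nat_lit 213) (nat_lit 5) (nat_lit 354) (nat_lit 348) (nat_lit 78))) (XT.nd (nat_lit 78)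 (nat_lit 0) (nat_lit 76) (XT.lf (nat_lit 76) (nat_lit 31585033737) (nat_lit 0) (nat_lit 9675388306) (nat_lit 1216) (nat_lit 20019827085) (nat_lit 198) (nat_lit 5) (nat_lit 197) (nat_lit 5) (nat_lit 213) (nat_lit 5) (nat_lit 355) (nat_lit 348) (nat_lit 77)) (XT.lf (nat_lit 0) (nat_lit 43767646507) (nat_lit 1140) (nat_lit 1152365551) (nat_lit 1216) (nat_lit 17319444146) (nat_lit 198) (nat_lit 5) (nat_lit 213) (nat_lit 5) (nat_lit 214) (nat_lit 5) (nat_lit 356) (nat_lit 348) (nat_lit 76))))) (XT.nd (nat_lit 234) (nat_lit 988) (nat_lit 0) (XT.nd (nat_lit 78) (nat_lit 0) (nat_lit 76) (XT.lf (nat_lit 76) (nat_lit 28710783804) (nat_lit 0) (nat_lit 18010433146) (nat_lit 1216) (nat_lit 16495089428) (nat_lit 199) (nat_lit 5) (nat_lit 198) (nat_lit 5) (nat_lit 214) (nat_lit 5) (nat_lit 357) (nat_lit 348) (nat_lit 75)) (XT.nd (nat_lit 78) (nat_lit 0) (nat_lit 0) (XT.lf (nat_lit 0) (nat_lit 49867814967) (nat_lit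 1140) (nat_lit 4822540682) (nat_lit 1216) (nat_lit 9528974540) (nat_lit 199) (nat_lit 5) (nat_lit 214) (nat_lit 5) (nat_lit 215) (nat_lit 5) (nat_lit 358) (nat_lit 348) (nat_lit 74)) (XT.lf (nat_lit 76) (nat_lit 26081100774) (nat_lit 0) (nat_lit 27456121716) (nat_lit 1216) (nat_lit 11702370598) (nat_lit 200) (nat_lit 5) (nat_lit 199) (nat_lit 5) (nat_lit 215) (nat_lit 5) (nat_lit 359) (nat_lit 348) (nat_lit 73)))) (XT.nd (nat_lit 156) (nat_lit 1140) (nat_lit 0) (XT.nd (nat_lit 78) (nat_lit 0) (nat_lit 0) (XT.lf (nat_lit 0) (nat_lit 57371011700) (nat_lit 1140) (nat_lit 8284958092) (nat_lit 1216) (nat_lit 632865801) (nat_lit 200) (nat_lit 5) (nat_lit 215) (nat_lit 5) (nat_lit 216) (nat_lit 5) (nat_lit 360) (nat_lit 348) (nat_lit 72)) (XT.lf (nat_lit 76) (nat_lit 23705062964) (nat_lit 0) (nat_lit 38113877754) (nat_lit 1216) (nat_lit 5535641549) (nat_lit 201) (nat_lit 5) (nat_lit 200) (nat_lit 5) (nat_lit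 216) (nat_lit 5) (nat_lit 361) (nat_lit 348) (nat_lit 71))) (XT.nd (nat_lit 78) (nat_lit 1140) (nat_lit 0) (XT.lf (nat_lit 76) (nat_lit 56824174996) (nat_lit 0) (nat_lit 9659222978) (nat_lit 1216) (nat_lit 1966411319) (nat_lit 201) (nat_lit 5) (nat_lit 200) (nat_lit 5) (nat_lit 216) (nat_lit 5) (nat_lit 362) (nat_lit 348) (nat_lit 70)) (XT.lf (nat_lit 0) (nat_lit 2076319233) (nat_lit 1216) (nat_lit 47995416768) (nat_lit 1292) (nat_lit 19493670964) (nat_lit 185) (nat_lit 5) (nat_lit 201) (nat_lit 5) (nat_lit 202) (nat_lit 5) (nat_lit 363) (nat_lit 348) (nat_lit 69))))))) (XT.nd (nat_lit 39936) (nat_lit 0) (nat_lit 1140) (XT.nd (nat_lit 546) (nat_lit 532) (nat_lit 0) (XT.nd (nat_lit 234) (nat_lit 1216) (nat_lit 0) (XT.nd (nat_lit 78) (nat_lit 0) (nat_lit 76) (XT.lf (nat_lit 0) (nat_lit 6414455356) (nat_lit 1216) (nat_lit 14827876637) (nat_lit 1292) (nat_lit 49465147700) (nat_lit 185) (nat_lit 5)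 (nat_lit 201) (nat_lit 5) (nat_lit 202) (nat_lit 5) (nat_lit 364) (nat_lit 348) (nat_lit 68)) (XT.nd (nat_lit 78) (nat_lit 0) (nat_lit 0) (XT.lf (nat_lit 0) (nat_lit 11154878172) (nat_lit 1216) (nat_lit 52242231012) (nat_lit 76) (nat_lit 8478541727) (nat_lit 186) (nat_lit 5) (nat_lit 202) (nat_lit 5) (nat_lit 187) (nat_lit 5) (nat_lit 365) (nat_lit 348) (nat_lit 67)) (XT.lf (nat_lit 0) (nat_lit 16398529047) (nat_lit 1216) (nat_lit 17854120861) (nat_lit 76) (nat_lit 38815387466) (nat_lit 186) (nat_lit 5) (nat_lit 202) (nat_lit 5) (nat_lit 187) (nat_lit 5) (nat_lit 366) (nat_lit 348) (nat_lit 66)))) (XT.nd (nat_lit 156) (nat_lit 608) (nat_lit 0) (XT.nd (nat_lit 78) (nat_lit 0) (nat_lit 0) (XT.lf (nat_lit 0) (nat_lit 17914772371) (nat_lit 684) (nat_lit 4056420242) (nat_lit 760) (nat_lit 52319852276) (nat_lit 177) (nat_lit 5) (nat_lit 186) (nat_lit 5) (nat_lit 187) (nat_lit 5) (nat_lit 367) (nat_lit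 348) (nat_lit 65)) (XT.lf (nat_lit 0) (nat_lit 28152598990) (nat_lit 760) (nat_lit 20684827880) (nat_lit 76) (nat_lit 26700069411) (nat_lit 177) (nat_lit 5) (nat_lit 187) (nat_lit 5) (nat_lit 178) (nat_lit 5) (nat_lit 368) (nat_lit 348) (nat_lit 64))) (XT.nd (nat_lit 78) (nat_lit 0) (nat_lit 0) (XT.lf (nat_lit 0) (nat_lit 16355920116) (nat_lit 608) (nat_lit 18360433950) (nat_lit 684) (nat_lit 42099080474) (nat_lit 169) (nat_lit 5) (nat_lit 177) (nat_lit 5) (nat_lit 178) (nat_lit 5) (nat_lit 369) (nat_lit 348) (nat_lit 63)) (XT.lf (nat_lit 0) (nat_lit 41812757669) (nat_lit 684) (nat_lit 23321315091) (nat_lit 76) (nat_lit 12987566616) (nat_lit 169) (nat_lit 5) (nat_lit 178) (nat_lit 5) (nat_lit 170) (nat_lit 5) (nat_lit 370) (nat_lit 348) (nat_lit 62))))) (XT.nd (nat_lit 39078) (nat_lit 0) (nat_lit 2508) (XT.nd (nat_lit 38922) (nat_lit 0) (nat_lit 2508) (XT.lf (nat_lit 0) (nat_lit 15042336125) (nat_lit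 532) (nat_lit 34405644438) (nat_lit 608) (nat_lit 30009272471) (nat_lit 162) (nat_lit 5) (nat_lit 169) (nat_lit 5) (nat_lit 170) (nat_lit 5) (nat_lit 371) (nat_lit 348) (nat_lit 61)) (XT.nd (nat_lit 78) (nat_lit 0) (nat_lit 0) (XT.lf (nat_lit 0) (nat_lit 8122909813) (nat_lit 0) (nat_lit 8122909813) (nat_lit 1140) (nat_lit 12144546983) (nat_lit 195) (nat_lit 5) (nat_lit 195) (nat_lit 3) (nat_lit 210) (nat_lit 3) (nat_lit 349) (nat_lit 349) (nat_lit 82)) (XT.lf (nat_lit 0) (nat_lit 33093015255) (nat_lit 1140) (nat_lit 14883095702) (nat_lit 1216) (nat_lit 9652890470) (nat_lit 195) (nat_lit 5) (nat_lit 210) (nat_lit 3) (nat_lit 211) (nat_lit 5) (nat_lit 350) (nat_lit 349) (nat_lit 81)))) (XT.nd (nat_lit 156) (nat_lit 0) (nat_lit 76) (XT.nd (nat_lit 78) (nat_lit 0) (nat_lit 76) (XT.lf (nat_lit 76) (nat_lit 11603446993) (nat_lit 0) (nat_lit 22380622534) (nat_lit 1216) (nat_lit 24510499930) (nat_lit 196)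 (nat_lit 5) (nat_lit 195) (nat_lit 5) (nat_lit 211) (nat_lit 5) (nat_lit 351) (nat_lit 349) (nat_lit 80)) (XT.lf (nat_lit 0) (nat_lit 35091187089) (nat_lit 1140) (nat_lit 20232120643) (nat_lit 1216) (nat_lit 4057117709) (nat_lit 196) (nat_lit 5) (nat_lit 211) (nat_lit 5) (nat_lit 212) (nat_lit 5) (nat_lit 352) (nat_lit 349) (nat_lit 79))) (XT.nd (nat_lit 78) (nat_lit 0) (nat_lit 0) (XT.lf (nat_lit 76) (nat_lit 7144052354) (nat_lit 0) (nat_lit 29377019548) (nat_lit 1216) (nat_lit 23763099426) (nat_lit 197) (nat_lit 5) (nat_lit 196) (nat_lit 5) (nat_lit 212) (nat_lit 5) (nat_lit 353) (nat_lit 349) (nat_lit 78)) (XT.lf (nat_lit 76) (nat_lit 35755838495) (nat_lit 0) (nat_lit 2441626635) (nat_lit 1216) (nat_lit 23011456920) (nat_lit 197) (nat_lit 5) (nat_lit 196) (nat_lit 5) (nat_lit 212) (nat_lit 5) (nat_lit 354) (nat_lit 349) (nat_lit 77)))))) (XT.nd (nat_lit 546) (nat_lit 1520) (nat_lit 0) (XT.nd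 (nat_lit 234) (nat_lit 0) (nat_lit 76) (XT.nd (nat_lit 78) (nat_lit 0) (nat_lit 0) (XT.lf (nat_lit 76) (nat_lit 2877065868) (nat_lit 0) (nat_lit 37317286990) (nat_lit 1216) (nat_lit 21958957143) (nat_lit 198) (nat_lit 5) (nat_lit 197) (nat_lit 5) (nat_lit 213) (nat_lit 5) (nat_lit 355) (nat_lit 349) (nat_lit 76)) (XT.nd (nat_lit 78) (nat_lit 0) (nat_lit 76) (XT.lf (nat_lit 76) (nat_lit 32553809207) (nat_lit 0) (nat_lit 9977647195) (nat_lit 1216) (nat_lit 20586164678) (nat_lit 198) (nat_lit 5) (nat_lit 197) (nat_lit 5) (nat_lit 213) (nat_lit 5) (nat_lit 356) (nat_lit 349) (nat_lit 75)) (XT.lf (nat_lit 0) (nat_lit 45112818012) (nat_lit 1140) (nat_lit 1165212920) (nat_lit 1216) (nat_lit 17827606955) (nat_lit 198) (nat_lit 5) (nat_lit 213) (nat_lit 5) (nat_lit 214) (nat_lit 5) (nat_lit 357) (nat_lit 349) (nat_lit 74)))) (XT.nd (nat_lit 156) (nat_lit 0) (nat_lit 76) (XT.nd (nat_lit 78) (nat_lit 0) (nat_lit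 76) (XT.lf (nat_lit 76) (nat_lit 29593617939) (nat_lit 0) (nat_lit 18560648225) (nat_lit 1216) (nat_lit 16957550385) (nat_lit 199) (nat_lit 5) (nat_lit 198) (nat_lit 5) (nat_lit 214) (nat_lit 5) (nat_lit 358) (nat_lit 349) (nat_lit 73)) (XT.lf (nat_lit 0) (nat_lit 51394254775) (nat_lit 1140) (nat_lit 4945289887) (nat_lit 1216) (nat_lit 9805417699) (nat_lit 199) (nat_lit 5) (nat_lit 214) (nat_lit 5) (nat_lit 215) (nat_lit 5) (nat_lit 359) (nat_lit 349) (nat_lit 72))) (XT.nd (nat_lit 78) (nat_lit 0) (nat_lit 76) (XT.lf (nat_lit 76) (nat_lit 26885245842) (nat_lit 0) (nat_lit 28287821799) (nat_lit 1216) (nat_lit 12022786850) (nat_lit 200) (nat_lit 5) (nat_lit 199) (nat_lit 5) (nat_lit 215) (nat_lit 5) (nat_lit 360) (nat_lit 349) (nat_lit 71)) (XT.lf (nat_lit 0) (nat_lit 59120929834) (nat_lit 1140) (nat_lit 8511452957) (nat_lit 1216) (nat_lit 644220705) (nat_lit 200) (nat_lit 5) (nat_lit 215) (nat_lit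 5) (nat_lit 216) (nat_lit 5) (nat_lit 361) (nat_lit 349) (nat_lit 70))))) (XT.nd (nat_lit 234) (nat_lit 608) (nat_lit 0) (XT.nd (nat_lit 78) (nat_lit 1140) (nat_lit 0) (XT.lf (nat_lit 76) (nat_lit 24438052517) (nat_lit 0) (nat_lit 39263615644) (nat_lit 1216) (nat_lit 5672674244) (nat_lit 201) (nat_lit 5) (nat_lit 200) (nat_lit 5) (nat_lit 216) (nat_lit 5) (nat_lit 362) (nat_lit 349) (nat_lit 69)) (XT.nd (nat_lit 78) (nat_lit 1140) (nat_lit 0) (XT.lf (nat_lit 76) (nat_lit 58550101861) (nat_lit 0) (nat_lit 9955137102) (nat_lit 1216) (nat_lit 1997212831) (nat_lit 201) (nat_lit 5) (nat_lit 200) (nat_lit 5) (nat_lit 216) (nat_lit 5) (nat_lit 363) (nat_lit 349) (nat_lit 68)) (XT.lf (nat_lit 0) (nat_lit 2165599175) (nat_lit 1216) (nat_lit 49412816718) (nat_lit 1292) (nat_lit 20073113780) (nat_lit 185) (nat_lit 5) (nat_lit 201) (nat_lit 5) (nat_lit 202) (nat_lit 5) (nat_lit 364) (nat_lit 349) (nat_lit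 67)))) (XT.nd (nat_lit 156) (nat_lit 608) (nat_lit 0) (XT.nd (nat_lit 78) (nat_lit 0) (nat_lit 76) (XT.lf (nat_lit 0) (nat_lit 6633093254) (nat_lit 1216) (nat_lit 15250904631) (nat_lit 1292) (nat_lit 50943891147) (nat_lit 185) (nat_lit 5) (nat_lit 201) (nat_lit 5) (nat_lit 202) (nat_lit 5) (nat_lit 365) (nat_lit 349) (nat_lit 66)) (XT.lf (nat_lit 0) (nat_lit 11515134134) (nat_lit 1216) (nat_lit 53787066936) (nat_lit 76) (nat_lit 8728922999) (nat_lit 186) (nat_lit 5) (nat_lit 202) (nat_lit 5) (nat_lit 187) (nat_lit 5) (nat_lit 366) (nat_lit 349) (nat_lit 65))) (XT.nd (nat_lit 78) (nat_lit 684) (nat_lit 0) (XT.lf (nat_lit 0) (nat_lit 16915348624) (nat_lit 1216) (nat_lit 18367966810) (nat_lit 76) (nat_lit 39975989886) (nat_lit 186) (nat_lit 5) (nat_lit 202) (nat_lit 5) (nat_lit 187) (nat_lit 5) (nat_lit 367) (nat_lit 349) (nat_lit 64)) (XT.lf (nat_lit 0) (nat_lit 18473779712) (nat_lit 684) (nat_lit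 4180895488) (nat_lit 760) (nat_lit 53864344163) (nat_lit 177) (nat_lit 5) (nat_lit 186) (nat_lit 5) (nat_lit 187) (nat_lit 5) (nat_lit 368) (nat_lit 349) (nat_lit 63))))))))
noncomputable def xc254 : XT := (XT.nd (nat_lit 80340) (nat_lit 0) (nat_lit 1216) (XT.nd (nat_lit 40092) (nat_lit 0) (nat_lit 608) (XT.nd (nat_lit 39546) (nat_lit 0) (nat_lit 2052) (XT.nd (nat_lit 39234) (nat_lit 0) (nat_lit 1976) (XT.nd (nat_lit 78) (nat_lit 608) (nat_lit 0) (XT.lf (nat_lit 0) (nat_lit 29020788668) (nat_lit 760) (nat_lit 21283675831) (nat_lit 76) (nat_lit 27498422621) (nat_lit 177) (nat_lit 5) (nat_lit 187) (nat_lit 5) (nat_lit 178) (nat_lit 5) (nat_lit 369) (nat_lit 349) (nat_lit 62)) (XT.nd (nat_lit 39078) (nat_lit 0) (nat_lit 1976) (XT.lf (nat_lit 0) (nat_lit 16868081890) (nat_lit 608) (nat_lit 18912893305) (nat_lit 684) (nat_lit 43338203515) (nat_lit 169) (nat_lit 5) (nat_lit 177) (nat_lit 5) (nat_lit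 178) (nat_lit 5) (nat_lit 370) (nat_lit 349) (nat_lit 61)) (XT.lf (nat_lit 0) (nat_lit 8376186648) (nat_lit 0) (nat_lit 8376186648) (nat_lit 1140) (nat_lit 12489106409) (nat_lit 195) (nat_lit 5) (nat_lit 195) (nat_lit 3) (nat_lit 210) (nat_lit 3) (nat_lit 350) (nat_lit 350) (nat_lit 80)))) (XT.nd (nat_lit 156) (nat_lit 0) (nat_lit 76) (XT.nd (nat_lit 78) (nat_lit 0) (nat_lit 0) (XT.lf (nat_lit 0) (nat_lit 34122867654) (nat_lit 1140) (nat_lit 15309628137) (nat_lit 1216) (nat_lit 9924220070) (nat_lit 195) (nat_lit 5) (nat_lit 210) (nat_lit 3) (nat_lit 211) (nat_lit 5) (nat_lit 351) (nat_lit 350) (nat_lit 79)) (XT.lf (nat_lit 76) (nat_lit 11971315147) (nat_lit 0) (nat_lit 23068448924) (nat_lit 1216) (nat_lit 25208514820) (nat_lit 196) (nat_lit 5) (nat_lit 195) (nat_lit 5) (nat_lit 211) (nat_lit 5) (nat_lit 352) (nat_lit 350) (nat_lit 78))) (XT.nd (nat_lit 78) (nat_lit 0) (nat_lit 0) (XT.lf (nat_lit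 0) (nat_lit 36178888466) (nat_lit 1140) (nat_lit 20818647257) (nat_lit 1216) (nat_lit 4163212269) (nat_lit 196) (nat_lit 5) (nat_lit 211) (nat_lit 5) (nat_lit 212) (nat_lit 5) (nat_lit 353) (nat_lit 350) (nat_lit 77)) (XT.lf (nat_lit 76) (nat_lit 7378610567) (nat_lit 0) (nat_lit 30272235364) (nat_lit 1216) (nat_lit 24440786245) (nat_lit 197) (nat_lit 5) (nat_lit 196) (nat_lit 5) (nat_lit 212) (nat_lit 5) (nat_lit 354) (nat_lit 350) (nat_lit 76))))) (XT.nd (nat_lit 234) (nat_lit 0) (nat_lit 152) (XT.nd (nat_lit 78) (nat_lit 0) (nat_lit 76) (XT.lf (nat_lit 76) (nat_lit 36848160875) (nat_lit 0) (nat_lit 2528375656) (nat_lit 1216) (nat_lit 23667619885) (nat_lit 197) (nat_lit 5) (nat_lit 196) (nat_lit 5) (nat_lit 212) (nat_lit 5) (nat_lit 355) (nat_lit 350) (nat_lit 75)) (XT.nd (nat_lit 78) (nat_lit 0) (nat_lit 0) (XT.lf (nat_lit 76) (nat_lit 2983984114) (nat_lit 0) (nat_lit 38448453405) (nat_lit 1216)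 (nat_lit 22584466420) (nat_lit 198) (nat_lit 5) (nat_lit 197) (nat_lit 5) (nat_lit 213) (nat_lit 5) (nat_lit 356) (nat_lit 350) (nat_lit 74)) (XT.lf (nat_lit 76) (nat_lit 33550429571) (nat_lit 0) (nat_lit 10288285160) (nat_lit 1216) (nat_lit 21171458903) (nat_lit 198) (nat_lit 5) (nat_lit 197) (nat_lit 5) (nat_lit 213) (nat_lit 5) (nat_lit 357) (nat_lit 350) (nat_lit 73)))) (XT.nd (nat_lit 156) (nat_lit 0) (nat_lit 76) (XT.nd (nat_lit 78) (nat_lit 0) (nat_lit 0) (XT.lf (nat_lit 0) (nat_lit 46496499573) (nat_lit 1140) (nat_lit 1179692734) (nat_lit 1216) (nat_lit 18351670233) (nat_lit 198) (nat_lit 5) (nat_lit 213) (nat_lit 5) (nat_lit 214) (nat_lit 5) (nat_lit 358) (nat_lit 350) (nat_lit 72)) (XT.lf (nat_lit 76) (nat_lit 30501702300) (nat_lit 0) (nat_lit 19126801336) (nat_lit 1216) (nat_lit 17435744589) (nat_lit 199) (nat_lit 5) (nat_lit 198) (nat_lit 5) (nat_lit 214) (nat_lit 5) (nat_lit 359) (nat_lit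 350) (nat_lit 71))) (XT.nd (nat_lit 78) (nat_lit 0) (nat_lit 0) (XT.lf (nat_lit 0) (nat_lit 52964742386) (nat_lit 1140) (nat_lit 5072980268) (nat_lit 1216) (nat_lit 10090695249) (nat_lit 199) (nat_lit 5) (nat_lit 214) (nat_lit 5) (nat_lit 215) (nat_lit 5) (nat_lit 360) (nat_lit 350) (nat_lit 70)) (XT.lf (nat_lit 76) (nat_lit 27712268902) (nat_lit 0) (nat_lit 29144012708) (nat_lit 1216) (nat_lit 12354575303) (nat_lit 200) (nat_lit 5) (nat_lit 199) (nat_lit 5) (nat_lit 215) (nat_lit 5) (nat_lit 361) (nat_lit 350) (nat_lit 69)))))) (XT.nd (nat_lit 546) (nat_lit 608) (nat_lit 0) (XT.nd (nat_lit 234) (nat_lit 1140) (nat_lit 0) (XT.nd (nat_lit 78) (nat_lit 0) (nat_lit 0) (XT.lf (nat_lit 0) (nat_lit 60921692976) (nat_lit 1140) (nat_lit 8746008650) (nat_lit 1216) (nat_lit 656354312) (nat_lit 200) (nat_lit 5) (nat_lit 215) (nat_lit 5) (nat_lit 216) (nat_lit 5) (nat_lit 362) (nat_lit 350) (nat_lit 68)) (XT.nd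 (nat_lit 78) (nat_lit 0) (nat_lit 0) (XT.lf (nat_lit 76) (nat_lit 25191778185) (nat_lit 0) (nat_lit 40447482788) (nat_lit 1216) (nat_lit 5815484736) (nat_lit 201) (nat_lit 5) (nat_lit 200) (nat_lit 5) (nat_lit 216) (nat_lit 5) (nat_lit 363) (nat_lit 350) (nat_lit 67)) (XT.lf (nat_lit 76) (nat_lit 60326589473) (nat_lit 0) (nat_lit 10259576336) (nat_lit 1216) (nat_lit 2030556658) (nat_lit 201) (nat_lit 5) (nat_lit 200) (nat_lit 5) (nat_lit 216) (nat_lit 5) (nat_lit 364) (nat_lit 350) (nat_lit 66)))) (XT.nd (nat_lit 156) (nat_lit 0) (nat_lit 76) (XT.nd (nat_lit 78) (nat_lit 0) (nat_lit 0) (XT.lf (nat_lit 0) (nat_lit 2256008158) (nat_lit 1216) (nat_lit 50874028108) (nat_lit 1292) (nat_lit 20670247985) (nat_lit 185) (nat_lit 5) (nat_lit 201) (nat_lit 5) (nat_lit 202) (nat_lit 5) (nat_lit 365) (nat_lit 350) (nat_lit 65)) (XT.lf (nat_lit 0) (nat_lit 6856786060) (nat_lit 1216) (nat_lit 15687875352) (nat_lit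 1292) (nat_lit 52467296029) (nat_lit 185) (nat_lit 5) (nat_lit 201) (nat_lit 5) (nat_lit 202) (nat_lit 5) (nat_lit 366) (nat_lit 350) (nat_lit 64))) (XT.nd (nat_lit 78) (nat_lit 0) (nat_lit 0) (XT.lf (nat_lit 0) (nat_lit 11884727678) (nat_lit 1216) (nat_lit 55379535568) (nat_lit 76) (nat_lit 8987043889) (nat_lit 186) (nat_lit 5) (nat_lit 202) (nat_lit 5) (nat_lit 187) (nat_lit 5) (nat_lit 367) (nat_lit 350) (nat_lit 63)) (XT.lf (nat_lit 0) (nat_lit 17446245510) (nat_lit 1216) (nat_lit 18898478266) (nat_lit 76) (nat_lit 41171631913) (nat_lit 186) (nat_lit 5) (nat_lit 202) (nat_lit 5) (nat_lit 187) (nat_lit 5) (nat_lit 368) (nat_lit 350) (nat_lit 62))))) (XT.nd (nat_lit 39390) (nat_lit 0) (nat_lit 1368) (XT.nd (nat_lit 39234) (nat_lit 0) (nat_lit 1368) (XT.lf (nat_lit 0) (nat_lit 19048319402) (nat_lit 684) (nat_lit 4308945256) (nat_lit 760) (nat_lit 55456611860) (nat_lit 177) (nat_lit 5) (nat_lit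 186) (nat_lit 5) (nat_lit 187) (nat_lit 5) (nat_lit 369) (nat_lit 350) (nat_lit 61)) (XT.nd (nat_lit 78) (nat_lit 0) (nat_lit 0) (XT.lf (nat_lit 0) (nat_lit 8636511309) (nat_lit 0) (nat_lit 8636511309) (nat_lit 1140) (nat_lit 12845137897) (nat_lit 195) (nat_lit 5) (nat_lit 195) (nat_lit 3) (nat_lit 210) (nat_lit 3) (nat_lit 351) (nat_lit 351) (nat_lit 78)) (XT.lf (nat_lit 0) (nat_lit 35181488118) (nat_lit 1140) (nat_lit 15750102357) (nat_lit 1216) (nat_lit 10204737591) (nat_lit 195) (nat_lit 5) (nat_lit 210) (nat_lit 3) (nat_lit 211) (nat_lit 5) (nat_lit 352) (nat_lit 351) (nat_lit 77)))) (XT.nd (nat_lit 156) (nat_lit 0) (nat_lit 76) (XT.nd (nat_lit 78) (nat_lit 0) (nat_lit 76) (XT.lf (nat_lit 76) (nat_lit 12349084770) (nat_lit 0) (nat_lit 23775968235) (nat_lit 1216) (nat_lit 25929611336) (nat_lit 196) (nat_lit 5) (nat_lit 195) (nat_lit 5) (nat_lit 211) (nat_lit 5) (nat_lit 353) (nat_lit 351) (nat_lit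 76)) (XT.lf (nat_lit 0) (nat_lit 37297213707) (nat_lit 1140) (nat_lit 21423942837) (nat_lit 1216) (nat_lit 4273386260) (nat_lit 196) (nat_lit 5) (nat_lit 211) (nat_lit 5) (nat_lit 212) (nat_lit 5) (nat_lit 354) (nat_lit 351) (nat_lit 75))) (XT.nd (nat_lit 78) (nat_lit 0) (nat_lit 0) (XT.lf (nat_lit 76) (nat_lit 7619043860) (nat_lit 0) (nat_lit 31193509437) (nat_lit 1216) (nat_lit 25140824645) (nat_lit 197) (nat_lit 5) (nat_lit 196) (nat_lit 5) (nat_lit 212) (nat_lit 5) (nat_lit 355) (nat_lit 351) (nat_lit 74)) (XT.lf (nat_lit 76) (nat_lit 37972125096) (nat_lit 0) (nat_lit 2616952180) (nat_lit 1216) (nat_lit 24345429854) (nat_lit 197) (nat_lit 5) (nat_lit 196) (nat_lit 5) (nat_lit 212) (nat_lit 5) (nat_lit 356) (nat_lit 351) (nat_lit 73))))))) (XT.nd (nat_lit 40404) (nat_lit 0) (nat_lit 0) (XT.nd (nat_lit 546) (nat_lit 912) (nat_lit 0) (XT.nd (nat_lit 234) (nat_lit 0) (nat_lit 76) (XT.nd (nat_lit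 78) (nat_lit 0) (nat_lit 0) (XT.lf (nat_lit 76) (nat_lit 3092927023) (nat_lit 0) (nat_lit 39612886181) (nat_lit 1216) (nat_lit 23230650204) (nat_lit 198) (nat_lit 5) (nat_lit 197) (nat_lit 5) (nat_lit 213) (nat_lit 5) (nat_lit 357) (nat_lit 351) (nat_lit 72)) (XT.nd (nat_lit 78) (nat_lit 0) (nat_lit 76) (XT.lf (nat_lit 76) (nat_lit 34575800114) (nat_lit 0) (nat_lit 10607593107) (nat_lit 1216) (nat_lit 21776165574) (nat_lit 198) (nat_lit 5) (nat_lit 197) (nat_lit 5) (nat_lit 213) (nat_lit 5) (nat_lit 358) (nat_lit 351) (nat_lit 71)) (XT.lf (nat_lit 0) (nat_lit 47919952408) (nat_lit 1140) (nat_lit 1195782382) (nat_lit 1216) (nat_lit 18892073360) (nat_lit 198) (nat_lit 5) (nat_lit 213) (nat_lit 5) (nat_lit 214) (nat_lit 5) (nat_lit 359) (nat_lit 351) (nat_lit 70)))) (XT.nd (nat_lit 156) (nat_lit 0) (nat_lit 76) (XT.nd (nat_lit 78) (nat_lit 0) (nat_lit 76) (XT.lf (nat_lit 76) (nat_lit 31435865276)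 (nat_lit 0) (nat_lit 19709403250) (nat_lit 1216) (nat_lit 17930037297) (nat_lit 199) (nat_lit 5) (nat_lit 198) (nat_lit 5) (nat_lit 214) (nat_lit 5) (nat_lit 360) (nat_lit 351) (nat_lit 69)) (XT.lf (nat_lit 0) (nat_lit 54580699425) (nat_lit 1140) (nat_lit 5205687807) (nat_lit 1216) (nat_lit 10385041159) (nat_lit 199) (nat_lit 5) (nat_lit 214) (nat_lit 5) (nat_lit 215) (nat_lit 5) (nat_lit 361) (nat_lit 351) (nat_lit 68))) (XT.nd (nat_lit 78) (nat_lit 0) (nat_lit 76) (XT.lf (nat_lit 76) (nat_lit 28562927840) (nat_lit 0) (nat_lit 30025455584) (nat_lit 1216) (nat_lit 12697976111) (nat_lit 200) (nat_lit 5) (nat_lit 199) (nat_lit 5) (nat_lit 215) (nat_lit 5) (nat_lit 362) (nat_lit 351) (nat_lit 67)) (XT.lf (nat_lit 0) (nat_lit 62774921338) (nat_lit 1140) (nat_lit 8988794325) (nat_lit 1216) (nat_lit 669264835) (nat_lit 200) (nat_lit 5) (nat_lit 215) (nat_lit 5) (nat_lit 216) (nat_lit 5) (nat_lit 363)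 (nat_lit 351) (nat_lit 66))))) (XT.nd (nat_lit 234) (nat_lit 0) (nat_lit 0) (XT.nd (nat_lit 78) (nat_lit 1140) (nat_lit 0) (XT.lf (nat_lit 76) (nat_lit 25966934012) (nat_lit 0) (nat_lit 41666523894) (nat_lit 1216) (nat_lit 5964150678) (nat_lit 201) (nat_lit 5) (nat_lit 200) (nat_lit 5) (nat_lit 216) (nat_lit 5) (nat_lit 364) (nat_lit 351) (nat_lit 65)) (XT.nd (nat_lit 78) (nat_lit 1140) (nat_lit 0) (XT.lf (nat_lit 76) (nat_lit 62155224518) (nat_lit 0) (nat_lit 10572816657) (nat_lit 1216) (nat_lit 2066426173) (nat_lit 201) (nat_lit 5) (nat_lit 200) (nat_lit 5) (nat_lit 216) (nat_lit 5) (nat_lit 365) (nat_lit 351) (nat_lit 64)) (XT.lf (nat_lit 0) (nat_lit 2347668992) (nat_lit 1216) (nat_lit 52380291263) (nat_lit 1292) (nat_lit 21285586636) (nat_lit 185) (nat_lit 5) (nat_lit 201) (nat_lit 5) (nat_lit 202) (nat_lit 5) (nat_lit 366) (nat_lit 351) (nat_lit 63)))) (XT.nd (nat_lit 39468) (nat_lit 0) (nat_lit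 760) (XT.nd (nat_lit 78) (nat_lit 0) (nat_lit 76) (XT.lf (nat_lit 0) (nat_lit 7085771768) (nat_lit 1216) (nat_lit 16139135216) (nat_lit 1292) (nat_lit 54036685018) (nat_lit 185) (nat_lit 5) (nat_lit 201) (nat_lit 5) (nat_lit 202) (nat_lit 5) (nat_lit 367) (nat_lit 351) (nat_lit 62)) (XT.lf (nat_lit 0) (nat_lit 12264023322) (nat_lit 1216) (nat_lit 57020991976) (nat_lit 76) (nat_lit 9253123488) (nat_lit 186) (nat_lit 5) (nat_lit 202) (nat_lit 5) (nat_lit 187) (nat_lit 5) (nat_lit 368) (nat_lit 351) (nat_lit 61))) (XT.nd (nat_lit 78) (nat_lit 0) (nat_lit 0) (XT.lf (nat_lit 0) (nat_lit 8904126830) (nat_lit 0) (nat_lit 8904126830) (nat_lit 1140) (nat_lit 13212920440) (nat_lit 195) (nat_lit 5) (nat_lit 195) (nat_lit 3) (nat_lit 210) (nat_lit 3) (nat_lit 352) (nat_lit 352) (nat_lit 76)) (XT.lf (nat_lit 0) (nat_lit 36269861817) (nat_lit 1140) (nat_lit 16204870839) (nat_lit 1216) (nat_lit 10494658509) (nat_lit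 195) (nat_lit 5) (nat_lit 210) (nat_lit 3) (nat_lit 211) (nat_lit 5) (nat_lit 353) (nat_lit 352) (nat_lit 75)))))) (XT.nd (nat_lit 546) (nat_lit 760) (nat_lit 0) (XT.nd (nat_lit 234) (nat_lit 0) (nat_lit 76) (XT.nd (nat_lit 78) (nat_lit 0) (nat_lit 76) (XT.lf (nat_lit 76) (nat_lit 12737118032) (nat_lit 0) (nat_lit 24503825323) (nat_lit 1216) (nat_lit 26674359014) (nat_lit 196) (nat_lit 5) (nat_lit 195) (nat_lit 5) (nat_lit 211) (nat_lit 5) (nat_lit 354) (nat_lit 352) (nat_lit 74)) (XT.nd (nat_lit 78) (nat_lit 0) (nat_lit 0) (XT.lf (nat_lit 0) (nat_lit 38447196747) (nat_lit 1140) (nat_lit 22048503108) (nat_lit 1216) (nat_lit 4387710594) (nat_lit 196) (nat_lit 5) (nat_lit 211) (nat_lit 5) (nat_lit 212) (nat_lit 5) (nat_lit 355) (nat_lit 352) (nat_lit 73)) (XT.lf (nat_lit 76) (nat_lit 7865595170) (nat_lit 0) (nat_lit 32141669336) (nat_lit 1216) (nat_lit 25863769164) (nat_lit 197) (nat_lit 5) (nat_lit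 196) (nat_lit 5) (nat_lit 212) (nat_lit 5) (nat_lit 356) (nat_lit 352) (nat_lit 72)))) (XT.nd (nat_lit 156) (nat_lit 0) (nat_lit 76) (XT.nd (nat_lit 78) (nat_lit 0) (nat_lit 76) (XT.lf (nat_lit 76) (nat_lit 39128745154) (nat_lit 0) (nat_lit 2707455519) (nat_lit 1216) (nat_lit 25045423603) (nat_lit 197) (nat_lit 5) (nat_lit 196) (nat_lit 5) (nat_lit 212) (nat_lit 5) (nat_lit 357) (nat_lit 352) (nat_lit 71)) (XT.lf (nat_lit 76) (nat_lit 3204023238) (nat_lit 0) (nat_lit 40811621691) (nat_lit 1216) (nat_lit 23898019132) (nat_lit 198) (nat_lit 5) (nat_lit 197) (nat_lit 5) (nat_lit 213) (nat_lit 5) (nat_lit 358) (nat_lit 352) (nat_lit 70))) (XT.nd (nat_lit 78) (nat_lit 0) (nat_lit 76) (XT.lf (nat_lit 76) (nat_lit 35630849267) (nat_lit 0) (nat_lit 10935868400) (nat_lit 1216) (nat_lit 22400760659) (nat_lit 198) (nat_lit 5) (nat_lit 197) (nat_lit 5) (nat_lit 213) (nat_lit 5) (nat_lit 359) (nat_lit 352)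 (nat_lit 69)) (XT.lf (nat_lit 0) (nat_lit 49384469492) (nat_lit 1140) (nat_lit 1213462683) (nat_lit 1216) (nat_lit 19449271059) (nat_lit 198) (nat_lit 5) (nat_lit 213) (nat_lit 5) (nat_lit 214) (nat_lit 5) (nat_lit 360) (nat_lit 352) (nat_lit 68))))) (XT.nd (nat_lit 234) (nat_lit 988) (nat_lit 0) (XT.nd (nat_lit 78) (nat_lit 0) (nat_lit 76) (XT.lf (nat_lit 76) (nat_lit 32396956040) (nat_lit 0) (nat_lit 20308978188) (nat_lit 1216) (nat_lit 18440810856) (nat_lit 199) (nat_lit 5) (nat_lit 198) (nat_lit 5) (nat_lit 214) (nat_lit 5) (nat_lit 361) (nat_lit 352) (nat_lit 67)) (XT.nd (nat_lit 78) (nat_lit 0) (nat_lit 0) (XT.lf (nat_lit 0) (nat_lit 56243584418) (nat_lit 1140) (nat_lit 5343494910) (nat_lit 1216) (nat_lit 10688698203) (nat_lit 199) (nat_lit 5) (nat_lit 214) (nat_lit 5) (nat_lit 215) (nat_lit 5) (nat_lit 362) (nat_lit 352) (nat_lit 66)) (XT.lf (nat_lit 76) (nat_lit 29437999171) (nat_lit 0)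 (nat_lit 30932932886) (nat_lit 1216) (nat_lit 13053242426) (nat_lit 200) (nat_lit 5) (nat_lit 199) (nat_lit 5) (nat_lit 215) (nat_lit 5) (nat_lit 363) (nat_lit 352) (nat_lit 65)))) (XT.nd (nat_lit 156) (nat_lit 1140) (nat_lit 0) (XT.nd (nat_lit 78) (nat_lit 0) (nat_lit 0) (XT.lf (nat_lit 0) (nat_lit 64682278293) (nat_lit 1140) (nat_lit 9239988379) (nat_lit 1216) (nat_lit 682951879) (nat_lit 200) (nat_lit 5) (nat_lit 215) (nat_lit 5) (nat_lit 216) (nat_lit 5) (nat_lit 364) (nat_lit 352) (nat_lit 64)) (XT.lf (nat_lit 76) (nat_lit 26764230731) (nat_lit 0) (nat_lit 42921813816) (nat_lit 1216) (nat_lit 6118757543) (nat_lit 201) (nat_lit 5) (nat_lit 200) (nat_lit 5) (nat_lit 216) (nat_lit 5) (nat_lit 365) (nat_lit 352) (nat_lit 63))) (XT.nd (nat_lit 78) (nat_lit 1140) (nat_lit 0) (XT.lf (nat_lit 76) (nat_lit 64037637272) (nat_lit 0) (nat_lit 10895141161) (nat_lit 1216) (nat_lit 2104809585) (nat_lit 201)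 (nat_lit 5) (nat_lit 200) (nat_lit 5) (nat_lit 216) (nat_lit 5) (nat_lit 366) (nat_lit 352) (nat_lit 62)) (XT.lf (nat_lit 0) (nat_lit 2440703068) (nat_lit 1216) (nat_lit 53932887966) (nat_lit 1292) (nat_lit 21919659194) (nat_lit 185) (nat_lit 5) (nat_lit 201) (nat_lit 5) (nat_lit 202) (nat_lit 5) (nat_lit 367) (nat_lit 352) (nat_lit 61))))))))
noncomputable def xc255 : XT := (XT.nd (nat_lit 81588) (nat_lit 0) (nat_lit 0) (XT.nd (nat_lit 40716) (nat_lit 0) (nat_lit 0) (XT.nd (nat_lit 546) (nat_lit 0) (nat_lit 152) (XT.nd (nat_lit 234) (nat_lit 0) (nat_lit 76) (XT.nd (nat_lit 78) (nat_lit 0) (nat_lit 0) (XT.lf (nat_lit 0) (nat_lit 9179281724) (nat_lit 0) (nat_lit 9179281724) (nat_lit 1140) (nat_lit 13592745140) (nat_lit 195) (nat_lit 5) (nat_lit 195) (nat_lit 3) (nat_lit 210) (nat_lit 3) (nat_lit 353) (nat_lit 353) (nat_lit 74)) (XT.nd (nat_lit 78) (nat_lit 0) (nat_lit 0) (XT.lf (nat_lit 0) (nat_lit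 37388996464) (nat_lit 1140) (nat_lit 16674300414) (nat_lit 1216) (nat_lit 10794208219) (nat_lit 195) (nat_lit 5) (nat_lit 210) (nat_lit 3) (nat_lit 211) (nat_lit 5) (nat_lit 354) (nat_lit 353) (nat_lit 73)) (XT.lf (nat_lit 76) (nat_lit 13135784236) (nat_lit 0) (nat_lit 25252681284) (nat_lit 1216) (nat_lit 27443351531) (nat_lit 196) (nat_lit 5) (nat_lit 195) (nat_lit 5) (nat_lit 211) (nat_lit 5) (nat_lit 355) (nat_lit 353) (nat_lit 72)))) (XT.nd (nat_lit 156) (nat_lit 0) (nat_lit 0) (XT.nd (nat_lit 78) (nat_lit 0) (nat_lit 0) (XT.lf (nat_lit 0) (nat_lit 39629895926) (nat_lit 1140) (nat_lit 22692842532) (nat_lit 1216) (nat_lit 4506261270) (nat_lit 196) (nat_lit 5) (nat_lit 211) (nat_lit 5) (nat_lit 212) (nat_lit 5) (nat_lit 356) (nat_lit 353) (nat_lit 71)) (XT.lf (nat_lit 76) (nat_lit 8118510895) (nat_lit 0) (nat_lit 33117564826) (nat_lit 1216) (nat_lit 26610197630) (nat_lit 197) (nat_lit 5) (nat_lit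 196) (nat_lit 5) (nat_lit 212) (nat_lit 5) (nat_lit 357) (nat_lit 353) (nat_lit 70))) (XT.nd (nat_lit 78) (nat_lit 0) (nat_lit 76) (XT.lf (nat_lit 76) (nat_lit 40319061751) (nat_lit 0) (nat_lit 2799985408) (nat_lit 1216) (nat_lit 25768160478) (nat_lit 197) (nat_lit 5) (nat_lit 196) (nat_lit 5) (nat_lit 212) (nat_lit 5) (nat_lit 358) (nat_lit 353) (nat_lit 69)) (XT.lf (nat_lit 76) (nat_lit 3317401361) (nat_lit 0) (nat_lit 42045725196) (nat_lit 1216) (nat_lit 24587105451) (nat_lit 198) (nat_lit 5) (nat_lit 197) (nat_lit 5) (nat_lit 213) (nat_lit 5) (nat_lit 359) (nat_lit 353) (nat_lit 68))))) (XT.nd (nat_lit 234) (nat_lit 0) (nat_lit 152) (XT.nd (nat_lit 78) (nat_lit 0) (nat_lit 76) (XT.lf (nat_lit 76) (nat_lit 36716529528) (nat_lit 0) (nat_lit 11273415184) (nat_lit 1216) (nat_lit 23045740513) (nat_lit 198) (nat_lit 5) (nat_lit 197) (nat_lit 5) (nat_lit 213) (nat_lit 5) (nat_lit 360) (nat_lit 353)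 (nat_lit 67)) (XT.nd (nat_lit 78) (nat_lit 0) (nat_lit 0) (XT.lf (nat_lit 0) (nat_lit 50891376854) (nat_lit 1140) (nat_lit 1232717756) (nat_lit 1216) (nat_lit 20023733731) (nat_lit 198) (nat_lit 5) (nat_lit 213) (nat_lit 5) (nat_lit 214) (nat_lit 5) (nat_lit 361) (nat_lit 353) (nat_lit 66)) (XT.lf (nat_lit 76) (nat_lit 33385845404) (nat_lit 0) (nat_lit 20926064330) (nat_lit 1216) (nat_lit 18968464854) (nat_lit 199) (nat_lit 5) (nat_lit 198) (nat_lit 5) (nat_lit 214) (nat_lit 5) (nat_lit 362) (nat_lit 353) (nat_lit 65)))) (XT.nd (nat_lit 156) (nat_lit 0) (nat_lit 76) (XT.nd (nat_lit 78) (nat_lit 0) (nat_lit 0) (XT.lf (nat_lit 0) (nat_lit 57954894222) (nat_lit 1140) (nat_lit 5486490369) (nat_lit 1216) (nat_lit 11001918116) (nat_lit 199) (nat_lit 5) (nat_lit 214) (nat_lit 5) (nat_lit 215) (nat_lit 5) (nat_lit 363) (nat_lit 353) (nat_lit 64)) (XT.lf (nat_lit 76) (nat_lit 30338278835) (nat_lit 0) (nat_lit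 31867249117) (nat_lit 1216) (nat_lit 13420640464) (nat_lit 200) (nat_lit 5) (nat_lit 199) (nat_lit 5) (nat_lit 215) (nat_lit 5) (nat_lit 364) (nat_lit 353) (nat_lit 63))) (XT.nd (nat_lit 78) (nat_lit 0) (nat_lit 0) (XT.lf (nat_lit 0) (nat_lit 66645471984) (nat_lit 1140) (nat_lit 9499778495) (nat_lit 1216) (nat_lit 697416399) (nat_lit 200) (nat_lit 5) (nat_lit 215) (nat_lit 5) (nat_lit 216) (nat_lit 5) (nat_lit 365) (nat_lit 353) (nat_lit 62)) (XT.lf (nat_lit 76) (nat_lit 27584396507) (nat_lit 0) (nat_lit 44214458526) (nat_lit 1216) (nat_lit 6279398548) (nat_lit 201) (nat_lit 5) (nat_lit 200) (nat_lit 5) (nat_lit 216) (nat_lit 5) (nat_lit 366) (nat_lit 353) (nat_lit 61)))))) (XT.nd (nat_lit 546) (nat_lit 0) (nat_lit 0) (XT.nd (nat_lit 234) (nat_lit 0) (nat_lit 76) (XT.nd (nat_lit 78) (nat_lit 0) (nat_lit 0) (XT.lf (nat_lit 0) (nat_lit 9462230247) (nat_lit 0) (nat_lit 9462230247) (nat_lit 1140) (nat_lit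 13984915360) (nat_lit 195) (nat_lit 5) (nat_lit 195) (nat_lit 3) (nat_lit 210) (nat_lit 3) (nat_lit 354) (nat_lit 354) (nat_lit 72)) (XT.nd (nat_lit 78) (nat_lit 0) (nat_lit 0) (XT.lf (nat_lit 0) (nat_lit 38539923397) (nat_lit 1140) (nat_lit 17158772474) (nat_lit 1216) (nat_lit 11103622131) (nat_lit 195) (nat_lit 5) (nat_lit 210) (nat_lit 3) (nat_lit 211) (nat_lit 5) (nat_lit 355) (nat_lit 354) (nat_lit 71)) (XT.lf (nat_lit 76) (nat_lit 13545460235) (nat_lit 0) (nat_lit 26023214123) (nat_lit 1216) (nat_lit 28237207028) (nat_lit 196) (nat_lit 5) (nat_lit 195) (nat_lit 5) (nat_lit 211) (nat_lit 5) (nat_lit 356) (nat_lit 354) (nat_lit 70)))) (XT.nd (nat_lit 156) (nat_lit 0) (nat_lit 0) (XT.nd (nat_lit 78) (nat_lit 0) (nat_lit 0) (XT.lf (nat_lit 0) (nat_lit 40846395102) (nat_lit 1140) (nat_lit 23357494647) (nat_lit 1216) (nat_lit 4629119348) (nat_lit 196) (nat_lit 5) (nat_lit 211) (nat_lit 5) (nat_lit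 212) (nat_lit 5) (nat_lit 357) (nat_lit 354) (nat_lit 69)) (XT.lf (nat_lit 76) (nat_lit 8378041214) (nat_lit 0) (nat_lit 34122068687) (nat_lit 1216) (nat_lit 27380711488) (nat_lit 197) (nat_lit 5) (nat_lit 196) (nat_lit 5) (nat_lit 212) (nat_lit 5) (nat_lit 358) (nat_lit 354) (nat_lit 68))) (XT.nd (nat_lit 78) (nat_lit 0) (nat_lit 76) (XT.lf (nat_lit 76) (nat_lit 41544143304) (nat_lit 0) (nat_lit 2894642170) (nat_lit 1216) (nat_lit 26514222698) (nat_lit 197) (nat_lit 5) (nat_lit 196) (nat_lit 5) (nat_lit 212) (nat_lit 5) (nat_lit 359) (nat_lit 354) (nat_lit 67)) (XT.lf (nat_lit 76) (nat_lit 3433190182) (nat_lit 0) (nat_lit 43316291837) (nat_lit 1216) (nat_lit 25298463308) (nat_lit 198) (nat_lit 5) (nat_lit 197) (nat_lit 5) (nat_lit 213) (nat_lit 5) (nat_lit 360) (nat_lit 354) (nat_lit 66))))) (XT.nd (nat_lit 234) (nat_lit 152) (nat_lit 0) (XT.nd (nat_lit 78) (nat_lit 0) (nat_lit 76) (XT.lf (nat_lit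 76) (nat_lit 37833818403) (nat_lit 0) (nat_lit 11620544712) (nat_lit 1216) (nat_lit 23711622140) (nat_lit 198) (nat_lit 5) (nat_lit 197) (nat_lit 5) (nat_lit 213) (nat_lit 5) (nat_lit 361) (nat_lit 354) (nat_lit 65)) (XT.nd (nat_lit 78) (nat_lit 0) (nat_lit 0) (XT.lf (nat_lit 0) (nat_lit 52442034908) (nat_lit 1140) (nat_lit 1253534892) (nat_lit 1216) (nat_lit 20615947807) (nat_lit 198) (nat_lit 5) (nat_lit 213) (nat_lit 5) (nat_lit 214) (nat_lit 5) (nat_lit 362) (nat_lit 354) (nat_lit 64)) (XT.lf (nat_lit 76) (nat_lit 34403426688) (nat_lit 0) (nat_lit 21561214341) (nat_lit 1216) (nat_lit 19513416314) (nat_lit 199) (nat_lit 5) (nat_lit 198) (nat_lit 5) (nat_lit 214) (nat_lit 5) (nat_lit 363) (nat_lit 354) (nat_lit 63)))) (XT.nd (nat_lit 39936) (nat_lit 304) (nat_lit 0) (XT.nd (nat_lit 78) (nat_lit 0) (nat_lit 0) (XT.lf (nat_lit 0) (nat_lit 59716165491) (nat_lit 1140) (nat_lit 5634769321) (nat_lit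 1216) (nat_lit 11324961773) (nat_lit 199) (nat_lit 5) (nat_lit 214) (nat_lit 5) (nat_lit 215) (nat_lit 5) (nat_lit 364) (nat_lit 354) (nat_lit 62)) (XT.lf (nat_lit 76) (nat_lit 31264583000) (nat_lit 0) (nat_lit 32829231568) (nat_lit 1216) (nat_lit 13800449578) (nat_lit 200) (nat_lit 5) (nat_lit 199) (nat_lit 5) (nat_lit 215) (nat_lit 5) (nat_lit 365) (nat_lit 354) (nat_lit 61))) (XT.nd (nat_lit 78) (nat_lit 0) (nat_lit 0) (XT.lf (nat_lit 0) (nat_lit 9753232673) (nat_lit 0) (nat_lit 9753232673) (nat_lit 1140) (nat_lit 14389746888) (nat_lit 195) (nat_lit 5) (nat_lit 195) (nat_lit 3) (nat_lit 210) (nat_lit 3) (nat_lit 355) (nat_lit 355) (nat_lit 70)) (XT.lf (nat_lit 0) (nat_lit 39723698664) (nat_lit 1140) (nat_lit 17658683210) (nat_lit 1216) (nat_lit 11423145787) (nat_lit 195) (nat_lit 5) (nat_lit 210) (nat_lit 3) (nat_lit 211) (nat_lit 5) (nat_lit 356) (nat_lit 355) (nat_lit 69))))))) (XT.nd (nat_lit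 41028) (nat_lit 0) (nat_lit 0) (XT.nd (nat_lit 546) (nat_lit 0) (nat_lit 0) (XT.nd (nat_lit 234) (nat_lit 0) (nat_lit 76) (XT.nd (nat_lit 78) (nat_lit 0) (nat_lit 76) (XT.lf (nat_lit 76) (nat_lit 13966530869) (nat_lit 0) (nat_lit 26816119427) (nat_lit 1216) (nat_lit 29056568455) (nat_lit 196) (nat_lit 5) (nat_lit 195) (nat_lit 5) (nat_lit 211) (nat_lit 5) (nat_lit 357) (nat_lit 355) (nat_lit 68)) (XT.nd (nat_lit 78) (nat_lit 0) (nat_lit 0) (XT.lf (nat_lit 0) (nat_lit 42097804767) (nat_lit 1140) (nat_lit 24043012435) (nat_lit 1216) (nat_lit 4756370948) (nat_lit 196) (nat_lit 5) (nat_lit 211) (nat_lit 5) (nat_lit 212) (nat_lit 5) (nat_lit 358) (nat_lit 355) (nat_lit 67)) (XT.lf (nat_lit 76) (nat_lit 8644440412) (nat_lit 0) (nat_lit 35156077544) (nat_lit 1216) (nat_lit 28175936140) (nat_lit 197) (nat_lit 5) (nat_lit 196) (nat_lit 5) (nat_lit 212) (nat_lit 5) (nat_lit 359) (nat_lit 355) (nat_lit 66))))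 (XT.nd (nat_lit 156) (nat_lit 0) (nat_lit 76) (XT.nd (nat_lit 78) (nat_lit 0) (nat_lit 76) (XT.lf (nat_lit 76) (nat_lit 42805086984) (nat_lit 0) (nat_lit 2991526868) (nat_lit 1216) (nat_lit 27284215697) (nat_lit 197) (nat_lit 5) (nat_lit 196) (nat_lit 5) (nat_lit 212) (nat_lit 5) (nat_lit 360) (nat_lit 355) (nat_lit 65)) (XT.lf (nat_lit 76) (nat_lit 3551518887) (nat_lit 0) (nat_lit 44624447653) (nat_lit 1216) (nat_lit 26032669063) (nat_lit 198) (nat_lit 5) (nat_lit 197) (nat_lit 5) (nat_lit 213) (nat_lit 5) (nat_lit 361) (nat_lit 355) (nat_lit 64))) (XT.nd (nat_lit 78) (nat_lit 0) (nat_lit 76) (XT.lf (nat_lit 76) (nat_lit 38983719363) (nat_lit 0) (nat_lit 11977575676) (nat_lit 1216) (nat_lit 24398943479) (nat_lit 198) (nat_lit 5) (nat_lit 197) (nat_lit 5) (nat_lit 213) (nat_lit 5) (nat_lit 362) (nat_lit 355) (nat_lit 63)) (XT.lf (nat_lit 0) (nat_lit 54037839785) (nat_lit 1140) (nat_lit 1275904445)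 (nat_lit 1216) (nat_lit 21226416122) (nat_lit 198) (nat_lit 5) (nat_lit 213) (nat_lit 5) (nat_lit 214) (nat_lit 5) (nat_lit 363) (nat_lit 355) (nat_lit 62))))) (XT.nd (nat_lit 40170) (nat_lit 0) (nat_lit 0) (XT.nd (nat_lit 40014) (nat_lit 228) (nat_lit 0) (XT.lf (nat_lit 76) (nat_lit 35450616605) (nat_lit 0) (nat_lit 22214995894) (nat_lit 1216) (nat_lit 20076099898) (nat_lit 199) (nat_lit 5) (nat_lit 198) (nat_lit 5) (nat_lit 214) (nat_lit 5) (nat_lit 364) (nat_lit 355) (nat_lit 61)) (XT.nd (nat_lit 78) (nat_lit 0) (nat_lit 0) (XT.lf (nat_lit 0) (nat_lit 10052555564) (nat_lit 0) (nat_lit 10052555564) (nat_lit 1140) (nat_lit 14807568116) (nat_lit 195) (nat_lit 5) (nat_lit 195) (nat_lit 3) (nat_lit 210) (nat_lit 3) (nat_lit 356) (nat_lit 356) (nat_lit 68)) (XT.lf (nat_lit 0) (nat_lit 40941404124) (nat_lit 1140) (nat_lit 18174443858) (nat_lit 1216) (nat_lit 11753034989) (nat_lit 195) (nat_lit 5) (nat_lit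 210) (nat_lit 3) (nat_lit 211) (nat_lit 5) (nat_lit 357) (nat_lit 356) (nat_lit 67)))) (XT.nd (nat_lit 156) (nat_lit 0) (nat_lit 76) (XT.nd (nat_lit 78) (nat_lit 0) (nat_lit 76) (XT.lf (nat_lit 76) (nat_lit 14399389389) (nat_lit 0) (nat_lit 27632111050) (nat_lit 1216) (nat_lit 29902103964) (nat_lit 196) (nat_lit 5) (nat_lit 195) (nat_lit 5) (nat_lit 211) (nat_lit 5) (nat_lit 358) (nat_lit 356) (nat_lit 66)) (XT.lf (nat_lit 0) (nat_lit 43385263194) (nat_lit 1140) (nat_lit 24749968704) (nat_lit 1216) (nat_lit 4888107244) (nat_lit 196) (nat_lit 5) (nat_lit 211) (nat_lit 5) (nat_lit 212) (nat_lit 5) (nat_lit 359) (nat_lit 356) (nat_lit 65))) (XT.nd (nat_lit 78) (nat_lit 0) (nat_lit 0) (XT.lf (nat_lit 76) (nat_lit 8917967198) (nat_lit 0) (nat_lit 36220512718) (nat_lit 1216) (nat_lit 28996521328) (nat_lit 197) (nat_lit 5) (nat_lit 196) (nat_lit 5) (nat_lit 212) (nat_lit 5) (nat_lit 360) (nat_lit 356)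 (nat_lit 64)) (XT.lf (nat_lit 76) (nat_lit 44103019762) (nat_lit 0) (nat_lit 3090741459) (nat_lit 1216) (nat_lit 28078768483) (nat_lit 197) (nat_lit 5) (nat_lit 196) (nat_lit 5) (nat_lit 212) (nat_lit 5) (nat_lit 361) (nat_lit 356) (nat_lit 63)))))) (XT.nd (nat_lit 40638) (nat_lit 0) (nat_lit 0) (XT.nd (nat_lit 40326) (nat_lit 0) (nat_lit 0) (XT.nd (nat_lit 78) (nat_lit 152) (nat_lit 0) (XT.lf (nat_lit 76) (nat_lit 3672517277) (nat_lit 0) (nat_lit 45971350620) (nat_lit 1216) (nat_lit 26790321635) (nat_lit 198) (nat_lit 5) (nat_lit 197) (nat_lit 5) (nat_lit 213) (nat_lit 5) (nat_lit 362) (nat_lit 356) (nat_lit 62)) (XT.nd (nat_lit 40170) (nat_lit 152) (nat_lit 0) (XT.lf (nat_lit 76) (nat_lit 40167262811) (nat_lit 0) (nat_lit 12344834536) (nat_lit 1216) (nat_lit 25108263726) (nat_lit 198) (nat_lit 5) (nat_lit 197) (nat_lit 5) (nat_lit 213) (nat_lit 5) (nat_lit 363) (nat_lit 356) (nat_lit 61)) (XT.lf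 (nat_lit 0) (nat_lit 10360472047) (nat_lit 0) (nat_lit 10360472047) (nat_lit 1140) (nat_lit 15238720243) (nat_lit 195) (nat_lit 5) (nat_lit 195) (nat_lit 3) (nat_lit 210) (nat_lit 3) (nat_lit 357) (nat_lit 357) (nat_lit 66)))) (XT.nd (nat_lit 156) (nat_lit 0) (nat_lit 76) (XT.nd (nat_lit 78) (nat_lit 0) (nat_lit 0) (XT.lf (nat_lit 0) (nat_lit 42194148557) (nat_lit 1140) (nat_lit 18706480975) (nat_lit 1216) (nat_lit 12093555935) (nat_lit 195) (nat_lit 5) (nat_lit 210) (nat_lit 3) (nat_lit 211) (nat_lit 5) (nat_lit 358) (nat_lit 357) (nat_lit 65)) (XT.lf (nat_lit 76) (nat_lit 14844437896) (nat_lit 0) (nat_lit 28471921813) (nat_lit 1216) (nat_lit 30774507318) (nat_lit 196) (nat_lit 5) (nat_lit 195) (nat_lit 5) (nat_lit 211) (nat_lit 5) (nat_lit 359) (nat_lit 357) (nat_lit 64))) (XT.nd (nat_lit 78) (nat_lit 0) (nat_lit 0) (XT.lf (nat_lit 0) (nat_lit 44709937579) (nat_lit 1140) (nat_lit 25478956498)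 (nat_lit 1216) (nat_lit 5024424482) (nat_lit 196) (nat_lit 5) (nat_lit 211) (nat_lit 5) (nat_lit 212) (nat_lit 5) (nat_lit 360) (nat_lit 357) (nat_lit 63)) (XT.lf (nat_lit 76) (nat_lit 9198885019) (nat_lit 0) (nat_lit 37316321094) (nat_lit 1216) (nat_lit 29843141546) (nat_lit 197) (nat_lit 5) (nat_lit 196) (nat_lit 5) (nat_lit 212) (nat_lit 5) (nat_lit 361) (nat_lit 357) (nat_lit 62))))) (XT.nd (nat_lit 40482) (nat_lit 0) (nat_lit 0) (XT.nd (nat_lit 40326) (nat_lit 76) (nat_lit 0) (XT.lf (nat_lit 76) (nat_lit 45439099486) (nat_lit 0) (nat_lit 3192388940) (nat_lit 1216) (nat_lit 28898534040) (nat_lit 197) (nat_lit 5) (nat_lit 196) (nat_lit 5) (nat_lit 212) (nat_lit 5) (nat_lit 362) (nat_lit 357) (nat_lit 61)) (XT.nd (nat_lit 78) (nat_lit 0) (nat_lit 0) (XT.lf (nat_lit 0) (nat_lit 10677262093) (nat_lit 0) (nat_lit 10677262093) (nat_lit 1140) (nat_lit 15683557488) (nat_lit 195) (nat_lit 5) (nat_lit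 195) (nat_lit 3) (nat_lit 210) (nat_lit 3) (nat_lit 358) (nat_lit 358) (nat_lit 64)) (XT.lf (nat_lit 0) (nat_lit 43483068791) (nat_lit 1140) (nat_lit 19255236720) (nat_lit 1216) (nat_lit 12444985383) (nat_lit 195) (nat_lit 5) (nat_lit 210) (nat_lit 3) (nat_lit 211) (nat_lit 5) (nat_lit 359) (nat_lit 358) (nat_lit 63)))) (XT.nd (nat_lit 40560) (nat_lit 0) (nat_lit 0) (XT.nd (nat_lit 78) (nat_lit 0) (nat_lit 76) (XT.lf (nat_lit 76) (nat_lit 15302087769) (nat_lit 0) (nat_lit 29336304212) (nat_lit 1216) (nat_lit 31674498343) (nat_lit 196) (nat_lit 5) (nat_lit 195) (nat_lit 5) (nat_lit 211) (nat_lit 5) (nat_lit 360) (nat_lit 358) (nat_lit 62)) (XT.lf (nat_lit 0) (nat_lit 46073025215) (nat_lit 1140) (nat_lit 26230589527) (nat_lit 1216) (nat_lit 5165423990) (nat_lit 196) (nat_lit 5) (nat_lit 211) (nat_lit 5) (nat_lit 212) (nat_lit 5) (nat_lit 361) (nat_lit 358) (nat_lit 61))) (XT.nd (nat_lit 78) (nat_lit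 0) (nat_lit 0) (XT.lf (nat_lit 0) (nat_lit 11003212800) (nat_lit 0) (nat_lit 11003212800) (nat_lit 1140) (nat_lit 16142447319) (nat_lit 195) (nat_lit 5) (nat_lit 195) (nat_lit 3) (nat_lit 210) (nat_lit 3) (nat_lit 359) (nat_lit 359) (nat_lit 62)) (XT.lf (nat_lit 0) (nat_lit 44809330839) (nat_lit 1140) (nat_lit 19821169170) (nat_lit 1216) (nat_lit 12807610814) (nat_lit 195) (nat_lit 5) (nat_lit 210) (nat_lit 3) (nat_lit 211) (nat_lit 5) (nat_lit 360) (nat_lit 359) (nat_lit 61))))))))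

set_option maxRecDepth 10000000 in
noncomputable def Tp : PT := (PT.nd (nat_lit 5495880) (PT.nd (nat_lit 4886310) (PT.nd (nat_lit 4277910) (PT.nd (nat_lit 3709914) (PT.nd (nat_lit 3263130) pc0 pc1) (PT.nd (nat_lit 324558) pc2 pc3)) (PT.nd (nat_lit 325338) (PT.nd (nat_lit 162942) pc4 pc5) (PT.nd (nat_lit 161382) pc6 pc7))) (PT.nd (nat_lit 364962) (PT.nd (nat_lit 163956) (PT.nd (nat_lit 82134) pc8 pc9) (PT.nd (nat_lit 119964) pc10 pc11)) (PT.nd (nat_lit 122772) (PT.nd (nat_lit 42432) pc12 pc13) (PT.nd (nat_lit 42198) pc14 pc15)))) (PT.nd (nat_lit 366990) (PT.nd (nat_lit 203346) (PT.nd (nat_lit 120588) (PT.nd (nat_lit 41808) pc16 pc17) (PT.nd (nat_lit 41418) pc18 pc19)) (PT.nd (nat_lit 82134) (PT.nd (nat_lit 41106) pc20 pc21) (PT.nd (nat_lit 40794) pc22 pc23))) (PT.nd (nat_lit 240006) (PT.nd (nat_lit 81822) (PT.nd (nat_lit 40482) pc24 pc25) (PT.nd (nat_lit 77688) pc26 pc27)) (PT.nd (nat_lit 208026)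 (PT.nd (nat_lit 85566) pc28 pc29) (PT.nd (nat_lit 162942) pc30 pc31)))))

set_option maxRecDepth 10000000 in
noncomputable def Tx : XT := (XT.nd (nat_lit 7509606) (nat_lit 0) (nat_lit 228) XT.nil (XT.nd (nat_lit 7107594) (nat_lit 0) (nat_lit 0) (XT.nd (nat_lit 3447990) (nat_lit 0) (nat_lit 532) (XT.nd (nat_lit 2396394) (nat_lit 0) (nat_lit 228) (XT.nd (nat_lit 1702194) (nat_lit 0) (nat_lit 76) (XT.nd (nat_lit 1177566) (nat_lit 0) (nat_lit 0) (XT.nd (nat_lit 850122) (nat_lit 0) (nat_lit 0) (XT.nd (nat_lit 568542) (nat_lit 0) (nat_lit 0) (XT.nd (nat_lit 405444) (nat_lit 0) (nat_lit 0) (XT.nd (nat_lit 283608) (nat_lit 0) (nat_lit 0) xc0 xc1) (XT.nd (nat_lit 81822) (nat_lit 0) (nat_lit 0) xc2 xc3)) (XT.nd (nat_lit 160602) (nat_lit 0) (nat_lit 0) (XT.nd (nat_lit 80574) (nat_lit 0) (nat_lit 0) xc4 xc5) (XT.nd (nat_lit 41886) (nat_lit 0) (nat_lit 0) xc6 xc7))) (XT.nd (nat_lit 164892) (nat_lit 0) (nat_lit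 0) (XT.nd (nat_lit 82758) (nat_lit 0) (nat_lit 0) (XT.nd (nat_lit 41418) (nat_lit 0) (nat_lit 0) xc8 xc9) (XT.nd (nat_lit 41106) (nat_lit 0) (nat_lit 0) xc10 xc11)) (XT.nd (nat_lit 81510) (nat_lit 0) (nat_lit 0) (XT.nd (nat_lit 40794) (nat_lit 0) (nat_lit 0) xc12 xc13) (XT.nd (nat_lit 40560) (nat_lit 0) (nat_lit 0) xc14 xc15)))) (XT.nd (nat_lit 283062) (nat_lit 0) (nat_lit 76) (XT.nd (nat_lit 160212) (nat_lit 0) (nat_lit 76) (XT.nd (nat_lit 80418) (nat_lit 0) (nat_lit 0) (XT.nd (nat_lit 40248) (nat_lit 0) (nat_lit 0) xc16 xc17) (XT.nd (nat_lit 39936) (nat_lit 0) (nat_lit 76) xc18 xc19)) (XT.nd (nat_lit 79170) (nat_lit 0) (nat_lit 0) (XT.nd (nat_lit 39624) (nat_lit 0) (nat_lit 0) xc20 xc21) (XT.nd (nat_lit 4290) (nat_lit 76) (nat_lit 0) xc22 xc23))) (XT.nd (nat_lit 121446) (nat_lit 0) (nat_lit 0) (XT.nd (nat_lit 78234) (nat_lit 0) (nat_lit 0) (XT.nd (nat_lit 39156) (nat_lit 0) (nat_lit 0) xc24 xc25)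 (XT.nd (nat_lit 4290) (nat_lit 152) (nat_lit 0) xc26 xc27)) (XT.nd (nat_lit 43056) (nat_lit 0) (nat_lit 0) (XT.nd (nat_lit 38688) (nat_lit 0) (nat_lit 0) xc28 xc29) (XT.nd (nat_lit 38610) (nat_lit 0) (nat_lit 0) xc30 xc31))))) (XT.nd (nat_lit 369018) (nat_lit 0) (nat_lit 0) (XT.nd (nat_lit 202722) (nat_lit 0) (nat_lit 0) (XT.nd (nat_lit 85020) (nat_lit 0) (nat_lit 0) (XT.nd (nat_lit 42588) (nat_lit 0) (nat_lit 0) (XT.nd (nat_lit 4290) (nat_lit 0) (nat_lit 0) xc32 xc33) (XT.nd (nat_lit 38064) (nat_lit 0) (nat_lit 152) xc34 xc35)) (XT.nd (nat_lit 75738) (nat_lit 0) (nat_lit 0) (XT.nd (nat_lit 37908) (nat_lit 0) (nat_lit 0) xc36 xc37) (XT.nd (nat_lit 4290) (nat_lit 304) (nat_lit 0) xc38 xc39))) (XT.nd (nat_lit 83460) (nat_lit 0) (nat_lit 0) (XT.nd (nat_lit 41808) (nat_lit 0) (nat_lit 0) (XT.nd (nat_lit 4290) (nat_lit 152) (nat_lit 0) xc40 xc41) (XT.nd (nat_lit 37284) (nat_lit 0) (nat_lit 532) xc42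 xc43)) (XT.nd (nat_lit 41496) (nat_lit 0) (nat_lit 0) (XT.nd (nat_lit 37128) (nat_lit 0) (nat_lit 380) xc44 xc45) (XT.nd (nat_lit 36972) (nat_lit 0) (nat_lit 228) xc46 xc47)))) (XT.nd (nat_lit 195702) (nat_lit 0) (nat_lit 152) (XT.nd (nat_lit 82212) (nat_lit 0) (nat_lit 76) (XT.nd (nat_lit 41184) (nat_lit 0) (nat_lit 0) (XT.nd (nat_lit 36816) (nat_lit 0) (nat_lit 152) xc48 xc49) (XT.nd (nat_lit 36660) (nat_lit 0) (nat_lit 152) xc50 xc51)) (XT.nd (nat_lit 40872) (nat_lit 0) (nat_lit 0) (XT.nd (nat_lit 36504) (nat_lit 0) (nat_lit 76) xc52 xc53) (XT.nd (nat_lit 36348) (nat_lit 0) (nat_lit 0) xc54 xc55))) (XT.nd (nat_lit 49062) (nat_lit 0) (nat_lit 0) (XT.nd (nat_lit 8658) (nat_lit 0) (nat_lit 0) (XT.nd (nat_lit 4290) (nat_lit 1216) (nat_lit 0) xc56 xc57) (XT.nd (nat_lit 36036) (nat_lit 0) (nat_lit 0) xc58 xc59)) (XT.nd (nat_lit 40248) (nat_lit 0) (nat_lit 0) (XT.nd (nat_lit 35880) (nat_lit 0) (nat_lit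 76) xc60 xc61) (XT.nd (nat_lit 35802) (nat_lit 0) (nat_lit 152) xc62 xc63)))))) (XT.nd (nat_lit 562692) (nat_lit 0) (nat_lit 76) (XT.nd (nat_lit 284934) (nat_lit 0) (nat_lit 76) (XT.nd (nat_lit 158808) (nat_lit 0) (nat_lit 0) (XT.nd (nat_lit 79716) (nat_lit 0) (nat_lit 0) (XT.nd (nat_lit 39936) (nat_lit 0) (nat_lit 0) (XT.nd (nat_lit 35568) (nat_lit 0) (nat_lit 304) xc64 xc65) (XT.nd (nat_lit 35412) (nat_lit 0) (nat_lit 532) xc66 xc67)) (XT.nd (nat_lit 39624) (nat_lit 0) (nat_lit 0) (XT.nd (nat_lit 35256) (nat_lit 0) (nat_lit 1064) xc68 xc69) (XT.nd (nat_lit 35100) (nat_lit 0) (nat_lit 1748) xc70 xc71))) (XT.nd (nat_lit 78468) (nat_lit 0) (nat_lit 76) (XT.nd (nat_lit 39312) (nat_lit 0) (nat_lit 0) (XT.nd (nat_lit 4290) (nat_lit 76) (nat_lit 0) xc72 xc73) (XT.nd (nat_lit 4290) (nat_lit 380) (nat_lit 0) xc74 xc75)) (XT.nd (nat_lit 39000) (nat_lit 0) (nat_lit 76) (XT.nd (nat_lit 4290) (nat_lit 760)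 (nat_lit 0) xc76 xc77) (XT.nd (nat_lit 4290) (nat_lit 1900) (nat_lit 0) xc78 xc79)))) (XT.nd (nat_lit 154596) (nat_lit 0) (nat_lit 0) (XT.nd (nat_lit 77532) (nat_lit 0) (nat_lit 0) (XT.nd (nat_lit 38844) (nat_lit 0) (nat_lit 0) (XT.nd (nat_lit 34476) (nat_lit 0) (nat_lit 532) xc80 xc81) (XT.nd (nat_lit 34320) (nat_lit 0) (nat_lit 1596) xc82 xc83)) (XT.nd (nat_lit 38610) (nat_lit 0) (nat_lit 0) (XT.nd (nat_lit 4290) (nat_lit 0) (nat_lit 0) xc84 xc85) (XT.nd (nat_lit 4290) (nat_lit 456) (nat_lit 0) xc86 xc87))) (XT.nd (nat_lit 46956) (nat_lit 0) (nat_lit 0) (XT.nd (nat_lit 38298) (nat_lit 0) (nat_lit 532) (XT.nd (nat_lit 4290) (nat_lit 1672) (nat_lit 0) xc88 xc89) (XT.nd (nat_lit 4290) (nat_lit 3724) (nat_lit 0) xc90 xc91)) (XT.nd (nat_lit 38142) (nat_lit 0) (nat_lit 0) (XT.nd (nat_lit 33774) (nat_lit 0) (nat_lit 1976) xc92 xc93) (XT.nd (nat_lit 4368) (nat_lit 152) (nat_lit 0) xc94 xc95))))) (XT.nd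 (nat_lit 243360) (nat_lit 0) (nat_lit 152) (XT.nd (nat_lit 121680) (nat_lit 0) (nat_lit 76) (XT.nd (nat_lit 46488) (nat_lit 0) (nat_lit 76) (XT.nd (nat_lit 37830) (nat_lit 0) (nat_lit 456) (XT.nd (nat_lit 4290) (nat_lit 988) (nat_lit 0) xc96 xc97) (XT.nd (nat_lit 4290) (nat_lit 2888) (nat_lit 0) xc98 xc99)) (XT.nd (nat_lit 37674) (nat_lit 0) (nat_lit 0) (XT.nd (nat_lit 33306) (nat_lit 0) (nat_lit 1900) xc100 xc101) (XT.nd (nat_lit 4290) (nat_lit 76) (nat_lit 0) xc102 xc103))) (XT.nd (nat_lit 46254) (nat_lit 0) (nat_lit 76) (XT.nd (nat_lit 37596) (nat_lit 0) (nat_lit 532) (XT.nd (nat_lit 4290) (nat_lit 1216) (nat_lit 0) xc104 xc105) (XT.nd (nat_lit 4290) (nat_lit 3648) (nat_lit 0) xc106 xc107)) (XT.nd (nat_lit 37674) (nat_lit 0) (nat_lit 0) (XT.nd (nat_lit 33306) (nat_lit 0) (nat_lit 2356) xc108 xc109) (XT.nd (nat_lit 4290) (nat_lit 76) (nat_lit 0) xc110 xc111)))) (XT.nd (nat_lit 122382) (nat_lit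 0) (nat_lit 76) (XT.nd (nat_lit 46488) (nat_lit 0) (nat_lit 0) (XT.nd (nat_lit 37830) (nat_lit 0) (nat_lit 532) (XT.nd (nat_lit 4290) (nat_lit 1368) (nat_lit 0) xc112 xc113) (XT.nd (nat_lit 4290) (nat_lit 3800) (nat_lit 0) xc114 xc115)) (XT.nd (nat_lit 37908) (nat_lit 0) (nat_lit 76) (XT.nd (nat_lit 33540) (nat_lit 0) (nat_lit 2356) xc116 xc117) (XT.nd (nat_lit 4290) (nat_lit 0) (nat_lit 0) xc118 xc119))) (XT.nd (nat_lit 46722) (nat_lit 0) (nat_lit 0) (XT.nd (nat_lit 38064) (nat_lit 0) (nat_lit 304) (XT.nd (nat_lit 4290) (nat_lit 1140) (nat_lit 0) xc120 xc121) (XT.nd (nat_lit 4290) (nat_lit 3268) (nat_lit 0) xc122 xc123)) (XT.nd (nat_lit 38142) (nat_lit 0) (nat_lit 0) (XT.nd (nat_lit 33774) (nat_lit 0) (nat_lit 1596) xc124 xc125) (XT.nd (nat_lit 33930) (nat_lit 0) (nat_lit 4484) xc126 xc127))))))) (XT.nd (nat_lit 1178190) (nat_lit 0) (nat_lit 1140) (XT.nd (nat_lit 530712) (nat_lit 0) (nat_lit 304)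 (XT.nd (nat_lit 248352) (nat_lit 0) (nat_lit 152) (XT.nd (nat_lit 123786) (nat_lit 0) (nat_lit 76) (XT.nd (nat_lit 76674) (nat_lit 0) (nat_lit 0) (XT.nd (nat_lit 38298) (nat_lit 0) (nat_lit 0) (XT.nd (nat_lit 4290) (nat_lit 532) (nat_lit 0) xc128 xc129) (XT.nd (nat_lit 4290) (nat_lit 2128) (nat_lit 0) xc130 xc131)) (XT.nd (nat_lit 8658) (nat_lit 760) (nat_lit 0) (XT.nd (nat_lit 4290) (nat_lit 4560) (nat_lit 0) xc132 xc133) (XT.nd (nat_lit 34086) (nat_lit 0) (nat_lit 2280) xc134 xc135))) (XT.nd (nat_lit 77142) (nat_lit 0) (nat_lit 76) (XT.nd (nat_lit 38532) (nat_lit 0) (nat_lit 0) (XT.nd (nat_lit 34164) (nat_lit 0) (nat_lit 5244) xc136 xc137) (XT.nd (nat_lit 4290) (nat_lit 760) (nat_lit 0) xc138 xc139)) (XT.nd (nat_lit 38766) (nat_lit 0) (nat_lit 608) (XT.nd (nat_lit 4290) (nat_lit 2128) (nat_lit 0) xc140 xc141) (XT.nd (nat_lit 4290) (nat_lit 4028) (nat_lit 0) xc142 xc143)))) (XT.nd (nat_lit 155844)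 (nat_lit 0) (nat_lit 76) (XT.nd (nat_lit 77766) (nat_lit 0) (nat_lit 76) (XT.nd (nat_lit 38844) (nat_lit 0) (nat_lit 0) (XT.nd (nat_lit 34476) (nat_lit 0) (nat_lit 1596) xc144 xc145) (XT.nd (nat_lit 34554) (nat_lit 0) (nat_lit 3572) xc146 xc147)) (XT.nd (nat_lit 39000) (nat_lit 0) (nat_lit 0) (XT.nd (nat_lit 4290) (nat_lit 228) (nat_lit 0) xc148 xc149) (XT.nd (nat_lit 4290) (nat_lit 1064) (nat_lit 0) xc150 xc151))) (XT.nd (nat_lit 47814) (nat_lit 0) (nat_lit 0) (XT.nd (nat_lit 39156) (nat_lit 0) (nat_lit 304) (XT.nd (nat_lit 4290) (nat_lit 2432) (nat_lit 0) xc152 xc153) (XT.nd (nat_lit 4290) (nat_lit 4180) (nat_lit 0) xc154 xc155)) (XT.nd (nat_lit 39234) (nat_lit 0) (nat_lit 76) (XT.nd (nat_lit 34866) (nat_lit 0) (nat_lit 1216) xc156 xc157) (XT.nd (nat_lit 35100) (nat_lit 0) (nat_lit 2128) xc158 xc159))))) (XT.nd (nat_lit 320268) (nat_lit 0) (nat_lit 456) (XT.nd (nat_lit 159042) (nat_lit 0) (nat_lit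 228) (XT.nd (nat_lit 79170) (nat_lit 0) (nat_lit 0) (XT.nd (nat_lit 39468) (nat_lit 0) (nat_lit 0) (XT.nd (nat_lit 35100) (nat_lit 0) (nat_lit 3648) xc160 xc161) (XT.nd (nat_lit 4290) (nat_lit 152) (nat_lit 0) xc162 xc163)) (XT.nd (nat_lit 39858) (nat_lit 0) (nat_lit 152) (XT.nd (nat_lit 4290) (nat_lit 684) (nat_lit 0) xc164 xc165) (XT.nd (nat_lit 4290) (nat_lit 988) (nat_lit 0) xc166 xc167))) (XT.nd (nat_lit 80418) (nat_lit 0) (nat_lit 152) (XT.nd (nat_lit 40170) (nat_lit 0) (nat_lit 0) (XT.nd (nat_lit 4290) (nat_lit 1520) (nat_lit 0) xc168 xc169) (XT.nd (nat_lit 4290) (nat_lit 1976) (nat_lit 0) xc170 xc171)) (XT.nd (nat_lit 40326) (nat_lit 0) (nat_lit 76) (XT.nd (nat_lit 4290) (nat_lit 2432) (nat_lit 0) xc172 xc173) (XT.nd (nat_lit 4290) (nat_lit 2736) (nat_lit 0) xc174 xc175)))) (XT.nd (nat_lit 162786) (nat_lit 0) (nat_lit 228) (XT.nd (nat_lit 81198) (nat_lit 0) (nat_lit 76) (XT.nd (nat_lit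 40560) (nat_lit 0) (nat_lit 76) (XT.nd (nat_lit 4290) (nat_lit 3192) (nat_lit 0) xc176 xc177) (XT.nd (nat_lit 4290) (nat_lit 3344) (nat_lit 0) xc178 xc179)) (XT.nd (nat_lit 40716) (nat_lit 0) (nat_lit 0) (XT.nd (nat_lit 4290) (nat_lit 3344) (nat_lit 0) xc180 xc181) (XT.nd (nat_lit 4290) (nat_lit 3344) (nat_lit 0) xc182 xc183))) (XT.nd (nat_lit 81978) (nat_lit 0) (nat_lit 76) (XT.nd (nat_lit 40950) (nat_lit 0) (nat_lit 76) (XT.nd (nat_lit 4290) (nat_lit 2964) (nat_lit 0) xc184 xc185) (XT.nd (nat_lit 4290) (nat_lit 2660) (nat_lit 0) xc186 xc187)) (XT.nd (nat_lit 41106) (nat_lit 0) (nat_lit 76) (XT.nd (nat_lit 4290) (nat_lit 2204) (nat_lit 0) xc188 xc189) (XT.nd (nat_lit 4368) (nat_lit 1520) (nat_lit 0) xc190 xc191)))))) (XT.nd (nat_lit 776646) (nat_lit 0) (nat_lit 1520) (XT.nd (nat_lit 366990) (nat_lit 0) (nat_lit 608) (XT.nd (nat_lit 165984) (nat_lit 0) (nat_lit 304) (XT.nd (nat_lit 82758) (nat_lit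 0) (nat_lit 228) (XT.nd (nat_lit 41340) (nat_lit 0) (nat_lit 152) (XT.nd (nat_lit 4290) (nat_lit 988) (nat_lit 0) xc192 xc193) (XT.nd (nat_lit 4290) (nat_lit 304) (nat_lit 0) xc194 xc195)) (XT.nd (nat_lit 41574) (nat_lit 0) (nat_lit 76) (XT.nd (nat_lit 37206) (nat_lit 0) (nat_lit 3344) xc196 xc197) (XT.nd (nat_lit 37284) (nat_lit 0) (nat_lit 2052) xc198 xc199))) (XT.nd (nat_lit 116844) (nat_lit 0) (nat_lit 152) (XT.nd (nat_lit 41730) (nat_lit 0) (nat_lit 0) (XT.nd (nat_lit 37362) (nat_lit 0) (nat_lit 836) xc200 xc201) (XT.nd (nat_lit 37440) (nat_lit 0) (nat_lit 152) xc202 xc203)) (XT.nd (nat_lit 42042) (nat_lit 0) (nat_lit 152) (XT.nd (nat_lit 4290) (nat_lit 3420) (nat_lit 0) xc204 xc205) (XT.nd (nat_lit 4290) (nat_lit 1368) (nat_lit 0) xc206 xc207)))) (XT.nd (nat_lit 203580) (nat_lit 0) (nat_lit 532) (XT.nd (nat_lit 84630) (nat_lit 0) (nat_lit 152) (XT.nd (nat_lit 42276) (nat_lit 0) (nat_lit 152)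 (XT.nd (nat_lit 37908) (nat_lit 0) (nat_lit 3268) xc208 xc209) (XT.nd (nat_lit 37986) (nat_lit 0) (nat_lit 760) xc210 xc211)) (XT.nd (nat_lit 76284) (nat_lit 0) (nat_lit 228) (XT.nd (nat_lit 38064) (nat_lit 0) (nat_lit 152) xc212 xc213) (XT.nd (nat_lit 4290) (nat_lit 1596) (nat_lit 0) xc214 xc215))) (XT.nd (nat_lit 119808) (nat_lit 0) (nat_lit 152) (XT.nd (nat_lit 42744) (nat_lit 0) (nat_lit 0) (XT.nd (nat_lit 38376) (nat_lit 0) (nat_lit 1900) xc216 xc217) (XT.nd (nat_lit 38454) (nat_lit 0) (nat_lit 152) xc218 xc219)) (XT.nd (nat_lit 43056) (nat_lit 0) (nat_lit 228) (XT.nd (nat_lit 4290) (nat_lit 1824) (nat_lit 0) xc220 xc221) (XT.nd (nat_lit 38844) (nat_lit 0) (nat_lit 836) xc222 xc223))))) (XT.nd (nat_lit 526968) (nat_lit 0) (nat_lit 2052) (XT.nd (nat_lit 243594) (nat_lit 0) (nat_lit 836) (XT.nd (nat_lit 121368) (nat_lit 0) (nat_lit 380) (XT.nd (nat_lit 77922) (nat_lit 0) (nat_lit 152) (XT.nd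 (nat_lit 38844) (nat_lit 0) (nat_lit 152) xc224 xc225) (XT.nd (nat_lit 39078) (nat_lit 0) (nat_lit 1900) xc226 xc227)) (XT.nd (nat_lit 78468) (nat_lit 0) (nat_lit 228) (XT.nd (nat_lit 39156) (nat_lit 0) (nat_lit 76) xc228 xc229) (XT.nd (nat_lit 39390) (nat_lit 0) (nat_lit 1216) xc230 xc231))) (XT.nd (nat_lit 158574) (nat_lit 0) (nat_lit 456) (XT.nd (nat_lit 79092) (nat_lit 0) (nat_lit 228) (XT.nd (nat_lit 39468) (nat_lit 0) (nat_lit 0) xc232 xc233) (XT.nd (nat_lit 39624) (nat_lit 0) (nat_lit 0) xc234 xc235)) (XT.nd (nat_lit 44304) (nat_lit 0) (nat_lit 304) (XT.nd (nat_lit 4290) (nat_lit 532) (nat_lit 0) xc236 xc237) (XT.nd (nat_lit 40170) (nat_lit 0) (nat_lit 228) xc238 xc239)))) (XT.nd (nat_lit 364650) (nat_lit 0) (nat_lit 2660) (XT.nd (nat_lit 162474) (nat_lit 0) (nat_lit 1216) (XT.nd (nat_lit 80964) (nat_lit 0) (nat_lit 608) (XT.nd (nat_lit 40404) (nat_lit 0) (nat_lit 304) xc240 xc241) (XT.nd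 (nat_lit 40638) (nat_lit 0) (nat_lit 304) xc242 xc243)) (XT.nd (nat_lit 82134) (nat_lit 0) (nat_lit 380) (XT.nd (nat_lit 40950) (nat_lit 0) (nat_lit 380) xc244 xc245) (XT.nd (nat_lit 78390) (nat_lit 0) (nat_lit 760) xc246 xc247))) (XT.nd (nat_lit 244296) (nat_lit 0) (nat_lit 2584) (XT.nd (nat_lit 121446) (nat_lit 0) (nat_lit 1292) (XT.nd (nat_lit 41730) (nat_lit 0) (nat_lit 380) xc248 xc249) (XT.nd (nat_lit 42198) (nat_lit 0) (nat_lit 380) xc250 xc251)) (XT.nd (nat_lit 163098) (nat_lit 0) (nat_lit 2128) (XT.nd (nat_lit 81198) (nat_lit 0) (nat_lit 1064) xc252 xc253) (XT.nd (nat_lit 161304) (nat_lit 0) (nat_lit 1976) xc254 xc255)))))))) XT.nil))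

set_option maxRecDepth 10000000 in
noncomputable def Te : XT := XT.nil

set_option maxRecDepth 10000000 in
noncomputable def Tz : ZL := (ZL.cons (nat_lit 76) (nat_lit 6) (nat_lit 209402053385932031522) (ZL.cons (nat_lit 152) (nat_lit 6) (nat_lit 206610416524678555442) (ZL.cons (nat_lit 228) (nat_lit 3) (nat_lit 103261174007933612202) (ZL.cons (nat_lit 304) (nat_lit 6) (nat_lit 203735030557587475082) (ZL.cons (nat_lit 380) (nat_lit 6) (nat_lit 201037665490983607078) (ZL.cons (nat_lit 456) (nat_lit 3) (nat_lit 100476081042185332159) (ZL.cons (nat_lit 532) (nat_lit 6) (nat_lit 198259379472381623032) (ZL.cons (nat_lit 608) (nat_lit 6) (nat_lit 195654329804774923902) (ZL.cons (nat_lit 684) (nat_lit 3) (nat_lit 97785658394322926633) (ZL.cons (nat_lit 760) (nat_lit 6) (nat_lit 192971128647140023798) (ZL.cons (nat_lit 836) (nat_lit 6) (nat_lit 190456543038808449926) (ZL.cons (nat_lit 912) (nat_lit 3)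 (nat_lit 95187973938759045042) (ZL.cons (nat_lit 988) (nat_lit 6) (nat_lit 187866519862226928838) (ZL.cons (nat_lit 1064) (nat_lit 6) (nat_lit 185440651897175508952) (ZL.cons (nat_lit 1140) (nat_lit 3) (nat_lit 92681202083883696299) (ZL.cons (nat_lit 1216) (nat_lit 6) (nat_lit 182942007893172546468) (ZL.cons (nat_lit 1292) (nat_lit 6) (nat_lit 180603216129076239606) (ZL.cons (nat_lit 1368) (nat_lit 3) (nat_lit 90263623729873985653) (ZL.cons (nat_lit 1444) (nat_lit 6) (nat_lit 178343985271024407282) (ZL.cons (nat_lit 1520) (nat_lit 6) (nat_lit 178194260612057043540) (ZL.cons (nat_lit 1596) (nat_lit 6) (nat_lit 175941008817902751688) (ZL.cons (nat_lit 1672) (nat_lit 3) (nat_lit 87933626414131828123) (ZL.cons (nat_lit 1748) (nat_lit 6) (nat_lit 173765523216494087140) (ZL.cons (nat_lit 1824) (nat_lit 6) (nat_lit 173620159469923831076) (ZL.cons (nat_lit 1900) (nat_lit 6) (nat_lit 171451017057404067214)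 (ZL.cons (nat_lit 1976) (nat_lit 3) (nat_lit 85689704650236453296) (ZL.cons (nat_lit 2052) (nat_lit 6) (nat_lit 169357930223547793990) (ZL.cons (nat_lit 2128) (nat_lit 6) (nat_lit 169216800372508710436) (ZL.cons (nat_lit 2204) (nat_lit 6) (nat_lit 167130443027744671946) (ZL.cons (nat_lit 2280) (nat_lit 3) (nat_lit 83530460466818374507) (ZL.cons (nat_lit 2356) (nat_lit 6) (nat_lit 165118514235491191480) (ZL.cons (nat_lit 2432) (nat_lit 6) (nat_lit 164981494962637712304) (ZL.cons (nat_lit 2508) (nat_lit 6) (nat_lit 162976705485362183670) (ZL.cons (nat_lit 2584) (nat_lit 3) (nat_lit 81454604153308313713) (ZL.cons (nat_lit 2660) (nat_lit 6) (nat_lit 161044800744014485468) (ZL.cons (nat_lit 2736) (nat_lit 6) (nat_lit 160911772323768389178) (ZL.cons (nat_lit 2812) (nat_lit 6) (nat_lit 159184092666490527478) (ZL.cons (nat_lit 2888) (nat_lit 6) (nat_lit 158987441681680800076) (ZL.cons (nat_lit 2964) (nat_lit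 3) (nat_lit 79460955220090130015) (ZL.cons (nat_lit 3040) (nat_lit 6) (nat_lit 157134534926394754456) (ZL.cons (nat_lit 3116) (nat_lit 6) (nat_lit 157005381120330583298) (ZL.cons (nat_lit 3192) (nat_lit 6) (nat_lit 155351433013172623734) (ZL.cons (nat_lit 3268) (nat_lit 6) (nat_lit 155160509726949587420) (ZL.cons (nat_lit 3344) (nat_lit 3) (nat_lit 77548443581192978154) (ZL.cons (nat_lit 3420) (nat_lit 6) (nat_lit 153385684236489657934) (ZL.cons (nat_lit 3496) (nat_lit 6) (nat_lit 153260292191767161666) (ZL.cons (nat_lit 3572) (nat_lit 6) (nat_lit 151679353830561072568) (ZL.cons (nat_lit 3648) (nat_lit 6) (nat_lit 151493991416752299450) (ZL.cons (nat_lit 3724) (nat_lit 3) (nat_lit 75716110968296717147) (ZL.cons (nat_lit 3800) (nat_lit 6) (nat_lit 150040027540847971398) (ZL.cons (nat_lit 3876) (nat_lit 6) (nat_lit 149796441467732133376) (ZL.cons (nat_lit 3952) (nat_lit 6) (nat_lit 149674701618486991370)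 (ZL.cons (nat_lit 4028) (nat_lit 6) (nat_lit 148166159048634704074) (ZL.cons (nat_lit 4104) (nat_lit 6) (nat_lit 147986195540082497164) (ZL.cons (nat_lit 4180) (nat_lit 3) (nat_lit 73963112585498110157) (ZL.cons (nat_lit 4256) (nat_lit 6) (nat_lit 146601719640841382722) (ZL.cons (nat_lit 4332) (nat_lit 6) (nat_lit 146365228307719209886) (ZL.cons (nat_lit 4408) (nat_lit 6) (nat_lit 146247034279325868132) (ZL.cons (nat_lit 4484) (nat_lit 6) (nat_lit 144810383542262054820) (ZL.cons (nat_lit 4560) (nat_lit 6) (nat_lit 144635661689298747140) (ZL.cons (nat_lit 4636) (nat_lit 3) (nat_lit 72288719014995841118) (ZL.cons (nat_lit 4712) (nat_lit 6) (nat_lit 143320302641488787850) (ZL.cons (nat_lit 4788) (nat_lit 6) (nat_lit 143090699405447843348) (ZL.cons (nat_lit 4864) (nat_lit 6) (nat_lit 142975947921570812518) (ZL.cons (nat_lit 4940) (nat_lit 6) (nat_lit 141893683592961840102) (ZL.cons (nat_lit 5016) (nat_lit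 6) (nat_lit 141610797460729015190) (ZL.cons (nat_lit 5092) (nat_lit 6) (nat_lit 141441164593774347538) (ZL.cons (nat_lit 5168) (nat_lit 3) (nat_lit 70692318384602190806) (ZL.cons (nat_lit 5244) (nat_lit 6) (nat_lit 140194662736938139420) (ZL.cons (nat_lit 5320) (nat_lit 6) (nat_lit 139971746973791591358) (ZL.cons (nat_lit 5396) (nat_lit 6) (nat_lit 139860337766143988610) (ZL.cons (nat_lit 5472) (nat_lit 6) (nat_lit 138841057834802000704) (ZL.cons (nat_lit 5548) (nat_lit 6) (nat_lit 138566411104478869722) (ZL.cons (nat_lit 5624) (nat_lit 6) (nat_lit 138401719000639386564) (ZL.cons (nat_lit 5700) (nat_lit 3) (nat_lit 69173418808780874871) (ZL.cons (nat_lit 5776) (nat_lit 6) (nat_lit 137548799992755625720) (ZL.cons (nat_lit 5852) (nat_lit 6) (nat_lit 137223929022455229766) (ZL.cons (nat_lit 5928) (nat_lit 6) (nat_lit 137007505951439163688) (ZL.cons (nat_lit 6004) (nat_lit 6) (nat_lit 136899341672169646456)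 (ZL.cons (nat_lit 6080) (nat_lit 6) (nat_lit 135943127685124728506) (ZL.cons (nat_lit 6156) (nat_lit 6) (nat_lit 135676480374131397456) (ZL.cons (nat_lit 6232) (nat_lit 6) (nat_lit 135516585127685297304) (ZL.cons (nat_lit 6308) (nat_lit 3) (nat_lit 67731651115746708447) (ZL.cons (nat_lit 6384) (nat_lit 6) (nat_lit 134722887945687756764) (ZL.cons (nat_lit 6460) (nat_lit 6) (nat_lit 134407479236658246130) (ZL.cons (nat_lit 6536) (nat_lit 6) (nat_lit 134197359750234881006) (ZL.cons (nat_lit 6612) (nat_lit 6) (nat_lit 134092345886866417676) (ZL.cons (nat_lit 6688) (nat_lit 6) (nat_lit 133562143575245777382) (ZL.cons (nat_lit 6764) (nat_lit 6) (nat_lit 133199393703074344820) (ZL.cons (nat_lit 6840) (nat_lit 6) (nat_lit 132940512818614800112) (ZL.cons (nat_lit 6916) (nat_lit 6) (nat_lit 132785274715269071810) (ZL.cons (nat_lit 6992) (nat_lit 3) (nat_lit 66366771874046244445) (ZL.cons (nat_lit 7068) (nat_lit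 6) (nat_lit 132051168164661027984) (ZL.cons (nat_lit 7144) (nat_lit 6) (nat_lit 131744946117059561348) (ZL.cons (nat_lit 7220) (nat_lit 6) (nat_lit 131540946615677653462) (ZL.cons (nat_lit 7296) (nat_lit 6) (nat_lit 131438991408523805570) (ZL.cons (nat_lit 7372) (nat_lit 6) (nat_lit 130961799317549779132) (ZL.cons (nat_lit 7448) (nat_lit 6) (nat_lit 130609614975635766934) (ZL.cons (nat_lit 7524) (nat_lit 6) (nat_lit 130358274311111937120) (ZL.cons (nat_lit 7600) (nat_lit 6) (nat_lit 130207557705921909644) (ZL.cons (nat_lit 7676) (nat_lit 3) (nat_lit 65078666732972322336) (ZL.cons (nat_lit 7752) (nat_lit 6) (nat_lit 129930335286048947652) (ZL.cons (nat_lit 7828) (nat_lit 6) (nat_lit 129533527357423726176) (ZL.cons (nat_lit 7904) (nat_lit 6) (nat_lit 129236224398587350800) (ZL.cons (nat_lit 7980) (nat_lit 6) (nat_lit 129038166630255401396) (ZL.cons (nat_lit 8056) (nat_lit 6) (nat_lit 128939180992241956840)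 (ZL.cons (nat_lit 8132) (nat_lit 6) (nat_lit 128515742991689079034) (ZL.cons (nat_lit 8208) (nat_lit 6) (nat_lit 128173816446141494380) (ZL.cons (nat_lit 8284) (nat_lit 6) (nat_lit 127929796383496999414) (ZL.cons (nat_lit 8360) (nat_lit 6) (nat_lit 127783469582341632930) (ZL.cons (nat_lit 8436) (nat_lit 3) (nat_lit 63867354092152726673) (ZL.cons (nat_lit 8512) (nat_lit 6) (nat_lit 127555372552287008832) (ZL.cons (nat_lit 8588) (nat_lit 6) (nat_lit 127170122136146017106) (ZL.cons (nat_lit 8664) (nat_lit 6) (nat_lit 126881478486790312862) (ZL.cons (nat_lit 8740) (nat_lit 6) (nat_lit 126689189391322400816) (ZL.cons (nat_lit 8816) (nat_lit 6) (nat_lit 126593086830144299304) (ZL.cons (nat_lit 8892) (nat_lit 6) (nat_lit 126651576880581144824) (ZL.cons (nat_lit 8968) (nat_lit 6) (nat_lit 126224264454155291866) (ZL.cons (nat_lit 9044) (nat_lit 6) (nat_lit 125892296934206180550) (ZL.cons (nat_lit 9120)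 (nat_lit 6) (nat_lit 125655384252027059226) (ZL.cons (nat_lit 9196) (nat_lit 6) (nat_lit 125513319396536412152) (ZL.cons (nat_lit 9272) (nat_lit 3) (nat_lit 62732989116697245112) (ZL.cons (nat_lit 9348) (nat_lit 6) (nat_lit 125803566252198151792) (ZL.cons (nat_lit 9424) (nat_lit 6) (nat_lit 125335416922583113172) (ZL.cons (nat_lit 9500) (nat_lit 6) (nat_lit 124961387392349140624) (ZL.cons (nat_lit 9576) (nat_lit 6) (nat_lit 124681150839576612228) (ZL.cons (nat_lit 9652) (nat_lit 6) (nat_lit 124494462397374755876) (ZL.cons (nat_lit 9728) (nat_lit 6) (nat_lit 124401158939920288386) (ZL.cons (nat_lit 9804) (nat_lit 6) (nat_lit 124502802878537816010) (ZL.cons (nat_lit 9880) (nat_lit 6) (nat_lit 124087936445114657800) (ZL.cons (nat_lit 9956) (nat_lit 6) (nat_lit 123765637882057268172) (ZL.cons (nat_lit 10032) (nat_lit 6) (nat_lit 123535625569262004748) (ZL.cons (nat_lit 10108) (nat_lit 6) (nat_lit 123397698525096327980)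 (ZL.cons (nat_lit 10184) (nat_lit 3) (nat_lit 61675868115391891209) (ZL.cons (nat_lit 10260) (nat_lit 6) (nat_lit 123725694795184797698) (ZL.cons (nat_lit 10336) (nat_lit 6) (nat_lit 123271180882937187386) (ZL.cons (nat_lit 10412) (nat_lit 6) (nat_lit 122908045416690612096) (ZL.cons (nat_lit 10488) (nat_lit 6) (nat_lit 122635971093610487440) (ZL.cons (nat_lit 10564) (nat_lit 6) (nat_lit 122454720178851403600) (ZL.cons (nat_lit 10640) (nat_lit 6) (nat_lit 122364134297827648760) (ZL.cons (nat_lit 10716) (nat_lit 6) (nat_lit 123003413646043458508) (ZL.cons (nat_lit 10792) (nat_lit 6) (nat_lit 122510407035908030626) (ZL.cons (nat_lit 10868) (nat_lit 6) (nat_lit 122107624090837003234) (ZL.cons (nat_lit 10944) (nat_lit 6) (nat_lit 121794712864567692916) (ZL.cons (nat_lit 11020) (nat_lit 6) (nat_lit 121571399939523747844) (ZL.cons (nat_lit 11096) (nat_lit 6) (nat_lit 121437490187906585932) (ZL.cons (nat_lit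 11172) (nat_lit 3) (nat_lit 60696433300597688327) (ZL.cons (nat_lit 11248) (nat_lit 6) (nat_lit 122335328311663092414) (ZL.cons (nat_lit 11324) (nat_lit 6) (nat_lit 121804950150180268830) (ZL.cons (nat_lit 11400) (nat_lit 6) (nat_lit 121363674507221423868) (ZL.cons (nat_lit 11476) (nat_lit 6) (nat_lit 121011115802127661448) (ZL.cons (nat_lit 11552) (nat_lit 6) (nat_lit 120746965973894530714) (ZL.cons (nat_lit 11628) (nat_lit 6) (nat_lit 120570994211992507570) (ZL.cons (nat_lit 11704) (nat_lit 6) (nat_lit 120483046754687891220) (ZL.cons (nat_lit 11780) (nat_lit 6) (nat_lit 121154193807115887458) (ZL.cons (nat_lit 11856) (nat_lit 6) (nat_lit 120675546612809646794) (ZL.cons (nat_lit 11932) (nat_lit 6) (nat_lit 120284495209828066804) (ZL.cons (nat_lit 12008) (nat_lit 6) (nat_lit 119980697902770483968) (ZL.cons (nat_lit 12084) (nat_lit 6) (nat_lit 119763889237679275162) (ZL.cons (nat_lit 12160) (nat_lit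 6) (nat_lit 119633879770089797580) (ZL.cons (nat_lit 12236) (nat_lit 3) (nat_lit 59795277949748195254) (ZL.cons (nat_lit 12312) (nat_lit 6) (nat_lit 120557569384667548696) (ZL.cons (nat_lit 12388) (nat_lit 6) (nat_lit 120042639130800729680) (ZL.cons (nat_lit 12464) (nat_lit 6) (nat_lit 119614216176471753988) (ZL.cons (nat_lit 12540) (nat_lit 6) (nat_lit 119271926171526353582) (ZL.cons (nat_lit 12616) (nat_lit 6) (nat_lit 119015470027610692674) (ZL.cons (nat_lit 12692) (nat_lit 6) (nat_lit 118844623656832029430) (ZL.cons (nat_lit 12768) (nat_lit 6) (nat_lit 118759237775953761126) (ZL.cons (nat_lit 12844) (nat_lit 6) (nat_lit 120014555560524375358) (ZL.cons (nat_lit 12920) (nat_lit 6) (nat_lit 119464399035239519108) (ZL.cons (nat_lit 12996) (nat_lit 6) (nat_lit 118999693021349965064) (ZL.cons (nat_lit 13072) (nat_lit 6) (nat_lit 118620031465057168956) (ZL.cons (nat_lit 13148) (nat_lit 6) (nat_lit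 118325082623253690478) (ZL.cons (nat_lit 13224) (nat_lit 6) (nat_lit 118114588773650575132) (ZL.cons (nat_lit 13300) (nat_lit 6) (nat_lit 117988365989583121166) (ZL.cons (nat_lit 13376) (nat_lit 3) (nat_lit 58973151989649129967) (ZL.cons (nat_lit 13452) (nat_lit 6) (nat_lit 119524677856587601560) (ZL.cons (nat_lit 13528) (nat_lit 6) (nat_lit 118940321067790087802) (ZL.cons (nat_lit 13604) (nat_lit 6) (nat_lit 118440388782482496524) (ZL.cons (nat_lit 13680) (nat_lit 6) (nat_lit 118024444166629122064) (ZL.cons (nat_lit 13756) (nat_lit 6) (nat_lit 117692123773478247884) (ZL.cons (nat_lit 13832) (nat_lit 6) (nat_lit 117443137225987314968) (ZL.cons (nat_lit 13908) (nat_lit 6) (nat_lit 117277266963095408900) (ZL.cons (nat_lit 13984) (nat_lit 6) (nat_lit 117194368049621362006) (ZL.cons (nat_lit 14060) (nat_lit 6) (nat_lit 118702664671013235236) (ZL.cons (nat_lit 14136) (nat_lit 6) (nat_lit 119087508224378059252)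 (ZL.cons (nat_lit 14212) (nat_lit 6) (nat_lit 118469947296247868300) (ZL.cons (nat_lit 14288) (nat_lit 6) (nat_lit 117935814747427619514) (ZL.cons (nat_lit 14364) (nat_lit 6) (nat_lit 117484643860156207820) (ZL.cons (nat_lit 14440) (nat_lit 6) (nat_lit 117116040407444755288) (ZL.cons (nat_lit 14516) (nat_lit 6) (nat_lit 116829682308606426670) (ZL.cons (nat_lit 14592) (nat_lit 6) (nat_lit 116625319347826703032) (ZL.cons (nat_lit 14668) (nat_lit 6) (nat_lit 116502772955528204036) (ZL.cons (nat_lit 14744) (nat_lit 3) (nat_lit 58230968026169509187) (ZL.cons (nat_lit 14820) (nat_lit 6) (nat_lit 116600694684562950272) (ZL.cons (nat_lit 14896) (nat_lit 6) (nat_lit 116652354546737245160) (ZL.cons (nat_lit 14972) (nat_lit 6) (nat_lit 116755719410771229948) (ZL.cons (nat_lit 15048) (nat_lit 6) (nat_lit 116910879595478138218) (ZL.cons (nat_lit 15124) (nat_lit 6) (nat_lit 117117970677718393482) (ZL.cons (nat_lit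 15200) (nat_lit 6) (nat_lit 117377173610864827030) (ZL.cons (nat_lit 15276) (nat_lit 6) (nat_lit 117688714882917275552) (ZL.cons (nat_lit 15352) (nat_lit 6) (nat_lit 118052866714404716914) (ZL.cons (nat_lit 15428) (nat_lit 6) (nat_lit 117485530026251790934) (ZL.cons (nat_lit 15504) (nat_lit 6) (nat_lit 117000158875467721732) (ZL.cons (nat_lit 15580) (nat_lit 6) (nat_lit 116596329151338231966) (ZL.cons (nat_lit 15656) (nat_lit 6) (nat_lit 116273687992939324996) (ZL.cons (nat_lit 15732) (nat_lit 6) (nat_lit 116031953480812205656) (ZL.cons (nat_lit 15808) (nat_lit 6) (nat_lit 115870914390625889090) (ZL.cons (nat_lit 15884) (nat_lit 6) (nat_lit 115790430008612251326) (ZL.cons (nat_lit 15960) (nat_lit 3) (nat_lit 57900137579438091228) (ZL.cons (nat_lit 16036) (nat_lit 6) (nat_lit 115826486813082844396) (ZL.cons (nat_lit 16112) (nat_lit 6) (nat_lit 115905144679090001078) (ZL.cons (nat_lit 16188) (nat_lit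 6) (nat_lit 116036317487071833516) (ZL.cons (nat_lit 16264) (nat_lit 6) (nat_lit 116220119854045024868) (ZL.cons (nat_lit 16340) (nat_lit 6) (nat_lit 116456712384019551702) (ZL.cons (nat_lit 16416) (nat_lit 6) (nat_lit 116746301808332284968) (ZL.cons (nat_lit 16492) (nat_lit 6) (nat_lit 117089141166286022202) (ZL.cons (nat_lit 16568) (nat_lit 6) (nat_lit 116570565876169275806) (ZL.cons (nat_lit 16644) (nat_lit 6) (nat_lit 116132535888527128532) (ZL.cons (nat_lit 16720) (nat_lit 6) (nat_lit 115774668458710184328) (ZL.cons (nat_lit 16796) (nat_lit 6) (nat_lit 115496650887022486636) (ZL.cons (nat_lit 16872) (nat_lit 6) (nat_lit 115298240245488774368) (ZL.cons (nat_lit 16948) (nat_lit 6) (nat_lit 115179263165587319034) (ZL.cons (nat_lit 17024) (nat_lit 3) (nat_lit 57569807843381433466) (ZL.cons (nat_lit 17100) (nat_lit 6) (nat_lit 115074828685432256164) (ZL.cons (nat_lit 17176) (nat_lit 6) (nat_lit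 115128038343471779898) (ZL.cons (nat_lit 17252) (nat_lit 6) (nat_lit 115234504153426784230) (ZL.cons (nat_lit 17328) (nat_lit 6) (nat_lit 115394319143674899750) (ZL.cons (nat_lit 17404) (nat_lit 6) (nat_lit 115607622958382362672) (ZL.cons (nat_lit 17480) (nat_lit 6) (nat_lit 115874601979523189224) (ZL.cons (nat_lit 17556) (nat_lit 6) (nat_lit 116195489489737211202) (ZL.cons (nat_lit 17632) (nat_lit 6) (nat_lit 115724255362762386734) (ZL.cons (nat_lit 17708) (nat_lit 6) (nat_lit 115332187669432785022) (ZL.cons (nat_lit 17784) (nat_lit 6) (nat_lit 115018943826327050096) (ZL.cons (nat_lit 17860) (nat_lit 6) (nat_lit 114784250125232759476) (ZL.cons (nat_lit 17936) (nat_lit 6) (nat_lit 114627901493983908440) (ZL.cons (nat_lit 18012) (nat_lit 6) (nat_lit 114549761317271638768) (ZL.cons (nat_lit 18088) (nat_lit 3) (nat_lit 57198361687565125900) (ZL.cons (nat_lit 18164) (nat_lit 6) (nat_lit 114423721378963113594)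 (ZL.cons (nat_lit 18240) (nat_lit 6) (nat_lit 114504738980950484978) (ZL.cons (nat_lit 18316) (nat_lit 6) (nat_lit 114639846973171772392) (ZL.cons (nat_lit 18392) (nat_lit 6) (nat_lit 114829163411154159482) (ZL.cons (nat_lit 18468) (nat_lit 6) (nat_lit 115072853717027922122) (ZL.cons (nat_lit 18544) (nat_lit 6) (nat_lit 115371130824070037386) (ZL.cons (nat_lit 18620) (nat_lit 6) (nat_lit 114945858991407758480) (ZL.cons (nat_lit 18696) (nat_lit 6) (nat_lit 114598414884789366046) (ZL.cons (nat_lit 18772) (nat_lit 6) (nat_lit 114328494912277038192) (ZL.cons (nat_lit 18848) (nat_lit 6) (nat_lit 114135863221467608804) (ZL.cons (nat_lit 18924) (nat_lit 6) (nat_lit 114020351493407943430) (ZL.cons (nat_lit 19000) (nat_lit 3) (nat_lit 56990929397760062930) (ZL.cons (nat_lit 19076) (nat_lit 6) (nat_lit 113791578362973654792) (ZL.cons (nat_lit 19152) (nat_lit 6) (nat_lit 113846384310754364236) (ZL.cons (nat_lit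 19228) (nat_lit 6) (nat_lit 113956044095008018702) (ZL.cons (nat_lit 19304) (nat_lit 6) (nat_lit 114120653534963577686) (ZL.cons (nat_lit 19380) (nat_lit 6) (nat_lit 114340356464112264494) (ZL.cons (nat_lit 19456) (nat_lit 6) (nat_lit 114615344855887315846) (ZL.cons (nat_lit 19532) (nat_lit 6) (nat_lit 114234696609936246218) (ZL.cons (nat_lit 19608) (nat_lit 6) (nat_lit 113930576373911260856) (ZL.cons (nat_lit 19684) (nat_lit 6) (nat_lit 113702718411683794234) (ZL.cons (nat_lit 19760) (nat_lit 6) (nat_lit 113550923624063550508) (ZL.cons (nat_lit 19836) (nat_lit 6) (nat_lit 113475059374828337236) (ZL.cons (nat_lit 19912) (nat_lit 3) (nat_lit 56615528468764133531) (ZL.cons (nat_lit 19988) (nat_lit 6) (nat_lit 113258864881476114712) (ZL.cons (nat_lit 20064) (nat_lit 6) (nat_lit 113342313011523107238) (ZL.cons (nat_lit 20140) (nat_lit 6) (nat_lit 113481474243511033274) (ZL.cons (nat_lit 20216) (nat_lit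 6) (nat_lit 113676470174632891976) (ZL.cons (nat_lit 20292) (nat_lit 6) (nat_lit 113927471189682867496) (ZL.cons (nat_lit 20368) (nat_lit 6) (nat_lit 113590146814325204940) (ZL.cons (nat_lit 20444) (nat_lit 6) (nat_lit 113328088588585080810) (ZL.cons (nat_lit 20520) (nat_lit 6) (nat_lit 113141067529546799850) (ZL.cons (nat_lit 20596) (nat_lit 6) (nat_lit 113028920220751008226) (ZL.cons (nat_lit 20672) (nat_lit 3) (nat_lit 56495774334701806262) (ZL.cons (nat_lit 20748) (nat_lit 6) (nat_lit 112741667326624134054) (ZL.cons (nat_lit 20824) (nat_lit 6) (nat_lit 112798117452838264786) (ZL.cons (nat_lit 20900) (nat_lit 6) (nat_lit 112911067030619528882) (ZL.cons (nat_lit 20976) (nat_lit 6) (nat_lit 113080614753773754636) (ZL.cons (nat_lit 21052) (nat_lit 6) (nat_lit 113306908770796902050) (ZL.cons (nat_lit 21128) (nat_lit 6) (nat_lit 113011646405724100726) (ZL.cons (nat_lit 21204) (nat_lit 6) (nat_lit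 112790425083173162258) (ZL.cons (nat_lit 21280) (nat_lit 6) (nat_lit 112643051502959333400) (ZL.cons (nat_lit 21356) (nat_lit 6) (nat_lit 112569396892051359346) (ZL.cons (nat_lit 21432) (nat_lit 3) (nat_lit 56147169863002431139) (ZL.cons (nat_lit 21508) (nat_lit 6) (nat_lit 112322981908271145360) (ZL.cons (nat_lit 21584) (nat_lit 6) (nat_lit 112408933482219547662) (ZL.cons (nat_lit 21660) (nat_lit 6) (nat_lit 112552269551167111476) (ZL.cons (nat_lit 21736) (nat_lit 6) (nat_lit 112753115360222625942) (ZL.cons (nat_lit 21812) (nat_lit 6) (nat_lit 112498689898339010280) (ZL.cons (nat_lit 21888) (nat_lit 6) (nat_lit 112317116054612523914) (ZL.cons (nat_lit 21964) (nat_lit 6) (nat_lit 112208235172286512626) (ZL.cons (nat_lit 22040) (nat_lit 3) (nat_lit 56085976056362967137) (ZL.cons (nat_lit 22116) (nat_lit 6) (nat_lit 111916491210841059246) (ZL.cons (nat_lit 22192) (nat_lit 6) (nat_lit 111974634840841613898)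 (ZL.cons (nat_lit 22268) (nat_lit 6) (nat_lit 112090972905956315918) (ZL.cons (nat_lit 22344) (nat_lit 6) (nat_lit 112265607060805168444) (ZL.cons (nat_lit 22420) (nat_lit 6) (nat_lit 112050829077746004884) (ZL.cons (nat_lit 22496) (nat_lit 6) (nat_lit 111907747931907336088) (ZL.cons (nat_lit 22572) (nat_lit 6) (nat_lit 111836238600928720502) (ZL.cons (nat_lit 22648) (nat_lit 3) (nat_lit 55789145087250854158) (ZL.cons (nat_lit 22724) (nat_lit 6) (nat_lit 111607791622235979886) (ZL.cons (nat_lit 22800) (nat_lit 6) (nat_lit 111696321743402834256) (ZL.cons (nat_lit 22876) (nat_lit 6) (nat_lit 111843957894418824988) (ZL.cons (nat_lit 22952) (nat_lit 6) (nat_lit 111667672609247478998) (ZL.cons (nat_lit 23028) (nat_lit 6) (nat_lit 111561963014756205904) (ZL.cons (nat_lit 23104) (nat_lit 3) (nat_lit 55763368371669084335) (ZL.cons (nat_lit 23180) (nat_lit 6) (nat_lit 111308083283784446526) (ZL.cons (nat_lit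 23256) (nat_lit 6) (nat_lit 111367971222685017814) (ZL.cons (nat_lit 23332) (nat_lit 6) (nat_lit 111487799429753160896) (ZL.cons (nat_lit 23408) (nat_lit 6) (nat_lit 111348885695929210608) (ZL.cons (nat_lit 23484) (nat_lit 6) (nat_lit 111279459160998515866) (ZL.cons (nat_lit 23560) (nat_lit 3) (nat_lit 55537623972207290219) (ZL.cons (nat_lit 23636) (nat_lit 6) (nat_lit 111105634435580880156) (ZL.cons (nat_lit 23712) (nat_lit 6) (nat_lit 111196820460382740156) (ZL.cons (nat_lit 23788) (nat_lit 6) (nat_lit 111094189786119368220) (ZL.cons (nat_lit 23864) (nat_lit 3) (nat_lit 55529994761303355356) (ZL.cons (nat_lit 23940) (nat_lit 6) (nat_lit 110909082155771592420) (ZL.cons (nat_lit 24016) (nat_lit 6) (nat_lit 110970766732839180850) (ZL.cons (nat_lit 24092) (nat_lit 6) (nat_lit 110903362329993846148) (ZL.cons (nat_lit 24168) (nat_lit 3) (nat_lit 55389071319273320818) (ZL.cons (nat_lit 24244) (nat_lit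 6) (nat_lit 110809440724447930348) (ZL.cons (nat_lit 24320) (nat_lit 3) (nat_lit 55388118292557626577) (ZL.cons (nat_lit 24396) (nat_lit 6) (nat_lit 110712701470735637072) (ZL.cons (nat_lit 24472) (nat_lit 1) (nat_lit 18446744073709551617) ZL.nil))))))))))))))))))))))))))))))))))))))))))))))))))))))))))))))))))))))))))))))))))))))))))))))))))))))))))))))))))))))))))))))))))))))))))))))))))))))))))))))))))))))))))))))))))))))))))))))))))))))))))))))))))))))))))))))))))))))))))))))))))))))))))))))))))))))))))))))))))))))))))))))))))))))))))))))))))))))))))))))))))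

noncomputable def vl : XL := ⟨(nat_lit 0), (nat_lit 76), (nat_lit 168196514), (nat_lit 228), (nat_lit 234361332), (nat_lit 76), (nat_lit 168196514), (nat_lit 1), (nat_lit 5), (nat_lit 3), (nat_lit 4), (nat_lit 1), (nat_lit 4), (nat_lit 0), (nat_lit 0), (nat_lit 0)⟩

noncomputable def cp0 : Nat := (nat_lit 2169423006732648458982898060965610333426792694164931446192888212484720023730400998249971386905155798110427337624245865206777656082991615988638253921995662269269145316179013449905645458135075997547348182879353443937957963636899189328729517587779323629540723745438721445097296876105203106263478541337305013176020001461665325445388505112924902840962102167181445117783820799227308666322881041825455981568039007696424949029056170618185038543301669190665293395846583539129745100898951720801243770240423155583959707086589854881536698414660948407491318831689922202537220285106796642897102284026872415327094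2991498021236147104023139807190644651311183223094153622082591132916033258598475869040350538587427952526443985025490242047095439322831133304003228366199367304857261084125738016523272294844360399415481485660980850083924431196999387741983409047086944159051036248048434143755900584246673969283447263865327539291260704025640178921956009891684696502498903424560528875469627388455411784658186485196929387354897945108885055267545371895701582330763852356723846283597864181910532728398624484553093125762084224969954335127568949624602870907002026766079064208641935339473445515733981387995147102561063956462739711409391572523184397647402759674891635962844102765853154500850351962978662079221979920638963981435031264768209555225131152053509396446121473716675707528243623528413073156014794178401558132101863760431597867454009448786970681738647194318095170560698377850341577133501146361635788255756939243075736981848930943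3832827673042238624982383417555073160698892106377408129665863336813113899997666393541219259357492771312333232774752233139484265057570891020480364668000578211095665775764094110796013975336201165847392245341106705480593468694582135176466706837798526843911181315683706905899568761718986337847698083987638683998640040230013487654460808093378268400350749199079326736135832516673729304392777621825353122200396297035250642664635061813208378688816675354729432484222284735153362490301927560260105314444899467343565420957378469024261863420743711804583971551022964763722656954661991008101381491709947267621988819820148380158206452969257592757277804845000943206061550384156456981153238153658401212640381029543565311646296158767562324471634847429742703457119968561068842549736406365552717878171043833176233008782567997970800232925316445680773494442842937744646452859976052335004709686447988891163301307477576285972218375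0114114469842735873422363939979440353080880546888170583557261247671669681451565022808661019220052307839523093477132067220382057487355442542945343263355190255450176180207397867525535745062033086217759896468677862661695064920418265964157741233568031147479827006298791772555779756570754225784088143256948300136823947172630228046373658990764892213996714661170863284050909726991354581876657310507336728182098171393203599754284102647947498249731985585705841185258533078553792969617363748090965008462865982360772316021230973580899531079123183172253663158211997527809453828265108003373417118044378773328303346149771394267942808521951527643865237315778571909781684070975451884484143853248734486491777261181444704933561605122720038500651386839737573065298375309305974139418584272913106399131603409060520819904110911335179116699426287809820809437333947946102424372518066455483330562882804353157144334996021666178553563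6087256057140559677050612774402200044740263098053512993894754641851272178499717544625747338930737677349282461158944478237550887664366188310013574631682926816753443478682821015615551246205786969231984044238174406260008982783353865013322079660906135590509058574277347528518106299856725385781839182229329860907557971702711794226809681828289474588352164906349308993678805448079951238195930823745202297473228565165960651477085121035615626468590467340743152895438018691457384141465630225971743273403357774590771113506901792226630586906402761016401251579854184485647385378365111398501997926720661236382998963253004213375472627659234874073977720019864392748104974228131295765296797599779293197567639300933440985115670613036566719461043793929736660299099679183204065267611491225721327579979630996823387886960842185828789426493582644696051049109844099153915956406378156358798539111157966434438080023948409033689245608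4204633402345843965347867856408041231351905769346780359720678133523167801161682041321242650413570775694511101742608592945145608842629374404370289041396974765130977114503928749987858496541922824970667854189541845169216870661553364501266487676418278641294812896369360266680812050404956310772578901278260281447592403865418758842279735681809411269941672113374381395176453195963725825651903521413887821751998190315963564807575970287639195519321107240778479477405875694468471674740457104260677235739570745483944012320836476034565575670727713590675564210377704865751149855562807608092556997300371733191041971849099948443385993440942718378759740123622934750237304380028913460704439878268510578000806740449185680296773088547337189583017773574129920059945025772372533709270215027407732407684369496827002337287798680471941446208002538693158212807816564894068888485067595195659019722029935122062428702713766787532729488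3844500756745550693793204181975519380025211440977133170189608152148222374752222316511917559398368589072108795229126734868460615017535834918922098541417174249132614472007676322245951452185217876641202195623000009323940564840999068529526395890305649276971518917093487628608381444958402428011934472927545422173284548008139161039841839742644104937989087298363860277299439382799642573910496906936664881794359831068811185674051840582946691036857332643310422596382912064103909287593136458255863441445946198889802854382424497288940574524752246489264799173430697758803487925604850778175266787748427252240019763624498531719427547264321469008707884351390378542863474353708230962897602984231194197676900939632794323566441036485642409257041345623136245614894190577696284652060949943021441724854982415372969111119181387378357065086606655684706117582498266236327920508149037532996163962170318863980474745753773654798606948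77610119682498181542273840018289076682281328111790732074966947574800925042017444041286239696885302399556018307173027619200462515442242372942870459733282173194086950036360371367955806879450141139589394557112785161453647686802565537297069224678139386611974475769885840133792597001840915742873315630177080226473956444667474140333584337302304749660852594462772408312055574975614977576784848176485420075489108024167774379611614286924007273541434845554965337367805698221290113970265631528816868444804272326815326199802437772157048601518629666958231467121090558829556145746169196473546849769679130992658760515806152048900416057317191030218652272834917692592112674798153045962189877264724333051095643149553312821005756804558620436620698703060515553398009877753738577376381669626297376945913832580483113170223020452830109885275614913011274596913861258977175745168201679983712840128367626588254070854020802893417668554801651100077613362312072972728779791561945237864477372340784557823252132536675511975627538308081516792618338392608558251198668310012817535307130908143775410416173091049235605346887639727591339936262886520708927550428402788471457417949626436540006971721879153994605886996065520639219565709637938678775383400685640813794117173094216192689174476284148500121964441647467872724407440994424309893073457875276668608622733051295172857509003132928)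

noncomputable def cp1 : Nat := (nat_lit 2756204033072406334391566006712967582148581387081698705117489575943452013017387897055756296501368347245765569648007749060583329348180450774114294624940370583339365751884697690841710386331821785943041341841410775835756590665433710279274390218052281088045772990868311986342317995522387758186611452013377538489282149849700416259314824922806024614803090975184041486298872928166202512742288352991988633955079986879169039657572827093919596449843559574190131708904188224247489755791577295580190250222807905800209550051229716129241208503186832273759606846684124972616833984890895613962575893655674681629463133675609432119136242553557821637768974572511192761860698376651905771463218929063943125562131028310993816438246426727151662154259007115503950669622153796831412869576092590370157970242175806173929719423433043036028342258299916803779145393375886614660003956015530849067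7606825111262508785264521955262000648170812758078645818160703290335975509977532480893764369505603366341926863573172548811629676505237285063766301678050785678019789143490508704299091473112199482057961815068562869029759057619417088538133366093807238982830266025874169104667675370040510725103709215506847139255183227499613586594318982746913796815678446664187898692499698247763450523804780637861194492906158616444599313839147902262901342348352495136258157751896287204701210909362319548037861660030427507628751716477367957277770201673603446502981221160807448314195461538772831659269668382837758210422100629405618924191743355917828943905543971302742874660336678147582120735272983351264462273219906752471440849621789766202261452370080714696714330070821510915267327107783957802301500358018519447583289710617097483252699392840274033364579549056449055889813202763913654457025699110424071981387306749659744316334608482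1878038103284616464575341372787523311408386952794112202420547968696747548980292444222375641623199583667379466310730593386542402550569775858482604710422938884571677957831977201430791498233366200031367442838216388424228930764296627657743993361128502848597543974853596823879501879206253727628479605473429178585079959174580563567128332916293386013564518165730287955019547447105517159084916806368430744308555470488331386753822026858880263756630496324924802241011978579502424913140511997153878893437810802373344496725165211371382991113893053133018181276206088102688911123493823329482777663170430064202162592110843174284984096119783379409648970654665703763042400678926960972200965327675509308177648121148249341414174968146563800240662365369319852364254817756766306627854260837090148395138324285369710086607888188184209055985100881105072557732026907080063126265665935661001869898977808485702874918976979981825456098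2291578688327032039012926954015804415311943689437352005556337571116550041934815264929211731096253371075214131842265823158652632465710074491373950676420939658082809627399412171632771351906567275775881537901069288063042254740556361445361099099700566729013873346435443794355748752278657286708536634741270236830081149515401599390063130584733453101960148645475622424418399988255263200519317280982831705728853113435702393011730016236649292804256113100617563483737210771783577146033732029886032567645745586986860249602200978404780628824199495890096159335314489285792129953540833525333256801089615021516586791316747005005678859777682024140549368378041124700519050253913277913609137696840248418433997863306737146788451509547414267939698113511658233094247665496263964172468856271610928503535153531047489945606911486521927746320265928012205198091483014917514730411939733397018029137060711529356315095824448521010160236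9228862110000950859969935013732317213703219350083158968581905103134286826412643788195123799935765235686917524618791751323319631976417767782511883673567701343630408072863698532583639313230994134648084104773535595865132948442883284318620341569067891768778149909344460725134463554289597526490888343208375156319825560285205761772030425840765563287488549767251727161298601885923297763432754423825612768777020168076387942284823582764843683963452763072724799860787999179985213946464219305892392152779392845527172021016066139743293830458726951488681364478121345252403830634918794969425056890197833551918774926732427863661757280916234321351741526463182571200241508229144677724638741777779209961144300771589523279638780121310140170670045263203084019789043157759928174929260613547186680481951366418582975341890221116792549371271111387456952756339420604667898695472930212374708647710841103216814896171575136649472906309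3022798238801082280504015488072302232422664770836327400925245751234026490189918897549172104982326539093101904533822911246037575260833968070885395987221169357524345024209002841810220001419630418421169293976435851694569828654688691715204933845136905917636441679783641972041044924041184554972542891947976980303756440392106760536655293822276545080390128192051307508712855865768906522123301870536845721097112314316939084060213389640888257242772008931264579855555738958506155202415418392108931050990138779563206980334550765726012329925347521061211018633925877071211129175172641523641608296611040809117957687400406551385582367715103496153427017508405930051662406074951075428345550295207366772436384807570568088967256464107053641373889741227163908489655884468953280231368589321983467176607575264571318981120152455802374882453367408952974724563482146795768774112076688762324162027207327520666816225575750351731144187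2117894667607070203066795986221878283800280853882623496705493104712306387647794414285189142381443053619333474149194858226545376480370466044628699859189340951149235286487821046804060413909603302145093656818378320302660257197882025749385689171253294760349391114217767540488811867194674414943810792906193679362653211737900483428477956625141691014556138114794630440353205149192035970239799052507739711033359757667311419892099448439113779539575675953980907801733760336383153728460301923524075462112422088779915497125574277611965806878775827486655073945235509559518455349351253078050265001059865121843451614584720386509053939092687654328249923107237699886360522940539217144778111600962074872860467772253955031491931844132817344626584857711153546613096523925467749936827080405498109603684098850186949337588988963015544242233960537624376947804494707887031307194529077402953467912420600952084825570473648171142724401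03798701681604703397715494714345958986664181702350317340592076049890134422342025845746075461596750856768367753740484872878766189016157073508273560381614908385839283362776637132975928565972085005004440067411501302191855016458052733101042207190878903088790818963761592823681295211767109584371959362787727416177418079393228703394704489211597628774186587478789925742022045847878688204819979112107487272439086936138981196615937597955121953473615689592949180813776250071013766474662573833610182047975256657659636512964774311360849259005061425094140703078188253127148352790997322304440837589521713680486794879617271184915981262976689702119609063095998349688575381560640044431178204962366187055830100561929308822314960478082951264687125882695418648252202397290202659315362778500471422045421696894455691727519720689570520026380870225355062218427903820414881132864993802573764468480649991953916143257513781555948361657809834387143976732857030242443834682535763556196949986893826763936831555494755568790091739955354384692583010007039327514062039421191999182915090921550843174519617861189632)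

noncomputable def rc0 : Nat := (nat_lit 2153487139975913775135313641641057964520386545554860836614202780029968610782145554501931661979679320495270088736861835601816866434765863683222650931659359571806181967333028438641584398890221323508288984164479434520783780764129495334237016929617806723058491906260313570215533908698002578473770390774241207760777173866605484412163355446474526509181798223341164717856399828247388399411139950939597799042693167614448679204691261788372311618215631344766844891585240732309611455711099951360580159391630074758229018032979280223578241154251398220509006136832934990793489676885187752511172139417239276226172752836078173106315734683227563241371529143999498499226504363835711458425407416200383050085943729642837299756356763552255663112644890279154819866532114573036195531913040148834366832106471593298037403549895224674601865606441781767101779790760580278597269071097035404045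2283088273871931232449237956675275699762380738123250302885641340234421640986166083823217103521667368841652735119400439371829828304473817002074425540392355441048823053080740836015655520432568963823872735731284519387309133278256893730065589667776559410307436196535478202298393089946833989268931020700530056855245515941257370706391325556709081104039671749726160692400329725085730589980756984878893827693420628487286844365648912348551480580717901900271248932169738025856955976168588858659257692955009285143727919099112577845558525541869612077883382917742932384694717939145370803035858986967963804188891242651078609189530249780049343513592940511772641758393914813458171917278763836097656573416880666332536458057353590098505805998883411873941909463611300839745009423211442923691906359778940522185880681774069413798190163666141872458438970142661891066937029656076589658470172948756248475573938924876376174648703936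4374702354928698963034387214724587522625122655468599305443270408355756582261097084491624754530593874687380037487474500637859958763503916171030765017698713378891816457567034244159552475691395270772697054276932116594014020915934985039272596155857861989965893777088019797635537208160486044780834420315278595750085132201995287900353714400650969850437117631994358074634724176520365509598681417835666247555890790481667682395069361369554766031172928562575192994629385135716626160060633351633066230542534740812367865710931176008704782518122290076806287752425490996113724604729316541220198194485072489740487040625626464004502799317484422407660520509967400000815821970484960794010645122758853330326039189483346191075903383893440370739938931395564446393057185517762935772778007774750387509950931914395506339160352656718220537250023865942256963042057810545480244068750745424760349266191223757522861573379497391006927640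7748770022108713584538313502649030425974451414434751874977821673752124435159464315970004853320208789712236476995119174941206144693073806241286808965775734629356332585381482788879748424039746973233868256122308935067306912511842321123090299172869572413219274524210191294538823494403453579205696353042384437067835964899433184590336337410134597676921144663365102215655052432638296229505785132103186724454332629612804915988103218843183247794855148586601471726780661473655038836794528869828993563259500905192066302414636047722220726198175165034660050293470420759934246858460100576810647573848419062845045943117597045451733218890794968980996494306585161488333697278681039970351647415868749495008403033089129304004172094323672318780860664407551772845202455707811751728694520648329118601985345052819582940832071904357683822586303175368562183056032098134149014004166069957665484905985115039083051053700648753187965441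4240524449778820509189217557749590043284179077124264769737801334182172043825268447429220428518409688966150585584395458878061853133832630626909660224681203471346004121960660920818319731123571922870882557671400434735821662150821103078737332215989988310217953638575738158524341443059683772218944738226663973472218509837540431211873657383484340242940437563914789429719836404566543354805806865072011777336139015515648137715496426682006528732968507867695101959196491338787372794069052271726384169629797360155855760025296920435371127106407773000435758320294068159613788060899824971050113667040260338921692951750014300762584868257173850387048413638570480224583781015147538225269905193981774360506015002719023286179732478064122959561694041746078768872873193708165776524631676286089063826560256615675800541492521633382722884737926312288916641568178537495687031275423605791501751284011557201727242389538622969910172919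4873529816054653192835178491674222172647359858593301121925874143498843823451425091122976853191878453549051269267932430711065768667767450887504710554894087409059601175769910606909628026818183274152599515536312559760384931187745680388344359698426816278716783298320616260959239255542894059591116094489973148305996007839116336533058763479345979674293851051433989253798415599389324148503464284425282764721927665154100885973618412950787826199732717658756509288626075607859144537984204045547834027011441530328002069200049845138063250700265333468188055827065068385108649015776831247132700749777051231377072499106034882116499445289039076903910383710058547001502606591242258364585334776849528453972030149081030922450193121678604518362115245404726391851297307868173014495541300166320375409308845279755811041106439232829950063520001792182914227003487714569667906067104470541578235603731407546704412517593568191224078086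7966297487507560659702503106498459663295596972637905857874933280088217620144214156760584238333077390367797429196211044615773537279317880934503625556349785219414367194195164448928717333945434787502663709286664885446375100832747797678837942885529364722166734638481016262747098368769398625172270210055378978148587394288419926392810740051183767403564461221321001362126801207802550926564918650638158222481181100254510900651457275352175790590310022634701483003678134785452896670665018415874563100539914878779998289640546217700860351191175885572049222596187695365030742238353753939008381333320609652630670877192434761218478184325934684671891939060112410649644670694813534242365145796638252317676280266853789087056746575213873683332137826812193873746477099617303948701872857977044417840959949558678476622022891205392358115989564166752840269373160803595239924369867393728712820159601598073754229614598745035307353095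02746109329929230699291628174436711993211846375569210565933229663398296817817626613650091340304876036320632894256581461109867184039595440404189795589750574422501448471327289330668672756082417053976035398587176688992039347388545941564765149712713775733421785550448704858951779674633945767647383228272168735047754026639108698637751417441130925545605572306832594098971112162404650407654880706400143436268420726430035263254023162547305287113452638745636877250857457235776266187255874469920756005444814392259920017711852522136725816860999595739938891090067426761479146114156484898030450452751030422402020527047321498761247990126840268074904782082800990566406497998320835843243214152923773979842234337503237034007619843201226446404269116846760902014615861198281288586227012335984739448219941553792113812176474180577898348176311385950832452078795355344754971420074386574728667250714665299374614606177718638766944116954746492769922607709941563899535127907621810999281075275448500609994823479700760350853306759944490910462158723043392077906745420509115819998245328154126765434811673739264)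

noncomputable def rc1 : Nat := (nat_lit 2189407637623603835584701343611070400480574644451159473736821156470902269731725320323616424132802176601613046908390600316130265853569300871861693709373985511158020714089934723012830261604363995134925511961677841224405876363977425073868517481593937755831048737569553159003597360444019401451637996152498516823761276730967889912738607628179221532672984370415270317158494083663546773546531357846204549034393863604432425577185328795314798586497699962447805334660639604178512990455237592477172234918713747242772658992054424415058377632861499944514907874442624936546412702237262606458994095139716345743412136697656769873793238586227323604875257728646697474300552468843811178437397736206078785365516608670027848933839904281015458102219975557686667827006481876270426124216553494632081300906825545740610443142816267282037085332885379486421662598238248587502032496522032491727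0242507659774864893087831354544304000007201335848776528118546558166972783107427960902520004635186905571913293517249766835691822475231761170453463793117143118464417857605588375142171163285976878227678344785835085528163123441840702629570247827293356476971651477301191889657532888370141934101894662073790345077740305601538232087154078557049239455715744859790357784728823062806954668718295250423781887495136805706010528556113278321678624924274618973865243031918532170849542624228339607803168252712627137950155903997029751670517945619796589509173974891327457230367086811377191867736192841798130350071307552180474894348702770441632116610663135847504310427093692935992506987305420332742580233364534277582893504758018970644599273200289547410137045611278789267496182936391605704306703905850569294744235979387153103153696531319197161262999983801545720186693807811172984955779686136971434972770896536263676813481191135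2997568554013478471350627532420219523525090214565748198856883331424476285050341473140143453189111842908563462837225528360314547934163166096519224357254583470317693857307715991951508331853380651626919299785670707957502227343315463977766836026402227358692584333843718457756647867149324218384342598145453646977792795973385695139435366051296251943008000627465891295670599187600180356234776875793582406404479233665038860875618916693178588472979313033120229864783498993960060771299373355241969534461488237299096514474015247393617530680722681352874225328381179866520536935387056173320847367051419385676512197216298184391456587560796239158847110717170084568689909898377607238092098752140898488577210235608619665205094680813643781121033936649997540958053400543937029918655911797898275724940254712653488426208416554106331819242517417723505670574637740908296104059632612638236014166299392823215607281567186341460181834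3564751756003443418386523120754100230448081716031827410918562114391237240120388292550407902951874018995737056433878460694043969205777316237744226138284909795055709389653414821247421449468195302672196020425271397635494980805758753549589226333870474359220564379255648826272967009289039838407588226461497558652626604323474584872062135682975326178154960112905091750766196878493198203549895545772506274235644093412471307369718208994510163491811506102074685419723587372284711136804083288792518090489887585449278194413669053871517676732674695417984323922729492578464244061672498805134612106775075470142708572384618922621950144707892432458390715387137521794439567568381588282763169313053520592243823686924823670032476736773021770040405637658159220560131971425152825643405990046370893965265305312253852344996708420367056716283295161753849312315784689855425580825503906776194625347701739037240270052772312684122993119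4883124198276333053639866833333679683411965605623114296436352838969023341359518361233847069633415582254107046207512441393112655874466007211128070366160744265612526028386822931990933354604959311837338336376877794338474417738295844997153239943849404105999986272632793238533991019627279109807392436883445769440245966523612603290391818455185134885989343314605327930952231612606474538239118502709661128325907089859696677242672173189927406852284502939900303093573386566771587114643839793216036052945830322870441620641849271507260352607224243496992567662218907270148242402137808136952446727061512463739473503444646270991671776496359291891978231540732076164099434491924133952414580549414501889779819188229102897449668975046419094031682514490611806763237941931015129306967038232017066092915003317162874841109664924758901745658146294222642234690679056467867394454870048352601308936653256109303167310042035452406777886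6882677867434345106032641666942871202998451307431354431068398089583586083635567184192337884327135808774155436677430158506400812162142141979309916443134527988275083380426136005372340737054955698067395016864996200602955368403890169860816233758776151757261058579693276312903210691973535968494031853272919293027805075841239031311152629833629884610294181946655944881203900861311035242145359305509051612039886320798773268386672056313732839902820310674627507206987394223134821826672736647661930501388894732110507671969193052988868049077446425616184187542971486631785993149703925463546181828831383963505525660135948458739157315996288978670058755903886366281782828401399278662594998241765859119898884645400644571390105708339544123410668109973747271035291122255429830371661761820884393081816960307820161820107244405654732234341797075932129973257798168830052108614893570235549873367400920519682881373705578798324436310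8472824618968338517394606581558622090751324443103287593652509791474881625740743027192370182724685468166992111391853081626603081604693298433697311768507171105785488565530030361969070075072571797078682809466444221572573180409246327200964477966761091054488041160711137201316655455506344481294553116886011115778685164365828773287787143165085566656740488059712185972517143174855323174982287469407470980113169579733861460293198556353080836325415959527863264987126431315170324054027046441578531536717288856247327727753897628386218948611972284862464477331822484008957262027319665493368647548019062370123817765330336631121633974820690433881258987174239800353454816503813991312759722927778132392408730951996202310186924722021829942518035611247529695413617663664027381704026373477965164113977455609935708109762899090454583127103315601859008167533987216865983570996328860062731116009024094522277304709189702430350457695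29021959886204038989343383406508978001081194222616814023952786744390875311878545686358985329461562140764950283339812463399461862551995121123985222071772788267850206154302048437299111096645398409194380127195286827167876879342364633521681477383813591976799996241667782591960634335178217026635407969733272022073063625152835091451195036720028915226998074571815312690486016767832107358966025419241821854161496881410519098817670515177846845356843815175373792442781413970707947729001801677319927533399011773637128819802035295316909932856619975896249126511846988390486040420814082242328507376249043505901086987068781140748593203074640176364522696012700333226423039700549965614149650492237402309455111081870129558129966614900261607805655567118072296318656350311990940085301196207942107911382306557513119273707549182615892055158542233487578497079018224701043333452142293420375137958526722309576642575304063269102470759971675303317525020828347413911885601094689410201857916861535547431315370606602872588162344291326218502210960918652347689433602581188307970097077092698039415476386996944896)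

noncomputable def rc2 : Nat := (nat_lit 2220243155024578667213300935433420684665435264204178106104813349410307390439468257215120983294875501145897165674972565110377452756496006118326832581163918718206197455962769428006623288858325445206500911896818606856183088451588530814123612103684539241183609302068325561080075592648242077776260193564200475555814045402895749788929079846728691475612148946353209521420707900642702452462469730345959972177051046418850869191624311622986164756609051727336981932071648074101161880170366332758461474396895301310467127334141255236065054328152440175899465523509069835126936226713520061447565290296003671806390696758451745239350194500507556009292190577138215806212838020689911825463355060912428233285905318717840175636943930211257596576533801185033737928203650671295314381731899646057381397139433919336348047689898934322555743948835854878594605605841921500838040615042381275135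0163091490732634825919287118020710741657359566538134618652385290577361837694743668198859420687127229487810054299996567221712788801367457602767375505222126395952049478237567381383448371959816856115009144207545475210610875453898171813374841008373435949608963256612169202022711155078642205390107214959676805002492277187966504309062948334734911771325976128110743205374502795503458335084334979483887537355876015307226207981781047786937996640446725398155984412901505945058981040677371453456340945656670786397236238674286364303451567378471651688267434398244399490494087825086619100481912218975271796652368620233193901229610114295496551598298115685828434735971733514570505577755817901908069528484559080426007551569771313759443972374603384569338280250233758760266997213559295734550274253820010467638159981009776390946440572583796397876006217506577524978674917714140819743736703883378905745650812306602348547380485068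9768437980355314940645235634897780107978294093100483552353229825270304250652749053024046069727936311909786174974498069781856990513622337885477003931731881592833998532003963002190206096592646516764339092259692574714533350574677366471256696993821552433314492133658476868404539731124300217143847141125800129847281149390694331487048632820473682912375387462073345522899845586121155209518724117400637456151385968183308244548934111182348189432819412518511333282472370237267870177134815364180614804463408849270001498818263573101498271544755971199069377552799307229616445017964462039788725287296056313737043971391376103352018511358067149484951613485501160317971368757811990586020160454762044981813157539418356877632782169138911918815090740176362639749023436933919525481479984046090115231450735036892138040820990871503885364031737725696019749849612329635731375447749002999428485322924926635026780422234752216849904563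0687078191415557453504427156686689862517702917796027341244895843144369352830522377863020513491354339798904570811892722093838047550839880756330912992288487915402810028808244475315510026115684351862469302546657134696705395867860880149706139809526057891536786446440281313381011291087324755391089789643002272659759946870868879199466618458276974610502082857359361737983449744187044030939394102678838114082761971596695210856848787467511265692539909150526517305011246691903394518470053723836028475330514672552584158509092396727096660793216962380802420357537389477007910023215612946513598563539955218222493429955072888928760861713094119784284727916613591781859466048332202863042335081961695582632260121643473888504277563124488899972760021300915542145356704573917627338261476542823088513116942234260429098810902542013691549733908493085561080058555861093939542178956251270828927276715246783165781375214057627970940606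4144891038167763922723424311668549060330214136559449495012348221770115904945387926441038882586527562766781594717607702562507207344795992094555749558492930599268621086457896293324123604676253561678395159992195624027471286526221626572576409983706820696481750008487241601732953404527279848973570449577524560869366465902019008300353922031593408003870018987721784234827259807525221607169297695536899835496712303602457479964089724862189373733364114062071299571152952547305429388039351156123559242539949777836384828144726431344243242911428091808808684020045777851821597294144746774563381813953281831943934746314488211369521120999721410761259991486843952611406213928980158844020580115740943017439924722397657256183118312651946027756992020413528651292880584040933055321614821146484045301412401734106440207163571393945131766510160932163969003229429783466280010373361621195100228359919835220809284987874121496861961885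3703203432889833275743611320209863550242055750049925162539881863355999482815145126774324624949120360439150622182323125864542181042476561038620082678289328587439077138609745091349174884031583234421569547278126999552824840638790475888882667430619339039532391278936830579146461947175368189482067339709459455885360319378501405602838129738275711595867749742764232145525816672338895330387646622415260679744093090765884943227808741484464257305963369002670573835126722457212062745972828828782478118573640833469996819774693798623975809504149304004688703645017546417623823186485535044442917941408239794847671135330867237777656810017656684831135302309296145548281480403413307616093124252256152867681346199621830270056605097461677818497889306571076689832881994101597032873819510462059247562047408947431873996944595744706456549557219327403137573233879213021900355965067845640762968174826058837152570224328607711459617615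4795659997948836032772195316911468727495851653516605449569316866348856967917772363550397960763669383595160399774700020669966016389334049530924752010165916795667209672209802711712508997667208914018367336455184379849599567175104625682854670345077501816906947692370531112344594478504917026440459392069489347559313144901757704341718215137109778666841767895476224830479658400369657010321560504139710830949801059917758889696896610518674468538795120147045237050533128598931073738596928978947128393164124857323463941353330367031800193402031573473077298231577904940014191143266145466415851506182649840621159933870275383597990238997299149381571928145340529499315296437936540985465264339334171226628934643321373234358680188785487463385784264727845253300483538427525455768192878691878418499171447012804342315711892629437032225045082092742692008578294247008269622253502031521947280598519648605943369654158850127801253592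72083544016337119189907344588102461979319564375978324782080843900333247815583832027794770168377566281635489812642500446913569391157997135322238665831605376218991928871344407399432067925792738717100221290596422424209669706062935347129003905048288011601024889399038393303129243028826894739358861946730498687058201279857226445854985260486342289031066221074202308860022252220531551032003858717099310724610215951119035762474793471834348394864730460441445949110706155001103737719947671615840144699024278746266913004412290305893261509989906727582682421636696418234486950324384070362989932443939491245863387637364164504192672151447273424919882004975199635802366809133757880530470438735153618178347299347589988258391882872418212009165736584886142569631504700596658267011027933308609459581866084636433653726113250474137520084540649158779846708546958772929537535636835238125339926640885567820320707341224630253999723083933947318003364331318475218995189696151056508609909585348135885114417087656457667421693197443687561590204494453144580736202391615537456737670281855384912059286564026449920)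

noncomputable def rc3 : Nat := (nat_lit 2258156252710471513513867092782203957815015618690608596269277875954770057823618197948535195063351145519340148853207719179271696614776238733618851895719090811052653695491091023657883626214020694015854786912352940120175039726985483810132152818712267687112337723485799873564517808365616514077638225306960347820464563349148568983870506535197342579433838902793658290909373488675059913327823493680875189419586756184946000290362058422995352678014087361447133672136639019318506389187524723888345490464605578629007121294037941179294604675514247631932730428284454194005626250554827025752468958119843459740725779951865959471065914093422181790203803315303353064922542676453495107814596232735519454708103268794047399061657200855358789939186107586923420749281315377667429194634633125338215641617911133209451301484851204995741733297848260509162874800764622810003438806553689742182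6829455698228577558531476742832127229370276028644088003985044720411416839262892655040599179392302356292926508488341077804236861312261655631592156983441254821038910241568333752383439821642853986686994861845735620928335825311364970948850942164150259733074261424781115295498075614159905331152286294141485434089567279800895582390041129708844837186026957619373706006107784662771417018277392957391905682529237688959472830479258302830832466813095553163480530964649146118816205727188873181230113749480708076769299832232314606573812901618152213053297269293577940468725066638100222733265344031182786617503131823389676952995850899676367698523276508493750748273551028667214185045081120237299081818178971230946949182361188258411228435613803747894326585752051952286312054214080667960157269598027340501661787608534167250930373214853205401133191922657208833304604751755869737199661116184694751489539493297480608378806116632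2455427658985616597564169877483364114982583695872375868240601824554861233614080444122284477500725194717409701969891604338071255661385934059769802877878404795778060396689916920272697730013781589022194874863820854289524255341603614070940925166913075996291478953002565314399405233492033120705725743985308860954645787141084730994153491808492068143768002306522899474103071499455243484802504073627143342067225645767037697996989607294387203470979602951427934048994567558766422939988569469748424138528900116362488262539264439608752995264673116779668350016192586220742563116913072246845517215711443292379549204814058261415800500634964019734496107977881455631204502471392761784190276635427916897154741434477528429900054649872586251780438721033693332578766584472216588732483046465047509722428053567666475119284116358314217518195092487660769653366957607346975492247251050083814030555864386399403167521709761141852236397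9698643961416831300852257683070156880010886963027160394959403144492324612093800798551937741790915300101814050997839894099463514536831106098428859205951687485581988370646690449560640601463014064440412326008233575339596732007173407832943757764831007151042918745563372549365072965776991366728062283722332106985240992503609506191701390763162314603893164691035035608175490853468539043690452037950757331502997768676040967498764848828352682248038626439739603046590031969725834360887856401296655106175478224470857764856043183807012598054832964061759868737846214837053077620554268995669672714865598528118170889626667733822881785467396215873583765849181547518678918006999314343776319090631400168554459939702564600725496356682590466882465694257287694755004449089979613261497888907941084401769778800031830998679760561509447719310679002464760897705454515117143928951043891202883912711303392283823523839274398357213609765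2698462306408879011498158725853367935721913692099570224856218268657388828934767773318666918154922401952159073393557258804087157221213557039177163352592568220877721197862646419601825092565601872604505932638690663959429291118946799669955919932044471312185726873181691817085857860549965908198209812961410192828893560564253284134676469329950356721345868299644245480767217981643616988874180375053912995838264005484739634146332307227628174787280567910713773656513245114130324700930453812850080322833012388829623678108995801220058736423389664957134178829510599870140817148396210973335112394578854012349439680563531743166278393131437621595782512574915256038077666825346513377113197719254991702094329283781551548986268658959832357087164348737196676145377074996540758577351572899857310439851251341575604579438585921881394070996971441967328216750992631572118828927252694443797304617294587291807827636177106230271793569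2783212450774044474719367314420928954675208606402446813838593947008112456248045896719939162325124840745022776461890270022320245486740092940752759767322998276085065775566309644482568518128529700961119759207249439649634380397137680591812792683346064581857109957291967232700313197412982288380912715386963229992964660655377661792221955875861836707588141753200158210501787408735079138748215181034493595877964726518193805623421850850902638534275611111403391680229348162565803961664982425236890065199733012121250557117493114200795617888103681229783813919759275600956340629489479470570756713857574793179192619493177423837880052339097372978127267685001662369523495579453405318218220944514844774409096797900805203270111355117866739489783135147808572150448906017300916540689934081128604030553196710056457144218418028458247271577373359757627255874552289612233337128892769744599761225965769954574179396048536754789859329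4497966612550602513357048223917810837767397296651511470531590163517437648308474677330569367609094844360849753056654383411988791130611254428163126547630181633712297814924857605868878231030598402359386058705323746018332109810777872589060214713710817244443971520234506889595014670711165333148984135920011539697732887892330835128840769534134911112082311966111867606548230096843656776285290776338387283857828010807903956787252921905695832503992052473844513442030981474736275680387486095540974686090879126561281699962075595619159068052684338112985938752867405556436853343131283219597428777910584968104894897857821574842394129576812215016151608945666502162284755200210737946222550098453617853911096442749015037302184782577735502239617488564017960765556538409920552328128349100338779894828785414546928884804023309984218337429927694616381480624086659343631903924449332573362379627169141749988220995822459415769674579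48131300738703820073238294199059978025307648378139259904539475825655335551262759326963618997830958899151724250680907165561281055582891342619363420981354197218046992648639239700759862988007795910323492984880159055871155502246331019052466077808483480142725273606931150880320901543634721830575228492738847323624915709799770848777666314883698432542376748532697506755694651825930732801962617559298071245929280436612772872052024757568335166001402736003272081799452532547652918308403941072802987769532244196957521553196208828464993079346862589280810594890217039310645750995574648178781816974314567326983901635635197660992388550600233188620553398252294968478933368695648558667989934726183218857925138451181006653346640678811910656332082832092003267554576732356010531259677913581804135334052159386698891889501898138863459552651849153711930205141844447288181104278280201626096637554796574155316408900349596492049037621863175749887482322880263492383047526179899550869208010498284058626605578872271150721156450307280571495898557174693545488621257220537690756198255965875852111233221207785472)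

noncomputable def rc4 : Nat := (nat_lit 2305924942198847967385296592434629387607857483589601067105641483644482262679289336468402126702594420341365389157777776323892423644434324869572558890957944046762136081921084279811017379776571030260026519515437903458529375066289105440088608713758383546040905669130812469642836617118492141328418516315929581651493439351002732843157232485596327875990338951636940831197248796455661957838655280804916335126166814724112581719986848292916247130521973103475842596543335226691875871967493981320178657233797839096566590961325201776354186707004649306275589417810535545218728389443287609186151906670232250303749807607659244828821517023161367865857876566361419989815336813353708757202382777443681873276040924309255077880265225553986060694302208922120854906209677242566987044260506606622569931251195768729943479179617731784928475393201036427307280098056007750257016201945689569158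0690602508766145951069701657317160151557208109961255676237945168272124203693326298115929925943070879687789246782179406344119813310050820789867967514495947074988292922749080886409067514836333143096669760309192860663395980482860060848878725466388514171742690860588613747566135898365763875445198214039353225955443924347218463766958874788132370576515134866001471354672835756318703176393831628809244650008675639359399101222948055049944432407462847133451325218927197101504046375754959842852778579097784542706064900925514550213399677537726349510605213663999683060029731513095485944674440601957759993463055736294160237671208505526471889658617533253443927384999231877195672601338892809652969476515317458489326296860080467259753340521000265960350557737230704656258955727343323504976535289253489922317469111570056969183318393460037295378034015564519320065068018616257003295046854579507749866950771234325219877488695665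0186542175805995378373574016995999998515758259598628763017889116352290161679845292383248674122567771329922462675485677077864921958922189887620221705944233985040485907541469891636123646281574416044522028430787194510530136939998599738211749351705892954876846161989698605338427145399100282055198773490109795856353924036770647298434131801505738378256046257098867559807001069667195809384178356240069022550661969200398893303770501734702376770146810677436659336495823824572167558706124076976750380933241122898532954079245482958998731955548591684120832737922158164797388804664744012444136237249402160031834345361308040896846630931151698129674879348561453456429923383558604751373717875854554249163182675688486951608943662301866811467982939964188693587925323781167881915600630558224931181207927198515557193476729330292859877137347495893489714161900570519168103898240424550228597104371291379409365155787455323884111152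6394029285384652913561566369803989972635781347454656021936844419294659312261051793718035006791499483781778830294685728358060867847148365748034497075777055284068466576957630348679949405108467028381770305559574360943942869297237133294687063081516384227928271135247428408353378648795132335129899646632987565523243498960609446947710901945046650527475542982230964417947194671668055365665128450740699489614154627204538203939844519490112519905813491724168177784266618508918048768807198412429283074621944359751219071525181036294331691274714504779367524504249968180856303941506887291520781071081066494861868264599056719173285767625927595811334906590965722677262664609437878782649017699601653825053262844604369083404245521912683547720826089924822853647222707253756163625017267208787828750087524091281949199316315686286528445041198761392768703338636920387249999368320388725113352751550683537082347081334925140254965754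9295350665586657847144312368280912142834226808151342804371371695098358488593532199739822286866105842719540935975000359282770237709235205733697893273923601653490386898625437662339952898567752245625086911609360894729631163571493104903389444016800875849991759474216157255214522943147492145866361165791581671471607294354127066502033194293233734321662344977193591741231205517910337743626726322144110409181729067378963166946563348457182920012052356635685542714900434443610279526188892052787587853832046961920071632286535998852296847504691215253930273307184867023048850144558291529960575220558177000683995014244487252785448628803609798969104878849384783047278234039827909823047175782878946915918574723570463603038986422447981491476325743156545409993607281240319703012477919494905939476519809520421279929100311518367638506572818513214201707565262906364813841419854471150348428102043247637004484080608200999702888170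4641238373699854192212193369894178556156382888651596887254026674818954809251014753446011811897916870664519934321858349116135292280150617978846264483379456990725826500309747918184041684979779063899005084818905717878127855787594628441246289312259134310165998253992874637801832715485097291005715161344413814888383741758377411708669187588320261108509022125728438544508702571144324111232817414982156062427664737990356959515877329950984261330236742702037777329380997286650835025316373696123890482097056972266784216170552621998854249228521464890948874784746108035716255123809851184700811376786311396184647149328257756510479584434001396012800704962645789317569209832148041045403386969842810623364155891551208049671819948073920495238578497340413165985415660942801571216158556618265267551940440236789236843095952056617817319398142994030807156640003131195461070840785279666084416036409044483253629317565493296674841031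3001359756967986698419101832161152495397782874943311002761724607835512874395840171354533459686993173824717374347509057273045279613086128551187538719530365650475144073208519426947446354058163796636355040340119473180119009850291877264350102665764023743442874771297038219120531394795071249766448258839131812886436477711243245033309604127376812864922684374345408230636053973090947838195912398484263568351406930051526612301289237536999369936700475684203669568799083654310760563375203668479723008806095763379188633146482948352187669392205385008657967256622946011169188100404597670341878522265884444514501261881745005147180216386264001151563589871315283010092074416754723495756202552384956894361269943872976669327477649539411834806746931962670307975924481407750933599699769602639187827018815055040266006828554825134339489881693795324041895399234106860181583410581888057604008852780148596164547084972453859425592798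44318233759971521412843224039512559396202008520600757418095150216546686018078394718515390575447694554728594059080995430002981676475036220735309260135622526797750650035066310820625251268269886008167890442453900208666593702513653795796809806771331372044569153733905017624434775026705044126468770249111262929488139494117267802716344185683092961929073607030295106101906462806893295713983869161008058822421404481700873424366901821492216624155745480031850939095121458485444740323709607419460930253447939363181541959286721672659218584338583891342234861542602132767550007589792181687947660226633180498939217698527359004082337736610929967167473573873720862404435878136205636807711882402852728887559457927480819985005583043615889061340949032598568298240289687786119890100238708857719429156359044737303341399250686423255915413926796549318081429120925766070569362139032464246109584737242111426414050795929286234179459423812151390937357647432642061297651393952786614179993209486702426342640078055050766143180829942706100417838665748554883462991059614546712355624719554793576382024424928313344)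

noncomputable def rc5 : Nat := (nat_lit 2362580180502049881882112593660670188288200460510063965406284870706470354632624342344960876656149718970063709117492565300275428348416546637553325338243836678504983222323874084369827704872931490288510259847997949036351214522161257749355171455082616679989217368346367448262558601186127538203650904445792509745647554894125587108284281394140382501798425700817517536659575079476000249532592234128915119613180237411431473042130799865237110016103871974109688844004471432846254135388104106605224304100544558251423831899937168566976943472635439256530526072383500149285993508752901924069128000844457581510389954542501824150305056454719748391496328849188030675324417722139307863823926663230058136982793812601746152190319069754421586894157725952998228719614446069443064843877851354930883826368545908400984192594729411464578573820738791236452000974746351068416475937810073862701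8234360809703191157739034645699999767744273731114165792906404340936127614497742807782085964643168054618417300392847104558550971420226667226052132156189679642503877358723605081332457933671115080364947113134926771695151672051407950747267774345116971596010869565268146279382655080638338421187733985734447713873860119922998557302463362129599025251274081247761030875333056406887164171940257688023043297277594554559715670434909419358459466596723147404342557359546914821106087984941533550709611626421407906558275531026888018882563013163411100404575147504072030885145716996368365668367145525458549061244920194067649627546234030329986949768398436127132237307519869171873044514527602260518252053875724746861436359151248850029938829071651425588516694600171693964855184412851884723469594470116882273264986316802436611180229131036254185045242888582025665887570968259569749738061487383591595369541385213713875028668351249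3568824474652305893497607651184709963558515894495701169887345686724009734954996079732922097890933387377931761376919941297825375188553490577137754336781917017433979097424826379105050570117574564921730645312839333602804861960469323713707489257971111751454906025832046728243178378882560084569035308994871520488277185727468118102636567217784644631908805082557730827034897700411373036802927592409419373003993054133433456351969607156410711270326621583213505453673078119937490608912925284669494118579824349919830028677336437531937623949177106986992561678074632971526072375716699862984289184087858960647408050669138588869562927588498868706282654195181778613941204532398668529812500802603831330878943817423627621846663693792471422525813517524232909930112986241028623573191643202100789218808101145341686424800023206750334189183216767497426917689891760906240164726237068554537685408229029332932213041955335840943148279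3567690808091756189972589651574340596840256435056679320519465122637684546212079412008075190278567313286474029729911853873052468436647119493083532071479241562394306446587343457674703010222673005016347969706548172350365799225549152665974161723483169349066222485527556679013092751429085699208266786845616052473761944517739108253785410308216355008835953194252258524875094860715563936473007756393724070865210536101140040788075746027883821262278759804250022802406374365258144933521264025467078367951934376642644809744109569673090663658403266315831255679726986335830047588959995663249251166510011160021404300989711757347407092444594269178249717804151406826000991510880259460822775541908203744938230532736091603421995231716190532580342576598386927006525664238498925585225118175338288695029979142507907844096460151861039695662284548614896419705915533619325483131101174533357120595317185456739561969043735468049094597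7169001677577618252567066638728330271423622540849370104909089664676695542639836831194515857647182006666933332995072766821059072820403621826235498680235005046588835857392755454423267596876774189372341715919443007978347182669350930786367017434747129402990511154487168940231856681041610907593407076540819839498386420434052155716719297159432914854219980383299773735021233829398766009266119517258145796931485159421183887965016199589234994592152074227834291661946560532106317036614506052582141071432378923621110844621283322627328758931031488885987103025119868524539130604778905612536068100157212019208356352335743013233379174039545743950400138869071324080633391396215578605015794153214760782030563806327982441214991482698214415186163364430134689616614186966498882811344005519514971191706411913596246670608825179315913343098517409371255033510174353125715841334404146311078546237601804842780726761092687097210810888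4970140796752140693796960306881941894536988129778379899075655363146777120825477862585578483273931465542694414814075192193190585452897314968532130432880264260023765616643523755221494960673500328085711119743786025520949099496802886210794645222261838346553753763834262926250791790858190060000509735747790170214907716205071607575215789899473962857748203235948531635637683356119153830151163319541089159555473071495612964048583815758287186433122707901949989250892039255646670286945689272228466599339139008929142694728538929141444517630992897215091881627416876082825893623274469346005747693085422903995372143190035520585029695180488215672197240173683893981456899993689361708479707287669431076569268295418220990936125610988184253926908550681612178544110596802320117527666545881931684898184436023336881890769580059208873054306370325032669096679824050060681191922282550587324776821677109290442038624285489770586487053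6958528978504265575278568538773671465412732586420383565344098182953616283097443091498608508066935324714056663556969274623553730183057945553355454596795561675573008083843153075906935406176840103562209165118759766996177260133705678095243978853217865781597289692561546724507339267193413626539836763069931233978631580881631327375398960508358577783035912574644875718020359057977719398929888234925878091428576223530980636456580605573861934690119050733392559218771196172131889346823796492443156272419828577409313167090556437928511296503801565776077727735246385758041688677438959052093541735570436729112494269841512608496839644209969904552883889138223953458154807774505492149698542472091389610521238301836856670039609659245708996162246328271472829876241465471166971040373242741008815888478765052504852165161408696574769356121632237032682578659080725885658933572037997726424973284033741418115172796519223412787966137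61530537763618216164136310095943188111356038142365982982452657012081137860769241106286694603531361323060254613935475377022205387159859408179316327500663857646496991531838992896921260478951128767760097529585204938564354126241101126452282252180644301842584917255414188523703049044888415675847842390277558784313466317436325575961629203346988806150466338956842247710128938360571621377061869634487368436115954927813471630504479684081497244791990204007520057307604965313842788420708219935539288252926996227296311091847102877007653737974042828288857747545250498271286266474008720246918078130744509967693778466836093652298359313144429626772247561051228270429115348457431725802194244831431862225133601912115886451057775518611731447832261837854628126699437182762481477081667599247003843355082520392042949655812678498114068321551003193393089321811687655362439463821152184819888724591121541531701302122425160473391907451122487306760757253142858937105547198322118977887547289775818281804931034860714804143179878490593264172202568695278133816059489011564300949242082788740834013180433247764480)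

noncomputable def rc6 : Nat := (nat_lit 2425293792801420208517709424628516914958534213159402217101432355596399770556268690310597419221862995696359117138834868361056963694668784313311950453187382041565894796672104584235298314514147546931672279730427105130327150204297937131070803923641359747966045005328342184941018156739604624456507149977953702187642449968646395266470500917306685782159237751099878721955129844487062874984975816117374590884921407736806718879890683109859035434440336310931087678877133365853444525865441978569739768136037156110482817520144872305583768420938434841732843535814844056286983314575838998922667142565410224543972716612643382902551262080660232050079455717999885246154038054736631313659910350704558099059729326262749165272095181355478485765819296276104836211176687293300376223895758581162709190847147411891576077270897021021809184710102684425143060855917836280938868882826134753909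9577427409833441047267173410683230249834515887684252318044907985173658329893790343724939822549508905565829817019814905828855957066822729031124404792770524783002115687406173746995131184751405693463427249221661368055518875765778282348750273086197194246478324162988420898573361465210600391664166730408641068316473919397149834232110962053579916465578422825339960519253619051482550898538645227549660494721715827674251150012006216880020675733248342904357075166897903445239086741543899105024446637557995185986749957870994018363069795071994345771311778064958140358176626927019979057425833734787944623491077347312902578640709619304821722643255656627610762999056390462278944942580104965149069806743815870606308423122525768106467240843252226147718062211982849346763224811623730872839267284756183340270917310280582908183790022443756430529560283000616853222072418213198799419277215155027381845278619341440021056939445031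6676575223439866803016830232086241858683539272643737029970015166738924111888752790183959606486271252298136647054718576254647092166636823936225409470466255887155644778458736202944575055101624694865339552270361671593773975912323630441478160057357661587363205391367668924709177763832763098804142987712869490301348344185758102658219434858525352416272031999614983135966122396742455840097400652420355194516554035450270401993196695775448353262849286582142019165398428515004778980973907780952268509686664797528156525187157573815733798208891694256962112340462264984511885055210215168719932055297192911206818450768422357203693368749587792231331188054613483284849776030318527403312694403618947977320784742609968490660937307474447285131393239165227715354453296334942779281080804477811942483065957699168714117173189799147147145283867305257167748149339038913123752077134287835618520539930527599659751695391395315390057365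6628881011053976392826469721927827349936750381782011025268917992320483173159838022736050087732325997679637686389967708866729061734818712187945007815405300288924931108991343391643446282878964058143279975786405737828201396891955508514711210483733804181779273656272356246386488494924606894001463519298017550978578485036790025076147272466862861597335321867375981558531598751918816623730344396375114720728926715421600500610890010690226198998538826131385619049916446506083158941718590375274197220176861349721624293736411586595982929062661664368931787829768564442451413544146141358834181620124225312134746946344417408991702361782973427304301401607822211388492932187719106673010620935475560280369732680449681107385560923439993442379717467194690268164479748255193751421776402491482903747322361216146616525442559754764753672285535412275478427975574962901790407719993979328220733946234980199126367954310733751789522556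7580614999775602572720931472071380619992171145956942337640702016103379008309064446735001869752776460555932677269386306096321912464370915077820957220613523704178030672672726438616207203264110038690638181290750675578950438952859233101856832561255567117823612794455106755224356906324884291874155190998022631580223974307141197033140381827523467504096454123271266677422852402690662031130799232148186568265324727587685126462888935670482985735762065612219042270666673331826153067572585169577959113180367198178191559739374241048663268740346331980236780170494156094137203321002055706919494089983245611229722667491120618282764646716889582749169154305371202680217660453059681720082478303024354956272972617994229296671144735534894783695812996822597349251002058260244794111259697451543949085623201151278524830958475686350038379183834767195220182892457680478346247081425309528540842052309161431146066140201822285502223436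7231176505371583189102635764752667625734683079008597054204956876891282178394733563829363915556487527379189476188252100449004658170300884084099017158597485592704584682764281582954078316588386758850916495927870139343169938814103045641565192337350791227140500855335147996752823063550530420504396869589984093321109337258307113115928709799349591499431297045610010485868388360004467036615256671301952470781672508117637833534217556379169255283017447009336560126000436866539601495724694729408089002940920730746849827972122374898961351615939530068351830999412501625336010123028000961398848389814013096309249840881923217694206000337207684165623014696156655812984660474955658892175188110925829192058457004067655097092848498374225095254221090318544877992356113838129162077564971084713191188105851485621761691167743438751864466062261536135433462485827350651912839546213309134271318799979732659066730065789021674235907709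4161462234796319329037094050529760730600299855078167073675500080695308263680495561381953451867586499655814010680607781364949132924793764942597461424380522638762077000254760687336476178844862244958079154209898919364442478303716478275932706308811558951711693943788477432060242668253852693161800207275755922019814024678476829641852725411755072558716290671774160947203323995922976453584775697628532352057431303550579751224240006281235048515339179333044377572462758334354196571080405915790334458510342703730544954811739426884127290667061785109428661794075084629367166392246985427539653393158443386021320648883554161834296187701429516934827196377427094977127774212066267467511159339657643280957716895898173699717124835324502863309813334429625716893825671511472409931064728240622441779361755949602886063240502540131495835587356615982807672144299705606034882666708428073402881616063885478949032615512584367374543794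45042631448190366466778244041969902929592062566651516188408667967090330933971577716428169916374707012807801513867150455376720714849839756983903506803545396719466524789786339337457417498208091167109284181275211797240081708045116135290390713669552719323753209825998506163630858596525648023907945833540789518733372627942713784906417033047111961729710343897422596471385699780743929443506679277775259936674034375065411034807512622897398907458794126091796248583793345796992317218557509130381811033634227350993116078214059018865831223670113942640796268303806038928885462122851375505757951009586908376245696635083270287247910501705037828414918133016426411971865817266476431325136134307057039671423673413588224395683210831101524876708479880758446462467428609483718446059977528353639335874112328982904627986895522636165177540147557664266491783177850617646040304388227413982857498629094785032118423422102259268903155422500893073792161695472481576034931420827013006860924522666072322947732375404128488799484262988742267926695457359709029074887654473262654803886160921952564790096336638705664)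

noncomputable def rc7 : Nat := (nat_lit 2513473903804132808420426279527121998137706345845157519618165179416312631641253252980754219510257551040385836872193798056375717625064065656979958450010093062663176111612001176621506299448243748786179484512403656997628560122554387051088823731327884288934110868701631625653616125306671340683876842574978101740062966238483054672277600088668271017190418067910610573429796521086249468912455193448734441146267634569497538757391335078944942130461944357409738336853399734578492614627907071604776038576210907708384719057842440323845671826534896358585409172024271205883212863652161062733128529384105926302866940259739658036348364360117738005123305183871143436156580217014619793467499048031922090977673873041656545991654137428144058132299152877380476906795306779978776608521855118624832772215429149791010553016568913635008327312326381028747110950849634522656490942622404519663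4466230545323377464321618758751930130685294604084713090259615585575878323272174495712951187367638421779415381655298936069136139479367297916947425675177199323879649526802801100602866141961585501446246146634842831695212292020581740735205202644390492714837648307825042056373786582327495115149430426169008750302162693275562864979062184780571714223905436797920173271306544169482621998180577754446225621290539595375500462518842585912934638509582618470289485667522434680088024394382901057154660785556561327160163228150762676377207627792719708352312642898229360948850192114248944116993132148418154773576800160764605872009748175825689557627744646160106626164882010790543214538545617212841101081758397800058789503296790275207284942318935649101471236411296777671817121841767655645212497277461363306634675732600324929143899321453164401756709537806711713449239596371681146010119122638202772061590445016599050661826171812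6247474117001038305271897427334935289178242038922001091393996536382200688548899513707048069587797788776016957854901779934692622931886367573262067837037263926005073639575774671225683050870893932887705552308634074693243914466255827505146775599907161164740289395536106204327349708978015239365197678380233633119909537840186638667385419984113934160572859574057454905097574919275955355269670212550279625179779004579515252886529610432136554668915884734834422312589914913959494758284357534943874648550578069843949376532171136363477022721011503028159971500229951116076702240717847770202898417196760969241173130603027327461924176854458346867268872883992575899506304333863456772716028237914026059358018779300924526666736429118725277007883907950825890550519809492163170235384858753550915574046555930746298591795860549975758918885376387287711634570667968265166219086697552720316576950033543017505731463879784477653859965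8265854057349976111426250703654641427252138782197825016982487249295092974803356206081648310296578572691352233547162375738969997196878511462666980864279764362775785220028821074805970353003965329628648630405970464420631736350726794114259254487353268213016546918702106798569241254395173513641139451441399787287400538189905699498181200660582713742361860754313569436902852468425174030052988963243607138085903213880109724027598093923821873384125850192177340710714889129348062740209012196018512599685598249839521474226981605862066208242712979644538722923296361464038882441072013302193685447685198846163359740846522286091809686511048789736133440216871421072892716338164093387469928185534080760711095677385363078194728034979131405196083807218075431810127021053798530224942296236916258547906140566160152298056693504998240720635961324495224460611024634064519174658023626870789930826604860569887394470370811195348225474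8952021243511022416802809196110361320053178523325498645274509132967788856882087486520889261045767118875197163735247702229438996173793063457843449135850451573978875671444198614556440708646748089254543908344654487556545421871800163353370098415975911402279349083223774591747514534904358153313322127589521758488958595265870656248918072373244914959962780249704614935075474011698994771473082815564777788463539810035002716547078983471287310552633102657023649355628006220833244949264215185628878881156288995521533937336875954708275751187375561649715813971732241362878392677996064539417933773625907773493761237526508510923258811289458732181662723459603526541965051574432731942069391352947131350577513029394466941803217127286687308458981308806466072493919040808249100933275498165383818615989560428893331856985097118681860900808682557897017633179382320149613710344003810590052920342434683915865311569002389189222778128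2708446362289251268861624459445826422503481950991964871575524663554315366656098253612057344968890126063425354038164556387247313941638066603380498875309374660199450142396251375223334760506512574105675468364976186094149406823062986647577902597472627351934766861967143421944476869042947758940414317446217453501355619179208003524031413843020554593341292958626298122297939714418113821442129888472484125068082806724272997889805042179065739726016790473441553682182255751727520638694575063763886097491239173496899668781996649146284532982959859747203585440075684648772638079604809272440608546269007944574308904003621897058030633258243671672656986941851362441241159532126662749667314039353578587268352973931522942187871110466535938196762117690954065684162887819262218123940474368844688767409050485324736518420505398756874797844324736100665181527155862639355823761918597557207760997944482125719900045949549149086183435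6635456444949765366007374942283263746551374869620073974123086382278548976443798321600401357771642796887197217417504337057021419044135694621961135227436955999010826195280375425952192968716880772655883115764094997935026703194958125420340886232814527081184688658377498014660586679621237780629658159099766967170141598928294174246851812144227748724723879373479751099720526862403063645734704718220550562536601868904624111542103455884775554683433949890868047408588903285785578776901855503512640818564927141863887387168642663922442490903320873016713572541908360937516797062431515139733301691214878043688195081735236339125544525713923721609007637257756927849232264712778676082008776084731982336608421836795918850193392545571223740828144800083997860918900097710796034292177642545037042708266538890715144316313087359964844437202236964744564614985096331381986436257468801805821585238860691530186201418602353246926361948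72389602186224406828411775519206743743239527499604745843948392880248117360105289835618963260205405441808712507844059086358764566297038349893261895924457075976244570224505822812351396802894880152783587482162270036818827786770618944223433834536220135564434244091649453890978385192538447532449373590562858017250234228965964136597846267951906167426290267620745219194328099630463284338083267463944959191527284763438857010800765200303595380287121138120924229746199280117495921913335718262946439675151290156220596182119138925869821562336369047878446002721911765430849741598803115754941318036772671375829990159353004155725393212696747338319358431018688309375774164054756598561189223061023895446851361963776792081209202255127250321870160834457446282932985834126016197554460400021161098338646049242531749967134132318689408710809432913390294790832747572914991686565445726352730582658745231505687944651971191480759251161974338390071401035127138139910437797415471108482888756106948477480501746332226362104552271861355519002729827631491239163882350856810338706526490358683682122125592865275904)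

noncomputable def rc8 : Nat := (nat_lit 2602913875837858885439496720000607776732896950366085231012678285463934150661107805344390714296917050170489989573341916353600203573489012663788887522585901840301507976544299303739996004363607170728837172920441807237482362172041180216395817560486899496395035851241130695733021875065870178190354663041695995136539083205545178531616670135714541939929113866388877284471714139542072875182994855173822070675897661348260214588290760160180226702894887118915685057318521848826257778150797067988744270191705484678961571141146841184516139238497159585689212493024580946190057508650226947179442965966474465481460970208666797283162398399046989800284046035249442367546086776821347203867554680304453438954569615419090710070288079775508339496057148576797880909355803493868592739265359459507521778532565678805057382905056890178083814312387514288649457537129736551107015103395918537455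1518558342716999550119171157800687628773563120872210269810436200642406127548481063145667041062616116278599362229009453851664326828975082605847662901717611843397672807028148471301239620017286643649547029219167042757656837306563869717818958455264954994431820644582026561384444995013364488696126031612855551414810836016450062565295885423437979618982699268118309901880874219196694229191613460309469514040996999675069594380007491704782091839639688214337686271806593763711383092041734116508471565292434715864667258843365782136510949573121259227570467393947117472414599844943723168636124120898483161960866311025245592639679448370521540882841820828808179568522819688160206982985567647657590657816723790468084344080882102818951531997029520664611241942933653870291464122212080455488063587469016562635021288225245258848768234702358432027181187881382775458150719645314750455720212419762111307440845637942360492374182990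9056662889003488223240199336361575574734490430290552079854341005941608674000678025543405083788169386945018576310297810787754165314651159942978840082914716495696723812932498557883917285036740501109079077597009816695063492573672711537241179016519637821846825303681730922419418561005283063775447918680978778046831524825137349075802870732903773324998617466669217262098362944081874863079413576851351982779051242214095839784618795850867345667653778378562543097064647160537582680407676276002825319863336131960351250273596715043276831177837636266186741154287615396398108545236242990682111352319420095008088618011701581200215521238659045732002967701733184058708431402499932753395108208214680135174684052508220946722036629613189889079356171168220368182251629241907848980166373878260690670706200866679849540430430565511988725133792151881639660220719386432999708270111036084700330708229785459783858669176718750915467073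0209726608182493879908088247922756992683048149099623313437045410972346293508149185194286366608606331621120313354865937995203169491697424514035032612676932749319945574274282962769261251472063950209615927465553513214279556996152264504086551118968308279832092036605765607893033361199306252250397476151317533449003623635570797045640828932692821075723519829294250572571816625235991276367785643278378136984020980874851724906108201601609943484432088985676915939376263011713752272605840501616956543518798766126744525901050771697805356026822672177820572177483863268447568803286419479496224089563414270763876716684649571630497028708345703160714325253173946407039582630716073840121652766686237354677156548733586594623109731319595923752330968629588189149700951923126856965063089689378741407390947472422901917760785838143779694725995733905719487192539783742187234199131509020630543184167960028634149192560911064585610163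8053759829766759326910999150089585733650702203743192508020901968086570708402782685900985015967043750639562197236062338232966163755522186885906812636278395603017762259406950638936427534540644685640542981869745703040025051457370290666989401309022932492393791676491598112429019532188985271582397305040092524990386799539499512731464148070761785122585657543764576811304450865292922880081351803269672782578792966052888681610336032351530172890456283633177928992680489181269923101622826701736655678990921229364192641637178469722554666468978866795522356157744657504424499861734831604792381929683226041428383495969220147766969869605220673103418388066442668022617681647509095997559324936133243243588890659783613232384975609080571564410341733646401268726896574309048482308073722603792793989800903453509704383516701502574383761687456604017794299399321322522974377503777050655399839160601581999117489614030440427607443343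2447679565979168484761922024017599098334970546322626537303010677463434920943511591210933066987999833534563849535523202980589221818410342577252624435983245219247098604992236158107519142702440727434713288437414440855462260183253696858672799524011053907914374293728999768266317700990584787649571843157372742610118919834254072779152310895019258747982721852744517110924038012435425226829856012808752828060715784923664155454800874068751940878902540433290316988248512508224458541516539075917752453192570418161103884253879148881067020028443803293985772688598608306774578716195364788373972113419143017081842149648059363390571552755492371513244599416028930832672266159882688006069216169416307301447180455005526066222559356713006651810356434592434580952242628299456732275250555140759869166422635649622719085425347459034653988290978030540800864386143835064885456056007665130292597627512951965348775228301547999484683301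8826680640476996544756101724953594903865307040680422813624482469364140837951603096536981805094113561291227938178707817950877956444249103162353455606042017386879515848519572109080434947146107745421939562868323644767990101940913017157922904865170325472433447736625913773103821560544056440916397048652718257340234688527521443734615603316987769320397629334009999823667340410216153507797398836863065956513240267249313174290484182826707620273684273846926406958510558483118332044173287935560789509107819441960799657018613151090960192268391038668925388130883471778637298398050629568782980139896986133386487006589504025822126805603079739988248856609887654390059824438713481995086154140406504828885857054205179276949509498621911994008120026756848900564186189297308603167222907997177415590631456469071301727064593862671666329260631706050805935416079364926609368888805238308607139109204175022078817737089650864021725491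58624359718670050401084164543272503296496899513925168115461855697764751107323497189658349540257232939707115910995761429614114204111215077062804464018052020506221454396775824373427876359768732973520859131933023625194920711220496901820842740229892757978806166257821885523356902917861436314617830485446756901680084419204517137115008902741534906464773557166860027923658458819392991517821821432053338320742688412740999717089396245957768316492738180796742936344904364609073340323667851283429625760159852534067269046968827115365787386708329404326175563113052919690596626170110367298520235339152796023398591795156225380868001829328640460022177349319891049084374475073376903442646717521504910229994889637606648335890264831165360554269689038768801430445645647173715447589835806448467968647482310638644911190581573744669014964749808607340753183613424747890194591404650201151113728822460752992664602874923192485332136937307372758213546760346613491946576927399367893308481312371945436384589557692612256192185722581691115266077939014259875029621774332652574387302090479775324788268730417152000)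

noncomputable def rc9 : Nat := (nat_lit 2691323867744008400526830150156557104934133505710662327627648555837413704903895478381939970996742845207231906453215176862375590799699129022095729745301516953095822796497665936207735594633990947078279960991064304090723476782909409665679259569852298900445489978319676313295070637707567826353852931591173707932040181723491127535973443625769842227485972428401808102298869861752713402159970223691570593318283993510946911090083947032025776542576330319609010503564144961798165847878762667566582401019624910702931626489473403081038945784760149001537128258542587580628194007412910418028115300100316270192538384409955347544386561224971550090435659383232533508017653754068121391971254054878228886014212116888864991907030971366571420537154802596117083036880780551405856382945740654700618584710724360354227708419702720066159895591224102176199331332913084789411005392051518097781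0790904260332290902676954526868184170405568005886890219289672191875106102774037915961864511678551091823660075682135363013812559171732947776862062555557141107232470834407168509045207887892967045048546699613363702535290197769329687932045564169366757785121572813395547955588039558832106149094266348675239262604068541907481506866261884451654795464664626833902009988264918732604867945760383121445297400378569741505547944846157362743278094570923109637483455292233880849604346467209222991614984046502143251525512025694678424112514220239952565496865239310903593266327150965641771535709427361115909325829317198428619353091562615334480937130546283032253359302476986735636090377970472405074447628350270965474943395108626563828928667210564113289056516562345875541889298159995359297051246900897364275491920137097425921616077379642543560934417405311135396337449256639524881825775904748070675175124700873382260130770404708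7825912876743633322252778877234182314567687992027960976948890224537361368375085612082066288992158631430199162461428043929115857183347685371003368170064832098850451436391958544244061521381510115038633254220062701208562037945414565367693949458127720324441992676035159682296700234021868449126706603975526000555979059381345368174510673291230250379899091510452917477261717291298824414739963249022321921047816045808968437481172087471563856538548164068077314656056645131140837673365935822743773539265713983616857701029222123205377061047509311121052440791975745202894180050530821103348714828091071962508135678439633499655003729084910290932532978732494459035769449373665378105508616622961396149309349766261204898531490522070191357750092803167711200332566436615866135759341182102022409069336134471811197218399729393878624831219512702038648166455052426703512410410938335469695131552478593466189202011242689293924862848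8391137441415271969088399368917933290745315054669750341028191116828892994049240734208886176512351197241241233858480758504379266651131845091893657598958405449419152931486740300586752378320848738352607944440587688129160926964095597290684736029757313361682452771796873517679536611504029887150166016050182668598286663602788992566102501655673203474090834780445328727061050886774461306327127666518820583764534860811615890545121660668679959702995268696430502496405570763180299841054204888232621454787696923750443739044907090390952805481218885992553693243394572342602285423477520420305126180554186988048060004756022133144864885871608408831041884451437254512807488979930181824464974982285899129794427222180446713041837098372222667388393110617318857618766680982017630730516602203362700739803079290397255514644741133446119185501823720137058981344489443157110055454214384555329460129598916730168980142102408412970256275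5163699201150739120728649473590800804452712078099907400890755226667969686399174191532326236973180921944628857869104839570367142009023225622941313537402066189783460300524143241617875208765144414747584356853854442114515066244080246680790387290629618258007063093677457542308074460673292787730535506755936114034331658562973159653086625450615433026568387544339946530179290395192736890806820759666565937122640784703147022603937414771759718964642934856139548880588987522205709302381968956508721996594676466342590487749165596976218803811081777188790586086855239304595895228805339649066753555492650890822180131935293893430805469646698804519011322034658800727560359075833654670112151424014158298788578139501041909310685155203594083993092758795118947406333133136644475107106969354409784509794202909718161705934203067182139465097988588281126043824317113348324583350341675471495110131116237497649102198246216358665342052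5576958271348705917498791037120176917419517287527770919290606404080354540423872610771264952669064978442440787915144547467714789340553675004423220923585905309738238427171673778899654081233787365502099326076644248323172353229031561789134249169244132895363769595825323093673221267451764657262274657304787812733828913092204520638916761182577734905054517014509800218935220340752873046255276989013183922854682927066542542427126955753362510160547257507710457324634481646158061753894580699861116243746967927676698676579314490189369120239260284407894451310633039707648287035118980069851646380523613518892170745602415391640197019552432481404819254618402387175409620600911444270674383065962408874481534479475236341634956551810014818603369897605934719317514919284671429423745305467880445883193036743256560958761428460758583935167492448233888649629092662535231152952893377619929326294740740309534864324270406802252898353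2598908996320945256864528415782233145839529888860857808578715951231741828544656220622922519909739648771886189127916968614701145962216162602650729316862577869146996087100721612209280905878004411130616708519625375803082925773040353596393689094871944324239723690756445228549850983657818580087710521831179354372470645588091617415000964584011993990010936003046174789426573440647630067755638487327061038436702383848915847745008874930035867868566617981636731251492770397311981971409992568364719638979424941683128709934150640015462174833979448989978059045915351753464165743769496657001272567083872806370131897972141784566537503627827061256857424588803123461861762884308615847824921392226221479336967960232210707539450328491598125432818578715633458210078451135739121346097263433147376080457030932532268317624706233513938428277592764262993791836478631651841683754461469435562090071930781519996002463229131252317930516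76839218800184795155943235367394811288483490848779102852963459274272360518522311459573671166828648974005305051581468501298824810252827994039680588316998076973125724524911247048110501748191697382173020307973234136971321535031235218497629287765456933337978206026606864345490635888574669661563906084478219021976121533130205194757422911528207888811415366538573234985850150500655163657004507300822531401228288764438143514523870707493198481653703009234417500291808458622876977916533426854299091563013520022601323121645989040571770225427109574943289735662789817822486155474258074357865693782923061928759420908288955137026204477361971949839795001417800660603928309441552739790493426548051937343138430197115905842776321579562738446364209196003091806629938496933143167806204813348897655656359547006846741489107074614213140260068387835155769087151399834252261249734091468967933108129217323125988996058568388956615245550179079677876679844949471323345775162085338562364723473362645133994199224899558493571841591763825997945926968588973310318355578980199168707898779088708212066081361235017728)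

noncomputable def rc10 : Nat := (nat_lit 275620403307240633439156600671296758214858138708169870511748957594345201301738789705575629650136834724576556964800774906058332934818045077411429462494037058333936575188469769084171038633182178594304134184141077583575659066543371027927439021805228108804577299086831198634231799552238775818661145201337753848928214984970041625931482492280602461480309097518404148629887292816620251274228835299198863395507998687916903965757282709391959644984355957419013170890418822424748975579157729558019025022280790580020955005122971612924120850318683227375960684668412497261683398489089561396257589365567468162946313367560943211913624255355782163776897457251119276186069837665190577146321892906394312556213102831099381643824642672715166215425900711550395066962215379683141286957609259037015797024217580617392971942343304303602834225829991680377914539337588661466000395601553084906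7760682511126250878526452195526200064817081275807864581816070329033597550997753248089376436950560336634192686357317254881162967650523728506376630167805078567801978914349050870429909147311219948205796181506856286902975905761941708853813336609380723898283026602587416910466767537004051072510370921550684713925518322749961358659431898274691379681567844666418789869249969824776345052380478063786119449290615861644459931383914790226290134234835249513625815775189628720470121090936231954803786166003042750762875171647736795727777020167360344650298122116080744831419546153877283165926966838283775821042210062940561892419174335591782894390554397130274287466033667814758212073527298335126446227321990675247144084962178976620226145237008071469671433007082151091526732710778395780230150035801851944758328971061709748325269939284027403336457954905644905588981320276391365445702569911042407198138730674965974431633460848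2187803810328461646457534137278752331140838695279411220242054796869674754898029244422237564162319958366737946631073059338654240255056977585848260471042293888457167795783197720143079149823336620003136744283821638842422893076429662765774399336112850284859754397485359682387950187920625372762847960547342917858507995917458056356712833291629338601356451816573028795501954744710551715908491680636843074430855547048833138675382202685888026375663049632492480224101197857950242491314051199715387889343781080237334449672516521137138299111389305313301818127620608810268891112349382332948277766317043006420216259211084317428498409611978337940964897065466570376304240067892696097220096532767550930817764812114824934141417496814656380024066236536931985236425481775676630662785426083709014839513832428536971008660788818818420905598510088110507255773202690708006312626566593566100186989897780848570287491897697998182545609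8229157868832703203901292695401580441531194368943735200555633757111655004193481526492921173109625337107521413184226582315865263246571007449137395067642093965808280962739941217163277135190656727577588153790106928806304225474055636144536109909970056672901387334643544379435574875227865728670853663474127023683008114951540159939006313058473345310196014864547562242441839998825526320051931728098283170572885311343570239301173001623664929280425611310061756348373721077178357714603373202988603256764574558698686024960220097840478062882419949589009615933531448928579212995354083352533325680108961502151658679131674700500567885977768202414054936837804112470051905025391327791360913769684024841843399786330673714678845150954741426793969811351165823309424766549626396417246885627161092850353515353104748994560691148652192774632026592801220519809148301491751473041193973339701802913706071152935631509582444852101016023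6922886211000095085996993501373231721370321935008315896858190510313428682641264378819512379993576523568691752461879175132331963197641776778251188367356770134363040807286369853258363931323099413464808410477353559586513294844288328431862034156906789176877814990934446072513446355428959752649088834320837515631982556028520576177203042584076556328748854976725172716129860188592329776343275442382561276877702016807638794228482358276484368396345276307272479986078799917998521394646421930589239215277939284552717202101606613974329383045872695148868136447812134525240383063491879496942505689019783355191877492673242786366175728091623432135174152646318257120024150822914467772463874177777920996114430077158952327963878012131014017067004526320308401978904315775992817492926061354718668048195136641858297534189022111679254937127111138745695275633942060466789869547293021237470864771084110321681489617157513664947290630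9302279823880108228050401548807230223242266477083632740092524575123402649018991889754917210498232653909310190453382291124603757526083396807088539598722116935752434502420900284181022000141963041842116929397643585169456982865468869171520493384513690591763644167978364197204104492404118455497254289194797698030375644039210676053665529382227654508039012819205130750871285586576890652212330187053684572109711231431693908406021338964088825724277200893126457985555573895850615520241541839210893105099013877956320698033455076572601232992534752106121101863392587707121112917517264152364160829661104080911795768740040655138558236771510349615342701750840593005166240607495107542834555029520736677243638480757056808896725646410705364137388974122716390848965588446895328023136858932198346717660757526457131898112015245580237488245336740895297472456348214679576877411207668876232416202720732752066681622557575035173114418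7211789466760707020306679598622187828380028085388262349670549310471230638764779441428518914238144305361933347414919485822654537648037046604462869985918934095114923528648782104680406041390960330214509365681837832030266025719788202574938568917125329476034939111421776754048881186719467441494381079290619367936265321173790048342847795662514169101455613811479463044035320514919203597023979905250773971103335975766731141989209944843911377953957567595398090780173376033638315372846030192352407546211242208877991549712557427761196580687877582748665507394523550955951845534935125307805026500105986512184345161458472038650905393909268765432824992310723769988636052294053921714477811160096207487286046777225395503149193184413281734462658485771115354661309652392546774993682708040549810960368409885018694933758898896301554424223396053762437694780449470788703130719452907740295346791242060095208482557047364817114272440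103798701681604703397715494714345958986664181702350317340592076049890134422342025845746075461596750856768367753740484872878766189016157073508273560381614908385839283362776637132975928565972085005004440067411501302191855016458052733101042207190878903088790818963761592823681295211767109584371959362787727416177418079393228703394704489211597628774186587478789925742022045847878688204819979112107487272439086936138981196615937597955121953473615689592949180813776250071013766474662573833610182047975256657659636512964774311360849259005061425094140703078188253127148352790997322304440837589521713680486794879617271184915981262976689702119609063095998349688575381560640044431178204962366187055830100561929308822314960478082951264687125882695418648252202397290202659315362778500471422045421696894455691727519720689570520026380870225355062218427903820414881132864993802573764468480649991953916143257513781555948361657809834387143976732857030242443834682535763556196949986893826763936831555494755568790091739955354384692583010007039327514062039421191999182915090921550843174519617861189632)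

end Vale.Agent.Lib.P154.PChain.BN.S6
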