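import Vale.Agent.Lib.P154.PChain.BN.R6_1

set_option linter.all false

namespace Vale.Agent.Lib.P154.PChain.BN.S7

open Vale.Agent.Lib.P154.Chain

noncomputable def pc0 : PT := (PT.nd (nat_lit 3141294) (PT.nd (nat_lit 2938416) (PT.nd (nat_lit 2857062) (PT.nd (nat_lit 2775942) (PT.nd (nat_lit 2491788) (PT.nd (nat_lit 2491710) PT.nil (PT.lf (nat_lit 76) (nat_lit 6) (nat_lit 1) (nat_lit 3) (nat_lit 164) (nat_lit 61) (nat_lit 165))) (PT.nd (nat_lit 40560) (PT.lf (nat_lit 76) (nat_lit 6) (nat_lit 1) (nat_lit 1) (nat_lit 165) (nat_lit 61) (nat_lit 164)) (PT.lf (nat_lit 228) (nat_lit 3) (nat_lit 3) (nat_lit 1) (nat_lit 164) (nat_lit 62) (nat_lit 164)))) (PT.nd (nat_lit 40560) (PT.lf (nat_lit 912) (nat_lit 3) (nat_lit 12) (nat_lit 1) (nat_lit 161) (nat_lit 68) (nat_lit 161)) (PT.nd (nat_lit 78) (PT.lf (nat_lit 988) (nat_lit 6) (nat_lit 13) (nat_lit 3) (nat_lit 160) (nat_lit 69) (nat_lit 161)) (PT.lf (nat_lit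 988) (nat_lit 6) (nat_lit 13) (nat_lit 1) (nat_lit 161) (nat_lit 69) (nat_lit 160))))) (PT.nd (nat_lit 40638) (PT.nd (nat_lit 78) (PT.lf (nat_lit 1064) (nat_lit 6) (nat_lit 14) (nat_lit 3) (nat_lit 159) (nat_lit 70) (nat_lit 161)) (PT.nd (nat_lit 78) (PT.lf (nat_lit 1140) (nat_lit 3) (nat_lit 15) (nat_lit 1) (nat_lit 160) (nat_lit 70) (nat_lit 160)) (PT.lf (nat_lit 1064) (nat_lit 6) (nat_lit 14) (nat_lit 1) (nat_lit 161) (nat_lit 70) (nat_lit 159)))) (PT.nd (nat_lit 40560) (PT.nd (nat_lit 78) (PT.lf (nat_lit 1216) (nat_lit 6) (nat_lit 16) (nat_lit 3) (nat_lit 159) (nat_lit 71) (nat_lit 160)) (PT.lf (nat_lit 1216) (nat_lit 6) (nat_lit 16) (nat_lit 1) (nat_lit 160) (nat_lit 71) (nat_lit 159))) (PT.nd (nat_lit 78) (PT.lf (nat_lit 1292) (nat_lit 6) (nat_lit 17) (nat_lit 3) (nat_lit 158) (nat_lit 72) (nat_lit 160)) (PT.lf (nat_lit 1368) (nat_lit 3) (nat_lit 18) (nat_lit 1) (nat_lit 159) (nat_lit 72)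 (nat_lit 159)))))) (PT.nd (nat_lit 121680) (PT.nd (nat_lit 81042) (PT.nd (nat_lit 40482) (PT.lf (nat_lit 1292) (nat_lit 6) (nat_lit 17) (nat_lit 1) (nat_lit 160) (nat_lit 72) (nat_lit 158)) (PT.nd (nat_lit 78) (PT.lf (nat_lit 1520) (nat_lit 6) (nat_lit 20) (nat_lit 3) (nat_lit 158) (nat_lit 73) (nat_lit 159)) (PT.lf (nat_lit 1520) (nat_lit 6) (nat_lit 20) (nat_lit 1) (nat_lit 159) (nat_lit 73) (nat_lit 158)))) (PT.nd (nat_lit 156) (PT.nd (nat_lit 78) (PT.lf (nat_lit 1596) (nat_lit 6) (nat_lit 21) (nat_lit 3) (nat_lit 157) (nat_lit 74) (nat_lit 159)) (PT.lf (nat_lit 1672) (nat_lit 3) (nat_lit 22) (nat_lit 1) (nat_lit 158) (nat_lit 74) (nat_lit 158))) (PT.nd (nat_lit 40404) (PT.lf (nat_lit 1596) (nat_lit 6) (nat_lit 21) (nat_lit 1) (nat_lit 159) (nat_lit 74) (nat_lit 157)) (PT.lf (nat_lit 1748) (nat_lit 6) (nat_lit 23) (nat_lit 3) (nat_lit 156) (nat_lit 75) (nat_lit 159))))) (PT.nd (nat_lit 40560)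 (PT.nd (nat_lit 78) (PT.lf (nat_lit 1824) (nat_lit 6) (nat_lit 24) (nat_lit 3) (nat_lit 157) (nat_lit 75) (nat_lit 158)) (PT.nd (nat_lit 78) (PT.lf (nat_lit 1824) (nat_lit 6) (nat_lit 24) (nat_lit 1) (nat_lit 158) (nat_lit 75) (nat_lit 157)) (PT.lf (nat_lit 1748) (nat_lit 6) (nat_lit 23) (nat_lit 1) (nat_lit 159) (nat_lit 75) (nat_lit 156)))) (PT.nd (nat_lit 156) (PT.nd (nat_lit 78) (PT.lf (nat_lit 1900) (nat_lit 6) (nat_lit 25) (nat_lit 3) (nat_lit 156) (nat_lit 76) (nat_lit 158)) (PT.lf (nat_lit 1976) (nat_lit 3) (nat_lit 26) (nat_lit 1) (nat_lit 157) (nat_lit 76) (nat_lit 157))) (PT.nd (nat_lit 40404) (PT.lf (nat_lit 1900) (nat_lit 6) (nat_lit 25) (nat_lit 1) (nat_lit 158) (nat_lit 76) (nat_lit 156)) (PT.lf (nat_lit 2052) (nat_lit 6) (nat_lit 27) (nat_lit 3) (nat_lit 155) (nat_lit 77) (nat_lit 158))))))) (PT.nd (nat_lit 162318) (PT.nd (nat_lit 81120) (PT.nd (nat_lit 40560) (PT.nd (nat_lit 78)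 (PT.lf (nat_lit 2128) (nat_lit 6) (nat_lit 28) (nat_lit 3) (nat_lit 156) (nat_lit 77) (nat_lit 157)) (PT.nd (nat_lit 78) (PT.lf (nat_lit 2128) (nat_lit 6) (nat_lit 28) (nat_lit 1) (nat_lit 157) (nat_lit 77) (nat_lit 156)) (PT.lf (nat_lit 2052) (nat_lit 6) (nat_lit 27) (nat_lit 1) (nat_lit 158) (nat_lit 77) (nat_lit 155)))) (PT.nd (nat_lit 78) (PT.lf (nat_lit 2204) (nat_lit 6) (nat_lit 29) (nat_lit 3) (nat_lit 155) (nat_lit 78) (nat_lit 157)) (PT.nd (nat_lit 78) (PT.lf (nat_lit 2280) (nat_lit 3) (nat_lit 30) (nat_lit 1) (nat_lit 156) (nat_lit 78) (nat_lit 156)) (PT.lf (nat_lit 2204) (nat_lit 6) (nat_lit 29) (nat_lit 1) (nat_lit 157) (nat_lit 78) (nat_lit 155))))) (PT.nd (nat_lit 234) (PT.nd (nat_lit 78) (PT.lf (nat_lit 2356) (nat_lit 6) (nat_lit 31) (nat_lit 3) (nat_lit 154) (nat_lit 79) (nat_lit 157)) (PT.nd (nat_lit 78) (PT.lf (nat_lit 2432) (nat_lit 6) (nat_lit 32) (nat_lit 3) (nat_lit 155) (nat_lit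 79) (nat_lit 156)) (PT.lf (nat_lit 2432) (nat_lit 6) (nat_lit 32) (nat_lit 1) (nat_lit 156) (nat_lit 79) (nat_lit 155)))) (PT.nd (nat_lit 40482) (PT.nd (nat_lit 40404) (PT.lf (nat_lit 2356) (nat_lit 6) (nat_lit 31) (nat_lit 1) (nat_lit 157) (nat_lit 79) (nat_lit 154)) (PT.lf (nat_lit 2508) (nat_lit 6) (nat_lit 33) (nat_lit 3) (nat_lit 154) (nat_lit 80) (nat_lit 156))) (PT.nd (nat_lit 78) (PT.lf (nat_lit 2584) (nat_lit 3) (nat_lit 34) (nat_lit 1) (nat_lit 155) (nat_lit 80) (nat_lit 155)) (PT.lf (nat_lit 2508) (nat_lit 6) (nat_lit 33) (nat_lit 1) (nat_lit 156) (nat_lit 80) (nat_lit 154)))))) (PT.nd (nat_lit 40794) (PT.nd (nat_lit 234) (PT.nd (nat_lit 78) (PT.lf (nat_lit 2660) (nat_lit 6) (nat_lit 35) (nat_lit 3) (nat_lit 153) (nat_lit 81) (nat_lit 156)) (PT.nd (nat_lit 78) (PT.lf (nat_lit 2736) (nat_lit 6) (nat_lit 36) (nat_lit 3) (nat_lit 154) (nat_lit 81) (nat_lit 155)) (PT.lf (nat_lit 2736) (nat_lit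 6) (nat_lit 36) (nat_lit 1) (nat_lit 155) (nat_lit 81) (nat_lit 154)))) (PT.nd (nat_lit 40404) (PT.nd (nat_lit 40326) (PT.lf (nat_lit 2660) (nat_lit 6) (nat_lit 35) (nat_lit 1) (nat_lit 156) (nat_lit 81) (nat_lit 153)) (PT.lf (nat_lit 2812) (nat_lit 6) (nat_lit 37) (nat_lit 3) (nat_lit 152) (nat_lit 82) (nat_lit 156))) (PT.nd (nat_lit 78) (PT.lf (nat_lit 2888) (nat_lit 6) (nat_lit 38) (nat_lit 3) (nat_lit 153) (nat_lit 82) (nat_lit 155)) (PT.lf (nat_lit 2964) (nat_lit 3) (nat_lit 39) (nat_lit 1) (nat_lit 154) (nat_lit 82) (nat_lit 154))))) (PT.nd (nat_lit 40482) (PT.nd (nat_lit 78) (PT.lf (nat_lit 2888) (nat_lit 6) (nat_lit 38) (nat_lit 1) (nat_lit 155) (nat_lit 82) (nat_lit 153)) (PT.nd (nat_lit 40326) (PT.lf (nat_lit 2812) (nat_lit 6) (nat_lit 37) (nat_lit 1) (nat_lit 156) (nat_lit 82) (nat_lit 152)) (PT.lf (nat_lit 3040) (nat_lit 6) (nat_lit 40) (nat_lit 3) (nat_lit 152) (nat_lit 83) (nat_lit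 155)))) (PT.nd (nat_lit 156) (PT.nd (nat_lit 78) (PT.lf (nat_lit 3116) (nat_lit 6) (nat_lit 41) (nat_lit 3) (nat_lit 153) (nat_lit 83) (nat_lit 154)) (PT.lf (nat_lit 3116) (nat_lit 6) (nat_lit 41) (nat_lit 1) (nat_lit 154) (nat_lit 83) (nat_lit 153))) (PT.nd (nat_lit 40326) (PT.lf (nat_lit 3040) (nat_lit 6) (nat_lit 40) (nat_lit 1) (nat_lit 155) (nat_lit 83) (nat_lit 152)) (PT.lf (nat_lit 3192) (nat_lit 6) (nat_lit 42) (nat_lit 3) (nat_lit 151) (nat_lit 84) (nat_lit 155))))))))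
noncomputable def pc1 : PT := (PT.nd (nat_lit 203112) (PT.nd (nat_lit 121680) (PT.nd (nat_lit 40716) (PT.nd (nat_lit 234) (PT.nd (nat_lit 78) (PT.lf (nat_lit 3268) (nat_lit 6) (nat_lit 43) (nat_lit 3) (nat_lit 152) (nat_lit 84) (nat_lit 154)) (PT.nd (nat_lit 78) (PT.lf (nat_lit 3344) (nat_lit 3) (nat_lit 44) (nat_lit 1) (nat_lit 153) (nat_lit 84) (nat_lit 153)) (PT.lf (nat_lit 3268) (nat_lit 6) (nat_lit 43) (nat_lit 1) (nat_lit 154) (nat_lit 84) (nat_lit 152)))) (PT.nd (nat_lit 40326) (PT.lf (nat_lit 3192) (nat_lit 6) (nat_lit 42) (nat_lit 1) (nat_lit 155) (nat_lit 84) (nat_lit 151)) (PT.nd (nat_lit 78) (PT.lf (nat_lit 3420) (nat_lit 6) (nat_lit 45) (nat_lit 3) (nat_lit 151) (nat_lit 85) (nat_lit 154)) (PT.lf (nat_lit 3496) (nat_lit 6) (nat_lit 46) (nat_lit 3) (nat_lit 152) (nat_lit 85) (nat_lit 153))))) (PT.nd (nat_lit 40482) (PT.nd (nat_lit 78) (PT.lf (nat_lit 3496) (nat_lit 6) (nat_lit 46) (nat_lit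 1) (nat_lit 153) (nat_lit 85) (nat_lit 152)) (PT.nd (nat_lit 40326) (PT.lf (nat_lit 3420) (nat_lit 6) (nat_lit 45) (nat_lit 1) (nat_lit 154) (nat_lit 85) (nat_lit 151)) (PT.lf (nat_lit 3572) (nat_lit 6) (nat_lit 47) (nat_lit 3) (nat_lit 150) (nat_lit 86) (nat_lit 154)))) (PT.nd (nat_lit 156) (PT.nd (nat_lit 78) (PT.lf (nat_lit 3648) (nat_lit 6) (nat_lit 48) (nat_lit 3) (nat_lit 151) (nat_lit 86) (nat_lit 153)) (PT.lf (nat_lit 3724) (nat_lit 3) (nat_lit 49) (nat_lit 1) (nat_lit 152) (nat_lit 86) (nat_lit 152))) (PT.nd (nat_lit 78) (PT.lf (nat_lit 3648) (nat_lit 6) (nat_lit 48) (nat_lit 1) (nat_lit 153) (nat_lit 86) (nat_lit 151)) (PT.lf (nat_lit 3572) (nat_lit 6) (nat_lit 47) (nat_lit 1) (nat_lit 154) (nat_lit 86) (nat_lit 150)))))) (PT.nd (nat_lit 40716) (PT.nd (nat_lit 234) (PT.nd (nat_lit 78) (PT.lf (nat_lit 3800) (nat_lit 6) (nat_lit 50) (nat_lit 3) (nat_lit 149) (nat_lit 87) (nat_lit 154))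 (PT.nd (nat_lit 78) (PT.lf (nat_lit 3876) (nat_lit 6) (nat_lit 51) (nat_lit 3) (nat_lit 150) (nat_lit 87) (nat_lit 153)) (PT.lf (nat_lit 3952) (nat_lit 6) (nat_lit 52) (nat_lit 3) (nat_lit 151) (nat_lit 87) (nat_lit 152)))) (PT.nd (nat_lit 156) (PT.nd (nat_lit 78) (PT.lf (nat_lit 3952) (nat_lit 6) (nat_lit 52) (nat_lit 1) (nat_lit 152) (nat_lit 87) (nat_lit 151)) (PT.lf (nat_lit 3876) (nat_lit 6) (nat_lit 51) (nat_lit 1) (nat_lit 153) (nat_lit 87) (nat_lit 150))) (PT.nd (nat_lit 40248) (PT.lf (nat_lit 3800) (nat_lit 6) (nat_lit 50) (nat_lit 1) (nat_lit 154) (nat_lit 87) (nat_lit 149)) (PT.lf (nat_lit 4028) (nat_lit 6) (nat_lit 53) (nat_lit 3) (nat_lit 149) (nat_lit 88) (nat_lit 153))))) (PT.nd (nat_lit 234) (PT.nd (nat_lit 78) (PT.lf (nat_lit 4104) (nat_lit 6) (nat_lit 54) (nat_lit 3) (nat_lit 150) (nat_lit 88) (nat_lit 152)) (PT.nd (nat_lit 78) (PT.lf (nat_lit 4180) (nat_lit 3) (nat_lit 55) (nat_lit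 1) (nat_lit 151) (nat_lit 88) (nat_lit 151)) (PT.lf (nat_lit 4104) (nat_lit 6) (nat_lit 54) (nat_lit 1) (nat_lit 152) (nat_lit 88) (nat_lit 150)))) (PT.nd (nat_lit 40326) (PT.nd (nat_lit 40248) (PT.lf (nat_lit 4028) (nat_lit 6) (nat_lit 53) (nat_lit 1) (nat_lit 153) (nat_lit 88) (nat_lit 149)) (PT.lf (nat_lit 4256) (nat_lit 6) (nat_lit 56) (nat_lit 3) (nat_lit 148) (nat_lit 89) (nat_lit 153))) (PT.nd (nat_lit 78) (PT.lf (nat_lit 4332) (nat_lit 6) (nat_lit 57) (nat_lit 3) (nat_lit 149) (nat_lit 89) (nat_lit 152)) (PT.lf (nat_lit 4408) (nat_lit 6) (nat_lit 58) (nat_lit 3) (nat_lit 150) (nat_lit 89) (nat_lit 151))))))) (PT.nd (nat_lit 121524) (PT.nd (nat_lit 40716) (PT.nd (nat_lit 40404) (PT.nd (nat_lit 78) (PT.lf (nat_lit 4408) (nat_lit 6) (nat_lit 58) (nat_lit 1) (nat_lit 151) (nat_lit 89) (nat_lit 150)) (PT.nd (nat_lit 78) (PT.lf (nat_lit 4332) (nat_lit 6) (nat_lit 57) (nat_lit 1) (nat_lit 152)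 (nat_lit 89) (nat_lit 149)) (PT.lf (nat_lit 4256) (nat_lit 6) (nat_lit 56) (nat_lit 1) (nat_lit 153) (nat_lit 89) (nat_lit 148)))) (PT.nd (nat_lit 156) (PT.nd (nat_lit 78) (PT.lf (nat_lit 4484) (nat_lit 6) (nat_lit 59) (nat_lit 3) (nat_lit 148) (nat_lit 90) (nat_lit 152)) (PT.lf (nat_lit 4560) (nat_lit 6) (nat_lit 60) (nat_lit 3) (nat_lit 149) (nat_lit 90) (nat_lit 151))) (PT.nd (nat_lit 78) (PT.lf (nat_lit 4636) (nat_lit 3) (nat_lit 61) (nat_lit 1) (nat_lit 150) (nat_lit 90) (nat_lit 150)) (PT.lf (nat_lit 4560) (nat_lit 6) (nat_lit 60) (nat_lit 1) (nat_lit 151) (nat_lit 90) (nat_lit 149))))) (PT.nd (nat_lit 40404) (PT.nd (nat_lit 40248) (PT.lf (nat_lit 4484) (nat_lit 6) (nat_lit 59) (nat_lit 1) (nat_lit 152) (nat_lit 90) (nat_lit 148)) (PT.nd (nat_lit 78) (PT.lf (nat_lit 4712) (nat_lit 6) (nat_lit 62) (nat_lit 3) (nat_lit 147) (nat_lit 91) (nat_lit 152)) (PT.lf (nat_lit 4788) (nat_lit 6) (nat_lit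 63) (nat_lit 3) (nat_lit 148) (nat_lit 91) (nat_lit 151)))) (PT.nd (nat_lit 156) (PT.nd (nat_lit 78) (PT.lf (nat_lit 4864) (nat_lit 6) (nat_lit 64) (nat_lit 3) (nat_lit 149) (nat_lit 91) (nat_lit 150)) (PT.lf (nat_lit 4864) (nat_lit 6) (nat_lit 64) (nat_lit 1) (nat_lit 150) (nat_lit 91) (nat_lit 149))) (PT.nd (nat_lit 78) (PT.lf (nat_lit 4788) (nat_lit 6) (nat_lit 63) (nat_lit 1) (nat_lit 151) (nat_lit 91) (nat_lit 148)) (PT.lf (nat_lit 4712) (nat_lit 6) (nat_lit 62) (nat_lit 1) (nat_lit 152) (nat_lit 91) (nat_lit 147)))))) (PT.nd (nat_lit 40638) (PT.nd (nat_lit 234) (PT.nd (nat_lit 78) (PT.lf (nat_lit 4940) (nat_lit 6) (nat_lit 65) (nat_lit 3) (nat_lit 146) (nat_lit 92) (nat_lit 152)) (PT.nd (nat_lit 78) (PT.lf (nat_lit 5016) (nat_lit 6) (nat_lit 66) (nat_lit 3) (nat_lit 147) (nat_lit 92) (nat_lit 151)) (PT.lf (nat_lit 5092) (nat_lit 6) (nat_lit 67) (nat_lit 3) (nat_lit 148) (nat_lit 92) (nat_lit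 150)))) (PT.nd (nat_lit 156) (PT.nd (nat_lit 78) (PT.lf (nat_lit 5168) (nat_lit 3) (nat_lit 68) (nat_lit 1) (nat_lit 149) (nat_lit 92) (nat_lit 149)) (PT.lf (nat_lit 5092) (nat_lit 6) (nat_lit 67) (nat_lit 1) (nat_lit 150) (nat_lit 92) (nat_lit 148))) (PT.nd (nat_lit 78) (PT.lf (nat_lit 5016) (nat_lit 6) (nat_lit 66) (nat_lit 1) (nat_lit 151) (nat_lit 92) (nat_lit 147)) (PT.lf (nat_lit 4940) (nat_lit 6) (nat_lit 65) (nat_lit 1) (nat_lit 152) (nat_lit 92) (nat_lit 146))))) (PT.nd (nat_lit 234) (PT.nd (nat_lit 78) (PT.lf (nat_lit 5244) (nat_lit 6) (nat_lit 69) (nat_lit 3) (nat_lit 146) (nat_lit 93) (nat_lit 151)) (PT.nd (nat_lit 78) (PT.lf (nat_lit 5320) (nat_lit 6) (nat_lit 70) (nat_lit 3) (nat_lit 147) (nat_lit 93) (nat_lit 150)) (PT.lf (nat_lit 5396) (nat_lit 6) (nat_lit 71) (nat_lit 3) (nat_lit 148) (nat_lit 93) (nat_lit 149)))) (PT.nd (nat_lit 156) (PT.nd (nat_lit 78) (PT.lf (nat_lit 5396) (nat_lit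 6) (nat_lit 71) (nat_lit 1) (nat_lit 149) (nat_lit 93) (nat_lit 148)) (PT.lf (nat_lit 5320) (nat_lit 6) (nat_lit 70) (nat_lit 1) (nat_lit 150) (nat_lit 93) (nat_lit 147))) (PT.nd (nat_lit 40170) (PT.lf (nat_lit 5244) (nat_lit 6) (nat_lit 69) (nat_lit 1) (nat_lit 151) (nat_lit 93) (nat_lit 146)) (PT.lf (nat_lit 5472) (nat_lit 6) (nat_lit 72) (nat_lit 3) (nat_lit 145) (nat_lit 94) (nat_lit 151))))))))
noncomputable def pc2 : PT := (PT.nd (nat_lit 122148) (PT.nd (nat_lit 41028) (PT.nd (nat_lit 40482) (PT.nd (nat_lit 234) (PT.nd (nat_lit 78) (PT.lf (nat_lit 5548) (nat_lit 6) (nat_lit 73) (nat_lit 3) (nat_lit 146) (nat_lit 94) (nat_lit 150)) (PT.nd (nat_lit 78) (PT.lf (nat_lit 5624) (nat_lit 6) (nat_lit 74) (nat_lit 3) (nat_lit 147) (nat_lit 94) (nat_lit 149)) (PT.lf (nat_lit 5700) (nat_lit 3) (nat_lit 75) (nat_lit 1) (nat_lit 148) (nat_lit 94) (nat_lit 148)))) (PT.nd (nat_lit 78) (PT.lf (nat_lit 5624)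 (nat_lit 6) (nat_lit 74) (nat_lit 1) (nat_lit 149) (nat_lit 94) (nat_lit 147)) (PT.nd (nat_lit 78) (PT.lf (nat_lit 5548) (nat_lit 6) (nat_lit 73) (nat_lit 1) (nat_lit 150) (nat_lit 94) (nat_lit 146)) (PT.lf (nat_lit 5472) (nat_lit 6) (nat_lit 72) (nat_lit 1) (nat_lit 151) (nat_lit 94) (nat_lit 145))))) (PT.nd (nat_lit 234) (PT.nd (nat_lit 78) (PT.lf (nat_lit 5776) (nat_lit 6) (nat_lit 76) (nat_lit 3) (nat_lit 144) (nat_lit 95) (nat_lit 151)) (PT.nd (nat_lit 78) (PT.lf (nat_lit 5852) (nat_lit 6) (nat_lit 77) (nat_lit 3) (nat_lit 145) (nat_lit 95) (nat_lit 150)) (PT.lf (nat_lit 5928) (nat_lit 6) (nat_lit 78) (nat_lit 3) (nat_lit 146) (nat_lit 95) (nat_lit 149)))) (PT.nd (nat_lit 156) (PT.nd (nat_lit 78) (PT.lf (nat_lit 6004) (nat_lit 6) (nat_lit 79) (nat_lit 3) (nat_lit 147) (nat_lit 95) (nat_lit 148)) (PT.lf (nat_lit 6004) (nat_lit 6) (nat_lit 79) (nat_lit 1) (nat_lit 148) (nat_lit 95) (nat_lit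 147))) (PT.nd (nat_lit 78) (PT.lf (nat_lit 5928) (nat_lit 6) (nat_lit 78) (nat_lit 1) (nat_lit 149) (nat_lit 95) (nat_lit 146)) (PT.lf (nat_lit 5852) (nat_lit 6) (nat_lit 77) (nat_lit 1) (nat_lit 150) (nat_lit 95) (nat_lit 145)))))) (PT.nd (nat_lit 40560) (PT.nd (nat_lit 40248) (PT.nd (nat_lit 40092) (PT.lf (nat_lit 5776) (nat_lit 6) (nat_lit 76) (nat_lit 1) (nat_lit 151) (nat_lit 95) (nat_lit 144)) (PT.nd (nat_lit 78) (PT.lf (nat_lit 6080) (nat_lit 6) (nat_lit 80) (nat_lit 3) (nat_lit 144) (nat_lit 96) (nat_lit 150)) (PT.lf (nat_lit 6156) (nat_lit 6) (nat_lit 81) (nat_lit 3) (nat_lit 145) (nat_lit 96) (nat_lit 149)))) (PT.nd (nat_lit 156) (PT.nd (nat_lit 78) (PT.lf (nat_lit 6232) (nat_lit 6) (nat_lit 82) (nat_lit 3) (nat_lit 146) (nat_lit 96) (nat_lit 148)) (PT.lf (nat_lit 6308) (nat_lit 3) (nat_lit 83) (nat_lit 1) (nat_lit 147) (nat_lit 96) (nat_lit 147))) (PT.nd (nat_lit 78) (PT.lf (nat_lit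 6232) (nat_lit 6) (nat_lit 82) (nat_lit 1) (nat_lit 148) (nat_lit 96) (nat_lit 146)) (PT.lf (nat_lit 6156) (nat_lit 6) (nat_lit 81) (nat_lit 1) (nat_lit 149) (nat_lit 96) (nat_lit 145))))) (PT.nd (nat_lit 40248) (PT.nd (nat_lit 40092) (PT.lf (nat_lit 6080) (nat_lit 6) (nat_lit 80) (nat_lit 1) (nat_lit 150) (nat_lit 96) (nat_lit 144)) (PT.nd (nat_lit 78) (PT.lf (nat_lit 6384) (nat_lit 6) (nat_lit 84) (nat_lit 3) (nat_lit 143) (nat_lit 97) (nat_lit 150)) (PT.lf (nat_lit 6460) (nat_lit 6) (nat_lit 85) (nat_lit 3) (nat_lit 144) (nat_lit 97) (nat_lit 149)))) (PT.nd (nat_lit 156) (PT.nd (nat_lit 78) (PT.lf (nat_lit 6536) (nat_lit 6) (nat_lit 86) (nat_lit 3) (nat_lit 145) (nat_lit 97) (nat_lit 148)) (PT.lf (nat_lit 6612) (nat_lit 6) (nat_lit 87) (nat_lit 3) (nat_lit 146) (nat_lit 97) (nat_lit 147))) (PT.nd (nat_lit 78) (PT.lf (nat_lit 6612) (nat_lit 6) (nat_lit 87) (nat_lit 1) (nat_lit 147) (nat_lit 97)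 (nat_lit 146)) (PT.lf (nat_lit 6536) (nat_lit 6) (nat_lit 86) (nat_lit 1) (nat_lit 148) (nat_lit 97) (nat_lit 145))))))) (PT.nd (nat_lit 80886) (PT.nd (nat_lit 40404) (PT.nd (nat_lit 40170) (PT.nd (nat_lit 78) (PT.lf (nat_lit 6460) (nat_lit 6) (nat_lit 85) (nat_lit 1) (nat_lit 149) (nat_lit 97) (nat_lit 144)) (PT.nd (nat_lit 40014) (PT.lf (nat_lit 6384) (nat_lit 6) (nat_lit 84) (nat_lit 1) (nat_lit 150) (nat_lit 97) (nat_lit 143)) (PT.lf (nat_lit 6688) (nat_lit 6) (nat_lit 88) (nat_lit 3) (nat_lit 142) (nat_lit 98) (nat_lit 150)))) (PT.nd (nat_lit 78) (PT.lf (nat_lit 6764) (nat_lit 6) (nat_lit 89) (nat_lit 3) (nat_lit 143) (nat_lit 98) (nat_lit 149)) (PT.nd (nat_lit 78) (PT.lf (nat_lit 6840) (nat_lit 6) (nat_lit 90) (nat_lit 3) (nat_lit 144) (nat_lit 98) (nat_lit 148)) (PT.lf (nat_lit 6916) (nat_lit 6) (nat_lit 91) (nat_lit 3) (nat_lit 145) (nat_lit 98) (nat_lit 147))))) (PT.nd (nat_lit 234) (PT.nd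 (nat_lit 78) (PT.lf (nat_lit 6992) (nat_lit 3) (nat_lit 92) (nat_lit 1) (nat_lit 146) (nat_lit 98) (nat_lit 146)) (PT.nd (nat_lit 78) (PT.lf (nat_lit 6916) (nat_lit 6) (nat_lit 91) (nat_lit 1) (nat_lit 147) (nat_lit 98) (nat_lit 145)) (PT.lf (nat_lit 6840) (nat_lit 6) (nat_lit 90) (nat_lit 1) (nat_lit 148) (nat_lit 98) (nat_lit 144)))) (PT.nd (nat_lit 40092) (PT.nd (nat_lit 78) (PT.lf (nat_lit 6764) (nat_lit 6) (nat_lit 89) (nat_lit 1) (nat_lit 149) (nat_lit 98) (nat_lit 143)) (PT.lf (nat_lit 6688) (nat_lit 6) (nat_lit 88) (nat_lit 1) (nat_lit 150) (nat_lit 98) (nat_lit 142))) (PT.nd (nat_lit 78) (PT.lf (nat_lit 7068) (nat_lit 6) (nat_lit 93) (nat_lit 3) (nat_lit 142) (nat_lit 99) (nat_lit 149)) (PT.lf (nat_lit 7144) (nat_lit 6) (nat_lit 94) (nat_lit 3) (nat_lit 143) (nat_lit 99) (nat_lit 148)))))) (PT.nd (nat_lit 40482) (PT.nd (nat_lit 234) (PT.nd (nat_lit 78) (PT.lf (nat_lit 7220) (nat_lit 6)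 (nat_lit 95) (nat_lit 3) (nat_lit 144) (nat_lit 99) (nat_lit 147)) (PT.nd (nat_lit 78) (PT.lf (nat_lit 7296) (nat_lit 6) (nat_lit 96) (nat_lit 3) (nat_lit 145) (nat_lit 99) (nat_lit 146)) (PT.lf (nat_lit 7296) (nat_lit 6) (nat_lit 96) (nat_lit 1) (nat_lit 146) (nat_lit 99) (nat_lit 145)))) (PT.nd (nat_lit 156) (PT.nd (nat_lit 78) (PT.lf (nat_lit 7220) (nat_lit 6) (nat_lit 95) (nat_lit 1) (nat_lit 147) (nat_lit 99) (nat_lit 144)) (PT.lf (nat_lit 7144) (nat_lit 6) (nat_lit 94) (nat_lit 1) (nat_lit 148) (nat_lit 99) (nat_lit 143))) (PT.nd (nat_lit 40014) (PT.lf (nat_lit 7068) (nat_lit 6) (nat_lit 93) (nat_lit 1) (nat_lit 149) (nat_lit 99) (nat_lit 142)) (PT.lf (nat_lit 7372) (nat_lit 6) (nat_lit 97) (nat_lit 3) (nat_lit 141) (nat_lit 100) (nat_lit 149))))) (PT.nd (nat_lit 234) (PT.nd (nat_lit 78) (PT.lf (nat_lit 7448) (nat_lit 6) (nat_lit 98) (nat_lit 3) (nat_lit 142) (nat_lit 100) (nat_lit 148))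 (PT.nd (nat_lit 78) (PT.lf (nat_lit 7524) (nat_lit 6) (nat_lit 99) (nat_lit 3) (nat_lit 143) (nat_lit 100) (nat_lit 147)) (PT.lf (nat_lit 7600) (nat_lit 6) (nat_lit 100) (nat_lit 3) (nat_lit 144) (nat_lit 100) (nat_lit 146)))) (PT.nd (nat_lit 156) (PT.nd (nat_lit 78) (PT.lf (nat_lit 7676) (nat_lit 3) (nat_lit 101) (nat_lit 1) (nat_lit 145) (nat_lit 100) (nat_lit 145)) (PT.lf (nat_lit 7600) (nat_lit 6) (nat_lit 100) (nat_lit 1) (nat_lit 146) (nat_lit 100) (nat_lit 144))) (PT.nd (nat_lit 78) (PT.lf (nat_lit 7524) (nat_lit 6) (nat_lit 99) (nat_lit 1) (nat_lit 147) (nat_lit 100) (nat_lit 143)) (PT.lf (nat_lit 7448) (nat_lit 6) (nat_lit 98) (nat_lit 1) (nat_lit 148) (nat_lit 100) (nat_lit 142))))))))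
noncomputable def pc3 : PT := (PT.nd (nat_lit 121680) (PT.nd (nat_lit 80730) (PT.nd (nat_lit 40326) (PT.nd (nat_lit 40092) (PT.nd (nat_lit 39936) (PT.lf (nat_lit 7372) (nat_lit 6) (nat_lit 97) (nat_lit 1) (nat_lit 149) (nat_lit 100) (nat_lit 141)) (PT.nd (nat_lit 78) (PT.lf (nat_lit 7752) (nat_lit 6) (nat_lit 102) (nat_lit 3) (nat_lit 140) (nat_lit 101) (nat_lit 149)) (PT.lf (nat_lit 7828) (nat_lit 6) (nat_lit 103) (nat_lit 3) (nat_lit 141) (nat_lit 101) (nat_lit 148)))) (PT.nd (nat_lit 78) (PT.lf (nat_lit 7904) (nat_lit 6) (nat_lit 104) (nat_lit 3) (nat_lit 142) (nat_lit 101) (nat_lit 147)) (PT.nd (nat_lit 78) (PT.lf (nat_lit 7980) (nat_lit 6) (nat_lit 105) (nat_lit 3) (nat_lit 143) (nat_lit 101) (nat_lit 146)) (PT.lf (nat_lit 8056) (nat_lit 6) (nat_lit 106) (nat_lit 3) (nat_lit 144) (nat_lit 101) (nat_lit 145))))) (PT.nd (nat_lit 234) (PT.nd (nat_lit 78) (PT.lf (nat_lit 8056) (nat_lit 6) (nat_lit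 106) (nat_lit 1) (nat_lit 145) (nat_lit 101) (nat_lit 144)) (PT.nd (nat_lit 78) (PT.lf (nat_lit 7980) (nat_lit 6) (nat_lit 105) (nat_lit 1) (nat_lit 146) (nat_lit 101) (nat_lit 143)) (PT.lf (nat_lit 7904) (nat_lit 6) (nat_lit 104) (nat_lit 1) (nat_lit 147) (nat_lit 101) (nat_lit 142)))) (PT.nd (nat_lit 40014) (PT.nd (nat_lit 78) (PT.lf (nat_lit 7828) (nat_lit 6) (nat_lit 103) (nat_lit 1) (nat_lit 148) (nat_lit 101) (nat_lit 141)) (PT.lf (nat_lit 7752) (nat_lit 6) (nat_lit 102) (nat_lit 1) (nat_lit 149) (nat_lit 101) (nat_lit 140))) (PT.nd (nat_lit 78) (PT.lf (nat_lit 8132) (nat_lit 6) (nat_lit 107) (nat_lit 3) (nat_lit 140) (nat_lit 102) (nat_lit 148)) (PT.lf (nat_lit 8208) (nat_lit 6) (nat_lit 108) (nat_lit 3) (nat_lit 141) (nat_lit 102) (nat_lit 147)))))) (PT.nd (nat_lit 40404) (PT.nd (nat_lit 234) (PT.nd (nat_lit 78) (PT.lf (nat_lit 8284) (nat_lit 6) (nat_lit 109) (nat_lit 3) (nat_lit 142) (nat_lit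 102) (nat_lit 146)) (PT.nd (nat_lit 78) (PT.lf (nat_lit 8360) (nat_lit 6) (nat_lit 110) (nat_lit 3) (nat_lit 143) (nat_lit 102) (nat_lit 145)) (PT.lf (nat_lit 8436) (nat_lit 3) (nat_lit 111) (nat_lit 1) (nat_lit 144) (nat_lit 102) (nat_lit 144)))) (PT.nd (nat_lit 156) (PT.nd (nat_lit 78) (PT.lf (nat_lit 8360) (nat_lit 6) (nat_lit 110) (nat_lit 1) (nat_lit 145) (nat_lit 102) (nat_lit 143)) (PT.lf (nat_lit 8284) (nat_lit 6) (nat_lit 109) (nat_lit 1) (nat_lit 146) (nat_lit 102) (nat_lit 142))) (PT.nd (nat_lit 78) (PT.lf (nat_lit 8208) (nat_lit 6) (nat_lit 108) (nat_lit 1) (nat_lit 147) (nat_lit 102) (nat_lit 141)) (PT.lf (nat_lit 8132) (nat_lit 6) (nat_lit 107) (nat_lit 1) (nat_lit 148) (nat_lit 102) (nat_lit 140))))) (PT.nd (nat_lit 234) (PT.nd (nat_lit 78) (PT.lf (nat_lit 8512) (nat_lit 6) (nat_lit 112) (nat_lit 3) (nat_lit 139) (nat_lit 103) (nat_lit 148)) (PT.nd (nat_lit 78) (PT.lf (nat_lit 8588)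 (nat_lit 6) (nat_lit 113) (nat_lit 3) (nat_lit 140) (nat_lit 103) (nat_lit 147)) (PT.lf (nat_lit 8664) (nat_lit 6) (nat_lit 114) (nat_lit 3) (nat_lit 141) (nat_lit 103) (nat_lit 146)))) (PT.nd (nat_lit 156) (PT.nd (nat_lit 78) (PT.lf (nat_lit 8740) (nat_lit 6) (nat_lit 115) (nat_lit 3) (nat_lit 142) (nat_lit 103) (nat_lit 145)) (PT.lf (nat_lit 8816) (nat_lit 6) (nat_lit 116) (nat_lit 3) (nat_lit 143) (nat_lit 103) (nat_lit 144))) (PT.nd (nat_lit 78) (PT.lf (nat_lit 8816) (nat_lit 6) (nat_lit 116) (nat_lit 1) (nat_lit 144) (nat_lit 103) (nat_lit 143)) (PT.lf (nat_lit 8740) (nat_lit 6) (nat_lit 115) (nat_lit 1) (nat_lit 145) (nat_lit 103) (nat_lit 142))))))) (PT.nd (nat_lit 80574) (PT.nd (nat_lit 40326) (PT.nd (nat_lit 40014) (PT.nd (nat_lit 78) (PT.lf (nat_lit 8664) (nat_lit 6) (nat_lit 114) (nat_lit 1) (nat_lit 146) (nat_lit 103) (nat_lit 141)) (PT.nd (nat_lit 78) (PT.lf (nat_lit 8588) (nat_lit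 6) (nat_lit 113) (nat_lit 1) (nat_lit 147) (nat_lit 103) (nat_lit 140)) (PT.lf (nat_lit 8512) (nat_lit 6) (nat_lit 112) (nat_lit 1) (nat_lit 148) (nat_lit 103) (nat_lit 139)))) (PT.nd (nat_lit 156) (PT.nd (nat_lit 78) (PT.lf (nat_lit 8892) (nat_lit 6) (nat_lit 117) (nat_lit 3) (nat_lit 138) (nat_lit 104) (nat_lit 148)) (PT.lf (nat_lit 8968) (nat_lit 6) (nat_lit 118) (nat_lit 3) (nat_lit 139) (nat_lit 104) (nat_lit 147))) (PT.nd (nat_lit 78) (PT.lf (nat_lit 9044) (nat_lit 6) (nat_lit 119) (nat_lit 3) (nat_lit 140) (nat_lit 104) (nat_lit 146)) (PT.lf (nat_lit 9120) (nat_lit 6) (nat_lit 120) (nat_lit 3) (nat_lit 141) (nat_lit 104) (nat_lit 145))))) (PT.nd (nat_lit 234) (PT.nd (nat_lit 78) (PT.lf (nat_lit 9196) (nat_lit 6) (nat_lit 121) (nat_lit 3) (nat_lit 142) (nat_lit 104) (nat_lit 144)) (PT.nd (nat_lit 78) (PT.lf (nat_lit 9272) (nat_lit 3) (nat_lit 122) (nat_lit 1) (nat_lit 143) (nat_lit 104) (nat_lit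 143)) (PT.lf (nat_lit 9196) (nat_lit 6) (nat_lit 121) (nat_lit 1) (nat_lit 144) (nat_lit 104) (nat_lit 142)))) (PT.nd (nat_lit 156) (PT.nd (nat_lit 78) (PT.lf (nat_lit 9120) (nat_lit 6) (nat_lit 120) (nat_lit 1) (nat_lit 145) (nat_lit 104) (nat_lit 141)) (PT.lf (nat_lit 9044) (nat_lit 6) (nat_lit 119) (nat_lit 1) (nat_lit 146) (nat_lit 104) (nat_lit 140))) (PT.nd (nat_lit 78) (PT.lf (nat_lit 8968) (nat_lit 6) (nat_lit 118) (nat_lit 1) (nat_lit 147) (nat_lit 104) (nat_lit 139)) (PT.lf (nat_lit 8892) (nat_lit 6) (nat_lit 117) (nat_lit 1) (nat_lit 148) (nat_lit 104) (nat_lit 138)))))) (PT.nd (nat_lit 546) (PT.nd (nat_lit 234) (PT.nd (nat_lit 78) (PT.lf (nat_lit 9348) (nat_lit 6) (nat_lit 123) (nat_lit 3) (nat_lit 137) (nat_lit 105) (nat_lit 148)) (PT.nd (nat_lit 78) (PT.lf (nat_lit 9424) (nat_lit 6) (nat_lit 124) (nat_lit 3) (nat_lit 138) (nat_lit 105) (nat_lit 147)) (PT.lf (nat_lit 9500) (nat_lit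 6) (nat_lit 125) (nat_lit 3) (nat_lit 139) (nat_lit 105) (nat_lit 146)))) (PT.nd (nat_lit 156) (PT.nd (nat_lit 78) (PT.lf (nat_lit 9576) (nat_lit 6) (nat_lit 126) (nat_lit 3) (nat_lit 140) (nat_lit 105) (nat_lit 145)) (PT.lf (nat_lit 9652) (nat_lit 6) (nat_lit 127) (nat_lit 3) (nat_lit 141) (nat_lit 105) (nat_lit 144))) (PT.nd (nat_lit 78) (PT.lf (nat_lit 9728) (nat_lit 6) (nat_lit 128) (nat_lit 3) (nat_lit 142) (nat_lit 105) (nat_lit 143)) (PT.lf (nat_lit 9728) (nat_lit 6) (nat_lit 128) (nat_lit 1) (nat_lit 143) (nat_lit 105) (nat_lit 142))))) (PT.nd (nat_lit 234) (PT.nd (nat_lit 78) (PT.lf (nat_lit 9652) (nat_lit 6) (nat_lit 127) (nat_lit 1) (nat_lit 144) (nat_lit 105) (nat_lit 141)) (PT.nd (nat_lit 78) (PT.lf (nat_lit 9576) (nat_lit 6) (nat_lit 126) (nat_lit 1) (nat_lit 145) (nat_lit 105) (nat_lit 140)) (PT.lf (nat_lit 9500) (nat_lit 6) (nat_lit 125) (nat_lit 1) (nat_lit 146) (nat_lit 105) (nat_lit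 139)))) (PT.nd (nat_lit 39858) (PT.nd (nat_lit 78) (PT.lf (nat_lit 9424) (nat_lit 6) (nat_lit 124) (nat_lit 1) (nat_lit 147) (nat_lit 105) (nat_lit 138)) (PT.lf (nat_lit 9348) (nat_lit 6) (nat_lit 123) (nat_lit 1) (nat_lit 148) (nat_lit 105) (nat_lit 137))) (PT.nd (nat_lit 78) (PT.lf (nat_lit 9804) (nat_lit 6) (nat_lit 129) (nat_lit 3) (nat_lit 137) (nat_lit 106) (nat_lit 147)) (PT.lf (nat_lit 9880) (nat_lit 6) (nat_lit 130) (nat_lit 3) (nat_lit 138) (nat_lit 106) (nat_lit 146))))))))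
noncomputable def pc4 : PT := (PT.nd (nat_lit 81432) (PT.nd (nat_lit 40716) (PT.nd (nat_lit 468) (PT.nd (nat_lit 234) (PT.nd (nat_lit 78) (PT.lf (nat_lit 9956) (nat_lit 6) (nat_lit 131) (nat_lit 3) (nat_lit 139) (nat_lit 106) (nat_lit 145)) (PT.nd (nat_lit 78) (PT.lf (nat_lit 10032) (nat_lit 6) (nat_lit 132) (nat_lit 3) (nat_lit 140) (nat_lit 106) (nat_lit 144)) (PT.lf (nat_lit 10108) (nat_lit 6) (nat_lit 133) (nat_lit 3) (nat_lit 141) (nat_lit 106) (nat_lit 143)))) (PT.nd (nat_lit 78) (PT.lf (nat_lit 10184) (nat_lit 3) (nat_lit 134) (nat_lit 1) (nat_lit 142) (nat_lit 106) (nat_lit 142)) (PT.nd (nat_lit 78) (PT.lf (nat_lit 10108) (nat_lit 6) (nat_lit 133) (nat_lit 1) (nat_lit 143) (nat_lit 106) (nat_lit 141)) (PT.lf (nat_lit 10032) (nat_lit 6) (nat_lit 132) (nat_lit 1) (nat_lit 144) (nat_lit 106) (nat_lit 140))))) (PT.nd (nat_lit 39936) (PT.nd (nat_lit 78) (PT.lf (nat_lit 9956) (nat_lit 6) (nat_lit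 131) (nat_lit 1) (nat_lit 145) (nat_lit 106) (nat_lit 139)) (PT.nd (nat_lit 78) (PT.lf (nat_lit 9880) (nat_lit 6) (nat_lit 130) (nat_lit 1) (nat_lit 146) (nat_lit 106) (nat_lit 138)) (PT.lf (nat_lit 9804) (nat_lit 6) (nat_lit 129) (nat_lit 1) (nat_lit 147) (nat_lit 106) (nat_lit 137)))) (PT.nd (nat_lit 156) (PT.nd (nat_lit 78) (PT.lf (nat_lit 10260) (nat_lit 6) (nat_lit 135) (nat_lit 3) (nat_lit 136) (nat_lit 107) (nat_lit 147)) (PT.lf (nat_lit 10336) (nat_lit 6) (nat_lit 136) (nat_lit 3) (nat_lit 137) (nat_lit 107) (nat_lit 146))) (PT.nd (nat_lit 78) (PT.lf (nat_lit 10412) (nat_lit 6) (nat_lit 137) (nat_lit 3) (nat_lit 138) (nat_lit 107) (nat_lit 145)) (PT.lf (nat_lit 10488) (nat_lit 6) (nat_lit 138) (nat_lit 3) (nat_lit 139) (nat_lit 107) (nat_lit 144)))))) (PT.nd (nat_lit 546) (PT.nd (nat_lit 234) (PT.nd (nat_lit 78) (PT.lf (nat_lit 10564) (nat_lit 6) (nat_lit 139) (nat_lit 3) (nat_lit 140)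 (nat_lit 107) (nat_lit 143)) (PT.nd (nat_lit 78) (PT.lf (nat_lit 10640) (nat_lit 6) (nat_lit 140) (nat_lit 3) (nat_lit 141) (nat_lit 107) (nat_lit 142)) (PT.lf (nat_lit 10640) (nat_lit 6) (nat_lit 140) (nat_lit 1) (nat_lit 142) (nat_lit 107) (nat_lit 141)))) (PT.nd (nat_lit 156) (PT.nd (nat_lit 78) (PT.lf (nat_lit 10564) (nat_lit 6) (nat_lit 139) (nat_lit 1) (nat_lit 143) (nat_lit 107) (nat_lit 140)) (PT.lf (nat_lit 10488) (nat_lit 6) (nat_lit 138) (nat_lit 1) (nat_lit 144) (nat_lit 107) (nat_lit 139))) (PT.nd (nat_lit 78) (PT.lf (nat_lit 10412) (nat_lit 6) (nat_lit 137) (nat_lit 1) (nat_lit 145) (nat_lit 107) (nat_lit 138)) (PT.lf (nat_lit 10336) (nat_lit 6) (nat_lit 136) (nat_lit 1) (nat_lit 146) (nat_lit 107) (nat_lit 137))))) (PT.nd (nat_lit 39858) (PT.nd (nat_lit 39702) (PT.lf (nat_lit 10260) (nat_lit 6) (nat_lit 135) (nat_lit 1) (nat_lit 147) (nat_lit 107) (nat_lit 136)) (PT.nd (nat_lit 78)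 (PT.lf (nat_lit 10716) (nat_lit 6) (nat_lit 141) (nat_lit 3) (nat_lit 135) (nat_lit 108) (nat_lit 147)) (PT.lf (nat_lit 10792) (nat_lit 6) (nat_lit 142) (nat_lit 3) (nat_lit 136) (nat_lit 108) (nat_lit 146)))) (PT.nd (nat_lit 156) (PT.nd (nat_lit 78) (PT.lf (nat_lit 10868) (nat_lit 6) (nat_lit 143) (nat_lit 3) (nat_lit 137) (nat_lit 108) (nat_lit 145)) (PT.lf (nat_lit 10944) (nat_lit 6) (nat_lit 144) (nat_lit 3) (nat_lit 138) (nat_lit 108) (nat_lit 144))) (PT.nd (nat_lit 78) (PT.lf (nat_lit 11020) (nat_lit 6) (nat_lit 145) (nat_lit 3) (nat_lit 139) (nat_lit 108) (nat_lit 143)) (PT.lf (nat_lit 11096) (nat_lit 6) (nat_lit 146) (nat_lit 3) (nat_lit 140) (nat_lit 108) (nat_lit 142))))))) (PT.nd (nat_lit 40560) (PT.nd (nat_lit 468) (PT.nd (nat_lit 234) (PT.nd (nat_lit 78) (PT.lf (nat_lit 11172) (nat_lit 3) (nat_lit 147) (nat_lit 1) (nat_lit 141) (nat_lit 108) (nat_lit 141)) (PT.nd (nat_lit 78) (PT.lf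 (nat_lit 11096) (nat_lit 6) (nat_lit 146) (nat_lit 1) (nat_lit 142) (nat_lit 108) (nat_lit 140)) (PT.lf (nat_lit 11020) (nat_lit 6) (nat_lit 145) (nat_lit 1) (nat_lit 143) (nat_lit 108) (nat_lit 139)))) (PT.nd (nat_lit 78) (PT.lf (nat_lit 10944) (nat_lit 6) (nat_lit 144) (nat_lit 1) (nat_lit 144) (nat_lit 108) (nat_lit 138)) (PT.nd (nat_lit 78) (PT.lf (nat_lit 10868) (nat_lit 6) (nat_lit 143) (nat_lit 1) (nat_lit 145) (nat_lit 108) (nat_lit 137)) (PT.lf (nat_lit 10792) (nat_lit 6) (nat_lit 142) (nat_lit 1) (nat_lit 146) (nat_lit 108) (nat_lit 136))))) (PT.nd (nat_lit 39780) (PT.nd (nat_lit 39624) (PT.lf (nat_lit 10716) (nat_lit 6) (nat_lit 141) (nat_lit 1) (nat_lit 147) (nat_lit 108) (nat_lit 135)) (PT.nd (nat_lit 78) (PT.lf (nat_lit 11248) (nat_lit 6) (nat_lit 148) (nat_lit 3) (nat_lit 134) (nat_lit 109) (nat_lit 147)) (PT.lf (nat_lit 11324) (nat_lit 6) (nat_lit 149) (nat_lit 3) (nat_lit 135)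 (nat_lit 109) (nat_lit 146)))) (PT.nd (nat_lit 156) (PT.nd (nat_lit 78) (PT.lf (nat_lit 11400) (nat_lit 6) (nat_lit 150) (nat_lit 3) (nat_lit 136) (nat_lit 109) (nat_lit 145)) (PT.lf (nat_lit 11476) (nat_lit 6) (nat_lit 151) (nat_lit 3) (nat_lit 137) (nat_lit 109) (nat_lit 144))) (PT.nd (nat_lit 78) (PT.lf (nat_lit 11552) (nat_lit 6) (nat_lit 152) (nat_lit 3) (nat_lit 138) (nat_lit 109) (nat_lit 143)) (PT.lf (nat_lit 11628) (nat_lit 6) (nat_lit 153) (nat_lit 3) (nat_lit 139) (nat_lit 109) (nat_lit 142)))))) (PT.nd (nat_lit 546) (PT.nd (nat_lit 234) (PT.nd (nat_lit 78) (PT.lf (nat_lit 11704) (nat_lit 6) (nat_lit 154) (nat_lit 3) (nat_lit 140) (nat_lit 109) (nat_lit 141)) (PT.nd (nat_lit 78) (PT.lf (nat_lit 11704) (nat_lit 6) (nat_lit 154) (nat_lit 1) (nat_lit 141) (nat_lit 109) (nat_lit 140)) (PT.lf (nat_lit 11628) (nat_lit 6) (nat_lit 153) (nat_lit 1) (nat_lit 142) (nat_lit 109) (nat_lit 139))))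 (PT.nd (nat_lit 156) (PT.nd (nat_lit 78) (PT.lf (nat_lit 11552) (nat_lit 6) (nat_lit 152) (nat_lit 1) (nat_lit 143) (nat_lit 109) (nat_lit 138)) (PT.lf (nat_lit 11476) (nat_lit 6) (nat_lit 151) (nat_lit 1) (nat_lit 144) (nat_lit 109) (nat_lit 137))) (PT.nd (nat_lit 78) (PT.lf (nat_lit 11400) (nat_lit 6) (nat_lit 150) (nat_lit 1) (nat_lit 145) (nat_lit 109) (nat_lit 136)) (PT.lf (nat_lit 11324) (nat_lit 6) (nat_lit 149) (nat_lit 1) (nat_lit 146) (nat_lit 109) (nat_lit 135))))) (PT.nd (nat_lit 39780) (PT.nd (nat_lit 39624) (PT.lf (nat_lit 11248) (nat_lit 6) (nat_lit 148) (nat_lit 1) (nat_lit 147) (nat_lit 109) (nat_lit 134)) (PT.nd (nat_lit 78) (PT.lf (nat_lit 11780) (nat_lit 6) (nat_lit 155) (nat_lit 3) (nat_lit 134) (nat_lit 110) (nat_lit 146)) (PT.lf (nat_lit 11856) (nat_lit 6) (nat_lit 156) (nat_lit 3) (nat_lit 135) (nat_lit 110) (nat_lit 145)))) (PT.nd (nat_lit 156) (PT.nd (nat_lit 78) (PT.lf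 (nat_lit 11932) (nat_lit 6) (nat_lit 157) (nat_lit 3) (nat_lit 136) (nat_lit 110) (nat_lit 144)) (PT.lf (nat_lit 12008) (nat_lit 6) (nat_lit 158) (nat_lit 3) (nat_lit 137) (nat_lit 110) (nat_lit 143))) (PT.nd (nat_lit 78) (PT.lf (nat_lit 12084) (nat_lit 6) (nat_lit 159) (nat_lit 3) (nat_lit 138) (nat_lit 110) (nat_lit 142)) (PT.lf (nat_lit 12160) (nat_lit 6) (nat_lit 160) (nat_lit 3) (nat_lit 139) (nat_lit 110) (nat_lit 141))))))))
noncomputable def pc5 : PT := (PT.nd (nat_lit 81120) (PT.nd (nat_lit 40560) (PT.nd (nat_lit 468) (PT.nd (nat_lit 234) (PT.nd (nat_lit 78) (PT.lf (nat_lit 12236) (nat_lit 3) (nat_lit 161) (nat_lit 1) (nat_lit 140) (nat_lit 110) (nat_lit 140)) (PT.nd (nat_lit 78) (PT.lf (nat_lit 12160) (nat_lit 6) (nat_lit 160) (nat_lit 1) (nat_lit 141) (nat_lit 110) (nat_lit 139)) (PT.lf (nat_lit 12084) (nat_lit 6) (nat_lit 159) (nat_lit 1) (nat_lit 142) (nat_lit 110) (nat_lit 138))))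 (PT.nd (nat_lit 78) (PT.lf (nat_lit 12008) (nat_lit 6) (nat_lit 158) (nat_lit 1) (nat_lit 143) (nat_lit 110) (nat_lit 137)) (PT.nd (nat_lit 78) (PT.lf (nat_lit 11932) (nat_lit 6) (nat_lit 157) (nat_lit 1) (nat_lit 144) (nat_lit 110) (nat_lit 136)) (PT.lf (nat_lit 11856) (nat_lit 6) (nat_lit 156) (nat_lit 1) (nat_lit 145) (nat_lit 110) (nat_lit 135))))) (PT.nd (nat_lit 39780) (PT.nd (nat_lit 39624) (PT.lf (nat_lit 11780) (nat_lit 6) (nat_lit 155) (nat_lit 1) (nat_lit 146) (nat_lit 110) (nat_lit 134)) (PT.nd (nat_lit 78) (PT.lf (nat_lit 12312) (nat_lit 6) (nat_lit 162) (nat_lit 3) (nat_lit 133) (nat_lit 111) (nat_lit 146)) (PT.lf (nat_lit 12388) (nat_lit 6) (nat_lit 163) (nat_lit 3) (nat_lit 134) (nat_lit 111) (nat_lit 145)))) (PT.nd (nat_lit 156) (PT.nd (nat_lit 78) (PT.lf (nat_lit 12464) (nat_lit 6) (nat_lit 164) (nat_lit 3) (nat_lit 135) (nat_lit 111) (nat_lit 144)) (PT.lf (nat_lit 12540) (nat_lit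 6) (nat_lit 165) (nat_lit 3) (nat_lit 136) (nat_lit 111) (nat_lit 143))) (PT.nd (nat_lit 78) (PT.lf (nat_lit 12616) (nat_lit 6) (nat_lit 166) (nat_lit 3) (nat_lit 137) (nat_lit 111) (nat_lit 142)) (PT.lf (nat_lit 12692) (nat_lit 6) (nat_lit 167) (nat_lit 3) (nat_lit 138) (nat_lit 111) (nat_lit 141)))))) (PT.nd (nat_lit 546) (PT.nd (nat_lit 234) (PT.nd (nat_lit 78) (PT.lf (nat_lit 12768) (nat_lit 6) (nat_lit 168) (nat_lit 3) (nat_lit 139) (nat_lit 111) (nat_lit 140)) (PT.nd (nat_lit 78) (PT.lf (nat_lit 12768) (nat_lit 6) (nat_lit 168) (nat_lit 1) (nat_lit 140) (nat_lit 111) (nat_lit 139)) (PT.lf (nat_lit 12692) (nat_lit 6) (nat_lit 167) (nat_lit 1) (nat_lit 141) (nat_lit 111) (nat_lit 138)))) (PT.nd (nat_lit 156) (PT.nd (nat_lit 78) (PT.lf (nat_lit 12616) (nat_lit 6) (nat_lit 166) (nat_lit 1) (nat_lit 142) (nat_lit 111) (nat_lit 137)) (PT.lf (nat_lit 12540) (nat_lit 6) (nat_lit 165) (nat_lit 1)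 (nat_lit 143) (nat_lit 111) (nat_lit 136))) (PT.nd (nat_lit 78) (PT.lf (nat_lit 12464) (nat_lit 6) (nat_lit 164) (nat_lit 1) (nat_lit 144) (nat_lit 111) (nat_lit 135)) (PT.lf (nat_lit 12388) (nat_lit 6) (nat_lit 163) (nat_lit 1) (nat_lit 145) (nat_lit 111) (nat_lit 134))))) (PT.nd (nat_lit 39702) (PT.nd (nat_lit 39546) (PT.lf (nat_lit 12312) (nat_lit 6) (nat_lit 162) (nat_lit 1) (nat_lit 146) (nat_lit 111) (nat_lit 133)) (PT.nd (nat_lit 78) (PT.lf (nat_lit 12844) (nat_lit 6) (nat_lit 169) (nat_lit 3) (nat_lit 132) (nat_lit 112) (nat_lit 146)) (PT.lf (nat_lit 12920) (nat_lit 6) (nat_lit 170) (nat_lit 3) (nat_lit 133) (nat_lit 112) (nat_lit 145)))) (PT.nd (nat_lit 156) (PT.nd (nat_lit 78) (PT.lf (nat_lit 12996) (nat_lit 6) (nat_lit 171) (nat_lit 3) (nat_lit 134) (nat_lit 112) (nat_lit 144)) (PT.lf (nat_lit 13072) (nat_lit 6) (nat_lit 172) (nat_lit 3) (nat_lit 135) (nat_lit 112) (nat_lit 143))) (PT.nd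 (nat_lit 78) (PT.lf (nat_lit 13148) (nat_lit 6) (nat_lit 173) (nat_lit 3) (nat_lit 136) (nat_lit 112) (nat_lit 142)) (PT.lf (nat_lit 13224) (nat_lit 6) (nat_lit 174) (nat_lit 3) (nat_lit 137) (nat_lit 112) (nat_lit 141))))))) (PT.nd (nat_lit 40482) (PT.nd (nat_lit 546) (PT.nd (nat_lit 234) (PT.nd (nat_lit 78) (PT.lf (nat_lit 13300) (nat_lit 6) (nat_lit 175) (nat_lit 3) (nat_lit 138) (nat_lit 112) (nat_lit 140)) (PT.nd (nat_lit 78) (PT.lf (nat_lit 13376) (nat_lit 3) (nat_lit 176) (nat_lit 1) (nat_lit 139) (nat_lit 112) (nat_lit 139)) (PT.lf (nat_lit 13300) (nat_lit 6) (nat_lit 175) (nat_lit 1) (nat_lit 140) (nat_lit 112) (nat_lit 138)))) (PT.nd (nat_lit 156) (PT.nd (nat_lit 78) (PT.lf (nat_lit 13224) (nat_lit 6) (nat_lit 174) (nat_lit 1) (nat_lit 141) (nat_lit 112) (nat_lit 137)) (PT.lf (nat_lit 13148) (nat_lit 6) (nat_lit 173) (nat_lit 1) (nat_lit 142) (nat_lit 112) (nat_lit 136))) (PT.nd (nat_lit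 78) (PT.lf (nat_lit 13072) (nat_lit 6) (nat_lit 172) (nat_lit 1) (nat_lit 143) (nat_lit 112) (nat_lit 135)) (PT.lf (nat_lit 12996) (nat_lit 6) (nat_lit 171) (nat_lit 1) (nat_lit 144) (nat_lit 112) (nat_lit 134))))) (PT.nd (nat_lit 39624) (PT.nd (nat_lit 78) (PT.lf (nat_lit 12920) (nat_lit 6) (nat_lit 170) (nat_lit 1) (nat_lit 145) (nat_lit 112) (nat_lit 133)) (PT.nd (nat_lit 39468) (PT.lf (nat_lit 12844) (nat_lit 6) (nat_lit 169) (nat_lit 1) (nat_lit 146) (nat_lit 112) (nat_lit 132)) (PT.lf (nat_lit 13452) (nat_lit 6) (nat_lit 177) (nat_lit 3) (nat_lit 131) (nat_lit 113) (nat_lit 146)))) (PT.nd (nat_lit 156) (PT.nd (nat_lit 78) (PT.lf (nat_lit 13528) (nat_lit 6) (nat_lit 178) (nat_lit 3) (nat_lit 132) (nat_lit 113) (nat_lit 145)) (PT.lf (nat_lit 13604) (nat_lit 6) (nat_lit 179) (nat_lit 3) (nat_lit 133) (nat_lit 113) (nat_lit 144))) (PT.nd (nat_lit 78) (PT.lf (nat_lit 13680) (nat_lit 6) (nat_lit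 180) (nat_lit 3) (nat_lit 134) (nat_lit 113) (nat_lit 143)) (PT.lf (nat_lit 13756) (nat_lit 6) (nat_lit 181) (nat_lit 3) (nat_lit 135) (nat_lit 113) (nat_lit 142)))))) (PT.nd (nat_lit 546) (PT.nd (nat_lit 234) (PT.nd (nat_lit 78) (PT.lf (nat_lit 13832) (nat_lit 6) (nat_lit 182) (nat_lit 3) (nat_lit 136) (nat_lit 113) (nat_lit 141)) (PT.nd (nat_lit 78) (PT.lf (nat_lit 13908) (nat_lit 6) (nat_lit 183) (nat_lit 3) (nat_lit 137) (nat_lit 113) (nat_lit 140)) (PT.lf (nat_lit 13984) (nat_lit 6) (nat_lit 184) (nat_lit 3) (nat_lit 138) (nat_lit 113) (nat_lit 139)))) (PT.nd (nat_lit 156) (PT.nd (nat_lit 78) (PT.lf (nat_lit 13984) (nat_lit 6) (nat_lit 184) (nat_lit 1) (nat_lit 139) (nat_lit 113) (nat_lit 138)) (PT.lf (nat_lit 13908) (nat_lit 6) (nat_lit 183) (nat_lit 1) (nat_lit 140) (nat_lit 113) (nat_lit 137))) (PT.nd (nat_lit 78) (PT.lf (nat_lit 13832) (nat_lit 6) (nat_lit 182) (nat_lit 1) (nat_lit 141)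 (nat_lit 113) (nat_lit 136)) (PT.lf (nat_lit 13756) (nat_lit 6) (nat_lit 181) (nat_lit 1) (nat_lit 142) (nat_lit 113) (nat_lit 135))))) (PT.nd (nat_lit 234) (PT.nd (nat_lit 78) (PT.lf (nat_lit 13680) (nat_lit 6) (nat_lit 180) (nat_lit 1) (nat_lit 143) (nat_lit 113) (nat_lit 134)) (PT.nd (nat_lit 78) (PT.lf (nat_lit 13604) (nat_lit 6) (nat_lit 179) (nat_lit 1) (nat_lit 144) (nat_lit 113) (nat_lit 133)) (PT.lf (nat_lit 13528) (nat_lit 6) (nat_lit 178) (nat_lit 1) (nat_lit 145) (nat_lit 113) (nat_lit 132)))) (PT.nd (nat_lit 39468) (PT.nd (nat_lit 39390) (PT.lf (nat_lit 13452) (nat_lit 6) (nat_lit 177) (nat_lit 1) (nat_lit 146) (nat_lit 113) (nat_lit 131)) (PT.lf (nat_lit 14136) (nat_lit 6) (nat_lit 186) (nat_lit 3) (nat_lit 130) (nat_lit 114) (nat_lit 146))) (PT.nd (nat_lit 78) (PT.lf (nat_lit 14212) (nat_lit 6) (nat_lit 187) (nat_lit 3) (nat_lit 131) (nat_lit 114) (nat_lit 145)) (PT.lf (nat_lit 14288)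 (nat_lit 6) (nat_lit 188) (nat_lit 3) (nat_lit 132) (nat_lit 114) (nat_lit 144))))))))
noncomputable def pc6 : PT := (PT.nd (nat_lit 41340) (PT.nd (nat_lit 1014) (PT.nd (nat_lit 468) (PT.nd (nat_lit 234) (PT.nd (nat_lit 78) (PT.lf (nat_lit 14364) (nat_lit 6) (nat_lit 189) (nat_lit 3) (nat_lit 133) (nat_lit 114) (nat_lit 143)) (PT.nd (nat_lit 78) (PT.lf (nat_lit 14440) (nat_lit 6) (nat_lit 190) (nat_lit 3) (nat_lit 134) (nat_lit 114) (nat_lit 142)) (PT.lf (nat_lit 14516) (nat_lit 6) (nat_lit 191) (nat_lit 3) (nat_lit 135) (nat_lit 114) (nat_lit 141)))) (PT.nd (nat_lit 78) (PT.lf (nat_lit 14592) (nat_lit 6) (nat_lit 192) (nat_lit 3) (nat_lit 136) (nat_lit 114) (nat_lit 140)) (PT.nd (nat_lit 78) (PT.lf (nat_lit 14668) (nat_lit 6) (nat_lit 193) (nat_lit 3) (nat_lit 137) (nat_lit 114) (nat_lit 139)) (PT.lf (nat_lit 14744) (nat_lit 3) (nat_lit 194) (nat_lit 1) (nat_lit 138) (nat_lit 114) (nat_lit 138)))))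 (PT.nd (nat_lit 234) (PT.nd (nat_lit 78) (PT.lf (nat_lit 14668) (nat_lit 6) (nat_lit 193) (nat_lit 1) (nat_lit 139) (nat_lit 114) (nat_lit 137)) (PT.nd (nat_lit 78) (PT.lf (nat_lit 14592) (nat_lit 6) (nat_lit 192) (nat_lit 1) (nat_lit 140) (nat_lit 114) (nat_lit 136)) (PT.lf (nat_lit 14516) (nat_lit 6) (nat_lit 191) (nat_lit 1) (nat_lit 141) (nat_lit 114) (nat_lit 135)))) (PT.nd (nat_lit 156) (PT.nd (nat_lit 78) (PT.lf (nat_lit 14440) (nat_lit 6) (nat_lit 190) (nat_lit 1) (nat_lit 142) (nat_lit 114) (nat_lit 134)) (PT.lf (nat_lit 14364) (nat_lit 6) (nat_lit 189) (nat_lit 1) (nat_lit 143) (nat_lit 114) (nat_lit 133))) (PT.nd (nat_lit 78) (PT.lf (nat_lit 14288) (nat_lit 6) (nat_lit 188) (nat_lit 1) (nat_lit 144) (nat_lit 114) (nat_lit 132)) (PT.lf (nat_lit 14212) (nat_lit 6) (nat_lit 187) (nat_lit 1) (nat_lit 145) (nat_lit 114) (nat_lit 131)))))) (PT.nd (nat_lit 39780) (PT.nd (nat_lit 39468) (PT.nd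 (nat_lit 39312) (PT.lf (nat_lit 14136) (nat_lit 6) (nat_lit 186) (nat_lit 1) (nat_lit 146) (nat_lit 114) (nat_lit 130)) (PT.nd (nat_lit 78) (PT.lf (nat_lit 14060) (nat_lit 6) (nat_lit 185) (nat_lit 3) (nat_lit 129) (nat_lit 115) (nat_lit 146)) (PT.lf (nat_lit 15352) (nat_lit 6) (nat_lit 202) (nat_lit 3) (nat_lit 130) (nat_lit 115) (nat_lit 145)))) (PT.nd (nat_lit 156) (PT.nd (nat_lit 78) (PT.lf (nat_lit 15428) (nat_lit 6) (nat_lit 203) (nat_lit 3) (nat_lit 131) (nat_lit 115) (nat_lit 144)) (PT.lf (nat_lit 15504) (nat_lit 6) (nat_lit 204) (nat_lit 3) (nat_lit 132) (nat_lit 115) (nat_lit 143))) (PT.nd (nat_lit 78) (PT.lf (nat_lit 15580) (nat_lit 6) (nat_lit 205) (nat_lit 3) (nat_lit 133) (nat_lit 115) (nat_lit 142)) (PT.lf (nat_lit 15656) (nat_lit 6) (nat_lit 206) (nat_lit 3) (nat_lit 134) (nat_lit 115) (nat_lit 141))))) (PT.nd (nat_lit 234) (PT.nd (nat_lit 78) (PT.lf (nat_lit 15732) (nat_lit 6)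 (nat_lit 207) (nat_lit 3) (nat_lit 135) (nat_lit 115) (nat_lit 140)) (PT.nd (nat_lit 78) (PT.lf (nat_lit 15808) (nat_lit 6) (nat_lit 208) (nat_lit 3) (nat_lit 136) (nat_lit 115) (nat_lit 139)) (PT.lf (nat_lit 15884) (nat_lit 6) (nat_lit 209) (nat_lit 3) (nat_lit 137) (nat_lit 115) (nat_lit 138)))) (PT.nd (nat_lit 156) (PT.nd (nat_lit 78) (PT.lf (nat_lit 15884) (nat_lit 6) (nat_lit 209) (nat_lit 1) (nat_lit 138) (nat_lit 115) (nat_lit 137)) (PT.lf (nat_lit 15808) (nat_lit 6) (nat_lit 208) (nat_lit 1) (nat_lit 139) (nat_lit 115) (nat_lit 136))) (PT.nd (nat_lit 78) (PT.lf (nat_lit 15732) (nat_lit 6) (nat_lit 207) (nat_lit 1) (nat_lit 140) (nat_lit 115) (nat_lit 135)) (PT.lf (nat_lit 15656) (nat_lit 6) (nat_lit 206) (nat_lit 1) (nat_lit 141) (nat_lit 115) (nat_lit 134))))))) (PT.nd (nat_lit 40326) (PT.nd (nat_lit 39780) (PT.nd (nat_lit 234) (PT.nd (nat_lit 78) (PT.lf (nat_lit 15580) (nat_lit 6) (nat_lit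 205) (nat_lit 1) (nat_lit 142) (nat_lit 115) (nat_lit 133)) (PT.nd (nat_lit 78) (PT.lf (nat_lit 15504) (nat_lit 6) (nat_lit 204) (nat_lit 1) (nat_lit 143) (nat_lit 115) (nat_lit 132)) (PT.lf (nat_lit 15428) (nat_lit 6) (nat_lit 203) (nat_lit 1) (nat_lit 144) (nat_lit 115) (nat_lit 131)))) (PT.nd (nat_lit 39390) (PT.nd (nat_lit 78) (PT.lf (nat_lit 15352) (nat_lit 6) (nat_lit 202) (nat_lit 1) (nat_lit 145) (nat_lit 115) (nat_lit 130)) (PT.lf (nat_lit 14060) (nat_lit 6) (nat_lit 185) (nat_lit 1) (nat_lit 146) (nat_lit 115) (nat_lit 129))) (PT.nd (nat_lit 78) (PT.lf (nat_lit 15276) (nat_lit 6) (nat_lit 201) (nat_lit 3) (nat_lit 129) (nat_lit 116) (nat_lit 145)) (PT.lf (nat_lit 16492) (nat_lit 6) (nat_lit 217) (nat_lit 3) (nat_lit 130) (nat_lit 116) (nat_lit 144))))) (PT.nd (nat_lit 234) (PT.nd (nat_lit 78) (PT.lf (nat_lit 16568) (nat_lit 6) (nat_lit 218) (nat_lit 3) (nat_lit 131) (nat_lit 116) (nat_lit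 143)) (PT.nd (nat_lit 78) (PT.lf (nat_lit 16644) (nat_lit 6) (nat_lit 219) (nat_lit 3) (nat_lit 132) (nat_lit 116) (nat_lit 142)) (PT.lf (nat_lit 16720) (nat_lit 6) (nat_lit 220) (nat_lit 3) (nat_lit 133) (nat_lit 116) (nat_lit 141)))) (PT.nd (nat_lit 156) (PT.nd (nat_lit 78) (PT.lf (nat_lit 16796) (nat_lit 6) (nat_lit 221) (nat_lit 3) (nat_lit 134) (nat_lit 116) (nat_lit 140)) (PT.lf (nat_lit 16872) (nat_lit 6) (nat_lit 222) (nat_lit 3) (nat_lit 135) (nat_lit 116) (nat_lit 139))) (PT.nd (nat_lit 78) (PT.lf (nat_lit 16948) (nat_lit 6) (nat_lit 223) (nat_lit 3) (nat_lit 136) (nat_lit 116) (nat_lit 138)) (PT.lf (nat_lit 17024) (nat_lit 3) (nat_lit 224) (nat_lit 1) (nat_lit 137) (nat_lit 116) (nat_lit 137)))))) (PT.nd (nat_lit 546) (PT.nd (nat_lit 234) (PT.nd (nat_lit 78) (PT.lf (nat_lit 16948) (nat_lit 6) (nat_lit 223) (nat_lit 1) (nat_lit 138) (nat_lit 116) (nat_lit 136)) (PT.nd (nat_lit 78) (PT.lf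 (nat_lit 16872) (nat_lit 6) (nat_lit 222) (nat_lit 1) (nat_lit 139) (nat_lit 116) (nat_lit 135)) (PT.lf (nat_lit 16796) (nat_lit 6) (nat_lit 221) (nat_lit 1) (nat_lit 140) (nat_lit 116) (nat_lit 134)))) (PT.nd (nat_lit 156) (PT.nd (nat_lit 78) (PT.lf (nat_lit 16720) (nat_lit 6) (nat_lit 220) (nat_lit 1) (nat_lit 141) (nat_lit 116) (nat_lit 133)) (PT.lf (nat_lit 16644) (nat_lit 6) (nat_lit 219) (nat_lit 1) (nat_lit 142) (nat_lit 116) (nat_lit 132))) (PT.nd (nat_lit 78) (PT.lf (nat_lit 16568) (nat_lit 6) (nat_lit 218) (nat_lit 1) (nat_lit 143) (nat_lit 116) (nat_lit 131)) (PT.lf (nat_lit 16492) (nat_lit 6) (nat_lit 217) (nat_lit 1) (nat_lit 144) (nat_lit 116) (nat_lit 130))))) (PT.nd (nat_lit 39468) (PT.nd (nat_lit 39312) (PT.lf (nat_lit 15276) (nat_lit 6) (nat_lit 201) (nat_lit 1) (nat_lit 145) (nat_lit 116) (nat_lit 129)) (PT.nd (nat_lit 78) (PT.lf (nat_lit 15200) (nat_lit 6) (nat_lit 200) (nat_lit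 3) (nat_lit 128) (nat_lit 117) (nat_lit 145)) (PT.lf (nat_lit 16416) (nat_lit 6) (nat_lit 216) (nat_lit 3) (nat_lit 129) (nat_lit 117) (nat_lit 144)))) (PT.nd (nat_lit 156) (PT.nd (nat_lit 78) (PT.lf (nat_lit 17556) (nat_lit 6) (nat_lit 231) (nat_lit 3) (nat_lit 130) (nat_lit 117) (nat_lit 143)) (PT.lf (nat_lit 17632) (nat_lit 6) (nat_lit 232) (nat_lit 3) (nat_lit 131) (nat_lit 117) (nat_lit 142))) (PT.nd (nat_lit 78) (PT.lf (nat_lit 17708) (nat_lit 6) (nat_lit 233) (nat_lit 3) (nat_lit 132) (nat_lit 117) (nat_lit 141)) (PT.lf (nat_lit 17784) (nat_lit 6) (nat_lit 234) (nat_lit 3) (nat_lit 133) (nat_lit 117) (nat_lit 140))))))))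
noncomputable def pc7 : PT := (PT.nd (nat_lit 41262) (PT.nd (nat_lit 40170) (PT.nd (nat_lit 468) (PT.nd (nat_lit 234) (PT.nd (nat_lit 78) (PT.lf (nat_lit 17860) (nat_lit 6) (nat_lit 235) (nat_lit 3) (nat_lit 134) (nat_lit 117) (nat_lit 139)) (PT.nd (nat_lit 78) (PT.lf (nat_lit 17936) (nat_lit 6) (nat_lit 236) (nat_lit 3) (nat_lit 135) (nat_lit 117) (nat_lit 138)) (PT.lf (nat_lit 18012) (nat_lit 6) (nat_lit 237) (nat_lit 3) (nat_lit 136) (nat_lit 117) (nat_lit 137)))) (PT.nd (nat_lit 78) (PT.lf (nat_lit 18012) (nat_lit 6) (nat_lit 237) (nat_lit 1) (nat_lit 137) (nat_lit 117) (nat_lit 136)) (PT.nd (nat_lit 78) (PT.lf (nat_lit 17936) (nat_lit 6) (nat_lit 236) (nat_lit 1) (nat_lit 138) (nat_lit 117) (nat_lit 135)) (PT.lf (nat_lit 17860) (nat_lit 6) (nat_lit 235) (nat_lit 1) (nat_lit 139) (nat_lit 117) (nat_lit 134))))) (PT.nd (nat_lit 234) (PT.nd (nat_lit 78) (PT.lf (nat_lit 17784) (nat_lit 6) (nat_lit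 234) (nat_lit 1) (nat_lit 140) (nat_lit 117) (nat_lit 133)) (PT.nd (nat_lit 78) (PT.lf (nat_lit 17708) (nat_lit 6) (nat_lit 233) (nat_lit 1) (nat_lit 141) (nat_lit 117) (nat_lit 132)) (PT.lf (nat_lit 17632) (nat_lit 6) (nat_lit 232) (nat_lit 1) (nat_lit 142) (nat_lit 117) (nat_lit 131)))) (PT.nd (nat_lit 156) (PT.nd (nat_lit 78) (PT.lf (nat_lit 17556) (nat_lit 6) (nat_lit 231) (nat_lit 1) (nat_lit 143) (nat_lit 117) (nat_lit 130)) (PT.lf (nat_lit 16416) (nat_lit 6) (nat_lit 216) (nat_lit 1) (nat_lit 144) (nat_lit 117) (nat_lit 129))) (PT.nd (nat_lit 39234) (PT.lf (nat_lit 15200) (nat_lit 6) (nat_lit 200) (nat_lit 1) (nat_lit 145) (nat_lit 117) (nat_lit 128)) (PT.lf (nat_lit 15124) (nat_lit 6) (nat_lit 199) (nat_lit 3) (nat_lit 127) (nat_lit 118) (nat_lit 145)))))) (PT.nd (nat_lit 546) (PT.nd (nat_lit 234) (PT.nd (nat_lit 78) (PT.lf (nat_lit 16340) (nat_lit 6) (nat_lit 215) (nat_lit 3) (nat_lit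 128) (nat_lit 118) (nat_lit 144)) (PT.nd (nat_lit 78) (PT.lf (nat_lit 17480) (nat_lit 6) (nat_lit 230) (nat_lit 3) (nat_lit 129) (nat_lit 118) (nat_lit 143)) (PT.lf (nat_lit 18544) (nat_lit 6) (nat_lit 244) (nat_lit 3) (nat_lit 130) (nat_lit 118) (nat_lit 142)))) (PT.nd (nat_lit 156) (PT.nd (nat_lit 78) (PT.lf (nat_lit 18620) (nat_lit 6) (nat_lit 245) (nat_lit 3) (nat_lit 131) (nat_lit 118) (nat_lit 141)) (PT.lf (nat_lit 18696) (nat_lit 6) (nat_lit 246) (nat_lit 3) (nat_lit 132) (nat_lit 118) (nat_lit 140))) (PT.nd (nat_lit 78) (PT.lf (nat_lit 18772) (nat_lit 6) (nat_lit 247) (nat_lit 3) (nat_lit 133) (nat_lit 118) (nat_lit 139)) (PT.lf (nat_lit 18848) (nat_lit 6) (nat_lit 248) (nat_lit 3) (nat_lit 134) (nat_lit 118) (nat_lit 138))))) (PT.nd (nat_lit 234) (PT.nd (nat_lit 78) (PT.lf (nat_lit 18924) (nat_lit 6) (nat_lit 249) (nat_lit 3) (nat_lit 135) (nat_lit 118) (nat_lit 137)) (PT.nd (nat_lit 78)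 (PT.lf (nat_lit 19000) (nat_lit 3) (nat_lit 250) (nat_lit 1) (nat_lit 136) (nat_lit 118) (nat_lit 136)) (PT.lf (nat_lit 18924) (nat_lit 6) (nat_lit 249) (nat_lit 1) (nat_lit 137) (nat_lit 118) (nat_lit 135)))) (PT.nd (nat_lit 156) (PT.nd (nat_lit 78) (PT.lf (nat_lit 18848) (nat_lit 6) (nat_lit 248) (nat_lit 1) (nat_lit 138) (nat_lit 118) (nat_lit 134)) (PT.lf (nat_lit 18772) (nat_lit 6) (nat_lit 247) (nat_lit 1) (nat_lit 139) (nat_lit 118) (nat_lit 133))) (PT.nd (nat_lit 78) (PT.lf (nat_lit 18696) (nat_lit 6) (nat_lit 246) (nat_lit 1) (nat_lit 140) (nat_lit 118) (nat_lit 132)) (PT.lf (nat_lit 18620) (nat_lit 6) (nat_lit 245) (nat_lit 1) (nat_lit 141) (nat_lit 118) (nat_lit 131))))))) (PT.nd (nat_lit 40170) (PT.nd (nat_lit 39624) (PT.nd (nat_lit 234) (PT.nd (nat_lit 78) (PT.lf (nat_lit 18544) (nat_lit 6) (nat_lit 244) (nat_lit 1) (nat_lit 142) (nat_lit 118) (nat_lit 130)) (PT.nd (nat_lit 78) (PT.lf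 (nat_lit 17480) (nat_lit 6) (nat_lit 230) (nat_lit 1) (nat_lit 143) (nat_lit 118) (nat_lit 129)) (PT.lf (nat_lit 16340) (nat_lit 6) (nat_lit 215) (nat_lit 1) (nat_lit 144) (nat_lit 118) (nat_lit 128)))) (PT.nd (nat_lit 39234) (PT.nd (nat_lit 39156) (PT.lf (nat_lit 15124) (nat_lit 6) (nat_lit 199) (nat_lit 1) (nat_lit 145) (nat_lit 118) (nat_lit 127)) (PT.lf (nat_lit 15048) (nat_lit 6) (nat_lit 198) (nat_lit 3) (nat_lit 126) (nat_lit 119) (nat_lit 145))) (PT.nd (nat_lit 78) (PT.lf (nat_lit 16264) (nat_lit 6) (nat_lit 214) (nat_lit 3) (nat_lit 127) (nat_lit 119) (nat_lit 144)) (PT.lf (nat_lit 17404) (nat_lit 6) (nat_lit 229) (nat_lit 3) (nat_lit 128) (nat_lit 119) (nat_lit 143))))) (PT.nd (nat_lit 234) (PT.nd (nat_lit 78) (PT.lf (nat_lit 18468) (nat_lit 6) (nat_lit 243) (nat_lit 3) (nat_lit 129) (nat_lit 119) (nat_lit 142)) (PT.nd (nat_lit 78) (PT.lf (nat_lit 19456) (nat_lit 6) (nat_lit 256) (nat_lit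 3) (nat_lit 130) (nat_lit 119) (nat_lit 141)) (PT.lf (nat_lit 19532) (nat_lit 6) (nat_lit 257) (nat_lit 3) (nat_lit 131) (nat_lit 119) (nat_lit 140)))) (PT.nd (nat_lit 156) (PT.nd (nat_lit 78) (PT.lf (nat_lit 19608) (nat_lit 6) (nat_lit 258) (nat_lit 3) (nat_lit 132) (nat_lit 119) (nat_lit 139)) (PT.lf (nat_lit 19684) (nat_lit 6) (nat_lit 259) (nat_lit 3) (nat_lit 133) (nat_lit 119) (nat_lit 138))) (PT.nd (nat_lit 78) (PT.lf (nat_lit 19760) (nat_lit 6) (nat_lit 260) (nat_lit 3) (nat_lit 134) (nat_lit 119) (nat_lit 137)) (PT.lf (nat_lit 19836) (nat_lit 6) (nat_lit 261) (nat_lit 3) (nat_lit 135) (nat_lit 119) (nat_lit 136)))))) (PT.nd (nat_lit 546) (PT.nd (nat_lit 234) (PT.nd (nat_lit 78) (PT.lf (nat_lit 19836) (nat_lit 6) (nat_lit 261) (nat_lit 1) (nat_lit 136) (nat_lit 119) (nat_lit 135)) (PT.nd (nat_lit 78) (PT.lf (nat_lit 19760) (nat_lit 6) (nat_lit 260) (nat_lit 1) (nat_lit 137) (nat_lit 119)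 (nat_lit 134)) (PT.lf (nat_lit 19684) (nat_lit 6) (nat_lit 259) (nat_lit 1) (nat_lit 138) (nat_lit 119) (nat_lit 133)))) (PT.nd (nat_lit 156) (PT.nd (nat_lit 78) (PT.lf (nat_lit 19608) (nat_lit 6) (nat_lit 258) (nat_lit 1) (nat_lit 139) (nat_lit 119) (nat_lit 132)) (PT.lf (nat_lit 19532) (nat_lit 6) (nat_lit 257) (nat_lit 1) (nat_lit 140) (nat_lit 119) (nat_lit 131))) (PT.nd (nat_lit 78) (PT.lf (nat_lit 19456) (nat_lit 6) (nat_lit 256) (nat_lit 1) (nat_lit 141) (nat_lit 119) (nat_lit 130)) (PT.lf (nat_lit 18468) (nat_lit 6) (nat_lit 243) (nat_lit 1) (nat_lit 142) (nat_lit 119) (nat_lit 129))))) (PT.nd (nat_lit 39234) (PT.nd (nat_lit 78) (PT.lf (nat_lit 17404) (nat_lit 6) (nat_lit 229) (nat_lit 1) (nat_lit 143) (nat_lit 119) (nat_lit 128)) (PT.nd (nat_lit 78) (PT.lf (nat_lit 16264) (nat_lit 6) (nat_lit 214) (nat_lit 1) (nat_lit 144) (nat_lit 119) (nat_lit 127)) (PT.lf (nat_lit 15048) (nat_lit 6)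 (nat_lit 198) (nat_lit 1) (nat_lit 145) (nat_lit 119) (nat_lit 126)))) (PT.nd (nat_lit 156) (PT.nd (nat_lit 78) (PT.lf (nat_lit 14972) (nat_lit 6) (nat_lit 197) (nat_lit 3) (nat_lit 125) (nat_lit 120) (nat_lit 145)) (PT.lf (nat_lit 16188) (nat_lit 6) (nat_lit 213) (nat_lit 3) (nat_lit 126) (nat_lit 120) (nat_lit 144))) (PT.nd (nat_lit 78) (PT.lf (nat_lit 17328) (nat_lit 6) (nat_lit 228) (nat_lit 3) (nat_lit 127) (nat_lit 120) (nat_lit 143)) (PT.lf (nat_lit 18392) (nat_lit 6) (nat_lit 242) (nat_lit 3) (nat_lit 128) (nat_lit 120) (nat_lit 142))))))))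
noncomputable def pc8 : PT := (PT.nd (nat_lit 41028) (PT.nd (nat_lit 1014) (PT.nd (nat_lit 468) (PT.nd (nat_lit 234) (PT.nd (nat_lit 78) (PT.lf (nat_lit 19380) (nat_lit 6) (nat_lit 255) (nat_lit 3) (nat_lit 129) (nat_lit 120) (nat_lit 141)) (PT.nd (nat_lit 78) (PT.lf (nat_lit 20292) (nat_lit 6) (nat_lit 267) (nat_lit 3) (nat_lit 130) (nat_lit 120) (nat_lit 140)) (PT.lf (nat_lit 20368) (nat_lit 6) (nat_lit 268) (nat_lit 3) (nat_lit 131) (nat_lit 120) (nat_lit 139)))) (PT.nd (nat_lit 78) (PT.lf (nat_lit 20444) (nat_lit 6) (nat_lit 269) (nat_lit 3) (nat_lit 132) (nat_lit 120) (nat_lit 138)) (PT.nd (nat_lit 78) (PT.lf (nat_lit 20520) (nat_lit 6) (nat_lit 270) (nat_lit 3) (nat_lit 133) (nat_lit 120) (nat_lit 137)) (PT.lf (nat_lit 20596) (nat_lit 6) (nat_lit 271) (nat_lit 3) (nat_lit 134) (nat_lit 120) (nat_lit 136))))) (PT.nd (nat_lit 234) (PT.nd (nat_lit 78) (PT.lf (nat_lit 20672) (nat_lit 3) (nat_lit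 272) (nat_lit 1) (nat_lit 135) (nat_lit 120) (nat_lit 135)) (PT.nd (nat_lit 78) (PT.lf (nat_lit 20596) (nat_lit 6) (nat_lit 271) (nat_lit 1) (nat_lit 136) (nat_lit 120) (nat_lit 134)) (PT.lf (nat_lit 20520) (nat_lit 6) (nat_lit 270) (nat_lit 1) (nat_lit 137) (nat_lit 120) (nat_lit 133)))) (PT.nd (nat_lit 156) (PT.nd (nat_lit 78) (PT.lf (nat_lit 20444) (nat_lit 6) (nat_lit 269) (nat_lit 1) (nat_lit 138) (nat_lit 120) (nat_lit 132)) (PT.lf (nat_lit 20368) (nat_lit 6) (nat_lit 268) (nat_lit 1) (nat_lit 139) (nat_lit 120) (nat_lit 131))) (PT.nd (nat_lit 78) (PT.lf (nat_lit 20292) (nat_lit 6) (nat_lit 267) (nat_lit 1) (nat_lit 140) (nat_lit 120) (nat_lit 130)) (PT.lf (nat_lit 19380) (nat_lit 6) (nat_lit 255) (nat_lit 1) (nat_lit 141) (nat_lit 120) (nat_lit 129)))))) (PT.nd (nat_lit 39468) (PT.nd (nat_lit 234) (PT.nd (nat_lit 78) (PT.lf (nat_lit 18392) (nat_lit 6) (nat_lit 242) (nat_lit 1) (nat_lit 142)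 (nat_lit 120) (nat_lit 128)) (PT.nd (nat_lit 78) (PT.lf (nat_lit 17328) (nat_lit 6) (nat_lit 228) (nat_lit 1) (nat_lit 143) (nat_lit 120) (nat_lit 127)) (PT.lf (nat_lit 16188) (nat_lit 6) (nat_lit 213) (nat_lit 1) (nat_lit 144) (nat_lit 120) (nat_lit 126)))) (PT.nd (nat_lit 39078) (PT.nd (nat_lit 39000) (PT.lf (nat_lit 14972) (nat_lit 6) (nat_lit 197) (nat_lit 1) (nat_lit 145) (nat_lit 120) (nat_lit 125)) (PT.lf (nat_lit 14896) (nat_lit 6) (nat_lit 196) (nat_lit 3) (nat_lit 124) (nat_lit 121) (nat_lit 145))) (PT.nd (nat_lit 78) (PT.lf (nat_lit 16112) (nat_lit 6) (nat_lit 212) (nat_lit 3) (nat_lit 125) (nat_lit 121) (nat_lit 144)) (PT.lf (nat_lit 17252) (nat_lit 6) (nat_lit 227) (nat_lit 3) (nat_lit 126) (nat_lit 121) (nat_lit 143))))) (PT.nd (nat_lit 234) (PT.nd (nat_lit 78) (PT.lf (nat_lit 18316) (nat_lit 6) (nat_lit 241) (nat_lit 3) (nat_lit 127) (nat_lit 121) (nat_lit 142)) (PT.nd (nat_lit 78)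 (PT.lf (nat_lit 19304) (nat_lit 6) (nat_lit 254) (nat_lit 3) (nat_lit 128) (nat_lit 121) (nat_lit 141)) (PT.lf (nat_lit 20216) (nat_lit 6) (nat_lit 266) (nat_lit 3) (nat_lit 129) (nat_lit 121) (nat_lit 140)))) (PT.nd (nat_lit 156) (PT.nd (nat_lit 78) (PT.lf (nat_lit 21052) (nat_lit 6) (nat_lit 277) (nat_lit 3) (nat_lit 130) (nat_lit 121) (nat_lit 139)) (PT.lf (nat_lit 21128) (nat_lit 6) (nat_lit 278) (nat_lit 3) (nat_lit 131) (nat_lit 121) (nat_lit 138))) (PT.nd (nat_lit 78) (PT.lf (nat_lit 21204) (nat_lit 6) (nat_lit 279) (nat_lit 3) (nat_lit 132) (nat_lit 121) (nat_lit 137)) (PT.lf (nat_lit 21280) (nat_lit 6) (nat_lit 280) (nat_lit 3) (nat_lit 133) (nat_lit 121) (nat_lit 136))))))) (PT.nd (nat_lit 39858) (PT.nd (nat_lit 468) (PT.nd (nat_lit 234) (PT.nd (nat_lit 78) (PT.lf (nat_lit 21356) (nat_lit 6) (nat_lit 281) (nat_lit 3) (nat_lit 134) (nat_lit 121) (nat_lit 135)) (PT.nd (nat_lit 78) (PT.lf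 (nat_lit 21356) (nat_lit 6) (nat_lit 281) (nat_lit 1) (nat_lit 135) (nat_lit 121) (nat_lit 134)) (PT.lf (nat_lit 21280) (nat_lit 6) (nat_lit 280) (nat_lit 1) (nat_lit 136) (nat_lit 121) (nat_lit 133)))) (PT.nd (nat_lit 78) (PT.lf (nat_lit 21204) (nat_lit 6) (nat_lit 279) (nat_lit 1) (nat_lit 137) (nat_lit 121) (nat_lit 132)) (PT.nd (nat_lit 78) (PT.lf (nat_lit 21128) (nat_lit 6) (nat_lit 278) (nat_lit 1) (nat_lit 138) (nat_lit 121) (nat_lit 131)) (PT.lf (nat_lit 21052) (nat_lit 6) (nat_lit 277) (nat_lit 1) (nat_lit 139) (nat_lit 121) (nat_lit 130))))) (PT.nd (nat_lit 234) (PT.nd (nat_lit 78) (PT.lf (nat_lit 20216) (nat_lit 6) (nat_lit 266) (nat_lit 1) (nat_lit 140) (nat_lit 121) (nat_lit 129)) (PT.nd (nat_lit 78) (PT.lf (nat_lit 19304) (nat_lit 6) (nat_lit 254) (nat_lit 1) (nat_lit 141) (nat_lit 121) (nat_lit 128)) (PT.lf (nat_lit 18316) (nat_lit 6) (nat_lit 241) (nat_lit 1) (nat_lit 142) (nat_lit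 121) (nat_lit 127)))) (PT.nd (nat_lit 156) (PT.nd (nat_lit 78) (PT.lf (nat_lit 17252) (nat_lit 6) (nat_lit 227) (nat_lit 1) (nat_lit 143) (nat_lit 121) (nat_lit 126)) (PT.lf (nat_lit 16112) (nat_lit 6) (nat_lit 212) (nat_lit 1) (nat_lit 144) (nat_lit 121) (nat_lit 125))) (PT.nd (nat_lit 38922) (PT.lf (nat_lit 14896) (nat_lit 6) (nat_lit 196) (nat_lit 1) (nat_lit 145) (nat_lit 121) (nat_lit 124)) (PT.lf (nat_lit 14820) (nat_lit 6) (nat_lit 195) (nat_lit 3) (nat_lit 123) (nat_lit 122) (nat_lit 145)))))) (PT.nd (nat_lit 546) (PT.nd (nat_lit 234) (PT.nd (nat_lit 78) (PT.lf (nat_lit 16036) (nat_lit 6) (nat_lit 211) (nat_lit 3) (nat_lit 124) (nat_lit 122) (nat_lit 144)) (PT.nd (nat_lit 78) (PT.lf (nat_lit 17176) (nat_lit 6) (nat_lit 226) (nat_lit 3) (nat_lit 125) (nat_lit 122) (nat_lit 143)) (PT.lf (nat_lit 18240) (nat_lit 6) (nat_lit 240) (nat_lit 3) (nat_lit 126) (nat_lit 122) (nat_lit 142)))) (PT.nd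 (nat_lit 156) (PT.nd (nat_lit 78) (PT.lf (nat_lit 19228) (nat_lit 6) (nat_lit 253) (nat_lit 3) (nat_lit 127) (nat_lit 122) (nat_lit 141)) (PT.lf (nat_lit 20140) (nat_lit 6) (nat_lit 265) (nat_lit 3) (nat_lit 128) (nat_lit 122) (nat_lit 140))) (PT.nd (nat_lit 78) (PT.lf (nat_lit 20976) (nat_lit 6) (nat_lit 276) (nat_lit 3) (nat_lit 129) (nat_lit 122) (nat_lit 139)) (PT.lf (nat_lit 21736) (nat_lit 6) (nat_lit 286) (nat_lit 3) (nat_lit 130) (nat_lit 122) (nat_lit 138))))) (PT.nd (nat_lit 234) (PT.nd (nat_lit 78) (PT.lf (nat_lit 21812) (nat_lit 6) (nat_lit 287) (nat_lit 3) (nat_lit 131) (nat_lit 122) (nat_lit 137)) (PT.nd (nat_lit 78) (PT.lf (nat_lit 21888) (nat_lit 6) (nat_lit 288) (nat_lit 3) (nat_lit 132) (nat_lit 122) (nat_lit 136)) (PT.lf (nat_lit 21964) (nat_lit 6) (nat_lit 289) (nat_lit 3) (nat_lit 133) (nat_lit 122) (nat_lit 135)))) (PT.nd (nat_lit 156) (PT.nd (nat_lit 78) (PT.lf (nat_lit 22040)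 (nat_lit 3) (nat_lit 290) (nat_lit 1) (nat_lit 134) (nat_lit 122) (nat_lit 134)) (PT.lf (nat_lit 21964) (nat_lit 6) (nat_lit 289) (nat_lit 1) (nat_lit 135) (nat_lit 122) (nat_lit 133))) (PT.nd (nat_lit 78) (PT.lf (nat_lit 21888) (nat_lit 6) (nat_lit 288) (nat_lit 1) (nat_lit 136) (nat_lit 122) (nat_lit 132)) (PT.lf (nat_lit 21812) (nat_lit 6) (nat_lit 287) (nat_lit 1) (nat_lit 137) (nat_lit 122) (nat_lit 131))))))))
noncomputable def pc9 : PT := (PT.nd (nat_lit 40872) (PT.nd (nat_lit 39780) (PT.nd (nat_lit 468) (PT.nd (nat_lit 234) (PT.nd (nat_lit 78) (PT.lf (nat_lit 21736) (nat_lit 6) (nat_lit 286) (nat_lit 1) (nat_lit 138) (nat_lit 122) (nat_lit 130)) (PT.nd (nat_lit 78) (PT.lf (nat_lit 20976) (nat_lit 6) (nat_lit 276) (nat_lit 1) (nat_lit 139) (nat_lit 122) (nat_lit 129)) (PT.lf (nat_lit 20140) (nat_lit 6) (nat_lit 265) (nat_lit 1) (nat_lit 140) (nat_lit 122) (nat_lit 128)))) (PT.nd (nat_lit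 78) (PT.lf (nat_lit 19228) (nat_lit 6) (nat_lit 253) (nat_lit 1) (nat_lit 141) (nat_lit 122) (nat_lit 127)) (PT.nd (nat_lit 78) (PT.lf (nat_lit 18240) (nat_lit 6) (nat_lit 240) (nat_lit 1) (nat_lit 142) (nat_lit 122) (nat_lit 126)) (PT.lf (nat_lit 17176) (nat_lit 6) (nat_lit 226) (nat_lit 1) (nat_lit 143) (nat_lit 122) (nat_lit 125))))) (PT.nd (nat_lit 39000) (PT.nd (nat_lit 78) (PT.lf (nat_lit 16036) (nat_lit 6) (nat_lit 211) (nat_lit 1) (nat_lit 144) (nat_lit 122) (nat_lit 124)) (PT.nd (nat_lit 38844) (PT.lf (nat_lit 14820) (nat_lit 6) (nat_lit 195) (nat_lit 1) (nat_lit 145) (nat_lit 122) (nat_lit 123)) (PT.lf (nat_lit 14820) (nat_lit 6) (nat_lit 195) (nat_lit 5) (nat_lit 122) (nat_lit 123) (nat_lit 145)))) (PT.nd (nat_lit 156) (PT.nd (nat_lit 78) (PT.lf (nat_lit 15960) (nat_lit 3) (nat_lit 210) (nat_lit 3) (nat_lit 123) (nat_lit 123) (nat_lit 144)) (PT.lf (nat_lit 17100) (nat_lit 6) (nat_lit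 225) (nat_lit 3) (nat_lit 124) (nat_lit 123) (nat_lit 143))) (PT.nd (nat_lit 78) (PT.lf (nat_lit 18164) (nat_lit 6) (nat_lit 239) (nat_lit 3) (nat_lit 125) (nat_lit 123) (nat_lit 142)) (PT.lf (nat_lit 19152) (nat_lit 6) (nat_lit 252) (nat_lit 3) (nat_lit 126) (nat_lit 123) (nat_lit 141)))))) (PT.nd (nat_lit 546) (PT.nd (nat_lit 234) (PT.nd (nat_lit 78) (PT.lf (nat_lit 20064) (nat_lit 6) (nat_lit 264) (nat_lit 3) (nat_lit 127) (nat_lit 123) (nat_lit 140)) (PT.nd (nat_lit 78) (PT.lf (nat_lit 20900) (nat_lit 6) (nat_lit 275) (nat_lit 3) (nat_lit 128) (nat_lit 123) (nat_lit 139)) (PT.lf (nat_lit 21660) (nat_lit 6) (nat_lit 285) (nat_lit 3) (nat_lit 129) (nat_lit 123) (nat_lit 138)))) (PT.nd (nat_lit 156) (PT.nd (nat_lit 78) (PT.lf (nat_lit 22344) (nat_lit 6) (nat_lit 294) (nat_lit 3) (nat_lit 130) (nat_lit 123) (nat_lit 137)) (PT.lf (nat_lit 22420) (nat_lit 6) (nat_lit 295) (nat_lit 3) (nat_lit 131)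 (nat_lit 123) (nat_lit 136))) (PT.nd (nat_lit 78) (PT.lf (nat_lit 22496) (nat_lit 6) (nat_lit 296) (nat_lit 3) (nat_lit 132) (nat_lit 123) (nat_lit 135)) (PT.lf (nat_lit 22572) (nat_lit 6) (nat_lit 297) (nat_lit 3) (nat_lit 133) (nat_lit 123) (nat_lit 134))))) (PT.nd (nat_lit 234) (PT.nd (nat_lit 78) (PT.lf (nat_lit 22572) (nat_lit 6) (nat_lit 297) (nat_lit 1) (nat_lit 134) (nat_lit 123) (nat_lit 133)) (PT.nd (nat_lit 78) (PT.lf (nat_lit 22496) (nat_lit 6) (nat_lit 296) (nat_lit 1) (nat_lit 135) (nat_lit 123) (nat_lit 132)) (PT.lf (nat_lit 22420) (nat_lit 6) (nat_lit 295) (nat_lit 1) (nat_lit 136) (nat_lit 123) (nat_lit 131)))) (PT.nd (nat_lit 156) (PT.nd (nat_lit 78) (PT.lf (nat_lit 22344) (nat_lit 6) (nat_lit 294) (nat_lit 1) (nat_lit 137) (nat_lit 123) (nat_lit 130)) (PT.lf (nat_lit 21660) (nat_lit 6) (nat_lit 285) (nat_lit 1) (nat_lit 138) (nat_lit 123) (nat_lit 129))) (PT.nd (nat_lit 78) (PT.lf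 (nat_lit 20900) (nat_lit 6) (nat_lit 275) (nat_lit 1) (nat_lit 139) (nat_lit 123) (nat_lit 128)) (PT.lf (nat_lit 20064) (nat_lit 6) (nat_lit 264) (nat_lit 1) (nat_lit 140) (nat_lit 123) (nat_lit 127))))))) (PT.nd (nat_lit 39780) (PT.nd (nat_lit 39234) (PT.nd (nat_lit 234) (PT.nd (nat_lit 78) (PT.lf (nat_lit 19152) (nat_lit 6) (nat_lit 252) (nat_lit 1) (nat_lit 141) (nat_lit 123) (nat_lit 126)) (PT.nd (nat_lit 78) (PT.lf (nat_lit 18164) (nat_lit 6) (nat_lit 239) (nat_lit 1) (nat_lit 142) (nat_lit 123) (nat_lit 125)) (PT.lf (nat_lit 17100) (nat_lit 6) (nat_lit 225) (nat_lit 1) (nat_lit 143) (nat_lit 123) (nat_lit 124)))) (PT.nd (nat_lit 38844) (PT.nd (nat_lit 78) (PT.lf (nat_lit 15960) (nat_lit 3) (nat_lit 210) (nat_lit 0) (nat_lit 144) (nat_lit 123) (nat_lit 123)) (PT.lf (nat_lit 14820) (nat_lit 6) (nat_lit 195) (nat_lit 0) (nat_lit 145) (nat_lit 123) (nat_lit 122))) (PT.nd (nat_lit 78) (PT.lf (nat_lit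 14896) (nat_lit 6) (nat_lit 196) (nat_lit 5) (nat_lit 121) (nat_lit 124) (nat_lit 145)) (PT.lf (nat_lit 16036) (nat_lit 6) (nat_lit 211) (nat_lit 5) (nat_lit 122) (nat_lit 124) (nat_lit 144))))) (PT.nd (nat_lit 234) (PT.nd (nat_lit 78) (PT.lf (nat_lit 17100) (nat_lit 6) (nat_lit 225) (nat_lit 5) (nat_lit 123) (nat_lit 124) (nat_lit 143)) (PT.nd (nat_lit 78) (PT.lf (nat_lit 18088) (nat_lit 3) (nat_lit 238) (nat_lit 3) (nat_lit 124) (nat_lit 124) (nat_lit 142)) (PT.lf (nat_lit 19076) (nat_lit 6) (nat_lit 251) (nat_lit 3) (nat_lit 125) (nat_lit 124) (nat_lit 141)))) (PT.nd (nat_lit 156) (PT.nd (nat_lit 78) (PT.lf (nat_lit 19988) (nat_lit 6) (nat_lit 263) (nat_lit 3) (nat_lit 126) (nat_lit 124) (nat_lit 140)) (PT.lf (nat_lit 20824) (nat_lit 6) (nat_lit 274) (nat_lit 3) (nat_lit 127) (nat_lit 124) (nat_lit 139))) (PT.nd (nat_lit 78) (PT.lf (nat_lit 21584) (nat_lit 6) (nat_lit 284) (nat_lit 3) (nat_lit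 128) (nat_lit 124) (nat_lit 138)) (PT.lf (nat_lit 22268) (nat_lit 6) (nat_lit 293) (nat_lit 3) (nat_lit 129) (nat_lit 124) (nat_lit 137)))))) (PT.nd (nat_lit 546) (PT.nd (nat_lit 234) (PT.nd (nat_lit 78) (PT.lf (nat_lit 22876) (nat_lit 6) (nat_lit 301) (nat_lit 3) (nat_lit 130) (nat_lit 124) (nat_lit 136)) (PT.nd (nat_lit 78) (PT.lf (nat_lit 22952) (nat_lit 6) (nat_lit 302) (nat_lit 3) (nat_lit 131) (nat_lit 124) (nat_lit 135)) (PT.lf (nat_lit 23028) (nat_lit 6) (nat_lit 303) (nat_lit 3) (nat_lit 132) (nat_lit 124) (nat_lit 134)))) (PT.nd (nat_lit 156) (PT.nd (nat_lit 78) (PT.lf (nat_lit 23104) (nat_lit 3) (nat_lit 304) (nat_lit 1) (nat_lit 133) (nat_lit 124) (nat_lit 133)) (PT.lf (nat_lit 23028) (nat_lit 6) (nat_lit 303) (nat_lit 1) (nat_lit 134) (nat_lit 124) (nat_lit 132))) (PT.nd (nat_lit 78) (PT.lf (nat_lit 22952) (nat_lit 6) (nat_lit 302) (nat_lit 1) (nat_lit 135) (nat_lit 124) (nat_lit 131))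 (PT.lf (nat_lit 22876) (nat_lit 6) (nat_lit 301) (nat_lit 1) (nat_lit 136) (nat_lit 124) (nat_lit 130))))) (PT.nd (nat_lit 234) (PT.nd (nat_lit 78) (PT.lf (nat_lit 22268) (nat_lit 6) (nat_lit 293) (nat_lit 1) (nat_lit 137) (nat_lit 124) (nat_lit 129)) (PT.nd (nat_lit 78) (PT.lf (nat_lit 21584) (nat_lit 6) (nat_lit 284) (nat_lit 1) (nat_lit 138) (nat_lit 124) (nat_lit 128)) (PT.lf (nat_lit 20824) (nat_lit 6) (nat_lit 274) (nat_lit 1) (nat_lit 139) (nat_lit 124) (nat_lit 127)))) (PT.nd (nat_lit 156) (PT.nd (nat_lit 78) (PT.lf (nat_lit 19988) (nat_lit 6) (nat_lit 263) (nat_lit 1) (nat_lit 140) (nat_lit 124) (nat_lit 126)) (PT.lf (nat_lit 19076) (nat_lit 6) (nat_lit 251) (nat_lit 1) (nat_lit 141) (nat_lit 124) (nat_lit 125))) (PT.nd (nat_lit 78) (PT.lf (nat_lit 18088) (nat_lit 3) (nat_lit 238) (nat_lit 0) (nat_lit 142) (nat_lit 124) (nat_lit 124)) (PT.lf (nat_lit 17100) (nat_lit 6) (nat_lit 225) (nat_lit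 0) (nat_lit 143) (nat_lit 124) (nat_lit 123))))))))
noncomputable def pc10 : PT := (PT.nd (nat_lit 40716) (PT.nd (nat_lit 39624) (PT.nd (nat_lit 39078) (PT.nd (nat_lit 38844) (PT.nd (nat_lit 78) (PT.lf (nat_lit 16036) (nat_lit 6) (nat_lit 211) (nat_lit 0) (nat_lit 144) (nat_lit 124) (nat_lit 122)) (PT.nd (nat_lit 38688) (PT.lf (nat_lit 14896) (nat_lit 6) (nat_lit 196) (nat_lit 0) (nat_lit 145) (nat_lit 124) (nat_lit 121)) (PT.lf (nat_lit 14972) (nat_lit 6) (nat_lit 197) (nat_lit 5) (nat_lit 120) (nat_lit 125) (nat_lit 145)))) (PT.nd (nat_lit 78) (PT.lf (nat_lit 16112) (nat_lit 6) (nat_lit 212) (nat_lit 5) (nat_lit 121) (nat_lit 125) (nat_lit 144)) (PT.nd (nat_lit 78) (PT.lf (nat_lit 17176) (nat_lit 6) (nat_lit 226) (nat_lit 5) (nat_lit 122) (nat_lit 125) (nat_lit 143)) (PT.lf (nat_lit 18164) (nat_lit 6) (nat_lit 239) (nat_lit 5) (nat_lit 123) (nat_lit 125) (nat_lit 142))))) (PT.nd (nat_lit 234)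 (PT.nd (nat_lit 78) (PT.lf (nat_lit 19076) (nat_lit 6) (nat_lit 251) (nat_lit 5) (nat_lit 124) (nat_lit 125) (nat_lit 141)) (PT.nd (nat_lit 78) (PT.lf (nat_lit 19912) (nat_lit 3) (nat_lit 262) (nat_lit 3) (nat_lit 125) (nat_lit 125) (nat_lit 140)) (PT.lf (nat_lit 20748) (nat_lit 6) (nat_lit 273) (nat_lit 3) (nat_lit 126) (nat_lit 125) (nat_lit 139)))) (PT.nd (nat_lit 156) (PT.nd (nat_lit 78) (PT.lf (nat_lit 21508) (nat_lit 6) (nat_lit 283) (nat_lit 3) (nat_lit 127) (nat_lit 125) (nat_lit 138)) (PT.lf (nat_lit 22192) (nat_lit 6) (nat_lit 292) (nat_lit 3) (nat_lit 128) (nat_lit 125) (nat_lit 137))) (PT.nd (nat_lit 78) (PT.lf (nat_lit 22800) (nat_lit 6) (nat_lit 300) (nat_lit 3) (nat_lit 129) (nat_lit 125) (nat_lit 136)) (PT.lf (nat_lit 23332) (nat_lit 6) (nat_lit 307) (nat_lit 3) (nat_lit 130) (nat_lit 125) (nat_lit 135)))))) (PT.nd (nat_lit 546) (PT.nd (nat_lit 234) (PT.nd (nat_lit 78) (PT.lf (nat_lit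 23408) (nat_lit 6) (nat_lit 308) (nat_lit 3) (nat_lit 131) (nat_lit 125) (nat_lit 134)) (PT.nd (nat_lit 78) (PT.lf (nat_lit 23484) (nat_lit 6) (nat_lit 309) (nat_lit 3) (nat_lit 132) (nat_lit 125) (nat_lit 133)) (PT.lf (nat_lit 23484) (nat_lit 6) (nat_lit 309) (nat_lit 1) (nat_lit 133) (nat_lit 125) (nat_lit 132)))) (PT.nd (nat_lit 156) (PT.nd (nat_lit 78) (PT.lf (nat_lit 23408) (nat_lit 6) (nat_lit 308) (nat_lit 1) (nat_lit 134) (nat_lit 125) (nat_lit 131)) (PT.lf (nat_lit 23332) (nat_lit 6) (nat_lit 307) (nat_lit 1) (nat_lit 135) (nat_lit 125) (nat_lit 130))) (PT.nd (nat_lit 78) (PT.lf (nat_lit 22800) (nat_lit 6) (nat_lit 300) (nat_lit 1) (nat_lit 136) (nat_lit 125) (nat_lit 129)) (PT.lf (nat_lit 22192) (nat_lit 6) (nat_lit 292) (nat_lit 1) (nat_lit 137) (nat_lit 125) (nat_lit 128))))) (PT.nd (nat_lit 234) (PT.nd (nat_lit 78) (PT.lf (nat_lit 21508) (nat_lit 6) (nat_lit 283) (nat_lit 1) (nat_lit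 138) (nat_lit 125) (nat_lit 127)) (PT.nd (nat_lit 78) (PT.lf (nat_lit 20748) (nat_lit 6) (nat_lit 273) (nat_lit 1) (nat_lit 139) (nat_lit 125) (nat_lit 126)) (PT.lf (nat_lit 19912) (nat_lit 3) (nat_lit 262) (nat_lit 0) (nat_lit 140) (nat_lit 125) (nat_lit 125)))) (PT.nd (nat_lit 156) (PT.nd (nat_lit 78) (PT.lf (nat_lit 19076) (nat_lit 6) (nat_lit 251) (nat_lit 0) (nat_lit 141) (nat_lit 125) (nat_lit 124)) (PT.lf (nat_lit 18164) (nat_lit 6) (nat_lit 239) (nat_lit 0) (nat_lit 142) (nat_lit 125) (nat_lit 123))) (PT.nd (nat_lit 78) (PT.lf (nat_lit 17176) (nat_lit 6) (nat_lit 226) (nat_lit 0) (nat_lit 143) (nat_lit 125) (nat_lit 122)) (PT.lf (nat_lit 16112) (nat_lit 6) (nat_lit 212) (nat_lit 0) (nat_lit 144) (nat_lit 125) (nat_lit 121))))))) (PT.nd (nat_lit 39624) (PT.nd (nat_lit 39078) (PT.nd (nat_lit 38766) (PT.nd (nat_lit 38610) (PT.lf (nat_lit 14972) (nat_lit 6) (nat_lit 197) (nat_lit 0) (nat_lit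 145) (nat_lit 125) (nat_lit 120)) (PT.nd (nat_lit 78) (PT.lf (nat_lit 15048) (nat_lit 6) (nat_lit 198) (nat_lit 5) (nat_lit 119) (nat_lit 126) (nat_lit 145)) (PT.lf (nat_lit 16188) (nat_lit 6) (nat_lit 213) (nat_lit 5) (nat_lit 120) (nat_lit 126) (nat_lit 144)))) (PT.nd (nat_lit 156) (PT.nd (nat_lit 78) (PT.lf (nat_lit 17252) (nat_lit 6) (nat_lit 227) (nat_lit 5) (nat_lit 121) (nat_lit 126) (nat_lit 143)) (PT.lf (nat_lit 18240) (nat_lit 6) (nat_lit 240) (nat_lit 5) (nat_lit 122) (nat_lit 126) (nat_lit 142))) (PT.nd (nat_lit 78) (PT.lf (nat_lit 19152) (nat_lit 6) (nat_lit 252) (nat_lit 5) (nat_lit 123) (nat_lit 126) (nat_lit 141)) (PT.lf (nat_lit 19988) (nat_lit 6) (nat_lit 263) (nat_lit 5) (nat_lit 124) (nat_lit 126) (nat_lit 140))))) (PT.nd (nat_lit 234) (PT.nd (nat_lit 78) (PT.lf (nat_lit 20748) (nat_lit 6) (nat_lit 273) (nat_lit 5) (nat_lit 125) (nat_lit 126) (nat_lit 139)) (PT.nd (nat_lit 78)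 (PT.lf (nat_lit 21432) (nat_lit 3) (nat_lit 282) (nat_lit 3) (nat_lit 126) (nat_lit 126) (nat_lit 138)) (PT.lf (nat_lit 22116) (nat_lit 6) (nat_lit 291) (nat_lit 3) (nat_lit 127) (nat_lit 126) (nat_lit 137)))) (PT.nd (nat_lit 156) (PT.nd (nat_lit 78) (PT.lf (nat_lit 22724) (nat_lit 6) (nat_lit 299) (nat_lit 3) (nat_lit 128) (nat_lit 126) (nat_lit 136)) (PT.lf (nat_lit 23256) (nat_lit 6) (nat_lit 306) (nat_lit 3) (nat_lit 129) (nat_lit 126) (nat_lit 135))) (PT.nd (nat_lit 78) (PT.lf (nat_lit 23712) (nat_lit 6) (nat_lit 312) (nat_lit 3) (nat_lit 130) (nat_lit 126) (nat_lit 134)) (PT.lf (nat_lit 23788) (nat_lit 6) (nat_lit 313) (nat_lit 3) (nat_lit 131) (nat_lit 126) (nat_lit 133)))))) (PT.nd (nat_lit 546) (PT.nd (nat_lit 234) (PT.nd (nat_lit 78) (PT.lf (nat_lit 23864) (nat_lit 3) (nat_lit 314) (nat_lit 1) (nat_lit 132) (nat_lit 126) (nat_lit 132)) (PT.nd (nat_lit 78) (PT.lf (nat_lit 23788) (nat_lit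 6) (nat_lit 313) (nat_lit 1) (nat_lit 133) (nat_lit 126) (nat_lit 131)) (PT.lf (nat_lit 23712) (nat_lit 6) (nat_lit 312) (nat_lit 1) (nat_lit 134) (nat_lit 126) (nat_lit 130)))) (PT.nd (nat_lit 156) (PT.nd (nat_lit 78) (PT.lf (nat_lit 23256) (nat_lit 6) (nat_lit 306) (nat_lit 1) (nat_lit 135) (nat_lit 126) (nat_lit 129)) (PT.lf (nat_lit 22724) (nat_lit 6) (nat_lit 299) (nat_lit 1) (nat_lit 136) (nat_lit 126) (nat_lit 128))) (PT.nd (nat_lit 78) (PT.lf (nat_lit 22116) (nat_lit 6) (nat_lit 291) (nat_lit 1) (nat_lit 137) (nat_lit 126) (nat_lit 127)) (PT.lf (nat_lit 21432) (nat_lit 3) (nat_lit 282) (nat_lit 0) (nat_lit 138) (nat_lit 126) (nat_lit 126))))) (PT.nd (nat_lit 234) (PT.nd (nat_lit 78) (PT.lf (nat_lit 20748) (nat_lit 6) (nat_lit 273) (nat_lit 0) (nat_lit 139) (nat_lit 126) (nat_lit 125)) (PT.nd (nat_lit 78) (PT.lf (nat_lit 19988) (nat_lit 6) (nat_lit 263) (nat_lit 0) (nat_lit 140) (nat_lit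 126) (nat_lit 124)) (PT.lf (nat_lit 19152) (nat_lit 6) (nat_lit 252) (nat_lit 0) (nat_lit 141) (nat_lit 126) (nat_lit 123)))) (PT.nd (nat_lit 156) (PT.nd (nat_lit 78) (PT.lf (nat_lit 18240) (nat_lit 6) (nat_lit 240) (nat_lit 0) (nat_lit 142) (nat_lit 126) (nat_lit 122)) (PT.lf (nat_lit 17252) (nat_lit 6) (nat_lit 227) (nat_lit 0) (nat_lit 143) (nat_lit 126) (nat_lit 121))) (PT.nd (nat_lit 78) (PT.lf (nat_lit 16188) (nat_lit 6) (nat_lit 213) (nat_lit 0) (nat_lit 144) (nat_lit 126) (nat_lit 120)) (PT.lf (nat_lit 15048) (nat_lit 6) (nat_lit 198) (nat_lit 0) (nat_lit 145) (nat_lit 126) (nat_lit 119))))))))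
noncomputable def pc11 : PT := (PT.nd (nat_lit 2106) (PT.nd (nat_lit 1014) (PT.nd (nat_lit 468) (PT.nd (nat_lit 234) (PT.nd (nat_lit 78) (PT.lf (nat_lit 15124) (nat_lit 6) (nat_lit 199) (nat_lit 5) (nat_lit 118) (nat_lit 127) (nat_lit 145)) (PT.nd (nat_lit 78) (PT.lf (nat_lit 16264) (nat_lit 6) (nat_lit 214) (nat_lit 5) (nat_lit 119) (nat_lit 127) (nat_lit 144)) (PT.lf (nat_lit 17328) (nat_lit 6) (nat_lit 228) (nat_lit 5) (nat_lit 120) (nat_lit 127) (nat_lit 143)))) (PT.nd (nat_lit 78) (PT.lf (nat_lit 18316) (nat_lit 6) (nat_lit 241) (nat_lit 5) (nat_lit 121) (nat_lit 127) (nat_lit 142)) (PT.nd (nat_lit 78) (PT.lf (nat_lit 19228) (nat_lit 6) (nat_lit 253) (nat_lit 5) (nat_lit 122) (nat_lit 127) (nat_lit 141)) (PT.lf (nat_lit 20064) (nat_lit 6) (nat_lit 264) (nat_lit 5) (nat_lit 123) (nat_lit 127) (nat_lit 140))))) (PT.nd (nat_lit 234) (PT.nd (nat_lit 78) (PT.lf (nat_lit 20824) (nat_lit 6) (nat_lit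 274) (nat_lit 5) (nat_lit 124) (nat_lit 127) (nat_lit 139)) (PT.nd (nat_lit 78) (PT.lf (nat_lit 21508) (nat_lit 6) (nat_lit 283) (nat_lit 5) (nat_lit 125) (nat_lit 127) (nat_lit 138)) (PT.lf (nat_lit 22116) (nat_lit 6) (nat_lit 291) (nat_lit 5) (nat_lit 126) (nat_lit 127) (nat_lit 137)))) (PT.nd (nat_lit 156) (PT.nd (nat_lit 78) (PT.lf (nat_lit 22648) (nat_lit 3) (nat_lit 298) (nat_lit 3) (nat_lit 127) (nat_lit 127) (nat_lit 136)) (PT.lf (nat_lit 23180) (nat_lit 6) (nat_lit 305) (nat_lit 3) (nat_lit 128) (nat_lit 127) (nat_lit 135))) (PT.nd (nat_lit 78) (PT.lf (nat_lit 23636) (nat_lit 6) (nat_lit 311) (nat_lit 3) (nat_lit 129) (nat_lit 127) (nat_lit 134)) (PT.lf (nat_lit 24016) (nat_lit 6) (nat_lit 316) (nat_lit 3) (nat_lit 130) (nat_lit 127) (nat_lit 133)))))) (PT.nd (nat_lit 546) (PT.nd (nat_lit 234) (PT.nd (nat_lit 78) (PT.lf (nat_lit 24092) (nat_lit 6) (nat_lit 317) (nat_lit 3) (nat_lit 131)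 (nat_lit 127) (nat_lit 132)) (PT.nd (nat_lit 78) (PT.lf (nat_lit 24092) (nat_lit 6) (nat_lit 317) (nat_lit 1) (nat_lit 132) (nat_lit 127) (nat_lit 131)) (PT.lf (nat_lit 24016) (nat_lit 6) (nat_lit 316) (nat_lit 1) (nat_lit 133) (nat_lit 127) (nat_lit 130)))) (PT.nd (nat_lit 156) (PT.nd (nat_lit 78) (PT.lf (nat_lit 23636) (nat_lit 6) (nat_lit 311) (nat_lit 1) (nat_lit 134) (nat_lit 127) (nat_lit 129)) (PT.lf (nat_lit 23180) (nat_lit 6) (nat_lit 305) (nat_lit 1) (nat_lit 135) (nat_lit 127) (nat_lit 128))) (PT.nd (nat_lit 78) (PT.lf (nat_lit 22648) (nat_lit 3) (nat_lit 298) (nat_lit 0) (nat_lit 136) (nat_lit 127) (nat_lit 127)) (PT.lf (nat_lit 22116) (nat_lit 6) (nat_lit 291) (nat_lit 0) (nat_lit 137) (nat_lit 127) (nat_lit 126))))) (PT.nd (nat_lit 234) (PT.nd (nat_lit 78) (PT.lf (nat_lit 21508) (nat_lit 6) (nat_lit 283) (nat_lit 0) (nat_lit 138) (nat_lit 127) (nat_lit 125)) (PT.nd (nat_lit 78) (PT.lf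 (nat_lit 20824) (nat_lit 6) (nat_lit 274) (nat_lit 0) (nat_lit 139) (nat_lit 127) (nat_lit 124)) (PT.lf (nat_lit 20064) (nat_lit 6) (nat_lit 264) (nat_lit 0) (nat_lit 140) (nat_lit 127) (nat_lit 123)))) (PT.nd (nat_lit 156) (PT.nd (nat_lit 78) (PT.lf (nat_lit 19228) (nat_lit 6) (nat_lit 253) (nat_lit 0) (nat_lit 141) (nat_lit 127) (nat_lit 122)) (PT.lf (nat_lit 18316) (nat_lit 6) (nat_lit 241) (nat_lit 0) (nat_lit 142) (nat_lit 127) (nat_lit 121))) (PT.nd (nat_lit 78) (PT.lf (nat_lit 17328) (nat_lit 6) (nat_lit 228) (nat_lit 0) (nat_lit 143) (nat_lit 127) (nat_lit 120)) (PT.lf (nat_lit 16264) (nat_lit 6) (nat_lit 214) (nat_lit 0) (nat_lit 144) (nat_lit 127) (nat_lit 119))))))) (PT.nd (nat_lit 39468) (PT.nd (nat_lit 38922) (PT.nd (nat_lit 38610) (PT.nd (nat_lit 38454) (PT.lf (nat_lit 15124) (nat_lit 6) (nat_lit 199) (nat_lit 0) (nat_lit 145) (nat_lit 127) (nat_lit 118)) (PT.nd (nat_lit 78) (PT.lf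 (nat_lit 15200) (nat_lit 6) (nat_lit 200) (nat_lit 5) (nat_lit 117) (nat_lit 128) (nat_lit 145)) (PT.lf (nat_lit 16340) (nat_lit 6) (nat_lit 215) (nat_lit 5) (nat_lit 118) (nat_lit 128) (nat_lit 144)))) (PT.nd (nat_lit 156) (PT.nd (nat_lit 78) (PT.lf (nat_lit 17404) (nat_lit 6) (nat_lit 229) (nat_lit 5) (nat_lit 119) (nat_lit 128) (nat_lit 143)) (PT.lf (nat_lit 18392) (nat_lit 6) (nat_lit 242) (nat_lit 5) (nat_lit 120) (nat_lit 128) (nat_lit 142))) (PT.nd (nat_lit 78) (PT.lf (nat_lit 19304) (nat_lit 6) (nat_lit 254) (nat_lit 5) (nat_lit 121) (nat_lit 128) (nat_lit 141)) (PT.lf (nat_lit 20140) (nat_lit 6) (nat_lit 265) (nat_lit 5) (nat_lit 122) (nat_lit 128) (nat_lit 140))))) (PT.nd (nat_lit 234) (PT.nd (nat_lit 78) (PT.lf (nat_lit 20900) (nat_lit 6) (nat_lit 275) (nat_lit 5) (nat_lit 123) (nat_lit 128) (nat_lit 139)) (PT.nd (nat_lit 78) (PT.lf (nat_lit 21584) (nat_lit 6) (nat_lit 284) (nat_lit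 5) (nat_lit 124) (nat_lit 128) (nat_lit 138)) (PT.lf (nat_lit 22192) (nat_lit 6) (nat_lit 292) (nat_lit 5) (nat_lit 125) (nat_lit 128) (nat_lit 137)))) (PT.nd (nat_lit 156) (PT.nd (nat_lit 78) (PT.lf (nat_lit 22724) (nat_lit 6) (nat_lit 299) (nat_lit 5) (nat_lit 126) (nat_lit 128) (nat_lit 136)) (PT.lf (nat_lit 23180) (nat_lit 6) (nat_lit 305) (nat_lit 5) (nat_lit 127) (nat_lit 128) (nat_lit 135))) (PT.nd (nat_lit 78) (PT.lf (nat_lit 23560) (nat_lit 3) (nat_lit 310) (nat_lit 3) (nat_lit 128) (nat_lit 128) (nat_lit 134)) (PT.lf (nat_lit 23940) (nat_lit 6) (nat_lit 315) (nat_lit 3) (nat_lit 129) (nat_lit 128) (nat_lit 133)))))) (PT.nd (nat_lit 546) (PT.nd (nat_lit 234) (PT.nd (nat_lit 78) (PT.lf (nat_lit 24244) (nat_lit 6) (nat_lit 319) (nat_lit 3) (nat_lit 130) (nat_lit 128) (nat_lit 132)) (PT.nd (nat_lit 78) (PT.lf (nat_lit 24320) (nat_lit 3) (nat_lit 320) (nat_lit 1) (nat_lit 131) (nat_lit 128)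 (nat_lit 131)) (PT.lf (nat_lit 24244) (nat_lit 6) (nat_lit 319) (nat_lit 1) (nat_lit 132) (nat_lit 128) (nat_lit 130)))) (PT.nd (nat_lit 156) (PT.nd (nat_lit 78) (PT.lf (nat_lit 23940) (nat_lit 6) (nat_lit 315) (nat_lit 1) (nat_lit 133) (nat_lit 128) (nat_lit 129)) (PT.lf (nat_lit 23560) (nat_lit 3) (nat_lit 310) (nat_lit 0) (nat_lit 134) (nat_lit 128) (nat_lit 128))) (PT.nd (nat_lit 78) (PT.lf (nat_lit 23180) (nat_lit 6) (nat_lit 305) (nat_lit 0) (nat_lit 135) (nat_lit 128) (nat_lit 127)) (PT.lf (nat_lit 22724) (nat_lit 6) (nat_lit 299) (nat_lit 0) (nat_lit 136) (nat_lit 128) (nat_lit 126))))) (PT.nd (nat_lit 234) (PT.nd (nat_lit 78) (PT.lf (nat_lit 22192) (nat_lit 6) (nat_lit 292) (nat_lit 0) (nat_lit 137) (nat_lit 128) (nat_lit 125)) (PT.nd (nat_lit 78) (PT.lf (nat_lit 21584) (nat_lit 6) (nat_lit 284) (nat_lit 0) (nat_lit 138) (nat_lit 128) (nat_lit 124)) (PT.lf (nat_lit 20900) (nat_lit 6) (nat_lit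 275) (nat_lit 0) (nat_lit 139) (nat_lit 128) (nat_lit 123)))) (PT.nd (nat_lit 156) (PT.nd (nat_lit 78) (PT.lf (nat_lit 20140) (nat_lit 6) (nat_lit 265) (nat_lit 0) (nat_lit 140) (nat_lit 128) (nat_lit 122)) (PT.lf (nat_lit 19304) (nat_lit 6) (nat_lit 254) (nat_lit 0) (nat_lit 141) (nat_lit 128) (nat_lit 121))) (PT.nd (nat_lit 78) (PT.lf (nat_lit 18392) (nat_lit 6) (nat_lit 242) (nat_lit 0) (nat_lit 142) (nat_lit 128) (nat_lit 120)) (PT.lf (nat_lit 17404) (nat_lit 6) (nat_lit 229) (nat_lit 0) (nat_lit 143) (nat_lit 128) (nat_lit 119))))))))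
noncomputable def pc12 : PT := (PT.nd (nat_lit 40326) (PT.nd (nat_lit 39234) (PT.nd (nat_lit 38688) (PT.nd (nat_lit 38454) (PT.nd (nat_lit 78) (PT.lf (nat_lit 16340) (nat_lit 6) (nat_lit 215) (nat_lit 0) (nat_lit 144) (nat_lit 128) (nat_lit 118)) (PT.nd (nat_lit 38298) (PT.lf (nat_lit 15200) (nat_lit 6) (nat_lit 200) (nat_lit 0) (nat_lit 145) (nat_lit 128) (nat_lit 117)) (PT.lf (nat_lit 14060) (nat_lit 6) (nat_lit 185) (nat_lit 5) (nat_lit 115) (nat_lit 129) (nat_lit 146)))) (PT.nd (nat_lit 78) (PT.lf (nat_lit 15276) (nat_lit 6) (nat_lit 201) (nat_lit 5) (nat_lit 116) (nat_lit 129) (nat_lit 145)) (PT.nd (nat_lit 78) (PT.lf (nat_lit 16416) (nat_lit 6) (nat_lit 216) (nat_lit 5) (nat_lit 117) (nat_lit 129) (nat_lit 144)) (PT.lf (nat_lit 17480) (nat_lit 6) (nat_lit 230) (nat_lit 5) (nat_lit 118) (nat_lit 129) (nat_lit 143))))) (PT.nd (nat_lit 234) (PT.nd (nat_lit 78) (PT.lf (nat_lit 18468) (nat_lit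 6) (nat_lit 243) (nat_lit 5) (nat_lit 119) (nat_lit 129) (nat_lit 142)) (PT.nd (nat_lit 78) (PT.lf (nat_lit 19380) (nat_lit 6) (nat_lit 255) (nat_lit 5) (nat_lit 120) (nat_lit 129) (nat_lit 141)) (PT.lf (nat_lit 20216) (nat_lit 6) (nat_lit 266) (nat_lit 5) (nat_lit 121) (nat_lit 129) (nat_lit 140)))) (PT.nd (nat_lit 156) (PT.nd (nat_lit 78) (PT.lf (nat_lit 20976) (nat_lit 6) (nat_lit 276) (nat_lit 5) (nat_lit 122) (nat_lit 129) (nat_lit 139)) (PT.lf (nat_lit 21660) (nat_lit 6) (nat_lit 285) (nat_lit 5) (nat_lit 123) (nat_lit 129) (nat_lit 138))) (PT.nd (nat_lit 78) (PT.lf (nat_lit 22268) (nat_lit 6) (nat_lit 293) (nat_lit 5) (nat_lit 124) (nat_lit 129) (nat_lit 137)) (PT.lf (nat_lit 22800) (nat_lit 6) (nat_lit 300) (nat_lit 5) (nat_lit 125) (nat_lit 129) (nat_lit 136)))))) (PT.nd (nat_lit 546) (PT.nd (nat_lit 234) (PT.nd (nat_lit 78) (PT.lf (nat_lit 23256) (nat_lit 6) (nat_lit 306) (nat_lit 5)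 (nat_lit 126) (nat_lit 129) (nat_lit 135)) (PT.nd (nat_lit 78) (PT.lf (nat_lit 23636) (nat_lit 6) (nat_lit 311) (nat_lit 5) (nat_lit 127) (nat_lit 129) (nat_lit 134)) (PT.lf (nat_lit 23940) (nat_lit 6) (nat_lit 315) (nat_lit 5) (nat_lit 128) (nat_lit 129) (nat_lit 133)))) (PT.nd (nat_lit 156) (PT.nd (nat_lit 78) (PT.lf (nat_lit 24168) (nat_lit 3) (nat_lit 318) (nat_lit 3) (nat_lit 129) (nat_lit 129) (nat_lit 132)) (PT.lf (nat_lit 24396) (nat_lit 6) (nat_lit 321) (nat_lit 3) (nat_lit 130) (nat_lit 129) (nat_lit 131))) (PT.nd (nat_lit 78) (PT.lf (nat_lit 24396) (nat_lit 6) (nat_lit 321) (nat_lit 1) (nat_lit 131) (nat_lit 129) (nat_lit 130)) (PT.lf (nat_lit 24168) (nat_lit 3) (nat_lit 318) (nat_lit 0) (nat_lit 132) (nat_lit 129) (nat_lit 129))))) (PT.nd (nat_lit 234) (PT.nd (nat_lit 78) (PT.lf (nat_lit 23940) (nat_lit 6) (nat_lit 315) (nat_lit 0) (nat_lit 133) (nat_lit 129) (nat_lit 128)) (PT.nd (nat_lit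 78) (PT.lf (nat_lit 23636) (nat_lit 6) (nat_lit 311) (nat_lit 0) (nat_lit 134) (nat_lit 129) (nat_lit 127)) (PT.lf (nat_lit 23256) (nat_lit 6) (nat_lit 306) (nat_lit 0) (nat_lit 135) (nat_lit 129) (nat_lit 126)))) (PT.nd (nat_lit 156) (PT.nd (nat_lit 78) (PT.lf (nat_lit 22800) (nat_lit 6) (nat_lit 300) (nat_lit 0) (nat_lit 136) (nat_lit 129) (nat_lit 125)) (PT.lf (nat_lit 22268) (nat_lit 6) (nat_lit 293) (nat_lit 0) (nat_lit 137) (nat_lit 129) (nat_lit 124))) (PT.nd (nat_lit 78) (PT.lf (nat_lit 21660) (nat_lit 6) (nat_lit 285) (nat_lit 0) (nat_lit 138) (nat_lit 129) (nat_lit 123)) (PT.lf (nat_lit 20976) (nat_lit 6) (nat_lit 276) (nat_lit 0) (nat_lit 139) (nat_lit 129) (nat_lit 122))))))) (PT.nd (nat_lit 39078) (PT.nd (nat_lit 468) (PT.nd (nat_lit 234) (PT.nd (nat_lit 78) (PT.lf (nat_lit 20216) (nat_lit 6) (nat_lit 266) (nat_lit 0) (nat_lit 140) (nat_lit 129) (nat_lit 121)) (PT.nd (nat_lit 78) (PT.lf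 (nat_lit 19380) (nat_lit 6) (nat_lit 255) (nat_lit 0) (nat_lit 141) (nat_lit 129) (nat_lit 120)) (PT.lf (nat_lit 18468) (nat_lit 6) (nat_lit 243) (nat_lit 0) (nat_lit 142) (nat_lit 129) (nat_lit 119)))) (PT.nd (nat_lit 78) (PT.lf (nat_lit 17480) (nat_lit 6) (nat_lit 230) (nat_lit 0) (nat_lit 143) (nat_lit 129) (nat_lit 118)) (PT.nd (nat_lit 78) (PT.lf (nat_lit 16416) (nat_lit 6) (nat_lit 216) (nat_lit 0) (nat_lit 144) (nat_lit 129) (nat_lit 117)) (PT.lf (nat_lit 15276) (nat_lit 6) (nat_lit 201) (nat_lit 0) (nat_lit 145) (nat_lit 129) (nat_lit 116))))) (PT.nd (nat_lit 38298) (PT.nd (nat_lit 38142) (PT.lf (nat_lit 14060) (nat_lit 6) (nat_lit 185) (nat_lit 0) (nat_lit 146) (nat_lit 129) (nat_lit 115)) (PT.nd (nat_lit 78) (PT.lf (nat_lit 14136) (nat_lit 6) (nat_lit 186) (nat_lit 5) (nat_lit 114) (nat_lit 130) (nat_lit 146)) (PT.lf (nat_lit 15352) (nat_lit 6) (nat_lit 202) (nat_lit 5) (nat_lit 115)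 (nat_lit 130) (nat_lit 145)))) (PT.nd (nat_lit 156) (PT.nd (nat_lit 78) (PT.lf (nat_lit 16492) (nat_lit 6) (nat_lit 217) (nat_lit 5) (nat_lit 116) (nat_lit 130) (nat_lit 144)) (PT.lf (nat_lit 17556) (nat_lit 6) (nat_lit 231) (nat_lit 5) (nat_lit 117) (nat_lit 130) (nat_lit 143))) (PT.nd (nat_lit 78) (PT.lf (nat_lit 18544) (nat_lit 6) (nat_lit 244) (nat_lit 5) (nat_lit 118) (nat_lit 130) (nat_lit 142)) (PT.lf (nat_lit 19456) (nat_lit 6) (nat_lit 256) (nat_lit 5) (nat_lit 119) (nat_lit 130) (nat_lit 141)))))) (PT.nd (nat_lit 546) (PT.nd (nat_lit 234) (PT.nd (nat_lit 78) (PT.lf (nat_lit 20292) (nat_lit 6) (nat_lit 267) (nat_lit 5) (nat_lit 120) (nat_lit 130) (nat_lit 140)) (PT.nd (nat_lit 78) (PT.lf (nat_lit 21052) (nat_lit 6) (nat_lit 277) (nat_lit 5) (nat_lit 121) (nat_lit 130) (nat_lit 139)) (PT.lf (nat_lit 21736) (nat_lit 6) (nat_lit 286) (nat_lit 5) (nat_lit 122) (nat_lit 130) (nat_lit 138))))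 (PT.nd (nat_lit 156) (PT.nd (nat_lit 78) (PT.lf (nat_lit 22344) (nat_lit 6) (nat_lit 294) (nat_lit 5) (nat_lit 123) (nat_lit 130) (nat_lit 137)) (PT.lf (nat_lit 22876) (nat_lit 6) (nat_lit 301) (nat_lit 5) (nat_lit 124) (nat_lit 130) (nat_lit 136))) (PT.nd (nat_lit 78) (PT.lf (nat_lit 23332) (nat_lit 6) (nat_lit 307) (nat_lit 5) (nat_lit 125) (nat_lit 130) (nat_lit 135)) (PT.lf (nat_lit 23712) (nat_lit 6) (nat_lit 312) (nat_lit 5) (nat_lit 126) (nat_lit 130) (nat_lit 134))))) (PT.nd (nat_lit 234) (PT.nd (nat_lit 78) (PT.lf (nat_lit 24016) (nat_lit 6) (nat_lit 316) (nat_lit 5) (nat_lit 127) (nat_lit 130) (nat_lit 133)) (PT.nd (nat_lit 78) (PT.lf (nat_lit 24244) (nat_lit 6) (nat_lit 319) (nat_lit 5) (nat_lit 128) (nat_lit 130) (nat_lit 132)) (PT.lf (nat_lit 24396) (nat_lit 6) (nat_lit 321) (nat_lit 5) (nat_lit 129) (nat_lit 130) (nat_lit 131)))) (PT.nd (nat_lit 156) (PT.nd (nat_lit 78) (PT.lf (nat_lit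 24472) (nat_lit 1) (nat_lit 322) (nat_lit 0) (nat_lit 130) (nat_lit 130) (nat_lit 130)) (PT.lf (nat_lit 24396) (nat_lit 6) (nat_lit 321) (nat_lit 0) (nat_lit 131) (nat_lit 130) (nat_lit 129))) (PT.nd (nat_lit 78) (PT.lf (nat_lit 24244) (nat_lit 6) (nat_lit 319) (nat_lit 0) (nat_lit 132) (nat_lit 130) (nat_lit 128)) (PT.lf (nat_lit 24016) (nat_lit 6) (nat_lit 316) (nat_lit 0) (nat_lit 133) (nat_lit 130) (nat_lit 127))))))))
noncomputable def pc13 : PT := (PT.nd (nat_lit 40092) (PT.nd (nat_lit 39000) (PT.nd (nat_lit 468) (PT.nd (nat_lit 234) (PT.nd (nat_lit 78) (PT.lf (nat_lit 23712) (nat_lit 6) (nat_lit 312) (nat_lit 0) (nat_lit 134) (nat_lit 130) (nat_lit 126)) (PT.nd (nat_lit 78) (PT.lf (nat_lit 23332) (nat_lit 6) (nat_lit 307) (nat_lit 0) (nat_lit 135) (nat_lit 130) (nat_lit 125)) (PT.lf (nat_lit 22876) (nat_lit 6) (nat_lit 301) (nat_lit 0) (nat_lit 136) (nat_lit 130) (nat_lit 124)))) (PT.nd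 (nat_lit 78) (PT.lf (nat_lit 22344) (nat_lit 6) (nat_lit 294) (nat_lit 0) (nat_lit 137) (nat_lit 130) (nat_lit 123)) (PT.nd (nat_lit 78) (PT.lf (nat_lit 21736) (nat_lit 6) (nat_lit 286) (nat_lit 0) (nat_lit 138) (nat_lit 130) (nat_lit 122)) (PT.lf (nat_lit 21052) (nat_lit 6) (nat_lit 277) (nat_lit 0) (nat_lit 139) (nat_lit 130) (nat_lit 121))))) (PT.nd (nat_lit 234) (PT.nd (nat_lit 78) (PT.lf (nat_lit 20292) (nat_lit 6) (nat_lit 267) (nat_lit 0) (nat_lit 140) (nat_lit 130) (nat_lit 120)) (PT.nd (nat_lit 78) (PT.lf (nat_lit 19456) (nat_lit 6) (nat_lit 256) (nat_lit 0) (nat_lit 141) (nat_lit 130) (nat_lit 119)) (PT.lf (nat_lit 18544) (nat_lit 6) (nat_lit 244) (nat_lit 0) (nat_lit 142) (nat_lit 130) (nat_lit 118)))) (PT.nd (nat_lit 156) (PT.nd (nat_lit 78) (PT.lf (nat_lit 17556) (nat_lit 6) (nat_lit 231) (nat_lit 0) (nat_lit 143) (nat_lit 130) (nat_lit 117)) (PT.lf (nat_lit 16492) (nat_lit 6) (nat_lit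 217) (nat_lit 0) (nat_lit 144) (nat_lit 130) (nat_lit 116))) (PT.nd (nat_lit 78) (PT.lf (nat_lit 15352) (nat_lit 6) (nat_lit 202) (nat_lit 0) (nat_lit 145) (nat_lit 130) (nat_lit 115)) (PT.lf (nat_lit 14136) (nat_lit 6) (nat_lit 186) (nat_lit 0) (nat_lit 146) (nat_lit 130) (nat_lit 114)))))) (PT.nd (nat_lit 546) (PT.nd (nat_lit 234) (PT.nd (nat_lit 78) (PT.lf (nat_lit 13452) (nat_lit 6) (nat_lit 177) (nat_lit 5) (nat_lit 113) (nat_lit 131) (nat_lit 146)) (PT.nd (nat_lit 78) (PT.lf (nat_lit 14212) (nat_lit 6) (nat_lit 187) (nat_lit 5) (nat_lit 114) (nat_lit 131) (nat_lit 145)) (PT.lf (nat_lit 15428) (nat_lit 6) (nat_lit 203) (nat_lit 5) (nat_lit 115) (nat_lit 131) (nat_lit 144)))) (PT.nd (nat_lit 156) (PT.nd (nat_lit 78) (PT.lf (nat_lit 16568) (nat_lit 6) (nat_lit 218) (nat_lit 5) (nat_lit 116) (nat_lit 131) (nat_lit 143)) (PT.lf (nat_lit 17632) (nat_lit 6) (nat_lit 232) (nat_lit 5) (nat_lit 117)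 (nat_lit 131) (nat_lit 142))) (PT.nd (nat_lit 78) (PT.lf (nat_lit 18620) (nat_lit 6) (nat_lit 245) (nat_lit 5) (nat_lit 118) (nat_lit 131) (nat_lit 141)) (PT.lf (nat_lit 19532) (nat_lit 6) (nat_lit 257) (nat_lit 5) (nat_lit 119) (nat_lit 131) (nat_lit 140))))) (PT.nd (nat_lit 234) (PT.nd (nat_lit 78) (PT.lf (nat_lit 20368) (nat_lit 6) (nat_lit 268) (nat_lit 5) (nat_lit 120) (nat_lit 131) (nat_lit 139)) (PT.nd (nat_lit 78) (PT.lf (nat_lit 21128) (nat_lit 6) (nat_lit 278) (nat_lit 5) (nat_lit 121) (nat_lit 131) (nat_lit 138)) (PT.lf (nat_lit 21812) (nat_lit 6) (nat_lit 287) (nat_lit 5) (nat_lit 122) (nat_lit 131) (nat_lit 137)))) (PT.nd (nat_lit 156) (PT.nd (nat_lit 78) (PT.lf (nat_lit 22420) (nat_lit 6) (nat_lit 295) (nat_lit 5) (nat_lit 123) (nat_lit 131) (nat_lit 136)) (PT.lf (nat_lit 22952) (nat_lit 6) (nat_lit 302) (nat_lit 5) (nat_lit 124) (nat_lit 131) (nat_lit 135))) (PT.nd (nat_lit 78) (PT.lf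 (nat_lit 23408) (nat_lit 6) (nat_lit 308) (nat_lit 5) (nat_lit 125) (nat_lit 131) (nat_lit 134)) (PT.lf (nat_lit 23788) (nat_lit 6) (nat_lit 313) (nat_lit 5) (nat_lit 126) (nat_lit 131) (nat_lit 133))))))) (PT.nd (nat_lit 1092) (PT.nd (nat_lit 546) (PT.nd (nat_lit 234) (PT.nd (nat_lit 78) (PT.lf (nat_lit 24092) (nat_lit 6) (nat_lit 317) (nat_lit 5) (nat_lit 127) (nat_lit 131) (nat_lit 132)) (PT.nd (nat_lit 78) (PT.lf (nat_lit 24320) (nat_lit 3) (nat_lit 320) (nat_lit 4) (nat_lit 128) (nat_lit 131) (nat_lit 131)) (PT.lf (nat_lit 24396) (nat_lit 6) (nat_lit 321) (nat_lit 4) (nat_lit 129) (nat_lit 131) (nat_lit 130)))) (PT.nd (nat_lit 156) (PT.nd (nat_lit 78) (PT.lf (nat_lit 24396) (nat_lit 6) (nat_lit 321) (nat_lit 2) (nat_lit 130) (nat_lit 131) (nat_lit 129)) (PT.lf (nat_lit 24320) (nat_lit 3) (nat_lit 320) (nat_lit 0) (nat_lit 131) (nat_lit 131) (nat_lit 128))) (PT.nd (nat_lit 78) (PT.lf (nat_lit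 24092) (nat_lit 6) (nat_lit 317) (nat_lit 0) (nat_lit 132) (nat_lit 131) (nat_lit 127)) (PT.lf (nat_lit 23788) (nat_lit 6) (nat_lit 313) (nat_lit 0) (nat_lit 133) (nat_lit 131) (nat_lit 126))))) (PT.nd (nat_lit 234) (PT.nd (nat_lit 78) (PT.lf (nat_lit 23408) (nat_lit 6) (nat_lit 308) (nat_lit 0) (nat_lit 134) (nat_lit 131) (nat_lit 125)) (PT.nd (nat_lit 78) (PT.lf (nat_lit 22952) (nat_lit 6) (nat_lit 302) (nat_lit 0) (nat_lit 135) (nat_lit 131) (nat_lit 124)) (PT.lf (nat_lit 22420) (nat_lit 6) (nat_lit 295) (nat_lit 0) (nat_lit 136) (nat_lit 131) (nat_lit 123)))) (PT.nd (nat_lit 156) (PT.nd (nat_lit 78) (PT.lf (nat_lit 21812) (nat_lit 6) (nat_lit 287) (nat_lit 0) (nat_lit 137) (nat_lit 131) (nat_lit 122)) (PT.lf (nat_lit 21128) (nat_lit 6) (nat_lit 278) (nat_lit 0) (nat_lit 138) (nat_lit 131) (nat_lit 121))) (PT.nd (nat_lit 78) (PT.lf (nat_lit 20368) (nat_lit 6) (nat_lit 268) (nat_lit 0) (nat_lit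 139) (nat_lit 131) (nat_lit 120)) (PT.lf (nat_lit 19532) (nat_lit 6) (nat_lit 257) (nat_lit 0) (nat_lit 140) (nat_lit 131) (nat_lit 119)))))) (PT.nd (nat_lit 38454) (PT.nd (nat_lit 234) (PT.nd (nat_lit 78) (PT.lf (nat_lit 18620) (nat_lit 6) (nat_lit 245) (nat_lit 0) (nat_lit 141) (nat_lit 131) (nat_lit 118)) (PT.nd (nat_lit 78) (PT.lf (nat_lit 17632) (nat_lit 6) (nat_lit 232) (nat_lit 0) (nat_lit 142) (nat_lit 131) (nat_lit 117)) (PT.lf (nat_lit 16568) (nat_lit 6) (nat_lit 218) (nat_lit 0) (nat_lit 143) (nat_lit 131) (nat_lit 116)))) (PT.nd (nat_lit 156) (PT.nd (nat_lit 78) (PT.lf (nat_lit 15428) (nat_lit 6) (nat_lit 203) (nat_lit 0) (nat_lit 144) (nat_lit 131) (nat_lit 115)) (PT.lf (nat_lit 14212) (nat_lit 6) (nat_lit 187) (nat_lit 0) (nat_lit 145) (nat_lit 131) (nat_lit 114))) (PT.nd (nat_lit 37986) (PT.lf (nat_lit 13452) (nat_lit 6) (nat_lit 177) (nat_lit 0) (nat_lit 146) (nat_lit 131) (nat_lit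 113)) (PT.lf (nat_lit 12844) (nat_lit 6) (nat_lit 169) (nat_lit 5) (nat_lit 112) (nat_lit 132) (nat_lit 146))))) (PT.nd (nat_lit 234) (PT.nd (nat_lit 78) (PT.lf (nat_lit 13528) (nat_lit 6) (nat_lit 178) (nat_lit 5) (nat_lit 113) (nat_lit 132) (nat_lit 145)) (PT.nd (nat_lit 78) (PT.lf (nat_lit 14288) (nat_lit 6) (nat_lit 188) (nat_lit 5) (nat_lit 114) (nat_lit 132) (nat_lit 144)) (PT.lf (nat_lit 15504) (nat_lit 6) (nat_lit 204) (nat_lit 5) (nat_lit 115) (nat_lit 132) (nat_lit 143)))) (PT.nd (nat_lit 156) (PT.nd (nat_lit 78) (PT.lf (nat_lit 16644) (nat_lit 6) (nat_lit 219) (nat_lit 5) (nat_lit 116) (nat_lit 132) (nat_lit 142)) (PT.lf (nat_lit 17708) (nat_lit 6) (nat_lit 233) (nat_lit 5) (nat_lit 117) (nat_lit 132) (nat_lit 141))) (PT.nd (nat_lit 78) (PT.lf (nat_lit 18696) (nat_lit 6) (nat_lit 246) (nat_lit 5) (nat_lit 118) (nat_lit 132) (nat_lit 140)) (PT.lf (nat_lit 19608) (nat_lit 6) (nat_lit 258)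 (nat_lit 5) (nat_lit 119) (nat_lit 132) (nat_lit 139))))))))
noncomputable def pc14 : PT := (PT.nd (nat_lit 39936) (PT.nd (nat_lit 1014) (PT.nd (nat_lit 468) (PT.nd (nat_lit 234) (PT.nd (nat_lit 78) (PT.lf (nat_lit 20444) (nat_lit 6) (nat_lit 269) (nat_lit 5) (nat_lit 120) (nat_lit 132) (nat_lit 138)) (PT.nd (nat_lit 78) (PT.lf (nat_lit 21204) (nat_lit 6) (nat_lit 279) (nat_lit 5) (nat_lit 121) (nat_lit 132) (nat_lit 137)) (PT.lf (nat_lit 21888) (nat_lit 6) (nat_lit 288) (nat_lit 5) (nat_lit 122) (nat_lit 132) (nat_lit 136)))) (PT.nd (nat_lit 78) (PT.lf (nat_lit 22496) (nat_lit 6) (nat_lit 296) (nat_lit 5) (nat_lit 123) (nat_lit 132) (nat_lit 135)) (PT.nd (nat_lit 78) (PT.lf (nat_lit 23028) (nat_lit 6) (nat_lit 303) (nat_lit 5) (nat_lit 124) (nat_lit 132) (nat_lit 134)) (PT.lf (nat_lit 23484) (nat_lit 6) (nat_lit 309) (nat_lit 5) (nat_lit 125) (nat_lit 132) (nat_lit 133))))) (PT.nd (nat_lit 234)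 (PT.nd (nat_lit 78) (PT.lf (nat_lit 23864) (nat_lit 3) (nat_lit 314) (nat_lit 4) (nat_lit 126) (nat_lit 132) (nat_lit 132)) (PT.nd (nat_lit 78) (PT.lf (nat_lit 24092) (nat_lit 6) (nat_lit 317) (nat_lit 4) (nat_lit 127) (nat_lit 132) (nat_lit 131)) (PT.lf (nat_lit 24244) (nat_lit 6) (nat_lit 319) (nat_lit 4) (nat_lit 128) (nat_lit 132) (nat_lit 130)))) (PT.nd (nat_lit 156) (PT.nd (nat_lit 78) (PT.lf (nat_lit 24168) (nat_lit 3) (nat_lit 318) (nat_lit 2) (nat_lit 129) (nat_lit 132) (nat_lit 129)) (PT.lf (nat_lit 24244) (nat_lit 6) (nat_lit 319) (nat_lit 2) (nat_lit 130) (nat_lit 132) (nat_lit 128))) (PT.nd (nat_lit 78) (PT.lf (nat_lit 24092) (nat_lit 6) (nat_lit 317) (nat_lit 2) (nat_lit 131) (nat_lit 132) (nat_lit 127)) (PT.lf (nat_lit 23864) (nat_lit 3) (nat_lit 314) (nat_lit 0) (nat_lit 132) (nat_lit 132) (nat_lit 126)))))) (PT.nd (nat_lit 546) (PT.nd (nat_lit 234) (PT.nd (nat_lit 78) (PT.lf (nat_lit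 23484) (nat_lit 6) (nat_lit 309) (nat_lit 0) (nat_lit 133) (nat_lit 132) (nat_lit 125)) (PT.nd (nat_lit 78) (PT.lf (nat_lit 23028) (nat_lit 6) (nat_lit 303) (nat_lit 0) (nat_lit 134) (nat_lit 132) (nat_lit 124)) (PT.lf (nat_lit 22496) (nat_lit 6) (nat_lit 296) (nat_lit 0) (nat_lit 135) (nat_lit 132) (nat_lit 123)))) (PT.nd (nat_lit 156) (PT.nd (nat_lit 78) (PT.lf (nat_lit 21888) (nat_lit 6) (nat_lit 288) (nat_lit 0) (nat_lit 136) (nat_lit 132) (nat_lit 122)) (PT.lf (nat_lit 21204) (nat_lit 6) (nat_lit 279) (nat_lit 0) (nat_lit 137) (nat_lit 132) (nat_lit 121))) (PT.nd (nat_lit 78) (PT.lf (nat_lit 20444) (nat_lit 6) (nat_lit 269) (nat_lit 0) (nat_lit 138) (nat_lit 132) (nat_lit 120)) (PT.lf (nat_lit 19608) (nat_lit 6) (nat_lit 258) (nat_lit 0) (nat_lit 139) (nat_lit 132) (nat_lit 119))))) (PT.nd (nat_lit 234) (PT.nd (nat_lit 78) (PT.lf (nat_lit 18696) (nat_lit 6) (nat_lit 246) (nat_lit 0) (nat_lit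 140) (nat_lit 132) (nat_lit 118)) (PT.nd (nat_lit 78) (PT.lf (nat_lit 17708) (nat_lit 6) (nat_lit 233) (nat_lit 0) (nat_lit 141) (nat_lit 132) (nat_lit 117)) (PT.lf (nat_lit 16644) (nat_lit 6) (nat_lit 219) (nat_lit 0) (nat_lit 142) (nat_lit 132) (nat_lit 116)))) (PT.nd (nat_lit 156) (PT.nd (nat_lit 78) (PT.lf (nat_lit 15504) (nat_lit 6) (nat_lit 204) (nat_lit 0) (nat_lit 143) (nat_lit 132) (nat_lit 115)) (PT.lf (nat_lit 14288) (nat_lit 6) (nat_lit 188) (nat_lit 0) (nat_lit 144) (nat_lit 132) (nat_lit 114))) (PT.nd (nat_lit 78) (PT.lf (nat_lit 13528) (nat_lit 6) (nat_lit 178) (nat_lit 0) (nat_lit 145) (nat_lit 132) (nat_lit 113)) (PT.lf (nat_lit 12844) (nat_lit 6) (nat_lit 169) (nat_lit 0) (nat_lit 146) (nat_lit 132) (nat_lit 112))))))) (PT.nd (nat_lit 1092) (PT.nd (nat_lit 546) (PT.nd (nat_lit 234) (PT.nd (nat_lit 78) (PT.lf (nat_lit 12312) (nat_lit 6) (nat_lit 162) (nat_lit 5) (nat_lit 111) (nat_lit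 133) (nat_lit 146)) (PT.nd (nat_lit 78) (PT.lf (nat_lit 12920) (nat_lit 6) (nat_lit 170) (nat_lit 5) (nat_lit 112) (nat_lit 133) (nat_lit 145)) (PT.lf (nat_lit 13604) (nat_lit 6) (nat_lit 179) (nat_lit 5) (nat_lit 113) (nat_lit 133) (nat_lit 144)))) (PT.nd (nat_lit 156) (PT.nd (nat_lit 78) (PT.lf (nat_lit 14364) (nat_lit 6) (nat_lit 189) (nat_lit 5) (nat_lit 114) (nat_lit 133) (nat_lit 143)) (PT.lf (nat_lit 15580) (nat_lit 6) (nat_lit 205) (nat_lit 5) (nat_lit 115) (nat_lit 133) (nat_lit 142))) (PT.nd (nat_lit 78) (PT.lf (nat_lit 16720) (nat_lit 6) (nat_lit 220) (nat_lit 5) (nat_lit 116) (nat_lit 133) (nat_lit 141)) (PT.lf (nat_lit 17784) (nat_lit 6) (nat_lit 234) (nat_lit 5) (nat_lit 117) (nat_lit 133) (nat_lit 140))))) (PT.nd (nat_lit 234) (PT.nd (nat_lit 78) (PT.lf (nat_lit 18772) (nat_lit 6) (nat_lit 247) (nat_lit 5) (nat_lit 118) (nat_lit 133) (nat_lit 139)) (PT.nd (nat_lit 78) (PT.lf (nat_lit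 19684) (nat_lit 6) (nat_lit 259) (nat_lit 5) (nat_lit 119) (nat_lit 133) (nat_lit 138)) (PT.lf (nat_lit 20520) (nat_lit 6) (nat_lit 270) (nat_lit 5) (nat_lit 120) (nat_lit 133) (nat_lit 137)))) (PT.nd (nat_lit 156) (PT.nd (nat_lit 78) (PT.lf (nat_lit 21280) (nat_lit 6) (nat_lit 280) (nat_lit 5) (nat_lit 121) (nat_lit 133) (nat_lit 136)) (PT.lf (nat_lit 21964) (nat_lit 6) (nat_lit 289) (nat_lit 5) (nat_lit 122) (nat_lit 133) (nat_lit 135))) (PT.nd (nat_lit 78) (PT.lf (nat_lit 22572) (nat_lit 6) (nat_lit 297) (nat_lit 5) (nat_lit 123) (nat_lit 133) (nat_lit 134)) (PT.lf (nat_lit 23104) (nat_lit 3) (nat_lit 304) (nat_lit 4) (nat_lit 124) (nat_lit 133) (nat_lit 133)))))) (PT.nd (nat_lit 546) (PT.nd (nat_lit 234) (PT.nd (nat_lit 78) (PT.lf (nat_lit 23484) (nat_lit 6) (nat_lit 309) (nat_lit 4) (nat_lit 125) (nat_lit 133) (nat_lit 132)) (PT.nd (nat_lit 78) (PT.lf (nat_lit 23788) (nat_lit 6) (nat_lit 313)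 (nat_lit 4) (nat_lit 126) (nat_lit 133) (nat_lit 131)) (PT.lf (nat_lit 24016) (nat_lit 6) (nat_lit 316) (nat_lit 4) (nat_lit 127) (nat_lit 133) (nat_lit 130)))) (PT.nd (nat_lit 156) (PT.nd (nat_lit 78) (PT.lf (nat_lit 23940) (nat_lit 6) (nat_lit 315) (nat_lit 4) (nat_lit 128) (nat_lit 133) (nat_lit 129)) (PT.lf (nat_lit 23940) (nat_lit 6) (nat_lit 315) (nat_lit 2) (nat_lit 129) (nat_lit 133) (nat_lit 128))) (PT.nd (nat_lit 78) (PT.lf (nat_lit 24016) (nat_lit 6) (nat_lit 316) (nat_lit 2) (nat_lit 130) (nat_lit 133) (nat_lit 127)) (PT.lf (nat_lit 23788) (nat_lit 6) (nat_lit 313) (nat_lit 2) (nat_lit 131) (nat_lit 133) (nat_lit 126))))) (PT.nd (nat_lit 234) (PT.nd (nat_lit 78) (PT.lf (nat_lit 23484) (nat_lit 6) (nat_lit 309) (nat_lit 2) (nat_lit 132) (nat_lit 133) (nat_lit 125)) (PT.nd (nat_lit 78) (PT.lf (nat_lit 23104) (nat_lit 3) (nat_lit 304) (nat_lit 0) (nat_lit 133) (nat_lit 133) (nat_lit 124))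 (PT.lf (nat_lit 22572) (nat_lit 6) (nat_lit 297) (nat_lit 0) (nat_lit 134) (nat_lit 133) (nat_lit 123)))) (PT.nd (nat_lit 156) (PT.nd (nat_lit 78) (PT.lf (nat_lit 21964) (nat_lit 6) (nat_lit 289) (nat_lit 0) (nat_lit 135) (nat_lit 133) (nat_lit 122)) (PT.lf (nat_lit 21280) (nat_lit 6) (nat_lit 280) (nat_lit 0) (nat_lit 136) (nat_lit 133) (nat_lit 121))) (PT.nd (nat_lit 78) (PT.lf (nat_lit 20520) (nat_lit 6) (nat_lit 270) (nat_lit 0) (nat_lit 137) (nat_lit 133) (nat_lit 120)) (PT.lf (nat_lit 19684) (nat_lit 6) (nat_lit 259) (nat_lit 0) (nat_lit 138) (nat_lit 133) (nat_lit 119))))))))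
noncomputable def pc15 : PT := (PT.nd (nat_lit 39780) (PT.nd (nat_lit 38688) (PT.nd (nat_lit 468) (PT.nd (nat_lit 234) (PT.nd (nat_lit 78) (PT.lf (nat_lit 18772) (nat_lit 6) (nat_lit 247) (nat_lit 0) (nat_lit 139) (nat_lit 133) (nat_lit 118)) (PT.nd (nat_lit 78) (PT.lf (nat_lit 17784) (nat_lit 6) (nat_lit 234) (nat_lit 0) (nat_lit 140) (nat_lit 133) (nat_lit 117)) (PT.lf (nat_lit 16720) (nat_lit 6) (nat_lit 220) (nat_lit 0) (nat_lit 141) (nat_lit 133) (nat_lit 116)))) (PT.nd (nat_lit 78) (PT.lf (nat_lit 15580) (nat_lit 6) (nat_lit 205) (nat_lit 0) (nat_lit 142) (nat_lit 133) (nat_lit 115)) (PT.nd (nat_lit 78) (PT.lf (nat_lit 14364) (nat_lit 6) (nat_lit 189) (nat_lit 0) (nat_lit 143) (nat_lit 133) (nat_lit 114)) (PT.lf (nat_lit 13604) (nat_lit 6) (nat_lit 179) (nat_lit 0) (nat_lit 144) (nat_lit 133) (nat_lit 113))))) (PT.nd (nat_lit 37908) (PT.nd (nat_lit 78) (PT.lf (nat_lit 12920) (nat_lit 6) (nat_lit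 170) (nat_lit 0) (nat_lit 145) (nat_lit 133) (nat_lit 112)) (PT.nd (nat_lit 37752) (PT.lf (nat_lit 12312) (nat_lit 6) (nat_lit 162) (nat_lit 0) (nat_lit 146) (nat_lit 133) (nat_lit 111)) (PT.lf (nat_lit 11248) (nat_lit 6) (nat_lit 148) (nat_lit 5) (nat_lit 109) (nat_lit 134) (nat_lit 147)))) (PT.nd (nat_lit 156) (PT.nd (nat_lit 78) (PT.lf (nat_lit 11780) (nat_lit 6) (nat_lit 155) (nat_lit 5) (nat_lit 110) (nat_lit 134) (nat_lit 146)) (PT.lf (nat_lit 12388) (nat_lit 6) (nat_lit 163) (nat_lit 5) (nat_lit 111) (nat_lit 134) (nat_lit 145))) (PT.nd (nat_lit 78) (PT.lf (nat_lit 12996) (nat_lit 6) (nat_lit 171) (nat_lit 5) (nat_lit 112) (nat_lit 134) (nat_lit 144)) (PT.lf (nat_lit 13680) (nat_lit 6) (nat_lit 180) (nat_lit 5) (nat_lit 113) (nat_lit 134) (nat_lit 143)))))) (PT.nd (nat_lit 546) (PT.nd (nat_lit 234) (PT.nd (nat_lit 78) (PT.lf (nat_lit 14440) (nat_lit 6) (nat_lit 190) (nat_lit 5) (nat_lit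 114) (nat_lit 134) (nat_lit 142)) (PT.nd (nat_lit 78) (PT.lf (nat_lit 15656) (nat_lit 6) (nat_lit 206) (nat_lit 5) (nat_lit 115) (nat_lit 134) (nat_lit 141)) (PT.lf (nat_lit 16796) (nat_lit 6) (nat_lit 221) (nat_lit 5) (nat_lit 116) (nat_lit 134) (nat_lit 140)))) (PT.nd (nat_lit 156) (PT.nd (nat_lit 78) (PT.lf (nat_lit 17860) (nat_lit 6) (nat_lit 235) (nat_lit 5) (nat_lit 117) (nat_lit 134) (nat_lit 139)) (PT.lf (nat_lit 18848) (nat_lit 6) (nat_lit 248) (nat_lit 5) (nat_lit 118) (nat_lit 134) (nat_lit 138))) (PT.nd (nat_lit 78) (PT.lf (nat_lit 19760) (nat_lit 6) (nat_lit 260) (nat_lit 5) (nat_lit 119) (nat_lit 134) (nat_lit 137)) (PT.lf (nat_lit 20596) (nat_lit 6) (nat_lit 271) (nat_lit 5) (nat_lit 120) (nat_lit 134) (nat_lit 136))))) (PT.nd (nat_lit 234) (PT.nd (nat_lit 78) (PT.lf (nat_lit 21356) (nat_lit 6) (nat_lit 281) (nat_lit 5) (nat_lit 121) (nat_lit 134) (nat_lit 135)) (PT.nd (nat_lit 78)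 (PT.lf (nat_lit 22040) (nat_lit 3) (nat_lit 290) (nat_lit 4) (nat_lit 122) (nat_lit 134) (nat_lit 134)) (PT.lf (nat_lit 22572) (nat_lit 6) (nat_lit 297) (nat_lit 4) (nat_lit 123) (nat_lit 134) (nat_lit 133)))) (PT.nd (nat_lit 156) (PT.nd (nat_lit 78) (PT.lf (nat_lit 23028) (nat_lit 6) (nat_lit 303) (nat_lit 4) (nat_lit 124) (nat_lit 134) (nat_lit 132)) (PT.lf (nat_lit 23408) (nat_lit 6) (nat_lit 308) (nat_lit 4) (nat_lit 125) (nat_lit 134) (nat_lit 131))) (PT.nd (nat_lit 78) (PT.lf (nat_lit 23712) (nat_lit 6) (nat_lit 312) (nat_lit 4) (nat_lit 126) (nat_lit 134) (nat_lit 130)) (PT.lf (nat_lit 23636) (nat_lit 6) (nat_lit 311) (nat_lit 4) (nat_lit 127) (nat_lit 134) (nat_lit 129))))))) (PT.nd (nat_lit 1092) (PT.nd (nat_lit 546) (PT.nd (nat_lit 234) (PT.nd (nat_lit 78) (PT.lf (nat_lit 23560) (nat_lit 3) (nat_lit 310) (nat_lit 2) (nat_lit 128) (nat_lit 134) (nat_lit 128)) (PT.nd (nat_lit 78) (PT.lf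 (nat_lit 23636) (nat_lit 6) (nat_lit 311) (nat_lit 2) (nat_lit 129) (nat_lit 134) (nat_lit 127)) (PT.lf (nat_lit 23712) (nat_lit 6) (nat_lit 312) (nat_lit 2) (nat_lit 130) (nat_lit 134) (nat_lit 126)))) (PT.nd (nat_lit 156) (PT.nd (nat_lit 78) (PT.lf (nat_lit 23408) (nat_lit 6) (nat_lit 308) (nat_lit 2) (nat_lit 131) (nat_lit 134) (nat_lit 125)) (PT.lf (nat_lit 23028) (nat_lit 6) (nat_lit 303) (nat_lit 2) (nat_lit 132) (nat_lit 134) (nat_lit 124))) (PT.nd (nat_lit 78) (PT.lf (nat_lit 22572) (nat_lit 6) (nat_lit 297) (nat_lit 2) (nat_lit 133) (nat_lit 134) (nat_lit 123)) (PT.lf (nat_lit 22040) (nat_lit 3) (nat_lit 290) (nat_lit 0) (nat_lit 134) (nat_lit 134) (nat_lit 122))))) (PT.nd (nat_lit 234) (PT.nd (nat_lit 78) (PT.lf (nat_lit 21356) (nat_lit 6) (nat_lit 281) (nat_lit 0) (nat_lit 135) (nat_lit 134) (nat_lit 121)) (PT.nd (nat_lit 78) (PT.lf (nat_lit 20596) (nat_lit 6) (nat_lit 271) (nat_lit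 0) (nat_lit 136) (nat_lit 134) (nat_lit 120)) (PT.lf (nat_lit 19760) (nat_lit 6) (nat_lit 260) (nat_lit 0) (nat_lit 137) (nat_lit 134) (nat_lit 119)))) (PT.nd (nat_lit 156) (PT.nd (nat_lit 78) (PT.lf (nat_lit 18848) (nat_lit 6) (nat_lit 248) (nat_lit 0) (nat_lit 138) (nat_lit 134) (nat_lit 118)) (PT.lf (nat_lit 17860) (nat_lit 6) (nat_lit 235) (nat_lit 0) (nat_lit 139) (nat_lit 134) (nat_lit 117))) (PT.nd (nat_lit 78) (PT.lf (nat_lit 16796) (nat_lit 6) (nat_lit 221) (nat_lit 0) (nat_lit 140) (nat_lit 134) (nat_lit 116)) (PT.lf (nat_lit 15656) (nat_lit 6) (nat_lit 206) (nat_lit 0) (nat_lit 141) (nat_lit 134) (nat_lit 115)))))) (PT.nd (nat_lit 38064) (PT.nd (nat_lit 234) (PT.nd (nat_lit 78) (PT.lf (nat_lit 14440) (nat_lit 6) (nat_lit 190) (nat_lit 0) (nat_lit 142) (nat_lit 134) (nat_lit 114)) (PT.nd (nat_lit 78) (PT.lf (nat_lit 13680) (nat_lit 6) (nat_lit 180) (nat_lit 0) (nat_lit 143) (nat_lit 134)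 (nat_lit 113)) (PT.lf (nat_lit 12996) (nat_lit 6) (nat_lit 171) (nat_lit 0) (nat_lit 144) (nat_lit 134) (nat_lit 112)))) (PT.nd (nat_lit 156) (PT.nd (nat_lit 78) (PT.lf (nat_lit 12388) (nat_lit 6) (nat_lit 163) (nat_lit 0) (nat_lit 145) (nat_lit 134) (nat_lit 111)) (PT.lf (nat_lit 11780) (nat_lit 6) (nat_lit 155) (nat_lit 0) (nat_lit 146) (nat_lit 134) (nat_lit 110))) (PT.nd (nat_lit 37596) (PT.lf (nat_lit 11248) (nat_lit 6) (nat_lit 148) (nat_lit 0) (nat_lit 147) (nat_lit 134) (nat_lit 109)) (PT.lf (nat_lit 10716) (nat_lit 6) (nat_lit 141) (nat_lit 5) (nat_lit 108) (nat_lit 135) (nat_lit 147))))) (PT.nd (nat_lit 234) (PT.nd (nat_lit 78) (PT.lf (nat_lit 11324) (nat_lit 6) (nat_lit 149) (nat_lit 5) (nat_lit 109) (nat_lit 135) (nat_lit 146)) (PT.nd (nat_lit 78) (PT.lf (nat_lit 11856) (nat_lit 6) (nat_lit 156) (nat_lit 5) (nat_lit 110) (nat_lit 135) (nat_lit 145)) (PT.lf (nat_lit 12464) (nat_lit 6)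 (nat_lit 164) (nat_lit 5) (nat_lit 111) (nat_lit 135) (nat_lit 144)))) (PT.nd (nat_lit 156) (PT.nd (nat_lit 78) (PT.lf (nat_lit 13072) (nat_lit 6) (nat_lit 172) (nat_lit 5) (nat_lit 112) (nat_lit 135) (nat_lit 143)) (PT.lf (nat_lit 13756) (nat_lit 6) (nat_lit 181) (nat_lit 5) (nat_lit 113) (nat_lit 135) (nat_lit 142))) (PT.nd (nat_lit 78) (PT.lf (nat_lit 14516) (nat_lit 6) (nat_lit 191) (nat_lit 5) (nat_lit 114) (nat_lit 135) (nat_lit 141)) (PT.lf (nat_lit 15732) (nat_lit 6) (nat_lit 207) (nat_lit 5) (nat_lit 115) (nat_lit 135) (nat_lit 140))))))))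
noncomputable def pc16 : PT := (PT.nd (nat_lit 2106) (PT.nd (nat_lit 1014) (PT.nd (nat_lit 468) (PT.nd (nat_lit 234) (PT.nd (nat_lit 78) (PT.lf (nat_lit 16872) (nat_lit 6) (nat_lit 222) (nat_lit 5) (nat_lit 116) (nat_lit 135) (nat_lit 139)) (PT.nd (nat_lit 78) (PT.lf (nat_lit 17936) (nat_lit 6) (nat_lit 236) (nat_lit 5) (nat_lit 117) (nat_lit 135) (nat_lit 138)) (PT.lf (nat_lit 18924) (nat_lit 6) (nat_lit 249) (nat_lit 5) (nat_lit 118) (nat_lit 135) (nat_lit 137)))) (PT.nd (nat_lit 78) (PT.lf (nat_lit 19836) (nat_lit 6) (nat_lit 261) (nat_lit 5) (nat_lit 119) (nat_lit 135) (nat_lit 136)) (PT.nd (nat_lit 78) (PT.lf (nat_lit 20672) (nat_lit 3) (nat_lit 272) (nat_lit 4) (nat_lit 120) (nat_lit 135) (nat_lit 135)) (PT.lf (nat_lit 21356) (nat_lit 6) (nat_lit 281) (nat_lit 4) (nat_lit 121) (nat_lit 135) (nat_lit 134))))) (PT.nd (nat_lit 234) (PT.nd (nat_lit 78) (PT.lf (nat_lit 21964) (nat_lit 6) (nat_lit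 289) (nat_lit 4) (nat_lit 122) (nat_lit 135) (nat_lit 133)) (PT.nd (nat_lit 78) (PT.lf (nat_lit 22496) (nat_lit 6) (nat_lit 296) (nat_lit 4) (nat_lit 123) (nat_lit 135) (nat_lit 132)) (PT.lf (nat_lit 22952) (nat_lit 6) (nat_lit 302) (nat_lit 4) (nat_lit 124) (nat_lit 135) (nat_lit 131)))) (PT.nd (nat_lit 156) (PT.nd (nat_lit 78) (PT.lf (nat_lit 23332) (nat_lit 6) (nat_lit 307) (nat_lit 4) (nat_lit 125) (nat_lit 135) (nat_lit 130)) (PT.lf (nat_lit 23256) (nat_lit 6) (nat_lit 306) (nat_lit 4) (nat_lit 126) (nat_lit 135) (nat_lit 129))) (PT.nd (nat_lit 78) (PT.lf (nat_lit 23180) (nat_lit 6) (nat_lit 305) (nat_lit 4) (nat_lit 127) (nat_lit 135) (nat_lit 128)) (PT.lf (nat_lit 23180) (nat_lit 6) (nat_lit 305) (nat_lit 2) (nat_lit 128) (nat_lit 135) (nat_lit 127)))))) (PT.nd (nat_lit 546) (PT.nd (nat_lit 234) (PT.nd (nat_lit 78) (PT.lf (nat_lit 23256) (nat_lit 6) (nat_lit 306) (nat_lit 2) (nat_lit 129)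 (nat_lit 135) (nat_lit 126)) (PT.nd (nat_lit 78) (PT.lf (nat_lit 23332) (nat_lit 6) (nat_lit 307) (nat_lit 2) (nat_lit 130) (nat_lit 135) (nat_lit 125)) (PT.lf (nat_lit 22952) (nat_lit 6) (nat_lit 302) (nat_lit 2) (nat_lit 131) (nat_lit 135) (nat_lit 124)))) (PT.nd (nat_lit 156) (PT.nd (nat_lit 78) (PT.lf (nat_lit 22496) (nat_lit 6) (nat_lit 296) (nat_lit 2) (nat_lit 132) (nat_lit 135) (nat_lit 123)) (PT.lf (nat_lit 21964) (nat_lit 6) (nat_lit 289) (nat_lit 2) (nat_lit 133) (nat_lit 135) (nat_lit 122))) (PT.nd (nat_lit 78) (PT.lf (nat_lit 21356) (nat_lit 6) (nat_lit 281) (nat_lit 2) (nat_lit 134) (nat_lit 135) (nat_lit 121)) (PT.lf (nat_lit 20672) (nat_lit 3) (nat_lit 272) (nat_lit 0) (nat_lit 135) (nat_lit 135) (nat_lit 120))))) (PT.nd (nat_lit 234) (PT.nd (nat_lit 78) (PT.lf (nat_lit 19836) (nat_lit 6) (nat_lit 261) (nat_lit 0) (nat_lit 136) (nat_lit 135) (nat_lit 119)) (PT.nd (nat_lit 78) (PT.lf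 (nat_lit 18924) (nat_lit 6) (nat_lit 249) (nat_lit 0) (nat_lit 137) (nat_lit 135) (nat_lit 118)) (PT.lf (nat_lit 17936) (nat_lit 6) (nat_lit 236) (nat_lit 0) (nat_lit 138) (nat_lit 135) (nat_lit 117)))) (PT.nd (nat_lit 156) (PT.nd (nat_lit 78) (PT.lf (nat_lit 16872) (nat_lit 6) (nat_lit 222) (nat_lit 0) (nat_lit 139) (nat_lit 135) (nat_lit 116)) (PT.lf (nat_lit 15732) (nat_lit 6) (nat_lit 207) (nat_lit 0) (nat_lit 140) (nat_lit 135) (nat_lit 115))) (PT.nd (nat_lit 78) (PT.lf (nat_lit 14516) (nat_lit 6) (nat_lit 191) (nat_lit 0) (nat_lit 141) (nat_lit 135) (nat_lit 114)) (PT.lf (nat_lit 13756) (nat_lit 6) (nat_lit 181) (nat_lit 0) (nat_lit 142) (nat_lit 135) (nat_lit 113))))))) (PT.nd (nat_lit 38454) (PT.nd (nat_lit 37908) (PT.nd (nat_lit 234) (PT.nd (nat_lit 78) (PT.lf (nat_lit 13072) (nat_lit 6) (nat_lit 172) (nat_lit 0) (nat_lit 143) (nat_lit 135) (nat_lit 112)) (PT.nd (nat_lit 78) (PT.lf (nat_lit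 12464) (nat_lit 6) (nat_lit 164) (nat_lit 0) (nat_lit 144) (nat_lit 135) (nat_lit 111)) (PT.lf (nat_lit 11856) (nat_lit 6) (nat_lit 156) (nat_lit 0) (nat_lit 145) (nat_lit 135) (nat_lit 110)))) (PT.nd (nat_lit 78) (PT.lf (nat_lit 11324) (nat_lit 6) (nat_lit 149) (nat_lit 0) (nat_lit 146) (nat_lit 135) (nat_lit 109)) (PT.nd (nat_lit 37518) (PT.lf (nat_lit 10716) (nat_lit 6) (nat_lit 141) (nat_lit 0) (nat_lit 147) (nat_lit 135) (nat_lit 108)) (PT.lf (nat_lit 10260) (nat_lit 6) (nat_lit 135) (nat_lit 5) (nat_lit 107) (nat_lit 136) (nat_lit 147))))) (PT.nd (nat_lit 234) (PT.nd (nat_lit 78) (PT.lf (nat_lit 10792) (nat_lit 6) (nat_lit 142) (nat_lit 5) (nat_lit 108) (nat_lit 136) (nat_lit 146)) (PT.nd (nat_lit 78) (PT.lf (nat_lit 11400) (nat_lit 6) (nat_lit 150) (nat_lit 5) (nat_lit 109) (nat_lit 136) (nat_lit 145)) (PT.lf (nat_lit 11932) (nat_lit 6) (nat_lit 157) (nat_lit 5) (nat_lit 110) (nat_lit 136)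 (nat_lit 144)))) (PT.nd (nat_lit 156) (PT.nd (nat_lit 78) (PT.lf (nat_lit 12540) (nat_lit 6) (nat_lit 165) (nat_lit 5) (nat_lit 111) (nat_lit 136) (nat_lit 143)) (PT.lf (nat_lit 13148) (nat_lit 6) (nat_lit 173) (nat_lit 5) (nat_lit 112) (nat_lit 136) (nat_lit 142))) (PT.nd (nat_lit 78) (PT.lf (nat_lit 13832) (nat_lit 6) (nat_lit 182) (nat_lit 5) (nat_lit 113) (nat_lit 136) (nat_lit 141)) (PT.lf (nat_lit 14592) (nat_lit 6) (nat_lit 192) (nat_lit 5) (nat_lit 114) (nat_lit 136) (nat_lit 140)))))) (PT.nd (nat_lit 546) (PT.nd (nat_lit 234) (PT.nd (nat_lit 78) (PT.lf (nat_lit 15808) (nat_lit 6) (nat_lit 208) (nat_lit 5) (nat_lit 115) (nat_lit 136) (nat_lit 139)) (PT.nd (nat_lit 78) (PT.lf (nat_lit 16948) (nat_lit 6) (nat_lit 223) (nat_lit 5) (nat_lit 116) (nat_lit 136) (nat_lit 138)) (PT.lf (nat_lit 18012) (nat_lit 6) (nat_lit 237) (nat_lit 5) (nat_lit 117) (nat_lit 136) (nat_lit 137)))) (PT.nd (nat_lit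 156) (PT.nd (nat_lit 78) (PT.lf (nat_lit 19000) (nat_lit 3) (nat_lit 250) (nat_lit 4) (nat_lit 118) (nat_lit 136) (nat_lit 136)) (PT.lf (nat_lit 19836) (nat_lit 6) (nat_lit 261) (nat_lit 4) (nat_lit 119) (nat_lit 136) (nat_lit 135))) (PT.nd (nat_lit 78) (PT.lf (nat_lit 20596) (nat_lit 6) (nat_lit 271) (nat_lit 4) (nat_lit 120) (nat_lit 136) (nat_lit 134)) (PT.lf (nat_lit 21280) (nat_lit 6) (nat_lit 280) (nat_lit 4) (nat_lit 121) (nat_lit 136) (nat_lit 133))))) (PT.nd (nat_lit 234) (PT.nd (nat_lit 78) (PT.lf (nat_lit 21888) (nat_lit 6) (nat_lit 288) (nat_lit 4) (nat_lit 122) (nat_lit 136) (nat_lit 132)) (PT.nd (nat_lit 78) (PT.lf (nat_lit 22420) (nat_lit 6) (nat_lit 295) (nat_lit 4) (nat_lit 123) (nat_lit 136) (nat_lit 131)) (PT.lf (nat_lit 22876) (nat_lit 6) (nat_lit 301) (nat_lit 4) (nat_lit 124) (nat_lit 136) (nat_lit 130)))) (PT.nd (nat_lit 156) (PT.nd (nat_lit 78) (PT.lf (nat_lit 22800) (nat_lit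 6) (nat_lit 300) (nat_lit 4) (nat_lit 125) (nat_lit 136) (nat_lit 129)) (PT.lf (nat_lit 22724) (nat_lit 6) (nat_lit 299) (nat_lit 4) (nat_lit 126) (nat_lit 136) (nat_lit 128))) (PT.nd (nat_lit 78) (PT.lf (nat_lit 22648) (nat_lit 3) (nat_lit 298) (nat_lit 2) (nat_lit 127) (nat_lit 136) (nat_lit 127)) (PT.lf (nat_lit 22724) (nat_lit 6) (nat_lit 299) (nat_lit 2) (nat_lit 128) (nat_lit 136) (nat_lit 126))))))))
noncomputable def pc17 : PT := (PT.nd (nat_lit 39390) (PT.nd (nat_lit 1014) (PT.nd (nat_lit 468) (PT.nd (nat_lit 234) (PT.nd (nat_lit 78) (PT.lf (nat_lit 22800) (nat_lit 6) (nat_lit 300) (nat_lit 2) (nat_lit 129) (nat_lit 136) (nat_lit 125)) (PT.nd (nat_lit 78) (PT.lf (nat_lit 22876) (nat_lit 6) (nat_lit 301) (nat_lit 2) (nat_lit 130) (nat_lit 136) (nat_lit 124)) (PT.lf (nat_lit 22420) (nat_lit 6) (nat_lit 295) (nat_lit 2) (nat_lit 131) (nat_lit 136) (nat_lit 123)))) (PT.nd (nat_lit 78) (PT.lf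 (nat_lit 21888) (nat_lit 6) (nat_lit 288) (nat_lit 2) (nat_lit 132) (nat_lit 136) (nat_lit 122)) (PT.nd (nat_lit 78) (PT.lf (nat_lit 21280) (nat_lit 6) (nat_lit 280) (nat_lit 2) (nat_lit 133) (nat_lit 136) (nat_lit 121)) (PT.lf (nat_lit 20596) (nat_lit 6) (nat_lit 271) (nat_lit 2) (nat_lit 134) (nat_lit 136) (nat_lit 120))))) (PT.nd (nat_lit 234) (PT.nd (nat_lit 78) (PT.lf (nat_lit 19836) (nat_lit 6) (nat_lit 261) (nat_lit 2) (nat_lit 135) (nat_lit 136) (nat_lit 119)) (PT.nd (nat_lit 78) (PT.lf (nat_lit 19000) (nat_lit 3) (nat_lit 250) (nat_lit 0) (nat_lit 136) (nat_lit 136) (nat_lit 118)) (PT.lf (nat_lit 18012) (nat_lit 6) (nat_lit 237) (nat_lit 0) (nat_lit 137) (nat_lit 136) (nat_lit 117)))) (PT.nd (nat_lit 156) (PT.nd (nat_lit 78) (PT.lf (nat_lit 16948) (nat_lit 6) (nat_lit 223) (nat_lit 0) (nat_lit 138) (nat_lit 136) (nat_lit 116)) (PT.lf (nat_lit 15808) (nat_lit 6) (nat_lit 208) (nat_lit 0)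 (nat_lit 139) (nat_lit 136) (nat_lit 115))) (PT.nd (nat_lit 78) (PT.lf (nat_lit 14592) (nat_lit 6) (nat_lit 192) (nat_lit 0) (nat_lit 140) (nat_lit 136) (nat_lit 114)) (PT.lf (nat_lit 13832) (nat_lit 6) (nat_lit 182) (nat_lit 0) (nat_lit 141) (nat_lit 136) (nat_lit 113)))))) (PT.nd (nat_lit 37830) (PT.nd (nat_lit 234) (PT.nd (nat_lit 78) (PT.lf (nat_lit 13148) (nat_lit 6) (nat_lit 173) (nat_lit 0) (nat_lit 142) (nat_lit 136) (nat_lit 112)) (PT.nd (nat_lit 78) (PT.lf (nat_lit 12540) (nat_lit 6) (nat_lit 165) (nat_lit 0) (nat_lit 143) (nat_lit 136) (nat_lit 111)) (PT.lf (nat_lit 11932) (nat_lit 6) (nat_lit 157) (nat_lit 0) (nat_lit 144) (nat_lit 136) (nat_lit 110)))) (PT.nd (nat_lit 156) (PT.nd (nat_lit 78) (PT.lf (nat_lit 11400) (nat_lit 6) (nat_lit 150) (nat_lit 0) (nat_lit 145) (nat_lit 136) (nat_lit 109)) (PT.lf (nat_lit 10792) (nat_lit 6) (nat_lit 142) (nat_lit 0) (nat_lit 146) (nat_lit 136)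 (nat_lit 108))) (PT.nd (nat_lit 37362) (PT.lf (nat_lit 10260) (nat_lit 6) (nat_lit 135) (nat_lit 0) (nat_lit 147) (nat_lit 136) (nat_lit 107)) (PT.lf (nat_lit 9348) (nat_lit 6) (nat_lit 123) (nat_lit 5) (nat_lit 105) (nat_lit 137) (nat_lit 148))))) (PT.nd (nat_lit 234) (PT.nd (nat_lit 78) (PT.lf (nat_lit 9804) (nat_lit 6) (nat_lit 129) (nat_lit 5) (nat_lit 106) (nat_lit 137) (nat_lit 147)) (PT.nd (nat_lit 78) (PT.lf (nat_lit 10336) (nat_lit 6) (nat_lit 136) (nat_lit 5) (nat_lit 107) (nat_lit 137) (nat_lit 146)) (PT.lf (nat_lit 10868) (nat_lit 6) (nat_lit 143) (nat_lit 5) (nat_lit 108) (nat_lit 137) (nat_lit 145)))) (PT.nd (nat_lit 156) (PT.nd (nat_lit 78) (PT.lf (nat_lit 11476) (nat_lit 6) (nat_lit 151) (nat_lit 5) (nat_lit 109) (nat_lit 137) (nat_lit 144)) (PT.lf (nat_lit 12008) (nat_lit 6) (nat_lit 158) (nat_lit 5) (nat_lit 110) (nat_lit 137) (nat_lit 143))) (PT.nd (nat_lit 78) (PT.lf (nat_lit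 12616) (nat_lit 6) (nat_lit 166) (nat_lit 5) (nat_lit 111) (nat_lit 137) (nat_lit 142)) (PT.lf (nat_lit 13224) (nat_lit 6) (nat_lit 174) (nat_lit 5) (nat_lit 112) (nat_lit 137) (nat_lit 141))))))) (PT.nd (nat_lit 1092) (PT.nd (nat_lit 546) (PT.nd (nat_lit 234) (PT.nd (nat_lit 78) (PT.lf (nat_lit 13908) (nat_lit 6) (nat_lit 183) (nat_lit 5) (nat_lit 113) (nat_lit 137) (nat_lit 140)) (PT.nd (nat_lit 78) (PT.lf (nat_lit 14668) (nat_lit 6) (nat_lit 193) (nat_lit 5) (nat_lit 114) (nat_lit 137) (nat_lit 139)) (PT.lf (nat_lit 15884) (nat_lit 6) (nat_lit 209) (nat_lit 5) (nat_lit 115) (nat_lit 137) (nat_lit 138)))) (PT.nd (nat_lit 156) (PT.nd (nat_lit 78) (PT.lf (nat_lit 17024) (nat_lit 3) (nat_lit 224) (nat_lit 4) (nat_lit 116) (nat_lit 137) (nat_lit 137)) (PT.lf (nat_lit 18012) (nat_lit 6) (nat_lit 237) (nat_lit 4) (nat_lit 117) (nat_lit 137) (nat_lit 136))) (PT.nd (nat_lit 78) (PT.lf (nat_lit 18924)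 (nat_lit 6) (nat_lit 249) (nat_lit 4) (nat_lit 118) (nat_lit 137) (nat_lit 135)) (PT.lf (nat_lit 19760) (nat_lit 6) (nat_lit 260) (nat_lit 4) (nat_lit 119) (nat_lit 137) (nat_lit 134))))) (PT.nd (nat_lit 234) (PT.nd (nat_lit 78) (PT.lf (nat_lit 20520) (nat_lit 6) (nat_lit 270) (nat_lit 4) (nat_lit 120) (nat_lit 137) (nat_lit 133)) (PT.nd (nat_lit 78) (PT.lf (nat_lit 21204) (nat_lit 6) (nat_lit 279) (nat_lit 4) (nat_lit 121) (nat_lit 137) (nat_lit 132)) (PT.lf (nat_lit 21812) (nat_lit 6) (nat_lit 287) (nat_lit 4) (nat_lit 122) (nat_lit 137) (nat_lit 131)))) (PT.nd (nat_lit 156) (PT.nd (nat_lit 78) (PT.lf (nat_lit 22344) (nat_lit 6) (nat_lit 294) (nat_lit 4) (nat_lit 123) (nat_lit 137) (nat_lit 130)) (PT.lf (nat_lit 22268) (nat_lit 6) (nat_lit 293) (nat_lit 4) (nat_lit 124) (nat_lit 137) (nat_lit 129))) (PT.nd (nat_lit 78) (PT.lf (nat_lit 22192) (nat_lit 6) (nat_lit 292) (nat_lit 4) (nat_lit 125)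 (nat_lit 137) (nat_lit 128)) (PT.lf (nat_lit 22116) (nat_lit 6) (nat_lit 291) (nat_lit 4) (nat_lit 126) (nat_lit 137) (nat_lit 127)))))) (PT.nd (nat_lit 546) (PT.nd (nat_lit 234) (PT.nd (nat_lit 78) (PT.lf (nat_lit 22116) (nat_lit 6) (nat_lit 291) (nat_lit 2) (nat_lit 127) (nat_lit 137) (nat_lit 126)) (PT.nd (nat_lit 78) (PT.lf (nat_lit 22192) (nat_lit 6) (nat_lit 292) (nat_lit 2) (nat_lit 128) (nat_lit 137) (nat_lit 125)) (PT.lf (nat_lit 22268) (nat_lit 6) (nat_lit 293) (nat_lit 2) (nat_lit 129) (nat_lit 137) (nat_lit 124)))) (PT.nd (nat_lit 156) (PT.nd (nat_lit 78) (PT.lf (nat_lit 22344) (nat_lit 6) (nat_lit 294) (nat_lit 2) (nat_lit 130) (nat_lit 137) (nat_lit 123)) (PT.lf (nat_lit 21812) (nat_lit 6) (nat_lit 287) (nat_lit 2) (nat_lit 131) (nat_lit 137) (nat_lit 122))) (PT.nd (nat_lit 78) (PT.lf (nat_lit 21204) (nat_lit 6) (nat_lit 279) (nat_lit 2) (nat_lit 132) (nat_lit 137) (nat_lit 121))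 (PT.lf (nat_lit 20520) (nat_lit 6) (nat_lit 270) (nat_lit 2) (nat_lit 133) (nat_lit 137) (nat_lit 120))))) (PT.nd (nat_lit 234) (PT.nd (nat_lit 78) (PT.lf (nat_lit 19760) (nat_lit 6) (nat_lit 260) (nat_lit 2) (nat_lit 134) (nat_lit 137) (nat_lit 119)) (PT.nd (nat_lit 78) (PT.lf (nat_lit 18924) (nat_lit 6) (nat_lit 249) (nat_lit 2) (nat_lit 135) (nat_lit 137) (nat_lit 118)) (PT.lf (nat_lit 18012) (nat_lit 6) (nat_lit 237) (nat_lit 2) (nat_lit 136) (nat_lit 137) (nat_lit 117)))) (PT.nd (nat_lit 156) (PT.nd (nat_lit 78) (PT.lf (nat_lit 17024) (nat_lit 3) (nat_lit 224) (nat_lit 0) (nat_lit 137) (nat_lit 137) (nat_lit 116)) (PT.lf (nat_lit 15884) (nat_lit 6) (nat_lit 209) (nat_lit 0) (nat_lit 138) (nat_lit 137) (nat_lit 115))) (PT.nd (nat_lit 78) (PT.lf (nat_lit 14668) (nat_lit 6) (nat_lit 193) (nat_lit 0) (nat_lit 139) (nat_lit 137) (nat_lit 114)) (PT.lf (nat_lit 13908) (nat_lit 6) (nat_lit 183) (nat_lit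 0) (nat_lit 140) (nat_lit 137) (nat_lit 113))))))))
noncomputable def pc18 : PT := (PT.nd (nat_lit 39234) (PT.nd (nat_lit 38142) (PT.nd (nat_lit 468) (PT.nd (nat_lit 234) (PT.nd (nat_lit 78) (PT.lf (nat_lit 13224) (nat_lit 6) (nat_lit 174) (nat_lit 0) (nat_lit 141) (nat_lit 137) (nat_lit 112)) (PT.nd (nat_lit 78) (PT.lf (nat_lit 12616) (nat_lit 6) (nat_lit 166) (nat_lit 0) (nat_lit 142) (nat_lit 137) (nat_lit 111)) (PT.lf (nat_lit 12008) (nat_lit 6) (nat_lit 158) (nat_lit 0) (nat_lit 143) (nat_lit 137) (nat_lit 110)))) (PT.nd (nat_lit 78) (PT.lf (nat_lit 11476) (nat_lit 6) (nat_lit 151) (nat_lit 0) (nat_lit 144) (nat_lit 137) (nat_lit 109)) (PT.nd (nat_lit 78) (PT.lf (nat_lit 10868) (nat_lit 6) (nat_lit 143) (nat_lit 0) (nat_lit 145) (nat_lit 137) (nat_lit 108)) (PT.lf (nat_lit 10336) (nat_lit 6) (nat_lit 136) (nat_lit 0) (nat_lit 146) (nat_lit 137) (nat_lit 107))))) (PT.nd (nat_lit 37362) (PT.nd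 (nat_lit 78) (PT.lf (nat_lit 9804) (nat_lit 6) (nat_lit 129) (nat_lit 0) (nat_lit 147) (nat_lit 137) (nat_lit 106)) (PT.nd (nat_lit 37206) (PT.lf (nat_lit 9348) (nat_lit 6) (nat_lit 123) (nat_lit 0) (nat_lit 148) (nat_lit 137) (nat_lit 105)) (PT.lf (nat_lit 8892) (nat_lit 6) (nat_lit 117) (nat_lit 5) (nat_lit 104) (nat_lit 138) (nat_lit 148)))) (PT.nd (nat_lit 156) (PT.nd (nat_lit 78) (PT.lf (nat_lit 9424) (nat_lit 6) (nat_lit 124) (nat_lit 5) (nat_lit 105) (nat_lit 138) (nat_lit 147)) (PT.lf (nat_lit 9880) (nat_lit 6) (nat_lit 130) (nat_lit 5) (nat_lit 106) (nat_lit 138) (nat_lit 146))) (PT.nd (nat_lit 78) (PT.lf (nat_lit 10412) (nat_lit 6) (nat_lit 137) (nat_lit 5) (nat_lit 107) (nat_lit 138) (nat_lit 145)) (PT.lf (nat_lit 10944) (nat_lit 6) (nat_lit 144) (nat_lit 5) (nat_lit 108) (nat_lit 138) (nat_lit 144)))))) (PT.nd (nat_lit 546) (PT.nd (nat_lit 234) (PT.nd (nat_lit 78) (PT.lf (nat_lit 11552)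 (nat_lit 6) (nat_lit 152) (nat_lit 5) (nat_lit 109) (nat_lit 138) (nat_lit 143)) (PT.nd (nat_lit 78) (PT.lf (nat_lit 12084) (nat_lit 6) (nat_lit 159) (nat_lit 5) (nat_lit 110) (nat_lit 138) (nat_lit 142)) (PT.lf (nat_lit 12692) (nat_lit 6) (nat_lit 167) (nat_lit 5) (nat_lit 111) (nat_lit 138) (nat_lit 141)))) (PT.nd (nat_lit 156) (PT.nd (nat_lit 78) (PT.lf (nat_lit 13300) (nat_lit 6) (nat_lit 175) (nat_lit 5) (nat_lit 112) (nat_lit 138) (nat_lit 140)) (PT.lf (nat_lit 13984) (nat_lit 6) (nat_lit 184) (nat_lit 5) (nat_lit 113) (nat_lit 138) (nat_lit 139))) (PT.nd (nat_lit 78) (PT.lf (nat_lit 14744) (nat_lit 3) (nat_lit 194) (nat_lit 4) (nat_lit 114) (nat_lit 138) (nat_lit 138)) (PT.lf (nat_lit 15884) (nat_lit 6) (nat_lit 209) (nat_lit 4) (nat_lit 115) (nat_lit 138) (nat_lit 137))))) (PT.nd (nat_lit 234) (PT.nd (nat_lit 78) (PT.lf (nat_lit 16948) (nat_lit 6) (nat_lit 223) (nat_lit 4) (nat_lit 116)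 (nat_lit 138) (nat_lit 136)) (PT.nd (nat_lit 78) (PT.lf (nat_lit 17936) (nat_lit 6) (nat_lit 236) (nat_lit 4) (nat_lit 117) (nat_lit 138) (nat_lit 135)) (PT.lf (nat_lit 18848) (nat_lit 6) (nat_lit 248) (nat_lit 4) (nat_lit 118) (nat_lit 138) (nat_lit 134)))) (PT.nd (nat_lit 156) (PT.nd (nat_lit 78) (PT.lf (nat_lit 19684) (nat_lit 6) (nat_lit 259) (nat_lit 4) (nat_lit 119) (nat_lit 138) (nat_lit 133)) (PT.lf (nat_lit 20444) (nat_lit 6) (nat_lit 269) (nat_lit 4) (nat_lit 120) (nat_lit 138) (nat_lit 132))) (PT.nd (nat_lit 78) (PT.lf (nat_lit 21128) (nat_lit 6) (nat_lit 278) (nat_lit 4) (nat_lit 121) (nat_lit 138) (nat_lit 131)) (PT.lf (nat_lit 21736) (nat_lit 6) (nat_lit 286) (nat_lit 4) (nat_lit 122) (nat_lit 138) (nat_lit 130))))))) (PT.nd (nat_lit 1014) (PT.nd (nat_lit 468) (PT.nd (nat_lit 234) (PT.nd (nat_lit 78) (PT.lf (nat_lit 21660) (nat_lit 6) (nat_lit 285) (nat_lit 4) (nat_lit 123) (nat_lit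 138) (nat_lit 129)) (PT.nd (nat_lit 78) (PT.lf (nat_lit 21584) (nat_lit 6) (nat_lit 284) (nat_lit 4) (nat_lit 124) (nat_lit 138) (nat_lit 128)) (PT.lf (nat_lit 21508) (nat_lit 6) (nat_lit 283) (nat_lit 4) (nat_lit 125) (nat_lit 138) (nat_lit 127)))) (PT.nd (nat_lit 78) (PT.lf (nat_lit 21432) (nat_lit 3) (nat_lit 282) (nat_lit 2) (nat_lit 126) (nat_lit 138) (nat_lit 126)) (PT.nd (nat_lit 78) (PT.lf (nat_lit 21508) (nat_lit 6) (nat_lit 283) (nat_lit 2) (nat_lit 127) (nat_lit 138) (nat_lit 125)) (PT.lf (nat_lit 21584) (nat_lit 6) (nat_lit 284) (nat_lit 2) (nat_lit 128) (nat_lit 138) (nat_lit 124))))) (PT.nd (nat_lit 234) (PT.nd (nat_lit 78) (PT.lf (nat_lit 21660) (nat_lit 6) (nat_lit 285) (nat_lit 2) (nat_lit 129) (nat_lit 138) (nat_lit 123)) (PT.nd (nat_lit 78) (PT.lf (nat_lit 21736) (nat_lit 6) (nat_lit 286) (nat_lit 2) (nat_lit 130) (nat_lit 138) (nat_lit 122)) (PT.lf (nat_lit 21128) (nat_lit 6)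 (nat_lit 278) (nat_lit 2) (nat_lit 131) (nat_lit 138) (nat_lit 121)))) (PT.nd (nat_lit 156) (PT.nd (nat_lit 78) (PT.lf (nat_lit 20444) (nat_lit 6) (nat_lit 269) (nat_lit 2) (nat_lit 132) (nat_lit 138) (nat_lit 120)) (PT.lf (nat_lit 19684) (nat_lit 6) (nat_lit 259) (nat_lit 2) (nat_lit 133) (nat_lit 138) (nat_lit 119))) (PT.nd (nat_lit 78) (PT.lf (nat_lit 18848) (nat_lit 6) (nat_lit 248) (nat_lit 2) (nat_lit 134) (nat_lit 138) (nat_lit 118)) (PT.lf (nat_lit 17936) (nat_lit 6) (nat_lit 236) (nat_lit 2) (nat_lit 135) (nat_lit 138) (nat_lit 117)))))) (PT.nd (nat_lit 546) (PT.nd (nat_lit 234) (PT.nd (nat_lit 78) (PT.lf (nat_lit 16948) (nat_lit 6) (nat_lit 223) (nat_lit 2) (nat_lit 136) (nat_lit 138) (nat_lit 116)) (PT.nd (nat_lit 78) (PT.lf (nat_lit 15884) (nat_lit 6) (nat_lit 209) (nat_lit 2) (nat_lit 137) (nat_lit 138) (nat_lit 115)) (PT.lf (nat_lit 14744) (nat_lit 3) (nat_lit 194) (nat_lit 0) (nat_lit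 138) (nat_lit 138) (nat_lit 114)))) (PT.nd (nat_lit 156) (PT.nd (nat_lit 78) (PT.lf (nat_lit 13984) (nat_lit 6) (nat_lit 184) (nat_lit 0) (nat_lit 139) (nat_lit 138) (nat_lit 113)) (PT.lf (nat_lit 13300) (nat_lit 6) (nat_lit 175) (nat_lit 0) (nat_lit 140) (nat_lit 138) (nat_lit 112))) (PT.nd (nat_lit 78) (PT.lf (nat_lit 12692) (nat_lit 6) (nat_lit 167) (nat_lit 0) (nat_lit 141) (nat_lit 138) (nat_lit 111)) (PT.lf (nat_lit 12084) (nat_lit 6) (nat_lit 159) (nat_lit 0) (nat_lit 142) (nat_lit 138) (nat_lit 110))))) (PT.nd (nat_lit 234) (PT.nd (nat_lit 78) (PT.lf (nat_lit 11552) (nat_lit 6) (nat_lit 152) (nat_lit 0) (nat_lit 143) (nat_lit 138) (nat_lit 109)) (PT.nd (nat_lit 78) (PT.lf (nat_lit 10944) (nat_lit 6) (nat_lit 144) (nat_lit 0) (nat_lit 144) (nat_lit 138) (nat_lit 108)) (PT.lf (nat_lit 10412) (nat_lit 6) (nat_lit 137) (nat_lit 0) (nat_lit 145) (nat_lit 138) (nat_lit 107)))) (PT.nd (nat_lit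 156) (PT.nd (nat_lit 78) (PT.lf (nat_lit 9880) (nat_lit 6) (nat_lit 130) (nat_lit 0) (nat_lit 146) (nat_lit 138) (nat_lit 106)) (PT.lf (nat_lit 9424) (nat_lit 6) (nat_lit 124) (nat_lit 0) (nat_lit 147) (nat_lit 138) (nat_lit 105))) (PT.nd (nat_lit 37128) (PT.lf (nat_lit 8892) (nat_lit 6) (nat_lit 117) (nat_lit 0) (nat_lit 148) (nat_lit 138) (nat_lit 104)) (PT.lf (nat_lit 8512) (nat_lit 6) (nat_lit 112) (nat_lit 5) (nat_lit 103) (nat_lit 139) (nat_lit 148))))))))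
noncomputable def pc19 : PT := (PT.nd (nat_lit 2106) (PT.nd (nat_lit 1014) (PT.nd (nat_lit 468) (PT.nd (nat_lit 234) (PT.nd (nat_lit 78) (PT.lf (nat_lit 8968) (nat_lit 6) (nat_lit 118) (nat_lit 5) (nat_lit 104) (nat_lit 139) (nat_lit 147)) (PT.nd (nat_lit 78) (PT.lf (nat_lit 9500) (nat_lit 6) (nat_lit 125) (nat_lit 5) (nat_lit 105) (nat_lit 139) (nat_lit 146)) (PT.lf (nat_lit 9956) (nat_lit 6) (nat_lit 131) (nat_lit 5) (nat_lit 106) (nat_lit 139) (nat_lit 145)))) (PT.nd (nat_lit 78) (PT.lf (nat_lit 10488) (nat_lit 6) (nat_lit 138) (nat_lit 5) (nat_lit 107) (nat_lit 139) (nat_lit 144)) (PT.nd (nat_lit 78) (PT.lf (nat_lit 11020) (nat_lit 6) (nat_lit 145) (nat_lit 5) (nat_lit 108) (nat_lit 139) (nat_lit 143)) (PT.lf (nat_lit 11628) (nat_lit 6) (nat_lit 153) (nat_lit 5) (nat_lit 109) (nat_lit 139) (nat_lit 142))))) (PT.nd (nat_lit 234) (PT.nd (nat_lit 78) (PT.lf (nat_lit 12160) (nat_lit 6) (nat_lit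 160) (nat_lit 5) (nat_lit 110) (nat_lit 139) (nat_lit 141)) (PT.nd (nat_lit 78) (PT.lf (nat_lit 12768) (nat_lit 6) (nat_lit 168) (nat_lit 5) (nat_lit 111) (nat_lit 139) (nat_lit 140)) (PT.lf (nat_lit 13376) (nat_lit 3) (nat_lit 176) (nat_lit 4) (nat_lit 112) (nat_lit 139) (nat_lit 139)))) (PT.nd (nat_lit 156) (PT.nd (nat_lit 78) (PT.lf (nat_lit 13984) (nat_lit 6) (nat_lit 184) (nat_lit 4) (nat_lit 113) (nat_lit 139) (nat_lit 138)) (PT.lf (nat_lit 14668) (nat_lit 6) (nat_lit 193) (nat_lit 4) (nat_lit 114) (nat_lit 139) (nat_lit 137))) (PT.nd (nat_lit 78) (PT.lf (nat_lit 15808) (nat_lit 6) (nat_lit 208) (nat_lit 4) (nat_lit 115) (nat_lit 139) (nat_lit 136)) (PT.lf (nat_lit 16872) (nat_lit 6) (nat_lit 222) (nat_lit 4) (nat_lit 116) (nat_lit 139) (nat_lit 135)))))) (PT.nd (nat_lit 546) (PT.nd (nat_lit 234) (PT.nd (nat_lit 78) (PT.lf (nat_lit 17860) (nat_lit 6) (nat_lit 235) (nat_lit 4) (nat_lit 117)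 (nat_lit 139) (nat_lit 134)) (PT.nd (nat_lit 78) (PT.lf (nat_lit 18772) (nat_lit 6) (nat_lit 247) (nat_lit 4) (nat_lit 118) (nat_lit 139) (nat_lit 133)) (PT.lf (nat_lit 19608) (nat_lit 6) (nat_lit 258) (nat_lit 4) (nat_lit 119) (nat_lit 139) (nat_lit 132)))) (PT.nd (nat_lit 156) (PT.nd (nat_lit 78) (PT.lf (nat_lit 20368) (nat_lit 6) (nat_lit 268) (nat_lit 4) (nat_lit 120) (nat_lit 139) (nat_lit 131)) (PT.lf (nat_lit 21052) (nat_lit 6) (nat_lit 277) (nat_lit 4) (nat_lit 121) (nat_lit 139) (nat_lit 130))) (PT.nd (nat_lit 78) (PT.lf (nat_lit 20976) (nat_lit 6) (nat_lit 276) (nat_lit 4) (nat_lit 122) (nat_lit 139) (nat_lit 129)) (PT.lf (nat_lit 20900) (nat_lit 6) (nat_lit 275) (nat_lit 4) (nat_lit 123) (nat_lit 139) (nat_lit 128))))) (PT.nd (nat_lit 234) (PT.nd (nat_lit 78) (PT.lf (nat_lit 20824) (nat_lit 6) (nat_lit 274) (nat_lit 4) (nat_lit 124) (nat_lit 139) (nat_lit 127)) (PT.nd (nat_lit 78) (PT.lf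 (nat_lit 20748) (nat_lit 6) (nat_lit 273) (nat_lit 4) (nat_lit 125) (nat_lit 139) (nat_lit 126)) (PT.lf (nat_lit 20748) (nat_lit 6) (nat_lit 273) (nat_lit 2) (nat_lit 126) (nat_lit 139) (nat_lit 125)))) (PT.nd (nat_lit 156) (PT.nd (nat_lit 78) (PT.lf (nat_lit 20824) (nat_lit 6) (nat_lit 274) (nat_lit 2) (nat_lit 127) (nat_lit 139) (nat_lit 124)) (PT.lf (nat_lit 20900) (nat_lit 6) (nat_lit 275) (nat_lit 2) (nat_lit 128) (nat_lit 139) (nat_lit 123))) (PT.nd (nat_lit 78) (PT.lf (nat_lit 20976) (nat_lit 6) (nat_lit 276) (nat_lit 2) (nat_lit 129) (nat_lit 139) (nat_lit 122)) (PT.lf (nat_lit 21052) (nat_lit 6) (nat_lit 277) (nat_lit 2) (nat_lit 130) (nat_lit 139) (nat_lit 121))))))) (PT.nd (nat_lit 1092) (PT.nd (nat_lit 546) (PT.nd (nat_lit 234) (PT.nd (nat_lit 78) (PT.lf (nat_lit 20368) (nat_lit 6) (nat_lit 268) (nat_lit 2) (nat_lit 131) (nat_lit 139) (nat_lit 120)) (PT.nd (nat_lit 78) (PT.lf (nat_lit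 19608) (nat_lit 6) (nat_lit 258) (nat_lit 2) (nat_lit 132) (nat_lit 139) (nat_lit 119)) (PT.lf (nat_lit 18772) (nat_lit 6) (nat_lit 247) (nat_lit 2) (nat_lit 133) (nat_lit 139) (nat_lit 118)))) (PT.nd (nat_lit 156) (PT.nd (nat_lit 78) (PT.lf (nat_lit 17860) (nat_lit 6) (nat_lit 235) (nat_lit 2) (nat_lit 134) (nat_lit 139) (nat_lit 117)) (PT.lf (nat_lit 16872) (nat_lit 6) (nat_lit 222) (nat_lit 2) (nat_lit 135) (nat_lit 139) (nat_lit 116))) (PT.nd (nat_lit 78) (PT.lf (nat_lit 15808) (nat_lit 6) (nat_lit 208) (nat_lit 2) (nat_lit 136) (nat_lit 139) (nat_lit 115)) (PT.lf (nat_lit 14668) (nat_lit 6) (nat_lit 193) (nat_lit 2) (nat_lit 137) (nat_lit 139) (nat_lit 114))))) (PT.nd (nat_lit 234) (PT.nd (nat_lit 78) (PT.lf (nat_lit 13984) (nat_lit 6) (nat_lit 184) (nat_lit 2) (nat_lit 138) (nat_lit 139) (nat_lit 113)) (PT.nd (nat_lit 78) (PT.lf (nat_lit 13376) (nat_lit 3) (nat_lit 176) (nat_lit 0) (nat_lit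 139) (nat_lit 139) (nat_lit 112)) (PT.lf (nat_lit 12768) (nat_lit 6) (nat_lit 168) (nat_lit 0) (nat_lit 140) (nat_lit 139) (nat_lit 111)))) (PT.nd (nat_lit 156) (PT.nd (nat_lit 78) (PT.lf (nat_lit 12160) (nat_lit 6) (nat_lit 160) (nat_lit 0) (nat_lit 141) (nat_lit 139) (nat_lit 110)) (PT.lf (nat_lit 11628) (nat_lit 6) (nat_lit 153) (nat_lit 0) (nat_lit 142) (nat_lit 139) (nat_lit 109))) (PT.nd (nat_lit 78) (PT.lf (nat_lit 11020) (nat_lit 6) (nat_lit 145) (nat_lit 0) (nat_lit 143) (nat_lit 139) (nat_lit 108)) (PT.lf (nat_lit 10488) (nat_lit 6) (nat_lit 138) (nat_lit 0) (nat_lit 144) (nat_lit 139) (nat_lit 107)))))) (PT.nd (nat_lit 37440) (PT.nd (nat_lit 234) (PT.nd (nat_lit 78) (PT.lf (nat_lit 9956) (nat_lit 6) (nat_lit 131) (nat_lit 0) (nat_lit 145) (nat_lit 139) (nat_lit 106)) (PT.nd (nat_lit 78) (PT.lf (nat_lit 9500) (nat_lit 6) (nat_lit 125) (nat_lit 0) (nat_lit 146) (nat_lit 139) (nat_lit 105))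 (PT.lf (nat_lit 8968) (nat_lit 6) (nat_lit 118) (nat_lit 0) (nat_lit 147) (nat_lit 139) (nat_lit 104)))) (PT.nd (nat_lit 37050) (PT.nd (nat_lit 36972) (PT.lf (nat_lit 8512) (nat_lit 6) (nat_lit 112) (nat_lit 0) (nat_lit 148) (nat_lit 139) (nat_lit 103)) (PT.lf (nat_lit 7752) (nat_lit 6) (nat_lit 102) (nat_lit 5) (nat_lit 101) (nat_lit 140) (nat_lit 149))) (PT.nd (nat_lit 78) (PT.lf (nat_lit 8132) (nat_lit 6) (nat_lit 107) (nat_lit 5) (nat_lit 102) (nat_lit 140) (nat_lit 148)) (PT.lf (nat_lit 8588) (nat_lit 6) (nat_lit 113) (nat_lit 5) (nat_lit 103) (nat_lit 140) (nat_lit 147))))) (PT.nd (nat_lit 234) (PT.nd (nat_lit 78) (PT.lf (nat_lit 9044) (nat_lit 6) (nat_lit 119) (nat_lit 5) (nat_lit 104) (nat_lit 140) (nat_lit 146)) (PT.nd (nat_lit 78) (PT.lf (nat_lit 9576) (nat_lit 6) (nat_lit 126) (nat_lit 5) (nat_lit 105) (nat_lit 140) (nat_lit 145)) (PT.lf (nat_lit 10032) (nat_lit 6) (nat_lit 132) (nat_lit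 5) (nat_lit 106) (nat_lit 140) (nat_lit 144)))) (PT.nd (nat_lit 156) (PT.nd (nat_lit 78) (PT.lf (nat_lit 10564) (nat_lit 6) (nat_lit 139) (nat_lit 5) (nat_lit 107) (nat_lit 140) (nat_lit 143)) (PT.lf (nat_lit 11096) (nat_lit 6) (nat_lit 146) (nat_lit 5) (nat_lit 108) (nat_lit 140) (nat_lit 142))) (PT.nd (nat_lit 78) (PT.lf (nat_lit 11704) (nat_lit 6) (nat_lit 154) (nat_lit 5) (nat_lit 109) (nat_lit 140) (nat_lit 141)) (PT.lf (nat_lit 12236) (nat_lit 3) (nat_lit 161) (nat_lit 4) (nat_lit 110) (nat_lit 140) (nat_lit 140))))))))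
noncomputable def pc20 : PT := (PT.nd (nat_lit 2106) (PT.nd (nat_lit 1014) (PT.nd (nat_lit 468) (PT.nd (nat_lit 234) (PT.nd (nat_lit 78) (PT.lf (nat_lit 12768) (nat_lit 6) (nat_lit 168) (nat_lit 4) (nat_lit 111) (nat_lit 140) (nat_lit 139)) (PT.nd (nat_lit 78) (PT.lf (nat_lit 13300) (nat_lit 6) (nat_lit 175) (nat_lit 4) (nat_lit 112) (nat_lit 140) (nat_lit 138)) (PT.lf (nat_lit 13908) (nat_lit 6) (nat_lit 183) (nat_lit 4) (nat_lit 113) (nat_lit 140) (nat_lit 137)))) (PT.nd (nat_lit 78) (PT.lf (nat_lit 14592) (nat_lit 6) (nat_lit 192) (nat_lit 4) (nat_lit 114) (nat_lit 140) (nat_lit 136)) (PT.nd (nat_lit 78) (PT.lf (nat_lit 15732) (nat_lit 6) (nat_lit 207) (nat_lit 4) (nat_lit 115) (nat_lit 140) (nat_lit 135)) (PT.lf (nat_lit 16796) (nat_lit 6) (nat_lit 221) (nat_lit 4) (nat_lit 116) (nat_lit 140) (nat_lit 134))))) (PT.nd (nat_lit 234) (PT.nd (nat_lit 78) (PT.lf (nat_lit 17784) (nat_lit 6) (nat_lit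 234) (nat_lit 4) (nat_lit 117) (nat_lit 140) (nat_lit 133)) (PT.nd (nat_lit 78) (PT.lf (nat_lit 18696) (nat_lit 6) (nat_lit 246) (nat_lit 4) (nat_lit 118) (nat_lit 140) (nat_lit 132)) (PT.lf (nat_lit 19532) (nat_lit 6) (nat_lit 257) (nat_lit 4) (nat_lit 119) (nat_lit 140) (nat_lit 131)))) (PT.nd (nat_lit 156) (PT.nd (nat_lit 78) (PT.lf (nat_lit 20292) (nat_lit 6) (nat_lit 267) (nat_lit 4) (nat_lit 120) (nat_lit 140) (nat_lit 130)) (PT.lf (nat_lit 20216) (nat_lit 6) (nat_lit 266) (nat_lit 4) (nat_lit 121) (nat_lit 140) (nat_lit 129))) (PT.nd (nat_lit 78) (PT.lf (nat_lit 20140) (nat_lit 6) (nat_lit 265) (nat_lit 4) (nat_lit 122) (nat_lit 140) (nat_lit 128)) (PT.lf (nat_lit 20064) (nat_lit 6) (nat_lit 264) (nat_lit 4) (nat_lit 123) (nat_lit 140) (nat_lit 127)))))) (PT.nd (nat_lit 546) (PT.nd (nat_lit 234) (PT.nd (nat_lit 78) (PT.lf (nat_lit 19988) (nat_lit 6) (nat_lit 263) (nat_lit 4) (nat_lit 124)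 (nat_lit 140) (nat_lit 126)) (PT.nd (nat_lit 78) (PT.lf (nat_lit 19912) (nat_lit 3) (nat_lit 262) (nat_lit 2) (nat_lit 125) (nat_lit 140) (nat_lit 125)) (PT.lf (nat_lit 19988) (nat_lit 6) (nat_lit 263) (nat_lit 2) (nat_lit 126) (nat_lit 140) (nat_lit 124)))) (PT.nd (nat_lit 156) (PT.nd (nat_lit 78) (PT.lf (nat_lit 20064) (nat_lit 6) (nat_lit 264) (nat_lit 2) (nat_lit 127) (nat_lit 140) (nat_lit 123)) (PT.lf (nat_lit 20140) (nat_lit 6) (nat_lit 265) (nat_lit 2) (nat_lit 128) (nat_lit 140) (nat_lit 122))) (PT.nd (nat_lit 78) (PT.lf (nat_lit 20216) (nat_lit 6) (nat_lit 266) (nat_lit 2) (nat_lit 129) (nat_lit 140) (nat_lit 121)) (PT.lf (nat_lit 20292) (nat_lit 6) (nat_lit 267) (nat_lit 2) (nat_lit 130) (nat_lit 140) (nat_lit 120))))) (PT.nd (nat_lit 234) (PT.nd (nat_lit 78) (PT.lf (nat_lit 19532) (nat_lit 6) (nat_lit 257) (nat_lit 2) (nat_lit 131) (nat_lit 140) (nat_lit 119)) (PT.nd (nat_lit 78) (PT.lf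 (nat_lit 18696) (nat_lit 6) (nat_lit 246) (nat_lit 2) (nat_lit 132) (nat_lit 140) (nat_lit 118)) (PT.lf (nat_lit 17784) (nat_lit 6) (nat_lit 234) (nat_lit 2) (nat_lit 133) (nat_lit 140) (nat_lit 117)))) (PT.nd (nat_lit 156) (PT.nd (nat_lit 78) (PT.lf (nat_lit 16796) (nat_lit 6) (nat_lit 221) (nat_lit 2) (nat_lit 134) (nat_lit 140) (nat_lit 116)) (PT.lf (nat_lit 15732) (nat_lit 6) (nat_lit 207) (nat_lit 2) (nat_lit 135) (nat_lit 140) (nat_lit 115))) (PT.nd (nat_lit 78) (PT.lf (nat_lit 14592) (nat_lit 6) (nat_lit 192) (nat_lit 2) (nat_lit 136) (nat_lit 140) (nat_lit 114)) (PT.lf (nat_lit 13908) (nat_lit 6) (nat_lit 183) (nat_lit 2) (nat_lit 137) (nat_lit 140) (nat_lit 113))))))) (PT.nd (nat_lit 37752) (PT.nd (nat_lit 468) (PT.nd (nat_lit 234) (PT.nd (nat_lit 78) (PT.lf (nat_lit 13300) (nat_lit 6) (nat_lit 175) (nat_lit 2) (nat_lit 138) (nat_lit 140) (nat_lit 112)) (PT.nd (nat_lit 78) (PT.lf (nat_lit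 12768) (nat_lit 6) (nat_lit 168) (nat_lit 2) (nat_lit 139) (nat_lit 140) (nat_lit 111)) (PT.lf (nat_lit 12236) (nat_lit 3) (nat_lit 161) (nat_lit 0) (nat_lit 140) (nat_lit 140) (nat_lit 110)))) (PT.nd (nat_lit 78) (PT.lf (nat_lit 11704) (nat_lit 6) (nat_lit 154) (nat_lit 0) (nat_lit 141) (nat_lit 140) (nat_lit 109)) (PT.nd (nat_lit 78) (PT.lf (nat_lit 11096) (nat_lit 6) (nat_lit 146) (nat_lit 0) (nat_lit 142) (nat_lit 140) (nat_lit 108)) (PT.lf (nat_lit 10564) (nat_lit 6) (nat_lit 139) (nat_lit 0) (nat_lit 143) (nat_lit 140) (nat_lit 107))))) (PT.nd (nat_lit 234) (PT.nd (nat_lit 78) (PT.lf (nat_lit 10032) (nat_lit 6) (nat_lit 132) (nat_lit 0) (nat_lit 144) (nat_lit 140) (nat_lit 106)) (PT.nd (nat_lit 78) (PT.lf (nat_lit 9576) (nat_lit 6) (nat_lit 126) (nat_lit 0) (nat_lit 145) (nat_lit 140) (nat_lit 105)) (PT.lf (nat_lit 9044) (nat_lit 6) (nat_lit 119) (nat_lit 0) (nat_lit 146) (nat_lit 140) (nat_lit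 104)))) (PT.nd (nat_lit 156) (PT.nd (nat_lit 78) (PT.lf (nat_lit 8588) (nat_lit 6) (nat_lit 113) (nat_lit 0) (nat_lit 147) (nat_lit 140) (nat_lit 103)) (PT.lf (nat_lit 8132) (nat_lit 6) (nat_lit 107) (nat_lit 0) (nat_lit 148) (nat_lit 140) (nat_lit 102))) (PT.nd (nat_lit 36816) (PT.lf (nat_lit 7752) (nat_lit 6) (nat_lit 102) (nat_lit 0) (nat_lit 149) (nat_lit 140) (nat_lit 101)) (PT.lf (nat_lit 7372) (nat_lit 6) (nat_lit 97) (nat_lit 5) (nat_lit 100) (nat_lit 141) (nat_lit 149)))))) (PT.nd (nat_lit 546) (PT.nd (nat_lit 234) (PT.nd (nat_lit 78) (PT.lf (nat_lit 7828) (nat_lit 6) (nat_lit 103) (nat_lit 5) (nat_lit 101) (nat_lit 141) (nat_lit 148)) (PT.nd (nat_lit 78) (PT.lf (nat_lit 8208) (nat_lit 6) (nat_lit 108) (nat_lit 5) (nat_lit 102) (nat_lit 141) (nat_lit 147)) (PT.lf (nat_lit 8664) (nat_lit 6) (nat_lit 114) (nat_lit 5) (nat_lit 103) (nat_lit 141) (nat_lit 146)))) (PT.nd (nat_lit 156) (PT.nd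 (nat_lit 78) (PT.lf (nat_lit 9120) (nat_lit 6) (nat_lit 120) (nat_lit 5) (nat_lit 104) (nat_lit 141) (nat_lit 145)) (PT.lf (nat_lit 9652) (nat_lit 6) (nat_lit 127) (nat_lit 5) (nat_lit 105) (nat_lit 141) (nat_lit 144))) (PT.nd (nat_lit 78) (PT.lf (nat_lit 10108) (nat_lit 6) (nat_lit 133) (nat_lit 5) (nat_lit 106) (nat_lit 141) (nat_lit 143)) (PT.lf (nat_lit 10640) (nat_lit 6) (nat_lit 140) (nat_lit 5) (nat_lit 107) (nat_lit 141) (nat_lit 142))))) (PT.nd (nat_lit 234) (PT.nd (nat_lit 78) (PT.lf (nat_lit 11172) (nat_lit 3) (nat_lit 147) (nat_lit 4) (nat_lit 108) (nat_lit 141) (nat_lit 141)) (PT.nd (nat_lit 78) (PT.lf (nat_lit 11704) (nat_lit 6) (nat_lit 154) (nat_lit 4) (nat_lit 109) (nat_lit 141) (nat_lit 140)) (PT.lf (nat_lit 12160) (nat_lit 6) (nat_lit 160) (nat_lit 4) (nat_lit 110) (nat_lit 141) (nat_lit 139)))) (PT.nd (nat_lit 156) (PT.nd (nat_lit 78) (PT.lf (nat_lit 12692) (nat_lit 6) (nat_lit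 167) (nat_lit 4) (nat_lit 111) (nat_lit 141) (nat_lit 138)) (PT.lf (nat_lit 13224) (nat_lit 6) (nat_lit 174) (nat_lit 4) (nat_lit 112) (nat_lit 141) (nat_lit 137))) (PT.nd (nat_lit 78) (PT.lf (nat_lit 13832) (nat_lit 6) (nat_lit 182) (nat_lit 4) (nat_lit 113) (nat_lit 141) (nat_lit 136)) (PT.lf (nat_lit 14516) (nat_lit 6) (nat_lit 191) (nat_lit 4) (nat_lit 114) (nat_lit 141) (nat_lit 135))))))))
noncomputable def pc21 : PT := (PT.nd (nat_lit 2106) (PT.nd (nat_lit 1014) (PT.nd (nat_lit 468) (PT.nd (nat_lit 234) (PT.nd (nat_lit 78) (PT.lf (nat_lit 15656) (nat_lit 6) (nat_lit 206) (nat_lit 4) (nat_lit 115) (nat_lit 141) (nat_lit 134)) (PT.nd (nat_lit 78) (PT.lf (nat_lit 16720) (nat_lit 6) (nat_lit 220) (nat_lit 4) (nat_lit 116) (nat_lit 141) (nat_lit 133)) (PT.lf (nat_lit 17708) (nat_lit 6) (nat_lit 233) (nat_lit 4) (nat_lit 117) (nat_lit 141) (nat_lit 132)))) (PT.nd (nat_lit 78) (PT.lf (nat_lit 18620)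 (nat_lit 6) (nat_lit 245) (nat_lit 4) (nat_lit 118) (nat_lit 141) (nat_lit 131)) (PT.nd (nat_lit 78) (PT.lf (nat_lit 19456) (nat_lit 6) (nat_lit 256) (nat_lit 4) (nat_lit 119) (nat_lit 141) (nat_lit 130)) (PT.lf (nat_lit 19380) (nat_lit 6) (nat_lit 255) (nat_lit 4) (nat_lit 120) (nat_lit 141) (nat_lit 129))))) (PT.nd (nat_lit 234) (PT.nd (nat_lit 78) (PT.lf (nat_lit 19304) (nat_lit 6) (nat_lit 254) (nat_lit 4) (nat_lit 121) (nat_lit 141) (nat_lit 128)) (PT.nd (nat_lit 78) (PT.lf (nat_lit 19228) (nat_lit 6) (nat_lit 253) (nat_lit 4) (nat_lit 122) (nat_lit 141) (nat_lit 127)) (PT.lf (nat_lit 19152) (nat_lit 6) (nat_lit 252) (nat_lit 4) (nat_lit 123) (nat_lit 141) (nat_lit 126)))) (PT.nd (nat_lit 156) (PT.nd (nat_lit 78) (PT.lf (nat_lit 19076) (nat_lit 6) (nat_lit 251) (nat_lit 4) (nat_lit 124) (nat_lit 141) (nat_lit 125)) (PT.lf (nat_lit 19076) (nat_lit 6) (nat_lit 251) (nat_lit 2) (nat_lit 125)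 (nat_lit 141) (nat_lit 124))) (PT.nd (nat_lit 78) (PT.lf (nat_lit 19152) (nat_lit 6) (nat_lit 252) (nat_lit 2) (nat_lit 126) (nat_lit 141) (nat_lit 123)) (PT.lf (nat_lit 19228) (nat_lit 6) (nat_lit 253) (nat_lit 2) (nat_lit 127) (nat_lit 141) (nat_lit 122)))))) (PT.nd (nat_lit 546) (PT.nd (nat_lit 234) (PT.nd (nat_lit 78) (PT.lf (nat_lit 19304) (nat_lit 6) (nat_lit 254) (nat_lit 2) (nat_lit 128) (nat_lit 141) (nat_lit 121)) (PT.nd (nat_lit 78) (PT.lf (nat_lit 19380) (nat_lit 6) (nat_lit 255) (nat_lit 2) (nat_lit 129) (nat_lit 141) (nat_lit 120)) (PT.lf (nat_lit 19456) (nat_lit 6) (nat_lit 256) (nat_lit 2) (nat_lit 130) (nat_lit 141) (nat_lit 119)))) (PT.nd (nat_lit 156) (PT.nd (nat_lit 78) (PT.lf (nat_lit 18620) (nat_lit 6) (nat_lit 245) (nat_lit 2) (nat_lit 131) (nat_lit 141) (nat_lit 118)) (PT.lf (nat_lit 17708) (nat_lit 6) (nat_lit 233) (nat_lit 2) (nat_lit 132) (nat_lit 141) (nat_lit 117)))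 (PT.nd (nat_lit 78) (PT.lf (nat_lit 16720) (nat_lit 6) (nat_lit 220) (nat_lit 2) (nat_lit 133) (nat_lit 141) (nat_lit 116)) (PT.lf (nat_lit 15656) (nat_lit 6) (nat_lit 206) (nat_lit 2) (nat_lit 134) (nat_lit 141) (nat_lit 115))))) (PT.nd (nat_lit 234) (PT.nd (nat_lit 78) (PT.lf (nat_lit 14516) (nat_lit 6) (nat_lit 191) (nat_lit 2) (nat_lit 135) (nat_lit 141) (nat_lit 114)) (PT.nd (nat_lit 78) (PT.lf (nat_lit 13832) (nat_lit 6) (nat_lit 182) (nat_lit 2) (nat_lit 136) (nat_lit 141) (nat_lit 113)) (PT.lf (nat_lit 13224) (nat_lit 6) (nat_lit 174) (nat_lit 2) (nat_lit 137) (nat_lit 141) (nat_lit 112)))) (PT.nd (nat_lit 156) (PT.nd (nat_lit 78) (PT.lf (nat_lit 12692) (nat_lit 6) (nat_lit 167) (nat_lit 2) (nat_lit 138) (nat_lit 141) (nat_lit 111)) (PT.lf (nat_lit 12160) (nat_lit 6) (nat_lit 160) (nat_lit 2) (nat_lit 139) (nat_lit 141) (nat_lit 110))) (PT.nd (nat_lit 78) (PT.lf (nat_lit 11704) (nat_lit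 6) (nat_lit 154) (nat_lit 2) (nat_lit 140) (nat_lit 141) (nat_lit 109)) (PT.lf (nat_lit 11172) (nat_lit 3) (nat_lit 147) (nat_lit 0) (nat_lit 141) (nat_lit 141) (nat_lit 108))))))) (PT.nd (nat_lit 37674) (PT.nd (nat_lit 546) (PT.nd (nat_lit 234) (PT.nd (nat_lit 78) (PT.lf (nat_lit 10640) (nat_lit 6) (nat_lit 140) (nat_lit 0) (nat_lit 142) (nat_lit 141) (nat_lit 107)) (PT.nd (nat_lit 78) (PT.lf (nat_lit 10108) (nat_lit 6) (nat_lit 133) (nat_lit 0) (nat_lit 143) (nat_lit 141) (nat_lit 106)) (PT.lf (nat_lit 9652) (nat_lit 6) (nat_lit 127) (nat_lit 0) (nat_lit 144) (nat_lit 141) (nat_lit 105)))) (PT.nd (nat_lit 156) (PT.nd (nat_lit 78) (PT.lf (nat_lit 9120) (nat_lit 6) (nat_lit 120) (nat_lit 0) (nat_lit 145) (nat_lit 141) (nat_lit 104)) (PT.lf (nat_lit 8664) (nat_lit 6) (nat_lit 114) (nat_lit 0) (nat_lit 146) (nat_lit 141) (nat_lit 103))) (PT.nd (nat_lit 78) (PT.lf (nat_lit 8208) (nat_lit 6) (nat_lit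 108) (nat_lit 0) (nat_lit 147) (nat_lit 141) (nat_lit 102)) (PT.lf (nat_lit 7828) (nat_lit 6) (nat_lit 103) (nat_lit 0) (nat_lit 148) (nat_lit 141) (nat_lit 101))))) (PT.nd (nat_lit 36816) (PT.nd (nat_lit 36660) (PT.lf (nat_lit 7372) (nat_lit 6) (nat_lit 97) (nat_lit 0) (nat_lit 149) (nat_lit 141) (nat_lit 100)) (PT.nd (nat_lit 78) (PT.lf (nat_lit 6688) (nat_lit 6) (nat_lit 88) (nat_lit 5) (nat_lit 98) (nat_lit 142) (nat_lit 150)) (PT.lf (nat_lit 7068) (nat_lit 6) (nat_lit 93) (nat_lit 5) (nat_lit 99) (nat_lit 142) (nat_lit 149)))) (PT.nd (nat_lit 156) (PT.nd (nat_lit 78) (PT.lf (nat_lit 7448) (nat_lit 6) (nat_lit 98) (nat_lit 5) (nat_lit 100) (nat_lit 142) (nat_lit 148)) (PT.lf (nat_lit 7904) (nat_lit 6) (nat_lit 104) (nat_lit 5) (nat_lit 101) (nat_lit 142) (nat_lit 147))) (PT.nd (nat_lit 78) (PT.lf (nat_lit 8284) (nat_lit 6) (nat_lit 109) (nat_lit 5) (nat_lit 102) (nat_lit 142) (nat_lit 146))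 (PT.lf (nat_lit 8740) (nat_lit 6) (nat_lit 115) (nat_lit 5) (nat_lit 103) (nat_lit 142) (nat_lit 145)))))) (PT.nd (nat_lit 546) (PT.nd (nat_lit 234) (PT.nd (nat_lit 78) (PT.lf (nat_lit 9196) (nat_lit 6) (nat_lit 121) (nat_lit 5) (nat_lit 104) (nat_lit 142) (nat_lit 144)) (PT.nd (nat_lit 78) (PT.lf (nat_lit 9728) (nat_lit 6) (nat_lit 128) (nat_lit 5) (nat_lit 105) (nat_lit 142) (nat_lit 143)) (PT.lf (nat_lit 10184) (nat_lit 3) (nat_lit 134) (nat_lit 4) (nat_lit 106) (nat_lit 142) (nat_lit 142)))) (PT.nd (nat_lit 156) (PT.nd (nat_lit 78) (PT.lf (nat_lit 10640) (nat_lit 6) (nat_lit 140) (nat_lit 4) (nat_lit 107) (nat_lit 142) (nat_lit 141)) (PT.lf (nat_lit 11096) (nat_lit 6) (nat_lit 146) (nat_lit 4) (nat_lit 108) (nat_lit 142) (nat_lit 140))) (PT.nd (nat_lit 78) (PT.lf (nat_lit 11628) (nat_lit 6) (nat_lit 153) (nat_lit 4) (nat_lit 109) (nat_lit 142) (nat_lit 139)) (PT.lf (nat_lit 12084) (nat_lit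 6) (nat_lit 159) (nat_lit 4) (nat_lit 110) (nat_lit 142) (nat_lit 138))))) (PT.nd (nat_lit 234) (PT.nd (nat_lit 78) (PT.lf (nat_lit 12616) (nat_lit 6) (nat_lit 166) (nat_lit 4) (nat_lit 111) (nat_lit 142) (nat_lit 137)) (PT.nd (nat_lit 78) (PT.lf (nat_lit 13148) (nat_lit 6) (nat_lit 173) (nat_lit 4) (nat_lit 112) (nat_lit 142) (nat_lit 136)) (PT.lf (nat_lit 13756) (nat_lit 6) (nat_lit 181) (nat_lit 4) (nat_lit 113) (nat_lit 142) (nat_lit 135)))) (PT.nd (nat_lit 156) (PT.nd (nat_lit 78) (PT.lf (nat_lit 14440) (nat_lit 6) (nat_lit 190) (nat_lit 4) (nat_lit 114) (nat_lit 142) (nat_lit 134)) (PT.lf (nat_lit 15580) (nat_lit 6) (nat_lit 205) (nat_lit 4) (nat_lit 115) (nat_lit 142) (nat_lit 133))) (PT.nd (nat_lit 78) (PT.lf (nat_lit 16644) (nat_lit 6) (nat_lit 219) (nat_lit 4) (nat_lit 116) (nat_lit 142) (nat_lit 132)) (PT.lf (nat_lit 17632) (nat_lit 6) (nat_lit 232) (nat_lit 4) (nat_lit 117) (nat_lit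 142) (nat_lit 131))))))))
noncomputable def pc22 : PT := (PT.nd (nat_lit 2106) (PT.nd (nat_lit 1014) (PT.nd (nat_lit 468) (PT.nd (nat_lit 234) (PT.nd (nat_lit 78) (PT.lf (nat_lit 18544) (nat_lit 6) (nat_lit 244) (nat_lit 4) (nat_lit 118) (nat_lit 142) (nat_lit 130)) (PT.nd (nat_lit 78) (PT.lf (nat_lit 18468) (nat_lit 6) (nat_lit 243) (nat_lit 4) (nat_lit 119) (nat_lit 142) (nat_lit 129)) (PT.lf (nat_lit 18392) (nat_lit 6) (nat_lit 242) (nat_lit 4) (nat_lit 120) (nat_lit 142) (nat_lit 128)))) (PT.nd (nat_lit 78) (PT.lf (nat_lit 18316) (nat_lit 6) (nat_lit 241) (nat_lit 4) (nat_lit 121) (nat_lit 142) (nat_lit 127)) (PT.nd (nat_lit 78) (PT.lf (nat_lit 18240) (nat_lit 6) (nat_lit 240) (nat_lit 4) (nat_lit 122) (nat_lit 142) (nat_lit 126)) (PT.lf (nat_lit 18164) (nat_lit 6) (nat_lit 239) (nat_lit 4) (nat_lit 123) (nat_lit 142) (nat_lit 125))))) (PT.nd (nat_lit 234) (PT.nd (nat_lit 78) (PT.lf (nat_lit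 18088) (nat_lit 3) (nat_lit 238) (nat_lit 2) (nat_lit 124) (nat_lit 142) (nat_lit 124)) (PT.nd (nat_lit 78) (PT.lf (nat_lit 18164) (nat_lit 6) (nat_lit 239) (nat_lit 2) (nat_lit 125) (nat_lit 142) (nat_lit 123)) (PT.lf (nat_lit 18240) (nat_lit 6) (nat_lit 240) (nat_lit 2) (nat_lit 126) (nat_lit 142) (nat_lit 122)))) (PT.nd (nat_lit 156) (PT.nd (nat_lit 78) (PT.lf (nat_lit 18316) (nat_lit 6) (nat_lit 241) (nat_lit 2) (nat_lit 127) (nat_lit 142) (nat_lit 121)) (PT.lf (nat_lit 18392) (nat_lit 6) (nat_lit 242) (nat_lit 2) (nat_lit 128) (nat_lit 142) (nat_lit 120))) (PT.nd (nat_lit 78) (PT.lf (nat_lit 18468) (nat_lit 6) (nat_lit 243) (nat_lit 2) (nat_lit 129) (nat_lit 142) (nat_lit 119)) (PT.lf (nat_lit 18544) (nat_lit 6) (nat_lit 244) (nat_lit 2) (nat_lit 130) (nat_lit 142) (nat_lit 118)))))) (PT.nd (nat_lit 546) (PT.nd (nat_lit 234) (PT.nd (nat_lit 78) (PT.lf (nat_lit 17632) (nat_lit 6) (nat_lit 232)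 (nat_lit 2) (nat_lit 131) (nat_lit 142) (nat_lit 117)) (PT.nd (nat_lit 78) (PT.lf (nat_lit 16644) (nat_lit 6) (nat_lit 219) (nat_lit 2) (nat_lit 132) (nat_lit 142) (nat_lit 116)) (PT.lf (nat_lit 15580) (nat_lit 6) (nat_lit 205) (nat_lit 2) (nat_lit 133) (nat_lit 142) (nat_lit 115)))) (PT.nd (nat_lit 156) (PT.nd (nat_lit 78) (PT.lf (nat_lit 14440) (nat_lit 6) (nat_lit 190) (nat_lit 2) (nat_lit 134) (nat_lit 142) (nat_lit 114)) (PT.lf (nat_lit 13756) (nat_lit 6) (nat_lit 181) (nat_lit 2) (nat_lit 135) (nat_lit 142) (nat_lit 113))) (PT.nd (nat_lit 78) (PT.lf (nat_lit 13148) (nat_lit 6) (nat_lit 173) (nat_lit 2) (nat_lit 136) (nat_lit 142) (nat_lit 112)) (PT.lf (nat_lit 12616) (nat_lit 6) (nat_lit 166) (nat_lit 2) (nat_lit 137) (nat_lit 142) (nat_lit 111))))) (PT.nd (nat_lit 234) (PT.nd (nat_lit 78) (PT.lf (nat_lit 12084) (nat_lit 6) (nat_lit 159) (nat_lit 2) (nat_lit 138) (nat_lit 142) (nat_lit 110))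 (PT.nd (nat_lit 78) (PT.lf (nat_lit 11628) (nat_lit 6) (nat_lit 153) (nat_lit 2) (nat_lit 139) (nat_lit 142) (nat_lit 109)) (PT.lf (nat_lit 11096) (nat_lit 6) (nat_lit 146) (nat_lit 2) (nat_lit 140) (nat_lit 142) (nat_lit 108)))) (PT.nd (nat_lit 156) (PT.nd (nat_lit 78) (PT.lf (nat_lit 10640) (nat_lit 6) (nat_lit 140) (nat_lit 2) (nat_lit 141) (nat_lit 142) (nat_lit 107)) (PT.lf (nat_lit 10184) (nat_lit 3) (nat_lit 134) (nat_lit 0) (nat_lit 142) (nat_lit 142) (nat_lit 106))) (PT.nd (nat_lit 78) (PT.lf (nat_lit 9728) (nat_lit 6) (nat_lit 128) (nat_lit 0) (nat_lit 143) (nat_lit 142) (nat_lit 105)) (PT.lf (nat_lit 9196) (nat_lit 6) (nat_lit 121) (nat_lit 0) (nat_lit 144) (nat_lit 142) (nat_lit 104))))))) (PT.nd (nat_lit 37518) (PT.nd (nat_lit 36972) (PT.nd (nat_lit 234) (PT.nd (nat_lit 78) (PT.lf (nat_lit 8740) (nat_lit 6) (nat_lit 115) (nat_lit 0) (nat_lit 145) (nat_lit 142) (nat_lit 103)) (PT.nd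 (nat_lit 78) (PT.lf (nat_lit 8284) (nat_lit 6) (nat_lit 109) (nat_lit 0) (nat_lit 146) (nat_lit 142) (nat_lit 102)) (PT.lf (nat_lit 7904) (nat_lit 6) (nat_lit 104) (nat_lit 0) (nat_lit 147) (nat_lit 142) (nat_lit 101)))) (PT.nd (nat_lit 156) (PT.nd (nat_lit 78) (PT.lf (nat_lit 7448) (nat_lit 6) (nat_lit 98) (nat_lit 0) (nat_lit 148) (nat_lit 142) (nat_lit 100)) (PT.lf (nat_lit 7068) (nat_lit 6) (nat_lit 93) (nat_lit 0) (nat_lit 149) (nat_lit 142) (nat_lit 99))) (PT.nd (nat_lit 36504) (PT.lf (nat_lit 6688) (nat_lit 6) (nat_lit 88) (nat_lit 0) (nat_lit 150) (nat_lit 142) (nat_lit 98)) (PT.lf (nat_lit 6384) (nat_lit 6) (nat_lit 84) (nat_lit 5) (nat_lit 97) (nat_lit 143) (nat_lit 150))))) (PT.nd (nat_lit 234) (PT.nd (nat_lit 78) (PT.lf (nat_lit 6764) (nat_lit 6) (nat_lit 89) (nat_lit 5) (nat_lit 98) (nat_lit 143) (nat_lit 149)) (PT.nd (nat_lit 78) (PT.lf (nat_lit 7144) (nat_lit 6) (nat_lit 94) (nat_lit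 5) (nat_lit 99) (nat_lit 143) (nat_lit 148)) (PT.lf (nat_lit 7524) (nat_lit 6) (nat_lit 99) (nat_lit 5) (nat_lit 100) (nat_lit 143) (nat_lit 147)))) (PT.nd (nat_lit 156) (PT.nd (nat_lit 78) (PT.lf (nat_lit 7980) (nat_lit 6) (nat_lit 105) (nat_lit 5) (nat_lit 101) (nat_lit 143) (nat_lit 146)) (PT.lf (nat_lit 8360) (nat_lit 6) (nat_lit 110) (nat_lit 5) (nat_lit 102) (nat_lit 143) (nat_lit 145))) (PT.nd (nat_lit 78) (PT.lf (nat_lit 8816) (nat_lit 6) (nat_lit 116) (nat_lit 5) (nat_lit 103) (nat_lit 143) (nat_lit 144)) (PT.lf (nat_lit 9272) (nat_lit 3) (nat_lit 122) (nat_lit 4) (nat_lit 104) (nat_lit 143) (nat_lit 143)))))) (PT.nd (nat_lit 546) (PT.nd (nat_lit 234) (PT.nd (nat_lit 78) (PT.lf (nat_lit 9728) (nat_lit 6) (nat_lit 128) (nat_lit 4) (nat_lit 105) (nat_lit 143) (nat_lit 142)) (PT.nd (nat_lit 78) (PT.lf (nat_lit 10108) (nat_lit 6) (nat_lit 133) (nat_lit 4) (nat_lit 106) (nat_lit 143) (nat_lit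 141)) (PT.lf (nat_lit 10564) (nat_lit 6) (nat_lit 139) (nat_lit 4) (nat_lit 107) (nat_lit 143) (nat_lit 140)))) (PT.nd (nat_lit 156) (PT.nd (nat_lit 78) (PT.lf (nat_lit 11020) (nat_lit 6) (nat_lit 145) (nat_lit 4) (nat_lit 108) (nat_lit 143) (nat_lit 139)) (PT.lf (nat_lit 11552) (nat_lit 6) (nat_lit 152) (nat_lit 4) (nat_lit 109) (nat_lit 143) (nat_lit 138))) (PT.nd (nat_lit 78) (PT.lf (nat_lit 12008) (nat_lit 6) (nat_lit 158) (nat_lit 4) (nat_lit 110) (nat_lit 143) (nat_lit 137)) (PT.lf (nat_lit 12540) (nat_lit 6) (nat_lit 165) (nat_lit 4) (nat_lit 111) (nat_lit 143) (nat_lit 136))))) (PT.nd (nat_lit 234) (PT.nd (nat_lit 78) (PT.lf (nat_lit 13072) (nat_lit 6) (nat_lit 172) (nat_lit 4) (nat_lit 112) (nat_lit 143) (nat_lit 135)) (PT.nd (nat_lit 78) (PT.lf (nat_lit 13680) (nat_lit 6) (nat_lit 180) (nat_lit 4) (nat_lit 113) (nat_lit 143) (nat_lit 134)) (PT.lf (nat_lit 14364) (nat_lit 6) (nat_lit 189)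 (nat_lit 4) (nat_lit 114) (nat_lit 143) (nat_lit 133)))) (PT.nd (nat_lit 156) (PT.nd (nat_lit 78) (PT.lf (nat_lit 15504) (nat_lit 6) (nat_lit 204) (nat_lit 4) (nat_lit 115) (nat_lit 143) (nat_lit 132)) (PT.lf (nat_lit 16568) (nat_lit 6) (nat_lit 218) (nat_lit 4) (nat_lit 116) (nat_lit 143) (nat_lit 131))) (PT.nd (nat_lit 78) (PT.lf (nat_lit 17556) (nat_lit 6) (nat_lit 231) (nat_lit 4) (nat_lit 117) (nat_lit 143) (nat_lit 130)) (PT.lf (nat_lit 17480) (nat_lit 6) (nat_lit 230) (nat_lit 4) (nat_lit 118) (nat_lit 143) (nat_lit 129))))))))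
noncomputable def pc23 : PT := (PT.nd (nat_lit 2106) (PT.nd (nat_lit 1014) (PT.nd (nat_lit 468) (PT.nd (nat_lit 234) (PT.nd (nat_lit 78) (PT.lf (nat_lit 17404) (nat_lit 6) (nat_lit 229) (nat_lit 4) (nat_lit 119) (nat_lit 143) (nat_lit 128)) (PT.nd (nat_lit 78) (PT.lf (nat_lit 17328) (nat_lit 6) (nat_lit 228) (nat_lit 4) (nat_lit 120) (nat_lit 143) (nat_lit 127)) (PT.lf (nat_lit 17252) (nat_lit 6) (nat_lit 227) (nat_lit 4) (nat_lit 121) (nat_lit 143) (nat_lit 126)))) (PT.nd (nat_lit 78) (PT.lf (nat_lit 17176) (nat_lit 6) (nat_lit 226) (nat_lit 4) (nat_lit 122) (nat_lit 143) (nat_lit 125)) (PT.nd (nat_lit 78) (PT.lf (nat_lit 17100) (nat_lit 6) (nat_lit 225) (nat_lit 4) (nat_lit 123) (nat_lit 143) (nat_lit 124)) (PT.lf (nat_lit 17100) (nat_lit 6) (nat_lit 225) (nat_lit 2) (nat_lit 124) (nat_lit 143) (nat_lit 123))))) (PT.nd (nat_lit 234) (PT.nd (nat_lit 78) (PT.lf (nat_lit 17176) (nat_lit 6) (nat_lit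 226) (nat_lit 2) (nat_lit 125) (nat_lit 143) (nat_lit 122)) (PT.nd (nat_lit 78) (PT.lf (nat_lit 17252) (nat_lit 6) (nat_lit 227) (nat_lit 2) (nat_lit 126) (nat_lit 143) (nat_lit 121)) (PT.lf (nat_lit 17328) (nat_lit 6) (nat_lit 228) (nat_lit 2) (nat_lit 127) (nat_lit 143) (nat_lit 120)))) (PT.nd (nat_lit 156) (PT.nd (nat_lit 78) (PT.lf (nat_lit 17404) (nat_lit 6) (nat_lit 229) (nat_lit 2) (nat_lit 128) (nat_lit 143) (nat_lit 119)) (PT.lf (nat_lit 17480) (nat_lit 6) (nat_lit 230) (nat_lit 2) (nat_lit 129) (nat_lit 143) (nat_lit 118))) (PT.nd (nat_lit 78) (PT.lf (nat_lit 17556) (nat_lit 6) (nat_lit 231) (nat_lit 2) (nat_lit 130) (nat_lit 143) (nat_lit 117)) (PT.lf (nat_lit 16568) (nat_lit 6) (nat_lit 218) (nat_lit 2) (nat_lit 131) (nat_lit 143) (nat_lit 116)))))) (PT.nd (nat_lit 546) (PT.nd (nat_lit 234) (PT.nd (nat_lit 78) (PT.lf (nat_lit 15504) (nat_lit 6) (nat_lit 204) (nat_lit 2) (nat_lit 132)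 (nat_lit 143) (nat_lit 115)) (PT.nd (nat_lit 78) (PT.lf (nat_lit 14364) (nat_lit 6) (nat_lit 189) (nat_lit 2) (nat_lit 133) (nat_lit 143) (nat_lit 114)) (PT.lf (nat_lit 13680) (nat_lit 6) (nat_lit 180) (nat_lit 2) (nat_lit 134) (nat_lit 143) (nat_lit 113)))) (PT.nd (nat_lit 156) (PT.nd (nat_lit 78) (PT.lf (nat_lit 13072) (nat_lit 6) (nat_lit 172) (nat_lit 2) (nat_lit 135) (nat_lit 143) (nat_lit 112)) (PT.lf (nat_lit 12540) (nat_lit 6) (nat_lit 165) (nat_lit 2) (nat_lit 136) (nat_lit 143) (nat_lit 111))) (PT.nd (nat_lit 78) (PT.lf (nat_lit 12008) (nat_lit 6) (nat_lit 158) (nat_lit 2) (nat_lit 137) (nat_lit 143) (nat_lit 110)) (PT.lf (nat_lit 11552) (nat_lit 6) (nat_lit 152) (nat_lit 2) (nat_lit 138) (nat_lit 143) (nat_lit 109))))) (PT.nd (nat_lit 234) (PT.nd (nat_lit 78) (PT.lf (nat_lit 11020) (nat_lit 6) (nat_lit 145) (nat_lit 2) (nat_lit 139) (nat_lit 143) (nat_lit 108)) (PT.nd (nat_lit 78) (PT.lf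 (nat_lit 10564) (nat_lit 6) (nat_lit 139) (nat_lit 2) (nat_lit 140) (nat_lit 143) (nat_lit 107)) (PT.lf (nat_lit 10108) (nat_lit 6) (nat_lit 133) (nat_lit 2) (nat_lit 141) (nat_lit 143) (nat_lit 106)))) (PT.nd (nat_lit 156) (PT.nd (nat_lit 78) (PT.lf (nat_lit 9728) (nat_lit 6) (nat_lit 128) (nat_lit 2) (nat_lit 142) (nat_lit 143) (nat_lit 105)) (PT.lf (nat_lit 9272) (nat_lit 3) (nat_lit 122) (nat_lit 0) (nat_lit 143) (nat_lit 143) (nat_lit 104))) (PT.nd (nat_lit 78) (PT.lf (nat_lit 8816) (nat_lit 6) (nat_lit 116) (nat_lit 0) (nat_lit 144) (nat_lit 143) (nat_lit 103)) (PT.lf (nat_lit 8360) (nat_lit 6) (nat_lit 110) (nat_lit 0) (nat_lit 145) (nat_lit 143) (nat_lit 102))))))) (PT.nd (nat_lit 37362) (PT.nd (nat_lit 36816) (PT.nd (nat_lit 234) (PT.nd (nat_lit 78) (PT.lf (nat_lit 7980) (nat_lit 6) (nat_lit 105) (nat_lit 0) (nat_lit 146) (nat_lit 143) (nat_lit 101)) (PT.nd (nat_lit 78) (PT.lf (nat_lit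 7524) (nat_lit 6) (nat_lit 99) (nat_lit 0) (nat_lit 147) (nat_lit 143) (nat_lit 100)) (PT.lf (nat_lit 7144) (nat_lit 6) (nat_lit 94) (nat_lit 0) (nat_lit 148) (nat_lit 143) (nat_lit 99)))) (PT.nd (nat_lit 36426) (PT.nd (nat_lit 78) (PT.lf (nat_lit 6764) (nat_lit 6) (nat_lit 89) (nat_lit 0) (nat_lit 149) (nat_lit 143) (nat_lit 98)) (PT.lf (nat_lit 6384) (nat_lit 6) (nat_lit 84) (nat_lit 0) (nat_lit 150) (nat_lit 143) (nat_lit 97))) (PT.nd (nat_lit 78) (PT.lf (nat_lit 5776) (nat_lit 6) (nat_lit 76) (nat_lit 5) (nat_lit 95) (nat_lit 144) (nat_lit 151)) (PT.lf (nat_lit 6080) (nat_lit 6) (nat_lit 80) (nat_lit 5) (nat_lit 96) (nat_lit 144) (nat_lit 150))))) (PT.nd (nat_lit 234) (PT.nd (nat_lit 78) (PT.lf (nat_lit 6460) (nat_lit 6) (nat_lit 85) (nat_lit 5) (nat_lit 97) (nat_lit 144) (nat_lit 149)) (PT.nd (nat_lit 78) (PT.lf (nat_lit 6840) (nat_lit 6) (nat_lit 90) (nat_lit 5) (nat_lit 98) (nat_lit 144)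 (nat_lit 148)) (PT.lf (nat_lit 7220) (nat_lit 6) (nat_lit 95) (nat_lit 5) (nat_lit 99) (nat_lit 144) (nat_lit 147)))) (PT.nd (nat_lit 156) (PT.nd (nat_lit 78) (PT.lf (nat_lit 7600) (nat_lit 6) (nat_lit 100) (nat_lit 5) (nat_lit 100) (nat_lit 144) (nat_lit 146)) (PT.lf (nat_lit 8056) (nat_lit 6) (nat_lit 106) (nat_lit 5) (nat_lit 101) (nat_lit 144) (nat_lit 145))) (PT.nd (nat_lit 78) (PT.lf (nat_lit 8436) (nat_lit 3) (nat_lit 111) (nat_lit 4) (nat_lit 102) (nat_lit 144) (nat_lit 144)) (PT.lf (nat_lit 8816) (nat_lit 6) (nat_lit 116) (nat_lit 4) (nat_lit 103) (nat_lit 144) (nat_lit 143)))))) (PT.nd (nat_lit 546) (PT.nd (nat_lit 234) (PT.nd (nat_lit 78) (PT.lf (nat_lit 9196) (nat_lit 6) (nat_lit 121) (nat_lit 4) (nat_lit 104) (nat_lit 144) (nat_lit 142)) (PT.nd (nat_lit 78) (PT.lf (nat_lit 9652) (nat_lit 6) (nat_lit 127) (nat_lit 4) (nat_lit 105) (nat_lit 144) (nat_lit 141)) (PT.lf (nat_lit 10032)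 (nat_lit 6) (nat_lit 132) (nat_lit 4) (nat_lit 106) (nat_lit 144) (nat_lit 140)))) (PT.nd (nat_lit 156) (PT.nd (nat_lit 78) (PT.lf (nat_lit 10488) (nat_lit 6) (nat_lit 138) (nat_lit 4) (nat_lit 107) (nat_lit 144) (nat_lit 139)) (PT.lf (nat_lit 10944) (nat_lit 6) (nat_lit 144) (nat_lit 4) (nat_lit 108) (nat_lit 144) (nat_lit 138))) (PT.nd (nat_lit 78) (PT.lf (nat_lit 11476) (nat_lit 6) (nat_lit 151) (nat_lit 4) (nat_lit 109) (nat_lit 144) (nat_lit 137)) (PT.lf (nat_lit 11932) (nat_lit 6) (nat_lit 157) (nat_lit 4) (nat_lit 110) (nat_lit 144) (nat_lit 136))))) (PT.nd (nat_lit 234) (PT.nd (nat_lit 78) (PT.lf (nat_lit 12464) (nat_lit 6) (nat_lit 164) (nat_lit 4) (nat_lit 111) (nat_lit 144) (nat_lit 135)) (PT.nd (nat_lit 78) (PT.lf (nat_lit 12996) (nat_lit 6) (nat_lit 171) (nat_lit 4) (nat_lit 112) (nat_lit 144) (nat_lit 134)) (PT.lf (nat_lit 13604) (nat_lit 6) (nat_lit 179) (nat_lit 4) (nat_lit 113)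 (nat_lit 144) (nat_lit 133)))) (PT.nd (nat_lit 156) (PT.nd (nat_lit 78) (PT.lf (nat_lit 14288) (nat_lit 6) (nat_lit 188) (nat_lit 4) (nat_lit 114) (nat_lit 144) (nat_lit 132)) (PT.lf (nat_lit 15428) (nat_lit 6) (nat_lit 203) (nat_lit 4) (nat_lit 115) (nat_lit 144) (nat_lit 131))) (PT.nd (nat_lit 78) (PT.lf (nat_lit 16492) (nat_lit 6) (nat_lit 217) (nat_lit 4) (nat_lit 116) (nat_lit 144) (nat_lit 130)) (PT.lf (nat_lit 16416) (nat_lit 6) (nat_lit 216) (nat_lit 4) (nat_lit 117) (nat_lit 144) (nat_lit 129))))))))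
noncomputable def pc24 : PT := (PT.nd (nat_lit 2106) (PT.nd (nat_lit 1014) (PT.nd (nat_lit 468) (PT.nd (nat_lit 234) (PT.nd (nat_lit 78) (PT.lf (nat_lit 16340) (nat_lit 6) (nat_lit 215) (nat_lit 4) (nat_lit 118) (nat_lit 144) (nat_lit 128)) (PT.nd (nat_lit 78) (PT.lf (nat_lit 16264) (nat_lit 6) (nat_lit 214) (nat_lit 4) (nat_lit 119) (nat_lit 144) (nat_lit 127)) (PT.lf (nat_lit 16188) (nat_lit 6) (nat_lit 213) (nat_lit 4) (nat_lit 120) (nat_lit 144) (nat_lit 126)))) (PT.nd (nat_lit 78) (PT.lf (nat_lit 16112) (nat_lit 6) (nat_lit 212) (nat_lit 4) (nat_lit 121) (nat_lit 144) (nat_lit 125)) (PT.nd (nat_lit 78) (PT.lf (nat_lit 16036) (nat_lit 6) (nat_lit 211) (nat_lit 4) (nat_lit 122) (nat_lit 144) (nat_lit 124)) (PT.lf (nat_lit 15960) (nat_lit 3) (nat_lit 210) (nat_lit 2) (nat_lit 123) (nat_lit 144) (nat_lit 123))))) (PT.nd (nat_lit 234) (PT.nd (nat_lit 78) (PT.lf (nat_lit 16036) (nat_lit 6) (nat_lit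 211) (nat_lit 2) (nat_lit 124) (nat_lit 144) (nat_lit 122)) (PT.nd (nat_lit 78) (PT.lf (nat_lit 16112) (nat_lit 6) (nat_lit 212) (nat_lit 2) (nat_lit 125) (nat_lit 144) (nat_lit 121)) (PT.lf (nat_lit 16188) (nat_lit 6) (nat_lit 213) (nat_lit 2) (nat_lit 126) (nat_lit 144) (nat_lit 120)))) (PT.nd (nat_lit 156) (PT.nd (nat_lit 78) (PT.lf (nat_lit 16264) (nat_lit 6) (nat_lit 214) (nat_lit 2) (nat_lit 127) (nat_lit 144) (nat_lit 119)) (PT.lf (nat_lit 16340) (nat_lit 6) (nat_lit 215) (nat_lit 2) (nat_lit 128) (nat_lit 144) (nat_lit 118))) (PT.nd (nat_lit 78) (PT.lf (nat_lit 16416) (nat_lit 6) (nat_lit 216) (nat_lit 2) (nat_lit 129) (nat_lit 144) (nat_lit 117)) (PT.lf (nat_lit 16492) (nat_lit 6) (nat_lit 217) (nat_lit 2) (nat_lit 130) (nat_lit 144) (nat_lit 116)))))) (PT.nd (nat_lit 546) (PT.nd (nat_lit 234) (PT.nd (nat_lit 78) (PT.lf (nat_lit 15428) (nat_lit 6) (nat_lit 203) (nat_lit 2) (nat_lit 131)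 (nat_lit 144) (nat_lit 115)) (PT.nd (nat_lit 78) (PT.lf (nat_lit 14288) (nat_lit 6) (nat_lit 188) (nat_lit 2) (nat_lit 132) (nat_lit 144) (nat_lit 114)) (PT.lf (nat_lit 13604) (nat_lit 6) (nat_lit 179) (nat_lit 2) (nat_lit 133) (nat_lit 144) (nat_lit 113)))) (PT.nd (nat_lit 156) (PT.nd (nat_lit 78) (PT.lf (nat_lit 12996) (nat_lit 6) (nat_lit 171) (nat_lit 2) (nat_lit 134) (nat_lit 144) (nat_lit 112)) (PT.lf (nat_lit 12464) (nat_lit 6) (nat_lit 164) (nat_lit 2) (nat_lit 135) (nat_lit 144) (nat_lit 111))) (PT.nd (nat_lit 78) (PT.lf (nat_lit 11932) (nat_lit 6) (nat_lit 157) (nat_lit 2) (nat_lit 136) (nat_lit 144) (nat_lit 110)) (PT.lf (nat_lit 11476) (nat_lit 6) (nat_lit 151) (nat_lit 2) (nat_lit 137) (nat_lit 144) (nat_lit 109))))) (PT.nd (nat_lit 234) (PT.nd (nat_lit 78) (PT.lf (nat_lit 10944) (nat_lit 6) (nat_lit 144) (nat_lit 2) (nat_lit 138) (nat_lit 144) (nat_lit 108)) (PT.nd (nat_lit 78) (PT.lf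 (nat_lit 10488) (nat_lit 6) (nat_lit 138) (nat_lit 2) (nat_lit 139) (nat_lit 144) (nat_lit 107)) (PT.lf (nat_lit 10032) (nat_lit 6) (nat_lit 132) (nat_lit 2) (nat_lit 140) (nat_lit 144) (nat_lit 106)))) (PT.nd (nat_lit 156) (PT.nd (nat_lit 78) (PT.lf (nat_lit 9652) (nat_lit 6) (nat_lit 127) (nat_lit 2) (nat_lit 141) (nat_lit 144) (nat_lit 105)) (PT.lf (nat_lit 9196) (nat_lit 6) (nat_lit 121) (nat_lit 2) (nat_lit 142) (nat_lit 144) (nat_lit 104))) (PT.nd (nat_lit 78) (PT.lf (nat_lit 8816) (nat_lit 6) (nat_lit 116) (nat_lit 2) (nat_lit 143) (nat_lit 144) (nat_lit 103)) (PT.lf (nat_lit 8436) (nat_lit 3) (nat_lit 111) (nat_lit 0) (nat_lit 144) (nat_lit 144) (nat_lit 102))))))) (PT.nd (nat_lit 37128) (PT.nd (nat_lit 468) (PT.nd (nat_lit 234) (PT.nd (nat_lit 78) (PT.lf (nat_lit 8056) (nat_lit 6) (nat_lit 106) (nat_lit 0) (nat_lit 145) (nat_lit 144) (nat_lit 101)) (PT.nd (nat_lit 78) (PT.lf (nat_lit 7600)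 (nat_lit 6) (nat_lit 100) (nat_lit 0) (nat_lit 146) (nat_lit 144) (nat_lit 100)) (PT.lf (nat_lit 7220) (nat_lit 6) (nat_lit 95) (nat_lit 0) (nat_lit 147) (nat_lit 144) (nat_lit 99)))) (PT.nd (nat_lit 78) (PT.lf (nat_lit 6840) (nat_lit 6) (nat_lit 90) (nat_lit 0) (nat_lit 148) (nat_lit 144) (nat_lit 98)) (PT.nd (nat_lit 78) (PT.lf (nat_lit 6460) (nat_lit 6) (nat_lit 85) (nat_lit 0) (nat_lit 149) (nat_lit 144) (nat_lit 97)) (PT.lf (nat_lit 6080) (nat_lit 6) (nat_lit 80) (nat_lit 0) (nat_lit 150) (nat_lit 144) (nat_lit 96))))) (PT.nd (nat_lit 36348) (PT.nd (nat_lit 36192) (PT.lf (nat_lit 5776) (nat_lit 6) (nat_lit 76) (nat_lit 0) (nat_lit 151) (nat_lit 144) (nat_lit 95)) (PT.nd (nat_lit 78) (PT.lf (nat_lit 5472) (nat_lit 6) (nat_lit 72) (nat_lit 5) (nat_lit 94) (nat_lit 145) (nat_lit 151)) (PT.lf (nat_lit 5852) (nat_lit 6) (nat_lit 77) (nat_lit 5) (nat_lit 95) (nat_lit 145) (nat_lit 150)))) (PT.nd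 (nat_lit 156) (PT.nd (nat_lit 78) (PT.lf (nat_lit 6156) (nat_lit 6) (nat_lit 81) (nat_lit 5) (nat_lit 96) (nat_lit 145) (nat_lit 149)) (PT.lf (nat_lit 6536) (nat_lit 6) (nat_lit 86) (nat_lit 5) (nat_lit 97) (nat_lit 145) (nat_lit 148))) (PT.nd (nat_lit 78) (PT.lf (nat_lit 6916) (nat_lit 6) (nat_lit 91) (nat_lit 5) (nat_lit 98) (nat_lit 145) (nat_lit 147)) (PT.lf (nat_lit 7296) (nat_lit 6) (nat_lit 96) (nat_lit 5) (nat_lit 99) (nat_lit 145) (nat_lit 146)))))) (PT.nd (nat_lit 546) (PT.nd (nat_lit 234) (PT.nd (nat_lit 78) (PT.lf (nat_lit 7676) (nat_lit 3) (nat_lit 101) (nat_lit 4) (nat_lit 100) (nat_lit 145) (nat_lit 145)) (PT.nd (nat_lit 78) (PT.lf (nat_lit 8056) (nat_lit 6) (nat_lit 106) (nat_lit 4) (nat_lit 101) (nat_lit 145) (nat_lit 144)) (PT.lf (nat_lit 8360) (nat_lit 6) (nat_lit 110) (nat_lit 4) (nat_lit 102) (nat_lit 145) (nat_lit 143)))) (PT.nd (nat_lit 156) (PT.nd (nat_lit 78) (PT.lf (nat_lit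 8740) (nat_lit 6) (nat_lit 115) (nat_lit 4) (nat_lit 103) (nat_lit 145) (nat_lit 142)) (PT.lf (nat_lit 9120) (nat_lit 6) (nat_lit 120) (nat_lit 4) (nat_lit 104) (nat_lit 145) (nat_lit 141))) (PT.nd (nat_lit 78) (PT.lf (nat_lit 9576) (nat_lit 6) (nat_lit 126) (nat_lit 4) (nat_lit 105) (nat_lit 145) (nat_lit 140)) (PT.lf (nat_lit 9956) (nat_lit 6) (nat_lit 131) (nat_lit 4) (nat_lit 106) (nat_lit 145) (nat_lit 139))))) (PT.nd (nat_lit 234) (PT.nd (nat_lit 78) (PT.lf (nat_lit 10412) (nat_lit 6) (nat_lit 137) (nat_lit 4) (nat_lit 107) (nat_lit 145) (nat_lit 138)) (PT.nd (nat_lit 78) (PT.lf (nat_lit 10868) (nat_lit 6) (nat_lit 143) (nat_lit 4) (nat_lit 108) (nat_lit 145) (nat_lit 137)) (PT.lf (nat_lit 11400) (nat_lit 6) (nat_lit 150) (nat_lit 4) (nat_lit 109) (nat_lit 145) (nat_lit 136)))) (PT.nd (nat_lit 156) (PT.nd (nat_lit 78) (PT.lf (nat_lit 11856) (nat_lit 6) (nat_lit 156) (nat_lit 4) (nat_lit 110)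 (nat_lit 145) (nat_lit 135)) (PT.lf (nat_lit 12388) (nat_lit 6) (nat_lit 163) (nat_lit 4) (nat_lit 111) (nat_lit 145) (nat_lit 134))) (PT.nd (nat_lit 78) (PT.lf (nat_lit 12920) (nat_lit 6) (nat_lit 170) (nat_lit 4) (nat_lit 112) (nat_lit 145) (nat_lit 133)) (PT.lf (nat_lit 13528) (nat_lit 6) (nat_lit 178) (nat_lit 4) (nat_lit 113) (nat_lit 145) (nat_lit 132))))))))
noncomputable def pc25 : PT := (PT.nd (nat_lit 2106) (PT.nd (nat_lit 1014) (PT.nd (nat_lit 468) (PT.nd (nat_lit 234) (PT.nd (nat_lit 78) (PT.lf (nat_lit 14212) (nat_lit 6) (nat_lit 187) (nat_lit 4) (nat_lit 114) (nat_lit 145) (nat_lit 131)) (PT.nd (nat_lit 78) (PT.lf (nat_lit 15352) (nat_lit 6) (nat_lit 202) (nat_lit 4) (nat_lit 115) (nat_lit 145) (nat_lit 130)) (PT.lf (nat_lit 15276) (nat_lit 6) (nat_lit 201) (nat_lit 4) (nat_lit 116) (nat_lit 145) (nat_lit 129)))) (PT.nd (nat_lit 78) (PT.lf (nat_lit 15200) (nat_lit 6) (nat_lit 200)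 (nat_lit 4) (nat_lit 117) (nat_lit 145) (nat_lit 128)) (PT.nd (nat_lit 78) (PT.lf (nat_lit 15124) (nat_lit 6) (nat_lit 199) (nat_lit 4) (nat_lit 118) (nat_lit 145) (nat_lit 127)) (PT.lf (nat_lit 15048) (nat_lit 6) (nat_lit 198) (nat_lit 4) (nat_lit 119) (nat_lit 145) (nat_lit 126))))) (PT.nd (nat_lit 234) (PT.nd (nat_lit 78) (PT.lf (nat_lit 14972) (nat_lit 6) (nat_lit 197) (nat_lit 4) (nat_lit 120) (nat_lit 145) (nat_lit 125)) (PT.nd (nat_lit 78) (PT.lf (nat_lit 14896) (nat_lit 6) (nat_lit 196) (nat_lit 4) (nat_lit 121) (nat_lit 145) (nat_lit 124)) (PT.lf (nat_lit 14820) (nat_lit 6) (nat_lit 195) (nat_lit 4) (nat_lit 122) (nat_lit 145) (nat_lit 123)))) (PT.nd (nat_lit 156) (PT.nd (nat_lit 78) (PT.lf (nat_lit 14820) (nat_lit 6) (nat_lit 195) (nat_lit 2) (nat_lit 123) (nat_lit 145) (nat_lit 122)) (PT.lf (nat_lit 14896) (nat_lit 6) (nat_lit 196) (nat_lit 2) (nat_lit 124) (nat_lit 145) (nat_lit 121)))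 (PT.nd (nat_lit 78) (PT.lf (nat_lit 14972) (nat_lit 6) (nat_lit 197) (nat_lit 2) (nat_lit 125) (nat_lit 145) (nat_lit 120)) (PT.lf (nat_lit 15048) (nat_lit 6) (nat_lit 198) (nat_lit 2) (nat_lit 126) (nat_lit 145) (nat_lit 119)))))) (PT.nd (nat_lit 546) (PT.nd (nat_lit 234) (PT.nd (nat_lit 78) (PT.lf (nat_lit 15124) (nat_lit 6) (nat_lit 199) (nat_lit 2) (nat_lit 127) (nat_lit 145) (nat_lit 118)) (PT.nd (nat_lit 78) (PT.lf (nat_lit 15200) (nat_lit 6) (nat_lit 200) (nat_lit 2) (nat_lit 128) (nat_lit 145) (nat_lit 117)) (PT.lf (nat_lit 15276) (nat_lit 6) (nat_lit 201) (nat_lit 2) (nat_lit 129) (nat_lit 145) (nat_lit 116)))) (PT.nd (nat_lit 156) (PT.nd (nat_lit 78) (PT.lf (nat_lit 15352) (nat_lit 6) (nat_lit 202) (nat_lit 2) (nat_lit 130) (nat_lit 145) (nat_lit 115)) (PT.lf (nat_lit 14212) (nat_lit 6) (nat_lit 187) (nat_lit 2) (nat_lit 131) (nat_lit 145) (nat_lit 114))) (PT.nd (nat_lit 78) (PT.lf (nat_lit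 13528) (nat_lit 6) (nat_lit 178) (nat_lit 2) (nat_lit 132) (nat_lit 145) (nat_lit 113)) (PT.lf (nat_lit 12920) (nat_lit 6) (nat_lit 170) (nat_lit 2) (nat_lit 133) (nat_lit 145) (nat_lit 112))))) (PT.nd (nat_lit 234) (PT.nd (nat_lit 78) (PT.lf (nat_lit 12388) (nat_lit 6) (nat_lit 163) (nat_lit 2) (nat_lit 134) (nat_lit 145) (nat_lit 111)) (PT.nd (nat_lit 78) (PT.lf (nat_lit 11856) (nat_lit 6) (nat_lit 156) (nat_lit 2) (nat_lit 135) (nat_lit 145) (nat_lit 110)) (PT.lf (nat_lit 11400) (nat_lit 6) (nat_lit 150) (nat_lit 2) (nat_lit 136) (nat_lit 145) (nat_lit 109)))) (PT.nd (nat_lit 156) (PT.nd (nat_lit 78) (PT.lf (nat_lit 10868) (nat_lit 6) (nat_lit 143) (nat_lit 2) (nat_lit 137) (nat_lit 145) (nat_lit 108)) (PT.lf (nat_lit 10412) (nat_lit 6) (nat_lit 137) (nat_lit 2) (nat_lit 138) (nat_lit 145) (nat_lit 107))) (PT.nd (nat_lit 78) (PT.lf (nat_lit 9956) (nat_lit 6) (nat_lit 131) (nat_lit 2) (nat_lit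 139) (nat_lit 145) (nat_lit 106)) (PT.lf (nat_lit 9576) (nat_lit 6) (nat_lit 126) (nat_lit 2) (nat_lit 140) (nat_lit 145) (nat_lit 105))))))) (PT.nd (nat_lit 37050) (PT.nd (nat_lit 546) (PT.nd (nat_lit 234) (PT.nd (nat_lit 78) (PT.lf (nat_lit 9120) (nat_lit 6) (nat_lit 120) (nat_lit 2) (nat_lit 141) (nat_lit 145) (nat_lit 104)) (PT.nd (nat_lit 78) (PT.lf (nat_lit 8740) (nat_lit 6) (nat_lit 115) (nat_lit 2) (nat_lit 142) (nat_lit 145) (nat_lit 103)) (PT.lf (nat_lit 8360) (nat_lit 6) (nat_lit 110) (nat_lit 2) (nat_lit 143) (nat_lit 145) (nat_lit 102)))) (PT.nd (nat_lit 156) (PT.nd (nat_lit 78) (PT.lf (nat_lit 8056) (nat_lit 6) (nat_lit 106) (nat_lit 2) (nat_lit 144) (nat_lit 145) (nat_lit 101)) (PT.lf (nat_lit 7676) (nat_lit 3) (nat_lit 101) (nat_lit 0) (nat_lit 145) (nat_lit 145) (nat_lit 100))) (PT.nd (nat_lit 78) (PT.lf (nat_lit 7296) (nat_lit 6) (nat_lit 96) (nat_lit 0) (nat_lit 146) (nat_lit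 145) (nat_lit 99)) (PT.lf (nat_lit 6916) (nat_lit 6) (nat_lit 91) (nat_lit 0) (nat_lit 147) (nat_lit 145) (nat_lit 98))))) (PT.nd (nat_lit 234) (PT.nd (nat_lit 78) (PT.lf (nat_lit 6536) (nat_lit 6) (nat_lit 86) (nat_lit 0) (nat_lit 148) (nat_lit 145) (nat_lit 97)) (PT.nd (nat_lit 78) (PT.lf (nat_lit 6156) (nat_lit 6) (nat_lit 81) (nat_lit 0) (nat_lit 149) (nat_lit 145) (nat_lit 96)) (PT.lf (nat_lit 5852) (nat_lit 6) (nat_lit 77) (nat_lit 0) (nat_lit 150) (nat_lit 145) (nat_lit 95)))) (PT.nd (nat_lit 36114) (PT.nd (nat_lit 36036) (PT.lf (nat_lit 5472) (nat_lit 6) (nat_lit 72) (nat_lit 0) (nat_lit 151) (nat_lit 145) (nat_lit 94)) (PT.lf (nat_lit 4940) (nat_lit 6) (nat_lit 65) (nat_lit 5) (nat_lit 92) (nat_lit 146) (nat_lit 152))) (PT.nd (nat_lit 78) (PT.lf (nat_lit 5244) (nat_lit 6) (nat_lit 69) (nat_lit 5) (nat_lit 93) (nat_lit 146) (nat_lit 151)) (PT.lf (nat_lit 5548) (nat_lit 6) (nat_lit 73) (nat_lit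 5) (nat_lit 94) (nat_lit 146) (nat_lit 150)))))) (PT.nd (nat_lit 546) (PT.nd (nat_lit 234) (PT.nd (nat_lit 78) (PT.lf (nat_lit 5928) (nat_lit 6) (nat_lit 78) (nat_lit 5) (nat_lit 95) (nat_lit 146) (nat_lit 149)) (PT.nd (nat_lit 78) (PT.lf (nat_lit 6232) (nat_lit 6) (nat_lit 82) (nat_lit 5) (nat_lit 96) (nat_lit 146) (nat_lit 148)) (PT.lf (nat_lit 6612) (nat_lit 6) (nat_lit 87) (nat_lit 5) (nat_lit 97) (nat_lit 146) (nat_lit 147)))) (PT.nd (nat_lit 156) (PT.nd (nat_lit 78) (PT.lf (nat_lit 6992) (nat_lit 3) (nat_lit 92) (nat_lit 4) (nat_lit 98) (nat_lit 146) (nat_lit 146)) (PT.lf (nat_lit 7296) (nat_lit 6) (nat_lit 96) (nat_lit 4) (nat_lit 99) (nat_lit 146) (nat_lit 145))) (PT.nd (nat_lit 78) (PT.lf (nat_lit 7600) (nat_lit 6) (nat_lit 100) (nat_lit 4) (nat_lit 100) (nat_lit 146) (nat_lit 144)) (PT.lf (nat_lit 7980) (nat_lit 6) (nat_lit 105) (nat_lit 4) (nat_lit 101) (nat_lit 146) (nat_lit 143)))))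 (PT.nd (nat_lit 234) (PT.nd (nat_lit 78) (PT.lf (nat_lit 8284) (nat_lit 6) (nat_lit 109) (nat_lit 4) (nat_lit 102) (nat_lit 146) (nat_lit 142)) (PT.nd (nat_lit 78) (PT.lf (nat_lit 8664) (nat_lit 6) (nat_lit 114) (nat_lit 4) (nat_lit 103) (nat_lit 146) (nat_lit 141)) (PT.lf (nat_lit 9044) (nat_lit 6) (nat_lit 119) (nat_lit 4) (nat_lit 104) (nat_lit 146) (nat_lit 140)))) (PT.nd (nat_lit 156) (PT.nd (nat_lit 78) (PT.lf (nat_lit 9500) (nat_lit 6) (nat_lit 125) (nat_lit 4) (nat_lit 105) (nat_lit 146) (nat_lit 139)) (PT.lf (nat_lit 9880) (nat_lit 6) (nat_lit 130) (nat_lit 4) (nat_lit 106) (nat_lit 146) (nat_lit 138))) (PT.nd (nat_lit 78) (PT.lf (nat_lit 10336) (nat_lit 6) (nat_lit 136) (nat_lit 4) (nat_lit 107) (nat_lit 146) (nat_lit 137)) (PT.lf (nat_lit 10792) (nat_lit 6) (nat_lit 142) (nat_lit 4) (nat_lit 108) (nat_lit 146) (nat_lit 136))))))))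
noncomputable def pc26 : PT := (PT.nd (nat_lit 3120) (PT.nd (nat_lit 2028) (PT.nd (nat_lit 468) (PT.nd (nat_lit 234) (PT.nd (nat_lit 78) (PT.lf (nat_lit 11324) (nat_lit 6) (nat_lit 149) (nat_lit 4) (nat_lit 109) (nat_lit 146) (nat_lit 135)) (PT.nd (nat_lit 78) (PT.lf (nat_lit 11780) (nat_lit 6) (nat_lit 155) (nat_lit 4) (nat_lit 110) (nat_lit 146) (nat_lit 134)) (PT.lf (nat_lit 12312) (nat_lit 6) (nat_lit 162) (nat_lit 4) (nat_lit 111) (nat_lit 146) (nat_lit 133)))) (PT.nd (nat_lit 78) (PT.lf (nat_lit 12844) (nat_lit 6) (nat_lit 169) (nat_lit 4) (nat_lit 112) (nat_lit 146) (nat_lit 132)) (PT.nd (nat_lit 78) (PT.lf (nat_lit 13452) (nat_lit 6) (nat_lit 177) (nat_lit 4) (nat_lit 113) (nat_lit 146) (nat_lit 131)) (PT.lf (nat_lit 14136) (nat_lit 6) (nat_lit 186) (nat_lit 4) (nat_lit 114) (nat_lit 146) (nat_lit 130))))) (PT.nd (nat_lit 1248) (PT.nd (nat_lit 1092) (PT.lf (nat_lit 14060) (nat_lit 6) (nat_lit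 185) (nat_lit 4) (nat_lit 115) (nat_lit 146) (nat_lit 129)) (PT.nd (nat_lit 78) (PT.lf (nat_lit 14060) (nat_lit 6) (nat_lit 185) (nat_lit 2) (nat_lit 129) (nat_lit 146) (nat_lit 115)) (PT.lf (nat_lit 14136) (nat_lit 6) (nat_lit 186) (nat_lit 2) (nat_lit 130) (nat_lit 146) (nat_lit 114)))) (PT.nd (nat_lit 156) (PT.nd (nat_lit 78) (PT.lf (nat_lit 13452) (nat_lit 6) (nat_lit 177) (nat_lit 2) (nat_lit 131) (nat_lit 146) (nat_lit 113)) (PT.lf (nat_lit 12844) (nat_lit 6) (nat_lit 169) (nat_lit 2) (nat_lit 132) (nat_lit 146) (nat_lit 112))) (PT.nd (nat_lit 78) (PT.lf (nat_lit 12312) (nat_lit 6) (nat_lit 162) (nat_lit 2) (nat_lit 133) (nat_lit 146) (nat_lit 111)) (PT.lf (nat_lit 11780) (nat_lit 6) (nat_lit 155) (nat_lit 2) (nat_lit 134) (nat_lit 146) (nat_lit 110)))))) (PT.nd (nat_lit 546) (PT.nd (nat_lit 234) (PT.nd (nat_lit 78) (PT.lf (nat_lit 11324) (nat_lit 6) (nat_lit 149) (nat_lit 2) (nat_lit 135)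 (nat_lit 146) (nat_lit 109)) (PT.nd (nat_lit 78) (PT.lf (nat_lit 10792) (nat_lit 6) (nat_lit 142) (nat_lit 2) (nat_lit 136) (nat_lit 146) (nat_lit 108)) (PT.lf (nat_lit 10336) (nat_lit 6) (nat_lit 136) (nat_lit 2) (nat_lit 137) (nat_lit 146) (nat_lit 107)))) (PT.nd (nat_lit 156) (PT.nd (nat_lit 78) (PT.lf (nat_lit 9880) (nat_lit 6) (nat_lit 130) (nat_lit 2) (nat_lit 138) (nat_lit 146) (nat_lit 106)) (PT.lf (nat_lit 9500) (nat_lit 6) (nat_lit 125) (nat_lit 2) (nat_lit 139) (nat_lit 146) (nat_lit 105))) (PT.nd (nat_lit 78) (PT.lf (nat_lit 9044) (nat_lit 6) (nat_lit 119) (nat_lit 2) (nat_lit 140) (nat_lit 146) (nat_lit 104)) (PT.lf (nat_lit 8664) (nat_lit 6) (nat_lit 114) (nat_lit 2) (nat_lit 141) (nat_lit 146) (nat_lit 103))))) (PT.nd (nat_lit 234) (PT.nd (nat_lit 78) (PT.lf (nat_lit 8284) (nat_lit 6) (nat_lit 109) (nat_lit 2) (nat_lit 142) (nat_lit 146) (nat_lit 102)) (PT.nd (nat_lit 78) (PT.lf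 (nat_lit 7980) (nat_lit 6) (nat_lit 105) (nat_lit 2) (nat_lit 143) (nat_lit 146) (nat_lit 101)) (PT.lf (nat_lit 7600) (nat_lit 6) (nat_lit 100) (nat_lit 2) (nat_lit 144) (nat_lit 146) (nat_lit 100)))) (PT.nd (nat_lit 156) (PT.nd (nat_lit 78) (PT.lf (nat_lit 7296) (nat_lit 6) (nat_lit 96) (nat_lit 2) (nat_lit 145) (nat_lit 146) (nat_lit 99)) (PT.lf (nat_lit 6992) (nat_lit 3) (nat_lit 92) (nat_lit 0) (nat_lit 146) (nat_lit 146) (nat_lit 98))) (PT.nd (nat_lit 78) (PT.lf (nat_lit 6612) (nat_lit 6) (nat_lit 87) (nat_lit 0) (nat_lit 147) (nat_lit 146) (nat_lit 97)) (PT.lf (nat_lit 6232) (nat_lit 6) (nat_lit 82) (nat_lit 0) (nat_lit 148) (nat_lit 146) (nat_lit 96))))))) (PT.nd (nat_lit 36894) (PT.nd (nat_lit 36348) (PT.nd (nat_lit 234) (PT.nd (nat_lit 78) (PT.lf (nat_lit 5928) (nat_lit 6) (nat_lit 78) (nat_lit 0) (nat_lit 149) (nat_lit 146) (nat_lit 95)) (PT.nd (nat_lit 78) (PT.lf (nat_lit 5548) (nat_lit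 6) (nat_lit 73) (nat_lit 0) (nat_lit 150) (nat_lit 146) (nat_lit 94)) (PT.lf (nat_lit 5244) (nat_lit 6) (nat_lit 69) (nat_lit 0) (nat_lit 151) (nat_lit 146) (nat_lit 93)))) (PT.nd (nat_lit 35958) (PT.nd (nat_lit 35880) (PT.lf (nat_lit 4940) (nat_lit 6) (nat_lit 65) (nat_lit 0) (nat_lit 152) (nat_lit 146) (nat_lit 92)) (PT.lf (nat_lit 4712) (nat_lit 6) (nat_lit 62) (nat_lit 5) (nat_lit 91) (nat_lit 147) (nat_lit 152))) (PT.nd (nat_lit 78) (PT.lf (nat_lit 5016) (nat_lit 6) (nat_lit 66) (nat_lit 5) (nat_lit 92) (nat_lit 147) (nat_lit 151)) (PT.lf (nat_lit 5320) (nat_lit 6) (nat_lit 70) (nat_lit 5) (nat_lit 93) (nat_lit 147) (nat_lit 150))))) (PT.nd (nat_lit 234) (PT.nd (nat_lit 78) (PT.lf (nat_lit 5624) (nat_lit 6) (nat_lit 74) (nat_lit 5) (nat_lit 94) (nat_lit 147) (nat_lit 149)) (PT.nd (nat_lit 78) (PT.lf (nat_lit 6004) (nat_lit 6) (nat_lit 79) (nat_lit 5) (nat_lit 95) (nat_lit 147) (nat_lit 148))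 (PT.lf (nat_lit 6308) (nat_lit 3) (nat_lit 83) (nat_lit 4) (nat_lit 96) (nat_lit 147) (nat_lit 147)))) (PT.nd (nat_lit 156) (PT.nd (nat_lit 78) (PT.lf (nat_lit 6612) (nat_lit 6) (nat_lit 87) (nat_lit 4) (nat_lit 97) (nat_lit 147) (nat_lit 146)) (PT.lf (nat_lit 6916) (nat_lit 6) (nat_lit 91) (nat_lit 4) (nat_lit 98) (nat_lit 147) (nat_lit 145))) (PT.nd (nat_lit 78) (PT.lf (nat_lit 7220) (nat_lit 6) (nat_lit 95) (nat_lit 4) (nat_lit 99) (nat_lit 147) (nat_lit 144)) (PT.lf (nat_lit 7524) (nat_lit 6) (nat_lit 99) (nat_lit 4) (nat_lit 100) (nat_lit 147) (nat_lit 143)))))) (PT.nd (nat_lit 546) (PT.nd (nat_lit 234) (PT.nd (nat_lit 78) (PT.lf (nat_lit 7904) (nat_lit 6) (nat_lit 104) (nat_lit 4) (nat_lit 101) (nat_lit 147) (nat_lit 142)) (PT.nd (nat_lit 78) (PT.lf (nat_lit 8208) (nat_lit 6) (nat_lit 108) (nat_lit 4) (nat_lit 102) (nat_lit 147) (nat_lit 141)) (PT.lf (nat_lit 8588) (nat_lit 6) (nat_lit 113)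 (nat_lit 4) (nat_lit 103) (nat_lit 147) (nat_lit 140)))) (PT.nd (nat_lit 156) (PT.nd (nat_lit 78) (PT.lf (nat_lit 8968) (nat_lit 6) (nat_lit 118) (nat_lit 4) (nat_lit 104) (nat_lit 147) (nat_lit 139)) (PT.lf (nat_lit 9424) (nat_lit 6) (nat_lit 124) (nat_lit 4) (nat_lit 105) (nat_lit 147) (nat_lit 138))) (PT.nd (nat_lit 78) (PT.lf (nat_lit 9804) (nat_lit 6) (nat_lit 129) (nat_lit 4) (nat_lit 106) (nat_lit 147) (nat_lit 137)) (PT.lf (nat_lit 10260) (nat_lit 6) (nat_lit 135) (nat_lit 4) (nat_lit 107) (nat_lit 147) (nat_lit 136))))) (PT.nd (nat_lit 2106) (PT.nd (nat_lit 78) (PT.lf (nat_lit 10716) (nat_lit 6) (nat_lit 141) (nat_lit 4) (nat_lit 108) (nat_lit 147) (nat_lit 135)) (PT.nd (nat_lit 1950) (PT.lf (nat_lit 11248) (nat_lit 6) (nat_lit 148) (nat_lit 4) (nat_lit 109) (nat_lit 147) (nat_lit 134)) (PT.lf (nat_lit 11248) (nat_lit 6) (nat_lit 148) (nat_lit 2) (nat_lit 134) (nat_lit 147) (nat_lit 109))))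 (PT.nd (nat_lit 156) (PT.nd (nat_lit 78) (PT.lf (nat_lit 10716) (nat_lit 6) (nat_lit 141) (nat_lit 2) (nat_lit 135) (nat_lit 147) (nat_lit 108)) (PT.lf (nat_lit 10260) (nat_lit 6) (nat_lit 135) (nat_lit 2) (nat_lit 136) (nat_lit 147) (nat_lit 107))) (PT.nd (nat_lit 78) (PT.lf (nat_lit 9804) (nat_lit 6) (nat_lit 129) (nat_lit 2) (nat_lit 137) (nat_lit 147) (nat_lit 106)) (PT.lf (nat_lit 9424) (nat_lit 6) (nat_lit 124) (nat_lit 2) (nat_lit 138) (nat_lit 147) (nat_lit 105))))))))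
noncomputable def pc27 : PT := (PT.nd (nat_lit 37752) (PT.nd (nat_lit 1014) (PT.nd (nat_lit 468) (PT.nd (nat_lit 234) (PT.nd (nat_lit 78) (PT.lf (nat_lit 8968) (nat_lit 6) (nat_lit 118) (nat_lit 2) (nat_lit 139) (nat_lit 147) (nat_lit 104)) (PT.nd (nat_lit 78) (PT.lf (nat_lit 8588) (nat_lit 6) (nat_lit 113) (nat_lit 2) (nat_lit 140) (nat_lit 147) (nat_lit 103)) (PT.lf (nat_lit 8208) (nat_lit 6) (nat_lit 108) (nat_lit 2) (nat_lit 141) (nat_lit 147) (nat_lit 102)))) (PT.nd (nat_lit 78) (PT.lf (nat_lit 7904) (nat_lit 6) (nat_lit 104) (nat_lit 2) (nat_lit 142) (nat_lit 147) (nat_lit 101)) (PT.nd (nat_lit 78) (PT.lf (nat_lit 7524) (nat_lit 6) (nat_lit 99) (nat_lit 2) (nat_lit 143) (nat_lit 147) (nat_lit 100)) (PT.lf (nat_lit 7220) (nat_lit 6) (nat_lit 95) (nat_lit 2) (nat_lit 144) (nat_lit 147) (nat_lit 99))))) (PT.nd (nat_lit 234) (PT.nd (nat_lit 78) (PT.lf (nat_lit 6916) (nat_lit 6) (nat_lit 91) (nat_lit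 2) (nat_lit 145) (nat_lit 147) (nat_lit 98)) (PT.nd (nat_lit 78) (PT.lf (nat_lit 6612) (nat_lit 6) (nat_lit 87) (nat_lit 2) (nat_lit 146) (nat_lit 147) (nat_lit 97)) (PT.lf (nat_lit 6308) (nat_lit 3) (nat_lit 83) (nat_lit 0) (nat_lit 147) (nat_lit 147) (nat_lit 96)))) (PT.nd (nat_lit 156) (PT.nd (nat_lit 78) (PT.lf (nat_lit 6004) (nat_lit 6) (nat_lit 79) (nat_lit 0) (nat_lit 148) (nat_lit 147) (nat_lit 95)) (PT.lf (nat_lit 5624) (nat_lit 6) (nat_lit 74) (nat_lit 0) (nat_lit 149) (nat_lit 147) (nat_lit 94))) (PT.nd (nat_lit 78) (PT.lf (nat_lit 5320) (nat_lit 6) (nat_lit 70) (nat_lit 0) (nat_lit 150) (nat_lit 147) (nat_lit 93)) (PT.lf (nat_lit 5016) (nat_lit 6) (nat_lit 66) (nat_lit 0) (nat_lit 151) (nat_lit 147) (nat_lit 92)))))) (PT.nd (nat_lit 36192) (PT.nd (nat_lit 35880) (PT.nd (nat_lit 35724) (PT.lf (nat_lit 4712) (nat_lit 6) (nat_lit 62) (nat_lit 0) (nat_lit 152) (nat_lit 147) (nat_lit 91))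 (PT.nd (nat_lit 78) (PT.lf (nat_lit 4256) (nat_lit 6) (nat_lit 56) (nat_lit 5) (nat_lit 89) (nat_lit 148) (nat_lit 153)) (PT.lf (nat_lit 4484) (nat_lit 6) (nat_lit 59) (nat_lit 5) (nat_lit 90) (nat_lit 148) (nat_lit 152)))) (PT.nd (nat_lit 156) (PT.nd (nat_lit 78) (PT.lf (nat_lit 4788) (nat_lit 6) (nat_lit 63) (nat_lit 5) (nat_lit 91) (nat_lit 148) (nat_lit 151)) (PT.lf (nat_lit 5092) (nat_lit 6) (nat_lit 67) (nat_lit 5) (nat_lit 92) (nat_lit 148) (nat_lit 150))) (PT.nd (nat_lit 78) (PT.lf (nat_lit 5396) (nat_lit 6) (nat_lit 71) (nat_lit 5) (nat_lit 93) (nat_lit 148) (nat_lit 149)) (PT.lf (nat_lit 5700) (nat_lit 3) (nat_lit 75) (nat_lit 4) (nat_lit 94) (nat_lit 148) (nat_lit 148))))) (PT.nd (nat_lit 234) (PT.nd (nat_lit 78) (PT.lf (nat_lit 6004) (nat_lit 6) (nat_lit 79) (nat_lit 4) (nat_lit 95) (nat_lit 148) (nat_lit 147)) (PT.nd (nat_lit 78) (PT.lf (nat_lit 6232) (nat_lit 6) (nat_lit 82) (nat_lit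 4) (nat_lit 96) (nat_lit 148) (nat_lit 146)) (PT.lf (nat_lit 6536) (nat_lit 6) (nat_lit 86) (nat_lit 4) (nat_lit 97) (nat_lit 148) (nat_lit 145)))) (PT.nd (nat_lit 156) (PT.nd (nat_lit 78) (PT.lf (nat_lit 6840) (nat_lit 6) (nat_lit 90) (nat_lit 4) (nat_lit 98) (nat_lit 148) (nat_lit 144)) (PT.lf (nat_lit 7144) (nat_lit 6) (nat_lit 94) (nat_lit 4) (nat_lit 99) (nat_lit 148) (nat_lit 143))) (PT.nd (nat_lit 78) (PT.lf (nat_lit 7448) (nat_lit 6) (nat_lit 98) (nat_lit 4) (nat_lit 100) (nat_lit 148) (nat_lit 142)) (PT.lf (nat_lit 7828) (nat_lit 6) (nat_lit 103) (nat_lit 4) (nat_lit 101) (nat_lit 148) (nat_lit 141))))))) (PT.nd (nat_lit 3510) (PT.nd (nat_lit 2964) (PT.nd (nat_lit 234) (PT.nd (nat_lit 78) (PT.lf (nat_lit 8132) (nat_lit 6) (nat_lit 107) (nat_lit 4) (nat_lit 102) (nat_lit 148) (nat_lit 140)) (PT.nd (nat_lit 78) (PT.lf (nat_lit 8512) (nat_lit 6) (nat_lit 112) (nat_lit 4) (nat_lit 103) (nat_lit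 148) (nat_lit 139)) (PT.lf (nat_lit 8892) (nat_lit 6) (nat_lit 117) (nat_lit 4) (nat_lit 104) (nat_lit 148) (nat_lit 138)))) (PT.nd (nat_lit 2574) (PT.nd (nat_lit 2496) (PT.lf (nat_lit 9348) (nat_lit 6) (nat_lit 123) (nat_lit 4) (nat_lit 105) (nat_lit 148) (nat_lit 137)) (PT.lf (nat_lit 9348) (nat_lit 6) (nat_lit 123) (nat_lit 2) (nat_lit 137) (nat_lit 148) (nat_lit 105))) (PT.nd (nat_lit 78) (PT.lf (nat_lit 8892) (nat_lit 6) (nat_lit 117) (nat_lit 2) (nat_lit 138) (nat_lit 148) (nat_lit 104)) (PT.lf (nat_lit 8512) (nat_lit 6) (nat_lit 112) (nat_lit 2) (nat_lit 139) (nat_lit 148) (nat_lit 103))))) (PT.nd (nat_lit 234) (PT.nd (nat_lit 78) (PT.lf (nat_lit 8132) (nat_lit 6) (nat_lit 107) (nat_lit 2) (nat_lit 140) (nat_lit 148) (nat_lit 102)) (PT.nd (nat_lit 78) (PT.lf (nat_lit 7828) (nat_lit 6) (nat_lit 103) (nat_lit 2) (nat_lit 141) (nat_lit 148) (nat_lit 101)) (PT.lf (nat_lit 7448) (nat_lit 6) (nat_lit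 98) (nat_lit 2) (nat_lit 142) (nat_lit 148) (nat_lit 100)))) (PT.nd (nat_lit 156) (PT.nd (nat_lit 78) (PT.lf (nat_lit 7144) (nat_lit 6) (nat_lit 94) (nat_lit 2) (nat_lit 143) (nat_lit 148) (nat_lit 99)) (PT.lf (nat_lit 6840) (nat_lit 6) (nat_lit 90) (nat_lit 2) (nat_lit 144) (nat_lit 148) (nat_lit 98))) (PT.nd (nat_lit 78) (PT.lf (nat_lit 6536) (nat_lit 6) (nat_lit 86) (nat_lit 2) (nat_lit 145) (nat_lit 148) (nat_lit 97)) (PT.lf (nat_lit 6232) (nat_lit 6) (nat_lit 82) (nat_lit 2) (nat_lit 146) (nat_lit 148) (nat_lit 96)))))) (PT.nd (nat_lit 35958) (PT.nd (nat_lit 234) (PT.nd (nat_lit 78) (PT.lf (nat_lit 6004) (nat_lit 6) (nat_lit 79) (nat_lit 2) (nat_lit 147) (nat_lit 148) (nat_lit 95)) (PT.nd (nat_lit 78) (PT.lf (nat_lit 5700) (nat_lit 3) (nat_lit 75) (nat_lit 0) (nat_lit 148) (nat_lit 148) (nat_lit 94)) (PT.lf (nat_lit 5396) (nat_lit 6) (nat_lit 71) (nat_lit 0) (nat_lit 149) (nat_lit 148) (nat_lit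 93)))) (PT.nd (nat_lit 156) (PT.nd (nat_lit 78) (PT.lf (nat_lit 5092) (nat_lit 6) (nat_lit 67) (nat_lit 0) (nat_lit 150) (nat_lit 148) (nat_lit 92)) (PT.lf (nat_lit 4788) (nat_lit 6) (nat_lit 63) (nat_lit 0) (nat_lit 151) (nat_lit 148) (nat_lit 91))) (PT.nd (nat_lit 78) (PT.lf (nat_lit 4484) (nat_lit 6) (nat_lit 59) (nat_lit 0) (nat_lit 152) (nat_lit 148) (nat_lit 90)) (PT.lf (nat_lit 4256) (nat_lit 6) (nat_lit 56) (nat_lit 0) (nat_lit 153) (nat_lit 148) (nat_lit 89))))) (PT.nd (nat_lit 234) (PT.nd (nat_lit 78) (PT.lf (nat_lit 3800) (nat_lit 6) (nat_lit 50) (nat_lit 5) (nat_lit 87) (nat_lit 149) (nat_lit 154)) (PT.nd (nat_lit 78) (PT.lf (nat_lit 4028) (nat_lit 6) (nat_lit 53) (nat_lit 5) (nat_lit 88) (nat_lit 149) (nat_lit 153)) (PT.lf (nat_lit 4332) (nat_lit 6) (nat_lit 57) (nat_lit 5) (nat_lit 89) (nat_lit 149) (nat_lit 152)))) (PT.nd (nat_lit 156) (PT.nd (nat_lit 78) (PT.lf (nat_lit 4560) (nat_lit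 6) (nat_lit 60) (nat_lit 5) (nat_lit 90) (nat_lit 149) (nat_lit 151)) (PT.lf (nat_lit 4864) (nat_lit 6) (nat_lit 64) (nat_lit 5) (nat_lit 91) (nat_lit 149) (nat_lit 150))) (PT.nd (nat_lit 78) (PT.lf (nat_lit 5168) (nat_lit 3) (nat_lit 68) (nat_lit 4) (nat_lit 92) (nat_lit 149) (nat_lit 149)) (PT.lf (nat_lit 5396) (nat_lit 6) (nat_lit 71) (nat_lit 4) (nat_lit 93) (nat_lit 149) (nat_lit 148))))))))
noncomputable def pc28 : PT := (PT.nd (nat_lit 40326) (PT.nd (nat_lit 3978) (PT.nd (nat_lit 468) (PT.nd (nat_lit 234) (PT.nd (nat_lit 78) (PT.lf (nat_lit 5624) (nat_lit 6) (nat_lit 74) (nat_lit 4) (nat_lit 94) (nat_lit 149) (nat_lit 147)) (PT.nd (nat_lit 78) (PT.lf (nat_lit 5928) (nat_lit 6) (nat_lit 78) (nat_lit 4) (nat_lit 95) (nat_lit 149) (nat_lit 146)) (PT.lf (nat_lit 6156) (nat_lit 6) (nat_lit 81) (nat_lit 4) (nat_lit 96) (nat_lit 149) (nat_lit 145)))) (PT.nd (nat_lit 78) (PT.lf (nat_lit 6460) (nat_lit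 6) (nat_lit 85) (nat_lit 4) (nat_lit 97) (nat_lit 149) (nat_lit 144)) (PT.nd (nat_lit 78) (PT.lf (nat_lit 6764) (nat_lit 6) (nat_lit 89) (nat_lit 4) (nat_lit 98) (nat_lit 149) (nat_lit 143)) (PT.lf (nat_lit 7068) (nat_lit 6) (nat_lit 93) (nat_lit 4) (nat_lit 99) (nat_lit 149) (nat_lit 142))))) (PT.nd (nat_lit 3198) (PT.nd (nat_lit 78) (PT.lf (nat_lit 7372) (nat_lit 6) (nat_lit 97) (nat_lit 4) (nat_lit 100) (nat_lit 149) (nat_lit 141)) (PT.nd (nat_lit 3042) (PT.lf (nat_lit 7752) (nat_lit 6) (nat_lit 102) (nat_lit 4) (nat_lit 101) (nat_lit 149) (nat_lit 140)) (PT.lf (nat_lit 7752) (nat_lit 6) (nat_lit 102) (nat_lit 2) (nat_lit 140) (nat_lit 149) (nat_lit 101)))) (PT.nd (nat_lit 156) (PT.nd (nat_lit 78) (PT.lf (nat_lit 7372) (nat_lit 6) (nat_lit 97) (nat_lit 2) (nat_lit 141) (nat_lit 149) (nat_lit 100)) (PT.lf (nat_lit 7068) (nat_lit 6) (nat_lit 93) (nat_lit 2) (nat_lit 142) (nat_lit 149) (nat_lit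 99))) (PT.nd (nat_lit 78) (PT.lf (nat_lit 6764) (nat_lit 6) (nat_lit 89) (nat_lit 2) (nat_lit 143) (nat_lit 149) (nat_lit 98)) (PT.lf (nat_lit 6460) (nat_lit 6) (nat_lit 85) (nat_lit 2) (nat_lit 144) (nat_lit 149) (nat_lit 97)))))) (PT.nd (nat_lit 546) (PT.nd (nat_lit 234) (PT.nd (nat_lit 78) (PT.lf (nat_lit 6156) (nat_lit 6) (nat_lit 81) (nat_lit 2) (nat_lit 145) (nat_lit 149) (nat_lit 96)) (PT.nd (nat_lit 78) (PT.lf (nat_lit 5928) (nat_lit 6) (nat_lit 78) (nat_lit 2) (nat_lit 146) (nat_lit 149) (nat_lit 95)) (PT.lf (nat_lit 5624) (nat_lit 6) (nat_lit 74) (nat_lit 2) (nat_lit 147) (nat_lit 149) (nat_lit 94)))) (PT.nd (nat_lit 156) (PT.nd (nat_lit 78) (PT.lf (nat_lit 5396) (nat_lit 6) (nat_lit 71) (nat_lit 2) (nat_lit 148) (nat_lit 149) (nat_lit 93)) (PT.lf (nat_lit 5168) (nat_lit 3) (nat_lit 68) (nat_lit 0) (nat_lit 149) (nat_lit 149) (nat_lit 92))) (PT.nd (nat_lit 78) (PT.lf (nat_lit 4864) (nat_lit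 6) (nat_lit 64) (nat_lit 0) (nat_lit 150) (nat_lit 149) (nat_lit 91)) (PT.lf (nat_lit 4560) (nat_lit 6) (nat_lit 60) (nat_lit 0) (nat_lit 151) (nat_lit 149) (nat_lit 90))))) (PT.nd (nat_lit 35490) (PT.nd (nat_lit 78) (PT.lf (nat_lit 4332) (nat_lit 6) (nat_lit 57) (nat_lit 0) (nat_lit 152) (nat_lit 149) (nat_lit 89)) (PT.nd (nat_lit 78) (PT.lf (nat_lit 4028) (nat_lit 6) (nat_lit 53) (nat_lit 0) (nat_lit 153) (nat_lit 149) (nat_lit 88)) (PT.lf (nat_lit 3800) (nat_lit 6) (nat_lit 50) (nat_lit 0) (nat_lit 154) (nat_lit 149) (nat_lit 87)))) (PT.nd (nat_lit 156) (PT.nd (nat_lit 78) (PT.lf (nat_lit 3572) (nat_lit 6) (nat_lit 47) (nat_lit 5) (nat_lit 86) (nat_lit 150) (nat_lit 154)) (PT.lf (nat_lit 3876) (nat_lit 6) (nat_lit 51) (nat_lit 5) (nat_lit 87) (nat_lit 150) (nat_lit 153))) (PT.nd (nat_lit 78) (PT.lf (nat_lit 4104) (nat_lit 6) (nat_lit 54) (nat_lit 5) (nat_lit 88) (nat_lit 150) (nat_lit 152))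 (PT.lf (nat_lit 4408) (nat_lit 6) (nat_lit 58) (nat_lit 5) (nat_lit 89) (nat_lit 150) (nat_lit 151))))))) (PT.nd (nat_lit 4368) (PT.nd (nat_lit 468) (PT.nd (nat_lit 234) (PT.nd (nat_lit 78) (PT.lf (nat_lit 4636) (nat_lit 3) (nat_lit 61) (nat_lit 4) (nat_lit 90) (nat_lit 150) (nat_lit 150)) (PT.nd (nat_lit 78) (PT.lf (nat_lit 4864) (nat_lit 6) (nat_lit 64) (nat_lit 4) (nat_lit 91) (nat_lit 150) (nat_lit 149)) (PT.lf (nat_lit 5092) (nat_lit 6) (nat_lit 67) (nat_lit 4) (nat_lit 92) (nat_lit 150) (nat_lit 148)))) (PT.nd (nat_lit 78) (PT.lf (nat_lit 5320) (nat_lit 6) (nat_lit 70) (nat_lit 4) (nat_lit 93) (nat_lit 150) (nat_lit 147)) (PT.nd (nat_lit 78) (PT.lf (nat_lit 5548) (nat_lit 6) (nat_lit 73) (nat_lit 4) (nat_lit 94) (nat_lit 150) (nat_lit 146)) (PT.lf (nat_lit 5852) (nat_lit 6) (nat_lit 77) (nat_lit 4) (nat_lit 95) (nat_lit 150) (nat_lit 145))))) (PT.nd (nat_lit 3588) (PT.nd (nat_lit 78) (PT.lf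 (nat_lit 6080) (nat_lit 6) (nat_lit 80) (nat_lit 4) (nat_lit 96) (nat_lit 150) (nat_lit 144)) (PT.nd (nat_lit 78) (PT.lf (nat_lit 6384) (nat_lit 6) (nat_lit 84) (nat_lit 4) (nat_lit 97) (nat_lit 150) (nat_lit 143)) (PT.lf (nat_lit 6688) (nat_lit 6) (nat_lit 88) (nat_lit 4) (nat_lit 98) (nat_lit 150) (nat_lit 142)))) (PT.nd (nat_lit 156) (PT.nd (nat_lit 78) (PT.lf (nat_lit 6688) (nat_lit 6) (nat_lit 88) (nat_lit 2) (nat_lit 142) (nat_lit 150) (nat_lit 98)) (PT.lf (nat_lit 6384) (nat_lit 6) (nat_lit 84) (nat_lit 2) (nat_lit 143) (nat_lit 150) (nat_lit 97))) (PT.nd (nat_lit 78) (PT.lf (nat_lit 6080) (nat_lit 6) (nat_lit 80) (nat_lit 2) (nat_lit 144) (nat_lit 150) (nat_lit 96)) (PT.lf (nat_lit 5852) (nat_lit 6) (nat_lit 77) (nat_lit 2) (nat_lit 145) (nat_lit 150) (nat_lit 95)))))) (PT.nd (nat_lit 546) (PT.nd (nat_lit 234) (PT.nd (nat_lit 78) (PT.lf (nat_lit 5548) (nat_lit 6) (nat_lit 73) (nat_lit 2)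 (nat_lit 146) (nat_lit 150) (nat_lit 94)) (PT.nd (nat_lit 78) (PT.lf (nat_lit 5320) (nat_lit 6) (nat_lit 70) (nat_lit 2) (nat_lit 147) (nat_lit 150) (nat_lit 93)) (PT.lf (nat_lit 5092) (nat_lit 6) (nat_lit 67) (nat_lit 2) (nat_lit 148) (nat_lit 150) (nat_lit 92)))) (PT.nd (nat_lit 156) (PT.nd (nat_lit 78) (PT.lf (nat_lit 4864) (nat_lit 6) (nat_lit 64) (nat_lit 2) (nat_lit 149) (nat_lit 150) (nat_lit 91)) (PT.lf (nat_lit 4636) (nat_lit 3) (nat_lit 61) (nat_lit 0) (nat_lit 150) (nat_lit 150) (nat_lit 90))) (PT.nd (nat_lit 78) (PT.lf (nat_lit 4408) (nat_lit 6) (nat_lit 58) (nat_lit 0) (nat_lit 151) (nat_lit 150) (nat_lit 89)) (PT.lf (nat_lit 4104) (nat_lit 6) (nat_lit 54) (nat_lit 0) (nat_lit 152) (nat_lit 150) (nat_lit 88))))) (PT.nd (nat_lit 35334) (PT.nd (nat_lit 78) (PT.lf (nat_lit 3876) (nat_lit 6) (nat_lit 51) (nat_lit 0) (nat_lit 153) (nat_lit 150) (nat_lit 87)) (PT.nd (nat_lit 35178) (PT.lf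 (nat_lit 3572) (nat_lit 6) (nat_lit 47) (nat_lit 0) (nat_lit 154) (nat_lit 150) (nat_lit 86)) (PT.lf (nat_lit 3192) (nat_lit 6) (nat_lit 42) (nat_lit 5) (nat_lit 84) (nat_lit 151) (nat_lit 155)))) (PT.nd (nat_lit 156) (PT.nd (nat_lit 78) (PT.lf (nat_lit 3420) (nat_lit 6) (nat_lit 45) (nat_lit 5) (nat_lit 85) (nat_lit 151) (nat_lit 154)) (PT.lf (nat_lit 3648) (nat_lit 6) (nat_lit 48) (nat_lit 5) (nat_lit 86) (nat_lit 151) (nat_lit 153))) (PT.nd (nat_lit 78) (PT.lf (nat_lit 3952) (nat_lit 6) (nat_lit 52) (nat_lit 5) (nat_lit 87) (nat_lit 151) (nat_lit 152)) (PT.lf (nat_lit 4180) (nat_lit 3) (nat_lit 55) (nat_lit 4) (nat_lit 88) (nat_lit 151) (nat_lit 151))))))))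
noncomputable def pc29 : PT := (PT.nd (nat_lit 40716) (PT.nd (nat_lit 4758) (PT.nd (nat_lit 468) (PT.nd (nat_lit 234) (PT.nd (nat_lit 78) (PT.lf (nat_lit 4408) (nat_lit 6) (nat_lit 58) (nat_lit 4) (nat_lit 89) (nat_lit 151) (nat_lit 150)) (PT.nd (nat_lit 78) (PT.lf (nat_lit 4560) (nat_lit 6) (nat_lit 60) (nat_lit 4) (nat_lit 90) (nat_lit 151) (nat_lit 149)) (PT.lf (nat_lit 4788) (nat_lit 6) (nat_lit 63) (nat_lit 4) (nat_lit 91) (nat_lit 151) (nat_lit 148)))) (PT.nd (nat_lit 78) (PT.lf (nat_lit 5016) (nat_lit 6) (nat_lit 66) (nat_lit 4) (nat_lit 92) (nat_lit 151) (nat_lit 147)) (PT.nd (nat_lit 78) (PT.lf (nat_lit 5244) (nat_lit 6) (nat_lit 69) (nat_lit 4) (nat_lit 93) (nat_lit 151) (nat_lit 146)) (PT.lf (nat_lit 5472) (nat_lit 6) (nat_lit 72) (nat_lit 4) (nat_lit 94) (nat_lit 151) (nat_lit 145))))) (PT.nd (nat_lit 3978) (PT.nd (nat_lit 3822) (PT.lf (nat_lit 5776) (nat_lit 6) (nat_lit 76) (nat_lit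 4) (nat_lit 95) (nat_lit 151) (nat_lit 144)) (PT.nd (nat_lit 78) (PT.lf (nat_lit 5776) (nat_lit 6) (nat_lit 76) (nat_lit 2) (nat_lit 144) (nat_lit 151) (nat_lit 95)) (PT.lf (nat_lit 5472) (nat_lit 6) (nat_lit 72) (nat_lit 2) (nat_lit 145) (nat_lit 151) (nat_lit 94)))) (PT.nd (nat_lit 156) (PT.nd (nat_lit 78) (PT.lf (nat_lit 5244) (nat_lit 6) (nat_lit 69) (nat_lit 2) (nat_lit 146) (nat_lit 151) (nat_lit 93)) (PT.lf (nat_lit 5016) (nat_lit 6) (nat_lit 66) (nat_lit 2) (nat_lit 147) (nat_lit 151) (nat_lit 92))) (PT.nd (nat_lit 78) (PT.lf (nat_lit 4788) (nat_lit 6) (nat_lit 63) (nat_lit 2) (nat_lit 148) (nat_lit 151) (nat_lit 91)) (PT.lf (nat_lit 4560) (nat_lit 6) (nat_lit 60) (nat_lit 2) (nat_lit 149) (nat_lit 151) (nat_lit 90)))))) (PT.nd (nat_lit 35412) (PT.nd (nat_lit 234) (PT.nd (nat_lit 78) (PT.lf (nat_lit 4408) (nat_lit 6) (nat_lit 58) (nat_lit 2) (nat_lit 150) (nat_lit 151) (nat_lit 89)) (PT.nd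 (nat_lit 78) (PT.lf (nat_lit 4180) (nat_lit 3) (nat_lit 55) (nat_lit 0) (nat_lit 151) (nat_lit 151) (nat_lit 88)) (PT.lf (nat_lit 3952) (nat_lit 6) (nat_lit 52) (nat_lit 0) (nat_lit 152) (nat_lit 151) (nat_lit 87)))) (PT.nd (nat_lit 156) (PT.nd (nat_lit 78) (PT.lf (nat_lit 3648) (nat_lit 6) (nat_lit 48) (nat_lit 0) (nat_lit 153) (nat_lit 151) (nat_lit 86)) (PT.lf (nat_lit 3420) (nat_lit 6) (nat_lit 45) (nat_lit 0) (nat_lit 154) (nat_lit 151) (nat_lit 85))) (PT.nd (nat_lit 34944) (PT.lf (nat_lit 3192) (nat_lit 6) (nat_lit 42) (nat_lit 0) (nat_lit 155) (nat_lit 151) (nat_lit 84)) (PT.lf (nat_lit 2812) (nat_lit 6) (nat_lit 37) (nat_lit 5) (nat_lit 82) (nat_lit 152) (nat_lit 156))))) (PT.nd (nat_lit 234) (PT.nd (nat_lit 78) (PT.lf (nat_lit 3040) (nat_lit 6) (nat_lit 40) (nat_lit 5) (nat_lit 83) (nat_lit 152) (nat_lit 155)) (PT.nd (nat_lit 78) (PT.lf (nat_lit 3268) (nat_lit 6) (nat_lit 43) (nat_lit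 5) (nat_lit 84) (nat_lit 152) (nat_lit 154)) (PT.lf (nat_lit 3496) (nat_lit 6) (nat_lit 46) (nat_lit 5) (nat_lit 85) (nat_lit 152) (nat_lit 153)))) (PT.nd (nat_lit 156) (PT.nd (nat_lit 78) (PT.lf (nat_lit 3724) (nat_lit 3) (nat_lit 49) (nat_lit 4) (nat_lit 86) (nat_lit 152) (nat_lit 152)) (PT.lf (nat_lit 3952) (nat_lit 6) (nat_lit 52) (nat_lit 4) (nat_lit 87) (nat_lit 152) (nat_lit 151))) (PT.nd (nat_lit 78) (PT.lf (nat_lit 4104) (nat_lit 6) (nat_lit 54) (nat_lit 4) (nat_lit 88) (nat_lit 152) (nat_lit 150)) (PT.lf (nat_lit 4332) (nat_lit 6) (nat_lit 57) (nat_lit 4) (nat_lit 89) (nat_lit 152) (nat_lit 149))))))) (PT.nd (nat_lit 39936) (PT.nd (nat_lit 4680) (PT.nd (nat_lit 4368) (PT.nd (nat_lit 78) (PT.lf (nat_lit 4484) (nat_lit 6) (nat_lit 59) (nat_lit 4) (nat_lit 90) (nat_lit 152) (nat_lit 148)) (PT.nd (nat_lit 78) (PT.lf (nat_lit 4712) (nat_lit 6) (nat_lit 62) (nat_lit 4) (nat_lit 91) (nat_lit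 152) (nat_lit 147)) (PT.lf (nat_lit 4940) (nat_lit 6) (nat_lit 65) (nat_lit 4) (nat_lit 92) (nat_lit 152) (nat_lit 146)))) (PT.nd (nat_lit 156) (PT.nd (nat_lit 78) (PT.lf (nat_lit 4940) (nat_lit 6) (nat_lit 65) (nat_lit 2) (nat_lit 146) (nat_lit 152) (nat_lit 92)) (PT.lf (nat_lit 4712) (nat_lit 6) (nat_lit 62) (nat_lit 2) (nat_lit 147) (nat_lit 152) (nat_lit 91))) (PT.nd (nat_lit 78) (PT.lf (nat_lit 4484) (nat_lit 6) (nat_lit 59) (nat_lit 2) (nat_lit 148) (nat_lit 152) (nat_lit 90)) (PT.lf (nat_lit 4332) (nat_lit 6) (nat_lit 57) (nat_lit 2) (nat_lit 149) (nat_lit 152) (nat_lit 89))))) (PT.nd (nat_lit 234) (PT.nd (nat_lit 78) (PT.lf (nat_lit 4104) (nat_lit 6) (nat_lit 54) (nat_lit 2) (nat_lit 150) (nat_lit 152) (nat_lit 88)) (PT.nd (nat_lit 78) (PT.lf (nat_lit 3952) (nat_lit 6) (nat_lit 52) (nat_lit 2) (nat_lit 151) (nat_lit 152) (nat_lit 87)) (PT.lf (nat_lit 3724) (nat_lit 3) (nat_lit 49) (nat_lit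 0) (nat_lit 152) (nat_lit 152) (nat_lit 86)))) (PT.nd (nat_lit 156) (PT.nd (nat_lit 78) (PT.lf (nat_lit 3496) (nat_lit 6) (nat_lit 46) (nat_lit 0) (nat_lit 153) (nat_lit 152) (nat_lit 85)) (PT.lf (nat_lit 3268) (nat_lit 6) (nat_lit 43) (nat_lit 0) (nat_lit 154) (nat_lit 152) (nat_lit 84))) (PT.nd (nat_lit 78) (PT.lf (nat_lit 3040) (nat_lit 6) (nat_lit 40) (nat_lit 0) (nat_lit 155) (nat_lit 152) (nat_lit 83)) (PT.lf (nat_lit 2812) (nat_lit 6) (nat_lit 37) (nat_lit 0) (nat_lit 156) (nat_lit 152) (nat_lit 82)))))) (PT.nd (nat_lit 546) (PT.nd (nat_lit 234) (PT.nd (nat_lit 78) (PT.lf (nat_lit 2660) (nat_lit 6) (nat_lit 35) (nat_lit 5) (nat_lit 81) (nat_lit 153) (nat_lit 156)) (PT.nd (nat_lit 78) (PT.lf (nat_lit 2888) (nat_lit 6) (nat_lit 38) (nat_lit 5) (nat_lit 82) (nat_lit 153) (nat_lit 155)) (PT.lf (nat_lit 3116) (nat_lit 6) (nat_lit 41) (nat_lit 5) (nat_lit 83) (nat_lit 153) (nat_lit 154)))) (PT.nd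 (nat_lit 156) (PT.nd (nat_lit 78) (PT.lf (nat_lit 3344) (nat_lit 3) (nat_lit 44) (nat_lit 4) (nat_lit 84) (nat_lit 153) (nat_lit 153)) (PT.lf (nat_lit 3496) (nat_lit 6) (nat_lit 46) (nat_lit 4) (nat_lit 85) (nat_lit 153) (nat_lit 152))) (PT.nd (nat_lit 78) (PT.lf (nat_lit 3648) (nat_lit 6) (nat_lit 48) (nat_lit 4) (nat_lit 86) (nat_lit 153) (nat_lit 151)) (PT.lf (nat_lit 3876) (nat_lit 6) (nat_lit 51) (nat_lit 4) (nat_lit 87) (nat_lit 153) (nat_lit 150))))) (PT.nd (nat_lit 4758) (PT.nd (nat_lit 78) (PT.lf (nat_lit 4028) (nat_lit 6) (nat_lit 53) (nat_lit 4) (nat_lit 88) (nat_lit 153) (nat_lit 149)) (PT.nd (nat_lit 4602) (PT.lf (nat_lit 4256) (nat_lit 6) (nat_lit 56) (nat_lit 4) (nat_lit 89) (nat_lit 153) (nat_lit 148)) (PT.lf (nat_lit 4256) (nat_lit 6) (nat_lit 56) (nat_lit 2) (nat_lit 148) (nat_lit 153) (nat_lit 89)))) (PT.nd (nat_lit 156) (PT.nd (nat_lit 78) (PT.lf (nat_lit 4028) (nat_lit 6) (nat_lit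 53) (nat_lit 2) (nat_lit 149) (nat_lit 153) (nat_lit 88)) (PT.lf (nat_lit 3876) (nat_lit 6) (nat_lit 51) (nat_lit 2) (nat_lit 150) (nat_lit 153) (nat_lit 87))) (PT.nd (nat_lit 78) (PT.lf (nat_lit 3648) (nat_lit 6) (nat_lit 48) (nat_lit 2) (nat_lit 151) (nat_lit 153) (nat_lit 86)) (PT.lf (nat_lit 3496) (nat_lit 6) (nat_lit 46) (nat_lit 2) (nat_lit 152) (nat_lit 153) (nat_lit 85))))))))
noncomputable def pc30 : PT := (PT.nd (nat_lit 75738) (PT.nd (nat_lit 40326) (PT.nd (nat_lit 35022) (PT.nd (nat_lit 234) (PT.nd (nat_lit 78) (PT.lf (nat_lit 3344) (nat_lit 3) (nat_lit 44) (nat_lit 0) (nat_lit 153) (nat_lit 153) (nat_lit 84)) (PT.nd (nat_lit 78) (PT.lf (nat_lit 3116) (nat_lit 6) (nat_lit 41) (nat_lit 0) (nat_lit 154) (nat_lit 153) (nat_lit 83)) (PT.lf (nat_lit 2888) (nat_lit 6) (nat_lit 38) (nat_lit 0) (nat_lit 155) (nat_lit 153) (nat_lit 82)))) (PT.nd (nat_lit 34632) (PT.lf (nat_lit 2660) (nat_lit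 6) (nat_lit 35) (nat_lit 0) (nat_lit 156) (nat_lit 153) (nat_lit 81)) (PT.nd (nat_lit 78) (PT.lf (nat_lit 2356) (nat_lit 6) (nat_lit 31) (nat_lit 5) (nat_lit 79) (nat_lit 154) (nat_lit 157)) (PT.lf (nat_lit 2508) (nat_lit 6) (nat_lit 33) (nat_lit 5) (nat_lit 80) (nat_lit 154) (nat_lit 156))))) (PT.nd (nat_lit 234) (PT.nd (nat_lit 78) (PT.lf (nat_lit 2736) (nat_lit 6) (nat_lit 36) (nat_lit 5) (nat_lit 81) (nat_lit 154) (nat_lit 155)) (PT.nd (nat_lit 78) (PT.lf (nat_lit 2964) (nat_lit 3) (nat_lit 39) (nat_lit 4) (nat_lit 82) (nat_lit 154) (nat_lit 154)) (PT.lf (nat_lit 3116) (nat_lit 6) (nat_lit 41) (nat_lit 4) (nat_lit 83) (nat_lit 154) (nat_lit 153)))) (PT.nd (nat_lit 156) (PT.nd (nat_lit 78) (PT.lf (nat_lit 3268) (nat_lit 6) (nat_lit 43) (nat_lit 4) (nat_lit 84) (nat_lit 154) (nat_lit 152)) (PT.lf (nat_lit 3420) (nat_lit 6) (nat_lit 45) (nat_lit 4) (nat_lit 85) (nat_lit 154) (nat_lit 151))) (PT.nd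 (nat_lit 78) (PT.lf (nat_lit 3572) (nat_lit 6) (nat_lit 47) (nat_lit 4) (nat_lit 86) (nat_lit 154) (nat_lit 150)) (PT.lf (nat_lit 3800) (nat_lit 6) (nat_lit 50) (nat_lit 4) (nat_lit 87) (nat_lit 154) (nat_lit 149)))))) (PT.nd (nat_lit 546) (PT.nd (nat_lit 234) (PT.nd (nat_lit 78) (PT.lf (nat_lit 3800) (nat_lit 6) (nat_lit 50) (nat_lit 2) (nat_lit 149) (nat_lit 154) (nat_lit 87)) (PT.nd (nat_lit 78) (PT.lf (nat_lit 3572) (nat_lit 6) (nat_lit 47) (nat_lit 2) (nat_lit 150) (nat_lit 154) (nat_lit 86)) (PT.lf (nat_lit 3420) (nat_lit 6) (nat_lit 45) (nat_lit 2) (nat_lit 151) (nat_lit 154) (nat_lit 85)))) (PT.nd (nat_lit 156) (PT.nd (nat_lit 78) (PT.lf (nat_lit 3268) (nat_lit 6) (nat_lit 43) (nat_lit 2) (nat_lit 152) (nat_lit 154) (nat_lit 84)) (PT.lf (nat_lit 3116) (nat_lit 6) (nat_lit 41) (nat_lit 2) (nat_lit 153) (nat_lit 154) (nat_lit 83))) (PT.nd (nat_lit 78) (PT.lf (nat_lit 2964) (nat_lit 3) (nat_lit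 39) (nat_lit 0) (nat_lit 154) (nat_lit 154) (nat_lit 82)) (PT.lf (nat_lit 2736) (nat_lit 6) (nat_lit 36) (nat_lit 0) (nat_lit 155) (nat_lit 154) (nat_lit 81))))) (PT.nd (nat_lit 34554) (PT.nd (nat_lit 78) (PT.lf (nat_lit 2508) (nat_lit 6) (nat_lit 33) (nat_lit 0) (nat_lit 156) (nat_lit 154) (nat_lit 80)) (PT.nd (nat_lit 34398) (PT.lf (nat_lit 2356) (nat_lit 6) (nat_lit 31) (nat_lit 0) (nat_lit 157) (nat_lit 154) (nat_lit 79)) (PT.lf (nat_lit 2052) (nat_lit 6) (nat_lit 27) (nat_lit 5) (nat_lit 77) (nat_lit 155) (nat_lit 158)))) (PT.nd (nat_lit 156) (PT.nd (nat_lit 78) (PT.lf (nat_lit 2204) (nat_lit 6) (nat_lit 29) (nat_lit 5) (nat_lit 78) (nat_lit 155) (nat_lit 157)) (PT.lf (nat_lit 2432) (nat_lit 6) (nat_lit 32) (nat_lit 5) (nat_lit 79) (nat_lit 155) (nat_lit 156))) (PT.nd (nat_lit 78) (PT.lf (nat_lit 2584) (nat_lit 3) (nat_lit 34) (nat_lit 4) (nat_lit 80) (nat_lit 155) (nat_lit 155)) (PT.lf (nat_lit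 2736) (nat_lit 6) (nat_lit 36) (nat_lit 4) (nat_lit 81) (nat_lit 155) (nat_lit 154))))))) (PT.nd (nat_lit 40326) (PT.nd (nat_lit 5694) (PT.nd (nat_lit 5382) (PT.nd (nat_lit 78) (PT.lf (nat_lit 2888) (nat_lit 6) (nat_lit 38) (nat_lit 4) (nat_lit 82) (nat_lit 155) (nat_lit 153)) (PT.nd (nat_lit 78) (PT.lf (nat_lit 3040) (nat_lit 6) (nat_lit 40) (nat_lit 4) (nat_lit 83) (nat_lit 155) (nat_lit 152)) (PT.lf (nat_lit 3192) (nat_lit 6) (nat_lit 42) (nat_lit 4) (nat_lit 84) (nat_lit 155) (nat_lit 151)))) (PT.nd (nat_lit 156) (PT.nd (nat_lit 78) (PT.lf (nat_lit 3192) (nat_lit 6) (nat_lit 42) (nat_lit 2) (nat_lit 151) (nat_lit 155) (nat_lit 84)) (PT.lf (nat_lit 3040) (nat_lit 6) (nat_lit 40) (nat_lit 2) (nat_lit 152) (nat_lit 155) (nat_lit 83))) (PT.nd (nat_lit 78) (PT.lf (nat_lit 2888) (nat_lit 6) (nat_lit 38) (nat_lit 2) (nat_lit 153) (nat_lit 155) (nat_lit 82)) (PT.lf (nat_lit 2736) (nat_lit 6) (nat_lit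 36) (nat_lit 2) (nat_lit 154) (nat_lit 155) (nat_lit 81))))) (PT.nd (nat_lit 234) (PT.nd (nat_lit 78) (PT.lf (nat_lit 2584) (nat_lit 3) (nat_lit 34) (nat_lit 0) (nat_lit 155) (nat_lit 155) (nat_lit 80)) (PT.nd (nat_lit 78) (PT.lf (nat_lit 2432) (nat_lit 6) (nat_lit 32) (nat_lit 0) (nat_lit 156) (nat_lit 155) (nat_lit 79)) (PT.lf (nat_lit 2204) (nat_lit 6) (nat_lit 29) (nat_lit 0) (nat_lit 157) (nat_lit 155) (nat_lit 78)))) (PT.nd (nat_lit 34242) (PT.nd (nat_lit 34164) (PT.lf (nat_lit 2052) (nat_lit 6) (nat_lit 27) (nat_lit 0) (nat_lit 158) (nat_lit 155) (nat_lit 77)) (PT.lf (nat_lit 1748) (nat_lit 6) (nat_lit 23) (nat_lit 5) (nat_lit 75) (nat_lit 156) (nat_lit 159))) (PT.nd (nat_lit 78) (PT.lf (nat_lit 1900) (nat_lit 6) (nat_lit 25) (nat_lit 5) (nat_lit 76) (nat_lit 156) (nat_lit 158)) (PT.lf (nat_lit 2128) (nat_lit 6) (nat_lit 28) (nat_lit 5) (nat_lit 77) (nat_lit 156) (nat_lit 157)))))) (PT.nd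 (nat_lit 5928) (PT.nd (nat_lit 234) (PT.nd (nat_lit 78) (PT.lf (nat_lit 2280) (nat_lit 3) (nat_lit 30) (nat_lit 4) (nat_lit 78) (nat_lit 156) (nat_lit 156)) (PT.nd (nat_lit 78) (PT.lf (nat_lit 2432) (nat_lit 6) (nat_lit 32) (nat_lit 4) (nat_lit 79) (nat_lit 156) (nat_lit 155)) (PT.lf (nat_lit 2508) (nat_lit 6) (nat_lit 33) (nat_lit 4) (nat_lit 80) (nat_lit 156) (nat_lit 154)))) (PT.nd (nat_lit 5538) (PT.nd (nat_lit 78) (PT.lf (nat_lit 2660) (nat_lit 6) (nat_lit 35) (nat_lit 4) (nat_lit 81) (nat_lit 156) (nat_lit 153)) (PT.lf (nat_lit 2812) (nat_lit 6) (nat_lit 37) (nat_lit 4) (nat_lit 82) (nat_lit 156) (nat_lit 152))) (PT.nd (nat_lit 78) (PT.lf (nat_lit 2812) (nat_lit 6) (nat_lit 37) (nat_lit 2) (nat_lit 152) (nat_lit 156) (nat_lit 82)) (PT.lf (nat_lit 2660) (nat_lit 6) (nat_lit 35) (nat_lit 2) (nat_lit 153) (nat_lit 156) (nat_lit 81))))) (PT.nd (nat_lit 234) (PT.nd (nat_lit 78) (PT.lf (nat_lit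 2508) (nat_lit 6) (nat_lit 33) (nat_lit 2) (nat_lit 154) (nat_lit 156) (nat_lit 80)) (PT.nd (nat_lit 78) (PT.lf (nat_lit 2432) (nat_lit 6) (nat_lit 32) (nat_lit 2) (nat_lit 155) (nat_lit 156) (nat_lit 79)) (PT.lf (nat_lit 2280) (nat_lit 3) (nat_lit 30) (nat_lit 0) (nat_lit 156) (nat_lit 156) (nat_lit 78)))) (PT.nd (nat_lit 156) (PT.nd (nat_lit 78) (PT.lf (nat_lit 2128) (nat_lit 6) (nat_lit 28) (nat_lit 0) (nat_lit 157) (nat_lit 156) (nat_lit 77)) (PT.lf (nat_lit 1900) (nat_lit 6) (nat_lit 25) (nat_lit 0) (nat_lit 158) (nat_lit 156) (nat_lit 76))) (PT.nd (nat_lit 34008) (PT.lf (nat_lit 1748) (nat_lit 6) (nat_lit 23) (nat_lit 0) (nat_lit 159) (nat_lit 156) (nat_lit 75)) (PT.lf (nat_lit 1596) (nat_lit 6) (nat_lit 21) (nat_lit 5) (nat_lit 74) (nat_lit 157) (nat_lit 159))))))))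
noncomputable def pc31 : PT := (PT.nd (nat_lit 81198) (PT.nd (nat_lit 40560) (PT.nd (nat_lit 6240) (PT.nd (nat_lit 234) (PT.nd (nat_lit 78) (PT.lf (nat_lit 1824) (nat_lit 6) (nat_lit 24) (nat_lit 5) (nat_lit 75) (nat_lit 157) (nat_lit 158)) (PT.nd (nat_lit 78) (PT.lf (nat_lit 1976) (nat_lit 3) (nat_lit 26) (nat_lit 4) (nat_lit 76) (nat_lit 157) (nat_lit 157)) (PT.lf (nat_lit 2128) (nat_lit 6) (nat_lit 28) (nat_lit 4) (nat_lit 77) (nat_lit 157) (nat_lit 156)))) (PT.nd (nat_lit 78) (PT.lf (nat_lit 2204) (nat_lit 6) (nat_lit 29) (nat_lit 4) (nat_lit 78) (nat_lit 157) (nat_lit 155)) (PT.nd (nat_lit 5850) (PT.lf (nat_lit 2356) (nat_lit 6) (nat_lit 31) (nat_lit 4) (nat_lit 79) (nat_lit 157) (nat_lit 154)) (PT.lf (nat_lit 2356) (nat_lit 6) (nat_lit 31) (nat_lit 2) (nat_lit 154) (nat_lit 157) (nat_lit 79))))) (PT.nd (nat_lit 234) (PT.nd (nat_lit 78) (PT.lf (nat_lit 2204) (nat_lit 6) (nat_lit 29) (nat_lit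 2) (nat_lit 155) (nat_lit 157) (nat_lit 78)) (PT.nd (nat_lit 78) (PT.lf (nat_lit 2128) (nat_lit 6) (nat_lit 28) (nat_lit 2) (nat_lit 156) (nat_lit 157) (nat_lit 77)) (PT.lf (nat_lit 1976) (nat_lit 3) (nat_lit 26) (nat_lit 0) (nat_lit 157) (nat_lit 157) (nat_lit 76)))) (PT.nd (nat_lit 33930) (PT.nd (nat_lit 78) (PT.lf (nat_lit 1824) (nat_lit 6) (nat_lit 24) (nat_lit 0) (nat_lit 158) (nat_lit 157) (nat_lit 75)) (PT.lf (nat_lit 1596) (nat_lit 6) (nat_lit 21) (nat_lit 0) (nat_lit 159) (nat_lit 157) (nat_lit 74))) (PT.nd (nat_lit 78) (PT.lf (nat_lit 1292) (nat_lit 6) (nat_lit 17) (nat_lit 5) (nat_lit 72) (nat_lit 158) (nat_lit 160)) (PT.lf (nat_lit 1520) (nat_lit 6) (nat_lit 20) (nat_lit 5) (nat_lit 73) (nat_lit 158) (nat_lit 159)))))) (PT.nd (nat_lit 6552) (PT.nd (nat_lit 234) (PT.nd (nat_lit 78) (PT.lf (nat_lit 1672) (nat_lit 3) (nat_lit 22) (nat_lit 4) (nat_lit 74) (nat_lit 158) (nat_lit 158)) (PT.nd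 (nat_lit 78) (PT.lf (nat_lit 1824) (nat_lit 6) (nat_lit 24) (nat_lit 4) (nat_lit 75) (nat_lit 158) (nat_lit 157)) (PT.lf (nat_lit 1900) (nat_lit 6) (nat_lit 25) (nat_lit 4) (nat_lit 76) (nat_lit 158) (nat_lit 156)))) (PT.nd (nat_lit 6162) (PT.nd (nat_lit 6084) (PT.lf (nat_lit 2052) (nat_lit 6) (nat_lit 27) (nat_lit 4) (nat_lit 77) (nat_lit 158) (nat_lit 155)) (PT.lf (nat_lit 2052) (nat_lit 6) (nat_lit 27) (nat_lit 2) (nat_lit 155) (nat_lit 158) (nat_lit 77))) (PT.nd (nat_lit 78) (PT.lf (nat_lit 1900) (nat_lit 6) (nat_lit 25) (nat_lit 2) (nat_lit 156) (nat_lit 158) (nat_lit 76)) (PT.lf (nat_lit 1824) (nat_lit 6) (nat_lit 24) (nat_lit 2) (nat_lit 157) (nat_lit 158) (nat_lit 75))))) (PT.nd (nat_lit 33774) (PT.nd (nat_lit 78) (PT.lf (nat_lit 1672) (nat_lit 3) (nat_lit 22) (nat_lit 0) (nat_lit 158) (nat_lit 158) (nat_lit 74)) (PT.nd (nat_lit 78) (PT.lf (nat_lit 1520) (nat_lit 6) (nat_lit 20) (nat_lit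 0) (nat_lit 159) (nat_lit 158) (nat_lit 73)) (PT.lf (nat_lit 1292) (nat_lit 6) (nat_lit 17) (nat_lit 0) (nat_lit 160) (nat_lit 158) (nat_lit 72)))) (PT.nd (nat_lit 156) (PT.nd (nat_lit 78) (PT.lf (nat_lit 1064) (nat_lit 6) (nat_lit 14) (nat_lit 5) (nat_lit 70) (nat_lit 159) (nat_lit 161)) (PT.lf (nat_lit 1216) (nat_lit 6) (nat_lit 16) (nat_lit 5) (nat_lit 71) (nat_lit 159) (nat_lit 160))) (PT.nd (nat_lit 78) (PT.lf (nat_lit 1368) (nat_lit 3) (nat_lit 18) (nat_lit 4) (nat_lit 72) (nat_lit 159) (nat_lit 159)) (PT.lf (nat_lit 1520) (nat_lit 6) (nat_lit 20) (nat_lit 4) (nat_lit 73) (nat_lit 159) (nat_lit 158))))))) (PT.nd (nat_lit 47346) (PT.nd (nat_lit 6786) (PT.nd (nat_lit 6474) (PT.nd (nat_lit 78) (PT.lf (nat_lit 1596) (nat_lit 6) (nat_lit 21) (nat_lit 4) (nat_lit 74) (nat_lit 159) (nat_lit 157)) (PT.nd (nat_lit 6318) (PT.lf (nat_lit 1748) (nat_lit 6) (nat_lit 23) (nat_lit 4) (nat_lit 75) (nat_lit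 159) (nat_lit 156)) (PT.lf (nat_lit 1748) (nat_lit 6) (nat_lit 23) (nat_lit 2) (nat_lit 156) (nat_lit 159) (nat_lit 75)))) (PT.nd (nat_lit 156) (PT.nd (nat_lit 78) (PT.lf (nat_lit 1596) (nat_lit 6) (nat_lit 21) (nat_lit 2) (nat_lit 157) (nat_lit 159) (nat_lit 74)) (PT.lf (nat_lit 1520) (nat_lit 6) (nat_lit 20) (nat_lit 2) (nat_lit 158) (nat_lit 159) (nat_lit 73))) (PT.nd (nat_lit 78) (PT.lf (nat_lit 1368) (nat_lit 3) (nat_lit 18) (nat_lit 0) (nat_lit 159) (nat_lit 159) (nat_lit 72)) (PT.lf (nat_lit 1216) (nat_lit 6) (nat_lit 16) (nat_lit 0) (nat_lit 160) (nat_lit 159) (nat_lit 71))))) (PT.nd (nat_lit 33618) (PT.nd (nat_lit 33462) (PT.lf (nat_lit 1064) (nat_lit 6) (nat_lit 14) (nat_lit 0) (nat_lit 161) (nat_lit 159) (nat_lit 70)) (PT.nd (nat_lit 78) (PT.lf (nat_lit 988) (nat_lit 6) (nat_lit 13) (nat_lit 5) (nat_lit 69) (nat_lit 160) (nat_lit 161)) (PT.lf (nat_lit 1140) (nat_lit 3) (nat_lit 15) (nat_lit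 4) (nat_lit 70) (nat_lit 160) (nat_lit 160)))) (PT.nd (nat_lit 6786) (PT.nd (nat_lit 78) (PT.lf (nat_lit 1216) (nat_lit 6) (nat_lit 16) (nat_lit 4) (nat_lit 71) (nat_lit 160) (nat_lit 159)) (PT.lf (nat_lit 1292) (nat_lit 6) (nat_lit 17) (nat_lit 4) (nat_lit 72) (nat_lit 160) (nat_lit 158))) (PT.nd (nat_lit 78) (PT.lf (nat_lit 1292) (nat_lit 6) (nat_lit 17) (nat_lit 2) (nat_lit 158) (nat_lit 160) (nat_lit 72)) (PT.lf (nat_lit 1216) (nat_lit 6) (nat_lit 16) (nat_lit 2) (nat_lit 159) (nat_lit 160) (nat_lit 71)))))) (PT.nd (nat_lit 40716) (PT.nd (nat_lit 33540) (PT.nd (nat_lit 78) (PT.lf (nat_lit 1140) (nat_lit 3) (nat_lit 15) (nat_lit 0) (nat_lit 160) (nat_lit 160) (nat_lit 70)) (PT.nd (nat_lit 33384) (PT.lf (nat_lit 988) (nat_lit 6) (nat_lit 13) (nat_lit 0) (nat_lit 161) (nat_lit 160) (nat_lit 69)) (PT.lf (nat_lit 912) (nat_lit 3) (nat_lit 12) (nat_lit 4) (nat_lit 68) (nat_lit 161) (nat_lit 161))))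 (PT.nd (nat_lit 7020) (PT.nd (nat_lit 78) (PT.lf (nat_lit 988) (nat_lit 6) (nat_lit 13) (nat_lit 4) (nat_lit 69) (nat_lit 161) (nat_lit 160)) (PT.lf (nat_lit 1064) (nat_lit 6) (nat_lit 14) (nat_lit 4) (nat_lit 70) (nat_lit 161) (nat_lit 159))) (PT.nd (nat_lit 78) (PT.lf (nat_lit 1064) (nat_lit 6) (nat_lit 14) (nat_lit 2) (nat_lit 159) (nat_lit 161) (nat_lit 70)) (PT.lf (nat_lit 988) (nat_lit 6) (nat_lit 13) (nat_lit 2) (nat_lit 160) (nat_lit 161) (nat_lit 69))))) (PT.nd (nat_lit 122148) (PT.nd (nat_lit 114114) (PT.lf (nat_lit 912) (nat_lit 3) (nat_lit 12) (nat_lit 0) (nat_lit 161) (nat_lit 161) (nat_lit 68)) (PT.nd (nat_lit 78) (PT.lf (nat_lit 76) (nat_lit 6) (nat_lit 1) (nat_lit 5) (nat_lit 61) (nat_lit 164) (nat_lit 165)) (PT.lf (nat_lit 228) (nat_lit 3) (nat_lit 3) (nat_lit 4) (nat_lit 62) (nat_lit 164) (nat_lit 164)))) (PT.nd (nat_lit 32604) (PT.nd (nat_lit 78) (PT.lf (nat_lit 228) (nat_lit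 3) (nat_lit 3) (nat_lit 0) (nat_lit 164) (nat_lit 164) (nat_lit 62)) (PT.lf (nat_lit 76) (nat_lit 6) (nat_lit 1) (nat_lit 0) (nat_lit 165) (nat_lit 164) (nat_lit 61))) (PT.nd (nat_lit 8034) (PT.lf (nat_lit 76) (nat_lit 6) (nat_lit 1) (nat_lit 4) (nat_lit 61) (nat_lit 165) (nat_lit 164)) (PT.lf (nat_lit 76) (nat_lit 6) (nat_lit 1) (nat_lit 2) (nat_lit 164) (nat_lit 165) (nat_lit 61))))))))
noncomputable def xc0 : XT := (XT.nd (nat_lit 162084) (nat_lit 0) (nat_lit 0) (XT.nd (nat_lit 81432) (nat_lit 0) (nat_lit 0) (XT.nd (nat_lit 40794) (nat_lit 0) (nat_lit 0) (XT.nd (nat_lit 40482) (nat_lit 0) (nat_lit 152) (XT.nd (nat_lit 156) (nat_lit 152) (nat_lit 0) (XT.lf (nat_lit 0) (nat_lit 12424116544) (nat_lit 76) (nat_lit 8294331583) (nat_lit 76) (nat_lit 7909549631) (nat_lit 5) (nat_lit 4) (nat_lit 6) (nat_lit 5) (nat_lit 6) (nat_lit 4) (nat_lit 365) (nat_lit 208) (nat_lit 207)) (XT.nd (nat_lit 40248)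 (nat_lit 0) (nat_lit 228) (XT.lf (nat_lit 0) (nat_lit 3888689588) (nat_lit 152) (nat_lit 23432765033) (nat_lit 0) (nat_lit 2789620415) (nat_lit 3) (nat_lit 5) (nat_lit 5) (nat_lit 4) (nat_lit 3) (nat_lit 4) (nat_lit 367) (nat_lit 208) (nat_lit 205)) (XT.lf (nat_lit 0) (nat_lit 967276074) (nat_lit 152) (nat_lit 11351915436) (nat_lit 0) (nat_lit 967276074) (nat_lit 6) (nat_lit 5) (nat_lit 8) (nat_lit 4) (nat_lit 6) (nat_lit 4) (nat_lit 362) (nat_lit 209) (nat_lit 209)))) (XT.nd (nat_lit 78) (nat_lit 76) (nat_lit 0) (XT.lf (nat_lit 0) (nat_lit 8197763860) (nat_lit 152) (nat_lit 11237436006) (nat_lit 0) (nat_lit 7801438449) (nat_lit 6) (nat_lit 5) (nat_lit 8) (nat_lit 4) (nat_lit 6) (nat_lit 4) (nat_lit 363) (nat_lit 209) (nat_lit 208)) (XT.nd (nat_lit 78) (nat_lit 0) (nat_lit 0) (XT.lf (nat_lit 0) (nat_lit 342727910) (nat_lit 76) (nat_lit 14180583370) (nat_lit 76) (nat_lit 13399476007) (nat_lit 5)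 (nat_lit 4) (nat_lit 6) (nat_lit 5) (nat_lit 6) (nat_lit 4) (nat_lit 364) (nat_lit 209) (nat_lit 207)) (XT.lf (nat_lit 0) (nat_lit 12193206829) (nat_lit 76) (nat_lit 8796003549) (nat_lit 76) (nat_lit 7641321476) (nat_lit 5) (nat_lit 4) (nat_lit 6) (nat_lit 5) (nat_lit 6) (nat_lit 4) (nat_lit 365) (nat_lit 209) (nat_lit 206))))) (XT.nd (nat_lit 40248) (nat_lit 0) (nat_lit 152) (XT.nd (nat_lit 40092) (nat_lit 0) (nat_lit 380) (XT.lf (nat_lit 0) (nat_lit 4027334384) (nat_lit 152) (nat_lit 23894296924) (nat_lit 0) (nat_lit 2194485402) (nat_lit 3) (nat_lit 5) (nat_lit 5) (nat_lit 4) (nat_lit 3) (nat_lit 4) (nat_lit 367) (nat_lit 209) (nat_lit 204)) (XT.nd (nat_lit 78) (nat_lit 0) (nat_lit 0) (XT.lf (nat_lit 0) (nat_lit 2759210983) (nat_lit 76) (nat_lit 4946434874) (nat_lit 76) (nat_lit 4946434874) (nat_lit 8) (nat_lit 4) (nat_lit 9) (nat_lit 5) (nat_lit 9) (nat_lit 4) (nat_lit 360) (nat_lit 210) (nat_lit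 210)) (XT.lf (nat_lit 0) (nat_lit 17842744478) (nat_lit 76) (nat_lit 4251328178) (nat_lit 76) (nat_lit 3834948702) (nat_lit 8) (nat_lit 4) (nat_lit 9) (nat_lit 5) (nat_lit 9) (nat_lit 4) (nat_lit 361) (nat_lit 210) (nat_lit 209)))) (XT.nd (nat_lit 156) (nat_lit 76) (nat_lit 0) (XT.nd (nat_lit 78) (nat_lit 0) (nat_lit 0) (XT.lf (nat_lit 0) (nat_lit 2277930162) (nat_lit 152) (nat_lit 22822924105) (nat_lit 0) (nat_lit 1473389578) (nat_lit 6) (nat_lit 5) (nat_lit 8) (nat_lit 4) (nat_lit 6) (nat_lit 4) (nat_lit 362) (nat_lit 210) (nat_lit 208)) (XT.lf (nat_lit 0) (nat_lit 8478193174) (nat_lit 152) (nat_lit 11472153738) (nat_lit 0) (nat_lit 7288870638) (nat_lit 6) (nat_lit 5) (nat_lit 8) (nat_lit 4) (nat_lit 6) (nat_lit 4) (nat_lit 363) (nat_lit 210) (nat_lit 207))) (XT.nd (nat_lit 78) (nat_lit 76) (nat_lit 0) (XT.lf (nat_lit 0) (nat_lit 14740400136) (nat_lit 152) (nat_lit 8741553) (nat_lit 0) (nat_lit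 13177502889) (nat_lit 6) (nat_lit 5) (nat_lit 8) (nat_lit 4) (nat_lit 6) (nat_lit 4) (nat_lit 364) (nat_lit 210) (nat_lit 206)) (XT.lf (nat_lit 0) (nat_lit 11731185633) (nat_lit 76) (nat_lit 9415003883) (nat_lit 76) (nat_lit 7489412743) (nat_lit 5) (nat_lit 4) (nat_lit 6) (nat_lit 5) (nat_lit 6) (nat_lit 4) (nat_lit 365) (nat_lit 210) (nat_lit 205)))))) (XT.nd (nat_lit 40326) (nat_lit 0) (nat_lit 0) (XT.nd (nat_lit 40092) (nat_lit 0) (nat_lit 228) (XT.nd (nat_lit 39936) (nat_lit 0) (nat_lit 456) (XT.lf (nat_lit 0) (nat_lit 4052408110) (nat_lit 152) (nat_lit 24587098818) (nat_lit 0) (nat_lit 1484177801) (nat_lit 3) (nat_lit 5) (nat_lit 5) (nat_lit 4) (nat_lit 3) (nat_lit 4) (nat_lit 367) (nat_lit 210) (nat_lit 203)) (XT.nd (nat_lit 78) (nat_lit 0) (nat_lit 0) (XT.lf (nat_lit 0) (nat_lit 1427759496) (nat_lit 152) (nat_lit 9200740566) (nat_lit 0) (nat_lit 1427759496) (nat_lit 9) (nat_lit 5) (nat_lit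 11) (nat_lit 4) (nat_lit 9) (nat_lit 4) (nat_lit 358) (nat_lit 211) (nat_lit 211)) (XT.lf (nat_lit 0) (nat_lit 9266928935) (nat_lit 152) (nat_lit 6594241005) (nat_lit 0) (nat_lit 8838058074) (nat_lit 9) (nat_lit 5) (nat_lit 11) (nat_lit 4) (nat_lit 9) (nat_lit 4) (nat_lit 359) (nat_lit 211) (nat_lit 210)))) (XT.nd (nat_lit 78) (nat_lit 152) (nat_lit 0) (XT.lf (nat_lit 0) (nat_lit 5399218340) (nat_lit 76) (nat_lit 10375754892) (nat_lit 76) (nat_lit 9530504555) (nat_lit 8) (nat_lit 4) (nat_lit 9) (nat_lit 5) (nat_lit 9) (nat_lit 4) (nat_lit 360) (nat_lit 211) (nat_lit 209)) (XT.nd (nat_lit 78) (nat_lit 152) (nat_lit 0) (XT.lf (nat_lit 0) (nat_lit 17607809176) (nat_lit 76) (nat_lit 4786654372) (nat_lit 76) (nat_lit 3537152116) (nat_lit 8) (nat_lit 4) (nat_lit 9) (nat_lit 5) (nat_lit 9) (nat_lit 4) (nat_lit 361) (nat_lit 211) (nat_lit 208)) (XT.lf (nat_lit 0) (nat_lit 2503823656) (nat_lit 152) (nat_lit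 23180307867) (nat_lit 0) (nat_lit 894039493) (nat_lit 6) (nat_lit 5) (nat_lit 8) (nat_lit 4) (nat_lit 6) (nat_lit 4) (nat_lit 362) (nat_lit 211) (nat_lit 207))))) (XT.nd (nat_lit 312) (nat_lit 152) (nat_lit 0) (XT.nd (nat_lit 78) (nat_lit 76) (nat_lit 0) (XT.lf (nat_lit 0) (nat_lit 8642971427) (nat_lit 152) (nat_lit 11941794294) (nat_lit 0) (nat_lit 6659612552) (nat_lit 6) (nat_lit 5) (nat_lit 8) (nat_lit 4) (nat_lit 6) (nat_lit 4) (nat_lit 363) (nat_lit 211) (nat_lit 206)) (XT.nd (nat_lit 78) (nat_lit 76) (nat_lit 0) (XT.lf (nat_lit 0) (nat_lit 14845843202) (nat_lit 152) (nat_lit 587369288) (nat_lit 0) (nat_lit 12499790433) (nat_lit 6) (nat_lit 5) (nat_lit 8) (nat_lit 4) (nat_lit 6) (nat_lit 4) (nat_lit 364) (nat_lit 211) (nat_lit 205)) (XT.lf (nat_lit 0) (nat_lit 11037649248) (nat_lit 76) (nat_lit 10151873460) (nat_lit 76) (nat_lit 7453690697) (nat_lit 5) (nat_lit 4) (nat_lit 6) (nat_lit 5) (nat_lit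 6) (nat_lit 4) (nat_lit 365) (nat_lit 211) (nat_lit 204)))) (XT.nd (nat_lit 39858) (nat_lit 0) (nat_lit 456) (XT.nd (nat_lit 39780) (nat_lit 0) (nat_lit 608) (XT.lf (nat_lit 0) (nat_lit 3963932675) (nat_lit 152) (nat_lit 25511776074) (nat_lit 0) (nat_lit 658076954) (nat_lit 3) (nat_lit 5) (nat_lit 5) (nat_lit 4) (nat_lit 3) (nat_lit 4) (nat_lit 367) (nat_lit 211) (nat_lit 202)) (XT.lf (nat_lit 0) (nat_lit 2262086814) (nat_lit 152) (nat_lit 4616849027) (nat_lit 152) (nat_lit 4616849027) (nat_lit 11) (nat_lit 4) (nat_lit 13) (nat_lit 5) (nat_lit 13) (nat_lit 4) (nat_lit 356) (nat_lit 212) (nat_lit 212))) (XT.nd (nat_lit 78) (nat_lit 152) (nat_lit 0) (XT.lf (nat_lit 0) (nat_lit 17028884758) (nat_lit 152) (nat_lit 3482758808) (nat_lit 152) (nat_lit 3032187081) (nat_lit 11) (nat_lit 4) (nat_lit 13) (nat_lit 5) (nat_lit 13) (nat_lit 4) (nat_lit 357) (nat_lit 212) (nat_lit 211)) (XT.lf (nat_lit 0) (nat_lit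 3230908122) (nat_lit 152) (nat_lit 18522650590) (nat_lit 0) (nat_lit 2360300274) (nat_lit 9) (nat_lit 5) (nat_lit 11) (nat_lit 4) (nat_lit 9) (nat_lit 4) (nat_lit 358) (nat_lit 212) (nat_lit 210))))))) (XT.nd (nat_lit 40638) (nat_lit 0) (nat_lit 152) (XT.nd (nat_lit 468) (nat_lit 228) (nat_lit 0) (XT.nd (nat_lit 234) (nat_lit 152) (nat_lit 0) (XT.nd (nat_lit 78) (nat_lit 76) (nat_lit 0) (XT.lf (nat_lit 0) (nat_lit 9577902670) (nat_lit 152) (nat_lit 6833050711) (nat_lit 0) (nat_lit 8290915347) (nat_lit 9) (nat_lit 5) (nat_lit 11) (nat_lit 4) (nat_lit 9) (nat_lit 4) (nat_lit 359) (nat_lit 212) (nat_lit 209)) (XT.nd (nat_lit 78) (nat_lit 0) (nat_lit 0) (XT.lf (nat_lit 0) (nat_lit 5041503303) (nat_lit 76) (nat_lit 10979581923) (nat_lit 76) (nat_lit 9288342680) (nat_lit 8) (nat_lit 4) (nat_lit 9) (nat_lit 5) (nat_lit 9) (nat_lit 4) (nat_lit 360) (nat_lit 212) (nat_lit 208)) (XT.lf (nat_lit 0) (nat_lit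 17137733289) (nat_lit 76) (nat_lit 5441395044) (nat_lit 76) (nat_lit 3357678211) (nat_lit 8) (nat_lit 4) (nat_lit 9) (nat_lit 5) (nat_lit 9) (nat_lit 4) (nat_lit 361) (nat_lit 212) (nat_lit 207)))) (XT.nd (nat_lit 78) (nat_lit 0) (nat_lit 0) (XT.lf (nat_lit 0) (nat_lit 2612430015) (nat_lit 152) (nat_lit 23776294434) (nat_lit 0) (nat_lit 195995663) (nat_lit 6) (nat_lit 5) (nat_lit 8) (nat_lit 4) (nat_lit 6) (nat_lit 4) (nat_lit 362) (nat_lit 212) (nat_lit 206)) (XT.nd (nat_lit 78) (nat_lit 0) (nat_lit 0) (XT.lf (nat_lit 0) (nat_lit 8692242599) (nat_lit 152) (nat_lit 12646768041) (nat_lit 0) (nat_lit 5913114353) (nat_lit 6) (nat_lit 5) (nat_lit 8) (nat_lit 4) (nat_lit 6) (nat_lit 4) (nat_lit 363) (nat_lit 212) (nat_lit 205)) (XT.lf (nat_lit 0) (nat_lit 14837507397) (nat_lit 152) (nat_lit 1398155830) (nat_lit 0) (nat_lit 11706249158) (nat_lit 6) (nat_lit 5) (nat_lit 8) (nat_lit 4) (nat_lit 6) (nat_lit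 4) (nat_lit 364) (nat_lit 212) (nat_lit 204))))) (XT.nd (nat_lit 39858) (nat_lit 0) (nat_lit 456) (XT.nd (nat_lit 156) (nat_lit 152) (nat_lit 0) (XT.lf (nat_lit 0) (nat_lit 10111991671) (nat_lit 76) (nat_lit 11007256145) (nat_lit 76) (nat_lit 7534124124) (nat_lit 5) (nat_lit 4) (nat_lit 6) (nat_lit 5) (nat_lit 6) (nat_lit 4) (nat_lit 365) (nat_lit 212) (nat_lit 203)) (XT.nd (nat_lit 39624) (nat_lit 0) (nat_lit 760) (XT.lf (nat_lit 0) (nat_lit 3475382391) (nat_lit 76) (nat_lit 288320346) (nat_lit 152) (nat_lit 26382688284) (nat_lit 3) (nat_lit 5) (nat_lit 4) (nat_lit 5) (nat_lit 5) (nat_lit 4) (nat_lit 367) (nat_lit 212) (nat_lit 201)) (XT.lf (nat_lit 0) (nat_lit 551389276) (nat_lit 152) (nat_lit 9866632630) (nat_lit 0) (nat_lit 551389276) (nat_lit 13) (nat_lit 5) (nat_lit 15) (nat_lit 4) (nat_lit 13) (nat_lit 4) (nat_lit 354) (nat_lit 213) (nat_lit 213)))) (XT.nd (nat_lit 156) (nat_lit 152) (nat_lit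 0) (XT.nd (nat_lit 78) (nat_lit 152) (nat_lit 0) (XT.lf (nat_lit 0) (nat_lit 7584411823) (nat_lit 152) (nat_lit 7752295840) (nat_lit 0) (nat_lit 7120322945) (nat_lit 13) (nat_lit 5) (nat_lit 15) (nat_lit 4) (nat_lit 13) (nat_lit 4) (nat_lit 355) (nat_lit 213) (nat_lit 212)) (XT.lf (nat_lit 0) (nat_lit 4402909060) (nat_lit 152) (nat_lit 9752334593) (nat_lit 152) (nat_lit 8837673989) (nat_lit 11) (nat_lit 4) (nat_lit 13) (nat_lit 5) (nat_lit 13) (nat_lit 4) (nat_lit 356) (nat_lit 213) (nat_lit 211))) (XT.nd (nat_lit 78) (nat_lit 152) (nat_lit 0) (XT.lf (nat_lit 0) (nat_lit 16789887600) (nat_lit 152) (nat_lit 4054354239) (nat_lit 152) (nat_lit 2702245357) (nat_lit 11) (nat_lit 4) (nat_lit 13) (nat_lit 5) (nat_lit 13) (nat_lit 4) (nat_lit 357) (nat_lit 213) (nat_lit 210)) (XT.lf (nat_lit 0) (nat_lit 3486795674) (nat_lit 152) (nat_lit 18886264836) (nat_lit 0) (nat_lit 1744819255) (nat_lit 9) (nat_lit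 5) (nat_lit 11) (nat_lit 4) (nat_lit 9) (nat_lit 4) (nat_lit 358) (nat_lit 213) (nat_lit 209)))))) (XT.nd (nat_lit 40092) (nat_lit 0) (nat_lit 304) (XT.nd (nat_lit 234) (nat_lit 228) (nat_lit 0) (XT.nd (nat_lit 78) (nat_lit 76) (nat_lit 0) (XT.lf (nat_lit 0) (nat_lit 9771251005) (nat_lit 152) (nat_lit 7310878791) (nat_lit 0) (nat_lit 7625022666) (nat_lit 9) (nat_lit 5) (nat_lit 11) (nat_lit 4) (nat_lit 9) (nat_lit 4) (nat_lit 359) (nat_lit 213) (nat_lit 208)) (XT.nd (nat_lit 78) (nat_lit 0) (nat_lit 0) (XT.lf (nat_lit 0) (nat_lit 4444964289) (nat_lit 76) (nat_lit 11704878456) (nat_lit 76) (nat_lit 9166172527) (nat_lit 8) (nat_lit 4) (nat_lit 9) (nat_lit 5) (nat_lit 9) (nat_lit 4) (nat_lit 360) (nat_lit 213) (nat_lit 207)) (XT.lf (nat_lit 0) (nat_lit 16432106072) (nat_lit 76) (nat_lit 6216122298) (nat_lit 76) (nat_lit 3296370164) (nat_lit 8) (nat_lit 4) (nat_lit 9) (nat_lit 5) (nat_lit 9) (nat_lit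 4) (nat_lit 361) (nat_lit 213) (nat_lit 206)))) (XT.nd (nat_lit 156) (nat_lit 76) (nat_lit 0) (XT.nd (nat_lit 78) (nat_lit 0) (nat_lit 0) (XT.lf (nat_lit 0) (nat_lit 1978322688) (nat_lit 76) (nat_lit 629609289) (nat_lit 152) (nat_lit 23985883124) (nat_lit 6) (nat_lit 5) (nat_lit 7) (nat_lit 5) (nat_lit 8) (nat_lit 4) (nat_lit 362) (nat_lit 213) (nat_lit 205)) (XT.lf (nat_lit 0) (nat_lit 8626049743) (nat_lit 152) (nat_lit 13587690974) (nat_lit 0) (nat_lit 5048723762) (nat_lit 6) (nat_lit 5) (nat_lit 8) (nat_lit 4) (nat_lit 6) (nat_lit 4) (nat_lit 363) (nat_lit 213) (nat_lit 204))) (XT.nd (nat_lit 78) (nat_lit 76) (nat_lit 0) (XT.lf (nat_lit 0) (nat_lit 14715385438) (nat_lit 152) (nat_lit 2441809632) (nat_lit 0) (nat_lit 10796185676) (nat_lit 6) (nat_lit 5) (nat_lit 8) (nat_lit 4) (nat_lit 6) (nat_lit 4) (nat_lit 364) (nat_lit 213) (nat_lit 203)) (XT.lf (nat_lit 0) (nat_lit 8953404076) (nat_lit 76)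 (nat_lit 11981899360) (nat_lit 76) (nat_lit 7730783307) (nat_lit 5) (nat_lit 4) (nat_lit 6) (nat_lit 5) (nat_lit 6) (nat_lit 4) (nat_lit 365) (nat_lit 213) (nat_lit 202))))) (XT.nd (nat_lit 234) (nat_lit 304) (nat_lit 0) (XT.nd (nat_lit 78) (nat_lit 304) (nat_lit 0) (XT.lf (nat_lit 0) (nat_lit 4938039013) (nat_lit 152) (nat_lit 597911256) (nat_lit 0) (nat_lit 4938039013) (nat_lit 17) (nat_lit 5) (nat_lit 19) (nat_lit 4) (nat_lit 17) (nat_lit 4) (nat_lit 352) (nat_lit 214) (nat_lit 214)) (XT.nd (nat_lit 78) (nat_lit 152) (nat_lit 0) (XT.lf (nat_lit 0) (nat_lit 11332867309) (nat_lit 152) (nat_lit 5295233146) (nat_lit 152) (nat_lit 4807661371) (nat_lit 15) (nat_lit 4) (nat_lit 17) (nat_lit 5) (nat_lit 17) (nat_lit 4) (nat_lit 353) (nat_lit 214) (nat_lit 213)) (XT.lf (nat_lit 0) (nat_lit 1512882633) (nat_lit 152) (nat_lit 19856529647) (nat_lit 0) (nat_lit 570782210) (nat_lit 13) (nat_lit 5) (nat_lit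 15) (nat_lit 4) (nat_lit 13) (nat_lit 4) (nat_lit 354) (nat_lit 214) (nat_lit 212)))) (XT.nd (nat_lit 156) (nat_lit 152) (nat_lit 0) (XT.nd (nat_lit 78) (nat_lit 152) (nat_lit 0) (XT.lf (nat_lit 0) (nat_lit 7928586324) (nat_lit 152) (nat_lit 7995234387) (nat_lit 0) (nat_lit 6535914176) (nat_lit 13) (nat_lit 5) (nat_lit 15) (nat_lit 4) (nat_lit 13) (nat_lit 4) (nat_lit 355) (nat_lit 214) (nat_lit 211)) (XT.lf (nat_lit 0) (nat_lit 4039009397) (nat_lit 152) (nat_lit 10394036780) (nat_lit 152) (nat_lit 8563916354) (nat_lit 11) (nat_lit 4) (nat_lit 13) (nat_lit 5) (nat_lit 13) (nat_lit 4) (nat_lit 356) (nat_lit 214) (nat_lit 210))) (XT.nd (nat_lit 78) (nat_lit 152) (nat_lit 0) (XT.lf (nat_lit 0) (nat_lit 16311684451) (nat_lit 152) (nat_lit 4747472827) (nat_lit 152) (nat_lit 2492645334) (nat_lit 11) (nat_lit 4) (nat_lit 13) (nat_lit 5) (nat_lit 13) (nat_lit 4) (nat_lit 357) (nat_lit 214) (nat_lit 209))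 (XT.lf (nat_lit 0) (nat_lit 3623405241) (nat_lit 152) (nat_lit 19492641592) (nat_lit 0) (nat_lit 1008538134) (nat_lit 9) (nat_lit 5) (nat_lit 11) (nat_lit 4) (nat_lit 9) (nat_lit 4) (nat_lit 358) (nat_lit 214) (nat_lit 208))))))))
noncomputable def xc1 : XT := (XT.nd (nat_lit 80730) (nat_lit 0) (nat_lit 0) (XT.nd (nat_lit 40404) (nat_lit 0) (nat_lit 0) (XT.nd (nat_lit 468) (nat_lit 76) (nat_lit 0) (XT.nd (nat_lit 234) (nat_lit 152) (nat_lit 0) (XT.nd (nat_lit 78) (nat_lit 76) (nat_lit 0) (XT.lf (nat_lit 0) (nat_lit 9847142884) (nat_lit 152) (nat_lit 8028142764) (nat_lit 0) (nat_lit 6839798185) (nat_lit 9) (nat_lit 5) (nat_lit 11) (nat_lit 4) (nat_lit 9) (nat_lit 4) (nat_lit 359) (nat_lit 214) (nat_lit 207)) (XT.nd (nat_lit 78) (nat_lit 0) (nat_lit 0) (XT.lf (nat_lit 0) (nat_lit 3609080051) (nat_lit 76) (nat_lit 12552278248) (nat_lit 76) (nat_lit 9163887344) (nat_lit 8) (nat_lit 4) (nat_lit 9) (nat_lit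 5) (nat_lit 9) (nat_lit 4) (nat_lit 360) (nat_lit 214) (nat_lit 206)) (XT.lf (nat_lit 0) (nat_lit 15490310956) (nat_lit 76) (nat_lit 7111513080) (nat_lit 76) (nat_lit 3353174405) (nat_lit 8) (nat_lit 4) (nat_lit 9) (nat_lit 5) (nat_lit 9) (nat_lit 4) (nat_lit 361) (nat_lit 214) (nat_lit 205)))) (XT.nd (nat_lit 78) (nat_lit 0) (nat_lit 0) (XT.lf (nat_lit 0) (nat_lit 908881468) (nat_lit 76) (nat_lit 1579431768) (nat_lit 152) (nat_lit 24117190939) (nat_lit 6) (nat_lit 5) (nat_lit 7) (nat_lit 5) (nat_lit 8) (nat_lit 4) (nat_lit 362) (nat_lit 214) (nat_lit 204)) (XT.nd (nat_lit 78) (nat_lit 0) (nat_lit 0) (XT.lf (nat_lit 0) (nat_lit 8444335021) (nat_lit 152) (nat_lit 14765385260) (nat_lit 0) (nat_lit 4065685486) (nat_lit 6) (nat_lit 5) (nat_lit 8) (nat_lit 4) (nat_lit 6) (nat_lit 4) (nat_lit 363) (nat_lit 214) (nat_lit 203)) (XT.lf (nat_lit 0) (nat_lit 14479370615) (nat_lit 152) (nat_lit 3719242626)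 (nat_lit 0) (nat_lit 9768804788) (nat_lit 6) (nat_lit 5) (nat_lit 8) (nat_lit 4) (nat_lit 6) (nat_lit 4) (nat_lit 364) (nat_lit 214) (nat_lit 202))))) (XT.nd (nat_lit 39624) (nat_lit 0) (nat_lit 608) (XT.nd (nat_lit 39468) (nat_lit 0) (nat_lit 912) (XT.lf (nat_lit 0) (nat_lit 7560874105) (nat_lit 76) (nat_lit 13076654736) (nat_lit 76) (nat_lit 8043840082) (nat_lit 5) (nat_lit 4) (nat_lit 6) (nat_lit 5) (nat_lit 6) (nat_lit 4) (nat_lit 365) (nat_lit 214) (nat_lit 201)) (XT.nd (nat_lit 78) (nat_lit 152) (nat_lit 0) (XT.lf (nat_lit 0) (nat_lit 7296104364) (nat_lit 152) (nat_lit 1356209366) (nat_lit 152) (nat_lit 1356209366) (nat_lit 19) (nat_lit 4) (nat_lit 21) (nat_lit 5) (nat_lit 21) (nat_lit 4) (nat_lit 350) (nat_lit 215) (nat_lit 215)) (XT.lf (nat_lit 0) (nat_lit 3761331159) (nat_lit 152) (nat_lit 13455199813) (nat_lit 0) (nat_lit 3259132230) (nat_lit 17) (nat_lit 5) (nat_lit 19) (nat_lit 4) (nat_lit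 17) (nat_lit 4) (nat_lit 351) (nat_lit 215) (nat_lit 214)))) (XT.nd (nat_lit 156) (nat_lit 152) (nat_lit 0) (XT.nd (nat_lit 78) (nat_lit 152) (nat_lit 0) (XT.lf (nat_lit 0) (nat_lit 10310783244) (nat_lit 152) (nat_lit 1317547335) (nat_lit 0) (nat_lit 9321012540) (nat_lit 17) (nat_lit 5) (nat_lit 19) (nat_lit 4) (nat_lit 17) (nat_lit 4) (nat_lit 352) (nat_lit 215) (nat_lit 213)) (XT.lf (nat_lit 0) (nat_lit 11089774846) (nat_lit 152) (nat_lit 5905924634) (nat_lit 152) (nat_lit 4442783275) (nat_lit 15) (nat_lit 4) (nat_lit 17) (nat_lit 5) (nat_lit 17) (nat_lit 4) (nat_lit 353) (nat_lit 215) (nat_lit 212))) (XT.nd (nat_lit 78) (nat_lit 0) (nat_lit 0) (XT.lf (nat_lit 0) (nat_lit 1717320736) (nat_lit 76) (nat_lit 84681866) (nat_lit 152) (nat_lit 20142298457) (nat_lit 13) (nat_lit 5) (nat_lit 14) (nat_lit 5) (nat_lit 15) (nat_lit 4) (nat_lit 354) (nat_lit 215) (nat_lit 211)) (XT.lf (nat_lit 0) (nat_lit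 8153147184) (nat_lit 152) (nat_lit 8481323758) (nat_lit 0) (nat_lit 5830674866) (nat_lit 13) (nat_lit 5) (nat_lit 15) (nat_lit 4) (nat_lit 13) (nat_lit 4) (nat_lit 355) (nat_lit 215) (nat_lit 210)))))) (XT.nd (nat_lit 546) (nat_lit 152) (nat_lit 0) (XT.nd (nat_lit 234) (nat_lit 152) (nat_lit 0) (XT.nd (nat_lit 78) (nat_lit 152) (nat_lit 0) (XT.lf (nat_lit 0) (nat_lit 3432156669) (nat_lit 152) (nat_lit 11159365327) (nat_lit 152) (nat_lit 8412185944) (nat_lit 11) (nat_lit 4) (nat_lit 13) (nat_lit 5) (nat_lit 13) (nat_lit 4) (nat_lit 356) (nat_lit 215) (nat_lit 209)) (XT.nd (nat_lit 78) (nat_lit 152) (nat_lit 0) (XT.lf (nat_lit 0) (nat_lit 15593857465) (nat_lit 152) (nat_lit 5562720210) (nat_lit 152) (nat_lit 2403203869) (nat_lit 11) (nat_lit 4) (nat_lit 13) (nat_lit 5) (nat_lit 13) (nat_lit 4) (nat_lit 357) (nat_lit 215) (nat_lit 208)) (XT.lf (nat_lit 0) (nat_lit 3640856189) (nat_lit 152) (nat_lit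 20342310702) (nat_lit 0) (nat_lit 150813558) (nat_lit 9) (nat_lit 5) (nat_lit 11) (nat_lit 4) (nat_lit 9) (nat_lit 4) (nat_lit 358) (nat_lit 215) (nat_lit 207)))) (XT.nd (nat_lit 156) (nat_lit 76) (nat_lit 0) (XT.nd (nat_lit 78) (nat_lit 76) (nat_lit 0) (XT.lf (nat_lit 0) (nat_lit 9805644621) (nat_lit 152) (nat_lit 8985469367) (nat_lit 0) (nat_lit 5934555785) (nat_lit 9) (nat_lit 5) (nat_lit 11) (nat_lit 4) (nat_lit 9) (nat_lit 4) (nat_lit 359) (nat_lit 215) (nat_lit 206)) (XT.lf (nat_lit 0) (nat_lit 2533120204) (nat_lit 76) (nat_lit 13522521744) (nat_lit 76) (nat_lit 9281485136) (nat_lit 8) (nat_lit 4) (nat_lit 9) (nat_lit 5) (nat_lit 9) (nat_lit 4) (nat_lit 360) (nat_lit 215) (nat_lit 205))) (XT.nd (nat_lit 78) (nat_lit 76) (nat_lit 0) (XT.lf (nat_lit 0) (nat_lit 14311525013) (nat_lit 76) (nat_lit 8128349770) (nat_lit 76) (nat_lit 3528140569) (nat_lit 8) (nat_lit 4) (nat_lit 9) (nat_lit 5) (nat_lit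 9) (nat_lit 4) (nat_lit 361) (nat_lit 215) (nat_lit 204)) (XT.lf (nat_lit 0) (nat_lit 2254773757) (nat_lit 152) (nat_lit 394277467) (nat_lit 76) (nat_lit 23970720236) (nat_lit 7) (nat_lit 5) (nat_lit 9) (nat_lit 5) (nat_lit 8) (nat_lit 4) (nat_lit 362) (nat_lit 215) (nat_lit 203))))) (XT.nd (nat_lit 39468) (nat_lit 0) (nat_lit 912) (XT.nd (nat_lit 78) (nat_lit 76) (nat_lit 0) (XT.lf (nat_lit 0) (nat_lit 8146939653) (nat_lit 152) (nat_lit 16180879951) (nat_lit 0) (nat_lit 2963140559) (nat_lit 6) (nat_lit 5) (nat_lit 8) (nat_lit 4) (nat_lit 6) (nat_lit 4) (nat_lit 363) (nat_lit 215) (nat_lit 202)) (XT.nd (nat_lit 78) (nat_lit 76) (nat_lit 0) (XT.lf (nat_lit 0) (nat_lit 14129256703) (nat_lit 152) (nat_lit 5231571014) (nat_lit 0) (nat_lit 8623208781) (nat_lit 6) (nat_lit 5) (nat_lit 8) (nat_lit 4) (nat_lit 6) (nat_lit 4) (nat_lit 364) (nat_lit 215) (nat_lit 201)) (XT.lf (nat_lit 0) (nat_lit 5933184983)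 (nat_lit 76) (nat_lit 14292478856) (nat_lit 76) (nat_lit 8473567995) (nat_lit 5) (nat_lit 4) (nat_lit 6) (nat_lit 5) (nat_lit 6) (nat_lit 4) (nat_lit 365) (nat_lit 215) (nat_lit 200)))) (XT.nd (nat_lit 156) (nat_lit 152) (nat_lit 0) (XT.nd (nat_lit 78) (nat_lit 152) (nat_lit 0) (XT.lf (nat_lit 0) (nat_lit 2167867062) (nat_lit 152) (nat_lit 5234928622) (nat_lit 0) (nat_lit 2167867062) (nat_lit 21) (nat_lit 5) (nat_lit 23) (nat_lit 4) (nat_lit 21) (nat_lit 4) (nat_lit 348) (nat_lit 216) (nat_lit 216)) (XT.lf (nat_lit 0) (nat_lit 1867181510) (nat_lit 152) (nat_lit 9116572966) (nat_lit 152) (nat_lit 8588962771) (nat_lit 19) (nat_lit 4) (nat_lit 21) (nat_lit 5) (nat_lit 21) (nat_lit 4) (nat_lit 349) (nat_lit 216) (nat_lit 215))) (XT.nd (nat_lit 78) (nat_lit 152) (nat_lit 0) (XT.lf (nat_lit 0) (nat_lit 14470426437) (nat_lit 152) (nat_lit 3293923023) (nat_lit 152) (nat_lit 2254069922) (nat_lit 19) (nat_lit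 4) (nat_lit 21) (nat_lit 5) (nat_lit 21) (nat_lit 4) (nat_lit 350) (nat_lit 216) (nat_lit 214)) (XT.lf (nat_lit 0) (nat_lit 4141583822) (nat_lit 152) (nat_lit 13702301203) (nat_lit 0) (nat_lit 2634548221) (nat_lit 17) (nat_lit 5) (nat_lit 19) (nat_lit 4) (nat_lit 17) (nat_lit 4) (nat_lit 351) (nat_lit 216) (nat_lit 213))))))) (XT.nd (nat_lit 1014) (nat_lit 76) (nat_lit 0) (XT.nd (nat_lit 468) (nat_lit 380) (nat_lit 0) (XT.nd (nat_lit 234) (nat_lit 152) (nat_lit 0) (XT.nd (nat_lit 78) (nat_lit 304) (nat_lit 0) (XT.lf (nat_lit 0) (nat_lit 10625508032) (nat_lit 152) (nat_lit 1682828164) (nat_lit 0) (nat_lit 8645101777) (nat_lit 17) (nat_lit 5) (nat_lit 19) (nat_lit 4) (nat_lit 17) (nat_lit 4) (nat_lit 352) (nat_lit 216) (nat_lit 212)) (XT.nd (nat_lit 78) (nat_lit 152) (nat_lit 0) (XT.lf (nat_lit 0) (nat_lit 10603377508) (nat_lit 152) (nat_lit 6640269450) (nat_lit 152) (nat_lit 4200280034) (nat_lit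 15) (nat_lit 4) (nat_lit 17) (nat_lit 5) (nat_lit 17) (nat_lit 4) (nat_lit 353) (nat_lit 216) (nat_lit 211)) (XT.lf (nat_lit 0) (nat_lit 1102110809) (nat_lit 76) (nat_lit 872293878) (nat_lit 152) (nat_lit 19976660702) (nat_lit 13) (nat_lit 5) (nat_lit 14) (nat_lit 5) (nat_lit 15) (nat_lit 4) (nat_lit 354) (nat_lit 216) (nat_lit 210)))) (XT.nd (nat_lit 78) (nat_lit 152) (nat_lit 0) (XT.lf (nat_lit 0) (nat_lit 8258290619) (nat_lit 152) (nat_lit 9210988691) (nat_lit 0) (nat_lit 5003988789) (nat_lit 13) (nat_lit 5) (nat_lit 15) (nat_lit 4) (nat_lit 13) (nat_lit 4) (nat_lit 355) (nat_lit 216) (nat_lit 209)) (XT.nd (nat_lit 78) (nat_lit 0) (nat_lit 0) (XT.lf (nat_lit 0) (nat_lit 2581820615) (nat_lit 152) (nat_lit 12048988968) (nat_lit 152) (nat_lit 8382350180) (nat_lit 11) (nat_lit 4) (nat_lit 13) (nat_lit 5) (nat_lit 13) (nat_lit 4) (nat_lit 356) (nat_lit 216) (nat_lit 208)) (XT.lf (nat_lit 0) (nat_lit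 14635779413) (nat_lit 152) (nat_lit 6500808740) (nat_lit 152) (nat_lit 2433842809) (nat_lit 11) (nat_lit 4) (nat_lit 13) (nat_lit 5) (nat_lit 13) (nat_lit 4) (nat_lit 357) (nat_lit 216) (nat_lit 207))))) (XT.nd (nat_lit 234) (nat_lit 152) (nat_lit 0) (XT.nd (nat_lit 78) (nat_lit 76) (nat_lit 0) (XT.lf (nat_lit 0) (nat_lit 2704496106) (nat_lit 76) (nat_lit 840122293) (nat_lit 152) (nat_lit 20601346934) (nat_lit 9) (nat_lit 5) (nat_lit 10) (nat_lit 5) (nat_lit 11) (nat_lit 4) (nat_lit 358) (nat_lit 216) (nat_lit 206)) (XT.nd (nat_lit 78) (nat_lit 76) (nat_lit 0) (XT.lf (nat_lit 0) (nat_lit 9646719956) (nat_lit 152) (nat_lit 10183695098) (nat_lit 0) (nat_lit 4908504478) (nat_lit 9) (nat_lit 5) (nat_lit 11) (nat_lit 4) (nat_lit 9) (nat_lit 4) (nat_lit 359) (nat_lit 216) (nat_lit 205)) (XT.lf (nat_lit 0) (nat_lit 1216144588) (nat_lit 76) (nat_lit 14616456729) (nat_lit 76) (nat_lit 9519068657) (nat_lit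 8) (nat_lit 4) (nat_lit 9) (nat_lit 5) (nat_lit 9) (nat_lit 4) (nat_lit 360) (nat_lit 216) (nat_lit 204)))) (XT.nd (nat_lit 156) (nat_lit 76) (nat_lit 0) (XT.nd (nat_lit 78) (nat_lit 76) (nat_lit 0) (XT.lf (nat_lit 0) (nat_lit 12894718238) (nat_lit 76) (nat_lit 9267520867) (nat_lit 76) (nat_lit 3821421539) (nat_lit 8) (nat_lit 4) (nat_lit 9) (nat_lit 5) (nat_lit 9) (nat_lit 4) (nat_lit 361) (nat_lit 216) (nat_lit 203)) (XT.lf (nat_lit 0) (nat_lit 1911973233) (nat_lit 152) (nat_lit 1922468015) (nat_lit 76) (nat_lit 22802090900) (nat_lit 7) (nat_lit 5) (nat_lit 9) (nat_lit 5) (nat_lit 8) (nat_lit 4) (nat_lit 362) (nat_lit 216) (nat_lit 202))) (XT.nd (nat_lit 78) (nat_lit 0) (nat_lit 0) (XT.lf (nat_lit 0) (nat_lit 7733603779) (nat_lit 152) (nat_lit 17835411888) (nat_lit 0) (nat_lit 1740125593) (nat_lit 6) (nat_lit 5) (nat_lit 8) (nat_lit 4) (nat_lit 6) (nat_lit 4) (nat_lit 363) (nat_lit 216) (nat_lit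 201)) (XT.lf (nat_lit 0) (nat_lit 13664737775) (nat_lit 152) (nat_lit 6980116249) (nat_lit 0) (nat_lit 7358396650) (nat_lit 6) (nat_lit 5) (nat_lit 8) (nat_lit 4) (nat_lit 6) (nat_lit 4) (nat_lit 364) (nat_lit 216) (nat_lit 200)))))) (XT.nd (nat_lit 39624) (nat_lit 0) (nat_lit 304) (XT.nd (nat_lit 39312) (nat_lit 0) (nat_lit 912) (XT.nd (nat_lit 39156) (nat_lit 0) (nat_lit 1368) (XT.lf (nat_lit 0) (nat_lit 4068914458) (nat_lit 76) (nat_lit 15630434088) (nat_lit 76) (nat_lit 9020342537) (nat_lit 5) (nat_lit 4) (nat_lit 6) (nat_lit 5) (nat_lit 6) (nat_lit 4) (nat_lit 365) (nat_lit 216) (nat_lit 199)) (XT.nd (nat_lit 78) (nat_lit 0) (nat_lit 0) (XT.lf (nat_lit 0) (nat_lit 1056675125) (nat_lit 152) (nat_lit 4051158622) (nat_lit 152) (nat_lit 4051158622) (nat_lit 23) (nat_lit 4) (nat_lit 25) (nat_lit 5) (nat_lit 25) (nat_lit 4) (nat_lit 346) (nat_lit 217) (nat_lit 217)) (XT.lf (nat_lit 0) (nat_lit 14807183613)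 (nat_lit 152) (nat_lit 2235557440) (nat_lit 152) (nat_lit 1681250170) (nat_lit 23) (nat_lit 4) (nat_lit 25) (nat_lit 5) (nat_lit 25) (nat_lit 4) (nat_lit 347) (nat_lit 217) (nat_lit 216)))) (XT.nd (nat_lit 156) (nat_lit 152) (nat_lit 0) (XT.nd (nat_lit 78) (nat_lit 152) (nat_lit 0) (XT.lf (nat_lit 0) (nat_lit 4810062195) (nat_lit 152) (nat_lit 10593647892) (nat_lit 0) (nat_lit 3739013500) (nat_lit 21) (nat_lit 5) (nat_lit 23) (nat_lit 4) (nat_lit 21) (nat_lit 4) (nat_lit 348) (nat_lit 217) (nat_lit 215)) (XT.lf (nat_lit 0) (nat_lit 1619963459) (nat_lit 152) (nat_lit 9769416479) (nat_lit 152) (nat_lit 8186124878) (nat_lit 19) (nat_lit 4) (nat_lit 21) (nat_lit 5) (nat_lit 21) (nat_lit 4) (nat_lit 349) (nat_lit 217) (nat_lit 214))) (XT.nd (nat_lit 78) (nat_lit 152) (nat_lit 0) (XT.lf (nat_lit 0) (nat_lit 14104973151) (nat_lit 152) (nat_lit 3999090901) (nat_lit 152) (nat_lit 1918476088) (nat_lit 19)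 (nat_lit 4) (nat_lit 21) (nat_lit 5) (nat_lit 21) (nat_lit 4) (nat_lit 350) (nat_lit 217) (nat_lit 213)) (XT.lf (nat_lit 0) (nat_lit 4400222479) (nat_lit 152) (nat_lit 14196719897) (nat_lit 0) (nat_lit 1887033380) (nat_lit 17) (nat_lit 5) (nat_lit 19) (nat_lit 4) (nat_lit 17) (nat_lit 4) (nat_lit 351) (nat_lit 217) (nat_lit 212))))) (XT.nd (nat_lit 234) (nat_lit 304) (nat_lit 0) (XT.nd (nat_lit 78) (nat_lit 304) (nat_lit 0) (XT.lf (nat_lit 0) (nat_lit 10820527394) (nat_lit 152) (nat_lit 2291984178) (nat_lit 0) (nat_lit 7847755134) (nat_lit 17) (nat_lit 5) (nat_lit 19) (nat_lit 4) (nat_lit 17) (nat_lit 4) (nat_lit 352) (nat_lit 217) (nat_lit 211)) (XT.nd (nat_lit 78) (nat_lit 152) (nat_lit 0) (XT.lf (nat_lit 0) (nat_lit 9873250289) (nat_lit 152) (nat_lit 7498909254) (nat_lit 152) (nat_lit 4079939750) (nat_lit 15) (nat_lit 4) (nat_lit 17) (nat_lit 5) (nat_lit 17) (nat_lit 4) (nat_lit 353) (nat_lit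 217) (nat_lit 210)) (XT.lf (nat_lit 0) (nat_lit 241327750) (nat_lit 76) (nat_lit 1785156636) (nat_lit 152) (nat_lit 19934084111) (nat_lit 13) (nat_lit 5) (nat_lit 14) (nat_lit 5) (nat_lit 15) (nat_lit 4) (nat_lit 354) (nat_lit 217) (nat_lit 209)))) (XT.nd (nat_lit 156) (nat_lit 152) (nat_lit 0) (XT.nd (nat_lit 78) (nat_lit 152) (nat_lit 0) (XT.lf (nat_lit 0) (nat_lit 8244108504) (nat_lit 152) (nat_lit 10184866757) (nat_lit 0) (nat_lit 4055133595) (nat_lit 13) (nat_lit 5) (nat_lit 15) (nat_lit 4) (nat_lit 13) (nat_lit 4) (nat_lit 355) (nat_lit 217) (nat_lit 208)) (XT.lf (nat_lit 0) (nat_lit 1487258224) (nat_lit 152) (nat_lit 13063685043) (nat_lit 152) (nat_lit 8474382991) (nat_lit 11) (nat_lit 4) (nat_lit 13) (nat_lit 5) (nat_lit 13) (nat_lit 4) (nat_lit 356) (nat_lit 217) (nat_lit 207))) (XT.nd (nat_lit 78) (nat_lit 152) (nat_lit 0) (XT.lf (nat_lit 0) (nat_lit 13436613141) (nat_lit 152) (nat_lit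 7562558105) (nat_lit 152) (nat_lit 2584588924) (nat_lit 11) (nat_lit 4) (nat_lit 13) (nat_lit 5) (nat_lit 13) (nat_lit 4) (nat_lit 357) (nat_lit 217) (nat_lit 206)) (XT.lf (nat_lit 0) (nat_lit 1373203312) (nat_lit 76) (nat_lit 1957746796) (nat_lit 152) (nat_lit 20829673130) (nat_lit 9) (nat_lit 5) (nat_lit 10) (nat_lit 5) (nat_lit 11) (nat_lit 4) (nat_lit 358) (nat_lit 217) (nat_lit 205))))))))
noncomputable def xc2 : XT := (XT.nd (nat_lit 41028) (nat_lit 0) (nat_lit 76) (XT.nd (nat_lit 39936) (nat_lit 0) (nat_lit 76) (XT.nd (nat_lit 468) (nat_lit 76) (nat_lit 0) (XT.nd (nat_lit 234) (nat_lit 152) (nat_lit 0) (XT.nd (nat_lit 78) (nat_lit 76) (nat_lit 0) (XT.lf (nat_lit 0) (nat_lit 9370230021) (nat_lit 152) (nat_lit 11623866951) (nat_lit 0) (nat_lit 3760747713) (nat_lit 9) (nat_lit 5) (nat_lit 11) (nat_lit 4) (nat_lit 9) (nat_lit 4) (nat_lit 359) (nat_lit 217) (nat_lit 204)) (XT.nd (nat_lit 78)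 (nat_lit 76) (nat_lit 0) (XT.lf (nat_lit 0) (nat_lit 15494268487) (nat_lit 152) (nat_lit 338499075) (nat_lit 0) (nat_lit 9536074922) (nat_lit 9) (nat_lit 5) (nat_lit 11) (nat_lit 4) (nat_lit 9) (nat_lit 4) (nat_lit 360) (nat_lit 217) (nat_lit 203)) (XT.lf (nat_lit 0) (nat_lit 11238652642) (nat_lit 76) (nat_lit 10530021762) (nat_lit 76) (nat_lit 4233273580) (nat_lit 8) (nat_lit 4) (nat_lit 9) (nat_lit 5) (nat_lit 9) (nat_lit 4) (nat_lit 361) (nat_lit 217) (nat_lit 202)))) (XT.nd (nat_lit 78) (nat_lit 76) (nat_lit 0) (XT.lf (nat_lit 0) (nat_lit 1453711067) (nat_lit 152) (nat_lit 3688945629) (nat_lit 76) (nat_lit 21513262207) (nat_lit 7) (nat_lit 5) (nat_lit 9) (nat_lit 5) (nat_lit 8) (nat_lit 4) (nat_lit 362) (nat_lit 217) (nat_lit 201)) (XT.nd (nat_lit 78) (nat_lit 0) (nat_lit 0) (XT.lf (nat_lit 0) (nat_lit 7203966231) (nat_lit 152) (nat_lit 19730426778) (nat_lit 0) (nat_lit 395571933) (nat_lit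 6) (nat_lit 5) (nat_lit 8) (nat_lit 4) (nat_lit 6) (nat_lit 4) (nat_lit 363) (nat_lit 217) (nat_lit 200)) (XT.lf (nat_lit 0) (nat_lit 13085407943) (nat_lit 152) (nat_lit 8966406186) (nat_lit 0) (nat_lit 5973263219) (nat_lit 6) (nat_lit 5) (nat_lit 8) (nat_lit 4) (nat_lit 6) (nat_lit 4) (nat_lit 364) (nat_lit 217) (nat_lit 199))))) (XT.nd (nat_lit 39156) (nat_lit 0) (nat_lit 1064) (XT.nd (nat_lit 39000) (nat_lit 0) (nat_lit 1520) (XT.lf (nat_lit 0) (nat_lit 1966433556) (nat_lit 76) (nat_lit 17091689521) (nat_lit 76) (nat_lit 9684641471) (nat_lit 5) (nat_lit 4) (nat_lit 6) (nat_lit 5) (nat_lit 6) (nat_lit 4) (nat_lit 365) (nat_lit 217) (nat_lit 198)) (XT.nd (nat_lit 78) (nat_lit 152) (nat_lit 0) (XT.lf (nat_lit 0) (nat_lit 6319635790) (nat_lit 152) (nat_lit 1226115158) (nat_lit 152) (nat_lit 1226115158) (nat_lit 27) (nat_lit 4) (nat_lit 29) (nat_lit 5) (nat_lit 29) (nat_lit 4) (nat_lit 344) (nat_lit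 218) (nat_lit 218)) (XT.lf (nat_lit 0) (nat_lit 4089231975) (nat_lit 152) (nat_lit 10317692025) (nat_lit 0) (nat_lit 3518295486) (nat_lit 25) (nat_lit 5) (nat_lit 27) (nat_lit 4) (nat_lit 25) (nat_lit 4) (nat_lit 345) (nat_lit 218) (nat_lit 217)))) (XT.nd (nat_lit 156) (nat_lit 304) (nat_lit 0) (XT.nd (nat_lit 78) (nat_lit 0) (nat_lit 0) (XT.lf (nat_lit 0) (nat_lit 1989522477) (nat_lit 152) (nat_lit 8727556605) (nat_lit 152) (nat_lit 7602312846) (nat_lit 23) (nat_lit 4) (nat_lit 25) (nat_lit 5) (nat_lit 25) (nat_lit 4) (nat_lit 346) (nat_lit 218) (nat_lit 216)) (XT.lf (nat_lit 0) (nat_lit 14563134701) (nat_lit 152) (nat_lit 2913518033) (nat_lit 152) (nat_lit 1250111877) (nat_lit 23) (nat_lit 4) (nat_lit 25) (nat_lit 5) (nat_lit 25) (nat_lit 4) (nat_lit 347) (nat_lit 218) (nat_lit 215))) (XT.nd (nat_lit 78) (nat_lit 152) (nat_lit 0) (XT.lf (nat_lit 0) (nat_lit 5162412172) (nat_lit 152) (nat_lit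 10965128001) (nat_lit 0) (nat_lit 3019378915) (nat_lit 21) (nat_lit 5) (nat_lit 23) (nat_lit 4) (nat_lit 21) (nat_lit 4) (nat_lit 348) (nat_lit 218) (nat_lit 214)) (XT.lf (nat_lit 0) (nat_lit 1125311340) (nat_lit 152) (nat_lit 10548063758) (nat_lit 152) (nat_lit 7907707290) (nat_lit 19) (nat_lit 4) (nat_lit 21) (nat_lit 5) (nat_lit 21) (nat_lit 4) (nat_lit 349) (nat_lit 218) (nat_lit 213)))))) (XT.nd (nat_lit 546) (nat_lit 380) (nat_lit 0) (XT.nd (nat_lit 234) (nat_lit 456) (nat_lit 0) (XT.nd (nat_lit 78) (nat_lit 152) (nat_lit 0) (XT.lf (nat_lit 0) (nat_lit 13495529542) (nat_lit 152) (nat_lit 4828538533) (nat_lit 152) (nat_lit 1705343997) (nat_lit 19) (nat_lit 4) (nat_lit 21) (nat_lit 5) (nat_lit 21) (nat_lit 4) (nat_lit 350) (nat_lit 218) (nat_lit 212)) (XT.nd (nat_lit 78) (nat_lit 0) (nat_lit 0) (XT.lf (nat_lit 0) (nat_lit 4537473125) (nat_lit 152) (nat_lit 14938887910) (nat_lit 0) (nat_lit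 1015934536) (nat_lit 17) (nat_lit 5) (nat_lit 19) (nat_lit 4) (nat_lit 17) (nat_lit 4) (nat_lit 351) (nat_lit 218) (nat_lit 211)) (XT.lf (nat_lit 0) (nat_lit 10896011733) (nat_lit 152) (nat_lit 3145547648) (nat_lit 0) (nat_lit 6928275901) (nat_lit 17) (nat_lit 5) (nat_lit 19) (nat_lit 4) (nat_lit 17) (nat_lit 4) (nat_lit 352) (nat_lit 218) (nat_lit 210)))) (XT.nd (nat_lit 156) (nat_lit 228) (nat_lit 0) (XT.nd (nat_lit 78) (nat_lit 76) (nat_lit 0) (XT.lf (nat_lit 0) (nat_lit 8898755212) (nat_lit 152) (nat_lit 8482594313) (nat_lit 152) (nat_lit 4081657274) (nat_lit 15) (nat_lit 4) (nat_lit 17) (nat_lit 5) (nat_lit 17) (nat_lit 4) (nat_lit 353) (nat_lit 218) (nat_lit 209)) (XT.lf (nat_lit 0) (nat_lit 1963908427) (nat_lit 228) (nat_lit 854425713) (nat_lit 76) (nat_lit 19154372121) (nat_lit 14) (nat_lit 5) (nat_lit 17) (nat_lit 5) (nat_lit 15) (nat_lit 4) (nat_lit 354) (nat_lit 218) (nat_lit 208)))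 (XT.nd (nat_lit 78) (nat_lit 152) (nat_lit 0) (XT.lf (nat_lit 0) (nat_lit 8110588447) (nat_lit 152) (nat_lit 11403808918) (nat_lit 0) (nat_lit 2983280190) (nat_lit 13) (nat_lit 5) (nat_lit 15) (nat_lit 4) (nat_lit 13) (nat_lit 4) (nat_lit 355) (nat_lit 218) (nat_lit 207)) (XT.lf (nat_lit 0) (nat_lit 147513082) (nat_lit 152) (nat_lit 14204340180) (nat_lit 152) (nat_lit 8688364794) (nat_lit 11) (nat_lit 4) (nat_lit 13) (nat_lit 5) (nat_lit 13) (nat_lit 4) (nat_lit 356) (nat_lit 218) (nat_lit 206))))) (XT.nd (nat_lit 234) (nat_lit 228) (nat_lit 0) (XT.nd (nat_lit 78) (nat_lit 152) (nat_lit 0) (XT.lf (nat_lit 0) (nat_lit 11995310832) (nat_lit 152) (nat_lit 8748896049) (nat_lit 152) (nat_lit 2855573936) (nat_lit 11) (nat_lit 4) (nat_lit 13) (nat_lit 5) (nat_lit 13) (nat_lit 4) (nat_lit 357) (nat_lit 218) (nat_lit 205)) (XT.nd (nat_lit 78) (nat_lit 76) (nat_lit 0) (XT.lf (nat_lit 0) (nat_lit 2999986279)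 (nat_lit 228) (nat_lit 199705874) (nat_lit 76) (nat_lit 20978268391) (nat_lit 10) (nat_lit 5) (nat_lit 13) (nat_lit 5) (nat_lit 11) (nat_lit 4) (nat_lit 358) (nat_lit 218) (nat_lit 204)) (XT.lf (nat_lit 0) (nat_lit 8975933224) (nat_lit 152) (nat_lit 13307243329) (nat_lit 0) (nat_lit 2490282596) (nat_lit 9) (nat_lit 5) (nat_lit 11) (nat_lit 4) (nat_lit 9) (nat_lit 4) (nat_lit 359) (nat_lit 218) (nat_lit 203)))) (XT.nd (nat_lit 156) (nat_lit 152) (nat_lit 0) (XT.nd (nat_lit 78) (nat_lit 76) (nat_lit 0) (XT.lf (nat_lit 0) (nat_lit 15047596079) (nat_lit 152) (nat_lit 2117527741) (nat_lit 0) (nat_lit 8223390834) (nat_lit 9) (nat_lit 5) (nat_lit 11) (nat_lit 4) (nat_lit 9) (nat_lit 4) (nat_lit 360) (nat_lit 218) (nat_lit 202)) (XT.lf (nat_lit 0) (nat_lit 9341881179) (nat_lit 76) (nat_lit 11916955611) (nat_lit 76) (nat_lit 4764056562) (nat_lit 8) (nat_lit 4) (nat_lit 9) (nat_lit 5) (nat_lit 9) (nat_lit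 4) (nat_lit 361) (nat_lit 218) (nat_lit 201))) (XT.nd (nat_lit 78) (nat_lit 76) (nat_lit 0) (XT.lf (nat_lit 0) (nat_lit 879586838) (nat_lit 152) (nat_lit 5695253833) (nat_lit 76) (nat_lit 20103107996) (nat_lit 7) (nat_lit 5) (nat_lit 9) (nat_lit 5) (nat_lit 8) (nat_lit 4) (nat_lit 362) (nat_lit 218) (nat_lit 200)) (XT.lf (nat_lit 0) (nat_lit 5478677308) (nat_lit 76) (nat_lit 1085937537) (nat_lit 152) (nat_lit 20788693548) (nat_lit 6) (nat_lit 5) (nat_lit 7) (nat_lit 5) (nat_lit 8) (nat_lit 4) (nat_lit 363) (nat_lit 218) (nat_lit 199))))))) (XT.nd (nat_lit 39780) (nat_lit 0) (nat_lit 0) (XT.nd (nat_lit 39234) (nat_lit 0) (nat_lit 836) (XT.nd (nat_lit 39000) (nat_lit 0) (nat_lit 1444) (XT.nd (nat_lit 78) (nat_lit 0) (nat_lit 0) (XT.lf (nat_lit 0) (nat_lit 12390760995) (nat_lit 152) (nat_lit 11192176418) (nat_lit 0) (nat_lit 4466598177) (nat_lit 6) (nat_lit 5) (nat_lit 8) (nat_lit 4) (nat_lit 6) (nat_lit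 4) (nat_lit 364) (nat_lit 218) (nat_lit 198)) (XT.nd (nat_lit 38844) (nat_lit 0) (nat_lit 1748) (XT.lf (nat_lit 0) (nat_lit 18303868995) (nat_lit 152) (nat_lit 371162291) (nat_lit 0) (nat_lit 10093392268) (nat_lit 6) (nat_lit 5) (nat_lit 8) (nat_lit 4) (nat_lit 6) (nat_lit 4) (nat_lit 365) (nat_lit 218) (nat_lit 197)) (XT.lf (nat_lit 0) (nat_lit 1110657369) (nat_lit 228) (nat_lit 6186278684) (nat_lit 0) (nat_lit 1110657369) (nat_lit 29) (nat_lit 5) (nat_lit 32) (nat_lit 4) (nat_lit 29) (nat_lit 4) (nat_lit 342) (nat_lit 219) (nat_lit 219)))) (XT.nd (nat_lit 78) (nat_lit 304) (nat_lit 0) (XT.lf (nat_lit 0) (nat_lit 8851044585) (nat_lit 228) (nat_lit 71918890) (nat_lit 0) (nat_lit 8251218711) (nat_lit 29) (nat_lit 5) (nat_lit 32) (nat_lit 4) (nat_lit 29) (nat_lit 4) (nat_lit 343) (nat_lit 219) (nat_lit 218)) (XT.nd (nat_lit 78) (nat_lit 152) (nat_lit 0) (XT.lf (nat_lit 0) (nat_lit 12517053639) (nat_lit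 152) (nat_lit 3105130042) (nat_lit 152) (nat_lit 1922948949) (nat_lit 27) (nat_lit 4) (nat_lit 29) (nat_lit 5) (nat_lit 29) (nat_lit 4) (nat_lit 344) (nat_lit 219) (nat_lit 217)) (XT.lf (nat_lit 0) (nat_lit 4537793070) (nat_lit 152) (nat_lit 10565765637) (nat_lit 0) (nat_lit 2824484728) (nat_lit 25) (nat_lit 5) (nat_lit 27) (nat_lit 4) (nat_lit 25) (nat_lit 4) (nat_lit 345) (nat_lit 219) (nat_lit 216))))) (XT.nd (nat_lit 234) (nat_lit 304) (nat_lit 0) (XT.nd (nat_lit 78) (nat_lit 152) (nat_lit 0) (XT.lf (nat_lit 0) (nat_lit 1617930958) (nat_lit 152) (nat_lit 9478577249) (nat_lit 152) (nat_lit 7227106510) (nat_lit 23) (nat_lit 4) (nat_lit 25) (nat_lit 5) (nat_lit 25) (nat_lit 4) (nat_lit 346) (nat_lit 219) (nat_lit 215)) (XT.nd (nat_lit 78) (nat_lit 152) (nat_lit 0) (XT.lf (nat_lit 0) (nat_lit 14074823630) (nat_lit 152) (nat_lit 3715724342) (nat_lit 152) (nat_lit 941765837) (nat_lit 23) (nat_lit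 4) (nat_lit 25) (nat_lit 5) (nat_lit 25) (nat_lit 4) (nat_lit 347) (nat_lit 219) (nat_lit 214)) (XT.lf (nat_lit 0) (nat_lit 5393091936) (nat_lit 152) (nat_lit 11584622167) (nat_lit 0) (nat_lit 2176201564) (nat_lit 21) (nat_lit 5) (nat_lit 23) (nat_lit 4) (nat_lit 21) (nat_lit 4) (nat_lit 348) (nat_lit 219) (nat_lit 213)))) (XT.nd (nat_lit 156) (nat_lit 152) (nat_lit 0) (XT.nd (nat_lit 78) (nat_lit 0) (nat_lit 0) (XT.lf (nat_lit 0) (nat_lit 382792934) (nat_lit 152) (nat_lit 11453195172) (nat_lit 152) (nat_lit 7753466731) (nat_lit 19) (nat_lit 4) (nat_lit 21) (nat_lit 5) (nat_lit 21) (nat_lit 4) (nat_lit 349) (nat_lit 219) (nat_lit 212)) (XT.lf (nat_lit 0) (nat_lit 12641563088) (nat_lit 152) (nat_lit 5782990679) (nat_lit 152) (nat_lit 1614487414) (nat_lit 19) (nat_lit 4) (nat_lit 21) (nat_lit 5) (nat_lit 21) (nat_lit 4) (nat_lit 350) (nat_lit 219) (nat_lit 211))) (XT.nd (nat_lit 78) (nat_lit 0) (nat_lit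 0) (XT.lf (nat_lit 0) (nat_lit 4553455688) (nat_lit 152) (nat_lit 15929453740) (nat_lit 0) (nat_lit 20490537) (nat_lit 17) (nat_lit 5) (nat_lit 19) (nat_lit 4) (nat_lit 17) (nat_lit 4) (nat_lit 351) (nat_lit 219) (nat_lit 210)) (XT.lf (nat_lit 0) (nat_lit 10852027008) (nat_lit 152) (nat_lit 4244264406) (nat_lit 0) (nat_lit 5885860650) (nat_lit 17) (nat_lit 5) (nat_lit 19) (nat_lit 4) (nat_lit 17) (nat_lit 4) (nat_lit 352) (nat_lit 219) (nat_lit 209)))))) (XT.nd (nat_lit 546) (nat_lit 228) (nat_lit 0) (XT.nd (nat_lit 234) (nat_lit 304) (nat_lit 0) (XT.nd (nat_lit 78) (nat_lit 152) (nat_lit 0) (XT.lf (nat_lit 0) (nat_lit 7679040779) (nat_lit 152) (nat_lit 9592184159) (nat_lit 152) (nat_lit 4205434104) (nat_lit 15) (nat_lit 4) (nat_lit 17) (nat_lit 5) (nat_lit 17) (nat_lit 4) (nat_lit 353) (nat_lit 219) (nat_lit 208)) (XT.nd (nat_lit 78) (nat_lit 76) (nat_lit 0) (XT.lf (nat_lit 0) (nat_lit 1784168444)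 (nat_lit 228) (nat_lit 2191063481) (nat_lit 76) (nat_lit 18012306433) (nat_lit 14) (nat_lit 5) (nat_lit 17) (nat_lit 5) (nat_lit 15) (nat_lit 4) (nat_lit 354) (nat_lit 219) (nat_lit 207)) (XT.lf (nat_lit 0) (nat_lit 7857613778) (nat_lit 152) (nat_lit 12868880269) (nat_lit 0) (nat_lit 1787492002) (nat_lit 13) (nat_lit 5) (nat_lit 15) (nat_lit 4) (nat_lit 13) (nat_lit 4) (nat_lit 355) (nat_lit 219) (nat_lit 206)))) (XT.nd (nat_lit 156) (nat_lit 152) (nat_lit 0) (XT.nd (nat_lit 78) (nat_lit 152) (nat_lit 0) (XT.lf (nat_lit 0) (nat_lit 14042705857) (nat_lit 152) (nat_lit 1419718155) (nat_lit 0) (nat_lit 7595237354) (nat_lit 13) (nat_lit 5) (nat_lit 15) (nat_lit 4) (nat_lit 13) (nat_lit 4) (nat_lit 356) (nat_lit 219) (nat_lit 205)) (XT.lf (nat_lit 0) (nat_lit 10310613097) (nat_lit 152) (nat_lit 10060859177) (nat_lit 152) (nat_lit 3247034627) (nat_lit 11) (nat_lit 4) (nat_lit 13) (nat_lit 5) (nat_lit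 13) (nat_lit 4) (nat_lit 357) (nat_lit 219) (nat_lit 204))) (XT.nd (nat_lit 78) (nat_lit 76) (nat_lit 0) (XT.lf (nat_lit 0) (nat_lit 2560633366) (nat_lit 228) (nat_lit 1997030630) (nat_lit 76) (nat_lit 19640144489) (nat_lit 10) (nat_lit 5) (nat_lit 13) (nat_lit 5) (nat_lit 11) (nat_lit 4) (nat_lit 358) (nat_lit 219) (nat_lit 203)) (XT.lf (nat_lit 0) (nat_lit 8463485033) (nat_lit 152) (nat_lit 15235295142) (nat_lit 0) (nat_lit 1095999013) (nat_lit 9) (nat_lit 5) (nat_lit 11) (nat_lit 4) (nat_lit 9) (nat_lit 4) (nat_lit 359) (nat_lit 219) (nat_lit 202))))) (XT.nd (nat_lit 234) (nat_lit 76) (nat_lit 0) (XT.nd (nat_lit 78) (nat_lit 152) (nat_lit 0) (XT.lf (nat_lit 0) (nat_lit 14484297781) (nat_lit 152) (nat_lit 4138445852) (nat_lit 0) (nat_lit 6788117957) (nat_lit 9) (nat_lit 5) (nat_lit 11) (nat_lit 4) (nat_lit 9) (nat_lit 4) (nat_lit 360) (nat_lit 219) (nat_lit 201)) (XT.nd (nat_lit 78) (nat_lit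 76) (nat_lit 0) (XT.lf (nat_lit 0) (nat_lit 7202746476) (nat_lit 76) (nat_lit 13429534299) (nat_lit 76) (nat_lit 5414234278) (nat_lit 8) (nat_lit 4) (nat_lit 9) (nat_lit 5) (nat_lit 9) (nat_lit 4) (nat_lit 361) (nat_lit 219) (nat_lit 200)) (XT.lf (nat_lit 0) (nat_lit 189098882) (nat_lit 152) (nat_lit 7943145713) (nat_lit 76) (nat_lit 18570396093) (nat_lit 7) (nat_lit 5) (nat_lit 9) (nat_lit 5) (nat_lit 8) (nat_lit 4) (nat_lit 362) (nat_lit 219) (nat_lit 199)))) (XT.nd (nat_lit 156) (nat_lit 0) (nat_lit 0) (XT.nd (nat_lit 78) (nat_lit 0) (nat_lit 0) (XT.lf (nat_lit 0) (nat_lit 3113004975) (nat_lit 76) (nat_lit 2698347413) (nat_lit 152) (nat_lit 21567912397) (nat_lit 6) (nat_lit 5) (nat_lit 7) (nat_lit 5) (nat_lit 8) (nat_lit 4) (nat_lit 363) (nat_lit 219) (nat_lit 198)) (XT.lf (nat_lit 0) (nat_lit 11580189959) (nat_lit 152) (nat_lit 13659371792) (nat_lit 0) (nat_lit 2837085021) (nat_lit 6) (nat_lit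 5) (nat_lit 8) (nat_lit 4) (nat_lit 6) (nat_lit 4) (nat_lit 364) (nat_lit 219) (nat_lit 197))) (XT.nd (nat_lit 38688) (nat_lit 0) (nat_lit 2128) (XT.lf (nat_lit 0) (nat_lit 17447822479) (nat_lit 152) (nat_lit 2921887263) (nat_lit 0) (nat_lit 8426742872) (nat_lit 6) (nat_lit 5) (nat_lit 8) (nat_lit 4) (nat_lit 6) (nat_lit 4) (nat_lit 365) (nat_lit 219) (nat_lit 196)) (XT.lf (nat_lit 0) (nat_lit 3016586629) (nat_lit 228) (nat_lit 2031516822) (nat_lit 0) (nat_lit 3016586629) (nat_lit 34) (nat_lit 5) (nat_lit 37) (nat_lit 4) (nat_lit 34) (nat_lit 4) (nat_lit 340) (nat_lit 220) (nat_lit 220))))))))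
noncomputable def xc3 : XT := (XT.nd (nat_lit 40560) (nat_lit 0) (nat_lit 0) (XT.nd (nat_lit 1014) (nat_lit 684) (nat_lit 0) (XT.nd (nat_lit 468) (nat_lit 608) (nat_lit 0) (XT.nd (nat_lit 234) (nat_lit 456) (nat_lit 0) (XT.nd (nat_lit 78) (nat_lit 228) (nat_lit 0) (XT.lf (nat_lit 0) (nat_lit 8430260883) (nat_lit 152) (nat_lit 4333633167) (nat_lit 152) (nat_lit 3703456103) (nat_lit 32) (nat_lit 4) (nat_lit 34) (nat_lit 5) (nat_lit 34) (nat_lit 4) (nat_lit 341) (nat_lit 220) (nat_lit 219)) (XT.nd (nat_lit 78) (nat_lit 0) (nat_lit 0) (XT.lf (nat_lit 0) (nat_lit 2768734301) (nat_lit 228) (nat_lit 12496790851) (nat_lit 0) (nat_lit 1551087776) (nat_lit 29) (nat_lit 5) (nat_lit 32) (nat_lit 4) (nat_lit 29) (nat_lit 4) (nat_lit 342) (nat_lit 220) (nat_lit 218)) (XT.lf (nat_lit 0) (nat_lit 9330113576) (nat_lit 228) (nat_lit 316767403) (nat_lit 0) (nat_lit 7530111832) (nat_lit 29) (nat_lit 5) (nat_lit 32)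 (nat_lit 4) (nat_lit 29) (nat_lit 4) (nat_lit 343) (nat_lit 220) (nat_lit 217)))) (XT.nd (nat_lit 78) (nat_lit 304) (nat_lit 0) (XT.lf (nat_lit 0) (nat_lit 12150293021) (nat_lit 152) (nat_lit 3882218618) (nat_lit 152) (nat_lit 1516823459) (nat_lit 27) (nat_lit 4) (nat_lit 29) (nat_lit 5) (nat_lit 29) (nat_lit 4) (nat_lit 344) (nat_lit 220) (nat_lit 216)) (XT.nd (nat_lit 78) (nat_lit 152) (nat_lit 0) (XT.lf (nat_lit 0) (nat_lit 4864370717) (nat_lit 152) (nat_lit 11062129624) (nat_lit 0) (nat_lit 2007193457) (nat_lit 25) (nat_lit 5) (nat_lit 27) (nat_lit 4) (nat_lit 25) (nat_lit 4) (nat_lit 345) (nat_lit 220) (nat_lit 215)) (XT.lf (nat_lit 0) (nat_lit 998251003) (nat_lit 152) (nat_lit 10356035411) (nat_lit 152) (nat_lit 6976370386) (nat_lit 23) (nat_lit 4) (nat_lit 25) (nat_lit 5) (nat_lit 25) (nat_lit 4) (nat_lit 346) (nat_lit 220) (nat_lit 214))))) (XT.nd (nat_lit 234) (nat_lit 456) (nat_lit 0)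 (XT.nd (nat_lit 78) (nat_lit 152) (nat_lit 0) (XT.lf (nat_lit 0) (nat_lit 13341823721) (nat_lit 152) (nat_lit 4642877323) (nat_lit 152) (nat_lit 755942623) (nat_lit 23) (nat_lit 4) (nat_lit 25) (nat_lit 5) (nat_lit 25) (nat_lit 4) (nat_lit 347) (nat_lit 220) (nat_lit 213)) (XT.nd (nat_lit 78) (nat_lit 0) (nat_lit 0) (XT.lf (nat_lit 0) (nat_lit 5502303051) (nat_lit 152) (nat_lit 12452671694) (nat_lit 0) (nat_lit 1208744688) (nat_lit 21) (nat_lit 5) (nat_lit 23) (nat_lit 4) (nat_lit 21) (nat_lit 4) (nat_lit 348) (nat_lit 220) (nat_lit 212)) (XT.lf (nat_lit 0) (nat_lit 11881310154) (nat_lit 152) (nat_lit 600263377) (nat_lit 0) (nat_lit 7118976967) (nat_lit 21) (nat_lit 5) (nat_lit 23) (nat_lit 4) (nat_lit 21) (nat_lit 4) (nat_lit 349) (nat_lit 220) (nat_lit 211)))) (XT.nd (nat_lit 156) (nat_lit 152) (nat_lit 0) (XT.nd (nat_lit 78) (nat_lit 152) (nat_lit 0) (XT.lf (nat_lit 0) (nat_lit 11542327603)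 (nat_lit 152) (nat_lit 6863281328) (nat_lit 152) (nat_lit 1645826952) (nat_lit 19) (nat_lit 4) (nat_lit 21) (nat_lit 5) (nat_lit 21) (nat_lit 4) (nat_lit 350) (nat_lit 220) (nat_lit 210)) (XT.lf (nat_lit 0) (nat_lit 3340633001) (nat_lit 76) (nat_lit 1114789081) (nat_lit 152) (nat_lit 16061731798) (nat_lit 17) (nat_lit 5) (nat_lit 18) (nat_lit 5) (nat_lit 19) (nat_lit 4) (nat_lit 351) (nat_lit 220) (nat_lit 209))) (XT.nd (nat_lit 78) (nat_lit 152) (nat_lit 0) (XT.lf (nat_lit 0) (nat_lit 10688534785) (nat_lit 152) (nat_lit 5589094497) (nat_lit 0) (nat_lit 4719598533) (nat_lit 17) (nat_lit 5) (nat_lit 19) (nat_lit 4) (nat_lit 17) (nat_lit 4) (nat_lit 352) (nat_lit 220) (nat_lit 208)) (XT.lf (nat_lit 0) (nat_lit 6213041218) (nat_lit 152) (nat_lit 10828648335) (nat_lit 152) (nat_lit 4451378397) (nat_lit 15) (nat_lit 4) (nat_lit 17) (nat_lit 5) (nat_lit 17) (nat_lit 4) (nat_lit 353) (nat_lit 220) (nat_lit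 207)))))) (XT.nd (nat_lit 546) (nat_lit 228) (nat_lit 0) (XT.nd (nat_lit 234) (nat_lit 304) (nat_lit 0) (XT.nd (nat_lit 78) (nat_lit 76) (nat_lit 0) (XT.lf (nat_lit 0) (nat_lit 1485540526) (nat_lit 228) (nat_lit 3772918546) (nat_lit 76) (nat_lit 16746650016) (nat_lit 14) (nat_lit 5) (nat_lit 17) (nat_lit 5) (nat_lit 15) (nat_lit 4) (nat_lit 354) (nat_lit 220) (nat_lit 206)) (XT.nd (nat_lit 78) (nat_lit 0) (nat_lit 0) (XT.lf (nat_lit 0) (nat_lit 7484963452) (nat_lit 152) (nat_lit 14581360969) (nat_lit 0) (nat_lit 466724167) (nat_lit 13) (nat_lit 5) (nat_lit 15) (nat_lit 4) (nat_lit 13) (nat_lit 4) (nat_lit 355) (nat_lit 220) (nat_lit 205)) (XT.lf (nat_lit 0) (nat_lit 13616448751) (nat_lit 152) (nat_lit 3229504899) (nat_lit 0) (nat_lit 6231853420) (nat_lit 13) (nat_lit 5) (nat_lit 15) (nat_lit 4) (nat_lit 13) (nat_lit 4) (nat_lit 356) (nat_lit 220) (nat_lit 204)))) (XT.nd (nat_lit 156) (nat_lit 76)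 (nat_lit 0) (XT.nd (nat_lit 78) (nat_lit 76) (nat_lit 0) (XT.lf (nat_lit 0) (nat_lit 8381047869) (nat_lit 152) (nat_lit 11499593864) (nat_lit 152) (nat_lit 3759313051) (nat_lit 11) (nat_lit 4) (nat_lit 13) (nat_lit 5) (nat_lit 13) (nat_lit 4) (nat_lit 357) (nat_lit 220) (nat_lit 203)) (XT.lf (nat_lit 0) (nat_lit 2003591722) (nat_lit 228) (nat_lit 4038351242) (nat_lit 76) (nat_lit 18178419753) (nat_lit 10) (nat_lit 5) (nat_lit 13) (nat_lit 5) (nat_lit 11) (nat_lit 4) (nat_lit 358) (nat_lit 220) (nat_lit 202))) (XT.nd (nat_lit 78) (nat_lit 0) (nat_lit 0) (XT.lf (nat_lit 0) (nat_lit 7406275627) (nat_lit 76) (nat_lit 428947060) (nat_lit 152) (nat_lit 16983545044) (nat_lit 9) (nat_lit 5) (nat_lit 10) (nat_lit 5) (nat_lit 11) (nat_lit 4) (nat_lit 359) (nat_lit 220) (nat_lit 201)) (XT.lf (nat_lit 0) (nat_lit 13803881391) (nat_lit 152) (nat_lit 6403019262) (nat_lit 0) (nat_lit 5229002171) (nat_lit 9) (nat_lit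 5) (nat_lit 11) (nat_lit 4) (nat_lit 9) (nat_lit 4) (nat_lit 360) (nat_lit 220) (nat_lit 200))))) (XT.nd (nat_lit 234) (nat_lit 0) (nat_lit 0) (XT.nd (nat_lit 78) (nat_lit 152) (nat_lit 0) (XT.lf (nat_lit 0) (nat_lit 4819379385) (nat_lit 76) (nat_lit 15069079497) (nat_lit 76) (nat_lit 6184374842) (nat_lit 8) (nat_lit 4) (nat_lit 9) (nat_lit 5) (nat_lit 9) (nat_lit 4) (nat_lit 361) (nat_lit 220) (nat_lit 199)) (XT.nd (nat_lit 78) (nat_lit 152) (nat_lit 0) (XT.lf (nat_lit 0) (nat_lit 16291281602) (nat_lit 76) (nat_lit 9812079813) (nat_lit 76) (nat_lit 626573765) (nat_lit 8) (nat_lit 4) (nat_lit 9) (nat_lit 5) (nat_lit 9) (nat_lit 4) (nat_lit 362) (nat_lit 220) (nat_lit 198)) (XT.lf (nat_lit 0) (nat_lit 503108569) (nat_lit 76) (nat_lit 4437809650) (nat_lit 152) (nat_lit 22466990623) (nat_lit 6) (nat_lit 5) (nat_lit 7) (nat_lit 5) (nat_lit 8) (nat_lit 4) (nat_lit 363) (nat_lit 220) (nat_lit 197))))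 (XT.nd (nat_lit 38610) (nat_lit 0) (nat_lit 2280) (XT.nd (nat_lit 78) (nat_lit 0) (nat_lit 0) (XT.lf (nat_lit 0) (nat_lit 10652986569) (nat_lit 152) (nat_lit 16370148111) (nat_lit 0) (nat_lit 1083299904) (nat_lit 6) (nat_lit 5) (nat_lit 8) (nat_lit 4) (nat_lit 6) (nat_lit 4) (nat_lit 364) (nat_lit 220) (nat_lit 196)) (XT.lf (nat_lit 0) (nat_lit 16476468138) (nat_lit 152) (nat_lit 5713760278) (nat_lit 0) (nat_lit 6636903154) (nat_lit 6) (nat_lit 5) (nat_lit 8) (nat_lit 4) (nat_lit 6) (nat_lit 4) (nat_lit 365) (nat_lit 220) (nat_lit 195))) (XT.nd (nat_lit 78) (nat_lit 76) (nat_lit 0) (XT.lf (nat_lit 0) (nat_lit 1350275427) (nat_lit 152) (nat_lit 3195905190) (nat_lit 152) (nat_lit 3195905190) (nat_lit 37) (nat_lit 4) (nat_lit 39) (nat_lit 5) (nat_lit 39) (nat_lit 4) (nat_lit 338) (nat_lit 221) (nat_lit 221)) (XT.lf (nat_lit 0) (nat_lit 69959903) (nat_lit 228) (nat_lit 520745018) (nat_lit 76) (nat_lit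 15212138734) (nat_lit 36) (nat_lit 5) (nat_lit 39) (nat_lit 5) (nat_lit 37) (nat_lit 4) (nat_lit 339) (nat_lit 221) (nat_lit 220))))))) (XT.nd (nat_lit 1014) (nat_lit 836) (nat_lit 0) (XT.nd (nat_lit 468) (nat_lit 608) (nat_lit 0) (XT.nd (nat_lit 234) (nat_lit 304) (nat_lit 0) (XT.nd (nat_lit 78) (nat_lit 380) (nat_lit 0) (XT.lf (nat_lit 0) (nat_lit 6612215701) (nat_lit 228) (nat_lit 4185627970) (nat_lit 0) (nat_lit 5332956261) (nat_lit 34) (nat_lit 5) (nat_lit 37) (nat_lit 4) (nat_lit 34) (nat_lit 4) (nat_lit 340) (nat_lit 221) (nat_lit 219)) (XT.nd (nat_lit 78) (nat_lit 228) (nat_lit 0) (XT.lf (nat_lit 0) (nat_lit 8185431966) (nat_lit 152) (nat_lit 5087915000) (nat_lit 152) (nat_lit 3196833169) (nat_lit 32) (nat_lit 4) (nat_lit 34) (nat_lit 5) (nat_lit 34) (nat_lit 4) (nat_lit 341) (nat_lit 221) (nat_lit 218)) (XT.lf (nat_lit 0) (nat_lit 3193824790) (nat_lit 228) (nat_lit 12869599852) (nat_lit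 0) (nat_lit 757467776) (nat_lit 29) (nat_lit 5) (nat_lit 32) (nat_lit 4) (nat_lit 29) (nat_lit 4) (nat_lit 342) (nat_lit 221) (nat_lit 217)))) (XT.nd (nat_lit 78) (nat_lit 304) (nat_lit 0) (XT.lf (nat_lit 0) (nat_lit 9688844286) (nat_lit 228) (nat_lit 806678376) (nat_lit 0) (nat_lit 6687093857) (nat_lit 29) (nat_lit 5) (nat_lit 32) (nat_lit 4) (nat_lit 29) (nat_lit 4) (nat_lit 343) (nat_lit 221) (nat_lit 216)) (XT.nd (nat_lit 78) (nat_lit 152) (nat_lit 0) (XT.lf (nat_lit 0) (nat_lit 11538669257) (nat_lit 152) (nat_lit 4784175056) (nat_lit 152) (nat_lit 1233498980) (nat_lit 27) (nat_lit 4) (nat_lit 29) (nat_lit 5) (nat_lit 29) (nat_lit 4) (nat_lit 344) (nat_lit 221) (nat_lit 215)) (XT.lf (nat_lit 0) (nat_lit 5069250277) (nat_lit 152) (nat_lit 11807217702) (nat_lit 0) (nat_lit 1065707536) (nat_lit 25) (nat_lit 5) (nat_lit 27) (nat_lit 4) (nat_lit 25) (nat_lit 4) (nat_lit 345) (nat_lit 221) (nat_lit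 214))))) (XT.nd (nat_lit 234) (nat_lit 304) (nat_lit 0) (XT.nd (nat_lit 78) (nat_lit 152) (nat_lit 0) (XT.lf (nat_lit 0) (nat_lit 129941143) (nat_lit 152) (nat_lit 11360697802) (nat_lit 152) (nat_lit 6849885385) (nat_lit 23) (nat_lit 4) (nat_lit 25) (nat_lit 5) (nat_lit 25) (nat_lit 4) (nat_lit 346) (nat_lit 221) (nat_lit 213)) (XT.nd (nat_lit 78) (nat_lit 152) (nat_lit 0) (XT.lf (nat_lit 0) (nat_lit 12363494489) (nat_lit 152) (nat_lit 5695787111) (nat_lit 152) (nat_lit 692479865) (nat_lit 23) (nat_lit 4) (nat_lit 25) (nat_lit 5) (nat_lit 25) (nat_lit 4) (nat_lit 347) (nat_lit 221) (nat_lit 212)) (XT.lf (nat_lit 0) (nat_lit 5490140944) (nat_lit 152) (nat_lit 13570035072) (nat_lit 0) (nat_lit 116162937) (nat_lit 21) (nat_lit 5) (nat_lit 23) (nat_lit 4) (nat_lit 21) (nat_lit 4) (nat_lit 348) (nat_lit 221) (nat_lit 211)))) (XT.nd (nat_lit 156) (nat_lit 152) (nat_lit 0) (XT.nd (nat_lit 78) (nat_lit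 152) (nat_lit 0) (XT.lf (nat_lit 0) (nat_lit 11809532783) (nat_lit 152) (nat_lit 1824409656) (nat_lit 0) (nat_lit 5980433588) (nat_lit 21) (nat_lit 5) (nat_lit 23) (nat_lit 4) (nat_lit 21) (nat_lit 4) (nat_lit 349) (nat_lit 221) (nat_lit 210)) (XT.lf (nat_lit 0) (nat_lit 10196862591) (nat_lit 152) (nat_lit 8070354421) (nat_lit 152) (nat_lit 1799389994) (nat_lit 19) (nat_lit 4) (nat_lit 21) (nat_lit 5) (nat_lit 21) (nat_lit 4) (nat_lit 350) (nat_lit 221) (nat_lit 209))) (XT.nd (nat_lit 78) (nat_lit 0) (nat_lit 0) (XT.lf (nat_lit 0) (nat_lit 1858795164) (nat_lit 76) (nat_lit 2378212241) (nat_lit 152) (nat_lit 16296687513) (nat_lit 17) (nat_lit 5) (nat_lit 18) (nat_lit 5) (nat_lit 19) (nat_lit 4) (nat_lit 351) (nat_lit 221) (nat_lit 208)) (XT.lf (nat_lit 0) (nat_lit 10405392207) (nat_lit 152) (nat_lit 7181213014) (nat_lit 0) (nat_lit 3428470485) (nat_lit 17) (nat_lit 5) (nat_lit 19) (nat_lit 4) (nat_lit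 17) (nat_lit 4) (nat_lit 352) (nat_lit 221) (nat_lit 207)))))) (XT.nd (nat_lit 546) (nat_lit 228) (nat_lit 0) (XT.nd (nat_lit 234) (nat_lit 304) (nat_lit 0) (XT.nd (nat_lit 78) (nat_lit 152) (nat_lit 0) (XT.lf (nat_lit 0) (nat_lit 4499475559) (nat_lit 152) (nat_lit 12193067247) (nat_lit 152) (nat_lit 4819705053) (nat_lit 15) (nat_lit 4) (nat_lit 17) (nat_lit 5) (nat_lit 17) (nat_lit 4) (nat_lit 353) (nat_lit 221) (nat_lit 206)) (XT.nd (nat_lit 78) (nat_lit 76) (nat_lit 0) (XT.lf (nat_lit 0) (nat_lit 1067763733) (nat_lit 228) (nat_lit 5601373113) (nat_lit 76) (nat_lit 15356296958) (nat_lit 14) (nat_lit 5) (nat_lit 17) (nat_lit 5) (nat_lit 15) (nat_lit 4) (nat_lit 354) (nat_lit 221) (nat_lit 205)) (XT.lf (nat_lit 0) (nat_lit 6005556964) (nat_lit 76) (nat_lit 993203425) (nat_lit 152) (nat_lit 15555992471) (nat_lit 13) (nat_lit 5) (nat_lit 14) (nat_lit 5) (nat_lit 15) (nat_lit 4) (nat_lit 355) (nat_lit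 221) (nat_lit 204)))) (XT.nd (nat_lit 156) (nat_lit 152) (nat_lit 0) (XT.nd (nat_lit 78) (nat_lit 152) (nat_lit 0) (XT.lf (nat_lit 0) (nat_lit 13071751735) (nat_lit 152) (nat_lit 5285363179) (nat_lit 0) (nat_lit 4743577016) (nat_lit 13) (nat_lit 5) (nat_lit 15) (nat_lit 4) (nat_lit 13) (nat_lit 4) (nat_lit 356) (nat_lit 221) (nat_lit 203)) (XT.lf (nat_lit 0) (nat_lit 6204929121) (nat_lit 152) (nat_lit 13066357257) (nat_lit 152) (nat_lit 4392856828) (nat_lit 11) (nat_lit 4) (nat_lit 13) (nat_lit 5) (nat_lit 13) (nat_lit 4) (nat_lit 357) (nat_lit 221) (nat_lit 202))) (XT.nd (nat_lit 78) (nat_lit 76) (nat_lit 0) (XT.lf (nat_lit 0) (nat_lit 1328374613) (nat_lit 228) (nat_lit 6325451389) (nat_lit 76) (nat_lit 16591816950) (nat_lit 10) (nat_lit 5) (nat_lit 13) (nat_lit 5) (nat_lit 11) (nat_lit 4) (nat_lit 358) (nat_lit 221) (nat_lit 201)) (XT.lf (nat_lit 0) (nat_lit 4999349608) (nat_lit 76) (nat_lit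 2096502034) (nat_lit 152) (nat_lit 17749489010) (nat_lit 9) (nat_lit 5) (nat_lit 10) (nat_lit 5) (nat_lit 11) (nat_lit 4) (nat_lit 359) (nat_lit 221) (nat_lit 200))))) (XT.nd (nat_lit 234) (nat_lit 152) (nat_lit 0) (XT.nd (nat_lit 78) (nat_lit 76) (nat_lit 0) (XT.lf (nat_lit 0) (nat_lit 13005752369) (nat_lit 152) (nat_lit 8913226722) (nat_lit 0) (nat_lit 3544681140) (nat_lit 9) (nat_lit 5) (nat_lit 11) (nat_lit 4) (nat_lit 9) (nat_lit 4) (nat_lit 360) (nat_lit 221) (nat_lit 199)) (XT.nd (nat_lit 78) (nat_lit 0) (nat_lit 0) (XT.lf (nat_lit 0) (nat_lit 2189697353) (nat_lit 76) (nat_lit 16837023816) (nat_lit 76) (nat_lit 7075151193) (nat_lit 8) (nat_lit 4) (nat_lit 9) (nat_lit 5) (nat_lit 9) (nat_lit 4) (nat_lit 361) (nat_lit 221) (nat_lit 198)) (XT.lf (nat_lit 0) (nat_lit 13577992545) (nat_lit 76) (nat_lit 11617908663) (nat_lit 76) (nat_lit 1563995853) (nat_lit 8) (nat_lit 4) (nat_lit 9) (nat_lit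 5) (nat_lit 9) (nat_lit 4) (nat_lit 362) (nat_lit 221) (nat_lit 197)))) (XT.nd (nat_lit 156) (nat_lit 0) (nat_lit 0) (XT.nd (nat_lit 78) (nat_lit 76) (nat_lit 0) (XT.lf (nat_lit 0) (nat_lit 3967830902) (nat_lit 152) (nat_lit 2322428548) (nat_lit 76) (nat_lit 21148700563) (nat_lit 7) (nat_lit 5) (nat_lit 9) (nat_lit 5) (nat_lit 8) (nat_lit 4) (nat_lit 363) (nat_lit 221) (nat_lit 196)) (XT.lf (nat_lit 0) (nat_lit 8806707517) (nat_lit 76) (nat_lit 806871876) (nat_lit 152) (nat_lit 18525240885) (nat_lit 6) (nat_lit 5) (nat_lit 7) (nat_lit 5) (nat_lit 8) (nat_lit 4) (nat_lit 364) (nat_lit 221) (nat_lit 195))) (XT.nd (nat_lit 38376) (nat_lit 0) (nat_lit 2736) (XT.lf (nat_lit 0) (nat_lit 15388957214) (nat_lit 152) (nat_lit 8749220838) (nat_lit 0) (nat_lit 4722309175) (nat_lit 6) (nat_lit 5) (nat_lit 8) (nat_lit 4) (nat_lit 6) (nat_lit 4) (nat_lit 365) (nat_lit 221) (nat_lit 194)) (XT.lf (nat_lit 0) (nat_lit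 4057422545) (nat_lit 228) (nat_lit 1690474119) (nat_lit 228) (nat_lit 1690474119) (nat_lit 42) (nat_lit 4) (nat_lit 45) (nat_lit 5) (nat_lit 45) (nat_lit 4) (nat_lit 336) (nat_lit 222) (nat_lit 222))))))))
noncomputable def xc4 : XT := (XT.nd (nat_lit 2028) (nat_lit 152) (nat_lit 0) (XT.nd (nat_lit 1014) (nat_lit 988) (nat_lit 0) (XT.nd (nat_lit 468) (nat_lit 608) (nat_lit 0) (XT.nd (nat_lit 234) (nat_lit 532) (nat_lit 0) (XT.nd (nat_lit 78) (nat_lit 228) (nat_lit 0) (XT.lf (nat_lit 0) (nat_lit 3114830217) (nat_lit 228) (nat_lit 9628588979) (nat_lit 0) (nat_lit 2432904273) (nat_lit 39) (nat_lit 5) (nat_lit 42) (nat_lit 4) (nat_lit 39) (nat_lit 4) (nat_lit 337) (nat_lit 222) (nat_lit 221)) (XT.nd (nat_lit 78) (nat_lit 76) (nat_lit 0) (XT.lf (nat_lit 0) (nat_lit 2577992025) (nat_lit 152) (nat_lit 7125799700) (nat_lit 152) (nat_lit 5781809733) (nat_lit 37) (nat_lit 4) (nat_lit 39) (nat_lit 5) (nat_lit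 39) (nat_lit 4) (nat_lit 338) (nat_lit 222) (nat_lit 220)) (XT.lf (nat_lit 0) (nat_lit 603045735) (nat_lit 228) (nat_lit 768618186) (nat_lit 76) (nat_lit 14433927629) (nat_lit 36) (nat_lit 5) (nat_lit 39) (nat_lit 5) (nat_lit 37) (nat_lit 4) (nat_lit 339) (nat_lit 222) (nat_lit 219)))) (XT.nd (nat_lit 78) (nat_lit 380) (nat_lit 0) (XT.lf (nat_lit 0) (nat_lit 7070589550) (nat_lit 228) (nat_lit 4553518066) (nat_lit 0) (nat_lit 4510952872) (nat_lit 34) (nat_lit 5) (nat_lit 37) (nat_lit 4) (nat_lit 34) (nat_lit 4) (nat_lit 340) (nat_lit 222) (nat_lit 218)) (XT.nd (nat_lit 78) (nat_lit 228) (nat_lit 0) (XT.lf (nat_lit 0) (nat_lit 7695560204) (nat_lit 152) (nat_lit 5966960685) (nat_lit 152) (nat_lit 2813321684) (nat_lit 32) (nat_lit 4) (nat_lit 34) (nat_lit 5) (nat_lit 34) (nat_lit 4) (nat_lit 341) (nat_lit 222) (nat_lit 217)) (XT.lf (nat_lit 0) (nat_lit 3335643643) (nat_lit 152) (nat_lit 162368202)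 (nat_lit 228) (nat_lit 13329996126) (nat_lit 29) (nat_lit 5) (nat_lit 31) (nat_lit 5) (nat_lit 32) (nat_lit 4) (nat_lit 342) (nat_lit 222) (nat_lit 216))))) (XT.nd (nat_lit 234) (nat_lit 304) (nat_lit 0) (XT.nd (nat_lit 78) (nat_lit 304) (nat_lit 0) (XT.lf (nat_lit 0) (nat_lit 9927550170) (nat_lit 228) (nat_lit 1542079886) (nat_lit 0) (nat_lit 5721428166) (nat_lit 29) (nat_lit 5) (nat_lit 32) (nat_lit 4) (nat_lit 29) (nat_lit 4) (nat_lit 343) (nat_lit 222) (nat_lit 215)) (XT.nd (nat_lit 78) (nat_lit 152) (nat_lit 0) (XT.lf (nat_lit 0) (nat_lit 10681647919) (nat_lit 152) (nat_lit 5811787472) (nat_lit 152) (nat_lit 1072727947) (nat_lit 27) (nat_lit 4) (nat_lit 29) (nat_lit 5) (nat_lit 29) (nat_lit 4) (nat_lit 344) (nat_lit 222) (nat_lit 214)) (XT.lf (nat_lit 0) (nat_lit 5151809738) (nat_lit 76) (nat_lit 806267) (nat_lit 152) (nat_lit 12800879886) (nat_lit 25) (nat_lit 5) (nat_lit 26) (nat_lit 5)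 (nat_lit 27) (nat_lit 4) (nat_lit 345) (nat_lit 222) (nat_lit 213)))) (XT.nd (nat_lit 156) (nat_lit 152) (nat_lit 0) (XT.nd (nat_lit 78) (nat_lit 152) (nat_lit 0) (XT.lf (nat_lit 0) (nat_lit 11512098118) (nat_lit 152) (nat_lit 974802722) (nat_lit 0) (nat_lit 5866196825) (nat_lit 25) (nat_lit 5) (nat_lit 27) (nat_lit 4) (nat_lit 25) (nat_lit 4) (nat_lit 346) (nat_lit 222) (nat_lit 212)) (XT.lf (nat_lit 0) (nat_lit 11138981082) (nat_lit 152) (nat_lit 6875373724) (nat_lit 152) (nat_lit 751322109) (nat_lit 23) (nat_lit 4) (nat_lit 25) (nat_lit 5) (nat_lit 25) (nat_lit 4) (nat_lit 347) (nat_lit 222) (nat_lit 211))) (XT.nd (nat_lit 78) (nat_lit 0) (nat_lit 0) (XT.lf (nat_lit 0) (nat_lit 4246698273) (nat_lit 76) (nat_lit 1117149993) (nat_lit 152) (nat_lit 13827791923) (nat_lit 21) (nat_lit 5) (nat_lit 22) (nat_lit 5) (nat_lit 23) (nat_lit 4) (nat_lit 348) (nat_lit 222) (nat_lit 210)) (XT.lf (nat_lit 0)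 (nat_lit 11618107930) (nat_lit 152) (nat_lit 3295735941) (nat_lit 0) (nat_lit 4717149339) (nat_lit 21) (nat_lit 5) (nat_lit 23) (nat_lit 4) (nat_lit 21) (nat_lit 4) (nat_lit 349) (nat_lit 222) (nat_lit 209)))))) (XT.nd (nat_lit 468) (nat_lit 380) (nat_lit 0) (XT.nd (nat_lit 234) (nat_lit 304) (nat_lit 0) (XT.nd (nat_lit 78) (nat_lit 152) (nat_lit 0) (XT.lf (nat_lit 0) (nat_lit 8603992402) (nat_lit 152) (nat_lit 9405264683) (nat_lit 152) (nat_lit 2075310722) (nat_lit 19) (nat_lit 4) (nat_lit 21) (nat_lit 5) (nat_lit 21) (nat_lit 4) (nat_lit 350) (nat_lit 222) (nat_lit 208)) (XT.nd (nat_lit 78) (nat_lit 0) (nat_lit 0) (XT.lf (nat_lit 0) (nat_lit 127275408) (nat_lit 76) (nat_lit 3770610595) (nat_lit 152) (nat_lit 16655154228) (nat_lit 17) (nat_lit 5) (nat_lit 18) (nat_lit 5) (nat_lit 19) (nat_lit 4) (nat_lit 351) (nat_lit 222) (nat_lit 207)) (XT.lf (nat_lit 0) (nat_lit 10002351867) (nat_lit 152) (nat_lit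 9022011129) (nat_lit 0) (nat_lit 2011348336) (nat_lit 17) (nat_lit 5) (nat_lit 19) (nat_lit 4) (nat_lit 17) (nat_lit 4) (nat_lit 352) (nat_lit 222) (nat_lit 206)))) (XT.nd (nat_lit 78) (nat_lit 152) (nat_lit 0) (XT.lf (nat_lit 0) (nat_lit 2536846512) (nat_lit 152) (nat_lit 13686633106) (nat_lit 152) (nat_lit 5310735913) (nat_lit 15) (nat_lit 4) (nat_lit 17) (nat_lit 5) (nat_lit 17) (nat_lit 4) (nat_lit 353) (nat_lit 222) (nat_lit 205)) (XT.nd (nat_lit 78) (nat_lit 76) (nat_lit 0) (XT.lf (nat_lit 0) (nat_lit 530473020) (nat_lit 228) (nat_lit 7678024859) (nat_lit 76) (nat_lit 13840032386) (nat_lit 14) (nat_lit 5) (nat_lit 17) (nat_lit 5) (nat_lit 15) (nat_lit 4) (nat_lit 354) (nat_lit 222) (nat_lit 204)) (XT.lf (nat_lit 0) (nat_lit 3807609691) (nat_lit 76) (nat_lit 2588424586) (nat_lit 152) (nat_lit 16183134459) (nat_lit 13) (nat_lit 5) (nat_lit 14) (nat_lit 5) (nat_lit 15) (nat_lit 4) (nat_lit 355)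 (nat_lit 222) (nat_lit 203))))) (XT.nd (nat_lit 234) (nat_lit 152) (nat_lit 0) (XT.nd (nat_lit 78) (nat_lit 228) (nat_lit 0) (XT.lf (nat_lit 0) (nat_lit 12408138858) (nat_lit 152) (nat_lit 7589089375) (nat_lit 0) (nat_lit 3129107706) (nat_lit 13) (nat_lit 5) (nat_lit 15) (nat_lit 4) (nat_lit 13) (nat_lit 4) (nat_lit 356) (nat_lit 222) (nat_lit 202)) (XT.nd (nat_lit 78) (nat_lit 76) (nat_lit 0) (XT.lf (nat_lit 0) (nat_lit 3780355390) (nat_lit 152) (nat_lit 14762518373) (nat_lit 152) (nat_lit 5148219541) (nat_lit 11) (nat_lit 4) (nat_lit 13) (nat_lit 5) (nat_lit 13) (nat_lit 4) (nat_lit 357) (nat_lit 222) (nat_lit 201)) (XT.lf (nat_lit 0) (nat_lit 534392042) (nat_lit 228) (nat_lit 8860329508) (nat_lit 76) (nat_lit 14878949727) (nat_lit 10) (nat_lit 5) (nat_lit 13) (nat_lit 5) (nat_lit 11) (nat_lit 4) (nat_lit 358) (nat_lit 222) (nat_lit 200)))) (XT.nd (nat_lit 156) (nat_lit 76) (nat_lit 0) (XT.nd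 (nat_lit 78) (nat_lit 0) (nat_lit 0) (XT.lf (nat_lit 0) (nat_lit 2343957580) (nat_lit 76) (nat_lit 3893557744) (nat_lit 152) (nat_lit 18637150055) (nat_lit 9) (nat_lit 5) (nat_lit 10) (nat_lit 5) (nat_lit 11) (nat_lit 4) (nat_lit 359) (nat_lit 222) (nat_lit 199)) (XT.lf (nat_lit 0) (nat_lit 12089213322) (nat_lit 152) (nat_lit 11671261619) (nat_lit 0) (nat_lit 1733683129) (nat_lit 9) (nat_lit 5) (nat_lit 11) (nat_lit 4) (nat_lit 9) (nat_lit 4) (nat_lit 360) (nat_lit 222) (nat_lit 198))) (XT.nd (nat_lit 78) (nat_lit 76) (nat_lit 0) (XT.lf (nat_lit 0) (nat_lit 18050785493) (nat_lit 152) (nat_lit 679566321) (nat_lit 0) (nat_lit 7403215111) (nat_lit 9) (nat_lit 5) (nat_lit 11) (nat_lit 4) (nat_lit 9) (nat_lit 4) (nat_lit 361) (nat_lit 222) (nat_lit 197)) (XT.lf (nat_lit 0) (nat_lit 10618525923) (nat_lit 76) (nat_lit 13552578007) (nat_lit 76) (nat_lit 2621473464) (nat_lit 8) (nat_lit 4) (nat_lit 9) (nat_lit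 5) (nat_lit 9) (nat_lit 4) (nat_lit 362) (nat_lit 222) (nat_lit 196))))))) (XT.nd (nat_lit 39156) (nat_lit 0) (nat_lit 380) (XT.nd (nat_lit 38610) (nat_lit 0) (nat_lit 1748) (XT.nd (nat_lit 38376) (nat_lit 0) (nat_lit 2736) (XT.nd (nat_lit 78) (nat_lit 76) (nat_lit 0) (XT.lf (nat_lit 0) (nat_lit 2880830870) (nat_lit 152) (nat_lit 5387102071) (nat_lit 76) (nat_lit 19204720676) (nat_lit 7) (nat_lit 5) (nat_lit 9) (nat_lit 5) (nat_lit 8) (nat_lit 4) (nat_lit 363) (nat_lit 222) (nat_lit 195)) (XT.nd (nat_lit 78) (nat_lit 0) (nat_lit 0) (XT.lf (nat_lit 0) (nat_lit 5623201729) (nat_lit 76) (nat_lit 2840580597) (nat_lit 152) (nat_lit 19709995384) (nat_lit 6) (nat_lit 5) (nat_lit 7) (nat_lit 5) (nat_lit 8) (nat_lit 4) (nat_lit 364) (nat_lit 222) (nat_lit 194)) (XT.lf (nat_lit 0) (nat_lit 14184339456) (nat_lit 152) (nat_lit 12030921287) (nat_lit 0) (nat_lit 2681287990) (nat_lit 6) (nat_lit 5) (nat_lit 8)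 (nat_lit 4) (nat_lit 6) (nat_lit 4) (nat_lit 365) (nat_lit 222) (nat_lit 193)))) (XT.nd (nat_lit 78) (nat_lit 456) (nat_lit 0) (XT.lf (nat_lit 0) (nat_lit 6152393138) (nat_lit 228) (nat_lit 500058234) (nat_lit 228) (nat_lit 500058234) (nat_lit 48) (nat_lit 4) (nat_lit 51) (nat_lit 5) (nat_lit 51) (nat_lit 4) (nat_lit 334) (nat_lit 223) (nat_lit 223)) (XT.nd (nat_lit 78) (nat_lit 228) (nat_lit 0) (XT.lf (nat_lit 0) (nat_lit 5514314471) (nat_lit 228) (nat_lit 4274528901) (nat_lit 0) (nat_lit 4797883074) (nat_lit 45) (nat_lit 5) (nat_lit 48) (nat_lit 4) (nat_lit 45) (nat_lit 4) (nat_lit 335) (nat_lit 223) (nat_lit 222)) (XT.lf (nat_lit 0) (nat_lit 7993955729) (nat_lit 228) (nat_lit 4148102981) (nat_lit 228) (nat_lit 2736107121) (nat_lit 42) (nat_lit 4) (nat_lit 45) (nat_lit 5) (nat_lit 45) (nat_lit 4) (nat_lit 336) (nat_lit 223) (nat_lit 221))))) (XT.nd (nat_lit 234) (nat_lit 532) (nat_lit 0) (XT.nd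 (nat_lit 78) (nat_lit 228) (nat_lit 0) (XT.lf (nat_lit 0) (nat_lit 3675723505) (nat_lit 228) (nat_lit 9874120421) (nat_lit 0) (nat_lit 1629349816) (nat_lit 39) (nat_lit 5) (nat_lit 42) (nat_lit 4) (nat_lit 39) (nat_lit 4) (nat_lit 337) (nat_lit 223) (nat_lit 220)) (XT.nd (nat_lit 78) (nat_lit 76) (nat_lit 0) (XT.lf (nat_lit 0) (nat_lit 2210208443) (nat_lit 152) (nat_lit 7984419043) (nat_lit 152) (nat_lit 5295264749) (nat_lit 37) (nat_lit 4) (nat_lit 39) (nat_lit 5) (nat_lit 39) (nat_lit 4) (nat_lit 338) (nat_lit 223) (nat_lit 219)) (XT.lf (nat_lit 0) (nat_lit 1016302267) (nat_lit 228) (nat_lit 1260282553) (nat_lit 76) (nat_lit 13534590894) (nat_lit 36) (nat_lit 5) (nat_lit 39) (nat_lit 5) (nat_lit 37) (nat_lit 4) (nat_lit 339) (nat_lit 223) (nat_lit 218)))) (XT.nd (nat_lit 156) (nat_lit 228) (nat_lit 0) (XT.nd (nat_lit 78) (nat_lit 152) (nat_lit 0) (XT.lf (nat_lit 0) (nat_lit 7408695327) (nat_lit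 228) (nat_lit 5167025391) (nat_lit 0) (nat_lit 3566444833) (nat_lit 34) (nat_lit 5) (nat_lit 37) (nat_lit 4) (nat_lit 34) (nat_lit 4) (nat_lit 340) (nat_lit 223) (nat_lit 217)) (XT.lf (nat_lit 0) (nat_lit 6960217554) (nat_lit 152) (nat_lit 6971538319) (nat_lit 152) (nat_lit 2552586541) (nat_lit 32) (nat_lit 4) (nat_lit 34) (nat_lit 5) (nat_lit 34) (nat_lit 4) (nat_lit 341) (nat_lit 223) (nat_lit 216))) (XT.nd (nat_lit 78) (nat_lit 0) (nat_lit 0) (XT.lf (nat_lit 0) (nat_lit 2467492513) (nat_lit 152) (nat_lit 1218818600) (nat_lit 228) (nat_lit 13151559694) (nat_lit 29) (nat_lit 5) (nat_lit 31) (nat_lit 5) (nat_lit 32) (nat_lit 4) (nat_lit 342) (nat_lit 223) (nat_lit 215)) (XT.lf (nat_lit 0) (nat_lit 10046439806) (nat_lit 228) (nat_lit 2523614516) (nat_lit 0) (nat_lit 4632270975) (nat_lit 29) (nat_lit 5) (nat_lit 32) (nat_lit 4) (nat_lit 29) (nat_lit 4) (nat_lit 343) (nat_lit 223) (nat_lit 214))))))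 (XT.nd (nat_lit 546) (nat_lit 608) (nat_lit 0) (XT.nd (nat_lit 234) (nat_lit 456) (nat_lit 0) (XT.nd (nat_lit 78) (nat_lit 152) (nat_lit 0) (XT.lf (nat_lit 0) (nat_lit 9578480152) (nat_lit 152) (nat_lit 6965953780) (nat_lit 152) (nat_lit 1034369881) (nat_lit 27) (nat_lit 4) (nat_lit 29) (nat_lit 5) (nat_lit 29) (nat_lit 4) (nat_lit 344) (nat_lit 223) (nat_lit 213)) (XT.nd (nat_lit 78) (nat_lit 0) (nat_lit 0) (XT.lf (nat_lit 0) (nat_lit 3913269587) (nat_lit 76) (nat_lit 1209105765) (nat_lit 152) (nat_lit 12845132773) (nat_lit 25) (nat_lit 5) (nat_lit 26) (nat_lit 5) (nat_lit 27) (nat_lit 4) (nat_lit 345) (nat_lit 223) (nat_lit 212)) (XT.lf (nat_lit 0) (nat_lit 11414733106) (nat_lit 152) (nat_lit 2324924054) (nat_lit 0) (nat_lit 4628809623) (nat_lit 25) (nat_lit 5) (nat_lit 27) (nat_lit 4) (nat_lit 25) (nat_lit 4) (nat_lit 346) (nat_lit 223) (nat_lit 211)))) (XT.nd (nat_lit 156) (nat_lit 152) (nat_lit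 0) (XT.nd (nat_lit 78) (nat_lit 152) (nat_lit 0) (XT.lf (nat_lit 0) (nat_lit 9667213538) (nat_lit 152) (nat_lit 8182667867) (nat_lit 152) (nat_lit 932520772) (nat_lit 23) (nat_lit 4) (nat_lit 25) (nat_lit 5) (nat_lit 25) (nat_lit 4) (nat_lit 347) (nat_lit 223) (nat_lit 210)) (XT.lf (nat_lit 0) (nat_lit 2636814996) (nat_lit 76) (nat_lit 2480840759) (nat_lit 152) (nat_lit 14092093935) (nat_lit 21) (nat_lit 5) (nat_lit 22) (nat_lit 5) (nat_lit 23) (nat_lit 4) (nat_lit 348) (nat_lit 223) (nat_lit 209))) (XT.nd (nat_lit 78) (nat_lit 152) (nat_lit 0) (XT.lf (nat_lit 0) (nat_lit 11306868331) (nat_lit 152) (nat_lit 5015527858) (nat_lit 0) (nat_lit 3328020380) (nat_lit 21) (nat_lit 5) (nat_lit 23) (nat_lit 4) (nat_lit 21) (nat_lit 4) (nat_lit 349) (nat_lit 223) (nat_lit 208)) (XT.lf (nat_lit 0) (nat_lit 6762325208) (nat_lit 152) (nat_lit 10869178541) (nat_lit 152) (nat_lit 2473830231) (nat_lit 19) (nat_lit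 4) (nat_lit 21) (nat_lit 5) (nat_lit 21) (nat_lit 4) (nat_lit 350) (nat_lit 223) (nat_lit 207))))) (XT.nd (nat_lit 234) (nat_lit 304) (nat_lit 0) (XT.nd (nat_lit 78) (nat_lit 228) (nat_lit 0) (XT.lf (nat_lit 0) (nat_lit 3449808299) (nat_lit 228) (nat_lit 1831104826) (nat_lit 76) (nat_lit 15294052662) (nat_lit 18) (nat_lit 5) (nat_lit 21) (nat_lit 5) (nat_lit 19) (nat_lit 4) (nat_lit 351) (nat_lit 223) (nat_lit 206)) (XT.nd (nat_lit 78) (nat_lit 152) (nat_lit 0) (XT.lf (nat_lit 0) (nat_lit 9479061595) (nat_lit 152) (nat_lit 11113097306) (nat_lit 0) (nat_lit 466993825) (nat_lit 17) (nat_lit 5) (nat_lit 19) (nat_lit 4) (nat_lit 17) (nat_lit 4) (nat_lit 352) (nat_lit 223) (nat_lit 205)) (XT.lf (nat_lit 0) (nat_lit 323439158) (nat_lit 152) (nat_lit 15310650970) (nat_lit 152) (nat_lit 5924900033) (nat_lit 15) (nat_lit 4) (nat_lit 17) (nat_lit 5) (nat_lit 17) (nat_lit 4) (nat_lit 353) (nat_lit 223) (nat_lit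 204)))) (XT.nd (nat_lit 156) (nat_lit 152) (nat_lit 0) (XT.nd (nat_lit 78) (nat_lit 152) (nat_lit 0) (XT.lf (nat_lit 0) (nat_lit 12068879416) (nat_lit 152) (nat_lit 9877036340) (nat_lit 152) (nat_lit 128486211) (nat_lit 15) (nat_lit 4) (nat_lit 17) (nat_lit 5) (nat_lit 17) (nat_lit 4) (nat_lit 354) (nat_lit 223) (nat_lit 203)) (XT.lf (nat_lit 0) (nat_lit 1359057230) (nat_lit 76) (nat_lit 4314130681) (nat_lit 152) (nat_lit 16933191054) (nat_lit 13) (nat_lit 5) (nat_lit 14) (nat_lit 5) (nat_lit 15) (nat_lit 4) (nat_lit 355) (nat_lit 223) (nat_lit 202))) (XT.nd (nat_lit 78) (nat_lit 152) (nat_lit 0) (XT.lf (nat_lit 0) (nat_lit 11625030266) (nat_lit 152) (nat_lit 10142696451) (nat_lit 0) (nat_lit 1387034790) (nat_lit 13) (nat_lit 5) (nat_lit 15) (nat_lit 4) (nat_lit 13) (nat_lit 4) (nat_lit 356) (nat_lit 223) (nat_lit 201)) (XT.lf (nat_lit 0) (nat_lit 1105208116) (nat_lit 152) (nat_lit 16589559295)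 (nat_lit 152) (nat_lit 6026061217) (nat_lit 11) (nat_lit 4) (nat_lit 13) (nat_lit 5) (nat_lit 13) (nat_lit 4) (nat_lit 357) (nat_lit 223) (nat_lit 200))))))))
noncomputable def xc5 : XT := (XT.nd (nat_lit 40092) (nat_lit 0) (nat_lit 0) (XT.nd (nat_lit 39000) (nat_lit 0) (nat_lit 988) (XT.nd (nat_lit 468) (nat_lit 76) (nat_lit 0) (XT.nd (nat_lit 234) (nat_lit 152) (nat_lit 0) (XT.nd (nat_lit 78) (nat_lit 152) (nat_lit 0) (XT.lf (nat_lit 0) (nat_lit 12656728019) (nat_lit 152) (nat_lit 11263607155) (nat_lit 152) (nat_lit 384087133) (nat_lit 11) (nat_lit 4) (nat_lit 13) (nat_lit 5) (nat_lit 13) (nat_lit 4) (nat_lit 358) (nat_lit 223) (nat_lit 199)) (XT.nd (nat_lit 78) (nat_lit 76) (nat_lit 0) (XT.lf (nat_lit 0) (nat_lit 5263114042) (nat_lit 228) (nat_lit 554847075) (nat_lit 76) (nat_lit 19088733413) (nat_lit 10) (nat_lit 5) (nat_lit 13) (nat_lit 5) (nat_lit 11) (nat_lit 4) (nat_lit 359) (nat_lit 223)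 (nat_lit 198)) (XT.lf (nat_lit 0) (nat_lit 10846509591) (nat_lit 76) (nat_lit 208306262) (nat_lit 152) (nat_lit 14472580085) (nat_lit 9) (nat_lit 5) (nat_lit 10) (nat_lit 5) (nat_lit 11) (nat_lit 4) (nat_lit 360) (nat_lit 223) (nat_lit 197)))) (XT.nd (nat_lit 78) (nat_lit 152) (nat_lit 0) (XT.lf (nat_lit 0) (nat_lit 16971171812) (nat_lit 152) (nat_lit 3767945872) (nat_lit 0) (nat_lit 5428599969) (nat_lit 9) (nat_lit 5) (nat_lit 11) (nat_lit 4) (nat_lit 9) (nat_lit 4) (nat_lit 361) (nat_lit 223) (nat_lit 196)) (XT.nd (nat_lit 78) (nat_lit 76) (nat_lit 0) (XT.lf (nat_lit 0) (nat_lit 7410295793) (nat_lit 76) (nat_lit 15617778334) (nat_lit 76) (nat_lit 3799930605) (nat_lit 8) (nat_lit 4) (nat_lit 9) (nat_lit 5) (nat_lit 9) (nat_lit 4) (nat_lit 362) (nat_lit 223) (nat_lit 195)) (XT.lf (nat_lit 0) (nat_lit 1675701802) (nat_lit 152) (nat_lit 8700188228) (nat_lit 76) (nat_lit 17133194392) (nat_lit 7) (nat_lit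 5) (nat_lit 9) (nat_lit 5) (nat_lit 8) (nat_lit 4) (nat_lit 363) (nat_lit 223) (nat_lit 194))))) (XT.nd (nat_lit 38220) (nat_lit 0) (nat_lit 2736) (XT.nd (nat_lit 78) (nat_lit 0) (nat_lit 0) (XT.lf (nat_lit 0) (nat_lit 2190256919) (nat_lit 76) (nat_lit 5005206799) (nat_lit 152) (nat_lit 21016016247) (nat_lit 6) (nat_lit 5) (nat_lit 7) (nat_lit 5) (nat_lit 8) (nat_lit 4) (nat_lit 364) (nat_lit 223) (nat_lit 193)) (XT.nd (nat_lit 38064) (nat_lit 0) (nat_lit 3420) (XT.lf (nat_lit 0) (nat_lit 12861562284) (nat_lit 152) (nat_lit 15561729129) (nat_lit 0) (nat_lit 512056182) (nat_lit 6) (nat_lit 5) (nat_lit 8) (nat_lit 4) (nat_lit 6) (nat_lit 4) (nat_lit 365) (nat_lit 223) (nat_lit 192)) (XT.lf (nat_lit 0) (nat_lit 418883944) (nat_lit 228) (nat_lit 6045322162) (nat_lit 0) (nat_lit 418883944) (nat_lit 51) (nat_lit 5) (nat_lit 54) (nat_lit 4) (nat_lit 51) (nat_lit 4) (nat_lit 332) (nat_lit 224) (nat_lit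 224)))) (XT.nd (nat_lit 156) (nat_lit 456) (nat_lit 0) (XT.nd (nat_lit 78) (nat_lit 228) (nat_lit 0) (XT.lf (nat_lit 0) (nat_lit 7345691157) (nat_lit 228) (nat_lit 92993479) (nat_lit 0) (nat_lit 6593008332) (nat_lit 51) (nat_lit 5) (nat_lit 54) (nat_lit 4) (nat_lit 51) (nat_lit 4) (nat_lit 333) (nat_lit 224) (nat_lit 223)) (XT.lf (nat_lit 0) (nat_lit 12185572180) (nat_lit 228) (nat_lit 1802154532) (nat_lit 228) (nat_lit 318711681) (nat_lit 48) (nat_lit 4) (nat_lit 51) (nat_lit 5) (nat_lit 51) (nat_lit 4) (nat_lit 334) (nat_lit 224) (nat_lit 222))) (XT.nd (nat_lit 78) (nat_lit 228) (nat_lit 0) (XT.lf (nat_lit 0) (nat_lit 6111395130) (nat_lit 228) (nat_lit 4516715769) (nat_lit 0) (nat_lit 3961474932) (nat_lit 45) (nat_lit 5) (nat_lit 48) (nat_lit 4) (nat_lit 45) (nat_lit 4) (nat_lit 335) (nat_lit 224) (nat_lit 221)) (XT.lf (nat_lit 0) (nat_lit 7631182012) (nat_lit 228) (nat_lit 5038241676) (nat_lit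 228) (nat_lit 2213016174) (nat_lit 42) (nat_lit 4) (nat_lit 45) (nat_lit 5) (nat_lit 45) (nat_lit 4) (nat_lit 336) (nat_lit 224) (nat_lit 220)))))) (XT.nd (nat_lit 546) (nat_lit 760) (nat_lit 0) (XT.nd (nat_lit 234) (nat_lit 532) (nat_lit 0) (XT.nd (nat_lit 78) (nat_lit 228) (nat_lit 0) (XT.lf (nat_lit 0) (nat_lit 4116074238) (nat_lit 228) (nat_lit 10365397848) (nat_lit 0) (nat_lit 703464709) (nat_lit 39) (nat_lit 5) (nat_lit 42) (nat_lit 4) (nat_lit 39) (nat_lit 4) (nat_lit 337) (nat_lit 224) (nat_lit 219)) (XT.nd (nat_lit 78) (nat_lit 76) (nat_lit 0) (XT.lf (nat_lit 0) (nat_lit 1596878745) (nat_lit 152) (nat_lit 8968418659) (nat_lit 152) (nat_lit 4931750290) (nat_lit 37) (nat_lit 4) (nat_lit 39) (nat_lit 5) (nat_lit 39) (nat_lit 4) (nat_lit 338) (nat_lit 224) (nat_lit 218)) (XT.lf (nat_lit 0) (nat_lit 1310090598) (nat_lit 228) (nat_lit 1996167728) (nat_lit 76) (nat_lit 12513342699) (nat_lit 36)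 (nat_lit 5) (nat_lit 39) (nat_lit 5) (nat_lit 37) (nat_lit 4) (nat_lit 339) (nat_lit 224) (nat_lit 217)))) (XT.nd (nat_lit 156) (nat_lit 228) (nat_lit 0) (XT.nd (nat_lit 78) (nat_lit 152) (nat_lit 0) (XT.lf (nat_lit 0) (nat_lit 7626828462) (nat_lit 228) (nat_lit 6026686018) (nat_lit 0) (nat_lit 2498606847) (nat_lit 34) (nat_lit 5) (nat_lit 37) (nat_lit 4) (nat_lit 34) (nat_lit 4) (nat_lit 340) (nat_lit 224) (nat_lit 216)) (XT.lf (nat_lit 0) (nat_lit 5978761483) (nat_lit 152) (nat_lit 8102525688) (nat_lit 152) (nat_lit 2414399915) (nat_lit 32) (nat_lit 4) (nat_lit 34) (nat_lit 5) (nat_lit 34) (nat_lit 4) (nat_lit 341) (nat_lit 224) (nat_lit 215))) (XT.nd (nat_lit 78) (nat_lit 0) (nat_lit 0) (XT.lf (nat_lit 0) (nat_lit 1351163605) (nat_lit 152) (nat_lit 2402740181) (nat_lit 228) (nat_lit 13096685426) (nat_lit 29) (nat_lit 5) (nat_lit 31) (nat_lit 5) (nat_lit 32) (nat_lit 4) (nat_lit 342) (nat_lit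 224) (nat_lit 214)) (XT.lf (nat_lit 0) (nat_lit 10045617078) (nat_lit 228) (nat_lit 3752139918) (nat_lit 0) (nat_lit 3418670593) (nat_lit 29) (nat_lit 5) (nat_lit 32) (nat_lit 4) (nat_lit 29) (nat_lit 4) (nat_lit 343) (nat_lit 224) (nat_lit 213))))) (XT.nd (nat_lit 234) (nat_lit 456) (nat_lit 0) (XT.nd (nat_lit 78) (nat_lit 152) (nat_lit 0) (XT.lf (nat_lit 0) (nat_lit 8228202024) (nat_lit 152) (nat_lit 8247682475) (nat_lit 152) (nat_lit 1118391264) (nat_lit 27) (nat_lit 4) (nat_lit 29) (nat_lit 5) (nat_lit 29) (nat_lit 4) (nat_lit 344) (nat_lit 224) (nat_lit 212)) (XT.nd (nat_lit 78) (nat_lit 0) (nat_lit 0) (XT.lf (nat_lit 0) (nat_lit 2425406599) (nat_lit 76) (nat_lit 2546084062) (nat_lit 152) (nat_lit 13012874026) (nat_lit 25) (nat_lit 5) (nat_lit 26) (nat_lit 5) (nat_lit 27) (nat_lit 4) (nat_lit 345) (nat_lit 224) (nat_lit 211)) (XT.lf (nat_lit 0) (nat_lit 11197615168) (nat_lit 152) (nat_lit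 3923306770) (nat_lit 0) (nat_lit 3265740048) (nat_lit 25) (nat_lit 5) (nat_lit 27) (nat_lit 4) (nat_lit 25) (nat_lit 4) (nat_lit 346) (nat_lit 224) (nat_lit 210)))) (XT.nd (nat_lit 156) (nat_lit 152) (nat_lit 0) (XT.nd (nat_lit 78) (nat_lit 152) (nat_lit 0) (XT.lf (nat_lit 0) (nat_lit 7946905845) (nat_lit 152) (nat_lit 9618811838) (nat_lit 152) (nat_lit 1236234182) (nat_lit 23) (nat_lit 4) (nat_lit 25) (nat_lit 5) (nat_lit 25) (nat_lit 4) (nat_lit 347) (nat_lit 224) (nat_lit 209)) (XT.lf (nat_lit 0) (nat_lit 776026873) (nat_lit 76) (nat_lit 3974557189) (nat_lit 152) (nat_lit 14480114502) (nat_lit 21) (nat_lit 5) (nat_lit 22) (nat_lit 5) (nat_lit 23) (nat_lit 4) (nat_lit 348) (nat_lit 224) (nat_lit 208))) (XT.nd (nat_lit 78) (nat_lit 152) (nat_lit 0) (XT.lf (nat_lit 0) (nat_lit 10875542028) (nat_lit 152) (nat_lit 6985288137) (nat_lit 0) (nat_lit 1811832909) (nat_lit 21) (nat_lit 5) (nat_lit 23)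 (nat_lit 4) (nat_lit 21) (nat_lit 4) (nat_lit 349) (nat_lit 224) (nat_lit 207)) (XT.lf (nat_lit 0) (nat_lit 4670251786) (nat_lit 152) (nat_lit 12463375142) (nat_lit 152) (nat_lit 2995296742) (nat_lit 19) (nat_lit 4) (nat_lit 21) (nat_lit 5) (nat_lit 21) (nat_lit 4) (nat_lit 350) (nat_lit 224) (nat_lit 206))))))) (XT.nd (nat_lit 1014) (nat_lit 76) (nat_lit 0) (XT.nd (nat_lit 468) (nat_lit 456) (nat_lit 0) (XT.nd (nat_lit 234) (nat_lit 304) (nat_lit 0) (XT.nd (nat_lit 78) (nat_lit 76) (nat_lit 0) (XT.lf (nat_lit 0) (nat_lit 2882794026) (nat_lit 228) (nat_lit 4037426000) (nat_lit 76) (nat_lit 13679462491) (nat_lit 18) (nat_lit 5) (nat_lit 21) (nat_lit 5) (nat_lit 19) (nat_lit 4) (nat_lit 351) (nat_lit 224) (nat_lit 205)) (XT.nd (nat_lit 78) (nat_lit 0) (nat_lit 0) (XT.lf (nat_lit 0) (nat_lit 7621029154) (nat_lit 76) (nat_lit 1221968825) (nat_lit 152) (nat_lit 12242263716) (nat_lit 17) (nat_lit 5)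 (nat_lit 18) (nat_lit 5) (nat_lit 19) (nat_lit 4) (nat_lit 352) (nat_lit 224) (nat_lit 204)) (XT.lf (nat_lit 0) (nat_lit 14937771039) (nat_lit 152) (nat_lit 2114578907) (nat_lit 0) (nat_lit 4533965216) (nat_lit 17) (nat_lit 5) (nat_lit 19) (nat_lit 4) (nat_lit 17) (nat_lit 4) (nat_lit 353) (nat_lit 224) (nat_lit 203)))) (XT.nd (nat_lit 78) (nat_lit 152) (nat_lit 0) (XT.lf (nat_lit 0) (nat_lit 9513654477) (nat_lit 152) (nat_lit 11672693063) (nat_lit 152) (nat_lit 916655015) (nat_lit 15) (nat_lit 4) (nat_lit 17) (nat_lit 5) (nat_lit 17) (nat_lit 4) (nat_lit 354) (nat_lit 224) (nat_lit 202)) (XT.nd (nat_lit 78) (nat_lit 76) (nat_lit 0) (XT.lf (nat_lit 0) (nat_lit 4838304390) (nat_lit 228) (nat_lit 1324636212) (nat_lit 76) (nat_lit 16473292426) (nat_lit 14) (nat_lit 5) (nat_lit 17) (nat_lit 5) (nat_lit 15) (nat_lit 4) (nat_lit 355) (nat_lit 224) (nat_lit 201)) (XT.lf (nat_lit 0) (nat_lit 10234328761)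 (nat_lit 76) (nat_lit 490598216) (nat_lit 152) (nat_lit 12461002787) (nat_lit 13) (nat_lit 5) (nat_lit 14) (nat_lit 5) (nat_lit 15) (nat_lit 4) (nat_lit 356) (nat_lit 224) (nat_lit 200))))) (XT.nd (nat_lit 234) (nat_lit 228) (nat_lit 0) (XT.nd (nat_lit 78) (nat_lit 228) (nat_lit 0) (XT.lf (nat_lit 0) (nat_lit 16738061410) (nat_lit 152) (nat_lit 1798943199) (nat_lit 0) (nat_lit 5216133844) (nat_lit 13) (nat_lit 5) (nat_lit 15) (nat_lit 4) (nat_lit 13) (nat_lit 4) (nat_lit 357) (nat_lit 224) (nat_lit 199)) (XT.nd (nat_lit 78) (nat_lit 76) (nat_lit 0) (XT.lf (nat_lit 0) (nat_lit 9646094424) (nat_lit 152) (nat_lit 13260268627) (nat_lit 152) (nat_lit 1431523641) (nat_lit 11) (nat_lit 4) (nat_lit 13) (nat_lit 5) (nat_lit 13) (nat_lit 4) (nat_lit 358) (nat_lit 224) (nat_lit 198)) (XT.lf (nat_lit 0) (nat_lit 4185006162) (nat_lit 228) (nat_lit 3672913529) (nat_lit 76) (nat_lit 17083272205) (nat_lit 10)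 (nat_lit 5) (nat_lit 13) (nat_lit 5) (nat_lit 11) (nat_lit 4) (nat_lit 359) (nat_lit 224) (nat_lit 197)))) (XT.nd (nat_lit 156) (nat_lit 152) (nat_lit 0) (XT.nd (nat_lit 78) (nat_lit 0) (nat_lit 0) (XT.lf (nat_lit 0) (nat_lit 7607546932) (nat_lit 76) (nat_lit 2305016312) (nat_lit 152) (nat_lit 15650621490) (nat_lit 9) (nat_lit 5) (nat_lit 10) (nat_lit 5) (nat_lit 11) (nat_lit 4) (nat_lit 360) (nat_lit 224) (nat_lit 196)) (XT.lf (nat_lit 0) (nat_lit 15772719807) (nat_lit 152) (nat_lit 7106858159) (nat_lit 0) (nat_lit 3325060761) (nat_lit 9) (nat_lit 5) (nat_lit 11) (nat_lit 4) (nat_lit 9) (nat_lit 4) (nat_lit 361) (nat_lit 224) (nat_lit 195))) (XT.nd (nat_lit 78) (nat_lit 76) (nat_lit 0) (XT.lf (nat_lit 0) (nat_lit 3950498848) (nat_lit 76) (nat_lit 17815314186) (nat_lit 76) (nat_lit 5100396999) (nat_lit 8) (nat_lit 4) (nat_lit 9) (nat_lit 5) (nat_lit 9) (nat_lit 4) (nat_lit 362) (nat_lit 224) (nat_lit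 194)) (XT.lf (nat_lit 0) (nat_lit 351390674) (nat_lit 152) (nat_lit 12264581948) (nat_lit 76) (nat_lit 14932311641) (nat_lit 7) (nat_lit 5) (nat_lit 9) (nat_lit 5) (nat_lit 8) (nat_lit 4) (nat_lit 363) (nat_lit 224) (nat_lit 193)))))) (XT.nd (nat_lit 38376) (nat_lit 0) (nat_lit 1976) (XT.nd (nat_lit 38064) (nat_lit 0) (nat_lit 3116) (XT.nd (nat_lit 78) (nat_lit 76) (nat_lit 0) (XT.lf (nat_lit 0) (nat_lit 5817222684) (nat_lit 152) (nat_lit 1475517719) (nat_lit 76) (nat_lit 20959025438) (nat_lit 7) (nat_lit 5) (nat_lit 9) (nat_lit 5) (nat_lit 8) (nat_lit 4) (nat_lit 364) (nat_lit 224) (nat_lit 192)) (XT.nd (nat_lit 37908) (nat_lit 0) (nat_lit 3876) (XT.lf (nat_lit 0) (nat_lit 9620194580) (nat_lit 76) (nat_lit 1811033727) (nat_lit 152) (nat_lit 17545454242) (nat_lit 6) (nat_lit 5) (nat_lit 7) (nat_lit 5) (nat_lit 8) (nat_lit 4) (nat_lit 365) (nat_lit 224) (nat_lit 191)) (XT.lf (nat_lit 0) (nat_lit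 1101973432) (nat_lit 304) (nat_lit 4425151282) (nat_lit 0) (nat_lit 1101973432) (nat_lit 57) (nat_lit 5) (nat_lit 61) (nat_lit 4) (nat_lit 57) (nat_lit 4) (nat_lit 330) (nat_lit 225) (nat_lit 225)))) (XT.nd (nat_lit 156) (nat_lit 304) (nat_lit 0) (XT.nd (nat_lit 78) (nat_lit 228) (nat_lit 0) (XT.lf (nat_lit 0) (nat_lit 3110951309) (nat_lit 228) (nat_lit 5594170036) (nat_lit 228) (nat_lit 4803401460) (nat_lit 54) (nat_lit 4) (nat_lit 57) (nat_lit 5) (nat_lit 57) (nat_lit 4) (nat_lit 331) (nat_lit 225) (nat_lit 224)) (XT.lf (nat_lit 0) (nat_lit 1541873810) (nat_lit 228) (nat_lit 12211824425) (nat_lit 0) (nat_lit 13927675) (nat_lit 51) (nat_lit 5) (nat_lit 54) (nat_lit 4) (nat_lit 51) (nat_lit 4) (nat_lit 332) (nat_lit 225) (nat_lit 223))) (XT.nd (nat_lit 78) (nat_lit 304) (nat_lit 0) (XT.lf (nat_lit 0) (nat_lit 7980712238) (nat_lit 228) (nat_lit 331824161) (nat_lit 0) (nat_lit 5722006077) (nat_lit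 51) (nat_lit 5) (nat_lit 54) (nat_lit 4) (nat_lit 51) (nat_lit 4) (nat_lit 333) (nat_lit 225) (nat_lit 222)) (XT.lf (nat_lit 0) (nat_lit 239472765) (nat_lit 304) (nat_lit 2484446925) (nat_lit 76) (nat_lit 11586745969) (nat_lit 47) (nat_lit 5) (nat_lit 51) (nat_lit 5) (nat_lit 48) (nat_lit 4) (nat_lit 334) (nat_lit 225) (nat_lit 221))))) (XT.nd (nat_lit 234) (nat_lit 532) (nat_lit 0) (XT.nd (nat_lit 78) (nat_lit 456) (nat_lit 0) (XT.lf (nat_lit 0) (nat_lit 6589646773) (nat_lit 228) (nat_lit 5001301125) (nat_lit 0) (nat_lit 3004359203) (nat_lit 45) (nat_lit 5) (nat_lit 48) (nat_lit 4) (nat_lit 45) (nat_lit 4) (nat_lit 335) (nat_lit 225) (nat_lit 220)) (XT.nd (nat_lit 78) (nat_lit 228) (nat_lit 0) (XT.lf (nat_lit 0) (nat_lit 7026206955) (nat_lit 228) (nat_lit 6052142114) (nat_lit 228) (nat_lit 1811218326) (nat_lit 42) (nat_lit 4) (nat_lit 45) (nat_lit 5) (nat_lit 45) (nat_lit 4) (nat_lit 336) (nat_lit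 225) (nat_lit 219)) (XT.lf (nat_lit 0) (nat_lit 4088388228) (nat_lit 152) (nat_lit 350152382) (nat_lit 228) (nat_lit 10754971571) (nat_lit 39) (nat_lit 5) (nat_lit 41) (nat_lit 5) (nat_lit 42) (nat_lit 4) (nat_lit 337) (nat_lit 225) (nat_lit 218)))) (XT.nd (nat_lit 156) (nat_lit 304) (nat_lit 0) (XT.nd (nat_lit 78) (nat_lit 76) (nat_lit 0) (XT.lf (nat_lit 0) (nat_lit 737467012) (nat_lit 152) (nat_lit 10078658352) (nat_lit 152) (nat_lit 4690948724) (nat_lit 37) (nat_lit 4) (nat_lit 39) (nat_lit 5) (nat_lit 39) (nat_lit 4) (nat_lit 338) (nat_lit 225) (nat_lit 217)) (XT.lf (nat_lit 0) (nat_lit 1484667435) (nat_lit 228) (nat_lit 2976916717) (nat_lit 76) (nat_lit 11369290692) (nat_lit 36) (nat_lit 5) (nat_lit 39) (nat_lit 5) (nat_lit 37) (nat_lit 4) (nat_lit 339) (nat_lit 225) (nat_lit 216))) (XT.nd (nat_lit 78) (nat_lit 152) (nat_lit 0) (XT.lf (nat_lit 0) (nat_lit 7725179559) (nat_lit 228) (nat_lit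 7133251109) (nat_lit 0) (nat_lit 1306505852) (nat_lit 34) (nat_lit 5) (nat_lit 37) (nat_lit 4) (nat_lit 34) (nat_lit 4) (nat_lit 340) (nat_lit 225) (nat_lit 215)) (XT.lf (nat_lit 0) (nat_lit 4750334409) (nat_lit 152) (nat_lit 9360911035) (nat_lit 152) (nat_lit 2398641058) (nat_lit 32) (nat_lit 4) (nat_lit 34) (nat_lit 5) (nat_lit 34) (nat_lit 4) (nat_lit 341) (nat_lit 225) (nat_lit 214))))))))
noncomputable def xc6 : XT := (XT.nd (nat_lit 39780) (nat_lit 0) (nat_lit 532) (XT.nd (nat_lit 1014) (nat_lit 684) (nat_lit 0) (XT.nd (nat_lit 468) (nat_lit 608) (nat_lit 0) (XT.nd (nat_lit 234) (nat_lit 304) (nat_lit 0) (XT.nd (nat_lit 78) (nat_lit 304) (nat_lit 0) (XT.lf (nat_lit 0) (nat_lit 3700941893) (nat_lit 228) (nat_lit 14130722) (nat_lit 76) (nat_lit 13151099826) (nat_lit 31) (nat_lit 5) (nat_lit 34) (nat_lit 5) (nat_lit 32) (nat_lit 4) (nat_lit 342) (nat_lit 225) (nat_lit 213)) (XT.nd (nat_lit 78)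 (nat_lit 152) (nat_lit 0) (XT.lf (nat_lit 0) (nat_lit 9925081267) (nat_lit 228) (nat_lit 5228729560) (nat_lit 0) (nat_lit 2079566592) (nat_lit 29) (nat_lit 5) (nat_lit 32) (nat_lit 4) (nat_lit 29) (nat_lit 4) (nat_lit 343) (nat_lit 225) (nat_lit 212)) (XT.lf (nat_lit 0) (nat_lit 6629633680) (nat_lit 152) (nat_lit 9658093515) (nat_lit 152) (nat_lit 1324865513) (nat_lit 27) (nat_lit 4) (nat_lit 29) (nat_lit 5) (nat_lit 29) (nat_lit 4) (nat_lit 344) (nat_lit 225) (nat_lit 211)))) (XT.nd (nat_lit 78) (nat_lit 152) (nat_lit 0) (XT.lf (nat_lit 0) (nat_lit 686920700) (nat_lit 76) (nat_lit 4012909391) (nat_lit 152) (nat_lit 13304250214) (nat_lit 25) (nat_lit 5) (nat_lit 26) (nat_lit 5) (nat_lit 27) (nat_lit 4) (nat_lit 345) (nat_lit 225) (nat_lit 210)) (XT.nd (nat_lit 78) (nat_lit 152) (nat_lit 0) (XT.lf (nat_lit 0) (nat_lit 10860554590) (nat_lit 152) (nat_lit 5771347516) (nat_lit 0) (nat_lit 1775797068)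 (nat_lit 25) (nat_lit 5) (nat_lit 27) (nat_lit 4) (nat_lit 25) (nat_lit 4) (nat_lit 346) (nat_lit 225) (nat_lit 209)) (XT.lf (nat_lit 0) (nat_lit 5976554824) (nat_lit 152) (nat_lit 11185060519) (nat_lit 152) (nat_lit 1662727719) (nat_lit 23) (nat_lit 4) (nat_lit 25) (nat_lit 5) (nat_lit 25) (nat_lit 4) (nat_lit 347) (nat_lit 225) (nat_lit 208))))) (XT.nd (nat_lit 234) (nat_lit 304) (nat_lit 0) (XT.nd (nat_lit 78) (nat_lit 228) (nat_lit 0) (XT.lf (nat_lit 0) (nat_lit 4270995031) (nat_lit 228) (nat_lit 1319753203) (nat_lit 76) (nat_lit 13663583229) (nat_lit 22) (nat_lit 5) (nat_lit 25) (nat_lit 5) (nat_lit 23) (nat_lit 4) (nat_lit 348) (nat_lit 225) (nat_lit 207)) (XT.nd (nat_lit 78) (nat_lit 152) (nat_lit 0) (XT.lf (nat_lit 0) (nat_lit 10323752134) (nat_lit 152) (nat_lit 9206737929) (nat_lit 0) (nat_lit 167262102) (nat_lit 21) (nat_lit 5) (nat_lit 23) (nat_lit 4) (nat_lit 21) (nat_lit 4) (nat_lit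 349) (nat_lit 225) (nat_lit 206)) (XT.lf (nat_lit 0) (nat_lit 2325944110) (nat_lit 152) (nat_lit 14189247474) (nat_lit 152) (nat_lit 3640165906) (nat_lit 19) (nat_lit 4) (nat_lit 21) (nat_lit 5) (nat_lit 21) (nat_lit 4) (nat_lit 350) (nat_lit 225) (nat_lit 205)))) (XT.nd (nat_lit 156) (nat_lit 152) (nat_lit 0) (XT.nd (nat_lit 78) (nat_lit 76) (nat_lit 0) (XT.lf (nat_lit 0) (nat_lit 2195521381) (nat_lit 228) (nat_lit 6495285207) (nat_lit 76) (nat_lit 11936421960) (nat_lit 18) (nat_lit 5) (nat_lit 21) (nat_lit 5) (nat_lit 19) (nat_lit 4) (nat_lit 351) (nat_lit 225) (nat_lit 204)) (XT.lf (nat_lit 0) (nat_lit 5040682972) (nat_lit 76) (nat_lit 3048909376) (nat_lit 152) (nat_lit 13024548960) (nat_lit 17) (nat_lit 5) (nat_lit 18) (nat_lit 5) (nat_lit 19) (nat_lit 4) (nat_lit 352) (nat_lit 225) (nat_lit 203))) (XT.nd (nat_lit 78) (nat_lit 152) (nat_lit 0) (XT.lf (nat_lit 0) (nat_lit 14123744805) (nat_lit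 152) (nat_lit 4799879594) (nat_lit 0) (nat_lit 2692793392) (nat_lit 17) (nat_lit 5) (nat_lit 19) (nat_lit 4) (nat_lit 17) (nat_lit 4) (nat_lit 353) (nat_lit 225) (nat_lit 202)) (XT.lf (nat_lit 0) (nat_lit 6706157622) (nat_lit 152) (nat_lit 13600596821) (nat_lit 152) (nat_lit 1827672374) (nat_lit 15) (nat_lit 4) (nat_lit 17) (nat_lit 5) (nat_lit 17) (nat_lit 4) (nat_lit 354) (nat_lit 225) (nat_lit 201)))))) (XT.nd (nat_lit 546) (nat_lit 228) (nat_lit 0) (XT.nd (nat_lit 234) (nat_lit 304) (nat_lit 0) (XT.nd (nat_lit 78) (nat_lit 76) (nat_lit 0) (XT.lf (nat_lit 0) (nat_lit 3892412087) (nat_lit 228) (nat_lit 4242264683) (nat_lit 76) (nat_lit 14534045081) (nat_lit 14) (nat_lit 5) (nat_lit 17) (nat_lit 5) (nat_lit 15) (nat_lit 4) (nat_lit 355) (nat_lit 225) (nat_lit 200)) (XT.nd (nat_lit 78) (nat_lit 0) (nat_lit 0) (XT.lf (nat_lit 0) (nat_lit 7194677156) (nat_lit 76) (nat_lit 2519162763) (nat_lit 152)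 (nat_lit 13505892078) (nat_lit 13) (nat_lit 5) (nat_lit 14) (nat_lit 5) (nat_lit 15) (nat_lit 4) (nat_lit 356) (nat_lit 225) (nat_lit 199)) (XT.lf (nat_lit 0) (nat_lit 15668908731) (nat_lit 152) (nat_lit 4940718531) (nat_lit 0) (nat_lit 3178483975) (nat_lit 13) (nat_lit 5) (nat_lit 15) (nat_lit 4) (nat_lit 13) (nat_lit 4) (nat_lit 357) (nat_lit 225) (nat_lit 198)))) (XT.nd (nat_lit 156) (nat_lit 76) (nat_lit 0) (XT.nd (nat_lit 78) (nat_lit 76) (nat_lit 0) (XT.lf (nat_lit 0) (nat_lit 6382396387) (nat_lit 152) (nat_lit 15390036676) (nat_lit 152) (nat_lit 2601730928) (nat_lit 11) (nat_lit 4) (nat_lit 13) (nat_lit 5) (nat_lit 13) (nat_lit 4) (nat_lit 358) (nat_lit 225) (nat_lit 197)) (XT.lf (nat_lit 0) (nat_lit 2987031120) (nat_lit 228) (nat_lit 7043707729) (nat_lit 76) (nat_lit 14947753141) (nat_lit 10) (nat_lit 5) (nat_lit 13) (nat_lit 5) (nat_lit 11) (nat_lit 4) (nat_lit 359) (nat_lit 225) (nat_lit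 196))) (XT.nd (nat_lit 78) (nat_lit 0) (nat_lit 0) (XT.lf (nat_lit 0) (nat_lit 4114812241) (nat_lit 76) (nat_lit 4535239361) (nat_lit 152) (nat_lit 16951732246) (nat_lit 9) (nat_lit 5) (nat_lit 10) (nat_lit 5) (nat_lit 11) (nat_lit 4) (nat_lit 360) (nat_lit 225) (nat_lit 195)) (XT.lf (nat_lit 0) (nat_lit 14454382286) (nat_lit 152) (nat_lit 10699220676) (nat_lit 0) (nat_lit 1090759442) (nat_lit 9) (nat_lit 5) (nat_lit 11) (nat_lit 4) (nat_lit 9) (nat_lit 4) (nat_lit 361) (nat_lit 225) (nat_lit 194))))) (XT.nd (nat_lit 234) (nat_lit 76) (nat_lit 0) (XT.nd (nat_lit 78) (nat_lit 76) (nat_lit 0) (XT.lf (nat_lit 0) (nat_lit 236111965) (nat_lit 76) (nat_lit 20147105742) (nat_lit 76) (nat_lit 6524008973) (nat_lit 8) (nat_lit 4) (nat_lit 9) (nat_lit 5) (nat_lit 9) (nat_lit 4) (nat_lit 362) (nat_lit 225) (nat_lit 193)) (XT.nd (nat_lit 78) (nat_lit 76) (nat_lit 0) (XT.lf (nat_lit 0) (nat_lit 11499553295)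 (nat_lit 76) (nat_lit 14982801724) (nat_lit 76) (nat_lit 1107788524) (nat_lit 8) (nat_lit 4) (nat_lit 9) (nat_lit 5) (nat_lit 9) (nat_lit 4) (nat_lit 363) (nat_lit 225) (nat_lit 192)) (XT.lf (nat_lit 0) (nat_lit 4334019606) (nat_lit 152) (nat_lit 5364872654) (nat_lit 76) (nat_lit 18595654985) (nat_lit 7) (nat_lit 5) (nat_lit 9) (nat_lit 5) (nat_lit 8) (nat_lit 4) (nat_lit 364) (nat_lit 225) (nat_lit 191)))) (XT.nd (nat_lit 37830) (nat_lit 0) (nat_lit 3876) (XT.nd (nat_lit 37752) (nat_lit 0) (nat_lit 4408) (XT.lf (nat_lit 0) (nat_lit 5609757447) (nat_lit 76) (nat_lit 4274799534) (nat_lit 152) (nat_lit 19136183344) (nat_lit 6) (nat_lit 5) (nat_lit 7) (nat_lit 5) (nat_lit 8) (nat_lit 4) (nat_lit 365) (nat_lit 225) (nat_lit 190)) (XT.lf (nat_lit 0) (nat_lit 1579017043) (nat_lit 304) (nat_lit 3231741080) (nat_lit 0) (nat_lit 1579017043) (nat_lit 64) (nat_lit 5) (nat_lit 68) (nat_lit 4) (nat_lit 64)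 (nat_lit 4) (nat_lit 328) (nat_lit 226) (nat_lit 226))) (XT.nd (nat_lit 78) (nat_lit 304) (nat_lit 0) (XT.lf (nat_lit 0) (nat_lit 5424481085) (nat_lit 228) (nat_lit 4210959260) (nat_lit 228) (nat_lit 3380177794) (nat_lit 61) (nat_lit 4) (nat_lit 64) (nat_lit 5) (nat_lit 64) (nat_lit 4) (nat_lit 329) (nat_lit 226) (nat_lit 225)) (XT.lf (nat_lit 0) (nat_lit 2947562525) (nat_lit 304) (nat_lit 8969772783) (nat_lit 0) (nat_lit 1342302315) (nat_lit 57) (nat_lit 5) (nat_lit 61) (nat_lit 4) (nat_lit 57) (nat_lit 4) (nat_lit 330) (nat_lit 226) (nat_lit 224))))))) (XT.nd (nat_lit 1014) (nat_lit 1216) (nat_lit 0) (XT.nd (nat_lit 468) (nat_lit 988) (nat_lit 0) (XT.nd (nat_lit 234) (nat_lit 684) (nat_lit 0) (XT.nd (nat_lit 78) (nat_lit 228) (nat_lit 0) (XT.lf (nat_lit 0) (nat_lit 2872361439) (nat_lit 228) (nat_lit 6506014857) (nat_lit 228) (nat_lit 4133018165) (nat_lit 54) (nat_lit 4) (nat_lit 57) (nat_lit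 5) (nat_lit 57) (nat_lit 4) (nat_lit 331) (nat_lit 226) (nat_lit 223)) (XT.nd (nat_lit 78) (nat_lit 0) (nat_lit 0) (XT.lf (nat_lit 0) (nat_lit 1190250741) (nat_lit 152) (nat_lit 942730772) (nat_lit 228) (nat_lit 11638860671) (nat_lit 51) (nat_lit 5) (nat_lit 53) (nat_lit 5) (nat_lit 54) (nat_lit 4) (nat_lit 332) (nat_lit 226) (nat_lit 222)) (XT.lf (nat_lit 0) (nat_lit 8498626445) (nat_lit 228) (nat_lit 809694212) (nat_lit 0) (nat_lit 4731923323) (nat_lit 51) (nat_lit 5) (nat_lit 54) (nat_lit 4) (nat_lit 51) (nat_lit 4) (nat_lit 333) (nat_lit 226) (nat_lit 221)))) (XT.nd (nat_lit 78) (nat_lit 380) (nat_lit 0) (XT.lf (nat_lit 0) (nat_lit 675497778) (nat_lit 304) (nat_lit 3091009018) (nat_lit 76) (nat_lit 10551203586) (nat_lit 47) (nat_lit 5) (nat_lit 51) (nat_lit 5) (nat_lit 48) (nat_lit 4) (nat_lit 334) (nat_lit 226) (nat_lit 220)) (XT.nd (nat_lit 78) (nat_lit 228) (nat_lit 0) (XT.lf (nat_lit 0)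 (nat_lit 6949487290) (nat_lit 228) (nat_lit 5728708392) (nat_lit 0) (nat_lit 1925699571) (nat_lit 45) (nat_lit 5) (nat_lit 48) (nat_lit 4) (nat_lit 45) (nat_lit 4) (nat_lit 335) (nat_lit 226) (nat_lit 219)) (XT.lf (nat_lit 0) (nat_lit 6178501937) (nat_lit 228) (nat_lit 7190690230) (nat_lit 228) (nat_lit 1530362494) (nat_lit 42) (nat_lit 4) (nat_lit 45) (nat_lit 5) (nat_lit 45) (nat_lit 4) (nat_lit 336) (nat_lit 226) (nat_lit 218))))) (XT.nd (nat_lit 234) (nat_lit 532) (nat_lit 0) (XT.nd (nat_lit 78) (nat_lit 228) (nat_lit 0) (XT.lf (nat_lit 0) (nat_lit 3107750106) (nat_lit 152) (nat_lit 1538823090) (nat_lit 228) (nat_lit 10558290816) (nat_lit 39) (nat_lit 5) (nat_lit 41) (nat_lit 5) (nat_lit 42) (nat_lit 4) (nat_lit 337) (nat_lit 226) (nat_lit 217)) (XT.nd (nat_lit 78) (nat_lit 228) (nat_lit 0) (XT.lf (nat_lit 0) (nat_lit 10949724888) (nat_lit 228) (nat_lit 363941111) (nat_lit 0) (nat_lit 4206266292)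 (nat_lit 39) (nat_lit 5) (nat_lit 42) (nat_lit 4) (nat_lit 39) (nat_lit 4) (nat_lit 338) (nat_lit 226) (nat_lit 216)) (XT.lf (nat_lit 0) (nat_lit 1540185322) (nat_lit 228) (nat_lit 4203386485) (nat_lit 76) (nat_lit 10101435217) (nat_lit 36) (nat_lit 5) (nat_lit 39) (nat_lit 5) (nat_lit 37) (nat_lit 4) (nat_lit 339) (nat_lit 226) (nat_lit 215)))) (XT.nd (nat_lit 156) (nat_lit 228) (nat_lit 0) (XT.nd (nat_lit 78) (nat_lit 152) (nat_lit 0) (XT.lf (nat_lit 0) (nat_lit 7692861617) (nat_lit 152) (nat_lit 11044645) (nat_lit 228) (nat_lit 8476714628) (nat_lit 34) (nat_lit 5) (nat_lit 36) (nat_lit 5) (nat_lit 37) (nat_lit 4) (nat_lit 340) (nat_lit 226) (nat_lit 214)) (XT.lf (nat_lit 0) (nat_lit 3273862948) (nat_lit 152) (nat_lit 10747793918) (nat_lit 152) (nat_lit 2505296200) (nat_lit 32) (nat_lit 4) (nat_lit 34) (nat_lit 5) (nat_lit 34) (nat_lit 4) (nat_lit 341) (nat_lit 226) (nat_lit 213))) (XT.nd (nat_lit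 78) (nat_lit 152) (nat_lit 0) (XT.lf (nat_lit 0) (nat_lit 3537684172) (nat_lit 228) (nat_lit 1608767309) (nat_lit 76) (nat_lit 11737976526) (nat_lit 31) (nat_lit 5) (nat_lit 34) (nat_lit 5) (nat_lit 32) (nat_lit 4) (nat_lit 342) (nat_lit 226) (nat_lit 212)) (XT.lf (nat_lit 0) (nat_lit 9684727050) (nat_lit 228) (nat_lit 6954673668) (nat_lit 0) (nat_lit 613788881) (nat_lit 29) (nat_lit 5) (nat_lit 32) (nat_lit 4) (nat_lit 29) (nat_lit 4) (nat_lit 343) (nat_lit 226) (nat_lit 211)))))) (XT.nd (nat_lit 546) (nat_lit 608) (nat_lit 0) (XT.nd (nat_lit 234) (nat_lit 304) (nat_lit 0) (XT.nd (nat_lit 78) (nat_lit 152) (nat_lit 0) (XT.lf (nat_lit 0) (nat_lit 4781378313) (nat_lit 152) (nat_lit 11198419296) (nat_lit 152) (nat_lit 1653973043) (nat_lit 27) (nat_lit 4) (nat_lit 29) (nat_lit 5) (nat_lit 29) (nat_lit 4) (nat_lit 344) (nat_lit 226) (nat_lit 210)) (XT.nd (nat_lit 78) (nat_lit 76) (nat_lit 0) (XT.lf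 (nat_lit 0) (nat_lit 4315620801) (nat_lit 228) (nat_lit 1286608821) (nat_lit 76) (nat_lit 12424273294) (nat_lit 26) (nat_lit 5) (nat_lit 29) (nat_lit 5) (nat_lit 27) (nat_lit 4) (nat_lit 345) (nat_lit 226) (nat_lit 209)) (XT.lf (nat_lit 0) (nat_lit 10403256853) (nat_lit 152) (nat_lit 7870661083) (nat_lit 0) (nat_lit 157678791) (nat_lit 25) (nat_lit 5) (nat_lit 27) (nat_lit 4) (nat_lit 25) (nat_lit 4) (nat_lit 346) (nat_lit 226) (nat_lit 208)))) (XT.nd (nat_lit 156) (nat_lit 76) (nat_lit 0) (XT.nd (nat_lit 78) (nat_lit 76) (nat_lit 0) (XT.lf (nat_lit 0) (nat_lit 3754438806) (nat_lit 152) (nat_lit 12882782478) (nat_lit 152) (nat_lit 2212374049) (nat_lit 23) (nat_lit 4) (nat_lit 25) (nat_lit 5) (nat_lit 25) (nat_lit 4) (nat_lit 347) (nat_lit 226) (nat_lit 207)) (XT.lf (nat_lit 0) (nat_lit 3676469497) (nat_lit 228) (nat_lit 3656396710) (nat_lit 76) (nat_lit 11947842833) (nat_lit 22) (nat_lit 5) (nat_lit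 25) (nat_lit 5) (nat_lit 23) (nat_lit 4) (nat_lit 348) (nat_lit 226) (nat_lit 206))) (XT.nd (nat_lit 78) (nat_lit 0) (nat_lit 0) (XT.lf (nat_lit 0) (nat_lit 8033102777) (nat_lit 76) (nat_lit 1628486944) (nat_lit 152) (nat_lit 10063904579) (nat_lit 21) (nat_lit 5) (nat_lit 22) (nat_lit 5) (nat_lit 23) (nat_lit 4) (nat_lit 349) (nat_lit 226) (nat_lit 205)) (XT.lf (nat_lit 0) (nat_lit 15777427537) (nat_lit 152) (nat_lit 269070439) (nat_lit 0) (nat_lit 4138125157) (nat_lit 21) (nat_lit 5) (nat_lit 23) (nat_lit 4) (nat_lit 21) (nat_lit 4) (nat_lit 350) (nat_lit 226) (nat_lit 204))))) (XT.nd (nat_lit 234) (nat_lit 304) (nat_lit 0) (XT.nd (nat_lit 78) (nat_lit 76) (nat_lit 0) (XT.lf (nat_lit 0) (nat_lit 1387389833) (nat_lit 228) (nat_lit 9206830091) (nat_lit 76) (nat_lit 10063408023) (nat_lit 18) (nat_lit 5) (nat_lit 21) (nat_lit 5) (nat_lit 19) (nat_lit 4) (nat_lit 351) (nat_lit 226) (nat_lit 203)) (XT.nd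 (nat_lit 78) (nat_lit 0) (nat_lit 0) (XT.lf (nat_lit 0) (nat_lit 2205895977) (nat_lit 76) (nat_lit 5009218082) (nat_lit 152) (nat_lit 13930764188) (nat_lit 17) (nat_lit 5) (nat_lit 18) (nat_lit 5) (nat_lit 19) (nat_lit 4) (nat_lit 352) (nat_lit 226) (nat_lit 202)) (XT.lf (nat_lit 0) (nat_lit 13189200161) (nat_lit 152) (nat_lit 7739051245) (nat_lit 0) (nat_lit 721114947) (nat_lit 17) (nat_lit 5) (nat_lit 19) (nat_lit 4) (nat_lit 17) (nat_lit 4) (nat_lit 353) (nat_lit 226) (nat_lit 201)))) (XT.nd (nat_lit 156) (nat_lit 76) (nat_lit 0) (XT.nd (nat_lit 78) (nat_lit 76) (nat_lit 0) (XT.lf (nat_lit 0) (nat_lit 3643935699) (nat_lit 152) (nat_lit 15662432191) (nat_lit 152) (nat_lit 2862334324) (nat_lit 15) (nat_lit 4) (nat_lit 17) (nat_lit 5) (nat_lit 17) (nat_lit 4) (nat_lit 354) (nat_lit 226) (nat_lit 200)) (XT.lf (nat_lit 0) (nat_lit 2825860595) (nat_lit 228) (nat_lit 7414201846) (nat_lit 76) (nat_lit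 12463987861) (nat_lit 14) (nat_lit 5) (nat_lit 17) (nat_lit 5) (nat_lit 15) (nat_lit 4) (nat_lit 355) (nat_lit 226) (nat_lit 199))) (XT.nd (nat_lit 78) (nat_lit 0) (nat_lit 0) (XT.lf (nat_lit 0) (nat_lit 3899761970) (nat_lit 76) (nat_lit 4681998420) (nat_lit 152) (nat_lit 14674619857) (nat_lit 13) (nat_lit 5) (nat_lit 14) (nat_lit 5) (nat_lit 15) (nat_lit 4) (nat_lit 356) (nat_lit 226) (nat_lit 198)) (XT.lf (nat_lit 0) (nat_lit 14479199420) (nat_lit 152) (nat_lit 8337358122) (nat_lit 0) (nat_lit 1009363509) (nat_lit 13) (nat_lit 5) (nat_lit 15) (nat_lit 4) (nat_lit 13) (nat_lit 4) (nat_lit 357) (nat_lit 226) (nat_lit 197))))))))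
noncomputable def xc7 : XT := (XT.nd (nat_lit 39624) (nat_lit 0) (nat_lit 76) (XT.nd (nat_lit 38532) (nat_lit 0) (nat_lit 1596) (XT.nd (nat_lit 468) (nat_lit 152) (nat_lit 0) (XT.nd (nat_lit 234) (nat_lit 76) (nat_lit 0) (XT.nd (nat_lit 78) (nat_lit 152) (nat_lit 0) (XT.lf (nat_lit 0) (nat_lit 2862782132) (nat_lit 152) (nat_lit 17654772262) (nat_lit 152) (nat_lit 3895731505) (nat_lit 11) (nat_lit 4) (nat_lit 13) (nat_lit 5) (nat_lit 13) (nat_lit 4) (nat_lit 358) (nat_lit 226) (nat_lit 196)) (XT.nd (nat_lit 78) (nat_lit 76) (nat_lit 0) (XT.lf (nat_lit 0) (nat_lit 1668142143) (nat_lit 228) (nat_lit 10670175030) (nat_lit 76) (nat_lit 12680310233) (nat_lit 10) (nat_lit 5) (nat_lit 13) (nat_lit 5) (nat_lit 11) (nat_lit 4) (nat_lit 359) (nat_lit 226) (nat_lit 195)) (XT.lf (nat_lit 0) (nat_lit 365253613) (nat_lit 76) (nat_lit 6900924148) (nat_lit 152) (nat_lit 18377049247) (nat_lit 9) (nat_lit 5) (nat_lit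 10) (nat_lit 5) (nat_lit 11) (nat_lit 4) (nat_lit 360) (nat_lit 226) (nat_lit 194)))) (XT.nd (nat_lit 78) (nat_lit 76) (nat_lit 0) (XT.lf (nat_lit 0) (nat_lit 11730186665) (nat_lit 76) (nat_lit 1293217063) (nat_lit 152) (nat_lit 13263351742) (nat_lit 9) (nat_lit 5) (nat_lit 10) (nat_lit 5) (nat_lit 11) (nat_lit 4) (nat_lit 361) (nat_lit 226) (nat_lit 193)) (XT.nd (nat_lit 78) (nat_lit 76) (nat_lit 0) (XT.lf (nat_lit 0) (nat_lit 18903337357) (nat_lit 152) (nat_lit 3687110677) (nat_lit 0) (nat_lit 4360157331) (nat_lit 9) (nat_lit 5) (nat_lit 11) (nat_lit 4) (nat_lit 9) (nat_lit 4) (nat_lit 362) (nat_lit 226) (nat_lit 192)) (XT.lf (nat_lit 0) (nat_lit 7457311325) (nat_lit 76) (nat_lit 17482614168) (nat_lit 76) (nat_lit 2694855083) (nat_lit 8) (nat_lit 4) (nat_lit 9) (nat_lit 5) (nat_lit 9) (nat_lit 4) (nat_lit 363) (nat_lit 226) (nat_lit 191))))) (XT.nd (nat_lit 37752) (nat_lit 0) (nat_lit 3876) (XT.nd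 (nat_lit 78) (nat_lit 76) (nat_lit 0) (XT.lf (nat_lit 0) (nat_lit 2730337881) (nat_lit 152) (nat_lit 9509931962) (nat_lit 76) (nat_lit 16099876126) (nat_lit 7) (nat_lit 5) (nat_lit 9) (nat_lit 5) (nat_lit 8) (nat_lit 4) (nat_lit 364) (nat_lit 226) (nat_lit 190)) (XT.nd (nat_lit 37596) (nat_lit 0) (nat_lit 4940) (XT.lf (nat_lit 0) (nat_lit 1342238969) (nat_lit 76) (nat_lit 6874589086) (nat_lit 152) (nat_lit 20850798743) (nat_lit 6) (nat_lit 5) (nat_lit 7) (nat_lit 5) (nat_lit 8) (nat_lit 4) (nat_lit 365) (nat_lit 226) (nat_lit 189)) (XT.lf (nat_lit 0) (nat_lit 1879742989) (nat_lit 304) (nat_lit 2404698828) (nat_lit 0) (nat_lit 1879742989) (nat_lit 71) (nat_lit 5) (nat_lit 75) (nat_lit 4) (nat_lit 71) (nat_lit 4) (nat_lit 326) (nat_lit 227) (nat_lit 227)))) (XT.nd (nat_lit 156) (nat_lit 532) (nat_lit 0) (XT.nd (nat_lit 78) (nat_lit 304) (nat_lit 0) (XT.lf (nat_lit 0) (nat_lit 6972298840) (nat_lit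 228) (nat_lit 3225782095) (nat_lit 228) (nat_lit 2352963087) (nat_lit 68) (nat_lit 4) (nat_lit 71) (nat_lit 5) (nat_lit 71) (nat_lit 4) (nat_lit 327) (nat_lit 227) (nat_lit 226)) (XT.lf (nat_lit 0) (nat_lit 3943119872) (nat_lit 304) (nat_lit 6581234364) (nat_lit 0) (nat_lit 2256633495) (nat_lit 64) (nat_lit 5) (nat_lit 68) (nat_lit 4) (nat_lit 64) (nat_lit 4) (nat_lit 328) (nat_lit 227) (nat_lit 225))) (XT.nd (nat_lit 78) (nat_lit 304) (nat_lit 0) (XT.lf (nat_lit 0) (nat_lit 5189322205) (nat_lit 228) (nat_lit 5161114860) (nat_lit 228) (nat_lit 2668044536) (nat_lit 61) (nat_lit 4) (nat_lit 64) (nat_lit 5) (nat_lit 64) (nat_lit 4) (nat_lit 329) (nat_lit 227) (nat_lit 224)) (XT.lf (nat_lit 0) (nat_lit 3573799055) (nat_lit 304) (nat_lit 9328287829) (nat_lit 0) (nat_lit 361875980) (nat_lit 57) (nat_lit 5) (nat_lit 61) (nat_lit 4) (nat_lit 57) (nat_lit 4) (nat_lit 330) (nat_lit 227) (nat_lit 223))))))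 (XT.nd (nat_lit 546) (nat_lit 912) (nat_lit 0) (XT.nd (nat_lit 234) (nat_lit 912) (nat_lit 0) (XT.nd (nat_lit 78) (nat_lit 228) (nat_lit 0) (XT.lf (nat_lit 0) (nat_lit 2394973221) (nat_lit 228) (nat_lit 7539732681) (nat_lit 228) (nat_lit 3582434381) (nat_lit 54) (nat_lit 4) (nat_lit 57) (nat_lit 5) (nat_lit 57) (nat_lit 4) (nat_lit 331) (nat_lit 227) (nat_lit 222)) (XT.nd (nat_lit 78) (nat_lit 0) (nat_lit 0) (XT.lf (nat_lit 0) (nat_lit 583905526) (nat_lit 152) (nat_lit 2022465311) (nat_lit 228) (nat_lit 11172566504) (nat_lit 51) (nat_lit 5) (nat_lit 53) (nat_lit 5) (nat_lit 54) (nat_lit 4) (nat_lit 332) (nat_lit 227) (nat_lit 221)) (XT.lf (nat_lit 0) (nat_lit 8899886327) (nat_lit 228) (nat_lit 1527021189) (nat_lit 0) (nat_lit 3621894949) (nat_lit 51) (nat_lit 5) (nat_lit 54) (nat_lit 4) (nat_lit 51) (nat_lit 4) (nat_lit 333) (nat_lit 227) (nat_lit 220)))) (XT.nd (nat_lit 156) (nat_lit 456) (nat_lit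 0) (XT.nd (nat_lit 78) (nat_lit 152) (nat_lit 0) (XT.lf (nat_lit 0) (nat_lit 993924312) (nat_lit 304) (nat_lit 3939013208) (nat_lit 76) (nat_lit 9394682582) (nat_lit 47) (nat_lit 5) (nat_lit 51) (nat_lit 5) (nat_lit 48) (nat_lit 4) (nat_lit 334) (nat_lit 227) (nat_lit 219)) (XT.lf (nat_lit 0) (nat_lit 7191231103) (nat_lit 228) (nat_lit 6699573170) (nat_lit 0) (nat_lit 724553519) (nat_lit 45) (nat_lit 5) (nat_lit 48) (nat_lit 4) (nat_lit 45) (nat_lit 4) (nat_lit 335) (nat_lit 227) (nat_lit 218))) (XT.nd (nat_lit 78) (nat_lit 228) (nat_lit 0) (XT.lf (nat_lit 0) (nat_lit 5087326245) (nat_lit 228) (nat_lit 8454880870) (nat_lit 228) (nat_lit 1370203269) (nat_lit 42) (nat_lit 4) (nat_lit 45) (nat_lit 5) (nat_lit 45) (nat_lit 4) (nat_lit 336) (nat_lit 227) (nat_lit 217)) (XT.lf (nat_lit 0) (nat_lit 1881488332) (nat_lit 152) (nat_lit 2854237384) (nat_lit 228) (nat_lit 10483369056) (nat_lit 39) (nat_lit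 5) (nat_lit 41) (nat_lit 5) (nat_lit 42) (nat_lit 4) (nat_lit 337) (nat_lit 227) (nat_lit 216))))) (XT.nd (nat_lit 234) (nat_lit 532) (nat_lit 0) (XT.nd (nat_lit 78) (nat_lit 380) (nat_lit 0) (XT.lf (nat_lit 0) (nat_lit 10970213274) (nat_lit 228) (nat_lit 1700226886) (nat_lit 0) (nat_lit 2865113369) (nat_lit 39) (nat_lit 5) (nat_lit 42) (nat_lit 4) (nat_lit 39) (nat_lit 4) (nat_lit 338) (nat_lit 227) (nat_lit 215)) (XT.nd (nat_lit 78) (nat_lit 152) (nat_lit 0) (XT.lf (nat_lit 0) (nat_lit 1476692770) (nat_lit 228) (nat_lit 5676648705) (nat_lit 76) (nat_lit 8708668438) (nat_lit 36) (nat_lit 5) (nat_lit 39) (nat_lit 5) (nat_lit 37) (nat_lit 4) (nat_lit 339) (nat_lit 227) (nat_lit 214)) (XT.lf (nat_lit 0) (nat_lit 6098251362) (nat_lit 152) (nat_lit 1474094232) (nat_lit 228) (nat_lit 8626655437) (nat_lit 34) (nat_lit 5) (nat_lit 36) (nat_lit 5) (nat_lit 37) (nat_lit 4) (nat_lit 340) (nat_lit 227) (nat_lit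 213)))) (XT.nd (nat_lit 156) (nat_lit 304) (nat_lit 0) (XT.nd (nat_lit 78) (nat_lit 76) (nat_lit 0) (XT.lf (nat_lit 0) (nat_lit 1548056980) (nat_lit 152) (nat_lit 12264386177) (nat_lit 152) (nat_lit 2734458537) (nat_lit 32) (nat_lit 4) (nat_lit 34) (nat_lit 5) (nat_lit 34) (nat_lit 4) (nat_lit 341) (nat_lit 227) (nat_lit 212)) (XT.lf (nat_lit 0) (nat_lit 3255215322) (nat_lit 228) (nat_lit 3451860281) (nat_lit 76) (nat_lit 10198471714) (nat_lit 31) (nat_lit 5) (nat_lit 34) (nat_lit 5) (nat_lit 32) (nat_lit 4) (nat_lit 342) (nat_lit 227) (nat_lit 211))) (XT.nd (nat_lit 78) (nat_lit 152) (nat_lit 0) (XT.lf (nat_lit 0) (nat_lit 8337825159) (nat_lit 152) (nat_lit 992966245) (nat_lit 228) (nat_lit 7944961097) (nat_lit 29) (nat_lit 5) (nat_lit 31) (nat_lit 5) (nat_lit 32) (nat_lit 4) (nat_lit 343) (nat_lit 227) (nat_lit 210)) (XT.lf (nat_lit 0) (nat_lit 2681820941) (nat_lit 152) (nat_lit 12870005735)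 (nat_lit 152) (nat_lit 2106001424) (nat_lit 27) (nat_lit 4) (nat_lit 29) (nat_lit 5) (nat_lit 29) (nat_lit 4) (nat_lit 344) (nat_lit 227) (nat_lit 209))))))) (XT.nd (nat_lit 1014) (nat_lit 456) (nat_lit 0) (XT.nd (nat_lit 468) (nat_lit 608) (nat_lit 0) (XT.nd (nat_lit 234) (nat_lit 152) (nat_lit 0) (XT.nd (nat_lit 78) (nat_lit 228) (nat_lit 0) (XT.lf (nat_lit 0) (nat_lit 3816163455) (nat_lit 228) (nat_lit 3501680914) (nat_lit 76) (nat_lit 10733855015) (nat_lit 26) (nat_lit 5) (nat_lit 29) (nat_lit 5) (nat_lit 27) (nat_lit 4) (nat_lit 345) (nat_lit 227) (nat_lit 208)) (XT.nd (nat_lit 78) (nat_lit 152) (nat_lit 0) (XT.lf (nat_lit 0) (nat_lit 8224623776) (nat_lit 76) (nat_lit 1611159315) (nat_lit 152) (nat_lit 8622383224) (nat_lit 25) (nat_lit 5) (nat_lit 26) (nat_lit 5) (nat_lit 27) (nat_lit 4) (nat_lit 346) (nat_lit 227) (nat_lit 207)) (XT.lf (nat_lit 0) (nat_lit 1278616139) (nat_lit 152) (nat_lit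 14713461160) (nat_lit 152) (nat_lit 2885653445) (nat_lit 23) (nat_lit 4) (nat_lit 25) (nat_lit 5) (nat_lit 25) (nat_lit 4) (nat_lit 347) (nat_lit 227) (nat_lit 206)))) (XT.nd (nat_lit 78) (nat_lit 76) (nat_lit 0) (XT.lf (nat_lit 0) (nat_lit 2961449490) (nat_lit 228) (nat_lit 6246123108) (nat_lit 76) (nat_lit 10102382515) (nat_lit 22) (nat_lit 5) (nat_lit 25) (nat_lit 5) (nat_lit 23) (nat_lit 4) (nat_lit 348) (nat_lit 227) (nat_lit 205)) (XT.nd (nat_lit 78) (nat_lit 0) (nat_lit 0) (XT.lf (nat_lit 0) (nat_lit 5320282991) (nat_lit 76) (nat_lit 3559575443) (nat_lit 152) (nat_lit 10876227640) (nat_lit 21) (nat_lit 5) (nat_lit 22) (nat_lit 5) (nat_lit 23) (nat_lit 4) (nat_lit 349) (nat_lit 227) (nat_lit 204)) (XT.lf (nat_lit 0) (nat_lit 14934685677) (nat_lit 152) (nat_lit 3086768362) (nat_lit 0) (nat_lit 2194992221) (nat_lit 21) (nat_lit 5) (nat_lit 23) (nat_lit 4) (nat_lit 21) (nat_lit 4) (nat_lit 350)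 (nat_lit 227) (nat_lit 203))))) (XT.nd (nat_lit 234) (nat_lit 304) (nat_lit 0) (XT.nd (nat_lit 78) (nat_lit 76) (nat_lit 0) (XT.lf (nat_lit 0) (nat_lit 457693248) (nat_lit 228) (nat_lit 12174429962) (nat_lit 76) (nat_lit 8058784067) (nat_lit 18) (nat_lit 5) (nat_lit 21) (nat_lit 5) (nat_lit 19) (nat_lit 4) (nat_lit 351) (nat_lit 227) (nat_lit 202)) (XT.nd (nat_lit 78) (nat_lit 76) (nat_lit 0) (XT.lf (nat_lit 0) (nat_lit 6224550263) (nat_lit 228) (nat_lit 874191286) (nat_lit 76) (nat_lit 14081643668) (nat_lit 18) (nat_lit 5) (nat_lit 21) (nat_lit 5) (nat_lit 19) (nat_lit 4) (nat_lit 352) (nat_lit 227) (nat_lit 201)) (XT.lf (nat_lit 0) (nat_lit 10741248302) (nat_lit 76) (nat_lit 1401169533) (nat_lit 152) (nat_lit 9542589856) (nat_lit 17) (nat_lit 5) (nat_lit 18) (nat_lit 5) (nat_lit 19) (nat_lit 4) (nat_lit 353) (nat_lit 227) (nat_lit 200)))) (XT.nd (nat_lit 156) (nat_lit 76) (nat_lit 0) (XT.nd (nat_lit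 78) (nat_lit 76) (nat_lit 0) (XT.lf (nat_lit 0) (nat_lit 324312979) (nat_lit 152) (nat_lit 17860000776) (nat_lit 152) (nat_lit 4021544937) (nat_lit 15) (nat_lit 4) (nat_lit 17) (nat_lit 5) (nat_lit 17) (nat_lit 4) (nat_lit 354) (nat_lit 227) (nat_lit 199)) (XT.lf (nat_lit 0) (nat_lit 1637717975) (nat_lit 228) (nat_lit 10843219298) (nat_lit 76) (nat_lit 10261311979) (nat_lit 14) (nat_lit 5) (nat_lit 17) (nat_lit 5) (nat_lit 15) (nat_lit 4) (nat_lit 355) (nat_lit 227) (nat_lit 198))) (XT.nd (nat_lit 78) (nat_lit 0) (nat_lit 0) (XT.lf (nat_lit 0) (nat_lit 346704151) (nat_lit 76) (nat_lit 6980995042) (nat_lit 152) (nat_lit 15968207343) (nat_lit 13) (nat_lit 5) (nat_lit 14) (nat_lit 5) (nat_lit 15) (nat_lit 4) (nat_lit 356) (nat_lit 227) (nat_lit 197)) (XT.lf (nat_lit 0) (nat_lit 11866093489) (nat_lit 76) (nat_lit 1310307823) (nat_lit 152) (nat_lit 10690029474) (nat_lit 13) (nat_lit 5) (nat_lit 14)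 (nat_lit 5) (nat_lit 15) (nat_lit 4) (nat_lit 357) (nat_lit 227) (nat_lit 196)))))) (XT.nd (nat_lit 546) (nat_lit 0) (nat_lit 0) (XT.nd (nat_lit 234) (nat_lit 228) (nat_lit 0) (XT.nd (nat_lit 78) (nat_lit 228) (nat_lit 0) (XT.lf (nat_lit 0) (nat_lit 19146576685) (nat_lit 152) (nat_lit 903812538) (nat_lit 0) (nat_lit 4404778456) (nat_lit 13) (nat_lit 5) (nat_lit 15) (nat_lit 4) (nat_lit 13) (nat_lit 4) (nat_lit 358) (nat_lit 227) (nat_lit 195)) (XT.nd (nat_lit 78) (nat_lit 0) (nat_lit 0) (XT.lf (nat_lit 0) (nat_lit 227186803) (nat_lit 228) (nat_lit 14555484189) (nat_lit 76) (nat_lit 10278962219) (nat_lit 10) (nat_lit 5) (nat_lit 13) (nat_lit 5) (nat_lit 11) (nat_lit 4) (nat_lit 359) (nat_lit 227) (nat_lit 194)) (XT.lf (nat_lit 0) (nat_lit 5783394406) (nat_lit 228) (nat_lit 3596608234) (nat_lit 76) (nat_lit 16307074545) (nat_lit 10) (nat_lit 5) (nat_lit 13) (nat_lit 5) (nat_lit 11) (nat_lit 4) (nat_lit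 360) (nat_lit 227) (nat_lit 193)))) (XT.nd (nat_lit 156) (nat_lit 152) (nat_lit 0) (XT.nd (nat_lit 78) (nat_lit 0) (nat_lit 0) (XT.lf (nat_lit 0) (nat_lit 7649929723) (nat_lit 76) (nat_lit 3828263058) (nat_lit 152) (nat_lit 14853669004) (nat_lit 9) (nat_lit 5) (nat_lit 10) (nat_lit 5) (nat_lit 11) (nat_lit 4) (nat_lit 361) (nat_lit 227) (nat_lit 192)) (XT.lf (nat_lit 0) (nat_lit 17303829954) (nat_lit 152) (nat_lit 7865115982) (nat_lit 0) (nat_lit 1827859037) (nat_lit 9) (nat_lit 5) (nat_lit 11) (nat_lit 4) (nat_lit 9) (nat_lit 4) (nat_lit 362) (nat_lit 227) (nat_lit 191))) (XT.nd (nat_lit 78) (nat_lit 76) (nat_lit 0) (XT.lf (nat_lit 0) (nat_lit 3155802366) (nat_lit 76) (nat_lit 20119952275) (nat_lit 76) (nat_lit 4406525960) (nat_lit 8) (nat_lit 4) (nat_lit 9) (nat_lit 5) (nat_lit 9) (nat_lit 4) (nat_lit 363) (nat_lit 227) (nat_lit 190)) (XT.lf (nat_lit 0) (nat_lit 1004776234) (nat_lit 152) (nat_lit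 13914317540) (nat_lit 76) (nat_lit 13469508083) (nat_lit 7) (nat_lit 5) (nat_lit 9) (nat_lit 5) (nat_lit 8) (nat_lit 4) (nat_lit 364) (nat_lit 227) (nat_lit 189))))) (XT.nd (nat_lit 37596) (nat_lit 0) (nat_lit 4104) (XT.nd (nat_lit 37440) (nat_lit 0) (nat_lit 5168) (XT.lf (nat_lit 0) (nat_lit 6447270499) (nat_lit 152) (nat_lit 3144303612) (nat_lit 76) (nat_lit 19525395102) (nat_lit 7) (nat_lit 5) (nat_lit 9) (nat_lit 5) (nat_lit 8) (nat_lit 4) (nat_lit 365) (nat_lit 227) (nat_lit 188)) (XT.nd (nat_lit 78) (nat_lit 304) (nat_lit 0) (XT.lf (nat_lit 0) (nat_lit 2030826426) (nat_lit 304) (nat_lit 1889815424) (nat_lit 0) (nat_lit 2030826426) (nat_lit 79) (nat_lit 5) (nat_lit 83) (nat_lit 4) (nat_lit 79) (nat_lit 4) (nat_lit 324) (nat_lit 228) (nat_lit 228)) (XT.lf (nat_lit 0) (nat_lit 7867430402) (nat_lit 304) (nat_lit 2581283886) (nat_lit 304) (nat_lit 1664300235) (nat_lit 75) (nat_lit 4) (nat_lit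 79) (nat_lit 5) (nat_lit 79) (nat_lit 4) (nat_lit 325) (nat_lit 228) (nat_lit 227)))) (XT.nd (nat_lit 156) (nat_lit 532) (nat_lit 0) (XT.nd (nat_lit 78) (nat_lit 228) (nat_lit 0) (XT.lf (nat_lit 0) (nat_lit 4588101859) (nat_lit 304) (nat_lit 4925422514) (nat_lit 0) (nat_lit 2816279271) (nat_lit 71) (nat_lit 5) (nat_lit 75) (nat_lit 4) (nat_lit 71) (nat_lit 4) (nat_lit 326) (nat_lit 228) (nat_lit 226)) (XT.lf (nat_lit 0) (nat_lit 6740589581) (nat_lit 228) (nat_lit 4216265254) (nat_lit 228) (nat_lit 1597045571) (nat_lit 68) (nat_lit 4) (nat_lit 71) (nat_lit 5) (nat_lit 71) (nat_lit 4) (nat_lit 327) (nat_lit 228) (nat_lit 225))) (XT.nd (nat_lit 78) (nat_lit 228) (nat_lit 0) (XT.lf (nat_lit 0) (nat_lit 4612576847) (nat_lit 304) (nat_lit 6934593862) (nat_lit 0) (nat_lit 1238130464) (nat_lit 64) (nat_lit 5) (nat_lit 68) (nat_lit 4) (nat_lit 64) (nat_lit 4) (nat_lit 328) (nat_lit 228) (nat_lit 224)) (XT.lf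 (nat_lit 0) (nat_lit 4718798965) (nat_lit 228) (nat_lit 6231474826) (nat_lit 228) (nat_lit 2073937233) (nat_lit 61) (nat_lit 4) (nat_lit 64) (nat_lit 5) (nat_lit 64) (nat_lit 4) (nat_lit 329) (nat_lit 228) (nat_lit 223))))))))
noncomputable def xc8 : XT := (XT.nd (nat_lit 2028) (nat_lit 532) (nat_lit 0) (XT.nd (nat_lit 1014) (nat_lit 1292) (nat_lit 0) (XT.nd (nat_lit 468) (nat_lit 1064) (nat_lit 0) (XT.nd (nat_lit 234) (nat_lit 608) (nat_lit 0) (XT.nd (nat_lit 78) (nat_lit 304) (nat_lit 0) (XT.lf (nat_lit 0) (nat_lit 3340061197) (nat_lit 228) (nat_lit 747998961) (nat_lit 304) (nat_lit 9183018513) (nat_lit 57) (nat_lit 5) (nat_lit 60) (nat_lit 5) (nat_lit 61) (nat_lit 4) (nat_lit 330) (nat_lit 228) (nat_lit 222)) (XT.nd (nat_lit 78) (nat_lit 76) (nat_lit 0) (XT.lf (nat_lit 0) (nat_lit 1678369521) (nat_lit 228) (nat_lit 8696226756) (nat_lit 228) (nat_lit 3151169015) (nat_lit 54) (nat_lit 4) (nat_lit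 57) (nat_lit 5) (nat_lit 57) (nat_lit 4) (nat_lit 331) (nat_lit 228) (nat_lit 221)) (XT.lf (nat_lit 0) (nat_lit 2964075718) (nat_lit 304) (nat_lit 260212427) (nat_lit 76) (nat_lit 10564597029) (nat_lit 53) (nat_lit 5) (nat_lit 57) (nat_lit 5) (nat_lit 54) (nat_lit 4) (nat_lit 332) (nat_lit 228) (nat_lit 220)))) (XT.nd (nat_lit 78) (nat_lit 456) (nat_lit 0) (XT.lf (nat_lit 0) (nat_lit 9184842497) (nat_lit 228) (nat_lit 2484431881) (nat_lit 0) (nat_lit 2390951027) (nat_lit 51) (nat_lit 5) (nat_lit 54) (nat_lit 4) (nat_lit 51) (nat_lit 4) (nat_lit 333) (nat_lit 228) (nat_lit 219)) (XT.nd (nat_lit 78) (nat_lit 152) (nat_lit 0) (XT.lf (nat_lit 0) (nat_lit 1195030601) (nat_lit 304) (nat_lit 5029200471) (nat_lit 76) (nat_lit 8116172406) (nat_lit 47) (nat_lit 5) (nat_lit 51) (nat_lit 5) (nat_lit 48) (nat_lit 4) (nat_lit 334) (nat_lit 228) (nat_lit 218)) (XT.lf (nat_lit 0) (nat_lit 6710933770) (nat_lit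 152) (nat_lit 608103889) (nat_lit 228) (nat_lit 7310588110) (nat_lit 45) (nat_lit 5) (nat_lit 47) (nat_lit 5) (nat_lit 48) (nat_lit 4) (nat_lit 335) (nat_lit 228) (nat_lit 217))))) (XT.nd (nat_lit 234) (nat_lit 608) (nat_lit 0) (XT.nd (nat_lit 78) (nat_lit 228) (nat_lit 0) (XT.lf (nat_lit 0) (nat_lit 3751726426) (nat_lit 228) (nat_lit 9845818666) (nat_lit 228) (nat_lit 1330600706) (nat_lit 42) (nat_lit 4) (nat_lit 45) (nat_lit 5) (nat_lit 45) (nat_lit 4) (nat_lit 336) (nat_lit 228) (nat_lit 216)) (XT.nd (nat_lit 78) (nat_lit 0) (nat_lit 0) (XT.lf (nat_lit 0) (nat_lit 408531416) (nat_lit 152) (nat_lit 4297544655) (nat_lit 228) (nat_lit 10530140824) (nat_lit 39) (nat_lit 5) (nat_lit 41) (nat_lit 5) (nat_lit 42) (nat_lit 4) (nat_lit 337) (nat_lit 228) (nat_lit 215)) (XT.lf (nat_lit 0) (nat_lit 10872820300) (nat_lit 228) (nat_lit 3282229951) (nat_lit 0) (nat_lit 1398996959) (nat_lit 39) (nat_lit 5)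 (nat_lit 42) (nat_lit 4) (nat_lit 39) (nat_lit 4) (nat_lit 338) (nat_lit 228) (nat_lit 214)))) (XT.nd (nat_lit 156) (nat_lit 228) (nat_lit 0) (XT.nd (nat_lit 78) (nat_lit 152) (nat_lit 0) (XT.lf (nat_lit 0) (nat_lit 1294134298) (nat_lit 228) (nat_lit 7397990694) (nat_lit 76) (nat_lit 7189773375) (nat_lit 36) (nat_lit 5) (nat_lit 39) (nat_lit 5) (nat_lit 37) (nat_lit 4) (nat_lit 339) (nat_lit 228) (nat_lit 213)) (XT.lf (nat_lit 0) (nat_lit 4255228639) (nat_lit 152) (nat_lit 3066558524) (nat_lit 228) (nat_lit 8898477747) (nat_lit 34) (nat_lit 5) (nat_lit 36) (nat_lit 5) (nat_lit 37) (nat_lit 4) (nat_lit 340) (nat_lit 228) (nat_lit 212))) (XT.nd (nat_lit 78) (nat_lit 228) (nat_lit 0) (XT.lf (nat_lit 0) (nat_lit 13486204211) (nat_lit 228) (nat_lit 422970425) (nat_lit 0) (nat_lit 2660519527) (nat_lit 34) (nat_lit 5) (nat_lit 37) (nat_lit 4) (nat_lit 34) (nat_lit 4) (nat_lit 341) (nat_lit 228) (nat_lit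 211)) (XT.lf (nat_lit 0) (nat_lit 2853288525) (nat_lit 228) (nat_lit 5545020108) (nat_lit 76) (nat_lit 8531240191) (nat_lit 31) (nat_lit 5) (nat_lit 34) (nat_lit 5) (nat_lit 32) (nat_lit 4) (nat_lit 342) (nat_lit 228) (nat_lit 210)))))) (XT.nd (nat_lit 468) (nat_lit 608) (nat_lit 0) (XT.nd (nat_lit 234) (nat_lit 304) (nat_lit 0) (XT.nd (nat_lit 78) (nat_lit 228) (nat_lit 0) (XT.lf (nat_lit 0) (nat_lit 6122457165) (nat_lit 152) (nat_lit 2738944326) (nat_lit 228) (nat_lit 8439715621) (nat_lit 29) (nat_lit 5) (nat_lit 31) (nat_lit 5) (nat_lit 32) (nat_lit 4) (nat_lit 343) (nat_lit 228) (nat_lit 209)) (XT.nd (nat_lit 78) (nat_lit 76) (nat_lit 0) (XT.lf (nat_lit 0) (nat_lit 329127002) (nat_lit 152) (nat_lit 14674313442) (nat_lit 152) (nat_lit 2681345631) (nat_lit 27) (nat_lit 4) (nat_lit 29) (nat_lit 5) (nat_lit 29) (nat_lit 4) (nat_lit 344) (nat_lit 228) (nat_lit 208)) (XT.lf (nat_lit 0) (nat_lit 3196561691)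 (nat_lit 228) (nat_lit 5969240167) (nat_lit 76) (nat_lit 8913979066) (nat_lit 26) (nat_lit 5) (nat_lit 29) (nat_lit 5) (nat_lit 27) (nat_lit 4) (nat_lit 345) (nat_lit 228) (nat_lit 207)))) (XT.nd (nat_lit 78) (nat_lit 228) (nat_lit 0) (XT.lf (nat_lit 0) (nat_lit 5634115899) (nat_lit 76) (nat_lit 3514951667) (nat_lit 152) (nat_lit 9338534984) (nat_lit 25) (nat_lit 5) (nat_lit 26) (nat_lit 5) (nat_lit 27) (nat_lit 4) (nat_lit 346) (nat_lit 228) (nat_lit 206)) (XT.nd (nat_lit 78) (nat_lit 228) (nat_lit 0) (XT.lf (nat_lit 0) (nat_lit 15235054005) (nat_lit 152) (nat_lit 1434019158) (nat_lit 0) (nat_lit 2239512026) (nat_lit 25) (nat_lit 5) (nat_lit 27) (nat_lit 4) (nat_lit 25) (nat_lit 4) (nat_lit 347) (nat_lit 228) (nat_lit 205)) (XT.lf (nat_lit 0) (nat_lit 2125310238) (nat_lit 228) (nat_lit 9091195264) (nat_lit 76) (nat_lit 8125589736) (nat_lit 22) (nat_lit 5) (nat_lit 25) (nat_lit 5) (nat_lit 23)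 (nat_lit 4) (nat_lit 348) (nat_lit 228) (nat_lit 204))))) (XT.nd (nat_lit 234) (nat_lit 380) (nat_lit 0) (XT.nd (nat_lit 78) (nat_lit 152) (nat_lit 0) (XT.lf (nat_lit 0) (nat_lit 2351306870) (nat_lit 76) (nat_lit 5625467928) (nat_lit 152) (nat_lit 11812801429) (nat_lit 21) (nat_lit 5) (nat_lit 22) (nat_lit 5) (nat_lit 23) (nat_lit 4) (nat_lit 349) (nat_lit 228) (nat_lit 203)) (XT.nd (nat_lit 78) (nat_lit 152) (nat_lit 0) (XT.lf (nat_lit 0) (nat_lit 13971128057) (nat_lit 152) (nat_lit 6160116899) (nat_lit 0) (nat_lit 119911753) (nat_lit 21) (nat_lit 5) (nat_lit 23) (nat_lit 4) (nat_lit 21) (nat_lit 4) (nat_lit 350) (nat_lit 228) (nat_lit 202)) (XT.lf (nat_lit 0) (nat_lit 5322429142) (nat_lit 152) (nat_lit 14802308533) (nat_lit 152) (nat_lit 602279735) (nat_lit 19) (nat_lit 4) (nat_lit 21) (nat_lit 5) (nat_lit 21) (nat_lit 4) (nat_lit 351) (nat_lit 228) (nat_lit 201)))) (XT.nd (nat_lit 156) (nat_lit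 228) (nat_lit 0) (XT.nd (nat_lit 78) (nat_lit 76) (nat_lit 0) (XT.lf (nat_lit 0) (nat_lit 5127286895) (nat_lit 228) (nat_lit 4181562175) (nat_lit 76) (nat_lit 11908638273) (nat_lit 18) (nat_lit 5) (nat_lit 21) (nat_lit 5) (nat_lit 19) (nat_lit 4) (nat_lit 352) (nat_lit 228) (nat_lit 200)) (XT.lf (nat_lit 0) (nat_lit 7310117338) (nat_lit 76) (nat_lit 3668886756) (nat_lit 152) (nat_lit 10744438433) (nat_lit 17) (nat_lit 5) (nat_lit 18) (nat_lit 5) (nat_lit 19) (nat_lit 4) (nat_lit 353) (nat_lit 228) (nat_lit 199))) (XT.nd (nat_lit 78) (nat_lit 228) (nat_lit 0) (XT.lf (nat_lit 0) (nat_lit 16960749192) (nat_lit 152) (nat_lit 3212913251) (nat_lit 0) (nat_lit 2071843526) (nat_lit 17) (nat_lit 5) (nat_lit 19) (nat_lit 4) (nat_lit 17) (nat_lit 4) (nat_lit 354) (nat_lit 228) (nat_lit 198)) (XT.lf (nat_lit 0) (nat_lit 326946044) (nat_lit 228) (nat_lit 14532313266) (nat_lit 76) (nat_lit 7924092765) (nat_lit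 14) (nat_lit 5) (nat_lit 17) (nat_lit 5) (nat_lit 15) (nat_lit 4) (nat_lit 355) (nat_lit 228) (nat_lit 197))))))) (XT.nd (nat_lit 38220) (nat_lit 0) (nat_lit 2432) (XT.nd (nat_lit 468) (nat_lit 152) (nat_lit 0) (XT.nd (nat_lit 234) (nat_lit 304) (nat_lit 0) (XT.nd (nat_lit 78) (nat_lit 76) (nat_lit 0) (XT.lf (nat_lit 0) (nat_lit 5973074511) (nat_lit 228) (nat_lit 3422122706) (nat_lit 76) (nat_lit 13942697905) (nat_lit 14) (nat_lit 5) (nat_lit 17) (nat_lit 5) (nat_lit 15) (nat_lit 4) (nat_lit 356) (nat_lit 228) (nat_lit 196)) (XT.nd (nat_lit 78) (nat_lit 0) (nat_lit 0) (XT.lf (nat_lit 0) (nat_lit 7977822420) (nat_lit 76) (nat_lit 3780569991) (nat_lit 152) (nat_lit 12151303099) (nat_lit 13) (nat_lit 5) (nat_lit 14) (nat_lit 5) (nat_lit 15) (nat_lit 4) (nat_lit 357) (nat_lit 228) (nat_lit 195)) (XT.lf (nat_lit 0) (nat_lit 17672640725) (nat_lit 152) (nat_lit 4891714586) (nat_lit 0) (nat_lit 1935203841)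 (nat_lit 13) (nat_lit 5) (nat_lit 15) (nat_lit 4) (nat_lit 13) (nat_lit 4) (nat_lit 358) (nat_lit 228) (nat_lit 194)))) (XT.nd (nat_lit 78) (nat_lit 152) (nat_lit 0) (XT.lf (nat_lit 0) (nat_lit 6395544246) (nat_lit 152) (nat_lit 17356963547) (nat_lit 152) (nat_lit 1354863260) (nat_lit 11) (nat_lit 4) (nat_lit 13) (nat_lit 5) (nat_lit 13) (nat_lit 4) (nat_lit 359) (nat_lit 228) (nat_lit 193)) (XT.nd (nat_lit 78) (nat_lit 76) (nat_lit 0) (XT.lf (nat_lit 0) (nat_lit 4180806290) (nat_lit 228) (nat_lit 7813826339) (nat_lit 76) (nat_lit 13739132062) (nat_lit 10) (nat_lit 5) (nat_lit 13) (nat_lit 5) (nat_lit 11) (nat_lit 4) (nat_lit 360) (nat_lit 228) (nat_lit 192)) (XT.lf (nat_lit 0) (nat_lit 3308125199) (nat_lit 76) (nat_lit 6502098011) (nat_lit 152) (nat_lit 16569641073) (nat_lit 9) (nat_lit 5) (nat_lit 10) (nat_lit 5) (nat_lit 11) (nat_lit 4) (nat_lit 361) (nat_lit 228) (nat_lit 191))))) (XT.nd (nat_lit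 234) (nat_lit 76) (nat_lit 0) (XT.nd (nat_lit 78) (nat_lit 76) (nat_lit 0) (XT.lf (nat_lit 0) (nat_lit 14735604918) (nat_lit 76) (nat_lit 851689690) (nat_lit 152) (nat_lit 11458491328) (nat_lit 9) (nat_lit 5) (nat_lit 10) (nat_lit 5) (nat_lit 11) (nat_lit 4) (nat_lit 362) (nat_lit 228) (nat_lit 190)) (XT.nd (nat_lit 78) (nat_lit 76) (nat_lit 0) (XT.lf (nat_lit 0) (nat_lit 21497534757) (nat_lit 152) (nat_lit 1390256404) (nat_lit 0) (nat_lit 4844711035) (nat_lit 9) (nat_lit 5) (nat_lit 11) (nat_lit 4) (nat_lit 9) (nat_lit 4) (nat_lit 363) (nat_lit 228) (nat_lit 189)) (XT.lf (nat_lit 0) (nat_lit 9852414526) (nat_lit 76) (nat_lit 17732039930) (nat_lit 76) (nat_lit 855391722) (nat_lit 8) (nat_lit 4) (nat_lit 9) (nat_lit 5) (nat_lit 9) (nat_lit 4) (nat_lit 364) (nat_lit 228) (nat_lit 188)))) (XT.nd (nat_lit 37362) (nat_lit 0) (nat_lit 5472) (XT.nd (nat_lit 37284) (nat_lit 0) (nat_lit 6080) (XT.lf (nat_lit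 0) (nat_lit 4564067562) (nat_lit 152) (nat_lit 7874537058) (nat_lit 76) (nat_lit 16730411474) (nat_lit 7) (nat_lit 5) (nat_lit 9) (nat_lit 5) (nat_lit 8) (nat_lit 4) (nat_lit 365) (nat_lit 228) (nat_lit 187)) (XT.lf (nat_lit 0) (nat_lit 2056194626) (nat_lit 304) (nat_lit 1638448493) (nat_lit 0) (nat_lit 2056194626) (nat_lit 87) (nat_lit 5) (nat_lit 91) (nat_lit 4) (nat_lit 87) (nat_lit 4) (nat_lit 322) (nat_lit 229) (nat_lit 229))) (XT.nd (nat_lit 78) (nat_lit 304) (nat_lit 0) (XT.lf (nat_lit 0) (nat_lit 8211276023) (nat_lit 304) (nat_lit 2225999130) (nat_lit 304) (nat_lit 1262616107) (nat_lit 83) (nat_lit 4) (nat_lit 87) (nat_lit 5) (nat_lit 87) (nat_lit 4) (nat_lit 323) (nat_lit 229) (nat_lit 228)) (XT.lf (nat_lit 0) (nat_lit 4935963420) (nat_lit 304) (nat_lit 3893917783) (nat_lit 0) (nat_lit 3074486610) (nat_lit 79) (nat_lit 5) (nat_lit 83) (nat_lit 4) (nat_lit 79) (nat_lit 4) (nat_lit 324)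 (nat_lit 229) (nat_lit 227)))))) (XT.nd (nat_lit 546) (nat_lit 1140) (nat_lit 0) (XT.nd (nat_lit 234) (nat_lit 1064) (nat_lit 0) (XT.nd (nat_lit 78) (nat_lit 532) (nat_lit 0) (XT.lf (nat_lit 0) (nat_lit 7639191888) (nat_lit 304) (nat_lit 3614212652) (nat_lit 304) (nat_lit 862460453) (nat_lit 75) (nat_lit 4) (nat_lit 79) (nat_lit 5) (nat_lit 79) (nat_lit 4) (nat_lit 325) (nat_lit 229) (nat_lit 226)) (XT.nd (nat_lit 78) (nat_lit 228) (nat_lit 0) (XT.lf (nat_lit 0) (nat_lit 5302850948) (nat_lit 304) (nat_lit 5273598468) (nat_lit 0) (nat_lit 1757657579) (nat_lit 71) (nat_lit 5) (nat_lit 75) (nat_lit 4) (nat_lit 71) (nat_lit 4) (nat_lit 326) (nat_lit 229) (nat_lit 225)) (XT.lf (nat_lit 0) (nat_lit 6276968599) (nat_lit 228) (nat_lit 5325278035) (nat_lit 228) (nat_lit 957369039) (nat_lit 68) (nat_lit 4) (nat_lit 71) (nat_lit 5) (nat_lit 71) (nat_lit 4) (nat_lit 327) (nat_lit 229) (nat_lit 224)))) (XT.nd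 (nat_lit 156) (nat_lit 532) (nat_lit 0) (XT.nd (nat_lit 78) (nat_lit 228) (nat_lit 0) (XT.lf (nat_lit 0) (nat_lit 5166989974) (nat_lit 304) (nat_lit 7523869416) (nat_lit 0) (nat_lit 101635040) (nat_lit 64) (nat_lit 5) (nat_lit 68) (nat_lit 4) (nat_lit 64) (nat_lit 4) (nat_lit 328) (nat_lit 229) (nat_lit 223)) (XT.lf (nat_lit 0) (nat_lit 4012500230) (nat_lit 228) (nat_lit 7422974425) (nat_lit 228) (nat_lit 1597336762) (nat_lit 61) (nat_lit 4) (nat_lit 64) (nat_lit 5) (nat_lit 64) (nat_lit 4) (nat_lit 329) (nat_lit 229) (nat_lit 222))) (XT.nd (nat_lit 78) (nat_lit 228) (nat_lit 0) (XT.lf (nat_lit 0) (nat_lit 2504223181) (nat_lit 228) (nat_lit 1984885440) (nat_lit 304) (nat_lit 8791916368) (nat_lit 57) (nat_lit 5) (nat_lit 60) (nat_lit 5) (nat_lit 61) (nat_lit 4) (nat_lit 330) (nat_lit 229) (nat_lit 221)) (XT.lf (nat_lit 0) (nat_lit 721924180) (nat_lit 228) (nat_lit 9976507611) (nat_lit 228) (nat_lit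 2838845232) (nat_lit 54) (nat_lit 4) (nat_lit 57) (nat_lit 5) (nat_lit 57) (nat_lit 4) (nat_lit 331) (nat_lit 229) (nat_lit 220))))) (XT.nd (nat_lit 234) (nat_lit 608) (nat_lit 0) (XT.nd (nat_lit 78) (nat_lit 456) (nat_lit 0) (XT.lf (nat_lit 0) (nat_lit 3210057433) (nat_lit 304) (nat_lit 1335470282) (nat_lit 76) (nat_lit 9256093685) (nat_lit 53) (nat_lit 5) (nat_lit 57) (nat_lit 5) (nat_lit 54) (nat_lit 4) (nat_lit 332) (nat_lit 229) (nat_lit 219)) (XT.nd (nat_lit 78) (nat_lit 304) (nat_lit 0) (XT.lf (nat_lit 0) (nat_lit 9353743948) (nat_lit 228) (nat_lit 3682762862) (nat_lit 0) (nat_lit 1038015975) (nat_lit 51) (nat_lit 5) (nat_lit 54) (nat_lit 4) (nat_lit 51) (nat_lit 4) (nat_lit 333) (nat_lit 229) (nat_lit 218)) (XT.lf (nat_lit 0) (nat_lit 1278992371) (nat_lit 304) (nat_lit 6362523398) (nat_lit 76) (nat_lit 6714555913) (nat_lit 47) (nat_lit 5) (nat_lit 51) (nat_lit 5) (nat_lit 48) (nat_lit 4)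 (nat_lit 334) (nat_lit 229) (nat_lit 217)))) (XT.nd (nat_lit 156) (nat_lit 228) (nat_lit 0) (XT.nd (nat_lit 78) (nat_lit 228) (nat_lit 0) (XT.lf (nat_lit 0) (nat_lit 5257913325) (nat_lit 152) (nat_lit 2076740798) (nat_lit 228) (nat_lit 7312024821) (nat_lit 45) (nat_lit 5) (nat_lit 47) (nat_lit 5) (nat_lit 48) (nat_lit 4) (nat_lit 335) (nat_lit 229) (nat_lit 216)) (XT.lf (nat_lit 0) (nat_lit 2170535449) (nat_lit 228) (nat_lit 11364719003) (nat_lit 228) (nat_lit 1411520200) (nat_lit 42) (nat_lit 4) (nat_lit 45) (nat_lit 5) (nat_lit 45) (nat_lit 4) (nat_lit 336) (nat_lit 229) (nat_lit 215))) (XT.nd (nat_lit 78) (nat_lit 152) (nat_lit 0) (XT.lf (nat_lit 0) (nat_lit 4566119372) (nat_lit 304) (nat_lit 1295195229) (nat_lit 76) (nat_lit 9394760318) (nat_lit 41) (nat_lit 5) (nat_lit 45) (nat_lit 5) (nat_lit 42) (nat_lit 4) (nat_lit 337) (nat_lit 229) (nat_lit 214)) (XT.lf (nat_lit 0) (nat_lit 10462799284)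 (nat_lit 152) (nat_lit 195933713) (nat_lit 228) (nat_lit 4916671058) (nat_lit 39) (nat_lit 5) (nat_lit 41) (nat_lit 5) (nat_lit 42) (nat_lit 4) (nat_lit 338) (nat_lit 229) (nat_lit 213))))))))
noncomputable def xc9 : XT := (XT.nd (nat_lit 39156) (nat_lit 0) (nat_lit 1444) (XT.nd (nat_lit 1014) (nat_lit 912) (nat_lit 0) (XT.nd (nat_lit 468) (nat_lit 760) (nat_lit 0) (XT.nd (nat_lit 234) (nat_lit 380) (nat_lit 0) (XT.nd (nat_lit 78) (nat_lit 152) (nat_lit 0) (XT.lf (nat_lit 0) (nat_lit 992350391) (nat_lit 228) (nat_lit 9368916537) (nat_lit 76) (nat_lit 5543422837) (nat_lit 36) (nat_lit 5) (nat_lit 39) (nat_lit 5) (nat_lit 37) (nat_lit 4) (nat_lit 339) (nat_lit 229) (nat_lit 212)) (XT.nd (nat_lit 78) (nat_lit 0) (nat_lit 0) (XT.lf (nat_lit 0) (nat_lit 2162183040) (nat_lit 152) (nat_lit 4789828996) (nat_lit 228) (nat_lit 9292419075) (nat_lit 34) (nat_lit 5) (nat_lit 36) (nat_lit 5) (nat_lit 37) (nat_lit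 4) (nat_lit 340) (nat_lit 229) (nat_lit 211)) (XT.lf (nat_lit 0) (nat_lit 13051560692) (nat_lit 228) (nat_lit 2622951951) (nat_lit 0) (nat_lit 920659628) (nat_lit 34) (nat_lit 5) (nat_lit 37) (nat_lit 4) (nat_lit 34) (nat_lit 4) (nat_lit 341) (nat_lit 229) (nat_lit 210)))) (XT.nd (nat_lit 78) (nat_lit 152) (nat_lit 0) (XT.lf (nat_lit 0) (nat_lit 2331552583) (nat_lit 228) (nat_lit 7890075763) (nat_lit 76) (nat_lit 6734825154) (nat_lit 31) (nat_lit 5) (nat_lit 34) (nat_lit 5) (nat_lit 32) (nat_lit 4) (nat_lit 342) (nat_lit 229) (nat_lit 209)) (XT.nd (nat_lit 78) (nat_lit 0) (nat_lit 0) (XT.lf (nat_lit 0) (nat_lit 3654595035) (nat_lit 152) (nat_lit 4617514041) (nat_lit 228) (nat_lit 9057277278) (nat_lit 29) (nat_lit 5) (nat_lit 31) (nat_lit 5) (nat_lit 32) (nat_lit 4) (nat_lit 343) (nat_lit 229) (nat_lit 208)) (XT.lf (nat_lit 0) (nat_lit 14348954954) (nat_lit 228) (nat_lit 2248872920) (nat_lit 0)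 (nat_lit 1116544352) (nat_lit 29) (nat_lit 5) (nat_lit 32) (nat_lit 4) (nat_lit 29) (nat_lit 4) (nat_lit 344) (nat_lit 229) (nat_lit 207))))) (XT.nd (nat_lit 234) (nat_lit 456) (nat_lit 0) (XT.nd (nat_lit 78) (nat_lit 76) (nat_lit 0) (XT.lf (nat_lit 0) (nat_lit 2456274109) (nat_lit 228) (nat_lit 8691442701) (nat_lit 76) (nat_lit 6963055266) (nat_lit 26) (nat_lit 5) (nat_lit 29) (nat_lit 5) (nat_lit 27) (nat_lit 4) (nat_lit 345) (nat_lit 229) (nat_lit 206)) (XT.nd (nat_lit 78) (nat_lit 0) (nat_lit 0) (XT.lf (nat_lit 0) (nat_lit 2788206572) (nat_lit 76) (nat_lit 5553266303) (nat_lit 152) (nat_lit 10178479025) (nat_lit 25) (nat_lit 5) (nat_lit 26) (nat_lit 5) (nat_lit 27) (nat_lit 4) (nat_lit 346) (nat_lit 229) (nat_lit 205)) (XT.lf (nat_lit 0) (nat_lit 14366025745) (nat_lit 152) (nat_lit 4384754996) (nat_lit 0) (nat_lit 191394175) (nat_lit 25) (nat_lit 5) (nat_lit 27) (nat_lit 4) (nat_lit 25) (nat_lit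 4) (nat_lit 347) (nat_lit 229) (nat_lit 204)))) (XT.nd (nat_lit 156) (nat_lit 228) (nat_lit 0) (XT.nd (nat_lit 78) (nat_lit 0) (nat_lit 0) (XT.lf (nat_lit 0) (nat_lit 1167321131) (nat_lit 228) (nat_lit 12194099163) (nat_lit 76) (nat_lit 6015737201) (nat_lit 22) (nat_lit 5) (nat_lit 25) (nat_lit 5) (nat_lit 23) (nat_lit 4) (nat_lit 348) (nat_lit 229) (nat_lit 203)) (XT.lf (nat_lit 0) (nat_lit 6957240010) (nat_lit 228) (nat_lit 864925433) (nat_lit 76) (nat_lit 12003714773) (nat_lit 22) (nat_lit 5) (nat_lit 25) (nat_lit 5) (nat_lit 23) (nat_lit 4) (nat_lit 349) (nat_lit 229) (nat_lit 202))) (XT.nd (nat_lit 78) (nat_lit 152) (nat_lit 0) (XT.lf (nat_lit 0) (nat_lit 10782965495) (nat_lit 76) (nat_lit 2116690195) (nat_lit 152) (nat_lit 7388854263) (nat_lit 21) (nat_lit 5) (nat_lit 22) (nat_lit 5) (nat_lit 23) (nat_lit 4) (nat_lit 350) (nat_lit 229) (nat_lit 201)) (XT.lf (nat_lit 0) (nat_lit 1865955764)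 (nat_lit 152) (nat_lit 17106765514) (nat_lit 152) (nat_lit 1793270452) (nat_lit 19) (nat_lit 4) (nat_lit 21) (nat_lit 5) (nat_lit 21) (nat_lit 4) (nat_lit 351) (nat_lit 229) (nat_lit 200)))))) (XT.nd (nat_lit 546) (nat_lit 456) (nat_lit 0) (XT.nd (nat_lit 234) (nat_lit 304) (nat_lit 0) (XT.nd (nat_lit 78) (nat_lit 76) (nat_lit 0) (XT.lf (nat_lit 0) (nat_lit 3908043043) (nat_lit 228) (nat_lit 7748037345) (nat_lit 76) (nat_lit 9601423097) (nat_lit 18) (nat_lit 5) (nat_lit 21) (nat_lit 5) (nat_lit 19) (nat_lit 4) (nat_lit 352) (nat_lit 229) (nat_lit 199)) (XT.nd (nat_lit 78) (nat_lit 0) (nat_lit 0) (XT.lf (nat_lit 0) (nat_lit 3618763205) (nat_lit 76) (nat_lit 6074434984) (nat_lit 152) (nat_lit 12071601145) (nat_lit 17) (nat_lit 5) (nat_lit 18) (nat_lit 5) (nat_lit 19) (nat_lit 4) (nat_lit 353) (nat_lit 229) (nat_lit 198)) (XT.lf (nat_lit 0) (nat_lit 15279916129) (nat_lit 76) (nat_lit 339553498) (nat_lit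 152) (nat_lit 6668511767) (nat_lit 17) (nat_lit 5) (nat_lit 18) (nat_lit 5) (nat_lit 19) (nat_lit 4) (nat_lit 354) (nat_lit 229) (nat_lit 197)))) (XT.nd (nat_lit 156) (nat_lit 76) (nat_lit 0) (XT.nd (nat_lit 78) (nat_lit 76) (nat_lit 0) (XT.lf (nat_lit 0) (nat_lit 4335254876) (nat_lit 152) (nat_lit 17369674117) (nat_lit 152) (nat_lit 1122319959) (nat_lit 15) (nat_lit 4) (nat_lit 17) (nat_lit 5) (nat_lit 17) (nat_lit 4) (nat_lit 355) (nat_lit 229) (nat_lit 196)) (XT.lf (nat_lit 0) (nat_lit 4498137918) (nat_lit 228) (nat_lit 7447512595) (nat_lit 76) (nat_lit 11437103477) (nat_lit 14) (nat_lit 5) (nat_lit 17) (nat_lit 5) (nat_lit 15) (nat_lit 4) (nat_lit 356) (nat_lit 229) (nat_lit 195))) (XT.nd (nat_lit 78) (nat_lit 0) (nat_lit 0) (XT.lf (nat_lit 0) (nat_lit 3827125566) (nat_lit 76) (nat_lit 6390167565) (nat_lit 152) (nat_lit 13738592707) (nat_lit 13) (nat_lit 5) (nat_lit 14) (nat_lit 5) (nat_lit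 15) (nat_lit 4) (nat_lit 357) (nat_lit 229) (nat_lit 194)) (XT.lf (nat_lit 0) (nat_lit 15400413898) (nat_lit 76) (nat_lit 679871809) (nat_lit 152) (nat_lit 8466496857) (nat_lit 13) (nat_lit 5) (nat_lit 14) (nat_lit 5) (nat_lit 15) (nat_lit 4) (nat_lit 358) (nat_lit 229) (nat_lit 193))))) (XT.nd (nat_lit 234) (nat_lit 228) (nat_lit 0) (XT.nd (nat_lit 78) (nat_lit 76) (nat_lit 0) (XT.lf (nat_lit 0) (nat_lit 2019665404) (nat_lit 152) (nat_lit 20070063367) (nat_lit 152) (nat_lit 3066281910) (nat_lit 11) (nat_lit 4) (nat_lit 13) (nat_lit 5) (nat_lit 13) (nat_lit 4) (nat_lit 359) (nat_lit 229) (nat_lit 192)) (XT.nd (nat_lit 78) (nat_lit 0) (nat_lit 0) (XT.lf (nat_lit 0) (nat_lit 2454641624) (nat_lit 228) (nat_lit 12294876016) (nat_lit 76) (nat_lit 11033860109) (nat_lit 10) (nat_lit 5) (nat_lit 13) (nat_lit 5) (nat_lit 11) (nat_lit 4) (nat_lit 360) (nat_lit 229) (nat_lit 191)) (XT.lf (nat_lit 0) (nat_lit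 8026471672) (nat_lit 228) (nat_lit 1281983824) (nat_lit 76) (nat_lit 17122180731) (nat_lit 10) (nat_lit 5) (nat_lit 13) (nat_lit 5) (nat_lit 11) (nat_lit 4) (nat_lit 361) (nat_lit 229) (nat_lit 190)))) (XT.nd (nat_lit 156) (nat_lit 152) (nat_lit 0) (XT.nd (nat_lit 78) (nat_lit 0) (nat_lit 0) (XT.lf (nat_lit 0) (nat_lit 10063851775) (nat_lit 76) (nat_lit 3695781087) (nat_lit 152) (nat_lit 13337810163) (nat_lit 9) (nat_lit 5) (nat_lit 10) (nat_lit 5) (nat_lit 11) (nat_lit 4) (nat_lit 362) (nat_lit 229) (nat_lit 189)) (XT.lf (nat_lit 0) (nat_lit 19616780834) (nat_lit 152) (nat_lit 6158438339) (nat_lit 0) (nat_lit 2010008694) (nat_lit 9) (nat_lit 5) (nat_lit 11) (nat_lit 4) (nat_lit 9) (nat_lit 4) (nat_lit 363) (nat_lit 229) (nat_lit 188))) (XT.nd (nat_lit 78) (nat_lit 76) (nat_lit 0) (XT.lf (nat_lit 0) (nat_lit 4958654483) (nat_lit 76) (nat_lit 20679654602) (nat_lit 76) (nat_lit 2855577135) (nat_lit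 8) (nat_lit 4) (nat_lit 9) (nat_lit 5) (nat_lit 9) (nat_lit 4) (nat_lit 364) (nat_lit 229) (nat_lit 187)) (XT.lf (nat_lit 0) (nat_lit 2556859021) (nat_lit 152) (nat_lit 12870198287) (nat_lit 76) (nat_lit 13796929904) (nat_lit 7) (nat_lit 5) (nat_lit 9) (nat_lit 5) (nat_lit 8) (nat_lit 4) (nat_lit 365) (nat_lit 229) (nat_lit 186))))))) (XT.nd (nat_lit 1014) (nat_lit 2052) (nat_lit 0) (XT.nd (nat_lit 468) (nat_lit 1672) (nat_lit 0) (XT.nd (nat_lit 234) (nat_lit 912) (nat_lit 0) (XT.nd (nat_lit 78) (nat_lit 608) (nat_lit 0) (XT.lf (nat_lit 0) (nat_lit 1977303148) (nat_lit 380) (nat_lit 1606964059) (nat_lit 0) (nat_lit 1977303148) (nat_lit 95) (nat_lit 5) (nat_lit 100) (nat_lit 4) (nat_lit 95) (nat_lit 4) (nat_lit 320) (nat_lit 230) (nat_lit 230)) (XT.nd (nat_lit 78) (nat_lit 304) (nat_lit 0) (XT.lf (nat_lit 0) (nat_lit 8094775520) (nat_lit 304) (nat_lit 2113762819) (nat_lit 304) (nat_lit 1101632615)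 (nat_lit 91) (nat_lit 4) (nat_lit 95) (nat_lit 5) (nat_lit 95) (nat_lit 4) (nat_lit 321) (nat_lit 230) (nat_lit 229)) (XT.lf (nat_lit 0) (nat_lit 5034669004) (nat_lit 304) (nat_lit 3389434119) (nat_lit 0) (nat_lit 3079001467) (nat_lit 87) (nat_lit 5) (nat_lit 91) (nat_lit 4) (nat_lit 87) (nat_lit 4) (nat_lit 322) (nat_lit 230) (nat_lit 228)))) (XT.nd (nat_lit 78) (nat_lit 608) (nat_lit 0) (XT.lf (nat_lit 0) (nat_lit 7986531980) (nat_lit 304) (nat_lit 3303597951) (nat_lit 304) (nat_lit 412607091) (nat_lit 83) (nat_lit 4) (nat_lit 87) (nat_lit 5) (nat_lit 87) (nat_lit 4) (nat_lit 323) (nat_lit 230) (nat_lit 227)) (XT.nd (nat_lit 78) (nat_lit 304) (nat_lit 0) (XT.lf (nat_lit 0) (nat_lit 5698182273) (nat_lit 304) (nat_lit 4236878452) (nat_lit 0) (nat_lit 1973602119) (nat_lit 79) (nat_lit 5) (nat_lit 83) (nat_lit 4) (nat_lit 79) (nat_lit 4) (nat_lit 324) (nat_lit 230) (nat_lit 226)) (XT.lf (nat_lit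 0) (nat_lit 7182515428) (nat_lit 304) (nat_lit 4763989094) (nat_lit 304) (nat_lit 175063903) (nat_lit 75) (nat_lit 4) (nat_lit 79) (nat_lit 5) (nat_lit 79) (nat_lit 4) (nat_lit 325) (nat_lit 230) (nat_lit 225))))) (XT.nd (nat_lit 234) (nat_lit 836) (nat_lit 0) (XT.nd (nat_lit 78) (nat_lit 532) (nat_lit 0) (XT.lf (nat_lit 0) (nat_lit 5904357783) (nat_lit 304) (nat_lit 5854229749) (nat_lit 0) (nat_lit 582695890) (nat_lit 71) (nat_lit 5) (nat_lit 75) (nat_lit 4) (nat_lit 71) (nat_lit 4) (nat_lit 326) (nat_lit 230) (nat_lit 224)) (XT.nd (nat_lit 78) (nat_lit 304) (nat_lit 0) (XT.lf (nat_lit 0) (nat_lit 5581030787) (nat_lit 228) (nat_lit 6553789477) (nat_lit 228) (nat_lit 433374549) (nat_lit 68) (nat_lit 4) (nat_lit 71) (nat_lit 5) (nat_lit 71) (nat_lit 4) (nat_lit 327) (nat_lit 230) (nat_lit 223)) (XT.lf (nat_lit 0) (nat_lit 4445254948) (nat_lit 228) (nat_lit 1169179834) (nat_lit 304) (nat_lit 7187987185)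 (nat_lit 64) (nat_lit 5) (nat_lit 67) (nat_lit 5) (nat_lit 68) (nat_lit 4) (nat_lit 328) (nat_lit 230) (nat_lit 222)))) (XT.nd (nat_lit 156) (nat_lit 304) (nat_lit 0) (XT.nd (nat_lit 78) (nat_lit 304) (nat_lit 0) (XT.lf (nat_lit 0) (nat_lit 3069808844) (nat_lit 228) (nat_lit 8736654772) (nat_lit 228) (nat_lit 1237826678) (nat_lit 61) (nat_lit 4) (nat_lit 64) (nat_lit 5) (nat_lit 64) (nat_lit 4) (nat_lit 329) (nat_lit 230) (nat_lit 221)) (XT.lf (nat_lit 0) (nat_lit 1429859023) (nat_lit 228) (nat_lit 3345055089) (nat_lit 304) (nat_lit 8518944015) (nat_lit 57) (nat_lit 5) (nat_lit 60) (nat_lit 5) (nat_lit 61) (nat_lit 4) (nat_lit 330) (nat_lit 230) (nat_lit 220))) (XT.nd (nat_lit 78) (nat_lit 304) (nat_lit 0) (XT.lf (nat_lit 0) (nat_lit 10909580710) (nat_lit 304) (nat_lit 468966216) (nat_lit 0) (nat_lit 2173076902) (nat_lit 57) (nat_lit 5) (nat_lit 61) (nat_lit 4) (nat_lit 57) (nat_lit 4) (nat_lit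 331) (nat_lit 230) (nat_lit 219)) (XT.lf (nat_lit 0) (nat_lit 3340739817) (nat_lit 304) (nat_lit 2650465610) (nat_lit 76) (nat_lit 7826027545) (nat_lit 53) (nat_lit 5) (nat_lit 57) (nat_lit 5) (nat_lit 54) (nat_lit 4) (nat_lit 332) (nat_lit 230) (nat_lit 218)))))) (XT.nd (nat_lit 546) (nat_lit 760) (nat_lit 0) (XT.nd (nat_lit 234) (nat_lit 684) (nat_lit 0) (XT.nd (nat_lit 78) (nat_lit 456) (nat_lit 0) (XT.lf (nat_lit 0) (nat_lit 8965706050) (nat_lit 152) (nat_lit 443914399) (nat_lit 228) (nat_lit 4682029004) (nat_lit 51) (nat_lit 5) (nat_lit 53) (nat_lit 5) (nat_lit 54) (nat_lit 4) (nat_lit 333) (nat_lit 230) (nat_lit 217)) (XT.nd (nat_lit 78) (nat_lit 152) (nat_lit 0) (XT.lf (nat_lit 0) (nat_lit 1245882986) (nat_lit 304) (nat_lit 7940147028) (nat_lit 76) (nat_lit 5188608388) (nat_lit 47) (nat_lit 5) (nat_lit 51) (nat_lit 5) (nat_lit 48) (nat_lit 4) (nat_lit 334) (nat_lit 230) (nat_lit 216)) (XT.lf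 (nat_lit 0) (nat_lit 3560315792) (nat_lit 152) (nat_lit 3673011547) (nat_lit 228) (nat_lit 7433300212) (nat_lit 45) (nat_lit 5) (nat_lit 47) (nat_lit 5) (nat_lit 48) (nat_lit 4) (nat_lit 335) (nat_lit 230) (nat_lit 215)))) (XT.nd (nat_lit 156) (nat_lit 380) (nat_lit 0) (XT.nd (nat_lit 78) (nat_lit 76) (nat_lit 0) (XT.lf (nat_lit 0) (nat_lit 342371692) (nat_lit 228) (nat_lit 13012909073) (nat_lit 228) (nat_lit 1613032459) (nat_lit 42) (nat_lit 4) (nat_lit 45) (nat_lit 5) (nat_lit 45) (nat_lit 4) (nat_lit 336) (nat_lit 230) (nat_lit 214)) (XT.lf (nat_lit 0) (nat_lit 4311477147) (nat_lit 304) (nat_lit 3239777784) (nat_lit 76) (nat_lit 7727516391) (nat_lit 41) (nat_lit 5) (nat_lit 45) (nat_lit 5) (nat_lit 42) (nat_lit 4) (nat_lit 337) (nat_lit 230) (nat_lit 213))) (XT.nd (nat_lit 78) (nat_lit 228) (nat_lit 0) (XT.lf (nat_lit 0) (nat_lit 8397746218) (nat_lit 152) (nat_lit 1938788476) (nat_lit 228) (nat_lit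 5262932621) (nat_lit 39) (nat_lit 5) (nat_lit 41) (nat_lit 5) (nat_lit 42) (nat_lit 4) (nat_lit 338) (nat_lit 230) (nat_lit 212)) (XT.lf (nat_lit 0) (nat_lit 571077354) (nat_lit 228) (nat_lit 11591148401) (nat_lit 76) (nat_lit 3768178267) (nat_lit 36) (nat_lit 5) (nat_lit 39) (nat_lit 5) (nat_lit 37) (nat_lit 4) (nat_lit 339) (nat_lit 230) (nat_lit 211))))) (XT.nd (nat_lit 234) (nat_lit 380) (nat_lit 0) (XT.nd (nat_lit 78) (nat_lit 380) (nat_lit 0) (XT.lf (nat_lit 0) (nat_lit 6463883411) (nat_lit 228) (nat_lit 180317978) (nat_lit 76) (nat_lit 9627295632) (nat_lit 36) (nat_lit 5) (nat_lit 39) (nat_lit 5) (nat_lit 37) (nat_lit 4) (nat_lit 340) (nat_lit 230) (nat_lit 210)) (XT.nd (nat_lit 78) (nat_lit 228) (nat_lit 0) (XT.lf (nat_lit 0) (nat_lit 11543080506) (nat_lit 152) (nat_lit 961242321) (nat_lit 228) (nat_lit 4119111657) (nat_lit 34) (nat_lit 5) (nat_lit 36) (nat_lit 5) (nat_lit 37) (nat_lit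 4) (nat_lit 341) (nat_lit 230) (nat_lit 209)) (XT.lf (nat_lit 0) (nat_lit 1689551610) (nat_lit 228) (nat_lit 10489076325) (nat_lit 76) (nat_lit 4807656919) (nat_lit 31) (nat_lit 5) (nat_lit 34) (nat_lit 5) (nat_lit 32) (nat_lit 4) (nat_lit 342) (nat_lit 230) (nat_lit 208)))) (XT.nd (nat_lit 156) (nat_lit 228) (nat_lit 0) (XT.nd (nat_lit 78) (nat_lit 0) (nat_lit 0) (XT.lf (nat_lit 0) (nat_lit 932082388) (nat_lit 152) (nat_lit 6630316859) (nat_lit 228) (nat_lit 9798185686) (nat_lit 29) (nat_lit 5) (nat_lit 31) (nat_lit 5) (nat_lit 32) (nat_lit 4) (nat_lit 343) (nat_lit 230) (nat_lit 207)) (XT.lf (nat_lit 0) (nat_lit 12664097962) (nat_lit 152) (nat_lit 918665389) (nat_lit 228) (nat_lit 4163949754) (nat_lit 29) (nat_lit 5) (nat_lit 31) (nat_lit 5) (nat_lit 32) (nat_lit 4) (nat_lit 344) (nat_lit 230) (nat_lit 206))) (XT.nd (nat_lit 78) (nat_lit 0) (nat_lit 0) (XT.lf (nat_lit 0) (nat_lit 1594653856)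 (nat_lit 228) (nat_lit 11670667138) (nat_lit 76) (nat_lit 4879378924) (nat_lit 26) (nat_lit 5) (nat_lit 29) (nat_lit 5) (nat_lit 27) (nat_lit 4) (nat_lit 345) (nat_lit 230) (nat_lit 205)) (XT.lf (nat_lit 0) (nat_lit 7414342377) (nat_lit 228) (nat_lit 311451890) (nat_lit 76) (nat_lit 10829407383) (nat_lit 26) (nat_lit 5) (nat_lit 29) (nat_lit 5) (nat_lit 27) (nat_lit 4) (nat_lit 346) (nat_lit 230) (nat_lit 204))))))))
noncomputable def xc10 : XT := (XT.nd (nat_lit 39000) (nat_lit 0) (nat_lit 836) (XT.nd (nat_lit 1014) (nat_lit 456) (nat_lit 0) (XT.nd (nat_lit 468) (nat_lit 380) (nat_lit 0) (XT.nd (nat_lit 234) (nat_lit 304) (nat_lit 0) (XT.nd (nat_lit 78) (nat_lit 228) (nat_lit 0) (XT.lf (nat_lit 0) (nat_lit 11372401216) (nat_lit 76) (nat_lit 2016623592) (nat_lit 152) (nat_lit 5589408632) (nat_lit 25) (nat_lit 5) (nat_lit 26) (nat_lit 5) (nat_lit 27) (nat_lit 4) (nat_lit 347) (nat_lit 230) (nat_lit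 203)) (XT.nd (nat_lit 78) (nat_lit 0) (nat_lit 0) (XT.lf (nat_lit 0) (nat_lit 86645092) (nat_lit 228) (nat_lit 15557546081) (nat_lit 76) (nat_lit 3770981351) (nat_lit 22) (nat_lit 5) (nat_lit 25) (nat_lit 5) (nat_lit 23) (nat_lit 4) (nat_lit 348) (nat_lit 230) (nat_lit 202)) (XT.lf (nat_lit 0) (nat_lit 5831632479) (nat_lit 228) (nat_lit 4308460304) (nat_lit 76) (nat_lit 9724711594) (nat_lit 22) (nat_lit 5) (nat_lit 25) (nat_lit 5) (nat_lit 23) (nat_lit 4) (nat_lit 349) (nat_lit 230) (nat_lit 201)))) (XT.nd (nat_lit 78) (nat_lit 228) (nat_lit 0) (XT.lf (nat_lit 0) (nat_lit 7214879236) (nat_lit 76) (nat_lit 4492379731) (nat_lit 152) (nat_lit 8621521127) (nat_lit 21) (nat_lit 5) (nat_lit 22) (nat_lit 5) (nat_lit 23) (nat_lit 4) (nat_lit 350) (nat_lit 230) (nat_lit 200)) (XT.nd (nat_lit 78) (nat_lit 228) (nat_lit 0) (XT.lf (nat_lit 0) (nat_lit 17709717646) (nat_lit 152) (nat_lit 1828590667) (nat_lit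 0) (nat_lit 1269375595) (nat_lit 21) (nat_lit 5) (nat_lit 23) (nat_lit 4) (nat_lit 21) (nat_lit 4) (nat_lit 351) (nat_lit 230) (nat_lit 199)) (XT.lf (nat_lit 0) (nat_lit 2565753346) (nat_lit 228) (nat_lit 11576733136) (nat_lit 76) (nat_lit 7157982126) (nat_lit 18) (nat_lit 5) (nat_lit 21) (nat_lit 5) (nat_lit 19) (nat_lit 4) (nat_lit 352) (nat_lit 230) (nat_lit 198))))) (XT.nd (nat_lit 234) (nat_lit 152) (nat_lit 0) (XT.nd (nat_lit 78) (nat_lit 228) (nat_lit 0) (XT.lf (nat_lit 0) (nat_lit 8286058388) (nat_lit 228) (nat_lit 331632334) (nat_lit 76) (nat_lit 13191379885) (nat_lit 18) (nat_lit 5) (nat_lit 21) (nat_lit 5) (nat_lit 19) (nat_lit 4) (nat_lit 353) (nat_lit 230) (nat_lit 197)) (XT.nd (nat_lit 78) (nat_lit 152) (nat_lit 0) (XT.lf (nat_lit 0) (nat_lit 11252078791) (nat_lit 76) (nat_lit 2917444867) (nat_lit 152) (nat_lit 8163594015) (nat_lit 17) (nat_lit 5) (nat_lit 18) (nat_lit 5) (nat_lit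 19) (nat_lit 4) (nat_lit 354) (nat_lit 230) (nat_lit 196)) (XT.lf (nat_lit 0) (nat_lit 152662687) (nat_lit 152) (nat_lit 20018781352) (nat_lit 152) (nat_lit 2702620594) (nat_lit 15) (nat_lit 4) (nat_lit 17) (nat_lit 5) (nat_lit 17) (nat_lit 4) (nat_lit 355) (nat_lit 230) (nat_lit 195)))) (XT.nd (nat_lit 156) (nat_lit 76) (nat_lit 0) (XT.nd (nat_lit 78) (nat_lit 0) (nat_lit 0) (XT.lf (nat_lit 0) (nat_lit 2899349600) (nat_lit 228) (nat_lit 11737529934) (nat_lit 76) (nat_lit 8793687823) (nat_lit 14) (nat_lit 5) (nat_lit 17) (nat_lit 5) (nat_lit 15) (nat_lit 4) (nat_lit 356) (nat_lit 230) (nat_lit 194)) (XT.lf (nat_lit 0) (nat_lit 8555585111) (nat_lit 228) (nat_lit 581890872) (nat_lit 76) (nat_lit 14867489585) (nat_lit 14) (nat_lit 5) (nat_lit 17) (nat_lit 5) (nat_lit 15) (nat_lit 4) (nat_lit 357) (nat_lit 230) (nat_lit 193))) (XT.nd (nat_lit 78) (nat_lit 0) (nat_lit 0) (XT.lf (nat_lit 0) (nat_lit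 10915975066) (nat_lit 76) (nat_lit 3461372319) (nat_lit 152) (nat_lit 10219347251) (nat_lit 13) (nat_lit 5) (nat_lit 14) (nat_lit 5) (nat_lit 15) (nat_lit 4) (nat_lit 358) (nat_lit 230) (nat_lit 192)) (XT.lf (nat_lit 0) (nat_lit 20319114487) (nat_lit 152) (nat_lit 2589375110) (nat_lit 0) (nat_lit 2298794187) (nat_lit 13) (nat_lit 5) (nat_lit 15) (nat_lit 4) (nat_lit 13) (nat_lit 4) (nat_lit 359) (nat_lit 230) (nat_lit 191)))))) (XT.nd (nat_lit 37440) (nat_lit 0) (nat_lit 5092) (XT.nd (nat_lit 234) (nat_lit 152) (nat_lit 0) (XT.nd (nat_lit 78) (nat_lit 76) (nat_lit 0) (XT.lf (nat_lit 0) (nat_lit 603392108) (nat_lit 228) (nat_lit 17043672745) (nat_lit 76) (nat_lit 8188894855) (nat_lit 10) (nat_lit 5) (nat_lit 13) (nat_lit 5) (nat_lit 11) (nat_lit 4) (nat_lit 360) (nat_lit 230) (nat_lit 190)) (XT.nd (nat_lit 78) (nat_lit 76) (nat_lit 0) (XT.lf (nat_lit 0) (nat_lit 6140165526) (nat_lit 228) (nat_lit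 6094540446) (nat_lit 76) (nat_lit 14249220288) (nat_lit 10) (nat_lit 5) (nat_lit 13) (nat_lit 5) (nat_lit 11) (nat_lit 4) (nat_lit 361) (nat_lit 230) (nat_lit 189)) (XT.lf (nat_lit 0) (nat_lit 5124613342) (nat_lit 76) (nat_lit 6682608998) (nat_lit 152) (nat_lit 15344839544) (nat_lit 9) (nat_lit 5) (nat_lit 10) (nat_lit 5) (nat_lit 11) (nat_lit 4) (nat_lit 362) (nat_lit 230) (nat_lit 188)))) (XT.nd (nat_lit 156) (nat_lit 152) (nat_lit 0) (XT.nd (nat_lit 78) (nat_lit 0) (nat_lit 0) (XT.lf (nat_lit 0) (nat_lit 16640140803) (nat_lit 76) (nat_lit 977566138) (nat_lit 152) (nat_lit 10223079596) (nat_lit 9) (nat_lit 5) (nat_lit 10) (nat_lit 5) (nat_lit 11) (nat_lit 4) (nat_lit 363) (nat_lit 230) (nat_lit 187)) (XT.lf (nat_lit 0) (nat_lit 23568054562) (nat_lit 152) (nat_lit 201846893) (nat_lit 0) (nat_lit 4780973400) (nat_lit 9) (nat_lit 5) (nat_lit 11) (nat_lit 4) (nat_lit 9) (nat_lit 4) (nat_lit 364)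 (nat_lit 230) (nat_lit 186))) (XT.nd (nat_lit 36972) (nat_lit 0) (nat_lit 7372) (XT.lf (nat_lit 0) (nat_lit 423891005) (nat_lit 152) (nat_lit 18135652441) (nat_lit 76) (nat_lit 10722387157) (nat_lit 7) (nat_lit 5) (nat_lit 9) (nat_lit 5) (nat_lit 8) (nat_lit 4) (nat_lit 365) (nat_lit 230) (nat_lit 185)) (XT.lf (nat_lit 0) (nat_lit 1813385802) (nat_lit 380) (nat_lit 1756231220) (nat_lit 0) (nat_lit 1813385802) (nat_lit 104) (nat_lit 5) (nat_lit 109) (nat_lit 4) (nat_lit 104) (nat_lit 4) (nat_lit 318) (nat_lit 231) (nat_lit 231))))) (XT.nd (nat_lit 234) (nat_lit 1292) (nat_lit 0) (XT.nd (nat_lit 78) (nat_lit 684) (nat_lit 0) (XT.lf (nat_lit 0) (nat_lit 7599462763) (nat_lit 304) (nat_lit 2203177676) (nat_lit 304) (nat_lit 1139833684) (nat_lit 100) (nat_lit 4) (nat_lit 104) (nat_lit 5) (nat_lit 104) (nat_lit 4) (nat_lit 319) (nat_lit 231) (nat_lit 230)) (XT.nd (nat_lit 78) (nat_lit 304) (nat_lit 0)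 (XT.lf (nat_lit 0) (nat_lit 4927245198) (nat_lit 380) (nat_lit 3324702207) (nat_lit 0) (nat_lit 2872620884) (nat_lit 95) (nat_lit 5) (nat_lit 100) (nat_lit 4) (nat_lit 95) (nat_lit 4) (nat_lit 320) (nat_lit 231) (nat_lit 229)) (XT.lf (nat_lit 0) (nat_lit 7873552391) (nat_lit 304) (nat_lit 3238367931) (nat_lit 304) (nat_lit 201092933) (nat_lit 91) (nat_lit 4) (nat_lit 95) (nat_lit 5) (nat_lit 95) (nat_lit 4) (nat_lit 321) (nat_lit 231) (nat_lit 228)))) (XT.nd (nat_lit 156) (nat_lit 608) (nat_lit 0) (XT.nd (nat_lit 78) (nat_lit 380) (nat_lit 0) (XT.lf (nat_lit 0) (nat_lit 5846646599) (nat_lit 304) (nat_lit 3727143851) (nat_lit 0) (nat_lit 1933602689) (nat_lit 87) (nat_lit 5) (nat_lit 91) (nat_lit 4) (nat_lit 87) (nat_lit 4) (nat_lit 322) (nat_lit 231) (nat_lit 227)) (XT.lf (nat_lit 0) (nat_lit 320511219) (nat_lit 380) (nat_lit 4173692141) (nat_lit 76) (nat_lit 7214185495) (nat_lit 82) (nat_lit 5)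 (nat_lit 87) (nat_lit 5) (nat_lit 83) (nat_lit 4) (nat_lit 323) (nat_lit 231) (nat_lit 226))) (XT.nd (nat_lit 78) (nat_lit 380) (nat_lit 0) (XT.lf (nat_lit 0) (nat_lit 6348975427) (nat_lit 304) (nat_lit 4808812528) (nat_lit 0) (nat_lit 758037443) (nat_lit 79) (nat_lit 5) (nat_lit 83) (nat_lit 4) (nat_lit 79) (nat_lit 4) (nat_lit 324) (nat_lit 231) (nat_lit 225)) (XT.lf (nat_lit 0) (nat_lit 393263784) (nat_lit 380) (nat_lit 5635715079) (nat_lit 76) (nat_lit 6101099192) (nat_lit 74) (nat_lit 5) (nat_lit 79) (nat_lit 5) (nat_lit 75) (nat_lit 4) (nat_lit 325) (nat_lit 231) (nat_lit 224))))))) (XT.nd (nat_lit 1014) (nat_lit 1596) (nat_lit 0) (XT.nd (nat_lit 468) (nat_lit 1368) (nat_lit 0) (XT.nd (nat_lit 234) (nat_lit 532) (nat_lit 0) (XT.nd (nat_lit 78) (nat_lit 532) (nat_lit 0) (XT.lf (nat_lit 0) (nat_lit 5678753487) (nat_lit 228) (nat_lit 719063100) (nat_lit 304) (nat_lit 5953429239) (nat_lit 71)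 (nat_lit 5) (nat_lit 74) (nat_lit 5) (nat_lit 75) (nat_lit 4) (nat_lit 326) (nat_lit 231) (nat_lit 223)) (XT.nd (nat_lit 78) (nat_lit 304) (nat_lit 0) (XT.lf (nat_lit 0) (nat_lit 4652168046) (nat_lit 228) (nat_lit 7902873038) (nat_lit 228) (nat_lit 24604242) (nat_lit 68) (nat_lit 4) (nat_lit 71) (nat_lit 5) (nat_lit 71) (nat_lit 4) (nat_lit 327) (nat_lit 231) (nat_lit 222)) (XT.lf (nat_lit 0) (nat_lit 3386139501) (nat_lit 228) (nat_lit 2563023687) (nat_lit 304) (nat_lit 6866052050) (nat_lit 64) (nat_lit 5) (nat_lit 67) (nat_lit 5) (nat_lit 68) (nat_lit 4) (nat_lit 328) (nat_lit 231) (nat_lit 221)))) (XT.nd (nat_lit 78) (nat_lit 304) (nat_lit 0) (XT.lf (nat_lit 0) (nat_lit 1889901098) (nat_lit 228) (nat_lit 10173663744) (nat_lit 228) (nat_lit 995092843) (nat_lit 61) (nat_lit 4) (nat_lit 64) (nat_lit 5) (nat_lit 64) (nat_lit 4) (nat_lit 329) (nat_lit 231) (nat_lit 220)) (XT.nd (nat_lit 78) (nat_lit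 0) (nat_lit 0) (XT.lf (nat_lit 0) (nat_lit 116029959) (nat_lit 228) (nat_lit 4829696406) (nat_lit 304) (nat_lit 8363862932) (nat_lit 57) (nat_lit 5) (nat_lit 60) (nat_lit 5) (nat_lit 61) (nat_lit 4) (nat_lit 330) (nat_lit 231) (nat_lit 219)) (XT.lf (nat_lit 0) (nat_lit 11011396174) (nat_lit 304) (nat_lit 1888941602) (nat_lit 0) (nat_lit 668417098) (nat_lit 57) (nat_lit 5) (nat_lit 61) (nat_lit 4) (nat_lit 57) (nat_lit 4) (nat_lit 331) (nat_lit 231) (nat_lit 218))))) (XT.nd (nat_lit 234) (nat_lit 608) (nat_lit 0) (XT.nd (nat_lit 78) (nat_lit 456) (nat_lit 0) (XT.lf (nat_lit 0) (nat_lit 3356237057) (nat_lit 304) (nat_lit 4206347436) (nat_lit 76) (nat_lit 6273149036) (nat_lit 53) (nat_lit 5) (nat_lit 57) (nat_lit 5) (nat_lit 54) (nat_lit 4) (nat_lit 332) (nat_lit 231) (nat_lit 217)) (XT.nd (nat_lit 78) (nat_lit 304) (nat_lit 0) (XT.lf (nat_lit 0) (nat_lit 7291527390) (nat_lit 152) (nat_lit 2065756619)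 (nat_lit 228) (nat_lit 4754241101) (nat_lit 51) (nat_lit 5) (nat_lit 53) (nat_lit 5) (nat_lit 54) (nat_lit 4) (nat_lit 333) (nat_lit 231) (nat_lit 216)) (XT.lf (nat_lit 0) (nat_lit 1095673515) (nat_lit 304) (nat_lit 9763449868) (nat_lit 76) (nat_lit 3536996481) (nat_lit 47) (nat_lit 5) (nat_lit 51) (nat_lit 5) (nat_lit 48) (nat_lit 4) (nat_lit 334) (nat_lit 231) (nat_lit 215)))) (XT.nd (nat_lit 156) (nat_lit 456) (nat_lit 0) (XT.nd (nat_lit 78) (nat_lit 0) (nat_lit 0) (XT.lf (nat_lit 0) (nat_lit 1616657833) (nat_lit 152) (nat_lit 5398310936) (nat_lit 228) (nat_lit 7674520252) (nat_lit 45) (nat_lit 5) (nat_lit 47) (nat_lit 5) (nat_lit 48) (nat_lit 4) (nat_lit 335) (nat_lit 231) (nat_lit 214)) (XT.lf (nat_lit 0) (nat_lit 13068727405) (nat_lit 228) (nat_lit 1711615795) (nat_lit 0) (nat_lit 212211923) (nat_lit 45) (nat_lit 5) (nat_lit 48) (nat_lit 4) (nat_lit 45) (nat_lit 4) (nat_lit 336) (nat_lit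 231) (nat_lit 213))) (XT.nd (nat_lit 78) (nat_lit 152) (nat_lit 0) (XT.lf (nat_lit 0) (nat_lit 3939274436) (nat_lit 304) (nat_lit 5432273362) (nat_lit 76) (nat_lit 5932831188) (nat_lit 41) (nat_lit 5) (nat_lit 45) (nat_lit 5) (nat_lit 42) (nat_lit 4) (nat_lit 337) (nat_lit 231) (nat_lit 212)) (XT.lf (nat_lit 0) (nat_lit 6084241652) (nat_lit 152) (nat_lit 3812498279) (nat_lit 228) (nat_lit 5729702166) (nat_lit 39) (nat_lit 5) (nat_lit 41) (nat_lit 5) (nat_lit 42) (nat_lit 4) (nat_lit 338) (nat_lit 231) (nat_lit 211)))))) (XT.nd (nat_lit 546) (nat_lit 608) (nat_lit 0) (XT.nd (nat_lit 234) (nat_lit 608) (nat_lit 0) (XT.nd (nat_lit 78) (nat_lit 152) (nat_lit 0) (XT.lf (nat_lit 0) (nat_lit 29947083) (nat_lit 228) (nat_lit 14066628044) (nat_lit 76) (nat_lit 1862488478) (nat_lit 36) (nat_lit 5) (nat_lit 39) (nat_lit 5) (nat_lit 37) (nat_lit 4) (nat_lit 339) (nat_lit 231) (nat_lit 210)) (XT.nd (nat_lit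 78) (nat_lit 152) (nat_lit 0) (XT.lf (nat_lit 0) (nat_lit 5871474245) (nat_lit 228) (nat_lit 2745032314) (nat_lit 76) (nat_lit 7684689740) (nat_lit 36) (nat_lit 5) (nat_lit 39) (nat_lit 5) (nat_lit 37) (nat_lit 4) (nat_lit 340) (nat_lit 231) (nat_lit 209)) (XT.lf (nat_lit 0) (nat_lit 8856495498) (nat_lit 152) (nat_lit 2988189736) (nat_lit 228) (nat_lit 4809806805) (nat_lit 34) (nat_lit 5) (nat_lit 36) (nat_lit 5) (nat_lit 37) (nat_lit 4) (nat_lit 341) (nat_lit 231) (nat_lit 208)))) (XT.nd (nat_lit 156) (nat_lit 380) (nat_lit 0) (XT.nd (nat_lit 78) (nat_lit 0) (nat_lit 0) (XT.lf (nat_lit 0) (nat_lit 926724635) (nat_lit 228) (nat_lit 13344292765) (nat_lit 76) (nat_lit 2748051553) (nat_lit 31) (nat_lit 5) (nat_lit 34) (nat_lit 5) (nat_lit 32) (nat_lit 4) (nat_lit 342) (nat_lit 231) (nat_lit 207)) (XT.lf (nat_lit 0) (nat_lit 6744945333) (nat_lit 228) (nat_lit 2020606871) (nat_lit 76) (nat_lit 8628922032)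 (nat_lit 31) (nat_lit 5) (nat_lit 34) (nat_lit 5) (nat_lit 32) (nat_lit 4) (nat_lit 343) (nat_lit 231) (nat_lit 206))) (XT.nd (nat_lit 78) (nat_lit 228) (nat_lit 0) (XT.lf (nat_lit 0) (nat_lit 9600690563) (nat_lit 152) (nat_lit 3103620469) (nat_lit 228) (nat_lit 5077523642) (nat_lit 29) (nat_lit 5) (nat_lit 31) (nat_lit 5) (nat_lit 32) (nat_lit 4) (nat_lit 344) (nat_lit 231) (nat_lit 205)) (XT.lf (nat_lit 0) (nat_lit 610948059) (nat_lit 228) (nat_lit 14909516685) (nat_lit 76) (nat_lit 2661129351) (nat_lit 26) (nat_lit 5) (nat_lit 29) (nat_lit 5) (nat_lit 27) (nat_lit 4) (nat_lit 345) (nat_lit 231) (nat_lit 204))))) (XT.nd (nat_lit 234) (nat_lit 380) (nat_lit 0) (XT.nd (nat_lit 78) (nat_lit 228) (nat_lit 0) (XT.lf (nat_lit 0) (nat_lit 6384610020) (nat_lit 228) (nat_lit 3631724927) (nat_lit 76) (nat_lit 8576692776) (nat_lit 26) (nat_lit 5) (nat_lit 29) (nat_lit 5) (nat_lit 27) (nat_lit 4) (nat_lit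 346) (nat_lit 231) (nat_lit 203)) (XT.nd (nat_lit 78) (nat_lit 152) (nat_lit 0) (XT.lf (nat_lit 0) (nat_lit 7927901006) (nat_lit 76) (nat_lit 4364341483) (nat_lit 152) (nat_lit 6725369056) (nat_lit 25) (nat_lit 5) (nat_lit 26) (nat_lit 5) (nat_lit 27) (nat_lit 4) (nat_lit 347) (nat_lit 231) (nat_lit 202)) (XT.lf (nat_lit 0) (nat_lit 264198490) (nat_lit 152) (nat_lit 18059312693) (nat_lit 152) (nat_lit 1132515299) (nat_lit 23) (nat_lit 4) (nat_lit 25) (nat_lit 5) (nat_lit 25) (nat_lit 4) (nat_lit 348) (nat_lit 231) (nat_lit 201)))) (XT.nd (nat_lit 156) (nat_lit 228) (nat_lit 0) (XT.nd (nat_lit 78) (nat_lit 76) (nat_lit 0) (XT.lf (nat_lit 0) (nat_lit 4583702420) (nat_lit 228) (nat_lit 8013144470) (nat_lit 76) (nat_lit 7309841158) (nat_lit 22) (nat_lit 5) (nat_lit 25) (nat_lit 5) (nat_lit 23) (nat_lit 4) (nat_lit 349) (nat_lit 231) (nat_lit 200)) (XT.lf (nat_lit 0) (nat_lit 3384467961) (nat_lit 76)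 (nat_lit 7007639135) (nat_lit 152) (nat_lit 9979911003) (nat_lit 21) (nat_lit 5) (nat_lit 22) (nat_lit 5) (nat_lit 23) (nat_lit 4) (nat_lit 350) (nat_lit 231) (nat_lit 199))) (XT.nd (nat_lit 78) (nat_lit 228) (nat_lit 0) (XT.lf (nat_lit 0) (nat_lit 15082934312) (nat_lit 76) (nat_lit 1261679443) (nat_lit 152) (nat_lit 4507316809) (nat_lit 21) (nat_lit 5) (nat_lit 22) (nat_lit 5) (nat_lit 23) (nat_lit 4) (nat_lit 351) (nat_lit 231) (nat_lit 198)) (XT.lf (nat_lit 0) (nat_lit 1099244931) (nat_lit 228) (nat_lit 15670995009) (nat_lit 76) (nat_lit 4576180316) (nat_lit 18) (nat_lit 5) (nat_lit 21) (nat_lit 5) (nat_lit 19) (nat_lit 4) (nat_lit 352) (nat_lit 231) (nat_lit 197))))))))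
noncomputable def xc11 : XT := (XT.nd (nat_lit 38844) (nat_lit 0) (nat_lit 532) (XT.nd (nat_lit 37752) (nat_lit 0) (nat_lit 4028) (XT.nd (nat_lit 468) (nat_lit 380) (nat_lit 0) (XT.nd (nat_lit 234) (nat_lit 304) (nat_lit 0) (XT.nd (nat_lit 78) (nat_lit 76) (nat_lit 0) (XT.lf (nat_lit 0) (nat_lit 6779399785) (nat_lit 228) (nat_lit 4497970925) (nat_lit 76) (nat_lit 10578463430) (nat_lit 18) (nat_lit 5) (nat_lit 21) (nat_lit 5) (nat_lit 19) (nat_lit 4) (nat_lit 353) (nat_lit 231) (nat_lit 196)) (XT.nd (nat_lit 78) (nat_lit 0) (nat_lit 0) (XT.lf (nat_lit 0) (nat_lit 6959464395) (nat_lit 76) (nat_lit 5636549396) (nat_lit 152) (nat_lit 9785213064) (nat_lit 17) (nat_lit 5) (nat_lit 18) (nat_lit 5) (nat_lit 19) (nat_lit 4) (nat_lit 354) (nat_lit 231) (nat_lit 195)) (XT.lf (nat_lit 0) (nat_lit 18540798034) (nat_lit 152) (nat_lit 4241826823) (nat_lit 0) (nat_lit 140700052) (nat_lit 17) (nat_lit 5) (nat_lit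 19) (nat_lit 4) (nat_lit 17) (nat_lit 4) (nat_lit 355) (nat_lit 231) (nat_lit 194)))) (XT.nd (nat_lit 78) (nat_lit 76) (nat_lit 0) (XT.lf (nat_lit 0) (nat_lit 1175312559) (nat_lit 228) (nat_lit 16295923283) (nat_lit 76) (nat_lit 6010141162) (nat_lit 14) (nat_lit 5) (nat_lit 17) (nat_lit 5) (nat_lit 15) (nat_lit 4) (nat_lit 356) (nat_lit 231) (nat_lit 193)) (XT.nd (nat_lit 78) (nat_lit 76) (nat_lit 0) (XT.lf (nat_lit 0) (nat_lit 6794585482) (nat_lit 228) (nat_lit 5207085832) (nat_lit 76) (nat_lit 12054850888) (nat_lit 14) (nat_lit 5) (nat_lit 17) (nat_lit 5) (nat_lit 15) (nat_lit 4) (nat_lit 357) (nat_lit 231) (nat_lit 192)) (XT.lf (nat_lit 0) (nat_lit 6163595865) (nat_lit 76) (nat_lit 6386010285) (nat_lit 152) (nat_lit 12099987462) (nat_lit 13) (nat_lit 5) (nat_lit 14) (nat_lit 5) (nat_lit 15) (nat_lit 4) (nat_lit 358) (nat_lit 231) (nat_lit 191))))) (XT.nd (nat_lit 234) (nat_lit 152) (nat_lit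 0) (XT.nd (nat_lit 78) (nat_lit 228) (nat_lit 0) (XT.lf (nat_lit 0) (nat_lit 17817151870) (nat_lit 76) (nat_lit 623842696) (nat_lit 152) (nat_lit 6820203060) (nat_lit 13) (nat_lit 5) (nat_lit 14) (nat_lit 5) (nat_lit 15) (nat_lit 4) (nat_lit 359) (nat_lit 231) (nat_lit 190)) (XT.nd (nat_lit 78) (nat_lit 76) (nat_lit 0) (XT.lf (nat_lit 0) (nat_lit 3817966537) (nat_lit 152) (nat_lit 20680582088) (nat_lit 152) (nat_lit 1392827028) (nat_lit 11) (nat_lit 4) (nat_lit 13) (nat_lit 5) (nat_lit 13) (nat_lit 4) (nat_lit 360) (nat_lit 231) (nat_lit 189)) (XT.lf (nat_lit 0) (nat_lit 4128178002) (nat_lit 228) (nat_lit 11177136471) (nat_lit 76) (nat_lit 11234896046) (nat_lit 10) (nat_lit 5) (nat_lit 13) (nat_lit 5) (nat_lit 11) (nat_lit 4) (nat_lit 361) (nat_lit 231) (nat_lit 188)))) (XT.nd (nat_lit 156) (nat_lit 76) (nat_lit 0) (XT.nd (nat_lit 78) (nat_lit 76) (nat_lit 0) (XT.lf (nat_lit 0) (nat_lit 9728918191)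 (nat_lit 228) (nat_lit 85292722) (nat_lit 76) (nat_lit 17395468105) (nat_lit 10) (nat_lit 5) (nat_lit 13) (nat_lit 5) (nat_lit 11) (nat_lit 4) (nat_lit 362) (nat_lit 231) (nat_lit 187)) (XT.lf (nat_lit 0) (nat_lit 11369976475) (nat_lit 76) (nat_lit 4136399519) (nat_lit 152) (nat_lit 12392694564) (nat_lit 9) (nat_lit 5) (nat_lit 10) (nat_lit 5) (nat_lit 11) (nat_lit 4) (nat_lit 363) (nat_lit 231) (nat_lit 186))) (XT.nd (nat_lit 78) (nat_lit 76) (nat_lit 0) (XT.lf (nat_lit 0) (nat_lit 21404526268) (nat_lit 152) (nat_lit 5567657207) (nat_lit 0) (nat_lit 1638025515) (nat_lit 9) (nat_lit 5) (nat_lit 11) (nat_lit 4) (nat_lit 9) (nat_lit 4) (nat_lit 364) (nat_lit 231) (nat_lit 185)) (XT.lf (nat_lit 0) (nat_lit 5655071270) (nat_lit 76) (nat_lit 21826474932) (nat_lit 76) (nat_lit 1861109022) (nat_lit 8) (nat_lit 4) (nat_lit 9) (nat_lit 5) (nat_lit 9) (nat_lit 4) (nat_lit 365) (nat_lit 231) (nat_lit 184))))))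 (XT.nd (nat_lit 546) (nat_lit 1976) (nat_lit 0) (XT.nd (nat_lit 234) (nat_lit 1292) (nat_lit 0) (XT.nd (nat_lit 78) (nat_lit 760) (nat_lit 0) (XT.lf (nat_lit 0) (nat_lit 1581680868) (nat_lit 380) (nat_lit 2051164782) (nat_lit 0) (nat_lit 1581680868) (nat_lit 114) (nat_lit 5) (nat_lit 119) (nat_lit 4) (nat_lit 114) (nat_lit 4) (nat_lit 316) (nat_lit 232) (nat_lit 232)) (XT.nd (nat_lit 78) (nat_lit 380) (nat_lit 0) (XT.lf (nat_lit 0) (nat_lit 6798420045) (nat_lit 380) (nat_lit 2457131995) (nat_lit 380) (nat_lit 1339982797) (nat_lit 109) (nat_lit 4) (nat_lit 114) (nat_lit 5) (nat_lit 114) (nat_lit 4) (nat_lit 317) (nat_lit 232) (nat_lit 231)) (XT.lf (nat_lit 0) (nat_lit 4652280924) (nat_lit 380) (nat_lit 3621458820) (nat_lit 0) (nat_lit 2493692620) (nat_lit 104) (nat_lit 5) (nat_lit 109) (nat_lit 4) (nat_lit 104) (nat_lit 4) (nat_lit 318) (nat_lit 232) (nat_lit 230)))) (XT.nd (nat_lit 156) (nat_lit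 608) (nat_lit 0) (XT.nd (nat_lit 78) (nat_lit 380) (nat_lit 0) (XT.lf (nat_lit 0) (nat_lit 7381789836) (nat_lit 304) (nat_lit 3377242770) (nat_lit 304) (nat_lit 186281658) (nat_lit 100) (nat_lit 4) (nat_lit 104) (nat_lit 5) (nat_lit 104) (nat_lit 4) (nat_lit 319) (nat_lit 232) (nat_lit 229)) (XT.lf (nat_lit 0) (nat_lit 5791387466) (nat_lit 380) (nat_lit 3657121266) (nat_lit 0) (nat_lit 1680343535) (nat_lit 95) (nat_lit 5) (nat_lit 100) (nat_lit 4) (nat_lit 95) (nat_lit 4) (nat_lit 320) (nat_lit 232) (nat_lit 228))) (XT.nd (nat_lit 78) (nat_lit 228) (nat_lit 0) (XT.lf (nat_lit 0) (nat_lit 580922946) (nat_lit 380) (nat_lit 3891609369) (nat_lit 76) (nat_lit 6846091587) (nat_lit 90) (nat_lit 5) (nat_lit 95) (nat_lit 5) (nat_lit 91) (nat_lit 4) (nat_lit 321) (nat_lit 232) (nat_lit 227)) (XT.lf (nat_lit 0) (nat_lit 6549031532) (nat_lit 304) (nat_lit 4290321269) (nat_lit 0) (nat_lit 675192085) (nat_lit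 87) (nat_lit 5) (nat_lit 91) (nat_lit 4) (nat_lit 87) (nat_lit 4) (nat_lit 322) (nat_lit 232) (nat_lit 226))))) (XT.nd (nat_lit 234) (nat_lit 988) (nat_lit 0) (XT.nd (nat_lit 78) (nat_lit 608) (nat_lit 0) (XT.lf (nat_lit 0) (nat_lit 937699874) (nat_lit 380) (nat_lit 4861317638) (nat_lit 76) (nat_lit 5917837363) (nat_lit 82) (nat_lit 5) (nat_lit 87) (nat_lit 5) (nat_lit 83) (nat_lit 4) (nat_lit 323) (nat_lit 232) (nat_lit 225)) (XT.nd (nat_lit 78) (nat_lit 380) (nat_lit 0) (XT.lf (nat_lit 0) (nat_lit 6311795034) (nat_lit 228) (nat_lit 580888013) (nat_lit 304) (nat_lit 5033103257) (nat_lit 79) (nat_lit 5) (nat_lit 82) (nat_lit 5) (nat_lit 83) (nat_lit 4) (nat_lit 324) (nat_lit 232) (nat_lit 224)) (XT.lf (nat_lit 0) (nat_lit 847440540) (nat_lit 380) (nat_lit 6565079305) (nat_lit 76) (nat_lit 4728925251) (nat_lit 74) (nat_lit 5) (nat_lit 79) (nat_lit 5) (nat_lit 75) (nat_lit 4) (nat_lit 325) (nat_lit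 232) (nat_lit 223)))) (XT.nd (nat_lit 156) (nat_lit 456) (nat_lit 0) (XT.nd (nat_lit 78) (nat_lit 304) (nat_lit 0) (XT.lf (nat_lit 0) (nat_lit 4634962487) (nat_lit 228) (nat_lit 2148636441) (nat_lit 304) (nat_lit 5580405176) (nat_lit 71) (nat_lit 5) (nat_lit 74) (nat_lit 5) (nat_lit 75) (nat_lit 4) (nat_lit 326) (nat_lit 232) (nat_lit 222)) (XT.lf (nat_lit 0) (nat_lit 265767154) (nat_lit 304) (nat_lit 9106156936) (nat_lit 76) (nat_lit 3222018154) (nat_lit 67) (nat_lit 5) (nat_lit 71) (nat_lit 5) (nat_lit 68) (nat_lit 4) (nat_lit 327) (nat_lit 232) (nat_lit 221))) (XT.nd (nat_lit 78) (nat_lit 228) (nat_lit 0) (XT.lf (nat_lit 0) (nat_lit 2091035256) (nat_lit 228) (nat_lit 4079763764) (nat_lit 304) (nat_lit 6660099775) (nat_lit 64) (nat_lit 5) (nat_lit 67) (nat_lit 5) (nat_lit 68) (nat_lit 4) (nat_lit 328) (nat_lit 232) (nat_lit 220)) (XT.lf (nat_lit 0) (nat_lit 471746003) (nat_lit 228) (nat_lit 11735256980)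 (nat_lit 228) (nat_lit 868923162) (nat_lit 61) (nat_lit 4) (nat_lit 64) (nat_lit 5) (nat_lit 64) (nat_lit 4) (nat_lit 329) (nat_lit 232) (nat_lit 219))))))) (XT.nd (nat_lit 1014) (nat_lit 1216) (nat_lit 0) (XT.nd (nat_lit 468) (nat_lit 1216) (nat_lit 0) (XT.nd (nat_lit 234) (nat_lit 456) (nat_lit 0) (XT.nd (nat_lit 78) (nat_lit 532) (nat_lit 0) (XT.lf (nat_lit 0) (nat_lit 5011033757) (nat_lit 304) (nat_lit 1419546985) (nat_lit 76) (nat_lit 6897464721) (nat_lit 60) (nat_lit 5) (nat_lit 64) (nat_lit 5) (nat_lit 61) (nat_lit 4) (nat_lit 330) (nat_lit 232) (nat_lit 218)) (XT.nd (nat_lit 78) (nat_lit 304) (nat_lit 0) (XT.lf (nat_lit 0) (nat_lit 10033631158) (nat_lit 228) (nat_lit 971959383) (nat_lit 304) (nat_lit 2583062117) (nat_lit 57) (nat_lit 5) (nat_lit 60) (nat_lit 5) (nat_lit 61) (nat_lit 4) (nat_lit 331) (nat_lit 232) (nat_lit 217)) (XT.lf (nat_lit 0) (nat_lit 3256562696) (nat_lit 304) (nat_lit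 6004475267) (nat_lit 76) (nat_lit 4596101275) (nat_lit 53) (nat_lit 5) (nat_lit 57) (nat_lit 5) (nat_lit 54) (nat_lit 4) (nat_lit 332) (nat_lit 232) (nat_lit 216)))) (XT.nd (nat_lit 78) (nat_lit 304) (nat_lit 0) (XT.lf (nat_lit 0) (nat_lit 5374726702) (nat_lit 152) (nat_lit 3815133141) (nat_lit 228) (nat_lit 4944443861) (nat_lit 51) (nat_lit 5) (nat_lit 53) (nat_lit 5) (nat_lit 54) (nat_lit 4) (nat_lit 333) (nat_lit 232) (nat_lit 215)) (XT.nd (nat_lit 78) (nat_lit 0) (nat_lit 0) (XT.lf (nat_lit 0) (nat_lit 828232708) (nat_lit 304) (nat_lit 11834025093) (nat_lit 76) (nat_lit 1758277034) (nat_lit 47) (nat_lit 5) (nat_lit 51) (nat_lit 5) (nat_lit 48) (nat_lit 4) (nat_lit 334) (nat_lit 232) (nat_lit 214)) (XT.lf (nat_lit 0) (nat_lit 6683119332) (nat_lit 304) (nat_lit 567220824) (nat_lit 76) (nat_lit 7464868541) (nat_lit 47) (nat_lit 5) (nat_lit 51) (nat_lit 5) (nat_lit 48) (nat_lit 4) (nat_lit 335)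 (nat_lit 232) (nat_lit 213))))) (XT.nd (nat_lit 234) (nat_lit 608) (nat_lit 0) (XT.nd (nat_lit 78) (nat_lit 456) (nat_lit 0) (XT.lf (nat_lit 0) (nat_lit 11000340206) (nat_lit 152) (nat_lit 1678479679) (nat_lit 228) (nat_lit 2340632125) (nat_lit 45) (nat_lit 5) (nat_lit 47) (nat_lit 5) (nat_lit 48) (nat_lit 4) (nat_lit 336) (nat_lit 232) (nat_lit 212)) (XT.nd (nat_lit 78) (nat_lit 152) (nat_lit 0) (XT.lf (nat_lit 0) (nat_lit 3449186013) (nat_lit 304) (nat_lit 7874597736) (nat_lit 76) (nat_lit 4009136535) (nat_lit 41) (nat_lit 5) (nat_lit 45) (nat_lit 5) (nat_lit 42) (nat_lit 4) (nat_lit 337) (nat_lit 232) (nat_lit 211)) (XT.lf (nat_lit 0) (nat_lit 3520264078) (nat_lit 152) (nat_lit 5818700342) (nat_lit 228) (nat_lit 6317387549) (nat_lit 39) (nat_lit 5) (nat_lit 41) (nat_lit 5) (nat_lit 42) (nat_lit 4) (nat_lit 338) (nat_lit 232) (nat_lit 210)))) (XT.nd (nat_lit 156) (nat_lit 380) (nat_lit 0) (XT.nd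 (nat_lit 78) (nat_lit 228) (nat_lit 0) (XT.lf (nat_lit 0) (nat_lit 15188966434) (nat_lit 152) (nat_lit 168095647) (nat_lit 228) (nat_lit 633421238) (nat_lit 39) (nat_lit 5) (nat_lit 41) (nat_lit 5) (nat_lit 42) (nat_lit 4) (nat_lit 339) (nat_lit 232) (nat_lit 209)) (XT.lf (nat_lit 0) (nat_lit 5160228574) (nat_lit 228) (nat_lit 5562558401) (nat_lit 76) (nat_lit 5611048692) (nat_lit 36) (nat_lit 5) (nat_lit 39) (nat_lit 5) (nat_lit 37) (nat_lit 4) (nat_lit 340) (nat_lit 232) (nat_lit 208))) (XT.nd (nat_lit 78) (nat_lit 228) (nat_lit 0) (XT.lf (nat_lit 0) (nat_lit 5916295908) (nat_lit 152) (nat_lit 5149718652) (nat_lit 228) (nat_lit 5622478652) (nat_lit 34) (nat_lit 5) (nat_lit 36) (nat_lit 5) (nat_lit 37) (nat_lit 4) (nat_lit 341) (nat_lit 232) (nat_lit 207)) (XT.lf (nat_lit 0) (nat_lit 42405109) (nat_lit 228) (nat_lit 16458219932) (nat_lit 76) (nat_lit 554209400) (nat_lit 31) (nat_lit 5) (nat_lit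 34) (nat_lit 5) (nat_lit 32) (nat_lit 4) (nat_lit 342) (nat_lit 232) (nat_lit 206)))))) (XT.nd (nat_lit 546) (nat_lit 532) (nat_lit 0) (XT.nd (nat_lit 234) (nat_lit 532) (nat_lit 0) (XT.nd (nat_lit 78) (nat_lit 152) (nat_lit 0) (XT.lf (nat_lit 0) (nat_lit 5813465379) (nat_lit 228) (nat_lit 5217299466) (nat_lit 76) (nat_lit 6400430387) (nat_lit 31) (nat_lit 5) (nat_lit 34) (nat_lit 5) (nat_lit 32) (nat_lit 4) (nat_lit 343) (nat_lit 232) (nat_lit 205)) (XT.nd (nat_lit 78) (nat_lit 0) (nat_lit 0) (XT.lf (nat_lit 0) (nat_lit 6280092948) (nat_lit 152) (nat_lit 5425391783) (nat_lit 228) (nat_lit 6114429805) (nat_lit 29) (nat_lit 5) (nat_lit 31) (nat_lit 5) (nat_lit 32) (nat_lit 4) (nat_lit 344) (nat_lit 232) (nat_lit 204)) (XT.lf (nat_lit 0) (nat_lit 17720382045) (nat_lit 228) (nat_lit 190134201) (nat_lit 0) (nat_lit 310880357) (nat_lit 29) (nat_lit 5) (nat_lit 32) (nat_lit 4) (nat_lit 29) (nat_lit 4)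 (nat_lit 345) (nat_lit 232) (nat_lit 203)))) (XT.nd (nat_lit 156) (nat_lit 228) (nat_lit 0) (XT.nd (nat_lit 78) (nat_lit 76) (nat_lit 0) (XT.lf (nat_lit 0) (nat_lit 5233273150) (nat_lit 228) (nat_lit 7212081578) (nat_lit 76) (nat_lit 6188470498) (nat_lit 26) (nat_lit 5) (nat_lit 29) (nat_lit 5) (nat_lit 27) (nat_lit 4) (nat_lit 346) (nat_lit 232) (nat_lit 202)) (XT.lf (nat_lit 0) (nat_lit 4222193891) (nat_lit 76) (nat_lit 6851267372) (nat_lit 152) (nat_lit 7986307384) (nat_lit 25) (nat_lit 5) (nat_lit 26) (nat_lit 5) (nat_lit 27) (nat_lit 4) (nat_lit 347) (nat_lit 232) (nat_lit 201))) (XT.nd (nat_lit 78) (nat_lit 228) (nat_lit 0) (XT.lf (nat_lit 0) (nat_lit 15944944048) (nat_lit 76) (nat_lit 1106281889) (nat_lit 152) (nat_lit 2448038128) (nat_lit 25) (nat_lit 5) (nat_lit 26) (nat_lit 5) (nat_lit 27) (nat_lit 4) (nat_lit 348) (nat_lit 232) (nat_lit 200)) (XT.lf (nat_lit 0) (nat_lit 3212359409) (nat_lit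 228) (nat_lit 11982215032) (nat_lit 76) (nat_lit 4756993383) (nat_lit 22) (nat_lit 5) (nat_lit 25) (nat_lit 5) (nat_lit 23) (nat_lit 4) (nat_lit 349) (nat_lit 232) (nat_lit 199))))) (XT.nd (nat_lit 234) (nat_lit 304) (nat_lit 0) (XT.nd (nat_lit 78) (nat_lit 228) (nat_lit 0) (XT.lf (nat_lit 0) (nat_lit 8957671193) (nat_lit 228) (nat_lit 702282329) (nat_lit 76) (nat_lit 10758215821) (nat_lit 22) (nat_lit 5) (nat_lit 25) (nat_lit 5) (nat_lit 23) (nat_lit 4) (nat_lit 350) (nat_lit 232) (nat_lit 198)) (XT.nd (nat_lit 78) (nat_lit 152) (nat_lit 0) (XT.lf (nat_lit 0) (nat_lit 10914748309) (nat_lit 76) (nat_lit 3950420077) (nat_lit 152) (nat_lit 6033822943) (nat_lit 21) (nat_lit 5) (nat_lit 22) (nat_lit 5) (nat_lit 23) (nat_lit 4) (nat_lit 351) (nat_lit 232) (nat_lit 197)) (XT.lf (nat_lit 0) (nat_lit 1357691403) (nat_lit 152) (nat_lit 19538330154) (nat_lit 152) (nat_lit 499312186) (nat_lit 19) (nat_lit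 4) (nat_lit 21) (nat_lit 5) (nat_lit 21) (nat_lit 4) (nat_lit 352) (nat_lit 232) (nat_lit 196)))) (XT.nd (nat_lit 156) (nat_lit 152) (nat_lit 0) (XT.nd (nat_lit 78) (nat_lit 76) (nat_lit 0) (XT.lf (nat_lit 0) (nat_lit 5148410471) (nat_lit 228) (nat_lit 8931353786) (nat_lit 76) (nat_lit 7825836445) (nat_lit 18) (nat_lit 5) (nat_lit 21) (nat_lit 5) (nat_lit 19) (nat_lit 4) (nat_lit 353) (nat_lit 232) (nat_lit 195)) (XT.lf (nat_lit 0) (nat_lit 2398322113) (nat_lit 76) (nat_lit 8499243001) (nat_lit 152) (nat_lit 11534785862) (nat_lit 17) (nat_lit 5) (nat_lit 18) (nat_lit 5) (nat_lit 19) (nat_lit 4) (nat_lit 354) (nat_lit 232) (nat_lit 194))) (XT.nd (nat_lit 78) (nat_lit 152) (nat_lit 0) (XT.lf (nat_lit 0) (nat_lit 14054462990) (nat_lit 76) (nat_lit 2749783649) (nat_lit 152) (nat_lit 6170972573) (nat_lit 17) (nat_lit 5) (nat_lit 18) (nat_lit 5) (nat_lit 19) (nat_lit 4) (nat_lit 355) (nat_lit 232) (nat_lit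 193)) (XT.lf (nat_lit 0) (nat_lit 2404018798) (nat_lit 152) (nat_lit 20446663232) (nat_lit 152) (nat_lit 684456415) (nat_lit 15) (nat_lit 4) (nat_lit 17) (nat_lit 5) (nat_lit 17) (nat_lit 4) (nat_lit 356) (nat_lit 232) (nat_lit 192))))))))
noncomputable def xc12 : XT := (XT.nd (nat_lit 38688) (nat_lit 0) (nat_lit 380) (XT.nd (nat_lit 37674) (nat_lit 0) (nat_lit 3648) (XT.nd (nat_lit 468) (nat_lit 76) (nat_lit 0) (XT.nd (nat_lit 234) (nat_lit 228) (nat_lit 0) (XT.nd (nat_lit 78) (nat_lit 76) (nat_lit 0) (XT.lf (nat_lit 0) (nat_lit 4907907269) (nat_lit 228) (nat_lit 10102694185) (nat_lit 76) (nat_lit 9100496300) (nat_lit 14) (nat_lit 5) (nat_lit 17) (nat_lit 5) (nat_lit 15) (nat_lit 4) (nat_lit 357) (nat_lit 232) (nat_lit 191)) (XT.nd (nat_lit 78) (nat_lit 0) (nat_lit 0) (XT.lf (nat_lit 0) (nat_lit 1139123731) (nat_lit 76) (nat_lit 9456341217) (nat_lit 152) (nat_lit 14110060769) (nat_lit 13) (nat_lit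 5) (nat_lit 14) (nat_lit 5) (nat_lit 15) (nat_lit 4) (nat_lit 358) (nat_lit 232) (nat_lit 190)) (XT.lf (nat_lit 0) (nat_lit 12730734375) (nat_lit 76) (nat_lit 3721890796) (nat_lit 152) (nat_lit 8865196204) (nat_lit 13) (nat_lit 5) (nat_lit 14) (nat_lit 5) (nat_lit 15) (nat_lit 4) (nat_lit 359) (nat_lit 232) (nat_lit 189)))) (XT.nd (nat_lit 78) (nat_lit 228) (nat_lit 0) (XT.lf (nat_lit 0) (nat_lit 22431869902) (nat_lit 152) (nat_lit 1415671350) (nat_lit 0) (nat_lit 2102031209) (nat_lit 13) (nat_lit 5) (nat_lit 15) (nat_lit 4) (nat_lit 13) (nat_lit 4) (nat_lit 360) (nat_lit 232) (nat_lit 188)) (XT.nd (nat_lit 78) (nat_lit 0) (nat_lit 0) (XT.lf (nat_lit 0) (nat_lit 1988751051) (nat_lit 228) (nat_lit 16534213000) (nat_lit 76) (nat_lit 8076574130) (nat_lit 10) (nat_lit 5) (nat_lit 13) (nat_lit 5) (nat_lit 11) (nat_lit 4) (nat_lit 361) (nat_lit 232) (nat_lit 187)) (XT.lf (nat_lit 0) (nat_lit 7557409457)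 (nat_lit 228) (nat_lit 5500718586) (nat_lit 76) (nat_lit 14211526625) (nat_lit 10) (nat_lit 5) (nat_lit 13) (nat_lit 5) (nat_lit 11) (nat_lit 4) (nat_lit 362) (nat_lit 232) (nat_lit 186))))) (XT.nd (nat_lit 36894) (nat_lit 0) (nat_lit 7220) (XT.nd (nat_lit 78) (nat_lit 0) (nat_lit 0) (XT.lf (nat_lit 0) (nat_lit 5825179765) (nat_lit 76) (nat_lit 7442539635) (nat_lit 152) (nat_lit 14692675933) (nat_lit 9) (nat_lit 5) (nat_lit 10) (nat_lit 5) (nat_lit 11) (nat_lit 4) (nat_lit 363) (nat_lit 232) (nat_lit 185)) (XT.nd (nat_lit 36738) (nat_lit 0) (nat_lit 8740) (XT.lf (nat_lit 0) (nat_lit 17453016323) (nat_lit 76) (nat_lit 1671474868) (nat_lit 152) (nat_lit 9547876130) (nat_lit 9) (nat_lit 5) (nat_lit 10) (nat_lit 5) (nat_lit 11) (nat_lit 4) (nat_lit 364) (nat_lit 232) (nat_lit 184)) (XT.lf (nat_lit 0) (nat_lit 1297635856) (nat_lit 380) (nat_lit 2460311286) (nat_lit 0) (nat_lit 1297635856) (nat_lit 124)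 (nat_lit 5) (nat_lit 129) (nat_lit 4) (nat_lit 124) (nat_lit 4) (nat_lit 314) (nat_lit 233) (nat_lit 233)))) (XT.nd (nat_lit 156) (nat_lit 760) (nat_lit 0) (XT.nd (nat_lit 78) (nat_lit 380) (nat_lit 0) (XT.lf (nat_lit 0) (nat_lit 5757141858) (nat_lit 380) (nat_lit 2842363246) (nat_lit 380) (nat_lit 1668686299) (nat_lit 119) (nat_lit 4) (nat_lit 124) (nat_lit 5) (nat_lit 124) (nat_lit 4) (nat_lit 315) (nat_lit 233) (nat_lit 232)) (XT.lf (nat_lit 0) (nat_lit 4244380183) (nat_lit 380) (nat_lit 4209532084) (nat_lit 0) (nat_lit 1976567310) (nat_lit 114) (nat_lit 5) (nat_lit 119) (nat_lit 4) (nat_lit 114) (nat_lit 4) (nat_lit 316) (nat_lit 233) (nat_lit 231))) (XT.nd (nat_lit 78) (nat_lit 380) (nat_lit 0) (XT.lf (nat_lit 0) (nat_lit 6584329575) (nat_lit 380) (nat_lit 3683234169) (nat_lit 380) (nat_lit 330810424) (nat_lit 109) (nat_lit 4) (nat_lit 114) (nat_lit 5) (nat_lit 114) (nat_lit 4) (nat_lit 317)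 (nat_lit 233) (nat_lit 230)) (XT.lf (nat_lit 0) (nat_lit 5571116654) (nat_lit 380) (nat_lit 3948543199) (nat_lit 0) (nat_lit 1252053900) (nat_lit 104) (nat_lit 5) (nat_lit 109) (nat_lit 4) (nat_lit 104) (nat_lit 4) (nat_lit 318) (nat_lit 233) (nat_lit 229)))))) (XT.nd (nat_lit 468) (nat_lit 1672) (nat_lit 0) (XT.nd (nat_lit 234) (nat_lit 836) (nat_lit 0) (XT.nd (nat_lit 78) (nat_lit 684) (nat_lit 0) (XT.lf (nat_lit 0) (nat_lit 649677728) (nat_lit 380) (nat_lit 4009017440) (nat_lit 76) (nat_lit 6292216373) (nat_lit 99) (nat_lit 5) (nat_lit 104) (nat_lit 5) (nat_lit 100) (nat_lit 4) (nat_lit 319) (nat_lit 233) (nat_lit 228)) (XT.nd (nat_lit 78) (nat_lit 380) (nat_lit 0) (XT.lf (nat_lit 0) (nat_lit 6547788177) (nat_lit 380) (nat_lit 4211475758) (nat_lit 0) (nat_lit 376732454) (nat_lit 95) (nat_lit 5) (nat_lit 100) (nat_lit 4) (nat_lit 95) (nat_lit 4) (nat_lit 320) (nat_lit 233) (nat_lit 227)) (XT.lf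 (nat_lit 0) (nat_lit 1251632033) (nat_lit 380) (nat_lit 4569001529) (nat_lit 76) (nat_lit 5506438927) (nat_lit 90) (nat_lit 5) (nat_lit 95) (nat_lit 5) (nat_lit 91) (nat_lit 4) (nat_lit 321) (nat_lit 233) (nat_lit 226)))) (XT.nd (nat_lit 78) (nat_lit 608) (nat_lit 0) (XT.lf (nat_lit 0) (nat_lit 6440428159) (nat_lit 228) (nat_lit 706597075) (nat_lit 304) (nat_lit 4377449090) (nat_lit 87) (nat_lit 5) (nat_lit 90) (nat_lit 5) (nat_lit 91) (nat_lit 4) (nat_lit 322) (nat_lit 233) (nat_lit 225)) (XT.nd (nat_lit 78) (nat_lit 228) (nat_lit 0) (XT.lf (nat_lit 0) (nat_lit 1444909579) (nat_lit 380) (nat_lit 5777003451) (nat_lit 76) (nat_lit 4506283026) (nat_lit 82) (nat_lit 5) (nat_lit 87) (nat_lit 5) (nat_lit 83) (nat_lit 4) (nat_lit 323) (nat_lit 233) (nat_lit 224)) (XT.lf (nat_lit 0) (nat_lit 5283415007) (nat_lit 228) (nat_lit 2048346610) (nat_lit 304) (nat_lit 4606753020) (nat_lit 79) (nat_lit 5) (nat_lit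 82) (nat_lit 5) (nat_lit 83) (nat_lit 4) (nat_lit 324) (nat_lit 233) (nat_lit 223))))) (XT.nd (nat_lit 234) (nat_lit 760) (nat_lit 0) (XT.nd (nat_lit 78) (nat_lit 532) (nat_lit 0) (XT.lf (nat_lit 0) (nat_lit 1190159213) (nat_lit 380) (nat_lit 7726821110) (nat_lit 76) (nat_lit 3238721889) (nat_lit 74) (nat_lit 5) (nat_lit 79) (nat_lit 5) (nat_lit 75) (nat_lit 4) (nat_lit 325) (nat_lit 233) (nat_lit 222)) (XT.nd (nat_lit 78) (nat_lit 304) (nat_lit 0) (XT.lf (nat_lit 0) (nat_lit 3358678820) (nat_lit 228) (nat_lit 3699529552) (nat_lit 304) (nat_lit 5321437701) (nat_lit 71) (nat_lit 5) (nat_lit 74) (nat_lit 5) (nat_lit 75) (nat_lit 4) (nat_lit 326) (nat_lit 233) (nat_lit 221)) (XT.lf (nat_lit 0) (nat_lit 442708798) (nat_lit 304) (nat_lit 10521898534) (nat_lit 76) (nat_lit 1646537418) (nat_lit 67) (nat_lit 5) (nat_lit 71) (nat_lit 5) (nat_lit 68) (nat_lit 4) (nat_lit 327) (nat_lit 233) (nat_lit 220))))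 (XT.nd (nat_lit 156) (nat_lit 532) (nat_lit 0) (XT.nd (nat_lit 78) (nat_lit 0) (nat_lit 0) (XT.lf (nat_lit 0) (nat_lit 558810570) (nat_lit 228) (nat_lit 5720725373) (nat_lit 304) (nat_lit 6569950402) (nat_lit 64) (nat_lit 5) (nat_lit 67) (nat_lit 5) (nat_lit 68) (nat_lit 4) (nat_lit 328) (nat_lit 233) (nat_lit 219)) (XT.lf (nat_lit 0) (nat_lit 11923473818) (nat_lit 228) (nat_lit 323227785) (nat_lit 304) (nat_lit 849213194) (nat_lit 64) (nat_lit 5) (nat_lit 67) (nat_lit 5) (nat_lit 68) (nat_lit 4) (nat_lit 329) (nat_lit 233) (nat_lit 218))) (XT.nd (nat_lit 78) (nat_lit 228) (nat_lit 0) (XT.lf (nat_lit 0) (nat_lit 4963870448) (nat_lit 304) (nat_lit 3192399843) (nat_lit 76) (nat_lit 5193112918) (nat_lit 60) (nat_lit 5) (nat_lit 64) (nat_lit 5) (nat_lit 61) (nat_lit 4) (nat_lit 330) (nat_lit 233) (nat_lit 217)) (XT.lf (nat_lit 0) (nat_lit 8143795136) (nat_lit 228) (nat_lit 2747263330) (nat_lit 304)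 (nat_lit 2720298108) (nat_lit 57) (nat_lit 5) (nat_lit 60) (nat_lit 5) (nat_lit 61) (nat_lit 4) (nat_lit 331) (nat_lit 233) (nat_lit 216))))))) (XT.nd (nat_lit 1014) (nat_lit 1140) (nat_lit 0) (XT.nd (nat_lit 468) (nat_lit 912) (nat_lit 0) (XT.nd (nat_lit 234) (nat_lit 456) (nat_lit 0) (XT.nd (nat_lit 78) (nat_lit 456) (nat_lit 0) (XT.lf (nat_lit 0) (nat_lit 3041629639) (nat_lit 304) (nat_lit 8046420285) (nat_lit 76) (nat_lit 2793418879) (nat_lit 53) (nat_lit 5) (nat_lit 57) (nat_lit 5) (nat_lit 54) (nat_lit 4) (nat_lit 332) (nat_lit 233) (nat_lit 215)) (XT.nd (nat_lit 78) (nat_lit 304) (nat_lit 0) (XT.lf (nat_lit 0) (nat_lit 3213629113) (nat_lit 152) (nat_lit 5693572548) (nat_lit 228) (nat_lit 5252803479) (nat_lit 51) (nat_lit 5) (nat_lit 53) (nat_lit 5) (nat_lit 54) (nat_lit 4) (nat_lit 333) (nat_lit 233) (nat_lit 214)) (XT.lf (nat_lit 0) (nat_lit 293222139) (nat_lit 228) (nat_lit 151085688)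 (nat_lit 304) (nat_lit 14003577206) (nat_lit 47) (nat_lit 5) (nat_lit 50) (nat_lit 5) (nat_lit 51) (nat_lit 5) (nat_lit 334) (nat_lit 233) (nat_lit 213)))) (XT.nd (nat_lit 78) (nat_lit 456) (nat_lit 0) (XT.lf (nat_lit 0) (nat_lit 6245871545) (nat_lit 304) (nat_lit 2976295808) (nat_lit 76) (nat_lit 5521474050) (nat_lit 47) (nat_lit 5) (nat_lit 51) (nat_lit 5) (nat_lit 48) (nat_lit 4) (nat_lit 335) (nat_lit 233) (nat_lit 212)) (XT.nd (nat_lit 78) (nat_lit 304) (nat_lit 0) (XT.lf (nat_lit 0) (nat_lit 8471282456) (nat_lit 152) (nat_lit 3703051888) (nat_lit 228) (nat_lit 2874910710) (nat_lit 45) (nat_lit 5) (nat_lit 47) (nat_lit 5) (nat_lit 48) (nat_lit 4) (nat_lit 336) (nat_lit 233) (nat_lit 211)) (XT.lf (nat_lit 0) (nat_lit 2840783646) (nat_lit 304) (nat_lit 10568884974) (nat_lit 76) (nat_lit 1954751536) (nat_lit 41) (nat_lit 5) (nat_lit 45) (nat_lit 5) (nat_lit 42) (nat_lit 4) (nat_lit 337) (nat_lit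 233) (nat_lit 210))))) (XT.nd (nat_lit 234) (nat_lit 532) (nat_lit 0) (XT.nd (nat_lit 78) (nat_lit 228) (nat_lit 0) (XT.lf (nat_lit 0) (nat_lit 703573126) (nat_lit 152) (nat_lit 7959147658) (nat_lit 228) (nat_lit 7026502282) (nat_lit 39) (nat_lit 5) (nat_lit 41) (nat_lit 5) (nat_lit 42) (nat_lit 4) (nat_lit 338) (nat_lit 233) (nat_lit 209)) (XT.nd (nat_lit 78) (nat_lit 228) (nat_lit 0) (XT.lf (nat_lit 0) (nat_lit 12288199701) (nat_lit 152) (nat_lit 2343962731) (nat_lit 228) (nat_lit 1392179085) (nat_lit 39) (nat_lit 5) (nat_lit 41) (nat_lit 5) (nat_lit 42) (nat_lit 4) (nat_lit 339) (nat_lit 233) (nat_lit 208)) (XT.lf (nat_lit 0) (nat_lit 4329524921) (nat_lit 228) (nat_lit 8635358153) (nat_lit 76) (nat_lit 3404560567) (nat_lit 36) (nat_lit 5) (nat_lit 39) (nat_lit 5) (nat_lit 37) (nat_lit 4) (nat_lit 340) (nat_lit 233) (nat_lit 207)))) (XT.nd (nat_lit 156) (nat_lit 380) (nat_lit 0) (XT.nd (nat_lit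 78) (nat_lit 0) (nat_lit 0) (XT.lf (nat_lit 0) (nat_lit 2719912628) (nat_lit 152) (nat_lit 7447717785) (nat_lit 228) (nat_lit 6557837303) (nat_lit 34) (nat_lit 5) (nat_lit 36) (nat_lit 5) (nat_lit 37) (nat_lit 4) (nat_lit 341) (nat_lit 233) (nat_lit 206)) (XT.lf (nat_lit 0) (nat_lit 14370958532) (nat_lit 152) (nat_lit 1774889509) (nat_lit 228) (nat_lit 947050557) (nat_lit 34) (nat_lit 5) (nat_lit 36) (nat_lit 5) (nat_lit 37) (nat_lit 4) (nat_lit 342) (nat_lit 233) (nat_lit 205))) (XT.nd (nat_lit 78) (nat_lit 152) (nat_lit 0) (XT.lf (nat_lit 0) (nat_lit 4761093772) (nat_lit 228) (nat_lit 8673013053) (nat_lit 76) (nat_lit 4036794213) (nat_lit 31) (nat_lit 5) (nat_lit 34) (nat_lit 5) (nat_lit 32) (nat_lit 4) (nat_lit 343) (nat_lit 233) (nat_lit 204)) (XT.lf (nat_lit 0) (nat_lit 2699403623) (nat_lit 152) (nat_lit 7886008064) (nat_lit 228) (nat_lit 7275574276) (nat_lit 29) (nat_lit 5) (nat_lit 31) (nat_lit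 5) (nat_lit 32) (nat_lit 4) (nat_lit 344) (nat_lit 233) (nat_lit 203)))))) (XT.nd (nat_lit 546) (nat_lit 532) (nat_lit 0) (XT.nd (nat_lit 234) (nat_lit 304) (nat_lit 0) (XT.nd (nat_lit 78) (nat_lit 304) (nat_lit 0) (XT.lf (nat_lit 0) (nat_lit 14375910584) (nat_lit 152) (nat_lit 2178696374) (nat_lit 228) (nat_lit 1708786366) (nat_lit 29) (nat_lit 5) (nat_lit 31) (nat_lit 5) (nat_lit 32) (nat_lit 4) (nat_lit 345) (nat_lit 233) (nat_lit 202)) (XT.nd (nat_lit 78) (nat_lit 76) (nat_lit 0) (XT.lf (nat_lit 0) (nat_lit 3959325744) (nat_lit 228) (nat_lit 11055650311) (nat_lit 76) (nat_lit 3662653753) (nat_lit 26) (nat_lit 5) (nat_lit 29) (nat_lit 5) (nat_lit 27) (nat_lit 4) (nat_lit 346) (nat_lit 233) (nat_lit 201)) (XT.lf (nat_lit 0) (nat_lit 252041873) (nat_lit 76) (nat_lit 9479574301) (nat_lit 152) (nat_lit 9373325408) (nat_lit 25) (nat_lit 5) (nat_lit 26) (nat_lit 5) (nat_lit 27) (nat_lit 4) (nat_lit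 347) (nat_lit 233) (nat_lit 200)))) (XT.nd (nat_lit 156) (nat_lit 76) (nat_lit 0) (XT.nd (nat_lit 78) (nat_lit 228) (nat_lit 0) (XT.lf (nat_lit 0) (nat_lit 11901486903) (nat_lit 76) (nat_lit 3766523996) (nat_lit 152) (nat_lit 3877263596) (nat_lit 25) (nat_lit 5) (nat_lit 26) (nat_lit 5) (nat_lit 27) (nat_lit 4) (nat_lit 348) (nat_lit 233) (nat_lit 199)) (XT.lf (nat_lit 0) (nat_lit 1716405186) (nat_lit 228) (nat_lit 16219140110) (nat_lit 76) (nat_lit 2063937625) (nat_lit 22) (nat_lit 5) (nat_lit 25) (nat_lit 5) (nat_lit 23) (nat_lit 4) (nat_lit 349) (nat_lit 233) (nat_lit 198))) (XT.nd (nat_lit 78) (nat_lit 76) (nat_lit 0) (XT.lf (nat_lit 0) (nat_lit 7421795920) (nat_lit 228) (nat_lit 5010364517) (nat_lit 76) (nat_lit 8034731756) (nat_lit 22) (nat_lit 5) (nat_lit 25) (nat_lit 5) (nat_lit 23) (nat_lit 4) (nat_lit 350) (nat_lit 233) (nat_lit 197)) (XT.lf (nat_lit 0) (nat_lit 6479411307) (nat_lit 76)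 (nat_lit 6782326356) (nat_lit 152) (nat_lit 7687336684) (nat_lit 21) (nat_lit 5) (nat_lit 22) (nat_lit 5) (nat_lit 23) (nat_lit 4) (nat_lit 351) (nat_lit 233) (nat_lit 196))))) (XT.nd (nat_lit 234) (nat_lit 304) (nat_lit 0) (XT.nd (nat_lit 78) (nat_lit 228) (nat_lit 0) (XT.lf (nat_lit 0) (nat_lit 18244496640) (nat_lit 76) (nat_lit 989049342) (nat_lit 152) (nat_lit 2213060471) (nat_lit 21) (nat_lit 5) (nat_lit 22) (nat_lit 5) (nat_lit 23) (nat_lit 4) (nat_lit 352) (nat_lit 233) (nat_lit 195)) (XT.nd (nat_lit 78) (nat_lit 0) (nat_lit 0) (XT.lf (nat_lit 0) (nat_lit 3391665311) (nat_lit 228) (nat_lit 13635654748) (nat_lit 76) (nat_lit 4931093720) (nat_lit 18) (nat_lit 5) (nat_lit 21) (nat_lit 5) (nat_lit 19) (nat_lit 4) (nat_lit 353) (nat_lit 233) (nat_lit 194)) (XT.lf (nat_lit 0) (nat_lit 9088505347) (nat_lit 228) (nat_lit 2403393681) (nat_lit 76) (nat_lit 10994319445) (nat_lit 18) (nat_lit 5) (nat_lit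 21) (nat_lit 5) (nat_lit 19) (nat_lit 4) (nat_lit 354) (nat_lit 233) (nat_lit 193)))) (XT.nd (nat_lit 156) (nat_lit 228) (nat_lit 0) (XT.nd (nat_lit 78) (nat_lit 0) (nat_lit 0) (XT.lf (nat_lit 0) (nat_lit 9155917080) (nat_lit 76) (nat_lit 5787363758) (nat_lit 152) (nat_lit 8086851882) (nat_lit 17) (nat_lit 5) (nat_lit 18) (nat_lit 5) (nat_lit 19) (nat_lit 4) (nat_lit 355) (nat_lit 233) (nat_lit 192)) (XT.lf (nat_lit 0) (nat_lit 20919161299) (nat_lit 152) (nat_lit 2624775045) (nat_lit 0) (nat_lit 47534369) (nat_lit 17) (nat_lit 5) (nat_lit 19) (nat_lit 4) (nat_lit 17) (nat_lit 4) (nat_lit 356) (nat_lit 233) (nat_lit 191))) (XT.nd (nat_lit 78) (nat_lit 0) (nat_lit 0) (XT.lf (nat_lit 0) (nat_lit 2893901919) (nat_lit 228) (nat_lit 15272993647) (nat_lit 76) (nat_lit 6001844346) (nat_lit 14) (nat_lit 5) (nat_lit 17) (nat_lit 5) (nat_lit 15) (nat_lit 4) (nat_lit 357) (nat_lit 233) (nat_lit 190)) (XT.lf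 (nat_lit 0) (nat_lit 8540237648) (nat_lit 228) (nat_lit 4107248480) (nat_lit 76) (nat_lit 12116513266) (nat_lit 14) (nat_lit 5) (nat_lit 17) (nat_lit 5) (nat_lit 15) (nat_lit 4) (nat_lit 358) (nat_lit 233) (nat_lit 189))))))))
noncomputable def xc13 : XT := (XT.nd (nat_lit 38610) (nat_lit 0) (nat_lit 304) (XT.nd (nat_lit 37518) (nat_lit 0) (nat_lit 3344) (XT.nd (nat_lit 36972) (nat_lit 0) (nat_lit 7220) (XT.nd (nat_lit 234) (nat_lit 152) (nat_lit 0) (XT.nd (nat_lit 78) (nat_lit 152) (nat_lit 0) (XT.lf (nat_lit 0) (nat_lit 7369637864) (nat_lit 76) (nat_lit 6967507378) (nat_lit 152) (nat_lit 11040361735) (nat_lit 13) (nat_lit 5) (nat_lit 14) (nat_lit 5) (nat_lit 15) (nat_lit 4) (nat_lit 359) (nat_lit 233) (nat_lit 188)) (XT.nd (nat_lit 78) (nat_lit 152) (nat_lit 0) (XT.lf (nat_lit 0) (nat_lit 19128520892) (nat_lit 76) (nat_lit 1141776572) (nat_lit 152) (nat_lit 5739889123) (nat_lit 13) (nat_lit 5)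 (nat_lit 14) (nat_lit 5) (nat_lit 15) (nat_lit 4) (nat_lit 360) (nat_lit 233) (nat_lit 187)) (XT.lf (nat_lit 0) (nat_lit 4489631269) (nat_lit 152) (nat_lit 21888587404) (nat_lit 152) (nat_lit 283705576) (nat_lit 11) (nat_lit 4) (nat_lit 13) (nat_lit 5) (nat_lit 13) (nat_lit 4) (nat_lit 361) (nat_lit 233) (nat_lit 186)))) (XT.nd (nat_lit 78) (nat_lit 76) (nat_lit 0) (XT.lf (nat_lit 0) (nat_lit 5257526316) (nat_lit 228) (nat_lit 11193606401) (nat_lit 76) (nat_lit 10881573973) (nat_lit 10) (nat_lit 5) (nat_lit 13) (nat_lit 5) (nat_lit 11) (nat_lit 4) (nat_lit 362) (nat_lit 233) (nat_lit 185)) (XT.nd (nat_lit 78) (nat_lit 0) (nat_lit 0) (XT.lf (nat_lit 0) (nat_lit 905704) (nat_lit 76) (nat_lit 10898875348) (nat_lit 152) (nat_lit 17125033395) (nat_lit 9) (nat_lit 5) (nat_lit 10) (nat_lit 5) (nat_lit 11) (nat_lit 4) (nat_lit 363) (nat_lit 233) (nat_lit 184)) (XT.lf (nat_lit 0) (nat_lit 11574634724) (nat_lit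 76) (nat_lit 5152207440) (nat_lit 152) (nat_lit 12010544297) (nat_lit 9) (nat_lit 5) (nat_lit 10) (nat_lit 5) (nat_lit 11) (nat_lit 4) (nat_lit 364) (nat_lit 233) (nat_lit 183))))) (XT.nd (nat_lit 234) (nat_lit 1520) (nat_lit 0) (XT.nd (nat_lit 78) (nat_lit 760) (nat_lit 0) (XT.lf (nat_lit 0) (nat_lit 975092846) (nat_lit 456) (nat_lit 2955474273) (nat_lit 0) (nat_lit 975092846) (nat_lit 134) (nat_lit 5) (nat_lit 140) (nat_lit 4) (nat_lit 134) (nat_lit 4) (nat_lit 312) (nat_lit 234) (nat_lit 234)) (XT.nd (nat_lit 78) (nat_lit 380) (nat_lit 0) (XT.lf (nat_lit 0) (nat_lit 4534316731) (nat_lit 380) (nat_lit 3329063093) (nat_lit 380) (nat_lit 2095998091) (nat_lit 129) (nat_lit 4) (nat_lit 134) (nat_lit 5) (nat_lit 134) (nat_lit 4) (nat_lit 313) (nat_lit 234) (nat_lit 233)) (XT.lf (nat_lit 0) (nat_lit 3734571877) (nat_lit 380) (nat_lit 5026013524) (nat_lit 0) (nat_lit 1352007673) (nat_lit 124) (nat_lit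 5) (nat_lit 129) (nat_lit 4) (nat_lit 124) (nat_lit 4) (nat_lit 314) (nat_lit 234) (nat_lit 232)))) (XT.nd (nat_lit 156) (nat_lit 760) (nat_lit 0) (XT.nd (nat_lit 78) (nat_lit 380) (nat_lit 0) (XT.lf (nat_lit 0) (nat_lit 5546669206) (nat_lit 380) (nat_lit 4123209253) (nat_lit 380) (nat_lit 601152866) (nat_lit 119) (nat_lit 4) (nat_lit 124) (nat_lit 5) (nat_lit 124) (nat_lit 4) (nat_lit 315) (nat_lit 234) (nat_lit 231)) (XT.lf (nat_lit 0) (nat_lit 5220567228) (nat_lit 380) (nat_lit 4531233315) (nat_lit 0) (nat_lit 682959898) (nat_lit 114) (nat_lit 5) (nat_lit 119) (nat_lit 4) (nat_lit 114) (nat_lit 4) (nat_lit 316) (nat_lit 234) (nat_lit 230))) (XT.nd (nat_lit 78) (nat_lit 304) (nat_lit 0) (XT.lf (nat_lit 0) (nat_lit 563774657) (nat_lit 456) (nat_lit 4451802786) (nat_lit 76) (nat_lit 5588403682) (nat_lit 108) (nat_lit 5) (nat_lit 114) (nat_lit 5) (nat_lit 109) (nat_lit 4) (nat_lit 317) (nat_lit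 234) (nat_lit 229)) (XT.lf (nat_lit 0) (nat_lit 6284186299) (nat_lit 304) (nat_lit 100548187) (nat_lit 380) (nat_lit 4394106018) (nat_lit 104) (nat_lit 5) (nat_lit 108) (nat_lit 5) (nat_lit 109) (nat_lit 4) (nat_lit 318) (nat_lit 234) (nat_lit 228)))))) (XT.nd (nat_lit 546) (nat_lit 1596) (nat_lit 0) (XT.nd (nat_lit 234) (nat_lit 1216) (nat_lit 0) (XT.nd (nat_lit 78) (nat_lit 684) (nat_lit 0) (XT.lf (nat_lit 0) (nat_lit 1376392560) (nat_lit 380) (nat_lit 4676108555) (nat_lit 76) (nat_lit 4906845154) (nat_lit 99) (nat_lit 5) (nat_lit 104) (nat_lit 5) (nat_lit 100) (nat_lit 4) (nat_lit 319) (nat_lit 234) (nat_lit 227)) (XT.nd (nat_lit 78) (nat_lit 380) (nat_lit 0) (XT.lf (nat_lit 0) (nat_lit 6150782232) (nat_lit 304) (nat_lit 1053163868) (nat_lit 380) (nat_lit 3941924041) (nat_lit 95) (nat_lit 5) (nat_lit 99) (nat_lit 5) (nat_lit 100) (nat_lit 4) (nat_lit 320) (nat_lit 234) (nat_lit 226)) (XT.lf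 (nat_lit 0) (nat_lit 1814257754) (nat_lit 380) (nat_lit 5470923610) (nat_lit 76) (nat_lit 4053211145) (nat_lit 90) (nat_lit 5) (nat_lit 95) (nat_lit 5) (nat_lit 91) (nat_lit 4) (nat_lit 321) (nat_lit 234) (nat_lit 225)))) (XT.nd (nat_lit 156) (nat_lit 608) (nat_lit 0) (XT.nd (nat_lit 78) (nat_lit 380) (nat_lit 0) (XT.lf (nat_lit 0) (nat_lit 5427556893) (nat_lit 228) (nat_lit 2214202301) (nat_lit 304) (nat_lit 3895418756) (nat_lit 87) (nat_lit 5) (nat_lit 90) (nat_lit 5) (nat_lit 91) (nat_lit 4) (nat_lit 322) (nat_lit 234) (nat_lit 224)) (XT.lf (nat_lit 0) (nat_lit 1842583529) (nat_lit 380) (nat_lit 6921549694) (nat_lit 76) (nat_lit 2978289086) (nat_lit 82) (nat_lit 5) (nat_lit 87) (nat_lit 5) (nat_lit 83) (nat_lit 4) (nat_lit 323) (nat_lit 234) (nat_lit 223))) (XT.nd (nat_lit 78) (nat_lit 380) (nat_lit 0) (XT.lf (nat_lit 0) (nat_lit 4026061033) (nat_lit 228) (nat_lit 3635546675) (nat_lit 304) (nat_lit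 4292513554) (nat_lit 79) (nat_lit 5) (nat_lit 82) (nat_lit 5) (nat_lit 83) (nat_lit 4) (nat_lit 324) (nat_lit 234) (nat_lit 222)) (XT.lf (nat_lit 0) (nat_lit 1421719265) (nat_lit 380) (nat_lit 9121955609) (nat_lit 76) (nat_lit 1629186988) (nat_lit 74) (nat_lit 5) (nat_lit 79) (nat_lit 5) (nat_lit 75) (nat_lit 4) (nat_lit 325) (nat_lit 234) (nat_lit 221))))) (XT.nd (nat_lit 234) (nat_lit 1064) (nat_lit 0) (XT.nd (nat_lit 78) (nat_lit 304) (nat_lit 0) (XT.lf (nat_lit 0) (nat_lit 1848787285) (nat_lit 228) (nat_lit 5373097582) (nat_lit 304) (nat_lit 5176300534) (nat_lit 71) (nat_lit 5) (nat_lit 74) (nat_lit 5) (nat_lit 75) (nat_lit 4) (nat_lit 326) (nat_lit 234) (nat_lit 220)) (XT.nd (nat_lit 78) (nat_lit 0) (nat_lit 0) (XT.lf (nat_lit 0) (nat_lit 455148066) (nat_lit 228) (nat_lit 51886807) (nat_lit 304) (nat_lit 12124229460) (nat_lit 67) (nat_lit 5) (nat_lit 70) (nat_lit 5) (nat_lit 71) (nat_lit 5)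 (nat_lit 327) (nat_lit 234) (nat_lit 219)) (XT.lf (nat_lit 0) (nat_lit 6283337252) (nat_lit 304) (nat_lit 1195979457) (nat_lit 76) (nat_lit 5391520049) (nat_lit 67) (nat_lit 5) (nat_lit 71) (nat_lit 5) (nat_lit 68) (nat_lit 4) (nat_lit 328) (nat_lit 234) (nat_lit 218)))) (XT.nd (nat_lit 156) (nat_lit 532) (nat_lit 0) (XT.nd (nat_lit 78) (nat_lit 304) (nat_lit 0) (XT.lf (nat_lit 0) (nat_lit 10060727803) (nat_lit 228) (nat_lit 2126396753) (nat_lit 304) (nat_lit 931427968) (nat_lit 64) (nat_lit 5) (nat_lit 67) (nat_lit 5) (nat_lit 68) (nat_lit 4) (nat_lit 329) (nat_lit 234) (nat_lit 217)) (XT.lf (nat_lit 0) (nat_lit 4803441885) (nat_lit 304) (nat_lit 5205599464) (nat_lit 76) (nat_lit 3364594899) (nat_lit 60) (nat_lit 5) (nat_lit 64) (nat_lit 5) (nat_lit 61) (nat_lit 4) (nat_lit 330) (nat_lit 234) (nat_lit 216))) (XT.nd (nat_lit 78) (nat_lit 304) (nat_lit 0) (XT.lf (nat_lit 0) (nat_lit 6013139325)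 (nat_lit 228) (nat_lit 4650163066) (nat_lit 304) (nat_lit 2973672018) (nat_lit 57) (nat_lit 5) (nat_lit 60) (nat_lit 5) (nat_lit 61) (nat_lit 4) (nat_lit 331) (nat_lit 234) (nat_lit 215)) (XT.lf (nat_lit 0) (nat_lit 2711250081) (nat_lit 304) (nat_lit 10333966712) (nat_lit 76) (nat_lit 863526689) (nat_lit 53) (nat_lit 5) (nat_lit 57) (nat_lit 5) (nat_lit 54) (nat_lit 4) (nat_lit 332) (nat_lit 234) (nat_lit 214))))))) (XT.nd (nat_lit 1014) (nat_lit 1216) (nat_lit 0) (XT.nd (nat_lit 468) (nat_lit 912) (nat_lit 0) (XT.nd (nat_lit 234) (nat_lit 456) (nat_lit 0) (XT.nd (nat_lit 78) (nat_lit 304) (nat_lit 0) (XT.lf (nat_lit 0) (nat_lit 806346283) (nat_lit 152) (nat_lit 7702716193) (nat_lit 228) (nat_lit 5679589396) (nat_lit 51) (nat_lit 5) (nat_lit 53) (nat_lit 5) (nat_lit 54) (nat_lit 4) (nat_lit 333) (nat_lit 234) (nat_lit 213)) (XT.nd (nat_lit 78) (nat_lit 304) (nat_lit 0) (XT.lf (nat_lit 0) (nat_lit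 12246251432) (nat_lit 152) (nat_lit 2200699321) (nat_lit 228) (nat_lit 30717167) (nat_lit 51) (nat_lit 5) (nat_lit 53) (nat_lit 5) (nat_lit 54) (nat_lit 4) (nat_lit 334) (nat_lit 234) (nat_lit 212)) (XT.lf (nat_lit 0) (nat_lit 5692346933) (nat_lit 304) (nat_lit 5633874891) (nat_lit 76) (nat_lit 3448800086) (nat_lit 47) (nat_lit 5) (nat_lit 51) (nat_lit 5) (nat_lit 48) (nat_lit 4) (nat_lit 335) (nat_lit 234) (nat_lit 211)))) (XT.nd (nat_lit 78) (nat_lit 304) (nat_lit 0) (XT.lf (nat_lit 0) (nat_lit 5692980275) (nat_lit 152) (nat_lit 5860453562) (nat_lit 228) (nat_lit 3528554371) (nat_lit 45) (nat_lit 5) (nat_lit 47) (nat_lit 5) (nat_lit 48) (nat_lit 4) (nat_lit 336) (nat_lit 234) (nat_lit 210)) (XT.nd (nat_lit 78) (nat_lit 0) (nat_lit 0) (XT.lf (nat_lit 0) (nat_lit 1879859178) (nat_lit 228) (nat_lit 235203640) (nat_lit 304) (nat_lit 13283812767) (nat_lit 41) (nat_lit 5) (nat_lit 44) (nat_lit 5) (nat_lit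 45) (nat_lit 5) (nat_lit 337) (nat_lit 234) (nat_lit 209)) (XT.lf (nat_lit 0) (nat_lit 7882794658) (nat_lit 304) (nat_lit 2337231808) (nat_lit 76) (nat_lit 5504750115) (nat_lit 41) (nat_lit 5) (nat_lit 45) (nat_lit 5) (nat_lit 42) (nat_lit 4) (nat_lit 338) (nat_lit 234) (nat_lit 208))))) (XT.nd (nat_lit 234) (nat_lit 532) (nat_lit 0) (XT.nd (nat_lit 78) (nat_lit 228) (nat_lit 0) (XT.lf (nat_lit 0) (nat_lit 9134707213) (nat_lit 152) (nat_lit 4654913718) (nat_lit 228) (nat_lit 2271539981) (nat_lit 39) (nat_lit 5) (nat_lit 41) (nat_lit 5) (nat_lit 42) (nat_lit 4) (nat_lit 339) (nat_lit 234) (nat_lit 207)) (XT.nd (nat_lit 78) (nat_lit 0) (nat_lit 0) (XT.lf (nat_lit 0) (nat_lit 3378637428) (nat_lit 228) (nat_lit 11966116541) (nat_lit 76) (nat_lit 1063297366) (nat_lit 36) (nat_lit 5) (nat_lit 39) (nat_lit 5) (nat_lit 37) (nat_lit 4) (nat_lit 340) (nat_lit 234) (nat_lit 206)) (XT.lf (nat_lit 0) (nat_lit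 9153522810) (nat_lit 228) (nat_lit 725801773) (nat_lit 76) (nat_lit 6886027774) (nat_lit 36) (nat_lit 5) (nat_lit 39) (nat_lit 5) (nat_lit 37) (nat_lit 4) (nat_lit 341) (nat_lit 234) (nat_lit 205)))) (XT.nd (nat_lit 156) (nat_lit 152) (nat_lit 0) (XT.nd (nat_lit 78) (nat_lit 228) (nat_lit 0) (XT.lf (nat_lit 0) (nat_lit 10837601023) (nat_lit 152) (nat_lit 4244624364) (nat_lit 228) (nat_lit 2051560330) (nat_lit 34) (nat_lit 5) (nat_lit 36) (nat_lit 5) (nat_lit 37) (nat_lit 4) (nat_lit 342) (nat_lit 234) (nat_lit 204)) (XT.lf (nat_lit 0) (nat_lit 3586910965) (nat_lit 228) (nat_lit 12390767186) (nat_lit 76) (nat_lit 1535948200) (nat_lit 31) (nat_lit 5) (nat_lit 34) (nat_lit 5) (nat_lit 32) (nat_lit 4) (nat_lit 343) (nat_lit 234) (nat_lit 203))) (XT.nd (nat_lit 78) (nat_lit 152) (nat_lit 0) (XT.lf (nat_lit 0) (nat_lit 9350544088) (nat_lit 228) (nat_lit 1129495765) (nat_lit 76) (nat_lit 7424896372) (nat_lit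 31) (nat_lit 5) (nat_lit 34) (nat_lit 5) (nat_lit 32) (nat_lit 4) (nat_lit 344) (nat_lit 234) (nat_lit 202)) (XT.lf (nat_lit 0) (nat_lit 10457487525) (nat_lit 152) (nat_lit 4812435721) (nat_lit 228) (nat_lit 3038427589) (nat_lit 29) (nat_lit 5) (nat_lit 31) (nat_lit 5) (nat_lit 32) (nat_lit 4) (nat_lit 345) (nat_lit 234) (nat_lit 201)))))) (XT.nd (nat_lit 546) (nat_lit 608) (nat_lit 0) (XT.nd (nat_lit 234) (nat_lit 304) (nat_lit 0) (XT.nd (nat_lit 78) (nat_lit 76) (nat_lit 0) (XT.lf (nat_lit 0) (nat_lit 2561654646) (nat_lit 228) (nat_lit 15165789582) (nat_lit 76) (nat_lit 997035516) (nat_lit 26) (nat_lit 5) (nat_lit 29) (nat_lit 5) (nat_lit 27) (nat_lit 4) (nat_lit 346) (nat_lit 234) (nat_lit 200)) (XT.nd (nat_lit 78) (nat_lit 76) (nat_lit 0) (XT.lf (nat_lit 0) (nat_lit 8291414650) (nat_lit 228) (nat_lit 3933746689) (nat_lit 76) (nat_lit 6927490885) (nat_lit 26) (nat_lit 5) (nat_lit 29) (nat_lit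 5) (nat_lit 27) (nat_lit 4) (nat_lit 347) (nat_lit 234) (nat_lit 199)) (XT.lf (nat_lit 0) (nat_lit 7592250891) (nat_lit 76) (nat_lit 6569513572) (nat_lit 152) (nat_lit 5432551375) (nat_lit 25) (nat_lit 5) (nat_lit 26) (nat_lit 5) (nat_lit 27) (nat_lit 4) (nat_lit 348) (nat_lit 234) (nat_lit 198)))) (XT.nd (nat_lit 156) (nat_lit 76) (nat_lit 0) (XT.nd (nat_lit 78) (nat_lit 152) (nat_lit 0) (XT.lf (nat_lit 0) (nat_lit 104039549) (nat_lit 152) (nat_lit 673376222) (nat_lit 76) (nat_lit 19272869298) (nat_lit 24) (nat_lit 5) (nat_lit 26) (nat_lit 5) (nat_lit 25) (nat_lit 5) (nat_lit 349) (nat_lit 234) (nat_lit 197)) (XT.lf (nat_lit 0) (nat_lit 5761165039) (nat_lit 228) (nat_lit 9587930851) (nat_lit 76) (nat_lit 5169572814) (nat_lit 22) (nat_lit 5) (nat_lit 25) (nat_lit 5) (nat_lit 23) (nat_lit 4) (nat_lit 350) (nat_lit 234) (nat_lit 196))) (XT.nd (nat_lit 78) (nat_lit 0) (nat_lit 0) (XT.lf (nat_lit 0)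 (nat_lit 1773047768) (nat_lit 76) (nat_lit 9759872762) (nat_lit 152) (nat_lit 9469302849) (nat_lit 21) (nat_lit 5) (nat_lit 22) (nat_lit 5) (nat_lit 23) (nat_lit 4) (nat_lit 351) (nat_lit 234) (nat_lit 195)) (XT.lf (nat_lit 0) (nat_lit 13472148871) (nat_lit 76) (nat_lit 3995618149) (nat_lit 152) (nat_lit 4032736240) (nat_lit 21) (nat_lit 5) (nat_lit 22) (nat_lit 5) (nat_lit 23) (nat_lit 4) (nat_lit 352) (nat_lit 234) (nat_lit 194))))) (XT.nd (nat_lit 234) (nat_lit 304) (nat_lit 0) (XT.nd (nat_lit 78) (nat_lit 76) (nat_lit 0) (XT.lf (nat_lit 0) (nat_lit 1507629284) (nat_lit 228) (nat_lit 18614984365) (nat_lit 76) (nat_lit 1891705869) (nat_lit 18) (nat_lit 5) (nat_lit 21) (nat_lit 5) (nat_lit 19) (nat_lit 4) (nat_lit 353) (nat_lit 234) (nat_lit 193)) (XT.nd (nat_lit 78) (nat_lit 76) (nat_lit 0) (XT.lf (nat_lit 0) (nat_lit 7168796398) (nat_lit 228) (nat_lit 7446762528) (nat_lit 76) (nat_lit 7927286635)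 (nat_lit 18) (nat_lit 5) (nat_lit 21) (nat_lit 5) (nat_lit 19) (nat_lit 4) (nat_lit 354) (nat_lit 234) (nat_lit 192)) (XT.lf (nat_lit 0) (nat_lit 3982524246) (nat_lit 76) (nat_lit 8972824641) (nat_lit 152) (nat_lit 10132783043) (nat_lit 17) (nat_lit 5) (nat_lit 18) (nat_lit 5) (nat_lit 19) (nat_lit 4) (nat_lit 355) (nat_lit 234) (nat_lit 191)))) (XT.nd (nat_lit 156) (nat_lit 76) (nat_lit 0) (XT.nd (nat_lit 78) (nat_lit 228) (nat_lit 0) (XT.lf (nat_lit 0) (nat_lit 15732456506) (nat_lit 76) (nat_lit 3164437840) (nat_lit 152) (nat_lit 4753269715) (nat_lit 17) (nat_lit 5) (nat_lit 18) (nat_lit 5) (nat_lit 19) (nat_lit 4) (nat_lit 356) (nat_lit 234) (nat_lit 190)) (XT.lf (nat_lit 0) (nat_lit 750809621) (nat_lit 228) (nat_lit 20722501955) (nat_lit 76) (nat_lit 2756187465) (nat_lit 14) (nat_lit 5) (nat_lit 17) (nat_lit 5) (nat_lit 15) (nat_lit 4) (nat_lit 357) (nat_lit 234) (nat_lit 189))) (XT.nd (nat_lit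 78) (nat_lit 76) (nat_lit 0) (XT.lf (nat_lit 0) (nat_lit 6364304570) (nat_lit 228) (nat_lit 9616109155) (nat_lit 76) (nat_lit 8845008488) (nat_lit 14) (nat_lit 5) (nat_lit 17) (nat_lit 5) (nat_lit 15) (nat_lit 4) (nat_lit 358) (nat_lit 234) (nat_lit 188)) (XT.lf (nat_lit 0) (nat_lit 1729177885) (nat_lit 76) (nat_lit 10363528418) (nat_lit 152) (nat_lit 13347600284) (nat_lit 13) (nat_lit 5) (nat_lit 14) (nat_lit 5) (nat_lit 15) (nat_lit 4) (nat_lit 359) (nat_lit 234) (nat_lit 187))))))))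
noncomputable def xc14 : XT := (XT.nd (nat_lit 38454) (nat_lit 0) (nat_lit 380) (XT.nd (nat_lit 37362) (nat_lit 0) (nat_lit 3648) (XT.nd (nat_lit 36816) (nat_lit 0) (nat_lit 7524) (XT.nd (nat_lit 234) (nat_lit 76) (nat_lit 0) (XT.nd (nat_lit 78) (nat_lit 228) (nat_lit 0) (XT.lf (nat_lit 0) (nat_lit 13431372132) (nat_lit 76) (nat_lit 4563162747) (nat_lit 152) (nat_lit 8079084270) (nat_lit 13) (nat_lit 5) (nat_lit 14) (nat_lit 5) (nat_lit 15) (nat_lit 4) (nat_lit 360) (nat_lit 234) (nat_lit 186)) (XT.nd (nat_lit 78) (nat_lit 228) (nat_lit 0) (XT.lf (nat_lit 0) (nat_lit 24020521319) (nat_lit 152) (nat_lit 1363110742) (nat_lit 0) (nat_lit 1343369736) (nat_lit 13) (nat_lit 5) (nat_lit 15) (nat_lit 4) (nat_lit 13) (nat_lit 4) (nat_lit 361) (nat_lit 234) (nat_lit 185)) (XT.lf (nat_lit 0) (nat_lit 2827259161) (nat_lit 228) (nat_lit 17168930535) (nat_lit 76) (nat_lit 7402700482) (nat_lit 10) (nat_lit 5)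 (nat_lit 13) (nat_lit 5) (nat_lit 11) (nat_lit 4) (nat_lit 362) (nat_lit 234) (nat_lit 184)))) (XT.nd (nat_lit 78) (nat_lit 76) (nat_lit 0) (XT.lf (nat_lit 0) (nat_lit 8440148640) (nat_lit 228) (nat_lit 6027828215) (nat_lit 76) (nat_lit 13623614198) (nat_lit 10) (nat_lit 5) (nat_lit 13) (nat_lit 5) (nat_lit 11) (nat_lit 4) (nat_lit 363) (nat_lit 234) (nat_lit 183)) (XT.nd (nat_lit 36426) (nat_lit 0) (nat_lit 10412) (XT.lf (nat_lit 0) (nat_lit 5413262551) (nat_lit 76) (nat_lit 8785445118) (nat_lit 152) (nat_lit 14606831083) (nat_lit 9) (nat_lit 5) (nat_lit 10) (nat_lit 5) (nat_lit 11) (nat_lit 4) (nat_lit 364) (nat_lit 234) (nat_lit 182)) (XT.lf (nat_lit 0) (nat_lit 626456267) (nat_lit 456) (nat_lit 3511375057) (nat_lit 0) (nat_lit 626456267) (nat_lit 146) (nat_lit 5) (nat_lit 152) (nat_lit 4) (nat_lit 146) (nat_lit 4) (nat_lit 310) (nat_lit 235) (nat_lit 235))))) (XT.nd (nat_lit 234) (nat_lit 1596)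 (nat_lit 0) (XT.nd (nat_lit 78) (nat_lit 836) (nat_lit 0) (XT.lf (nat_lit 0) (nat_lit 3182534957) (nat_lit 456) (nat_lit 3890519864) (nat_lit 456) (nat_lit 2595061774) (nat_lit 140) (nat_lit 4) (nat_lit 146) (nat_lit 5) (nat_lit 146) (nat_lit 4) (nat_lit 311) (nat_lit 235) (nat_lit 234)) (XT.nd (nat_lit 78) (nat_lit 380) (nat_lit 0) (XT.lf (nat_lit 0) (nat_lit 3150680823) (nat_lit 456) (nat_lit 6014508598) (nat_lit 0) (nat_lit 647558870) (nat_lit 134) (nat_lit 5) (nat_lit 140) (nat_lit 4) (nat_lit 134) (nat_lit 4) (nat_lit 312) (nat_lit 235) (nat_lit 233)) (XT.lf (nat_lit 0) (nat_lit 4327500506) (nat_lit 380) (nat_lit 4667495912) (nat_lit 380) (nat_lit 967223472) (nat_lit 129) (nat_lit 4) (nat_lit 134) (nat_lit 5) (nat_lit 134) (nat_lit 4) (nat_lit 313) (nat_lit 235) (nat_lit 232)))) (XT.nd (nat_lit 156) (nat_lit 760) (nat_lit 0) (XT.nd (nat_lit 78) (nat_lit 456) (nat_lit 0) (XT.lf (nat_lit 0)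 (nat_lit 4770903673) (nat_lit 380) (nat_lit 5342278471) (nat_lit 0) (nat_lit 3693413) (nat_lit 124) (nat_lit 5) (nat_lit 129) (nat_lit 4) (nat_lit 124) (nat_lit 4) (nat_lit 314) (nat_lit 235) (nat_lit 231)) (XT.lf (nat_lit 0) (nat_lit 356433038) (nat_lit 456) (nat_lit 5153518612) (nat_lit 76) (nat_lit 4766715101) (nat_lit 118) (nat_lit 5) (nat_lit 124) (nat_lit 5) (nat_lit 119) (nat_lit 4) (nat_lit 315) (nat_lit 235) (nat_lit 230))) (XT.nd (nat_lit 78) (nat_lit 456) (nat_lit 0) (XT.lf (nat_lit 0) (nat_lit 5369362893) (nat_lit 304) (nat_lit 728140528) (nat_lit 380) (nat_lit 4344301398) (nat_lit 114) (nat_lit 5) (nat_lit 118) (nat_lit 5) (nat_lit 119) (nat_lit 4) (nat_lit 316) (nat_lit 235) (nat_lit 229)) (XT.lf (nat_lit 0) (nat_lit 1349108531) (nat_lit 456) (nat_lit 5108517222) (nat_lit 76) (nat_lit 4154779951) (nat_lit 108) (nat_lit 5) (nat_lit 114) (nat_lit 5) (nat_lit 109) (nat_lit 4) (nat_lit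 317) (nat_lit 235) (nat_lit 228)))))) (XT.nd (nat_lit 546) (nat_lit 1672) (nat_lit 0) (XT.nd (nat_lit 234) (nat_lit 1216) (nat_lit 0) (XT.nd (nat_lit 78) (nat_lit 684) (nat_lit 0) (XT.lf (nat_lit 0) (nat_lit 5520070646) (nat_lit 304) (nat_lit 1582087619) (nat_lit 380) (nat_lit 3686494319) (nat_lit 104) (nat_lit 5) (nat_lit 108) (nat_lit 5) (nat_lit 109) (nat_lit 4) (nat_lit 318) (nat_lit 235) (nat_lit 227)) (XT.nd (nat_lit 78) (nat_lit 304) (nat_lit 0) (XT.lf (nat_lit 0) (nat_lit 1996940950) (nat_lit 380) (nat_lit 5564171203) (nat_lit 76) (nat_lit 3409537853) (nat_lit 99) (nat_lit 5) (nat_lit 104) (nat_lit 5) (nat_lit 100) (nat_lit 4) (nat_lit 319) (nat_lit 235) (nat_lit 226)) (XT.lf (nat_lit 0) (nat_lit 5153529284) (nat_lit 304) (nat_lit 2603288080) (nat_lit 380) (nat_lit 3401737133) (nat_lit 95) (nat_lit 5) (nat_lit 99) (nat_lit 5) (nat_lit 100) (nat_lit 4) (nat_lit 320) (nat_lit 235) (nat_lit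 225)))) (XT.nd (nat_lit 156) (nat_lit 608) (nat_lit 0) (XT.nd (nat_lit 78) (nat_lit 228) (nat_lit 0) (XT.lf (nat_lit 0) (nat_lit 2269291724) (nat_lit 380) (nat_lit 6598163701) (nat_lit 76) (nat_lit 2485138430) (nat_lit 90) (nat_lit 5) (nat_lit 95) (nat_lit 5) (nat_lit 91) (nat_lit 4) (nat_lit 321) (nat_lit 235) (nat_lit 224)) (XT.lf (nat_lit 0) (nat_lit 4189255681) (nat_lit 228) (nat_lit 3839967971) (nat_lit 304) (nat_lit 3523532055) (nat_lit 87) (nat_lit 5) (nat_lit 90) (nat_lit 5) (nat_lit 91) (nat_lit 4) (nat_lit 322) (nat_lit 235) (nat_lit 223))) (XT.nd (nat_lit 78) (nat_lit 228) (nat_lit 0) (XT.lf (nat_lit 0) (nat_lit 2131069204) (nat_lit 380) (nat_lit 8295956457) (nat_lit 76) (nat_lit 1332520402) (nat_lit 82) (nat_lit 5) (nat_lit 87) (nat_lit 5) (nat_lit 83) (nat_lit 4) (nat_lit 323) (nat_lit 235) (nat_lit 222)) (XT.lf (nat_lit 0) (nat_lit 2538634456) (nat_lit 228) (nat_lit 5343875080) (nat_lit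 304) (nat_lit 4090110279) (nat_lit 79) (nat_lit 5) (nat_lit 82) (nat_lit 5) (nat_lit 83) (nat_lit 4) (nat_lit 324) (nat_lit 235) (nat_lit 221))))) (XT.nd (nat_lit 234) (nat_lit 988) (nat_lit 0) (XT.nd (nat_lit 78) (nat_lit 304) (nat_lit 0) (XT.lf (nat_lit 0) (nat_lit 1440558848) (nat_lit 304) (nat_lit 102429220) (nat_lit 380) (nat_lit 10649937670) (nat_lit 74) (nat_lit 5) (nat_lit 78) (nat_lit 5) (nat_lit 79) (nat_lit 5) (nat_lit 325) (nat_lit 235) (nat_lit 220)) (XT.nd (nat_lit 78) (nat_lit 76) (nat_lit 0) (XT.lf (nat_lit 0) (nat_lit 103968562) (nat_lit 228) (nat_lit 7170802872) (nat_lit 304) (nat_lit 5144866855) (nat_lit 71) (nat_lit 5) (nat_lit 74) (nat_lit 5) (nat_lit 75) (nat_lit 4) (nat_lit 326) (nat_lit 235) (nat_lit 219)) (XT.lf (nat_lit 0) (nat_lit 479379110) (nat_lit 304) (nat_lit 1408751051) (nat_lit 76) (nat_lit 10765776858) (nat_lit 70) (nat_lit 5) (nat_lit 74) (nat_lit 5) (nat_lit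 71) (nat_lit 5) (nat_lit 327) (nat_lit 235) (nat_lit 218)))) (XT.nd (nat_lit 156) (nat_lit 532) (nat_lit 0) (XT.nd (nat_lit 78) (nat_lit 228) (nat_lit 0) (XT.lf (nat_lit 0) (nat_lit 6179517560) (nat_lit 304) (nat_lit 3180299335) (nat_lit 76) (nat_lit 3535205575) (nat_lit 67) (nat_lit 5) (nat_lit 71) (nat_lit 5) (nat_lit 68) (nat_lit 4) (nat_lit 328) (nat_lit 235) (nat_lit 217)) (XT.lf (nat_lit 0) (nat_lit 7960656729) (nat_lit 228) (nat_lit 4055700127) (nat_lit 304) (nat_lit 1127739510) (nat_lit 64) (nat_lit 5) (nat_lit 67) (nat_lit 5) (nat_lit 68) (nat_lit 4) (nat_lit 329) (nat_lit 235) (nat_lit 216))) (XT.nd (nat_lit 78) (nat_lit 228) (nat_lit 0) (XT.lf (nat_lit 0) (nat_lit 4529607886) (nat_lit 304) (nat_lit 7460904953) (nat_lit 76) (nat_lit 1410312930) (nat_lit 60) (nat_lit 5) (nat_lit 64) (nat_lit 5) (nat_lit 61) (nat_lit 4) (nat_lit 330) (nat_lit 235) (nat_lit 215)) (XT.lf (nat_lit 0) (nat_lit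 3639801986) (nat_lit 228) (nat_lit 6682321319) (nat_lit 304) (nat_lit 3343405243) (nat_lit 57) (nat_lit 5) (nat_lit 60) (nat_lit 5) (nat_lit 61) (nat_lit 4) (nat_lit 331) (nat_lit 235) (nat_lit 214))))))) (XT.nd (nat_lit 1014) (nat_lit 1292) (nat_lit 0) (XT.nd (nat_lit 468) (nat_lit 988) (nat_lit 0) (XT.nd (nat_lit 234) (nat_lit 532) (nat_lit 0) (XT.nd (nat_lit 78) (nat_lit 152) (nat_lit 0) (XT.lf (nat_lit 0) (nat_lit 1061852898) (nat_lit 228) (nat_lit 1211146005) (nat_lit 304) (nat_lit 11665830933) (nat_lit 53) (nat_lit 5) (nat_lit 56) (nat_lit 5) (nat_lit 57) (nat_lit 5) (nat_lit 332) (nat_lit 235) (nat_lit 213)) (XT.nd (nat_lit 78) (nat_lit 152) (nat_lit 0) (XT.lf (nat_lit 0) (nat_lit 8007100800) (nat_lit 304) (nat_lit 1824972314) (nat_lit 76) (nat_lit 4387955694) (nat_lit 53) (nat_lit 5) (nat_lit 57) (nat_lit 5) (nat_lit 54) (nat_lit 4) (nat_lit 333) (nat_lit 235) (nat_lit 212)) (XT.lf (nat_lit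 0) (nat_lit 9506472056) (nat_lit 152) (nat_lit 4376826413) (nat_lit 228) (nat_lit 626996091) (nat_lit 51) (nat_lit 5) (nat_lit 53) (nat_lit 5) (nat_lit 54) (nat_lit 4) (nat_lit 334) (nat_lit 235) (nat_lit 211)))) (XT.nd (nat_lit 78) (nat_lit 228) (nat_lit 0) (XT.lf (nat_lit 0) (nat_lit 5022061834) (nat_lit 304) (nat_lit 8542280231) (nat_lit 76) (nat_lit 1245035574) (nat_lit 47) (nat_lit 5) (nat_lit 51) (nat_lit 5) (nat_lit 48) (nat_lit 4) (nat_lit 335) (nat_lit 235) (nat_lit 210)) (XT.nd (nat_lit 78) (nat_lit 76) (nat_lit 0) (XT.lf (nat_lit 0) (nat_lit 2663006021) (nat_lit 152) (nat_lit 8152569808) (nat_lit 228) (nat_lit 4302134253) (nat_lit 45) (nat_lit 5) (nat_lit 47) (nat_lit 5) (nat_lit 48) (nat_lit 4) (nat_lit 336) (nat_lit 235) (nat_lit 209)) (XT.lf (nat_lit 0) (nat_lit 1292069939) (nat_lit 228) (nat_lit 1286614988) (nat_lit 76) (nat_lit 12857218138) (nat_lit 44) (nat_lit 5) (nat_lit 47)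 (nat_lit 5) (nat_lit 45) (nat_lit 5) (nat_lit 337) (nat_lit 235) (nat_lit 208))))) (XT.nd (nat_lit 234) (nat_lit 380) (nat_lit 0) (XT.nd (nat_lit 78) (nat_lit 380) (nat_lit 0) (XT.lf (nat_lit 0) (nat_lit 6989356842) (nat_lit 304) (nat_lit 5623286110) (nat_lit 76) (nat_lit 3150583581) (nat_lit 41) (nat_lit 5) (nat_lit 45) (nat_lit 5) (nat_lit 42) (nat_lit 4) (nat_lit 338) (nat_lit 235) (nat_lit 207)) (XT.nd (nat_lit 78) (nat_lit 228) (nat_lit 0) (XT.lf (nat_lit 0) (nat_lit 5725733493) (nat_lit 152) (nat_lit 7102967886) (nat_lit 228) (nat_lit 3272272299) (nat_lit 39) (nat_lit 5) (nat_lit 41) (nat_lit 5) (nat_lit 42) (nat_lit 4) (nat_lit 339) (nat_lit 235) (nat_lit 206)) (XT.lf (nat_lit 0) (nat_lit 882454586) (nat_lit 152) (nat_lit 1433588444) (nat_lit 228) (nat_lit 14133463300) (nat_lit 36) (nat_lit 5) (nat_lit 38) (nat_lit 5) (nat_lit 39) (nat_lit 5) (nat_lit 340) (nat_lit 235) (nat_lit 205))))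 (XT.nd (nat_lit 156) (nat_lit 228) (nat_lit 0) (XT.nd (nat_lit 78) (nat_lit 152) (nat_lit 0) (XT.lf (nat_lit 0) (nat_lit 8037386980) (nat_lit 228) (nat_lit 4394403800) (nat_lit 76) (nat_lit 4376099578) (nat_lit 36) (nat_lit 5) (nat_lit 39) (nat_lit 5) (nat_lit 37) (nat_lit 4) (nat_lit 341) (nat_lit 235) (nat_lit 204)) (XT.lf (nat_lit 0) (nat_lit 7044519397) (nat_lit 152) (nat_lit 6853997691) (nat_lit 228) (nat_lit 3279169903) (nat_lit 34) (nat_lit 5) (nat_lit 36) (nat_lit 5) (nat_lit 37) (nat_lit 4) (nat_lit 342) (nat_lit 235) (nat_lit 203))) (XT.nd (nat_lit 78) (nat_lit 0) (nat_lit 0) (XT.lf (nat_lit 0) (nat_lit 1178187728) (nat_lit 152) (nat_lit 1118968330) (nat_lit 228) (nat_lit 15262107143) (nat_lit 31) (nat_lit 5) (nat_lit 33) (nat_lit 5) (nat_lit 34) (nat_lit 5) (nat_lit 343) (nat_lit 235) (nat_lit 202)) (XT.lf (nat_lit 0) (nat_lit 8011622666) (nat_lit 228) (nat_lit 5186074978) (nat_lit 76)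 (nat_lit 4753869687) (nat_lit 31) (nat_lit 5) (nat_lit 34) (nat_lit 5) (nat_lit 32) (nat_lit 4) (nat_lit 344) (nat_lit 235) (nat_lit 201)))))) (XT.nd (nat_lit 546) (nat_lit 608) (nat_lit 0) (XT.nd (nat_lit 234) (nat_lit 304) (nat_lit 0) (XT.nd (nat_lit 78) (nat_lit 228) (nat_lit 0) (XT.lf (nat_lit 0) (nat_lit 6274655532) (nat_lit 152) (nat_lit 7588507572) (nat_lit 228) (nat_lit 4493186220) (nat_lit 29) (nat_lit 5) (nat_lit 31) (nat_lit 5) (nat_lit 32) (nat_lit 4) (nat_lit 345) (nat_lit 235) (nat_lit 200)) (XT.nd (nat_lit 78) (nat_lit 152) (nat_lit 0) (XT.lf (nat_lit 0) (nat_lit 1056040292) (nat_lit 228) (nat_lit 773545629) (nat_lit 76) (nat_lit 16944490017) (nat_lit 28) (nat_lit 5) (nat_lit 31) (nat_lit 5) (nat_lit 29) (nat_lit 5) (nat_lit 346) (nat_lit 235) (nat_lit 199)) (XT.lf (nat_lit 0) (nat_lit 6729095677) (nat_lit 228) (nat_lit 8384284501) (nat_lit 76) (nat_lit 4090012135) (nat_lit 26) (nat_lit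 5) (nat_lit 29) (nat_lit 5) (nat_lit 27) (nat_lit 4) (nat_lit 347) (nat_lit 235) (nat_lit 198)))) (XT.nd (nat_lit 156) (nat_lit 228) (nat_lit 0) (XT.nd (nat_lit 78) (nat_lit 0) (nat_lit 0) (XT.lf (nat_lit 0) (nat_lit 3013470661) (nat_lit 76) (nat_lit 9517699831) (nat_lit 152) (nat_lit 7115260453) (nat_lit 25) (nat_lit 5) (nat_lit 26) (nat_lit 5) (nat_lit 27) (nat_lit 4) (nat_lit 348) (nat_lit 235) (nat_lit 197)) (XT.lf (nat_lit 0) (nat_lit 14731742202) (nat_lit 76) (nat_lit 3755525402) (nat_lit 152) (nat_lit 1615912688) (nat_lit 25) (nat_lit 5) (nat_lit 26) (nat_lit 5) (nat_lit 27) (nat_lit 4) (nat_lit 349) (nat_lit 235) (nat_lit 196))) (XT.nd (nat_lit 78) (nat_lit 0) (nat_lit 0) (XT.lf (nat_lit 0) (nat_lit 3974327513) (nat_lit 228) (nat_lit 14438981148) (nat_lit 76) (nat_lit 2160235458) (nat_lit 22) (nat_lit 5) (nat_lit 25) (nat_lit 5) (nat_lit 23) (nat_lit 4) (nat_lit 350) (nat_lit 235) (nat_lit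 195)) (XT.lf (nat_lit 0) (nat_lit 9698037787) (nat_lit 228) (nat_lit 3166375204) (nat_lit 76) (nat_lit 8193655247) (nat_lit 22) (nat_lit 5) (nat_lit 25) (nat_lit 5) (nat_lit 23) (nat_lit 4) (nat_lit 351) (nat_lit 235) (nat_lit 194))))) (XT.nd (nat_lit 234) (nat_lit 304) (nat_lit 0) (XT.nd (nat_lit 78) (nat_lit 228) (nat_lit 0) (XT.lf (nat_lit 0) (nat_lit 8426584079) (nat_lit 76) (nat_lit 7149583511) (nat_lit 152) (nat_lit 5981323153) (nat_lit 21) (nat_lit 5) (nat_lit 22) (nat_lit 5) (nat_lit 23) (nat_lit 4) (nat_lit 352) (nat_lit 235) (nat_lit 193)) (XT.nd (nat_lit 78) (nat_lit 228) (nat_lit 0) (XT.lf (nat_lit 0) (nat_lit 20284415161) (nat_lit 76) (nat_lit 1296957146) (nat_lit 152) (nat_lit 491525336) (nat_lit 21) (nat_lit 5) (nat_lit 22) (nat_lit 5) (nat_lit 23) (nat_lit 4) (nat_lit 353) (nat_lit 235) (nat_lit 192)) (XT.lf (nat_lit 0) (nat_lit 5121189354) (nat_lit 228) (nat_lit 12767645679) (nat_lit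 76) (nat_lit 4713758117) (nat_lit 18) (nat_lit 5) (nat_lit 21) (nat_lit 5) (nat_lit 19) (nat_lit 4) (nat_lit 354) (nat_lit 235) (nat_lit 191)))) (XT.nd (nat_lit 156) (nat_lit 228) (nat_lit 0) (XT.nd (nat_lit 78) (nat_lit 76) (nat_lit 0) (XT.lf (nat_lit 0) (nat_lit 10848259505) (nat_lit 228) (nat_lit 1450953542) (nat_lit 76) (nat_lit 10849863557) (nat_lit 18) (nat_lit 5) (nat_lit 21) (nat_lit 5) (nat_lit 19) (nat_lit 4) (nat_lit 355) (nat_lit 235) (nat_lit 190)) (XT.lf (nat_lit 0) (nat_lit 10220312511) (nat_lit 76) (nat_lit 6526915369) (nat_lit 152) (nat_lit 6964739618) (nat_lit 17) (nat_lit 5) (nat_lit 18) (nat_lit 5) (nat_lit 19) (nat_lit 4) (nat_lit 356) (nat_lit 235) (nat_lit 189))) (XT.nd (nat_lit 78) (nat_lit 228) (nat_lit 0) (XT.lf (nat_lit 0) (nat_lit 22144539460) (nat_lit 76) (nat_lit 623357373) (nat_lit 152) (nat_lit 1524967888) (nat_lit 17) (nat_lit 5) (nat_lit 18) (nat_lit 5) (nat_lit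 19) (nat_lit 4) (nat_lit 357) (nat_lit 235) (nat_lit 188)) (XT.lf (nat_lit 0) (nat_lit 4058368466) (nat_lit 228) (nat_lit 15407211673) (nat_lit 76) (nat_lit 5424415625) (nat_lit 14) (nat_lit 5) (nat_lit 17) (nat_lit 5) (nat_lit 15) (nat_lit 4) (nat_lit 358) (nat_lit 235) (nat_lit 187))))))))
noncomputable def xc15 : XT := (XT.nd (nat_lit 38298) (nat_lit 0) (nat_lit 608) (XT.nd (nat_lit 37206) (nat_lit 0) (nat_lit 4332) (XT.nd (nat_lit 36660) (nat_lit 0) (nat_lit 8664) (XT.nd (nat_lit 234) (nat_lit 228) (nat_lit 0) (XT.nd (nat_lit 78) (nat_lit 76) (nat_lit 0) (XT.lf (nat_lit 0) (nat_lit 9744587645) (nat_lit 228) (nat_lit 4140548408) (nat_lit 76) (nat_lit 11620594215) (nat_lit 14) (nat_lit 5) (nat_lit 17) (nat_lit 5) (nat_lit 15) (nat_lit 4) (nat_lit 359) (nat_lit 235) (nat_lit 186)) (XT.nd (nat_lit 78) (nat_lit 0) (nat_lit 0) (XT.lf (nat_lit 0) (nat_lit 7451582477) (nat_lit 76) (nat_lit 8137181987)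 (nat_lit 152) (nat_lit 10551437692) (nat_lit 13) (nat_lit 5) (nat_lit 14) (nat_lit 5) (nat_lit 15) (nat_lit 4) (nat_lit 360) (nat_lit 235) (nat_lit 185)) (XT.lf (nat_lit 0) (nat_lit 19339681505) (nat_lit 76) (nat_lit 2236705898) (nat_lit 152) (nat_lit 5217970778) (nat_lit 13) (nat_lit 5) (nat_lit 14) (nat_lit 5) (nat_lit 15) (nat_lit 4) (nat_lit 361) (nat_lit 235) (nat_lit 184)))) (XT.nd (nat_lit 78) (nat_lit 0) (nat_lit 0) (XT.lf (nat_lit 0) (nat_lit 264484458) (nat_lit 228) (nat_lit 23431912144) (nat_lit 76) (nat_lit 3771866359) (nat_lit 10) (nat_lit 5) (nat_lit 13) (nat_lit 5) (nat_lit 11) (nat_lit 4) (nat_lit 362) (nat_lit 235) (nat_lit 183)) (XT.nd (nat_lit 78) (nat_lit 0) (nat_lit 0) (XT.lf (nat_lit 0) (nat_lit 5848869688) (nat_lit 228) (nat_lit 12342652452) (nat_lit 76) (nat_lit 9970017424) (nat_lit 10) (nat_lit 5) (nat_lit 13) (nat_lit 5) (nat_lit 11) (nat_lit 4) (nat_lit 363) (nat_lit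 235) (nat_lit 182)) (XT.lf (nat_lit 0) (nat_lit 11544608198) (nat_lit 228) (nat_lit 1022890247) (nat_lit 76) (nat_lit 16309250709) (nat_lit 10) (nat_lit 5) (nat_lit 13) (nat_lit 5) (nat_lit 11) (nat_lit 4) (nat_lit 364) (nat_lit 235) (nat_lit 181))))) (XT.nd (nat_lit 234) (nat_lit 1672) (nat_lit 0) (XT.nd (nat_lit 78) (nat_lit 912) (nat_lit 0) (XT.lf (nat_lit 0) (nat_lit 262844801) (nat_lit 532) (nat_lit 4105345588) (nat_lit 0) (nat_lit 262844801) (nat_lit 158) (nat_lit 5) (nat_lit 165) (nat_lit 4) (nat_lit 158) (nat_lit 4) (nat_lit 308) (nat_lit 236) (nat_lit 236)) (XT.nd (nat_lit 78) (nat_lit 456) (nat_lit 0) (XT.lf (nat_lit 0) (nat_lit 1748929301) (nat_lit 456) (nat_lit 4502794900) (nat_lit 456) (nat_lit 3141786631) (nat_lit 152) (nat_lit 4) (nat_lit 158) (nat_lit 5) (nat_lit 158) (nat_lit 4) (nat_lit 309) (nat_lit 236) (nat_lit 235)) (XT.lf (nat_lit 0) (nat_lit 2404795011) (nat_lit 380) (nat_lit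 113606242) (nat_lit 456) (nat_lit 7011589597) (nat_lit 146) (nat_lit 5) (nat_lit 151) (nat_lit 5) (nat_lit 152) (nat_lit 4) (nat_lit 310) (nat_lit 236) (nat_lit 234)))) (XT.nd (nat_lit 156) (nat_lit 760) (nat_lit 0) (XT.nd (nat_lit 78) (nat_lit 456) (nat_lit 0) (XT.lf (nat_lit 0) (nat_lit 2979417167) (nat_lit 456) (nat_lit 5289525600) (nat_lit 456) (nat_lit 1402019375) (nat_lit 140) (nat_lit 4) (nat_lit 146) (nat_lit 5) (nat_lit 146) (nat_lit 4) (nat_lit 311) (nat_lit 236) (nat_lit 233)) (XT.lf (nat_lit 0) (nat_lit 3486666531) (nat_lit 380) (nat_lit 768415771) (nat_lit 456) (nat_lit 5561852538) (nat_lit 134) (nat_lit 5) (nat_lit 139) (nat_lit 5) (nat_lit 140) (nat_lit 4) (nat_lit 312) (nat_lit 236) (nat_lit 232))) (XT.nd (nat_lit 78) (nat_lit 304) (nat_lit 0) (XT.lf (nat_lit 0) (nat_lit 57483151) (nat_lit 456) (nat_lit 6054597159) (nat_lit 76) (nat_lit 3855818450) (nat_lit 128) (nat_lit 5) (nat_lit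 134) (nat_lit 5) (nat_lit 129) (nat_lit 4) (nat_lit 313) (nat_lit 236) (nat_lit 231)) (XT.lf (nat_lit 0) (nat_lit 4244587463) (nat_lit 304) (nat_lit 1470130229) (nat_lit 380) (nat_lit 4409108591) (nat_lit 124) (nat_lit 5) (nat_lit 128) (nat_lit 5) (nat_lit 129) (nat_lit 4) (nat_lit 314) (nat_lit 236) (nat_lit 230)))))) (XT.nd (nat_lit 546) (nat_lit 1748) (nat_lit 0) (XT.nd (nat_lit 234) (nat_lit 1368) (nat_lit 0) (XT.nd (nat_lit 78) (nat_lit 760) (nat_lit 0) (XT.lf (nat_lit 0) (nat_lit 1203133690) (nat_lit 456) (nat_lit 5799772455) (nat_lit 76) (nat_lit 3282178892) (nat_lit 118) (nat_lit 5) (nat_lit 124) (nat_lit 5) (nat_lit 119) (nat_lit 4) (nat_lit 315) (nat_lit 236) (nat_lit 229)) (XT.nd (nat_lit 78) (nat_lit 456) (nat_lit 0) (XT.lf (nat_lit 0) (nat_lit 4617498789) (nat_lit 304) (nat_lit 2258935896) (nat_lit 380) (nat_lit 3575174588) (nat_lit 114) (nat_lit 5) (nat_lit 118) (nat_lit 5) (nat_lit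 119) (nat_lit 4) (nat_lit 316) (nat_lit 236) (nat_lit 228)) (XT.lf (nat_lit 0) (nat_lit 2030216052) (nat_lit 456) (nat_lit 5982613888) (nat_lit 76) (nat_lit 2610868283) (nat_lit 108) (nat_lit 5) (nat_lit 114) (nat_lit 5) (nat_lit 109) (nat_lit 4) (nat_lit 317) (nat_lit 236) (nat_lit 227)))) (XT.nd (nat_lit 156) (nat_lit 684) (nat_lit 0) (XT.nd (nat_lit 78) (nat_lit 380) (nat_lit 0) (XT.lf (nat_lit 0) (nat_lit 4538557862) (nat_lit 304) (nat_lit 3177219805) (nat_lit 380) (nat_lit 3085545643) (nat_lit 104) (nat_lit 5) (nat_lit 108) (nat_lit 5) (nat_lit 109) (nat_lit 4) (nat_lit 318) (nat_lit 236) (nat_lit 226)) (XT.lf (nat_lit 0) (nat_lit 2511865124) (nat_lit 380) (nat_lit 6673981363) (nat_lit 76) (nat_lit 1798986144) (nat_lit 99) (nat_lit 5) (nat_lit 104) (nat_lit 5) (nat_lit 100) (nat_lit 4) (nat_lit 319) (nat_lit 236) (nat_lit 225))) (XT.nd (nat_lit 78) (nat_lit 380) (nat_lit 0) (XT.lf (nat_lit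 0) (nat_lit 3934418472) (nat_lit 304) (nat_lit 4269988082) (nat_lit 380) (nat_lit 2969703553) (nat_lit 95) (nat_lit 5) (nat_lit 99) (nat_lit 5) (nat_lit 100) (nat_lit 4) (nat_lit 320) (nat_lit 236) (nat_lit 224)) (XT.lf (nat_lit 0) (nat_lit 2617131546) (nat_lit 380) (nat_lit 7951706768) (nat_lit 76) (nat_lit 800850622) (nat_lit 90) (nat_lit 5) (nat_lit 95) (nat_lit 5) (nat_lit 91) (nat_lit 4) (nat_lit 321) (nat_lit 236) (nat_lit 223))))) (XT.nd (nat_lit 234) (nat_lit 912) (nat_lit 0) (XT.nd (nat_lit 78) (nat_lit 608) (nat_lit 0) (XT.lf (nat_lit 0) (nat_lit 2724442512) (nat_lit 228) (nat_lit 5585314656) (nat_lit 304) (nat_lit 3261464037) (nat_lit 87) (nat_lit 5) (nat_lit 90) (nat_lit 5) (nat_lit 91) (nat_lit 4) (nat_lit 322) (nat_lit 236) (nat_lit 222)) (XT.nd (nat_lit 78) (nat_lit 228) (nat_lit 0) (XT.lf (nat_lit 0) (nat_lit 1875255564) (nat_lit 304) (nat_lit 438208254) (nat_lit 380) (nat_lit 9466061561)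 (nat_lit 82) (nat_lit 5) (nat_lit 86) (nat_lit 5) (nat_lit 87) (nat_lit 5) (nat_lit 323) (nat_lit 236) (nat_lit 221)) (XT.lf (nat_lit 0) (nat_lit 819835581) (nat_lit 228) (nat_lit 7174824540) (nat_lit 304) (nat_lit 3999366338) (nat_lit 79) (nat_lit 5) (nat_lit 82) (nat_lit 5) (nat_lit 83) (nat_lit 4) (nat_lit 324) (nat_lit 236) (nat_lit 220)))) (XT.nd (nat_lit 156) (nat_lit 532) (nat_lit 0) (XT.nd (nat_lit 78) (nat_lit 304) (nat_lit 0) (XT.lf (nat_lit 0) (nat_lit 1567620712) (nat_lit 304) (nat_lit 409204233) (nat_lit 76) (nat_lit 10238815444) (nat_lit 78) (nat_lit 5) (nat_lit 82) (nat_lit 5) (nat_lit 79) (nat_lit 5) (nat_lit 325) (nat_lit 236) (nat_lit 219)) (XT.lf (nat_lit 0) (nat_lit 7229102972) (nat_lit 380) (nat_lit 1852680797) (nat_lit 76) (nat_lit 3361995937) (nat_lit 74) (nat_lit 5) (nat_lit 79) (nat_lit 5) (nat_lit 75) (nat_lit 4) (nat_lit 326) (nat_lit 236) (nat_lit 218))) (XT.nd (nat_lit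 78) (nat_lit 228) (nat_lit 0) (XT.lf (nat_lit 0) (nat_lit 344116302) (nat_lit 304) (nat_lit 3502663142) (nat_lit 76) (nat_lit 8832625173) (nat_lit 70) (nat_lit 5) (nat_lit 74) (nat_lit 5) (nat_lit 71) (nat_lit 5) (nat_lit 327) (nat_lit 236) (nat_lit 217)) (XT.lf (nat_lit 0) (nat_lit 5964357981) (nat_lit 304) (nat_lit 5403211835) (nat_lit 76) (nat_lit 1554567358) (nat_lit 67) (nat_lit 5) (nat_lit 71) (nat_lit 5) (nat_lit 68) (nat_lit 4) (nat_lit 328) (nat_lit 236) (nat_lit 216))))))) (XT.nd (nat_lit 1014) (nat_lit 1368) (nat_lit 0) (XT.nd (nat_lit 468) (nat_lit 1140) (nat_lit 0) (XT.nd (nat_lit 234) (nat_lit 456) (nat_lit 0) (XT.nd (nat_lit 78) (nat_lit 532) (nat_lit 0) (XT.lf (nat_lit 0) (nat_lit 5621425581) (nat_lit 228) (nat_lit 6112823706) (nat_lit 304) (nat_lit 1438319354) (nat_lit 64) (nat_lit 5) (nat_lit 67) (nat_lit 5) (nat_lit 68) (nat_lit 4) (nat_lit 329) (nat_lit 236) (nat_lit 215)) (XT.nd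 (nat_lit 78) (nat_lit 228) (nat_lit 0) (XT.lf (nat_lit 0) (nat_lit 3466182847) (nat_lit 228) (nat_lit 680363705) (nat_lit 304) (nat_lit 9284340634) (nat_lit 60) (nat_lit 5) (nat_lit 63) (nat_lit 5) (nat_lit 64) (nat_lit 5) (nat_lit 330) (nat_lit 236) (nat_lit 214)) (XT.lf (nat_lit 0) (nat_lit 1021709330) (nat_lit 228) (nat_lit 8845513762) (nat_lit 304) (nat_lit 3829820850) (nat_lit 57) (nat_lit 5) (nat_lit 60) (nat_lit 5) (nat_lit 61) (nat_lit 4) (nat_lit 331) (nat_lit 236) (nat_lit 213)))) (XT.nd (nat_lit 78) (nat_lit 380) (nat_lit 0) (XT.lf (nat_lit 0) (nat_lit 1736230818) (nat_lit 304) (nat_lit 1682207118) (nat_lit 76) (nat_lit 10553121465) (nat_lit 56) (nat_lit 5) (nat_lit 60) (nat_lit 5) (nat_lit 57) (nat_lit 5) (nat_lit 332) (nat_lit 236) (nat_lit 212)) (XT.nd (nat_lit 78) (nat_lit 152) (nat_lit 0) (XT.lf (nat_lit 0) (nat_lit 7395723591) (nat_lit 304) (nat_lit 4693037845) (nat_lit 76) (nat_lit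 2165505014) (nat_lit 53) (nat_lit 5) (nat_lit 57) (nat_lit 5) (nat_lit 54) (nat_lit 4) (nat_lit 333) (nat_lit 236) (nat_lit 211)) (XT.lf (nat_lit 0) (nat_lit 6518536244) (nat_lit 152) (nat_lit 6686279068) (nat_lit 228) (nat_lit 1341074442) (nat_lit 51) (nat_lit 5) (nat_lit 53) (nat_lit 5) (nat_lit 54) (nat_lit 4) (nat_lit 334) (nat_lit 236) (nat_lit 210))))) (XT.nd (nat_lit 234) (nat_lit 608) (nat_lit 0) (XT.nd (nat_lit 78) (nat_lit 228) (nat_lit 0) (XT.lf (nat_lit 0) (nat_lit 3135359272) (nat_lit 228) (nat_lit 1106253822) (nat_lit 304) (nat_lit 10604981864) (nat_lit 47) (nat_lit 5) (nat_lit 50) (nat_lit 5) (nat_lit 51) (nat_lit 5) (nat_lit 335) (nat_lit 236) (nat_lit 209)) (XT.nd (nat_lit 78) (nat_lit 228) (nat_lit 0) (XT.lf (nat_lit 0) (nat_lit 9964149404) (nat_lit 304) (nat_lit 613139554) (nat_lit 76) (nat_lit 4579072257) (nat_lit 47) (nat_lit 5) (nat_lit 51) (nat_lit 5) (nat_lit 48) (nat_lit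 4) (nat_lit 336) (nat_lit 236) (nat_lit 208)) (XT.lf (nat_lit 0) (nat_lit 363631261) (nat_lit 228) (nat_lit 4682617453) (nat_lit 76) (nat_lit 10429435330) (nat_lit 44) (nat_lit 5) (nat_lit 47) (nat_lit 5) (nat_lit 45) (nat_lit 5) (nat_lit 337) (nat_lit 236) (nat_lit 207)))) (XT.nd (nat_lit 156) (nat_lit 228) (nat_lit 0) (XT.nd (nat_lit 78) (nat_lit 152) (nat_lit 0) (XT.lf (nat_lit 0) (nat_lit 5977058602) (nat_lit 304) (nat_lit 9166688575) (nat_lit 76) (nat_lit 660950704) (nat_lit 41) (nat_lit 5) (nat_lit 45) (nat_lit 5) (nat_lit 42) (nat_lit 4) (nat_lit 338) (nat_lit 236) (nat_lit 206)) (XT.lf (nat_lit 0) (nat_lit 2058299824) (nat_lit 152) (nat_lit 9690264311) (nat_lit 228) (nat_lit 4395250466) (nat_lit 39) (nat_lit 5) (nat_lit 41) (nat_lit 5) (nat_lit 42) (nat_lit 4) (nat_lit 339) (nat_lit 236) (nat_lit 205))) (XT.nd (nat_lit 78) (nat_lit 152) (nat_lit 0) (XT.lf (nat_lit 0) (nat_lit 1158534654)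 (nat_lit 228) (nat_lit 2907393332) (nat_lit 76) (nat_lit 12427562432) (nat_lit 38) (nat_lit 5) (nat_lit 41) (nat_lit 5) (nat_lit 39) (nat_lit 5) (nat_lit 340) (nat_lit 236) (nat_lit 204)) (XT.lf (nat_lit 0) (nat_lit 6800588182) (nat_lit 228) (nat_lit 8324771170) (nat_lit 76) (nat_lit 1728112726) (nat_lit 36) (nat_lit 5) (nat_lit 39) (nat_lit 5) (nat_lit 37) (nat_lit 4) (nat_lit 341) (nat_lit 236) (nat_lit 203)))))) (XT.nd (nat_lit 546) (nat_lit 608) (nat_lit 0) (XT.nd (nat_lit 234) (nat_lit 380) (nat_lit 0) (XT.nd (nat_lit 78) (nat_lit 228) (nat_lit 0) (XT.lf (nat_lit 0) (nat_lit 2988399310) (nat_lit 152) (nat_lit 9605289524) (nat_lit 228) (nat_lit 4630951946) (nat_lit 34) (nat_lit 5) (nat_lit 36) (nat_lit 5) (nat_lit 37) (nat_lit 4) (nat_lit 342) (nat_lit 236) (nat_lit 202)) (XT.nd (nat_lit 78) (nat_lit 152) (nat_lit 0) (XT.lf (nat_lit 0) (nat_lit 914227684) (nat_lit 228) (nat_lit 3003499256)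 (nat_lit 76) (nat_lit 13689654013) (nat_lit 33) (nat_lit 5) (nat_lit 36) (nat_lit 5) (nat_lit 34) (nat_lit 5) (nat_lit 343) (nat_lit 236) (nat_lit 201)) (XT.lf (nat_lit 0) (nat_lit 6549951171) (nat_lit 228) (nat_lit 9509281765) (nat_lit 76) (nat_lit 1942037618) (nat_lit 31) (nat_lit 5) (nat_lit 34) (nat_lit 5) (nat_lit 32) (nat_lit 4) (nat_lit 344) (nat_lit 236) (nat_lit 200)))) (XT.nd (nat_lit 156) (nat_lit 228) (nat_lit 0) (XT.nd (nat_lit 78) (nat_lit 0) (nat_lit 0) (XT.lf (nat_lit 0) (nat_lit 1823759703) (nat_lit 152) (nat_lit 10509337621) (nat_lit 228) (nat_lit 6074333407) (nat_lit 29) (nat_lit 5) (nat_lit 31) (nat_lit 5) (nat_lit 32) (nat_lit 4) (nat_lit 345) (nat_lit 236) (nat_lit 199)) (XT.lf (nat_lit 0) (nat_lit 13488530873) (nat_lit 152) (nat_lit 4786904270) (nat_lit 228) (nat_lit 550646923) (nat_lit 29) (nat_lit 5) (nat_lit 31) (nat_lit 5) (nat_lit 32) (nat_lit 4) (nat_lit 346) (nat_lit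 236) (nat_lit 198))) (XT.nd (nat_lit 78) (nat_lit 0) (nat_lit 0) (XT.lf (nat_lit 0) (nat_lit 5041657699) (nat_lit 228) (nat_lit 13106765958) (nat_lit 76) (nat_lit 1108815258) (nat_lit 26) (nat_lit 5) (nat_lit 29) (nat_lit 5) (nat_lit 27) (nat_lit 4) (nat_lit 347) (nat_lit 236) (nat_lit 197)) (XT.lf (nat_lit 0) (nat_lit 10786743258) (nat_lit 228) (nat_lit 1814737753) (nat_lit 76) (nat_lit 7099945560) (nat_lit 26) (nat_lit 5) (nat_lit 29) (nat_lit 5) (nat_lit 27) (nat_lit 4) (nat_lit 348) (nat_lit 236) (nat_lit 196))))) (XT.nd (nat_lit 234) (nat_lit 304) (nat_lit 0) (XT.nd (nat_lit 78) (nat_lit 228) (nat_lit 0) (XT.lf (nat_lit 0) (nat_lit 9814286222) (nat_lit 76) (nat_lit 6879858421) (nat_lit 152) (nat_lit 3465014161) (nat_lit 25) (nat_lit 5) (nat_lit 26) (nat_lit 5) (nat_lit 27) (nat_lit 4) (nat_lit 349) (nat_lit 236) (nat_lit 195)) (XT.nd (nat_lit 78) (nat_lit 0) (nat_lit 0) (XT.lf (nat_lit 0)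 (nat_lit 1057129121) (nat_lit 152) (nat_lit 1009144945) (nat_lit 228) (nat_lit 18565161282) (nat_lit 22) (nat_lit 5) (nat_lit 24) (nat_lit 5) (nat_lit 25) (nat_lit 5) (nat_lit 350) (nat_lit 236) (nat_lit 194)) (XT.lf (nat_lit 0) (nat_lit 7747962966) (nat_lit 228) (nat_lit 8358370415) (nat_lit 76) (nat_lit 5010474803) (nat_lit 22) (nat_lit 5) (nat_lit 25) (nat_lit 5) (nat_lit 23) (nat_lit 4) (nat_lit 351) (nat_lit 236) (nat_lit 193)))) (XT.nd (nat_lit 156) (nat_lit 228) (nat_lit 0) (XT.nd (nat_lit 78) (nat_lit 0) (nat_lit 0) (XT.lf (nat_lit 0) (nat_lit 3103393519) (nat_lit 76) (nat_lit 10453701318) (nat_lit 152) (nat_lit 8060523859) (nat_lit 21) (nat_lit 5) (nat_lit 22) (nat_lit 5) (nat_lit 23) (nat_lit 4) (nat_lit 352) (nat_lit 236) (nat_lit 192)) (XT.lf (nat_lit 0) (nat_lit 14900839683) (nat_lit 76) (nat_lit 4627634562) (nat_lit 152) (nat_lit 2605235672) (nat_lit 21) (nat_lit 5) (nat_lit 22) (nat_lit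 5) (nat_lit 23) (nat_lit 4) (nat_lit 353) (nat_lit 236) (nat_lit 191))) (XT.nd (nat_lit 78) (nat_lit 0) (nat_lit 0) (XT.lf (nat_lit 0) (nat_lit 2943895045) (nat_lit 228) (nat_lit 18370692452) (nat_lit 76) (nat_lit 1350925951) (nat_lit 18) (nat_lit 5) (nat_lit 21) (nat_lit 5) (nat_lit 19) (nat_lit 4) (nat_lit 354) (nat_lit 236) (nat_lit 190)) (XT.lf (nat_lit 0) (nat_lit 8638319418) (nat_lit 228) (nat_lit 7112605282) (nat_lit 76) (nat_lit 7461732338) (nat_lit 18) (nat_lit 5) (nat_lit 21) (nat_lit 5) (nat_lit 19) (nat_lit 4) (nat_lit 355) (nat_lit 236) (nat_lit 189))))))))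
noncomputable def xc16 : XT := (XT.nd (nat_lit 38064) (nat_lit 0) (nat_lit 1140) (XT.nd (nat_lit 37050) (nat_lit 0) (nat_lit 5852) (XT.nd (nat_lit 468) (nat_lit 228) (nat_lit 0) (XT.nd (nat_lit 234) (nat_lit 76) (nat_lit 0) (XT.nd (nat_lit 78) (nat_lit 228) (nat_lit 0) (XT.lf (nat_lit 0) (nat_lit 4425766228) (nat_lit 76) (nat_lit 10042204598) (nat_lit 152) (nat_lit 9308970456) (nat_lit 17) (nat_lit 5) (nat_lit 18) (nat_lit 5) (nat_lit 19) (nat_lit 4) (nat_lit 356) (nat_lit 236) (nat_lit 188)) (XT.nd (nat_lit 78) (nat_lit 228) (nat_lit 0) (XT.lf (nat_lit 0) (nat_lit 16294018255) (nat_lit 76) (nat_lit 4163486323) (nat_lit 152) (nat_lit 3900963439) (nat_lit 17) (nat_lit 5) (nat_lit 18) (nat_lit 5) (nat_lit 19) (nat_lit 4) (nat_lit 357) (nat_lit 236) (nat_lit 187)) (XT.lf (nat_lit 0) (nat_lit 1620414441) (nat_lit 228) (nat_lit 21485616221) (nat_lit 76) (nat_lit 1851745809) (nat_lit 14) (nat_lit 5)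 (nat_lit 17) (nat_lit 5) (nat_lit 15) (nat_lit 4) (nat_lit 358) (nat_lit 236) (nat_lit 186)))) (XT.nd (nat_lit 78) (nat_lit 76) (nat_lit 0) (XT.lf (nat_lit 0) (nat_lit 7276579654) (nat_lit 228) (nat_lit 10273268779) (nat_lit 76) (nat_lit 8024269912) (nat_lit 14) (nat_lit 5) (nat_lit 17) (nat_lit 5) (nat_lit 15) (nat_lit 4) (nat_lit 359) (nat_lit 236) (nat_lit 185)) (XT.nd (nat_lit 78) (nat_lit 0) (nat_lit 0) (XT.lf (nat_lit 0) (nat_lit 1183926866) (nat_lit 76) (nat_lit 11866957220) (nat_lit 152) (nat_lit 13159109700) (nat_lit 13) (nat_lit 5) (nat_lit 14) (nat_lit 5) (nat_lit 15) (nat_lit 4) (nat_lit 360) (nat_lit 236) (nat_lit 184)) (XT.lf (nat_lit 0) (nat_lit 13020147629) (nat_lit 76) (nat_lit 5989693823) (nat_lit 152) (nat_lit 7854887600) (nat_lit 13) (nat_lit 5) (nat_lit 14) (nat_lit 5) (nat_lit 15) (nat_lit 4) (nat_lit 361) (nat_lit 236) (nat_lit 183))))) (XT.nd (nat_lit 36270) (nat_lit 0)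 (nat_lit 10792) (XT.nd (nat_lit 78) (nat_lit 228) (nat_lit 0) (XT.lf (nat_lit 0) (nat_lit 25091189077) (nat_lit 152) (nat_lit 2431156251) (nat_lit 0) (nat_lit 17900303) (nat_lit 13) (nat_lit 5) (nat_lit 15) (nat_lit 4) (nat_lit 13) (nat_lit 4) (nat_lit 362) (nat_lit 236) (nat_lit 182)) (XT.nd (nat_lit 78) (nat_lit 0) (nat_lit 0) (XT.lf (nat_lit 0) (nat_lit 3123674091) (nat_lit 228) (nat_lit 18949096694) (nat_lit 76) (nat_lit 6161950435) (nat_lit 10) (nat_lit 5) (nat_lit 13) (nat_lit 5) (nat_lit 11) (nat_lit 4) (nat_lit 363) (nat_lit 236) (nat_lit 181)) (XT.lf (nat_lit 0) (nat_lit 8792544613) (nat_lit 228) (nat_lit 7678201138) (nat_lit 76) (nat_lit 12479727738) (nat_lit 10) (nat_lit 5) (nat_lit 13) (nat_lit 5) (nat_lit 11) (nat_lit 4) (nat_lit 364) (nat_lit 236) (nat_lit 180)))) (XT.nd (nat_lit 156) (nat_lit 988) (nat_lit 0) (XT.nd (nat_lit 78) (nat_lit 988) (nat_lit 0) (XT.lf (nat_lit 0) (nat_lit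 4295302645) (nat_lit 532) (nat_lit 105075210) (nat_lit 532) (nat_lit 105075210) (nat_lit 178) (nat_lit 4) (nat_lit 185) (nat_lit 5) (nat_lit 185) (nat_lit 4) (nat_lit 306) (nat_lit 237) (nat_lit 237)) (XT.lf (nat_lit 0) (nat_lit 275755110) (nat_lit 456) (nat_lit 5144429527) (nat_lit 456) (nat_lit 3714554239) (nat_lit 165) (nat_lit 4) (nat_lit 171) (nat_lit 5) (nat_lit 171) (nat_lit 4) (nat_lit 307) (nat_lit 237) (nat_lit 236))) (XT.nd (nat_lit 78) (nat_lit 456) (nat_lit 0) (XT.lf (nat_lit 0) (nat_lit 946906534) (nat_lit 456) (nat_lit 916959929) (nat_lit 532) (nat_lit 7399518128) (nat_lit 158) (nat_lit 5) (nat_lit 164) (nat_lit 5) (nat_lit 165) (nat_lit 4) (nat_lit 308) (nat_lit 237) (nat_lit 235)) (XT.lf (nat_lit 0) (nat_lit 1549555507) (nat_lit 456) (nat_lit 5965510034) (nat_lit 456) (nat_lit 1881295994) (nat_lit 152) (nat_lit 4) (nat_lit 158) (nat_lit 5) (nat_lit 158) (nat_lit 4) (nat_lit 309)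 (nat_lit 237) (nat_lit 234)))))) (XT.nd (nat_lit 468) (nat_lit 2356) (nat_lit 0) (XT.nd (nat_lit 234) (nat_lit 1216) (nat_lit 0) (XT.nd (nat_lit 78) (nat_lit 912) (nat_lit 0) (XT.lf (nat_lit 0) (nat_lit 2094033305) (nat_lit 380) (nat_lit 1599594502) (nat_lit 456) (nat_lit 5840462584) (nat_lit 146) (nat_lit 5) (nat_lit 151) (nat_lit 5) (nat_lit 152) (nat_lit 4) (nat_lit 310) (nat_lit 237) (nat_lit 233)) (XT.nd (nat_lit 78) (nat_lit 456) (nat_lit 0) (XT.lf (nat_lit 0) (nat_lit 2573004105) (nat_lit 456) (nat_lit 6793301415) (nat_lit 456) (nat_lit 310350205) (nat_lit 140) (nat_lit 4) (nat_lit 146) (nat_lit 5) (nat_lit 146) (nat_lit 4) (nat_lit 311) (nat_lit 237) (nat_lit 232)) (XT.lf (nat_lit 0) (nat_lit 2965426243) (nat_lit 380) (nat_lit 2298883221) (nat_lit 456) (nat_lit 4559574687) (nat_lit 134) (nat_lit 5) (nat_lit 139) (nat_lit 5) (nat_lit 140) (nat_lit 4) (nat_lit 312) (nat_lit 237) (nat_lit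 231)))) (XT.nd (nat_lit 78) (nat_lit 760) (nat_lit 0) (XT.lf (nat_lit 0) (nat_lit 968439533) (nat_lit 456) (nat_lit 6690297838) (nat_lit 76) (nat_lit 2317577386) (nat_lit 128) (nat_lit 5) (nat_lit 134) (nat_lit 5) (nat_lit 129) (nat_lit 4) (nat_lit 313) (nat_lit 237) (nat_lit 230)) (XT.nd (nat_lit 78) (nat_lit 456) (nat_lit 0) (XT.lf (nat_lit 0) (nat_lit 3505085874) (nat_lit 304) (nat_lit 3052930885) (nat_lit 380) (nat_lit 3575611007) (nat_lit 124) (nat_lit 5) (nat_lit 128) (nat_lit 5) (nat_lit 129) (nat_lit 4) (nat_lit 314) (nat_lit 237) (nat_lit 229)) (XT.lf (nat_lit 0) (nat_lit 1947573152) (nat_lit 456) (nat_lit 6659785253) (nat_lit 76) (nat_lit 1689013194) (nat_lit 118) (nat_lit 5) (nat_lit 124) (nat_lit 5) (nat_lit 119) (nat_lit 4) (nat_lit 315) (nat_lit 237) (nat_lit 228))))) (XT.nd (nat_lit 234) (nat_lit 1292) (nat_lit 0) (XT.nd (nat_lit 78) (nat_lit 760) (nat_lit 0) (XT.lf (nat_lit 0) (nat_lit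 3651860865) (nat_lit 304) (nat_lit 3901687615) (nat_lit 380) (nat_lit 2910723753) (nat_lit 114) (nat_lit 5) (nat_lit 118) (nat_lit 5) (nat_lit 119) (nat_lit 4) (nat_lit 316) (nat_lit 237) (nat_lit 227)) (XT.nd (nat_lit 78) (nat_lit 304) (nat_lit 0) (XT.lf (nat_lit 0) (nat_lit 2607692361) (nat_lit 456) (nat_lit 7074856559) (nat_lit 76) (nat_lit 955319630) (nat_lit 108) (nat_lit 5) (nat_lit 114) (nat_lit 5) (nat_lit 109) (nat_lit 4) (nat_lit 317) (nat_lit 237) (nat_lit 226)) (XT.lf (nat_lit 0) (nat_lit 3338790315) (nat_lit 304) (nat_lit 4887338551) (nat_lit 380) (nat_lit 2590734888) (nat_lit 104) (nat_lit 5) (nat_lit 108) (nat_lit 5) (nat_lit 109) (nat_lit 4) (nat_lit 318) (nat_lit 237) (nat_lit 225)))) (XT.nd (nat_lit 156) (nat_lit 608) (nat_lit 0) (XT.nd (nat_lit 78) (nat_lit 304) (nat_lit 0) (XT.lf (nat_lit 0) (nat_lit 2921615016) (nat_lit 380) (nat_lit 8006508770) (nat_lit 76) (nat_lit 73782749)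 (nat_lit 99) (nat_lit 5) (nat_lit 104) (nat_lit 5) (nat_lit 100) (nat_lit 4) (nat_lit 319) (nat_lit 237) (nat_lit 224)) (XT.lf (nat_lit 0) (nat_lit 2492384555) (nat_lit 304) (nat_lit 6054720213) (nat_lit 380) (nat_lit 2645445797) (nat_lit 95) (nat_lit 5) (nat_lit 99) (nat_lit 5) (nat_lit 100) (nat_lit 4) (nat_lit 320) (nat_lit 237) (nat_lit 223))) (XT.nd (nat_lit 78) (nat_lit 228) (nat_lit 0) (XT.lf (nat_lit 0) (nat_lit 1850239102) (nat_lit 304) (nat_lit 1014428396) (nat_lit 380) (nat_lit 8524893465) (nat_lit 90) (nat_lit 5) (nat_lit 94) (nat_lit 5) (nat_lit 95) (nat_lit 5) (nat_lit 321) (nat_lit 237) (nat_lit 222)) (XT.lf (nat_lit 0) (nat_lit 1031837453) (nat_lit 228) (nat_lit 7451767417) (nat_lit 304) (nat_lit 3108985710) (nat_lit 87) (nat_lit 5) (nat_lit 90) (nat_lit 5) (nat_lit 91) (nat_lit 4) (nat_lit 322) (nat_lit 237) (nat_lit 221))))))) (XT.nd (nat_lit 1014) (nat_lit 1900) (nat_lit 0) (XT.nd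 (nat_lit 468) (nat_lit 1292) (nat_lit 0) (XT.nd (nat_lit 234) (nat_lit 836) (nat_lit 0) (XT.nd (nat_lit 78) (nat_lit 304) (nat_lit 0) (XT.lf (nat_lit 0) (nat_lit 47634956) (nat_lit 304) (nat_lit 2349005187) (nat_lit 380) (nat_lit 9405603303) (nat_lit 82) (nat_lit 5) (nat_lit 86) (nat_lit 5) (nat_lit 87) (nat_lit 5) (nat_lit 323) (nat_lit 237) (nat_lit 220)) (XT.nd (nat_lit 78) (nat_lit 304) (nat_lit 0) (XT.lf (nat_lit 0) (nat_lit 8005506099) (nat_lit 380) (nat_lit 1116993202) (nat_lit 76) (nat_lit 2895713625) (nat_lit 82) (nat_lit 5) (nat_lit 87) (nat_lit 5) (nat_lit 83) (nat_lit 4) (nat_lit 324) (nat_lit 237) (nat_lit 219)) (XT.lf (nat_lit 0) (nat_lit 1493108256) (nat_lit 304) (nat_lit 2472527082) (nat_lit 76) (nat_lit 8275440934) (nat_lit 78) (nat_lit 5) (nat_lit 82) (nat_lit 5) (nat_lit 79) (nat_lit 5) (nat_lit 325) (nat_lit 237) (nat_lit 218)))) (XT.nd (nat_lit 78) (nat_lit 532) (nat_lit 0)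 (XT.lf (nat_lit 0) (nat_lit 7074861713) (nat_lit 380) (nat_lit 4043025773) (nat_lit 76) (nat_lit 1352942821) (nat_lit 74) (nat_lit 5) (nat_lit 79) (nat_lit 5) (nat_lit 75) (nat_lit 4) (nat_lit 326) (nat_lit 237) (nat_lit 217)) (XT.nd (nat_lit 78) (nat_lit 228) (nat_lit 0) (XT.lf (nat_lit 0) (nat_lit 98173136) (nat_lit 304) (nat_lit 5834387186) (nat_lit 76) (nat_lit 6775278186) (nat_lit 70) (nat_lit 5) (nat_lit 74) (nat_lit 5) (nat_lit 71) (nat_lit 5) (nat_lit 327) (nat_lit 237) (nat_lit 216)) (XT.lf (nat_lit 0) (nat_lit 5081840204) (nat_lit 228) (nat_lit 559462710) (nat_lit 304) (nat_lit 7310829000) (nat_lit 67) (nat_lit 5) (nat_lit 70) (nat_lit 5) (nat_lit 71) (nat_lit 5) (nat_lit 328) (nat_lit 237) (nat_lit 215))))) (XT.nd (nat_lit 234) (nat_lit 760) (nat_lit 0) (XT.nd (nat_lit 78) (nat_lit 304) (nat_lit 0) (XT.lf (nat_lit 0) (nat_lit 3040990372) (nat_lit 228) (nat_lit 8299564976) (nat_lit 304)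 (nat_lit 1863438880) (nat_lit 64) (nat_lit 5) (nat_lit 67) (nat_lit 5) (nat_lit 68) (nat_lit 4) (nat_lit 329) (nat_lit 237) (nat_lit 214)) (XT.nd (nat_lit 78) (nat_lit 0) (nat_lit 0) (XT.lf (nat_lit 0) (nat_lit 738839464) (nat_lit 228) (nat_lit 2920791444) (nat_lit 304) (nat_lit 9804101701) (nat_lit 60) (nat_lit 5) (nat_lit 63) (nat_lit 5) (nat_lit 64) (nat_lit 5) (nat_lit 330) (nat_lit 237) (nat_lit 213)) (XT.lf (nat_lit 0) (nat_lit 9310173012) (nat_lit 304) (nat_lit 1819249429) (nat_lit 76) (nat_lit 2601886311) (nat_lit 60) (nat_lit 5) (nat_lit 64) (nat_lit 5) (nat_lit 61) (nat_lit 4) (nat_lit 331) (nat_lit 237) (nat_lit 212)))) (XT.nd (nat_lit 156) (nat_lit 228) (nat_lit 0) (XT.nd (nat_lit 78) (nat_lit 228) (nat_lit 0) (XT.lf (nat_lit 0) (nat_lit 1092237048) (nat_lit 304) (nat_lit 4659174777) (nat_lit 76) (nat_lit 8255713746) (nat_lit 56) (nat_lit 5) (nat_lit 60) (nat_lit 5) (nat_lit 57) (nat_lit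 5) (nat_lit 332) (nat_lit 237) (nat_lit 211)) (XT.lf (nat_lit 0) (nat_lit 6479302098) (nat_lit 228) (nat_lit 191099951) (nat_lit 304) (nat_lit 7621072558) (nat_lit 53) (nat_lit 5) (nat_lit 56) (nat_lit 5) (nat_lit 57) (nat_lit 5) (nat_lit 333) (nat_lit 237) (nat_lit 210))) (XT.nd (nat_lit 78) (nat_lit 76) (nat_lit 0) (XT.lf (nat_lit 0) (nat_lit 3279833177) (nat_lit 152) (nat_lit 9131075253) (nat_lit 228) (nat_lit 2173576170) (nat_lit 51) (nat_lit 5) (nat_lit 53) (nat_lit 5) (nat_lit 54) (nat_lit 4) (nat_lit 334) (nat_lit 237) (nat_lit 209)) (XT.lf (nat_lit 0) (nat_lit 3353889386) (nat_lit 228) (nat_lit 255339104) (nat_lit 76) (nat_lit 11277406485) (nat_lit 50) (nat_lit 5) (nat_lit 53) (nat_lit 5) (nat_lit 51) (nat_lit 5) (nat_lit 335) (nat_lit 237) (nat_lit 208)))))) (XT.nd (nat_lit 546) (nat_lit 836) (nat_lit 0) (XT.nd (nat_lit 234) (nat_lit 380) (nat_lit 0) (XT.nd (nat_lit 78) (nat_lit 456) (nat_lit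 0) (XT.lf (nat_lit 0) (nat_lit 9013333105) (nat_lit 304) (nat_lit 4108175636) (nat_lit 76) (nat_lit 2076168189) (nat_lit 47) (nat_lit 5) (nat_lit 51) (nat_lit 5) (nat_lit 48) (nat_lit 4) (nat_lit 336) (nat_lit 237) (nat_lit 207)) (XT.nd (nat_lit 78) (nat_lit 304) (nat_lit 0) (XT.lf (nat_lit 0) (nat_lit 7178142000) (nat_lit 152) (nat_lit 7647915424) (nat_lit 228) (nat_lit 692350060) (nat_lit 45) (nat_lit 5) (nat_lit 47) (nat_lit 5) (nat_lit 48) (nat_lit 4) (nat_lit 337) (nat_lit 237) (nat_lit 206)) (XT.lf (nat_lit 0) (nat_lit 2865496413) (nat_lit 228) (nat_lit 1992455332) (nat_lit 304) (nat_lit 10991016391) (nat_lit 41) (nat_lit 5) (nat_lit 44) (nat_lit 5) (nat_lit 45) (nat_lit 5) (nat_lit 338) (nat_lit 237) (nat_lit 205)))) (XT.nd (nat_lit 156) (nat_lit 228) (nat_lit 0) (XT.nd (nat_lit 78) (nat_lit 152) (nat_lit 0) (XT.lf (nat_lit 0) (nat_lit 10560411855) (nat_lit 304) (nat_lit 1846262490) (nat_lit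 76) (nat_lit 3782803840) (nat_lit 41) (nat_lit 5) (nat_lit 45) (nat_lit 5) (nat_lit 42) (nat_lit 4) (nat_lit 339) (nat_lit 237) (nat_lit 204)) (XT.lf (nat_lit 0) (nat_lit 9592248786) (nat_lit 152) (nat_lit 6833055193) (nat_lit 228) (nat_lit 115096873) (nat_lit 39) (nat_lit 5) (nat_lit 41) (nat_lit 5) (nat_lit 42) (nat_lit 4) (nat_lit 340) (nat_lit 237) (nat_lit 203))) (XT.nd (nat_lit 78) (nat_lit 0) (nat_lit 0) (XT.lf (nat_lit 0) (nat_lit 4374684349) (nat_lit 152) (nat_lit 1074336674) (nat_lit 228) (nat_lit 11452976817) (nat_lit 36) (nat_lit 5) (nat_lit 38) (nat_lit 5) (nat_lit 39) (nat_lit 5) (nat_lit 341) (nat_lit 237) (nat_lit 202)) (XT.lf (nat_lit 0) (nat_lit 11175263666) (nat_lit 228) (nat_lit 1316803791) (nat_lit 76) (nat_lit 4782447390) (nat_lit 36) (nat_lit 5) (nat_lit 39) (nat_lit 5) (nat_lit 37) (nat_lit 4) (nat_lit 342) (nat_lit 237) (nat_lit 201))))) (XT.nd (nat_lit 234) (nat_lit 456)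 (nat_lit 0) (XT.nd (nat_lit 78) (nat_lit 228) (nat_lit 0) (XT.lf (nat_lit 0) (nat_lit 10218014073) (nat_lit 152) (nat_lit 6849025168) (nat_lit 228) (nat_lit 591315175) (nat_lit 34) (nat_lit 5) (nat_lit 36) (nat_lit 5) (nat_lit 37) (nat_lit 4) (nat_lit 343) (nat_lit 237) (nat_lit 200)) (XT.nd (nat_lit 78) (nat_lit 0) (nat_lit 0) (XT.lf (nat_lit 0) (nat_lit 3944397494) (nat_lit 152) (nat_lit 1026519766) (nat_lit 228) (nat_lit 13083038765) (nat_lit 31) (nat_lit 5) (nat_lit 33) (nat_lit 5) (nat_lit 34) (nat_lit 5) (nat_lit 344) (nat_lit 237) (nat_lit 199)) (XT.lf (nat_lit 0) (nat_lit 10697211765) (nat_lit 228) (nat_lit 2861067019) (nat_lit 76) (nat_lit 4902984451) (nat_lit 31) (nat_lit 5) (nat_lit 34) (nat_lit 5) (nat_lit 32) (nat_lit 4) (nat_lit 345) (nat_lit 237) (nat_lit 198)))) (XT.nd (nat_lit 156) (nat_lit 76) (nat_lit 0) (XT.nd (nat_lit 78) (nat_lit 228) (nat_lit 0) (XT.lf (nat_lit 0) (nat_lit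 8699478003) (nat_lit 152) (nat_lit 7883590052) (nat_lit 228) (nat_lit 2297985853) (nat_lit 29) (nat_lit 5) (nat_lit 31) (nat_lit 5) (nat_lit 32) (nat_lit 4) (nat_lit 346) (nat_lit 237) (nat_lit 197)) (XT.lf (nat_lit 0) (nat_lit 1195375008) (nat_lit 152) (nat_lit 2045532199) (nat_lit 228) (nat_lit 16073066251) (nat_lit 26) (nat_lit 5) (nat_lit 28) (nat_lit 5) (nat_lit 29) (nat_lit 5) (nat_lit 347) (nat_lit 237) (nat_lit 196))) (XT.nd (nat_lit 78) (nat_lit 76) (nat_lit 0) (XT.lf (nat_lit 0) (nat_lit 8936378023) (nat_lit 228) (nat_lit 6877565749) (nat_lit 76) (nat_lit 3945218609) (nat_lit 26) (nat_lit 5) (nat_lit 29) (nat_lit 5) (nat_lit 27) (nat_lit 4) (nat_lit 348) (nat_lit 237) (nat_lit 195)) (XT.lf (nat_lit 0) (nat_lit 4620942260) (nat_lit 76) (nat_lit 10153842987) (nat_lit 152) (nat_lit 5443497959) (nat_lit 25) (nat_lit 5) (nat_lit 26) (nat_lit 5) (nat_lit 27) (nat_lit 4) (nat_lit 349) (nat_lit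 237) (nat_lit 194))))))))
noncomputable def xc17 : XT := (XT.nd (nat_lit 37986) (nat_lit 0) (nat_lit 1976) (XT.nd (nat_lit 1014) (nat_lit 228) (nat_lit 0) (XT.nd (nat_lit 468) (nat_lit 380) (nat_lit 0) (XT.nd (nat_lit 234) (nat_lit 304) (nat_lit 0) (XT.nd (nat_lit 78) (nat_lit 152) (nat_lit 0) (XT.lf (nat_lit 0) (nat_lit 71990382) (nat_lit 152) (nat_lit 4258221828) (nat_lit 76) (nat_lit 16361447705) (nat_lit 24) (nat_lit 5) (nat_lit 26) (nat_lit 5) (nat_lit 25) (nat_lit 5) (nat_lit 350) (nat_lit 237) (nat_lit 193)) (XT.nd (nat_lit 78) (nat_lit 0) (nat_lit 0) (XT.lf (nat_lit 0) (nat_lit 5669480318) (nat_lit 228) (nat_lit 13830728399) (nat_lit 76) (nat_lit 1678516061) (nat_lit 22) (nat_lit 5) (nat_lit 25) (nat_lit 5) (nat_lit 23) (nat_lit 4) (nat_lit 351) (nat_lit 237) (nat_lit 192)) (XT.lf (nat_lit 0) (nat_lit 11425029650) (nat_lit 228) (nat_lit 2469258987) (nat_lit 76) (nat_lit 7786326119) (nat_lit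 22) (nat_lit 5) (nat_lit 25) (nat_lit 5) (nat_lit 23) (nat_lit 4) (nat_lit 352) (nat_lit 237) (nat_lit 191)))) (XT.nd (nat_lit 78) (nat_lit 228) (nat_lit 0) (XT.lf (nat_lit 0) (nat_lit 9236745889) (nat_lit 76) (nat_lit 8110577936) (nat_lit 152) (nat_lit 4850371443) (nat_lit 21) (nat_lit 5) (nat_lit 22) (nat_lit 5) (nat_lit 23) (nat_lit 4) (nat_lit 353) (nat_lit 237) (nat_lit 190)) (XT.nd (nat_lit 78) (nat_lit 152) (nat_lit 0) (XT.lf (nat_lit 0) (nat_lit 659271260) (nat_lit 152) (nat_lit 1523414474) (nat_lit 76) (nat_lit 20548490492) (nat_lit 20) (nat_lit 5) (nat_lit 22) (nat_lit 5) (nat_lit 21) (nat_lit 5) (nat_lit 354) (nat_lit 237) (nat_lit 189)) (XT.lf (nat_lit 0) (nat_lit 6297740424) (nat_lit 228) (nat_lit 13059609567) (nat_lit 76) (nat_lit 3922095942) (nat_lit 18) (nat_lit 5) (nat_lit 21) (nat_lit 5) (nat_lit 19) (nat_lit 4) (nat_lit 355) (nat_lit 237) (nat_lit 188))))) (XT.nd (nat_lit 234)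 (nat_lit 304) (nat_lit 0) (XT.nd (nat_lit 78) (nat_lit 76) (nat_lit 0) (XT.lf (nat_lit 0) (nat_lit 12067885047) (nat_lit 228) (nat_lit 1634523578) (nat_lit 76) (nat_lit 10142518494) (nat_lit 18) (nat_lit 5) (nat_lit 21) (nat_lit 5) (nat_lit 19) (nat_lit 4) (nat_lit 356) (nat_lit 237) (nat_lit 187)) (XT.nd (nat_lit 78) (nat_lit 0) (nat_lit 0) (XT.lf (nat_lit 0) (nat_lit 10157661903) (nat_lit 76) (nat_lit 7858775098) (nat_lit 152) (nat_lit 6410843096) (nat_lit 17) (nat_lit 5) (nat_lit 18) (nat_lit 5) (nat_lit 19) (nat_lit 4) (nat_lit 357) (nat_lit 237) (nat_lit 186)) (XT.lf (nat_lit 0) (nat_lit 22218880247) (nat_lit 76) (nat_lit 1876065051) (nat_lit 152) (nat_lit 933141397) (nat_lit 17) (nat_lit 5) (nat_lit 18) (nat_lit 5) (nat_lit 19) (nat_lit 4) (nat_lit 358) (nat_lit 237) (nat_lit 185)))) (XT.nd (nat_lit 156) (nat_lit 76) (nat_lit 0) (XT.nd (nat_lit 78) (nat_lit 0) (nat_lit 0) (XT.lf (nat_lit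 0) (nat_lit 4675298849) (nat_lit 228) (nat_lit 16697020393) (nat_lit 76) (nat_lit 4273435871) (nat_lit 14) (nat_lit 5) (nat_lit 17) (nat_lit 5) (nat_lit 15) (nat_lit 4) (nat_lit 359) (nat_lit 237) (nat_lit 184)) (XT.lf (nat_lit 0) (nat_lit 10413587699) (nat_lit 228) (nat_lit 5306550033) (nat_lit 76) (nat_lit 10562219064) (nat_lit 14) (nat_lit 5) (nat_lit 17) (nat_lit 5) (nat_lit 15) (nat_lit 4) (nat_lit 360) (nat_lit 237) (nat_lit 183))) (XT.nd (nat_lit 78) (nat_lit 0) (nat_lit 0) (XT.lf (nat_lit 0) (nat_lit 6408782224) (nat_lit 76) (nat_lit 9901020672) (nat_lit 152) (nat_lit 10628549765) (nat_lit 13) (nat_lit 5) (nat_lit 14) (nat_lit 5) (nat_lit 15) (nat_lit 4) (nat_lit 361) (nat_lit 237) (nat_lit 182)) (XT.lf (nat_lit 0) (nat_lit 18448943855) (nat_lit 76) (nat_lit 3915068847) (nat_lit 152) (nat_lit 5250404883) (nat_lit 13) (nat_lit 5) (nat_lit 14) (nat_lit 5) (nat_lit 15) (nat_lit 4) (nat_lit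 362) (nat_lit 237) (nat_lit 181)))))) (XT.nd (nat_lit 36426) (nat_lit 0) (nat_lit 8208) (XT.nd (nat_lit 36114) (nat_lit 0) (nat_lit 11248) (XT.nd (nat_lit 78) (nat_lit 0) (nat_lit 0) (XT.lf (nat_lit 0) (nat_lit 262180609) (nat_lit 228) (nat_lit 25852933562) (nat_lit 76) (nat_lit 2196085793) (nat_lit 10) (nat_lit 5) (nat_lit 13) (nat_lit 5) (nat_lit 11) (nat_lit 4) (nat_lit 363) (nat_lit 237) (nat_lit 180)) (XT.nd (nat_lit 35958) (nat_lit 0) (nat_lit 13832) (XT.lf (nat_lit 0) (nat_lit 5904965705) (nat_lit 228) (nat_lit 14629481355) (nat_lit 76) (nat_lit 8493032046) (nat_lit 10) (nat_lit 5) (nat_lit 13) (nat_lit 5) (nat_lit 11) (nat_lit 4) (nat_lit 364) (nat_lit 237) (nat_lit 179)) (XT.lf (nat_lit 0) (nat_lit 3452401269) (nat_lit 532) (nat_lit 467349472) (nat_lit 532) (nat_lit 467349472) (nat_lit 192) (nat_lit 4) (nat_lit 199) (nat_lit 5) (nat_lit 199) (nat_lit 4) (nat_lit 304) (nat_lit 238) (nat_lit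 238)))) (XT.nd (nat_lit 156) (nat_lit 1444) (nat_lit 0) (XT.nd (nat_lit 78) (nat_lit 608) (nat_lit 0) (XT.lf (nat_lit 0) (nat_lit 4604880628) (nat_lit 532) (nat_lit 1183358130) (nat_lit 0) (nat_lit 3102653650) (nat_lit 185) (nat_lit 5) (nat_lit 192) (nat_lit 4) (nat_lit 185) (nat_lit 4) (nat_lit 305) (nat_lit 238) (nat_lit 237)) (XT.lf (nat_lit 0) (nat_lit 1206238138) (nat_lit 608) (nat_lit 524098731) (nat_lit 76) (nat_lit 7281822382) (nat_lit 177) (nat_lit 5) (nat_lit 185) (nat_lit 5) (nat_lit 178) (nat_lit 4) (nat_lit 306) (nat_lit 238) (nat_lit 236))) (XT.nd (nat_lit 78) (nat_lit 532) (nat_lit 0) (XT.lf (nat_lit 0) (nat_lit 80174594) (nat_lit 456) (nat_lit 6674148529) (nat_lit 456) (nat_lit 2383273259) (nat_lit 165) (nat_lit 4) (nat_lit 171) (nat_lit 5) (nat_lit 171) (nat_lit 4) (nat_lit 307) (nat_lit 238) (nat_lit 235)) (XT.lf (nat_lit 0) (nat_lit 641351344) (nat_lit 456) (nat_lit 2467570047)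 (nat_lit 532) (nat_lit 6158562941) (nat_lit 158) (nat_lit 5) (nat_lit 164) (nat_lit 5) (nat_lit 165) (nat_lit 4) (nat_lit 308) (nat_lit 238) (nat_lit 234))))) (XT.nd (nat_lit 234) (nat_lit 1596) (nat_lit 0) (XT.nd (nat_lit 78) (nat_lit 988) (nat_lit 0) (XT.lf (nat_lit 0) (nat_lit 1150633709) (nat_lit 456) (nat_lit 7531210133) (nat_lit 456) (nat_lit 720221592) (nat_lit 152) (nat_lit 4) (nat_lit 158) (nat_lit 5) (nat_lit 158) (nat_lit 4) (nat_lit 309) (nat_lit 238) (nat_lit 233)) (XT.nd (nat_lit 78) (nat_lit 532) (nat_lit 0) (XT.lf (nat_lit 0) (nat_lit 1581676118) (nat_lit 380) (nat_lit 3189700131) (nat_lit 456) (nat_lit 4769666000) (nat_lit 146) (nat_lit 5) (nat_lit 151) (nat_lit 5) (nat_lit 152) (nat_lit 4) (nat_lit 310) (nat_lit 238) (nat_lit 232)) (XT.lf (nat_lit 0) (nat_lit 671969500) (nat_lit 532) (nat_lit 7726682517) (nat_lit 76) (nat_lit 1286461882) (nat_lit 139) (nat_lit 5) (nat_lit 146)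 (nat_lit 5) (nat_lit 140) (nat_lit 4) (nat_lit 311) (nat_lit 238) (nat_lit 231)))) (XT.nd (nat_lit 156) (nat_lit 760) (nat_lit 0) (XT.nd (nat_lit 78) (nat_lit 456) (nat_lit 0) (XT.lf (nat_lit 0) (nat_lit 2238408837) (nat_lit 380) (nat_lit 3936575063) (nat_lit 456) (nat_lit 3658703598) (nat_lit 134) (nat_lit 5) (nat_lit 139) (nat_lit 5) (nat_lit 140) (nat_lit 4) (nat_lit 312) (nat_lit 238) (nat_lit 230)) (XT.lf (nat_lit 0) (nat_lit 1779126964) (nat_lit 456) (nat_lit 7536097032) (nat_lit 76) (nat_lit 672376836) (nat_lit 128) (nat_lit 5) (nat_lit 134) (nat_lit 5) (nat_lit 129) (nat_lit 4) (nat_lit 313) (nat_lit 238) (nat_lit 229))) (XT.nd (nat_lit 78) (nat_lit 456) (nat_lit 0) (XT.lf (nat_lit 0) (nat_lit 2555470936) (nat_lit 304) (nat_lit 4746042499) (nat_lit 380) (nat_lit 2844775617) (nat_lit 124) (nat_lit 5) (nat_lit 128) (nat_lit 5) (nat_lit 129) (nat_lit 4) (nat_lit 314) (nat_lit 238) (nat_lit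 228)) (XT.lf (nat_lit 0) (nat_lit 2576132711) (nat_lit 380) (nat_lit 14362443) (nat_lit 456) (nat_lit 7720039281) (nat_lit 118) (nat_lit 5) (nat_lit 123) (nat_lit 5) (nat_lit 124) (nat_lit 5) (nat_lit 315) (nat_lit 238) (nat_lit 227))))))) (XT.nd (nat_lit 1014) (nat_lit 2356) (nat_lit 0) (XT.nd (nat_lit 468) (nat_lit 1748) (nat_lit 0) (XT.nd (nat_lit 234) (nat_lit 1064) (nat_lit 0) (XT.nd (nat_lit 78) (nat_lit 760) (nat_lit 0) (XT.lf (nat_lit 0) (nat_lit 2471605361) (nat_lit 304) (nat_lit 5657831099) (nat_lit 380) (nat_lit 2350368304) (nat_lit 114) (nat_lit 5) (nat_lit 118) (nat_lit 5) (nat_lit 119) (nat_lit 4) (nat_lit 316) (nat_lit 238) (nat_lit 226)) (XT.nd (nat_lit 78) (nat_lit 304) (nat_lit 0) (XT.lf (nat_lit 0) (nat_lit 2263271690) (nat_lit 380) (nat_lit 824121100) (nat_lit 456) (nat_lit 7567429259) (nat_lit 108) (nat_lit 5) (nat_lit 113) (nat_lit 5) (nat_lit 114) (nat_lit 5) (nat_lit 317)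 (nat_lit 238) (nat_lit 225)) (XT.lf (nat_lit 0) (nat_lit 1919719665) (nat_lit 304) (nat_lit 6713938135) (nat_lit 380) (nat_lit 2201629696) (nat_lit 104) (nat_lit 5) (nat_lit 108) (nat_lit 5) (nat_lit 109) (nat_lit 4) (nat_lit 318) (nat_lit 238) (nat_lit 224)))) (XT.nd (nat_lit 78) (nat_lit 684) (nat_lit 0) (XT.lf (nat_lit 0) (nat_lit 1447107478) (nat_lit 304) (nat_lit 1791069996) (nat_lit 380) (nat_lit 7783476588) (nat_lit 99) (nat_lit 5) (nat_lit 103) (nat_lit 5) (nat_lit 104) (nat_lit 5) (nat_lit 319) (nat_lit 238) (nat_lit 223)) (XT.nd (nat_lit 78) (nat_lit 380) (nat_lit 0) (XT.lf (nat_lit 0) (nat_lit 826167503) (nat_lit 304) (nat_lit 7959043949) (nat_lit 380) (nat_lit 2428680533) (nat_lit 95) (nat_lit 5) (nat_lit 99) (nat_lit 5) (nat_lit 100) (nat_lit 4) (nat_lit 320) (nat_lit 238) (nat_lit 222)) (XT.lf (nat_lit 0) (nat_lit 50380585) (nat_lit 304) (nat_lit 2961196561) (nat_lit 380) (nat_lit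 8400660926) (nat_lit 90) (nat_lit 5) (nat_lit 94) (nat_lit 5) (nat_lit 95) (nat_lit 5) (nat_lit 321) (nat_lit 238) (nat_lit 221))))) (XT.nd (nat_lit 234) (nat_lit 1140) (nat_lit 0) (XT.nd (nat_lit 78) (nat_lit 608) (nat_lit 0) (XT.lf (nat_lit 0) (nat_lit 8556697382) (nat_lit 380) (nat_lit 878365457) (nat_lit 76) (nat_lit 2181704090) (nat_lit 90) (nat_lit 5) (nat_lit 95) (nat_lit 5) (nat_lit 91) (nat_lit 4) (nat_lit 322) (nat_lit 238) (nat_lit 220)) (XT.nd (nat_lit 78) (nat_lit 304) (nat_lit 0) (XT.lf (nat_lit 0) (nat_lit 2384967043) (nat_lit 304) (nat_lit 1985540464) (nat_lit 76) (nat_lit 7457126685) (nat_lit 86) (nat_lit 5) (nat_lit 90) (nat_lit 5) (nat_lit 87) (nat_lit 5) (nat_lit 323) (nat_lit 238) (nat_lit 219)) (XT.lf (nat_lit 0) (nat_lit 7914547848) (nat_lit 380) (nat_lit 3274572649) (nat_lit 76) (nat_lit 856090038) (nat_lit 82) (nat_lit 5) (nat_lit 87) (nat_lit 5) (nat_lit 83) (nat_lit 4)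 (nat_lit 324) (nat_lit 238) (nat_lit 218)))) (XT.nd (nat_lit 156) (nat_lit 532) (nat_lit 0) (XT.nd (nat_lit 78) (nat_lit 304) (nat_lit 0) (XT.lf (nat_lit 0) (nat_lit 1310032530) (nat_lit 304) (nat_lit 4770105791) (nat_lit 76) (nat_lit 6189304354) (nat_lit 78) (nat_lit 5) (nat_lit 82) (nat_lit 5) (nat_lit 79) (nat_lit 5) (nat_lit 325) (nat_lit 238) (nat_lit 217)) (XT.lf (nat_lit 0) (nat_lit 6025244128) (nat_lit 304) (nat_lit 791130263) (nat_lit 380) (nat_lit 5684350104) (nat_lit 74) (nat_lit 5) (nat_lit 78) (nat_lit 5) (nat_lit 79) (nat_lit 5) (nat_lit 326) (nat_lit 238) (nat_lit 216))) (XT.nd (nat_lit 78) (nat_lit 304) (nat_lit 0) (XT.lf (nat_lit 0) (nat_lit 4331537145) (nat_lit 228) (nat_lit 8145559542) (nat_lit 304) (nat_lit 262102815) (nat_lit 71) (nat_lit 5) (nat_lit 74) (nat_lit 5) (nat_lit 75) (nat_lit 4) (nat_lit 327) (nat_lit 238) (nat_lit 215)) (XT.lf (nat_lit 0) (nat_lit 2393756318) (nat_lit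 228) (nat_lit 2823747016) (nat_lit 304) (nat_lit 7767380901) (nat_lit 67) (nat_lit 5) (nat_lit 70) (nat_lit 5) (nat_lit 71) (nat_lit 5) (nat_lit 328) (nat_lit 238) (nat_lit 214)))))) (XT.nd (nat_lit 546) (nat_lit 1064) (nat_lit 0) (XT.nd (nat_lit 234) (nat_lit 760) (nat_lit 0) (XT.nd (nat_lit 78) (nat_lit 304) (nat_lit 0) (XT.lf (nat_lit 0) (nat_lit 217096351) (nat_lit 228) (nat_lit 10617834684) (nat_lit 304) (nat_lit 2403469553) (nat_lit 64) (nat_lit 5) (nat_lit 67) (nat_lit 5) (nat_lit 68) (nat_lit 4) (nat_lit 329) (nat_lit 238) (nat_lit 213)) (XT.nd (nat_lit 78) (nat_lit 228) (nat_lit 0) (XT.lf (nat_lit 0) (nat_lit 3073668407) (nat_lit 304) (nat_lit 2205715705) (nat_lit 76) (nat_lit 8219901969) (nat_lit 63) (nat_lit 5) (nat_lit 67) (nat_lit 5) (nat_lit 64) (nat_lit 5) (nat_lit 330) (nat_lit 238) (nat_lit 212)) (XT.lf (nat_lit 0) (nat_lit 8646760954) (nat_lit 304) (nat_lit 4893081928) (nat_lit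 76) (nat_lit 228584546) (nat_lit 60) (nat_lit 5) (nat_lit 64) (nat_lit 5) (nat_lit 61) (nat_lit 4) (nat_lit 331) (nat_lit 238) (nat_lit 211)))) (XT.nd (nat_lit 156) (nat_lit 228) (nat_lit 0) (XT.nd (nat_lit 78) (nat_lit 228) (nat_lit 0) (XT.lf (nat_lit 0) (nat_lit 333560626) (nat_lit 304) (nat_lit 7885577705) (nat_lit 76) (nat_lit 5826558978) (nat_lit 56) (nat_lit 5) (nat_lit 60) (nat_lit 5) (nat_lit 57) (nat_lit 5) (nat_lit 332) (nat_lit 238) (nat_lit 210)) (XT.lf (nat_lit 0) (nat_lit 3132421785) (nat_lit 228) (nat_lit 2711965163) (nat_lit 304) (nat_lit 8487021153) (nat_lit 53) (nat_lit 5) (nat_lit 56) (nat_lit 5) (nat_lit 57) (nat_lit 5) (nat_lit 333) (nat_lit 238) (nat_lit 209))) (XT.nd (nat_lit 78) (nat_lit 228) (nat_lit 0) (XT.lf (nat_lit 0) (nat_lit 11502263596) (nat_lit 304) (nat_lit 209680535) (nat_lit 76) (nat_lit 2914141103) (nat_lit 53) (nat_lit 5) (nat_lit 57) (nat_lit 5) (nat_lit 54)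 (nat_lit 4) (nat_lit 334) (nat_lit 238) (nat_lit 208)) (XT.lf (nat_lit 0) (nat_lit 2370267890) (nat_lit 228) (nat_lit 3858510976) (nat_lit 76) (nat_lit 8700510754) (nat_lit 50) (nat_lit 5) (nat_lit 53) (nat_lit 5) (nat_lit 51) (nat_lit 5) (nat_lit 335) (nat_lit 238) (nat_lit 207))))) (XT.nd (nat_lit 234) (nat_lit 608) (nat_lit 0) (XT.nd (nat_lit 78) (nat_lit 228) (nat_lit 0) (XT.lf (nat_lit 0) (nat_lit 7378178828) (nat_lit 228) (nat_lit 570531560) (nat_lit 304) (nat_lit 7293254652) (nat_lit 47) (nat_lit 5) (nat_lit 50) (nat_lit 5) (nat_lit 51) (nat_lit 5) (nat_lit 336) (nat_lit 238) (nat_lit 206)) (XT.nd (nat_lit 78) (nat_lit 76) (nat_lit 0) (XT.lf (nat_lit 0) (nat_lit 3302703496) (nat_lit 152) (nat_lit 10387306223) (nat_lit 228) (nat_lit 1874127425) (nat_lit 45) (nat_lit 5) (nat_lit 47) (nat_lit 5) (nat_lit 48) (nat_lit 4) (nat_lit 337) (nat_lit 238) (nat_lit 205)) (XT.lf (nat_lit 0) (nat_lit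 3630996068) (nat_lit 228) (nat_lit 1157677484) (nat_lit 76) (nat_lit 11107403675) (nat_lit 44) (nat_lit 5) (nat_lit 47) (nat_lit 5) (nat_lit 45) (nat_lit 5) (nat_lit 338) (nat_lit 238) (nat_lit 204)))) (XT.nd (nat_lit 156) (nat_lit 228) (nat_lit 0) (XT.nd (nat_lit 78) (nat_lit 152) (nat_lit 0) (XT.lf (nat_lit 0) (nat_lit 9266134308) (nat_lit 304) (nat_lit 5985450722) (nat_lit 76) (nat_lit 986360743) (nat_lit 41) (nat_lit 5) (nat_lit 45) (nat_lit 5) (nat_lit 42) (nat_lit 4) (nat_lit 339) (nat_lit 238) (nat_lit 203)) (XT.lf (nat_lit 0) (nat_lit 5327640778) (nat_lit 152) (nat_lit 9735405508) (nat_lit 228) (nat_lit 1527193467) (nat_lit 39) (nat_lit 5) (nat_lit 41) (nat_lit 5) (nat_lit 42) (nat_lit 4) (nat_lit 340) (nat_lit 238) (nat_lit 202))) (XT.nd (nat_lit 78) (nat_lit 152) (nat_lit 0) (XT.lf (nat_lit 0) (nat_lit 3987205970) (nat_lit 228) (nat_lit 56870897) (nat_lit 76) (nat_lit 12909319150) (nat_lit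 38) (nat_lit 5) (nat_lit 41) (nat_lit 5) (nat_lit 39) (nat_lit 5) (nat_lit 341) (nat_lit 238) (nat_lit 201)) (XT.lf (nat_lit 0) (nat_lit 9654489458) (nat_lit 228) (nat_lit 5849627443) (nat_lit 76) (nat_lit 1822986126) (nat_lit 36) (nat_lit 5) (nat_lit 39) (nat_lit 5) (nat_lit 37) (nat_lit 4) (nat_lit 342) (nat_lit 238) (nat_lit 200))))))))
noncomputable def xc18 : XT := (XT.nd (nat_lit 37830) (nat_lit 0) (nat_lit 3496) (XT.nd (nat_lit 1014) (nat_lit 608) (nat_lit 0) (XT.nd (nat_lit 468) (nat_lit 608) (nat_lit 0) (XT.nd (nat_lit 234) (nat_lit 380) (nat_lit 0) (XT.nd (nat_lit 78) (nat_lit 228) (nat_lit 0) (XT.lf (nat_lit 0) (nat_lit 5557670179) (nat_lit 152) (nat_lit 9920180495) (nat_lit 228) (nat_lit 2234470713) (nat_lit 34) (nat_lit 5) (nat_lit 36) (nat_lit 5) (nat_lit 37) (nat_lit 4) (nat_lit 343) (nat_lit 238) (nat_lit 199)) (XT.nd (nat_lit 78) (nat_lit 152) (nat_lit 0) (XT.lf (nat_lit 0) (nat_lit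 3285975076) (nat_lit 228) (nat_lit 876809520) (nat_lit 76) (nat_lit 13946628508) (nat_lit 33) (nat_lit 5) (nat_lit 36) (nat_lit 5) (nat_lit 34) (nat_lit 5) (nat_lit 344) (nat_lit 238) (nat_lit 198)) (XT.lf (nat_lit 0) (nat_lit 8948871305) (nat_lit 228) (nat_lit 7794433700) (nat_lit 76) (nat_lit 1774692982) (nat_lit 31) (nat_lit 5) (nat_lit 34) (nat_lit 5) (nat_lit 32) (nat_lit 4) (nat_lit 345) (nat_lit 238) (nat_lit 197)))) (XT.nd (nat_lit 78) (nat_lit 228) (nat_lit 0) (XT.lf (nat_lit 0) (nat_lit 3636273678) (nat_lit 152) (nat_lit 11129435694) (nat_lit 228) (nat_lit 4173469077) (nat_lit 29) (nat_lit 5) (nat_lit 31) (nat_lit 5) (nat_lit 32) (nat_lit 4) (nat_lit 346) (nat_lit 238) (nat_lit 196)) (XT.nd (nat_lit 78) (nat_lit 152) (nat_lit 0) (XT.lf (nat_lit 0) (nat_lit 1346519052) (nat_lit 228) (nat_lit 3992342172) (nat_lit 76) (nat_lit 14034359328) (nat_lit 28) (nat_lit 5) (nat_lit 31) (nat_lit 5)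 (nat_lit 29) (nat_lit 5) (nat_lit 347) (nat_lit 238) (nat_lit 195)) (XT.lf (nat_lit 0) (nat_lit 6958892513) (nat_lit 228) (nat_lit 12218959365) (nat_lit 76) (nat_lit 642228254) (nat_lit 26) (nat_lit 5) (nat_lit 29) (nat_lit 5) (nat_lit 27) (nat_lit 4) (nat_lit 348) (nat_lit 238) (nat_lit 194))))) (XT.nd (nat_lit 234) (nat_lit 304) (nat_lit 0) (XT.nd (nat_lit 78) (nat_lit 304) (nat_lit 0) (XT.lf (nat_lit 0) (nat_lit 12733049432) (nat_lit 228) (nat_lit 841642568) (nat_lit 76) (nat_lit 6705802421) (nat_lit 26) (nat_lit 5) (nat_lit 29) (nat_lit 5) (nat_lit 27) (nat_lit 4) (nat_lit 349) (nat_lit 238) (nat_lit 193)) (XT.nd (nat_lit 78) (nat_lit 228) (nat_lit 0) (XT.lf (nat_lit 0) (nat_lit 10900547589) (nat_lit 76) (nat_lit 7783158403) (nat_lit 152) (nat_lit 2070966312) (nat_lit 25) (nat_lit 5) (nat_lit 26) (nat_lit 5) (nat_lit 27) (nat_lit 4) (nat_lit 350) (nat_lit 238) (nat_lit 192)) (XT.lf (nat_lit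 0) (nat_lit 1643527907) (nat_lit 152) (nat_lit 1829121655) (nat_lit 228) (nat_lit 17770985045) (nat_lit 22) (nat_lit 5) (nat_lit 24) (nat_lit 5) (nat_lit 25) (nat_lit 5) (nat_lit 351) (nat_lit 238) (nat_lit 191)))) (XT.nd (nat_lit 156) (nat_lit 228) (nat_lit 0) (XT.nd (nat_lit 78) (nat_lit 76) (nat_lit 0) (XT.lf (nat_lit 0) (nat_lit 9183863557) (nat_lit 228) (nat_lit 8284618659) (nat_lit 76) (nat_lit 4277936662) (nat_lit 22) (nat_lit 5) (nat_lit 25) (nat_lit 5) (nat_lit 23) (nat_lit 4) (nat_lit 352) (nat_lit 238) (nat_lit 190)) (XT.lf (nat_lit 0) (nat_lit 3287184571) (nat_lit 76) (nat_lit 11748830618) (nat_lit 152) (nat_lit 7228894418) (nat_lit 21) (nat_lit 5) (nat_lit 22) (nat_lit 5) (nat_lit 23) (nat_lit 4) (nat_lit 353) (nat_lit 238) (nat_lit 189))) (XT.nd (nat_lit 78) (nat_lit 228) (nat_lit 0) (XT.lf (nat_lit 0) (nat_lit 15207363738) (nat_lit 76) (nat_lit 5849668277) (nat_lit 152) (nat_lit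 1742071546) (nat_lit 21) (nat_lit 5) (nat_lit 22) (nat_lit 5) (nat_lit 23) (nat_lit 4) (nat_lit 354) (nat_lit 238) (nat_lit 188)) (XT.lf (nat_lit 0) (nat_lit 3824477354) (nat_lit 228) (nat_lit 19297162809) (nat_lit 76) (nat_lit 227861481) (nat_lit 18) (nat_lit 5) (nat_lit 21) (nat_lit 5) (nat_lit 19) (nat_lit 4) (nat_lit 355) (nat_lit 238) (nat_lit 187)))))) (XT.nd (nat_lit 546) (nat_lit 228) (nat_lit 0) (XT.nd (nat_lit 234) (nat_lit 304) (nat_lit 0) (XT.nd (nat_lit 78) (nat_lit 76) (nat_lit 0) (XT.lf (nat_lit 0) (nat_lit 9564746468) (nat_lit 228) (nat_lit 7925708667) (nat_lit 76) (nat_lit 6425131816) (nat_lit 18) (nat_lit 5) (nat_lit 21) (nat_lit 5) (nat_lit 19) (nat_lit 4) (nat_lit 356) (nat_lit 238) (nat_lit 186)) (XT.nd (nat_lit 78) (nat_lit 0) (nat_lit 0) (XT.lf (nat_lit 0) (nat_lit 3730108541) (nat_lit 76) (nat_lit 11712452591) (nat_lit 152) (nat_lit 9056799959) (nat_lit 17) (nat_lit 5) (nat_lit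 18) (nat_lit 5) (nat_lit 19) (nat_lit 4) (nat_lit 357) (nat_lit 238) (nat_lit 185)) (XT.lf (nat_lit 0) (nat_lit 15740101900) (nat_lit 76) (nat_lit 5752474407) (nat_lit 152) (nat_lit 3608167472) (nat_lit 17) (nat_lit 5) (nat_lit 18) (nat_lit 5) (nat_lit 19) (nat_lit 4) (nat_lit 358) (nat_lit 238) (nat_lit 184)))) (XT.nd (nat_lit 156) (nat_lit 76) (nat_lit 0) (XT.nd (nat_lit 78) (nat_lit 0) (nat_lit 0) (XT.lf (nat_lit 0) (nat_lit 1938472267) (nat_lit 228) (nat_lit 23417416237) (nat_lit 76) (nat_lit 364814664) (nat_lit 14) (nat_lit 5) (nat_lit 17) (nat_lit 5) (nat_lit 15) (nat_lit 4) (nat_lit 359) (nat_lit 238) (nat_lit 183)) (XT.lf (nat_lit 0) (nat_lit 7649257480) (nat_lit 228) (nat_lit 12076652549) (nat_lit 76) (nat_lit 6631950651) (nat_lit 14) (nat_lit 5) (nat_lit 17) (nat_lit 5) (nat_lit 15) (nat_lit 4) (nat_lit 360) (nat_lit 238) (nat_lit 182))) (XT.nd (nat_lit 78) (nat_lit 76) (nat_lit 0) (XT.lf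 (nat_lit 0) (nat_lit 13477160053) (nat_lit 228) (nat_lit 493631528) (nat_lit 76) (nat_lit 13044436806) (nat_lit 14) (nat_lit 5) (nat_lit 17) (nat_lit 5) (nat_lit 15) (nat_lit 4) (nat_lit 361) (nat_lit 238) (nat_lit 181)) (XT.lf (nat_lit 0) (nat_lit 11492494038) (nat_lit 76) (nat_lit 8009395184) (nat_lit 152) (nat_lit 8189999127) (nat_lit 13) (nat_lit 5) (nat_lit 14) (nat_lit 5) (nat_lit 15) (nat_lit 4) (nat_lit 362) (nat_lit 238) (nat_lit 180))))) (XT.nd (nat_lit 35958) (nat_lit 0) (nat_lit 12692) (XT.nd (nat_lit 78) (nat_lit 228) (nat_lit 0) (XT.lf (nat_lit 0) (nat_lit 23751391149) (nat_lit 76) (nat_lit 1907612070) (nat_lit 152) (nat_lit 2730822727) (nat_lit 13) (nat_lit 5) (nat_lit 14) (nat_lit 5) (nat_lit 15) (nat_lit 4) (nat_lit 363) (nat_lit 238) (nat_lit 179)) (XT.nd (nat_lit 35802) (nat_lit 0) (nat_lit 14972) (XT.lf (nat_lit 0) (nat_lit 2879348350) (nat_lit 228) (nat_lit 21882804831) (nat_lit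 76) (nat_lit 4345680113) (nat_lit 10) (nat_lit 5) (nat_lit 13) (nat_lit 5) (nat_lit 11) (nat_lit 4) (nat_lit 364) (nat_lit 238) (nat_lit 178)) (XT.lf (nat_lit 0) (nat_lit 2640339476) (nat_lit 532) (nat_lit 817724015) (nat_lit 532) (nat_lit 817724015) (nat_lit 207) (nat_lit 4) (nat_lit 214) (nat_lit 5) (nat_lit 214) (nat_lit 4) (nat_lit 302) (nat_lit 239) (nat_lit 239)))) (XT.nd (nat_lit 156) (nat_lit 1064) (nat_lit 0) (XT.nd (nat_lit 78) (nat_lit 608) (nat_lit 0) (XT.lf (nat_lit 0) (nat_lit 3816364563) (nat_lit 608) (nat_lit 2606917414) (nat_lit 0) (nat_lit 2238124900) (nat_lit 199) (nat_lit 5) (nat_lit 207) (nat_lit 4) (nat_lit 199) (nat_lit 4) (nat_lit 303) (nat_lit 239) (nat_lit 238)) (XT.lf (nat_lit 0) (nat_lit 566061888) (nat_lit 608) (nat_lit 1967066164) (nat_lit 76) (nat_lit 6242414811) (nat_lit 191) (nat_lit 5) (nat_lit 199) (nat_lit 5) (nat_lit 192) (nat_lit 4) (nat_lit 304) (nat_lit 239)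 (nat_lit 237))) (XT.nd (nat_lit 78) (nat_lit 608) (nat_lit 0) (XT.lf (nat_lit 0) (nat_lit 6014574768) (nat_lit 532) (nat_lit 1372577563) (nat_lit 0) (nat_lit 1506581209) (nat_lit 185) (nat_lit 5) (nat_lit 192) (nat_lit 4) (nat_lit 185) (nat_lit 4) (nat_lit 305) (nat_lit 239) (nat_lit 236)) (XT.lf (nat_lit 0) (nat_lit 2526500886) (nat_lit 608) (nat_lit 820454771) (nat_lit 76) (nat_lit 5669266621) (nat_lit 177) (nat_lit 5) (nat_lit 185) (nat_lit 5) (nat_lit 178) (nat_lit 4) (nat_lit 306) (nat_lit 239) (nat_lit 235))))))) (XT.nd (nat_lit 1014) (nat_lit 3572) (nat_lit 0) (XT.nd (nat_lit 468) (nat_lit 2356) (nat_lit 0) (XT.nd (nat_lit 234) (nat_lit 1292) (nat_lit 0) (XT.nd (nat_lit 78) (nat_lit 1520) (nat_lit 0) (XT.lf (nat_lit 0) (nat_lit 7995910802) (nat_lit 532) (nat_lit 307076447) (nat_lit 0) (nat_lit 840286241) (nat_lit 171) (nat_lit 5) (nat_lit 178) (nat_lit 4) (nat_lit 171) (nat_lit 4) (nat_lit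 307) (nat_lit 239) (nat_lit 234)) (XT.nd (nat_lit 78) (nat_lit 532) (nat_lit 0) (XT.lf (nat_lit 0) (nat_lit 137974299) (nat_lit 456) (nat_lit 4120509514) (nat_lit 532) (nat_lit 5015958542) (nat_lit 158) (nat_lit 5) (nat_lit 164) (nat_lit 5) (nat_lit 165) (nat_lit 4) (nat_lit 308) (nat_lit 239) (nat_lit 233)) (XT.lf (nat_lit 0) (nat_lit 337959799) (nat_lit 532) (nat_lit 8861035595) (nat_lit 76) (nat_lit 211587646) (nat_lit 151) (nat_lit 5) (nat_lit 158) (nat_lit 5) (nat_lit 152) (nat_lit 4) (nat_lit 309) (nat_lit 239) (nat_lit 232)))) (XT.nd (nat_lit 78) (nat_lit 912) (nat_lit 0) (XT.lf (nat_lit 0) (nat_lit 867275757) (nat_lit 380) (nat_lit 4885312543) (nat_lit 456) (nat_lit 3798264196) (nat_lit 146) (nat_lit 5) (nat_lit 151) (nat_lit 5) (nat_lit 152) (nat_lit 4) (nat_lit 310) (nat_lit 239) (nat_lit 231)) (XT.nd (nat_lit 78) (nat_lit 380) (nat_lit 0) (XT.lf (nat_lit 0) (nat_lit 1135503107) (nat_lit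 456) (nat_lit 419189916) (nat_lit 532) (nat_lit 8141657721) (nat_lit 139) (nat_lit 5) (nat_lit 145) (nat_lit 5) (nat_lit 146) (nat_lit 5) (nat_lit 311) (nat_lit 239) (nat_lit 230)) (XT.lf (nat_lit 0) (nat_lit 1304979055) (nat_lit 380) (nat_lit 5682922291) (nat_lit 456) (nat_lit 2858452104) (nat_lit 134) (nat_lit 5) (nat_lit 139) (nat_lit 5) (nat_lit 140) (nat_lit 4) (nat_lit 312) (nat_lit 239) (nat_lit 229))))) (XT.nd (nat_lit 234) (nat_lit 1140) (nat_lit 0) (XT.nd (nat_lit 78) (nat_lit 760) (nat_lit 0) (XT.lf (nat_lit 0) (nat_lit 1401777500) (nat_lit 380) (nat_lit 1095589606) (nat_lit 456) (nat_lit 7504257477) (nat_lit 128) (nat_lit 5) (nat_lit 133) (nat_lit 5) (nat_lit 134) (nat_lit 5) (nat_lit 313) (nat_lit 239) (nat_lit 228)) (XT.nd (nat_lit 78) (nat_lit 456) (nat_lit 0) (XT.lf (nat_lit 0) (nat_lit 1394912890) (nat_lit 304) (nat_lit 6550944490) (nat_lit 380) (nat_lit 2215963829) (nat_lit 124)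 (nat_lit 5) (nat_lit 128) (nat_lit 5) (nat_lit 129) (nat_lit 4) (nat_lit 314) (nat_lit 239) (nat_lit 227)) (XT.lf (nat_lit 0) (nat_lit 1291037809) (nat_lit 380) (nat_lit 1853175882) (nat_lit 456) (nat_lit 7183137187) (nat_lit 118) (nat_lit 5) (nat_lit 123) (nat_lit 5) (nat_lit 124) (nat_lit 5) (nat_lit 315) (nat_lit 239) (nat_lit 226)))) (XT.nd (nat_lit 156) (nat_lit 380) (nat_lit 0) (XT.nd (nat_lit 78) (nat_lit 456) (nat_lit 0) (XT.lf (nat_lit 0) (nat_lit 1075700985) (nat_lit 304) (nat_lit 7528900843) (nat_lit 380) (nat_lit 1893618610) (nat_lit 114) (nat_lit 5) (nat_lit 118) (nat_lit 5) (nat_lit 119) (nat_lit 4) (nat_lit 316) (nat_lit 239) (nat_lit 225)) (XT.lf (nat_lit 0) (nat_lit 739010341) (nat_lit 380) (nat_lit 2732409874) (nat_lit 456) (nat_lit 7203119648) (nat_lit 108) (nat_lit 5) (nat_lit 113) (nat_lit 5) (nat_lit 114) (nat_lit 5) (nat_lit 317) (nat_lit 239) (nat_lit 224))) (XT.nd (nat_lit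 78) (nat_lit 76) (nat_lit 0) (XT.lf (nat_lit 0) (nat_lit 280105946) (nat_lit 304) (nat_lit 8658614615) (nat_lit 380) (nat_lit 1917890073) (nat_lit 104) (nat_lit 5) (nat_lit 108) (nat_lit 5) (nat_lit 109) (nat_lit 4) (nat_lit 318) (nat_lit 239) (nat_lit 223)) (XT.lf (nat_lit 0) (nat_lit 3453559061) (nat_lit 380) (nat_lit 320526492) (nat_lit 76) (nat_lit 7270172314) (nat_lit 103) (nat_lit 5) (nat_lit 108) (nat_lit 5) (nat_lit 104) (nat_lit 5) (nat_lit 319) (nat_lit 239) (nat_lit 222)))))) (XT.nd (nat_lit 546) (nat_lit 1368) (nat_lit 0) (XT.nd (nat_lit 234) (nat_lit 1216) (nat_lit 0) (XT.nd (nat_lit 78) (nat_lit 684) (nat_lit 0) (XT.lf (nat_lit 0) (nat_lit 8925853817) (nat_lit 380) (nat_lit 1051711903) (nat_lit 76) (nat_lit 1260448909) (nat_lit 99) (nat_lit 5) (nat_lit 104) (nat_lit 5) (nat_lit 100) (nat_lit 4) (nat_lit 320) (nat_lit 239) (nat_lit 221)) (XT.nd (nat_lit 78) (nat_lit 304) (nat_lit 0)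 (XT.lf (nat_lit 0) (nat_lit 3065561241) (nat_lit 380) (nat_lit 1951852847) (nat_lit 76) (nat_lit 6420174544) (nat_lit 94) (nat_lit 5) (nat_lit 99) (nat_lit 5) (nat_lit 95) (nat_lit 5) (nat_lit 321) (nat_lit 239) (nat_lit 220)) (XT.lf (nat_lit 0) (nat_lit 8531513657) (nat_lit 380) (nat_lit 3002956856) (nat_lit 76) (nat_lit 109252562) (nat_lit 90) (nat_lit 5) (nat_lit 95) (nat_lit 5) (nat_lit 91) (nat_lit 4) (nat_lit 322) (nat_lit 239) (nat_lit 219)))) (XT.nd (nat_lit 156) (nat_lit 608) (nat_lit 0) (XT.nd (nat_lit 78) (nat_lit 304) (nat_lit 0) (XT.lf (nat_lit 0) (nat_lit 2267187017) (nat_lit 304) (nat_lit 4248766805) (nat_lit 76) (nat_lit 5339990926) (nat_lit 86) (nat_lit 5) (nat_lit 90) (nat_lit 5) (nat_lit 87) (nat_lit 5) (nat_lit 323) (nat_lit 239) (nat_lit 218)) (XT.lf (nat_lit 0) (nat_lit 6400839878) (nat_lit 304) (nat_lit 1324140293) (nat_lit 380) (nat_lit 4349997216) (nat_lit 82) (nat_lit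 5) (nat_lit 86) (nat_lit 5) (nat_lit 87) (nat_lit 5) (nat_lit 324) (nat_lit 239) (nat_lit 217))) (XT.nd (nat_lit 78) (nat_lit 304) (nat_lit 0) (XT.lf (nat_lit 0) (nat_lit 1018233564) (nat_lit 304) (nat_lit 7303947953) (nat_lit 76) (nat_lit 3978582866) (nat_lit 78) (nat_lit 5) (nat_lit 82) (nat_lit 5) (nat_lit 79) (nat_lit 5) (nat_lit 325) (nat_lit 239) (nat_lit 216)) (XT.lf (nat_lit 0) (nat_lit 3376634320) (nat_lit 304) (nat_lit 3081373026) (nat_lit 380) (nat_lit 6075389202) (nat_lit 74) (nat_lit 5) (nat_lit 78) (nat_lit 5) (nat_lit 79) (nat_lit 5) (nat_lit 326) (nat_lit 239) (nat_lit 215))))) (XT.nd (nat_lit 234) (nat_lit 836) (nat_lit 0) (XT.nd (nat_lit 78) (nat_lit 304) (nat_lit 0) (XT.lf (nat_lit 0) (nat_lit 1549110099) (nat_lit 228) (nat_lit 10488043037) (nat_lit 304) (nat_lit 736368381) (nat_lit 71) (nat_lit 5) (nat_lit 74) (nat_lit 5) (nat_lit 75) (nat_lit 4) (nat_lit 327) (nat_lit 239)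 (nat_lit 214)) (XT.nd (nat_lit 78) (nat_lit 228) (nat_lit 0) (XT.lf (nat_lit 0) (nat_lit 4685849654) (nat_lit 304) (nat_lit 530197124) (nat_lit 76) (nat_lit 7804510764) (nat_lit 70) (nat_lit 5) (nat_lit 74) (nat_lit 5) (nat_lit 71) (nat_lit 5) (nat_lit 328) (nat_lit 239) (nat_lit 213)) (XT.lf (nat_lit 0) (nat_lit 10235456317) (nat_lit 304) (nat_lit 2815309971) (nat_lit 76) (nat_lit 224681061) (nat_lit 67) (nat_lit 5) (nat_lit 71) (nat_lit 5) (nat_lit 68) (nat_lit 4) (nat_lit 329) (nat_lit 239) (nat_lit 212)))) (XT.nd (nat_lit 156) (nat_lit 304) (nat_lit 0) (XT.nd (nat_lit 78) (nat_lit 228) (nat_lit 0) (XT.lf (nat_lit 0) (nat_lit 2380037582) (nat_lit 304) (nat_lit 5386436681) (nat_lit 76) (nat_lit 5771266594) (nat_lit 63) (nat_lit 5) (nat_lit 67) (nat_lit 5) (nat_lit 64) (nat_lit 5) (nat_lit 330) (nat_lit 239) (nat_lit 211)) (XT.lf (nat_lit 0) (nat_lit 5577410711) (nat_lit 228) (nat_lit 2307343716)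 (nat_lit 304) (nat_lit 5923511031) (nat_lit 60) (nat_lit 5) (nat_lit 63) (nat_lit 5) (nat_lit 64) (nat_lit 5) (nat_lit 331) (nat_lit 239) (nat_lit 210))) (XT.nd (nat_lit 78) (nat_lit 76) (nat_lit 0) (XT.lf (nat_lit 0) (nat_lit 2719446450) (nat_lit 228) (nat_lit 10820146941) (nat_lit 304) (nat_lit 547643814) (nat_lit 57) (nat_lit 5) (nat_lit 60) (nat_lit 5) (nat_lit 61) (nat_lit 4) (nat_lit 332) (nat_lit 239) (nat_lit 209)) (XT.lf (nat_lit 0) (nat_lit 4905747085) (nat_lit 304) (nat_lit 461669763) (nat_lit 76) (nat_lit 9006909165) (nat_lit 56) (nat_lit 5) (nat_lit 60) (nat_lit 5) (nat_lit 57) (nat_lit 5) (nat_lit 333) (nat_lit 239) (nat_lit 208))))))))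
noncomputable def xc19 : XT := (XT.nd (nat_lit 2106) (nat_lit 76) (nat_lit 0) (XT.nd (nat_lit 1014) (nat_lit 1292) (nat_lit 0) (XT.nd (nat_lit 468) (nat_lit 760) (nat_lit 0) (XT.nd (nat_lit 234) (nat_lit 456) (nat_lit 0) (XT.nd (nat_lit 78) (nat_lit 456) (nat_lit 0) (XT.lf (nat_lit 0) (nat_lit 10499667352) (nat_lit 304) (nat_lit 3909461365) (nat_lit 76) (nat_lit 261167678) (nat_lit 53) (nat_lit 5) (nat_lit 57) (nat_lit 5) (nat_lit 54) (nat_lit 4) (nat_lit 334) (nat_lit 239) (nat_lit 207)) (XT.nd (nat_lit 78) (nat_lit 228) (nat_lit 0) (XT.lf (nat_lit 0) (nat_lit 1269532297) (nat_lit 228) (nat_lit 7718425547) (nat_lit 76) (nat_lit 5987045455) (nat_lit 50) (nat_lit 5) (nat_lit 53) (nat_lit 5) (nat_lit 51) (nat_lit 5) (nat_lit 335) (nat_lit 239) (nat_lit 206)) (XT.lf (nat_lit 0) (nat_lit 3394930629) (nat_lit 228) (nat_lit 3385283836) (nat_lit 304) (nat_lit 8508832512) (nat_lit 47) (nat_lit 5) (nat_lit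 50) (nat_lit 5) (nat_lit 51) (nat_lit 5) (nat_lit 336) (nat_lit 239) (nat_lit 205)))) (XT.nd (nat_lit 78) (nat_lit 456) (nat_lit 0) (XT.lf (nat_lit 0) (nat_lit 12440475992) (nat_lit 304) (nat_lit 823254448) (nat_lit 76) (nat_lit 2349122067) (nat_lit 47) (nat_lit 5) (nat_lit 51) (nat_lit 5) (nat_lit 48) (nat_lit 4) (nat_lit 337) (nat_lit 239) (nat_lit 204)) (XT.nd (nat_lit 78) (nat_lit 228) (nat_lit 0) (XT.lf (nat_lit 0) (nat_lit 2303474321) (nat_lit 228) (nat_lit 5404931971) (nat_lit 76) (nat_lit 8237492927) (nat_lit 44) (nat_lit 5) (nat_lit 47) (nat_lit 5) (nat_lit 45) (nat_lit 5) (nat_lit 338) (nat_lit 239) (nat_lit 203)) (XT.lf (nat_lit 0) (nat_lit 5886554208) (nat_lit 228) (nat_lit 1977521899) (nat_lit 304) (nat_lit 8425194096) (nat_lit 41) (nat_lit 5) (nat_lit 44) (nat_lit 5) (nat_lit 45) (nat_lit 5) (nat_lit 339) (nat_lit 239) (nat_lit 202))))) (XT.nd (nat_lit 234) (nat_lit 380) (nat_lit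 0) (XT.nd (nat_lit 78) (nat_lit 228) (nat_lit 0) (XT.lf (nat_lit 0) (nat_lit 796321082) (nat_lit 152) (nat_lit 12783289341) (nat_lit 228) (nat_lit 3063592680) (nat_lit 39) (nat_lit 5) (nat_lit 41) (nat_lit 5) (nat_lit 42) (nat_lit 4) (nat_lit 340) (nat_lit 239) (nat_lit 201)) (XT.nd (nat_lit 78) (nat_lit 152) (nat_lit 0) (XT.lf (nat_lit 0) (nat_lit 2432282143) (nat_lit 228) (nat_lit 4698073606) (nat_lit 76) (nat_lit 9876987442) (nat_lit 38) (nat_lit 5) (nat_lit 41) (nat_lit 5) (nat_lit 39) (nat_lit 5) (nat_lit 341) (nat_lit 239) (nat_lit 200)) (XT.lf (nat_lit 0) (nat_lit 6721017237) (nat_lit 152) (nat_lit 1298045238) (nat_lit 228) (nat_lit 9363608293) (nat_lit 36) (nat_lit 5) (nat_lit 38) (nat_lit 5) (nat_lit 39) (nat_lit 5) (nat_lit 342) (nat_lit 239) (nat_lit 199)))) (XT.nd (nat_lit 156) (nat_lit 152) (nat_lit 0) (XT.nd (nat_lit 78) (nat_lit 76) (nat_lit 0) (XT.lf (nat_lit 0) (nat_lit 624912820)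 (nat_lit 152) (nat_lit 13140011405) (nat_lit 228) (nat_lit 4004525092) (nat_lit 34) (nat_lit 5) (nat_lit 36) (nat_lit 5) (nat_lit 37) (nat_lit 4) (nat_lit 343) (nat_lit 239) (nat_lit 198)) (XT.lf (nat_lit 0) (nat_lit 1502506849) (nat_lit 228) (nat_lit 5919118095) (nat_lit 76) (nat_lit 10745888213) (nat_lit 33) (nat_lit 5) (nat_lit 36) (nat_lit 5) (nat_lit 34) (nat_lit 5) (nat_lit 344) (nat_lit 239) (nat_lit 197))) (XT.nd (nat_lit 78) (nat_lit 0) (nat_lit 0) (XT.lf (nat_lit 0) (nat_lit 5563276511) (nat_lit 152) (nat_lit 1521308040) (nat_lit 228) (nat_lit 11493139284) (nat_lit 31) (nat_lit 5) (nat_lit 33) (nat_lit 5) (nat_lit 34) (nat_lit 5) (nat_lit 345) (nat_lit 239) (nat_lit 196)) (XT.lf (nat_lit 0) (nat_lit 12832844390) (nat_lit 228) (nat_lit 1683138239) (nat_lit 76) (nat_lit 4484302383) (nat_lit 31) (nat_lit 5) (nat_lit 34) (nat_lit 5) (nat_lit 32) (nat_lit 4) (nat_lit 346) (nat_lit 239) (nat_lit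 195)))))) (XT.nd (nat_lit 546) (nat_lit 608) (nat_lit 0) (XT.nd (nat_lit 234) (nat_lit 304) (nat_lit 0) (XT.nd (nat_lit 78) (nat_lit 228) (nat_lit 0) (XT.lf (nat_lit 0) (nat_lit 9987548189) (nat_lit 152) (nat_lit 8771861797) (nat_lit 228) (nat_lit 676013915) (nat_lit 29) (nat_lit 5) (nat_lit 31) (nat_lit 5) (nat_lit 32) (nat_lit 4) (nat_lit 347) (nat_lit 239) (nat_lit 194)) (XT.nd (nat_lit 78) (nat_lit 0) (nat_lit 0) (XT.lf (nat_lit 0) (nat_lit 2021777808) (nat_lit 152) (nat_lit 2849280437) (nat_lit 228) (nat_lit 15012804821) (nat_lit 26) (nat_lit 5) (nat_lit 28) (nat_lit 5) (nat_lit 29) (nat_lit 5) (nat_lit 348) (nat_lit 239) (nat_lit 193)) (XT.lf (nat_lit 0) (nat_lit 10593465179) (nat_lit 228) (nat_lit 6525091104) (nat_lit 76) (nat_lit 3226764280) (nat_lit 26) (nat_lit 5) (nat_lit 29) (nat_lit 5) (nat_lit 27) (nat_lit 4) (nat_lit 349) (nat_lit 239) (nat_lit 192)))) (XT.nd (nat_lit 156) (nat_lit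 152) (nat_lit 0) (XT.nd (nat_lit 78) (nat_lit 76) (nat_lit 0) (XT.lf (nat_lit 0) (nat_lit 5083701269) (nat_lit 76) (nat_lit 11390371543) (nat_lit 152) (nat_lit 4346834585) (nat_lit 25) (nat_lit 5) (nat_lit 26) (nat_lit 5) (nat_lit 27) (nat_lit 4) (nat_lit 350) (nat_lit 239) (nat_lit 191)) (XT.lf (nat_lit 0) (nat_lit 1184034602) (nat_lit 152) (nat_lit 4302946341) (nat_lit 76) (nat_lit 15824043774) (nat_lit 24) (nat_lit 5) (nat_lit 26) (nat_lit 5) (nat_lit 25) (nat_lit 5) (nat_lit 351) (nat_lit 239) (nat_lit 190))) (XT.nd (nat_lit 78) (nat_lit 0) (nat_lit 0) (XT.lf (nat_lit 0) (nat_lit 6811488970) (nat_lit 228) (nat_lit 14388468442) (nat_lit 76) (nat_lit 615534136) (nat_lit 22) (nat_lit 5) (nat_lit 25) (nat_lit 5) (nat_lit 23) (nat_lit 4) (nat_lit 352) (nat_lit 239) (nat_lit 189)) (XT.lf (nat_lit 0) (nat_lit 12611701860) (nat_lit 228) (nat_lit 2914313226) (nat_lit 76) (nat_lit 6809013116) (nat_lit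 22) (nat_lit 5) (nat_lit 25) (nat_lit 5) (nat_lit 23) (nat_lit 4) (nat_lit 353) (nat_lit 239) (nat_lit 188))))) (XT.nd (nat_lit 234) (nat_lit 304) (nat_lit 0) (XT.nd (nat_lit 78) (nat_lit 228) (nat_lit 0) (XT.lf (nat_lit 0) (nat_lit 8913485033) (nat_lit 76) (nat_lit 9670007190) (nat_lit 152) (nat_lit 4286721406) (nat_lit 21) (nat_lit 5) (nat_lit 22) (nat_lit 5) (nat_lit 23) (nat_lit 4) (nat_lit 354) (nat_lit 239) (nat_lit 187)) (XT.nd (nat_lit 78) (nat_lit 152) (nat_lit 0) (XT.lf (nat_lit 0) (nat_lit 1256003654) (nat_lit 152) (nat_lit 2400252102) (nat_lit 76) (nat_lit 19765836943) (nat_lit 20) (nat_lit 5) (nat_lit 22) (nat_lit 5) (nat_lit 21) (nat_lit 5) (nat_lit 355) (nat_lit 239) (nat_lit 186)) (XT.lf (nat_lit 0) (nat_lit 6927632870) (nat_lit 228) (nat_lit 14511330910) (nat_lit 76) (nat_lit 2550593438) (nat_lit 18) (nat_lit 5) (nat_lit 21) (nat_lit 5) (nat_lit 19) (nat_lit 4) (nat_lit 356) (nat_lit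 239) (nat_lit 185)))) (XT.nd (nat_lit 156) (nat_lit 228) (nat_lit 0) (XT.nd (nat_lit 78) (nat_lit 76) (nat_lit 0) (XT.lf (nat_lit 0) (nat_lit 12753068663) (nat_lit 228) (nat_lit 2954987905) (nat_lit 76) (nat_lit 8866328598) (nat_lit 18) (nat_lit 5) (nat_lit 21) (nat_lit 5) (nat_lit 19) (nat_lit 4) (nat_lit 357) (nat_lit 239) (nat_lit 184)) (XT.lf (nat_lit 0) (nat_lit 8966002225) (nat_lit 76) (nat_lit 9789977680) (nat_lit 152) (nat_lit 6420736077) (nat_lit 17) (nat_lit 5) (nat_lit 18) (nat_lit 5) (nat_lit 19) (nat_lit 4) (nat_lit 358) (nat_lit 239) (nat_lit 183))) (XT.nd (nat_lit 78) (nat_lit 228) (nat_lit 0) (XT.lf (nat_lit 0) (nat_lit 21187052945) (nat_lit 76) (nat_lit 3717428747) (nat_lit 152) (nat_lit 893336883) (nat_lit 17) (nat_lit 5) (nat_lit 18) (nat_lit 5) (nat_lit 19) (nat_lit 4) (nat_lit 359) (nat_lit 239) (nat_lit 182)) (XT.lf (nat_lit 0) (nat_lit 4747791158) (nat_lit 228) (nat_lit 19147823718)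 (nat_lit 76) (nat_lit 2541110273) (nat_lit 14) (nat_lit 5) (nat_lit 17) (nat_lit 5) (nat_lit 15) (nat_lit 4) (nat_lit 360) (nat_lit 239) (nat_lit 181))))))) (XT.nd (nat_lit 36582) (nat_lit 0) (nat_lit 5852) (XT.nd (nat_lit 36036) (nat_lit 0) (nat_lit 11476) (XT.nd (nat_lit 234) (nat_lit 0) (nat_lit 0) (XT.nd (nat_lit 78) (nat_lit 76) (nat_lit 0) (XT.lf (nat_lit 0) (nat_lit 10549768916) (nat_lit 228) (nat_lit 7611656003) (nat_lit 76) (nat_lit 8933191859) (nat_lit 14) (nat_lit 5) (nat_lit 17) (nat_lit 5) (nat_lit 15) (nat_lit 4) (nat_lit 361) (nat_lit 239) (nat_lit 180)) (XT.nd (nat_lit 78) (nat_lit 0) (nat_lit 0) (XT.lf (nat_lit 0) (nat_lit 4233781597) (nat_lit 76) (nat_lit 12268418389) (nat_lit 152) (nat_lit 11270527985) (nat_lit 13) (nat_lit 5) (nat_lit 14) (nat_lit 5) (nat_lit 15) (nat_lit 4) (nat_lit 362) (nat_lit 239) (nat_lit 179)) (XT.lf (nat_lit 0) (nat_lit 16447928061) (nat_lit 76) (nat_lit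 6186658746) (nat_lit 152) (nat_lit 5836578419) (nat_lit 13) (nat_lit 5) (nat_lit 14) (nat_lit 5) (nat_lit 15) (nat_lit 4) (nat_lit 363) (nat_lit 239) (nat_lit 178)))) (XT.nd (nat_lit 35646) (nat_lit 0) (nat_lit 15276) (XT.lf (nat_lit 0) (nat_lit 28902458396) (nat_lit 152) (nat_lit 251486626) (nat_lit 0) (nat_lit 37590393) (nat_lit 13) (nat_lit 5) (nat_lit 15) (nat_lit 4) (nat_lit 13) (nat_lit 4) (nat_lit 364) (nat_lit 239) (nat_lit 177)) (XT.nd (nat_lit 78) (nat_lit 608) (nat_lit 0) (XT.lf (nat_lit 0) (nat_lit 1873179430) (nat_lit 608) (nat_lit 1149018814) (nat_lit 608) (nat_lit 1149018814) (nat_lit 222) (nat_lit 4) (nat_lit 230) (nat_lit 5) (nat_lit 230) (nat_lit 4) (nat_lit 300) (nat_lit 240) (nat_lit 240)) (XT.lf (nat_lit 0) (nat_lit 3067716423) (nat_lit 608) (nat_lit 3968358408) (nat_lit 0) (nat_lit 1409617834) (nat_lit 214) (nat_lit 5) (nat_lit 222) (nat_lit 4) (nat_lit 214) (nat_lit 4) (nat_lit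 301) (nat_lit 240) (nat_lit 239))))) (XT.nd (nat_lit 234) (nat_lit 2052) (nat_lit 0) (XT.nd (nat_lit 78) (nat_lit 1216) (nat_lit 0) (XT.lf (nat_lit 0) (nat_lit 5190105006) (nat_lit 532) (nat_lit 3315397987) (nat_lit 532) (nat_lit 47494941) (nat_lit 207) (nat_lit 4) (nat_lit 214) (nat_lit 5) (nat_lit 214) (nat_lit 4) (nat_lit 302) (nat_lit 240) (nat_lit 238)) (XT.nd (nat_lit 78) (nat_lit 608) (nat_lit 0) (XT.lf (nat_lit 0) (nat_lit 5304036265) (nat_lit 608) (nat_lit 2792284334) (nat_lit 0) (nat_lit 567938232) (nat_lit 199) (nat_lit 5) (nat_lit 207) (nat_lit 4) (nat_lit 199) (nat_lit 4) (nat_lit 303) (nat_lit 240) (nat_lit 237)) (XT.lf (nat_lit 0) (nat_lit 1963152523) (nat_lit 608) (nat_lit 2258172186) (nat_lit 76) (nat_lit 4558286319) (nat_lit 191) (nat_lit 5) (nat_lit 199) (nat_lit 5) (nat_lit 192) (nat_lit 4) (nat_lit 304) (nat_lit 240) (nat_lit 236)))) (XT.nd (nat_lit 156) (nat_lit 988) (nat_lit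 0) (XT.nd (nat_lit 78) (nat_lit 608) (nat_lit 0) (XT.lf (nat_lit 0) (nat_lit 7146996879) (nat_lit 456) (nat_lit 187186302) (nat_lit 532) (nat_lit 1565210801) (nat_lit 185) (nat_lit 5) (nat_lit 191) (nat_lit 5) (nat_lit 192) (nat_lit 4) (nat_lit 305) (nat_lit 240) (nat_lit 235)) (XT.lf (nat_lit 0) (nat_lit 3754547611) (nat_lit 608) (nat_lit 1308263478) (nat_lit 76) (nat_lit 3960314960) (nat_lit 177) (nat_lit 5) (nat_lit 185) (nat_lit 5) (nat_lit 178) (nat_lit 4) (nat_lit 306) (nat_lit 240) (nat_lit 234))) (XT.nd (nat_lit 78) (nat_lit 532) (nat_lit 0) (XT.lf (nat_lit 0) (nat_lit 8259071406) (nat_lit 456) (nat_lit 892527738) (nat_lit 532) (nat_lit 64680) (nat_lit 171) (nat_lit 5) (nat_lit 177) (nat_lit 5) (nat_lit 178) (nat_lit 4) (nat_lit 307) (nat_lit 240) (nat_lit 233)) (XT.lf (nat_lit 0) (nat_lit 5317217885) (nat_lit 532) (nat_lit 556271884) (nat_lit 76) (nat_lit 3410701779) (nat_lit 164) (nat_lit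 5) (nat_lit 171) (nat_lit 5) (nat_lit 165) (nat_lit 4) (nat_lit 308) (nat_lit 240) (nat_lit 232)))))) (XT.nd (nat_lit 546) (nat_lit 2508) (nat_lit 0) (XT.nd (nat_lit 234) (nat_lit 1216) (nat_lit 0) (XT.nd (nat_lit 78) (nat_lit 1368) (nat_lit 0) (XT.lf (nat_lit 0) (nat_lit 1302405513) (nat_lit 532) (nat_lit 262966497) (nat_lit 76) (nat_lit 7856275332) (nat_lit 157) (nat_lit 5) (nat_lit 164) (nat_lit 5) (nat_lit 158) (nat_lit 5) (nat_lit 309) (nat_lit 240) (nat_lit 231)) (XT.nd (nat_lit 78) (nat_lit 912) (nat_lit 0) (XT.lf (nat_lit 0) (nat_lit 6638444614) (nat_lit 532) (nat_lit 49138977) (nat_lit 76) (nat_lit 2875939650) (nat_lit 151) (nat_lit 5) (nat_lit 158) (nat_lit 5) (nat_lit 152) (nat_lit 4) (nat_lit 310) (nat_lit 240) (nat_lit 230)) (XT.lf (nat_lit 0) (nat_lit 98984764) (nat_lit 456) (nat_lit 2250119120) (nat_lit 532) (nat_lit 7361183657) (nat_lit 139) (nat_lit 5) (nat_lit 145) (nat_lit 5)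 (nat_lit 146) (nat_lit 5) (nat_lit 311) (nat_lit 240) (nat_lit 229)))) (XT.nd (nat_lit 156) (nat_lit 380) (nat_lit 0) (XT.nd (nat_lit 78) (nat_lit 456) (nat_lit 0) (XT.lf (nat_lit 0) (nat_lit 164321279) (nat_lit 380) (nat_lit 7539450839) (nat_lit 456) (nat_lit 2158120955) (nat_lit 134) (nat_lit 5) (nat_lit 139) (nat_lit 5) (nat_lit 140) (nat_lit 4) (nat_lit 312) (nat_lit 240) (nat_lit 228)) (XT.lf (nat_lit 0) (nat_lit 137932994) (nat_lit 380) (nat_lit 2983881795) (nat_lit 456) (nat_lit 6896622928) (nat_lit 128) (nat_lit 5) (nat_lit 133) (nat_lit 5) (nat_lit 134) (nat_lit 5) (nat_lit 313) (nat_lit 240) (nat_lit 227))) (XT.nd (nat_lit 78) (nat_lit 76) (nat_lit 0) (XT.lf (nat_lit 0) (nat_lit 22397654) (nat_lit 304) (nat_lit 8469213956) (nat_lit 380) (nat_lit 1688626195) (nat_lit 124) (nat_lit 5) (nat_lit 128) (nat_lit 5) (nat_lit 129) (nat_lit 4) (nat_lit 314) (nat_lit 240) (nat_lit 226)) (XT.lf (nat_lit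 0) (nat_lit 3599454298) (nat_lit 380) (nat_lit 205752746) (nat_lit 76) (nat_lit 6541823740) (nat_lit 123) (nat_lit 5) (nat_lit 128) (nat_lit 5) (nat_lit 124) (nat_lit 5) (nat_lit 315) (nat_lit 240) (nat_lit 225))))) (XT.nd (nat_lit 234) (nat_lit 1368) (nat_lit 0) (XT.nd (nat_lit 78) (nat_lit 760) (nat_lit 0) (XT.lf (nat_lit 0) (nat_lit 8982946804) (nat_lit 456) (nat_lit 530028189) (nat_lit 76) (nat_lit 1006490613) (nat_lit 118) (nat_lit 5) (nat_lit 124) (nat_lit 5) (nat_lit 119) (nat_lit 4) (nat_lit 316) (nat_lit 240) (nat_lit 224)) (XT.nd (nat_lit 78) (nat_lit 380) (nat_lit 0) (XT.lf (nat_lit 0) (nat_lit 3760348331) (nat_lit 380) (nat_lit 991516502) (nat_lit 76) (nat_lit 5945169623) (nat_lit 113) (nat_lit 5) (nat_lit 118) (nat_lit 5) (nat_lit 114) (nat_lit 5) (nat_lit 317) (nat_lit 240) (nat_lit 223)) (XT.lf (nat_lit 0) (nat_lit 9151851749) (nat_lit 456) (nat_lit 1560742072) (nat_lit 76) (nat_lit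 168052616) (nat_lit 108) (nat_lit 5) (nat_lit 114) (nat_lit 5) (nat_lit 109) (nat_lit 4) (nat_lit 318) (nat_lit 240) (nat_lit 222)))) (XT.nd (nat_lit 156) (nat_lit 684) (nat_lit 0) (XT.nd (nat_lit 78) (nat_lit 304) (nat_lit 0) (XT.lf (nat_lit 0) (nat_lit 3576206191) (nat_lit 380) (nat_lit 2290891425) (nat_lit 76) (nat_lit 5202474920) (nat_lit 103) (nat_lit 5) (nat_lit 108) (nat_lit 5) (nat_lit 104) (nat_lit 5) (nat_lit 319) (nat_lit 240) (nat_lit 221)) (XT.lf (nat_lit 0) (nat_lit 8116189033) (nat_lit 304) (nat_lit 858453928) (nat_lit 380) (nat_lit 2290186852) (nat_lit 99) (nat_lit 5) (nat_lit 103) (nat_lit 5) (nat_lit 104) (nat_lit 5) (nat_lit 320) (nat_lit 240) (nat_lit 220))) (XT.nd (nat_lit 78) (nat_lit 304) (nat_lit 0) (XT.lf (nat_lit 0) (nat_lit 3015635571) (nat_lit 380) (nat_lit 4180494109) (nat_lit 76) (nat_lit 4269725741) (nat_lit 94) (nat_lit 5) (nat_lit 99) (nat_lit 5) (nat_lit 95) (nat_lit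 5) (nat_lit 321) (nat_lit 240) (nat_lit 219)) (XT.lf (nat_lit 0) (nat_lit 6302298918) (nat_lit 304) (nat_lit 2112750778) (nat_lit 380) (nat_lit 3258292517) (nat_lit 90) (nat_lit 5) (nat_lit 94) (nat_lit 5) (nat_lit 95) (nat_lit 5) (nat_lit 322) (nat_lit 240) (nat_lit 218))))))))
noncomputable def xc20 : XT := (XT.nd (nat_lit 2028) (nat_lit 1140) (nat_lit 0) (XT.nd (nat_lit 1014) (nat_lit 1672) (nat_lit 0) (XT.nd (nat_lit 468) (nat_lit 1520) (nat_lit 0) (XT.nd (nat_lit 234) (nat_lit 608) (nat_lit 0) (XT.nd (nat_lit 78) (nat_lit 608) (nat_lit 0) (XT.lf (nat_lit 0) (nat_lit 2042887873) (nat_lit 304) (nat_lit 6744646382) (nat_lit 76) (nat_lit 3099671780) (nat_lit 86) (nat_lit 5) (nat_lit 90) (nat_lit 5) (nat_lit 87) (nat_lit 5) (nat_lit 323) (nat_lit 240) (nat_lit 217)) (XT.nd (nat_lit 78) (nat_lit 304) (nat_lit 0) (XT.lf (nat_lit 0) (nat_lit 3791947300) (nat_lit 304) (nat_lit 3642540813) (nat_lit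 380) (nat_lit 4673094365) (nat_lit 82) (nat_lit 5) (nat_lit 86) (nat_lit 5) (nat_lit 87) (nat_lit 5) (nat_lit 324) (nat_lit 240) (nat_lit 216)) (XT.lf (nat_lit 0) (nat_lit 617456389) (nat_lit 304) (nat_lit 10076267603) (nat_lit 76) (nat_lit 1641344772) (nat_lit 78) (nat_lit 5) (nat_lit 82) (nat_lit 5) (nat_lit 79) (nat_lit 5) (nat_lit 325) (nat_lit 240) (nat_lit 215)))) (XT.nd (nat_lit 78) (nat_lit 304) (nat_lit 0) (XT.lf (nat_lit 0) (nat_lit 488739750) (nat_lit 304) (nat_lit 5501806753) (nat_lit 380) (nat_lit 6578506531) (nat_lit 74) (nat_lit 5) (nat_lit 78) (nat_lit 5) (nat_lit 79) (nat_lit 5) (nat_lit 326) (nat_lit 240) (nat_lit 214)) (XT.nd (nat_lit 78) (nat_lit 304) (nat_lit 0) (XT.lf (nat_lit 0) (nat_lit 11353451539) (nat_lit 304) (nat_lit 144179319) (nat_lit 380) (nat_lit 1313006268) (nat_lit 74) (nat_lit 5) (nat_lit 78) (nat_lit 5) (nat_lit 79) (nat_lit 5) (nat_lit 327) (nat_lit 240) (nat_lit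 213)) (XT.lf (nat_lit 0) (nat_lit 4059521786) (nat_lit 304) (nat_lit 3665013217) (nat_lit 76) (nat_lit 5334375114) (nat_lit 70) (nat_lit 5) (nat_lit 74) (nat_lit 5) (nat_lit 71) (nat_lit 5) (nat_lit 328) (nat_lit 240) (nat_lit 212))))) (XT.nd (nat_lit 234) (nat_lit 760) (nat_lit 0) (XT.nd (nat_lit 78) (nat_lit 532) (nat_lit 0) (XT.lf (nat_lit 0) (nat_lit 7209820218) (nat_lit 228) (nat_lit 2331409926) (nat_lit 304) (nat_lit 3773944281) (nat_lit 67) (nat_lit 5) (nat_lit 70) (nat_lit 5) (nat_lit 71) (nat_lit 5) (nat_lit 329) (nat_lit 240) (nat_lit 211)) (XT.nd (nat_lit 78) (nat_lit 228) (nat_lit 0) (XT.lf (nat_lit 0) (nat_lit 1573335314) (nat_lit 304) (nat_lit 8815792745) (nat_lit 76) (nat_lit 3190098419) (nat_lit 63) (nat_lit 5) (nat_lit 67) (nat_lit 5) (nat_lit 64) (nat_lit 5) (nat_lit 330) (nat_lit 240) (nat_lit 210)) (XT.lf (nat_lit 0) (nat_lit 2028230184) (nat_lit 228) (nat_lit 4982652595) (nat_lit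 304) (nat_lit 6840226968) (nat_lit 60) (nat_lit 5) (nat_lit 63) (nat_lit 5) (nat_lit 64) (nat_lit 5) (nat_lit 331) (nat_lit 240) (nat_lit 209)))) (XT.nd (nat_lit 156) (nat_lit 456) (nat_lit 0) (XT.nd (nat_lit 78) (nat_lit 304) (nat_lit 0) (XT.lf (nat_lit 0) (nat_lit 12587199994) (nat_lit 304) (nat_lit 963656172) (nat_lit 76) (nat_lit 580810601) (nat_lit 60) (nat_lit 5) (nat_lit 64) (nat_lit 5) (nat_lit 61) (nat_lit 4) (nat_lit 332) (nat_lit 240) (nat_lit 208)) (XT.lf (nat_lit 0) (nat_lit 3872625412) (nat_lit 304) (nat_lit 4267807507) (nat_lit 76) (nat_lit 6279453663) (nat_lit 56) (nat_lit 5) (nat_lit 60) (nat_lit 5) (nat_lit 57) (nat_lit 5) (nat_lit 333) (nat_lit 240) (nat_lit 207))) (XT.nd (nat_lit 78) (nat_lit 228) (nat_lit 0) (XT.lf (nat_lit 0) (nat_lit 6834853126) (nat_lit 228) (nat_lit 2562734636) (nat_lit 304) (nat_lit 5319662070) (nat_lit 53) (nat_lit 5) (nat_lit 56) (nat_lit 5) (nat_lit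 57) (nat_lit 5) (nat_lit 334) (nat_lit 240) (nat_lit 206)) (XT.lf (nat_lit 0) (nat_lit 50720801) (nat_lit 228) (nat_lit 11838455557) (nat_lit 76) (nat_lit 3134639600) (nat_lit 50) (nat_lit 5) (nat_lit 53) (nat_lit 5) (nat_lit 51) (nat_lit 5) (nat_lit 335) (nat_lit 240) (nat_lit 205)))))) (XT.nd (nat_lit 468) (nat_lit 760) (nat_lit 0) (XT.nd (nat_lit 234) (nat_lit 456) (nat_lit 0) (XT.nd (nat_lit 78) (nat_lit 456) (nat_lit 0) (XT.lf (nat_lit 0) (nat_lit 5498682730) (nat_lit 228) (nat_lit 838646459) (nat_lit 76) (nat_lit 9001797521) (nat_lit 50) (nat_lit 5) (nat_lit 53) (nat_lit 5) (nat_lit 51) (nat_lit 5) (nat_lit 336) (nat_lit 240) (nat_lit 204)) (XT.nd (nat_lit 78) (nat_lit 228) (nat_lit 0) (XT.lf (nat_lit 0) (nat_lit 10492737491) (nat_lit 228) (nat_lit 605300438) (nat_lit 304) (nat_lit 4566124738) (nat_lit 47) (nat_lit 5) (nat_lit 50) (nat_lit 5) (nat_lit 51) (nat_lit 5) (nat_lit 337) (nat_lit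 240) (nat_lit 203)) (XT.lf (nat_lit 0) (nat_lit 855621832) (nat_lit 228) (nat_lit 9917559740) (nat_lit 76) (nat_lit 5225668170) (nat_lit 44) (nat_lit 5) (nat_lit 47) (nat_lit 5) (nat_lit 45) (nat_lit 5) (nat_lit 338) (nat_lit 240) (nat_lit 202)))) (XT.nd (nat_lit 78) (nat_lit 228) (nat_lit 0) (XT.lf (nat_lit 0) (nat_lit 1247100089) (nat_lit 228) (nat_lit 5100498514) (nat_lit 304) (nat_lit 9996005991) (nat_lit 41) (nat_lit 5) (nat_lit 44) (nat_lit 5) (nat_lit 45) (nat_lit 5) (nat_lit 339) (nat_lit 240) (nat_lit 201)) (XT.nd (nat_lit 78) (nat_lit 228) (nat_lit 0) (XT.lf (nat_lit 0) (nat_lit 11999707652) (nat_lit 304) (nat_lit 3953134626) (nat_lit 76) (nat_lit 745974758) (nat_lit 41) (nat_lit 5) (nat_lit 45) (nat_lit 5) (nat_lit 42) (nat_lit 4) (nat_lit 340) (nat_lit 240) (nat_lit 200)) (XT.lf (nat_lit 0) (nat_lit 754487519) (nat_lit 228) (nat_lit 9610353968) (nat_lit 76) (nat_lit 6699613078) (nat_lit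 38) (nat_lit 5) (nat_lit 41) (nat_lit 5) (nat_lit 39) (nat_lit 5) (nat_lit 341) (nat_lit 240) (nat_lit 199))))) (XT.nd (nat_lit 234) (nat_lit 456) (nat_lit 0) (XT.nd (nat_lit 78) (nat_lit 152) (nat_lit 0) (XT.lf (nat_lit 0) (nat_lit 1679562347) (nat_lit 152) (nat_lit 4592518359) (nat_lit 228) (nat_lit 11169095378) (nat_lit 36) (nat_lit 5) (nat_lit 38) (nat_lit 5) (nat_lit 39) (nat_lit 5) (nat_lit 342) (nat_lit 240) (nat_lit 198)) (XT.nd (nat_lit 78) (nat_lit 152) (nat_lit 0) (XT.lf (nat_lit 0) (nat_lit 11956529218) (nat_lit 228) (nat_lit 4524440744) (nat_lit 76) (nat_lit 1348222839) (nat_lit 36) (nat_lit 5) (nat_lit 39) (nat_lit 5) (nat_lit 37) (nat_lit 4) (nat_lit 343) (nat_lit 240) (nat_lit 197)) (XT.lf (nat_lit 0) (nat_lit 6987424661) (nat_lit 152) (nat_lit 10829281306) (nat_lit 228) (nat_lit 412059670) (nat_lit 34) (nat_lit 5) (nat_lit 36) (nat_lit 5) (nat_lit 37) (nat_lit 4) (nat_lit 344)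 (nat_lit 240) (nat_lit 196)))) (XT.nd (nat_lit 156) (nat_lit 228) (nat_lit 0) (XT.nd (nat_lit 78) (nat_lit 0) (nat_lit 0) (XT.lf (nat_lit 0) (nat_lit 111987728) (nat_lit 152) (nat_lit 4993515350) (nat_lit 228) (nat_lit 13534934279) (nat_lit 31) (nat_lit 5) (nat_lit 33) (nat_lit 5) (nat_lit 34) (nat_lit 5) (nat_lit 345) (nat_lit 240) (nat_lit 195)) (XT.lf (nat_lit 0) (nat_lit 10797149346) (nat_lit 228) (nat_lit 7234388179) (nat_lit 76) (nat_lit 1032602165) (nat_lit 31) (nat_lit 5) (nat_lit 34) (nat_lit 5) (nat_lit 32) (nat_lit 4) (nat_lit 346) (nat_lit 240) (nat_lit 194))) (XT.nd (nat_lit 78) (nat_lit 76) (nat_lit 0) (XT.lf (nat_lit 0) (nat_lit 4303703599) (nat_lit 152) (nat_lit 12350030677) (nat_lit 228) (nat_lit 2846952540) (nat_lit 29) (nat_lit 5) (nat_lit 31) (nat_lit 5) (nat_lit 32) (nat_lit 4) (nat_lit 347) (nat_lit 240) (nat_lit 193)) (XT.lf (nat_lit 0) (nat_lit 2682757012) (nat_lit 228)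 (nat_lit 3797301600) (nat_lit 76) (nat_lit 13470274181) (nat_lit 28) (nat_lit 5) (nat_lit 31) (nat_lit 5) (nat_lit 29) (nat_lit 5) (nat_lit 348) (nat_lit 240) (nat_lit 192))))))) (XT.nd (nat_lit 1014) (nat_lit 76) (nat_lit 0) (XT.nd (nat_lit 468) (nat_lit 532) (nat_lit 0) (XT.nd (nat_lit 234) (nat_lit 304) (nat_lit 0) (XT.nd (nat_lit 78) (nat_lit 76) (nat_lit 0) (XT.lf (nat_lit 0) (nat_lit 7915721798) (nat_lit 152) (nat_lit 411108116) (nat_lit 228) (nat_lit 12086535026) (nat_lit 26) (nat_lit 5) (nat_lit 28) (nat_lit 5) (nat_lit 29) (nat_lit 5) (nat_lit 349) (nat_lit 240) (nat_lit 191)) (XT.nd (nat_lit 78) (nat_lit 76) (nat_lit 0) (XT.lf (nat_lit 0) (nat_lit 14140419753) (nat_lit 228) (nat_lit 1008300674) (nat_lit 76) (nat_lit 5741579442) (nat_lit 26) (nat_lit 5) (nat_lit 29) (nat_lit 5) (nat_lit 27) (nat_lit 4) (nat_lit 350) (nat_lit 240) (nat_lit 190)) (XT.lf (nat_lit 0) (nat_lit 10856076244)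 (nat_lit 76) (nat_lit 9283804323) (nat_lit 152) (nat_lit 1241448262) (nat_lit 25) (nat_lit 5) (nat_lit 26) (nat_lit 5) (nat_lit 27) (nat_lit 4) (nat_lit 351) (nat_lit 240) (nat_lit 189)))) (XT.nd (nat_lit 78) (nat_lit 76) (nat_lit 0) (XT.lf (nat_lit 0) (nat_lit 1080250247) (nat_lit 152) (nat_lit 3246662176) (nat_lit 228) (nat_lit 17560559104) (nat_lit 22) (nat_lit 5) (nat_lit 24) (nat_lit 5) (nat_lit 25) (nat_lit 5) (nat_lit 352) (nat_lit 240) (nat_lit 188)) (XT.nd (nat_lit 78) (nat_lit 76) (nat_lit 0) (XT.lf (nat_lit 0) (nat_lit 10076340819) (nat_lit 228) (nat_lit 9364934153) (nat_lit 76) (nat_lit 2966755843) (nat_lit 22) (nat_lit 5) (nat_lit 25) (nat_lit 5) (nat_lit 23) (nat_lit 4) (nat_lit 353) (nat_lit 240) (nat_lit 187)) (XT.lf (nat_lit 0) (nat_lit 2325050189) (nat_lit 76) (nat_lit 13651464689) (nat_lit 152) (nat_lit 6968140431) (nat_lit 21) (nat_lit 5) (nat_lit 22) (nat_lit 5) (nat_lit 23)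 (nat_lit 4) (nat_lit 354) (nat_lit 240) (nat_lit 186))))) (XT.nd (nat_lit 234) (nat_lit 304) (nat_lit 0) (XT.nd (nat_lit 78) (nat_lit 228) (nat_lit 0) (XT.lf (nat_lit 0) (nat_lit 14391262781) (nat_lit 76) (nat_lit 7668384956) (nat_lit 152) (nat_lit 1437625014) (nat_lit 21) (nat_lit 5) (nat_lit 22) (nat_lit 5) (nat_lit 23) (nat_lit 4) (nat_lit 355) (nat_lit 240) (nat_lit 185)) (XT.nd (nat_lit 78) (nat_lit 0) (nat_lit 0) (XT.lf (nat_lit 0) (nat_lit 2659796168) (nat_lit 152) (nat_lit 1504210143) (nat_lit 228) (nat_lit 19902700921) (nat_lit 18) (nat_lit 5) (nat_lit 20) (nat_lit 5) (nat_lit 21) (nat_lit 5) (nat_lit 356) (nat_lit 240) (nat_lit 184)) (XT.lf (nat_lit 0) (nat_lit 9952335450) (nat_lit 228) (nat_lit 9889882466) (nat_lit 76) (nat_lit 4810065443) (nat_lit 18) (nat_lit 5) (nat_lit 21) (nat_lit 5) (nat_lit 19) (nat_lit 4) (nat_lit 357) (nat_lit 240) (nat_lit 183)))) (XT.nd (nat_lit 156) (nat_lit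 228) (nat_lit 0) (XT.nd (nat_lit 78) (nat_lit 0) (nat_lit 0) (XT.lf (nat_lit 0) (nat_lit 1890662104) (nat_lit 76) (nat_lit 13992102783) (nat_lit 152) (nat_lit 9373304796) (nat_lit 17) (nat_lit 5) (nat_lit 18) (nat_lit 5) (nat_lit 19) (nat_lit 4) (nat_lit 358) (nat_lit 240) (nat_lit 182)) (XT.lf (nat_lit 0) (nat_lit 14064834707) (nat_lit 76) (nat_lit 7940356726) (nat_lit 152) (nat_lit 3872508050) (nat_lit 17) (nat_lit 5) (nat_lit 18) (nat_lit 5) (nat_lit 19) (nat_lit 4) (nat_lit 359) (nat_lit 240) (nat_lit 181))) (XT.nd (nat_lit 78) (nat_lit 152) (nat_lit 0) (XT.lf (nat_lit 0) (nat_lit 1718050545) (nat_lit 152) (nat_lit 18478561) (nat_lit 76) (nat_lit 24782262067) (nat_lit 16) (nat_lit 5) (nat_lit 18) (nat_lit 5) (nat_lit 17) (nat_lit 5) (nat_lit 360) (nat_lit 240) (nat_lit 180)) (XT.lf (nat_lit 0) (nat_lit 7483461506) (nat_lit 228) (nat_lit 15035563165) (nat_lit 76) (nat_lit 4658394735) (nat_lit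 14) (nat_lit 5) (nat_lit 17) (nat_lit 5) (nat_lit 15) (nat_lit 4) (nat_lit 361) (nat_lit 240) (nat_lit 179)))))) (XT.nd (nat_lit 35958) (nat_lit 0) (nat_lit 11476) (XT.nd (nat_lit 35646) (nat_lit 0) (nat_lit 15276) (XT.nd (nat_lit 78) (nat_lit 76) (nat_lit 0) (XT.lf (nat_lit 0) (nat_lit 13383967434) (nat_lit 228) (nat_lit 3289816106) (nat_lit 76) (nat_lit 11182790677) (nat_lit 14) (nat_lit 5) (nat_lit 17) (nat_lit 5) (nat_lit 15) (nat_lit 4) (nat_lit 362) (nat_lit 240) (nat_lit 178)) (XT.nd (nat_lit 78) (nat_lit 0) (nat_lit 0) (XT.lf (nat_lit 0) (nat_lit 8837163202) (nat_lit 76) (nat_lit 10633540559) (nat_lit 152) (nat_lit 9085225686) (nat_lit 13) (nat_lit 5) (nat_lit 14) (nat_lit 5) (nat_lit 15) (nat_lit 4) (nat_lit 363) (nat_lit 240) (nat_lit 177)) (XT.lf (nat_lit 0) (nat_lit 21287354404) (nat_lit 76) (nat_lit 4427665904) (nat_lit 152) (nat_lit 3561755249) (nat_lit 13) (nat_lit 5) (nat_lit 14)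 (nat_lit 5) (nat_lit 15) (nat_lit 4) (nat_lit 364) (nat_lit 240) (nat_lit 176)))) (XT.nd (nat_lit 156) (nat_lit 1216) (nat_lit 0) (XT.nd (nat_lit 78) (nat_lit 684) (nat_lit 0) (XT.lf (nat_lit 0) (nat_lit 1163587356) (nat_lit 608) (nat_lit 1454764930) (nat_lit 608) (nat_lit 1454764930) (nat_lit 239) (nat_lit 4) (nat_lit 247) (nat_lit 5) (nat_lit 247) (nat_lit 4) (nat_lit 298) (nat_lit 241) (nat_lit 241)) (XT.lf (nat_lit 0) (nat_lit 2372331448) (nat_lit 684) (nat_lit 5240514439) (nat_lit 0) (nat_lit 630333070) (nat_lit 230) (nat_lit 5) (nat_lit 239) (nat_lit 4) (nat_lit 230) (nat_lit 4) (nat_lit 299) (nat_lit 241) (nat_lit 240))) (XT.nd (nat_lit 78) (nat_lit 608) (nat_lit 0) (XT.lf (nat_lit 0) (nat_lit 3657770744) (nat_lit 608) (nat_lit 4059676097) (nat_lit 608) (nat_lit 626417157) (nat_lit 222) (nat_lit 4) (nat_lit 230) (nat_lit 5) (nat_lit 230) (nat_lit 4) (nat_lit 300) (nat_lit 241) (nat_lit 239))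 (XT.lf (nat_lit 0) (nat_lit 4296473709) (nat_lit 532) (nat_lit 342998169) (nat_lit 608) (nat_lit 3809040898) (nat_lit 214) (nat_lit 5) (nat_lit 221) (nat_lit 5) (nat_lit 222) (nat_lit 4) (nat_lit 301) (nat_lit 241) (nat_lit 238))))) (XT.nd (nat_lit 234) (nat_lit 2052) (nat_lit 0) (XT.nd (nat_lit 78) (nat_lit 1140) (nat_lit 0) (XT.lf (nat_lit 0) (nat_lit 1430833787) (nat_lit 608) (nat_lit 3648377289) (nat_lit 76) (nat_lit 3477868590) (nat_lit 206) (nat_lit 5) (nat_lit 214) (nat_lit 5) (nat_lit 207) (nat_lit 4) (nat_lit 302) (nat_lit 241) (nat_lit 237)) (XT.nd (nat_lit 78) (nat_lit 608) (nat_lit 0) (XT.lf (nat_lit 0) (nat_lit 5498761613) (nat_lit 532) (nat_lit 1211544450) (nat_lit 608) (nat_lit 1959501842) (nat_lit 199) (nat_lit 5) (nat_lit 206) (nat_lit 5) (nat_lit 207) (nat_lit 4) (nat_lit 303) (nat_lit 241) (nat_lit 236)) (XT.lf (nat_lit 0) (nat_lit 3270052461) (nat_lit 608) (nat_lit 2736901633)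 (nat_lit 76) (nat_lit 2779575754) (nat_lit 191) (nat_lit 5) (nat_lit 199) (nat_lit 5) (nat_lit 192) (nat_lit 4) (nat_lit 304) (nat_lit 241) (nat_lit 235)))) (XT.nd (nat_lit 156) (nat_lit 988) (nat_lit 0) (XT.nd (nat_lit 78) (nat_lit 608) (nat_lit 0) (XT.lf (nat_lit 0) (nat_lit 6575211791) (nat_lit 456) (nat_lit 1998978751) (nat_lit 532) (nat_lit 333501502) (nat_lit 185) (nat_lit 5) (nat_lit 191) (nat_lit 5) (nat_lit 192) (nat_lit 4) (nat_lit 305) (nat_lit 241) (nat_lit 234)) (XT.lf (nat_lit 0) (nat_lit 4891451362) (nat_lit 608) (nat_lit 1987951091) (nat_lit 76) (nat_lit 2153474142) (nat_lit 177) (nat_lit 5) (nat_lit 185) (nat_lit 5) (nat_lit 178) (nat_lit 4) (nat_lit 306) (nat_lit 241) (nat_lit 233))) (XT.nd (nat_lit 78) (nat_lit 456) (nat_lit 0) (XT.lf (nat_lit 0) (nat_lit 1045590627) (nat_lit 532) (nat_lit 1685201284) (nat_lit 76) (nat_lit 6431847921) (nat_lit 170) (nat_lit 5) (nat_lit 177) (nat_lit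 5) (nat_lit 171) (nat_lit 5) (nat_lit 307) (nat_lit 241) (nat_lit 232)) (XT.lf (nat_lit 0) (nat_lit 6284572880) (nat_lit 532) (nat_lit 1444975012) (nat_lit 76) (nat_lit 1567222052) (nat_lit 164) (nat_lit 5) (nat_lit 171) (nat_lit 5) (nat_lit 165) (nat_lit 4) (nat_lit 308) (nat_lit 241) (nat_lit 231))))))))
noncomputable def xc21 : XT := (XT.nd (nat_lit 2106) (nat_lit 2964) (nat_lit 0) (XT.nd (nat_lit 1014) (nat_lit 3116) (nat_lit 0) (XT.nd (nat_lit 468) (nat_lit 2584) (nat_lit 0) (XT.nd (nat_lit 234) (nat_lit 1292) (nat_lit 0) (XT.nd (nat_lit 78) (nat_lit 912) (nat_lit 0) (XT.lf (nat_lit 0) (nat_lit 2178455806) (nat_lit 532) (nat_lit 1268219339) (nat_lit 76) (nat_lit 5988785351) (nat_lit 157) (nat_lit 5) (nat_lit 164) (nat_lit 5) (nat_lit 158) (nat_lit 5) (nat_lit 309) (nat_lit 241) (nat_lit 230)) (XT.nd (nat_lit 78) (nat_lit 456) (nat_lit 0) (XT.lf (nat_lit 0) (nat_lit 7436347655) (nat_lit 532)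 (nat_lit 1154979434) (nat_lit 76) (nat_lit 987605895) (nat_lit 151) (nat_lit 5) (nat_lit 158) (nat_lit 5) (nat_lit 152) (nat_lit 4) (nat_lit 310) (nat_lit 241) (nat_lit 229)) (XT.lf (nat_lit 0) (nat_lit 3054856353) (nat_lit 456) (nat_lit 1128400653) (nat_lit 76) (nat_lit 5543700259) (nat_lit 145) (nat_lit 5) (nat_lit 151) (nat_lit 5) (nat_lit 146) (nat_lit 5) (nat_lit 311) (nat_lit 241) (nat_lit 228)))) (XT.nd (nat_lit 78) (nat_lit 836) (nat_lit 0) (XT.lf (nat_lit 0) (nat_lit 8330912691) (nat_lit 532) (nat_lit 1169025448) (nat_lit 76) (nat_lit 380227987) (nat_lit 139) (nat_lit 5) (nat_lit 146) (nat_lit 5) (nat_lit 140) (nat_lit 4) (nat_lit 312) (nat_lit 241) (nat_lit 227)) (XT.nd (nat_lit 78) (nat_lit 380) (nat_lit 0) (XT.lf (nat_lit 0) (nat_lit 3657270353) (nat_lit 456) (nat_lit 1319092005) (nat_lit 76) (nat_lit 5061607474) (nat_lit 133) (nat_lit 5) (nat_lit 139) (nat_lit 5) (nat_lit 134) (nat_lit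 5) (nat_lit 313) (nat_lit 241) (nat_lit 226)) (XT.lf (nat_lit 0) (nat_lit 8656628935) (nat_lit 380) (nat_lit 294687183) (nat_lit 456) (nat_lit 1249997555) (nat_lit 128) (nat_lit 5) (nat_lit 133) (nat_lit 5) (nat_lit 134) (nat_lit 5) (nat_lit 314) (nat_lit 241) (nat_lit 225))))) (XT.nd (nat_lit 234) (nat_lit 1444) (nat_lit 0) (XT.nd (nat_lit 78) (nat_lit 760) (nat_lit 0) (XT.lf (nat_lit 0) (nat_lit 3965042943) (nat_lit 380) (nat_lit 1898521899) (nat_lit 76) (nat_lit 4505857946) (nat_lit 123) (nat_lit 5) (nat_lit 128) (nat_lit 5) (nat_lit 124) (nat_lit 5) (nat_lit 315) (nat_lit 241) (nat_lit 224)) (XT.nd (nat_lit 78) (nat_lit 380) (nat_lit 0) (XT.lf (nat_lit 0) (nat_lit 8199260776) (nat_lit 380) (nat_lit 1077448005) (nat_lit 456) (nat_lit 1266611912) (nat_lit 118) (nat_lit 5) (nat_lit 123) (nat_lit 5) (nat_lit 124) (nat_lit 5) (nat_lit 316) (nat_lit 241) (nat_lit 223)) (XT.lf (nat_lit 0) (nat_lit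 3954133566) (nat_lit 380) (nat_lit 2930418938) (nat_lit 76) (nat_lit 3837778900) (nat_lit 113) (nat_lit 5) (nat_lit 118) (nat_lit 5) (nat_lit 114) (nat_lit 5) (nat_lit 317) (nat_lit 241) (nat_lit 222)))) (XT.nd (nat_lit 156) (nat_lit 684) (nat_lit 0) (XT.nd (nat_lit 78) (nat_lit 380) (nat_lit 0) (XT.lf (nat_lit 0) (nat_lit 7275701342) (nat_lit 380) (nat_lit 2003537947) (nat_lit 456) (nat_lit 1628056587) (nat_lit 108) (nat_lit 5) (nat_lit 113) (nat_lit 5) (nat_lit 114) (nat_lit 5) (nat_lit 318) (nat_lit 241) (nat_lit 221)) (XT.lf (nat_lit 0) (nat_lit 3596830452) (nat_lit 380) (nat_lit 4484688074) (nat_lit 76) (nat_lit 3016289576) (nat_lit 103) (nat_lit 5) (nat_lit 108) (nat_lit 5) (nat_lit 104) (nat_lit 5) (nat_lit 319) (nat_lit 241) (nat_lit 220))) (XT.nd (nat_lit 78) (nat_lit 380) (nat_lit 0) (XT.lf (nat_lit 0) (nat_lit 5813605046) (nat_lit 304) (nat_lit 3116158787) (nat_lit 380) (nat_lit 2364634289)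 (nat_lit 99) (nat_lit 5) (nat_lit 103) (nat_lit 5) (nat_lit 104) (nat_lit 5) (nat_lit 320) (nat_lit 241) (nat_lit 219)) (XT.lf (nat_lit 0) (nat_lit 2861429408) (nat_lit 380) (nat_lit 6638151308) (nat_lit 76) (nat_lit 1997488965) (nat_lit 94) (nat_lit 5) (nat_lit 99) (nat_lit 5) (nat_lit 95) (nat_lit 5) (nat_lit 321) (nat_lit 241) (nat_lit 218)))))) (XT.nd (nat_lit 546) (nat_lit 1292) (nat_lit 0) (XT.nd (nat_lit 234) (nat_lit 912) (nat_lit 0) (XT.nd (nat_lit 78) (nat_lit 608) (nat_lit 0) (XT.lf (nat_lit 0) (nat_lit 3733396561) (nat_lit 304) (nat_lit 4461610786) (nat_lit 380) (nat_lit 3510886803) (nat_lit 90) (nat_lit 5) (nat_lit 94) (nat_lit 5) (nat_lit 95) (nat_lit 5) (nat_lit 322) (nat_lit 241) (nat_lit 217)) (XT.nd (nat_lit 78) (nat_lit 304) (nat_lit 0) (XT.lf (nat_lit 0) (nat_lit 1711873622) (nat_lit 304) (nat_lit 9475360063) (nat_lit 76) (nat_lit 734211689) (nat_lit 86) (nat_lit 5) (nat_lit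 90) (nat_lit 5) (nat_lit 87) (nat_lit 5) (nat_lit 323) (nat_lit 241) (nat_lit 216)) (XT.lf (nat_lit 0) (nat_lit 947425354) (nat_lit 304) (nat_lit 6089760323) (nat_lit 380) (nat_lit 5105981268) (nat_lit 82) (nat_lit 5) (nat_lit 86) (nat_lit 5) (nat_lit 87) (nat_lit 5) (nat_lit 324) (nat_lit 241) (nat_lit 215)))) (XT.nd (nat_lit 156) (nat_lit 608) (nat_lit 0) (XT.nd (nat_lit 78) (nat_lit 228) (nat_lit 0) (XT.lf (nat_lit 0) (nat_lit 117466656) (nat_lit 380) (nat_lit 713156397) (nat_lit 76) (nat_lit 11541560424) (nat_lit 81) (nat_lit 5) (nat_lit 86) (nat_lit 5) (nat_lit 82) (nat_lit 5) (nat_lit 325) (nat_lit 241) (nat_lit 214)) (XT.lf (nat_lit 0) (nat_lit 5430730284) (nat_lit 304) (nat_lit 2606326280) (nat_lit 76) (nat_lit 4570325607) (nat_lit 78) (nat_lit 5) (nat_lit 82) (nat_lit 5) (nat_lit 79) (nat_lit 5) (nat_lit 326) (nat_lit 241) (nat_lit 213))) (XT.nd (nat_lit 78) (nat_lit 304) (nat_lit 0) (XT.lf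 (nat_lit 0) (nat_lit 8149536107) (nat_lit 304) (nat_lit 2725467851) (nat_lit 380) (nat_lit 1975235892) (nat_lit 74) (nat_lit 5) (nat_lit 78) (nat_lit 5) (nat_lit 79) (nat_lit 5) (nat_lit 327) (nat_lit 241) (nat_lit 212)) (XT.lf (nat_lit 0) (nat_lit 3322430598) (nat_lit 304) (nat_lit 7044825663) (nat_lit 76) (nat_lit 2733030045) (nat_lit 70) (nat_lit 5) (nat_lit 74) (nat_lit 5) (nat_lit 71) (nat_lit 5) (nat_lit 328) (nat_lit 241) (nat_lit 211))))) (XT.nd (nat_lit 234) (nat_lit 760) (nat_lit 0) (XT.nd (nat_lit 78) (nat_lit 304) (nat_lit 0) (XT.lf (nat_lit 0) (nat_lit 3711937726) (nat_lit 228) (nat_lit 5025503148) (nat_lit 304) (nat_lit 4620459757) (nat_lit 67) (nat_lit 5) (nat_lit 70) (nat_lit 5) (nat_lit 71) (nat_lit 5) (nat_lit 329) (nat_lit 241) (nat_lit 210)) (XT.nd (nat_lit 78) (nat_lit 0) (nat_lit 0) (XT.lf (nat_lit 0) (nat_lit 652856716) (nat_lit 304) (nat_lit 12496780424) (nat_lit 76) (nat_lit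 474142055) (nat_lit 63) (nat_lit 5) (nat_lit 67) (nat_lit 5) (nat_lit 64) (nat_lit 5) (nat_lit 330) (nat_lit 241) (nat_lit 209)) (XT.lf (nat_lit 0) (nat_lit 6034395038) (nat_lit 304) (nat_lit 1750500156) (nat_lit 76) (nat_lit 6111902290) (nat_lit 63) (nat_lit 5) (nat_lit 67) (nat_lit 5) (nat_lit 64) (nat_lit 5) (nat_lit 331) (nat_lit 241) (nat_lit 208)))) (XT.nd (nat_lit 156) (nat_lit 228) (nat_lit 0) (XT.nd (nat_lit 78) (nat_lit 304) (nat_lit 0) (XT.lf (nat_lit 0) (nat_lit 9299926710) (nat_lit 228) (nat_lit 2253400817) (nat_lit 304) (nat_lit 2625189075) (nat_lit 60) (nat_lit 5) (nat_lit 63) (nat_lit 5) (nat_lit 64) (nat_lit 5) (nat_lit 332) (nat_lit 241) (nat_lit 207)) (XT.lf (nat_lit 0) (nat_lit 2723781442) (nat_lit 304) (nat_lit 8330399473) (nat_lit 76) (nat_lit 3414355458) (nat_lit 56) (nat_lit 5) (nat_lit 60) (nat_lit 5) (nat_lit 57) (nat_lit 5) (nat_lit 333) (nat_lit 241) (nat_lit 206)))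 (XT.nd (nat_lit 78) (nat_lit 0) (nat_lit 0) (XT.lf (nat_lit 0) (nat_lit 2649324690) (nat_lit 228) (nat_lit 5531721303) (nat_lit 304) (nat_lit 6586220897) (nat_lit 53) (nat_lit 5) (nat_lit 56) (nat_lit 5) (nat_lit 57) (nat_lit 5) (nat_lit 334) (nat_lit 241) (nat_lit 205)) (XT.lf (nat_lit 0) (nat_lit 13778762140) (nat_lit 304) (nat_lit 1139919850) (nat_lit 76) (nat_lit 156768895) (nat_lit 53) (nat_lit 5) (nat_lit 57) (nat_lit 5) (nat_lit 54) (nat_lit 4) (nat_lit 335) (nat_lit 241) (nat_lit 204))))))) (XT.nd (nat_lit 1014) (nat_lit 1064) (nat_lit 0) (XT.nd (nat_lit 468) (nat_lit 836) (nat_lit 0) (XT.nd (nat_lit 234) (nat_lit 456) (nat_lit 0) (XT.nd (nat_lit 78) (nat_lit 380) (nat_lit 0) (XT.lf (nat_lit 0) (nat_lit 4121237050) (nat_lit 228) (nat_lit 5289403540) (nat_lit 76) (nat_lit 5981242576) (nat_lit 50) (nat_lit 5) (nat_lit 53) (nat_lit 5) (nat_lit 51) (nat_lit 5) (nat_lit 336) (nat_lit 241) (nat_lit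 203)) (XT.nd (nat_lit 78) (nat_lit 152) (nat_lit 0) (XT.lf (nat_lit 0) (nat_lit 5916907769) (nat_lit 228) (nat_lit 3735632150) (nat_lit 304) (nat_lit 6065752194) (nat_lit 47) (nat_lit 5) (nat_lit 50) (nat_lit 5) (nat_lit 51) (nat_lit 5) (nat_lit 337) (nat_lit 241) (nat_lit 202)) (XT.lf (nat_lit 0) (nat_lit 1350681048) (nat_lit 152) (nat_lit 13980887201) (nat_lit 228) (nat_lit 723312890) (nat_lit 45) (nat_lit 5) (nat_lit 47) (nat_lit 5) (nat_lit 48) (nat_lit 4) (nat_lit 338) (nat_lit 241) (nat_lit 201)))) (XT.nd (nat_lit 78) (nat_lit 380) (nat_lit 0) (XT.lf (nat_lit 0) (nat_lit 4732672091) (nat_lit 228) (nat_lit 3615257330) (nat_lit 76) (nat_lit 8052721093) (nat_lit 44) (nat_lit 5) (nat_lit 47) (nat_lit 5) (nat_lit 45) (nat_lit 5) (nat_lit 339) (nat_lit 241) (nat_lit 200)) (XT.nd (nat_lit 78) (nat_lit 152) (nat_lit 0) (XT.lf (nat_lit 0) (nat_lit 7777267907) (nat_lit 228) (nat_lit 2542119366) (nat_lit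 304) (nat_lit 6437794275) (nat_lit 41) (nat_lit 5) (nat_lit 44) (nat_lit 5) (nat_lit 45) (nat_lit 5) (nat_lit 340) (nat_lit 241) (nat_lit 199)) (XT.lf (nat_lit 0) (nat_lit 2319745534) (nat_lit 152) (nat_lit 13743330092) (nat_lit 228) (nat_lit 1061566571) (nat_lit 39) (nat_lit 5) (nat_lit 41) (nat_lit 5) (nat_lit 42) (nat_lit 4) (nat_lit 341) (nat_lit 241) (nat_lit 198))))) (XT.nd (nat_lit 234) (nat_lit 456) (nat_lit 0) (XT.nd (nat_lit 78) (nat_lit 304) (nat_lit 0) (XT.lf (nat_lit 0) (nat_lit 4423651530) (nat_lit 228) (nat_lit 3591334102) (nat_lit 76) (nat_lit 9487451789) (nat_lit 38) (nat_lit 5) (nat_lit 41) (nat_lit 5) (nat_lit 39) (nat_lit 5) (nat_lit 342) (nat_lit 241) (nat_lit 197)) (XT.nd (nat_lit 78) (nat_lit 152) (nat_lit 0) (XT.lf (nat_lit 0) (nat_lit 7934950759) (nat_lit 152) (nat_lit 2105899146) (nat_lit 228) (nat_lit 7850958848) (nat_lit 36) (nat_lit 5) (nat_lit 38) (nat_lit 5) (nat_lit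 39) (nat_lit 5) (nat_lit 343) (nat_lit 241) (nat_lit 196)) (XT.lf (nat_lit 0) (nat_lit 1436889391) (nat_lit 152) (nat_lit 14380525222) (nat_lit 228) (nat_lit 2475648551) (nat_lit 34) (nat_lit 5) (nat_lit 36) (nat_lit 5) (nat_lit 37) (nat_lit 4) (nat_lit 344) (nat_lit 241) (nat_lit 195)))) (XT.nd (nat_lit 156) (nat_lit 228) (nat_lit 0) (XT.nd (nat_lit 78) (nat_lit 152) (nat_lit 0) (XT.lf (nat_lit 0) (nat_lit 3034731237) (nat_lit 228) (nat_lit 5549407496) (nat_lit 76) (nat_lit 10121557944) (nat_lit 33) (nat_lit 5) (nat_lit 36) (nat_lit 5) (nat_lit 34) (nat_lit 5) (nat_lit 345) (nat_lit 241) (nat_lit 194)) (XT.lf (nat_lit 0) (nat_lit 6043993970) (nat_lit 152) (nat_lit 2606163347) (nat_lit 228) (nat_lit 10480774722) (nat_lit 31) (nat_lit 5) (nat_lit 33) (nat_lit 5) (nat_lit 34) (nat_lit 5) (nat_lit 346) (nat_lit 241) (nat_lit 193))) (XT.nd (nat_lit 78) (nat_lit 228) (nat_lit 0) (XT.lf (nat_lit 0) (nat_lit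 14429764852) (nat_lit 228) (nat_lit 1644728426) (nat_lit 76) (nat_lit 3494533810) (nat_lit 31) (nat_lit 5) (nat_lit 34) (nat_lit 5) (nat_lit 32) (nat_lit 4) (nat_lit 347) (nat_lit 241) (nat_lit 192)) (XT.lf (nat_lit 0) (nat_lit 377863656) (nat_lit 228) (nat_lit 9877067881) (nat_lit 76) (nat_lit 9764900115) (nat_lit 28) (nat_lit 5) (nat_lit 31) (nat_lit 5) (nat_lit 29) (nat_lit 5) (nat_lit 348) (nat_lit 241) (nat_lit 191)))))) (XT.nd (nat_lit 546) (nat_lit 532) (nat_lit 0) (XT.nd (nat_lit 234) (nat_lit 304) (nat_lit 0) (XT.nd (nat_lit 78) (nat_lit 76) (nat_lit 0) (XT.lf (nat_lit 0) (nat_lit 1700190274) (nat_lit 152) (nat_lit 4250560376) (nat_lit 228) (nat_lit 14533544608) (nat_lit 26) (nat_lit 5) (nat_lit 28) (nat_lit 5) (nat_lit 29) (nat_lit 5) (nat_lit 349) (nat_lit 241) (nat_lit 190)) (XT.nd (nat_lit 78) (nat_lit 76) (nat_lit 0) (XT.lf (nat_lit 0) (nat_lit 11708983238) (nat_lit 228) (nat_lit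 7323664764) (nat_lit 76) (nat_lit 1929696841) (nat_lit 26) (nat_lit 5) (nat_lit 29) (nat_lit 5) (nat_lit 27) (nat_lit 4) (nat_lit 350) (nat_lit 241) (nat_lit 189)) (XT.lf (nat_lit 0) (nat_lit 4403827106) (nat_lit 76) (nat_lit 13233181968) (nat_lit 152) (nat_lit 3817800725) (nat_lit 25) (nat_lit 5) (nat_lit 26) (nat_lit 5) (nat_lit 27) (nat_lit 4) (nat_lit 351) (nat_lit 241) (nat_lit 188)))) (XT.nd (nat_lit 156) (nat_lit 76) (nat_lit 0) (XT.nd (nat_lit 78) (nat_lit 152) (nat_lit 0) (XT.lf (nat_lit 0) (nat_lit 1748120388) (nat_lit 152) (nat_lit 5494730085) (nat_lit 76) (nat_lit 14719168092) (nat_lit 24) (nat_lit 5) (nat_lit 26) (nat_lit 5) (nat_lit 25) (nat_lit 5) (nat_lit 352) (nat_lit 241) (nat_lit 187)) (XT.lf (nat_lit 0) (nat_lit 6364033368) (nat_lit 152) (nat_lit 1049152548) (nat_lit 228) (nat_lit 15071085935) (nat_lit 22) (nat_lit 5) (nat_lit 24) (nat_lit 5) (nat_lit 25) (nat_lit 5) (nat_lit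 353) (nat_lit 241) (nat_lit 186))) (XT.nd (nat_lit 78) (nat_lit 76) (nat_lit 0) (XT.lf (nat_lit 0) (nat_lit 13263452592) (nat_lit 228) (nat_lit 4503843962) (nat_lit 76) (nat_lit 5254604482) (nat_lit 22) (nat_lit 5) (nat_lit 25) (nat_lit 5) (nat_lit 23) (nat_lit 4) (nat_lit 354) (nat_lit 241) (nat_lit 185)) (XT.lf (nat_lit 0) (nat_lit 7453416448) (nat_lit 76) (nat_lit 11836035377) (nat_lit 152) (nat_lit 4286215679) (nat_lit 21) (nat_lit 5) (nat_lit 22) (nat_lit 5) (nat_lit 23) (nat_lit 4) (nat_lit 355) (nat_lit 241) (nat_lit 184))))) (XT.nd (nat_lit 234) (nat_lit 304) (nat_lit 0) (XT.nd (nat_lit 78) (nat_lit 152) (nat_lit 0) (XT.lf (nat_lit 0) (nat_lit 1308621331) (nat_lit 152) (nat_lit 4420865429) (nat_lit 76) (nat_lit 18416874255) (nat_lit 20) (nat_lit 5) (nat_lit 22) (nat_lit 5) (nat_lit 21) (nat_lit 5) (nat_lit 356) (nat_lit 241) (nat_lit 183)) (XT.nd (nat_lit 78) (nat_lit 0) (nat_lit 0) (XT.lf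 (nat_lit 0) (nat_lit 7013695913) (nat_lit 228) (nat_lit 17129555804) (nat_lit 76) (nat_lit 590356389) (nat_lit 18) (nat_lit 5) (nat_lit 21) (nat_lit 5) (nat_lit 19) (nat_lit 4) (nat_lit 357) (nat_lit 241) (nat_lit 182)) (XT.lf (nat_lit 0) (nat_lit 12906079040) (nat_lit 228) (nat_lit 5420070908) (nat_lit 76) (nat_lit 7012011107) (nat_lit 18) (nat_lit 5) (nat_lit 21) (nat_lit 5) (nat_lit 19) (nat_lit 4) (nat_lit 358) (nat_lit 241) (nat_lit 181)))) (XT.nd (nat_lit 156) (nat_lit 228) (nat_lit 0) (XT.nd (nat_lit 78) (nat_lit 0) (nat_lit 0) (XT.lf (nat_lit 0) (nat_lit 6636559069) (nat_lit 76) (nat_lit 12330972387) (nat_lit 152) (nat_lit 6993484416) (nat_lit 17) (nat_lit 5) (nat_lit 18) (nat_lit 5) (nat_lit 19) (nat_lit 4) (nat_lit 359) (nat_lit 241) (nat_lit 180)) (XT.lf (nat_lit 0) (nat_lit 19039378876) (nat_lit 76) (nat_lit 6158282496) (nat_lit 152) (nat_lit 1405169191) (nat_lit 17) (nat_lit 5) (nat_lit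 18) (nat_lit 5) (nat_lit 19) (nat_lit 4) (nat_lit 360) (nat_lit 241) (nat_lit 179))) (XT.nd (nat_lit 78) (nat_lit 0) (nat_lit 0) (XT.lf (nat_lit 0) (nat_lit 4275558526) (nat_lit 228) (nat_lit 22771839923) (nat_lit 76) (nat_lit 216310174) (nat_lit 14) (nat_lit 5) (nat_lit 17) (nat_lit 5) (nat_lit 15) (nat_lit 4) (nat_lit 361) (nat_lit 241) (nat_lit 178)) (XT.lf (nat_lit 0) (nat_lit 10152339575) (nat_lit 228) (nat_lit 11068970276) (nat_lit 76) (nat_lit 6722033045) (nat_lit 14) (nat_lit 5) (nat_lit 17) (nat_lit 5) (nat_lit 15) (nat_lit 4) (nat_lit 362) (nat_lit 241) (nat_lit 177))))))))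
noncomputable def xc22 : XT := (XT.nd (nat_lit 37362) (nat_lit 0) (nat_lit 1368) (XT.nd (nat_lit 36270) (nat_lit 0) (nat_lit 6536) (XT.nd (nat_lit 35724) (nat_lit 0) (nat_lit 12464) (XT.nd (nat_lit 35490) (nat_lit 0) (nat_lit 16492) (XT.nd (nat_lit 78) (nat_lit 0) (nat_lit 0) (XT.lf (nat_lit 0) (nat_lit 912446390) (nat_lit 76) (nat_lit 15252143132) (nat_lit 152) (nat_lit 12479603154) (nat_lit 13) (nat_lit 5) (nat_lit 14) (nat_lit 5) (nat_lit 15) (nat_lit 4) (nat_lit 363) (nat_lit 241) (nat_lit 176)) (XT.nd (nat_lit 35334) (nat_lit 0) (nat_lit 18468) (XT.lf (nat_lit 0) (nat_lit 13321684410) (nat_lit 76) (nat_lit 9064592791) (nat_lit 152) (nat_lit 6979218843) (nat_lit 13) (nat_lit 5) (nat_lit 14) (nat_lit 5) (nat_lit 15) (nat_lit 4) (nat_lit 364) (nat_lit 241) (nat_lit 175)) (XT.lf (nat_lit 0) (nat_lit 522998807) (nat_lit 684) (nat_lit 1729120985) (nat_lit 684) (nat_lit 1729120985) (nat_lit 256)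 (nat_lit 4) (nat_lit 265) (nat_lit 5) (nat_lit 265) (nat_lit 4) (nat_lit 296) (nat_lit 242) (nat_lit 242)))) (XT.nd (nat_lit 78) (nat_lit 1292) (nat_lit 0) (XT.lf (nat_lit 0) (nat_lit 1653872898) (nat_lit 608) (nat_lit 89007925) (nat_lit 684) (nat_lit 6310453368) (nat_lit 247) (nat_lit 5) (nat_lit 255) (nat_lit 5) (nat_lit 256) (nat_lit 4) (nat_lit 297) (nat_lit 242) (nat_lit 241)) (XT.nd (nat_lit 78) (nat_lit 684) (nat_lit 0) (XT.lf (nat_lit 0) (nat_lit 2240607246) (nat_lit 608) (nat_lit 4757023437) (nat_lit 608) (nat_lit 1150041595) (nat_lit 239) (nat_lit 4) (nat_lit 247) (nat_lit 5) (nat_lit 247) (nat_lit 4) (nat_lit 298) (nat_lit 242) (nat_lit 240)) (XT.lf (nat_lit 0) (nat_lit 2820017719) (nat_lit 608) (nat_lit 1215668089) (nat_lit 684) (nat_lit 4210214595) (nat_lit 230) (nat_lit 5) (nat_lit 238) (nat_lit 5) (nat_lit 239) (nat_lit 4) (nat_lit 299) (nat_lit 242) (nat_lit 239))))) (XT.nd (nat_lit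 234) (nat_lit 2204) (nat_lit 0) (XT.nd (nat_lit 78) (nat_lit 1140) (nat_lit 0) (XT.lf (nat_lit 0) (nat_lit 944099374) (nat_lit 684) (nat_lit 4962437079) (nat_lit 76) (nat_lit 2441494210) (nat_lit 221) (nat_lit 5) (nat_lit 230) (nat_lit 5) (nat_lit 222) (nat_lit 4) (nat_lit 300) (nat_lit 242) (nat_lit 238)) (XT.nd (nat_lit 78) (nat_lit 608) (nat_lit 0) (XT.lf (nat_lit 0) (nat_lit 3926794473) (nat_lit 532) (nat_lit 2207110266) (nat_lit 608) (nat_lit 2320097778) (nat_lit 214) (nat_lit 5) (nat_lit 221) (nat_lit 5) (nat_lit 222) (nat_lit 4) (nat_lit 301) (nat_lit 242) (nat_lit 237)) (XT.lf (nat_lit 0) (nat_lit 2820409836) (nat_lit 608) (nat_lit 4117905561) (nat_lit 76) (nat_lit 1625702243) (nat_lit 206) (nat_lit 5) (nat_lit 214) (nat_lit 5) (nat_lit 207) (nat_lit 4) (nat_lit 302) (nat_lit 242) (nat_lit 236)))) (XT.nd (nat_lit 156) (nat_lit 1064) (nat_lit 0) (XT.nd (nat_lit 78) (nat_lit 608) (nat_lit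 0) (XT.lf (nat_lit 0) (nat_lit 4938106873) (nat_lit 532) (nat_lit 3094783930) (nat_lit 608) (nat_lit 645238385) (nat_lit 199) (nat_lit 5) (nat_lit 206) (nat_lit 5) (nat_lit 207) (nat_lit 4) (nat_lit 303) (nat_lit 242) (nat_lit 235)) (XT.lf (nat_lit 0) (nat_lit 4487903654) (nat_lit 608) (nat_lit 3403672814) (nat_lit 76) (nat_lit 904728902) (nat_lit 191) (nat_lit 5) (nat_lit 199) (nat_lit 5) (nat_lit 192) (nat_lit 4) (nat_lit 304) (nat_lit 242) (nat_lit 234))) (XT.nd (nat_lit 78) (nat_lit 532) (nat_lit 0) (XT.lf (nat_lit 0) (nat_lit 796352318) (nat_lit 532) (nat_lit 3108661323) (nat_lit 76) (nat_lit 5013714787) (nat_lit 184) (nat_lit 5) (nat_lit 191) (nat_lit 5) (nat_lit 185) (nat_lit 5) (nat_lit 305) (nat_lit 242) (nat_lit 233)) (XT.lf (nat_lit 0) (nat_lit 5938205552) (nat_lit 608) (nat_lit 2860111513) (nat_lit 76) (nat_lit 247165372) (nat_lit 177) (nat_lit 5) (nat_lit 185) (nat_lit 5) (nat_lit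 178) (nat_lit 4) (nat_lit 306) (nat_lit 242) (nat_lit 232)))))) (XT.nd (nat_lit 546) (nat_lit 2584) (nat_lit 0) (XT.nd (nat_lit 234) (nat_lit 1824) (nat_lit 0) (XT.nd (nat_lit 78) (nat_lit 988) (nat_lit 0) (XT.lf (nat_lit 0) (nat_lit 1999997429) (nat_lit 532) (nat_lit 2672582625) (nat_lit 76) (nat_lit 4503891311) (nat_lit 170) (nat_lit 5) (nat_lit 177) (nat_lit 5) (nat_lit 171) (nat_lit 5) (nat_lit 307) (nat_lit 242) (nat_lit 231)) (XT.nd (nat_lit 78) (nat_lit 532) (nat_lit 0) (XT.lf (nat_lit 0) (nat_lit 6778941897) (nat_lit 456) (nat_lit 384049849) (nat_lit 532) (nat_lit 2149164836) (nat_lit 164) (nat_lit 5) (nat_lit 170) (nat_lit 5) (nat_lit 171) (nat_lit 5) (nat_lit 308) (nat_lit 242) (nat_lit 230)) (XT.lf (nat_lit 0) (nat_lit 2961906889) (nat_lit 532) (nat_lit 2472895628) (nat_lit 76) (nat_lit 4017331440) (nat_lit 157) (nat_lit 5) (nat_lit 164) (nat_lit 5) (nat_lit 158) (nat_lit 5) (nat_lit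 309) (nat_lit 242) (nat_lit 229)))) (XT.nd (nat_lit 156) (nat_lit 912) (nat_lit 0) (XT.nd (nat_lit 78) (nat_lit 456) (nat_lit 0) (XT.lf (nat_lit 0) (nat_lit 7127865683) (nat_lit 456) (nat_lit 1020121315) (nat_lit 532) (nat_lit 1449088347) (nat_lit 151) (nat_lit 5) (nat_lit 157) (nat_lit 5) (nat_lit 158) (nat_lit 5) (nat_lit 310) (nat_lit 242) (nat_lit 228)) (XT.lf (nat_lit 0) (nat_lit 3667123252) (nat_lit 456) (nat_lit 2558722205) (nat_lit 76) (nat_lit 3520637903) (nat_lit 145) (nat_lit 5) (nat_lit 151) (nat_lit 5) (nat_lit 146) (nat_lit 5) (nat_lit 311) (nat_lit 242) (nat_lit 227))) (XT.nd (nat_lit 78) (nat_lit 456) (nat_lit 0) (XT.lf (nat_lit 0) (nat_lit 7183212183) (nat_lit 456) (nat_lit 1692375683) (nat_lit 532) (nat_lit 1025486373) (nat_lit 139) (nat_lit 5) (nat_lit 145) (nat_lit 5) (nat_lit 146) (nat_lit 5) (nat_lit 312) (nat_lit 242) (nat_lit 226)) (XT.lf (nat_lit 0) (nat_lit 4097787839)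 (nat_lit 456) (nat_lit 2983526564) (nat_lit 76) (nat_lit 2979051867) (nat_lit 133) (nat_lit 5) (nat_lit 139) (nat_lit 5) (nat_lit 134) (nat_lit 5) (nat_lit 313) (nat_lit 242) (nat_lit 225))))) (XT.nd (nat_lit 234) (nat_lit 1444) (nat_lit 0) (XT.nd (nat_lit 78) (nat_lit 760) (nat_lit 0) (XT.lf (nat_lit 0) (nat_lit 6889840412) (nat_lit 380) (nat_lit 2436992850) (nat_lit 456) (nat_lit 898204750) (nat_lit 128) (nat_lit 5) (nat_lit 133) (nat_lit 5) (nat_lit 134) (nat_lit 5) (nat_lit 314) (nat_lit 242) (nat_lit 224)) (XT.nd (nat_lit 78) (nat_lit 380) (nat_lit 0) (XT.lf (nat_lit 0) (nat_lit 4232916799) (nat_lit 380) (nat_lit 3805680962) (nat_lit 76) (nat_lit 2356116340) (nat_lit 123) (nat_lit 5) (nat_lit 128) (nat_lit 5) (nat_lit 124) (nat_lit 5) (nat_lit 315) (nat_lit 242) (nat_lit 223)) (XT.lf (nat_lit 0) (nat_lit 6187469623) (nat_lit 380) (nat_lit 3292072343) (nat_lit 456) (nat_lit 1090396632) (nat_lit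 118) (nat_lit 5) (nat_lit 123) (nat_lit 5) (nat_lit 124) (nat_lit 5) (nat_lit 316) (nat_lit 242) (nat_lit 222)))) (XT.nd (nat_lit 156) (nat_lit 684) (nat_lit 0) (XT.nd (nat_lit 78) (nat_lit 380) (nat_lit 0) (XT.lf (nat_lit 0) (nat_lit 4048147102) (nat_lit 380) (nat_lit 5089083407) (nat_lit 76) (nat_lit 1613318267) (nat_lit 113) (nat_lit 5) (nat_lit 118) (nat_lit 5) (nat_lit 114) (nat_lit 5) (nat_lit 317) (nat_lit 242) (nat_lit 221)) (XT.lf (nat_lit 0) (nat_lit 5010037401) (nat_lit 380) (nat_lit 4298007715) (nat_lit 456) (nat_lit 1628796108) (nat_lit 108) (nat_lit 5) (nat_lit 113) (nat_lit 5) (nat_lit 114) (nat_lit 5) (nat_lit 318) (nat_lit 242) (nat_lit 220))) (XT.nd (nat_lit 78) (nat_lit 304) (nat_lit 0) (XT.lf (nat_lit 0) (nat_lit 3515449863) (nat_lit 380) (nat_lit 6903833348) (nat_lit 76) (nat_lit 709706025) (nat_lit 103) (nat_lit 5) (nat_lit 108) (nat_lit 5) (nat_lit 104) (nat_lit 5) (nat_lit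 319) (nat_lit 242) (nat_lit 219)) (XT.lf (nat_lit 0) (nat_lit 3284997076) (nat_lit 304) (nat_lit 5497887714) (nat_lit 380) (nat_lit 2544026449) (nat_lit 99) (nat_lit 5) (nat_lit 103) (nat_lit 5) (nat_lit 104) (nat_lit 5) (nat_lit 320) (nat_lit 242) (nat_lit 218))))))) (XT.nd (nat_lit 1014) (nat_lit 1900) (nat_lit 0) (XT.nd (nat_lit 468) (nat_lit 1672) (nat_lit 0) (XT.nd (nat_lit 234) (nat_lit 836) (nat_lit 0) (XT.nd (nat_lit 78) (nat_lit 380) (nat_lit 0) (XT.lf (nat_lit 0) (nat_lit 2201612489) (nat_lit 304) (nat_lit 403817370) (nat_lit 380) (nat_lit 8925776390) (nat_lit 94) (nat_lit 5) (nat_lit 98) (nat_lit 5) (nat_lit 99) (nat_lit 5) (nat_lit 321) (nat_lit 242) (nat_lit 217)) (XT.nd (nat_lit 78) (nat_lit 76) (nat_lit 0) (XT.lf (nat_lit 0) (nat_lit 932547621) (nat_lit 304) (nat_lit 6937927953) (nat_lit 380) (nat_lit 3870946133) (nat_lit 90) (nat_lit 5) (nat_lit 94) (nat_lit 5) (nat_lit 95) (nat_lit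 5) (nat_lit 322) (nat_lit 242) (nat_lit 216)) (XT.lf (nat_lit 0) (nat_lit 1288646787) (nat_lit 380) (nat_lit 489891000) (nat_lit 76) (nat_lit 10179859057) (nat_lit 89) (nat_lit 5) (nat_lit 94) (nat_lit 5) (nat_lit 90) (nat_lit 5) (nat_lit 323) (nat_lit 242) (nat_lit 215)))) (XT.nd (nat_lit 78) (nat_lit 608) (nat_lit 0) (XT.lf (nat_lit 0) (nat_lit 6546588913) (nat_lit 304) (nat_lit 2107207783) (nat_lit 76) (nat_lit 3527687917) (nat_lit 86) (nat_lit 5) (nat_lit 90) (nat_lit 5) (nat_lit 87) (nat_lit 5) (nat_lit 324) (nat_lit 242) (nat_lit 214)) (XT.nd (nat_lit 78) (nat_lit 304) (nat_lit 0) (XT.lf (nat_lit 0) (nat_lit 8504109886) (nat_lit 304) (nat_lit 3437107773) (nat_lit 380) (nat_lit 470505440) (nat_lit 82) (nat_lit 5) (nat_lit 86) (nat_lit 5) (nat_lit 87) (nat_lit 5) (nat_lit 325) (nat_lit 242) (nat_lit 213)) (XT.lf (nat_lit 0) (nat_lit 4765668620) (nat_lit 304) (nat_lit 5936318034) (nat_lit 76)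 (nat_lit 1946678815) (nat_lit 78) (nat_lit 5) (nat_lit 82) (nat_lit 5) (nat_lit 79) (nat_lit 5) (nat_lit 326) (nat_lit 242) (nat_lit 212))))) (XT.nd (nat_lit 234) (nat_lit 1064) (nat_lit 0) (XT.nd (nat_lit 78) (nat_lit 304) (nat_lit 0) (XT.lf (nat_lit 0) (nat_lit 4703239353) (nat_lit 304) (nat_lit 5440461316) (nat_lit 380) (nat_lit 2749164178) (nat_lit 74) (nat_lit 5) (nat_lit 78) (nat_lit 5) (nat_lit 79) (nat_lit 5) (nat_lit 327) (nat_lit 242) (nat_lit 211)) (XT.nd (nat_lit 78) (nat_lit 0) (nat_lit 0) (XT.lf (nat_lit 0) (nat_lit 2472122506) (nat_lit 228) (nat_lit 1821350) (nat_lit 304) (nat_lit 10670778173) (nat_lit 70) (nat_lit 5) (nat_lit 73) (nat_lit 5) (nat_lit 74) (nat_lit 5) (nat_lit 328) (nat_lit 242) (nat_lit 210)) (XT.lf (nat_lit 0) (nat_lit 7822135625) (nat_lit 304) (nat_lit 34598968) (nat_lit 76) (nat_lit 5546953717) (nat_lit 70) (nat_lit 5) (nat_lit 74) (nat_lit 5) (nat_lit 71) (nat_lit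 5) (nat_lit 329) (nat_lit 242) (nat_lit 209)))) (XT.nd (nat_lit 156) (nat_lit 532) (nat_lit 0) (XT.nd (nat_lit 78) (nat_lit 304) (nat_lit 0) (XT.lf (nat_lit 0) (nat_lit 10927705906) (nat_lit 228) (nat_lit 2389860571) (nat_lit 304) (nat_lit 353151957) (nat_lit 67) (nat_lit 5) (nat_lit 70) (nat_lit 5) (nat_lit 71) (nat_lit 5) (nat_lit 330) (nat_lit 242) (nat_lit 208)) (XT.lf (nat_lit 0) (nat_lit 4957743063) (nat_lit 304) (nat_lit 5755405806) (nat_lit 76) (nat_lit 3232153616) (nat_lit 63) (nat_lit 5) (nat_lit 67) (nat_lit 5) (nat_lit 64) (nat_lit 5) (nat_lit 331) (nat_lit 242) (nat_lit 207))) (XT.nd (nat_lit 78) (nat_lit 304) (nat_lit 0) (XT.lf (nat_lit 0) (nat_lit 5173848589) (nat_lit 228) (nat_lit 5235656419) (nat_lit 304) (nat_lit 3818873990) (nat_lit 60) (nat_lit 5) (nat_lit 63) (nat_lit 5) (nat_lit 64) (nat_lit 5) (nat_lit 332) (nat_lit 242) (nat_lit 206)) (XT.lf (nat_lit 0) (nat_lit 1458211331)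 (nat_lit 304) (nat_lit 12652995498) (nat_lit 76) (nat_lit 409111068) (nat_lit 56) (nat_lit 5) (nat_lit 60) (nat_lit 5) (nat_lit 57) (nat_lit 5) (nat_lit 333) (nat_lit 242) (nat_lit 205)))))) (XT.nd (nat_lit 546) (nat_lit 760) (nat_lit 0) (XT.nd (nat_lit 234) (nat_lit 684) (nat_lit 0) (XT.nd (nat_lit 78) (nat_lit 456) (nat_lit 0) (XT.lf (nat_lit 0) (nat_lit 6858932406) (nat_lit 304) (nat_lit 1774078395) (nat_lit 76) (nat_lit 6187181406) (nat_lit 56) (nat_lit 5) (nat_lit 60) (nat_lit 5) (nat_lit 57) (nat_lit 5) (nat_lit 334) (nat_lit 242) (nat_lit 204)) (XT.nd (nat_lit 78) (nat_lit 228) (nat_lit 0) (XT.lf (nat_lit 0) (nat_lit 9424614447) (nat_lit 228) (nat_lit 2980712799) (nat_lit 304) (nat_lit 2724087928) (nat_lit 53) (nat_lit 5) (nat_lit 56) (nat_lit 5) (nat_lit 57) (nat_lit 5) (nat_lit 335) (nat_lit 242) (nat_lit 203)) (XT.lf (nat_lit 0) (nat_lit 2624631692) (nat_lit 228) (nat_lit 10005754749)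 (nat_lit 76) (nat_lit 2817416845) (nat_lit 50) (nat_lit 5) (nat_lit 53) (nat_lit 5) (nat_lit 51) (nat_lit 5) (nat_lit 336) (nat_lit 242) (nat_lit 202)))) (XT.nd (nat_lit 156) (nat_lit 456) (nat_lit 0) (XT.nd (nat_lit 78) (nat_lit 0) (nat_lit 0) (XT.lf (nat_lit 0) (nat_lit 1073874442) (nat_lit 228) (nat_lit 7013389712) (nat_lit 304) (nat_lit 7688333082) (nat_lit 47) (nat_lit 5) (nat_lit 50) (nat_lit 5) (nat_lit 51) (nat_lit 5) (nat_lit 337) (nat_lit 242) (nat_lit 201)) (XT.lf (nat_lit 0) (nat_lit 12496708479) (nat_lit 228) (nat_lit 1210682067) (nat_lit 304) (nat_lit 2405985012) (nat_lit 47) (nat_lit 5) (nat_lit 50) (nat_lit 5) (nat_lit 51) (nat_lit 5) (nat_lit 338) (nat_lit 242) (nat_lit 200))) (XT.nd (nat_lit 78) (nat_lit 228) (nat_lit 0) (XT.lf (nat_lit 0) (nat_lit 3003964133) (nat_lit 228) (nat_lit 8732887812) (nat_lit 76) (nat_lit 4723884291) (nat_lit 44) (nat_lit 5) (nat_lit 47) (nat_lit 5)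 (nat_lit 45) (nat_lit 5) (nat_lit 339) (nat_lit 242) (nat_lit 199)) (XT.lf (nat_lit 0) (nat_lit 2530444188) (nat_lit 228) (nat_lit 5990933932) (nat_lit 304) (nat_lit 8297285578) (nat_lit 41) (nat_lit 5) (nat_lit 44) (nat_lit 5) (nat_lit 45) (nat_lit 5) (nat_lit 340) (nat_lit 242) (nat_lit 198))))) (XT.nd (nat_lit 234) (nat_lit 380) (nat_lit 0) (XT.nd (nat_lit 78) (nat_lit 380) (nat_lit 0) (XT.lf (nat_lit 0) (nat_lit 14130630072) (nat_lit 228) (nat_lit 62633957) (nat_lit 304) (nat_lit 2994306466) (nat_lit 41) (nat_lit 5) (nat_lit 44) (nat_lit 5) (nat_lit 45) (nat_lit 5) (nat_lit 341) (nat_lit 242) (nat_lit 197)) (XT.nd (nat_lit 78) (nat_lit 152) (nat_lit 0) (XT.lf (nat_lit 0) (nat_lit 2461246538) (nat_lit 228) (nat_lit 9118322567) (nat_lit 76) (nat_lit 5987157467) (nat_lit 38) (nat_lit 5) (nat_lit 41) (nat_lit 5) (nat_lit 39) (nat_lit 5) (nat_lit 342) (nat_lit 242) (nat_lit 196)) (XT.lf (nat_lit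 0) (nat_lit 2276040467) (nat_lit 152) (nat_lit 5732301854) (nat_lit 228) (nat_lit 9949166968) (nat_lit 36) (nat_lit 5) (nat_lit 38) (nat_lit 5) (nat_lit 39) (nat_lit 5) (nat_lit 343) (nat_lit 242) (nat_lit 195)))) (XT.nd (nat_lit 156) (nat_lit 152) (nat_lit 0) (XT.nd (nat_lit 78) (nat_lit 228) (nat_lit 0) (XT.lf (nat_lit 0) (nat_lit 13719118808) (nat_lit 228) (nat_lit 4340297842) (nat_lit 76) (nat_lit 300671877) (nat_lit 36) (nat_lit 5) (nat_lit 39) (nat_lit 5) (nat_lit 37) (nat_lit 4) (nat_lit 344) (nat_lit 242) (nat_lit 194)) (XT.lf (nat_lit 0) (nat_lit 836521066) (nat_lit 228) (nat_lit 11494411884) (nat_lit 76) (nat_lit 6443304640) (nat_lit 33) (nat_lit 5) (nat_lit 36) (nat_lit 5) (nat_lit 34) (nat_lit 5) (nat_lit 345) (nat_lit 242) (nat_lit 193))) (XT.nd (nat_lit 78) (nat_lit 152) (nat_lit 0) (XT.lf (nat_lit 0) (nat_lit 6381109525) (nat_lit 228) (nat_lit 35412688) (nat_lit 76) (nat_lit 12784375866)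 (nat_lit 33) (nat_lit 5) (nat_lit 36) (nat_lit 5) (nat_lit 34) (nat_lit 5) (nat_lit 346) (nat_lit 242) (nat_lit 192)) (XT.lf (nat_lit 0) (nat_lit 11813631831) (nat_lit 152) (nat_lit 292834002) (nat_lit 228) (nat_lit 7533620448) (nat_lit 31) (nat_lit 5) (nat_lit 33) (nat_lit 5) (nat_lit 34) (nat_lit 5) (nat_lit 347) (nat_lit 242) (nat_lit 191))))))))
noncomputable def xc23 : XT := (XT.nd (nat_lit 37206) (nat_lit 0) (nat_lit 4104) (XT.nd (nat_lit 1014) (nat_lit 304) (nat_lit 0) (XT.nd (nat_lit 468) (nat_lit 532) (nat_lit 0) (XT.nd (nat_lit 234) (nat_lit 152) (nat_lit 0) (XT.nd (nat_lit 78) (nat_lit 228) (nat_lit 0) (XT.lf (nat_lit 0) (nat_lit 3829518096) (nat_lit 152) (nat_lit 14176771524) (nat_lit 228) (nat_lit 2086122398) (nat_lit 29) (nat_lit 5) (nat_lit 31) (nat_lit 5) (nat_lit 32) (nat_lit 4) (nat_lit 348) (nat_lit 242) (nat_lit 190)) (XT.nd (nat_lit 78) (nat_lit 152) (nat_lit 0) (XT.lf (nat_lit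 0) (nat_lit 3473153124) (nat_lit 228) (nat_lit 4747056985) (nat_lit 76) (nat_lit 12337763345) (nat_lit 28) (nat_lit 5) (nat_lit 31) (nat_lit 5) (nat_lit 29) (nat_lit 5) (nat_lit 349) (nat_lit 242) (nat_lit 189)) (XT.lf (nat_lit 0) (nat_lit 7089483272) (nat_lit 152) (nat_lit 2068579267) (nat_lit 228) (nat_lit 11879434257) (nat_lit 26) (nat_lit 5) (nat_lit 28) (nat_lit 5) (nat_lit 29) (nat_lit 5) (nat_lit 350) (nat_lit 242) (nat_lit 188)))) (XT.nd (nat_lit 78) (nat_lit 152) (nat_lit 0) (XT.lf (nat_lit 0) (nat_lit 15015382990) (nat_lit 228) (nat_lit 2315588477) (nat_lit 76) (nat_lit 4200411474) (nat_lit 26) (nat_lit 5) (nat_lit 29) (nat_lit 5) (nat_lit 27) (nat_lit 4) (nat_lit 351) (nat_lit 242) (nat_lit 187)) (XT.nd (nat_lit 78) (nat_lit 76) (nat_lit 0) (XT.lf (nat_lit 0) (nat_lit 9678913528) (nat_lit 76) (nat_lit 11389655901) (nat_lit 152) (nat_lit 971127271) (nat_lit 25) (nat_lit 5) (nat_lit 26)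 (nat_lit 5) (nat_lit 27) (nat_lit 4) (nat_lit 352) (nat_lit 242) (nat_lit 186)) (XT.lf (nat_lit 0) (nat_lit 4637817113) (nat_lit 152) (nat_lit 628015795) (nat_lit 76) (nat_lit 17297626880) (nat_lit 24) (nat_lit 5) (nat_lit 26) (nat_lit 5) (nat_lit 25) (nat_lit 5) (nat_lit 353) (nat_lit 242) (nat_lit 185))))) (XT.nd (nat_lit 234) (nat_lit 304) (nat_lit 0) (XT.nd (nat_lit 78) (nat_lit 76) (nat_lit 0) (XT.lf (nat_lit 0) (nat_lit 10429362966) (nat_lit 228) (nat_lit 11604559378) (nat_lit 76) (nat_lit 1068347400) (nat_lit 22) (nat_lit 5) (nat_lit 25) (nat_lit 5) (nat_lit 23) (nat_lit 4) (nat_lit 354) (nat_lit 242) (nat_lit 184)) (XT.nd (nat_lit 78) (nat_lit 0) (nat_lit 0) (XT.lf (nat_lit 0) (nat_lit 210667851) (nat_lit 76) (nat_lit 16171277104) (nat_lit 152) (nat_lit 7275565771) (nat_lit 21) (nat_lit 5) (nat_lit 22) (nat_lit 5) (nat_lit 23) (nat_lit 4) (nat_lit 355) (nat_lit 242) (nat_lit 183)) (XT.lf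 (nat_lit 0) (nat_lit 12445248515) (nat_lit 76) (nat_lit 10093865753) (nat_lit 152) (nat_lit 1689786629) (nat_lit 21) (nat_lit 5) (nat_lit 22) (nat_lit 5) (nat_lit 23) (nat_lit 4) (nat_lit 356) (nat_lit 242) (nat_lit 182)))) (XT.nd (nat_lit 156) (nat_lit 76) (nat_lit 0) (XT.nd (nat_lit 78) (nat_lit 0) (nat_lit 0) (XT.lf (nat_lit 0) (nat_lit 112620202) (nat_lit 152) (nat_lit 3846938985) (nat_lit 228) (nat_lit 20858371739) (nat_lit 18) (nat_lit 5) (nat_lit 20) (nat_lit 5) (nat_lit 21) (nat_lit 5) (nat_lit 357) (nat_lit 242) (nat_lit 181)) (XT.lf (nat_lit 0) (nat_lit 9801945165) (nat_lit 228) (nat_lit 13015764777) (nat_lit 76) (nat_lit 2605779411) (nat_lit 18) (nat_lit 5) (nat_lit 21) (nat_lit 5) (nat_lit 19) (nat_lit 4) (nat_lit 358) (nat_lit 242) (nat_lit 180))) (XT.nd (nat_lit 78) (nat_lit 76) (nat_lit 0) (XT.lf (nat_lit 0) (nat_lit 15796017114) (nat_lit 228) (nat_lit 1089782063) (nat_lit 76) (nat_lit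 9161897975) (nat_lit 18) (nat_lit 5) (nat_lit 21) (nat_lit 5) (nat_lit 19) (nat_lit 4) (nat_lit 359) (nat_lit 242) (nat_lit 179)) (XT.lf (nat_lit 0) (nat_lit 11255654995) (nat_lit 76) (nat_lit 10739459877) (nat_lit 152) (nat_lit 4695022832) (nat_lit 17) (nat_lit 5) (nat_lit 18) (nat_lit 5) (nat_lit 19) (nat_lit 4) (nat_lit 360) (nat_lit 242) (nat_lit 178)))))) (XT.nd (nat_lit 35646) (nat_lit 0) (nat_lit 14060) (XT.nd (nat_lit 234) (nat_lit 76) (nat_lit 0) (XT.nd (nat_lit 78) (nat_lit 152) (nat_lit 0) (XT.lf (nat_lit 0) (nat_lit 974929258) (nat_lit 152) (nat_lit 3457247112) (nat_lit 76) (nat_lit 22920350010) (nat_lit 16) (nat_lit 5) (nat_lit 18) (nat_lit 5) (nat_lit 17) (nat_lit 5) (nat_lit 361) (nat_lit 242) (nat_lit 177)) (XT.nd (nat_lit 78) (nat_lit 0) (nat_lit 0) (XT.lf (nat_lit 0) (nat_lit 6777004140) (nat_lit 228) (nat_lit 19166005040) (nat_lit 76) (nat_lit 2090650418) (nat_lit 14) (nat_lit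 5) (nat_lit 17) (nat_lit 5) (nat_lit 15) (nat_lit 4) (nat_lit 362) (nat_lit 242) (nat_lit 176)) (XT.lf (nat_lit 0) (nat_lit 12760966906) (nat_lit 228) (nat_lit 7236971345) (nat_lit 76) (nat_lit 8737141550) (nat_lit 14) (nat_lit 5) (nat_lit 17) (nat_lit 5) (nat_lit 15) (nat_lit 4) (nat_lit 363) (nat_lit 242) (nat_lit 175)))) (XT.nd (nat_lit 35256) (nat_lit 0) (nat_lit 18468) (XT.nd (nat_lit 35178) (nat_lit 0) (nat_lit 20672) (XT.lf (nat_lit 0) (nat_lit 5036330764) (nat_lit 76) (nat_lit 13876742392) (nat_lit 152) (nat_lit 10544706187) (nat_lit 13) (nat_lit 5) (nat_lit 14) (nat_lit 5) (nat_lit 15) (nat_lit 4) (nat_lit 364) (nat_lit 242) (nat_lit 174)) (XT.lf (nat_lit 0) (nat_lit 1928814216) (nat_lit 760) (nat_lit 37729957) (nat_lit 0) (nat_lit 1928814216) (nat_lit 285) (nat_lit 5) (nat_lit 295) (nat_lit 4) (nat_lit 285) (nat_lit 4) (nat_lit 294) (nat_lit 243) (nat_lit 243))) (XT.nd (nat_lit 78) (nat_lit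 684) (nat_lit 0) (XT.lf (nat_lit 0) (nat_lit 449483244) (nat_lit 684) (nat_lit 743926150) (nat_lit 760) (nat_lit 6682214415) (nat_lit 265) (nat_lit 5) (nat_lit 274) (nat_lit 5) (nat_lit 275) (nat_lit 4) (nat_lit 295) (nat_lit 243) (nat_lit 242)) (XT.lf (nat_lit 0) (nat_lit 961488035) (nat_lit 684) (nat_lit 5395967749) (nat_lit 684) (nat_lit 1606472625) (nat_lit 256) (nat_lit 4) (nat_lit 265) (nat_lit 5) (nat_lit 265) (nat_lit 4) (nat_lit 296) (nat_lit 243) (nat_lit 241))))) (XT.nd (nat_lit 234) (nat_lit 2432) (nat_lit 0) (XT.nd (nat_lit 78) (nat_lit 1292) (nat_lit 0) (XT.lf (nat_lit 0) (nat_lit 1470482933) (nat_lit 608) (nat_lit 2030682002) (nat_lit 684) (nat_lit 4554813128) (nat_lit 247) (nat_lit 5) (nat_lit 255) (nat_lit 5) (nat_lit 256) (nat_lit 4) (nat_lit 297) (nat_lit 243) (nat_lit 240)) (XT.nd (nat_lit 78) (nat_lit 608) (nat_lit 0) (XT.lf (nat_lit 0) (nat_lit 516119816) (nat_lit 684) (nat_lit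 6174553387) (nat_lit 76) (nat_lit 1461245953) (nat_lit 238) (nat_lit 5) (nat_lit 247) (nat_lit 5) (nat_lit 239) (nat_lit 4) (nat_lit 298) (nat_lit 243) (nat_lit 239)) (XT.lf (nat_lit 0) (nat_lit 2457790823) (nat_lit 608) (nat_lit 3160895709) (nat_lit 684) (nat_lit 2632722403) (nat_lit 230) (nat_lit 5) (nat_lit 238) (nat_lit 5) (nat_lit 239) (nat_lit 4) (nat_lit 299) (nat_lit 243) (nat_lit 238)))) (XT.nd (nat_lit 156) (nat_lit 1216) (nat_lit 0) (XT.nd (nat_lit 78) (nat_lit 532) (nat_lit 0) (XT.lf (nat_lit 0) (nat_lit 2420369537) (nat_lit 684) (nat_lit 5422632716) (nat_lit 76) (nat_lit 511989814) (nat_lit 221) (nat_lit 5) (nat_lit 230) (nat_lit 5) (nat_lit 222) (nat_lit 4) (nat_lit 300) (nat_lit 243) (nat_lit 237)) (XT.lf (nat_lit 0) (nat_lit 3377432805) (nat_lit 532) (nat_lit 4165614216) (nat_lit 608) (nat_lit 919305142) (nat_lit 214) (nat_lit 5) (nat_lit 221) (nat_lit 5) (nat_lit 222) (nat_lit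 4) (nat_lit 301) (nat_lit 243) (nat_lit 236))) (XT.nd (nat_lit 78) (nat_lit 608) (nat_lit 0) (XT.lf (nat_lit 0) (nat_lit 3800091531) (nat_lit 532) (nat_lit 325089465) (nat_lit 608) (nat_lit 4448600873) (nat_lit 206) (nat_lit 5) (nat_lit 213) (nat_lit 5) (nat_lit 214) (nat_lit 5) (nat_lit 302) (nat_lit 243) (nat_lit 235)) (XT.lf (nat_lit 0) (nat_lit 572299466) (nat_lit 608) (nat_lit 4499738258) (nat_lit 76) (nat_lit 3617191655) (nat_lit 198) (nat_lit 5) (nat_lit 206) (nat_lit 5) (nat_lit 199) (nat_lit 5) (nat_lit 303) (nat_lit 243) (nat_lit 234))))))) (XT.nd (nat_lit 1014) (nat_lit 3876) (nat_lit 0) (XT.nd (nat_lit 468) (nat_lit 2964) (nat_lit 0) (XT.nd (nat_lit 234) (nat_lit 1520) (nat_lit 0) (XT.nd (nat_lit 78) (nat_lit 1064) (nat_lit 0) (XT.lf (nat_lit 0) (nat_lit 4542711672) (nat_lit 532) (nat_lit 1082084180) (nat_lit 608) (nat_lit 3184009771) (nat_lit 191) (nat_lit 5) (nat_lit 198) (nat_lit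 5) (nat_lit 199) (nat_lit 5) (nat_lit 304) (nat_lit 243) (nat_lit 233)) (XT.nd (nat_lit 78) (nat_lit 532) (nat_lit 0) (XT.lf (nat_lit 0) (nat_lit 1832740315) (nat_lit 532) (nat_lit 4077953974) (nat_lit 76) (nat_lit 3021891784) (nat_lit 184) (nat_lit 5) (nat_lit 191) (nat_lit 5) (nat_lit 185) (nat_lit 5) (nat_lit 305) (nat_lit 243) (nat_lit 232)) (XT.lf (nat_lit 0) (nat_lit 5123635380) (nat_lit 532) (nat_lit 1783670209) (nat_lit 608) (nat_lit 2153417387) (nat_lit 177) (nat_lit 5) (nat_lit 184) (nat_lit 5) (nat_lit 185) (nat_lit 5) (nat_lit 306) (nat_lit 243) (nat_lit 231)))) (XT.nd (nat_lit 78) (nat_lit 988) (nat_lit 0) (XT.lf (nat_lit 0) (nat_lit 2863990519) (nat_lit 532) (nat_lit 3855598783) (nat_lit 76) (nat_lit 2473581213) (nat_lit 170) (nat_lit 5) (nat_lit 177) (nat_lit 5) (nat_lit 171) (nat_lit 5) (nat_lit 307) (nat_lit 243) (nat_lit 230)) (XT.nd (nat_lit 78) (nat_lit 532) (nat_lit 0) (XT.lf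 (nat_lit 0) (nat_lit 5499750872) (nat_lit 456) (nat_lit 2461993357) (nat_lit 532) (nat_lit 1368450632) (nat_lit 164) (nat_lit 5) (nat_lit 170) (nat_lit 5) (nat_lit 171) (nat_lit 5) (nat_lit 308) (nat_lit 243) (nat_lit 229)) (XT.lf (nat_lit 0) (nat_lit 3653443333) (nat_lit 532) (nat_lit 3878047993) (nat_lit 76) (nat_lit 1940190969) (nat_lit 157) (nat_lit 5) (nat_lit 164) (nat_lit 5) (nat_lit 158) (nat_lit 5) (nat_lit 309) (nat_lit 243) (nat_lit 228))))) (XT.nd (nat_lit 234) (nat_lit 1596) (nat_lit 0) (XT.nd (nat_lit 78) (nat_lit 912) (nat_lit 0) (XT.lf (nat_lit 0) (nat_lit 5624399368) (nat_lit 456) (nat_lit 3150162336) (nat_lit 532) (nat_lit 843392925) (nat_lit 151) (nat_lit 5) (nat_lit 157) (nat_lit 5) (nat_lit 158) (nat_lit 5) (nat_lit 310) (nat_lit 243) (nat_lit 227)) (XT.nd (nat_lit 78) (nat_lit 456) (nat_lit 0) (XT.lf (nat_lit 0) (nat_lit 4185796896) (nat_lit 456) (nat_lit 4194527887) (nat_lit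 76) (nat_lit 1388570955) (nat_lit 145) (nat_lit 5) (nat_lit 151) (nat_lit 5) (nat_lit 146) (nat_lit 5) (nat_lit 311) (nat_lit 243) (nat_lit 226)) (XT.lf (nat_lit 0) (nat_lit 5446880851) (nat_lit 456) (nat_lit 3882560323) (nat_lit 532) (nat_lit 595371158) (nat_lit 139) (nat_lit 5) (nat_lit 145) (nat_lit 5) (nat_lit 146) (nat_lit 5) (nat_lit 312) (nat_lit 243) (nat_lit 225)))) (XT.nd (nat_lit 156) (nat_lit 760) (nat_lit 0) (XT.nd (nat_lit 78) (nat_lit 380) (nat_lit 0) (XT.lf (nat_lit 0) (nat_lit 4442856616) (nat_lit 456) (nat_lit 4858634057) (nat_lit 76) (nat_lit 784173840) (nat_lit 133) (nat_lit 5) (nat_lit 139) (nat_lit 5) (nat_lit 134) (nat_lit 5) (nat_lit 313) (nat_lit 243) (nat_lit 224)) (XT.lf (nat_lit 0) (nat_lit 4911916148) (nat_lit 380) (nat_lit 4695173817) (nat_lit 456) (nat_lit 644569614) (nat_lit 128) (nat_lit 5) (nat_lit 133) (nat_lit 5) (nat_lit 134) (nat_lit 5) (nat_lit 314) (nat_lit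 243) (nat_lit 223))) (XT.nd (nat_lit 78) (nat_lit 380) (nat_lit 0) (XT.lf (nat_lit 0) (nat_lit 4403309929) (nat_lit 380) (nat_lit 5928896383) (nat_lit 76) (nat_lit 90720508) (nat_lit 123) (nat_lit 5) (nat_lit 128) (nat_lit 5) (nat_lit 124) (nat_lit 5) (nat_lit 315) (nat_lit 243) (nat_lit 222)) (XT.lf (nat_lit 0) (nat_lit 3959060165) (nat_lit 380) (nat_lit 5625941776) (nat_lit 456) (nat_lit 1014473068) (nat_lit 118) (nat_lit 5) (nat_lit 123) (nat_lit 5) (nat_lit 124) (nat_lit 5) (nat_lit 316) (nat_lit 243) (nat_lit 221)))))) (XT.nd (nat_lit 546) (nat_lit 1672) (nat_lit 0) (XT.nd (nat_lit 234) (nat_lit 1064) (nat_lit 0) (XT.nd (nat_lit 78) (nat_lit 760) (nat_lit 0) (XT.lf (nat_lit 0) (nat_lit 3307415376) (nat_lit 304) (nat_lit 739859369) (nat_lit 380) (nat_lit 6734340409) (nat_lit 113) (nat_lit 5) (nat_lit 117) (nat_lit 5) (nat_lit 118) (nat_lit 5) (nat_lit 317) (nat_lit 243) (nat_lit 220)) (XT.nd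 (nat_lit 78) (nat_lit 380) (nat_lit 0) (XT.lf (nat_lit 0) (nat_lit 2522060559) (nat_lit 380) (nat_lit 6715128232) (nat_lit 456) (nat_lit 1732141617) (nat_lit 108) (nat_lit 5) (nat_lit 113) (nat_lit 5) (nat_lit 114) (nat_lit 5) (nat_lit 318) (nat_lit 243) (nat_lit 219)) (XT.lf (nat_lit 0) (nat_lit 1601164771) (nat_lit 304) (nat_lit 1742139670) (nat_lit 380) (nat_lit 7819612518) (nat_lit 103) (nat_lit 5) (nat_lit 107) (nat_lit 5) (nat_lit 108) (nat_lit 5) (nat_lit 319) (nat_lit 243) (nat_lit 218)))) (XT.nd (nat_lit 156) (nat_lit 684) (nat_lit 0) (XT.nd (nat_lit 78) (nat_lit 76) (nat_lit 0) (XT.lf (nat_lit 0) (nat_lit 528155658) (nat_lit 304) (nat_lit 8005721832) (nat_lit 380) (nat_lit 2828520083) (nat_lit 99) (nat_lit 5) (nat_lit 103) (nat_lit 5) (nat_lit 104) (nat_lit 5) (nat_lit 320) (nat_lit 243) (nat_lit 217)) (XT.lf (nat_lit 0) (nat_lit 2263306332) (nat_lit 380) (nat_lit 691263937) (nat_lit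 76) (nat_lit 8613406823) (nat_lit 98) (nat_lit 5) (nat_lit 103) (nat_lit 5) (nat_lit 99) (nat_lit 5) (nat_lit 321) (nat_lit 243) (nat_lit 216))) (XT.nd (nat_lit 78) (nat_lit 380) (nat_lit 0) (XT.lf (nat_lit 0) (nat_lit 7454822897) (nat_lit 380) (nat_lit 2075118021) (nat_lit 76) (nat_lit 2249741966) (nat_lit 94) (nat_lit 5) (nat_lit 99) (nat_lit 5) (nat_lit 95) (nat_lit 5) (nat_lit 322) (nat_lit 243) (nat_lit 215)) (XT.lf (nat_lit 0) (nat_lit 781170959) (nat_lit 380) (nat_lit 3633173323) (nat_lit 76) (nat_lit 7583581784) (nat_lit 89) (nat_lit 5) (nat_lit 94) (nat_lit 5) (nat_lit 90) (nat_lit 5) (nat_lit 323) (nat_lit 243) (nat_lit 214))))) (XT.nd (nat_lit 234) (nat_lit 836) (nat_lit 0) (XT.nd (nat_lit 78) (nat_lit 608) (nat_lit 0) (XT.lf (nat_lit 0) (nat_lit 5956108623) (nat_lit 304) (nat_lit 5387065460) (nat_lit 76) (nat_lit 879518092) (nat_lit 86) (nat_lit 5) (nat_lit 90) (nat_lit 5) (nat_lit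 87) (nat_lit 5) (nat_lit 324) (nat_lit 243) (nat_lit 213)) (XT.nd (nat_lit 78) (nat_lit 304) (nat_lit 0) (XT.lf (nat_lit 0) (nat_lit 5109724201) (nat_lit 304) (nat_lit 6175212800) (nat_lit 380) (nat_lit 1169327389) (nat_lit 82) (nat_lit 5) (nat_lit 86) (nat_lit 5) (nat_lit 87) (nat_lit 5) (nat_lit 325) (nat_lit 243) (nat_lit 212)) (XT.lf (nat_lit 0) (nat_lit 3177017455) (nat_lit 228) (nat_lit 819913131) (nat_lit 304) (nat_lit 8695965411) (nat_lit 78) (nat_lit 5) (nat_lit 81) (nat_lit 5) (nat_lit 82) (nat_lit 5) (nat_lit 326) (nat_lit 243) (nat_lit 211)))) (XT.nd (nat_lit 156) (nat_lit 456) (nat_lit 0) (XT.nd (nat_lit 78) (nat_lit 76) (nat_lit 0) (XT.lf (nat_lit 0) (nat_lit 1011549950) (nat_lit 304) (nat_lit 8291532039) (nat_lit 380) (nat_lit 3635467374) (nat_lit 74) (nat_lit 5) (nat_lit 78) (nat_lit 5) (nat_lit 79) (nat_lit 5) (nat_lit 327) (nat_lit 243) (nat_lit 210)) (XT.lf (nat_lit 0) (nat_lit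 1541132745) (nat_lit 380) (nat_lit 1360409232) (nat_lit 76) (nat_lit 10290157883) (nat_lit 73) (nat_lit 5) (nat_lit 78) (nat_lit 5) (nat_lit 74) (nat_lit 5) (nat_lit 328) (nat_lit 243) (nat_lit 209))) (XT.nd (nat_lit 78) (nat_lit 228) (nat_lit 0) (XT.lf (nat_lit 0) (nat_lit 6820025826) (nat_lit 304) (nat_lit 3981530897) (nat_lit 76) (nat_lit 2650510526) (nat_lit 70) (nat_lit 5) (nat_lit 74) (nat_lit 5) (nat_lit 71) (nat_lit 5) (nat_lit 329) (nat_lit 243) (nat_lit 208)) (XT.lf (nat_lit 0) (nat_lit 6861374949) (nat_lit 228) (nat_lit 5387425608) (nat_lit 304) (nat_lit 1471644630) (nat_lit 67) (nat_lit 5) (nat_lit 70) (nat_lit 5) (nat_lit 71) (nat_lit 5) (nat_lit 330) (nat_lit 243) (nat_lit 207))))))))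
noncomputable def xc24 : XT := (XT.nd (nat_lit 2028) (nat_lit 532) (nat_lit 0) (XT.nd (nat_lit 1014) (nat_lit 1292) (nat_lit 0) (XT.nd (nat_lit 468) (nat_lit 912) (nat_lit 0) (XT.nd (nat_lit 234) (nat_lit 684) (nat_lit 0) (XT.nd (nat_lit 78) (nat_lit 304) (nat_lit 0) (XT.lf (nat_lit 0) (nat_lit 3766817475) (nat_lit 304) (nat_lit 10016586800) (nat_lit 76) (nat_lit 213526230) (nat_lit 63) (nat_lit 5) (nat_lit 67) (nat_lit 5) (nat_lit 64) (nat_lit 5) (nat_lit 331) (nat_lit 243) (nat_lit 206)) (XT.nd (nat_lit 78) (nat_lit 76) (nat_lit 0) (XT.lf (nat_lit 0) (nat_lit 790068469) (nat_lit 228) (nat_lit 8360843392) (nat_lit 304) (nat_lit 5130462087) (nat_lit 60) (nat_lit 5) (nat_lit 63) (nat_lit 5) (nat_lit 64) (nat_lit 5) (nat_lit 332) (nat_lit 243) (nat_lit 205)) (XT.lf (nat_lit 0) (nat_lit 110244767) (nat_lit 304) (nat_lit 2647294554) (nat_lit 76) (nat_lit 11817028366) (nat_lit 59) (nat_lit 5) (nat_lit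 63) (nat_lit 5) (nat_lit 60) (nat_lit 5) (nat_lit 333) (nat_lit 243) (nat_lit 204)))) (XT.nd (nat_lit 78) (nat_lit 456) (nat_lit 0) (XT.lf (nat_lit 0) (nat_lit 5437333904) (nat_lit 304) (nat_lit 6424592099) (nat_lit 76) (nat_lit 3014001180) (nat_lit 56) (nat_lit 5) (nat_lit 60) (nat_lit 5) (nat_lit 57) (nat_lit 5) (nat_lit 334) (nat_lit 243) (nat_lit 203)) (XT.nd (nat_lit 78) (nat_lit 228) (nat_lit 0) (XT.lf (nat_lit 0) (nat_lit 4649201810) (nat_lit 228) (nat_lit 6266437894) (nat_lit 304) (nat_lit 4270884409) (nat_lit 53) (nat_lit 5) (nat_lit 56) (nat_lit 5) (nat_lit 57) (nat_lit 5) (nat_lit 335) (nat_lit 243) (nat_lit 202)) (XT.lf (nat_lit 0) (nat_lit 511810202) (nat_lit 152) (nat_lit 498988503) (nat_lit 228) (nat_lit 14496072431) (nat_lit 50) (nat_lit 5) (nat_lit 52) (nat_lit 5) (nat_lit 53) (nat_lit 5) (nat_lit 336) (nat_lit 243) (nat_lit 201))))) (XT.nd (nat_lit 234) (nat_lit 456) (nat_lit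 0) (XT.nd (nat_lit 78) (nat_lit 456) (nat_lit 0) (XT.lf (nat_lit 0) (nat_lit 6427077136) (nat_lit 228) (nat_lit 3987601146) (nat_lit 76) (nat_lit 5420925143) (nat_lit 50) (nat_lit 5) (nat_lit 53) (nat_lit 5) (nat_lit 51) (nat_lit 5) (nat_lit 337) (nat_lit 243) (nat_lit 200)) (XT.nd (nat_lit 78) (nat_lit 228) (nat_lit 0) (XT.lf (nat_lit 0) (nat_lit 7321909584) (nat_lit 228) (nat_lit 4663578736) (nat_lit 304) (nat_lit 4189138660) (nat_lit 47) (nat_lit 5) (nat_lit 50) (nat_lit 5) (nat_lit 51) (nat_lit 5) (nat_lit 338) (nat_lit 243) (nat_lit 199)) (XT.lf (nat_lit 0) (nat_lit 1151867206) (nat_lit 228) (nat_lit 14126619016) (nat_lit 76) (nat_lit 1245589981) (nat_lit 44) (nat_lit 5) (nat_lit 47) (nat_lit 5) (nat_lit 45) (nat_lit 5) (nat_lit 339) (nat_lit 243) (nat_lit 198)))) (XT.nd (nat_lit 156) (nat_lit 228) (nat_lit 0) (XT.nd (nat_lit 78) (nat_lit 228) (nat_lit 0) (XT.lf (nat_lit 0) (nat_lit 6618642809)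 (nat_lit 228) (nat_lit 2955095799) (nat_lit 76) (nat_lit 7309287924) (nat_lit 44) (nat_lit 5) (nat_lit 47) (nat_lit 5) (nat_lit 45) (nat_lit 5) (nat_lit 340) (nat_lit 243) (nat_lit 197)) (XT.lf (nat_lit 0) (nat_lit 8548147928) (nat_lit 228) (nat_lit 3689352251) (nat_lit 304) (nat_lit 5015503526) (nat_lit 41) (nat_lit 5) (nat_lit 44) (nat_lit 5) (nat_lit 45) (nat_lit 5) (nat_lit 341) (nat_lit 243) (nat_lit 196))) (XT.nd (nat_lit 78) (nat_lit 0) (nat_lit 0) (XT.lf (nat_lit 0) (nat_lit 372246175) (nat_lit 228) (nat_lit 14928260215) (nat_lit 76) (nat_lit 2333811419) (nat_lit 38) (nat_lit 5) (nat_lit 41) (nat_lit 5) (nat_lit 39) (nat_lit 5) (nat_lit 342) (nat_lit 243) (nat_lit 195)) (XT.lf (nat_lit 0) (nat_lit 5872174887) (nat_lit 228) (nat_lit 3619771357) (nat_lit 76) (nat_lit 8534106685) (nat_lit 38) (nat_lit 5) (nat_lit 41) (nat_lit 5) (nat_lit 39) (nat_lit 5) (nat_lit 343) (nat_lit 243) (nat_lit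 194)))))) (XT.nd (nat_lit 468) (nat_lit 532) (nat_lit 0) (XT.nd (nat_lit 234) (nat_lit 380) (nat_lit 0) (XT.nd (nat_lit 78) (nat_lit 228) (nat_lit 0) (XT.lf (nat_lit 0) (nat_lit 8022777088) (nat_lit 152) (nat_lit 3502577931) (nat_lit 228) (nat_lit 6904437872) (nat_lit 36) (nat_lit 5) (nat_lit 38) (nat_lit 5) (nat_lit 39) (nat_lit 5) (nat_lit 344) (nat_lit 243) (nat_lit 193)) (XT.nd (nat_lit 78) (nat_lit 76) (nat_lit 0) (XT.lf (nat_lit 0) (nat_lit 1106435094) (nat_lit 152) (nat_lit 16227902941) (nat_lit 228) (nat_lit 1511600206) (nat_lit 34) (nat_lit 5) (nat_lit 36) (nat_lit 5) (nat_lit 37) (nat_lit 4) (nat_lit 345) (nat_lit 243) (nat_lit 192)) (XT.lf (nat_lit 0) (nat_lit 4022137427) (nat_lit 228) (nat_lit 6324217994) (nat_lit 76) (nat_lit 8927061239) (nat_lit 33) (nat_lit 5) (nat_lit 36) (nat_lit 5) (nat_lit 34) (nat_lit 5) (nat_lit 346) (nat_lit 243) (nat_lit 191)))) (XT.nd (nat_lit 78) (nat_lit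 228) (nat_lit 0) (XT.lf (nat_lit 0) (nat_lit 5388591693) (nat_lit 152) (nat_lit 4287404156) (nat_lit 228) (nat_lit 10038046866) (nat_lit 31) (nat_lit 5) (nat_lit 33) (nat_lit 5) (nat_lit 34) (nat_lit 5) (nat_lit 347) (nat_lit 243) (nat_lit 190)) (XT.nd (nat_lit 78) (nat_lit 228) (nat_lit 0) (XT.lf (nat_lit 0) (nat_lit 15495631646) (nat_lit 228) (nat_lit 2745344572) (nat_lit 76) (nat_lit 1927003657) (nat_lit 31) (nat_lit 5) (nat_lit 34) (nat_lit 5) (nat_lit 32) (nat_lit 4) (nat_lit 348) (nat_lit 243) (nat_lit 189)) (XT.lf (nat_lit 0) (nat_lit 873604264) (nat_lit 228) (nat_lit 11468555223) (nat_lit 76) (nat_lit 8292669784) (nat_lit 28) (nat_lit 5) (nat_lit 31) (nat_lit 5) (nat_lit 29) (nat_lit 5) (nat_lit 349) (nat_lit 243) (nat_lit 188))))) (XT.nd (nat_lit 234) (nat_lit 304) (nat_lit 0) (XT.nd (nat_lit 78) (nat_lit 76) (nat_lit 0) (XT.lf (nat_lit 0) (nat_lit 228356034) (nat_lit 152) (nat_lit 6257396331)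 (nat_lit 228) (nat_lit 14630062558) (nat_lit 26) (nat_lit 5) (nat_lit 28) (nat_lit 5) (nat_lit 29) (nat_lit 5) (nat_lit 350) (nat_lit 243) (nat_lit 187)) (XT.nd (nat_lit 78) (nat_lit 76) (nat_lit 0) (XT.lf (nat_lit 0) (nat_lit 12288029410) (nat_lit 228) (nat_lit 9277099813) (nat_lit 76) (nat_lit 45679587) (nat_lit 26) (nat_lit 5) (nat_lit 29) (nat_lit 5) (nat_lit 27) (nat_lit 4) (nat_lit 351) (nat_lit 243) (nat_lit 186)) (XT.lf (nat_lit 0) (nat_lit 2576424046) (nat_lit 76) (nat_lit 15691641977) (nat_lit 152) (nat_lit 3852526219) (nat_lit 25) (nat_lit 5) (nat_lit 26) (nat_lit 5) (nat_lit 27) (nat_lit 4) (nat_lit 352) (nat_lit 243) (nat_lit 185)))) (XT.nd (nat_lit 156) (nat_lit 76) (nat_lit 0) (XT.nd (nat_lit 78) (nat_lit 152) (nat_lit 0) (XT.lf (nat_lit 0) (nat_lit 1767472186) (nat_lit 152) (nat_lit 7840106298) (nat_lit 76) (nat_lit 13037692078) (nat_lit 24) (nat_lit 5) (nat_lit 26) (nat_lit 5)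 (nat_lit 25) (nat_lit 5) (nat_lit 353) (nat_lit 243) (nat_lit 184)) (XT.lf (nat_lit 0) (nat_lit 4150299943) (nat_lit 152) (nat_lit 3327981360) (nat_lit 228) (nat_lit 15707420118) (nat_lit 22) (nat_lit 5) (nat_lit 24) (nat_lit 5) (nat_lit 25) (nat_lit 5) (nat_lit 354) (nat_lit 243) (nat_lit 183))) (XT.nd (nat_lit 78) (nat_lit 76) (nat_lit 0) (XT.lf (nat_lit 0) (nat_lit 13382264233) (nat_lit 228) (nat_lit 7247002775) (nat_lit 76) (nat_lit 3112653366) (nat_lit 22) (nat_lit 5) (nat_lit 25) (nat_lit 5) (nat_lit 23) (nat_lit 4) (nat_lit 355) (nat_lit 243) (nat_lit 182)) (XT.lf (nat_lit 0) (nat_lit 4846336986) (nat_lit 76) (nat_lit 14620249703) (nat_lit 152) (nat_lit 4848186608) (nat_lit 21) (nat_lit 5) (nat_lit 22) (nat_lit 5) (nat_lit 23) (nat_lit 4) (nat_lit 356) (nat_lit 243) (nat_lit 181))))))) (XT.nd (nat_lit 35958) (nat_lit 0) (nat_lit 10412) (XT.nd (nat_lit 468) (nat_lit 0) (nat_lit 0) (XT.nd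 (nat_lit 234) (nat_lit 304) (nat_lit 0) (XT.nd (nat_lit 78) (nat_lit 152) (nat_lit 0) (XT.lf (nat_lit 0) (nat_lit 817247464) (nat_lit 152) (nat_lit 7597090184) (nat_lit 76) (nat_lit 16490388035) (nat_lit 20) (nat_lit 5) (nat_lit 22) (nat_lit 5) (nat_lit 21) (nat_lit 5) (nat_lit 357) (nat_lit 243) (nat_lit 180)) (XT.nd (nat_lit 78) (nat_lit 0) (nat_lit 0) (XT.lf (nat_lit 0) (nat_lit 4571296290) (nat_lit 152) (nat_lit 1997045333) (nat_lit 228) (nat_lit 18943773697) (nat_lit 18) (nat_lit 5) (nat_lit 20) (nat_lit 5) (nat_lit 21) (nat_lit 5) (nat_lit 358) (nat_lit 243) (nat_lit 179)) (XT.lf (nat_lit 0) (nat_lit 12525863426) (nat_lit 228) (nat_lit 9044207650) (nat_lit 76) (nat_lit 4566988264) (nat_lit 18) (nat_lit 5) (nat_lit 21) (nat_lit 5) (nat_lit 19) (nat_lit 4) (nat_lit 359) (nat_lit 243) (nat_lit 178)))) (XT.nd (nat_lit 78) (nat_lit 228) (nat_lit 0) (XT.lf (nat_lit 0) (nat_lit 3153868679) (nat_lit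 76) (nat_lit 15495593243) (nat_lit 152) (nat_lit 8131553019) (nat_lit 17) (nat_lit 5) (nat_lit 18) (nat_lit 5) (nat_lit 19) (nat_lit 4) (nat_lit 360) (nat_lit 243) (nat_lit 177)) (XT.nd (nat_lit 78) (nat_lit 228) (nat_lit 0) (XT.lf (nat_lit 0) (nat_lit 15759597765) (nat_lit 76) (nat_lit 9212796769) (nat_lit 152) (nat_lit 2471592136) (nat_lit 17) (nat_lit 5) (nat_lit 18) (nat_lit 5) (nat_lit 19) (nat_lit 4) (nat_lit 361) (nat_lit 243) (nat_lit 176)) (XT.lf (nat_lit 0) (nat_lit 521385974) (nat_lit 152) (nat_lit 2751490331) (nat_lit 228) (nat_lit 24854369644) (nat_lit 14) (nat_lit 5) (nat_lit 16) (nat_lit 5) (nat_lit 17) (nat_lit 5) (nat_lit 362) (nat_lit 243) (nat_lit 175))))) (XT.nd (nat_lit 35178) (nat_lit 0) (nat_lit 18316) (XT.nd (nat_lit 78) (nat_lit 0) (nat_lit 0) (XT.lf (nat_lit 0) (nat_lit 9217262947) (nat_lit 228) (nat_lit 15698200686) (nat_lit 76) (nat_lit 3913998586) (nat_lit 14) (nat_lit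 5) (nat_lit 17) (nat_lit 5) (nat_lit 15) (nat_lit 4) (nat_lit 363) (nat_lit 243) (nat_lit 174)) (XT.nd (nat_lit 35022) (nat_lit 0) (nat_lit 22116) (XT.lf (nat_lit 0) (nat_lit 15315590751) (nat_lit 228) (nat_lit 3529046985) (nat_lit 76) (nat_lit 10708604005) (nat_lit 14) (nat_lit 5) (nat_lit 17) (nat_lit 5) (nat_lit 15) (nat_lit 4) (nat_lit 364) (nat_lit 243) (nat_lit 173)) (XT.lf (nat_lit 0) (nat_lit 1655610296) (nat_lit 836) (nat_lit 503995006) (nat_lit 0) (nat_lit 1655610296) (nat_lit 305) (nat_lit 5) (nat_lit 316) (nat_lit 4) (nat_lit 305) (nat_lit 4) (nat_lit 292) (nat_lit 244) (nat_lit 244)))) (XT.nd (nat_lit 156) (nat_lit 2280) (nat_lit 0) (XT.nd (nat_lit 78) (nat_lit 684) (nat_lit 0) (XT.lf (nat_lit 0) (nat_lit 733460855) (nat_lit 836) (nat_lit 578849713) (nat_lit 76) (nat_lit 6397316936) (nat_lit 294) (nat_lit 5) (nat_lit 305) (nat_lit 5) (nat_lit 295) (nat_lit 4) (nat_lit 293) (nat_lit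 244) (nat_lit 243)) (XT.lf (nat_lit 0) (nat_lit 5808307812) (nat_lit 760) (nat_lit 156790987) (nat_lit 0) (nat_lit 1827064235) (nat_lit 285) (nat_lit 5) (nat_lit 295) (nat_lit 4) (nat_lit 285) (nat_lit 4) (nat_lit 294) (nat_lit 244) (nat_lit 242))) (XT.nd (nat_lit 78) (nat_lit 760) (nat_lit 0) (XT.lf (nat_lit 0) (nat_lit 269627029) (nat_lit 684) (nat_lit 2777378861) (nat_lit 760) (nat_lit 4831268705) (nat_lit 265) (nat_lit 5) (nat_lit 274) (nat_lit 5) (nat_lit 275) (nat_lit 4) (nat_lit 295) (nat_lit 244) (nat_lit 241)) (XT.lf (nat_lit 0) (nat_lit 158847339) (nat_lit 760) (nat_lit 7261429830) (nat_lit 76) (nat_lit 547972166) (nat_lit 255) (nat_lit 5) (nat_lit 265) (nat_lit 5) (nat_lit 256) (nat_lit 4) (nat_lit 296) (nat_lit 244) (nat_lit 240)))))) (XT.nd (nat_lit 546) (nat_lit 3572) (nat_lit 0) (XT.nd (nat_lit 234) (nat_lit 2432) (nat_lit 0) (XT.nd (nat_lit 78) (nat_lit 1292) (nat_lit 0) (XT.lf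 (nat_lit 0) (nat_lit 1115823984) (nat_lit 608) (nat_lit 4061261624) (nat_lit 684) (nat_lit 2884423315) (nat_lit 247) (nat_lit 5) (nat_lit 255) (nat_lit 5) (nat_lit 256) (nat_lit 4) (nat_lit 297) (nat_lit 244) (nat_lit 239)) (XT.nd (nat_lit 78) (nat_lit 608) (nat_lit 0) (XT.lf (nat_lit 0) (nat_lit 1529944914) (nat_lit 608) (nat_lit 556978423) (nat_lit 684) (nat_lit 6071912787) (nat_lit 238) (nat_lit 5) (nat_lit 246) (nat_lit 5) (nat_lit 247) (nat_lit 5) (nat_lit 298) (nat_lit 244) (nat_lit 238)) (XT.lf (nat_lit 0) (nat_lit 1919897187) (nat_lit 608) (nat_lit 5198672707) (nat_lit 684) (nat_lit 1141222409) (nat_lit 230) (nat_lit 5) (nat_lit 238) (nat_lit 5) (nat_lit 239) (nat_lit 4) (nat_lit 299) (nat_lit 244) (nat_lit 237)))) (XT.nd (nat_lit 156) (nat_lit 1140) (nat_lit 0) (XT.nd (nat_lit 78) (nat_lit 608) (nat_lit 0) (XT.lf (nat_lit 0) (nat_lit 2291687050) (nat_lit 608) (nat_lit 1530146526) (nat_lit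 684) (nat_lit 4542803360) (nat_lit 221) (nat_lit 5) (nat_lit 229) (nat_lit 5) (nat_lit 230) (nat_lit 5) (nat_lit 300) (nat_lit 244) (nat_lit 236)) (XT.lf (nat_lit 0) (nat_lit 389386264) (nat_lit 608) (nat_lit 5828222079) (nat_lit 76) (nat_lit 2255909431) (nat_lit 213) (nat_lit 5) (nat_lit 221) (nat_lit 5) (nat_lit 214) (nat_lit 5) (nat_lit 301) (nat_lit 244) (nat_lit 235))) (XT.nd (nat_lit 78) (nat_lit 608) (nat_lit 0) (XT.lf (nat_lit 0) (nat_lit 2960677094) (nat_lit 532) (nat_lit 2394825127) (nat_lit 608) (nat_lit 3230694369) (nat_lit 206) (nat_lit 5) (nat_lit 213) (nat_lit 5) (nat_lit 214) (nat_lit 5) (nat_lit 302) (nat_lit 244) (nat_lit 234)) (XT.lf (nat_lit 0) (nat_lit 1694480154) (nat_lit 608) (nat_lit 5450707171) (nat_lit 76) (nat_lit 1557933865) (nat_lit 198) (nat_lit 5) (nat_lit 206) (nat_lit 5) (nat_lit 199) (nat_lit 5) (nat_lit 303) (nat_lit 244) (nat_lit 233))))) (XT.nd (nat_lit 234)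 (nat_lit 1976) (nat_lit 0) (XT.nd (nat_lit 78) (nat_lit 1064) (nat_lit 0) (XT.lf (nat_lit 0) (nat_lit 3499556403) (nat_lit 532) (nat_lit 3181741064) (nat_lit 608) (nat_lit 2142752563) (nat_lit 191) (nat_lit 5) (nat_lit 198) (nat_lit 5) (nat_lit 199) (nat_lit 5) (nat_lit 304) (nat_lit 244) (nat_lit 232)) (XT.nd (nat_lit 78) (nat_lit 532) (nat_lit 0) (XT.lf (nat_lit 0) (nat_lit 2780942001) (nat_lit 532) (nat_lit 5239039847) (nat_lit 76) (nat_lit 929338541) (nat_lit 184) (nat_lit 5) (nat_lit 191) (nat_lit 5) (nat_lit 185) (nat_lit 5) (nat_lit 305) (nat_lit 244) (nat_lit 231)) (XT.lf (nat_lit 0) (nat_lit 3868264807) (nat_lit 532) (nat_lit 3922045546) (nat_lit 608) (nat_lit 1288486932) (nat_lit 177) (nat_lit 5) (nat_lit 184) (nat_lit 5) (nat_lit 185) (nat_lit 5) (nat_lit 306) (nat_lit 244) (nat_lit 230)))) (XT.nd (nat_lit 156) (nat_lit 988) (nat_lit 0) (XT.nd (nat_lit 78) (nat_lit 456) (nat_lit 0) (XT.lf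 (nat_lit 0) (nat_lit 3638324844) (nat_lit 532) (nat_lit 5235283460) (nat_lit 76) (nat_lit 339143572) (nat_lit 170) (nat_lit 5) (nat_lit 177) (nat_lit 5) (nat_lit 171) (nat_lit 5) (nat_lit 307) (nat_lit 244) (nat_lit 229)) (XT.lf (nat_lit 0) (nat_lit 4023621004) (nat_lit 456) (nat_lit 4647596594) (nat_lit 532) (nat_lit 679889161) (nat_lit 164) (nat_lit 5) (nat_lit 170) (nat_lit 5) (nat_lit 171) (nat_lit 5) (nat_lit 308) (nat_lit 244) (nat_lit 228))) (XT.nd (nat_lit 78) (nat_lit 456) (nat_lit 0) (XT.lf (nat_lit 0) (nat_lit 4007577957) (nat_lit 456) (nat_lit 247699664) (nat_lit 532) (nat_lit 5238812803) (nat_lit 157) (nat_lit 5) (nat_lit 163) (nat_lit 5) (nat_lit 164) (nat_lit 5) (nat_lit 309) (nat_lit 244) (nat_lit 227)) (XT.lf (nat_lit 0) (nat_lit 3918868255) (nat_lit 456) (nat_lit 5391253608) (nat_lit 532) (nat_lit 331597169) (nat_lit 151) (nat_lit 5) (nat_lit 157) (nat_lit 5) (nat_lit 158) (nat_lit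 5) (nat_lit 310) (nat_lit 244) (nat_lit 226))))))))
noncomputable def xc25 : XT := (XT.nd (nat_lit 2106) (nat_lit 2736) (nat_lit 0) (XT.nd (nat_lit 1014) (nat_lit 2964) (nat_lit 0) (XT.nd (nat_lit 468) (nat_lit 2204) (nat_lit 0) (XT.nd (nat_lit 234) (nat_lit 1140) (nat_lit 0) (XT.nd (nat_lit 78) (nat_lit 912) (nat_lit 0) (XT.lf (nat_lit 0) (nat_lit 3751233711) (nat_lit 380) (nat_lit 865717598) (nat_lit 456) (nat_lit 5177150260) (nat_lit 145) (nat_lit 5) (nat_lit 150) (nat_lit 5) (nat_lit 151) (nat_lit 5) (nat_lit 311) (nat_lit 244) (nat_lit 225)) (XT.nd (nat_lit 78) (nat_lit 456) (nat_lit 0) (XT.lf (nat_lit 0) (nat_lit 3503181028) (nat_lit 456) (nat_lit 6187186654) (nat_lit 532) (nat_lit 261083492) (nat_lit 139) (nat_lit 5) (nat_lit 145) (nat_lit 5) (nat_lit 146) (nat_lit 5) (nat_lit 312) (nat_lit 244) (nat_lit 224)) (XT.lf (nat_lit 0) (nat_lit 3157600558) (nat_lit 380) (nat_lit 1545210169) (nat_lit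 456) (nat_lit 5410875288) (nat_lit 133) (nat_lit 5) (nat_lit 138) (nat_lit 5) (nat_lit 139) (nat_lit 5) (nat_lit 313) (nat_lit 244) (nat_lit 223)))) (XT.nd (nat_lit 78) (nat_lit 760) (nat_lit 0) (XT.lf (nat_lit 0) (nat_lit 2721127862) (nat_lit 380) (nat_lit 7071203249) (nat_lit 456) (nat_lit 488870523) (nat_lit 128) (nat_lit 5) (nat_lit 133) (nat_lit 5) (nat_lit 134) (nat_lit 5) (nat_lit 314) (nat_lit 244) (nat_lit 222)) (XT.nd (nat_lit 78) (nat_lit 380) (nat_lit 0) (XT.lf (nat_lit 0) (nat_lit 2168679601) (nat_lit 304) (nat_lit 2322772602) (nat_lit 380) (nat_lit 5962331779) (nat_lit 123) (nat_lit 5) (nat_lit 127) (nat_lit 5) (nat_lit 128) (nat_lit 5) (nat_lit 315) (nat_lit 244) (nat_lit 221)) (XT.lf (nat_lit 0) (nat_lit 1512085246) (nat_lit 380) (nat_lit 8081095610) (nat_lit 456) (nat_lit 1038774878) (nat_lit 118) (nat_lit 5) (nat_lit 123) (nat_lit 5) (nat_lit 124) (nat_lit 5) (nat_lit 316) (nat_lit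 244) (nat_lit 220))))) (XT.nd (nat_lit 234) (nat_lit 1368) (nat_lit 0) (XT.nd (nat_lit 78) (nat_lit 456) (nat_lit 0) (XT.lf (nat_lit 0) (nat_lit 720970962) (nat_lit 304) (nat_lit 3237147307) (nat_lit 380) (nat_lit 6857307362) (nat_lit 113) (nat_lit 5) (nat_lit 117) (nat_lit 5) (nat_lit 118) (nat_lit 5) (nat_lit 317) (nat_lit 244) (nat_lit 219)) (XT.nd (nat_lit 78) (nat_lit 456) (nat_lit 0) (XT.lf (nat_lit 0) (nat_lit 9067844624) (nat_lit 380) (nat_lit 187905973) (nat_lit 76) (nat_lit 1749016497) (nat_lit 113) (nat_lit 5) (nat_lit 118) (nat_lit 5) (nat_lit 114) (nat_lit 5) (nat_lit 318) (nat_lit 244) (nat_lit 218)) (XT.lf (nat_lit 0) (nat_lit 3082560767) (nat_lit 456) (nat_lit 1238734769) (nat_lit 76) (nat_lit 6878279044) (nat_lit 107) (nat_lit 5) (nat_lit 113) (nat_lit 5) (nat_lit 108) (nat_lit 5) (nat_lit 319) (nat_lit 244) (nat_lit 217)))) (XT.nd (nat_lit 156) (nat_lit 684) (nat_lit 0) (XT.nd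 (nat_lit 78) (nat_lit 380) (nat_lit 0) (XT.lf (nat_lit 0) (nat_lit 8198491945) (nat_lit 380) (nat_lit 2427073566) (nat_lit 76) (nat_lit 775003271) (nat_lit 103) (nat_lit 5) (nat_lit 108) (nat_lit 5) (nat_lit 104) (nat_lit 5) (nat_lit 320) (nat_lit 244) (nat_lit 216)) (XT.lf (nat_lit 0) (nat_lit 1832879633) (nat_lit 380) (nat_lit 3786086986) (nat_lit 76) (nat_lit 5988485325) (nat_lit 98) (nat_lit 5) (nat_lit 103) (nat_lit 5) (nat_lit 99) (nat_lit 5) (nat_lit 321) (nat_lit 244) (nat_lit 215))) (XT.nd (nat_lit 78) (nat_lit 380) (nat_lit 0) (XT.lf (nat_lit 0) (nat_lit 6513488395) (nat_lit 304) (nat_lit 430925338) (nat_lit 380) (nat_lit 4876362828) (nat_lit 94) (nat_lit 5) (nat_lit 98) (nat_lit 5) (nat_lit 99) (nat_lit 5) (nat_lit 322) (nat_lit 244) (nat_lit 214)) (XT.lf (nat_lit 0) (nat_lit 168258776) (nat_lit 380) (nat_lit 7013726734) (nat_lit 76) (nat_lit 4858496948) (nat_lit 89) (nat_lit 5) (nat_lit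 94) (nat_lit 5) (nat_lit 90) (nat_lit 5) (nat_lit 323) (nat_lit 244) (nat_lit 213)))))) (XT.nd (nat_lit 546) (nat_lit 1292) (nat_lit 0) (XT.nd (nat_lit 234) (nat_lit 1064) (nat_lit 0) (XT.nd (nat_lit 78) (nat_lit 380) (nat_lit 0) (XT.lf (nat_lit 0) (nat_lit 3346762338) (nat_lit 228) (nat_lit 1924812360) (nat_lit 304) (nat_lit 6995124024) (nat_lit 86) (nat_lit 5) (nat_lit 89) (nat_lit 5) (nat_lit 90) (nat_lit 5) (nat_lit 324) (nat_lit 244) (nat_lit 212)) (XT.nd (nat_lit 78) (nat_lit 76) (nat_lit 0) (XT.lf (nat_lit 0) (nat_lit 1473692321) (nat_lit 304) (nat_lit 9048118915) (nat_lit 380) (nat_lit 1978048742) (nat_lit 82) (nat_lit 5) (nat_lit 86) (nat_lit 5) (nat_lit 87) (nat_lit 5) (nat_lit 325) (nat_lit 244) (nat_lit 211)) (XT.lf (nat_lit 0) (nat_lit 3136212106) (nat_lit 380) (nat_lit 608468787) (nat_lit 76) (nat_lit 8995184156) (nat_lit 81) (nat_lit 5) (nat_lit 86) (nat_lit 5) (nat_lit 82) (nat_lit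 5) (nat_lit 326) (nat_lit 244) (nat_lit 210)))) (XT.nd (nat_lit 156) (nat_lit 456) (nat_lit 0) (XT.nd (nat_lit 78) (nat_lit 380) (nat_lit 0) (XT.lf (nat_lit 0) (nat_lit 8371428835) (nat_lit 304) (nat_lit 2890346663) (nat_lit 76) (nat_lit 1725177510) (nat_lit 78) (nat_lit 5) (nat_lit 82) (nat_lit 5) (nat_lit 79) (nat_lit 5) (nat_lit 327) (nat_lit 244) (nat_lit 209)) (XT.lf (nat_lit 0) (nat_lit 513932586) (nat_lit 380) (nat_lit 5409506979) (nat_lit 76) (nat_lit 7318006276) (nat_lit 73) (nat_lit 5) (nat_lit 78) (nat_lit 5) (nat_lit 74) (nat_lit 5) (nat_lit 328) (nat_lit 244) (nat_lit 208))) (XT.nd (nat_lit 78) (nat_lit 228) (nat_lit 0) (XT.lf (nat_lit 0) (nat_lit 5319998249) (nat_lit 228) (nat_lit 388660678) (nat_lit 304) (nat_lit 7794852330) (nat_lit 70) (nat_lit 5) (nat_lit 73) (nat_lit 5) (nat_lit 74) (nat_lit 5) (nat_lit 329) (nat_lit 244) (nat_lit 207)) (XT.lf (nat_lit 0) (nat_lit 2541111200)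 (nat_lit 228) (nat_lit 8526666666) (nat_lit 304) (nat_lit 2705518710) (nat_lit 67) (nat_lit 5) (nat_lit 70) (nat_lit 5) (nat_lit 71) (nat_lit 5) (nat_lit 330) (nat_lit 244) (nat_lit 206))))) (XT.nd (nat_lit 234) (nat_lit 760) (nat_lit 0) (XT.nd (nat_lit 78) (nat_lit 456) (nat_lit 0) (XT.lf (nat_lit 0) (nat_lit 2483247376) (nat_lit 304) (nat_lit 499179363) (nat_lit 76) (nat_lit 11068846524) (nat_lit 66) (nat_lit 5) (nat_lit 70) (nat_lit 5) (nat_lit 67) (nat_lit 5) (nat_lit 331) (nat_lit 244) (nat_lit 205)) (XT.nd (nat_lit 78) (nat_lit 228) (nat_lit 0) (XT.lf (nat_lit 0) (nat_lit 7801479143) (nat_lit 304) (nat_lit 3804681919) (nat_lit 76) (nat_lit 2730886079) (nat_lit 63) (nat_lit 5) (nat_lit 67) (nat_lit 5) (nat_lit 64) (nat_lit 5) (nat_lit 332) (nat_lit 244) (nat_lit 204)) (XT.lf (nat_lit 0) (nat_lit 7220517014) (nat_lit 228) (nat_lit 6053953169) (nat_lit 304) (nat_lit 1357045783) (nat_lit 60)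 (nat_lit 5) (nat_lit 63) (nat_lit 5) (nat_lit 64) (nat_lit 5) (nat_lit 333) (nat_lit 244) (nat_lit 203)))) (XT.nd (nat_lit 156) (nat_lit 456) (nat_lit 0) (XT.nd (nat_lit 78) (nat_lit 0) (nat_lit 0) (XT.lf (nat_lit 0) (nat_lit 3591798407) (nat_lit 228) (nat_lit 308008530) (nat_lit 304) (nat_lit 11035017611) (nat_lit 56) (nat_lit 5) (nat_lit 59) (nat_lit 5) (nat_lit 60) (nat_lit 5) (nat_lit 334) (nat_lit 244) (nat_lit 202)) (XT.lf (nat_lit 0) (nat_lit 9309923460) (nat_lit 304) (nat_lit 388662444) (nat_lit 76) (nat_lit 5548211187) (nat_lit 56) (nat_lit 5) (nat_lit 60) (nat_lit 5) (nat_lit 57) (nat_lit 5) (nat_lit 335) (nat_lit 244) (nat_lit 201))) (XT.nd (nat_lit 78) (nat_lit 228) (nat_lit 0) (XT.lf (nat_lit 0) (nat_lit 10916292554) (nat_lit 228) (nat_lit 3968027617) (nat_lit 304) (nat_lit 683792414) (nat_lit 53) (nat_lit 5) (nat_lit 56) (nat_lit 5) (nat_lit 57) (nat_lit 5) (nat_lit 336) (nat_lit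 244) (nat_lit 200)) (XT.lf (nat_lit 0) (nat_lit 4653034732) (nat_lit 228) (nat_lit 9307278480) (nat_lit 76) (nat_lit 1938399769) (nat_lit 50) (nat_lit 5) (nat_lit 53) (nat_lit 5) (nat_lit 51) (nat_lit 5) (nat_lit 337) (nat_lit 244) (nat_lit 199))))))) (XT.nd (nat_lit 1014) (nat_lit 1064) (nat_lit 0) (XT.nd (nat_lit 468) (nat_lit 760) (nat_lit 0) (XT.nd (nat_lit 234) (nat_lit 456) (nat_lit 0) (XT.nd (nat_lit 78) (nat_lit 228) (nat_lit 0) (XT.lf (nat_lit 0) (nat_lit 1872963544) (nat_lit 228) (nat_lit 8269036934) (nat_lit 304) (nat_lit 6097135578) (nat_lit 47) (nat_lit 5) (nat_lit 50) (nat_lit 5) (nat_lit 51) (nat_lit 5) (nat_lit 338) (nat_lit 244) (nat_lit 198)) (XT.nd (nat_lit 78) (nat_lit 228) (nat_lit 0) (XT.lf (nat_lit 0) (nat_lit 13400572347) (nat_lit 228) (nat_lit 2390240111) (nat_lit 304) (nat_lit 799076732) (nat_lit 47) (nat_lit 5) (nat_lit 50) (nat_lit 5) (nat_lit 51) (nat_lit 5) (nat_lit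 339) (nat_lit 244) (nat_lit 197)) (XT.lf (nat_lit 0) (nat_lit 4608325894) (nat_lit 228) (nat_lit 8686554821) (nat_lit 76) (nat_lit 3655469432) (nat_lit 44) (nat_lit 5) (nat_lit 47) (nat_lit 5) (nat_lit 45) (nat_lit 5) (nat_lit 340) (nat_lit 244) (nat_lit 196)))) (XT.nd (nat_lit 78) (nat_lit 228) (nat_lit 0) (XT.lf (nat_lit 0) (nat_lit 2684530067) (nat_lit 228) (nat_lit 7472337379) (nat_lit 304) (nat_lit 7164875712) (nat_lit 41) (nat_lit 5) (nat_lit 44) (nat_lit 5) (nat_lit 45) (nat_lit 5) (nat_lit 341) (nat_lit 244) (nat_lit 195)) (XT.nd (nat_lit 78) (nat_lit 228) (nat_lit 0) (XT.lf (nat_lit 0) (nat_lit 14405299704) (nat_lit 228) (nat_lit 1461160448) (nat_lit 304) (nat_lit 1837944672) (nat_lit 41) (nat_lit 5) (nat_lit 44) (nat_lit 5) (nat_lit 45) (nat_lit 5) (nat_lit 342) (nat_lit 244) (nat_lit 194)) (XT.lf (nat_lit 0) (nat_lit 3623307689) (nat_lit 228) (nat_lit 9772126578) (nat_lit 76) (nat_lit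 4702208765) (nat_lit 38) (nat_lit 5) (nat_lit 41) (nat_lit 5) (nat_lit 39) (nat_lit 5) (nat_lit 343) (nat_lit 244) (nat_lit 193))))) (XT.nd (nat_lit 234) (nat_lit 380) (nat_lit 0) (XT.nd (nat_lit 78) (nat_lit 228) (nat_lit 0) (XT.lf (nat_lit 0) (nat_lit 1735151001) (nat_lit 152) (nat_lit 7469983163) (nat_lit 228) (nat_lit 9297684444) (nat_lit 36) (nat_lit 5) (nat_lit 38) (nat_lit 5) (nat_lit 39) (nat_lit 5) (nat_lit 344) (nat_lit 244) (nat_lit 192)) (XT.nd (nat_lit 78) (nat_lit 228) (nat_lit 0) (XT.lf (nat_lit 0) (nat_lit 13615949237) (nat_lit 152) (nat_lit 1343829291) (nat_lit 228) (nat_lit 3960280496) (nat_lit 36) (nat_lit 5) (nat_lit 38) (nat_lit 5) (nat_lit 39) (nat_lit 5) (nat_lit 345) (nat_lit 244) (nat_lit 191)) (XT.lf (nat_lit 0) (nat_lit 1531938169) (nat_lit 228) (nat_lit 12907185088) (nat_lit 76) (nat_lit 4910212725) (nat_lit 33) (nat_lit 5) (nat_lit 36) (nat_lit 5) (nat_lit 34) (nat_lit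 5) (nat_lit 346) (nat_lit 244) (nat_lit 190)))) (XT.nd (nat_lit 156) (nat_lit 228) (nat_lit 0) (XT.nd (nat_lit 78) (nat_lit 152) (nat_lit 0) (XT.lf (nat_lit 0) (nat_lit 7121895460) (nat_lit 228) (nat_lit 1315503356) (nat_lit 76) (nat_lit 11353848907) (nat_lit 33) (nat_lit 5) (nat_lit 36) (nat_lit 5) (nat_lit 34) (nat_lit 5) (nat_lit 347) (nat_lit 244) (nat_lit 189)) (XT.lf (nat_lit 0) (nat_lit 10664352090) (nat_lit 152) (nat_lit 2227451966) (nat_lit 228) (nat_lit 7354382812) (nat_lit 31) (nat_lit 5) (nat_lit 33) (nat_lit 5) (nat_lit 34) (nat_lit 5) (nat_lit 348) (nat_lit 244) (nat_lit 188))) (XT.nd (nat_lit 78) (nat_lit 76) (nat_lit 0) (XT.lf (nat_lit 0) (nat_lit 2210185072) (nat_lit 152) (nat_lit 16618780080) (nat_lit 228) (nat_lit 1885940593) (nat_lit 29) (nat_lit 5) (nat_lit 31) (nat_lit 5) (nat_lit 32) (nat_lit 4) (nat_lit 349) (nat_lit 244) (nat_lit 187)) (XT.lf (nat_lit 0) (nat_lit 3722066769)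 (nat_lit 228) (nat_lit 6846757707) (nat_lit 76) (nat_lit 10627896196) (nat_lit 28) (nat_lit 5) (nat_lit 31) (nat_lit 5) (nat_lit 29) (nat_lit 5) (nat_lit 350) (nat_lit 244) (nat_lit 186)))))) (XT.nd (nat_lit 546) (nat_lit 532) (nat_lit 0) (XT.nd (nat_lit 234) (nat_lit 304) (nat_lit 0) (XT.nd (nat_lit 78) (nat_lit 76) (nat_lit 0) (XT.lf (nat_lit 0) (nat_lit 5120495804) (nat_lit 152) (nat_lit 4331600462) (nat_lit 228) (nat_lit 12241069920) (nat_lit 26) (nat_lit 5) (nat_lit 28) (nat_lit 5) (nat_lit 29) (nat_lit 5) (nat_lit 351) (nat_lit 244) (nat_lit 185)) (XT.nd (nat_lit 78) (nat_lit 76) (nat_lit 0) (XT.lf (nat_lit 0) (nat_lit 15361033098) (nat_lit 228) (nat_lit 4771247843) (nat_lit 76) (nat_lit 2072097153) (nat_lit 26) (nat_lit 5) (nat_lit 29) (nat_lit 5) (nat_lit 27) (nat_lit 4) (nat_lit 352) (nat_lit 244) (nat_lit 184)) (XT.lf (nat_lit 0) (nat_lit 7360264340) (nat_lit 76) (nat_lit 14111996649)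 (nat_lit 152) (nat_lit 1258177683) (nat_lit 25) (nat_lit 5) (nat_lit 26) (nat_lit 5) (nat_lit 27) (nat_lit 4) (nat_lit 353) (nat_lit 244) (nat_lit 183)))) (XT.nd (nat_lit 156) (nat_lit 76) (nat_lit 0) (XT.nd (nat_lit 78) (nat_lit 152) (nat_lit 0) (XT.lf (nat_lit 0) (nat_lit 4416984874) (nat_lit 152) (nat_lit 3470722804) (nat_lit 76) (nat_lit 15384374176) (nat_lit 24) (nat_lit 5) (nat_lit 26) (nat_lit 5) (nat_lit 25) (nat_lit 5) (nat_lit 354) (nat_lit 244) (nat_lit 182)) (XT.lf (nat_lit 0) (nat_lit 8804691676) (nat_lit 152) (nat_lit 1448211712) (nat_lit 228) (nat_lit 13576764521) (nat_lit 22) (nat_lit 5) (nat_lit 24) (nat_lit 5) (nat_lit 25) (nat_lit 5) (nat_lit 355) (nat_lit 244) (nat_lit 181))) (XT.nd (nat_lit 78) (nat_lit 76) (nat_lit 0) (XT.lf (nat_lit 0) (nat_lit 16272204569) (nat_lit 228) (nat_lit 3028845524) (nat_lit 76) (nat_lit 5102776811) (nat_lit 22) (nat_lit 5) (nat_lit 25) (nat_lit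 5) (nat_lit 23) (nat_lit 4) (nat_lit 356) (nat_lit 244) (nat_lit 180)) (XT.lf (nat_lit 0) (nat_lit 9355332620) (nat_lit 76) (nat_lit 13139575722) (nat_lit 152) (nat_lit 2499856982) (nat_lit 21) (nat_lit 5) (nat_lit 22) (nat_lit 5) (nat_lit 23) (nat_lit 4) (nat_lit 357) (nat_lit 244) (nat_lit 179))))) (XT.nd (nat_lit 234) (nat_lit 304) (nat_lit 0) (XT.nd (nat_lit 78) (nat_lit 152) (nat_lit 0) (XT.lf (nat_lit 0) (nat_lit 3231152183) (nat_lit 152) (nat_lit 3556201478) (nat_lit 76) (nat_lit 18816188552) (nat_lit 20) (nat_lit 5) (nat_lit 22) (nat_lit 5) (nat_lit 21) (nat_lit 5) (nat_lit 358) (nat_lit 244) (nat_lit 178)) (XT.nd (nat_lit 78) (nat_lit 0) (nat_lit 0) (XT.lf (nat_lit 0) (nat_lit 8907980359) (nat_lit 152) (nat_lit 204471236) (nat_lit 228) (nat_lit 17117564150) (nat_lit 18) (nat_lit 5) (nat_lit 20) (nat_lit 5) (nat_lit 21) (nat_lit 5) (nat_lit 359) (nat_lit 244) (nat_lit 177)) (XT.lf (nat_lit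 0) (nat_lit 15192015336) (nat_lit 228) (nat_lit 5203902180) (nat_lit 76) (nat_lit 6478939443) (nat_lit 18) (nat_lit 5) (nat_lit 21) (nat_lit 5) (nat_lit 19) (nat_lit 4) (nat_lit 360) (nat_lit 244) (nat_lit 176)))) (XT.nd (nat_lit 156) (nat_lit 228) (nat_lit 0) (XT.nd (nat_lit 78) (nat_lit 0) (nat_lit 0) (XT.lf (nat_lit 0) (nat_lit 7293410099) (nat_lit 76) (nat_lit 14165464046) (nat_lit 152) (nat_lit 6080080793) (nat_lit 17) (nat_lit 5) (nat_lit 18) (nat_lit 5) (nat_lit 19) (nat_lit 4) (nat_lit 361) (nat_lit 244) (nat_lit 175)) (XT.lf (nat_lit 0) (nat_lit 20159497698) (nat_lit 76) (nat_lit 7746465143) (nat_lit 152) (nat_lit 317177942) (nat_lit 17) (nat_lit 5) (nat_lit 18) (nat_lit 5) (nat_lit 19) (nat_lit 4) (nat_lit 362) (nat_lit 244) (nat_lit 174))) (XT.nd (nat_lit 78) (nat_lit 0) (nat_lit 0) (XT.lf (nat_lit 0) (nat_lit 4429641226) (nat_lit 152) (nat_lit 1101970494) (nat_lit 228) (nat_lit 23395786068)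 (nat_lit 14) (nat_lit 5) (nat_lit 16) (nat_lit 5) (nat_lit 17) (nat_lit 5) (nat_lit 363) (nat_lit 244) (nat_lit 173)) (XT.lf (nat_lit 0) (nat_lit 11602319513) (nat_lit 228) (nat_lit 12358434571) (nat_lit 76) (nat_lit 5690979911) (nat_lit 14) (nat_lit 5) (nat_lit 17) (nat_lit 5) (nat_lit 15) (nat_lit 4) (nat_lit 364) (nat_lit 244) (nat_lit 172))))))))
noncomputable def xc26 : XT := (XT.nd (nat_lit 2106) (nat_lit 6460) (nat_lit 0) (XT.nd (nat_lit 1014) (nat_lit 6308) (nat_lit 0) (XT.nd (nat_lit 468) (nat_lit 5168) (nat_lit 0) (XT.nd (nat_lit 234) (nat_lit 2356) (nat_lit 0) (XT.nd (nat_lit 78) (nat_lit 1672) (nat_lit 0) (XT.lf (nat_lit 0) (nat_lit 1433259915) (nat_lit 912) (nat_lit 874178616) (nat_lit 0) (nat_lit 1433259915) (nat_lit 327) (nat_lit 5) (nat_lit 339) (nat_lit 4) (nat_lit 327) (nat_lit 4) (nat_lit 290) (nat_lit 245) (nat_lit 245)) (XT.nd (nat_lit 78) (nat_lit 760) (nat_lit 0) (XT.lf (nat_lit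 0) (nat_lit 369951282) (nat_lit 912) (nat_lit 1417397346) (nat_lit 76) (nat_lit 5767652924) (nat_lit 315) (nat_lit 5) (nat_lit 327) (nat_lit 5) (nat_lit 316) (nat_lit 4) (nat_lit 291) (nat_lit 245) (nat_lit 244)) (XT.lf (nat_lit 0) (nat_lit 5363687207) (nat_lit 836) (nat_lit 1087209066) (nat_lit 0) (nat_lit 1180992705) (nat_lit 305) (nat_lit 5) (nat_lit 316) (nat_lit 4) (nat_lit 305) (nat_lit 4) (nat_lit 292) (nat_lit 245) (nat_lit 243)))) (XT.nd (nat_lit 78) (nat_lit 1520) (nat_lit 0) (XT.lf (nat_lit 0) (nat_lit 2688273609) (nat_lit 836) (nat_lit 752809617) (nat_lit 76) (nat_lit 4271180709) (nat_lit 294) (nat_lit 5) (nat_lit 305) (nat_lit 5) (nat_lit 295) (nat_lit 4) (nat_lit 293) (nat_lit 245) (nat_lit 242)) (XT.nd (nat_lit 78) (nat_lit 836) (nat_lit 0) (XT.lf (nat_lit 0) (nat_lit 7393734229) (nat_lit 684) (nat_lit 288948670) (nat_lit 760) (nat_lit 113782646) (nat_lit 285) (nat_lit 5) (nat_lit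 294) (nat_lit 5) (nat_lit 295) (nat_lit 4) (nat_lit 294) (nat_lit 245) (nat_lit 241)) (XT.lf (nat_lit 0) (nat_lit 4820922253) (nat_lit 836) (nat_lit 76325573) (nat_lit 76) (nat_lit 2986573609) (nat_lit 274) (nat_lit 5) (nat_lit 285) (nat_lit 5) (nat_lit 275) (nat_lit 4) (nat_lit 295) (nat_lit 245) (nat_lit 240))))) (XT.nd (nat_lit 234) (nat_lit 2432) (nat_lit 0) (XT.nd (nat_lit 78) (nat_lit 1292) (nat_lit 0) (XT.lf (nat_lit 0) (nat_lit 262353576) (nat_lit 684) (nat_lit 1569224832) (nat_lit 760) (nat_lit 6143488996) (nat_lit 255) (nat_lit 5) (nat_lit 264) (nat_lit 5) (nat_lit 265) (nat_lit 5) (nat_lit 296) (nat_lit 245) (nat_lit 239)) (XT.nd (nat_lit 78) (nat_lit 684) (nat_lit 0) (XT.lf (nat_lit 0) (nat_lit 589586156) (nat_lit 608) (nat_lit 6182521084) (nat_lit 684) (nat_lit 1297824367) (nat_lit 247) (nat_lit 5) (nat_lit 255) (nat_lit 5) (nat_lit 256) (nat_lit 4) (nat_lit 297) (nat_lit 245) (nat_lit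 238)) (XT.lf (nat_lit 0) (nat_lit 898847073) (nat_lit 608) (nat_lit 2686568448) (nat_lit 684) (nat_lit 4583031222) (nat_lit 238) (nat_lit 5) (nat_lit 246) (nat_lit 5) (nat_lit 247) (nat_lit 5) (nat_lit 298) (nat_lit 245) (nat_lit 237)))) (XT.nd (nat_lit 156) (nat_lit 1140) (nat_lit 0) (XT.nd (nat_lit 78) (nat_lit 608) (nat_lit 0) (XT.lf (nat_lit 0) (nat_lit 262105396) (nat_lit 684) (nat_lit 7066915404) (nat_lit 76) (nat_lit 942002546) (nat_lit 229) (nat_lit 5) (nat_lit 238) (nat_lit 5) (nat_lit 230) (nat_lit 5) (nat_lit 299) (nat_lit 245) (nat_lit 236)) (XT.lf (nat_lit 0) (nat_lit 1469090418) (nat_lit 608) (nat_lit 3674671200) (nat_lit 684) (nat_lit 3233331174) (nat_lit 221) (nat_lit 5) (nat_lit 229) (nat_lit 5) (nat_lit 230) (nat_lit 5) (nat_lit 300) (nat_lit 245) (nat_lit 235))) (XT.nd (nat_lit 78) (nat_lit 532) (nat_lit 0) (XT.lf (nat_lit 0) (nat_lit 1601367367) (nat_lit 608) (nat_lit 6760613513)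 (nat_lit 76) (nat_lit 125471269) (nat_lit 213) (nat_lit 5) (nat_lit 221) (nat_lit 5) (nat_lit 214) (nat_lit 5) (nat_lit 301) (nat_lit 245) (nat_lit 234)) (XT.lf (nat_lit 0) (nat_lit 1938044615) (nat_lit 532) (nat_lit 4563708523) (nat_lit 608) (nat_lit 2099733420) (nat_lit 206) (nat_lit 5) (nat_lit 213) (nat_lit 5) (nat_lit 214) (nat_lit 5) (nat_lit 302) (nat_lit 245) (nat_lit 233)))))) (XT.nd (nat_lit 546) (nat_lit 2584) (nat_lit 0) (XT.nd (nat_lit 234) (nat_lit 2052) (nat_lit 0) (XT.nd (nat_lit 78) (nat_lit 1064) (nat_lit 0) (XT.lf (nat_lit 0) (nat_lit 2126300753) (nat_lit 532) (nat_lit 608395998) (nat_lit 608) (nat_lit 5985124794) (nat_lit 198) (nat_lit 5) (nat_lit 205) (nat_lit 5) (nat_lit 206) (nat_lit 5) (nat_lit 303) (nat_lit 245) (nat_lit 232)) (XT.nd (nat_lit 78) (nat_lit 532) (nat_lit 0) (XT.lf (nat_lit 0) (nat_lit 2268326460) (nat_lit 532) (nat_lit 5384053030) (nat_lit 608) (nat_lit 1189791465)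 (nat_lit 191) (nat_lit 5) (nat_lit 198) (nat_lit 5) (nat_lit 199) (nat_lit 5) (nat_lit 304) (nat_lit 245) (nat_lit 231)) (XT.lf (nat_lit 0) (nat_lit 2367518512) (nat_lit 456) (nat_lit 1282594847) (nat_lit 532) (nat_lit 5318666093) (nat_lit 184) (nat_lit 5) (nat_lit 190) (nat_lit 5) (nat_lit 191) (nat_lit 5) (nat_lit 305) (nat_lit 245) (nat_lit 230)))) (XT.nd (nat_lit 156) (nat_lit 988) (nat_lit 0) (XT.nd (nat_lit 78) (nat_lit 532) (nat_lit 0) (XT.lf (nat_lit 0) (nat_lit 2419820889) (nat_lit 532) (nat_lit 6166544423) (nat_lit 608) (nat_lit 513388367) (nat_lit 177) (nat_lit 5) (nat_lit 184) (nat_lit 5) (nat_lit 185) (nat_lit 5) (nat_lit 306) (nat_lit 245) (nat_lit 229)) (XT.lf (nat_lit 0) (nat_lit 2409631716) (nat_lit 456) (nat_lit 1926553755) (nat_lit 532) (nat_lit 4898796915) (nat_lit 170) (nat_lit 5) (nat_lit 176) (nat_lit 5) (nat_lit 177) (nat_lit 5) (nat_lit 307) (nat_lit 245) (nat_lit 228)))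 (XT.nd (nat_lit 78) (nat_lit 532) (nat_lit 0) (XT.lf (nat_lit 0) (nat_lit 2349262471) (nat_lit 456) (nat_lit 6942769309) (nat_lit 532) (nat_lit 82878766) (nat_lit 164) (nat_lit 5) (nat_lit 170) (nat_lit 5) (nat_lit 171) (nat_lit 5) (nat_lit 308) (nat_lit 245) (nat_lit 227)) (XT.lf (nat_lit 0) (nat_lit 2207571345) (nat_lit 456) (nat_lit 2572238869) (nat_lit 532) (nat_lit 4739330220) (nat_lit 157) (nat_lit 5) (nat_lit 163) (nat_lit 5) (nat_lit 164) (nat_lit 5) (nat_lit 309) (nat_lit 245) (nat_lit 226))))) (XT.nd (nat_lit 234) (nat_lit 1216) (nat_lit 0) (XT.nd (nat_lit 78) (nat_lit 836) (nat_lit 0) (XT.lf (nat_lit 0) (nat_lit 85608428) (nat_lit 532) (nat_lit 7659170457) (nat_lit 76) (nat_lit 1923599165) (nat_lit 150) (nat_lit 5) (nat_lit 157) (nat_lit 5) (nat_lit 151) (nat_lit 5) (nat_lit 310) (nat_lit 245) (nat_lit 225)) (XT.nd (nat_lit 78) (nat_lit 456) (nat_lit 0) (XT.lf (nat_lit 0) (nat_lit 1712428770)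 (nat_lit 380) (nat_lit 3252786355) (nat_lit 456) (nat_lit 4856822714) (nat_lit 145) (nat_lit 5) (nat_lit 150) (nat_lit 5) (nat_lit 151) (nat_lit 5) (nat_lit 311) (nat_lit 245) (nat_lit 224)) (XT.lf (nat_lit 0) (nat_lit 1350414337) (nat_lit 456) (nat_lit 8608268427) (nat_lit 532) (nat_lit 22331278) (nat_lit 139) (nat_lit 5) (nat_lit 145) (nat_lit 5) (nat_lit 146) (nat_lit 5) (nat_lit 312) (nat_lit 245) (nat_lit 223)))) (XT.nd (nat_lit 156) (nat_lit 380) (nat_lit 0) (XT.nd (nat_lit 78) (nat_lit 380) (nat_lit 0) (XT.lf (nat_lit 0) (nat_lit 870941522) (nat_lit 380) (nat_lit 4002818395) (nat_lit 456) (nat_lit 5270777692) (nat_lit 133) (nat_lit 5) (nat_lit 138) (nat_lit 5) (nat_lit 139) (nat_lit 5) (nat_lit 313) (nat_lit 245) (nat_lit 222)) (XT.lf (nat_lit 0) (nat_lit 315561272) (nat_lit 380) (nat_lit 9567157290) (nat_lit 456) (nat_lit 430971429) (nat_lit 128) (nat_lit 5) (nat_lit 133) (nat_lit 5) (nat_lit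 134) (nat_lit 5) (nat_lit 314) (nat_lit 245) (nat_lit 221))) (XT.nd (nat_lit 78) (nat_lit 304) (nat_lit 0) (XT.lf (nat_lit 0) (nat_lit 4486146114) (nat_lit 456) (nat_lit 370148255) (nat_lit 76) (nat_lit 5631243665) (nat_lit 127) (nat_lit 5) (nat_lit 133) (nat_lit 5) (nat_lit 128) (nat_lit 5) (nat_lit 315) (nat_lit 245) (nat_lit 220)) (XT.lf (nat_lit 0) (nat_lit 9511588736) (nat_lit 380) (nat_lit 1140437450) (nat_lit 76) (nat_lit 15232912) (nat_lit 123) (nat_lit 5) (nat_lit 128) (nat_lit 5) (nat_lit 124) (nat_lit 5) (nat_lit 316) (nat_lit 245) (nat_lit 219))))))) (XT.nd (nat_lit 1014) (nat_lit 2432) (nat_lit 0) (XT.nd (nat_lit 468) (nat_lit 1824) (nat_lit 0) (XT.nd (nat_lit 234) (nat_lit 988) (nat_lit 0) (XT.nd (nat_lit 78) (nat_lit 760) (nat_lit 0) (XT.lf (nat_lit 0) (nat_lit 3783550967) (nat_lit 456) (nat_lit 2061900090) (nat_lit 76) (nat_lit 5006499670) (nat_lit 117) (nat_lit 5) (nat_lit 123)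 (nat_lit 5) (nat_lit 118) (nat_lit 5) (nat_lit 317) (nat_lit 245) (nat_lit 218)) (XT.nd (nat_lit 78) (nat_lit 456) (nat_lit 0) (XT.lf (nat_lit 0) (nat_lit 7948386601) (nat_lit 304) (nat_lit 873761574) (nat_lit 380) (nat_lit 2220588399) (nat_lit 113) (nat_lit 5) (nat_lit 117) (nat_lit 5) (nat_lit 118) (nat_lit 5) (nat_lit 318) (nat_lit 245) (nat_lit 217)) (XT.lf (nat_lit 0) (nat_lit 2732055004) (nat_lit 456) (nat_lit 4284720800) (nat_lit 76) (nat_lit 4222237046) (nat_lit 107) (nat_lit 5) (nat_lit 113) (nat_lit 5) (nat_lit 108) (nat_lit 5) (nat_lit 319) (nat_lit 245) (nat_lit 216)))) (XT.nd (nat_lit 78) (nat_lit 684) (nat_lit 0) (XT.lf (nat_lit 0) (nat_lit 5823162901) (nat_lit 304) (nat_lit 1954926907) (nat_lit 380) (nat_lit 3663335317) (nat_lit 103) (nat_lit 5) (nat_lit 107) (nat_lit 5) (nat_lit 108) (nat_lit 5) (nat_lit 320) (nat_lit 245) (nat_lit 215)) (XT.nd (nat_lit 78) (nat_lit 304) (nat_lit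 0) (XT.lf (nat_lit 0) (nat_lit 1299479334) (nat_lit 380) (nat_lit 7114435414) (nat_lit 76) (nat_lit 3236036436) (nat_lit 98) (nat_lit 5) (nat_lit 103) (nat_lit 5) (nat_lit 99) (nat_lit 5) (nat_lit 321) (nat_lit 245) (nat_lit 214)) (XT.lf (nat_lit 0) (nat_lit 3072731460) (nat_lit 304) (nat_lit 3272869554) (nat_lit 380) (nat_lit 5519001653) (nat_lit 94) (nat_lit 5) (nat_lit 98) (nat_lit 5) (nat_lit 99) (nat_lit 5) (nat_lit 322) (nat_lit 245) (nat_lit 213))))) (XT.nd (nat_lit 234) (nat_lit 1216) (nat_lit 0) (XT.nd (nat_lit 78) (nat_lit 304) (nat_lit 0) (XT.lf (nat_lit 0) (nat_lit 1447903105) (nat_lit 304) (nat_lit 10080184812) (nat_lit 380) (nat_lit 557942837) (nat_lit 90) (nat_lit 5) (nat_lit 94) (nat_lit 5) (nat_lit 95) (nat_lit 5) (nat_lit 323) (nat_lit 245) (nat_lit 212)) (XT.nd (nat_lit 78) (nat_lit 228) (nat_lit 0) (XT.lf (nat_lit 0) (nat_lit 4489072762) (nat_lit 380) (nat_lit 384296330) (nat_lit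 76) (nat_lit 7440239938) (nat_lit 89) (nat_lit 5) (nat_lit 94) (nat_lit 5) (nat_lit 90) (nat_lit 5) (nat_lit 324) (nat_lit 245) (nat_lit 211)) (XT.lf (nat_lit 0) (nat_lit 9666802456) (nat_lit 304) (nat_lit 2375592494) (nat_lit 76) (nat_lit 505842176) (nat_lit 86) (nat_lit 5) (nat_lit 90) (nat_lit 5) (nat_lit 87) (nat_lit 5) (nat_lit 325) (nat_lit 245) (nat_lit 210)))) (XT.nd (nat_lit 156) (nat_lit 608) (nat_lit 0) (XT.nd (nat_lit 78) (nat_lit 228) (nat_lit 0) (XT.lf (nat_lit 0) (nat_lit 2188188107) (nat_lit 380) (nat_lit 4597522853) (nat_lit 76) (nat_lit 6003794166) (nat_lit 81) (nat_lit 5) (nat_lit 86) (nat_lit 5) (nat_lit 82) (nat_lit 5) (nat_lit 326) (nat_lit 245) (nat_lit 209)) (XT.lf (nat_lit 0) (nat_lit 6001700969) (nat_lit 228) (nat_lit 1344125273) (nat_lit 304) (nat_lit 5692333851) (nat_lit 78) (nat_lit 5) (nat_lit 81) (nat_lit 5) (nat_lit 82) (nat_lit 5) (nat_lit 327) (nat_lit 245) (nat_lit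 208))) (XT.nd (nat_lit 78) (nat_lit 304) (nat_lit 0) (XT.lf (nat_lit 0) (nat_lit 3579001911) (nat_lit 304) (nat_lit 9082334854) (nat_lit 380) (nat_lit 632905503) (nat_lit 74) (nat_lit 5) (nat_lit 78) (nat_lit 5) (nat_lit 79) (nat_lit 5) (nat_lit 328) (nat_lit 245) (nat_lit 207)) (XT.lf (nat_lit 0) (nat_lit 897696824) (nat_lit 228) (nat_lit 3605201836) (nat_lit 304) (nat_lit 9054849930) (nat_lit 70) (nat_lit 5) (nat_lit 73) (nat_lit 5) (nat_lit 74) (nat_lit 5) (nat_lit 329) (nat_lit 245) (nat_lit 206)))))) (XT.nd (nat_lit 546) (nat_lit 1140) (nat_lit 0) (XT.nd (nat_lit 234) (nat_lit 760) (nat_lit 0) (XT.nd (nat_lit 78) (nat_lit 532) (nat_lit 0) (XT.lf (nat_lit 0) (nat_lit 9786691089) (nat_lit 304) (nat_lit 2010146540) (nat_lit 76) (nat_lit 2032216659) (nat_lit 70) (nat_lit 5) (nat_lit 74) (nat_lit 5) (nat_lit 71) (nat_lit 5) (nat_lit 330) (nat_lit 245) (nat_lit 205)) (XT.nd (nat_lit 78) (nat_lit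 228) (nat_lit 0) (XT.lf (nat_lit 0) (nat_lit 1113127123) (nat_lit 304) (nat_lit 5186182748) (nat_lit 76) (nat_lit 7808924054) (nat_lit 66) (nat_lit 5) (nat_lit 70) (nat_lit 5) (nat_lit 67) (nat_lit 5) (nat_lit 331) (nat_lit 245) (nat_lit 204)) (XT.lf (nat_lit 0) (nat_lit 5740625058) (nat_lit 228) (nat_lit 605132976) (nat_lit 304) (nat_lit 8049974583) (nat_lit 63) (nat_lit 5) (nat_lit 66) (nat_lit 5) (nat_lit 67) (nat_lit 5) (nat_lit 332) (nat_lit 245) (nat_lit 203)))) (XT.nd (nat_lit 156) (nat_lit 456) (nat_lit 0) (XT.nd (nat_lit 78) (nat_lit 76) (nat_lit 0) (XT.lf (nat_lit 0) (nat_lit 2249240761) (nat_lit 228) (nat_lit 9497424298) (nat_lit 304) (nat_lit 2944990490) (nat_lit 60) (nat_lit 5) (nat_lit 63) (nat_lit 5) (nat_lit 64) (nat_lit 5) (nat_lit 333) (nat_lit 245) (nat_lit 202)) (XT.lf (nat_lit 0) (nat_lit 2273909135) (nat_lit 304) (nat_lit 1535511311) (nat_lit 76) (nat_lit 11186937296) (nat_lit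 59) (nat_lit 5) (nat_lit 63) (nat_lit 5) (nat_lit 60) (nat_lit 5) (nat_lit 334) (nat_lit 245) (nat_lit 201))) (XT.nd (nat_lit 78) (nat_lit 228) (nat_lit 0) (XT.lf (nat_lit 0) (nat_lit 7616168093) (nat_lit 304) (nat_lit 5634007215) (nat_lit 76) (nat_lit 2059523611) (nat_lit 56) (nat_lit 5) (nat_lit 60) (nat_lit 5) (nat_lit 57) (nat_lit 5) (nat_lit 335) (nat_lit 245) (nat_lit 200)) (XT.lf (nat_lit 0) (nat_lit 5543498084) (nat_lit 228) (nat_lit 7578245958) (nat_lit 304) (nat_lit 2510657934) (nat_lit 53) (nat_lit 5) (nat_lit 56) (nat_lit 5) (nat_lit 57) (nat_lit 5) (nat_lit 336) (nat_lit 245) (nat_lit 199))))) (XT.nd (nat_lit 234) (nat_lit 684) (nat_lit 0) (XT.nd (nat_lit 78) (nat_lit 228) (nat_lit 0) (XT.lf (nat_lit 0) (nat_lit 1049853701) (nat_lit 152) (nat_lit 1717914645) (nat_lit 228) (nat_lit 13197129073) (nat_lit 50) (nat_lit 5) (nat_lit 52) (nat_lit 5) (nat_lit 53) (nat_lit 5) (nat_lit 337)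 (nat_lit 245) (nat_lit 198)) (XT.nd (nat_lit 78) (nat_lit 228) (nat_lit 0) (XT.lf (nat_lit 0) (nat_lit 8200344713) (nat_lit 228) (nat_lit 3804333270) (nat_lit 76) (nat_lit 4301780600) (nat_lit 50) (nat_lit 5) (nat_lit 53) (nat_lit 5) (nat_lit 51) (nat_lit 5) (nat_lit 338) (nat_lit 245) (nat_lit 197)) (XT.lf (nat_lit 0) (nat_lit 7617507280) (nat_lit 228) (nat_lit 6174150773) (nat_lit 304) (nat_lit 2866713638) (nat_lit 47) (nat_lit 5) (nat_lit 50) (nat_lit 5) (nat_lit 51) (nat_lit 5) (nat_lit 339) (nat_lit 245) (nat_lit 196)))) (XT.nd (nat_lit 156) (nat_lit 456) (nat_lit 0) (XT.nd (nat_lit 78) (nat_lit 0) (nat_lit 0) (XT.lf (nat_lit 0) (nat_lit 2317864735) (nat_lit 152) (nat_lit 155385598) (nat_lit 228) (nat_lit 14547751448) (nat_lit 44) (nat_lit 5) (nat_lit 46) (nat_lit 5) (nat_lit 47) (nat_lit 5) (nat_lit 340) (nat_lit 245) (nat_lit 195)) (XT.lf (nat_lit 0) (nat_lit 7972047131) (nat_lit 228) (nat_lit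 3419898411) (nat_lit 76) (nat_lit 6001453387) (nat_lit 44) (nat_lit 5) (nat_lit 47) (nat_lit 5) (nat_lit 45) (nat_lit 5) (nat_lit 341) (nat_lit 245) (nat_lit 194))) (XT.nd (nat_lit 78) (nat_lit 228) (nat_lit 0) (XT.lf (nat_lit 0) (nat_lit 8202645909) (nat_lit 228) (nat_lit 5425757625) (nat_lit 304) (nat_lit 4148730761) (nat_lit 41) (nat_lit 5) (nat_lit 44) (nat_lit 5) (nat_lit 45) (nat_lit 5) (nat_lit 342) (nat_lit 245) (nat_lit 193)) (XT.lf (nat_lit 0) (nat_lit 1244998134) (nat_lit 228) (nat_lit 16216251719) (nat_lit 76) (nat_lit 711387850) (nat_lit 38) (nat_lit 5) (nat_lit 41) (nat_lit 5) (nat_lit 39) (nat_lit 5) (nat_lit 343) (nat_lit 245) (nat_lit 192))))))))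
noncomputable def xc27 : XT := (XT.nd (nat_lit 36816) (nat_lit 0) (nat_lit 6232) (XT.nd (nat_lit 1014) (nat_lit 456) (nat_lit 0) (XT.nd (nat_lit 468) (nat_lit 684) (nat_lit 0) (XT.nd (nat_lit 234) (nat_lit 380) (nat_lit 0) (XT.nd (nat_lit 78) (nat_lit 152) (nat_lit 0) (XT.lf (nat_lit 0) (nat_lit 6785917871) (nat_lit 228) (nat_lit 4783000392) (nat_lit 76) (nat_lit 7009721444) (nat_lit 38) (nat_lit 5) (nat_lit 41) (nat_lit 5) (nat_lit 39) (nat_lit 5) (nat_lit 344) (nat_lit 245) (nat_lit 191)) (XT.nd (nat_lit 78) (nat_lit 0) (nat_lit 0) (XT.lf (nat_lit 0) (nat_lit 6983796635) (nat_lit 152) (nat_lit 5496193360) (nat_lit 228) (nat_lit 6517109625) (nat_lit 36) (nat_lit 5) (nat_lit 38) (nat_lit 5) (nat_lit 39) (nat_lit 5) (nat_lit 345) (nat_lit 245) (nat_lit 190)) (XT.lf (nat_lit 0) (nat_lit 18324800598) (nat_lit 228) (nat_lit 363834168) (nat_lit 76) (nat_lit 739896105) (nat_lit 36) (nat_lit 5) (nat_lit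 39) (nat_lit 5) (nat_lit 37) (nat_lit 4) (nat_lit 346) (nat_lit 245) (nat_lit 189)))) (XT.nd (nat_lit 78) (nat_lit 152) (nat_lit 0) (XT.lf (nat_lit 0) (nat_lit 4470220499) (nat_lit 228) (nat_lit 8247370371) (nat_lit 76) (nat_lit 7153612147) (nat_lit 33) (nat_lit 5) (nat_lit 36) (nat_lit 5) (nat_lit 34) (nat_lit 5) (nat_lit 347) (nat_lit 245) (nat_lit 188)) (XT.nd (nat_lit 78) (nat_lit 0) (nat_lit 0) (XT.lf (nat_lit 0) (nat_lit 3592172925) (nat_lit 152) (nat_lit 6574783901) (nat_lit 228) (nat_lit 10160656005) (nat_lit 31) (nat_lit 5) (nat_lit 33) (nat_lit 5) (nat_lit 34) (nat_lit 5) (nat_lit 348) (nat_lit 245) (nat_lit 187)) (XT.lf (nat_lit 0) (nat_lit 15804814886) (nat_lit 152) (nat_lit 231334328) (nat_lit 228) (nat_lit 4761548881) (nat_lit 31) (nat_lit 5) (nat_lit 33) (nat_lit 5) (nat_lit 34) (nat_lit 5) (nat_lit 349) (nat_lit 245) (nat_lit 186))))) (XT.nd (nat_lit 234) (nat_lit 304) (nat_lit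 0) (XT.nd (nat_lit 78) (nat_lit 152) (nat_lit 0) (XT.lf (nat_lit 0) (nat_lit 823010465) (nat_lit 228) (nat_lit 14226032529) (nat_lit 76) (nat_lit 6232073353) (nat_lit 28) (nat_lit 5) (nat_lit 31) (nat_lit 5) (nat_lit 29) (nat_lit 5) (nat_lit 350) (nat_lit 245) (nat_lit 185)) (XT.nd (nat_lit 78) (nat_lit 152) (nat_lit 0) (XT.lf (nat_lit 0) (nat_lit 6493974202) (nat_lit 228) (nat_lit 2371366609) (nat_lit 76) (nat_lit 12913408847) (nat_lit 28) (nat_lit 5) (nat_lit 31) (nat_lit 5) (nat_lit 29) (nat_lit 5) (nat_lit 351) (nat_lit 245) (nat_lit 184)) (XT.lf (nat_lit 0) (nat_lit 9878964188) (nat_lit 152) (nat_lit 2469355282) (nat_lit 228) (nat_lit 9942740217) (nat_lit 26) (nat_lit 5) (nat_lit 28) (nat_lit 5) (nat_lit 29) (nat_lit 5) (nat_lit 352) (nat_lit 245) (nat_lit 183)))) (XT.nd (nat_lit 156) (nat_lit 152) (nat_lit 0) (XT.nd (nat_lit 78) (nat_lit 152) (nat_lit 0) (XT.lf (nat_lit 0) (nat_lit 18370985408)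 (nat_lit 228) (nat_lit 404850953) (nat_lit 76) (nat_lit 4043061253) (nat_lit 26) (nat_lit 5) (nat_lit 29) (nat_lit 5) (nat_lit 27) (nat_lit 4) (nat_lit 353) (nat_lit 245) (nat_lit 182)) (XT.lf (nat_lit 0) (nat_lit 1241935891) (nat_lit 152) (nat_lit 11352393063) (nat_lit 76) (nat_lit 10767174822) (nat_lit 24) (nat_lit 5) (nat_lit 26) (nat_lit 5) (nat_lit 25) (nat_lit 5) (nat_lit 354) (nat_lit 245) (nat_lit 181))) (XT.nd (nat_lit 78) (nat_lit 0) (nat_lit 0) (XT.lf (nat_lit 0) (nat_lit 775592111) (nat_lit 152) (nat_lit 6226377426) (nat_lit 228) (nat_lit 16918643638) (nat_lit 22) (nat_lit 5) (nat_lit 24) (nat_lit 5) (nat_lit 25) (nat_lit 5) (nat_lit 355) (nat_lit 245) (nat_lit 180)) (XT.lf (nat_lit 0) (nat_lit 12966798287) (nat_lit 228) (nat_lit 11159664635) (nat_lit 76) (nat_lit 369404177) (nat_lit 22) (nat_lit 5) (nat_lit 25) (nat_lit 5) (nat_lit 23) (nat_lit 4) (nat_lit 356) (nat_lit 245) (nat_lit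 179)))))) (XT.nd (nat_lit 35256) (nat_lit 0) (nat_lit 20368) (XT.nd (nat_lit 234) (nat_lit 152) (nat_lit 0) (XT.nd (nat_lit 78) (nat_lit 228) (nat_lit 0) (XT.lf (nat_lit 0) (nat_lit 1075340011) (nat_lit 76) (nat_lit 18037636428) (nat_lit 152) (nat_lit 5975364913) (nat_lit 21) (nat_lit 5) (nat_lit 22) (nat_lit 5) (nat_lit 23) (nat_lit 4) (nat_lit 357) (nat_lit 245) (nat_lit 178)) (XT.nd (nat_lit 78) (nat_lit 228) (nat_lit 0) (XT.lf (nat_lit 0) (nat_lit 13749109314) (nat_lit 76) (nat_lit 11724656129) (nat_lit 152) (nat_lit 224230366) (nat_lit 21) (nat_lit 5) (nat_lit 22) (nat_lit 5) (nat_lit 23) (nat_lit 4) (nat_lit 358) (nat_lit 245) (nat_lit 177)) (XT.lf (nat_lit 0) (nat_lit 365662960) (nat_lit 152) (nat_lit 5217024605) (nat_lit 228) (nat_lit 20743362258) (nat_lit 18) (nat_lit 5) (nat_lit 20) (nat_lit 5) (nat_lit 21) (nat_lit 5) (nat_lit 359) (nat_lit 245) (nat_lit 176)))) (XT.nd (nat_lit 156)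 (nat_lit 152) (nat_lit 0) (XT.nd (nat_lit 78) (nat_lit 0) (nat_lit 0) (XT.lf (nat_lit 0) (nat_lit 11608123780) (nat_lit 228) (nat_lit 13848453622) (nat_lit 76) (nat_lit 1515400958) (nat_lit 18) (nat_lit 5) (nat_lit 21) (nat_lit 5) (nat_lit 19) (nat_lit 4) (nat_lit 360) (nat_lit 245) (nat_lit 175)) (XT.lf (nat_lit 0) (nat_lit 17806674852) (nat_lit 228) (nat_lit 1484412026) (nat_lit 76) (nat_lit 8346360252) (nat_lit 18) (nat_lit 5) (nat_lit 21) (nat_lit 5) (nat_lit 19) (nat_lit 4) (nat_lit 361) (nat_lit 245) (nat_lit 174))) (XT.nd (nat_lit 78) (nat_lit 76) (nat_lit 0) (XT.lf (nat_lit 0) (nat_lit 11324942499) (nat_lit 76) (nat_lit 12898471143) (nat_lit 152) (nat_lit 4098830831) (nat_lit 17) (nat_lit 5) (nat_lit 18) (nat_lit 5) (nat_lit 19) (nat_lit 4) (nat_lit 362) (nat_lit 245) (nat_lit 173)) (XT.lf (nat_lit 0) (nat_lit 1750674560) (nat_lit 152) (nat_lit 4573760061) (nat_lit 76) (nat_lit 22703539827)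 (nat_lit 16) (nat_lit 5) (nat_lit 18) (nat_lit 5) (nat_lit 17) (nat_lit 5) (nat_lit 363) (nat_lit 245) (nat_lit 172))))) (XT.nd (nat_lit 234) (nat_lit 3268) (nat_lit 0) (XT.nd (nat_lit 78) (nat_lit 1748) (nat_lit 0) (XT.lf (nat_lit 0) (nat_lit 1265570562) (nat_lit 912) (nat_lit 1140502688) (nat_lit 0) (nat_lit 1265570562) (nat_lit 350) (nat_lit 5) (nat_lit 362) (nat_lit 4) (nat_lit 350) (nat_lit 4) (nat_lit 288) (nat_lit 246) (nat_lit 246)) (XT.nd (nat_lit 78) (nat_lit 836) (nat_lit 0) (XT.lf (nat_lit 0) (nat_lit 108121843) (nat_lit 912) (nat_lit 2055826580) (nat_lit 76) (nat_lit 5247511172) (nat_lit 338) (nat_lit 5) (nat_lit 350) (nat_lit 5) (nat_lit 339) (nat_lit 4) (nat_lit 289) (nat_lit 246) (nat_lit 245)) (XT.lf (nat_lit 0) (nat_lit 5025893295) (nat_lit 912) (nat_lit 1825419648) (nat_lit 0) (nat_lit 631554452) (nat_lit 327) (nat_lit 5) (nat_lit 339) (nat_lit 4) (nat_lit 327) (nat_lit 4) (nat_lit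 290) (nat_lit 246) (nat_lit 244)))) (XT.nd (nat_lit 156) (nat_lit 1596) (nat_lit 0) (XT.nd (nat_lit 78) (nat_lit 760) (nat_lit 0) (XT.lf (nat_lit 0) (nat_lit 2429813052) (nat_lit 912) (nat_lit 1587765932) (nat_lit 76) (nat_lit 3540069693) (nat_lit 315) (nat_lit 5) (nat_lit 327) (nat_lit 5) (nat_lit 316) (nat_lit 4) (nat_lit 291) (nat_lit 246) (nat_lit 243)) (XT.lf (nat_lit 0) (nat_lit 6304423969) (nat_lit 760) (nat_lit 1042530798) (nat_lit 836) (nat_lit 289173449) (nat_lit 305) (nat_lit 5) (nat_lit 315) (nat_lit 5) (nat_lit 316) (nat_lit 4) (nat_lit 292) (nat_lit 246) (nat_lit 242))) (XT.nd (nat_lit 78) (nat_lit 760) (nat_lit 0) (XT.lf (nat_lit 0) (nat_lit 4566189615) (nat_lit 836) (nat_lit 1087503683) (nat_lit 76) (nat_lit 2064113359) (nat_lit 294) (nat_lit 5) (nat_lit 305) (nat_lit 5) (nat_lit 295) (nat_lit 4) (nat_lit 293) (nat_lit 246) (nat_lit 241)) (XT.lf (nat_lit 0) (nat_lit 1667508794)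 (nat_lit 760) (nat_lit 835158103) (nat_lit 76) (nat_lit 5300527928) (nat_lit 284) (nat_lit 5) (nat_lit 294) (nat_lit 5) (nat_lit 285) (nat_lit 5) (nat_lit 294) (nat_lit 246) (nat_lit 240))))))) (XT.nd (nat_lit 1014) (nat_lit 5472) (nat_lit 0) (XT.nd (nat_lit 468) (nat_lit 3876) (nat_lit 0) (XT.nd (nat_lit 234) (nat_lit 2508) (nat_lit 0) (XT.nd (nat_lit 78) (nat_lit 1520) (nat_lit 0) (XT.lf (nat_lit 0) (nat_lit 6519043484) (nat_lit 836) (nat_lit 583960196) (nat_lit 76) (nat_lit 789218797) (nat_lit 274) (nat_lit 5) (nat_lit 285) (nat_lit 5) (nat_lit 275) (nat_lit 4) (nat_lit 295) (nat_lit 246) (nat_lit 239)) (XT.nd (nat_lit 78) (nat_lit 760) (nat_lit 0) (XT.lf (nat_lit 0) (nat_lit 3430552250) (nat_lit 760) (nat_lit 350868751) (nat_lit 76) (nat_lit 4203250161) (nat_lit 264) (nat_lit 5) (nat_lit 274) (nat_lit 5) (nat_lit 265) (nat_lit 5) (nat_lit 296) (nat_lit 246) (nat_lit 238)) (XT.lf (nat_lit 0)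 (nat_lit 206455668) (nat_lit 760) (nat_lit 110691261) (nat_lit 76) (nat_lit 7764023902) (nat_lit 254) (nat_lit 5) (nat_lit 264) (nat_lit 5) (nat_lit 255) (nat_lit 5) (nat_lit 297) (nat_lit 246) (nat_lit 237)))) (XT.nd (nat_lit 78) (nat_lit 1292) (nat_lit 0) (XT.lf (nat_lit 0) (nat_lit 93326533) (nat_lit 608) (nat_lit 4909965737) (nat_lit 684) (nat_lit 3177659411) (nat_lit 238) (nat_lit 5) (nat_lit 246) (nat_lit 5) (nat_lit 247) (nat_lit 5) (nat_lit 298) (nat_lit 246) (nat_lit 236)) (XT.nd (nat_lit 78) (nat_lit 608) (nat_lit 0) (XT.lf (nat_lit 0) (nat_lit 296073923) (nat_lit 608) (nat_lit 1280339652) (nat_lit 684) (nat_lit 6708429210) (nat_lit 229) (nat_lit 5) (nat_lit 237) (nat_lit 5) (nat_lit 238) (nat_lit 5) (nat_lit 299) (nat_lit 246) (nat_lit 235)) (XT.lf (nat_lit 0) (nat_lit 467286400) (nat_lit 608) (nat_lit 5916653987) (nat_lit 684) (nat_lit 2008497493) (nat_lit 221) (nat_lit 5) (nat_lit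 229) (nat_lit 5) (nat_lit 230) (nat_lit 5) (nat_lit 300) (nat_lit 246) (nat_lit 234))))) (XT.nd (nat_lit 234) (nat_lit 2128) (nat_lit 0) (XT.nd (nat_lit 78) (nat_lit 1140) (nat_lit 0) (XT.lf (nat_lit 0) (nat_lit 613238952) (nat_lit 532) (nat_lit 2130346702) (nat_lit 608) (nat_lit 5760424554) (nat_lit 213) (nat_lit 5) (nat_lit 220) (nat_lit 5) (nat_lit 221) (nat_lit 5) (nat_lit 301) (nat_lit 246) (nat_lit 233)) (XT.nd (nat_lit 78) (nat_lit 608) (nat_lit 0) (XT.lf (nat_lit 0) (nat_lit 731300533) (nat_lit 532) (nat_lit 6833634792) (nat_lit 608) (nat_lit 1054729807) (nat_lit 206) (nat_lit 5) (nat_lit 213) (nat_lit 5) (nat_lit 214) (nat_lit 5) (nat_lit 302) (nat_lit 246) (nat_lit 232)) (XT.lf (nat_lit 0) (nat_lit 803067795) (nat_lit 532) (nat_lit 2897750728) (nat_lit 608) (nat_lit 5038387307) (nat_lit 198) (nat_lit 5) (nat_lit 205) (nat_lit 5) (nat_lit 206) (nat_lit 5) (nat_lit 303) (nat_lit 246) (nat_lit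 231)))) (XT.nd (nat_lit 156) (nat_lit 1064) (nat_lit 0) (XT.nd (nat_lit 78) (nat_lit 532) (nat_lit 0) (XT.lf (nat_lit 0) (nat_lit 847946013) (nat_lit 532) (nat_lit 7690944428) (nat_lit 608) (nat_lit 324293790) (nat_lit 191) (nat_lit 5) (nat_lit 198) (nat_lit 5) (nat_lit 199) (nat_lit 5) (nat_lit 304) (nat_lit 246) (nat_lit 230)) (XT.lf (nat_lit 0) (nat_lit 826736703) (nat_lit 456) (nat_lit 3612743839) (nat_lit 532) (nat_lit 4551530388) (nat_lit 184) (nat_lit 5) (nat_lit 190) (nat_lit 5) (nat_lit 191) (nat_lit 5) (nat_lit 305) (nat_lit 246) (nat_lit 229))) (XT.nd (nat_lit 78) (nat_lit 456) (nat_lit 0) (XT.lf (nat_lit 0) (nat_lit 170292480) (nat_lit 608) (nat_lit 8347692822) (nat_lit 76) (nat_lit 605602762) (nat_lit 176) (nat_lit 5) (nat_lit 184) (nat_lit 5) (nat_lit 177) (nat_lit 5) (nat_lit 306) (nat_lit 246) (nat_lit 228)) (XT.lf (nat_lit 0) (nat_lit 642461225) (nat_lit 456) (nat_lit 4306142968)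 (nat_lit 532) (nat_lit 4311468839) (nat_lit 170) (nat_lit 5) (nat_lit 176) (nat_lit 5) (nat_lit 177) (nat_lit 5) (nat_lit 307) (nat_lit 246) (nat_lit 227)))))) (XT.nd (nat_lit 546) (nat_lit 2660) (nat_lit 0) (XT.nd (nat_lit 234) (nat_lit 1748) (nat_lit 0) (XT.nd (nat_lit 78) (nat_lit 532) (nat_lit 0) (XT.lf (nat_lit 0) (nat_lit 417553150) (nat_lit 532) (nat_lit 8929161843) (nat_lit 76) (nat_lit 54857088) (nat_lit 163) (nat_lit 5) (nat_lit 170) (nat_lit 5) (nat_lit 164) (nat_lit 5) (nat_lit 308) (nat_lit 246) (nat_lit 226)) (XT.nd (nat_lit 78) (nat_lit 76) (nat_lit 0) (XT.lf (nat_lit 0) (nat_lit 205061347) (nat_lit 456) (nat_lit 5009673680) (nat_lit 532) (nat_lit 4332374476) (nat_lit 157) (nat_lit 5) (nat_lit 163) (nat_lit 5) (nat_lit 164) (nat_lit 5) (nat_lit 309) (nat_lit 246) (nat_lit 225)) (XT.lf (nat_lit 0) (nat_lit 410698386) (nat_lit 532) (nat_lit 109252140) (nat_lit 76) (nat_lit 9177902770)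 (nat_lit 156) (nat_lit 5) (nat_lit 163) (nat_lit 5) (nat_lit 157) (nat_lit 5) (nat_lit 310) (nat_lit 246) (nat_lit 224)))) (XT.nd (nat_lit 156) (nat_lit 836) (nat_lit 0) (XT.nd (nat_lit 78) (nat_lit 456) (nat_lit 0) (XT.lf (nat_lit 0) (nat_lit 5225227711) (nat_lit 532) (nat_lit 527500209) (nat_lit 76) (nat_lit 4100114335) (nat_lit 150) (nat_lit 5) (nat_lit 157) (nat_lit 5) (nat_lit 151) (nat_lit 5) (nat_lit 311) (nat_lit 246) (nat_lit 223)) (XT.lf (nat_lit 0) (nat_lit 133597492) (nat_lit 456) (nat_lit 1008309434) (nat_lit 76) (nat_lit 8871322287) (nat_lit 144) (nat_lit 5) (nat_lit 150) (nat_lit 5) (nat_lit 145) (nat_lit 5) (nat_lit 312) (nat_lit 246) (nat_lit 222))) (XT.nd (nat_lit 78) (nat_lit 380) (nat_lit 0) (XT.lf (nat_lit 0) (nat_lit 4961275500) (nat_lit 532) (nat_lit 1608308904) (nat_lit 76) (nat_lit 3608553412) (nat_lit 138) (nat_lit 5) (nat_lit 145) (nat_lit 5) (nat_lit 139) (nat_lit 5)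 (nat_lit 313) (nat_lit 246) (nat_lit 221)) (XT.lf (nat_lit 0) (nat_lit 8060002683) (nat_lit 380) (nat_lit 1845287274) (nat_lit 456) (nat_lit 443323908) (nat_lit 133) (nat_lit 5) (nat_lit 138) (nat_lit 5) (nat_lit 139) (nat_lit 5) (nat_lit 314) (nat_lit 246) (nat_lit 220))))) (XT.nd (nat_lit 234) (nat_lit 1444) (nat_lit 0) (XT.nd (nat_lit 78) (nat_lit 760) (nat_lit 0) (XT.lf (nat_lit 0) (nat_lit 4399861827) (nat_lit 456) (nat_lit 3097658022) (nat_lit 76) (nat_lit 3026449131) (nat_lit 127) (nat_lit 5) (nat_lit 133) (nat_lit 5) (nat_lit 128) (nat_lit 5) (nat_lit 315) (nat_lit 246) (nat_lit 219)) (XT.nd (nat_lit 78) (nat_lit 456) (nat_lit 0) (XT.lf (nat_lit 0) (nat_lit 6694441698) (nat_lit 304) (nat_lit 2666783229) (nat_lit 380) (nat_lit 1343769610) (nat_lit 123) (nat_lit 5) (nat_lit 127) (nat_lit 5) (nat_lit 128) (nat_lit 5) (nat_lit 316) (nat_lit 246) (nat_lit 218)) (XT.lf (nat_lit 0) (nat_lit 3515993525)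 (nat_lit 456) (nat_lit 5058631511) (nat_lit 76) (nat_lit 2316745858) (nat_lit 117) (nat_lit 5) (nat_lit 123) (nat_lit 5) (nat_lit 118) (nat_lit 5) (nat_lit 317) (nat_lit 246) (nat_lit 217)))) (XT.nd (nat_lit 156) (nat_lit 684) (nat_lit 0) (XT.nd (nat_lit 78) (nat_lit 456) (nat_lit 0) (XT.lf (nat_lit 0) (nat_lit 4843928526) (nat_lit 304) (nat_lit 3646231018) (nat_lit 380) (nat_lit 2593306987) (nat_lit 113) (nat_lit 5) (nat_lit 117) (nat_lit 5) (nat_lit 118) (nat_lit 5) (nat_lit 318) (nat_lit 246) (nat_lit 216)) (XT.lf (nat_lit 0) (nat_lit 2281085062) (nat_lit 456) (nat_lit 7560454425) (nat_lit 76) (nat_lit 1439934656) (nat_lit 107) (nat_lit 5) (nat_lit 113) (nat_lit 5) (nat_lit 108) (nat_lit 5) (nat_lit 319) (nat_lit 246) (nat_lit 215))) (XT.nd (nat_lit 78) (nat_lit 380) (nat_lit 0) (XT.lf (nat_lit 0) (nat_lit 2436840757) (nat_lit 304) (nat_lit 4825273582) (nat_lit 380) (nat_lit 4223091749) (nat_lit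 103) (nat_lit 5) (nat_lit 107) (nat_lit 5) (nat_lit 108) (nat_lit 5) (nat_lit 320) (nat_lit 246) (nat_lit 214)) (XT.lf (nat_lit 0) (nat_lit 662639355) (nat_lit 380) (nat_lit 10679217488) (nat_lit 76) (nat_lit 353655105) (nat_lit 98) (nat_lit 5) (nat_lit 103) (nat_lit 5) (nat_lit 99) (nat_lit 5) (nat_lit 321) (nat_lit 246) (nat_lit 213))))))))
noncomputable def xc28 : XT := (XT.nd (nat_lit 2028) (nat_lit 1216) (nat_lit 0) (XT.nd (nat_lit 1014) (nat_lit 1976) (nat_lit 0) (XT.nd (nat_lit 468) (nat_lit 1444) (nat_lit 0) (XT.nd (nat_lit 234) (nat_lit 836) (nat_lit 0) (XT.nd (nat_lit 78) (nat_lit 684) (nat_lit 0) (XT.lf (nat_lit 0) (nat_lit 5646992627) (nat_lit 380) (nat_lit 597672719) (nat_lit 76) (nat_lit 5666751527) (nat_lit 98) (nat_lit 5) (nat_lit 103) (nat_lit 5) (nat_lit 99) (nat_lit 5) (nat_lit 322) (nat_lit 246) (nat_lit 212)) (XT.nd (nat_lit 78) (nat_lit 380) (nat_lit 0) (XT.lf (nat_lit 0)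 (nat_lit 9785919731) (nat_lit 304) (nat_lit 976075058) (nat_lit 380) (nat_lit 1372217416) (nat_lit 94) (nat_lit 5) (nat_lit 98) (nat_lit 5) (nat_lit 99) (nat_lit 5) (nat_lit 323) (nat_lit 246) (nat_lit 211)) (XT.lf (nat_lit 0) (nat_lit 3622920218) (nat_lit 380) (nat_lit 4312916767) (nat_lit 76) (nat_lit 4427327083) (nat_lit 89) (nat_lit 5) (nat_lit 94) (nat_lit 5) (nat_lit 90) (nat_lit 5) (nat_lit 324) (nat_lit 246) (nat_lit 210)))) (XT.nd (nat_lit 78) (nat_lit 608) (nat_lit 0) (XT.lf (nat_lit 0) (nat_lit 6131801743) (nat_lit 228) (nat_lit 2599778512) (nat_lit 304) (nat_lit 3867609517) (nat_lit 86) (nat_lit 5) (nat_lit 89) (nat_lit 5) (nat_lit 90) (nat_lit 5) (nat_lit 325) (nat_lit 246) (nat_lit 209)) (XT.nd (nat_lit 78) (nat_lit 228) (nat_lit 0) (XT.lf (nat_lit 0) (nat_lit 1131402916) (nat_lit 380) (nat_lit 8835297481) (nat_lit 76) (nat_lit 2875571754) (nat_lit 81) (nat_lit 5) (nat_lit 86) (nat_lit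 5) (nat_lit 82) (nat_lit 5) (nat_lit 326) (nat_lit 246) (nat_lit 208)) (XT.lf (nat_lit 0) (nat_lit 1645069004) (nat_lit 228) (nat_lit 4577271597) (nat_lit 304) (nat_lit 6869935513) (nat_lit 78) (nat_lit 5) (nat_lit 81) (nat_lit 5) (nat_lit 82) (nat_lit 5) (nat_lit 327) (nat_lit 246) (nat_lit 207))))) (XT.nd (nat_lit 234) (nat_lit 836) (nat_lit 0) (XT.nd (nat_lit 78) (nat_lit 608) (nat_lit 0) (XT.lf (nat_lit 0) (nat_lit 11455782959) (nat_lit 304) (nat_lit 919030427) (nat_lit 76) (nat_lit 975200814) (nat_lit 78) (nat_lit 5) (nat_lit 82) (nat_lit 5) (nat_lit 79) (nat_lit 5) (nat_lit 328) (nat_lit 246) (nat_lit 206)) (XT.nd (nat_lit 78) (nat_lit 228) (nat_lit 0) (XT.lf (nat_lit 0) (nat_lit 3208812024) (nat_lit 380) (nat_lit 3732838292) (nat_lit 76) (nat_lit 6673033910) (nat_lit 73) (nat_lit 5) (nat_lit 78) (nat_lit 5) (nat_lit 74) (nat_lit 5) (nat_lit 329) (nat_lit 246) (nat_lit 205)) (XT.lf (nat_lit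 0) (nat_lit 7092537238) (nat_lit 228) (nat_lit 1325450854) (nat_lit 304) (nat_lit 5469507605) (nat_lit 70) (nat_lit 5) (nat_lit 73) (nat_lit 5) (nat_lit 74) (nat_lit 5) (nat_lit 330) (nat_lit 246) (nat_lit 204)))) (XT.nd (nat_lit 156) (nat_lit 304) (nat_lit 0) (XT.nd (nat_lit 78) (nat_lit 304) (nat_lit 0) (XT.lf (nat_lit 0) (nat_lit 4030360375) (nat_lit 228) (nat_lit 9761056840) (nat_lit 304) (nat_lit 376941242) (nat_lit 67) (nat_lit 5) (nat_lit 70) (nat_lit 5) (nat_lit 71) (nat_lit 5) (nat_lit 331) (nat_lit 246) (nat_lit 203)) (XT.lf (nat_lit 0) (nat_lit 666478061) (nat_lit 228) (nat_lit 4125866491) (nat_lit 304) (nat_lit 9664939744) (nat_lit 63) (nat_lit 5) (nat_lit 66) (nat_lit 5) (nat_lit 67) (nat_lit 5) (nat_lit 332) (nat_lit 246) (nat_lit 202))) (XT.nd (nat_lit 78) (nat_lit 304) (nat_lit 0) (XT.lf (nat_lit 0) (nat_lit 10120955808) (nat_lit 304) (nat_lit 2950943178) (nat_lit 76) (nat_lit 1682766221)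 (nat_lit 63) (nat_lit 5) (nat_lit 67) (nat_lit 5) (nat_lit 64) (nat_lit 5) (nat_lit 333) (nat_lit 246) (nat_lit 201)) (XT.lf (nat_lit 0) (nat_lit 553369254) (nat_lit 304) (nat_lit 6884592345) (nat_lit 76) (nat_lit 7622715946) (nat_lit 59) (nat_lit 5) (nat_lit 63) (nat_lit 5) (nat_lit 60) (nat_lit 5) (nat_lit 334) (nat_lit 246) (nat_lit 200)))))) (XT.nd (nat_lit 468) (nat_lit 988) (nat_lit 0) (XT.nd (nat_lit 234) (nat_lit 456) (nat_lit 0) (XT.nd (nat_lit 78) (nat_lit 304) (nat_lit 0) (XT.lf (nat_lit 0) (nat_lit 4212900010) (nat_lit 228) (nat_lit 1600197454) (nat_lit 304) (nat_lit 9562583020) (nat_lit 56) (nat_lit 5) (nat_lit 59) (nat_lit 5) (nat_lit 60) (nat_lit 5) (nat_lit 335) (nat_lit 246) (nat_lit 199)) (XT.nd (nat_lit 78) (nat_lit 304) (nat_lit 0) (XT.lf (nat_lit 0) (nat_lit 11239343244) (nat_lit 304) (nat_lit 102914395) (nat_lit 76) (nat_lit 4357723328) (nat_lit 56) (nat_lit 5) (nat_lit 60)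 (nat_lit 5) (nat_lit 57) (nat_lit 5) (nat_lit 336) (nat_lit 246) (nat_lit 198)) (XT.lf (nat_lit 0) (nat_lit 803298165) (nat_lit 304) (nat_lit 4721493271) (nat_lit 76) (nat_lit 10508749781) (nat_lit 52) (nat_lit 5) (nat_lit 56) (nat_lit 5) (nat_lit 53) (nat_lit 5) (nat_lit 337) (nat_lit 246) (nat_lit 197)))) (XT.nd (nat_lit 78) (nat_lit 304) (nat_lit 0) (XT.lf (nat_lit 0) (nat_lit 6147777929) (nat_lit 228) (nat_lit 9737255539) (nat_lit 76) (nat_lit 491840848) (nat_lit 50) (nat_lit 5) (nat_lit 53) (nat_lit 5) (nat_lit 51) (nat_lit 5) (nat_lit 338) (nat_lit 246) (nat_lit 196)) (XT.nd (nat_lit 78) (nat_lit 76) (nat_lit 0) (XT.lf (nat_lit 0) (nat_lit 1552137009) (nat_lit 228) (nat_lit 10116397479) (nat_lit 304) (nat_lit 5061673784) (nat_lit 47) (nat_lit 5) (nat_lit 50) (nat_lit 5) (nat_lit 51) (nat_lit 5) (nat_lit 339) (nat_lit 246) (nat_lit 195)) (XT.lf (nat_lit 0) (nat_lit 261210163) (nat_lit 304)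 (nat_lit 3887950339) (nat_lit 76) (nat_lit 12944889471) (nat_lit 46) (nat_lit 5) (nat_lit 50) (nat_lit 5) (nat_lit 47) (nat_lit 5) (nat_lit 340) (nat_lit 246) (nat_lit 194))))) (XT.nd (nat_lit 234) (nat_lit 608) (nat_lit 0) (XT.nd (nat_lit 78) (nat_lit 228) (nat_lit 0) (XT.lf (nat_lit 0) (nat_lit 5677934400) (nat_lit 228) (nat_lit 9776926924) (nat_lit 76) (nat_lit 2013236222) (nat_lit 44) (nat_lit 5) (nat_lit 47) (nat_lit 5) (nat_lit 45) (nat_lit 5) (nat_lit 341) (nat_lit 246) (nat_lit 193)) (XT.nd (nat_lit 78) (nat_lit 0) (nat_lit 0) (XT.lf (nat_lit 0) (nat_lit 1709896351) (nat_lit 228) (nat_lit 9552730177) (nat_lit 304) (nat_lit 6590648381) (nat_lit 41) (nat_lit 5) (nat_lit 44) (nat_lit 5) (nat_lit 45) (nat_lit 5) (nat_lit 342) (nat_lit 246) (nat_lit 192)) (XT.lf (nat_lit 0) (nat_lit 13574165893) (nat_lit 228) (nat_lit 3448130811) (nat_lit 304) (nat_lit 1227579314) (nat_lit 41) (nat_lit 5) (nat_lit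 44) (nat_lit 5) (nat_lit 45) (nat_lit 5) (nat_lit 343) (nat_lit 246) (nat_lit 191)))) (XT.nd (nat_lit 156) (nat_lit 228) (nat_lit 0) (XT.nd (nat_lit 78) (nat_lit 152) (nat_lit 0) (XT.lf (nat_lit 0) (nat_lit 4247310167) (nat_lit 228) (nat_lit 11574302394) (nat_lit 76) (nat_lit 2836075522) (nat_lit 38) (nat_lit 5) (nat_lit 41) (nat_lit 5) (nat_lit 39) (nat_lit 5) (nat_lit 344) (nat_lit 246) (nat_lit 190)) (XT.lf (nat_lit 0) (nat_lit 53273212) (nat_lit 152) (nat_lit 9815172050) (nat_lit 228) (nat_lit 9209169290) (nat_lit 36) (nat_lit 5) (nat_lit 38) (nat_lit 5) (nat_lit 39) (nat_lit 5) (nat_lit 345) (nat_lit 246) (nat_lit 189))) (XT.nd (nat_lit 78) (nat_lit 228) (nat_lit 0) (XT.lf (nat_lit 0) (nat_lit 12091596050) (nat_lit 152) (nat_lit 3589357699) (nat_lit 228) (nat_lit 3828745686) (nat_lit 36) (nat_lit 5) (nat_lit 38) (nat_lit 5) (nat_lit 39) (nat_lit 5) (nat_lit 346) (nat_lit 246) (nat_lit 188))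 (XT.lf (nat_lit 0) (nat_lit 1683667657) (nat_lit 228) (nat_lit 15483738671) (nat_lit 76) (nat_lit 2787271858) (nat_lit 33) (nat_lit 5) (nat_lit 36) (nat_lit 5) (nat_lit 34) (nat_lit 5) (nat_lit 347) (nat_lit 246) (nat_lit 187))))))) (XT.nd (nat_lit 1014) (nat_lit 76) (nat_lit 0) (XT.nd (nat_lit 468) (nat_lit 608) (nat_lit 0) (XT.nd (nat_lit 234) (nat_lit 380) (nat_lit 0) (XT.nd (nat_lit 78) (nat_lit 152) (nat_lit 0) (XT.lf (nat_lit 0) (nat_lit 7330620058) (nat_lit 228) (nat_lit 3737481396) (nat_lit 76) (nat_lit 9343989236) (nat_lit 33) (nat_lit 5) (nat_lit 36) (nat_lit 5) (nat_lit 34) (nat_lit 5) (nat_lit 348) (nat_lit 246) (nat_lit 186)) (XT.nd (nat_lit 78) (nat_lit 0) (nat_lit 0) (XT.lf (nat_lit 0) (nat_lit 8380066494) (nat_lit 152) (nat_lit 4769171887) (nat_lit 228) (nat_lit 7733955864) (nat_lit 31) (nat_lit 5) (nat_lit 33) (nat_lit 5) (nat_lit 34) (nat_lit 5) (nat_lit 349) (nat_lit 246) (nat_lit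 185)) (XT.lf (nat_lit 0) (nat_lit 19127605799) (nat_lit 228) (nat_lit 557266861) (nat_lit 76) (nat_lit 1683867855) (nat_lit 31) (nat_lit 5) (nat_lit 34) (nat_lit 5) (nat_lit 32) (nat_lit 4) (nat_lit 350) (nat_lit 246) (nat_lit 184)))) (XT.nd (nat_lit 78) (nat_lit 152) (nat_lit 0) (XT.lf (nat_lit 0) (nat_lit 3430463332) (nat_lit 228) (nat_lit 10108353477) (nat_lit 76) (nat_lit 8328429500) (nat_lit 28) (nat_lit 5) (nat_lit 31) (nat_lit 5) (nat_lit 29) (nat_lit 5) (nat_lit 351) (nat_lit 246) (nat_lit 183)) (XT.nd (nat_lit 78) (nat_lit 0) (nat_lit 0) (XT.lf (nat_lit 0) (nat_lit 1995764315) (nat_lit 152) (nat_lit 7213523398) (nat_lit 228) (nat_lit 13171785153) (nat_lit 26) (nat_lit 5) (nat_lit 28) (nat_lit 5) (nat_lit 29) (nat_lit 5) (nat_lit 352) (nat_lit 246) (nat_lit 182)) (XT.lf (nat_lit 0) (nat_lit 14515849195) (nat_lit 152) (nat_lit 665602787) (nat_lit 228) (nat_lit 7728474775) (nat_lit 26) (nat_lit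 5) (nat_lit 28) (nat_lit 5) (nat_lit 29) (nat_lit 5) (nat_lit 353) (nat_lit 246) (nat_lit 181))))) (XT.nd (nat_lit 234) (nat_lit 304) (nat_lit 0) (XT.nd (nat_lit 78) (nat_lit 228) (nat_lit 0) (XT.lf (nat_lit 0) (nat_lit 3884619608) (nat_lit 76) (nat_lit 17465508213) (nat_lit 152) (nat_lit 2104183198) (nat_lit 25) (nat_lit 5) (nat_lit 26) (nat_lit 5) (nat_lit 27) (nat_lit 4) (nat_lit 354) (nat_lit 246) (nat_lit 180)) (XT.nd (nat_lit 78) (nat_lit 152) (nat_lit 0) (XT.lf (nat_lit 0) (nat_lit 3655348782) (nat_lit 152) (nat_lit 7479115758) (nat_lit 76) (nat_lit 12879796562) (nat_lit 24) (nat_lit 5) (nat_lit 26) (nat_lit 5) (nat_lit 25) (nat_lit 5) (nat_lit 355) (nat_lit 246) (nat_lit 179)) (XT.lf (nat_lit 0) (nat_lit 4944344276) (nat_lit 152) (nat_lit 4601546002) (nat_lit 228) (nat_lit 15045115813) (nat_lit 22) (nat_lit 5) (nat_lit 24) (nat_lit 5) (nat_lit 25) (nat_lit 5) (nat_lit 356) (nat_lit 246)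 (nat_lit 178)))) (XT.nd (nat_lit 156) (nat_lit 228) (nat_lit 0) (XT.nd (nat_lit 78) (nat_lit 76) (nat_lit 0) (XT.lf (nat_lit 0) (nat_lit 15633107005) (nat_lit 228) (nat_lit 7435282124) (nat_lit 76) (nat_lit 2116275611) (nat_lit 22) (nat_lit 5) (nat_lit 25) (nat_lit 5) (nat_lit 23) (nat_lit 4) (nat_lit 357) (nat_lit 246) (nat_lit 177)) (XT.lf (nat_lit 0) (nat_lit 5100917411) (nat_lit 76) (nat_lit 16822351089) (nat_lit 152) (nat_lit 3872468263) (nat_lit 21) (nat_lit 5) (nat_lit 22) (nat_lit 5) (nat_lit 23) (nat_lit 4) (nat_lit 358) (nat_lit 246) (nat_lit 176))) (XT.nd (nat_lit 78) (nat_lit 152) (nat_lit 0) (XT.lf (nat_lit 0) (nat_lit 1958699622) (nat_lit 152) (nat_lit 8399295556) (nat_lit 76) (nat_lit 16066746055) (nat_lit 20) (nat_lit 5) (nat_lit 22) (nat_lit 5) (nat_lit 21) (nat_lit 5) (nat_lit 359) (nat_lit 246) (nat_lit 175)) (XT.lf (nat_lit 0) (nat_lit 4219811593) (nat_lit 152) (nat_lit 3678248728)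 (nat_lit 228) (nat_lit 19174335596) (nat_lit 18) (nat_lit 5) (nat_lit 20) (nat_lit 5) (nat_lit 21) (nat_lit 5) (nat_lit 360) (nat_lit 246) (nat_lit 174)))))) (XT.nd (nat_lit 35100) (nat_lit 0) (nat_lit 18772) (XT.nd (nat_lit 34788) (nat_lit 0) (nat_lit 24396) (XT.nd (nat_lit 78) (nat_lit 76) (nat_lit 0) (XT.lf (nat_lit 0) (nat_lit 14052385994) (nat_lit 228) (nat_lit 10501181775) (nat_lit 76) (nat_lit 3185185925) (nat_lit 18) (nat_lit 5) (nat_lit 21) (nat_lit 5) (nat_lit 19) (nat_lit 4) (nat_lit 361) (nat_lit 246) (nat_lit 173)) (XT.nd (nat_lit 78) (nat_lit 0) (nat_lit 0) (XT.lf (nat_lit 0) (nat_lit 2152416452) (nat_lit 76) (nat_lit 18237402977) (nat_lit 152) (nat_lit 8035322084) (nat_lit 17) (nat_lit 5) (nat_lit 18) (nat_lit 5) (nat_lit 19) (nat_lit 4) (nat_lit 362) (nat_lit 246) (nat_lit 172)) (XT.lf (nat_lit 0) (nat_lit 15258554566) (nat_lit 76) (nat_lit 11690593696) (nat_lit 152) (nat_lit 2182345868)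 (nat_lit 17) (nat_lit 5) (nat_lit 18) (nat_lit 5) (nat_lit 19) (nat_lit 4) (nat_lit 363) (nat_lit 246) (nat_lit 171)))) (XT.nd (nat_lit 156) (nat_lit 1824) (nat_lit 0) (XT.nd (nat_lit 78) (nat_lit 1292) (nat_lit 0) (XT.lf (nat_lit 0) (nat_lit 1156059762) (nat_lit 1748) (nat_lit 1295786767) (nat_lit 0) (nat_lit 1156059762) (nat_lit 379) (nat_lit 5) (nat_lit 402) (nat_lit 4) (nat_lit 379) (nat_lit 4) (nat_lit 286) (nat_lit 247) (nat_lit 247)) (XT.lf (nat_lit 0) (nat_lit 4799191324) (nat_lit 1292) (nat_lit 2434402525) (nat_lit 1292) (nat_lit 45093646) (nat_lit 362) (nat_lit 4) (nat_lit 379) (nat_lit 5) (nat_lit 379) (nat_lit 4) (nat_lit 287) (nat_lit 247) (nat_lit 246))) (XT.nd (nat_lit 78) (nat_lit 912) (nat_lit 0) (XT.lf (nat_lit 0) (nat_lit 4802800419) (nat_lit 912) (nat_lit 2355863656) (nat_lit 0) (nat_lit 186108030) (nat_lit 350) (nat_lit 5) (nat_lit 362) (nat_lit 4) (nat_lit 350) (nat_lit 4)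 (nat_lit 288) (nat_lit 247) (nat_lit 245)) (XT.lf (nat_lit 0) (nat_lit 2278286778) (nat_lit 912) (nat_lit 2222546014) (nat_lit 76) (nat_lit 2913286390) (nat_lit 338) (nat_lit 5) (nat_lit 350) (nat_lit 5) (nat_lit 339) (nat_lit 4) (nat_lit 289) (nat_lit 247) (nat_lit 244))))) (XT.nd (nat_lit 234) (nat_lit 3040) (nat_lit 0) (XT.nd (nat_lit 78) (nat_lit 1748) (nat_lit 0) (XT.lf (nat_lit 0) (nat_lit 5419325860) (nat_lit 836) (nat_lit 1703294738) (nat_lit 912) (nat_lit 364438412) (nat_lit 327) (nat_lit 5) (nat_lit 338) (nat_lit 5) (nat_lit 339) (nat_lit 4) (nat_lit 290) (nat_lit 247) (nat_lit 243)) (XT.nd (nat_lit 78) (nat_lit 836) (nat_lit 0) (XT.lf (nat_lit 0) (nat_lit 4415027949) (nat_lit 912) (nat_lit 1914597306) (nat_lit 76) (nat_lit 1233601077) (nat_lit 315) (nat_lit 5) (nat_lit 327) (nat_lit 5) (nat_lit 316) (nat_lit 4) (nat_lit 291) (nat_lit 247) (nat_lit 242)) (XT.lf (nat_lit 0) (nat_lit 1599903868)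 (nat_lit 836) (nat_lit 1753746387) (nat_lit 76) (nat_lit 4289261215) (nat_lit 304) (nat_lit 5) (nat_lit 315) (nat_lit 5) (nat_lit 305) (nat_lit 5) (nat_lit 292) (nat_lit 247) (nat_lit 241)))) (XT.nd (nat_lit 156) (nat_lit 1520) (nat_lit 0) (XT.nd (nat_lit 78) (nat_lit 760) (nat_lit 0) (XT.lf (nat_lit 0) (nat_lit 6141520822) (nat_lit 760) (nat_lit 228814562) (nat_lit 836) (nat_lit 1355895414) (nat_lit 294) (nat_lit 5) (nat_lit 304) (nat_lit 5) (nat_lit 305) (nat_lit 5) (nat_lit 293) (nat_lit 247) (nat_lit 240)) (XT.lf (nat_lit 0) (nat_lit 3371016281) (nat_lit 760) (nat_lit 1431685831) (nat_lit 76) (nat_lit 3010109911) (nat_lit 284) (nat_lit 5) (nat_lit 294) (nat_lit 5) (nat_lit 285) (nat_lit 5) (nat_lit 294) (nat_lit 247) (nat_lit 239))) (XT.nd (nat_lit 78) (nat_lit 684) (nat_lit 0) (XT.lf (nat_lit 0) (nat_lit 244366368) (nat_lit 836) (nat_lit 1268698752) (nat_lit 76) (nat_lit 6390226109) (nat_lit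 273) (nat_lit 5) (nat_lit 284) (nat_lit 5) (nat_lit 274) (nat_lit 5) (nat_lit 295) (nat_lit 247) (nat_lit 238)) (XT.lf (nat_lit 0) (nat_lit 4954059536) (nat_lit 760) (nat_lit 1128698964) (nat_lit 76) (nat_lit 1914372630) (nat_lit 264) (nat_lit 5) (nat_lit 274) (nat_lit 5) (nat_lit 265) (nat_lit 5) (nat_lit 296) (nat_lit 247) (nat_lit 237))))))))
noncomputable def xc29 : XT := (XT.nd (nat_lit 2106) (nat_lit 4788) (nat_lit 0) (XT.nd (nat_lit 1014) (nat_lit 5244) (nat_lit 0) (XT.nd (nat_lit 468) (nat_lit 3800) (nat_lit 0) (XT.nd (nat_lit 234) (nat_lit 1824) (nat_lit 0) (XT.nd (nat_lit 78) (nat_lit 1292) (nat_lit 0) (XT.lf (nat_lit 0) (nat_lit 1631742536) (nat_lit 760) (nat_lit 994626274) (nat_lit 76) (nat_lit 5468431228) (nat_lit 254) (nat_lit 5) (nat_lit 264) (nat_lit 5) (nat_lit 255) (nat_lit 5) (nat_lit 297) (nat_lit 247) (nat_lit 236)) (XT.nd (nat_lit 78) (nat_lit 684) (nat_lit 0) (XT.lf (nat_lit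 0) (nat_lit 6347553579) (nat_lit 684) (nat_lit 875683191) (nat_lit 76) (nat_lit 973009871) (nat_lit 246) (nat_lit 5) (nat_lit 255) (nat_lit 5) (nat_lit 247) (nat_lit 5) (nat_lit 298) (nat_lit 247) (nat_lit 235)) (XT.lf (nat_lit 0) (nat_lit 2821492890) (nat_lit 684) (nat_lit 785479446) (nat_lit 76) (nat_lit 4694365048) (nat_lit 237) (nat_lit 5) (nat_lit 246) (nat_lit 5) (nat_lit 238) (nat_lit 5) (nat_lit 299) (nat_lit 247) (nat_lit 234)))) (XT.nd (nat_lit 78) (nat_lit 1216) (nat_lit 0) (XT.lf (nat_lit 0) (nat_lit 7548093198) (nat_lit 684) (nat_lit 705228251) (nat_lit 76) (nat_lit 157271370) (nat_lit 229) (nat_lit 5) (nat_lit 238) (nat_lit 5) (nat_lit 230) (nat_lit 5) (nat_lit 300) (nat_lit 247) (nat_lit 233)) (XT.nd (nat_lit 78) (nat_lit 532) (nat_lit 0) (XT.lf (nat_lit 0) (nat_lit 3809114902) (nat_lit 684) (nat_lit 674895729) (nat_lit 76) (nat_lit 4039354271) (nat_lit 220) (nat_lit 5) (nat_lit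 229) (nat_lit 5) (nat_lit 221) (nat_lit 5) (nat_lit 301) (nat_lit 247) (nat_lit 232)) (XT.lf (nat_lit 0) (nat_lit 7984948546) (nat_lit 532) (nat_lit 569012755) (nat_lit 608) (nat_lit 86627227) (nat_lit 213) (nat_lit 5) (nat_lit 220) (nat_lit 5) (nat_lit 221) (nat_lit 5) (nat_lit 302) (nat_lit 247) (nat_lit 231))))) (XT.nd (nat_lit 234) (nat_lit 2052) (nat_lit 0) (XT.nd (nat_lit 78) (nat_lit 1140) (nat_lit 0) (XT.lf (nat_lit 0) (nat_lit 4588036806) (nat_lit 608) (nat_lit 698701150) (nat_lit 76) (nat_lit 3474666083) (nat_lit 205) (nat_lit 5) (nat_lit 213) (nat_lit 5) (nat_lit 206) (nat_lit 5) (nat_lit 303) (nat_lit 247) (nat_lit 230)) (XT.nd (nat_lit 78) (nat_lit 532) (nat_lit 0) (XT.lf (nat_lit 0) (nat_lit 461550427) (nat_lit 608) (nat_lit 763834081) (nat_lit 76) (nat_lit 7661404403) (nat_lit 197) (nat_lit 5) (nat_lit 205) (nat_lit 5) (nat_lit 198) (nat_lit 5) (nat_lit 304) (nat_lit 247) (nat_lit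 229)) (XT.lf (nat_lit 0) (nat_lit 5149509201) (nat_lit 608) (nat_lit 895277085) (nat_lit 76) (nat_lit 2971252445) (nat_lit 190) (nat_lit 5) (nat_lit 198) (nat_lit 5) (nat_lit 191) (nat_lit 5) (nat_lit 305) (nat_lit 247) (nat_lit 228)))) (XT.nd (nat_lit 156) (nat_lit 988) (nat_lit 0) (XT.nd (nat_lit 78) (nat_lit 532) (nat_lit 0) (XT.lf (nat_lit 0) (nat_lit 778867299) (nat_lit 532) (nat_lit 1064725185) (nat_lit 76) (nat_lit 7306315621) (nat_lit 183) (nat_lit 5) (nat_lit 190) (nat_lit 5) (nat_lit 184) (nat_lit 5) (nat_lit 306) (nat_lit 247) (nat_lit 227)) (XT.lf (nat_lit 0) (nat_lit 5482476742) (nat_lit 608) (nat_lit 1305955887) (nat_lit 76) (nat_lit 2499485895) (nat_lit 176) (nat_lit 5) (nat_lit 184) (nat_lit 5) (nat_lit 177) (nat_lit 5) (nat_lit 307) (nat_lit 247) (nat_lit 226))) (XT.nd (nat_lit 78) (nat_lit 456) (nat_lit 0) (XT.lf (nat_lit 0) (nat_lit 854038301) (nat_lit 532) (nat_lit 1600774885)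 (nat_lit 76) (nat_lit 6975826675) (nat_lit 169) (nat_lit 5) (nat_lit 176) (nat_lit 5) (nat_lit 170) (nat_lit 5) (nat_lit 308) (nat_lit 247) (nat_lit 225)) (XT.lf (nat_lit 0) (nat_lit 5573428467) (nat_lit 532) (nat_lit 1975449123) (nat_lit 76) (nat_lit 2028884550) (nat_lit 163) (nat_lit 5) (nat_lit 170) (nat_lit 5) (nat_lit 164) (nat_lit 5) (nat_lit 309) (nat_lit 247) (nat_lit 224)))))) (XT.nd (nat_lit 546) (nat_lit 2204) (nat_lit 0) (XT.nd (nat_lit 234) (nat_lit 1596) (nat_lit 0) (XT.nd (nat_lit 78) (nat_lit 912) (nat_lit 0) (XT.lf (nat_lit 0) (nat_lit 672088106) (nat_lit 532) (nat_lit 2418608917) (nat_lit 76) (nat_lit 6639040913) (nat_lit 156) (nat_lit 5) (nat_lit 163) (nat_lit 5) (nat_lit 157) (nat_lit 5) (nat_lit 310) (nat_lit 247) (nat_lit 223)) (XT.nd (nat_lit 78) (nat_lit 456) (nat_lit 0) (XT.lf (nat_lit 0) (nat_lit 5406225153) (nat_lit 532) (nat_lit 2952312494) (nat_lit 76) (nat_lit 1527823913)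 (nat_lit 150) (nat_lit 5) (nat_lit 157) (nat_lit 5) (nat_lit 151) (nat_lit 5) (nat_lit 311) (nat_lit 247) (nat_lit 222)) (XT.lf (nat_lit 0) (nat_lit 215302509) (nat_lit 456) (nat_lit 3568939999) (nat_lit 76) (nat_lit 6263789165) (nat_lit 144) (nat_lit 5) (nat_lit 150) (nat_lit 5) (nat_lit 145) (nat_lit 5) (nat_lit 312) (nat_lit 247) (nat_lit 221)))) (XT.nd (nat_lit 156) (nat_lit 760) (nat_lit 0) (XT.nd (nat_lit 78) (nat_lit 380) (nat_lit 0) (XT.lf (nat_lit 0) (nat_lit 4961901837) (nat_lit 532) (nat_lit 4289451911) (nat_lit 76) (nat_lit 963232884) (nat_lit 138) (nat_lit 5) (nat_lit 145) (nat_lit 5) (nat_lit 139) (nat_lit 5) (nat_lit 313) (nat_lit 247) (nat_lit 220)) (XT.lf (nat_lit 0) (nat_lit 5275730843) (nat_lit 380) (nat_lit 4566510961) (nat_lit 456) (nat_lit 544118431) (nat_lit 133) (nat_lit 5) (nat_lit 138) (nat_lit 5) (nat_lit 139) (nat_lit 5) (nat_lit 314) (nat_lit 247) (nat_lit 219))) (XT.nd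 (nat_lit 78) (nat_lit 304) (nat_lit 0) (XT.lf (nat_lit 0) (nat_lit 4218443438) (nat_lit 456) (nat_lit 6044675582) (nat_lit 76) (nat_lit 300271237) (nat_lit 127) (nat_lit 5) (nat_lit 133) (nat_lit 5) (nat_lit 128) (nat_lit 5) (nat_lit 315) (nat_lit 247) (nat_lit 218)) (XT.lf (nat_lit 0) (nat_lit 3641536296) (nat_lit 304) (nat_lit 5474187638) (nat_lit 380) (nat_lit 1629995770) (nat_lit 123) (nat_lit 5) (nat_lit 127) (nat_lit 5) (nat_lit 128) (nat_lit 5) (nat_lit 316) (nat_lit 247) (nat_lit 217))))) (XT.nd (nat_lit 234) (nat_lit 988) (nat_lit 0) (XT.nd (nat_lit 78) (nat_lit 760) (nat_lit 0) (XT.lf (nat_lit 0) (nat_lit 2649174792) (nat_lit 380) (nat_lit 504632751) (nat_lit 456) (nat_lit 7779941125) (nat_lit 117) (nat_lit 5) (nat_lit 122) (nat_lit 5) (nat_lit 123) (nat_lit 5) (nat_lit 317) (nat_lit 247) (nat_lit 216)) (XT.nd (nat_lit 78) (nat_lit 456) (nat_lit 0) (XT.lf (nat_lit 0) (nat_lit 1512511083)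 (nat_lit 304) (nat_lit 6547570872) (nat_lit 380) (nat_lit 3067140731) (nat_lit 113) (nat_lit 5) (nat_lit 117) (nat_lit 5) (nat_lit 118) (nat_lit 5) (nat_lit 318) (nat_lit 247) (nat_lit 215)) (XT.lf (nat_lit 0) (nat_lit 248326047) (nat_lit 380) (nat_lit 1490608864) (nat_lit 456) (nat_lit 9587867093) (nat_lit 107) (nat_lit 5) (nat_lit 112) (nat_lit 5) (nat_lit 113) (nat_lit 5) (nat_lit 319) (nat_lit 247) (nat_lit 214)))) (XT.nd (nat_lit 156) (nat_lit 684) (nat_lit 0) (XT.nd (nat_lit 78) (nat_lit 304) (nat_lit 0) (XT.lf (nat_lit 0) (nat_lit 6652698293) (nat_lit 456) (nat_lit 1167711186) (nat_lit 76) (nat_lit 3711488777) (nat_lit 107) (nat_lit 5) (nat_lit 113) (nat_lit 5) (nat_lit 108) (nat_lit 5) (nat_lit 320) (nat_lit 247) (nat_lit 213)) (XT.lf (nat_lit 0) (nat_lit 9022108406) (nat_lit 304) (nat_lit 2677995960) (nat_lit 380) (nat_lit 43355859) (nat_lit 103) (nat_lit 5) (nat_lit 107) (nat_lit 5) (nat_lit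 108) (nat_lit 5) (nat_lit 321) (nat_lit 247) (nat_lit 212))) (XT.nd (nat_lit 78) (nat_lit 304) (nat_lit 0) (XT.lf (nat_lit 0) (nat_lit 4865556316) (nat_lit 380) (nat_lit 4465423374) (nat_lit 76) (nat_lit 2629928834) (nat_lit 98) (nat_lit 5) (nat_lit 103) (nat_lit 5) (nat_lit 99) (nat_lit 5) (nat_lit 322) (nat_lit 247) (nat_lit 211)) (XT.lf (nat_lit 0) (nat_lit 5804377542) (nat_lit 304) (nat_lit 4110912460) (nat_lit 380) (nat_lit 2269736259) (nat_lit 94) (nat_lit 5) (nat_lit 98) (nat_lit 5) (nat_lit 99) (nat_lit 5) (nat_lit 323) (nat_lit 247) (nat_lit 210))))))) (XT.nd (nat_lit 1014) (nat_lit 1900) (nat_lit 0) (XT.nd (nat_lit 468) (nat_lit 1292) (nat_lit 0) (XT.nd (nat_lit 234) (nat_lit 988) (nat_lit 0) (XT.nd (nat_lit 78) (nat_lit 228) (nat_lit 0) (XT.lf (nat_lit 0) (nat_lit 2650630831) (nat_lit 380) (nat_lit 8486425137) (nat_lit 76) (nat_lit 1278785752) (nat_lit 89) (nat_lit 5) (nat_lit 94) (nat_lit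 5) (nat_lit 90) (nat_lit 5) (nat_lit 324) (nat_lit 247) (nat_lit 209)) (XT.nd (nat_lit 78) (nat_lit 0) (nat_lit 0) (XT.lf (nat_lit 0) (nat_lit 1841268846) (nat_lit 228) (nat_lit 5851831179) (nat_lit 304) (nat_lit 4960106962) (nat_lit 86) (nat_lit 5) (nat_lit 89) (nat_lit 5) (nat_lit 90) (nat_lit 5) (nat_lit 325) (nat_lit 247) (nat_lit 208)) (XT.lf (nat_lit 0) (nat_lit 12473628615) (nat_lit 228) (nat_lit 394382435) (nat_lit 304) (nat_lit 30089839) (nat_lit 86) (nat_lit 5) (nat_lit 89) (nat_lit 5) (nat_lit 90) (nat_lit 5) (nat_lit 326) (nat_lit 247) (nat_lit 207)))) (XT.nd (nat_lit 78) (nat_lit 608) (nat_lit 0) (XT.lf (nat_lit 0) (nat_lit 5007894490) (nat_lit 380) (nat_lit 2926626145) (nat_lit 76) (nat_lit 5214669632) (nat_lit 81) (nat_lit 5) (nat_lit 86) (nat_lit 5) (nat_lit 82) (nat_lit 5) (nat_lit 327) (nat_lit 247) (nat_lit 206)) (XT.nd (nat_lit 78) (nat_lit 380) (nat_lit 0) (XT.lf (nat_lit 0)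 (nat_lit 7767989895) (nat_lit 228) (nat_lit 2411085131) (nat_lit 304) (nat_lit 3229112691) (nat_lit 78) (nat_lit 5) (nat_lit 81) (nat_lit 5) (nat_lit 82) (nat_lit 5) (nat_lit 328) (nat_lit 247) (nat_lit 205)) (XT.lf (nat_lit 0) (nat_lit 1808217729) (nat_lit 380) (nat_lit 8610095280) (nat_lit 76) (nat_lit 3256395919) (nat_lit 73) (nat_lit 5) (nat_lit 78) (nat_lit 5) (nat_lit 74) (nat_lit 5) (nat_lit 329) (nat_lit 247) (nat_lit 204))))) (XT.nd (nat_lit 234) (nat_lit 760) (nat_lit 0) (XT.nd (nat_lit 78) (nat_lit 304) (nat_lit 0) (XT.lf (nat_lit 0) (nat_lit 2092342538) (nat_lit 228) (nat_lit 4857344269) (nat_lit 304) (nat_lit 6999200787) (nat_lit 70) (nat_lit 5) (nat_lit 73) (nat_lit 5) (nat_lit 74) (nat_lit 5) (nat_lit 330) (nat_lit 247) (nat_lit 203)) (XT.nd (nat_lit 78) (nat_lit 304) (nat_lit 0) (XT.lf (nat_lit 0) (nat_lit 12239292616) (nat_lit 304) (nat_lit 1118144879) (nat_lit 76) (nat_lit 874001997)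 (nat_lit 70) (nat_lit 5) (nat_lit 74) (nat_lit 5) (nat_lit 71) (nat_lit 5) (nat_lit 331) (nat_lit 247) (nat_lit 202)) (XT.lf (nat_lit 0) (nat_lit 3152275879) (nat_lit 304) (nat_lit 4614854812) (nat_lit 76) (nat_lit 6754377380) (nat_lit 66) (nat_lit 5) (nat_lit 70) (nat_lit 5) (nat_lit 67) (nat_lit 5) (nat_lit 332) (nat_lit 247) (nat_lit 201)))) (XT.nd (nat_lit 156) (nat_lit 304) (nat_lit 0) (XT.nd (nat_lit 78) (nat_lit 228) (nat_lit 0) (XT.lf (nat_lit 0) (nat_lit 6416734993) (nat_lit 228) (nat_lit 1989044171) (nat_lit 304) (nat_lit 6414623689) (nat_lit 63) (nat_lit 5) (nat_lit 66) (nat_lit 5) (nat_lit 67) (nat_lit 5) (nat_lit 333) (nat_lit 247) (nat_lit 200)) (XT.lf (nat_lit 0) (nat_lit 2612446827) (nat_lit 228) (nat_lit 11211955294) (nat_lit 304) (nat_lit 1303735148) (nat_lit 60) (nat_lit 5) (nat_lit 63) (nat_lit 5) (nat_lit 64) (nat_lit 5) (nat_lit 334) (nat_lit 247) (nat_lit 199))) (XT.nd (nat_lit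 78) (nat_lit 228) (nat_lit 0) (XT.lf (nat_lit 0) (nat_lit 3913288889) (nat_lit 304) (nat_lit 1519068252) (nat_lit 76) (nat_lit 10012159243) (nat_lit 59) (nat_lit 5) (nat_lit 63) (nat_lit 5) (nat_lit 60) (nat_lit 5) (nat_lit 335) (nat_lit 247) (nat_lit 198)) (XT.lf (nat_lit 0) (nat_lit 9272604798) (nat_lit 304) (nat_lit 5952872333) (nat_lit 76) (nat_lit 544688842) (nat_lit 56) (nat_lit 5) (nat_lit 60) (nat_lit 5) (nat_lit 57) (nat_lit 5) (nat_lit 336) (nat_lit 247) (nat_lit 197)))))) (XT.nd (nat_lit 546) (nat_lit 760) (nat_lit 0) (XT.nd (nat_lit 234) (nat_lit 684) (nat_lit 0) (XT.nd (nat_lit 78) (nat_lit 228) (nat_lit 0) (XT.lf (nat_lit 0) (nat_lit 5336895749) (nat_lit 228) (nat_lit 9474099468) (nat_lit 304) (nat_lit 1294244641) (nat_lit 53) (nat_lit 5) (nat_lit 56) (nat_lit 5) (nat_lit 57) (nat_lit 5) (nat_lit 337) (nat_lit 247) (nat_lit 196)) (XT.nd (nat_lit 78) (nat_lit 0) (nat_lit 0) (XT.lf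 (nat_lit 0) (nat_lit 471815885) (nat_lit 152) (nat_lit 3521393436) (nat_lit 228) (nat_lit 12457021409) (nat_lit 50) (nat_lit 5) (nat_lit 52) (nat_lit 5) (nat_lit 53) (nat_lit 5) (nat_lit 338) (nat_lit 247) (nat_lit 195)) (XT.lf (nat_lit 0) (nat_lit 9450756831) (nat_lit 228) (nat_lit 4737874446) (nat_lit 76) (nat_lit 2616207018) (nat_lit 50) (nat_lit 5) (nat_lit 53) (nat_lit 5) (nat_lit 51) (nat_lit 5) (nat_lit 339) (nat_lit 247) (nat_lit 194)))) (XT.nd (nat_lit 156) (nat_lit 228) (nat_lit 0) (XT.nd (nat_lit 78) (nat_lit 228) (nat_lit 0) (XT.lf (nat_lit 0) (nat_lit 6804351598) (nat_lit 228) (nat_lit 8275751600) (nat_lit 304) (nat_lit 2089838020) (nat_lit 47) (nat_lit 5) (nat_lit 50) (nat_lit 5) (nat_lit 51) (nat_lit 5) (nat_lit 340) (nat_lit 247) (nat_lit 193)) (XT.lf (nat_lit 0) (nat_lit 1104599864) (nat_lit 152) (nat_lit 2164548761) (nat_lit 228) (nat_lit 14276823175) (nat_lit 44) (nat_lit 5)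 (nat_lit 46) (nat_lit 5) (nat_lit 47) (nat_lit 5) (nat_lit 341) (nat_lit 247) (nat_lit 192))) (XT.nd (nat_lit 78) (nat_lit 228) (nat_lit 0) (XT.lf (nat_lit 0) (nat_lit 8800035736) (nat_lit 228) (nat_lit 5012015200) (nat_lit 76) (nat_lit 4120182786) (nat_lit 44) (nat_lit 5) (nat_lit 47) (nat_lit 5) (nat_lit 45) (nat_lit 5) (nat_lit 342) (nat_lit 247) (nat_lit 191)) (XT.lf (nat_lit 0) (nat_lit 6737349171) (nat_lit 228) (nat_lit 7761254274) (nat_lit 304) (nat_lit 3831461649) (nat_lit 41) (nat_lit 5) (nat_lit 44) (nat_lit 5) (nat_lit 45) (nat_lit 5) (nat_lit 343) (nat_lit 247) (nat_lit 190))))) (XT.nd (nat_lit 234) (nat_lit 380) (nat_lit 0) (XT.nd (nat_lit 78) (nat_lit 152) (nat_lit 0) (XT.lf (nat_lit 0) (nat_lit 62726131) (nat_lit 152) (nat_lit 1522989226) (nat_lit 228) (nat_lit 17154344998) (nat_lit 38) (nat_lit 5) (nat_lit 40) (nat_lit 5) (nat_lit 41) (nat_lit 5) (nat_lit 344) (nat_lit 247) (nat_lit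 189)) (XT.nd (nat_lit 78) (nat_lit 152) (nat_lit 0) (XT.lf (nat_lit 0) (nat_lit 7169490608) (nat_lit 228) (nat_lit 7087487845) (nat_lit 76) (nat_lit 4903763156) (nat_lit 38) (nat_lit 5) (nat_lit 41) (nat_lit 5) (nat_lit 39) (nat_lit 5) (nat_lit 345) (nat_lit 247) (nat_lit 188)) (XT.lf (nat_lit 0) (nat_lit 4810488414) (nat_lit 152) (nat_lit 8098247152) (nat_lit 228) (nat_lit 6685563564) (nat_lit 36) (nat_lit 5) (nat_lit 38) (nat_lit 5) (nat_lit 39) (nat_lit 5) (nat_lit 346) (nat_lit 247) (nat_lit 187)))) (XT.nd (nat_lit 156) (nat_lit 152) (nat_lit 0) (XT.nd (nat_lit 78) (nat_lit 228) (nat_lit 0) (XT.lf (nat_lit 0) (nat_lit 17071447820) (nat_lit 152) (nat_lit 1744242256) (nat_lit 228) (nat_lit 1225277178) (nat_lit 36) (nat_lit 5) (nat_lit 38) (nat_lit 5) (nat_lit 39) (nat_lit 5) (nat_lit 347) (nat_lit 247) (nat_lit 186)) (XT.lf (nat_lit 0) (nat_lit 4381064040) (nat_lit 228) (nat_lit 11329503175)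 (nat_lit 76) (nat_lit 4789112076) (nat_lit 33) (nat_lit 5) (nat_lit 36) (nat_lit 5) (nat_lit 34) (nat_lit 5) (nat_lit 348) (nat_lit 247) (nat_lit 185))) (XT.nd (nat_lit 78) (nat_lit 0) (nat_lit 0) (XT.lf (nat_lit 0) (nat_lit 643048888) (nat_lit 152) (nat_lit 9481457448) (nat_lit 228) (nat_lit 10847786642) (nat_lit 31) (nat_lit 5) (nat_lit 33) (nat_lit 5) (nat_lit 34) (nat_lit 5) (nat_lit 349) (nat_lit 247) (nat_lit 184)) (XT.lf (nat_lit 0) (nat_lit 13042938355) (nat_lit 152) (nat_lit 3024363614) (nat_lit 228) (nat_lit 5391255131) (nat_lit 31) (nat_lit 5) (nat_lit 33) (nat_lit 5) (nat_lit 34) (nat_lit 5) (nat_lit 350) (nat_lit 247) (nat_lit 183))))))))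
noncomputable def xc30 : XT := (XT.nd (nat_lit 36504) (nat_lit 0) (nat_lit 5776) (XT.nd (nat_lit 35412) (nat_lit 0) (nat_lit 18012) (XT.nd (nat_lit 468) (nat_lit 532) (nat_lit 0) (XT.nd (nat_lit 234) (nat_lit 152) (nat_lit 0) (XT.nd (nat_lit 78) (nat_lit 152) (nat_lit 0) (XT.lf (nat_lit 0) (nat_lit 225641148) (nat_lit 228) (nat_lit 18164381496) (nat_lit 76) (nat_lit 3569375736) (nat_lit 28) (nat_lit 5) (nat_lit 31) (nat_lit 5) (nat_lit 29) (nat_lit 5) (nat_lit 351) (nat_lit 247) (nat_lit 182)) (XT.nd (nat_lit 78) (nat_lit 152) (nat_lit 0) (XT.lf (nat_lit 0) (nat_lit 5967878649) (nat_lit 228) (nat_lit 6128014649) (nat_lit 76) (nat_lit 10378069307) (nat_lit 28) (nat_lit 5) (nat_lit 31) (nat_lit 5) (nat_lit 29) (nat_lit 5) (nat_lit 352) (nat_lit 247) (nat_lit 181)) (XT.lf (nat_lit 0) (nat_lit 6269730527) (nat_lit 152) (nat_lit 5606790116) (nat_lit 228) (nat_lit 11127572058) (nat_lit 26) (nat_lit 5)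 (nat_lit 28) (nat_lit 5) (nat_lit 29) (nat_lit 5) (nat_lit 353) (nat_lit 247) (nat_lit 180)))) (XT.nd (nat_lit 78) (nat_lit 152) (nat_lit 0) (XT.lf (nat_lit 0) (nat_lit 17965251472) (nat_lit 228) (nat_lit 4514585984) (nat_lit 76) (nat_lit 1070243998) (nat_lit 26) (nat_lit 5) (nat_lit 29) (nat_lit 5) (nat_lit 27) (nat_lit 4) (nat_lit 354) (nat_lit 247) (nat_lit 179)) (XT.nd (nat_lit 78) (nat_lit 0) (nat_lit 0) (XT.lf (nat_lit 0) (nat_lit 168062370) (nat_lit 152) (nat_lit 16051594920) (nat_lit 76) (nat_lit 7891877319) (nat_lit 24) (nat_lit 5) (nat_lit 26) (nat_lit 5) (nat_lit 25) (nat_lit 5) (nat_lit 355) (nat_lit 247) (nat_lit 178)) (XT.lf (nat_lit 0) (nat_lit 6004763053) (nat_lit 152) (nat_lit 3731532309) (nat_lit 76) (nat_lit 14953066219) (nat_lit 24) (nat_lit 5) (nat_lit 26) (nat_lit 5) (nat_lit 25) (nat_lit 5) (nat_lit 356) (nat_lit 247) (nat_lit 177))))) (XT.nd (nat_lit 234) (nat_lit 304) (nat_lit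 0) (XT.nd (nat_lit 78) (nat_lit 76) (nat_lit 0) (XT.lf (nat_lit 0) (nat_lit 9000191244) (nat_lit 152) (nat_lit 3031964193) (nat_lit 228) (nat_lit 13252066296) (nat_lit 22) (nat_lit 5) (nat_lit 24) (nat_lit 5) (nat_lit 25) (nat_lit 5) (nat_lit 357) (nat_lit 247) (nat_lit 176)) (XT.nd (nat_lit 78) (nat_lit 76) (nat_lit 0) (XT.lf (nat_lit 0) (nat_lit 18248678375) (nat_lit 228) (nat_lit 3832181242) (nat_lit 76) (nat_lit 3815911780) (nat_lit 22) (nat_lit 5) (nat_lit 25) (nat_lit 5) (nat_lit 23) (nat_lit 4) (nat_lit 358) (nat_lit 247) (nat_lit 175)) (XT.lf (nat_lit 0) (nat_lit 9018029390) (nat_lit 76) (nat_lit 15671432564) (nat_lit 152) (nat_lit 1837489896) (nat_lit 21) (nat_lit 5) (nat_lit 22) (nat_lit 5) (nat_lit 23) (nat_lit 4) (nat_lit 359) (nat_lit 247) (nat_lit 174)))) (XT.nd (nat_lit 156) (nat_lit 76) (nat_lit 0) (XT.nd (nat_lit 78) (nat_lit 152) (nat_lit 0) (XT.lf (nat_lit 0) (nat_lit 4078567081)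 (nat_lit 152) (nat_lit 4968968826) (nat_lit 76) (nat_lit 18128261786) (nat_lit 20) (nat_lit 5) (nat_lit 22) (nat_lit 5) (nat_lit 21) (nat_lit 5) (nat_lit 360) (nat_lit 247) (nat_lit 173)) (XT.lf (nat_lit 0) (nat_lit 7968970504) (nat_lit 152) (nat_lit 2190625962) (nat_lit 228) (nat_lit 17684029299) (nat_lit 18) (nat_lit 5) (nat_lit 20) (nat_lit 5) (nat_lit 21) (nat_lit 5) (nat_lit 361) (nat_lit 247) (nat_lit 172))) (XT.nd (nat_lit 78) (nat_lit 76) (nat_lit 0) (XT.lf (nat_lit 0) (nat_lit 16449656037) (nat_lit 228) (nat_lit 7269487606) (nat_lit 76) (nat_lit 4811821659) (nat_lit 18) (nat_lit 5) (nat_lit 21) (nat_lit 5) (nat_lit 19) (nat_lit 4) (nat_lit 362) (nat_lit 247) (nat_lit 171)) (XT.lf (nat_lit 0) (nat_lit 5706177093) (nat_lit 76) (nat_lit 17236144891) (nat_lit 152) (nat_lit 6296333311) (nat_lit 17) (nat_lit 5) (nat_lit 18) (nat_lit 5) (nat_lit 19) (nat_lit 4) (nat_lit 363) (nat_lit 247) (nat_lit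 170)))))) (XT.nd (nat_lit 546) (nat_lit 5472) (nat_lit 0) (XT.nd (nat_lit 234) (nat_lit 4028) (nat_lit 0) (XT.nd (nat_lit 78) (nat_lit 3344) (nat_lit 0) (XT.lf (nat_lit 0) (nat_lit 1108000749) (nat_lit 1596) (nat_lit 1333355749) (nat_lit 0) (nat_lit 1108000749) (nat_lit 423) (nat_lit 5) (nat_lit 444) (nat_lit 4) (nat_lit 423) (nat_lit 4) (nat_lit 284) (nat_lit 248) (nat_lit 248)) (XT.nd (nat_lit 78) (nat_lit 1748) (nat_lit 0) (XT.lf (nat_lit 0) (nat_lit 4482191255) (nat_lit 1596) (nat_lit 2592217495) (nat_lit 1596) (nat_lit 82009587) (nat_lit 402) (nat_lit 4) (nat_lit 423) (nat_lit 5) (nat_lit 423) (nat_lit 4) (nat_lit 285) (nat_lit 248) (nat_lit 247)) (XT.lf (nat_lit 0) (nat_lit 4552138136) (nat_lit 1672) (nat_lit 150555478) (nat_lit 1748) (nat_lit 2514599188) (nat_lit 379) (nat_lit 5) (nat_lit 401) (nat_lit 5) (nat_lit 402) (nat_lit 4) (nat_lit 286) (nat_lit 248) (nat_lit 246)))) (XT.nd (nat_lit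 156) (nat_lit 1824) (nat_lit 0) (XT.nd (nat_lit 78) (nat_lit 836) (nat_lit 0) (XT.lf (nat_lit 0) (nat_lit 2241486486) (nat_lit 1368) (nat_lit 2642211680) (nat_lit 76) (nat_lit 2397669076) (nat_lit 361) (nat_lit 5) (nat_lit 379) (nat_lit 5) (nat_lit 362) (nat_lit 4) (nat_lit 287) (nat_lit 248) (nat_lit 245)) (XT.lf (nat_lit 0) (nat_lit 4753729285) (nat_lit 836) (nat_lit 2264041230) (nat_lit 912) (nat_lit 331162331) (nat_lit 350) (nat_lit 5) (nat_lit 361) (nat_lit 5) (nat_lit 362) (nat_lit 4) (nat_lit 288) (nat_lit 248) (nat_lit 244))) (XT.nd (nat_lit 78) (nat_lit 912) (nat_lit 0) (XT.lf (nat_lit 0) (nat_lit 4376107174) (nat_lit 912) (nat_lit 2541364733) (nat_lit 76) (nat_lit 502264087) (nat_lit 338) (nat_lit 5) (nat_lit 350) (nat_lit 5) (nat_lit 339) (nat_lit 4) (nat_lit 289) (nat_lit 248) (nat_lit 243)) (XT.lf (nat_lit 0) (nat_lit 1636294967) (nat_lit 912) (nat_lit 2479884405) (nat_lit 76) (nat_lit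 3377708527) (nat_lit 326) (nat_lit 5) (nat_lit 338) (nat_lit 5) (nat_lit 327) (nat_lit 5) (nat_lit 290) (nat_lit 248) (nat_lit 242))))) (XT.nd (nat_lit 234) (nat_lit 2964) (nat_lit 0) (XT.nd (nat_lit 78) (nat_lit 1672) (nat_lit 0) (XT.lf (nat_lit 0) (nat_lit 5165819949) (nat_lit 836) (nat_lit 1169101258) (nat_lit 912) (nat_lit 1236666374) (nat_lit 315) (nat_lit 5) (nat_lit 326) (nat_lit 5) (nat_lit 327) (nat_lit 5) (nat_lit 291) (nat_lit 248) (nat_lit 241)) (XT.nd (nat_lit 78) (nat_lit 836) (nat_lit 0) (XT.lf (nat_lit 0) (nat_lit 3411226564) (nat_lit 836) (nat_lit 2336790604) (nat_lit 76) (nat_lit 1904565775) (nat_lit 304) (nat_lit 5) (nat_lit 315) (nat_lit 5) (nat_lit 305) (nat_lit 5) (nat_lit 292) (nat_lit 248) (nat_lit 240)) (XT.lf (nat_lit 0) (nat_lit 372694810) (nat_lit 836) (nat_lit 2259965961) (nat_lit 76) (nat_lit 5104580888) (nat_lit 293) (nat_lit 5) (nat_lit 304) (nat_lit 5) (nat_lit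 294) (nat_lit 5) (nat_lit 293) (nat_lit 248) (nat_lit 239)))) (XT.nd (nat_lit 156) (nat_lit 1444) (nat_lit 0) (XT.nd (nat_lit 78) (nat_lit 836) (nat_lit 0) (XT.lf (nat_lit 0) (nat_lit 4999720595) (nat_lit 760) (nat_lit 2192096984) (nat_lit 76) (nat_lit 633522735) (nat_lit 284) (nat_lit 5) (nat_lit 294) (nat_lit 5) (nat_lit 285) (nat_lit 5) (nat_lit 294) (nat_lit 248) (nat_lit 238)) (XT.lf (nat_lit 0) (nat_lit 1773182336) (nat_lit 836) (nat_lit 2133913517) (nat_lit 76) (nat_lit 4009886029) (nat_lit 273) (nat_lit 5) (nat_lit 284) (nat_lit 5) (nat_lit 274) (nat_lit 5) (nat_lit 295) (nat_lit 248) (nat_lit 237))) (XT.nd (nat_lit 78) (nat_lit 760) (nat_lit 0) (XT.lf (nat_lit 0) (nat_lit 5934117734) (nat_lit 684) (nat_lit 470666257) (nat_lit 760) (nat_lit 1607647154) (nat_lit 264) (nat_lit 5) (nat_lit 273) (nat_lit 5) (nat_lit 274) (nat_lit 5) (nat_lit 296) (nat_lit 248) (nat_lit 236)) (XT.lf (nat_lit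 0) (nat_lit 2979975442) (nat_lit 760) (nat_lit 2049798038) (nat_lit 76) (nat_lit 3081552733) (nat_lit 254) (nat_lit 5) (nat_lit 264) (nat_lit 5) (nat_lit 255) (nat_lit 5) (nat_lit 297) (nat_lit 248) (nat_lit 235))))))) (XT.nd (nat_lit 1014) (nat_lit 4788) (nat_lit 0) (XT.nd (nat_lit 468) (nat_lit 3724) (nat_lit 0) (XT.nd (nat_lit 234) (nat_lit 1748) (nat_lit 0) (XT.nd (nat_lit 78) (nat_lit 1368) (nat_lit 0) (XT.lf (nat_lit 0) (nat_lit 6187765013) (nat_lit 608) (nat_lit 1436920906) (nat_lit 684) (nat_lit 589552833) (nat_lit 246) (nat_lit 5) (nat_lit 254) (nat_lit 5) (nat_lit 255) (nat_lit 5) (nat_lit 298) (nat_lit 248) (nat_lit 234)) (XT.nd (nat_lit 78) (nat_lit 684) (nat_lit 0) (XT.lf (nat_lit 0) (nat_lit 3990143584) (nat_lit 684) (nat_lit 2039398298) (nat_lit 76) (nat_lit 2291145432) (nat_lit 237) (nat_lit 5) (nat_lit 246) (nat_lit 5) (nat_lit 238) (nat_lit 5) (nat_lit 299) (nat_lit 248) (nat_lit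 233)) (XT.lf (nat_lit 0) (nat_lit 217467335) (nat_lit 684) (nat_lit 2066624481) (nat_lit 76) (nat_lit 6147164933) (nat_lit 228) (nat_lit 5) (nat_lit 237) (nat_lit 5) (nat_lit 229) (nat_lit 5) (nat_lit 300) (nat_lit 248) (nat_lit 232)))) (XT.nd (nat_lit 78) (nat_lit 1140) (nat_lit 0) (XT.lf (nat_lit 0) (nat_lit 4798791580) (nat_lit 684) (nat_lit 2136372581) (nat_lit 76) (nat_lit 1610370877) (nat_lit 220) (nat_lit 5) (nat_lit 229) (nat_lit 5) (nat_lit 221) (nat_lit 5) (nat_lit 301) (nat_lit 248) (nat_lit 231)) (XT.nd (nat_lit 78) (nat_lit 532) (nat_lit 0) (XT.lf (nat_lit 0) (nat_lit 805276475) (nat_lit 608) (nat_lit 2234608286) (nat_lit 76) (nat_lit 5624077292) (nat_lit 212) (nat_lit 5) (nat_lit 220) (nat_lit 5) (nat_lit 213) (nat_lit 5) (nat_lit 302) (nat_lit 248) (nat_lit 230)) (XT.lf (nat_lit 0) (nat_lit 5398968187) (nat_lit 608) (nat_lit 2376598787) (nat_lit 76) (nat_lit 1010831767) (nat_lit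 205) (nat_lit 5) (nat_lit 213) (nat_lit 5) (nat_lit 206) (nat_lit 5) (nat_lit 303) (nat_lit 248) (nat_lit 229))))) (XT.nd (nat_lit 234) (nat_lit 2052) (nat_lit 0) (XT.nd (nat_lit 78) (nat_lit 1064) (nat_lit 0) (XT.lf (nat_lit 0) (nat_lit 1173457433) (nat_lit 608) (nat_lit 2563787462) (nat_lit 76) (nat_lit 5175745085) (nat_lit 197) (nat_lit 5) (nat_lit 205) (nat_lit 5) (nat_lit 198) (nat_lit 5) (nat_lit 304) (nat_lit 248) (nat_lit 228)) (XT.nd (nat_lit 78) (nat_lit 532) (nat_lit 0) (XT.lf (nat_lit 0) (nat_lit 5781556107) (nat_lit 608) (nat_lit 2798540082) (nat_lit 76) (nat_lit 463773808) (nat_lit 190) (nat_lit 5) (nat_lit 198) (nat_lit 5) (nat_lit 191) (nat_lit 5) (nat_lit 305) (nat_lit 248) (nat_lit 227)) (XT.lf (nat_lit 0) (nat_lit 1311617356) (nat_lit 532) (nat_lit 3094125046) (nat_lit 76) (nat_lit 4773220739) (nat_lit 183) (nat_lit 5) (nat_lit 190) (nat_lit 5) (nat_lit 184) (nat_lit 5) (nat_lit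 306) (nat_lit 248) (nat_lit 226)))) (XT.nd (nat_lit 156) (nat_lit 988) (nat_lit 0) (XT.nd (nat_lit 78) (nat_lit 532) (nat_lit 0) (XT.lf (nat_lit 0) (nat_lit 5874562400) (nat_lit 532) (nat_lit 60975671) (nat_lit 608) (nat_lit 3383059753) (nat_lit 176) (nat_lit 5) (nat_lit 183) (nat_lit 5) (nat_lit 184) (nat_lit 5) (nat_lit 307) (nat_lit 248) (nat_lit 225)) (XT.lf (nat_lit 0) (nat_lit 1206979662) (nat_lit 532) (nat_lit 3868767966) (nat_lit 76) (nat_lit 4386823728) (nat_lit 169) (nat_lit 5) (nat_lit 176) (nat_lit 5) (nat_lit 170) (nat_lit 5) (nat_lit 308) (nat_lit 248) (nat_lit 224))) (XT.nd (nat_lit 78) (nat_lit 532) (nat_lit 0) (XT.lf (nat_lit 0) (nat_lit 5250616608) (nat_lit 456) (nat_lit 599139687) (nat_lit 532) (nat_lit 3761497788) (nat_lit 163) (nat_lit 5) (nat_lit 169) (nat_lit 5) (nat_lit 170) (nat_lit 5) (nat_lit 309) (nat_lit 248) (nat_lit 223)) (XT.lf (nat_lit 0) (nat_lit 844221811) (nat_lit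 532) (nat_lit 4934492672) (nat_lit 76) (nat_lit 3985861030) (nat_lit 156) (nat_lit 5) (nat_lit 163) (nat_lit 5) (nat_lit 157) (nat_lit 5) (nat_lit 310) (nat_lit 248) (nat_lit 222)))))) (XT.nd (nat_lit 546) (nat_lit 2204) (nat_lit 0) (XT.nd (nat_lit 234) (nat_lit 1216) (nat_lit 0) (XT.nd (nat_lit 78) (nat_lit 912) (nat_lit 0) (XT.lf (nat_lit 0) (nat_lit 4328470917) (nat_lit 456) (nat_lit 1176414524) (nat_lit 532) (nat_lit 4417809202) (nat_lit 150) (nat_lit 5) (nat_lit 156) (nat_lit 5) (nat_lit 157) (nat_lit 5) (nat_lit 311) (nat_lit 248) (nat_lit 221)) (XT.nd (nat_lit 78) (nat_lit 456) (nat_lit 0) (XT.lf (nat_lit 0) (nat_lit 205289227) (nat_lit 456) (nat_lit 6342189708) (nat_lit 76) (nat_lit 3538332973) (nat_lit 144) (nat_lit 5) (nat_lit 150) (nat_lit 5) (nat_lit 145) (nat_lit 5) (nat_lit 312) (nat_lit 248) (nat_lit 220)) (XT.lf (nat_lit 0) (nat_lit 3055682439) (nat_lit 456) (nat_lit 1826158944)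 (nat_lit 532) (nat_lit 5371950491) (nat_lit 138) (nat_lit 5) (nat_lit 144) (nat_lit 5) (nat_lit 145) (nat_lit 5) (nat_lit 313) (nat_lit 248) (nat_lit 219)))) (XT.nd (nat_lit 156) (nat_lit 380) (nat_lit 0) (XT.nd (nat_lit 78) (nat_lit 456) (nat_lit 0) (XT.lf (nat_lit 0) (nat_lit 2274901098) (nat_lit 380) (nat_lit 7411671160) (nat_lit 456) (nat_lit 740528761) (nat_lit 133) (nat_lit 5) (nat_lit 138) (nat_lit 5) (nat_lit 139) (nat_lit 5) (nat_lit 314) (nat_lit 248) (nat_lit 218)) (XT.lf (nat_lit 0) (nat_lit 1374950674) (nat_lit 380) (nat_lit 2583555913) (nat_lit 456) (nat_lit 6646994245) (nat_lit 127) (nat_lit 5) (nat_lit 132) (nat_lit 5) (nat_lit 133) (nat_lit 5) (nat_lit 315) (nat_lit 248) (nat_lit 217))) (XT.nd (nat_lit 78) (nat_lit 76) (nat_lit 0) (XT.lf (nat_lit 0) (nat_lit 365540075) (nat_lit 304) (nat_lit 8409230950) (nat_lit 380) (nat_lit 2014701163) (nat_lit 123) (nat_lit 5) (nat_lit 127)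 (nat_lit 5) (nat_lit 128) (nat_lit 5) (nat_lit 316) (nat_lit 248) (nat_lit 216)) (XT.lf (nat_lit 0) (nat_lit 2714519054) (nat_lit 380) (nat_lit 766298280) (nat_lit 76) (nat_lit 7497946896) (nat_lit 122) (nat_lit 5) (nat_lit 127) (nat_lit 5) (nat_lit 123) (nat_lit 5) (nat_lit 317) (nat_lit 248) (nat_lit 215))))) (XT.nd (nat_lit 234) (nat_lit 1064) (nat_lit 0) (XT.nd (nat_lit 78) (nat_lit 760) (nat_lit 0) (XT.lf (nat_lit 0) (nat_lit 7544841630) (nat_lit 456) (nat_lit 2021906599) (nat_lit 76) (nat_lit 1607029006) (nat_lit 117) (nat_lit 5) (nat_lit 123) (nat_lit 5) (nat_lit 118) (nat_lit 5) (nat_lit 318) (nat_lit 248) (nat_lit 214)) (XT.nd (nat_lit 78) (nat_lit 380) (nat_lit 0) (XT.lf (nat_lit 0) (nat_lit 1128294216) (nat_lit 380) (nat_lit 3422009817) (nat_lit 76) (nat_lit 6824268736) (nat_lit 112) (nat_lit 5) (nat_lit 117) (nat_lit 5) (nat_lit 113) (nat_lit 5) (nat_lit 319) (nat_lit 248) (nat_lit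 213)) (XT.lf (nat_lit 0) (nat_lit 5958979916) (nat_lit 456) (nat_lit 4974107630) (nat_lit 76) (nat_lit 648261466) (nat_lit 107) (nat_lit 5) (nat_lit 113) (nat_lit 5) (nat_lit 108) (nat_lit 5) (nat_lit 320) (nat_lit 248) (nat_lit 212)))) (XT.nd (nat_lit 156) (nat_lit 380) (nat_lit 0) (XT.nd (nat_lit 78) (nat_lit 380) (nat_lit 0) (XT.lf (nat_lit 0) (nat_lit 5103761454) (nat_lit 304) (nat_lit 5837815295) (nat_lit 380) (nat_lit 852648316) (nat_lit 103) (nat_lit 5) (nat_lit 107) (nat_lit 5) (nat_lit 108) (nat_lit 5) (nat_lit 321) (nat_lit 248) (nat_lit 211)) (XT.lf (nat_lit 0) (nat_lit 3435687681) (nat_lit 304) (nat_lit 548532818) (nat_lit 380) (nat_lit 8029228138) (nat_lit 98) (nat_lit 5) (nat_lit 102) (nat_lit 5) (nat_lit 103) (nat_lit 5) (nat_lit 322) (nat_lit 248) (nat_lit 210))) (XT.nd (nat_lit 78) (nat_lit 76) (nat_lit 0) (XT.lf (nat_lit 0) (nat_lit 1580423982) (nat_lit 304) (nat_lit 7384274483)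 (nat_lit 380) (nat_lit 3274269566) (nat_lit 94) (nat_lit 5) (nat_lit 98) (nat_lit 5) (nat_lit 99) (nat_lit 5) (nat_lit 323) (nat_lit 248) (nat_lit 209)) (XT.lf (nat_lit 0) (nat_lit 1587489806) (nat_lit 380) (nat_lit 444350631) (nat_lit 76) (nat_lit 10439524887) (nat_lit 93) (nat_lit 5) (nat_lit 98) (nat_lit 5) (nat_lit 94) (nat_lit 5) (nat_lit 324) (nat_lit 248) (nat_lit 208))))))))
noncomputable def xc31 : XT := (XT.nd (nat_lit 2106) (nat_lit 988) (nat_lit 0) (XT.nd (nat_lit 1014) (nat_lit 1900) (nat_lit 0) (XT.nd (nat_lit 468) (nat_lit 1292) (nat_lit 0) (XT.nd (nat_lit 234) (nat_lit 608) (nat_lit 0) (XT.nd (nat_lit 78) (nat_lit 608) (nat_lit 0) (XT.lf (nat_lit 0) (nat_lit 6564652148) (nat_lit 380) (nat_lit 2663906681) (nat_lit 76) (nat_lit 3481493185) (nat_lit 89) (nat_lit 5) (nat_lit 94) (nat_lit 5) (nat_lit 90) (nat_lit 5) (nat_lit 325) (nat_lit 248) (nat_lit 207)) (XT.nd (nat_lit 78) (nat_lit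 380) (nat_lit 0) (XT.lf (nat_lit 0) (nat_lit 7875024212) (nat_lit 228) (nat_lit 3810503170) (nat_lit 304) (nat_lit 1270514089) (nat_lit 86) (nat_lit 5) (nat_lit 89) (nat_lit 5) (nat_lit 90) (nat_lit 5) (nat_lit 326) (nat_lit 248) (nat_lit 206)) (XT.lf (nat_lit 0) (nat_lit 3694511691) (nat_lit 380) (nat_lit 7731347573) (nat_lit 76) (nat_lit 1783231325) (nat_lit 81) (nat_lit 5) (nat_lit 86) (nat_lit 5) (nat_lit 82) (nat_lit 5) (nat_lit 327) (nat_lit 248) (nat_lit 205)))) (XT.nd (nat_lit 78) (nat_lit 380) (nat_lit 0) (XT.lf (nat_lit 0) (nat_lit 2842183707) (nat_lit 228) (nat_lit 5956372386) (nat_lit 304) (nat_lit 4670888381) (nat_lit 78) (nat_lit 5) (nat_lit 81) (nat_lit 5) (nat_lit 82) (nat_lit 5) (nat_lit 328) (nat_lit 248) (nat_lit 204)) (XT.nd (nat_lit 78) (nat_lit 304) (nat_lit 0) (XT.lf (nat_lit 0) (nat_lit 296169877) (nat_lit 304) (nat_lit 13986326) (nat_lit 76) (nat_lit 13427793383) (nat_lit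 77) (nat_lit 5) (nat_lit 81) (nat_lit 5) (nat_lit 78) (nat_lit 5) (nat_lit 329) (nat_lit 248) (nat_lit 203)) (XT.lf (nat_lit 0) (nat_lit 5387731783) (nat_lit 380) (nat_lit 3130801506) (nat_lit 76) (nat_lit 5494605779) (nat_lit 73) (nat_lit 5) (nat_lit 78) (nat_lit 5) (nat_lit 74) (nat_lit 5) (nat_lit 330) (nat_lit 248) (nat_lit 202))))) (XT.nd (nat_lit 234) (nat_lit 532) (nat_lit 0) (XT.nd (nat_lit 78) (nat_lit 532) (nat_lit 0) (XT.lf (nat_lit 0) (nat_lit 7799623758) (nat_lit 228) (nat_lit 2817791389) (nat_lit 304) (nat_lit 3679486574) (nat_lit 70) (nat_lit 5) (nat_lit 73) (nat_lit 5) (nat_lit 74) (nat_lit 5) (nat_lit 331) (nat_lit 248) (nat_lit 201)) (XT.nd (nat_lit 78) (nat_lit 228) (nat_lit 0) (XT.lf (nat_lit 0) (nat_lit 1399832429) (nat_lit 304) (nat_lit 10157047074) (nat_lit 76) (nat_lit 3032066284) (nat_lit 66) (nat_lit 5) (nat_lit 70) (nat_lit 5) (nat_lit 67) (nat_lit 5) (nat_lit 332) (nat_lit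 248) (nat_lit 200)) (XT.lf (nat_lit 0) (nat_lit 746892419) (nat_lit 228) (nat_lit 5837286114) (nat_lit 304) (nat_lit 8305056551) (nat_lit 63) (nat_lit 5) (nat_lit 66) (nat_lit 5) (nat_lit 67) (nat_lit 5) (nat_lit 333) (nat_lit 248) (nat_lit 199)))) (XT.nd (nat_lit 156) (nat_lit 228) (nat_lit 0) (XT.nd (nat_lit 78) (nat_lit 304) (nat_lit 0) (XT.lf (nat_lit 0) (nat_lit 11928977037) (nat_lit 304) (nat_lit 3188441721) (nat_lit 76) (nat_lit 81038271) (nat_lit 63) (nat_lit 5) (nat_lit 67) (nat_lit 5) (nat_lit 64) (nat_lit 5) (nat_lit 334) (nat_lit 248) (nat_lit 198)) (XT.lf (nat_lit 0) (nat_lit 1920704825) (nat_lit 304) (nat_lit 7472673702) (nat_lit 76) (nat_lit 6122775789) (nat_lit 59) (nat_lit 5) (nat_lit 63) (nat_lit 5) (nat_lit 60) (nat_lit 5) (nat_lit 335) (nat_lit 248) (nat_lit 197))) (XT.nd (nat_lit 78) (nat_lit 0) (nat_lit 0) (XT.lf (nat_lit 0) (nat_lit 3736568182) (nat_lit 228) (nat_lit 3469778047)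 (nat_lit 304) (nat_lit 8636941369) (nat_lit 56) (nat_lit 5) (nat_lit 59) (nat_lit 5) (nat_lit 60) (nat_lit 5) (nat_lit 336) (nat_lit 248) (nat_lit 196)) (XT.lf (nat_lit 0) (nat_lit 12657405282) (nat_lit 304) (nat_lit 915047600) (nat_lit 76) (nat_lit 2607665134) (nat_lit 56) (nat_lit 5) (nat_lit 60) (nat_lit 5) (nat_lit 57) (nat_lit 5) (nat_lit 337) (nat_lit 248) (nat_lit 195)))))) (XT.nd (nat_lit 546) (nat_lit 760) (nat_lit 0) (XT.nd (nat_lit 234) (nat_lit 456) (nat_lit 0) (XT.nd (nat_lit 78) (nat_lit 380) (nat_lit 0) (XT.lf (nat_lit 0) (nat_lit 1755041468) (nat_lit 304) (nat_lit 5909180017) (nat_lit 76) (nat_lit 8861964734) (nat_lit 52) (nat_lit 5) (nat_lit 56) (nat_lit 5) (nat_lit 53) (nat_lit 5) (nat_lit 338) (nat_lit 248) (nat_lit 194)) (XT.nd (nat_lit 78) (nat_lit 228) (nat_lit 0) (XT.lf (nat_lit 0) (nat_lit 5575594739) (nat_lit 152) (nat_lit 1551650226) (nat_lit 228) (nat_lit 9755264852)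 (nat_lit 50) (nat_lit 5) (nat_lit 52) (nat_lit 5) (nat_lit 53) (nat_lit 5) (nat_lit 339) (nat_lit 248) (nat_lit 193)) (XT.lf (nat_lit 0) (nat_lit 109166137) (nat_lit 228) (nat_lit 12565350469) (nat_lit 304) (nat_lit 4574746516) (nat_lit 47) (nat_lit 5) (nat_lit 50) (nat_lit 5) (nat_lit 51) (nat_lit 5) (nat_lit 340) (nat_lit 248) (nat_lit 192)))) (XT.nd (nat_lit 156) (nat_lit 228) (nat_lit 0) (XT.nd (nat_lit 78) (nat_lit 152) (nat_lit 0) (XT.lf (nat_lit 0) (nat_lit 781455332) (nat_lit 304) (nat_lit 5716269318) (nat_lit 76) (nat_lit 11128607682) (nat_lit 46) (nat_lit 5) (nat_lit 50) (nat_lit 5) (nat_lit 47) (nat_lit 5) (nat_lit 341) (nat_lit 248) (nat_lit 191)) (XT.lf (nat_lit 0) (nat_lit 6003802138) (nat_lit 152) (nat_lit 216138580) (nat_lit 228) (nat_lit 11794509783) (nat_lit 44) (nat_lit 5) (nat_lit 46) (nat_lit 5) (nat_lit 47) (nat_lit 5) (nat_lit 342) (nat_lit 248) (nat_lit 190))) (XT.nd (nat_lit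 78) (nat_lit 228) (nat_lit 0) (XT.lf (nat_lit 0) (nat_lit 11846356823) (nat_lit 228) (nat_lit 394518618) (nat_lit 76) (nat_lit 6172857436) (nat_lit 44) (nat_lit 5) (nat_lit 47) (nat_lit 5) (nat_lit 45) (nat_lit 5) (nat_lit 343) (nat_lit 248) (nat_lit 189)) (XT.lf (nat_lit 0) (nat_lit 11629973868) (nat_lit 228) (nat_lit 6035323113) (nat_lit 304) (nat_lit 1159237826) (nat_lit 41) (nat_lit 5) (nat_lit 44) (nat_lit 5) (nat_lit 45) (nat_lit 5) (nat_lit 344) (nat_lit 248) (nat_lit 188))))) (XT.nd (nat_lit 234) (nat_lit 380) (nat_lit 0) (XT.nd (nat_lit 78) (nat_lit 152) (nat_lit 0) (XT.lf (nat_lit 0) (nat_lit 4336462240) (nat_lit 228) (nat_lit 14534223113) (nat_lit 76) (nat_lit 376754184) (nat_lit 38) (nat_lit 5) (nat_lit 41) (nat_lit 5) (nat_lit 39) (nat_lit 5) (nat_lit 345) (nat_lit 248) (nat_lit 187)) (XT.nd (nat_lit 78) (nat_lit 152) (nat_lit 0) (XT.lf (nat_lit 0) (nat_lit 10018905740) (nat_lit 228)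 (nat_lit 2743562740) (nat_lit 76) (nat_lit 6919671760) (nat_lit 38) (nat_lit 5) (nat_lit 41) (nat_lit 5) (nat_lit 39) (nat_lit 5) (nat_lit 346) (nat_lit 248) (nat_lit 186)) (XT.lf (nat_lit 0) (nat_lit 9437428201) (nat_lit 152) (nat_lit 6445275951) (nat_lit 228) (nat_lit 4246974279) (nat_lit 36) (nat_lit 5) (nat_lit 38) (nat_lit 5) (nat_lit 39) (nat_lit 5) (nat_lit 347) (nat_lit 248) (nat_lit 185)))) (XT.nd (nat_lit 156) (nat_lit 152) (nat_lit 0) (XT.nd (nat_lit 78) (nat_lit 0) (nat_lit 0) (XT.lf (nat_lit 0) (nat_lit 1292388721) (nat_lit 228) (nat_lit 19237638210) (nat_lit 76) (nat_lit 60894691) (nat_lit 33) (nat_lit 5) (nat_lit 36) (nat_lit 5) (nat_lit 34) (nat_lit 5) (nat_lit 348) (nat_lit 248) (nat_lit 184)) (XT.lf (nat_lit 0) (nat_lit 7007440210) (nat_lit 228) (nat_lit 7315775624) (nat_lit 76) (nat_lit 6740893708) (nat_lit 33) (nat_lit 5) (nat_lit 36) (nat_lit 5) (nat_lit 34) (nat_lit 5) (nat_lit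 349) (nat_lit 248) (nat_lit 183))) (XT.nd (nat_lit 78) (nat_lit 0) (nat_lit 0) (XT.lf (nat_lit 0) (nat_lit 4945320808) (nat_lit 152) (nat_lit 7933004637) (nat_lit 228) (nat_lit 8673492660) (nat_lit 31) (nat_lit 5) (nat_lit 33) (nat_lit 5) (nat_lit 34) (nat_lit 5) (nat_lit 350) (nat_lit 248) (nat_lit 182)) (XT.lf (nat_lit 0) (nat_lit 17592459956) (nat_lit 152) (nat_lit 1335583325) (nat_lit 228) (nat_lit 3126072803) (nat_lit 31) (nat_lit 5) (nat_lit 33) (nat_lit 5) (nat_lit 34) (nat_lit 5) (nat_lit 351) (nat_lit 248) (nat_lit 181))))))) (XT.nd (nat_lit 35256) (nat_lit 0) (nat_lit 18696) (XT.nd (nat_lit 468) (nat_lit 456) (nat_lit 0) (XT.nd (nat_lit 234) (nat_lit 152) (nat_lit 0) (XT.nd (nat_lit 78) (nat_lit 152) (nat_lit 0) (XT.lf (nat_lit 0) (nat_lit 2596003991) (nat_lit 228) (nat_lit 14550488250) (nat_lit 76) (nat_lit 5423822952) (nat_lit 28) (nat_lit 5) (nat_lit 31) (nat_lit 5) (nat_lit 29) (nat_lit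 5) (nat_lit 352) (nat_lit 248) (nat_lit 180)) (XT.nd (nat_lit 78) (nat_lit 152) (nat_lit 0) (XT.lf (nat_lit 0) (nat_lit 8441666086) (nat_lit 228) (nat_lit 2274161214) (nat_lit 76) (nat_lit 12385883177) (nat_lit 28) (nat_lit 5) (nat_lit 31) (nat_lit 5) (nat_lit 29) (nat_lit 5) (nat_lit 353) (nat_lit 248) (nat_lit 179)) (XT.lf (nat_lit 0) (nat_lit 10430009531) (nat_lit 152) (nat_lit 4056510470) (nat_lit 228) (nat_lit 9162062195) (nat_lit 26) (nat_lit 5) (nat_lit 28) (nat_lit 5) (nat_lit 29) (nat_lit 5) (nat_lit 354) (nat_lit 248) (nat_lit 178)))) (XT.nd (nat_lit 78) (nat_lit 152) (nat_lit 0) (XT.lf (nat_lit 0) (nat_lit 20703103457) (nat_lit 228) (nat_lit 760059641) (nat_lit 76) (nat_lit 2748899989) (nat_lit 26) (nat_lit 5) (nat_lit 29) (nat_lit 5) (nat_lit 27) (nat_lit 4) (nat_lit 355) (nat_lit 248) (nat_lit 177)) (XT.nd (nat_lit 78) (nat_lit 0) (nat_lit 0) (XT.lf (nat_lit 0) (nat_lit 2347622501)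 (nat_lit 152) (nat_lit 12676873913) (nat_lit 76) (nat_lit 9766377096) (nat_lit 24) (nat_lit 5) (nat_lit 26) (nat_lit 5) (nat_lit 25) (nat_lit 5) (nat_lit 356) (nat_lit 248) (nat_lit 176)) (XT.lf (nat_lit 0) (nat_lit 8296088721) (nat_lit 152) (nat_lit 99527934) (nat_lit 76) (nat_lit 16991700397) (nat_lit 24) (nat_lit 5) (nat_lit 26) (nat_lit 5) (nat_lit 25) (nat_lit 5) (nat_lit 357) (nat_lit 248) (nat_lit 175))))) (XT.nd (nat_lit 234) (nat_lit 152) (nat_lit 0) (XT.nd (nat_lit 78) (nat_lit 152) (nat_lit 0) (XT.lf (nat_lit 0) (nat_lit 12953406180) (nat_lit 152) (nat_lit 1513319773) (nat_lit 228) (nat_lit 11534063206) (nat_lit 22) (nat_lit 5) (nat_lit 24) (nat_lit 5) (nat_lit 25) (nat_lit 5) (nat_lit 358) (nat_lit 248) (nat_lit 174)) (XT.nd (nat_lit 78) (nat_lit 152) (nat_lit 0) (XT.lf (nat_lit 0) (nat_lit 20819494518) (nat_lit 228) (nat_lit 340624532) (nat_lit 76) (nat_lit 5472615452) (nat_lit 22)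 (nat_lit 5) (nat_lit 25) (nat_lit 5) (nat_lit 23) (nat_lit 4) (nat_lit 359) (nat_lit 248) (nat_lit 173)) (XT.lf (nat_lit 0) (nat_lit 133281630) (nat_lit 152) (nat_lit 14446848048) (nat_lit 76) (nat_lit 12702404861) (nat_lit 20) (nat_lit 5) (nat_lit 22) (nat_lit 5) (nat_lit 21) (nat_lit 5) (nat_lit 360) (nat_lit 248) (nat_lit 172)))) (XT.nd (nat_lit 156) (nat_lit 0) (nat_lit 0) (XT.nd (nat_lit 78) (nat_lit 152) (nat_lit 0) (XT.lf (nat_lit 0) (nat_lit 6143714621) (nat_lit 152) (nat_lit 1647111699) (nat_lit 76) (nat_lit 20160952460) (nat_lit 20) (nat_lit 5) (nat_lit 22) (nat_lit 5) (nat_lit 21) (nat_lit 5) (nat_lit 361) (nat_lit 248) (nat_lit 171)) (XT.lf (nat_lit 0) (nat_lit 11622654157) (nat_lit 152) (nat_lit 750104540) (nat_lit 228) (nat_lit 16267584049) (nat_lit 18) (nat_lit 5) (nat_lit 20) (nat_lit 5) (nat_lit 21) (nat_lit 5) (nat_lit 362) (nat_lit 248) (nat_lit 170))) (XT.nd (nat_lit 34320)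 (nat_lit 0) (nat_lit 33820) (XT.lf (nat_lit 0) (nat_lit 18805431008) (nat_lit 228) (nat_lit 4144439402) (nat_lit 76) (nat_lit 6399366201) (nat_lit 18) (nat_lit 5) (nat_lit 21) (nat_lit 5) (nat_lit 19) (nat_lit 4) (nat_lit 363) (nat_lit 248) (nat_lit 169)) (XT.lf (nat_lit 0) (nat_lit 1124464193) (nat_lit 1444) (nat_lit 1246955589) (nat_lit 0) (nat_lit 1124464193) (nat_lit 463) (nat_lit 5) (nat_lit 482) (nat_lit 4) (nat_lit 463) (nat_lit 4) (nat_lit 282) (nat_lit 249) (nat_lit 249)))))) (XT.nd (nat_lit 546) (nat_lit 5624) (nat_lit 0) (XT.nd (nat_lit 234) (nat_lit 4788) (nat_lit 0) (XT.nd (nat_lit 78) (nat_lit 3192) (nat_lit 0) (XT.lf (nat_lit 0) (nat_lit 5362791) (nat_lit 1520) (nat_lit 2626391589) (nat_lit 76) (nat_lit 4412670973) (nat_lit 443) (nat_lit 5) (nat_lit 463) (nat_lit 5) (nat_lit 444) (nat_lit 4) (nat_lit 283) (nat_lit 249) (nat_lit 248)) (XT.nd (nat_lit 78) (nat_lit 1672) (nat_lit 0)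 (XT.lf (nat_lit 0) (nat_lit 4360766413) (nat_lit 1520) (nat_lit 371116214) (nat_lit 1596) (nat_lit 2368300106) (nat_lit 423) (nat_lit 5) (nat_lit 443) (nat_lit 5) (nat_lit 444) (nat_lit 4) (nat_lit 284) (nat_lit 249) (nat_lit 247)) (XT.lf (nat_lit 0) (nat_lit 2326679062) (nat_lit 1672) (nat_lit 2832925403) (nat_lit 76) (nat_lit 1999514645) (nat_lit 401) (nat_lit 5) (nat_lit 423) (nat_lit 5) (nat_lit 402) (nat_lit 4) (nat_lit 285) (nat_lit 249) (nat_lit 246)))) (XT.nd (nat_lit 156) (nat_lit 1748) (nat_lit 0) (XT.nd (nat_lit 78) (nat_lit 1368) (nat_lit 0) (XT.lf (nat_lit 0) (nat_lit 4321760264) (nat_lit 1672) (nat_lit 2718184824) (nat_lit 1748) (nat_lit 181514911) (nat_lit 379) (nat_lit 5) (nat_lit 401) (nat_lit 5) (nat_lit 402) (nat_lit 4) (nat_lit 286) (nat_lit 249) (nat_lit 245)) (XT.lf (nat_lit 0) (nat_lit 4333342377) (nat_lit 1292) (nat_lit 124957660) (nat_lit 1368) (nat_lit 2828711358) (nat_lit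 361) (nat_lit 5) (nat_lit 378) (nat_lit 5) (nat_lit 379) (nat_lit 5) (nat_lit 287) (nat_lit 249) (nat_lit 244))) (XT.nd (nat_lit 78) (nat_lit 836) (nat_lit 0) (XT.lf (nat_lit 0) (nat_lit 1785250745) (nat_lit 912) (nat_lit 2998001307) (nat_lit 76) (nat_lit 2572546093) (nat_lit 349) (nat_lit 5) (nat_lit 361) (nat_lit 5) (nat_lit 350) (nat_lit 5) (nat_lit 288) (nat_lit 249) (nat_lit 243)) (XT.lf (nat_lit 0) (nat_lit 4402415365) (nat_lit 836) (nat_lit 2014077440) (nat_lit 912) (nat_lit 1011560601) (nat_lit 338) (nat_lit 5) (nat_lit 349) (nat_lit 5) (nat_lit 350) (nat_lit 5) (nat_lit 289) (nat_lit 249) (nat_lit 242))))) (XT.nd (nat_lit 234) (nat_lit 3040) (nat_lit 0) (XT.nd (nat_lit 78) (nat_lit 1672) (nat_lit 0) (XT.lf (nat_lit 0) (nat_lit 3560672226) (nat_lit 912) (nat_lit 3049199355) (nat_lit 76) (nat_lit 893749134) (nat_lit 326) (nat_lit 5) (nat_lit 338) (nat_lit 5) (nat_lit 327) (nat_lit 5) (nat_lit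 290) (nat_lit 249) (nat_lit 241)) (XT.nd (nat_lit 78) (nat_lit 760) (nat_lit 0) (XT.lf (nat_lit 0) (nat_lit 601522595) (nat_lit 912) (nat_lit 3066728022) (nat_lit 76) (nat_lit 3914388673) (nat_lit 314) (nat_lit 5) (nat_lit 326) (nat_lit 5) (nat_lit 315) (nat_lit 5) (nat_lit 291) (nat_lit 249) (nat_lit 240)) (XT.lf (nat_lit 0) (nat_lit 4581932029) (nat_lit 760) (nat_lit 571951364) (nat_lit 836) (nat_lit 2511230969) (nat_lit 304) (nat_lit 5) (nat_lit 314) (nat_lit 5) (nat_lit 315) (nat_lit 5) (nat_lit 292) (nat_lit 249) (nat_lit 239)))) (XT.nd (nat_lit 156) (nat_lit 1520) (nat_lit 0) (XT.nd (nat_lit 78) (nat_lit 684) (nat_lit 0) (XT.lf (nat_lit 0) (nat_lit 2009964475) (nat_lit 836) (nat_lit 3106147464) (nat_lit 76) (nat_lit 2634891210) (nat_lit 293) (nat_lit 5) (nat_lit 304) (nat_lit 5) (nat_lit 294) (nat_lit 5) (nat_lit 293) (nat_lit 249) (nat_lit 238)) (XT.lf (nat_lit 0) (nat_lit 4711445591) (nat_lit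 684) (nat_lit 1855647377) (nat_lit 760) (nat_lit 1273456716) (nat_lit 284) (nat_lit 5) (nat_lit 293) (nat_lit 5) (nat_lit 294) (nat_lit 5) (nat_lit 294) (nat_lit 249) (nat_lit 237))) (XT.nd (nat_lit 78) (nat_lit 684) (nat_lit 0) (XT.lf (nat_lit 0) (nat_lit 3227387644) (nat_lit 836) (nat_lit 3166218302) (nat_lit 76) (nat_lit 1539983300) (nat_lit 273) (nat_lit 5) (nat_lit 284) (nat_lit 5) (nat_lit 274) (nat_lit 5) (nat_lit 295) (nat_lit 249) (nat_lit 236)) (XT.lf (nat_lit 0) (nat_lit 4819698176) (nat_lit 684) (nat_lit 2974436777) (nat_lit 760) (nat_lit 236246789) (nat_lit 264) (nat_lit 5) (nat_lit 273) (nat_lit 5) (nat_lit 274) (nat_lit 5) (nat_lit 296) (nat_lit 249) (nat_lit 235))))))))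
noncomputable def xc32 : XT := (XT.nd (nat_lit 2028) (nat_lit 5244) (nat_lit 0) (XT.nd (nat_lit 1014) (nat_lit 4636) (nat_lit 0) (XT.nd (nat_lit 468) (nat_lit 3724) (nat_lit 0) (XT.nd (nat_lit 234) (nat_lit 1900) (nat_lit 0) (XT.nd (nat_lit 78) (nat_lit 1292) (nat_lit 0) (XT.lf (nat_lit 0) (nat_lit 4252332453) (nat_lit 760) (nat_lit 3277128548) (nat_lit 76) (nat_lit 601302796) (nat_lit 254) (nat_lit 5) (nat_lit 264) (nat_lit 5) (nat_lit 255) (nat_lit 5) (nat_lit 297) (nat_lit 249) (nat_lit 234)) (XT.nd (nat_lit 78) (nat_lit 608) (nat_lit 0) (XT.lf (nat_lit 0) (nat_lit 590049947) (nat_lit 684) (nat_lit 3362850637) (nat_lit 76) (nat_lit 4282023749) (nat_lit 245) (nat_lit 5) (nat_lit 254) (nat_lit 5) (nat_lit 246) (nat_lit 5) (nat_lit 298) (nat_lit 249) (nat_lit 233)) (XT.lf (nat_lit 0) (nat_lit 4870882882) (nat_lit 608) (nat_lit 211957788) (nat_lit 684) (nat_lit 3260079733) (nat_lit 237) (nat_lit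 5) (nat_lit 245) (nat_lit 5) (nat_lit 246) (nat_lit 5) (nat_lit 299) (nat_lit 249) (nat_lit 232)))) (XT.nd (nat_lit 78) (nat_lit 1216) (nat_lit 0) (XT.lf (nat_lit 0) (nat_lit 1208439100) (nat_lit 684) (nat_lit 3614714143) (nat_lit 76) (nat_lit 3631545284) (nat_lit 228) (nat_lit 5) (nat_lit 237) (nat_lit 5) (nat_lit 229) (nat_lit 5) (nat_lit 300) (nat_lit 249) (nat_lit 231)) (XT.nd (nat_lit 78) (nat_lit 608) (nat_lit 0) (XT.lf (nat_lit 0) (nat_lit 4783938661) (nat_lit 608) (nat_lit 931608861) (nat_lit 684) (nat_lit 2854951121) (nat_lit 220) (nat_lit 5) (nat_lit 228) (nat_lit 5) (nat_lit 229) (nat_lit 5) (nat_lit 301) (nat_lit 249) (nat_lit 230)) (XT.lf (nat_lit 0) (nat_lit 1615608114) (nat_lit 608) (nat_lit 3999586988) (nat_lit 76) (nat_lit 3075045751) (nat_lit 212) (nat_lit 5) (nat_lit 220) (nat_lit 5) (nat_lit 213) (nat_lit 5) (nat_lit 302) (nat_lit 249) (nat_lit 229))))) (XT.nd (nat_lit 234)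 (nat_lit 2052) (nat_lit 0) (XT.nd (nat_lit 78) (nat_lit 1140) (nat_lit 0) (XT.lf (nat_lit 0) (nat_lit 4561241368) (nat_lit 532) (nat_lit 1578111979) (nat_lit 608) (nat_lit 2674757788) (nat_lit 205) (nat_lit 5) (nat_lit 212) (nat_lit 5) (nat_lit 213) (nat_lit 5) (nat_lit 303) (nat_lit 249) (nat_lit 228)) (XT.nd (nat_lit 78) (nat_lit 532) (nat_lit 0) (XT.lf (nat_lit 0) (nat_lit 1803033848) (nat_lit 608) (nat_lit 4554739160) (nat_lit 76) (nat_lit 2584344808) (nat_lit 197) (nat_lit 5) (nat_lit 205) (nat_lit 5) (nat_lit 198) (nat_lit 5) (nat_lit 304) (nat_lit 249) (nat_lit 227)) (XT.lf (nat_lit 0) (nat_lit 4164639044) (nat_lit 532) (nat_lit 2180322870) (nat_lit 608) (nat_lit 2729391365) (nat_lit 190) (nat_lit 5) (nat_lit 197) (nat_lit 5) (nat_lit 198) (nat_lit 5) (nat_lit 305) (nat_lit 249) (nat_lit 226)))) (XT.nd (nat_lit 156) (nat_lit 988) (nat_lit 0) (XT.nd (nat_lit 78) (nat_lit 532) (nat_lit 0)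 (XT.lf (nat_lit 0) (nat_lit 1759959918) (nat_lit 532) (nat_lit 5320242991) (nat_lit 76) (nat_lit 2130756612) (nat_lit 183) (nat_lit 5) (nat_lit 190) (nat_lit 5) (nat_lit 184) (nat_lit 5) (nat_lit 306) (nat_lit 249) (nat_lit 225)) (XT.lf (nat_lit 0) (nat_lit 3553031794) (nat_lit 532) (nat_lit 2767763107) (nat_lit 608) (nat_lit 3031090621) (nat_lit 176) (nat_lit 5) (nat_lit 183) (nat_lit 5) (nat_lit 184) (nat_lit 5) (nat_lit 307) (nat_lit 249) (nat_lit 224))) (XT.nd (nat_lit 78) (nat_lit 456) (nat_lit 0) (XT.lf (nat_lit 0) (nat_lit 1473255134) (nat_lit 532) (nat_lit 6339383199) (nat_lit 76) (nat_lit 1684824745) (nat_lit 169) (nat_lit 5) (nat_lit 176) (nat_lit 5) (nat_lit 170) (nat_lit 5) (nat_lit 308) (nat_lit 249) (nat_lit 223)) (XT.lf (nat_lit 0) (nat_lit 2681947055) (nat_lit 456) (nat_lit 3370894158) (nat_lit 532) (nat_lit 3594595757) (nat_lit 163) (nat_lit 5) (nat_lit 169) (nat_lit 5) (nat_lit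 170) (nat_lit 5) (nat_lit 309) (nat_lit 249) (nat_lit 222)))))) (XT.nd (nat_lit 468) (nat_lit 2280) (nat_lit 0) (XT.nd (nat_lit 234) (nat_lit 912) (nat_lit 0) (XT.nd (nat_lit 78) (nat_lit 912) (nat_lit 0) (XT.lf (nat_lit 0) (nat_lit 927249909) (nat_lit 532) (nat_lit 7659101750) (nat_lit 76) (nat_lit 1216044807) (nat_lit 156) (nat_lit 5) (nat_lit 163) (nat_lit 5) (nat_lit 157) (nat_lit 5) (nat_lit 310) (nat_lit 249) (nat_lit 221)) (XT.nd (nat_lit 78) (nat_lit 456) (nat_lit 0) (XT.lf (nat_lit 0) (nat_lit 1503078338) (nat_lit 456) (nat_lit 4021405213) (nat_lit 532) (nat_lit 4437325925) (nat_lit 150) (nat_lit 5) (nat_lit 156) (nat_lit 5) (nat_lit 157) (nat_lit 5) (nat_lit 311) (nat_lit 249) (nat_lit 220)) (XT.lf (nat_lit 0) (nat_lit 103548896) (nat_lit 456) (nat_lit 9330481790) (nat_lit 76) (nat_lit 692572245) (nat_lit 144) (nat_lit 5) (nat_lit 150) (nat_lit 5) (nat_lit 145) (nat_lit 5) (nat_lit 312)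 (nat_lit 249) (nat_lit 219)))) (XT.nd (nat_lit 78) (nat_lit 912) (nat_lit 0) (XT.lf (nat_lit 0) (nat_lit 4716535556) (nat_lit 456) (nat_lit 35741988) (nat_lit 76) (nat_lit 5543600024) (nat_lit 144) (nat_lit 5) (nat_lit 150) (nat_lit 5) (nat_lit 145) (nat_lit 5) (nat_lit 313) (nat_lit 249) (nat_lit 218)) (XT.nd (nat_lit 78) (nat_lit 456) (nat_lit 0) (XT.lf (nat_lit 0) (nat_lit 9444281572) (nat_lit 532) (nat_lit 932713364) (nat_lit 76) (nat_lit 93754155) (nat_lit 138) (nat_lit 5) (nat_lit 145) (nat_lit 5) (nat_lit 139) (nat_lit 5) (nat_lit 314) (nat_lit 249) (nat_lit 217)) (XT.lf (nat_lit 0) (nat_lit 3618784329) (nat_lit 456) (nat_lit 1967320992) (nat_lit 76) (nat_lit 5064252974) (nat_lit 132) (nat_lit 5) (nat_lit 138) (nat_lit 5) (nat_lit 133) (nat_lit 5) (nat_lit 315) (nat_lit 249) (nat_lit 216))))) (XT.nd (nat_lit 234) (nat_lit 1140) (nat_lit 0) (XT.nd (nat_lit 78) (nat_lit 760) (nat_lit 0) (XT.lf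 (nat_lit 0) (nat_lit 7736462116) (nat_lit 380) (nat_lit 626034446) (nat_lit 456) (nat_lit 2473305094) (nat_lit 127) (nat_lit 5) (nat_lit 132) (nat_lit 5) (nat_lit 133) (nat_lit 5) (nat_lit 316) (nat_lit 249) (nat_lit 215)) (XT.nd (nat_lit 78) (nat_lit 380) (nat_lit 0) (XT.lf (nat_lit 0) (nat_lit 2196147139) (nat_lit 380) (nat_lit 4373555395) (nat_lit 76) (nat_lit 4456786317) (nat_lit 122) (nat_lit 5) (nat_lit 127) (nat_lit 5) (nat_lit 123) (nat_lit 5) (nat_lit 317) (nat_lit 249) (nat_lit 214)) (XT.lf (nat_lit 0) (nat_lit 5446829977) (nat_lit 380) (nat_lit 1504948765) (nat_lit 456) (nat_lit 4271236303) (nat_lit 117) (nat_lit 5) (nat_lit 122) (nat_lit 5) (nat_lit 123) (nat_lit 5) (nat_lit 318) (nat_lit 249) (nat_lit 213)))) (XT.nd (nat_lit 156) (nat_lit 380) (nat_lit 0) (XT.nd (nat_lit 78) (nat_lit 380) (nat_lit 0) (XT.lf (nat_lit 0) (nat_lit 419772388) (nat_lit 380) (nat_lit 7322687448) (nat_lit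 76) (nat_lit 3682945486) (nat_lit 112) (nat_lit 5) (nat_lit 117) (nat_lit 5) (nat_lit 113) (nat_lit 5) (nat_lit 319) (nat_lit 249) (nat_lit 212)) (XT.lf (nat_lit 0) (nat_lit 2599183760) (nat_lit 380) (nat_lit 2582112487) (nat_lit 456) (nat_lit 6452286454) (nat_lit 107) (nat_lit 5) (nat_lit 112) (nat_lit 5) (nat_lit 113) (nat_lit 5) (nat_lit 320) (nat_lit 249) (nat_lit 211))) (XT.nd (nat_lit 78) (nat_lit 76) (nat_lit 0) (XT.lf (nat_lit 0) (nat_lit 946920432) (nat_lit 304) (nat_lit 9134996823) (nat_lit 380) (nat_lit 1766198394) (nat_lit 103) (nat_lit 5) (nat_lit 107) (nat_lit 5) (nat_lit 108) (nat_lit 5) (nat_lit 321) (nat_lit 249) (nat_lit 210)) (XT.lf (nat_lit 0) (nat_lit 3022595780) (nat_lit 380) (nat_lit 872533293) (nat_lit 76) (nat_lit 8173546437) (nat_lit 102) (nat_lit 5) (nat_lit 107) (nat_lit 5) (nat_lit 103) (nat_lit 5) (nat_lit 322) (nat_lit 249) (nat_lit 209))))))) (XT.nd (nat_lit 1014)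 (nat_lit 2052) (nat_lit 0) (XT.nd (nat_lit 468) (nat_lit 1596) (nat_lit 0) (XT.nd (nat_lit 234) (nat_lit 608) (nat_lit 0) (XT.nd (nat_lit 78) (nat_lit 684) (nat_lit 0) (XT.lf (nat_lit 0) (nat_lit 7928150968) (nat_lit 380) (nat_lit 2851733743) (nat_lit 76) (nat_lit 1515824708) (nat_lit 98) (nat_lit 5) (nat_lit 103) (nat_lit 5) (nat_lit 99) (nat_lit 5) (nat_lit 323) (nat_lit 249) (nat_lit 208)) (XT.nd (nat_lit 78) (nat_lit 304) (nat_lit 0) (XT.lf (nat_lit 0) (nat_lit 452953758) (nat_lit 380) (nat_lit 5021900173) (nat_lit 76) (nat_lit 7054521750) (nat_lit 93) (nat_lit 5) (nat_lit 98) (nat_lit 5) (nat_lit 94) (nat_lit 5) (nat_lit 324) (nat_lit 249) (nat_lit 207)) (XT.lf (nat_lit 0) (nat_lit 5341313537) (nat_lit 380) (nat_lit 7395614269) (nat_lit 76) (nat_lit 32925458) (nat_lit 89) (nat_lit 5) (nat_lit 94) (nat_lit 5) (nat_lit 90) (nat_lit 5) (nat_lit 325) (nat_lit 249) (nat_lit 206)))) (XT.nd (nat_lit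 78) (nat_lit 380) (nat_lit 0) (XT.lf (nat_lit 0) (nat_lit 3024097870) (nat_lit 228) (nat_lit 7371514559) (nat_lit 304) (nat_lit 2621576228) (nat_lit 86) (nat_lit 5) (nat_lit 89) (nat_lit 5) (nat_lit 90) (nat_lit 5) (nat_lit 326) (nat_lit 249) (nat_lit 205)) (XT.nd (nat_lit 78) (nat_lit 0) (nat_lit 0) (XT.lf (nat_lit 0) (nat_lit 465342175) (nat_lit 304) (nat_lit 1816817516) (nat_lit 380) (nat_lit 10989847422) (nat_lit 81) (nat_lit 5) (nat_lit 85) (nat_lit 5) (nat_lit 86) (nat_lit 5) (nat_lit 327) (nat_lit 249) (nat_lit 204)) (XT.lf (nat_lit 0) (nat_lit 7321824155) (nat_lit 380) (nat_lit 2313450245) (nat_lit 76) (nat_lit 3898387512) (nat_lit 81) (nat_lit 5) (nat_lit 86) (nat_lit 5) (nat_lit 82) (nat_lit 5) (nat_lit 328) (nat_lit 249) (nat_lit 203))))) (XT.nd (nat_lit 234) (nat_lit 760) (nat_lit 0) (XT.nd (nat_lit 78) (nat_lit 608) (nat_lit 0) (XT.lf (nat_lit 0) (nat_lit 8485625067) (nat_lit 228)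 (nat_lit 4027030523) (nat_lit 304) (nat_lit 1290537468) (nat_lit 78) (nat_lit 5) (nat_lit 81) (nat_lit 5) (nat_lit 82) (nat_lit 5) (nat_lit 329) (nat_lit 249) (nat_lit 202)) (XT.nd (nat_lit 78) (nat_lit 228) (nat_lit 0) (XT.lf (nat_lit 0) (nat_lit 3725475245) (nat_lit 380) (nat_lit 8592130386) (nat_lit 76) (nat_lit 1762806292) (nat_lit 73) (nat_lit 5) (nat_lit 78) (nat_lit 5) (nat_lit 74) (nat_lit 5) (nat_lit 330) (nat_lit 249) (nat_lit 201)) (XT.lf (nat_lit 0) (nat_lit 2212527255) (nat_lit 228) (nat_lit 6674104420) (nat_lit 304) (nat_lit 5478925385) (nat_lit 70) (nat_lit 5) (nat_lit 73) (nat_lit 5) (nat_lit 74) (nat_lit 5) (nat_lit 331) (nat_lit 249) (nat_lit 200)))) (XT.nd (nat_lit 156) (nat_lit 456) (nat_lit 0) (XT.nd (nat_lit 78) (nat_lit 304) (nat_lit 0) (XT.lf (nat_lit 0) (nat_lit 13354105395) (nat_lit 228) (nat_lit 842495544) (nat_lit 304) (nat_lit 462799594) (nat_lit 70) (nat_lit 5) (nat_lit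 73) (nat_lit 5) (nat_lit 74) (nat_lit 5) (nat_lit 332) (nat_lit 249) (nat_lit 199)) (XT.lf (nat_lit 0) (nat_lit 4677249788) (nat_lit 304) (nat_lit 5131275722) (nat_lit 76) (nat_lit 5152242785) (nat_lit 66) (nat_lit 5) (nat_lit 70) (nat_lit 5) (nat_lit 67) (nat_lit 5) (nat_lit 333) (nat_lit 249) (nat_lit 198))) (XT.nd (nat_lit 78) (nat_lit 228) (nat_lit 0) (XT.lf (nat_lit 0) (nat_lit 6013301206) (nat_lit 228) (nat_lit 3943637004) (nat_lit 304) (nat_lit 5314364950) (nat_lit 63) (nat_lit 5) (nat_lit 66) (nat_lit 5) (nat_lit 67) (nat_lit 5) (nat_lit 334) (nat_lit 249) (nat_lit 197)) (XT.lf (nat_lit 0) (nat_lit 1881532320) (nat_lit 228) (nat_lit 13513322546) (nat_lit 304) (nat_lit 196323578) (nat_lit 60) (nat_lit 5) (nat_lit 63) (nat_lit 5) (nat_lit 64) (nat_lit 5) (nat_lit 335) (nat_lit 249) (nat_lit 196)))))) (XT.nd (nat_lit 546) (nat_lit 988) (nat_lit 0) (XT.nd (nat_lit 234) (nat_lit 532) (nat_lit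 0) (XT.nd (nat_lit 78) (nat_lit 456) (nat_lit 0) (XT.lf (nat_lit 0) (nat_lit 5037936062) (nat_lit 304) (nat_lit 2597627973) (nat_lit 76) (nat_lit 8283862219) (nat_lit 59) (nat_lit 5) (nat_lit 63) (nat_lit 5) (nat_lit 60) (nat_lit 5) (nat_lit 336) (nat_lit 249) (nat_lit 195)) (XT.nd (nat_lit 78) (nat_lit 228) (nat_lit 0) (XT.lf (nat_lit 0) (nat_lit 8865162284) (nat_lit 228) (nat_lit 1560439993) (nat_lit 304) (nat_lit 5831931869) (nat_lit 56) (nat_lit 5) (nat_lit 59) (nat_lit 5) (nat_lit 60) (nat_lit 5) (nat_lit 337) (nat_lit 249) (nat_lit 194)) (XT.lf (nat_lit 0) (nat_lit 4027287143) (nat_lit 228) (nat_lit 11964277624) (nat_lit 304) (nat_lit 613906134) (nat_lit 53) (nat_lit 5) (nat_lit 56) (nat_lit 5) (nat_lit 57) (nat_lit 5) (nat_lit 338) (nat_lit 249) (nat_lit 193)))) (XT.nd (nat_lit 156) (nat_lit 304) (nat_lit 0) (XT.nd (nat_lit 78) (nat_lit 152) (nat_lit 0) (XT.lf (nat_lit 0) (nat_lit 4702055961)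 (nat_lit 304) (nat_lit 1209879653) (nat_lit 76) (nat_lit 11051233346) (nat_lit 52) (nat_lit 5) (nat_lit 56) (nat_lit 5) (nat_lit 53) (nat_lit 5) (nat_lit 339) (nat_lit 249) (nat_lit 192)) (XT.lf (nat_lit 0) (nat_lit 10184596704) (nat_lit 228) (nat_lit 6793275003) (nat_lit 76) (nat_lit 353353803) (nat_lit 50) (nat_lit 5) (nat_lit 53) (nat_lit 5) (nat_lit 51) (nat_lit 5) (nat_lit 340) (nat_lit 249) (nat_lit 191))) (XT.nd (nat_lit 78) (nat_lit 76) (nat_lit 0) (XT.lf (nat_lit 0) (nat_lit 4876348738) (nat_lit 228) (nat_lit 10980121156) (nat_lit 304) (nat_lit 1853373742) (nat_lit 47) (nat_lit 5) (nat_lit 50) (nat_lit 5) (nat_lit 51) (nat_lit 5) (nat_lit 341) (nat_lit 249) (nat_lit 190)) (XT.lf (nat_lit 0) (nat_lit 3543854251) (nat_lit 304) (nat_lit 1225383640) (nat_lit 76) (nat_lit 13330283848) (nat_lit 46) (nat_lit 5) (nat_lit 50) (nat_lit 5) (nat_lit 47) (nat_lit 5) (nat_lit 342) (nat_lit 249) (nat_lit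 189))))) (XT.nd (nat_lit 234) (nat_lit 532) (nat_lit 0) (XT.nd (nat_lit 78) (nat_lit 304) (nat_lit 0) (XT.lf (nat_lit 0) (nat_lit 9106375093) (nat_lit 228) (nat_lit 7740534984) (nat_lit 76) (nat_lit 1653179684) (nat_lit 44) (nat_lit 5) (nat_lit 47) (nat_lit 5) (nat_lit 45) (nat_lit 5) (nat_lit 343) (nat_lit 249) (nat_lit 188)) (XT.nd (nat_lit 78) (nat_lit 76) (nat_lit 0) (XT.lf (nat_lit 0) (nat_lit 4142133183) (nat_lit 228) (nat_lit 10709111284) (nat_lit 304) (nat_lit 4061136156) (nat_lit 41) (nat_lit 5) (nat_lit 44) (nat_lit 5) (nat_lit 45) (nat_lit 5) (nat_lit 344) (nat_lit 249) (nat_lit 187)) (XT.lf (nat_lit 0) (nat_lit 1414361761) (nat_lit 304) (nat_lit 2946202485) (nat_lit 76) (nat_lit 14976270303) (nat_lit 40) (nat_lit 5) (nat_lit 44) (nat_lit 5) (nat_lit 41) (nat_lit 5) (nat_lit 345) (nat_lit 249) (nat_lit 186)))) (XT.nd (nat_lit 156) (nat_lit 228) (nat_lit 0) (XT.nd (nat_lit 78) (nat_lit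 152) (nat_lit 0) (XT.lf (nat_lit 0) (nat_lit 7024158450) (nat_lit 228) (nat_lit 10546415106) (nat_lit 76) (nat_lit 2202421576) (nat_lit 38) (nat_lit 5) (nat_lit 41) (nat_lit 5) (nat_lit 39) (nat_lit 5) (nat_lit 346) (nat_lit 249) (nat_lit 185)) (XT.lf (nat_lit 0) (nat_lit 1488639295) (nat_lit 152) (nat_lit 11323607922) (nat_lit 228) (nat_lit 7409807042) (nat_lit 36) (nat_lit 5) (nat_lit 38) (nat_lit 5) (nat_lit 39) (nat_lit 5) (nat_lit 347) (nat_lit 249) (nat_lit 184))) (XT.nd (nat_lit 78) (nat_lit 228) (nat_lit 0) (XT.lf (nat_lit 0) (nat_lit 13945855162) (nat_lit 152) (nat_lit 4851549098) (nat_lit 228) (nat_lit 1886725677) (nat_lit 36) (nat_lit 5) (nat_lit 38) (nat_lit 5) (nat_lit 39) (nat_lit 5) (nat_lit 348) (nat_lit 249) (nat_lit 183)) (XT.lf (nat_lit 0) (nat_lit 3753436352) (nat_lit 228) (nat_lit 15587958962) (nat_lit 76) (nat_lit 1818166454) (nat_lit 33) (nat_lit 5) (nat_lit 36) (nat_lit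 5) (nat_lit 34) (nat_lit 5) (nat_lit 349) (nat_lit 249) (nat_lit 182))))))))
noncomputable def xc33 : XT := (XT.nd (nat_lit 36192) (nat_lit 0) (nat_lit 7220) (XT.nd (nat_lit 1014) (nat_lit 0) (nat_lit 0) (XT.nd (nat_lit 468) (nat_lit 608) (nat_lit 0) (XT.nd (nat_lit 234) (nat_lit 380) (nat_lit 0) (XT.nd (nat_lit 78) (nat_lit 152) (nat_lit 0) (XT.lf (nat_lit 0) (nat_lit 9569387659) (nat_lit 228) (nat_lit 3431551423) (nat_lit 76) (nat_lit 8647435977) (nat_lit 33) (nat_lit 5) (nat_lit 36) (nat_lit 5) (nat_lit 34) (nat_lit 5) (nat_lit 350) (nat_lit 249) (nat_lit 181)) (XT.nd (nat_lit 78) (nat_lit 0) (nat_lit 0) (XT.lf (nat_lit 0) (nat_lit 9130800286) (nat_lit 152) (nat_lit 6443314002) (nat_lit 228) (nat_lit 6577464447) (nat_lit 31) (nat_lit 5) (nat_lit 33) (nat_lit 5) (nat_lit 34) (nat_lit 5) (nat_lit 351) (nat_lit 249) (nat_lit 180)) (XT.lf (nat_lit 0) (nat_lit 21740017340) (nat_lit 228) (nat_lit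 632499887) (nat_lit 76) (nat_lit 297752179) (nat_lit 31) (nat_lit 5) (nat_lit 34) (nat_lit 5) (nat_lit 32) (nat_lit 4) (nat_lit 352) (nat_lit 249) (nat_lit 179)))) (XT.nd (nat_lit 78) (nat_lit 152) (nat_lit 0) (XT.lf (nat_lit 0) (nat_lit 4901797778) (nat_lit 228) (nat_lit 11066911757) (nat_lit 76) (nat_lit 7233597632) (nat_lit 28) (nat_lit 5) (nat_lit 31) (nat_lit 5) (nat_lit 29) (nat_lit 5) (nat_lit 353) (nat_lit 249) (nat_lit 178)) (XT.nd (nat_lit 78) (nat_lit 0) (nat_lit 0) (XT.lf (nat_lit 0) (nat_lit 1482977190) (nat_lit 152) (nat_lit 9384590326) (nat_lit 228) (nat_lit 12883198323) (nat_lit 26) (nat_lit 5) (nat_lit 28) (nat_lit 5) (nat_lit 29) (nat_lit 5) (nat_lit 354) (nat_lit 249) (nat_lit 177)) (XT.lf (nat_lit 0) (nat_lit 14487077117) (nat_lit 152) (nat_lit 2558370410) (nat_lit 228) (nat_lit 7269578388) (nat_lit 26) (nat_lit 5) (nat_lit 28) (nat_lit 5) (nat_lit 29) (nat_lit 5) (nat_lit 355)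 (nat_lit 249) (nat_lit 176))))) (XT.nd (nat_lit 234) (nat_lit 304) (nat_lit 0) (XT.nd (nat_lit 78) (nat_lit 228) (nat_lit 0) (XT.lf (nat_lit 0) (nat_lit 2922126867) (nat_lit 76) (nat_lit 20493710983) (nat_lit 152) (nat_lit 1480242547) (nat_lit 25) (nat_lit 5) (nat_lit 26) (nat_lit 5) (nat_lit 27) (nat_lit 4) (nat_lit 356) (nat_lit 249) (nat_lit 175)) (XT.nd (nat_lit 78) (nat_lit 152) (nat_lit 0) (XT.lf (nat_lit 0) (nat_lit 4467743192) (nat_lit 152) (nat_lit 9422276882) (nat_lit 76) (nat_lit 11603098691) (nat_lit 24) (nat_lit 5) (nat_lit 26) (nat_lit 5) (nat_lit 25) (nat_lit 5) (nat_lit 357) (nat_lit 249) (nat_lit 174)) (XT.lf (nat_lit 0) (nat_lit 3472055134) (nat_lit 152) (nat_lit 7085451382) (nat_lit 228) (nat_lit 15550706424) (nat_lit 22) (nat_lit 5) (nat_lit 24) (nat_lit 5) (nat_lit 25) (nat_lit 5) (nat_lit 358) (nat_lit 249) (nat_lit 173)))) (XT.nd (nat_lit 156) (nat_lit 228) (nat_lit 0) (XT.nd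 (nat_lit 78) (nat_lit 76) (nat_lit 0) (XT.lf (nat_lit 0) (nat_lit 16813786288) (nat_lit 152) (nat_lit 41513838) (nat_lit 228) (nat_lit 9885962113) (nat_lit 22) (nat_lit 5) (nat_lit 24) (nat_lit 5) (nat_lit 25) (nat_lit 5) (nat_lit 359) (nat_lit 249) (nat_lit 172)) (XT.lf (nat_lit 0) (nat_lit 3089164704) (nat_lit 76) (nat_lit 20282178447) (nat_lit 152) (nat_lit 4021382336) (nat_lit 21) (nat_lit 5) (nat_lit 22) (nat_lit 5) (nat_lit 23) (nat_lit 4) (nat_lit 360) (nat_lit 249) (nat_lit 171))) (XT.nd (nat_lit 78) (nat_lit 152) (nat_lit 0) (XT.lf (nat_lit 0) (nat_lit 2023484474) (nat_lit 152) (nat_lit 11510422235) (nat_lit 76) (nat_lit 14528955474) (nat_lit 20) (nat_lit 5) (nat_lit 22) (nat_lit 5) (nat_lit 21) (nat_lit 5) (nat_lit 361) (nat_lit 249) (nat_lit 170)) (XT.lf (nat_lit 0) (nat_lit 1596088769) (nat_lit 152) (nat_lit 6573566560) (nat_lit 228) (nat_lit 20583432284) (nat_lit 18) (nat_lit 5) (nat_lit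 20) (nat_lit 5) (nat_lit 21) (nat_lit 5) (nat_lit 362) (nat_lit 249) (nat_lit 169)))))) (XT.nd (nat_lit 34632) (nat_lit 0) (nat_lit 21736) (XT.nd (nat_lit 34320) (nat_lit 0) (nat_lit 29108) (XT.nd (nat_lit 34164) (nat_lit 0) (nat_lit 35188) (XT.lf (nat_lit 0) (nat_lit 14546969148) (nat_lit 228) (nat_lit 14277442935) (nat_lit 76) (nat_lit 638680446) (nat_lit 18) (nat_lit 5) (nat_lit 21) (nat_lit 5) (nat_lit 19) (nat_lit 4) (nat_lit 363) (nat_lit 249) (nat_lit 168)) (XT.nd (nat_lit 78) (nat_lit 1368) (nat_lit 0) (XT.lf (nat_lit 0) (nat_lit 1208356396) (nat_lit 1292) (nat_lit 1030676168) (nat_lit 0) (nat_lit 1208356396) (nat_lit 499) (nat_lit 5) (nat_lit 516) (nat_lit 4) (nat_lit 499) (nat_lit 4) (nat_lit 280) (nat_lit 250) (nat_lit 250)) (XT.lf (nat_lit 0) (nat_lit 220554012) (nat_lit 1368) (nat_lit 2325148880) (nat_lit 76) (nat_lit 4396769509) (nat_lit 481) (nat_lit 5) (nat_lit 499) (nat_lit 5)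 (nat_lit 482) (nat_lit 4) (nat_lit 281) (nat_lit 250) (nat_lit 249)))) (XT.nd (nat_lit 156) (nat_lit 3192) (nat_lit 0) (XT.nd (nat_lit 78) (nat_lit 1520) (nat_lit 0) (XT.lf (nat_lit 0) (nat_lit 4428367448) (nat_lit 1368) (nat_lit 467179259) (nat_lit 1444) (nat_lit 2097695103) (nat_lit 463) (nat_lit 5) (nat_lit 481) (nat_lit 5) (nat_lit 482) (nat_lit 4) (nat_lit 282) (nat_lit 250) (nat_lit 248)) (XT.lf (nat_lit 0) (nat_lit 2540694912) (nat_lit 1520) (nat_lit 2781773933) (nat_lit 76) (nat_lit 1724664877) (nat_lit 443) (nat_lit 5) (nat_lit 463) (nat_lit 5) (nat_lit 444) (nat_lit 4) (nat_lit 283) (nat_lit 250) (nat_lit 247))) (XT.nd (nat_lit 78) (nat_lit 1596) (nat_lit 0) (XT.lf (nat_lit 0) (nat_lit 90638663) (nat_lit 1596) (nat_lit 2968415740) (nat_lit 76) (nat_lit 4045317893) (nat_lit 422) (nat_lit 5) (nat_lit 443) (nat_lit 5) (nat_lit 423) (nat_lit 5) (nat_lit 284) (nat_lit 250) (nat_lit 246)) (XT.lf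 (nat_lit 0) (nat_lit 4025324073) (nat_lit 1596) (nat_lit 645590410) (nat_lit 1672) (nat_lit 2493829355) (nat_lit 401) (nat_lit 5) (nat_lit 422) (nat_lit 5) (nat_lit 423) (nat_lit 5) (nat_lit 285) (nat_lit 250) (nat_lit 245))))) (XT.nd (nat_lit 234) (nat_lit 3420) (nat_lit 0) (XT.nd (nat_lit 78) (nat_lit 2204) (nat_lit 0) (XT.lf (nat_lit 0) (nat_lit 2054775958) (nat_lit 1748) (nat_lit 3293720636) (nat_lit 76) (nat_lit 1879855086) (nat_lit 378) (nat_lit 5) (nat_lit 401) (nat_lit 5) (nat_lit 379) (nat_lit 5) (nat_lit 286) (nat_lit 250) (nat_lit 244)) (XT.nd (nat_lit 78) (nat_lit 912) (nat_lit 0) (XT.lf (nat_lit 0) (nat_lit 3866006002) (nat_lit 1292) (nat_lit 2757337271) (nat_lit 1368) (nat_lit 671978115) (nat_lit 361) (nat_lit 5) (nat_lit 378) (nat_lit 5) (nat_lit 379) (nat_lit 5) (nat_lit 287) (nat_lit 250) (nat_lit 243)) (XT.lf (nat_lit 0) (nat_lit 3812168460) (nat_lit 836) (nat_lit 16125431) (nat_lit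 912) (nat_lit 3537303702) (nat_lit 349) (nat_lit 5) (nat_lit 360) (nat_lit 5) (nat_lit 361) (nat_lit 5) (nat_lit 288) (nat_lit 250) (nat_lit 242)))) (XT.nd (nat_lit 156) (nat_lit 1672) (nat_lit 0) (XT.nd (nat_lit 78) (nat_lit 836) (nat_lit 0) (XT.lf (nat_lit 0) (nat_lit 940217480) (nat_lit 912) (nat_lit 3672724370) (nat_lit 76) (nat_lit 2826198130) (nat_lit 337) (nat_lit 5) (nat_lit 349) (nat_lit 5) (nat_lit 338) (nat_lit 5) (nat_lit 289) (nat_lit 250) (nat_lit 241)) (XT.lf (nat_lit 0) (nat_lit 3731279636) (nat_lit 836) (nat_lit 1694879178) (nat_lit 912) (nat_lit 2089934385) (nat_lit 326) (nat_lit 5) (nat_lit 337) (nat_lit 5) (nat_lit 338) (nat_lit 5) (nat_lit 290) (nat_lit 250) (nat_lit 240))) (XT.nd (nat_lit 78) (nat_lit 760) (nat_lit 0) (XT.lf (nat_lit 0) (nat_lit 2352422877) (nat_lit 912) (nat_lit 3893541069) (nat_lit 76) (nat_lit 1350517469) (nat_lit 314) (nat_lit 5) (nat_lit 326) (nat_lit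 5) (nat_lit 315) (nat_lit 5) (nat_lit 291) (nat_lit 250) (nat_lit 239)) (XT.lf (nat_lit 0) (nat_lit 3677373033) (nat_lit 760) (nat_lit 3161406275) (nat_lit 836) (nat_lit 841549729) (nat_lit 304) (nat_lit 5) (nat_lit 314) (nat_lit 5) (nat_lit 315) (nat_lit 5) (nat_lit 292) (nat_lit 250) (nat_lit 238))))))) (XT.nd (nat_lit 1014) (nat_lit 5852) (nat_lit 0) (XT.nd (nat_lit 468) (nat_lit 4180) (nat_lit 0) (XT.nd (nat_lit 234) (nat_lit 2128) (nat_lit 0) (XT.nd (nat_lit 78) (nat_lit 1520) (nat_lit 0) (XT.lf (nat_lit 0) (nat_lit 3575127016) (nat_lit 836) (nat_lit 4115190494) (nat_lit 76) (nat_lit 77385846) (nat_lit 293) (nat_lit 5) (nat_lit 304) (nat_lit 5) (nat_lit 294) (nat_lit 5) (nat_lit 293) (nat_lit 250) (nat_lit 237)) (XT.nd (nat_lit 78) (nat_lit 760) (nat_lit 0) (XT.lf (nat_lit 0) (nat_lit 205871704) (nat_lit 760) (nat_lit 4237584348) (nat_lit 76) (nat_lit 3415116203) (nat_lit 283) (nat_lit 5)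 (nat_lit 293) (nat_lit 5) (nat_lit 284) (nat_lit 5) (nat_lit 294) (nat_lit 250) (nat_lit 236)) (XT.lf (nat_lit 0) (nat_lit 3579756967) (nat_lit 760) (nat_lit 1035217307) (nat_lit 836) (nat_lit 3338019130) (nat_lit 273) (nat_lit 5) (nat_lit 283) (nat_lit 5) (nat_lit 284) (nat_lit 5) (nat_lit 295) (nat_lit 250) (nat_lit 235)))) (XT.nd (nat_lit 78) (nat_lit 1368) (nat_lit 0) (XT.lf (nat_lit 0) (nat_lit 1045586073) (nat_lit 760) (nat_lit 4521083179) (nat_lit 76) (nat_lit 2484443668) (nat_lit 263) (nat_lit 5) (nat_lit 273) (nat_lit 5) (nat_lit 264) (nat_lit 5) (nat_lit 296) (nat_lit 250) (nat_lit 234)) (XT.nd (nat_lit 78) (nat_lit 684) (nat_lit 0) (XT.lf (nat_lit 0) (nat_lit 3462189708) (nat_lit 684) (nat_lit 2000725668) (nat_lit 760) (nat_lit 2689954598) (nat_lit 254) (nat_lit 5) (nat_lit 263) (nat_lit 5) (nat_lit 264) (nat_lit 5) (nat_lit 297) (nat_lit 250) (nat_lit 233)) (XT.lf (nat_lit 0) (nat_lit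 1685745138) (nat_lit 684) (nat_lit 4879021524) (nat_lit 76) (nat_lit 1693694000) (nat_lit 245) (nat_lit 5) (nat_lit 254) (nat_lit 5) (nat_lit 246) (nat_lit 5) (nat_lit 298) (nat_lit 250) (nat_lit 232))))) (XT.nd (nat_lit 234) (nat_lit 2280) (nat_lit 0) (XT.nd (nat_lit 78) (nat_lit 1292) (nat_lit 0) (XT.lf (nat_lit 0) (nat_lit 3268770993) (nat_lit 608) (nat_lit 2846117106) (nat_lit 684) (nat_lit 2252880996) (nat_lit 237) (nat_lit 5) (nat_lit 245) (nat_lit 5) (nat_lit 246) (nat_lit 5) (nat_lit 299) (nat_lit 250) (nat_lit 231)) (XT.nd (nat_lit 78) (nat_lit 608) (nat_lit 0) (XT.lf (nat_lit 0) (nat_lit 2121551877) (nat_lit 684) (nat_lit 5344208486) (nat_lit 76) (nat_lit 1015311104) (nat_lit 228) (nat_lit 5) (nat_lit 237) (nat_lit 5) (nat_lit 229) (nat_lit 5) (nat_lit 300) (nat_lit 250) (nat_lit 230)) (XT.lf (nat_lit 0) (nat_lit 2966055129) (nat_lit 608) (nat_lit 3599346843) (nat_lit 684) (nat_lit 2032771197)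 (nat_lit 220) (nat_lit 5) (nat_lit 228) (nat_lit 5) (nat_lit 229) (nat_lit 5) (nat_lit 301) (nat_lit 250) (nat_lit 229)))) (XT.nd (nat_lit 156) (nat_lit 1140) (nat_lit 0) (XT.nd (nat_lit 78) (nat_lit 532) (nat_lit 0) (XT.lf (nat_lit 0) (nat_lit 2346211878) (nat_lit 608) (nat_lit 5951555862) (nat_lit 76) (nat_lit 421691402) (nat_lit 212) (nat_lit 5) (nat_lit 220) (nat_lit 5) (nat_lit 213) (nat_lit 5) (nat_lit 302) (nat_lit 250) (nat_lit 228)) (XT.lf (nat_lit 0) (nat_lit 2518373155) (nat_lit 532) (nat_lit 4288562863) (nat_lit 608) (nat_lit 2037687482) (nat_lit 205) (nat_lit 5) (nat_lit 212) (nat_lit 5) (nat_lit 213) (nat_lit 5) (nat_lit 303) (nat_lit 250) (nat_lit 227))) (XT.nd (nat_lit 78) (nat_lit 532) (nat_lit 0) (XT.lf (nat_lit 0) (nat_lit 2234996909) (nat_lit 532) (nat_lit 116589856) (nat_lit 608) (nat_lit 6622595965) (nat_lit 197) (nat_lit 5) (nat_lit 204) (nat_lit 5) (nat_lit 205) (nat_lit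 5) (nat_lit 304) (nat_lit 250) (nat_lit 226)) (XT.lf (nat_lit 0) (nat_lit 1887470401) (nat_lit 532) (nat_lit 4942356898) (nat_lit 608) (nat_lit 2277895744) (nat_lit 190) (nat_lit 5) (nat_lit 197) (nat_lit 5) (nat_lit 198) (nat_lit 5) (nat_lit 305) (nat_lit 250) (nat_lit 225)))))) (XT.nd (nat_lit 546) (nat_lit 2812) (nat_lit 0) (XT.nd (nat_lit 234) (nat_lit 1444) (nat_lit 0) (XT.nd (nat_lit 78) (nat_lit 1064) (nat_lit 0) (XT.lf (nat_lit 0) (nat_lit 1496717789) (nat_lit 456) (nat_lit 631670175) (nat_lit 532) (nat_lit 7117455221) (nat_lit 183) (nat_lit 5) (nat_lit 189) (nat_lit 5) (nat_lit 190) (nat_lit 5) (nat_lit 306) (nat_lit 250) (nat_lit 224)) (XT.nd (nat_lit 78) (nat_lit 532) (nat_lit 0) (XT.lf (nat_lit 0) (nat_lit 1032115163) (nat_lit 532) (nat_lit 5590024715) (nat_lit 608) (nat_lit 2765999708) (nat_lit 176) (nat_lit 5) (nat_lit 183) (nat_lit 5) (nat_lit 184) (nat_lit 5) (nat_lit 307) (nat_lit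 250) (nat_lit 223)) (XT.lf (nat_lit 0) (nat_lit 512966259) (nat_lit 456) (nat_lit 1147581990) (nat_lit 532) (nat_lit 7874648247) (nat_lit 169) (nat_lit 5) (nat_lit 175) (nat_lit 5) (nat_lit 176) (nat_lit 5) (nat_lit 308) (nat_lit 250) (nat_lit 222)))) (XT.nd (nat_lit 156) (nat_lit 912) (nat_lit 0) (XT.nd (nat_lit 78) (nat_lit 532) (nat_lit 0) (XT.lf (nat_lit 0) (nat_lit 6170112190) (nat_lit 532) (nat_lit 91114361) (nat_lit 76) (nat_lit 3425370840) (nat_lit 169) (nat_lit 5) (nat_lit 176) (nat_lit 5) (nat_lit 170) (nat_lit 5) (nat_lit 309) (nat_lit 250) (nat_lit 221)) (XT.lf (nat_lit 0) (nat_lit 937203056) (nat_lit 532) (nat_lit 752804215) (nat_lit 76) (nat_lit 8152907411) (nat_lit 162) (nat_lit 5) (nat_lit 169) (nat_lit 5) (nat_lit 163) (nat_lit 5) (nat_lit 310) (nat_lit 250) (nat_lit 220))) (XT.nd (nat_lit 78) (nat_lit 456) (nat_lit 0) (XT.lf (nat_lit 0) (nat_lit 5464947120) (nat_lit 532) (nat_lit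 1514221746) (nat_lit 76) (nat_lit 3024573163) (nat_lit 156) (nat_lit 5) (nat_lit 163) (nat_lit 5) (nat_lit 157) (nat_lit 5) (nat_lit 311) (nat_lit 250) (nat_lit 219)) (XT.lf (nat_lit 0) (nat_lit 7819402572) (nat_lit 456) (nat_lit 2290056477) (nat_lit 532) (nat_lit 60364808) (nat_lit 150) (nat_lit 5) (nat_lit 156) (nat_lit 5) (nat_lit 157) (nat_lit 5) (nat_lit 312) (nat_lit 250) (nat_lit 218))))) (XT.nd (nat_lit 234) (nat_lit 1444) (nat_lit 0) (XT.nd (nat_lit 78) (nat_lit 912) (nat_lit 0) (XT.lf (nat_lit 0) (nat_lit 4480526869) (nat_lit 456) (nat_lit 3302907494) (nat_lit 76) (nat_lit 2557152384) (nat_lit 144) (nat_lit 5) (nat_lit 150) (nat_lit 5) (nat_lit 145) (nat_lit 5) (nat_lit 313) (nat_lit 250) (nat_lit 217)) (XT.nd (nat_lit 78) (nat_lit 456) (nat_lit 0) (XT.lf (nat_lit 0) (nat_lit 6167853748) (nat_lit 456) (nat_lit 2976700863) (nat_lit 532) (nat_lit 1372200047) (nat_lit 138) (nat_lit 5) (nat_lit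 144) (nat_lit 5) (nat_lit 145) (nat_lit 5) (nat_lit 314) (nat_lit 250) (nat_lit 216)) (XT.lf (nat_lit 0) (nat_lit 3194441850) (nat_lit 456) (nat_lit 5514182028) (nat_lit 76) (nat_lit 1989468724) (nat_lit 132) (nat_lit 5) (nat_lit 138) (nat_lit 5) (nat_lit 133) (nat_lit 5) (nat_lit 315) (nat_lit 250) (nat_lit 215)))) (XT.nd (nat_lit 156) (nat_lit 684) (nat_lit 0) (XT.nd (nat_lit 78) (nat_lit 380) (nat_lit 0) (XT.lf (nat_lit 0) (nat_lit 4082907971) (nat_lit 380) (nat_lit 3791530813) (nat_lit 456) (nat_lit 3010391834) (nat_lit 127) (nat_lit 5) (nat_lit 132) (nat_lit 5) (nat_lit 133) (nat_lit 5) (nat_lit 316) (nat_lit 250) (nat_lit 214)) (XT.lf (nat_lit 0) (nat_lit 1581038653) (nat_lit 380) (nat_lit 8210492930) (nat_lit 76) (nat_lit 1285776658) (nat_lit 122) (nat_lit 5) (nat_lit 127) (nat_lit 5) (nat_lit 123) (nat_lit 5) (nat_lit 317) (nat_lit 250) (nat_lit 213))) (XT.nd (nat_lit 78) (nat_lit 304)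 (nat_lit 0) (XT.lf (nat_lit 0) (nat_lit 1500038450) (nat_lit 380) (nat_lit 4772178643) (nat_lit 456) (nat_lit 5002925210) (nat_lit 117) (nat_lit 5) (nat_lit 122) (nat_lit 5) (nat_lit 123) (nat_lit 5) (nat_lit 318) (nat_lit 250) (nat_lit 212)) (XT.lf (nat_lit 0) (nat_lit 16394813) (nat_lit 304) (nat_lit 11068900609) (nat_lit 380) (nat_lit 394029736) (nat_lit 113) (nat_lit 5) (nat_lit 117) (nat_lit 5) (nat_lit 118) (nat_lit 5) (nat_lit 319) (nat_lit 250) (nat_lit 211))))))))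
noncomputable def xc34 : XT := (XT.nd (nat_lit 2106) (nat_lit 1520) (nat_lit 0) (XT.nd (nat_lit 1014) (nat_lit 2432) (nat_lit 0) (XT.nd (nat_lit 468) (nat_lit 1444) (nat_lit 0) (XT.nd (nat_lit 234) (nat_lit 988) (nat_lit 0) (XT.nd (nat_lit 78) (nat_lit 760) (nat_lit 0) (XT.lf (nat_lit 0) (nat_lit 4318071948) (nat_lit 380) (nat_lit 1629974760) (nat_lit 76) (nat_lit 5740616172) (nat_lit 112) (nat_lit 5) (nat_lit 117) (nat_lit 5) (nat_lit 113) (nat_lit 5) (nat_lit 320) (nat_lit 250) (nat_lit 210)) (XT.nd (nat_lit 78) (nat_lit 380) (nat_lit 0) (XT.lf (nat_lit 0) (nat_lit 8493631026) (nat_lit 380) (nat_lit 653398975) (nat_lit 456) (nat_lit 2757615959) (nat_lit 107) (nat_lit 5) (nat_lit 112) (nat_lit 5) (nat_lit 113) (nat_lit 5) (nat_lit 321) (nat_lit 250) (nat_lit 209)) (XT.lf (nat_lit 0) (nat_lit 1980699273) (nat_lit 380) (nat_lit 5378611772) (nat_lit 76) (nat_lit 4767309206) (nat_lit 102) (nat_lit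 5) (nat_lit 107) (nat_lit 5) (nat_lit 103) (nat_lit 5) (nat_lit 322) (nat_lit 250) (nat_lit 208)))) (XT.nd (nat_lit 78) (nat_lit 684) (nat_lit 0) (XT.lf (nat_lit 0) (nat_lit 4832443786) (nat_lit 304) (nat_lit 1978248687) (nat_lit 380) (nat_lit 5544488518) (nat_lit 98) (nat_lit 5) (nat_lit 102) (nat_lit 5) (nat_lit 103) (nat_lit 5) (nat_lit 323) (nat_lit 250) (nat_lit 207)) (XT.nd (nat_lit 78) (nat_lit 380) (nat_lit 0) (XT.lf (nat_lit 0) (nat_lit 2735017481) (nat_lit 304) (nat_lit 9057060698) (nat_lit 380) (nat_lit 798421249) (nat_lit 94) (nat_lit 5) (nat_lit 98) (nat_lit 5) (nat_lit 99) (nat_lit 5) (nat_lit 324) (nat_lit 250) (nat_lit 206)) (XT.lf (nat_lit 0) (nat_lit 426880350) (nat_lit 304) (nat_lit 3606596585) (nat_lit 380) (nat_lit 8798956822) (nat_lit 89) (nat_lit 5) (nat_lit 93) (nat_lit 5) (nat_lit 94) (nat_lit 5) (nat_lit 325) (nat_lit 250) (nat_lit 205))))) (XT.nd (nat_lit 234) (nat_lit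 836) (nat_lit 0) (XT.nd (nat_lit 78) (nat_lit 608) (nat_lit 0) (XT.lf (nat_lit 0) (nat_lit 9010665824) (nat_lit 380) (nat_lit 2056065061) (nat_lit 76) (nat_lit 2014594453) (nat_lit 89) (nat_lit 5) (nat_lit 94) (nat_lit 5) (nat_lit 90) (nat_lit 5) (nat_lit 326) (nat_lit 250) (nat_lit 204)) (XT.nd (nat_lit 78) (nat_lit 304) (nat_lit 0) (XT.lf (nat_lit 0) (nat_lit 801797182) (nat_lit 304) (nat_lit 4756720396) (nat_lit 76) (nat_lit 7778833385) (nat_lit 85) (nat_lit 5) (nat_lit 89) (nat_lit 5) (nat_lit 86) (nat_lit 5) (nat_lit 327) (nat_lit 250) (nat_lit 203)) (XT.lf (nat_lit 0) (nat_lit 5752530069) (nat_lit 380) (nat_lit 7693435649) (nat_lit 76) (nat_lit 154831603) (nat_lit 81) (nat_lit 5) (nat_lit 86) (nat_lit 5) (nat_lit 82) (nat_lit 5) (nat_lit 328) (nat_lit 250) (nat_lit 202)))) (XT.nd (nat_lit 156) (nat_lit 532) (nat_lit 0) (XT.nd (nat_lit 78) (nat_lit 76) (nat_lit 0) (XT.lf (nat_lit 0) (nat_lit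 2981766606) (nat_lit 228) (nat_lit 7893688822) (nat_lit 304) (nat_lit 2996243711) (nat_lit 78) (nat_lit 5) (nat_lit 81) (nat_lit 5) (nat_lit 82) (nat_lit 5) (nat_lit 329) (nat_lit 250) (nat_lit 201)) (XT.lf (nat_lit 0) (nat_lit 1963046306) (nat_lit 304) (nat_lit 184598744) (nat_lit 76) (nat_lit 12003088257) (nat_lit 77) (nat_lit 5) (nat_lit 81) (nat_lit 5) (nat_lit 78) (nat_lit 5) (nat_lit 330) (nat_lit 250) (nat_lit 200))) (XT.nd (nat_lit 78) (nat_lit 228) (nat_lit 0) (XT.lf (nat_lit 0) (nat_lit 7063358672) (nat_lit 380) (nat_lit 3599180594) (nat_lit 76) (nat_lit 3774567659) (nat_lit 73) (nat_lit 5) (nat_lit 78) (nat_lit 5) (nat_lit 74) (nat_lit 5) (nat_lit 331) (nat_lit 250) (nat_lit 199)) (XT.lf (nat_lit 0) (nat_lit 7444430184) (nat_lit 228) (nat_lit 4874493003) (nat_lit 304) (nat_lit 2413126567) (nat_lit 70) (nat_lit 5) (nat_lit 73) (nat_lit 5) (nat_lit 74) (nat_lit 5) (nat_lit 332) (nat_lit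 250) (nat_lit 198)))))) (XT.nd (nat_lit 546) (nat_lit 1064) (nat_lit 0) (XT.nd (nat_lit 234) (nat_lit 836) (nat_lit 0) (XT.nd (nat_lit 78) (nat_lit 228) (nat_lit 0) (XT.lf (nat_lit 0) (nat_lit 2656217180) (nat_lit 304) (nat_lit 11277666883) (nat_lit 76) (nat_lit 1101723116) (nat_lit 66) (nat_lit 5) (nat_lit 70) (nat_lit 5) (nat_lit 67) (nat_lit 5) (nat_lit 333) (nat_lit 250) (nat_lit 197)) (XT.nd (nat_lit 78) (nat_lit 228) (nat_lit 0) (XT.lf (nat_lit 0) (nat_lit 7867263186) (nat_lit 304) (nat_lit 260722745) (nat_lit 76) (nat_lit 7219539367) (nat_lit 66) (nat_lit 5) (nat_lit 70) (nat_lit 5) (nat_lit 67) (nat_lit 5) (nat_lit 334) (nat_lit 250) (nat_lit 196)) (XT.lf (nat_lit 0) (nat_lit 11136675089) (nat_lit 228) (nat_lit 2111934149) (nat_lit 304) (nat_lit 2419932859) (nat_lit 63) (nat_lit 5) (nat_lit 66) (nat_lit 5) (nat_lit 67) (nat_lit 5) (nat_lit 335) (nat_lit 250) (nat_lit 195)))) (XT.nd (nat_lit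 156) (nat_lit 304) (nat_lit 0) (XT.nd (nat_lit 78) (nat_lit 228) (nat_lit 0) (XT.lf (nat_lit 0) (nat_lit 2770934012) (nat_lit 304) (nat_lit 9168917809) (nat_lit 76) (nat_lit 4058687562) (nat_lit 59) (nat_lit 5) (nat_lit 63) (nat_lit 5) (nat_lit 60) (nat_lit 5) (nat_lit 336) (nat_lit 250) (nat_lit 194)) (XT.lf (nat_lit 0) (nat_lit 2159271937) (nat_lit 228) (nat_lit 5927797588) (nat_lit 304) (nat_lit 8251017700) (nat_lit 56) (nat_lit 5) (nat_lit 59) (nat_lit 5) (nat_lit 60) (nat_lit 5) (nat_lit 337) (nat_lit 250) (nat_lit 193))) (XT.nd (nat_lit 78) (nat_lit 304) (nat_lit 0) (XT.lf (nat_lit 0) (nat_lit 13570934514) (nat_lit 304) (nat_lit 2829952735) (nat_lit 76) (nat_lit 286787745) (nat_lit 56) (nat_lit 5) (nat_lit 60) (nat_lit 5) (nat_lit 57) (nat_lit 5) (nat_lit 338) (nat_lit 250) (nat_lit 192)) (XT.lf (nat_lit 0) (nat_lit 2186031122) (nat_lit 304) (nat_lit 8216884231) (nat_lit 76) (nat_lit 6643711643)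 (nat_lit 52) (nat_lit 5) (nat_lit 56) (nat_lit 5) (nat_lit 53) (nat_lit 5) (nat_lit 339) (nat_lit 250) (nat_lit 191))))) (XT.nd (nat_lit 234) (nat_lit 608) (nat_lit 0) (XT.nd (nat_lit 78) (nat_lit 304) (nat_lit 0) (XT.lf (nat_lit 0) (nat_lit 3394990231) (nat_lit 152) (nat_lit 4198384895) (nat_lit 228) (nat_lit 9822820731) (nat_lit 50) (nat_lit 5) (nat_lit 52) (nat_lit 5) (nat_lit 53) (nat_lit 5) (nat_lit 340) (nat_lit 250) (nat_lit 190)) (XT.nd (nat_lit 78) (nat_lit 304) (nat_lit 0) (XT.lf (nat_lit 0) (nat_lit 13180219404) (nat_lit 228) (nat_lit 2432579941) (nat_lit 76) (nat_lit 2183723349) (nat_lit 50) (nat_lit 5) (nat_lit 53) (nat_lit 5) (nat_lit 51) (nat_lit 5) (nat_lit 341) (nat_lit 250) (nat_lit 189)) (XT.lf (nat_lit 0) (nat_lit 775241457) (nat_lit 304) (nat_lit 8679528952) (nat_lit 76) (nat_lit 8732635295) (nat_lit 46) (nat_lit 5) (nat_lit 50) (nat_lit 5) (nat_lit 47) (nat_lit 5) (nat_lit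 342) (nat_lit 250) (nat_lit 188)))) (XT.nd (nat_lit 156) (nat_lit 456) (nat_lit 0) (XT.nd (nat_lit 78) (nat_lit 0) (nat_lit 0) (XT.lf (nat_lit 0) (nat_lit 3174219742) (nat_lit 152) (nat_lit 3078287298) (nat_lit 228) (nat_lit 12337179306) (nat_lit 44) (nat_lit 5) (nat_lit 46) (nat_lit 5) (nat_lit 47) (nat_lit 5) (nat_lit 343) (nat_lit 250) (nat_lit 187)) (XT.lf (nat_lit 0) (nat_lit 11925783301) (nat_lit 228) (nat_lit 3609486433) (nat_lit 76) (nat_lit 3468146632) (nat_lit 44) (nat_lit 5) (nat_lit 47) (nat_lit 5) (nat_lit 45) (nat_lit 5) (nat_lit 344) (nat_lit 250) (nat_lit 186))) (XT.nd (nat_lit 78) (nat_lit 228) (nat_lit 0) (XT.lf (nat_lit 0) (nat_lit 8558872996) (nat_lit 228) (nat_lit 9237833702) (nat_lit 304) (nat_lit 1632316992) (nat_lit 41) (nat_lit 5) (nat_lit 44) (nat_lit 5) (nat_lit 45) (nat_lit 5) (nat_lit 345) (nat_lit 250) (nat_lit 185)) (XT.lf (nat_lit 0) (nat_lit 1181532338) (nat_lit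 152) (nat_lit 2726816006) (nat_lit 228) (nat_lit 15958865424) (nat_lit 38) (nat_lit 5) (nat_lit 40) (nat_lit 5) (nat_lit 41) (nat_lit 5) (nat_lit 346) (nat_lit 250) (nat_lit 184))))))) (XT.nd (nat_lit 1014) (nat_lit 304) (nat_lit 0) (XT.nd (nat_lit 468) (nat_lit 684) (nat_lit 0) (XT.nd (nat_lit 234) (nat_lit 304) (nat_lit 0) (XT.nd (nat_lit 78) (nat_lit 228) (nat_lit 0) (XT.lf (nat_lit 0) (nat_lit 9645668710) (nat_lit 228) (nat_lit 6692919069) (nat_lit 76) (nat_lit 3978707030) (nat_lit 38) (nat_lit 5) (nat_lit 41) (nat_lit 5) (nat_lit 39) (nat_lit 5) (nat_lit 347) (nat_lit 250) (nat_lit 183)) (XT.nd (nat_lit 78) (nat_lit 76) (nat_lit 0) (XT.lf (nat_lit 0) (nat_lit 5635535478) (nat_lit 152) (nat_lit 9928282051) (nat_lit 228) (nat_lit 5216899476) (nat_lit 36) (nat_lit 5) (nat_lit 38) (nat_lit 5) (nat_lit 39) (nat_lit 5) (nat_lit 348) (nat_lit 250) (nat_lit 182)) (XT.lf (nat_lit 0) (nat_lit 396262526)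 (nat_lit 228) (nat_lit 2913674780) (nat_lit 76) (nat_lit 17948063533) (nat_lit 35) (nat_lit 5) (nat_lit 38) (nat_lit 5) (nat_lit 36) (nat_lit 5) (nat_lit 349) (nat_lit 250) (nat_lit 181)))) (XT.nd (nat_lit 78) (nat_lit 152) (nat_lit 0) (XT.lf (nat_lit 0) (nat_lit 6149266863) (nat_lit 228) (nat_lit 12071425430) (nat_lit 76) (nat_lit 3527386649) (nat_lit 33) (nat_lit 5) (nat_lit 36) (nat_lit 5) (nat_lit 34) (nat_lit 5) (nat_lit 350) (nat_lit 250) (nat_lit 180)) (XT.nd (nat_lit 78) (nat_lit 0) (nat_lit 0) (XT.lf (nat_lit 0) (nat_lit 338064254) (nat_lit 152) (nat_lit 11737325622) (nat_lit 228) (nat_lit 10177470517) (nat_lit 31) (nat_lit 5) (nat_lit 33) (nat_lit 5) (nat_lit 34) (nat_lit 5) (nat_lit 351) (nat_lit 250) (nat_lit 179)) (XT.lf (nat_lit 0) (nat_lit 13210096954) (nat_lit 152) (nat_lit 5008108592) (nat_lit 228) (nat_lit 4553812801) (nat_lit 31) (nat_lit 5) (nat_lit 33) (nat_lit 5) (nat_lit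 34) (nat_lit 5) (nat_lit 352) (nat_lit 250) (nat_lit 178))))) (XT.nd (nat_lit 234) (nat_lit 304) (nat_lit 0) (XT.nd (nat_lit 78) (nat_lit 152) (nat_lit 0) (XT.lf (nat_lit 0) (nat_lit 1213115381) (nat_lit 228) (nat_lit 20198432731) (nat_lit 76) (nat_lit 1895236703) (nat_lit 28) (nat_lit 5) (nat_lit 31) (nat_lit 5) (nat_lit 29) (nat_lit 5) (nat_lit 353) (nat_lit 250) (nat_lit 177)) (XT.nd (nat_lit 78) (nat_lit 152) (nat_lit 0) (XT.lf (nat_lit 0) (nat_lit 7148874019) (nat_lit 228) (nat_lit 7703857237) (nat_lit 76) (nat_lit 9003117570) (nat_lit 28) (nat_lit 5) (nat_lit 31) (nat_lit 5) (nat_lit 29) (nat_lit 5) (nat_lit 354) (nat_lit 250) (nat_lit 176)) (XT.lf (nat_lit 0) (nat_lit 5162580390) (nat_lit 152) (nat_lit 8093472333) (nat_lit 228) (nat_lit 11165475172) (nat_lit 26) (nat_lit 5) (nat_lit 28) (nat_lit 5) (nat_lit 29) (nat_lit 5) (nat_lit 355) (nat_lit 250) (nat_lit 175)))) (XT.nd (nat_lit 156)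 (nat_lit 152) (nat_lit 0) (XT.nd (nat_lit 78) (nat_lit 152) (nat_lit 0) (XT.lf (nat_lit 0) (nat_lit 18450926211) (nat_lit 152) (nat_lit 1108271325) (nat_lit 228) (nat_lit 5444734574) (nat_lit 26) (nat_lit 5) (nat_lit 28) (nat_lit 5) (nat_lit 29) (nat_lit 5) (nat_lit 356) (nat_lit 250) (nat_lit 174)) (XT.lf (nat_lit 0) (nat_lit 485338480) (nat_lit 152) (nat_lit 19094240819) (nat_lit 76) (nat_lit 6023308725) (nat_lit 24) (nat_lit 5) (nat_lit 26) (nat_lit 5) (nat_lit 25) (nat_lit 5) (nat_lit 357) (nat_lit 250) (nat_lit 173))) (XT.nd (nat_lit 78) (nat_lit 152) (nat_lit 0) (XT.lf (nat_lit 0) (nat_lit 6533806797) (nat_lit 152) (nat_lit 6278700258) (nat_lit 76) (nat_lit 13406305502) (nat_lit 24) (nat_lit 5) (nat_lit 26) (nat_lit 5) (nat_lit 25) (nat_lit 5) (nat_lit 358) (nat_lit 250) (nat_lit 172)) (XT.lf (nat_lit 0) (nat_lit 6946874966) (nat_lit 152) (nat_lit 5824999847) (nat_lit 228) (nat_lit 14081185881)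 (nat_lit 22) (nat_lit 5) (nat_lit 24) (nat_lit 5) (nat_lit 25) (nat_lit 5) (nat_lit 359) (nat_lit 250) (nat_lit 171)))))) (XT.nd (nat_lit 34476) (nat_lit 0) (nat_lit 25992) (XT.nd (nat_lit 234) (nat_lit 152) (nat_lit 0) (XT.nd (nat_lit 78) (nat_lit 152) (nat_lit 0) (XT.lf (nat_lit 0) (nat_lit 19212338685) (nat_lit 228) (nat_lit 6924543946) (nat_lit 76) (nat_lit 1369157094) (nat_lit 22) (nat_lit 5) (nat_lit 25) (nat_lit 5) (nat_lit 23) (nat_lit 4) (nat_lit 360) (nat_lit 250) (nat_lit 170)) (XT.nd (nat_lit 78) (nat_lit 76) (nat_lit 0) (XT.lf (nat_lit 0) (nat_lit 6428771963) (nat_lit 76) (nat_lit 19462518136) (nat_lit 152) (nat_lit 2286420837) (nat_lit 21) (nat_lit 5) (nat_lit 22) (nat_lit 5) (nat_lit 23) (nat_lit 4) (nat_lit 361) (nat_lit 250) (nat_lit 169)) (XT.lf (nat_lit 0) (nat_lit 3862117555) (nat_lit 152) (nat_lit 8679345748) (nat_lit 76) (nat_lit 16327326228) (nat_lit 20) (nat_lit 5) (nat_lit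 22) (nat_lit 5) (nat_lit 21) (nat_lit 5) (nat_lit 362) (nat_lit 250) (nat_lit 168)))) (XT.nd (nat_lit 34086) (nat_lit 0) (nat_lit 36556) (XT.nd (nat_lit 34008) (nat_lit 0) (nat_lit 38988) (XT.lf (nat_lit 0) (nat_lit 4768827447) (nat_lit 152) (nat_lit 5392350400) (nat_lit 228) (nat_lit 19419185439) (nat_lit 18) (nat_lit 5) (nat_lit 20) (nat_lit 5) (nat_lit 21) (nat_lit 5) (nat_lit 363) (nat_lit 250) (nat_lit 167)) (XT.lf (nat_lit 0) (nat_lit 1362454316) (nat_lit 1140) (nat_lit 678880584) (nat_lit 0) (nat_lit 1362454316) (nat_lit 531) (nat_lit 5) (nat_lit 546) (nat_lit 4) (nat_lit 531) (nat_lit 4) (nat_lit 278) (nat_lit 251) (nat_lit 251))) (XT.nd (nat_lit 78) (nat_lit 1216) (nat_lit 0) (XT.lf (nat_lit 0) (nat_lit 570508468) (nat_lit 1216) (nat_lit 1758436678) (nat_lit 76) (nat_lit 4521444628) (nat_lit 515) (nat_lit 5) (nat_lit 531) (nat_lit 5) (nat_lit 516) (nat_lit 4) (nat_lit 279) (nat_lit 251)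 (nat_lit 250)) (XT.lf (nat_lit 0) (nat_lit 4766606901) (nat_lit 1216) (nat_lit 433171331) (nat_lit 1292) (nat_lit 1696497559) (nat_lit 499) (nat_lit 5) (nat_lit 515) (nat_lit 5) (nat_lit 516) (nat_lit 4) (nat_lit 280) (nat_lit 251) (nat_lit 249))))) (XT.nd (nat_lit 234) (nat_lit 6308) (nat_lit 0) (XT.nd (nat_lit 78) (nat_lit 2888) (nat_lit 0) (XT.lf (nat_lit 0) (nat_lit 2890008841) (nat_lit 1368) (nat_lit 2476607065) (nat_lit 76) (nat_lit 1578585208) (nat_lit 481) (nat_lit 5) (nat_lit 499) (nat_lit 5) (nat_lit 482) (nat_lit 4) (nat_lit 281) (nat_lit 251) (nat_lit 248)) (XT.nd (nat_lit 78) (nat_lit 1444) (nat_lit 0) (XT.lf (nat_lit 0) (nat_lit 489343296) (nat_lit 1444) (nat_lit 2790224130) (nat_lit 76) (nat_lit 3717849278) (nat_lit 462) (nat_lit 5) (nat_lit 481) (nat_lit 5) (nat_lit 463) (nat_lit 5) (nat_lit 282) (nat_lit 251) (nat_lit 247)) (XT.lf (nat_lit 0) (nat_lit 3970407535) (nat_lit 1444)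 (nat_lit 1047330162) (nat_lit 1520) (nat_lit 2035021581) (nat_lit 443) (nat_lit 5) (nat_lit 462) (nat_lit 5) (nat_lit 463) (nat_lit 5) (nat_lit 283) (nat_lit 251) (nat_lit 246)))) (XT.nd (nat_lit 156) (nat_lit 3116) (nat_lit 0) (XT.nd (nat_lit 78) (nat_lit 1596) (nat_lit 0) (XT.lf (nat_lit 0) (nat_lit 2452404864) (nat_lit 1596) (nat_lit 3353675700) (nat_lit 76) (nat_lit 1305210967) (nat_lit 422) (nat_lit 5) (nat_lit 443) (nat_lit 5) (nat_lit 423) (nat_lit 5) (nat_lit 284) (nat_lit 251) (nat_lit 245)) (XT.lf (nat_lit 0) (nat_lit 3570222067) (nat_lit 1596) (nat_lit 3393050001) (nat_lit 1672) (nat_lit 209846982) (nat_lit 401) (nat_lit 5) (nat_lit 422) (nat_lit 5) (nat_lit 423) (nat_lit 5) (nat_lit 285) (nat_lit 251) (nat_lit 244))) (XT.nd (nat_lit 78) (nat_lit 1368) (nat_lit 0) (XT.lf (nat_lit 0) (nat_lit 3397964605) (nat_lit 1672) (nat_lit 829483953) (nat_lit 1748) (nat_lit 3010673392) (nat_lit 378)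 (nat_lit 5) (nat_lit 400) (nat_lit 5) (nat_lit 401) (nat_lit 5) (nat_lit 286) (nat_lit 251) (nat_lit 243)) (XT.lf (nat_lit 0) (nat_lit 1397541287) (nat_lit 1368) (nat_lit 4062986607) (nat_lit 76) (nat_lit 1845908179) (nat_lit 360) (nat_lit 5) (nat_lit 378) (nat_lit 5) (nat_lit 361) (nat_lit 5) (nat_lit 287) (nat_lit 251) (nat_lit 242))))))))
noncomputable def xc35 : XT := (XT.nd (nat_lit 2106) (nat_lit 6688) (nat_lit 0) (XT.nd (nat_lit 1014) (nat_lit 6840) (nat_lit 0) (XT.nd (nat_lit 468) (nat_lit 4940) (nat_lit 0) (XT.nd (nat_lit 234) (nat_lit 2508) (nat_lit 0) (XT.nd (nat_lit 78) (nat_lit 1748) (nat_lit 0) (XT.lf (nat_lit 0) (nat_lit 3100863887) (nat_lit 836) (nat_lit 2720581293) (nat_lit 912) (nat_lit 1556590584) (nat_lit 349) (nat_lit 5) (nat_lit 360) (nat_lit 5) (nat_lit 361) (nat_lit 5) (nat_lit 288) (nat_lit 251) (nat_lit 241)) (XT.nd (nat_lit 78) (nat_lit 836) (nat_lit 0) (XT.lf (nat_lit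 0) (nat_lit 2810190360) (nat_lit 912) (nat_lit 4479810531) (nat_lit 76) (nat_lit 163072086) (nat_lit 337) (nat_lit 5) (nat_lit 349) (nat_lit 5) (nat_lit 338) (nat_lit 5) (nat_lit 289) (nat_lit 251) (nat_lit 240)) (XT.lf (nat_lit 0) (nat_lit 2848614831) (nat_lit 836) (nat_lit 4381193095) (nat_lit 912) (nat_lit 301599862) (nat_lit 326) (nat_lit 5) (nat_lit 337) (nat_lit 5) (nat_lit 338) (nat_lit 5) (nat_lit 290) (nat_lit 251) (nat_lit 239)))) (XT.nd (nat_lit 78) (nat_lit 1596) (nat_lit 0) (XT.lf (nat_lit 0) (nat_lit 2725667028) (nat_lit 836) (nat_lit 1316665121) (nat_lit 912) (nat_lit 3570783514) (nat_lit 314) (nat_lit 5) (nat_lit 325) (nat_lit 5) (nat_lit 326) (nat_lit 5) (nat_lit 291) (nat_lit 251) (nat_lit 238)) (XT.nd (nat_lit 78) (nat_lit 760) (nat_lit 0) (XT.lf (nat_lit 0) (nat_lit 746445774) (nat_lit 836) (nat_lit 5089296091) (nat_lit 76) (nat_lit 1862650780) (nat_lit 303) (nat_lit 5) (nat_lit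 314) (nat_lit 5) (nat_lit 304) (nat_lit 5) (nat_lit 292) (nat_lit 251) (nat_lit 237)) (XT.lf (nat_lit 0) (nat_lit 2482132944) (nat_lit 760) (nat_lit 2604326119) (nat_lit 836) (nat_lit 2700559632) (nat_lit 293) (nat_lit 5) (nat_lit 303) (nat_lit 5) (nat_lit 304) (nat_lit 5) (nat_lit 293) (nat_lit 251) (nat_lit 236))))) (XT.nd (nat_lit 234) (nat_lit 2660) (nat_lit 0) (XT.nd (nat_lit 78) (nat_lit 1520) (nat_lit 0) (XT.lf (nat_lit 0) (nat_lit 1596401722) (nat_lit 760) (nat_lit 5520776613) (nat_lit 76) (nat_lit 762200034) (nat_lit 283) (nat_lit 5) (nat_lit 293) (nat_lit 5) (nat_lit 284) (nat_lit 5) (nat_lit 294) (nat_lit 251) (nat_lit 235)) (XT.nd (nat_lit 78) (nat_lit 760) (nat_lit 0) (XT.lf (nat_lit 0) (nat_lit 2215085834) (nat_lit 760) (nat_lit 3726091278) (nat_lit 836) (nat_lit 2033953752) (nat_lit 273) (nat_lit 5) (nat_lit 283) (nat_lit 5) (nat_lit 284) (nat_lit 5) (nat_lit 295) (nat_lit 251) (nat_lit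 234)) (XT.lf (nat_lit 0) (nat_lit 2068723792) (nat_lit 684) (nat_lit 183223920) (nat_lit 760) (nat_lit 5822787989) (nat_lit 263) (nat_lit 5) (nat_lit 272) (nat_lit 5) (nat_lit 273) (nat_lit 5) (nat_lit 296) (nat_lit 251) (nat_lit 233)))) (XT.nd (nat_lit 156) (nat_lit 1292) (nat_lit 0) (XT.nd (nat_lit 78) (nat_lit 684) (nat_lit 0) (XT.lf (nat_lit 0) (nat_lit 1894545863) (nat_lit 684) (nat_lit 4709834039) (nat_lit 760) (nat_lit 1573452197) (nat_lit 254) (nat_lit 5) (nat_lit 263) (nat_lit 5) (nat_lit 264) (nat_lit 5) (nat_lit 297) (nat_lit 251) (nat_lit 232)) (XT.lf (nat_lit 0) (nat_lit 1705792757) (nat_lit 608) (nat_lit 1006967375) (nat_lit 684) (nat_lit 5572053967) (nat_lit 245) (nat_lit 5) (nat_lit 253) (nat_lit 5) (nat_lit 254) (nat_lit 5) (nat_lit 298) (nat_lit 251) (nat_lit 231))) (XT.nd (nat_lit 78) (nat_lit 684) (nat_lit 0) (XT.lf (nat_lit 0) (nat_lit 1488928236) (nat_lit 608) (nat_lit 5583186098)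 (nat_lit 684) (nat_lit 1323442234) (nat_lit 237) (nat_lit 5) (nat_lit 245) (nat_lit 5) (nat_lit 246) (nat_lit 5) (nat_lit 299) (nat_lit 251) (nat_lit 230)) (XT.lf (nat_lit 0) (nat_lit 1242346344) (nat_lit 608) (nat_lit 1726466553) (nat_lit 684) (nat_lit 5541361531) (nat_lit 228) (nat_lit 5) (nat_lit 236) (nat_lit 5) (nat_lit 237) (nat_lit 5) (nat_lit 300) (nat_lit 251) (nat_lit 229)))))) (XT.nd (nat_lit 546) (nat_lit 3420) (nat_lit 0) (XT.nd (nat_lit 234) (nat_lit 1672) (nat_lit 0) (XT.nd (nat_lit 78) (nat_lit 1140) (nat_lit 0) (XT.lf (nat_lit 0) (nat_lit 964729855) (nat_lit 608) (nat_lit 6373773120) (nat_lit 684) (nat_lit 1290291711) (nat_lit 220) (nat_lit 5) (nat_lit 228) (nat_lit 5) (nat_lit 229) (nat_lit 5) (nat_lit 301) (nat_lit 251) (nat_lit 228)) (XT.nd (nat_lit 78) (nat_lit 532) (nat_lit 0) (XT.lf (nat_lit 0) (nat_lit 643730684) (nat_lit 532) (nat_lit 2369379053) (nat_lit 608) (nat_lit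 5738225040) (nat_lit 212) (nat_lit 5) (nat_lit 219) (nat_lit 5) (nat_lit 220) (nat_lit 5) (nat_lit 302) (nat_lit 251) (nat_lit 227)) (XT.lf (nat_lit 0) (nat_lit 286193500) (nat_lit 532) (nat_lit 7109455816) (nat_lit 608) (nat_lit 1482446185) (nat_lit 205) (nat_lit 5) (nat_lit 212) (nat_lit 5) (nat_lit 213) (nat_lit 5) (nat_lit 303) (nat_lit 251) (nat_lit 226)))) (XT.nd (nat_lit 156) (nat_lit 1064) (nat_lit 0) (XT.nd (nat_lit 78) (nat_lit 532) (nat_lit 0) (XT.lf (nat_lit 0) (nat_lit 2837391648) (nat_lit 608) (nat_lit 125466184) (nat_lit 76) (nat_lit 6045998986) (nat_lit 204) (nat_lit 5) (nat_lit 212) (nat_lit 5) (nat_lit 205) (nat_lit 5) (nat_lit 304) (nat_lit 251) (nat_lit 225)) (XT.lf (nat_lit 0) (nat_lit 7237323348) (nat_lit 608) (nat_lit 577380520) (nat_lit 76) (nat_lit 1329289635) (nat_lit 197) (nat_lit 5) (nat_lit 205) (nat_lit 5) (nat_lit 198) (nat_lit 5) (nat_lit 305) (nat_lit 251) (nat_lit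 224))) (XT.nd (nat_lit 78) (nat_lit 456) (nat_lit 0) (XT.lf (nat_lit 0) (nat_lit 2435094989) (nat_lit 608) (nat_lit 1095567623) (nat_lit 76) (nat_lit 5752624563) (nat_lit 189) (nat_lit 5) (nat_lit 197) (nat_lit 5) (nat_lit 190) (nat_lit 5) (nat_lit 306) (nat_lit 251) (nat_lit 223)) (XT.lf (nat_lit 0) (nat_lit 6850811448) (nat_lit 532) (nat_lit 1668220463) (nat_lit 76) (nat_lit 908140279) (nat_lit 183) (nat_lit 5) (nat_lit 190) (nat_lit 5) (nat_lit 184) (nat_lit 5) (nat_lit 307) (nat_lit 251) (nat_lit 222))))) (XT.nd (nat_lit 234) (nat_lit 1824) (nat_lit 0) (XT.nd (nat_lit 78) (nat_lit 988) (nat_lit 0) (XT.lf (nat_lit 0) (nat_lit 1788671759) (nat_lit 608) (nat_lit 2317540011) (nat_lit 76) (nat_lit 5469199830) (nat_lit 175) (nat_lit 5) (nat_lit 183) (nat_lit 5) (nat_lit 176) (nat_lit 5) (nat_lit 308) (nat_lit 251) (nat_lit 221)) (XT.nd (nat_lit 78) (nat_lit 532) (nat_lit 0) (XT.lf (nat_lit 0) (nat_lit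 6219835358) (nat_lit 532) (nat_lit 3034300101) (nat_lit 76) (nat_lit 474270829) (nat_lit 169) (nat_lit 5) (nat_lit 176) (nat_lit 5) (nat_lit 170) (nat_lit 5) (nat_lit 309) (nat_lit 251) (nat_lit 220)) (XT.lf (nat_lit 0) (nat_lit 882259516) (nat_lit 532) (nat_lit 3837508722) (nat_lit 76) (nat_lit 5166233937) (nat_lit 162) (nat_lit 5) (nat_lit 169) (nat_lit 5) (nat_lit 163) (nat_lit 5) (nat_lit 310) (nat_lit 251) (nat_lit 219)))) (XT.nd (nat_lit 156) (nat_lit 912) (nat_lit 0) (XT.nd (nat_lit 78) (nat_lit 456) (nat_lit 0) (XT.lf (nat_lit 0) (nat_lit 5324810158) (nat_lit 456) (nat_lit 2613100) (nat_lit 532) (nat_lit 4721081699) (nat_lit 156) (nat_lit 5) (nat_lit 162) (nat_lit 5) (nat_lit 163) (nat_lit 5) (nat_lit 311) (nat_lit 251) (nat_lit 218)) (XT.lf (nat_lit 0) (nat_lit 4508199339) (nat_lit 456) (nat_lit 5400960583) (nat_lit 532) (nat_lit 306705502) (nat_lit 150) (nat_lit 5) (nat_lit 156) (nat_lit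 5) (nat_lit 157) (nat_lit 5) (nat_lit 312) (nat_lit 251) (nat_lit 217))) (XT.nd (nat_lit 78) (nat_lit 456) (nat_lit 0) (XT.lf (nat_lit 0) (nat_lit 3595891865) (nat_lit 380) (nat_lit 561523503) (nat_lit 456) (nat_lit 6230866988) (nat_lit 144) (nat_lit 5) (nat_lit 149) (nat_lit 5) (nat_lit 150) (nat_lit 5) (nat_lit 313) (nat_lit 251) (nat_lit 216)) (XT.lf (nat_lit 0) (nat_lit 2577219064) (nat_lit 456) (nat_lit 6177250016) (nat_lit 532) (nat_lit 1811342046) (nat_lit 138) (nat_lit 5) (nat_lit 144) (nat_lit 5) (nat_lit 145) (nat_lit 5) (nat_lit 314) (nat_lit 251) (nat_lit 215))))))) (XT.nd (nat_lit 1014) (nat_lit 2736) (nat_lit 0) (XT.nd (nat_lit 468) (nat_lit 1976) (nat_lit 0) (XT.nd (nat_lit 234) (nat_lit 1064) (nat_lit 0) (XT.nd (nat_lit 78) (nat_lit 456) (nat_lit 0) (XT.lf (nat_lit 0) (nat_lit 1454012923) (nat_lit 380) (nat_lit 1230155334) (nat_lit 456) (nat_lit 8064596008) (nat_lit 132) (nat_lit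 5) (nat_lit 137) (nat_lit 5) (nat_lit 138) (nat_lit 5) (nat_lit 315) (nat_lit 251) (nat_lit 214)) (XT.nd (nat_lit 78) (nat_lit 76) (nat_lit 0) (XT.lf (nat_lit 0) (nat_lit 202367490) (nat_lit 380) (nat_lit 7089786547) (nat_lit 456) (nat_lit 3644808224) (nat_lit 127) (nat_lit 5) (nat_lit 132) (nat_lit 5) (nat_lit 133) (nat_lit 5) (nat_lit 316) (nat_lit 251) (nat_lit 213)) (XT.lf (nat_lit 0) (nat_lit 889480734) (nat_lit 456) (nat_lit 1147488086) (nat_lit 76) (nat_lit 9093881489) (nat_lit 126) (nat_lit 5) (nat_lit 132) (nat_lit 5) (nat_lit 127) (nat_lit 5) (nat_lit 317) (nat_lit 251) (nat_lit 212)))) (XT.nd (nat_lit 78) (nat_lit 760) (nat_lit 0) (XT.lf (nat_lit 0) (nat_lit 5512398255) (nat_lit 380) (nat_lit 2646004578) (nat_lit 76) (nat_lit 3171665014) (nat_lit 122) (nat_lit 5) (nat_lit 127) (nat_lit 5) (nat_lit 123) (nat_lit 5) (nat_lit 318) (nat_lit 251) (nat_lit 211)) (XT.nd (nat_lit 78) (nat_lit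 380) (nat_lit 0) (XT.lf (nat_lit 0) (nat_lit 7261569366) (nat_lit 380) (nat_lit 3006734055) (nat_lit 456) (nat_lit 1267108471) (nat_lit 117) (nat_lit 5) (nat_lit 122) (nat_lit 5) (nat_lit 123) (nat_lit 5) (nat_lit 319) (nat_lit 251) (nat_lit 210)) (XT.lf (nat_lit 0) (nat_lit 3372002649) (nat_lit 380) (nat_lit 6063995525) (nat_lit 76) (nat_lit 2310570508) (nat_lit 112) (nat_lit 5) (nat_lit 117) (nat_lit 5) (nat_lit 113) (nat_lit 5) (nat_lit 320) (nat_lit 251) (nat_lit 209))))) (XT.nd (nat_lit 234) (nat_lit 1216) (nat_lit 0) (XT.nd (nat_lit 78) (nat_lit 380) (nat_lit 0) (XT.lf (nat_lit 0) (nat_lit 3945874599) (nat_lit 380) (nat_lit 4190009688) (nat_lit 456) (nat_lit 3827985383) (nat_lit 107) (nat_lit 5) (nat_lit 112) (nat_lit 5) (nat_lit 113) (nat_lit 5) (nat_lit 321) (nat_lit 251) (nat_lit 208)) (XT.nd (nat_lit 78) (nat_lit 0) (nat_lit 0) (XT.lf (nat_lit 0) (nat_lit 835313822) (nat_lit 380) (nat_lit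 10131544765) (nat_lit 76) (nat_lit 1220921039) (nat_lit 102) (nat_lit 5) (nat_lit 107) (nat_lit 5) (nat_lit 103) (nat_lit 5) (nat_lit 322) (nat_lit 251) (nat_lit 207)) (XT.lf (nat_lit 0) (nat_lit 5599385678) (nat_lit 380) (nat_lit 37276232) (nat_lit 76) (nat_lit 6781012020) (nat_lit 102) (nat_lit 5) (nat_lit 107) (nat_lit 5) (nat_lit 103) (nat_lit 5) (nat_lit 323) (nat_lit 251) (nat_lit 206)))) (XT.nd (nat_lit 156) (nat_lit 532) (nat_lit 0) (XT.nd (nat_lit 78) (nat_lit 380) (nat_lit 0) (XT.lf (nat_lit 0) (nat_lit 10390836322) (nat_lit 304) (nat_lit 114921935) (nat_lit 380) (nat_lit 2148749070) (nat_lit 98) (nat_lit 5) (nat_lit 102) (nat_lit 5) (nat_lit 103) (nat_lit 5) (nat_lit 324) (nat_lit 251) (nat_lit 205)) (XT.lf (nat_lit 0) (nat_lit 2648764096) (nat_lit 380) (nat_lit 4714895439) (nat_lit 76) (nat_lit 5534013349) (nat_lit 93) (nat_lit 5) (nat_lit 98) (nat_lit 5) (nat_lit 94) (nat_lit 5) (nat_lit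 325) (nat_lit 251) (nat_lit 204))) (XT.nd (nat_lit 78) (nat_lit 228) (nat_lit 0) (XT.lf (nat_lit 0) (nat_lit 5782488242) (nat_lit 304) (nat_lit 1766247451) (nat_lit 380) (nat_lit 5599386700) (nat_lit 89) (nat_lit 5) (nat_lit 93) (nat_lit 5) (nat_lit 94) (nat_lit 5) (nat_lit 326) (nat_lit 251) (nat_lit 203)) (XT.lf (nat_lit 0) (nat_lit 3165944430) (nat_lit 228) (nat_lit 9443272226) (nat_lit 304) (nat_lit 796625293) (nat_lit 86) (nat_lit 5) (nat_lit 89) (nat_lit 5) (nat_lit 90) (nat_lit 5) (nat_lit 327) (nat_lit 251) (nat_lit 202)))))) (XT.nd (nat_lit 546) (nat_lit 1216) (nat_lit 0) (XT.nd (nat_lit 234) (nat_lit 836) (nat_lit 0) (XT.nd (nat_lit 78) (nat_lit 304) (nat_lit 0) (XT.lf (nat_lit 0) (nat_lit 306436410) (nat_lit 304) (nat_lit 3789013644) (nat_lit 380) (nat_lit 9575336357) (nat_lit 81) (nat_lit 5) (nat_lit 85) (nat_lit 5) (nat_lit 86) (nat_lit 5) (nat_lit 328) (nat_lit 251) (nat_lit 201))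 (XT.nd (nat_lit 78) (nat_lit 304) (nat_lit 0) (XT.lf (nat_lit 0) (nat_lit 9143180672) (nat_lit 380) (nat_lit 2753836821) (nat_lit 76) (nat_lit 2046186816) (nat_lit 81) (nat_lit 5) (nat_lit 86) (nat_lit 5) (nat_lit 82) (nat_lit 5) (nat_lit 329) (nat_lit 251) (nat_lit 200)) (XT.lf (nat_lit 0) (nat_lit 133826178) (nat_lit 304) (nat_lit 6066626415) (nat_lit 76) (nat_lit 8023013652) (nat_lit 77) (nat_lit 5) (nat_lit 81) (nat_lit 5) (nat_lit 78) (nat_lit 5) (nat_lit 330) (nat_lit 251) (nat_lit 199)))) (XT.nd (nat_lit 156) (nat_lit 304) (nat_lit 0) (XT.nd (nat_lit 78) (nat_lit 228) (nat_lit 0) (XT.lf (nat_lit 0) (nat_lit 4854075742) (nat_lit 304) (nat_lit 286253596) (nat_lit 380) (nat_lit 9371397968) (nat_lit 73) (nat_lit 5) (nat_lit 77) (nat_lit 5) (nat_lit 78) (nat_lit 5) (nat_lit 331) (nat_lit 251) (nat_lit 198)) (XT.lf (nat_lit 0) (nat_lit 1258652700) (nat_lit 228) (nat_lit 9065705471) (nat_lit 304)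 (nat_lit 4483753611) (nat_lit 70) (nat_lit 5) (nat_lit 73) (nat_lit 5) (nat_lit 74) (nat_lit 5) (nat_lit 332) (nat_lit 251) (nat_lit 197))) (XT.nd (nat_lit 78) (nat_lit 228) (nat_lit 0) (XT.lf (nat_lit 0) (nat_lit 551887149) (nat_lit 304) (nat_lit 2580101325) (nat_lit 76) (nat_lit 11981177210) (nat_lit 69) (nat_lit 5) (nat_lit 73) (nat_lit 5) (nat_lit 70) (nat_lit 5) (nat_lit 333) (nat_lit 251) (nat_lit 196)) (XT.lf (nat_lit 0) (nat_lit 5696773506) (nat_lit 304) (nat_lit 6737850047) (nat_lit 76) (nat_lit 2991793546) (nat_lit 66) (nat_lit 5) (nat_lit 70) (nat_lit 5) (nat_lit 67) (nat_lit 5) (nat_lit 334) (nat_lit 251) (nat_lit 195))))) (XT.nd (nat_lit 234) (nat_lit 684) (nat_lit 0) (XT.nd (nat_lit 78) (nat_lit 304) (nat_lit 0) (XT.lf (nat_lit 0) (nat_lit 4526891463) (nat_lit 228) (nat_lit 6480412085) (nat_lit 304) (nat_lit 4741556479) (nat_lit 63) (nat_lit 5) (nat_lit 66) (nat_lit 5) (nat_lit 67)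 (nat_lit 5) (nat_lit 335) (nat_lit 251) (nat_lit 194)) (XT.nd (nat_lit 78) (nat_lit 0) (nat_lit 0) (XT.lf (nat_lit 0) (nat_lit 46918077) (nat_lit 228) (nat_lit 334351681) (nat_lit 304) (nat_lit 15699868145) (nat_lit 59) (nat_lit 5) (nat_lit 62) (nat_lit 5) (nat_lit 63) (nat_lit 5) (nat_lit 336) (nat_lit 251) (nat_lit 193)) (XT.lf (nat_lit 0) (nat_lit 5654038689) (nat_lit 304) (nat_lit 4777471256) (nat_lit 76) (nat_lit 5990052195) (nat_lit 59) (nat_lit 5) (nat_lit 63) (nat_lit 5) (nat_lit 60) (nat_lit 5) (nat_lit 337) (nat_lit 251) (nat_lit 192)))) (XT.nd (nat_lit 156) (nat_lit 228) (nat_lit 0) (XT.nd (nat_lit 78) (nat_lit 228) (nat_lit 0) (XT.lf (nat_lit 0) (nat_lit 6814855536) (nat_lit 228) (nat_lit 4263056567) (nat_lit 304) (nat_lit 5694446437) (nat_lit 56) (nat_lit 5) (nat_lit 59) (nat_lit 5) (nat_lit 60) (nat_lit 5) (nat_lit 338) (nat_lit 251) (nat_lit 191)) (XT.lf (nat_lit 0) (nat_lit 1605932645)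 (nat_lit 228) (nat_lit 15062356404) (nat_lit 304) (nat_lit 465331383) (nat_lit 53) (nat_lit 5) (nat_lit 56) (nat_lit 5) (nat_lit 57) (nat_lit 5) (nat_lit 339) (nat_lit 251) (nat_lit 190))) (XT.nd (nat_lit 78) (nat_lit 152) (nat_lit 0) (XT.lf (nat_lit 0) (nat_lit 4900364442) (nat_lit 304) (nat_lit 4000633120) (nat_lit 76) (nat_lit 8603215309) (nat_lit 52) (nat_lit 5) (nat_lit 56) (nat_lit 5) (nat_lit 53) (nat_lit 5) (nat_lit 340) (nat_lit 251) (nat_lit 189)) (XT.lf (nat_lit 0) (nat_lit 7887194634) (nat_lit 152) (nat_lit 2534091099) (nat_lit 228) (nat_lit 7464580330) (nat_lit 50) (nat_lit 5) (nat_lit 52) (nat_lit 5) (nat_lit 53) (nat_lit 5) (nat_lit 341) (nat_lit 251) (nat_lit 188))))))))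
noncomputable def xc36 : XT := (XT.nd (nat_lit 35802) (nat_lit 0) (nat_lit 12844) (XT.nd (nat_lit 1014) (nat_lit 608) (nat_lit 0) (XT.nd (nat_lit 468) (nat_lit 760) (nat_lit 0) (XT.nd (nat_lit 234) (nat_lit 456) (nat_lit 0) (XT.nd (nat_lit 78) (nat_lit 228) (nat_lit 0) (XT.lf (nat_lit 0) (nat_lit 1820795443) (nat_lit 228) (nat_lit 14302315280) (nat_lit 304) (nat_lit 2155568169) (nat_lit 47) (nat_lit 5) (nat_lit 50) (nat_lit 5) (nat_lit 51) (nat_lit 5) (nat_lit 342) (nat_lit 251) (nat_lit 187)) (XT.nd (nat_lit 78) (nat_lit 152) (nat_lit 0) (XT.lf (nat_lit 0) (nat_lit 3305030761) (nat_lit 304) (nat_lit 4673182364) (nat_lit 76) (nat_lit 10703932359) (nat_lit 46) (nat_lit 5) (nat_lit 50) (nat_lit 5) (nat_lit 47) (nat_lit 5) (nat_lit 343) (nat_lit 251) (nat_lit 186)) (XT.lf (nat_lit 0) (nat_lit 7466956126) (nat_lit 152) (nat_lit 1433905416) (nat_lit 228) (nat_lit 10196569956) (nat_lit 44) (nat_lit 5)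 (nat_lit 46) (nat_lit 5) (nat_lit 47) (nat_lit 5) (nat_lit 344) (nat_lit 251) (nat_lit 185)))) (XT.nd (nat_lit 78) (nat_lit 228) (nat_lit 0) (XT.lf (nat_lit 0) (nat_lit 400274003) (nat_lit 228) (nat_lit 14285935327) (nat_lit 304) (nat_lit 4838547881) (nat_lit 41) (nat_lit 5) (nat_lit 44) (nat_lit 5) (nat_lit 45) (nat_lit 5) (nat_lit 345) (nat_lit 251) (nat_lit 184)) (XT.nd (nat_lit 78) (nat_lit 152) (nat_lit 0) (XT.lf (nat_lit 0) (nat_lit 713467211) (nat_lit 304) (nat_lit 7107062596) (nat_lit 76) (nat_lit 12143454378) (nat_lit 40) (nat_lit 5) (nat_lit 44) (nat_lit 5) (nat_lit 41) (nat_lit 5) (nat_lit 346) (nat_lit 251) (nat_lit 183)) (XT.lf (nat_lit 0) (nat_lit 5229089707) (nat_lit 152) (nat_lit 1126153850) (nat_lit 228) (nat_lit 14060738906) (nat_lit 38) (nat_lit 5) (nat_lit 40) (nat_lit 5) (nat_lit 41) (nat_lit 5) (nat_lit 347) (nat_lit 251) (nat_lit 182))))) (XT.nd (nat_lit 234) (nat_lit 380)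 (nat_lit 0) (XT.nd (nat_lit 78) (nat_lit 380) (nat_lit 0) (XT.lf (nat_lit 0) (nat_lit 12207435327) (nat_lit 228) (nat_lit 2963186807) (nat_lit 76) (nat_lit 5710107837) (nat_lit 38) (nat_lit 5) (nat_lit 41) (nat_lit 5) (nat_lit 39) (nat_lit 5) (nat_lit 348) (nat_lit 251) (nat_lit 181)) (XT.nd (nat_lit 78) (nat_lit 228) (nat_lit 0) (XT.lf (nat_lit 0) (nat_lit 9671353361) (nat_lit 152) (nat_lit 8590694460) (nat_lit 228) (nat_lit 3096847146) (nat_lit 36) (nat_lit 5) (nat_lit 38) (nat_lit 5) (nat_lit 39) (nat_lit 5) (nat_lit 349) (nat_lit 251) (nat_lit 180)) (XT.lf (nat_lit 0) (nat_lit 793018895) (nat_lit 152) (nat_lit 1801544223) (nat_lit 228) (nat_lit 19256861985) (nat_lit 33) (nat_lit 5) (nat_lit 35) (nat_lit 5) (nat_lit 36) (nat_lit 5) (nat_lit 350) (nat_lit 251) (nat_lit 179)))) (XT.nd (nat_lit 156) (nat_lit 228) (nat_lit 0) (XT.nd (nat_lit 78) (nat_lit 152) (nat_lit 0) (XT.lf (nat_lit 0) (nat_lit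 8485905694) (nat_lit 228) (nat_lit 8678103681) (nat_lit 76) (nat_lit 5192898325) (nat_lit 33) (nat_lit 5) (nat_lit 36) (nat_lit 5) (nat_lit 34) (nat_lit 5) (nat_lit 351) (nat_lit 251) (nat_lit 178)) (XT.lf (nat_lit 0) (nat_lit 4042742744) (nat_lit 152) (nat_lit 10508372740) (nat_lit 228) (nat_lit 8326507663) (nat_lit 31) (nat_lit 5) (nat_lit 33) (nat_lit 5) (nat_lit 34) (nat_lit 5) (nat_lit 352) (nat_lit 251) (nat_lit 177))) (XT.nd (nat_lit 78) (nat_lit 228) (nat_lit 0) (XT.lf (nat_lit 0) (nat_lit 17193328563) (nat_lit 152) (nat_lit 3623329859) (nat_lit 228) (nat_lit 2596944690) (nat_lit 31) (nat_lit 5) (nat_lit 33) (nat_lit 5) (nat_lit 34) (nat_lit 5) (nat_lit 353) (nat_lit 251) (nat_lit 176)) (XT.lf (nat_lit 0) (nat_lit 3288365452) (nat_lit 228) (nat_lit 17216947001) (nat_lit 76) (nat_lit 3459387017) (nat_lit 28) (nat_lit 5) (nat_lit 31) (nat_lit 5) (nat_lit 29) (nat_lit 5) (nat_lit 354) (nat_lit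 251) (nat_lit 175)))))) (XT.nd (nat_lit 468) (nat_lit 152) (nat_lit 0) (XT.nd (nat_lit 234) (nat_lit 304) (nat_lit 0) (XT.nd (nat_lit 78) (nat_lit 152) (nat_lit 0) (XT.lf (nat_lit 0) (nat_lit 9342812676) (nat_lit 228) (nat_lit 4452022749) (nat_lit 76) (nat_lit 10736602566) (nat_lit 28) (nat_lit 5) (nat_lit 31) (nat_lit 5) (nat_lit 29) (nat_lit 5) (nat_lit 355) (nat_lit 251) (nat_lit 174)) (XT.nd (nat_lit 78) (nat_lit 0) (nat_lit 0) (XT.lf (nat_lit 0) (nat_lit 8743901277) (nat_lit 152) (nat_lit 6853897670) (nat_lit 228) (nat_lit 9517011112) (nat_lit 26) (nat_lit 5) (nat_lit 28) (nat_lit 5) (nat_lit 29) (nat_lit 5) (nat_lit 356) (nat_lit 251) (nat_lit 173)) (XT.lf (nat_lit 0) (nat_lit 22035347621) (nat_lit 228) (nat_lit 3386667525) (nat_lit 76) (nat_lit 293779114) (nat_lit 26) (nat_lit 5) (nat_lit 29) (nat_lit 5) (nat_lit 27) (nat_lit 4) (nat_lit 357) (nat_lit 251) (nat_lit 172)))) (XT.nd (nat_lit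 78) (nat_lit 152) (nat_lit 0) (XT.lf (nat_lit 0) (nat_lit 2375657187) (nat_lit 152) (nat_lit 16340616654) (nat_lit 76) (nat_lit 7616739879) (nat_lit 24) (nat_lit 5) (nat_lit 26) (nat_lit 5) (nat_lit 25) (nat_lit 5) (nat_lit 358) (nat_lit 251) (nat_lit 171)) (XT.nd (nat_lit 78) (nat_lit 152) (nat_lit 0) (XT.lf (nat_lit 0) (nat_lit 8550945809) (nat_lit 152) (nat_lit 3237496809) (nat_lit 76) (nat_lit 15180079028) (nat_lit 24) (nat_lit 5) (nat_lit 26) (nat_lit 5) (nat_lit 25) (nat_lit 5) (nat_lit 359) (nat_lit 251) (nat_lit 170)) (XT.lf (nat_lit 0) (nat_lit 10332449824) (nat_lit 152) (nat_lit 4611291857) (nat_lit 228) (nat_lit 12678716436) (nat_lit 22) (nat_lit 5) (nat_lit 24) (nat_lit 5) (nat_lit 25) (nat_lit 5) (nat_lit 360) (nat_lit 251) (nat_lit 169))))) (XT.nd (nat_lit 34008) (nat_lit 0) (nat_lit 37620) (XT.nd (nat_lit 78) (nat_lit 152) (nat_lit 0) (XT.lf (nat_lit 0) (nat_lit 21534073326) (nat_lit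 228) (nat_lit 4021262579) (nat_lit 76) (nat_lit 2740569777) (nat_lit 22) (nat_lit 5) (nat_lit 25) (nat_lit 5) (nat_lit 23) (nat_lit 4) (nat_lit 361) (nat_lit 251) (nat_lit 168)) (XT.nd (nat_lit 78) (nat_lit 76) (nat_lit 0) (XT.lf (nat_lit 0) (nat_lit 9682180241) (nat_lit 76) (nat_lit 18700248271) (nat_lit 152) (nat_lit 605929693) (nat_lit 21) (nat_lit 5) (nat_lit 22) (nat_lit 5) (nat_lit 23) (nat_lit 4) (nat_lit 362) (nat_lit 251) (nat_lit 167)) (XT.lf (nat_lit 0) (nat_lit 5653849257) (nat_lit 152) (nat_lit 5945674698) (nat_lit 76) (nat_lit 18101434911) (nat_lit 20) (nat_lit 5) (nat_lit 22) (nat_lit 5) (nat_lit 21) (nat_lit 5) (nat_lit 363) (nat_lit 251) (nat_lit 166)))) (XT.nd (nat_lit 156) (nat_lit 2280) (nat_lit 0) (XT.nd (nat_lit 78) (nat_lit 1064) (nat_lit 0) (XT.lf (nat_lit 0) (nat_lit 1589437779) (nat_lit 988) (nat_lit 186140156) (nat_lit 0) (nat_lit 1589437779) (nat_lit 559) (nat_lit 5)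 (nat_lit 572) (nat_lit 4) (nat_lit 559) (nat_lit 4) (nat_lit 276) (nat_lit 252) (nat_lit 252)) (XT.lf (nat_lit 0) (nat_lit 1060865477) (nat_lit 1064) (nat_lit 915205226) (nat_lit 76) (nat_lit 4791954884) (nat_lit 545) (nat_lit 5) (nat_lit 559) (nat_lit 5) (nat_lit 546) (nat_lit 4) (nat_lit 277) (nat_lit 252) (nat_lit 251))) (XT.nd (nat_lit 78) (nat_lit 1216) (nat_lit 0) (XT.lf (nat_lit 0) (nat_lit 5386631400) (nat_lit 1064) (nat_lit 263797288) (nat_lit 1140) (nat_lit 1158690777) (nat_lit 531) (nat_lit 5) (nat_lit 545) (nat_lit 5) (nat_lit 546) (nat_lit 4) (nat_lit 278) (nat_lit 252) (nat_lit 250)) (XT.lf (nat_lit 0) (nat_lit 3380814289) (nat_lit 1216) (nat_lit 1905889962) (nat_lit 76) (nat_lit 1566436778) (nat_lit 515) (nat_lit 5) (nat_lit 531) (nat_lit 5) (nat_lit 516) (nat_lit 4) (nat_lit 279) (nat_lit 252) (nat_lit 249))))))) (XT.nd (nat_lit 1014) (nat_lit 8664) (nat_lit 0) (XT.nd (nat_lit 468)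 (nat_lit 7372) (nat_lit 0) (XT.nd (nat_lit 234) (nat_lit 4712) (nat_lit 0) (XT.nd (nat_lit 78) (nat_lit 2736) (nat_lit 0) (XT.lf (nat_lit 0) (nat_lit 1023501201) (nat_lit 1292) (nat_lit 2352120977) (nat_lit 76) (nat_lit 3524799676) (nat_lit 498) (nat_lit 5) (nat_lit 515) (nat_lit 5) (nat_lit 499) (nat_lit 5) (nat_lit 280) (nat_lit 252) (nat_lit 248)) (XT.nd (nat_lit 78) (nat_lit 1444) (nat_lit 0) (XT.lf (nat_lit 0) (nat_lit 4180579482) (nat_lit 1292) (nat_lit 1324943790) (nat_lit 1368) (nat_lit 1445325387) (nat_lit 481) (nat_lit 5) (nat_lit 498) (nat_lit 5) (nat_lit 499) (nat_lit 5) (nat_lit 281) (nat_lit 252) (nat_lit 247)) (XT.lf (nat_lit 0) (nat_lit 2985286796) (nat_lit 1444) (nat_lit 3165340948) (nat_lit 76) (nat_lit 853764871) (nat_lit 462) (nat_lit 5) (nat_lit 481) (nat_lit 5) (nat_lit 463) (nat_lit 5) (nat_lit 282) (nat_lit 252) (nat_lit 246)))) (XT.nd (nat_lit 78) (nat_lit 3192) (nat_lit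 0) (XT.lf (nat_lit 0) (nat_lit 377451480) (nat_lit 1520) (nat_lit 3535889518) (nat_lit 76) (nat_lit 3147815903) (nat_lit 442) (nat_lit 5) (nat_lit 462) (nat_lit 5) (nat_lit 443) (nat_lit 5) (nat_lit 283) (nat_lit 252) (nat_lit 245)) (XT.nd (nat_lit 78) (nat_lit 1672) (nat_lit 0) (XT.lf (nat_lit 0) (nat_lit 3230971404) (nat_lit 1520) (nat_lit 1529079249) (nat_lit 1596) (nat_lit 2361004806) (nat_lit 422) (nat_lit 5) (nat_lit 442) (nat_lit 5) (nat_lit 443) (nat_lit 5) (nat_lit 284) (nat_lit 252) (nat_lit 244)) (XT.lf (nat_lit 0) (nat_lit 1981748590) (nat_lit 1672) (nat_lit 4223645158) (nat_lit 76) (nat_lit 978860660) (nat_lit 400) (nat_lit 5) (nat_lit 422) (nat_lit 5) (nat_lit 401) (nat_lit 5) (nat_lit 285) (nat_lit 252) (nat_lit 243))))) (XT.nd (nat_lit 234) (nat_lit 3420) (nat_lit 0) (XT.nd (nat_lit 78) (nat_lit 2280) (nat_lit 0) (XT.lf (nat_lit 0) (nat_lit 2704850065) (nat_lit 1672) (nat_lit 3643426032)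 (nat_lit 1748) (nat_lit 902376940) (nat_lit 378) (nat_lit 5) (nat_lit 400) (nat_lit 5) (nat_lit 401) (nat_lit 5) (nat_lit 286) (nat_lit 252) (nat_lit 242)) (XT.nd (nat_lit 78) (nat_lit 912) (nat_lit 0) (XT.lf (nat_lit 0) (nat_lit 2464321770) (nat_lit 1292) (nat_lit 934049884) (nat_lit 1368) (nat_lit 3921977687) (nat_lit 360) (nat_lit 5) (nat_lit 377) (nat_lit 5) (nat_lit 378) (nat_lit 5) (nat_lit 287) (nat_lit 252) (nat_lit 241)) (XT.lf (nat_lit 0) (nat_lit 351389750) (nat_lit 912) (nat_lit 5155249064) (nat_lit 76) (nat_lit 1886776969) (nat_lit 348) (nat_lit 5) (nat_lit 360) (nat_lit 5) (nat_lit 349) (nat_lit 5) (nat_lit 288) (nat_lit 252) (nat_lit 240)))) (XT.nd (nat_lit 156) (nat_lit 1672) (nat_lit 0) (XT.nd (nat_lit 78) (nat_lit 912) (nat_lit 0) (XT.lf (nat_lit 0) (nat_lit 2011619909) (nat_lit 836) (nat_lit 2618640836) (nat_lit 912) (nat_lit 2839395138) (nat_lit 337) (nat_lit 5) (nat_lit 348)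 (nat_lit 5) (nat_lit 349) (nat_lit 5) (nat_lit 289) (nat_lit 252) (nat_lit 239)) (XT.lf (nat_lit 0) (nat_lit 1399027831) (nat_lit 912) (nat_lit 5747246380) (nat_lit 76) (nat_lit 403237166) (nat_lit 325) (nat_lit 5) (nat_lit 337) (nat_lit 5) (nat_lit 326) (nat_lit 5) (nat_lit 290) (nat_lit 252) (nat_lit 238))) (XT.nd (nat_lit 78) (nat_lit 836) (nat_lit 0) (XT.lf (nat_lit 0) (nat_lit 1582309024) (nat_lit 836) (nat_lit 4091328163) (nat_lit 912) (nat_lit 1958901179) (nat_lit 314) (nat_lit 5) (nat_lit 325) (nat_lit 5) (nat_lit 326) (nat_lit 5) (nat_lit 291) (nat_lit 252) (nat_lit 237)) (XT.lf (nat_lit 0) (nat_lit 1370184364) (nat_lit 760) (nat_lit 889548662) (nat_lit 836) (nat_lit 5459470594) (nat_lit 303) (nat_lit 5) (nat_lit 313) (nat_lit 5) (nat_lit 314) (nat_lit 5) (nat_lit 292) (nat_lit 252) (nat_lit 236)))))) (XT.nd (nat_lit 546) (nat_lit 4256) (nat_lit 0) (XT.nd (nat_lit 234) (nat_lit 2128) (nat_lit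 0) (XT.nd (nat_lit 78) (nat_lit 1520) (nat_lit 0) (XT.lf (nat_lit 0) (nat_lit 1148816419) (nat_lit 760) (nat_lit 5380657766) (nat_lit 836) (nat_lit 1279807997) (nat_lit 293) (nat_lit 5) (nat_lit 303) (nat_lit 5) (nat_lit 304) (nat_lit 5) (nat_lit 293) (nat_lit 252) (nat_lit 235)) (XT.nd (nat_lit 78) (nat_lit 760) (nat_lit 0) (XT.lf (nat_lit 0) (nat_lit 918300986) (nat_lit 684) (nat_lit 2010804466) (nat_lit 760) (nat_lit 4973785006) (nat_lit 283) (nat_lit 5) (nat_lit 292) (nat_lit 5) (nat_lit 293) (nat_lit 5) (nat_lit 294) (nat_lit 252) (nat_lit 234)) (XT.lf (nat_lit 0) (nat_lit 682499212) (nat_lit 760) (nat_lit 6514524295) (nat_lit 836) (nat_lit 803200091) (nat_lit 273) (nat_lit 5) (nat_lit 283) (nat_lit 5) (nat_lit 284) (nat_lit 5) (nat_lit 295) (nat_lit 252) (nat_lit 233)))) (XT.nd (nat_lit 156) (nat_lit 684) (nat_lit 0) (XT.nd (nat_lit 78) (nat_lit 684) (nat_lit 0) (XT.lf (nat_lit 0) (nat_lit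 419955423) (nat_lit 684) (nat_lit 2982831875) (nat_lit 760) (nat_lit 4698198172) (nat_lit 263) (nat_lit 5) (nat_lit 272) (nat_lit 5) (nat_lit 273) (nat_lit 5) (nat_lit 296) (nat_lit 252) (nat_lit 232)) (XT.lf (nat_lit 0) (nat_lit 153368987) (nat_lit 684) (nat_lit 7520398502) (nat_lit 760) (nat_lit 531983615) (nat_lit 254) (nat_lit 5) (nat_lit 263) (nat_lit 5) (nat_lit 264) (nat_lit 5) (nat_lit 297) (nat_lit 252) (nat_lit 231))) (XT.nd (nat_lit 78) (nat_lit 608) (nat_lit 0) (XT.lf (nat_lit 0) (nat_lit 3678269929) (nat_lit 760) (nat_lit 153657855) (nat_lit 76) (nat_lit 4481954338) (nat_lit 253) (nat_lit 5) (nat_lit 263) (nat_lit 5) (nat_lit 254) (nat_lit 5) (nat_lit 298) (nat_lit 252) (nat_lit 230)) (XT.lf (nat_lit 0) (nat_lit 7958408639) (nat_lit 684) (nat_lit 464033825) (nat_lit 76) (nat_lit 3803582) (nat_lit 245) (nat_lit 5) (nat_lit 254) (nat_lit 5) (nat_lit 246) (nat_lit 5) (nat_lit 299) (nat_lit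 252) (nat_lit 229))))) (XT.nd (nat_lit 234) (nat_lit 2280) (nat_lit 0) (XT.nd (nat_lit 78) (nat_lit 1292) (nat_lit 0) (XT.lf (nat_lit 0) (nat_lit 3752577872) (nat_lit 684) (nat_lit 830263358) (nat_lit 76) (nat_lit 3959159299) (nat_lit 236) (nat_lit 5) (nat_lit 245) (nat_lit 5) (nat_lit 237) (nat_lit 5) (nat_lit 300) (nat_lit 252) (nat_lit 228)) (XT.nd (nat_lit 78) (nat_lit 684) (nat_lit 0) (XT.lf (nat_lit 0) (nat_lit 7452530344) (nat_lit 608) (nat_lit 594790129) (nat_lit 684) (nat_lit 614833591) (nat_lit 228) (nat_lit 5) (nat_lit 236) (nat_lit 5) (nat_lit 237) (nat_lit 5) (nat_lit 301) (nat_lit 252) (nat_lit 227)) (XT.lf (nat_lit 0) (nat_lit 3615832122) (nat_lit 684) (nat_lit 1649653576) (nat_lit 76) (nat_lit 3520430960) (nat_lit 219) (nat_lit 5) (nat_lit 228) (nat_lit 5) (nat_lit 220) (nat_lit 5) (nat_lit 302) (nat_lit 252) (nat_lit 226)))) (XT.nd (nat_lit 156) (nat_lit 1140) (nat_lit 0) (XT.nd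 (nat_lit 78) (nat_lit 608) (nat_lit 0) (XT.lf (nat_lit 0) (nat_lit 6797580156) (nat_lit 532) (nat_lit 1129638287) (nat_lit 608) (nat_lit 986913726) (nat_lit 212) (nat_lit 5) (nat_lit 219) (nat_lit 5) (nat_lit 220) (nat_lit 5) (nat_lit 303) (nat_lit 252) (nat_lit 225)) (XT.lf (nat_lit 0) (nat_lit 3258818271) (nat_lit 608) (nat_lit 2648536790) (nat_lit 76) (nat_lit 3138856410) (nat_lit 204) (nat_lit 5) (nat_lit 212) (nat_lit 5) (nat_lit 205) (nat_lit 5) (nat_lit 304) (nat_lit 252) (nat_lit 224))) (XT.nd (nat_lit 78) (nat_lit 608) (nat_lit 0) (XT.lf (nat_lit 0) (nat_lit 5959815923) (nat_lit 532) (nat_lit 1628297423) (nat_lit 608) (nat_lit 1594676857) (nat_lit 197) (nat_lit 5) (nat_lit 204) (nat_lit 5) (nat_lit 205) (nat_lit 5) (nat_lit 305) (nat_lit 252) (nat_lit 223)) (XT.lf (nat_lit 0) (nat_lit 2670138452) (nat_lit 608) (nat_lit 3866414966) (nat_lit 76) (nat_lit 2786975008) (nat_lit 189) (nat_lit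 5) (nat_lit 197) (nat_lit 5) (nat_lit 190) (nat_lit 5) (nat_lit 306) (nat_lit 252) (nat_lit 222))))))))
noncomputable def xc37 : XT := (XT.nd (nat_lit 2106) (nat_lit 3496) (nat_lit 0) (XT.nd (nat_lit 1014) (nat_lit 3572) (nat_lit 0) (XT.nd (nat_lit 468) (nat_lit 2508) (nat_lit 0) (XT.nd (nat_lit 234) (nat_lit 1444) (nat_lit 0) (XT.nd (nat_lit 78) (nat_lit 1064) (nat_lit 0) (XT.lf (nat_lit 0) (nat_lit 4898730699) (nat_lit 456) (nat_lit 2119077924) (nat_lit 532) (nat_lit 2450992833) (nat_lit 183) (nat_lit 5) (nat_lit 189) (nat_lit 5) (nat_lit 190) (nat_lit 5) (nat_lit 307) (nat_lit 252) (nat_lit 221)) (XT.nd (nat_lit 78) (nat_lit 456) (nat_lit 0) (XT.lf (nat_lit 0) (nat_lit 1836069948) (nat_lit 608) (nat_lit 5345984384) (nat_lit 76) (nat_lit 2436522550) (nat_lit 175) (nat_lit 5) (nat_lit 183) (nat_lit 5) (nat_lit 176) (nat_lit 5) (nat_lit 308) (nat_lit 252) (nat_lit 220)) (XT.lf (nat_lit 0) (nat_lit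 3570466805) (nat_lit 456) (nat_lit 2631258256) (nat_lit 532) (nat_lit 3571181713) (nat_lit 169) (nat_lit 5) (nat_lit 175) (nat_lit 5) (nat_lit 176) (nat_lit 5) (nat_lit 309) (nat_lit 252) (nat_lit 219)))) (XT.nd (nat_lit 78) (nat_lit 912) (nat_lit 0) (XT.lf (nat_lit 0) (nat_lit 740402313) (nat_lit 532) (nat_lit 7133570594) (nat_lit 76) (nat_lit 2058163065) (nat_lit 162) (nat_lit 5) (nat_lit 169) (nat_lit 5) (nat_lit 163) (nat_lit 5) (nat_lit 310) (nat_lit 252) (nat_lit 218)) (XT.nd (nat_lit 78) (nat_lit 456) (nat_lit 0) (XT.lf (nat_lit 0) (nat_lit 1927364778) (nat_lit 456) (nat_lit 3195363546) (nat_lit 532) (nat_lit 4973190319) (nat_lit 156) (nat_lit 5) (nat_lit 162) (nat_lit 5) (nat_lit 163) (nat_lit 5) (nat_lit 311) (nat_lit 252) (nat_lit 217)) (XT.lf (nat_lit 0) (nat_lit 981190902) (nat_lit 456) (nat_lit 8639586926) (nat_lit 532) (nat_lit 644197488) (nat_lit 150) (nat_lit 5) (nat_lit 156) (nat_lit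 5) (nat_lit 157) (nat_lit 5) (nat_lit 312) (nat_lit 252) (nat_lit 216))))) (XT.nd (nat_lit 234) (nat_lit 1520) (nat_lit 0) (XT.nd (nat_lit 78) (nat_lit 912) (nat_lit 0) (XT.lf (nat_lit 0) (nat_lit 3761468312) (nat_lit 532) (nat_lit 81445638) (nat_lit 76) (nat_lit 6595801128) (nat_lit 149) (nat_lit 5) (nat_lit 156) (nat_lit 5) (nat_lit 150) (nat_lit 5) (nat_lit 313) (nat_lit 252) (nat_lit 215)) (XT.nd (nat_lit 78) (nat_lit 532) (nat_lit 0) (XT.lf (nat_lit 0) (nat_lit 8281094702) (nat_lit 456) (nat_lit 1220161329) (nat_lit 76) (nat_lit 1116557118) (nat_lit 144) (nat_lit 5) (nat_lit 150) (nat_lit 5) (nat_lit 145) (nat_lit 5) (nat_lit 314) (nat_lit 252) (nat_lit 214)) (XT.lf (nat_lit 0) (nat_lit 2109812995) (nat_lit 532) (nat_lit 2482996082) (nat_lit 76) (nat_lit 6209162576) (nat_lit 137) (nat_lit 5) (nat_lit 144) (nat_lit 5) (nat_lit 138) (nat_lit 5) (nat_lit 315) (nat_lit 252) (nat_lit 213)))) (XT.nd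 (nat_lit 156) (nat_lit 684) (nat_lit 0) (XT.nd (nat_lit 78) (nat_lit 456) (nat_lit 0) (XT.lf (nat_lit 0) (nat_lit 6640510427) (nat_lit 456) (nat_lit 3857288751) (nat_lit 76) (nat_lit 493935419) (nat_lit 132) (nat_lit 5) (nat_lit 138) (nat_lit 5) (nat_lit 133) (nat_lit 5) (nat_lit 316) (nat_lit 252) (nat_lit 212)) (XT.lf (nat_lit 0) (nat_lit 129567447) (nat_lit 456) (nat_lit 5363947082) (nat_lit 76) (nat_lit 5693473347) (nat_lit 126) (nat_lit 5) (nat_lit 132) (nat_lit 5) (nat_lit 127) (nat_lit 5) (nat_lit 317) (nat_lit 252) (nat_lit 211))) (XT.nd (nat_lit 78) (nat_lit 380) (nat_lit 0) (XT.lf (nat_lit 0) (nat_lit 4378729744) (nat_lit 304) (nat_lit 288664577) (nat_lit 380) (nat_lit 6720530631) (nat_lit 122) (nat_lit 5) (nat_lit 126) (nat_lit 5) (nat_lit 127) (nat_lit 5) (nat_lit 318) (nat_lit 252) (nat_lit 210)) (XT.lf (nat_lit 0) (nat_lit 2788425251) (nat_lit 380) (nat_lit 6568424319) (nat_lit 456)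 (nat_lit 2237765635) (nat_lit 117) (nat_lit 5) (nat_lit 122) (nat_lit 5) (nat_lit 123) (nat_lit 5) (nat_lit 319) (nat_lit 252) (nat_lit 209)))))) (XT.nd (nat_lit 546) (nat_lit 1444) (nat_lit 0) (XT.nd (nat_lit 234) (nat_lit 1368) (nat_lit 0) (XT.nd (nat_lit 78) (nat_lit 380) (nat_lit 0) (XT.lf (nat_lit 0) (nat_lit 1058401069) (nat_lit 304) (nat_lit 1275264858) (nat_lit 380) (nat_lit 9473856688) (nat_lit 112) (nat_lit 5) (nat_lit 116) (nat_lit 5) (nat_lit 117) (nat_lit 5) (nat_lit 320) (nat_lit 252) (nat_lit 208)) (XT.nd (nat_lit 78) (nat_lit 380) (nat_lit 0) (XT.lf (nat_lit 0) (nat_lit 7029134520) (nat_lit 380) (nat_lit 835237965) (nat_lit 76) (nat_lit 4161835283) (nat_lit 112) (nat_lit 5) (nat_lit 117) (nat_lit 5) (nat_lit 113) (nat_lit 5) (nat_lit 321) (nat_lit 252) (nat_lit 207)) (XT.lf (nat_lit 0) (nat_lit 9387146449) (nat_lit 380) (nat_lit 2479773934) (nat_lit 456) (nat_lit 384535374) (nat_lit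 107) (nat_lit 5) (nat_lit 112) (nat_lit 5) (nat_lit 113) (nat_lit 5) (nat_lit 322) (nat_lit 252) (nat_lit 206)))) (XT.nd (nat_lit 156) (nat_lit 684) (nat_lit 0) (XT.nd (nat_lit 78) (nat_lit 304) (nat_lit 0) (XT.lf (nat_lit 0) (nat_lit 4315970738) (nat_lit 380) (nat_lit 5093069852) (nat_lit 76) (nat_lit 3073746280) (nat_lit 102) (nat_lit 5) (nat_lit 107) (nat_lit 5) (nat_lit 103) (nat_lit 5) (nat_lit 323) (nat_lit 252) (nat_lit 205)) (XT.lf (nat_lit 0) (nat_lit 5216842055) (nat_lit 304) (nat_lit 3939345422) (nat_lit 380) (nat_lit 3564770175) (nat_lit 98) (nat_lit 5) (nat_lit 102) (nat_lit 5) (nat_lit 103) (nat_lit 5) (nat_lit 324) (nat_lit 252) (nat_lit 204))) (XT.nd (nat_lit 78) (nat_lit 304) (nat_lit 0) (XT.lf (nat_lit 0) (nat_lit 1159171095) (nat_lit 380) (nat_lit 10109046520) (nat_lit 76) (nat_lit 1697945917) (nat_lit 93) (nat_lit 5) (nat_lit 98) (nat_lit 5) (nat_lit 94) (nat_lit 5) (nat_lit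 325) (nat_lit 252) (nat_lit 203)) (XT.lf (nat_lit 0) (nat_lit 266305368) (nat_lit 304) (nat_lit 5725364700) (nat_lit 380) (nat_lit 7226305610) (nat_lit 89) (nat_lit 5) (nat_lit 93) (nat_lit 5) (nat_lit 94) (nat_lit 5) (nat_lit 326) (nat_lit 252) (nat_lit 202))))) (XT.nd (nat_lit 234) (nat_lit 836) (nat_lit 0) (XT.nd (nat_lit 78) (nat_lit 608) (nat_lit 0) (XT.lf (nat_lit 0) (nat_lit 10974721470) (nat_lit 380) (nat_lit 2485306532) (nat_lit 76) (nat_lit 17228626) (nat_lit 89) (nat_lit 5) (nat_lit 94) (nat_lit 5) (nat_lit 90) (nat_lit 5) (nat_lit 327) (nat_lit 252) (nat_lit 201)) (XT.nd (nat_lit 78) (nat_lit 304) (nat_lit 0) (XT.lf (nat_lit 0) (nat_lit 2362673549) (nat_lit 304) (nat_lit 5491437496) (nat_lit 76) (nat_lit 5889308548) (nat_lit 85) (nat_lit 5) (nat_lit 89) (nat_lit 5) (nat_lit 86) (nat_lit 5) (nat_lit 328) (nat_lit 252) (nat_lit 200)) (XT.lf (nat_lit 0) (nat_lit 5284023469) (nat_lit 304)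 (nat_lit 2046583421) (nat_lit 380) (nat_lit 6686838376) (nat_lit 81) (nat_lit 5) (nat_lit 85) (nat_lit 5) (nat_lit 86) (nat_lit 5) (nat_lit 329) (nat_lit 252) (nat_lit 199)))) (XT.nd (nat_lit 156) (nat_lit 532) (nat_lit 0) (XT.nd (nat_lit 78) (nat_lit 76) (nat_lit 0) (XT.lf (nat_lit 0) (nat_lit 2064220372) (nat_lit 228) (nat_lit 10400002056) (nat_lit 304) (nat_lit 1835159714) (nat_lit 78) (nat_lit 5) (nat_lit 81) (nat_lit 5) (nat_lit 82) (nat_lit 5) (nat_lit 330) (nat_lit 252) (nat_lit 198)) (XT.lf (nat_lit 0) (nat_lit 3134807724) (nat_lit 304) (nat_lit 1413139408) (nat_lit 76) (nat_lit 10041157388) (nat_lit 77) (nat_lit 5) (nat_lit 81) (nat_lit 5) (nat_lit 78) (nat_lit 5) (nat_lit 331) (nat_lit 252) (nat_lit 197))) (XT.nd (nat_lit 78) (nat_lit 228) (nat_lit 0) (XT.lf (nat_lit 0) (nat_lit 8244980964) (nat_lit 380) (nat_lit 5140319956) (nat_lit 76) (nat_lit 1501675802) (nat_lit 73) (nat_lit 5) (nat_lit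 78) (nat_lit 5) (nat_lit 74) (nat_lit 5) (nat_lit 332) (nat_lit 252) (nat_lit 196)) (XT.lf (nat_lit 0) (nat_lit 6023601333) (nat_lit 228) (nat_lit 7507544727) (nat_lit 304) (nat_lit 1662206215) (nat_lit 70) (nat_lit 5) (nat_lit 73) (nat_lit 5) (nat_lit 74) (nat_lit 5) (nat_lit 333) (nat_lit 252) (nat_lit 195))))))) (XT.nd (nat_lit 1014) (nat_lit 1292) (nat_lit 0) (XT.nd (nat_lit 468) (nat_lit 1140) (nat_lit 0) (XT.nd (nat_lit 234) (nat_lit 532) (nat_lit 0) (XT.nd (nat_lit 78) (nat_lit 228) (nat_lit 0) (XT.lf (nat_lit 0) (nat_lit 1996839111) (nat_lit 228) (nat_lit 1416890568) (nat_lit 304) (nat_lit 12094914675) (nat_lit 66) (nat_lit 5) (nat_lit 69) (nat_lit 5) (nat_lit 70) (nat_lit 5) (nat_lit 334) (nat_lit 252) (nat_lit 194)) (XT.nd (nat_lit 78) (nat_lit 228) (nat_lit 0) (XT.lf (nat_lit 0) (nat_lit 8658580482) (nat_lit 304) (nat_lit 2341864290) (nat_lit 76) (nat_lit 4831965617) (nat_lit 66) (nat_lit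 5) (nat_lit 70) (nat_lit 5) (nat_lit 67) (nat_lit 5) (nat_lit 335) (nat_lit 252) (nat_lit 193)) (XT.lf (nat_lit 0) (nat_lit 9186220410) (nat_lit 228) (nat_lit 4890287262) (nat_lit 304) (nat_lit 2089085885) (nat_lit 63) (nat_lit 5) (nat_lit 66) (nat_lit 5) (nat_lit 67) (nat_lit 5) (nat_lit 336) (nat_lit 252) (nat_lit 192)))) (XT.nd (nat_lit 78) (nat_lit 228) (nat_lit 0) (XT.lf (nat_lit 0) (nat_lit 3108895832) (nat_lit 304) (nat_lit 11982414261) (nat_lit 76) (nat_lit 1417031496) (nat_lit 59) (nat_lit 5) (nat_lit 63) (nat_lit 5) (nat_lit 60) (nat_lit 5) (nat_lit 337) (nat_lit 252) (nat_lit 191)) (XT.nd (nat_lit 78) (nat_lit 228) (nat_lit 0) (XT.lf (nat_lit 0) (nat_lit 8462906392) (nat_lit 304) (nat_lit 522158304) (nat_lit 76) (nat_lit 7875479094) (nat_lit 59) (nat_lit 5) (nat_lit 63) (nat_lit 5) (nat_lit 60) (nat_lit 5) (nat_lit 338) (nat_lit 252) (nat_lit 190)) (XT.lf (nat_lit 0) (nat_lit 11346575630)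 (nat_lit 228) (nat_lit 2654144656) (nat_lit 304) (nat_lit 3222144951) (nat_lit 56) (nat_lit 5) (nat_lit 59) (nat_lit 5) (nat_lit 60) (nat_lit 5) (nat_lit 339) (nat_lit 252) (nat_lit 189))))) (XT.nd (nat_lit 234) (nat_lit 684) (nat_lit 0) (XT.nd (nat_lit 78) (nat_lit 152) (nat_lit 0) (XT.lf (nat_lit 0) (nat_lit 2098598925) (nat_lit 304) (nat_lit 11657632138) (nat_lit 76) (nat_lit 3839214652) (nat_lit 52) (nat_lit 5) (nat_lit 56) (nat_lit 5) (nat_lit 53) (nat_lit 5) (nat_lit 340) (nat_lit 252) (nat_lit 188)) (XT.nd (nat_lit 78) (nat_lit 0) (nat_lit 0) (XT.lf (nat_lit 0) (nat_lit 87066875) (nat_lit 152) (nat_lit 7457576960) (nat_lit 228) (nat_lit 10433960266) (nat_lit 50) (nat_lit 5) (nat_lit 52) (nat_lit 5) (nat_lit 53) (nat_lit 5) (nat_lit 341) (nat_lit 252) (nat_lit 187)) (XT.lf (nat_lit 0) (nat_lit 12262140850) (nat_lit 152) (nat_lit 922635895) (nat_lit 228) (nat_lit 5187881467) (nat_lit 50) (nat_lit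 5) (nat_lit 52) (nat_lit 5) (nat_lit 53) (nat_lit 5) (nat_lit 342) (nat_lit 252) (nat_lit 186)))) (XT.nd (nat_lit 156) (nat_lit 380) (nat_lit 0) (XT.nd (nat_lit 78) (nat_lit 0) (nat_lit 0) (XT.lf (nat_lit 0) (nat_lit 242409842) (nat_lit 304) (nat_lit 12794746018) (nat_lit 76) (nat_lit 5740771325) (nat_lit 46) (nat_lit 5) (nat_lit 50) (nat_lit 5) (nat_lit 47) (nat_lit 5) (nat_lit 343) (nat_lit 252) (nat_lit 185)) (XT.lf (nat_lit 0) (nat_lit 5766828550) (nat_lit 304) (nat_lit 791573276) (nat_lit 76) (nat_lit 12636246489) (nat_lit 46) (nat_lit 5) (nat_lit 50) (nat_lit 5) (nat_lit 47) (nat_lit 5) (nat_lit 344) (nat_lit 252) (nat_lit 184))) (XT.nd (nat_lit 78) (nat_lit 228) (nat_lit 0) (XT.lf (nat_lit 0) (nat_lit 11488447437) (nat_lit 228) (nat_lit 7976795265) (nat_lit 76) (nat_lit 158012582) (nat_lit 44) (nat_lit 5) (nat_lit 47) (nat_lit 5) (nat_lit 45) (nat_lit 5) (nat_lit 345) (nat_lit 252) (nat_lit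 183)) (XT.lf (nat_lit 0) (nat_lit 4340505665) (nat_lit 228) (nat_lit 13074075363) (nat_lit 304) (nat_lit 2649495271) (nat_lit 41) (nat_lit 5) (nat_lit 44) (nat_lit 5) (nat_lit 45) (nat_lit 5) (nat_lit 346) (nat_lit 252) (nat_lit 182)))))) (XT.nd (nat_lit 546) (nat_lit 532) (nat_lit 0) (XT.nd (nat_lit 234) (nat_lit 380) (nat_lit 0) (XT.nd (nat_lit 78) (nat_lit 304) (nat_lit 0) (XT.lf (nat_lit 0) (nat_lit 2971371689) (nat_lit 304) (nat_lit 3476107643) (nat_lit 76) (nat_lit 14070058621) (nat_lit 40) (nat_lit 5) (nat_lit 44) (nat_lit 5) (nat_lit 41) (nat_lit 5) (nat_lit 347) (nat_lit 252) (nat_lit 181)) (XT.nd (nat_lit 78) (nat_lit 152) (nat_lit 0) (XT.lf (nat_lit 0) (nat_lit 8744580023) (nat_lit 228) (nat_lit 11818929776) (nat_lit 76) (nat_lit 420361321) (nat_lit 38) (nat_lit 5) (nat_lit 41) (nat_lit 5) (nat_lit 39) (nat_lit 5) (nat_lit 348) (nat_lit 252) (nat_lit 180)) (XT.lf (nat_lit 0) (nat_lit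 661484998) (nat_lit 152) (nat_lit 14058419886) (nat_lit 228) (nat_lit 6743722801) (nat_lit 36) (nat_lit 5) (nat_lit 38) (nat_lit 5) (nat_lit 39) (nat_lit 5) (nat_lit 349) (nat_lit 252) (nat_lit 179)))) (XT.nd (nat_lit 156) (nat_lit 152) (nat_lit 0) (XT.nd (nat_lit 78) (nat_lit 228) (nat_lit 0) (XT.lf (nat_lit 0) (nat_lit 13606278408) (nat_lit 152) (nat_lit 7306859961) (nat_lit 228) (nat_lit 1043877063) (nat_lit 36) (nat_lit 5) (nat_lit 38) (nat_lit 5) (nat_lit 39) (nat_lit 5) (nat_lit 350) (nat_lit 252) (nat_lit 178)) (XT.lf (nat_lit 0) (nat_lit 4430709698) (nat_lit 152) (nat_lit 321204593) (nat_lit 228) (nat_lit 17712909500) (nat_lit 33) (nat_lit 5) (nat_lit 35) (nat_lit 5) (nat_lit 36) (nat_lit 5) (nat_lit 351) (nat_lit 252) (nat_lit 177))) (XT.nd (nat_lit 78) (nat_lit 152) (nat_lit 0) (XT.lf (nat_lit 0) (nat_lit 10769100855) (nat_lit 228) (nat_lit 5398561305) (nat_lit 76) (nat_lit 6818842760)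 (nat_lit 33) (nat_lit 5) (nat_lit 36) (nat_lit 5) (nat_lit 34) (nat_lit 5) (nat_lit 352) (nat_lit 252) (nat_lit 176)) (XT.lf (nat_lit 0) (nat_lit 7646480076) (nat_lit 152) (nat_lit 9333311309) (nat_lit 228) (nat_lit 6543795615) (nat_lit 31) (nat_lit 5) (nat_lit 33) (nat_lit 5) (nat_lit 34) (nat_lit 5) (nat_lit 353) (nat_lit 252) (nat_lit 175))))) (XT.nd (nat_lit 234) (nat_lit 304) (nat_lit 0) (XT.nd (nat_lit 78) (nat_lit 228) (nat_lit 0) (XT.lf (nat_lit 0) (nat_lit 21090152740) (nat_lit 152) (nat_lit 2285124306) (nat_lit 228) (nat_lit 701544994) (nat_lit 31) (nat_lit 5) (nat_lit 33) (nat_lit 5) (nat_lit 34) (nat_lit 5) (nat_lit 354) (nat_lit 252) (nat_lit 174)) (XT.nd (nat_lit 78) (nat_lit 0) (nat_lit 0) (XT.lf (nat_lit 0) (nat_lit 5308834315) (nat_lit 228) (nat_lit 14351950358) (nat_lit 76) (nat_lit 4983937044) (nat_lit 28) (nat_lit 5) (nat_lit 31) (nat_lit 5) (nat_lit 29) (nat_lit 5) (nat_lit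 355) (nat_lit 252) (nat_lit 173)) (XT.lf (nat_lit 0) (nat_lit 11488939678) (nat_lit 228) (nat_lit 1302568816) (nat_lit 76) (nat_lit 12438087455) (nat_lit 28) (nat_lit 5) (nat_lit 31) (nat_lit 5) (nat_lit 29) (nat_lit 5) (nat_lit 356) (nat_lit 252) (nat_lit 172)))) (XT.nd (nat_lit 156) (nat_lit 152) (nat_lit 0) (XT.nd (nat_lit 78) (nat_lit 0) (nat_lit 0) (XT.lf (nat_lit 0) (nat_lit 12235969919) (nat_lit 152) (nat_lit 5662230377) (nat_lit 228) (nat_lit 7932950029) (nat_lit 26) (nat_lit 5) (nat_lit 28) (nat_lit 5) (nat_lit 29) (nat_lit 5) (nat_lit 357) (nat_lit 252) (nat_lit 171)) (XT.lf (nat_lit 0) (nat_lit 24484310454) (nat_lit 228) (nat_lit 325370907) (nat_lit 76) (nat_lit 1641387235) (nat_lit 26) (nat_lit 5) (nat_lit 29) (nat_lit 5) (nat_lit 27) (nat_lit 4) (nat_lit 358) (nat_lit 252) (nat_lit 170))) (XT.nd (nat_lit 78) (nat_lit 0) (nat_lit 0) (XT.lf (nat_lit 0) (nat_lit 4215009241) (nat_lit 152)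 (nat_lit 13695335682) (nat_lit 76) (nat_lit 9176877378) (nat_lit 24) (nat_lit 5) (nat_lit 26) (nat_lit 5) (nat_lit 25) (nat_lit 5) (nat_lit 359) (nat_lit 252) (nat_lit 169)) (XT.lf (nat_lit 0) (nat_lit 10524058977) (nat_lit 152) (nat_lit 290447469) (nat_lit 76) (nat_lit 16928331208) (nat_lit 24) (nat_lit 5) (nat_lit 26) (nat_lit 5) (nat_lit 25) (nat_lit 5) (nat_lit 360) (nat_lit 252) (nat_lit 168))))))))
noncomputable def xc38 : XT := (XT.nd (nat_lit 35724) (nat_lit 0) (nat_lit 6232) (XT.nd (nat_lit 34632) (nat_lit 0) (nat_lit 18392) (XT.nd (nat_lit 34086) (nat_lit 0) (nat_lit 32072) (XT.nd (nat_lit 33852) (nat_lit 0) (nat_lit 40964) (XT.nd (nat_lit 78) (nat_lit 152) (nat_lit 0) (XT.lf (nat_lit 0) (nat_lit 13637209453) (nat_lit 152) (nat_lit 3440875796) (nat_lit 228) (nat_lit 11338929922) (nat_lit 22) (nat_lit 5) (nat_lit 24) (nat_lit 5) (nat_lit 25) (nat_lit 5) (nat_lit 361) (nat_lit 252) (nat_lit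 167)) (XT.nd (nat_lit 78) (nat_lit 152) (nat_lit 0) (XT.lf (nat_lit 0) (nat_lit 23825268945) (nat_lit 228) (nat_lit 1209467913) (nat_lit 76) (nat_lit 4076757998) (nat_lit 22) (nat_lit 5) (nat_lit 25) (nat_lit 5) (nat_lit 23) (nat_lit 4) (nat_lit 362) (nat_lit 252) (nat_lit 166)) (XT.lf (nat_lit 0) (nat_lit 1011134178) (nat_lit 152) (nat_lit 16974465142) (nat_lit 76) (nat_lit 11839583536) (nat_lit 20) (nat_lit 5) (nat_lit 22) (nat_lit 5) (nat_lit 21) (nat_lit 5) (nat_lit 363) (nat_lit 252) (nat_lit 165)))) (XT.nd (nat_lit 78) (nat_lit 988) (nat_lit 0) (XT.lf (nat_lit 0) (nat_lit 458843271) (nat_lit 836) (nat_lit 1436055010) (nat_lit 836) (nat_lit 1436055010) (nat_lit 572) (nat_lit 4) (nat_lit 583) (nat_lit 5) (nat_lit 583) (nat_lit 4) (nat_lit 274) (nat_lit 253) (nat_lit 253)) (XT.nd (nat_lit 78) (nat_lit 0) (nat_lit 0) (XT.lf (nat_lit 0) (nat_lit 218100328) (nat_lit 912) (nat_lit 1480412734) (nat_lit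 988) (nat_lit 4996713960) (nat_lit 559) (nat_lit 5) (nat_lit 571) (nat_lit 5) (nat_lit 572) (nat_lit 4) (nat_lit 275) (nat_lit 253) (nat_lit 252)) (XT.lf (nat_lit 0) (nat_lit 6253472295) (nat_lit 988) (nat_lit 432736527) (nat_lit 0) (nat_lit 45420707) (nat_lit 559) (nat_lit 5) (nat_lit 572) (nat_lit 4) (nat_lit 559) (nat_lit 4) (nat_lit 276) (nat_lit 253) (nat_lit 251))))) (XT.nd (nat_lit 234) (nat_lit 5548) (nat_lit 0) (XT.nd (nat_lit 78) (nat_lit 2280) (nat_lit 0) (XT.lf (nat_lit 0) (nat_lit 4019091606) (nat_lit 1064) (nat_lit 1058567603) (nat_lit 76) (nat_lit 1693142470) (nat_lit 545) (nat_lit 5) (nat_lit 559) (nat_lit 5) (nat_lit 546) (nat_lit 4) (nat_lit 277) (nat_lit 253) (nat_lit 250)) (XT.nd (nat_lit 78) (nat_lit 1140) (nat_lit 0) (XT.lf (nat_lit 0) (nat_lit 1699383663) (nat_lit 1140) (nat_lit 1642826878) (nat_lit 76) (nat_lit 3471011336) (nat_lit 530) (nat_lit 5) (nat_lit 545) (nat_lit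 5) (nat_lit 531) (nat_lit 5) (nat_lit 278) (nat_lit 253) (nat_lit 249)) (XT.lf (nat_lit 0) (nat_lit 4667239392) (nat_lit 1140) (nat_lit 1473521945) (nat_lit 1216) (nat_lit 718071251) (nat_lit 515) (nat_lit 5) (nat_lit 530) (nat_lit 5) (nat_lit 531) (nat_lit 5) (nat_lit 279) (nat_lit 253) (nat_lit 248)))) (XT.nd (nat_lit 156) (nat_lit 2888) (nat_lit 0) (XT.nd (nat_lit 78) (nat_lit 1368) (nat_lit 0) (XT.lf (nat_lit 0) (nat_lit 3660264707) (nat_lit 1292) (nat_lit 2716877669) (nat_lit 76) (nat_lit 530317863) (nat_lit 498) (nat_lit 5) (nat_lit 515) (nat_lit 5) (nat_lit 499) (nat_lit 5) (nat_lit 280) (nat_lit 253) (nat_lit 247)) (XT.lf (nat_lit 0) (nat_lit 1097659451) (nat_lit 1368) (nat_lit 3215852505) (nat_lit 76) (nat_lit 2645718798) (nat_lit 480) (nat_lit 5) (nat_lit 498) (nat_lit 5) (nat_lit 481) (nat_lit 5) (nat_lit 281) (nat_lit 253) (nat_lit 246))) (XT.nd (nat_lit 78) (nat_lit 1520) (nat_lit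 0) (XT.lf (nat_lit 0) (nat_lit 3323541651) (nat_lit 1368) (nat_lit 2109985739) (nat_lit 1444) (nat_lit 1580646647) (nat_lit 462) (nat_lit 5) (nat_lit 480) (nat_lit 5) (nat_lit 481) (nat_lit 5) (nat_lit 282) (nat_lit 253) (nat_lit 245)) (XT.lf (nat_lit 0) (nat_lit 2700677151) (nat_lit 1520) (nat_lit 4141752815) (nat_lit 76) (nat_lit 229924578) (nat_lit 442) (nat_lit 5) (nat_lit 462) (nat_lit 5) (nat_lit 443) (nat_lit 5) (nat_lit 283) (nat_lit 253) (nat_lit 244)))))) (XT.nd (nat_lit 546) (nat_lit 4788) (nat_lit 0) (XT.nd (nat_lit 234) (nat_lit 3952) (nat_lit 0) (XT.nd (nat_lit 78) (nat_lit 3420) (nat_lit 0) (XT.lf (nat_lit 0) (nat_lit 2556425699) (nat_lit 1520) (nat_lit 4458321035) (nat_lit 1596) (nat_lit 118942791) (nat_lit 422) (nat_lit 5) (nat_lit 442) (nat_lit 5) (nat_lit 443) (nat_lit 5) (nat_lit 284) (nat_lit 253) (nat_lit 243)) (XT.nd (nat_lit 78) (nat_lit 1748) (nat_lit 0) (XT.lf (nat_lit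 0) (nat_lit 2195554577) (nat_lit 1596) (nat_lit 1924259414) (nat_lit 1672) (nat_lit 3078337836) (nat_lit 400) (nat_lit 5) (nat_lit 421) (nat_lit 5) (nat_lit 422) (nat_lit 5) (nat_lit 285) (nat_lit 253) (nat_lit 242)) (XT.lf (nat_lit 0) (nat_lit 1125582615) (nat_lit 1748) (nat_lit 5406311780) (nat_lit 76) (nat_lit 734160738) (nat_lit 377) (nat_lit 5) (nat_lit 400) (nat_lit 5) (nat_lit 378) (nat_lit 5) (nat_lit 286) (nat_lit 253) (nat_lit 241)))) (XT.nd (nat_lit 156) (nat_lit 1748) (nat_lit 0) (XT.nd (nat_lit 78) (nat_lit 912) (nat_lit 0) (XT.lf (nat_lit 0) (nat_lit 1525643423) (nat_lit 1292) (nat_lit 3822047532) (nat_lit 1368) (nat_lit 1989337321) (nat_lit 360) (nat_lit 5) (nat_lit 377) (nat_lit 5) (nat_lit 378) (nat_lit 5) (nat_lit 287) (nat_lit 253) (nat_lit 240)) (XT.lf (nat_lit 0) (nat_lit 1209388216) (nat_lit 836) (nat_lit 970346022) (nat_lit 912) (nat_lit 5231743616) (nat_lit 348) (nat_lit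 5) (nat_lit 359) (nat_lit 5) (nat_lit 360) (nat_lit 5) (nat_lit 288) (nat_lit 253) (nat_lit 239))) (XT.nd (nat_lit 78) (nat_lit 912) (nat_lit 0) (XT.lf (nat_lit 0) (nat_lit 896329152) (nat_lit 836) (nat_lit 5490315895) (nat_lit 912) (nat_lit 1102565622) (nat_lit 337) (nat_lit 5) (nat_lit 348) (nat_lit 5) (nat_lit 349) (nat_lit 5) (nat_lit 289) (nat_lit 253) (nat_lit 238)) (XT.lf (nat_lit 0) (nat_lit 582857364) (nat_lit 836) (nat_lit 2462102721) (nat_lit 912) (nat_lit 4525293849) (nat_lit 325) (nat_lit 5) (nat_lit 336) (nat_lit 5) (nat_lit 337) (nat_lit 5) (nat_lit 290) (nat_lit 253) (nat_lit 237))))) (XT.nd (nat_lit 234) (nat_lit 3040) (nat_lit 0) (XT.nd (nat_lit 78) (nat_lit 912) (nat_lit 0) (XT.lf (nat_lit 0) (nat_lit 280929967) (nat_lit 836) (nat_lit 6957948453) (nat_lit 912) (nat_lit 416065773) (nat_lit 314) (nat_lit 5) (nat_lit 325) (nat_lit 5) (nat_lit 326) (nat_lit 5) (nat_lit 291) (nat_lit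 253) (nat_lit 236)) (XT.nd (nat_lit 78) (nat_lit 836) (nat_lit 0) (XT.lf (nat_lit 0) (nat_lit 3718024439) (nat_lit 912) (nat_lit 41542169) (nat_lit 76) (nat_lit 3983175757) (nat_lit 313) (nat_lit 5) (nat_lit 325) (nat_lit 5) (nat_lit 314) (nat_lit 5) (nat_lit 292) (nat_lit 253) (nat_lit 235)) (XT.lf (nat_lit 0) (nat_lit 74508772) (nat_lit 836) (nat_lit 346745780) (nat_lit 76) (nat_lit 7413159131) (nat_lit 302) (nat_lit 5) (nat_lit 313) (nat_lit 5) (nat_lit 303) (nat_lit 5) (nat_lit 293) (nat_lit 253) (nat_lit 234)))) (XT.nd (nat_lit 156) (nat_lit 1520) (nat_lit 0) (XT.nd (nat_lit 78) (nat_lit 760) (nat_lit 0) (XT.lf (nat_lit 0) (nat_lit 4202230669) (nat_lit 836) (nat_lit 684507705) (nat_lit 76) (nat_lit 3042449030) (nat_lit 292) (nat_lit 5) (nat_lit 303) (nat_lit 5) (nat_lit 293) (nat_lit 5) (nat_lit 294) (nat_lit 253) (nat_lit 233)) (XT.lf (nat_lit 0) (nat_lit 366379167) (nat_lit 760) (nat_lit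 1017383857) (nat_lit 76) (nat_lit 6644169929) (nat_lit 282) (nat_lit 5) (nat_lit 292) (nat_lit 5) (nat_lit 283) (nat_lit 5) (nat_lit 295) (nat_lit 253) (nat_lit 232))) (XT.nd (nat_lit 78) (nat_lit 760) (nat_lit 0) (XT.lf (nat_lit 0) (nat_lit 4491861902) (nat_lit 836) (nat_lit 1382669167) (nat_lit 76) (nat_lit 2255499065) (nat_lit 272) (nat_lit 5) (nat_lit 283) (nat_lit 5) (nat_lit 273) (nat_lit 5) (nat_lit 296) (nat_lit 253) (nat_lit 231)) (XT.lf (nat_lit 0) (nat_lit 455654771) (nat_lit 760) (nat_lit 1757126503) (nat_lit 76) (nat_lit 6023293509) (nat_lit 262) (nat_lit 5) (nat_lit 272) (nat_lit 5) (nat_lit 263) (nat_lit 5) (nat_lit 297) (nat_lit 253) (nat_lit 230))))))) (XT.nd (nat_lit 1014) (nat_lit 5016) (nat_lit 0) (XT.nd (nat_lit 468) (nat_lit 3344) (nat_lit 0) (XT.nd (nat_lit 234) (nat_lit 1824) (nat_lit 0) (XT.nd (nat_lit 78) (nat_lit 1292) (nat_lit 0) (XT.lf (nat_lit 0) (nat_lit 4583195191)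 (nat_lit 760) (nat_lit 2166508012) (nat_lit 76) (nat_lit 1595985385) (nat_lit 253) (nat_lit 5) (nat_lit 263) (nat_lit 5) (nat_lit 254) (nat_lit 5) (nat_lit 298) (nat_lit 253) (nat_lit 229)) (XT.nd (nat_lit 78) (nat_lit 608) (nat_lit 0) (XT.lf (nat_lit 0) (nat_lit 337589111) (nat_lit 684) (nat_lit 2597383915) (nat_lit 76) (nat_lit 5524309755) (nat_lit 244) (nat_lit 5) (nat_lit 253) (nat_lit 5) (nat_lit 245) (nat_lit 5) (nat_lit 299) (nat_lit 253) (nat_lit 228)) (XT.lf (nat_lit 0) (nat_lit 4470646590) (nat_lit 684) (nat_lit 3068298728) (nat_lit 76) (nat_lit 1037689964) (nat_lit 236) (nat_lit 5) (nat_lit 245) (nat_lit 5) (nat_lit 237) (nat_lit 5) (nat_lit 300) (nat_lit 253) (nat_lit 227)))) (XT.nd (nat_lit 78) (nat_lit 1140) (nat_lit 0) (XT.lf (nat_lit 0) (nat_lit 5518390) (nat_lit 684) (nat_lit 3571509287) (nat_lit 76) (nat_lit 5121028552) (nat_lit 227) (nat_lit 5) (nat_lit 236) (nat_lit 5) (nat_lit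 228) (nat_lit 5) (nat_lit 301) (nat_lit 253) (nat_lit 226)) (XT.nd (nat_lit 78) (nat_lit 532) (nat_lit 0) (XT.lf (nat_lit 0) (nat_lit 4146684189) (nat_lit 684) (nat_lit 4122427015) (nat_lit 76) (nat_lit 554288227) (nat_lit 219) (nat_lit 5) (nat_lit 228) (nat_lit 5) (nat_lit 220) (nat_lit 5) (nat_lit 302) (nat_lit 253) (nat_lit 225)) (XT.lf (nat_lit 0) (nat_lit 4234137797) (nat_lit 532) (nat_lit 4162209563) (nat_lit 608) (nat_lit 556532844) (nat_lit 212) (nat_lit 5) (nat_lit 219) (nat_lit 5) (nat_lit 220) (nat_lit 5) (nat_lit 303) (nat_lit 253) (nat_lit 224))))) (XT.nd (nat_lit 234) (nat_lit 1596) (nat_lit 0) (XT.nd (nat_lit 78) (nat_lit 1140) (nat_lit 0) (XT.lf (nat_lit 0) (nat_lit 3601723791) (nat_lit 608) (nat_lit 5365731916) (nat_lit 76) (nat_lit 119113844) (nat_lit 204) (nat_lit 5) (nat_lit 212) (nat_lit 5) (nat_lit 205) (nat_lit 5) (nat_lit 304) (nat_lit 253) (nat_lit 223)) (XT.nd (nat_lit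 78) (nat_lit 608) (nat_lit 0) (XT.lf (nat_lit 0) (nat_lit 3149116132) (nat_lit 532) (nat_lit 4720053489) (nat_lit 608) (nat_lit 1355244108) (nat_lit 197) (nat_lit 5) (nat_lit 204) (nat_lit 5) (nat_lit 205) (nat_lit 5) (nat_lit 305) (nat_lit 253) (nat_lit 222)) (XT.lf (nat_lit 0) (nat_lit 2526941188) (nat_lit 532) (nat_lit 299006205) (nat_lit 608) (nat_lit 6540810230) (nat_lit 189) (nat_lit 5) (nat_lit 196) (nat_lit 5) (nat_lit 197) (nat_lit 5) (nat_lit 306) (nat_lit 253) (nat_lit 221)))) (XT.nd (nat_lit 156) (nat_lit 532) (nat_lit 0) (XT.nd (nat_lit 78) (nat_lit 608) (nat_lit 0) (XT.lf (nat_lit 0) (nat_lit 1830844849) (nat_lit 456) (nat_lit 5278716831) (nat_lit 532) (nat_lit 2403776393) (nat_lit 183) (nat_lit 5) (nat_lit 189) (nat_lit 5) (nat_lit 190) (nat_lit 5) (nat_lit 307) (nat_lit 253) (nat_lit 220)) (XT.lf (nat_lit 0) (nat_lit 1078248547) (nat_lit 532) (nat_lit 725918311) (nat_lit 608) (nat_lit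 7860535550) (nat_lit 175) (nat_lit 5) (nat_lit 182) (nat_lit 5) (nat_lit 183) (nat_lit 5) (nat_lit 308) (nat_lit 253) (nat_lit 219))) (XT.nd (nat_lit 78) (nat_lit 76) (nat_lit 0) (XT.lf (nat_lit 0) (nat_lit 235270929) (nat_lit 456) (nat_lit 5867322545) (nat_lit 532) (nat_lit 3717807700) (nat_lit 169) (nat_lit 5) (nat_lit 175) (nat_lit 5) (nat_lit 176) (nat_lit 5) (nat_lit 309) (nat_lit 253) (nat_lit 218)) (XT.lf (nat_lit 0) (nat_lit 523583944) (nat_lit 532) (nat_lit 661599489) (nat_lit 76) (nat_lit 8795931423) (nat_lit 168) (nat_lit 5) (nat_lit 175) (nat_lit 5) (nat_lit 169) (nat_lit 5) (nat_lit 310) (nat_lit 253) (nat_lit 217)))))) (XT.nd (nat_lit 546) (nat_lit 1900) (nat_lit 0) (XT.nd (nat_lit 234) (nat_lit 1672) (nat_lit 0) (XT.nd (nat_lit 78) (nat_lit 988) (nat_lit 0) (XT.lf (nat_lit 0) (nat_lit 4841728258) (nat_lit 532) (nat_lit 1663382540) (nat_lit 76) (nat_lit 3641092823) (nat_lit 162) (nat_lit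 5) (nat_lit 169) (nat_lit 5) (nat_lit 163) (nat_lit 5) (nat_lit 311) (nat_lit 253) (nat_lit 216)) (XT.nd (nat_lit 78) (nat_lit 532) (nat_lit 0) (XT.lf (nat_lit 0) (nat_lit 7577161580) (nat_lit 456) (nat_lit 1695860144) (nat_lit 532) (nat_lit 1043595497) (nat_lit 156) (nat_lit 5) (nat_lit 162) (nat_lit 5) (nat_lit 163) (nat_lit 5) (nat_lit 312) (nat_lit 253) (nat_lit 215)) (XT.lf (nat_lit 0) (nat_lit 3299772803) (nat_lit 532) (nat_lit 3931388597) (nat_lit 76) (nat_lit 3260618917) (nat_lit 149) (nat_lit 5) (nat_lit 156) (nat_lit 5) (nat_lit 150) (nat_lit 5) (nat_lit 313) (nat_lit 253) (nat_lit 214)))) (XT.nd (nat_lit 156) (nat_lit 760) (nat_lit 0) (XT.nd (nat_lit 78) (nat_lit 532) (nat_lit 0) (XT.lf (nat_lit 0) (nat_lit 5450312545) (nat_lit 380) (nat_lit 2298798498) (nat_lit 456) (nat_lit 2923193261) (nat_lit 144) (nat_lit 5) (nat_lit 149) (nat_lit 5) (nat_lit 150) (nat_lit 5) (nat_lit 314) (nat_lit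 253) (nat_lit 213)) (XT.lf (nat_lit 0) (nat_lit 1452371021) (nat_lit 532) (nat_lit 6628143590) (nat_lit 76) (nat_lit 2777616710) (nat_lit 137) (nat_lit 5) (nat_lit 144) (nat_lit 5) (nat_lit 138) (nat_lit 5) (nat_lit 315) (nat_lit 253) (nat_lit 212))) (XT.nd (nat_lit 78) (nat_lit 380) (nat_lit 0) (XT.lf (nat_lit 0) (nat_lit 2884377948) (nat_lit 380) (nat_lit 3031678188) (nat_lit 456) (nat_lit 5133196998) (nat_lit 132) (nat_lit 5) (nat_lit 137) (nat_lit 5) (nat_lit 138) (nat_lit 5) (nat_lit 316) (nat_lit 253) (nat_lit 211)) (XT.lf (nat_lit 0) (nat_lit 1426107724) (nat_lit 380) (nat_lit 9083960970) (nat_lit 456) (nat_lit 736148272) (nat_lit 127) (nat_lit 5) (nat_lit 132) (nat_lit 5) (nat_lit 133) (nat_lit 5) (nat_lit 317) (nat_lit 253) (nat_lit 210))))) (XT.nd (nat_lit 234) (nat_lit 1064) (nat_lit 0) (XT.nd (nat_lit 78) (nat_lit 760) (nat_lit 0) (XT.lf (nat_lit 0) (nat_lit 3747822962) (nat_lit 456)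 (nat_lit 181938654) (nat_lit 76) (nat_lit 7518775436) (nat_lit 126) (nat_lit 5) (nat_lit 132) (nat_lit 5) (nat_lit 127) (nat_lit 5) (nat_lit 318) (nat_lit 253) (nat_lit 209)) (XT.nd (nat_lit 78) (nat_lit 456) (nat_lit 0) (XT.lf (nat_lit 0) (nat_lit 8359830443) (nat_lit 380) (nat_lit 1899832609) (nat_lit 76) (nat_lit 1397129916) (nat_lit 122) (nat_lit 5) (nat_lit 127) (nat_lit 5) (nat_lit 123) (nat_lit 5) (nat_lit 319) (nat_lit 253) (nat_lit 208)) (XT.lf (nat_lit 0) (nat_lit 1234844055) (nat_lit 456) (nat_lit 3775698066) (nat_lit 76) (nat_lit 6860382032) (nat_lit 116) (nat_lit 5) (nat_lit 122) (nat_lit 5) (nat_lit 117) (nat_lit 5) (nat_lit 320) (nat_lit 253) (nat_lit 207)))) (XT.nd (nat_lit 156) (nat_lit 380) (nat_lit 0) (XT.nd (nat_lit 78) (nat_lit 380) (nat_lit 0) (XT.lf (nat_lit 0) (nat_lit 5847547442) (nat_lit 380) (nat_lit 5809982053) (nat_lit 76) (nat_lit 433750555) (nat_lit 112) (nat_lit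 5) (nat_lit 117) (nat_lit 5) (nat_lit 113) (nat_lit 5) (nat_lit 321) (nat_lit 253) (nat_lit 206)) (XT.lf (nat_lit 0) (nat_lit 4296131843) (nat_lit 380) (nat_lit 6323614514) (nat_lit 456) (nat_lit 1698108411) (nat_lit 107) (nat_lit 5) (nat_lit 112) (nat_lit 5) (nat_lit 113) (nat_lit 5) (nat_lit 322) (nat_lit 253) (nat_lit 205))) (XT.nd (nat_lit 78) (nat_lit 0) (nat_lit 0) (XT.lf (nat_lit 0) (nat_lit 2143240370) (nat_lit 304) (nat_lit 789838577) (nat_lit 380) (nat_lit 9618022705) (nat_lit 102) (nat_lit 5) (nat_lit 106) (nat_lit 5) (nat_lit 107) (nat_lit 5) (nat_lit 323) (nat_lit 253) (nat_lit 204)) (XT.lf (nat_lit 0) (nat_lit 7702681928) (nat_lit 380) (nat_lit 210117528) (nat_lit 76) (nat_lit 4877899106) (nat_lit 102) (nat_lit 5) (nat_lit 107) (nat_lit 5) (nat_lit 103) (nat_lit 5) (nat_lit 324) (nat_lit 253) (nat_lit 203))))))))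
noncomputable def xc39 : XT := (XT.nd (nat_lit 2106) (nat_lit 1064) (nat_lit 0) (XT.nd (nat_lit 1014) (nat_lit 2052) (nat_lit 0) (XT.nd (nat_lit 468) (nat_lit 1444) (nat_lit 0) (XT.nd (nat_lit 234) (nat_lit 608) (nat_lit 0) (XT.nd (nat_lit 78) (nat_lit 684) (nat_lit 0) (XT.lf (nat_lit 0) (nat_lit 10327392766) (nat_lit 304) (nat_lit 2298006516) (nat_lit 380) (nat_lit 411910874) (nat_lit 98) (nat_lit 5) (nat_lit 102) (nat_lit 5) (nat_lit 103) (nat_lit 5) (nat_lit 325) (nat_lit 253) (nat_lit 202)) (XT.nd (nat_lit 78) (nat_lit 304) (nat_lit 0) (XT.lf (nat_lit 0) (nat_lit 4360658867) (nat_lit 380) (nat_lit 5442264490) (nat_lit 76) (nat_lit 3487571865) (nat_lit 93) (nat_lit 5) (nat_lit 98) (nat_lit 5) (nat_lit 94) (nat_lit 5) (nat_lit 326) (nat_lit 253) (nat_lit 201)) (XT.lf (nat_lit 0) (nat_lit 5163714743) (nat_lit 304) (nat_lit 4113929077) (nat_lit 380) (nat_lit 4273466109) (nat_lit 89) (nat_lit 5)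 (nat_lit 93) (nat_lit 5) (nat_lit 94) (nat_lit 5) (nat_lit 327) (nat_lit 253) (nat_lit 200)))) (XT.nd (nat_lit 78) (nat_lit 304) (nat_lit 0) (XT.lf (nat_lit 0) (nat_lit 519277092) (nat_lit 304) (nat_lit 11555716470) (nat_lit 76) (nat_lit 1744434955) (nat_lit 85) (nat_lit 5) (nat_lit 89) (nat_lit 5) (nat_lit 86) (nat_lit 5) (nat_lit 328) (nat_lit 253) (nat_lit 199)) (XT.nd (nat_lit 78) (nat_lit 304) (nat_lit 0) (XT.lf (nat_lit 0) (nat_lit 5423879216) (nat_lit 304) (nat_lit 895760635) (nat_lit 76) (nat_lit 7775092450) (nat_lit 85) (nat_lit 5) (nat_lit 89) (nat_lit 5) (nat_lit 86) (nat_lit 5) (nat_lit 329) (nat_lit 253) (nat_lit 198)) (XT.lf (nat_lit 0) (nat_lit 10125732000) (nat_lit 304) (nat_lit 358428060) (nat_lit 380) (nat_lit 3893986961) (nat_lit 81) (nat_lit 5) (nat_lit 85) (nat_lit 5) (nat_lit 86) (nat_lit 5) (nat_lit 330) (nat_lit 253) (nat_lit 197))))) (XT.nd (nat_lit 234) (nat_lit 836) (nat_lit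 0) (XT.nd (nat_lit 78) (nat_lit 304) (nat_lit 0) (XT.lf (nat_lit 0) (nat_lit 1044252465) (nat_lit 304) (nat_lit 7895297689) (nat_lit 76) (nat_lit 5729771804) (nat_lit 77) (nat_lit 5) (nat_lit 81) (nat_lit 5) (nat_lit 78) (nat_lit 5) (nat_lit 331) (nat_lit 253) (nat_lit 196)) (XT.nd (nat_lit 78) (nat_lit 0) (nat_lit 0) (XT.lf (nat_lit 0) (nat_lit 3143604480) (nat_lit 304) (nat_lit 2930586451) (nat_lit 380) (nat_lit 8894618230) (nat_lit 73) (nat_lit 5) (nat_lit 77) (nat_lit 5) (nat_lit 78) (nat_lit 5) (nat_lit 332) (nat_lit 253) (nat_lit 195)) (XT.lf (nat_lit 0) (nat_lit 11275209128) (nat_lit 380) (nat_lit 765217791) (nat_lit 76) (nat_lit 3236470737) (nat_lit 73) (nat_lit 5) (nat_lit 78) (nat_lit 5) (nat_lit 74) (nat_lit 5) (nat_lit 333) (nat_lit 253) (nat_lit 194)))) (XT.nd (nat_lit 156) (nat_lit 304) (nat_lit 0) (XT.nd (nat_lit 78) (nat_lit 228) (nat_lit 0) (XT.lf (nat_lit 0) (nat_lit 1060208057)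 (nat_lit 304) (nat_lit 4940373607) (nat_lit 76) (nat_lit 9592815824) (nat_lit 69) (nat_lit 5) (nat_lit 73) (nat_lit 5) (nat_lit 70) (nat_lit 5) (nat_lit 334) (nat_lit 253) (nat_lit 193)) (XT.lf (nat_lit 0) (nat_lit 6216281506) (nat_lit 304) (nat_lit 9443488630) (nat_lit 76) (nat_lit 259178180) (nat_lit 66) (nat_lit 5) (nat_lit 70) (nat_lit 5) (nat_lit 67) (nat_lit 5) (nat_lit 335) (nat_lit 253) (nat_lit 192))) (XT.nd (nat_lit 78) (nat_lit 76) (nat_lit 0) (XT.lf (nat_lit 0) (nat_lit 1947593101) (nat_lit 228) (nat_lit 9614084339) (nat_lit 304) (nat_lit 4691913645) (nat_lit 63) (nat_lit 5) (nat_lit 66) (nat_lit 5) (nat_lit 67) (nat_lit 5) (nat_lit 336) (nat_lit 253) (nat_lit 191)) (XT.lf (nat_lit 0) (nat_lit 476202145) (nat_lit 304) (nat_lit 2875500717) (nat_lit 76) (nat_lit 13246262833) (nat_lit 62) (nat_lit 5) (nat_lit 66) (nat_lit 5) (nat_lit 63) (nat_lit 5) (nat_lit 337) (nat_lit 253) (nat_lit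 190)))))) (XT.nd (nat_lit 546) (nat_lit 836) (nat_lit 0) (XT.nd (nat_lit 234) (nat_lit 760) (nat_lit 0) (XT.nd (nat_lit 78) (nat_lit 228) (nat_lit 0) (XT.lf (nat_lit 0) (nat_lit 5764537990) (nat_lit 304) (nat_lit 8071365243) (nat_lit 76) (nat_lit 3115586454) (nat_lit 59) (nat_lit 5) (nat_lit 63) (nat_lit 5) (nat_lit 60) (nat_lit 5) (nat_lit 338) (nat_lit 253) (nat_lit 189)) (XT.nd (nat_lit 78) (nat_lit 0) (nat_lit 0) (XT.lf (nat_lit 0) (nat_lit 3656266870) (nat_lit 228) (nat_lit 7572008617) (nat_lit 304) (nat_lit 6087025228) (nat_lit 56) (nat_lit 5) (nat_lit 59) (nat_lit 5) (nat_lit 60) (nat_lit 5) (nat_lit 339) (nat_lit 253) (nat_lit 188)) (XT.lf (nat_lit 0) (nat_lit 15765844073) (nat_lit 228) (nat_lit 1096665019) (nat_lit 304) (nat_lit 827401175) (nat_lit 56) (nat_lit 5) (nat_lit 59) (nat_lit 5) (nat_lit 60) (nat_lit 5) (nat_lit 340) (nat_lit 253) (nat_lit 187)))) (XT.nd (nat_lit 156) (nat_lit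 304) (nat_lit 0) (XT.nd (nat_lit 78) (nat_lit 152) (nat_lit 0) (XT.lf (nat_lit 0) (nat_lit 4585540547) (nat_lit 304) (nat_lit 7923305673) (nat_lit 76) (nat_lit 5565216409) (nat_lit 52) (nat_lit 5) (nat_lit 56) (nat_lit 5) (nat_lit 53) (nat_lit 5) (nat_lit 341) (nat_lit 253) (nat_lit 186)) (XT.lf (nat_lit 0) (nat_lit 4107475364) (nat_lit 152) (nat_lit 6042976174) (nat_lit 228) (nat_lit 8319176867) (nat_lit 50) (nat_lit 5) (nat_lit 52) (nat_lit 5) (nat_lit 53) (nat_lit 5) (nat_lit 342) (nat_lit 253) (nat_lit 185))) (XT.nd (nat_lit 78) (nat_lit 304) (nat_lit 0) (XT.lf (nat_lit 0) (nat_lit 15894640751) (nat_lit 228) (nat_lit 2350290781) (nat_lit 76) (nat_lit 631897245) (nat_lit 50) (nat_lit 5) (nat_lit 53) (nat_lit 5) (nat_lit 51) (nat_lit 5) (nat_lit 343) (nat_lit 253) (nat_lit 184)) (XT.lf (nat_lit 0) (nat_lit 2543514046) (nat_lit 304) (nat_lit 9273923778) (nat_lit 76) (nat_lit 7477262580) (nat_lit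 46) (nat_lit 5) (nat_lit 50) (nat_lit 5) (nat_lit 47) (nat_lit 5) (nat_lit 344) (nat_lit 253) (nat_lit 183))))) (XT.nd (nat_lit 234) (nat_lit 456) (nat_lit 0) (XT.nd (nat_lit 78) (nat_lit 228) (nat_lit 0) (XT.lf (nat_lit 0) (nat_lit 3015160420) (nat_lit 152) (nat_lit 5171270679) (nat_lit 228) (nat_lit 11538456793) (nat_lit 44) (nat_lit 5) (nat_lit 46) (nat_lit 5) (nat_lit 47) (nat_lit 5) (nat_lit 345) (nat_lit 253) (nat_lit 182)) (XT.nd (nat_lit 78) (nat_lit 228) (nat_lit 0) (XT.lf (nat_lit 0) (nat_lit 14029489973) (nat_lit 228) (nat_lit 4452308749) (nat_lit 76) (nat_lit 1685577973) (nat_lit 44) (nat_lit 5) (nat_lit 47) (nat_lit 5) (nat_lit 45) (nat_lit 5) (nat_lit 346) (nat_lit 253) (nat_lit 181)) (XT.lf (nat_lit 0) (nat_lit 8173448181) (nat_lit 228) (nat_lit 11920027454) (nat_lit 304) (nat_lit 528764231) (nat_lit 41) (nat_lit 5) (nat_lit 44) (nat_lit 5) (nat_lit 45) (nat_lit 5) (nat_lit 347)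 (nat_lit 253) (nat_lit 180)))) (XT.nd (nat_lit 156) (nat_lit 228) (nat_lit 0) (XT.nd (nat_lit 78) (nat_lit 0) (nat_lit 0) (XT.lf (nat_lit 0) (nat_lit 43677900) (nat_lit 152) (nat_lit 5125234710) (nat_lit 228) (nat_lit 15921384229) (nat_lit 38) (nat_lit 5) (nat_lit 40) (nat_lit 5) (nat_lit 41) (nat_lit 5) (nat_lit 348) (nat_lit 253) (nat_lit 179)) (XT.lf (nat_lit 0) (nat_lit 11086482178) (nat_lit 228) (nat_lit 8576515227) (nat_lit 76) (nat_lit 1908216751) (nat_lit 38) (nat_lit 5) (nat_lit 41) (nat_lit 5) (nat_lit 39) (nat_lit 5) (nat_lit 349) (nat_lit 253) (nat_lit 178))) (XT.nd (nat_lit 78) (nat_lit 76) (nat_lit 0) (XT.lf (nat_lit 0) (nat_lit 4219955223) (nat_lit 152) (nat_lit 12983516819) (nat_lit 228) (nat_lit 4862660216) (nat_lit 36) (nat_lit 5) (nat_lit 38) (nat_lit 5) (nat_lit 39) (nat_lit 5) (nat_lit 350) (nat_lit 253) (nat_lit 177)) (XT.lf (nat_lit 0) (nat_lit 935073455) (nat_lit 228) (nat_lit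 5131653719) (nat_lit 76) (nat_lit 16508677378) (nat_lit 35) (nat_lit 5) (nat_lit 38) (nat_lit 5) (nat_lit 36) (nat_lit 5) (nat_lit 351) (nat_lit 253) (nat_lit 176))))))) (XT.nd (nat_lit 34476) (nat_lit 0) (nat_lit 27056) (XT.nd (nat_lit 468) (nat_lit 380) (nat_lit 0) (XT.nd (nat_lit 234) (nat_lit 380) (nat_lit 0) (XT.nd (nat_lit 78) (nat_lit 152) (nat_lit 0) (XT.lf (nat_lit 0) (nat_lit 6861855711) (nat_lit 228) (nat_lit 15136207453) (nat_lit 76) (nat_lit 1100835669) (nat_lit 33) (nat_lit 5) (nat_lit 36) (nat_lit 5) (nat_lit 34) (nat_lit 5) (nat_lit 352) (nat_lit 253) (nat_lit 175)) (XT.nd (nat_lit 78) (nat_lit 152) (nat_lit 0) (XT.lf (nat_lit 0) (nat_lit 13004340899) (nat_lit 228) (nat_lit 2223836566) (nat_lit 76) (nat_lit 8409172474) (nat_lit 33) (nat_lit 5) (nat_lit 36) (nat_lit 5) (nat_lit 34) (nat_lit 5) (nat_lit 353) (nat_lit 253) (nat_lit 174)) (XT.lf (nat_lit 0) (nat_lit 11158422362) (nat_lit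 152) (nat_lit 8208548077) (nat_lit 228) (nat_lit 4824276439) (nat_lit 31) (nat_lit 5) (nat_lit 33) (nat_lit 5) (nat_lit 34) (nat_lit 5) (nat_lit 354) (nat_lit 253) (nat_lit 173)))) (XT.nd (nat_lit 78) (nat_lit 152) (nat_lit 0) (XT.lf (nat_lit 0) (nat_lit 142088353) (nat_lit 152) (nat_lit 981357175) (nat_lit 228) (nat_lit 23638575476) (nat_lit 28) (nat_lit 5) (nat_lit 30) (nat_lit 5) (nat_lit 31) (nat_lit 5) (nat_lit 355) (nat_lit 253) (nat_lit 172)) (XT.nd (nat_lit 78) (nat_lit 152) (nat_lit 0) (XT.lf (nat_lit 0) (nat_lit 7279597035) (nat_lit 228) (nat_lit 11595116039) (nat_lit 76) (nat_lit 6472665653) (nat_lit 28) (nat_lit 5) (nat_lit 31) (nat_lit 5) (nat_lit 29) (nat_lit 5) (nat_lit 356) (nat_lit 253) (nat_lit 171)) (XT.lf (nat_lit 0) (nat_lit 1776205519) (nat_lit 152) (nat_lit 11827670275) (nat_lit 228) (nat_lit 12346761230) (nat_lit 26) (nat_lit 5) (nat_lit 28) (nat_lit 5) (nat_lit 29) (nat_lit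 5) (nat_lit 357) (nat_lit 253) (nat_lit 170))))) (XT.nd (nat_lit 234) (nat_lit 228) (nat_lit 0) (XT.nd (nat_lit 78) (nat_lit 152) (nat_lit 0) (XT.lf (nat_lit 0) (nat_lit 15647399665) (nat_lit 152) (nat_lit 4515022896) (nat_lit 228) (nat_lit 6408688161) (nat_lit 26) (nat_lit 5) (nat_lit 28) (nat_lit 5) (nat_lit 29) (nat_lit 5) (nat_lit 358) (nat_lit 253) (nat_lit 169)) (XT.nd (nat_lit 78) (nat_lit 76) (nat_lit 0) (XT.lf (nat_lit 0) (nat_lit 2681368027) (nat_lit 76) (nat_lit 24240150451) (nat_lit 152) (nat_lit 288612496) (nat_lit 25) (nat_lit 5) (nat_lit 26) (nat_lit 5) (nat_lit 27) (nat_lit 4) (nat_lit 359) (nat_lit 253) (nat_lit 168)) (XT.lf (nat_lit 0) (nat_lit 6008046698) (nat_lit 152) (nat_lit 11150686778) (nat_lit 76) (nat_lit 10707377688) (nat_lit 24) (nat_lit 5) (nat_lit 26) (nat_lit 5) (nat_lit 25) (nat_lit 5) (nat_lit 360) (nat_lit 253) (nat_lit 167)))) (XT.nd (nat_lit 156) (nat_lit 76)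 (nat_lit 0) (XT.nd (nat_lit 78) (nat_lit 0) (nat_lit 0) (XT.lf (nat_lit 0) (nat_lit 2604422768) (nat_lit 152) (nat_lit 9870313423) (nat_lit 228) (nat_lit 16067302956) (nat_lit 22) (nat_lit 5) (nat_lit 24) (nat_lit 5) (nat_lit 25) (nat_lit 5) (nat_lit 361) (nat_lit 253) (nat_lit 166)) (XT.lf (nat_lit 0) (nat_lit 16869198895) (nat_lit 152) (nat_lit 2310475133) (nat_lit 228) (nat_lit 10057693345) (nat_lit 22) (nat_lit 5) (nat_lit 24) (nat_lit 5) (nat_lit 25) (nat_lit 5) (nat_lit 362) (nat_lit 253) (nat_lit 165))) (XT.nd (nat_lit 33540) (nat_lit 0) (nat_lit 43548) (XT.lf (nat_lit 0) (nat_lit 1538525000) (nat_lit 76) (nat_lit 24562224872) (nat_lit 152) (nat_lit 3852512919) (nat_lit 21) (nat_lit 5) (nat_lit 22) (nat_lit 5) (nat_lit 23) (nat_lit 4) (nat_lit 363) (nat_lit 253) (nat_lit 164)) (XT.lf (nat_lit 0) (nat_lit 1259725147) (nat_lit 684) (nat_lit 1020924703) (nat_lit 684) (nat_lit 1020924703) (nat_lit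 594) (nat_lit 4) (nat_lit 603) (nat_lit 5) (nat_lit 603) (nat_lit 4) (nat_lit 272) (nat_lit 254) (nat_lit 254)))))) (XT.nd (nat_lit 546) (nat_lit 10412) (nat_lit 0) (XT.nd (nat_lit 234) (nat_lit 3420) (nat_lit 0) (XT.nd (nat_lit 78) (nat_lit 1824) (nat_lit 0) (XT.lf (nat_lit 0) (nat_lit 1665192215) (nat_lit 760) (nat_lit 830184425) (nat_lit 836) (nat_lit 4136388125) (nat_lit 583) (nat_lit 5) (nat_lit 593) (nat_lit 5) (nat_lit 594) (nat_lit 4) (nat_lit 273) (nat_lit 254) (nat_lit 253)) (XT.nd (nat_lit 78) (nat_lit 912) (nat_lit 0) (XT.lf (nat_lit 0) (nat_lit 354160366) (nat_lit 912) (nat_lit 5806775059) (nat_lit 76) (nat_lit 502554803) (nat_lit 571) (nat_lit 5) (nat_lit 583) (nat_lit 5) (nat_lit 572) (nat_lit 4) (nat_lit 274) (nat_lit 254) (nat_lit 252)) (XT.lf (nat_lit 0) (nat_lit 77070754) (nat_lit 912) (nat_lit 4734100688) (nat_lit 988) (nat_lit 1886877222) (nat_lit 559) (nat_lit 5) (nat_lit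 571) (nat_lit 5) (nat_lit 572) (nat_lit 4) (nat_lit 275) (nat_lit 254) (nat_lit 251)))) (XT.nd (nat_lit 156) (nat_lit 2280) (nat_lit 0) (XT.nd (nat_lit 78) (nat_lit 1064) (nat_lit 0) (XT.lf (nat_lit 0) (nat_lit 2523077535) (nat_lit 988) (nat_lit 651478442) (nat_lit 76) (nat_lit 3561122841) (nat_lit 558) (nat_lit 5) (nat_lit 571) (nat_lit 5) (nat_lit 559) (nat_lit 5) (nat_lit 276) (nat_lit 254) (nat_lit 250)) (XT.lf (nat_lit 0) (nat_lit 151178023) (nat_lit 1064) (nat_lit 1336220420) (nat_lit 76) (nat_lit 5289141791) (nat_lit 544) (nat_lit 5) (nat_lit 558) (nat_lit 5) (nat_lit 545) (nat_lit 5) (nat_lit 277) (nat_lit 254) (nat_lit 249))) (XT.nd (nat_lit 78) (nat_lit 1216) (nat_lit 0) (XT.lf (nat_lit 0) (nat_lit 4483947471) (nat_lit 1140) (nat_lit 1996992520) (nat_lit 76) (nat_lit 339388812) (nat_lit 530) (nat_lit 5) (nat_lit 545) (nat_lit 5) (nat_lit 531) (nat_lit 5) (nat_lit 278) (nat_lit 254) (nat_lit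 248)) (XT.lf (nat_lit 0) (nat_lit 1960441317) (nat_lit 1216) (nat_lit 2629872838) (nat_lit 76) (nat_lit 2276873729) (nat_lit 514) (nat_lit 5) (nat_lit 530) (nat_lit 5) (nat_lit 515) (nat_lit 5) (nat_lit 279) (nat_lit 254) (nat_lit 247))))) (XT.nd (nat_lit 234) (nat_lit 6384) (nat_lit 0) (XT.nd (nat_lit 78) (nat_lit 2812) (nat_lit 0) (XT.lf (nat_lit 0) (nat_lit 3687370206) (nat_lit 1216) (nat_lit 2567647460) (nat_lit 1292) (nat_lit 662266310) (nat_lit 498) (nat_lit 5) (nat_lit 514) (nat_lit 5) (nat_lit 515) (nat_lit 5) (nat_lit 280) (nat_lit 254) (nat_lit 246)) (XT.nd (nat_lit 78) (nat_lit 1444) (nat_lit 0) (XT.lf (nat_lit 0) (nat_lit 3162743529) (nat_lit 1292) (nat_lit 401695510) (nat_lit 1368) (nat_lit 3406035984) (nat_lit 480) (nat_lit 5) (nat_lit 497) (nat_lit 5) (nat_lit 498) (nat_lit 5) (nat_lit 281) (nat_lit 254) (nat_lit 245)) (XT.lf (nat_lit 0) (nat_lit 791164553) (nat_lit 1444) (nat_lit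 4364158466) (nat_lit 76) (nat_lit 1871494484) (nat_lit 461) (nat_lit 5) (nat_lit 480) (nat_lit 5) (nat_lit 462) (nat_lit 5) (nat_lit 282) (nat_lit 254) (nat_lit 244)))) (XT.nd (nat_lit 156) (nat_lit 3344) (nat_lit 0) (XT.nd (nat_lit 78) (nat_lit 1596) (nat_lit 0) (XT.lf (nat_lit 0) (nat_lit 2180819982) (nat_lit 1444) (nat_lit 2800739383) (nat_lit 1520) (nat_lit 2104703193) (nat_lit 442) (nat_lit 5) (nat_lit 461) (nat_lit 5) (nat_lit 462) (nat_lit 5) (nat_lit 283) (nat_lit 254) (nat_lit 243)) (XT.lf (nat_lit 0) (nat_lit 1726455733) (nat_lit 1520) (nat_lit 309026653) (nat_lit 1596) (nat_lit 5113586429) (nat_lit 421) (nat_lit 5) (nat_lit 441) (nat_lit 5) (nat_lit 442) (nat_lit 5) (nat_lit 284) (nat_lit 254) (nat_lit 242))) (XT.nd (nat_lit 78) (nat_lit 1748) (nat_lit 0) (XT.lf (nat_lit 0) (nat_lit 1281424627) (nat_lit 1596) (nat_lit 4922010321) (nat_lit 1672) (nat_lit 1011526446) (nat_lit 400) (nat_lit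 5) (nat_lit 421) (nat_lit 5) (nat_lit 422) (nat_lit 5) (nat_lit 285) (nat_lit 254) (nat_lit 241)) (XT.lf (nat_lit 0) (nat_lit 849046960) (nat_lit 1672) (nat_lit 2244473605) (nat_lit 1748) (nat_lit 4190568996) (nat_lit 377) (nat_lit 5) (nat_lit 399) (nat_lit 5) (nat_lit 400) (nat_lit 5) (nat_lit 286) (nat_lit 254) (nat_lit 240))))))))
noncomputable def xc40 : XT := (XT.nd (nat_lit 2028) (nat_lit 7372) (nat_lit 0) (XT.nd (nat_lit 1014) (nat_lit 6688) (nat_lit 0) (XT.nd (nat_lit 468) (nat_lit 5244) (nat_lit 0) (XT.nd (nat_lit 234) (nat_lit 2584) (nat_lit 0) (XT.nd (nat_lit 78) (nat_lit 988) (nat_lit 0) (XT.lf (nat_lit 0) (nat_lit 438981235) (nat_lit 1292) (nat_lit 6796077108) (nat_lit 1368) (nat_lit 121671992) (nat_lit 360) (nat_lit 5) (nat_lit 377) (nat_lit 5) (nat_lit 378) (nat_lit 5) (nat_lit 287) (nat_lit 254) (nat_lit 239)) (XT.nd (nat_lit 78) (nat_lit 76) (nat_lit 0) (XT.lf (nat_lit 0) (nat_lit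 17129278) (nat_lit 836) (nat_lit 3940001357) (nat_lit 912) (nat_lit 3475175749) (nat_lit 348) (nat_lit 5) (nat_lit 359) (nat_lit 5) (nat_lit 360) (nat_lit 5) (nat_lit 288) (nat_lit 254) (nat_lit 238)) (XT.lf (nat_lit 0) (nat_lit 569226498) (nat_lit 912) (nat_lit 377521403) (nat_lit 76) (nat_lit 6564781278) (nat_lit 347) (nat_lit 5) (nat_lit 359) (nat_lit 5) (nat_lit 348) (nat_lit 5) (nat_lit 289) (nat_lit 254) (nat_lit 237)))) (XT.nd (nat_lit 78) (nat_lit 1748) (nat_lit 0) (XT.lf (nat_lit 0) (nat_lit 4634005379) (nat_lit 912) (nat_lit 785234574) (nat_lit 76) (nat_lit 2174604498) (nat_lit 336) (nat_lit 5) (nat_lit 348) (nat_lit 5) (nat_lit 337) (nat_lit 5) (nat_lit 290) (nat_lit 254) (nat_lit 236)) (XT.nd (nat_lit 78) (nat_lit 836) (nat_lit 0) (XT.lf (nat_lit 0) (nat_lit 1067665380) (nat_lit 912) (nat_lit 1185838379) (nat_lit 76) (nat_lit 5426261753) (nat_lit 324) (nat_lit 5) (nat_lit 336) (nat_lit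 5) (nat_lit 325) (nat_lit 5) (nat_lit 291) (nat_lit 254) (nat_lit 235)) (XT.lf (nat_lit 0) (nat_lit 5120015036) (nat_lit 912) (nat_lit 1595273584) (nat_lit 76) (nat_lit 1053792409) (nat_lit 313) (nat_lit 5) (nat_lit 325) (nat_lit 5) (nat_lit 314) (nat_lit 5) (nat_lit 292) (nat_lit 254) (nat_lit 234))))) (XT.nd (nat_lit 234) (nat_lit 2888) (nat_lit 0) (XT.nd (nat_lit 78) (nat_lit 1520) (nat_lit 0) (XT.lf (nat_lit 0) (nat_lit 1368832885) (nat_lit 836) (nat_lit 2014544035) (nat_lit 76) (nat_lit 4478506010) (nat_lit 302) (nat_lit 5) (nat_lit 313) (nat_lit 5) (nat_lit 303) (nat_lit 5) (nat_lit 293) (nat_lit 254) (nat_lit 233)) (XT.nd (nat_lit 78) (nat_lit 760) (nat_lit 0) (XT.lf (nat_lit 0) (nat_lit 5414420386) (nat_lit 836) (nat_lit 2440969062) (nat_lit 76) (nat_lit 102952120) (nat_lit 292) (nat_lit 5) (nat_lit 303) (nat_lit 5) (nat_lit 293) (nat_lit 5) (nat_lit 294) (nat_lit 254) (nat_lit 232)) (XT.lf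 (nat_lit 0) (nat_lit 1471172354) (nat_lit 760) (nat_lit 2892068807) (nat_lit 76) (nat_lit 3694987065) (nat_lit 282) (nat_lit 5) (nat_lit 292) (nat_lit 5) (nat_lit 283) (nat_lit 5) (nat_lit 295) (nat_lit 254) (nat_lit 231)))) (XT.nd (nat_lit 156) (nat_lit 1368) (nat_lit 0) (XT.nd (nat_lit 78) (nat_lit 760) (nat_lit 0) (XT.lf (nat_lit 0) (nat_lit 4805945903) (nat_lit 760) (nat_lit 713560892) (nat_lit 836) (nat_lit 2642400604) (nat_lit 272) (nat_lit 5) (nat_lit 282) (nat_lit 5) (nat_lit 283) (nat_lit 5) (nat_lit 296) (nat_lit 254) (nat_lit 230)) (XT.lf (nat_lit 0) (nat_lit 1371365687) (nat_lit 760) (nat_lit 3848223603) (nat_lit 76) (nat_lit 3049610541) (nat_lit 262) (nat_lit 5) (nat_lit 272) (nat_lit 5) (nat_lit 263) (nat_lit 5) (nat_lit 297) (nat_lit 254) (nat_lit 229))) (XT.nd (nat_lit 78) (nat_lit 684) (nat_lit 0) (XT.lf (nat_lit 0) (nat_lit 4014242326) (nat_lit 684) (nat_lit 1412177961) (nat_lit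 760) (nat_lit 2953879130) (nat_lit 253) (nat_lit 5) (nat_lit 262) (nat_lit 5) (nat_lit 263) (nat_lit 5) (nat_lit 298) (nat_lit 254) (nat_lit 228)) (XT.lf (nat_lit 0) (nat_lit 1064269110) (nat_lit 684) (nat_lit 4914486829) (nat_lit 76) (nat_lit 2516493580) (nat_lit 244) (nat_lit 5) (nat_lit 253) (nat_lit 5) (nat_lit 245) (nat_lit 5) (nat_lit 299) (nat_lit 254) (nat_lit 227)))))) (XT.nd (nat_lit 468) (nat_lit 3116) (nat_lit 0) (XT.nd (nat_lit 234) (nat_lit 1672) (nat_lit 0) (XT.nd (nat_lit 78) (nat_lit 1292) (nat_lit 0) (XT.lf (nat_lit 0) (nat_lit 3110898549) (nat_lit 608) (nat_lit 2017782589) (nat_lit 684) (nat_lit 3485327118) (nat_lit 236) (nat_lit 5) (nat_lit 244) (nat_lit 5) (nat_lit 245) (nat_lit 5) (nat_lit 300) (nat_lit 254) (nat_lit 226)) (XT.nd (nat_lit 78) (nat_lit 608) (nat_lit 0) (XT.lf (nat_lit 0) (nat_lit 542833107) (nat_lit 684) (nat_lit 6124311094) (nat_lit 76) (nat_lit 2069740264)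 (nat_lit 227) (nat_lit 5) (nat_lit 236) (nat_lit 5) (nat_lit 228) (nat_lit 5) (nat_lit 301) (nat_lit 254) (nat_lit 225)) (XT.lf (nat_lit 0) (nat_lit 2061774196) (nat_lit 608) (nat_lit 2556776356) (nat_lit 684) (nat_lit 4245016881) (nat_lit 219) (nat_lit 5) (nat_lit 227) (nat_lit 5) (nat_lit 228) (nat_lit 5) (nat_lit 302) (nat_lit 254) (nat_lit 224)))) (XT.nd (nat_lit 78) (nat_lit 1140) (nat_lit 0) (XT.lf (nat_lit 0) (nat_lit 1479861742) (nat_lit 532) (nat_lit 7310102521) (nat_lit 608) (nat_lit 204678834) (nat_lit 212) (nat_lit 5) (nat_lit 219) (nat_lit 5) (nat_lit 220) (nat_lit 5) (nat_lit 303) (nat_lit 254) (nat_lit 223)) (XT.nd (nat_lit 78) (nat_lit 532) (nat_lit 0) (XT.lf (nat_lit 0) (nat_lit 830302453) (nat_lit 532) (nat_lit 3055946611) (nat_lit 608) (nat_lit 5243320434) (nat_lit 204) (nat_lit 5) (nat_lit 211) (nat_lit 5) (nat_lit 212) (nat_lit 5) (nat_lit 304) (nat_lit 254) (nat_lit 222))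 (XT.lf (nat_lit 0) (nat_lit 140977893) (nat_lit 532) (nat_lit 7931014537) (nat_lit 608) (nat_lit 1197082928) (nat_lit 197) (nat_lit 5) (nat_lit 204) (nat_lit 5) (nat_lit 205) (nat_lit 5) (nat_lit 305) (nat_lit 254) (nat_lit 221))))) (XT.nd (nat_lit 234) (nat_lit 1976) (nat_lit 0) (XT.nd (nat_lit 78) (nat_lit 1064) (nat_lit 0) (XT.lf (nat_lit 0) (nat_lit 2923877980) (nat_lit 608) (nat_lit 614707874) (nat_lit 76) (nat_lit 5874002287) (nat_lit 196) (nat_lit 5) (nat_lit 204) (nat_lit 5) (nat_lit 197) (nat_lit 5) (nat_lit 306) (nat_lit 254) (nat_lit 220)) (XT.nd (nat_lit 78) (nat_lit 532) (nat_lit 0) (XT.lf (nat_lit 0) (nat_lit 7129534010) (nat_lit 608) (nat_lit 1422389588) (nat_lit 76) (nat_lit 1008829692) (nat_lit 189) (nat_lit 5) (nat_lit 197) (nat_lit 5) (nat_lit 190) (nat_lit 5) (nat_lit 307) (nat_lit 254) (nat_lit 219)) (XT.lf (nat_lit 0) (nat_lit 1720251184) (nat_lit 532) (nat_lit 2309621903)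 (nat_lit 76) (nat_lit 5683409062) (nat_lit 182) (nat_lit 5) (nat_lit 189) (nat_lit 5) (nat_lit 183) (nat_lit 5) (nat_lit 308) (nat_lit 254) (nat_lit 218)))) (XT.nd (nat_lit 156) (nat_lit 912) (nat_lit 0) (XT.nd (nat_lit 78) (nat_lit 532) (nat_lit 0) (XT.lf (nat_lit 0) (nat_lit 5940732369) (nat_lit 608) (nat_lit 3267785924) (nat_lit 76) (nat_lit 662045128) (nat_lit 175) (nat_lit 5) (nat_lit 183) (nat_lit 5) (nat_lit 176) (nat_lit 5) (nat_lit 309) (nat_lit 254) (nat_lit 217)) (XT.lf (nat_lit 0) (nat_lit 253559526) (nat_lit 532) (nat_lit 4310897637) (nat_lit 76) (nat_lit 5468085569) (nat_lit 168) (nat_lit 5) (nat_lit 175) (nat_lit 5) (nat_lit 169) (nat_lit 5) (nat_lit 310) (nat_lit 254) (nat_lit 216))) (XT.nd (nat_lit 78) (nat_lit 456) (nat_lit 0) (XT.lf (nat_lit 0) (nat_lit 4487157452) (nat_lit 532) (nat_lit 5444549892) (nat_lit 76) (nat_lit 267636887) (nat_lit 162) (nat_lit 5) (nat_lit 169) (nat_lit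 5) (nat_lit 163) (nat_lit 5) (nat_lit 311) (nat_lit 254) (nat_lit 215)) (XT.lf (nat_lit 0) (nat_lit 3693050115) (nat_lit 456) (nat_lit 5162863774) (nat_lit 532) (nat_lit 1515115855) (nat_lit 156) (nat_lit 5) (nat_lit 162) (nat_lit 5) (nat_lit 163) (nat_lit 5) (nat_lit 312) (nat_lit 254) (nat_lit 214))))))) (XT.nd (nat_lit 1014) (nat_lit 2964) (nat_lit 0) (XT.nd (nat_lit 468) (nat_lit 2128) (nat_lit 0) (XT.nd (nat_lit 234) (nat_lit 1292) (nat_lit 0) (XT.nd (nat_lit 78) (nat_lit 456) (nat_lit 0) (XT.lf (nat_lit 0) (nat_lit 2542153587) (nat_lit 456) (nat_lit 207773923) (nat_lit 532) (nat_lit 7798036889) (nat_lit 149) (nat_lit 5) (nat_lit 155) (nat_lit 5) (nat_lit 156) (nat_lit 5) (nat_lit 313) (nat_lit 254) (nat_lit 213)) (XT.nd (nat_lit 78) (nat_lit 76) (nat_lit 0) (XT.lf (nat_lit 0) (nat_lit 1270949863) (nat_lit 380) (nat_lit 5863652088) (nat_lit 456) (nat_lit 3595199277) (nat_lit 144) (nat_lit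 5) (nat_lit 149) (nat_lit 5) (nat_lit 150) (nat_lit 5) (nat_lit 314) (nat_lit 254) (nat_lit 212)) (XT.lf (nat_lit 0) (nat_lit 707611620) (nat_lit 456) (nat_lit 90725404) (nat_lit 76) (nat_lit 10119028443) (nat_lit 143) (nat_lit 5) (nat_lit 149) (nat_lit 5) (nat_lit 144) (nat_lit 5) (nat_lit 315) (nat_lit 254) (nat_lit 211)))) (XT.nd (nat_lit 78) (nat_lit 836) (nat_lit 0) (XT.lf (nat_lit 0) (nat_lit 5111691139) (nat_lit 532) (nat_lit 1580352191) (nat_lit 76) (nat_lit 4417654142) (nat_lit 137) (nat_lit 5) (nat_lit 144) (nat_lit 5) (nat_lit 138) (nat_lit 5) (nat_lit 316) (nat_lit 254) (nat_lit 210)) (XT.nd (nat_lit 78) (nat_lit 456) (nat_lit 0) (XT.lf (nat_lit 0) (nat_lit 8132424563) (nat_lit 380) (nat_lit 1505061149) (nat_lit 456) (nat_lit 1670557507) (nat_lit 132) (nat_lit 5) (nat_lit 137) (nat_lit 5) (nat_lit 138) (nat_lit 5) (nat_lit 317) (nat_lit 254) (nat_lit 209)) (XT.lf (nat_lit 0) (nat_lit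 2760807261) (nat_lit 456) (nat_lit 4922481959) (nat_lit 76) (nat_lit 3828509356) (nat_lit 126) (nat_lit 5) (nat_lit 132) (nat_lit 5) (nat_lit 127) (nat_lit 5) (nat_lit 318) (nat_lit 254) (nat_lit 208))))) (XT.nd (nat_lit 234) (nat_lit 1064) (nat_lit 0) (XT.nd (nat_lit 78) (nat_lit 760) (nat_lit 0) (XT.lf (nat_lit 0) (nat_lit 4913262489) (nat_lit 304) (nat_lit 2385784275) (nat_lit 380) (nat_lit 4422499309) (nat_lit 122) (nat_lit 5) (nat_lit 126) (nat_lit 5) (nat_lit 127) (nat_lit 5) (nat_lit 319) (nat_lit 254) (nat_lit 207)) (XT.nd (nat_lit 78) (nat_lit 304) (nat_lit 0) (XT.lf (nat_lit 0) (nat_lit 43001599) (nat_lit 456) (nat_lit 8841518907) (nat_lit 76) (nat_lit 3052939693) (nat_lit 116) (nat_lit 5) (nat_lit 122) (nat_lit 5) (nat_lit 117) (nat_lit 5) (nat_lit 320) (nat_lit 254) (nat_lit 206)) (XT.lf (nat_lit 0) (nat_lit 1102121059) (nat_lit 304) (nat_lit 3484977087) (nat_lit 380) (nat_lit 7572105079)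 (nat_lit 112) (nat_lit 5) (nat_lit 116) (nat_lit 5) (nat_lit 117) (nat_lit 5) (nat_lit 321) (nat_lit 254) (nat_lit 205)))) (XT.nd (nat_lit 156) (nat_lit 608) (nat_lit 0) (XT.nd (nat_lit 78) (nat_lit 456) (nat_lit 0) (XT.lf (nat_lit 0) (nat_lit 9277191792) (nat_lit 380) (nat_lit 1032745198) (nat_lit 76) (nat_lit 2077497611) (nat_lit 112) (nat_lit 5) (nat_lit 117) (nat_lit 5) (nat_lit 113) (nat_lit 5) (nat_lit 322) (nat_lit 254) (nat_lit 204)) (XT.lf (nat_lit 0) (nat_lit 1487519014) (nat_lit 456) (nat_lit 3335680341) (nat_lit 76) (nat_lit 7798718272) (nat_lit 106) (nat_lit 5) (nat_lit 112) (nat_lit 5) (nat_lit 107) (nat_lit 5) (nat_lit 323) (nat_lit 254) (nat_lit 203))) (XT.nd (nat_lit 78) (nat_lit 304) (nat_lit 0) (XT.lf (nat_lit 0) (nat_lit 6178150546) (nat_lit 380) (nat_lit 5825742868) (nat_lit 76) (nat_lit 859214000) (nat_lit 102) (nat_lit 5) (nat_lit 107) (nat_lit 5) (nat_lit 103) (nat_lit 5)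 (nat_lit 324) (nat_lit 254) (nat_lit 202)) (XT.lf (nat_lit 0) (nat_lit 4590455687) (nat_lit 304) (nat_lit 6443364604) (nat_lit 380) (nat_lit 2077252727) (nat_lit 98) (nat_lit 5) (nat_lit 102) (nat_lit 5) (nat_lit 103) (nat_lit 5) (nat_lit 325) (nat_lit 254) (nat_lit 201)))))) (XT.nd (nat_lit 546) (nat_lit 1368) (nat_lit 0) (XT.nd (nat_lit 234) (nat_lit 912) (nat_lit 0) (XT.nd (nat_lit 78) (nat_lit 304) (nat_lit 0) (XT.lf (nat_lit 0) (nat_lit 1948334703) (nat_lit 304) (nat_lit 677989040) (nat_lit 380) (nat_lit 10739979712) (nat_lit 93) (nat_lit 5) (nat_lit 97) (nat_lit 5) (nat_lit 98) (nat_lit 5) (nat_lit 326) (nat_lit 254) (nat_lit 200)) (XT.nd (nat_lit 78) (nat_lit 304) (nat_lit 0) (XT.lf (nat_lit 0) (nat_lit 7476409012) (nat_lit 380) (nat_lit 920780398) (nat_lit 76) (nat_lit 5231078812) (nat_lit 93) (nat_lit 5) (nat_lit 98) (nat_lit 5) (nat_lit 94) (nat_lit 5) (nat_lit 327) (nat_lit 254) (nat_lit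 199)) (XT.lf (nat_lit 0) (nat_lit 9927373676) (nat_lit 304) (nat_lit 2556513164) (nat_lit 380) (nat_lit 1413991076) (nat_lit 89) (nat_lit 5) (nat_lit 93) (nat_lit 5) (nat_lit 94) (nat_lit 5) (nat_lit 328) (nat_lit 254) (nat_lit 198)))) (XT.nd (nat_lit 156) (nat_lit 304) (nat_lit 0) (XT.nd (nat_lit 78) (nat_lit 304) (nat_lit 0) (XT.lf (nat_lit 0) (nat_lit 3438084007) (nat_lit 304) (nat_lit 7280620988) (nat_lit 76) (nat_lit 3456092903) (nat_lit 85) (nat_lit 5) (nat_lit 89) (nat_lit 5) (nat_lit 86) (nat_lit 5) (nat_lit 329) (nat_lit 254) (nat_lit 197)) (XT.lf (nat_lit 0) (nat_lit 3611889530) (nat_lit 304) (nat_lit 4816825390) (nat_lit 380) (nat_lit 6030901523) (nat_lit 81) (nat_lit 5) (nat_lit 85) (nat_lit 5) (nat_lit 86) (nat_lit 5) (nat_lit 330) (nat_lit 254) (nat_lit 196))) (XT.nd (nat_lit 78) (nat_lit 76) (nat_lit 0) (XT.lf (nat_lit 0) (nat_lit 83539222) (nat_lit 228) (nat_lit 13489230571) (nat_lit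 304) (nat_lit 1180156989) (nat_lit 78) (nat_lit 5) (nat_lit 81) (nat_lit 5) (nat_lit 82) (nat_lit 5) (nat_lit 331) (nat_lit 254) (nat_lit 195)) (XT.lf (nat_lit 0) (nat_lit 3818229174) (nat_lit 304) (nat_lit 3707002122) (nat_lit 76) (nat_lit 7528286545) (nat_lit 77) (nat_lit 5) (nat_lit 81) (nat_lit 5) (nat_lit 78) (nat_lit 5) (nat_lit 332) (nat_lit 254) (nat_lit 194))))) (XT.nd (nat_lit 234) (nat_lit 760) (nat_lit 0) (XT.nd (nat_lit 78) (nat_lit 304) (nat_lit 0) (XT.lf (nat_lit 0) (nat_lit 7591274238) (nat_lit 304) (nat_lit 1356173482) (nat_lit 380) (nat_lit 6415604323) (nat_lit 73) (nat_lit 5) (nat_lit 77) (nat_lit 5) (nat_lit 78) (nat_lit 5) (nat_lit 333) (nat_lit 254) (nat_lit 193)) (XT.nd (nat_lit 78) (nat_lit 76) (nat_lit 0) (XT.lf (nat_lit 0) (nat_lit 3527398886) (nat_lit 228) (nat_lit 10732098840) (nat_lit 304) (nat_lit 1421814592) (nat_lit 70) (nat_lit 5) (nat_lit 73) (nat_lit 5) (nat_lit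 74) (nat_lit 5) (nat_lit 334) (nat_lit 254) (nat_lit 192)) (XT.lf (nat_lit 0) (nat_lit 3683989341) (nat_lit 304) (nat_lit 853167760) (nat_lit 76) (nat_lit 11471277985) (nat_lit 69) (nat_lit 5) (nat_lit 73) (nat_lit 5) (nat_lit 70) (nat_lit 5) (nat_lit 335) (nat_lit 254) (nat_lit 191)))) (XT.nd (nat_lit 156) (nat_lit 304) (nat_lit 0) (XT.nd (nat_lit 78) (nat_lit 228) (nat_lit 0) (XT.lf (nat_lit 0) (nat_lit 8956842259) (nat_lit 304) (nat_lit 5518860971) (nat_lit 76) (nat_lit 1868834200) (nat_lit 66) (nat_lit 5) (nat_lit 70) (nat_lit 5) (nat_lit 67) (nat_lit 5) (nat_lit 336) (nat_lit 254) (nat_lit 190)) (XT.lf (nat_lit 0) (nat_lit 6145684509) (nat_lit 228) (nat_lit 8269402548) (nat_lit 304) (nat_lit 2275108837) (nat_lit 63) (nat_lit 5) (nat_lit 66) (nat_lit 5) (nat_lit 67) (nat_lit 5) (nat_lit 337) (nat_lit 254) (nat_lit 189))) (XT.nd (nat_lit 78) (nat_lit 0) (nat_lit 0) (XT.lf (nat_lit 0) (nat_lit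 1105215917) (nat_lit 228) (nat_lit 1842952289) (nat_lit 304) (nat_lit 14097753109) (nat_lit 59) (nat_lit 5) (nat_lit 62) (nat_lit 5) (nat_lit 63) (nat_lit 5) (nat_lit 338) (nat_lit 254) (nat_lit 188)) (XT.lf (nat_lit 0) (nat_lit 8352758590) (nat_lit 304) (nat_lit 4288130155) (nat_lit 76) (nat_lit 4770034359) (nat_lit 59) (nat_lit 5) (nat_lit 63) (nat_lit 5) (nat_lit 60) (nat_lit 5) (nat_lit 339) (nat_lit 254) (nat_lit 187))))))))
noncomputable def xc41 : XT := (XT.nd (nat_lit 35412) (nat_lit 0) (nat_lit 16872) (XT.nd (nat_lit 1014) (nat_lit 988) (nat_lit 0) (XT.nd (nat_lit 468) (nat_lit 836) (nat_lit 0) (XT.nd (nat_lit 234) (nat_lit 456) (nat_lit 0) (XT.nd (nat_lit 78) (nat_lit 304) (nat_lit 0) (XT.lf (nat_lit 0) (nat_lit 7726023976) (nat_lit 228) (nat_lit 6209747539) (nat_lit 304) (nat_lit 3850793145) (nat_lit 56) (nat_lit 5) (nat_lit 59) (nat_lit 5) (nat_lit 60) (nat_lit 5) (nat_lit 340) (nat_lit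 254) (nat_lit 186)) (XT.nd (nat_lit 78) (nat_lit 0) (nat_lit 0) (XT.lf (nat_lit 0) (nat_lit 1491877728) (nat_lit 304) (nat_lit 16250937652) (nat_lit 76) (nat_lit 430499930) (nat_lit 52) (nat_lit 5) (nat_lit 56) (nat_lit 5) (nat_lit 53) (nat_lit 5) (nat_lit 341) (nat_lit 254) (nat_lit 185)) (XT.lf (nat_lit 0) (nat_lit 7007943840) (nat_lit 304) (nat_lit 4311390902) (nat_lit 76) (nat_lit 7250530256) (nat_lit 52) (nat_lit 5) (nat_lit 56) (nat_lit 5) (nat_lit 53) (nat_lit 5) (nat_lit 342) (nat_lit 254) (nat_lit 184)))) (XT.nd (nat_lit 78) (nat_lit 304) (nat_lit 0) (XT.lf (nat_lit 0) (nat_lit 8017858153) (nat_lit 152) (nat_lit 4679984100) (nat_lit 228) (nat_lit 6280315744) (nat_lit 50) (nat_lit 5) (nat_lit 52) (nat_lit 5) (nat_lit 53) (nat_lit 5) (nat_lit 343) (nat_lit 254) (nat_lit 183)) (XT.nd (nat_lit 78) (nat_lit 76) (nat_lit 0) (XT.lf (nat_lit 0) (nat_lit 1307702007) (nat_lit 228) (nat_lit 17259553549)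 (nat_lit 304) (nat_lit 831281295) (nat_lit 47) (nat_lit 5) (nat_lit 50) (nat_lit 5) (nat_lit 51) (nat_lit 5) (nat_lit 344) (nat_lit 254) (nat_lit 182)) (XT.lf (nat_lit 0) (nat_lit 4781976041) (nat_lit 304) (nat_lit 5871620594) (nat_lit 76) (nat_lit 9176053184) (nat_lit 46) (nat_lit 5) (nat_lit 50) (nat_lit 5) (nat_lit 47) (nat_lit 5) (nat_lit 345) (nat_lit 254) (nat_lit 181))))) (XT.nd (nat_lit 234) (nat_lit 380) (nat_lit 0) (XT.nd (nat_lit 78) (nat_lit 304) (nat_lit 0) (XT.lf (nat_lit 0) (nat_lit 6726424051) (nat_lit 152) (nat_lit 3828289813) (nat_lit 228) (nat_lit 9718837290) (nat_lit 44) (nat_lit 5) (nat_lit 46) (nat_lit 5) (nat_lit 47) (nat_lit 5) (nat_lit 346) (nat_lit 254) (nat_lit 180)) (XT.nd (nat_lit 78) (nat_lit 304) (nat_lit 0) (XT.lf (nat_lit 0) (nat_lit 16520682064) (nat_lit 228) (nat_lit 1038144603) (nat_lit 76) (nat_lit 3171553940) (nat_lit 44) (nat_lit 5) (nat_lit 47) (nat_lit 5)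 (nat_lit 45) (nat_lit 5) (nat_lit 347) (nat_lit 254) (nat_lit 179)) (XT.lf (nat_lit 0) (nat_lit 1509230467) (nat_lit 304) (nat_lit 9300762142) (nat_lit 76) (nat_lit 10389469078) (nat_lit 40) (nat_lit 5) (nat_lit 44) (nat_lit 5) (nat_lit 41) (nat_lit 5) (nat_lit 348) (nat_lit 254) (nat_lit 178)))) (XT.nd (nat_lit 156) (nat_lit 228) (nat_lit 0) (XT.nd (nat_lit 78) (nat_lit 0) (nat_lit 0) (XT.lf (nat_lit 0) (nat_lit 3505870774) (nat_lit 152) (nat_lit 3827681251) (nat_lit 228) (nat_lit 14348697422) (nat_lit 38) (nat_lit 5) (nat_lit 40) (nat_lit 5) (nat_lit 41) (nat_lit 5) (nat_lit 349) (nat_lit 254) (nat_lit 177)) (XT.lf (nat_lit 0) (nat_lit 13379265874) (nat_lit 228) (nat_lit 5443309749) (nat_lit 76) (nat_lit 3356022769) (nat_lit 38) (nat_lit 5) (nat_lit 41) (nat_lit 5) (nat_lit 39) (nat_lit 5) (nat_lit 350) (nat_lit 254) (nat_lit 176))) (XT.nd (nat_lit 78) (nat_lit 76) (nat_lit 0) (XT.lf (nat_lit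 0) (nat_lit 7682047965) (nat_lit 152) (nat_lit 11962280819) (nat_lit 228) (nat_lit 3044759960) (nat_lit 36) (nat_lit 5) (nat_lit 38) (nat_lit 5) (nat_lit 39) (nat_lit 5) (nat_lit 351) (nat_lit 254) (nat_lit 175)) (XT.lf (nat_lit 0) (nat_lit 2844703071) (nat_lit 228) (nat_lit 2021747597) (nat_lit 76) (nat_lit 18348077684) (nat_lit 35) (nat_lit 5) (nat_lit 38) (nat_lit 5) (nat_lit 36) (nat_lit 5) (nat_lit 352) (nat_lit 254) (nat_lit 174)))))) (XT.nd (nat_lit 546) (nat_lit 304) (nat_lit 0) (XT.nd (nat_lit 234) (nat_lit 380) (nat_lit 0) (XT.nd (nat_lit 78) (nat_lit 152) (nat_lit 0) (XT.lf (nat_lit 0) (nat_lit 8924184216) (nat_lit 228) (nat_lit 12350796999) (nat_lit 76) (nat_lit 2479263099) (nat_lit 33) (nat_lit 5) (nat_lit 36) (nat_lit 5) (nat_lit 34) (nat_lit 5) (nat_lit 353) (nat_lit 254) (nat_lit 173)) (XT.nd (nat_lit 78) (nat_lit 0) (nat_lit 0) (XT.lf (nat_lit 0) (nat_lit 865947802) (nat_lit 152)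 (nat_lit 14336546440) (nat_lit 228) (nat_lit 9107338037) (nat_lit 31) (nat_lit 5) (nat_lit 33) (nat_lit 5) (nat_lit 34) (nat_lit 5) (nat_lit 354) (nat_lit 254) (nat_lit 172)) (XT.lf (nat_lit 0) (nat_lit 14587291239) (nat_lit 152) (nat_lit 7130681066) (nat_lit 228) (nat_lit 3163148341) (nat_lit 31) (nat_lit 5) (nat_lit 33) (nat_lit 5) (nat_lit 34) (nat_lit 5) (nat_lit 355) (nat_lit 254) (nat_lit 171)))) (XT.nd (nat_lit 156) (nat_lit 152) (nat_lit 0) (XT.nd (nat_lit 78) (nat_lit 0) (nat_lit 0) (XT.lf (nat_lit 0) (nat_lit 2909321746) (nat_lit 228) (nat_lit 22257411715) (nat_lit 76) (nat_lit 302663271) (nat_lit 28) (nat_lit 5) (nat_lit 31) (nat_lit 5) (nat_lit 29) (nat_lit 5) (nat_lit 356) (nat_lit 254) (nat_lit 170)) (XT.lf (nat_lit 0) (nat_lit 9205495258) (nat_lit 228) (nat_lit 8938546077) (nat_lit 76) (nat_lit 7929179958) (nat_lit 28) (nat_lit 5) (nat_lit 31) (nat_lit 5) (nat_lit 29) (nat_lit 5)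 (nat_lit 357) (nat_lit 254) (nat_lit 169))) (XT.nd (nat_lit 78) (nat_lit 0) (nat_lit 0) (XT.lf (nat_lit 0) (nat_lit 4785171926) (nat_lit 152) (nat_lit 10903787380) (nat_lit 228) (nat_lit 11006241379) (nat_lit 26) (nat_lit 5) (nat_lit 28) (nat_lit 5) (nat_lit 29) (nat_lit 5) (nat_lit 358) (nat_lit 254) (nat_lit 168)) (XT.lf (nat_lit 0) (nat_lit 18986414123) (nat_lit 152) (nat_lit 3409004648) (nat_lit 228) (nat_lit 4939858817) (nat_lit 26) (nat_lit 5) (nat_lit 28) (nat_lit 5) (nat_lit 29) (nat_lit 5) (nat_lit 359) (nat_lit 254) (nat_lit 167))))) (XT.nd (nat_lit 234) (nat_lit 0) (nat_lit 0) (XT.nd (nat_lit 78) (nat_lit 152) (nat_lit 0) (XT.lf (nat_lit 0) (nat_lit 1324673694) (nat_lit 152) (nat_lit 22393269567) (nat_lit 76) (nat_lit 4275784800) (nat_lit 24) (nat_lit 5) (nat_lit 26) (nat_lit 5) (nat_lit 25) (nat_lit 5) (nat_lit 360) (nat_lit 254) (nat_lit 166)) (XT.nd (nat_lit 78) (nat_lit 152) (nat_lit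 0) (XT.lf (nat_lit 0) (nat_lit 7759206356) (nat_lit 152) (nat_lit 8699356711) (nat_lit 76) (nat_lit 12211739738) (nat_lit 24) (nat_lit 5) (nat_lit 26) (nat_lit 5) (nat_lit 25) (nat_lit 5) (nat_lit 361) (nat_lit 254) (nat_lit 165)) (XT.lf (nat_lit 0) (nat_lit 5423209003) (nat_lit 152) (nat_lit 8968726771) (nat_lit 228) (nat_lit 14975142943) (nat_lit 22) (nat_lit 5) (nat_lit 24) (nat_lit 5) (nat_lit 25) (nat_lit 5) (nat_lit 362) (nat_lit 254) (nat_lit 164)))) (XT.nd (nat_lit 33462) (nat_lit 0) (nat_lit 43396) (XT.nd (nat_lit 33384) (nat_lit 0) (nat_lit 44840) (XT.lf (nat_lit 0) (nat_lit 20036103553) (nat_lit 152) (nat_lit 1216977683) (nat_lit 228) (nat_lit 8831094921) (nat_lit 22) (nat_lit 5) (nat_lit 24) (nat_lit 5) (nat_lit 25) (nat_lit 5) (nat_lit 363) (nat_lit 254) (nat_lit 163)) (XT.lf (nat_lit 0) (nat_lit 2219245874) (nat_lit 532) (nat_lit 528813764) (nat_lit 532) (nat_lit 528813764) (nat_lit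 612) (nat_lit 4) (nat_lit 619) (nat_lit 5) (nat_lit 619) (nat_lit 4) (nat_lit 270) (nat_lit 255) (nat_lit 255))) (XT.nd (nat_lit 78) (nat_lit 760) (nat_lit 0) (XT.lf (nat_lit 0) (nat_lit 3424365552) (nat_lit 608) (nat_lit 26442795) (nat_lit 684) (nat_lit 3126877140) (nat_lit 603) (nat_lit 5) (nat_lit 611) (nat_lit 5) (nat_lit 612) (nat_lit 4) (nat_lit 271) (nat_lit 255) (nat_lit 254)) (XT.lf (nat_lit 0) (nat_lit 1337719184) (nat_lit 760) (nat_lit 4150008503) (nat_lit 76) (nat_lit 1116901634) (nat_lit 593) (nat_lit 5) (nat_lit 603) (nat_lit 5) (nat_lit 594) (nat_lit 4) (nat_lit 272) (nat_lit 255) (nat_lit 253))))))) (XT.nd (nat_lit 1014) (nat_lit 11780) (nat_lit 0) (XT.nd (nat_lit 468) (nat_lit 9880) (nat_lit 0) (XT.nd (nat_lit 234) (nat_lit 3116) (nat_lit 0) (XT.nd (nat_lit 78) (nat_lit 988) (nat_lit 0) (XT.lf (nat_lit 0) (nat_lit 1528499258) (nat_lit 760) (nat_lit 4242715838) (nat_lit 836) (nat_lit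 863400496) (nat_lit 583) (nat_lit 5) (nat_lit 593) (nat_lit 5) (nat_lit 594) (nat_lit 4) (nat_lit 273) (nat_lit 255) (nat_lit 252)) (XT.nd (nat_lit 78) (nat_lit 76) (nat_lit 0) (XT.lf (nat_lit 0) (nat_lit 640896975) (nat_lit 836) (nat_lit 2863810296) (nat_lit 912) (nat_lit 3162891146) (nat_lit 571) (nat_lit 5) (nat_lit 582) (nat_lit 5) (nat_lit 583) (nat_lit 5) (nat_lit 274) (nat_lit 255) (nat_lit 251)) (XT.lf (nat_lit 0) (nat_lit 1159330306) (nat_lit 912) (nat_lit 198052004) (nat_lit 76) (nat_lit 5346372861) (nat_lit 570) (nat_lit 5) (nat_lit 582) (nat_lit 5) (nat_lit 571) (nat_lit 5) (nat_lit 275) (nat_lit 255) (nat_lit 250)))) (XT.nd (nat_lit 78) (nat_lit 2204) (nat_lit 0) (XT.lf (nat_lit 0) (nat_lit 5462776595) (nat_lit 988) (nat_lit 994807492) (nat_lit 76) (nat_lit 285276541) (nat_lit 558) (nat_lit 5) (nat_lit 571) (nat_lit 5) (nat_lit 559) (nat_lit 5) (nat_lit 276) (nat_lit 255) (nat_lit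 249)) (XT.nd (nat_lit 78) (nat_lit 1140) (nat_lit 0) (XT.lf (nat_lit 0) (nat_lit 2972505655) (nat_lit 1064) (nat_lit 1766878599) (nat_lit 76) (nat_lit 2045492564) (nat_lit 544) (nat_lit 5) (nat_lit 558) (nat_lit 5) (nat_lit 545) (nat_lit 5) (nat_lit 277) (nat_lit 255) (nat_lit 248)) (XT.lf (nat_lit 0) (nat_lit 395961951) (nat_lit 1140) (nat_lit 2499190986) (nat_lit 76) (nat_lit 3935015586) (nat_lit 529) (nat_lit 5) (nat_lit 544) (nat_lit 5) (nat_lit 530) (nat_lit 5) (nat_lit 278) (nat_lit 255) (nat_lit 247))))) (XT.nd (nat_lit 234) (nat_lit 6156) (nat_lit 0) (XT.nd (nat_lit 78) (nat_lit 2584) (nat_lit 0) (XT.lf (nat_lit 0) (nat_lit 3670395718) (nat_lit 1140) (nat_lit 907956056) (nat_lit 1216) (nat_lit 2300123105) (nat_lit 514) (nat_lit 5) (nat_lit 529) (nat_lit 5) (nat_lit 530) (nat_lit 5) (nat_lit 279) (nat_lit 255) (nat_lit 246)) (XT.nd (nat_lit 78) (nat_lit 1292) (nat_lit 0) (XT.lf (nat_lit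 0) (nat_lit 1842663646) (nat_lit 1292) (nat_lit 3891080727) (nat_lit 76) (nat_lit 1196169209) (nat_lit 497) (nat_lit 5) (nat_lit 514) (nat_lit 5) (nat_lit 498) (nat_lit 5) (nat_lit 280) (nat_lit 255) (nat_lit 245)) (XT.lf (nat_lit 0) (nat_lit 2432151461) (nat_lit 1292) (nat_lit 3559255606) (nat_lit 1368) (nat_lit 993066252) (nat_lit 480) (nat_lit 5) (nat_lit 497) (nat_lit 5) (nat_lit 498) (nat_lit 5) (nat_lit 281) (nat_lit 255) (nat_lit 244)))) (XT.nd (nat_lit 156) (nat_lit 3192) (nat_lit 0) (XT.nd (nat_lit 78) (nat_lit 1520) (nat_lit 0) (XT.lf (nat_lit 0) (nat_lit 1848567250) (nat_lit 1368) (nat_lit 1242749458) (nat_lit 1444) (nat_lit 3950875012) (nat_lit 461) (nat_lit 5) (nat_lit 479) (nat_lit 5) (nat_lit 480) (nat_lit 5) (nat_lit 282) (nat_lit 255) (nat_lit 243)) (XT.lf (nat_lit 0) (nat_lit 101357630) (nat_lit 1520) (nat_lit 5812122923) (nat_lit 76) (nat_lit 1189722608) (nat_lit 441) (nat_lit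 5) (nat_lit 461) (nat_lit 5) (nat_lit 442) (nat_lit 5) (nat_lit 283) (nat_lit 255) (nat_lit 242))) (XT.nd (nat_lit 78) (nat_lit 1672) (nat_lit 0) (XT.lf (nat_lit 0) (nat_lit 737171001) (nat_lit 1520) (nat_lit 3409380998) (nat_lit 1596) (nat_lit 3020592706) (nat_lit 421) (nat_lit 5) (nat_lit 441) (nat_lit 5) (nat_lit 442) (nat_lit 5) (nat_lit 284) (nat_lit 255) (nat_lit 241)) (XT.lf (nat_lit 0) (nat_lit 212293755) (nat_lit 1596) (nat_lit 772864278) (nat_lit 1672) (nat_lit 6249439237) (nat_lit 399) (nat_lit 5) (nat_lit 420) (nat_lit 5) (nat_lit 421) (nat_lit 5) (nat_lit 285) (nat_lit 255) (nat_lit 240)))))) (XT.nd (nat_lit 546) (nat_lit 5244) (nat_lit 0) (XT.nd (nat_lit 234) (nat_lit 3496) (nat_lit 0) (XT.nd (nat_lit 78) (nat_lit 3040) (nat_lit 0) (XT.lf (nat_lit 0) (nat_lit 5007822993) (nat_lit 1672) (nat_lit 308661338) (nat_lit 76) (nat_lit 1988548289) (nat_lit 399) (nat_lit 5) (nat_lit 421) (nat_lit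 5) (nat_lit 400) (nat_lit 5) (nat_lit 286) (nat_lit 255) (nat_lit 239)) (XT.nd (nat_lit 78) (nat_lit 1292) (nat_lit 0) (XT.lf (nat_lit 0) (nat_lit 1682173100) (nat_lit 1748) (nat_lit 813510416) (nat_lit 76) (nat_lit 4883138896) (nat_lit 376) (nat_lit 5) (nat_lit 399) (nat_lit 5) (nat_lit 377) (nat_lit 5) (nat_lit 287) (nat_lit 255) (nat_lit 238)) (XT.lf (nat_lit 0) (nat_lit 5681334705) (nat_lit 1368) (nat_lit 1309586884) (nat_lit 76) (nat_lit 465073932) (nat_lit 359) (nat_lit 5) (nat_lit 377) (nat_lit 5) (nat_lit 360) (nat_lit 5) (nat_lit 288) (nat_lit 255) (nat_lit 237)))) (XT.nd (nat_lit 156) (nat_lit 1748) (nat_lit 0) (XT.nd (nat_lit 78) (nat_lit 836) (nat_lit 0) (XT.lf (nat_lit 0) (nat_lit 2183289303) (nat_lit 912) (nat_lit 1812796325) (nat_lit 76) (nat_lit 3540244312) (nat_lit 347) (nat_lit 5) (nat_lit 359) (nat_lit 5) (nat_lit 348) (nat_lit 5) (nat_lit 289) (nat_lit 255) (nat_lit 236)) (XT.lf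 (nat_lit 0) (nat_lit 5313457433) (nat_lit 836) (nat_lit 856640897) (nat_lit 912) (nat_lit 1450154290) (nat_lit 336) (nat_lit 5) (nat_lit 347) (nat_lit 5) (nat_lit 348) (nat_lit 5) (nat_lit 290) (nat_lit 255) (nat_lit 235))) (XT.nd (nat_lit 78) (nat_lit 836) (nat_lit 0) (XT.lf (nat_lit 0) (nat_lit 2488505042) (nat_lit 912) (nat_lit 2814761275) (nat_lit 76) (nat_lit 2404137932) (nat_lit 324) (nat_lit 5) (nat_lit 336) (nat_lit 5) (nat_lit 325) (nat_lit 5) (nat_lit 291) (nat_lit 255) (nat_lit 234)) (XT.lf (nat_lit 0) (nat_lit 4474863421) (nat_lit 836) (nat_lit 1996130495) (nat_lit 912) (nat_lit 1327167432) (nat_lit 313) (nat_lit 5) (nat_lit 324) (nat_lit 5) (nat_lit 325) (nat_lit 5) (nat_lit 292) (nat_lit 255) (nat_lit 233))))) (XT.nd (nat_lit 234) (nat_lit 2888) (nat_lit 0) (XT.nd (nat_lit 78) (nat_lit 1520) (nat_lit 0) (XT.lf (nat_lit 0) (nat_lit 2597537732) (nat_lit 836) (nat_lit 3846709613) (nat_lit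 76) (nat_lit 1448103618) (nat_lit 302) (nat_lit 5) (nat_lit 313) (nat_lit 5) (nat_lit 303) (nat_lit 5) (nat_lit 293) (nat_lit 255) (nat_lit 232)) (XT.nd (nat_lit 78) (nat_lit 760) (nat_lit 0) (XT.lf (nat_lit 0) (nat_lit 3606141172) (nat_lit 760) (nat_lit 2973939195) (nat_lit 836) (nat_lit 1410031131) (nat_lit 292) (nat_lit 5) (nat_lit 302) (nat_lit 5) (nat_lit 303) (nat_lit 5) (nat_lit 294) (nat_lit 255) (nat_lit 231)) (XT.lf (nat_lit 0) (nat_lit 2508408631) (nat_lit 760) (nat_lit 4937090835) (nat_lit 76) (nat_lit 646026128) (nat_lit 282) (nat_lit 5) (nat_lit 292) (nat_lit 5) (nat_lit 283) (nat_lit 5) (nat_lit 295) (nat_lit 255) (nat_lit 230)))) (XT.nd (nat_lit 156) (nat_lit 1368) (nat_lit 0) (XT.nd (nat_lit 78) (nat_lit 760) (nat_lit 0) (XT.lf (nat_lit 0) (nat_lit 2678453283) (nat_lit 760) (nat_lit 3816315279) (nat_lit 836) (nat_lit 1701713584) (nat_lit 272) (nat_lit 5) (nat_lit 282) (nat_lit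 5) (nat_lit 283) (nat_lit 5) (nat_lit 296) (nat_lit 255) (nat_lit 229)) (XT.lf (nat_lit 0) (nat_lit 2189380047) (nat_lit 684) (nat_lit 28194809) (nat_lit 760) (nat_lit 6087756447) (nat_lit 262) (nat_lit 5) (nat_lit 271) (nat_lit 5) (nat_lit 272) (nat_lit 5) (nat_lit 297) (nat_lit 255) (nat_lit 228))) (XT.nd (nat_lit 78) (nat_lit 684) (nat_lit 0) (XT.lf (nat_lit 0) (nat_lit 1661455032) (nat_lit 684) (nat_lit 4549249330) (nat_lit 760) (nat_lit 2207000042) (nat_lit 253) (nat_lit 5) (nat_lit 262) (nat_lit 5) (nat_lit 263) (nat_lit 5) (nat_lit 298) (nat_lit 255) (nat_lit 227)) (XT.lf (nat_lit 0) (nat_lit 1115914724) (nat_lit 608) (nat_lit 606974289) (nat_lit 684) (nat_lit 6811271110) (nat_lit 244) (nat_lit 5) (nat_lit 252) (nat_lit 5) (nat_lit 253) (nat_lit 5) (nat_lit 299) (nat_lit 255) (nat_lit 226))))))))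
noncomputable def xc42 : XT := (XT.nd (nat_lit 2106) (nat_lit 4864) (nat_lit 0) (XT.nd (nat_lit 1014) (nat_lit 4940) (nat_lit 0) (XT.nd (nat_lit 468) (nat_lit 3192) (nat_lit 0) (XT.nd (nat_lit 234) (nat_lit 1748) (nat_lit 0) (XT.nd (nat_lit 78) (nat_lit 684) (nat_lit 0) (XT.lf (nat_lit 0) (nat_lit 522999928) (nat_lit 608) (nat_lit 5198696157) (nat_lit 684) (nat_lit 2932567231) (nat_lit 236) (nat_lit 5) (nat_lit 244) (nat_lit 5) (nat_lit 245) (nat_lit 5) (nat_lit 300) (nat_lit 255) (nat_lit 225)) (XT.nd (nat_lit 78) (nat_lit 608) (nat_lit 0) (XT.lf (nat_lit 0) (nat_lit 1013451383) (nat_lit 684) (nat_lit 93606981) (nat_lit 76) (nat_lit 7671538024) (nat_lit 235) (nat_lit 5) (nat_lit 244) (nat_lit 5) (nat_lit 236) (nat_lit 5) (nat_lit 301) (nat_lit 255) (nat_lit 224)) (XT.lf (nat_lit 0) (nat_lit 5024632864) (nat_lit 684) (nat_lit 761061569) (nat_lit 76) (nat_lit 3120905544) (nat_lit 227) (nat_lit 5)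 (nat_lit 236) (nat_lit 5) (nat_lit 228) (nat_lit 5) (nat_lit 302) (nat_lit 255) (nat_lit 223)))) (XT.nd (nat_lit 78) (nat_lit 1064) (nat_lit 0) (XT.lf (nat_lit 0) (nat_lit 87756598) (nat_lit 684) (nat_lit 1459030037) (nat_lit 76) (nat_lit 7492267646) (nat_lit 218) (nat_lit 5) (nat_lit 227) (nat_lit 5) (nat_lit 219) (nat_lit 5) (nat_lit 303) (nat_lit 255) (nat_lit 222)) (XT.nd (nat_lit 78) (nat_lit 532) (nat_lit 0) (XT.lf (nat_lit 0) (nat_lit 4109003035) (nat_lit 608) (nat_lit 2228180498) (nat_lit 76) (nat_lit 2838138145) (nat_lit 211) (nat_lit 5) (nat_lit 219) (nat_lit 5) (nat_lit 212) (nat_lit 5) (nat_lit 304) (nat_lit 255) (nat_lit 221)) (XT.lf (nat_lit 0) (nat_lit 6276482883) (nat_lit 532) (nat_lit 1952869912) (nat_lit 608) (nat_lit 1086809441) (nat_lit 204) (nat_lit 5) (nat_lit 211) (nat_lit 5) (nat_lit 212) (nat_lit 5) (nat_lit 305) (nat_lit 255) (nat_lit 220))))) (XT.nd (nat_lit 234) (nat_lit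 1520) (nat_lit 0) (XT.nd (nat_lit 78) (nat_lit 1064) (nat_lit 0) (XT.lf (nat_lit 0) (nat_lit 2959361864) (nat_lit 608) (nat_lit 3924240272) (nat_lit 76) (nat_lit 2577550967) (nat_lit 196) (nat_lit 5) (nat_lit 204) (nat_lit 5) (nat_lit 197) (nat_lit 5) (nat_lit 306) (nat_lit 255) (nat_lit 219)) (XT.nd (nat_lit 78) (nat_lit 532) (nat_lit 0) (XT.lf (nat_lit 0) (nat_lit 4739392065) (nat_lit 532) (nat_lit 2357523359) (nat_lit 608) (nat_lit 2513789669) (nat_lit 189) (nat_lit 5) (nat_lit 196) (nat_lit 5) (nat_lit 197) (nat_lit 5) (nat_lit 307) (nat_lit 255) (nat_lit 218)) (XT.lf (nat_lit 0) (nat_lit 1561381416) (nat_lit 532) (nat_lit 5891442408) (nat_lit 76) (nat_lit 2311992093) (nat_lit 182) (nat_lit 5) (nat_lit 189) (nat_lit 5) (nat_lit 183) (nat_lit 5) (nat_lit 308) (nat_lit 255) (nat_lit 217)))) (XT.nd (nat_lit 156) (nat_lit 532) (nat_lit 0) (XT.nd (nat_lit 78) (nat_lit 456) (nat_lit 0) (XT.lf (nat_lit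 0) (nat_lit 2926003286) (nat_lit 532) (nat_lit 2789510477) (nat_lit 608) (nat_lit 4207933314) (nat_lit 175) (nat_lit 5) (nat_lit 182) (nat_lit 5) (nat_lit 183) (nat_lit 5) (nat_lit 309) (nat_lit 255) (nat_lit 216)) (XT.lf (nat_lit 0) (nat_lit 1910826795) (nat_lit 456) (nat_lit 8073201486) (nat_lit 532) (nat_lit 103058880) (nat_lit 169) (nat_lit 5) (nat_lit 175) (nat_lit 5) (nat_lit 176) (nat_lit 5) (nat_lit 310) (nat_lit 255) (nat_lit 215))) (XT.nd (nat_lit 78) (nat_lit 0) (nat_lit 0) (XT.lf (nat_lit 0) (nat_lit 789207843) (nat_lit 456) (nat_lit 3278269210) (nat_lit 532) (nat_lit 6187734435) (nat_lit 162) (nat_lit 5) (nat_lit 168) (nat_lit 5) (nat_lit 169) (nat_lit 5) (nat_lit 311) (nat_lit 255) (nat_lit 214)) (XT.lf (nat_lit 0) (nat_lit 8354739216) (nat_lit 532) (nat_lit 406042588) (nat_lit 76) (nat_lit 1667765637) (nat_lit 162) (nat_lit 5) (nat_lit 169) (nat_lit 5) (nat_lit 163) (nat_lit 5) (nat_lit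 312) (nat_lit 255) (nat_lit 213)))))) (XT.nd (nat_lit 546) (nat_lit 2204) (nat_lit 0) (XT.nd (nat_lit 234) (nat_lit 1368) (nat_lit 0) (XT.nd (nat_lit 78) (nat_lit 836) (nat_lit 0) (XT.lf (nat_lit 0) (nat_lit 2143614297) (nat_lit 532) (nat_lit 1699766269) (nat_lit 76) (nat_lit 6763292607) (nat_lit 155) (nat_lit 5) (nat_lit 162) (nat_lit 5) (nat_lit 156) (nat_lit 5) (nat_lit 313) (nat_lit 255) (nat_lit 212)) (XT.nd (nat_lit 78) (nat_lit 380) (nat_lit 0) (XT.lf (nat_lit 0) (nat_lit 6450049564) (nat_lit 532) (nat_lit 3095458396) (nat_lit 76) (nat_lit 1244585820) (nat_lit 149) (nat_lit 5) (nat_lit 156) (nat_lit 5) (nat_lit 150) (nat_lit 5) (nat_lit 314) (nat_lit 255) (nat_lit 211)) (XT.lf (nat_lit 0) (nat_lit 6374676989) (nat_lit 380) (nat_lit 4520457785) (nat_lit 456) (nat_lit 83730531) (nat_lit 144) (nat_lit 5) (nat_lit 149) (nat_lit 5) (nat_lit 150) (nat_lit 5) (nat_lit 315) (nat_lit 255) (nat_lit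 210)))) (XT.nd (nat_lit 156) (nat_lit 456) (nat_lit 0) (XT.nd (nat_lit 78) (nat_lit 380) (nat_lit 0) (XT.lf (nat_lit 0) (nat_lit 4233318190) (nat_lit 532) (nat_lit 6240423779) (nat_lit 76) (nat_lit 699246346) (nat_lit 137) (nat_lit 5) (nat_lit 144) (nat_lit 5) (nat_lit 138) (nat_lit 5) (nat_lit 316) (nat_lit 255) (nat_lit 209)) (XT.lf (nat_lit 0) (nat_lit 3361785011) (nat_lit 380) (nat_lit 5333274005) (nat_lit 456) (nat_lit 2677573163) (nat_lit 132) (nat_lit 5) (nat_lit 137) (nat_lit 5) (nat_lit 138) (nat_lit 5) (nat_lit 317) (nat_lit 255) (nat_lit 208))) (XT.nd (nat_lit 78) (nat_lit 0) (nat_lit 0) (XT.lf (nat_lit 0) (nat_lit 1673841754) (nat_lit 380) (nat_lit 3234404) (nat_lit 456) (nat_lit 9901256817) (nat_lit 126) (nat_lit 5) (nat_lit 131) (nat_lit 5) (nat_lit 132) (nat_lit 5) (nat_lit 318) (nat_lit 255) (nat_lit 207)) (XT.lf (nat_lit 0) (nat_lit 6151290658) (nat_lit 456) (nat_lit 180621483)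 (nat_lit 76) (nat_lit 5457464579) (nat_lit 126) (nat_lit 5) (nat_lit 132) (nat_lit 5) (nat_lit 127) (nat_lit 5) (nat_lit 319) (nat_lit 255) (nat_lit 206))))) (XT.nd (nat_lit 234) (nat_lit 1140) (nat_lit 0) (XT.nd (nat_lit 78) (nat_lit 760) (nat_lit 0) (XT.lf (nat_lit 0) (nat_lit 9870868403) (nat_lit 304) (nat_lit 889700417) (nat_lit 380) (nat_lit 1246197254) (nat_lit 122) (nat_lit 5) (nat_lit 126) (nat_lit 5) (nat_lit 127) (nat_lit 5) (nat_lit 320) (nat_lit 255) (nat_lit 205)) (XT.nd (nat_lit 78) (nat_lit 304) (nat_lit 0) (XT.lf (nat_lit 0) (nat_lit 3255993655) (nat_lit 456) (nat_lit 4275079473) (nat_lit 76) (nat_lit 4698777343) (nat_lit 116) (nat_lit 5) (nat_lit 122) (nat_lit 5) (nat_lit 117) (nat_lit 5) (nat_lit 321) (nat_lit 255) (nat_lit 204)) (XT.lf (nat_lit 0) (nat_lit 5888481343) (nat_lit 304) (nat_lit 1985248591) (nat_lit 380) (nat_lit 4585813191) (nat_lit 112) (nat_lit 5) (nat_lit 116)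 (nat_lit 5) (nat_lit 117) (nat_lit 5) (nat_lit 322) (nat_lit 255) (nat_lit 203)))) (XT.nd (nat_lit 156) (nat_lit 380) (nat_lit 0) (XT.nd (nat_lit 78) (nat_lit 380) (nat_lit 0) (XT.lf (nat_lit 0) (nat_lit 3651459875) (nat_lit 380) (nat_lit 8995167875) (nat_lit 456) (nat_lit 49194069) (nat_lit 107) (nat_lit 5) (nat_lit 112) (nat_lit 5) (nat_lit 113) (nat_lit 5) (nat_lit 323) (nat_lit 255) (nat_lit 202)) (XT.lf (nat_lit 0) (nat_lit 1213340166) (nat_lit 304) (nat_lit 3355838180) (nat_lit 380) (nat_lit 8369310792) (nat_lit 102) (nat_lit 5) (nat_lit 106) (nat_lit 5) (nat_lit 107) (nat_lit 5) (nat_lit 324) (nat_lit 255) (nat_lit 201))) (XT.nd (nat_lit 78) (nat_lit 380) (nat_lit 0) (XT.lf (nat_lit 0) (nat_lit 9344323823) (nat_lit 380) (nat_lit 1392095650) (nat_lit 76) (nat_lit 2451658432) (nat_lit 102) (nat_lit 5) (nat_lit 107) (nat_lit 5) (nat_lit 103) (nat_lit 5) (nat_lit 325) (nat_lit 255) (nat_lit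 200)) (XT.lf (nat_lit 0) (nat_lit 832546567) (nat_lit 380) (nat_lit 4188322765) (nat_lit 76) (nat_lit 8423689338) (nat_lit 97) (nat_lit 5) (nat_lit 102) (nat_lit 5) (nat_lit 98) (nat_lit 5) (nat_lit 326) (nat_lit 255) (nat_lit 199))))))) (XT.nd (nat_lit 1014) (nat_lit 1976) (nat_lit 0) (XT.nd (nat_lit 468) (nat_lit 1368) (nat_lit 0) (XT.nd (nat_lit 234) (nat_lit 608) (nat_lit 0) (XT.nd (nat_lit 78) (nat_lit 608) (nat_lit 0) (XT.lf (nat_lit 0) (nat_lit 5598570101) (nat_lit 380) (nat_lit 7207670863) (nat_lit 76) (nat_lit 901975423) (nat_lit 93) (nat_lit 5) (nat_lit 98) (nat_lit 5) (nat_lit 94) (nat_lit 5) (nat_lit 327) (nat_lit 255) (nat_lit 198)) (XT.nd (nat_lit 78) (nat_lit 304) (nat_lit 0) (XT.lf (nat_lit 0) (nat_lit 3513504529) (nat_lit 304) (nat_lit 7023591919) (nat_lit 380) (nat_lit 3442120036) (nat_lit 89) (nat_lit 5) (nat_lit 93) (nat_lit 5) (nat_lit 94) (nat_lit 5) (nat_lit 328) (nat_lit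 255) (nat_lit 197)) (XT.lf (nat_lit 0) (nat_lit 306087611) (nat_lit 228) (nat_lit 1037829383) (nat_lit 304) (nat_lit 12914346404) (nat_lit 85) (nat_lit 5) (nat_lit 88) (nat_lit 5) (nat_lit 89) (nat_lit 5) (nat_lit 329) (nat_lit 255) (nat_lit 196)))) (XT.nd (nat_lit 78) (nat_lit 608) (nat_lit 0) (XT.lf (nat_lit 0) (nat_lit 6277797931) (nat_lit 304) (nat_lit 3142580972) (nat_lit 76) (nat_lit 5123848551) (nat_lit 85) (nat_lit 5) (nat_lit 89) (nat_lit 5) (nat_lit 86) (nat_lit 5) (nat_lit 330) (nat_lit 255) (nat_lit 195)) (XT.nd (nat_lit 78) (nat_lit 304) (nat_lit 0) (XT.lf (nat_lit 0) (nat_lit 8006026496) (nat_lit 304) (nat_lit 3360241441) (nat_lit 380) (nat_lit 3472391759) (nat_lit 81) (nat_lit 5) (nat_lit 85) (nat_lit 5) (nat_lit 86) (nat_lit 5) (nat_lit 331) (nat_lit 255) (nat_lit 194)) (XT.lf (nat_lit 0) (nat_lit 1463146761) (nat_lit 304) (nat_lit 10805310452) (nat_lit 76) (nat_lit 2872959124)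 (nat_lit 77) (nat_lit 5) (nat_lit 81) (nat_lit 5) (nat_lit 78) (nat_lit 5) (nat_lit 332) (nat_lit 255) (nat_lit 193))))) (XT.nd (nat_lit 234) (nat_lit 760) (nat_lit 0) (XT.nd (nat_lit 78) (nat_lit 304) (nat_lit 0) (XT.lf (nat_lit 0) (nat_lit 357610466) (nat_lit 304) (nat_lit 6162697282) (nat_lit 380) (nat_lit 8932093373) (nat_lit 73) (nat_lit 5) (nat_lit 77) (nat_lit 5) (nat_lit 78) (nat_lit 5) (nat_lit 333) (nat_lit 255) (nat_lit 192)) (XT.nd (nat_lit 78) (nat_lit 304) (nat_lit 0) (XT.lf (nat_lit 0) (nat_lit 11753530082) (nat_lit 380) (nat_lit 3850899923) (nat_lit 76) (nat_lit 167817099) (nat_lit 73) (nat_lit 5) (nat_lit 78) (nat_lit 5) (nat_lit 74) (nat_lit 5) (nat_lit 334) (nat_lit 255) (nat_lit 191)) (XT.lf (nat_lit 0) (nat_lit 1071218368) (nat_lit 304) (nat_lit 8396967137) (nat_lit 76) (nat_lit 6632528847) (nat_lit 69) (nat_lit 5) (nat_lit 73) (nat_lit 5) (nat_lit 70) (nat_lit 5) (nat_lit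 335) (nat_lit 255) (nat_lit 190)))) (XT.nd (nat_lit 156) (nat_lit 532) (nat_lit 0) (XT.nd (nat_lit 78) (nat_lit 0) (nat_lit 0) (XT.lf (nat_lit 0) (nat_lit 3154901091) (nat_lit 228) (nat_lit 3103276711) (nat_lit 304) (nat_lit 10180365224) (nat_lit 66) (nat_lit 5) (nat_lit 69) (nat_lit 5) (nat_lit 70) (nat_lit 5) (nat_lit 336) (nat_lit 255) (nat_lit 189)) (XT.lf (nat_lit 0) (nat_lit 11633005637) (nat_lit 304) (nat_lit 1718047011) (nat_lit 76) (nat_lit 3434825397) (nat_lit 66) (nat_lit 5) (nat_lit 70) (nat_lit 5) (nat_lit 67) (nat_lit 5) (nat_lit 337) (nat_lit 255) (nat_lit 188))) (XT.nd (nat_lit 78) (nat_lit 228) (nat_lit 0) (XT.lf (nat_lit 0) (nat_lit 66501806) (nat_lit 304) (nat_lit 6911179104) (nat_lit 76) (nat_lit 10165136965) (nat_lit 62) (nat_lit 5) (nat_lit 66) (nat_lit 5) (nat_lit 63) (nat_lit 5) (nat_lit 338) (nat_lit 255) (nat_lit 187)) (XT.lf (nat_lit 0) (nat_lit 5008993532) (nat_lit 228)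 (nat_lit 362585597) (nat_lit 304) (nat_lit 12138238388) (nat_lit 59) (nat_lit 5) (nat_lit 62) (nat_lit 5) (nat_lit 63) (nat_lit 5) (nat_lit 339) (nat_lit 255) (nat_lit 186)))))) (XT.nd (nat_lit 546) (nat_lit 988) (nat_lit 0) (XT.nd (nat_lit 234) (nat_lit 456) (nat_lit 0) (XT.nd (nat_lit 78) (nat_lit 532) (nat_lit 0) (XT.lf (nat_lit 0) (nat_lit 10879978599) (nat_lit 304) (nat_lit 622471068) (nat_lit 76) (nat_lit 6384509046) (nat_lit 59) (nat_lit 5) (nat_lit 63) (nat_lit 5) (nat_lit 60) (nat_lit 5) (nat_lit 340) (nat_lit 255) (nat_lit 185)) (XT.nd (nat_lit 78) (nat_lit 304) (nat_lit 0) (XT.lf (nat_lit 0) (nat_lit 11690549630) (nat_lit 228) (nat_lit 4897857916) (nat_lit 304) (nat_lit 1686325574) (nat_lit 56) (nat_lit 5) (nat_lit 59) (nat_lit 5) (nat_lit 60) (nat_lit 5) (nat_lit 341) (nat_lit 255) (nat_lit 184)) (XT.lf (nat_lit 0) (nat_lit 3754922484) (nat_lit 304) (nat_lit 13000976519) (nat_lit 76)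 (nat_lit 1917548282) (nat_lit 52) (nat_lit 5) (nat_lit 56) (nat_lit 5) (nat_lit 53) (nat_lit 5) (nat_lit 342) (nat_lit 255) (nat_lit 183)))) (XT.nd (nat_lit 156) (nat_lit 304) (nat_lit 0) (XT.nd (nat_lit 78) (nat_lit 152) (nat_lit 0) (XT.lf (nat_lit 0) (nat_lit 9371860236) (nat_lit 304) (nat_lit 812102277) (nat_lit 76) (nat_lit 8899243595) (nat_lit 52) (nat_lit 5) (nat_lit 56) (nat_lit 5) (nat_lit 53) (nat_lit 5) (nat_lit 343) (nat_lit 255) (nat_lit 182)) (XT.lf (nat_lit 0) (nat_lit 11828154033) (nat_lit 152) (nat_lit 3364750332) (nat_lit 228) (nat_lit 4311654401) (nat_lit 50) (nat_lit 5) (nat_lit 52) (nat_lit 5) (nat_lit 53) (nat_lit 5) (nat_lit 344) (nat_lit 255) (nat_lit 181))) (XT.nd (nat_lit 78) (nat_lit 0) (nat_lit 0) (XT.lf (nat_lit 0) (nat_lit 1254190881) (nat_lit 304) (nat_lit 15054679483) (nat_lit 76) (nat_lit 3629120574) (nat_lit 46) (nat_lit 5) (nat_lit 50) (nat_lit 5) (nat_lit 47)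 (nat_lit 5) (nat_lit 345) (nat_lit 255) (nat_lit 180)) (XT.lf (nat_lit 0) (nat_lit 6963475264) (nat_lit 304) (nat_lit 2578525271) (nat_lit 76) (nat_lit 10841166740) (nat_lit 46) (nat_lit 5) (nat_lit 50) (nat_lit 5) (nat_lit 47) (nat_lit 5) (nat_lit 346) (nat_lit 255) (nat_lit 179))))) (XT.nd (nat_lit 234) (nat_lit 532) (nat_lit 0) (XT.nd (nat_lit 78) (nat_lit 304) (nat_lit 0) (XT.lf (nat_lit 0) (nat_lit 10341176353) (nat_lit 152) (nat_lit 2531017679) (nat_lit 228) (nat_lit 7968953444) (nat_lit 44) (nat_lit 5) (nat_lit 46) (nat_lit 5) (nat_lit 47) (nat_lit 5) (nat_lit 347) (nat_lit 255) (nat_lit 178)) (XT.nd (nat_lit 78) (nat_lit 76) (nat_lit 0) (XT.lf (nat_lit 0) (nat_lit 2305020819) (nat_lit 228) (nat_lit 16677710710) (nat_lit 304) (nat_lit 2329655763) (nat_lit 41) (nat_lit 5) (nat_lit 44) (nat_lit 5) (nat_lit 45) (nat_lit 5) (nat_lit 348) (nat_lit 255) (nat_lit 177)) (XT.lf (nat_lit 0) (nat_lit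 3483732325) (nat_lit 304) (nat_lit 6263772929) (nat_lit 76) (nat_lit 12048807381) (nat_lit 40) (nat_lit 5) (nat_lit 44) (nat_lit 5) (nat_lit 41) (nat_lit 5) (nat_lit 349) (nat_lit 255) (nat_lit 176)))) (XT.nd (nat_lit 156) (nat_lit 380) (nat_lit 0) (XT.nd (nat_lit 78) (nat_lit 0) (nat_lit 0) (XT.lf (nat_lit 0) (nat_lit 6873260618) (nat_lit 152) (nat_lit 2574512349) (nat_lit 228) (nat_lit 12846527244) (nat_lit 38) (nat_lit 5) (nat_lit 40) (nat_lit 5) (nat_lit 41) (nat_lit 5) (nat_lit 350) (nat_lit 255) (nat_lit 175)) (XT.lf (nat_lit 0) (nat_lit 15628310200) (nat_lit 228) (nat_lit 2410736730) (nat_lit 76) (nat_lit 4767439164) (nat_lit 38) (nat_lit 5) (nat_lit 41) (nat_lit 5) (nat_lit 39) (nat_lit 5) (nat_lit 351) (nat_lit 255) (nat_lit 174))) (XT.nd (nat_lit 78) (nat_lit 228) (nat_lit 0) (XT.lf (nat_lit 0) (nat_lit 11056532484) (nat_lit 152) (nat_lit 10991390071) (nat_lit 228) (nat_lit 1285051704)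 (nat_lit 36) (nat_lit 5) (nat_lit 38) (nat_lit 5) (nat_lit 39) (nat_lit 5) (nat_lit 352) (nat_lit 255) (nat_lit 173)) (XT.lf (nat_lit 0) (nat_lit 1007308063) (nat_lit 152) (nat_lit 3702843383) (nat_lit 228) (nat_lit 19164732915) (nat_lit 33) (nat_lit 5) (nat_lit 35) (nat_lit 5) (nat_lit 36) (nat_lit 5) (nat_lit 353) (nat_lit 255) (nat_lit 172))))))))
noncomputable def xc43 : XT := (XT.nd (nat_lit 35334) (nat_lit 0) (nat_lit 10488) (XT.nd (nat_lit 34242) (nat_lit 0) (nat_lit 30096) (XT.nd (nat_lit 468) (nat_lit 152) (nat_lit 0) (XT.nd (nat_lit 234) (nat_lit 380) (nat_lit 0) (XT.nd (nat_lit 78) (nat_lit 152) (nat_lit 0) (XT.lf (nat_lit 0) (nat_lit 10941813441) (nat_lit 228) (nat_lit 9667784593) (nat_lit 76) (nat_lit 3821811754) (nat_lit 33) (nat_lit 5) (nat_lit 36) (nat_lit 5) (nat_lit 34) (nat_lit 5) (nat_lit 354) (nat_lit 255) (nat_lit 171)) (XT.nd (nat_lit 78) (nat_lit 0) (nat_lit 0) (XT.lf (nat_lit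 0) (nat_lit 3895922553) (nat_lit 152) (nat_lit 13481086082) (nat_lit 228) (nat_lit 7627299547) (nat_lit 31) (nat_lit 5) (nat_lit 33) (nat_lit 5) (nat_lit 34) (nat_lit 5) (nat_lit 355) (nat_lit 255) (nat_lit 170)) (XT.lf (nat_lit 0) (nat_lit 17941411255) (nat_lit 152) (nat_lit 6096488147) (nat_lit 228) (nat_lit 1555849945) (nat_lit 31) (nat_lit 5) (nat_lit 33) (nat_lit 5) (nat_lit 34) (nat_lit 5) (nat_lit 356) (nat_lit 255) (nat_lit 169)))) (XT.nd (nat_lit 78) (nat_lit 152) (nat_lit 0) (XT.lf (nat_lit 0) (nat_lit 4654378401) (nat_lit 228) (nat_lit 20008218103) (nat_lit 76) (nat_lit 1537310485) (nat_lit 28) (nat_lit 5) (nat_lit 31) (nat_lit 5) (nat_lit 29) (nat_lit 5) (nat_lit 357) (nat_lit 255) (nat_lit 168)) (XT.nd (nat_lit 78) (nat_lit 152) (nat_lit 0) (XT.lf (nat_lit 0) (nat_lit 11091152351) (nat_lit 228) (nat_lit 6374745214) (nat_lit 76) (nat_lit 9356926538) (nat_lit 28) (nat_lit 5) (nat_lit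 31) (nat_lit 5) (nat_lit 29) (nat_lit 5) (nat_lit 358) (nat_lit 255) (nat_lit 167)) (XT.lf (nat_lit 0) (nat_lit 7714739188) (nat_lit 152) (nat_lit 10025591357) (nat_lit 228) (nat_lit 9723719893) (nat_lit 26) (nat_lit 5) (nat_lit 28) (nat_lit 5) (nat_lit 29) (nat_lit 5) (nat_lit 359) (nat_lit 255) (nat_lit 166))))) (XT.nd (nat_lit 33462) (nat_lit 0) (nat_lit 43928) (XT.nd (nat_lit 78) (nat_lit 152) (nat_lit 0) (XT.lf (nat_lit 0) (nat_lit 22260872667) (nat_lit 152) (nat_lit 2341071249) (nat_lit 228) (nat_lit 3522317953) (nat_lit 26) (nat_lit 5) (nat_lit 28) (nat_lit 5) (nat_lit 29) (nat_lit 5) (nat_lit 360) (nat_lit 255) (nat_lit 165)) (XT.nd (nat_lit 78) (nat_lit 0) (nat_lit 0) (XT.lf (nat_lit 0) (nat_lit 2889577261) (nat_lit 152) (nat_lit 20360358266) (nat_lit 76) (nat_lit 5552738654) (nat_lit 24) (nat_lit 5) (nat_lit 26) (nat_lit 5) (nat_lit 25) (nat_lit 5) (nat_lit 361) (nat_lit 255) (nat_lit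 164)) (XT.lf (nat_lit 0) (nat_lit 9472723669) (nat_lit 152) (nat_lit 6334405968) (nat_lit 76) (nat_lit 13693315532) (nat_lit 24) (nat_lit 5) (nat_lit 26) (nat_lit 5) (nat_lit 25) (nat_lit 5) (nat_lit 362) (nat_lit 255) (nat_lit 163)))) (XT.nd (nat_lit 156) (nat_lit 1292) (nat_lit 0) (XT.nd (nat_lit 78) (nat_lit 0) (nat_lit 0) (XT.lf (nat_lit 0) (nat_lit 43181193) (nat_lit 532) (nat_lit 3170446699) (nat_lit 0) (nat_lit 43181193) (nat_lit 619) (nat_lit 5) (nat_lit 626) (nat_lit 4) (nat_lit 619) (nat_lit 4) (nat_lit 268) (nat_lit 256) (nat_lit 256)) (XT.lf (nat_lit 0) (nat_lit 4576250244) (nat_lit 532) (nat_lit 1032973730) (nat_lit 0) (nat_lit 923594915) (nat_lit 619) (nat_lit 5) (nat_lit 626) (nat_lit 4) (nat_lit 619) (nat_lit 4) (nat_lit 269) (nat_lit 256) (nat_lit 255))) (XT.nd (nat_lit 78) (nat_lit 684) (nat_lit 0) (XT.lf (nat_lit 0) (nat_lit 2481499482) (nat_lit 608) (nat_lit 2186293686) (nat_lit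 76) (nat_lit 1887311221) (nat_lit 611) (nat_lit 5) (nat_lit 619) (nat_lit 5) (nat_lit 612) (nat_lit 4) (nat_lit 270) (nat_lit 256) (nat_lit 254)) (XT.lf (nat_lit 0) (nat_lit 313295374) (nat_lit 684) (nat_lit 3290515303) (nat_lit 76) (nat_lit 2976716208) (nat_lit 602) (nat_lit 5) (nat_lit 611) (nat_lit 5) (nat_lit 603) (nat_lit 5) (nat_lit 271) (nat_lit 256) (nat_lit 253)))))) (XT.nd (nat_lit 546) (nat_lit 8284) (nat_lit 0) (XT.nd (nat_lit 234) (nat_lit 3192) (nat_lit 0) (XT.nd (nat_lit 78) (nat_lit 1672) (nat_lit 0) (XT.lf (nat_lit 0) (nat_lit 2248960128) (nat_lit 684) (nat_lit 2403327374) (nat_lit 760) (nat_lit 1956565809) (nat_lit 593) (nat_lit 5) (nat_lit 602) (nat_lit 5) (nat_lit 603) (nat_lit 5) (nat_lit 272) (nat_lit 256) (nat_lit 252)) (XT.nd (nat_lit 78) (nat_lit 836) (nat_lit 0) (XT.lf (nat_lit 0) (nat_lit 1254488936) (nat_lit 760) (nat_lit 1075566629) (nat_lit 836) (nat_lit 4310254267)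 (nat_lit 582) (nat_lit 5) (nat_lit 592) (nat_lit 5) (nat_lit 593) (nat_lit 5) (nat_lit 273) (nat_lit 256) (nat_lit 251)) (XT.lf (nat_lit 0) (nat_lit 304250202) (nat_lit 836) (nat_lit 6300813182) (nat_lit 912) (nat_lit 69842077) (nat_lit 571) (nat_lit 5) (nat_lit 582) (nat_lit 5) (nat_lit 583) (nat_lit 5) (nat_lit 274) (nat_lit 256) (nat_lit 250)))) (XT.nd (nat_lit 156) (nat_lit 2128) (nat_lit 0) (XT.nd (nat_lit 78) (nat_lit 988) (nat_lit 0) (XT.lf (nat_lit 0) (nat_lit 4140421910) (nat_lit 912) (nat_lit 616151803) (nat_lit 76) (nat_lit 1955599777) (nat_lit 570) (nat_lit 5) (nat_lit 582) (nat_lit 5) (nat_lit 571) (nat_lit 5) (nat_lit 275) (nat_lit 256) (nat_lit 249)) (XT.lf (nat_lit 0) (nat_lit 1595532156) (nat_lit 988) (nat_lit 1490219545) (nat_lit 76) (nat_lit 3666885617) (nat_lit 557) (nat_lit 5) (nat_lit 570) (nat_lit 5) (nat_lit 558) (nat_lit 5) (nat_lit 276) (nat_lit 256) (nat_lit 248))) (XT.nd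 (nat_lit 78) (nat_lit 1140) (nat_lit 0) (XT.lf (nat_lit 0) (nat_lit 4466071466) (nat_lit 988) (nat_lit 1281865624) (nat_lit 1064) (nat_lit 1048296749) (nat_lit 544) (nat_lit 5) (nat_lit 557) (nat_lit 5) (nat_lit 558) (nat_lit 5) (nat_lit 277) (nat_lit 256) (nat_lit 247)) (XT.lf (nat_lit 0) (nat_lit 3044453030) (nat_lit 1140) (nat_lit 3145937886) (nat_lit 76) (nat_lit 652437186) (nat_lit 529) (nat_lit 5) (nat_lit 544) (nat_lit 5) (nat_lit 530) (nat_lit 5) (nat_lit 278) (nat_lit 256) (nat_lit 246))))) (XT.nd (nat_lit 234) (nat_lit 4484) (nat_lit 0) (XT.nd (nat_lit 78) (nat_lit 2584) (nat_lit 0) (XT.lf (nat_lit 0) (nat_lit 260845504) (nat_lit 1216) (nat_lit 3933323669) (nat_lit 76) (nat_lit 2698402128) (nat_lit 513) (nat_lit 5) (nat_lit 529) (nat_lit 5) (nat_lit 514) (nat_lit 5) (nat_lit 279) (nat_lit 256) (nat_lit 245)) (XT.nd (nat_lit 78) (nat_lit 1368) (nat_lit 0) (XT.lf (nat_lit 0) (nat_lit 2242730639)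 (nat_lit 1216) (nat_lit 2053395174) (nat_lit 1292) (nat_lit 2649201476) (nat_lit 497) (nat_lit 5) (nat_lit 513) (nat_lit 5) (nat_lit 514) (nat_lit 5) (nat_lit 280) (nat_lit 256) (nat_lit 244)) (XT.lf (nat_lit 0) (nat_lit 1343833308) (nat_lit 1368) (nat_lit 5441709174) (nat_lit 76) (nat_lit 215866693) (nat_lit 479) (nat_lit 5) (nat_lit 497) (nat_lit 5) (nat_lit 480) (nat_lit 5) (nat_lit 281) (nat_lit 256) (nat_lit 243)))) (XT.nd (nat_lit 156) (nat_lit 1596) (nat_lit 0) (XT.nd (nat_lit 78) (nat_lit 1520) (nat_lit 0) (XT.lf (nat_lit 0) (nat_lit 886176512) (nat_lit 1368) (nat_lit 4461124882) (nat_lit 1444) (nat_lit 1713118956) (nat_lit 461) (nat_lit 5) (nat_lit 479) (nat_lit 5) (nat_lit 480) (nat_lit 5) (nat_lit 282) (nat_lit 256) (nat_lit 242)) (XT.lf (nat_lit 0) (nat_lit 236048201) (nat_lit 1444) (nat_lit 1998336886) (nat_lit 1520) (nat_lit 4888324561) (nat_lit 441) (nat_lit 5) (nat_lit 460) (nat_lit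 5) (nat_lit 461) (nat_lit 5) (nat_lit 283) (nat_lit 256) (nat_lit 241))) (XT.nd (nat_lit 78) (nat_lit 1596) (nat_lit 0) (XT.lf (nat_lit 0) (nat_lit 6202629834) (nat_lit 1520) (nat_lit 388395696) (nat_lit 76) (nat_lit 597223719) (nat_lit 441) (nat_lit 5) (nat_lit 461) (nat_lit 5) (nat_lit 442) (nat_lit 5) (nat_lit 284) (nat_lit 256) (nat_lit 240)) (XT.lf (nat_lit 0) (nat_lit 2931240326) (nat_lit 1596) (nat_lit 1009853318) (nat_lit 76) (nat_lit 3315644180) (nat_lit 420) (nat_lit 5) (nat_lit 441) (nat_lit 5) (nat_lit 421) (nat_lit 5) (nat_lit 285) (nat_lit 256) (nat_lit 239))))))) (XT.nd (nat_lit 1014) (nat_lit 7600) (nat_lit 0) (XT.nd (nat_lit 468) (nat_lit 4712) (nat_lit 0) (XT.nd (nat_lit 234) (nat_lit 2660) (nat_lit 0) (XT.nd (nat_lit 78) (nat_lit 3040) (nat_lit 0) (XT.lf (nat_lit 0) (nat_lit 5720745271) (nat_lit 1596) (nat_lit 1156532158) (nat_lit 1672) (nat_lit 451482885) (nat_lit 399) (nat_lit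 5) (nat_lit 420) (nat_lit 5) (nat_lit 421) (nat_lit 5) (nat_lit 286) (nat_lit 256) (nat_lit 238)) (XT.nd (nat_lit 78) (nat_lit 1292) (nat_lit 0) (XT.lf (nat_lit 0) (nat_lit 3431587510) (nat_lit 1748) (nat_lit 2212976595) (nat_lit 76) (nat_lit 1759240386) (nat_lit 376) (nat_lit 5) (nat_lit 399) (nat_lit 5) (nat_lit 377) (nat_lit 5) (nat_lit 287) (nat_lit 256) (nat_lit 237)) (XT.lf (nat_lit 0) (nat_lit 4677821843) (nat_lit 1292) (nat_lit 2685951757) (nat_lit 1368) (nat_lit 118593950) (nat_lit 359) (nat_lit 5) (nat_lit 376) (nat_lit 5) (nat_lit 377) (nat_lit 5) (nat_lit 288) (nat_lit 256) (nat_lit 236)))) (XT.nd (nat_lit 78) (nat_lit 1748) (nat_lit 0) (XT.lf (nat_lit 0) (nat_lit 3736436207) (nat_lit 912) (nat_lit 3402108952) (nat_lit 76) (nat_lit 425613781) (nat_lit 347) (nat_lit 5) (nat_lit 359) (nat_lit 5) (nat_lit 348) (nat_lit 5) (nat_lit 289) (nat_lit 256) (nat_lit 235)) (XT.nd (nat_lit 78) (nat_lit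 836) (nat_lit 0) (XT.lf (nat_lit 0) (nat_lit 10616554) (nat_lit 912) (nat_lit 4000219084) (nat_lit 76) (nat_lit 3638553147) (nat_lit 335) (nat_lit 5) (nat_lit 347) (nat_lit 5) (nat_lit 336) (nat_lit 5) (nat_lit 290) (nat_lit 256) (nat_lit 234)) (XT.lf (nat_lit 0) (nat_lit 3129658393) (nat_lit 836) (nat_lit 721739266) (nat_lit 912) (nat_lit 3886575999) (nat_lit 324) (nat_lit 5) (nat_lit 335) (nat_lit 5) (nat_lit 336) (nat_lit 5) (nat_lit 291) (nat_lit 256) (nat_lit 233))))) (XT.nd (nat_lit 234) (nat_lit 2280) (nat_lit 0) (XT.nd (nat_lit 78) (nat_lit 1596) (nat_lit 0) (XT.lf (nat_lit 0) (nat_lit 2608392131) (nat_lit 836) (nat_lit 5158348904) (nat_lit 912) (nat_lit 63375706) (nat_lit 313) (nat_lit 5) (nat_lit 324) (nat_lit 5) (nat_lit 325) (nat_lit 5) (nat_lit 292) (nat_lit 256) (nat_lit 232)) (XT.nd (nat_lit 78) (nat_lit 760) (nat_lit 0) (XT.lf (nat_lit 0) (nat_lit 2069722615) (nat_lit 760) (nat_lit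 1703031533) (nat_lit 836) (nat_lit 4152869109) (nat_lit 302) (nat_lit 5) (nat_lit 312) (nat_lit 5) (nat_lit 313) (nat_lit 5) (nat_lit 293) (nat_lit 256) (nat_lit 231)) (XT.lf (nat_lit 0) (nat_lit 1527658930) (nat_lit 760) (nat_lit 6154586650) (nat_lit 836) (nat_lit 342639043) (nat_lit 292) (nat_lit 5) (nat_lit 302) (nat_lit 5) (nat_lit 303) (nat_lit 5) (nat_lit 294) (nat_lit 256) (nat_lit 230)))) (XT.nd (nat_lit 156) (nat_lit 760) (nat_lit 0) (XT.nd (nat_lit 78) (nat_lit 760) (nat_lit 0) (XT.lf (nat_lit 0) (nat_lit 956804899) (nat_lit 684) (nat_lit 2538672165) (nat_lit 760) (nat_lit 4632047433) (nat_lit 282) (nat_lit 5) (nat_lit 291) (nat_lit 5) (nat_lit 292) (nat_lit 5) (nat_lit 295) (nat_lit 256) (nat_lit 229)) (XT.lf (nat_lit 0) (nat_lit 378159721) (nat_lit 760) (nat_lit 7025500843) (nat_lit 836) (nat_lit 830420799) (nat_lit 272) (nat_lit 5) (nat_lit 282) (nat_lit 5) (nat_lit 283) (nat_lit 5)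 (nat_lit 296) (nat_lit 256) (nat_lit 228))) (XT.nd (nat_lit 78) (nat_lit 684) (nat_lit 0) (XT.lf (nat_lit 0) (nat_lit 3017152297) (nat_lit 836) (nat_lit 235650420) (nat_lit 76) (nat_lit 5091255439) (nat_lit 271) (nat_lit 5) (nat_lit 282) (nat_lit 5) (nat_lit 272) (nat_lit 5) (nat_lit 297) (nat_lit 256) (nat_lit 227)) (XT.lf (nat_lit 0) (nat_lit 6931884848) (nat_lit 760) (nat_lit 859110114) (nat_lit 76) (nat_lit 667038229) (nat_lit 262) (nat_lit 5) (nat_lit 272) (nat_lit 5) (nat_lit 263) (nat_lit 5) (nat_lit 298) (nat_lit 256) (nat_lit 226)))))) (XT.nd (nat_lit 546) (nat_lit 3192) (nat_lit 0) (XT.nd (nat_lit 234) (nat_lit 2356) (nat_lit 0) (XT.nd (nat_lit 78) (nat_lit 1292) (nat_lit 0) (XT.lf (nat_lit 0) (nat_lit 2337415537) (nat_lit 760) (nat_lit 1528095911) (nat_lit 76) (nat_lit 4710069322) (nat_lit 252) (nat_lit 5) (nat_lit 262) (nat_lit 5) (nat_lit 253) (nat_lit 5) (nat_lit 299) (nat_lit 256)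 (nat_lit 225)) (XT.nd (nat_lit 78) (nat_lit 684) (nat_lit 0) (XT.lf (nat_lit 0) (nat_lit 6257995452) (nat_lit 684) (nat_lit 2221139360) (nat_lit 76) (nat_lit 218145108) (nat_lit 244) (nat_lit 5) (nat_lit 253) (nat_lit 5) (nat_lit 245) (nat_lit 5) (nat_lit 300) (nat_lit 256) (nat_lit 224)) (XT.lf (nat_lit 0) (nat_lit 1442620540) (nat_lit 684) (nat_lit 2965989826) (nat_lit 76) (nat_lit 4414121354) (nat_lit 235) (nat_lit 5) (nat_lit 244) (nat_lit 5) (nat_lit 236) (nat_lit 5) (nat_lit 301) (nat_lit 256) (nat_lit 223)))) (XT.nd (nat_lit 156) (nat_lit 1064) (nat_lit 0) (XT.nd (nat_lit 78) (nat_lit 684) (nat_lit 0) (XT.lf (nat_lit 0) (nat_lit 5204463731) (nat_lit 608) (nat_lit 167890575) (nat_lit 684) (nat_lit 3580038989) (nat_lit 227) (nat_lit 5) (nat_lit 235) (nat_lit 5) (nat_lit 236) (nat_lit 5) (nat_lit 302) (nat_lit 256) (nat_lit 222)) (XT.lf (nat_lit 0) (nat_lit 323365906) (nat_lit 684) (nat_lit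 4584519724) (nat_lit 76) (nat_lit 4178197575) (nat_lit 218) (nat_lit 5) (nat_lit 227) (nat_lit 5) (nat_lit 219) (nat_lit 5) (nat_lit 303) (nat_lit 256) (nat_lit 221))) (XT.nd (nat_lit 78) (nat_lit 532) (nat_lit 0) (XT.lf (nat_lit 0) (nat_lit 3748003103) (nat_lit 532) (nat_lit 516762757) (nat_lit 608) (nat_lit 4959208498) (nat_lit 211) (nat_lit 5) (nat_lit 218) (nat_lit 5) (nat_lit 219) (nat_lit 5) (nat_lit 304) (nat_lit 256) (nat_lit 220)) (XT.lf (nat_lit 0) (nat_lit 2937844649) (nat_lit 532) (nat_lit 5382743465) (nat_lit 608) (nat_lit 1045543398) (nat_lit 204) (nat_lit 5) (nat_lit 211) (nat_lit 5) (nat_lit 212) (nat_lit 5) (nat_lit 305) (nat_lit 256) (nat_lit 219))))) (XT.nd (nat_lit 234) (nat_lit 1520) (nat_lit 0) (XT.nd (nat_lit 78) (nat_lit 1064) (nat_lit 0) (XT.lf (nat_lit 0) (nat_lit 2069491147) (nat_lit 532) (nat_lit 852064492) (nat_lit 608) (nat_lit 6591156793) (nat_lit 196) (nat_lit 5)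 (nat_lit 203) (nat_lit 5) (nat_lit 204) (nat_lit 5) (nat_lit 306) (nat_lit 256) (nat_lit 218)) (XT.nd (nat_lit 78) (nat_lit 532) (nat_lit 0) (XT.lf (nat_lit 0) (nat_lit 1128545437) (nat_lit 532) (nat_lit 5863380693) (nat_lit 608) (nat_lit 2671706025) (nat_lit 189) (nat_lit 5) (nat_lit 196) (nat_lit 5) (nat_lit 197) (nat_lit 5) (nat_lit 307) (nat_lit 256) (nat_lit 217)) (XT.lf (nat_lit 0) (nat_lit 127049872) (nat_lit 456) (nat_lit 1201166932) (nat_lit 532) (nat_lit 8491115977) (nat_lit 182) (nat_lit 5) (nat_lit 188) (nat_lit 5) (nat_lit 189) (nat_lit 5) (nat_lit 308) (nat_lit 256) (nat_lit 216)))) (XT.nd (nat_lit 156) (nat_lit 988) (nat_lit 0) (XT.nd (nat_lit 78) (nat_lit 532) (nat_lit 0) (XT.lf (nat_lit 0) (nat_lit 5418569936) (nat_lit 532) (nat_lit 955041226) (nat_lit 76) (nat_lit 3605650606) (nat_lit 182) (nat_lit 5) (nat_lit 189) (nat_lit 5) (nat_lit 183) (nat_lit 5) (nat_lit 309) (nat_lit 256)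 (nat_lit 215)) (XT.lf (nat_lit 0) (nat_lit 8043973144) (nat_lit 532) (nat_lit 1575031454) (nat_lit 608) (nat_lit 525280446) (nat_lit 175) (nat_lit 5) (nat_lit 182) (nat_lit 5) (nat_lit 183) (nat_lit 5) (nat_lit 310) (nat_lit 256) (nat_lit 214))) (XT.nd (nat_lit 78) (nat_lit 456) (nat_lit 0) (XT.lf (nat_lit 0) (nat_lit 3585714043) (nat_lit 532) (nat_lit 3353789262) (nat_lit 76) (nat_lit 3374283028) (nat_lit 168) (nat_lit 5) (nat_lit 175) (nat_lit 5) (nat_lit 169) (nat_lit 5) (nat_lit 311) (nat_lit 256) (nat_lit 213)) (XT.lf (nat_lit 0) (nat_lit 5797746607) (nat_lit 456) (nat_lit 2007102807) (nat_lit 532) (nat_lit 2683655363) (nat_lit 162) (nat_lit 5) (nat_lit 168) (nat_lit 5) (nat_lit 169) (nat_lit 5) (nat_lit 312) (nat_lit 256) (nat_lit 212))))))))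
noncomputable def xc44 : XT := (XT.nd (nat_lit 2028) (nat_lit 2964) (nat_lit 0) (XT.nd (nat_lit 1014) (nat_lit 2964) (nat_lit 0) (XT.nd (nat_lit 468) (nat_lit 2204) (nat_lit 0) (XT.nd (nat_lit 234) (nat_lit 988) (nat_lit 0) (XT.nd (nat_lit 78) (nat_lit 836) (nat_lit 0) (XT.lf (nat_lit 0) (nat_lit 1465645920) (nat_lit 532) (nat_lit 6133470060) (nat_lit 76) (nat_lit 3069135104) (nat_lit 155) (nat_lit 5) (nat_lit 162) (nat_lit 5) (nat_lit 156) (nat_lit 5) (nat_lit 313) (nat_lit 256) (nat_lit 211)) (XT.nd (nat_lit 78) (nat_lit 380) (nat_lit 0) (XT.lf (nat_lit 0) (nat_lit 3162448845) (nat_lit 456) (nat_lit 2538262682) (nat_lit 532) (nat_lit 5152406001) (nat_lit 149) (nat_lit 5) (nat_lit 155) (nat_lit 5) (nat_lit 156) (nat_lit 5) (nat_lit 314) (nat_lit 256) (nat_lit 210)) (XT.lf (nat_lit 0) (nat_lit 1687363650) (nat_lit 380) (nat_lit 8378410396) (nat_lit 456) (nat_lit 977733364) (nat_lit 144) (nat_lit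 5) (nat_lit 149) (nat_lit 5) (nat_lit 150) (nat_lit 5) (nat_lit 315) (nat_lit 256) (nat_lit 209)))) (XT.nd (nat_lit 78) (nat_lit 456) (nat_lit 0) (XT.lf (nat_lit 0) (nat_lit 80614909) (nat_lit 456) (nat_lit 3201614580) (nat_lit 532) (nat_lit 7956910281) (nat_lit 137) (nat_lit 5) (nat_lit 143) (nat_lit 5) (nat_lit 144) (nat_lit 5) (nat_lit 316) (nat_lit 256) (nat_lit 208)) (XT.nd (nat_lit 78) (nat_lit 456) (nat_lit 0) (XT.lf (nat_lit 0) (nat_lit 7669240264) (nat_lit 532) (nat_lit 1626221586) (nat_lit 76) (nat_lit 2144832930) (nat_lit 137) (nat_lit 5) (nat_lit 144) (nat_lit 5) (nat_lit 138) (nat_lit 5) (nat_lit 317) (nat_lit 256) (nat_lit 207)) (XT.lf (nat_lit 0) (nat_lit 544595970) (nat_lit 456) (nat_lit 3464718429) (nat_lit 76) (nat_lit 7637905719) (nat_lit 131) (nat_lit 5) (nat_lit 137) (nat_lit 5) (nat_lit 132) (nat_lit 5) (nat_lit 318) (nat_lit 256) (nat_lit 206))))) (XT.nd (nat_lit 234) (nat_lit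 1064) (nat_lit 0) (XT.nd (nat_lit 78) (nat_lit 760) (nat_lit 0) (XT.lf (nat_lit 0) (nat_lit 4938686405) (nat_lit 456) (nat_lit 5454483032) (nat_lit 76) (nat_lit 1466712200) (nat_lit 126) (nat_lit 5) (nat_lit 132) (nat_lit 5) (nat_lit 127) (nat_lit 5) (nat_lit 319) (nat_lit 256) (nat_lit 205)) (XT.nd (nat_lit 78) (nat_lit 456) (nat_lit 0) (XT.lf (nat_lit 0) (nat_lit 4481592388) (nat_lit 304) (nat_lit 5001120471) (nat_lit 380) (nat_lit 2595878010) (nat_lit 122) (nat_lit 5) (nat_lit 126) (nat_lit 5) (nat_lit 127) (nat_lit 5) (nat_lit 320) (nat_lit 256) (nat_lit 204)) (XT.lf (nat_lit 0) (nat_lit 1830889352) (nat_lit 456) (nat_lit 9891133778) (nat_lit 76) (nat_lit 581704024) (nat_lit 116) (nat_lit 5) (nat_lit 122) (nat_lit 5) (nat_lit 117) (nat_lit 5) (nat_lit 321) (nat_lit 256) (nat_lit 203)))) (XT.nd (nat_lit 156) (nat_lit 760) (nat_lit 0) (XT.nd (nat_lit 78) (nat_lit 0) (nat_lit 0) (XT.lf (nat_lit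 0) (nat_lit 153001298) (nat_lit 304) (nat_lit 6229002727) (nat_lit 380) (nat_lit 6152761933) (nat_lit 112) (nat_lit 5) (nat_lit 116) (nat_lit 5) (nat_lit 117) (nat_lit 5) (nat_lit 322) (nat_lit 256) (nat_lit 202)) (XT.lf (nat_lit 0) (nat_lit 10545573763) (nat_lit 304) (nat_lit 532620350) (nat_lit 380) (nat_lit 1694398012) (nat_lit 112) (nat_lit 5) (nat_lit 116) (nat_lit 5) (nat_lit 117) (nat_lit 5) (nat_lit 323) (nat_lit 256) (nat_lit 201))) (XT.nd (nat_lit 78) (nat_lit 304) (nat_lit 0) (XT.lf (nat_lit 0) (nat_lit 2890922763) (nat_lit 456) (nat_lit 4817133000) (nat_lit 76) (nat_lit 5308522570) (nat_lit 106) (nat_lit 5) (nat_lit 112) (nat_lit 5) (nat_lit 107) (nat_lit 5) (nat_lit 324) (nat_lit 256) (nat_lit 200)) (XT.lf (nat_lit 0) (nat_lit 5674992739) (nat_lit 304) (nat_lit 1915262640) (nat_lit 380) (nat_lit 5677440286) (nat_lit 102) (nat_lit 5) (nat_lit 106) (nat_lit 5) (nat_lit 107) (nat_lit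 5) (nat_lit 325) (nat_lit 256) (nat_lit 199)))))) (XT.nd (nat_lit 468) (nat_lit 1368) (nat_lit 0) (XT.nd (nat_lit 234) (nat_lit 912) (nat_lit 0) (XT.nd (nat_lit 78) (nat_lit 380) (nat_lit 0) (XT.lf (nat_lit 0) (nat_lit 2948691472) (nat_lit 304) (nat_lit 9504823921) (nat_lit 380) (nat_lit 1072396434) (nat_lit 98) (nat_lit 5) (nat_lit 102) (nat_lit 5) (nat_lit 103) (nat_lit 5) (nat_lit 326) (nat_lit 256) (nat_lit 198)) (XT.nd (nat_lit 78) (nat_lit 304) (nat_lit 0) (XT.lf (nat_lit 0) (nat_lit 3632578133) (nat_lit 380) (nat_lit 2518420) (nat_lit 76) (nat_lit 10156125892) (nat_lit 97) (nat_lit 5) (nat_lit 102) (nat_lit 5) (nat_lit 98) (nat_lit 5) (nat_lit 327) (nat_lit 256) (nat_lit 197)) (XT.lf (nat_lit 0) (nat_lit 8498161345) (nat_lit 380) (nat_lit 3136689245) (nat_lit 76) (nat_lit 2428841858) (nat_lit 93) (nat_lit 5) (nat_lit 98) (nat_lit 5) (nat_lit 94) (nat_lit 5) (nat_lit 328) (nat_lit 256) (nat_lit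 196)))) (XT.nd (nat_lit 78) (nat_lit 608) (nat_lit 0) (XT.lf (nat_lit 0) (nat_lit 7836566492) (nat_lit 304) (nat_lit 5696098657) (nat_lit 380) (nat_lit 811234104) (nat_lit 89) (nat_lit 5) (nat_lit 93) (nat_lit 5) (nat_lit 94) (nat_lit 5) (nat_lit 329) (nat_lit 256) (nat_lit 195)) (XT.nd (nat_lit 78) (nat_lit 304) (nat_lit 0) (XT.lf (nat_lit 0) (nat_lit 4034159520) (nat_lit 304) (nat_lit 10134229136) (nat_lit 76) (nat_lit 463572734) (nat_lit 85) (nat_lit 5) (nat_lit 89) (nat_lit 5) (nat_lit 86) (nat_lit 5) (nat_lit 330) (nat_lit 256) (nat_lit 194)) (XT.lf (nat_lit 0) (nat_lit 881077181) (nat_lit 304) (nat_lit 8170256236) (nat_lit 380) (nat_lit 5876496045) (nat_lit 81) (nat_lit 5) (nat_lit 85) (nat_lit 5) (nat_lit 86) (nat_lit 5) (nat_lit 331) (nat_lit 256) (nat_lit 193))))) (XT.nd (nat_lit 234) (nat_lit 760) (nat_lit 0) (XT.nd (nat_lit 78) (nat_lit 608) (nat_lit 0) (XT.lf (nat_lit 0) (nat_lit 12285966249)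 (nat_lit 304) (nat_lit 1951869016) (nat_lit 380) (nat_lit 994381582) (nat_lit 81) (nat_lit 5) (nat_lit 85) (nat_lit 5) (nat_lit 86) (nat_lit 5) (nat_lit 332) (nat_lit 256) (nat_lit 192)) (XT.nd (nat_lit 78) (nat_lit 304) (nat_lit 0) (XT.lf (nat_lit 0) (nat_lit 4016953645) (nat_lit 304) (nat_lit 7079826535) (nat_lit 76) (nat_lit 4447737076) (nat_lit 77) (nat_lit 5) (nat_lit 81) (nat_lit 5) (nat_lit 78) (nat_lit 5) (nat_lit 333) (nat_lit 256) (nat_lit 191)) (XT.lf (nat_lit 0) (nat_lit 4352281360) (nat_lit 304) (nat_lit 4826310251) (nat_lit 380) (nat_lit 6687212203) (nat_lit 73) (nat_lit 5) (nat_lit 77) (nat_lit 5) (nat_lit 78) (nat_lit 5) (nat_lit 334) (nat_lit 256) (nat_lit 190)))) (XT.nd (nat_lit 156) (nat_lit 456) (nat_lit 0) (XT.nd (nat_lit 78) (nat_lit 304) (nat_lit 0) (XT.lf (nat_lit 0) (nat_lit 14506671627) (nat_lit 380) (nat_lit 59402805) (nat_lit 76) (nat_lit 1630440200) (nat_lit 73) (nat_lit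 5) (nat_lit 78) (nat_lit 5) (nat_lit 74) (nat_lit 5) (nat_lit 335) (nat_lit 256) (nat_lit 189)) (XT.lf (nat_lit 0) (nat_lit 3475379260) (nat_lit 304) (nat_lit 4772869559) (nat_lit 76) (nat_lit 8287200130) (nat_lit 69) (nat_lit 5) (nat_lit 73) (nat_lit 5) (nat_lit 70) (nat_lit 5) (nat_lit 336) (nat_lit 256) (nat_lit 188))) (XT.nd (nat_lit 78) (nat_lit 228) (nat_lit 0) (XT.lf (nat_lit 0) (nat_lit 7062671113) (nat_lit 228) (nat_lit 1710945600) (nat_lit 304) (nat_lit 8110707037) (nat_lit 66) (nat_lit 5) (nat_lit 69) (nat_lit 5) (nat_lit 70) (nat_lit 5) (nat_lit 337) (nat_lit 256) (nat_lit 187)) (XT.lf (nat_lit 0) (nat_lit 1995273309) (nat_lit 228) (nat_lit 12268937299) (nat_lit 304) (nat_lit 2978801720) (nat_lit 63) (nat_lit 5) (nat_lit 66) (nat_lit 5) (nat_lit 67) (nat_lit 5) (nat_lit 338) (nat_lit 256) (nat_lit 186))))))) (XT.nd (nat_lit 1014) (nat_lit 1064) (nat_lit 0) (XT.nd (nat_lit 468) (nat_lit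 912) (nat_lit 0) (XT.nd (nat_lit 234) (nat_lit 456) (nat_lit 0) (XT.nd (nat_lit 78) (nat_lit 456) (nat_lit 0) (XT.lf (nat_lit 0) (nat_lit 2311055342) (nat_lit 304) (nat_lit 3409915211) (nat_lit 76) (nat_lit 11890521349) (nat_lit 62) (nat_lit 5) (nat_lit 66) (nat_lit 5) (nat_lit 63) (nat_lit 5) (nat_lit 339) (nat_lit 256) (nat_lit 185)) (XT.nd (nat_lit 78) (nat_lit 228) (nat_lit 0) (XT.lf (nat_lit 0) (nat_lit 7740629161) (nat_lit 304) (nat_lit 9189634622) (nat_lit 76) (nat_lit 1059952983) (nat_lit 59) (nat_lit 5) (nat_lit 63) (nat_lit 5) (nat_lit 60) (nat_lit 5) (nat_lit 340) (nat_lit 256) (nat_lit 184)) (XT.lf (nat_lit 0) (nat_lit 2974358525) (nat_lit 228) (nat_lit 10397279900) (nat_lit 304) (nat_lit 5007908089) (nat_lit 56) (nat_lit 5) (nat_lit 59) (nat_lit 5) (nat_lit 60) (nat_lit 5) (nat_lit 341) (nat_lit 256) (nat_lit 183)))) (XT.nd (nat_lit 78) (nat_lit 380) (nat_lit 0) (XT.lf (nat_lit 0)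 (nat_lit 406789178) (nat_lit 304) (nat_lit 3223094435) (nat_lit 76) (nat_lit 15150217276) (nat_lit 55) (nat_lit 5) (nat_lit 59) (nat_lit 5) (nat_lit 56) (nat_lit 5) (nat_lit 342) (nat_lit 256) (nat_lit 182)) (XT.nd (nat_lit 78) (nat_lit 152) (nat_lit 0) (XT.lf (nat_lit 0) (nat_lit 5958519752) (nat_lit 304) (nat_lit 9868063725) (nat_lit 76) (nat_lit 3364586799) (nat_lit 52) (nat_lit 5) (nat_lit 56) (nat_lit 5) (nat_lit 53) (nat_lit 5) (nat_lit 343) (nat_lit 256) (nat_lit 181)) (XT.lf (nat_lit 0) (nat_lit 2618205009) (nat_lit 152) (nat_lit 9081858307) (nat_lit 228) (nat_lit 7914055861) (nat_lit 50) (nat_lit 5) (nat_lit 52) (nat_lit 5) (nat_lit 53) (nat_lit 5) (nat_lit 344) (nat_lit 256) (nat_lit 180))))) (XT.nd (nat_lit 234) (nat_lit 456) (nat_lit 0) (XT.nd (nat_lit 78) (nat_lit 456) (nat_lit 0) (XT.lf (nat_lit 0) (nat_lit 15547839955) (nat_lit 152) (nat_lit 2093618856) (nat_lit 228) (nat_lit 2407757906)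 (nat_lit 50) (nat_lit 5) (nat_lit 52) (nat_lit 5) (nat_lit 53) (nat_lit 5) (nat_lit 345) (nat_lit 256) (nat_lit 179)) (XT.nd (nat_lit 78) (nat_lit 152) (nat_lit 0) (XT.lf (nat_lit 0) (nat_lit 3270496162) (nat_lit 304) (nat_lit 12138121866) (nat_lit 76) (nat_lit 5087345609) (nat_lit 46) (nat_lit 5) (nat_lit 50) (nat_lit 5) (nat_lit 47) (nat_lit 5) (nat_lit 346) (nat_lit 256) (nat_lit 178)) (XT.lf (nat_lit 0) (nat_lit 622376700) (nat_lit 152) (nat_lit 8475091815) (nat_lit 228) (nat_lit 11858115844) (nat_lit 44) (nat_lit 5) (nat_lit 46) (nat_lit 5) (nat_lit 47) (nat_lit 5) (nat_lit 347) (nat_lit 256) (nat_lit 177)))) (XT.nd (nat_lit 156) (nat_lit 228) (nat_lit 0) (XT.nd (nat_lit 78) (nat_lit 228) (nat_lit 0) (XT.lf (nat_lit 0) (nat_lit 13868453382) (nat_lit 152) (nat_lit 1275888894) (nat_lit 228) (nat_lit 6283760604) (nat_lit 44) (nat_lit 5) (nat_lit 46) (nat_lit 5) (nat_lit 47) (nat_lit 5) (nat_lit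 348) (nat_lit 256) (nat_lit 176)) (XT.lf (nat_lit 0) (nat_lit 5568176579) (nat_lit 228) (nat_lit 15844215799) (nat_lit 304) (nat_lit 501619875) (nat_lit 41) (nat_lit 5) (nat_lit 44) (nat_lit 5) (nat_lit 45) (nat_lit 5) (nat_lit 349) (nat_lit 256) (nat_lit 175))) (XT.nd (nat_lit 78) (nat_lit 152) (nat_lit 0) (XT.lf (nat_lit 0) (nat_lit 5406723835) (nat_lit 304) (nat_lit 3326026698) (nat_lit 76) (nat_lit 13680564967) (nat_lit 40) (nat_lit 5) (nat_lit 44) (nat_lit 5) (nat_lit 41) (nat_lit 5) (nat_lit 350) (nat_lit 256) (nat_lit 174)) (XT.lf (nat_lit 0) (nat_lit 10154407745) (nat_lit 152) (nat_lit 1362277138) (nat_lit 228) (nat_lit 11410232893) (nat_lit 38) (nat_lit 5) (nat_lit 40) (nat_lit 5) (nat_lit 41) (nat_lit 5) (nat_lit 351) (nat_lit 256) (nat_lit 173)))))) (XT.nd (nat_lit 546) (nat_lit 304) (nat_lit 0) (XT.nd (nat_lit 234) (nat_lit 380) (nat_lit 0) (XT.nd (nat_lit 78) (nat_lit 228) (nat_lit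 0) (XT.lf (nat_lit 0) (nat_lit 536392215) (nat_lit 152) (nat_lit 17305852648) (nat_lit 228) (nat_lit 5613046857) (nat_lit 36) (nat_lit 5) (nat_lit 38) (nat_lit 5) (nat_lit 39) (nat_lit 5) (nat_lit 352) (nat_lit 256) (nat_lit 172)) (XT.nd (nat_lit 78) (nat_lit 152) (nat_lit 0) (XT.lf (nat_lit 0) (nat_lit 415665913) (nat_lit 228) (nat_lit 9649250967) (nat_lit 76) (nat_lit 13933316502) (nat_lit 35) (nat_lit 5) (nat_lit 38) (nat_lit 5) (nat_lit 36) (nat_lit 5) (nat_lit 353) (nat_lit 256) (nat_lit 171)) (XT.lf (nat_lit 0) (nat_lit 3975958910) (nat_lit 152) (nat_lit 2566332487) (nat_lit 228) (nat_lit 18014572513) (nat_lit 33) (nat_lit 5) (nat_lit 35) (nat_lit 5) (nat_lit 36) (nat_lit 5) (nat_lit 354) (nat_lit 256) (nat_lit 170)))) (XT.nd (nat_lit 156) (nat_lit 228) (nat_lit 0) (XT.nd (nat_lit 78) (nat_lit 152) (nat_lit 0) (XT.lf (nat_lit 0) (nat_lit 12919519912) (nat_lit 228) (nat_lit 7079567291) (nat_lit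 76) (nat_lit 5131838678) (nat_lit 33) (nat_lit 5) (nat_lit 36) (nat_lit 5) (nat_lit 34) (nat_lit 5) (nat_lit 355) (nat_lit 256) (nat_lit 169)) (XT.lf (nat_lit 0) (nat_lit 6844354869) (nat_lit 152) (nat_lit 12673758130) (nat_lit 228) (nat_lit 6203504119) (nat_lit 31) (nat_lit 5) (nat_lit 33) (nat_lit 5) (nat_lit 34) (nat_lit 5) (nat_lit 356) (nat_lit 256) (nat_lit 168))) (XT.nd (nat_lit 78) (nat_lit 152) (nat_lit 0) (XT.lf (nat_lit 0) (nat_lit 1928934) (nat_lit 228) (nat_lit 5100974374) (nat_lit 76) (nat_lit 21226793888) (nat_lit 30) (nat_lit 5) (nat_lit 33) (nat_lit 5) (nat_lit 31) (nat_lit 5) (nat_lit 357) (nat_lit 256) (nat_lit 167)) (XT.lf (nat_lit 0) (nat_lit 6356623574) (nat_lit 228) (nat_lit 17858991591) (nat_lit 76) (nat_lit 2738644539) (nat_lit 28) (nat_lit 5) (nat_lit 31) (nat_lit 5) (nat_lit 29) (nat_lit 5) (nat_lit 358) (nat_lit 256) (nat_lit 166))))) (XT.nd (nat_lit 234) (nat_lit 152)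 (nat_lit 0) (XT.nd (nat_lit 78) (nat_lit 152) (nat_lit 0) (XT.lf (nat_lit 0) (nat_lit 12940987718) (nat_lit 228) (nat_lit 3896596255) (nat_lit 76) (nat_lit 10759202042) (nat_lit 28) (nat_lit 5) (nat_lit 31) (nat_lit 5) (nat_lit 29) (nat_lit 5) (nat_lit 359) (nat_lit 256) (nat_lit 165)) (XT.nd (nat_lit 78) (nat_lit 0) (nat_lit 0) (XT.lf (nat_lit 0) (nat_lit 10572264976) (nat_lit 152) (nat_lit 9190239156) (nat_lit 228) (nat_lit 8495298842) (nat_lit 26) (nat_lit 5) (nat_lit 28) (nat_lit 5) (nat_lit 29) (nat_lit 5) (nat_lit 360) (nat_lit 256) (nat_lit 164)) (XT.lf (nat_lit 0) (nat_lit 25478294587) (nat_lit 152) (nat_lit 1308274317) (nat_lit 228) (nat_lit 2152130552) (nat_lit 26) (nat_lit 5) (nat_lit 28) (nat_lit 5) (nat_lit 29) (nat_lit 5) (nat_lit 361) (nat_lit 256) (nat_lit 163)))) (XT.nd (nat_lit 33228) (nat_lit 0) (nat_lit 45220) (XT.nd (nat_lit 33150) (nat_lit 0) (nat_lit 46132) (XT.lf (nat_lit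 0) (nat_lit 4413877320) (nat_lit 152) (nat_lit 18421721010) (nat_lit 76) (nat_lit 6802062174) (nat_lit 24) (nat_lit 5) (nat_lit 26) (nat_lit 5) (nat_lit 25) (nat_lit 5) (nat_lit 362) (nat_lit 256) (nat_lit 162)) (XT.lf (nat_lit 0) (nat_lit 701461808) (nat_lit 380) (nat_lit 1838153758) (nat_lit 0) (nat_lit 701461808) (nat_lit 631) (nat_lit 5) (nat_lit 636) (nat_lit 4) (nat_lit 631) (nat_lit 4) (nat_lit 266) (nat_lit 257) (nat_lit 257))) (XT.nd (nat_lit 78) (nat_lit 532) (nat_lit 0) (XT.lf (nat_lit 0) (nat_lit 1428549369) (nat_lit 380) (nat_lit 4452991134) (nat_lit 380) (nat_lit 615511445) (nat_lit 626) (nat_lit 4) (nat_lit 631) (nat_lit 5) (nat_lit 631) (nat_lit 4) (nat_lit 267) (nat_lit 257) (nat_lit 256)) (XT.lf (nat_lit 0) (nat_lit 96074468) (nat_lit 456) (nat_lit 3695639687) (nat_lit 532) (nat_lit 2723151652) (nat_lit 619) (nat_lit 5) (nat_lit 625) (nat_lit 5) (nat_lit 626) (nat_lit 4) (nat_lit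 268) (nat_lit 257) (nat_lit 255))))))))
noncomputable def xc45 : XT := (XT.nd (nat_lit 2106) (nat_lit 13300) (nat_lit 0) (XT.nd (nat_lit 1014) (nat_lit 14288) (nat_lit 0) (XT.nd (nat_lit 468) (nat_lit 7752) (nat_lit 0) (XT.nd (nat_lit 234) (nat_lit 1596) (nat_lit 0) (XT.nd (nat_lit 78) (nat_lit 1216) (nat_lit 0) (XT.lf (nat_lit 0) (nat_lit 1639739631) (nat_lit 532) (nat_lit 1168301389) (nat_lit 76) (nat_lit 3727600790) (nat_lit 618) (nat_lit 5) (nat_lit 625) (nat_lit 5) (nat_lit 619) (nat_lit 5) (nat_lit 269) (nat_lit 257) (nat_lit 254)) (XT.nd (nat_lit 78) (nat_lit 684) (nat_lit 0) (XT.lf (nat_lit 0) (nat_lit 4174488952) (nat_lit 532) (nat_lit 1792992778) (nat_lit 608) (nat_lit 591986446) (nat_lit 611) (nat_lit 5) (nat_lit 618) (nat_lit 5) (nat_lit 619) (nat_lit 5) (nat_lit 270) (nat_lit 257) (nat_lit 253)) (XT.lf (nat_lit 0) (nat_lit 3022006885) (nat_lit 608) (nat_lit 642597314) (nat_lit 684)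 (nat_lit 2921624058) (nat_lit 602) (nat_lit 5) (nat_lit 610) (nat_lit 5) (nat_lit 611) (nat_lit 5) (nat_lit 271) (nat_lit 257) (nat_lit 252)))) (XT.nd (nat_lit 78) (nat_lit 836) (nat_lit 0) (XT.lf (nat_lit 0) (nat_lit 1290265917) (nat_lit 760) (nat_lit 4700896995) (nat_lit 76) (nat_lit 624914636) (nat_lit 592) (nat_lit 5) (nat_lit 602) (nat_lit 5) (nat_lit 593) (nat_lit 5) (nat_lit 272) (nat_lit 257) (nat_lit 251)) (XT.nd (nat_lit 78) (nat_lit 76) (nat_lit 0) (XT.lf (nat_lit 0) (nat_lit 843854056) (nat_lit 760) (nat_lit 4632305046) (nat_lit 836) (nat_lit 1172711643) (nat_lit 582) (nat_lit 5) (nat_lit 592) (nat_lit 5) (nat_lit 593) (nat_lit 5) (nat_lit 273) (nat_lit 257) (nat_lit 250)) (XT.lf (nat_lit 0) (nat_lit 2951839129) (nat_lit 836) (nat_lit 188112950) (nat_lit 76) (nat_lit 3544713590) (nat_lit 581) (nat_lit 5) (nat_lit 592) (nat_lit 5) (nat_lit 582) (nat_lit 5) (nat_lit 274) (nat_lit 257)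 (nat_lit 249))))) (XT.nd (nat_lit 234) (nat_lit 4864) (nat_lit 0) (XT.nd (nat_lit 78) (nat_lit 1976) (nat_lit 0) (XT.lf (nat_lit 0) (nat_lit 351805257) (nat_lit 912) (nat_lit 1165529008) (nat_lit 76) (nat_lit 5206248236) (nat_lit 569) (nat_lit 5) (nat_lit 581) (nat_lit 5) (nat_lit 570) (nat_lit 5) (nat_lit 275) (nat_lit 257) (nat_lit 248)) (XT.nd (nat_lit 78) (nat_lit 1064) (nat_lit 0) (XT.lf (nat_lit 0) (nat_lit 4403714521) (nat_lit 988) (nat_lit 2117823011) (nat_lit 76) (nat_lit 243886387) (nat_lit 557) (nat_lit 5) (nat_lit 570) (nat_lit 5) (nat_lit 558) (nat_lit 5) (nat_lit 276) (nat_lit 257) (nat_lit 247)) (XT.lf (nat_lit 0) (nat_lit 1653006717) (nat_lit 1064) (nat_lit 3043025314) (nat_lit 76) (nat_lit 2114259959) (nat_lit 543) (nat_lit 5) (nat_lit 557) (nat_lit 5) (nat_lit 544) (nat_lit 5) (nat_lit 277) (nat_lit 257) (nat_lit 246)))) (XT.nd (nat_lit 156) (nat_lit 2584) (nat_lit 0) (XT.nd (nat_lit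 78) (nat_lit 1216) (nat_lit 0) (XT.lf (nat_lit 0) (nat_lit 2920156959) (nat_lit 1064) (nat_lit 2737416738) (nat_lit 1140) (nat_lit 1200737779) (nat_lit 529) (nat_lit 5) (nat_lit 543) (nat_lit 5) (nat_lit 544) (nat_lit 5) (nat_lit 278) (nat_lit 257) (nat_lit 245)) (XT.lf (nat_lit 0) (nat_lit 2101174246) (nat_lit 1140) (nat_lit 640127168) (nat_lit 1216) (nat_lit 4168147370) (nat_lit 513) (nat_lit 5) (nat_lit 528) (nat_lit 5) (nat_lit 529) (nat_lit 5) (nat_lit 279) (nat_lit 257) (nat_lit 244))) (XT.nd (nat_lit 78) (nat_lit 1368) (nat_lit 0) (XT.lf (nat_lit 0) (nat_lit 1307825508) (nat_lit 1216) (nat_lit 5396151964) (nat_lit 1292) (nat_lit 259746533) (nat_lit 497) (nat_lit 5) (nat_lit 513) (nat_lit 5) (nat_lit 514) (nat_lit 5) (nat_lit 280) (nat_lit 257) (nat_lit 243)) (XT.lf (nat_lit 0) (nat_lit 526881092) (nat_lit 1292) (nat_lit 3105573668) (nat_lit 1368) (nat_lit 3388494675) (nat_lit 479) (nat_lit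 5) (nat_lit 496) (nat_lit 5) (nat_lit 497) (nat_lit 5) (nat_lit 281) (nat_lit 257) (nat_lit 242)))))) (XT.nd (nat_lit 546) (nat_lit 5092) (nat_lit 0) (XT.nd (nat_lit 234) (nat_lit 6232) (nat_lit 0) (XT.nd (nat_lit 78) (nat_lit 2888) (nat_lit 0) (XT.lf (nat_lit 0) (nat_lit 466770524) (nat_lit 1368) (nat_lit 217538723) (nat_lit 76) (nat_lit 6397278008) (nat_lit 478) (nat_lit 5) (nat_lit 496) (nat_lit 5) (nat_lit 479) (nat_lit 5) (nat_lit 282) (nat_lit 257) (nat_lit 241)) (XT.nd (nat_lit 78) (nat_lit 1520) (nat_lit 0) (XT.lf (nat_lit 0) (nat_lit 4325505917) (nat_lit 1444) (nat_lit 953874633) (nat_lit 76) (nat_lit 1865658629) (nat_lit 460) (nat_lit 5) (nat_lit 479) (nat_lit 5) (nat_lit 461) (nat_lit 5) (nat_lit 283) (nat_lit 257) (nat_lit 240)) (XT.lf (nat_lit 0) (nat_lit 1000752414) (nat_lit 1520) (nat_lit 1668817924) (nat_lit 76) (nat_lit 4542288277) (nat_lit 440) (nat_lit 5) (nat_lit 460) (nat_lit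 5) (nat_lit 441) (nat_lit 5) (nat_lit 284) (nat_lit 257) (nat_lit 239)))) (XT.nd (nat_lit 156) (nat_lit 3040) (nat_lit 0) (XT.nd (nat_lit 78) (nat_lit 1672) (nat_lit 0) (XT.lf (nat_lit 0) (nat_lit 4822318537) (nat_lit 1596) (nat_lit 2372782752) (nat_lit 76) (nat_lit 86819838) (nat_lit 420) (nat_lit 5) (nat_lit 441) (nat_lit 5) (nat_lit 421) (nat_lit 5) (nat_lit 285) (nat_lit 257) (nat_lit 238)) (XT.lf (nat_lit 0) (nat_lit 1331173374) (nat_lit 1672) (nat_lit 3076182630) (nat_lit 76) (nat_lit 2947749668) (nat_lit 398) (nat_lit 5) (nat_lit 420) (nat_lit 5) (nat_lit 399) (nat_lit 5) (nat_lit 286) (nat_lit 257) (nat_lit 237))) (XT.nd (nat_lit 78) (nat_lit 1368) (nat_lit 0) (XT.lf (nat_lit 0) (nat_lit 3660199305) (nat_lit 1672) (nat_lit 1472493607) (nat_lit 1748) (nat_lit 2298961342) (nat_lit 376) (nat_lit 5) (nat_lit 398) (nat_lit 5) (nat_lit 399) (nat_lit 5) (nat_lit 287) (nat_lit 257) (nat_lit 236))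 (XT.lf (nat_lit 0) (nat_lit 1460875139) (nat_lit 1368) (nat_lit 4465095945) (nat_lit 76) (nat_lit 1585560299) (nat_lit 358) (nat_lit 5) (nat_lit 376) (nat_lit 5) (nat_lit 359) (nat_lit 5) (nat_lit 288) (nat_lit 257) (nat_lit 235))))) (XT.nd (nat_lit 234) (nat_lit 2508) (nat_lit 0) (XT.nd (nat_lit 78) (nat_lit 1748) (nat_lit 0) (XT.lf (nat_lit 0) (nat_lit 2429524937) (nat_lit 836) (nat_lit 2818800916) (nat_lit 912) (nat_lit 2346348614) (nat_lit 347) (nat_lit 5) (nat_lit 358) (nat_lit 5) (nat_lit 359) (nat_lit 5) (nat_lit 289) (nat_lit 257) (nat_lit 234)) (XT.nd (nat_lit 78) (nat_lit 836) (nat_lit 0) (XT.lf (nat_lit 0) (nat_lit 1391093610) (nat_lit 912) (nat_lit 5861621679) (nat_lit 76) (nat_lit 428670400) (nat_lit 335) (nat_lit 5) (nat_lit 347) (nat_lit 5) (nat_lit 336) (nat_lit 5) (nat_lit 290) (nat_lit 257) (nat_lit 233)) (XT.lf (nat_lit 0) (nat_lit 1191432800) (nat_lit 836) (nat_lit 3977866129)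 (nat_lit 912) (nat_lit 2601966224) (nat_lit 324) (nat_lit 5) (nat_lit 335) (nat_lit 5) (nat_lit 336) (nat_lit 5) (nat_lit 291) (nat_lit 257) (nat_lit 232)))) (XT.nd (nat_lit 156) (nat_lit 1596) (nat_lit 0) (XT.nd (nat_lit 78) (nat_lit 0) (nat_lit 0) (XT.lf (nat_lit 0) (nat_lit 568623785) (nat_lit 836) (nat_lit 556427547) (nat_lit 912) (nat_lit 6739842645) (nat_lit 312) (nat_lit 5) (nat_lit 323) (nat_lit 5) (nat_lit 324) (nat_lit 5) (nat_lit 292) (nat_lit 257) (nat_lit 231)) (XT.lf (nat_lit 0) (nat_lit 4895162026) (nat_lit 912) (nat_lit 80186178) (nat_lit 76) (nat_lit 2986387625) (nat_lit 312) (nat_lit 5) (nat_lit 324) (nat_lit 5) (nat_lit 313) (nat_lit 5) (nat_lit 293) (nat_lit 257) (nat_lit 230))) (XT.nd (nat_lit 78) (nat_lit 760) (nat_lit 0) (XT.lf (nat_lit 0) (nat_lit 663653920) (nat_lit 836) (nat_lit 723166290) (nat_lit 76) (nat_lit 6675523291) (nat_lit 301) (nat_lit 5) (nat_lit 312) (nat_lit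 5) (nat_lit 302) (nat_lit 5) (nat_lit 294) (nat_lit 257) (nat_lit 229)) (XT.lf (nat_lit 0) (nat_lit 4430884469) (nat_lit 836) (nat_lit 1398281993) (nat_lit 76) (nat_lit 2337137040) (nat_lit 291) (nat_lit 5) (nat_lit 302) (nat_lit 5) (nat_lit 292) (nat_lit 5) (nat_lit 295) (nat_lit 257) (nat_lit 228))))))) (XT.nd (nat_lit 1014) (nat_lit 5472) (nat_lit 0) (XT.nd (nat_lit 468) (nat_lit 3572) (nat_lit 0) (XT.nd (nat_lit 234) (nat_lit 2052) (nat_lit 0) (XT.nd (nat_lit 78) (nat_lit 1520) (nat_lit 0) (XT.lf (nat_lit 0) (nat_lit 6191228717) (nat_lit 684) (nat_lit 2082886497) (nat_lit 760) (nat_lit 79924) (nat_lit 282) (nat_lit 5) (nat_lit 291) (nat_lit 5) (nat_lit 292) (nat_lit 5) (nat_lit 296) (nat_lit 257) (nat_lit 227)) (XT.nd (nat_lit 78) (nat_lit 684) (nat_lit 0) (XT.lf (nat_lit 0) (nat_lit 3764553808) (nat_lit 836) (nat_lit 2807852506) (nat_lit 76) (nat_lit 1813132775) (nat_lit 271) (nat_lit 5) (nat_lit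 282) (nat_lit 5) (nat_lit 272) (nat_lit 5) (nat_lit 297) (nat_lit 257) (nat_lit 226)) (XT.lf (nat_lit 0) (nat_lit 4946615424) (nat_lit 684) (nat_lit 2667604442) (nat_lit 760) (nat_lit 886628591) (nat_lit 262) (nat_lit 5) (nat_lit 271) (nat_lit 5) (nat_lit 272) (nat_lit 5) (nat_lit 298) (nat_lit 257) (nat_lit 225)))) (XT.nd (nat_lit 78) (nat_lit 1292) (nat_lit 0) (XT.lf (nat_lit 0) (nat_lit 2890213545) (nat_lit 760) (nat_lit 4339957288) (nat_lit 76) (nat_lit 1389740260) (nat_lit 252) (nat_lit 5) (nat_lit 262) (nat_lit 5) (nat_lit 253) (nat_lit 5) (nat_lit 299) (nat_lit 257) (nat_lit 224)) (XT.nd (nat_lit 78) (nat_lit 684) (nat_lit 0) (XT.lf (nat_lit 0) (nat_lit 3578166007) (nat_lit 608) (nat_lit 3170458497) (nat_lit 684) (nat_lit 1994259618) (nat_lit 244) (nat_lit 5) (nat_lit 252) (nat_lit 5) (nat_lit 253) (nat_lit 5) (nat_lit 300) (nat_lit 257) (nat_lit 223)) (XT.lf (nat_lit 0) (nat_lit 1800046133)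 (nat_lit 684) (nat_lit 6027642492) (nat_lit 76) (nat_lit 1042253792) (nat_lit 235) (nat_lit 5) (nat_lit 244) (nat_lit 5) (nat_lit 236) (nat_lit 5) (nat_lit 301) (nat_lit 257) (nat_lit 222))))) (XT.nd (nat_lit 234) (nat_lit 1748) (nat_lit 0) (XT.nd (nat_lit 78) (nat_lit 1216) (nat_lit 0) (XT.lf (nat_lit 0) (nat_lit 2052159919) (nat_lit 608) (nat_lit 3616683173) (nat_lit 684) (nat_lit 3332007821) (nat_lit 227) (nat_lit 5) (nat_lit 235) (nat_lit 5) (nat_lit 236) (nat_lit 5) (nat_lit 302) (nat_lit 257) (nat_lit 221)) (XT.nd (nat_lit 78) (nat_lit 532) (nat_lit 0) (XT.lf (nat_lit 0) (nat_lit 484275217) (nat_lit 684) (nat_lit 7906262174) (nat_lit 76) (nat_lit 745675428) (nat_lit 218) (nat_lit 5) (nat_lit 227) (nat_lit 5) (nat_lit 219) (nat_lit 5) (nat_lit 303) (nat_lit 257) (nat_lit 220)) (XT.lf (nat_lit 0) (nat_lit 332448797) (nat_lit 532) (nat_lit 4031943595) (nat_lit 608) (nat_lit 4910963283) (nat_lit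 211) (nat_lit 5) (nat_lit 218) (nat_lit 5) (nat_lit 219) (nat_lit 5) (nat_lit 304) (nat_lit 257) (nat_lit 219)))) (XT.nd (nat_lit 156) (nat_lit 1140) (nat_lit 0) (XT.nd (nat_lit 78) (nat_lit 608) (nat_lit 0) (XT.lf (nat_lit 0) (nat_lit 8339971998) (nat_lit 608) (nat_lit 593745831) (nat_lit 76) (nat_lit 485425141) (nat_lit 211) (nat_lit 5) (nat_lit 219) (nat_lit 5) (nat_lit 212) (nat_lit 5) (nat_lit 305) (nat_lit 257) (nat_lit 218)) (XT.lf (nat_lit 0) (nat_lit 2833186536) (nat_lit 608) (nat_lit 1598656897) (nat_lit 76) (nat_lit 5135012544) (nat_lit 203) (nat_lit 5) (nat_lit 211) (nat_lit 5) (nat_lit 204) (nat_lit 5) (nat_lit 306) (nat_lit 257) (nat_lit 217))) (XT.nd (nat_lit 78) (nat_lit 608) (nat_lit 0) (XT.lf (nat_lit 0) (nat_lit 6825306259) (nat_lit 608) (nat_lit 2655274314) (nat_lit 76) (nat_lit 238783510) (nat_lit 196) (nat_lit 5) (nat_lit 204) (nat_lit 5) (nat_lit 197) (nat_lit 5) (nat_lit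 307) (nat_lit 257) (nat_lit 216)) (XT.lf (nat_lit 0) (nat_lit 1053784774) (nat_lit 608) (nat_lit 3796548957) (nat_lit 76) (nat_lit 5025882024) (nat_lit 188) (nat_lit 5) (nat_lit 196) (nat_lit 5) (nat_lit 189) (nat_lit 5) (nat_lit 308) (nat_lit 257) (nat_lit 215)))))) (XT.nd (nat_lit 546) (nat_lit 2508) (nat_lit 0) (XT.nd (nat_lit 234) (nat_lit 1444) (nat_lit 0) (XT.nd (nat_lit 78) (nat_lit 1064) (nat_lit 0) (XT.lf (nat_lit 0) (nat_lit 5026843423) (nat_lit 456) (nat_lit 32765983) (nat_lit 532) (nat_lit 4978247500) (nat_lit 182) (nat_lit 5) (nat_lit 188) (nat_lit 5) (nat_lit 189) (nat_lit 5) (nat_lit 309) (nat_lit 257) (nat_lit 214)) (XT.nd (nat_lit 78) (nat_lit 532) (nat_lit 0) (XT.lf (nat_lit 0) (nat_lit 3886914159) (nat_lit 532) (nat_lit 5311066867) (nat_lit 608) (nat_lit 1006161383) (nat_lit 175) (nat_lit 5) (nat_lit 182) (nat_lit 5) (nat_lit 183) (nat_lit 5) (nat_lit 310) (nat_lit 257) (nat_lit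 213)) (XT.lf (nat_lit 0) (nat_lit 2665732174) (nat_lit 456) (nat_lit 360790732) (nat_lit 532) (nat_lit 7348895533) (nat_lit 168) (nat_lit 5) (nat_lit 174) (nat_lit 5) (nat_lit 175) (nat_lit 5) (nat_lit 311) (nat_lit 257) (nat_lit 212)))) (XT.nd (nat_lit 156) (nat_lit 912) (nat_lit 0) (XT.nd (nat_lit 78) (nat_lit 76) (nat_lit 0) (XT.lf (nat_lit 0) (nat_lit 1339362220) (nat_lit 456) (nat_lit 5841243558) (nat_lit 532) (nat_lit 3370851530) (nat_lit 162) (nat_lit 5) (nat_lit 168) (nat_lit 5) (nat_lit 169) (nat_lit 5) (nat_lit 312) (nat_lit 257) (nat_lit 211)) (XT.lf (nat_lit 0) (nat_lit 704380719) (nat_lit 532) (nat_lit 67309660) (nat_lit 76) (nat_lit 9961282548) (nat_lit 161) (nat_lit 5) (nat_lit 168) (nat_lit 5) (nat_lit 162) (nat_lit 5) (nat_lit 313) (nat_lit 257) (nat_lit 210))) (XT.nd (nat_lit 78) (nat_lit 456) (nat_lit 0) (XT.lf (nat_lit 0) (nat_lit 4880737711) (nat_lit 532) (nat_lit 1587637252)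 (nat_lit 76) (nat_lit 4450656483) (nat_lit 155) (nat_lit 5) (nat_lit 162) (nat_lit 5) (nat_lit 156) (nat_lit 5) (nat_lit 314) (nat_lit 257) (nat_lit 209)) (XT.lf (nat_lit 0) (nat_lit 7910423236) (nat_lit 456) (nat_lit 1264455036) (nat_lit 532) (nat_lit 1935978880) (nat_lit 149) (nat_lit 5) (nat_lit 155) (nat_lit 5) (nat_lit 156) (nat_lit 5) (nat_lit 315) (nat_lit 257) (nat_lit 208))))) (XT.nd (nat_lit 234) (nat_lit 1216) (nat_lit 0) (XT.nd (nat_lit 78) (nat_lit 836) (nat_lit 0) (XT.lf (nat_lit 0) (nat_lit 2274897280) (nat_lit 456) (nat_lit 4949404437) (nat_lit 76) (nat_lit 4083561856) (nat_lit 143) (nat_lit 5) (nat_lit 149) (nat_lit 5) (nat_lit 144) (nat_lit 5) (nat_lit 316) (nat_lit 257) (nat_lit 207)) (XT.nd (nat_lit 78) (nat_lit 380) (nat_lit 0) (XT.lf (nat_lit 0) (nat_lit 4687976657) (nat_lit 456) (nat_lit 1896166416) (nat_lit 532) (nat_lit 4926446875) (nat_lit 137) (nat_lit 5) (nat_lit 143)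 (nat_lit 5) (nat_lit 144) (nat_lit 5) (nat_lit 317) (nat_lit 257) (nat_lit 206)) (XT.lf (nat_lit 0) (nat_lit 2888671258) (nat_lit 380) (nat_lit 8148378223) (nat_lit 456) (nat_lit 682092628) (nat_lit 132) (nat_lit 5) (nat_lit 137) (nat_lit 5) (nat_lit 138) (nat_lit 5) (nat_lit 318) (nat_lit 257) (nat_lit 205)))) (XT.nd (nat_lit 156) (nat_lit 760) (nat_lit 0) (XT.nd (nat_lit 78) (nat_lit 0) (nat_lit 0) (XT.lf (nat_lit 0) (nat_lit 938461986) (nat_lit 380) (nat_lit 2707390476) (nat_lit 456) (nat_lit 8287556403) (nat_lit 126) (nat_lit 5) (nat_lit 131) (nat_lit 5) (nat_lit 132) (nat_lit 5) (nat_lit 319) (nat_lit 257) (nat_lit 204)) (XT.lf (nat_lit 0) (nat_lit 8113823707) (nat_lit 456) (nat_lit 1143500409) (nat_lit 76) (nat_lit 2896329500) (nat_lit 126) (nat_lit 5) (nat_lit 132) (nat_lit 5) (nat_lit 127) (nat_lit 5) (nat_lit 320) (nat_lit 257) (nat_lit 203))) (XT.nd (nat_lit 78) (nat_lit 380) (nat_lit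 0) (XT.lf (nat_lit 0) (nat_lit 349779990) (nat_lit 380) (nat_lit 3364398305) (nat_lit 76) (nat_lit 8665934728) (nat_lit 121) (nat_lit 5) (nat_lit 126) (nat_lit 5) (nat_lit 122) (nat_lit 5) (nat_lit 321) (nat_lit 257) (nat_lit 202)) (XT.lf (nat_lit 0) (nat_lit 4824978338) (nat_lit 456) (nat_lit 5766191562) (nat_lit 76) (nat_lit 2021513574) (nat_lit 116) (nat_lit 5) (nat_lit 122) (nat_lit 5) (nat_lit 117) (nat_lit 5) (nat_lit 322) (nat_lit 257) (nat_lit 201))))))))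
noncomputable def xc46 : XT := (XT.nd (nat_lit 2106) (nat_lit 1368) (nat_lit 0) (XT.nd (nat_lit 1014) (nat_lit 2204) (nat_lit 0) (XT.nd (nat_lit 468) (nat_lit 1520) (nat_lit 0) (XT.nd (nat_lit 234) (nat_lit 988) (nat_lit 0) (XT.nd (nat_lit 78) (nat_lit 456) (nat_lit 0) (XT.lf (nat_lit 0) (nat_lit 4507531123) (nat_lit 304) (nat_lit 4947731353) (nat_lit 380) (nat_lit 3396578213) (nat_lit 112) (nat_lit 5) (nat_lit 116) (nat_lit 5) (nat_lit 117) (nat_lit 5) (nat_lit 323) (nat_lit 257) (nat_lit 200)) (XT.nd (nat_lit 78) (nat_lit 0) (nat_lit 0) (XT.lf (nat_lit 0) (nat_lit 1114176273) (nat_lit 456) (nat_lit 11098177014) (nat_lit 76) (nat_lit 885644766) (nat_lit 106) (nat_lit 5) (nat_lit 112) (nat_lit 5) (nat_lit 107) (nat_lit 5) (nat_lit 324) (nat_lit 257) (nat_lit 199)) (XT.lf (nat_lit 0) (nat_lit 5749757251) (nat_lit 456) (nat_lit 721633022) (nat_lit 76) (nat_lit 6879012095) (nat_lit 106) (nat_lit 5)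 (nat_lit 112) (nat_lit 5) (nat_lit 107) (nat_lit 5) (nat_lit 325) (nat_lit 257) (nat_lit 198)))) (XT.nd (nat_lit 78) (nat_lit 684) (nat_lit 0) (XT.lf (nat_lit 0) (nat_lit 10016467300) (nat_lit 304) (nat_lit 519943928) (nat_lit 380) (nat_lit 3073751023) (nat_lit 102) (nat_lit 5) (nat_lit 106) (nat_lit 5) (nat_lit 107) (nat_lit 5) (nat_lit 326) (nat_lit 257) (nat_lit 197)) (XT.nd (nat_lit 78) (nat_lit 304) (nat_lit 0) (XT.lf (nat_lit 0) (nat_lit 1604146603) (nat_lit 380) (nat_lit 6701487679) (nat_lit 76) (nat_lit 5571176015) (nat_lit 97) (nat_lit 5) (nat_lit 102) (nat_lit 5) (nat_lit 98) (nat_lit 5) (nat_lit 327) (nat_lit 257) (nat_lit 196)) (XT.lf (nat_lit 0) (nat_lit 4115338357) (nat_lit 304) (nat_lit 2268692275) (nat_lit 380) (nat_lit 7766974373) (nat_lit 93) (nat_lit 5) (nat_lit 97) (nat_lit 5) (nat_lit 98) (nat_lit 5) (nat_lit 328) (nat_lit 257) (nat_lit 195))))) (XT.nd (nat_lit 234) (nat_lit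 912) (nat_lit 0) (XT.nd (nat_lit 78) (nat_lit 304) (nat_lit 0) (XT.lf (nat_lit 0) (nat_lit 821087032) (nat_lit 304) (nat_lit 10512177360) (nat_lit 380) (nat_lit 3099663227) (nat_lit 89) (nat_lit 5) (nat_lit 93) (nat_lit 5) (nat_lit 94) (nat_lit 5) (nat_lit 329) (nat_lit 257) (nat_lit 194)) (XT.nd (nat_lit 78) (nat_lit 228) (nat_lit 0) (XT.lf (nat_lit 0) (nat_lit 1718785285) (nat_lit 380) (nat_lit 2686760388) (nat_lit 76) (nat_lit 10316890318) (nat_lit 88) (nat_lit 5) (nat_lit 93) (nat_lit 5) (nat_lit 89) (nat_lit 5) (nat_lit 330) (nat_lit 257) (nat_lit 193)) (XT.lf (nat_lit 0) (nat_lit 6659534802) (nat_lit 304) (nat_lit 6451479217) (nat_lit 76) (nat_lit 1908828150) (nat_lit 85) (nat_lit 5) (nat_lit 89) (nat_lit 5) (nat_lit 86) (nat_lit 5) (nat_lit 331) (nat_lit 257) (nat_lit 192)))) (XT.nd (nat_lit 156) (nat_lit 304) (nat_lit 0) (XT.nd (nat_lit 78) (nat_lit 304) (nat_lit 0) (XT.lf (nat_lit 0) (nat_lit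 4829605573) (nat_lit 304) (nat_lit 6950140943) (nat_lit 380) (nat_lit 3545818179) (nat_lit 81) (nat_lit 5) (nat_lit 85) (nat_lit 5) (nat_lit 86) (nat_lit 5) (nat_lit 332) (nat_lit 257) (nat_lit 191)) (XT.lf (nat_lit 0) (nat_lit 823510098) (nat_lit 228) (nat_lit 573088762) (nat_lit 304) (nat_lit 14243654061) (nat_lit 77) (nat_lit 5) (nat_lit 80) (nat_lit 5) (nat_lit 81) (nat_lit 5) (nat_lit 333) (nat_lit 257) (nat_lit 190))) (XT.nd (nat_lit 78) (nat_lit 304) (nat_lit 0) (XT.lf (nat_lit 0) (nat_lit 6503295491) (nat_lit 304) (nat_lit 3475044188) (nat_lit 76) (nat_lit 5984307258) (nat_lit 77) (nat_lit 5) (nat_lit 81) (nat_lit 5) (nat_lit 78) (nat_lit 5) (nat_lit 334) (nat_lit 257) (nat_lit 189)) (XT.lf (nat_lit 0) (nat_lit 8238097779) (nat_lit 304) (nat_lit 3537158614) (nat_lit 380) (nat_lit 4519232123) (nat_lit 73) (nat_lit 5) (nat_lit 77) (nat_lit 5) (nat_lit 78) (nat_lit 5) (nat_lit 335) (nat_lit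 257) (nat_lit 188)))))) (XT.nd (nat_lit 546) (nat_lit 912) (nat_lit 0) (XT.nd (nat_lit 234) (nat_lit 760) (nat_lit 0) (XT.nd (nat_lit 78) (nat_lit 228) (nat_lit 0) (XT.lf (nat_lit 0) (nat_lit 584820231) (nat_lit 304) (nat_lit 12969999538) (nat_lit 76) (nat_lit 3080944001) (nat_lit 69) (nat_lit 5) (nat_lit 73) (nat_lit 5) (nat_lit 70) (nat_lit 5) (nat_lit 336) (nat_lit 257) (nat_lit 187)) (XT.nd (nat_lit 78) (nat_lit 228) (nat_lit 0) (XT.lf (nat_lit 0) (nat_lit 5815501078) (nat_lit 304) (nat_lit 1262547689) (nat_lit 76) (nat_lit 9907948680) (nat_lit 69) (nat_lit 5) (nat_lit 73) (nat_lit 5) (nat_lit 70) (nat_lit 5) (nat_lit 337) (nat_lit 257) (nat_lit 186)) (XT.lf (nat_lit 0) (nat_lit 10868785378) (nat_lit 228) (nat_lit 362114280) (nat_lit 304) (nat_lit 6115297789) (nat_lit 66) (nat_lit 5) (nat_lit 69) (nat_lit 5) (nat_lit 70) (nat_lit 5) (nat_lit 338) (nat_lit 257) (nat_lit 185)))) (XT.nd (nat_lit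 156) (nat_lit 456) (nat_lit 0) (XT.nd (nat_lit 78) (nat_lit 76) (nat_lit 0) (XT.lf (nat_lit 0) (nat_lit 5626041707) (nat_lit 228) (nat_lit 11228275285) (nat_lit 304) (nat_lit 861990136) (nat_lit 63) (nat_lit 5) (nat_lit 66) (nat_lit 5) (nat_lit 67) (nat_lit 5) (nat_lit 339) (nat_lit 257) (nat_lit 184)) (XT.lf (nat_lit 0) (nat_lit 4494213454) (nat_lit 304) (nat_lit 16502170) (nat_lit 76) (nat_lit 13586128756) (nat_lit 62) (nat_lit 5) (nat_lit 66) (nat_lit 5) (nat_lit 63) (nat_lit 5) (nat_lit 340) (nat_lit 257) (nat_lit 183))) (XT.nd (nat_lit 78) (nat_lit 228) (nat_lit 0) (XT.lf (nat_lit 0) (nat_lit 10056293628) (nat_lit 304) (nat_lit 5992998924) (nat_lit 76) (nat_lit 2438266902) (nat_lit 59) (nat_lit 5) (nat_lit 63) (nat_lit 5) (nat_lit 60) (nat_lit 5) (nat_lit 341) (nat_lit 257) (nat_lit 182)) (XT.lf (nat_lit 0) (nat_lit 6479579674) (nat_lit 228) (nat_lit 9338149490) (nat_lit 304) (nat_lit 3071630250)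 (nat_lit 56) (nat_lit 5) (nat_lit 59) (nat_lit 5) (nat_lit 60) (nat_lit 5) (nat_lit 342) (nat_lit 257) (nat_lit 181))))) (XT.nd (nat_lit 234) (nat_lit 456) (nat_lit 0) (XT.nd (nat_lit 78) (nat_lit 152) (nat_lit 0) (XT.lf (nat_lit 0) (nat_lit 24236273) (nat_lit 228) (nat_lit 2394088754) (nat_lit 304) (nat_lit 16884550075) (nat_lit 52) (nat_lit 5) (nat_lit 55) (nat_lit 5) (nat_lit 56) (nat_lit 5) (nat_lit 343) (nat_lit 257) (nat_lit 180)) (XT.nd (nat_lit 78) (nat_lit 152) (nat_lit 0) (XT.lf (nat_lit 0) (nat_lit 8108195877) (nat_lit 304) (nat_lit 6843394835) (nat_lit 76) (nat_lit 4775272796) (nat_lit 52) (nat_lit 5) (nat_lit 56) (nat_lit 5) (nat_lit 53) (nat_lit 5) (nat_lit 344) (nat_lit 257) (nat_lit 179)) (XT.lf (nat_lit 0) (nat_lit 5963587373) (nat_lit 152) (nat_lit 8022203390) (nat_lit 228) (nat_lit 6177452171) (nat_lit 50) (nat_lit 5) (nat_lit 52) (nat_lit 5) (nat_lit 53) (nat_lit 5) (nat_lit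 345) (nat_lit 257) (nat_lit 178)))) (XT.nd (nat_lit 156) (nat_lit 152) (nat_lit 0) (XT.nd (nat_lit 78) (nat_lit 304) (nat_lit 0) (XT.lf (nat_lit 0) (nat_lit 19185960798) (nat_lit 152) (nat_lit 863116095) (nat_lit 228) (nat_lit 563461162) (nat_lit 50) (nat_lit 5) (nat_lit 52) (nat_lit 5) (nat_lit 53) (nat_lit 5) (nat_lit 346) (nat_lit 257) (nat_lit 177)) (XT.lf (nat_lit 0) (nat_lit 5233706300) (nat_lit 304) (nat_lit 9327415865) (nat_lit 76) (nat_lit 6511859103) (nat_lit 46) (nat_lit 5) (nat_lit 50) (nat_lit 5) (nat_lit 47) (nat_lit 5) (nat_lit 347) (nat_lit 257) (nat_lit 176))) (XT.nd (nat_lit 78) (nat_lit 0) (nat_lit 0) (XT.lf (nat_lit 0) (nat_lit 3764389494) (nat_lit 152) (nat_lit 7437053972) (nat_lit 228) (nat_lit 10345644326) (nat_lit 44) (nat_lit 5) (nat_lit 46) (nat_lit 5) (nat_lit 47) (nat_lit 5) (nat_lit 348) (nat_lit 257) (nat_lit 175)) (XT.lf (nat_lit 0) (nat_lit 17316877365) (nat_lit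 152) (nat_lit 59514495) (nat_lit 228) (nat_lit 4658472458) (nat_lit 44) (nat_lit 5) (nat_lit 46) (nat_lit 5) (nat_lit 47) (nat_lit 5) (nat_lit 349) (nat_lit 257) (nat_lit 174))))))) (XT.nd (nat_lit 33930) (nat_lit 0) (nat_lit 39292) (XT.nd (nat_lit 468) (nat_lit 532) (nat_lit 0) (XT.nd (nat_lit 234) (nat_lit 380) (nat_lit 0) (XT.nd (nat_lit 78) (nat_lit 152) (nat_lit 0) (XT.lf (nat_lit 0) (nat_lit 1255621844) (nat_lit 304) (nat_lit 13798235395) (nat_lit 76) (nat_lit 7481830322) (nat_lit 40) (nat_lit 5) (nat_lit 44) (nat_lit 5) (nat_lit 41) (nat_lit 5) (nat_lit 350) (nat_lit 257) (nat_lit 173)) (XT.nd (nat_lit 78) (nat_lit 152) (nat_lit 0) (XT.lf (nat_lit 0) (nat_lit 7283016925) (nat_lit 304) (nat_lit 479573717) (nat_lit 76) (nat_lit 15288355245) (nat_lit 40) (nat_lit 5) (nat_lit 44) (nat_lit 5) (nat_lit 41) (nat_lit 5) (nat_lit 351) (nat_lit 257) (nat_lit 172)) (XT.lf (nat_lit 0) (nat_lit 13357474616)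 (nat_lit 152) (nat_lit 187695757) (nat_lit 228) (nat_lit 10035422179) (nat_lit 38) (nat_lit 5) (nat_lit 40) (nat_lit 5) (nat_lit 41) (nat_lit 5) (nat_lit 352) (nat_lit 257) (nat_lit 171)))) (XT.nd (nat_lit 78) (nat_lit 228) (nat_lit 0) (XT.lf (nat_lit 0) (nat_lit 3429710480) (nat_lit 152) (nat_lit 16608110213) (nat_lit 228) (nat_lit 4087464329) (nat_lit 36) (nat_lit 5) (nat_lit 38) (nat_lit 5) (nat_lit 39) (nat_lit 5) (nat_lit 353) (nat_lit 257) (nat_lit 170)) (XT.nd (nat_lit 78) (nat_lit 152) (nat_lit 0) (XT.lf (nat_lit 0) (nat_lit 2051201095) (nat_lit 228) (nat_lit 7123297870) (nat_lit 76) (nat_lit 15510782956) (nat_lit 35) (nat_lit 5) (nat_lit 38) (nat_lit 5) (nat_lit 36) (nat_lit 5) (nat_lit 354) (nat_lit 257) (nat_lit 169)) (XT.lf (nat_lit 0) (nat_lit 6864991287) (nat_lit 152) (nat_lit 1467343390) (nat_lit 228) (nat_lit 16928935233) (nat_lit 33) (nat_lit 5) (nat_lit 35) (nat_lit 5) (nat_lit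 36) (nat_lit 5) (nat_lit 355) (nat_lit 257) (nat_lit 168))))) (XT.nd (nat_lit 234) (nat_lit 304) (nat_lit 0) (XT.nd (nat_lit 78) (nat_lit 228) (nat_lit 0) (XT.lf (nat_lit 0) (nat_lit 14861872280) (nat_lit 228) (nat_lit 4578926843) (nat_lit 76) (nat_lit 6412547134) (nat_lit 33) (nat_lit 5) (nat_lit 36) (nat_lit 5) (nat_lit 34) (nat_lit 5) (nat_lit 356) (nat_lit 257) (nat_lit 167)) (XT.nd (nat_lit 78) (nat_lit 76) (nat_lit 0) (XT.lf (nat_lit 0) (nat_lit 9718697335) (nat_lit 152) (nat_lit 11911770352) (nat_lit 228) (nat_lit 4831861657) (nat_lit 31) (nat_lit 5) (nat_lit 33) (nat_lit 5) (nat_lit 34) (nat_lit 5) (nat_lit 357) (nat_lit 257) (nat_lit 166)) (XT.lf (nat_lit 0) (nat_lit 1494528012) (nat_lit 228) (nat_lit 2642514112) (nat_lit 76) (nat_lit 22952314370) (nat_lit 30) (nat_lit 5) (nat_lit 33) (nat_lit 5) (nat_lit 31) (nat_lit 5) (nat_lit 358) (nat_lit 257) (nat_lit 165)))) (XT.nd (nat_lit 156)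 (nat_lit 152) (nat_lit 0) (XT.nd (nat_lit 78) (nat_lit 0) (nat_lit 0) (XT.lf (nat_lit 0) (nat_lit 8020235676) (nat_lit 228) (nat_lit 15803119285) (nat_lit 76) (nat_lit 3909704562) (nat_lit 28) (nat_lit 5) (nat_lit 31) (nat_lit 5) (nat_lit 29) (nat_lit 5) (nat_lit 359) (nat_lit 257) (nat_lit 164)) (XT.lf (nat_lit 0) (nat_lit 14759230355) (nat_lit 228) (nat_lit 1497336809) (nat_lit 76) (nat_lit 12139163237) (nat_lit 28) (nat_lit 5) (nat_lit 31) (nat_lit 5) (nat_lit 29) (nat_lit 5) (nat_lit 360) (nat_lit 257) (nat_lit 163))) (XT.nd (nat_lit 78) (nat_lit 0) (nat_lit 0) (XT.lf (nat_lit 0) (nat_lit 13364768595) (nat_lit 152) (nat_lit 8395044323) (nat_lit 228) (nat_lit 7317286991) (nat_lit 26) (nat_lit 5) (nat_lit 28) (nat_lit 5) (nat_lit 29) (nat_lit 5) (nat_lit 361) (nat_lit 257) (nat_lit 162)) (XT.lf (nat_lit 0) (nat_lit 28645881939) (nat_lit 152) (nat_lit 307811859) (nat_lit 228) (nat_lit 825557754)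 (nat_lit 26) (nat_lit 5) (nat_lit 28) (nat_lit 5) (nat_lit 29) (nat_lit 5) (nat_lit 362) (nat_lit 257) (nat_lit 161)))))) (XT.nd (nat_lit 546) (nat_lit 5092) (nat_lit 0) (XT.nd (nat_lit 234) (nat_lit 1596) (nat_lit 0) (XT.nd (nat_lit 78) (nat_lit 608) (nat_lit 0) (XT.lf (nat_lit 0) (nat_lit 1445223859) (nat_lit 228) (nat_lit 339512271) (nat_lit 0) (nat_lit 1445223859) (nat_lit 639) (nat_lit 5) (nat_lit 642) (nat_lit 4) (nat_lit 639) (nat_lit 4) (nat_lit 264) (nat_lit 258) (nat_lit 258)) (XT.nd (nat_lit 78) (nat_lit 304) (nat_lit 0) (XT.lf (nat_lit 0) (nat_lit 889528167) (nat_lit 304) (nat_lit 2234809263) (nat_lit 76) (nat_lit 3345938280) (nat_lit 635) (nat_lit 5) (nat_lit 639) (nat_lit 5) (nat_lit 636) (nat_lit 4) (nat_lit 265) (nat_lit 258) (nat_lit 257)) (XT.lf (nat_lit 0) (nat_lit 2739772219) (nat_lit 304) (nat_lit 2550157317) (nat_lit 380) (nat_lit 1193652711) (nat_lit 631) (nat_lit 5) (nat_lit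 635) (nat_lit 5) (nat_lit 636) (nat_lit 4) (nat_lit 266) (nat_lit 258) (nat_lit 256)))) (XT.nd (nat_lit 156) (nat_lit 1064) (nat_lit 0) (XT.nd (nat_lit 78) (nat_lit 76) (nat_lit 0) (XT.lf (nat_lit 0) (nat_lit 1293570660) (nat_lit 380) (nat_lit 1847872983) (nat_lit 456) (nat_lit 3358435865) (nat_lit 625) (nat_lit 5) (nat_lit 630) (nat_lit 5) (nat_lit 631) (nat_lit 5) (nat_lit 267) (nat_lit 258) (nat_lit 255)) (XT.lf (nat_lit 0) (nat_lit 924580385) (nat_lit 456) (nat_lit 97557247) (nat_lit 76) (nat_lit 5497147372) (nat_lit 624) (nat_lit 5) (nat_lit 630) (nat_lit 5) (nat_lit 625) (nat_lit 5) (nat_lit 268) (nat_lit 258) (nat_lit 254))) (XT.nd (nat_lit 78) (nat_lit 608) (nat_lit 0) (XT.lf (nat_lit 0) (nat_lit 5112301577) (nat_lit 456) (nat_lit 55512034) (nat_lit 532) (nat_lit 1373674283) (nat_lit 618) (nat_lit 5) (nat_lit 624) (nat_lit 5) (nat_lit 625) (nat_lit 5) (nat_lit 269) (nat_lit 258) (nat_lit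 253)) (XT.lf (nat_lit 0) (nat_lit 2814029754) (nat_lit 608) (nat_lit 2724278725) (nat_lit 76) (nat_lit 1028277632) (nat_lit 610) (nat_lit 5) (nat_lit 618) (nat_lit 5) (nat_lit 611) (nat_lit 5) (nat_lit 270) (nat_lit 258) (nat_lit 252))))) (XT.nd (nat_lit 234) (nat_lit 2888) (nat_lit 0) (XT.nd (nat_lit 78) (nat_lit 1520) (nat_lit 0) (XT.lf (nat_lit 0) (nat_lit 386764108) (nat_lit 684) (nat_lit 3972721418) (nat_lit 76) (nat_lit 2235348176) (nat_lit 601) (nat_lit 5) (nat_lit 610) (nat_lit 5) (nat_lit 602) (nat_lit 5) (nat_lit 271) (nat_lit 258) (nat_lit 251)) (XT.nd (nat_lit 78) (nat_lit 836) (nat_lit 0) (XT.lf (nat_lit 0) (nat_lit 1436369570) (nat_lit 684) (nat_lit 3044494602) (nat_lit 760) (nat_lit 2145118276) (nat_lit 592) (nat_lit 5) (nat_lit 601) (nat_lit 5) (nat_lit 602) (nat_lit 5) (nat_lit 272) (nat_lit 258) (nat_lit 250)) (XT.lf (nat_lit 0) (nat_lit 294683905) (nat_lit 760) (nat_lit 1603193205)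 (nat_lit 836) (nat_lit 4762398270) (nat_lit 581) (nat_lit 5) (nat_lit 591) (nat_lit 5) (nat_lit 592) (nat_lit 5) (nat_lit 273) (nat_lit 258) (nat_lit 249)))) (XT.nd (nat_lit 156) (nat_lit 1976) (nat_lit 0) (XT.nd (nat_lit 78) (nat_lit 912) (nat_lit 0) (XT.lf (nat_lit 0) (nat_lit 5901293107) (nat_lit 760) (nat_lit 26414876) (nat_lit 836) (nat_lit 769879439) (nat_lit 581) (nat_lit 5) (nat_lit 591) (nat_lit 5) (nat_lit 592) (nat_lit 5) (nat_lit 274) (nat_lit 258) (nat_lit 248)) (XT.lf (nat_lit 0) (nat_lit 3203757768) (nat_lit 912) (nat_lit 1864230564) (nat_lit 76) (nat_lit 1669652504) (nat_lit 569) (nat_lit 5) (nat_lit 581) (nat_lit 5) (nat_lit 570) (nat_lit 5) (nat_lit 275) (nat_lit 258) (nat_lit 247))) (XT.nd (nat_lit 78) (nat_lit 988) (nat_lit 0) (XT.lf (nat_lit 0) (nat_lit 396903952) (nat_lit 988) (nat_lit 2891947787) (nat_lit 76) (nat_lit 3492104233) (nat_lit 556) (nat_lit 5) (nat_lit 569) (nat_lit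 5) (nat_lit 557) (nat_lit 5) (nat_lit 276) (nat_lit 258) (nat_lit 246)) (XT.lf (nat_lit 0) (nat_lit 2930146342) (nat_lit 988) (nat_lit 1367829925) (nat_lit 1064) (nat_lit 2529267155) (nat_lit 543) (nat_lit 5) (nat_lit 556) (nat_lit 5) (nat_lit 557) (nat_lit 5) (nat_lit 277) (nat_lit 258) (nat_lit 245))))))))
noncomputable def xc47 : XT := (XT.nd (nat_lit 2106) (nat_lit 10108) (nat_lit 0) (XT.nd (nat_lit 1014) (nat_lit 9728) (nat_lit 0) (XT.nd (nat_lit 468) (nat_lit 8664) (nat_lit 0) (XT.nd (nat_lit 234) (nat_lit 2736) (nat_lit 0) (XT.nd (nat_lit 78) (nat_lit 2432) (nat_lit 0) (XT.lf (nat_lit 0) (nat_lit 1330032052) (nat_lit 1140) (nat_lit 4872275859) (nat_lit 76) (nat_lit 674409407) (nat_lit 528) (nat_lit 5) (nat_lit 543) (nat_lit 5) (nat_lit 529) (nat_lit 5) (nat_lit 278) (nat_lit 258) (nat_lit 244)) (XT.nd (nat_lit 78) (nat_lit 1292) (nat_lit 0) (XT.lf (nat_lit 0) (nat_lit 1096284579) (nat_lit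 1140) (nat_lit 4091385934) (nat_lit 1216) (nat_lit 1741468400) (nat_lit 513) (nat_lit 5) (nat_lit 528) (nat_lit 5) (nat_lit 529) (nat_lit 5) (nat_lit 279) (nat_lit 258) (nat_lit 243)) (XT.lf (nat_lit 0) (nat_lit 215368921) (nat_lit 1216) (nat_lit 1844566765) (nat_lit 1292) (nat_lit 4924832520) (nat_lit 496) (nat_lit 5) (nat_lit 512) (nat_lit 5) (nat_lit 513) (nat_lit 5) (nat_lit 280) (nat_lit 258) (nat_lit 242)))) (XT.nd (nat_lit 78) (nat_lit 2736) (nat_lit 0) (XT.lf (nat_lit 0) (nat_lit 5873760496) (nat_lit 1292) (nat_lit 633615968) (nat_lit 76) (nat_lit 536144892) (nat_lit 496) (nat_lit 5) (nat_lit 513) (nat_lit 5) (nat_lit 497) (nat_lit 5) (nat_lit 281) (nat_lit 258) (nat_lit 241)) (XT.nd (nat_lit 78) (nat_lit 1368) (nat_lit 0) (XT.lf (nat_lit 0) (nat_lit 2593605012) (nat_lit 1368) (nat_lit 1473885814) (nat_lit 76) (nat_lit 3037695309) (nat_lit 478) (nat_lit 5) (nat_lit 496) (nat_lit 5) (nat_lit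 479) (nat_lit 5) (nat_lit 282) (nat_lit 258) (nat_lit 240)) (XT.lf (nat_lit 0) (nat_lit 4881062007) (nat_lit 1368) (nat_lit 1493519801) (nat_lit 1444) (nat_lit 795668766) (nat_lit 460) (nat_lit 5) (nat_lit 478) (nat_lit 5) (nat_lit 479) (nat_lit 5) (nat_lit 283) (nat_lit 258) (nat_lit 239))))) (XT.nd (nat_lit 234) (nat_lit 3952) (nat_lit 0) (XT.nd (nat_lit 78) (nat_lit 3192) (nat_lit 0) (XT.lf (nat_lit 0) (nat_lit 2923279815) (nat_lit 1520) (nat_lit 3101457390) (nat_lit 76) (nat_lit 1213620458) (nat_lit 440) (nat_lit 5) (nat_lit 460) (nat_lit 5) (nat_lit 441) (nat_lit 5) (nat_lit 284) (nat_lit 258) (nat_lit 238)) (XT.nd (nat_lit 78) (nat_lit 1672) (nat_lit 0) (XT.lf (nat_lit 0) (nat_lit 3408059142) (nat_lit 1520) (nat_lit 3271850595) (nat_lit 1596) (nat_lit 629862154) (nat_lit 420) (nat_lit 5) (nat_lit 440) (nat_lit 5) (nat_lit 441) (nat_lit 5) (nat_lit 285) (nat_lit 258) (nat_lit 237)) (XT.lf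 (nat_lit 0) (nat_lit 2686887692) (nat_lit 1596) (nat_lit 367002052) (nat_lit 1672) (nat_lit 4330540068) (nat_lit 398) (nat_lit 5) (nat_lit 419) (nat_lit 5) (nat_lit 420) (nat_lit 5) (nat_lit 286) (nat_lit 258) (nat_lit 236)))) (XT.nd (nat_lit 156) (nat_lit 912) (nat_lit 0) (XT.nd (nat_lit 78) (nat_lit 1368) (nat_lit 0) (XT.lf (nat_lit 0) (nat_lit 1969430611) (nat_lit 1672) (nat_lit 4820151149) (nat_lit 1748) (nat_lit 672762155) (nat_lit 376) (nat_lit 5) (nat_lit 398) (nat_lit 5) (nat_lit 399) (nat_lit 5) (nat_lit 287) (nat_lit 258) (nat_lit 235)) (XT.lf (nat_lit 0) (nat_lit 1251837426) (nat_lit 1292) (nat_lit 1740114658) (nat_lit 1368) (nat_lit 4551580293) (nat_lit 358) (nat_lit 5) (nat_lit 375) (nat_lit 5) (nat_lit 376) (nat_lit 5) (nat_lit 288) (nat_lit 258) (nat_lit 234))) (XT.nd (nat_lit 78) (nat_lit 76) (nat_lit 0) (XT.lf (nat_lit 0) (nat_lit 539630734) (nat_lit 836) (nat_lit 6165760216) (nat_lit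 912) (nat_lit 922810002) (nat_lit 347) (nat_lit 5) (nat_lit 358) (nat_lit 5) (nat_lit 359) (nat_lit 5) (nat_lit 289) (nat_lit 258) (nat_lit 233)) (XT.lf (nat_lit 0) (nat_lit 2731646135) (nat_lit 912) (nat_lit 183628764) (nat_lit 76) (nat_lit 4800781821) (nat_lit 346) (nat_lit 5) (nat_lit 358) (nat_lit 5) (nat_lit 347) (nat_lit 5) (nat_lit 290) (nat_lit 258) (nat_lit 232)))))) (XT.nd (nat_lit 546) (nat_lit 4028) (nat_lit 0) (XT.nd (nat_lit 234) (nat_lit 3116) (nat_lit 0) (XT.nd (nat_lit 78) (nat_lit 1748) (nat_lit 0) (XT.lf (nat_lit 0) (nat_lit 6433436424) (nat_lit 912) (nat_lit 895691105) (nat_lit 76) (nat_lit 478378776) (nat_lit 335) (nat_lit 5) (nat_lit 347) (nat_lit 5) (nat_lit 336) (nat_lit 5) (nat_lit 291) (nat_lit 258) (nat_lit 231)) (XT.nd (nat_lit 78) (nat_lit 836) (nat_lit 0) (XT.lf (nat_lit 0) (nat_lit 2279425152) (nat_lit 912) (nat_lit 1631924251) (nat_lit 76) (nat_lit 3990814454) (nat_lit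 323) (nat_lit 5) (nat_lit 335) (nat_lit 5) (nat_lit 324) (nat_lit 5) (nat_lit 292) (nat_lit 258) (nat_lit 230)) (XT.lf (nat_lit 0) (nat_lit 5630390943) (nat_lit 836) (nat_lit 342040620) (nat_lit 912) (nat_lit 2028154879) (nat_lit 312) (nat_lit 5) (nat_lit 323) (nat_lit 5) (nat_lit 324) (nat_lit 5) (nat_lit 293) (nat_lit 258) (nat_lit 229)))) (XT.nd (nat_lit 156) (nat_lit 1520) (nat_lit 0) (XT.nd (nat_lit 78) (nat_lit 760) (nat_lit 0) (XT.lf (nat_lit 0) (nat_lit 1625034922) (nat_lit 836) (nat_lit 3136942733) (nat_lit 76) (nat_lit 3340386780) (nat_lit 301) (nat_lit 5) (nat_lit 312) (nat_lit 5) (nat_lit 302) (nat_lit 5) (nat_lit 294) (nat_lit 258) (nat_lit 228)) (XT.lf (nat_lit 0) (nat_lit 4288897378) (nat_lit 760) (nat_lit 1027102506) (nat_lit 836) (nat_lit 2891885579) (nat_lit 291) (nat_lit 5) (nat_lit 301) (nat_lit 5) (nat_lit 302) (nat_lit 5) (nat_lit 295) (nat_lit 258) (nat_lit 227))) (XT.nd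 (nat_lit 78) (nat_lit 760) (nat_lit 0) (XT.lf (nat_lit 0) (nat_lit 764661576) (nat_lit 760) (nat_lit 4727461039) (nat_lit 76) (nat_lit 2824933550) (nat_lit 281) (nat_lit 5) (nat_lit 291) (nat_lit 5) (nat_lit 282) (nat_lit 5) (nat_lit 296) (nat_lit 258) (nat_lit 226)) (XT.lf (nat_lit 0) (nat_lit 2861342313) (nat_lit 760) (nat_lit 1595232544) (nat_lit 836) (nat_lit 3973312640) (nat_lit 271) (nat_lit 5) (nat_lit 281) (nat_lit 5) (nat_lit 282) (nat_lit 5) (nat_lit 297) (nat_lit 258) (nat_lit 225))))) (XT.nd (nat_lit 234) (nat_lit 1976) (nat_lit 0) (XT.nd (nat_lit 78) (nat_lit 1368) (nat_lit 0) (XT.lf (nat_lit 0) (nat_lit 2110798927) (nat_lit 684) (nat_lit 6124509106) (nat_lit 760) (nat_lit 311339532) (nat_lit 262) (nat_lit 5) (nat_lit 271) (nat_lit 5) (nat_lit 272) (nat_lit 5) (nat_lit 298) (nat_lit 258) (nat_lit 224)) (XT.nd (nat_lit 78) (nat_lit 608) (nat_lit 0) (XT.lf (nat_lit 0) (nat_lit 1316856973)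 (nat_lit 684) (nat_lit 2071110859) (nat_lit 760) (nat_lit 5279097960) (nat_lit 252) (nat_lit 5) (nat_lit 261) (nat_lit 5) (nat_lit 262) (nat_lit 5) (nat_lit 299) (nat_lit 258) (nat_lit 223)) (XT.lf (nat_lit 0) (nat_lit 492789054) (nat_lit 608) (nat_lit 6679422327) (nat_lit 684) (nat_lit 1619340399) (nat_lit 244) (nat_lit 5) (nat_lit 252) (nat_lit 5) (nat_lit 253) (nat_lit 5) (nat_lit 300) (nat_lit 258) (nat_lit 222)))) (XT.nd (nat_lit 156) (nat_lit 1292) (nat_lit 0) (XT.nd (nat_lit 78) (nat_lit 608) (nat_lit 0) (XT.lf (nat_lit 0) (nat_lit 2104589507) (nat_lit 684) (nat_lit 372441655) (nat_lit 76) (nat_lit 6442867589) (nat_lit 243) (nat_lit 5) (nat_lit 252) (nat_lit 5) (nat_lit 244) (nat_lit 5) (nat_lit 301) (nat_lit 258) (nat_lit 221)) (XT.lf (nat_lit 0) (nat_lit 5902222229) (nat_lit 684) (nat_lit 1276224200) (nat_lit 76) (nat_lit 1873811466) (nat_lit 235) (nat_lit 5) (nat_lit 244) (nat_lit 5)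 (nat_lit 236) (nat_lit 5) (nat_lit 302) (nat_lit 258) (nat_lit 220))) (XT.nd (nat_lit 78) (nat_lit 608) (nat_lit 0) (XT.lf (nat_lit 0) (nat_lit 603751592) (nat_lit 684) (nat_lit 2226923466) (nat_lit 76) (nat_lit 6358149344) (nat_lit 226) (nat_lit 5) (nat_lit 235) (nat_lit 5) (nat_lit 227) (nat_lit 5) (nat_lit 303) (nat_lit 258) (nat_lit 219)) (XT.lf (nat_lit 0) (nat_lit 4410616125) (nat_lit 684) (nat_lit 3240397624) (nat_lit 76) (nat_lit 1678443847) (nat_lit 218) (nat_lit 5) (nat_lit 227) (nat_lit 5) (nat_lit 219) (nat_lit 5) (nat_lit 304) (nat_lit 258) (nat_lit 218))))))) (XT.nd (nat_lit 1014) (nat_lit 4408) (nat_lit 0) (XT.nd (nat_lit 468) (nat_lit 2964) (nat_lit 0) (XT.nd (nat_lit 234) (nat_lit 1064) (nat_lit 0) (XT.nd (nat_lit 78) (nat_lit 1140) (nat_lit 0) (XT.lf (nat_lit 0) (nat_lit 5165928476) (nat_lit 532) (nat_lit 3158589450) (nat_lit 608) (nat_lit 1149985073) (nat_lit 211) (nat_lit 5)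 (nat_lit 218) (nat_lit 5) (nat_lit 219) (nat_lit 5) (nat_lit 305) (nat_lit 258) (nat_lit 217)) (XT.nd (nat_lit 78) (nat_lit 532) (nat_lit 0) (XT.lf (nat_lit 0) (nat_lit 2681479420) (nat_lit 608) (nat_lit 5444835254) (nat_lit 76) (nat_lit 1497570332) (nat_lit 203) (nat_lit 5) (nat_lit 211) (nat_lit 5) (nat_lit 204) (nat_lit 5) (nat_lit 306) (nat_lit 258) (nat_lit 216)) (XT.lf (nat_lit 0) (nat_lit 3121904854) (nat_lit 532) (nat_lit 3488874376) (nat_lit 608) (nat_lit 3166892967) (nat_lit 196) (nat_lit 5) (nat_lit 203) (nat_lit 5) (nat_lit 204) (nat_lit 5) (nat_lit 307) (nat_lit 258) (nat_lit 215)))) (XT.nd (nat_lit 78) (nat_lit 456) (nat_lit 0) (XT.lf (nat_lit 0) (nat_lit 699861210) (nat_lit 608) (nat_lit 7931339848) (nat_lit 76) (nat_lit 1305073168) (nat_lit 188) (nat_lit 5) (nat_lit 196) (nat_lit 5) (nat_lit 189) (nat_lit 5) (nat_lit 308) (nat_lit 258) (nat_lit 214)) (XT.nd (nat_lit 78) (nat_lit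 0) (nat_lit 0) (XT.lf (nat_lit 0) (nat_lit 790967448) (nat_lit 456) (nat_lit 3852729591) (nat_lit 532) (nat_lit 5455479080) (nat_lit 182) (nat_lit 5) (nat_lit 188) (nat_lit 5) (nat_lit 189) (nat_lit 5) (nat_lit 309) (nat_lit 258) (nat_lit 213)) (XT.lf (nat_lit 0) (nat_lit 8698185915) (nat_lit 532) (nat_lit 481873267) (nat_lit 76) (nat_lit 1087100450) (nat_lit 182) (nat_lit 5) (nat_lit 189) (nat_lit 5) (nat_lit 183) (nat_lit 5) (nat_lit 310) (nat_lit 258) (nat_lit 212))))) (XT.nd (nat_lit 234) (nat_lit 1444) (nat_lit 0) (XT.nd (nat_lit 78) (nat_lit 912) (nat_lit 0) (XT.lf (nat_lit 0) (nat_lit 2417205100) (nat_lit 608) (nat_lit 1848968788) (nat_lit 76) (nat_lit 6173431968) (nat_lit 174) (nat_lit 5) (nat_lit 182) (nat_lit 5) (nat_lit 175) (nat_lit 5) (nat_lit 311) (nat_lit 258) (nat_lit 211)) (XT.nd (nat_lit 78) (nat_lit 456) (nat_lit 0) (XT.lf (nat_lit 0) (nat_lit 6492210958) (nat_lit 532) (nat_lit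 3301477498) (nat_lit 76) (nat_lit 823556622) (nat_lit 168) (nat_lit 5) (nat_lit 175) (nat_lit 5) (nat_lit 169) (nat_lit 5) (nat_lit 312) (nat_lit 258) (nat_lit 210)) (XT.lf (nat_lit 0) (nat_lit 5941398453) (nat_lit 456) (nat_lit 4763181111) (nat_lit 532) (nat_lit 95368733) (nat_lit 162) (nat_lit 5) (nat_lit 168) (nat_lit 5) (nat_lit 169) (nat_lit 5) (nat_lit 313) (nat_lit 258) (nat_lit 209)))) (XT.nd (nat_lit 156) (nat_lit 456) (nat_lit 0) (XT.nd (nat_lit 78) (nat_lit 456) (nat_lit 0) (XT.lf (nat_lit 0) (nat_lit 3992826754) (nat_lit 532) (nat_lit 6527983207) (nat_lit 76) (nat_lit 467014867) (nat_lit 155) (nat_lit 5) (nat_lit 162) (nat_lit 5) (nat_lit 156) (nat_lit 5) (nat_lit 314) (nat_lit 258) (nat_lit 208)) (XT.lf (nat_lit 0) (nat_lit 2860575515) (nat_lit 456) (nat_lit 5362763277) (nat_lit 532) (nat_lit 2957601190) (nat_lit 149) (nat_lit 5) (nat_lit 155) (nat_lit 5) (nat_lit 156) (nat_lit 5)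 (nat_lit 315) (nat_lit 258) (nat_lit 207))) (XT.nd (nat_lit 78) (nat_lit 0) (nat_lit 0) (XT.lf (nat_lit 0) (nat_lit 1161049521) (nat_lit 380) (nat_lit 14399763) (nat_lit 456) (nat_lit 10204470334) (nat_lit 143) (nat_lit 5) (nat_lit 148) (nat_lit 5) (nat_lit 149) (nat_lit 5) (nat_lit 316) (nat_lit 258) (nat_lit 206)) (XT.lf (nat_lit 0) (nat_lit 5424259104) (nat_lit 456) (nat_lit 685703423) (nat_lit 76) (nat_lit 5473907781) (nat_lit 143) (nat_lit 5) (nat_lit 149) (nat_lit 5) (nat_lit 144) (nat_lit 5) (nat_lit 317) (nat_lit 258) (nat_lit 205)))))) (XT.nd (nat_lit 546) (nat_lit 2052) (nat_lit 0) (XT.nd (nat_lit 234) (nat_lit 1064) (nat_lit 0) (XT.nd (nat_lit 78) (nat_lit 836) (nat_lit 0) (XT.lf (nat_lit 0) (nat_lit 9169216674) (nat_lit 456) (nat_lit 632006444) (nat_lit 532) (nat_lit 1992733340) (nat_lit 137) (nat_lit 5) (nat_lit 143) (nat_lit 5) (nat_lit 144) (nat_lit 5) (nat_lit 318) (nat_lit 258)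 (nat_lit 204)) (XT.nd (nat_lit 78) (nat_lit 380) (nat_lit 0) (XT.lf (nat_lit 0) (nat_lit 2295809701) (nat_lit 456) (nat_lit 4726926558) (nat_lit 76) (nat_lit 4986803387) (nat_lit 131) (nat_lit 5) (nat_lit 137) (nat_lit 5) (nat_lit 132) (nat_lit 5) (nat_lit 319) (nat_lit 258) (nat_lit 203)) (XT.lf (nat_lit 0) (nat_lit 5259713765) (nat_lit 380) (nat_lit 1425476229) (nat_lit 456) (nat_lit 5546180214) (nat_lit 126) (nat_lit 5) (nat_lit 131) (nat_lit 5) (nat_lit 132) (nat_lit 5) (nat_lit 320) (nat_lit 258) (nat_lit 202)))) (XT.nd (nat_lit 156) (nat_lit 304) (nat_lit 0) (XT.nd (nat_lit 78) (nat_lit 456) (nat_lit 0) (XT.lf (nat_lit 0) (nat_lit 3080349704) (nat_lit 304) (nat_lit 8150104251) (nat_lit 380) (nat_lit 1228945265) (nat_lit 122) (nat_lit 5) (nat_lit 126) (nat_lit 5) (nat_lit 127) (nat_lit 5) (nat_lit 321) (nat_lit 258) (nat_lit 201)) (XT.lf (nat_lit 0) (nat_lit 732370250) (nat_lit 380) (nat_lit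 2449575481) (nat_lit 456) (nat_lit 9511804956) (nat_lit 116) (nat_lit 5) (nat_lit 121) (nat_lit 5) (nat_lit 122) (nat_lit 5) (nat_lit 322) (nat_lit 258) (nat_lit 200))) (XT.nd (nat_lit 78) (nat_lit 304) (nat_lit 0) (XT.lf (nat_lit 0) (nat_lit 7740170053) (nat_lit 456) (nat_lit 1771323383) (nat_lit 76) (nat_lit 3422868218) (nat_lit 116) (nat_lit 5) (nat_lit 122) (nat_lit 5) (nat_lit 117) (nat_lit 5) (nat_lit 323) (nat_lit 258) (nat_lit 199)) (XT.lf (nat_lit 0) (nat_lit 8742992504) (nat_lit 304) (nat_lit 3712299164) (nat_lit 380) (nat_lit 726521014) (nat_lit 112) (nat_lit 5) (nat_lit 116) (nat_lit 5) (nat_lit 117) (nat_lit 5) (nat_lit 324) (nat_lit 258) (nat_lit 198))))) (XT.nd (nat_lit 234) (nat_lit 988) (nat_lit 0) (XT.nd (nat_lit 78) (nat_lit 608) (nat_lit 0) (XT.lf (nat_lit 0) (nat_lit 3838967391) (nat_lit 456) (nat_lit 7314603909) (nat_lit 76) (nat_lit 2282344060) (nat_lit 106) (nat_lit 5) (nat_lit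 112) (nat_lit 5) (nat_lit 107) (nat_lit 5) (nat_lit 325) (nat_lit 258) (nat_lit 197)) (XT.nd (nat_lit 78) (nat_lit 304) (nat_lit 0) (XT.lf (nat_lit 0) (nat_lit 3296572955) (nat_lit 304) (nat_lit 5260057086) (nat_lit 380) (nat_lit 5140436294) (nat_lit 102) (nat_lit 5) (nat_lit 106) (nat_lit 5) (nat_lit 107) (nat_lit 5) (nat_lit 326) (nat_lit 258) (nat_lit 196)) (XT.lf (nat_lit 0) (nat_lit 280918741) (nat_lit 304) (nat_lit 13141220713) (nat_lit 380) (nat_lit 543808245) (nat_lit 98) (nat_lit 5) (nat_lit 102) (nat_lit 5) (nat_lit 103) (nat_lit 5) (nat_lit 327) (nat_lit 258) (nat_lit 195)))) (XT.nd (nat_lit 156) (nat_lit 608) (nat_lit 0) (XT.nd (nat_lit 78) (nat_lit 304) (nat_lit 0) (XT.lf (nat_lit 0) (nat_lit 4191839593) (nat_lit 380) (nat_lit 2956941117) (nat_lit 76) (nat_lit 7092470087) (nat_lit 97) (nat_lit 5) (nat_lit 102) (nat_lit 5) (nat_lit 98) (nat_lit 5) (nat_lit 328) (nat_lit 258) (nat_lit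 194)) (XT.lf (nat_lit 0) (nat_lit 8120377171) (nat_lit 304) (nat_lit 945976738) (nat_lit 380) (nat_lit 5458323998) (nat_lit 93) (nat_lit 5) (nat_lit 97) (nat_lit 5) (nat_lit 98) (nat_lit 5) (nat_lit 329) (nat_lit 258) (nat_lit 193))) (XT.nd (nat_lit 78) (nat_lit 304) (nat_lit 0) (XT.lf (nat_lit 0) (nat_lit 4705473110) (nat_lit 304) (nat_lit 9419870847) (nat_lit 380) (nat_lit 690518984) (nat_lit 89) (nat_lit 5) (nat_lit 93) (nat_lit 5) (nat_lit 94) (nat_lit 5) (nat_lit 330) (nat_lit 258) (nat_lit 192)) (XT.lf (nat_lit 0) (nat_lit 1026252067) (nat_lit 228) (nat_lit 3148156198) (nat_lit 304) (nat_lit 10940657430) (nat_lit 85) (nat_lit 5) (nat_lit 88) (nat_lit 5) (nat_lit 89) (nat_lit 5) (nat_lit 331) (nat_lit 258) (nat_lit 191))))))))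
noncomputable def xc48 : XT := (XT.nd (nat_lit 2028) (nat_lit 532) (nat_lit 0) (XT.nd (nat_lit 1014) (nat_lit 1444) (nat_lit 0) (XT.nd (nat_lit 468) (nat_lit 1292) (nat_lit 0) (XT.nd (nat_lit 234) (nat_lit 608) (nat_lit 0) (XT.nd (nat_lit 78) (nat_lit 608) (nat_lit 0) (XT.lf (nat_lit 0) (nat_lit 9219911378) (nat_lit 304) (nat_lit 2887104097) (nat_lit 76) (nat_lit 3315275985) (nat_lit 85) (nat_lit 5) (nat_lit 89) (nat_lit 5) (nat_lit 86) (nat_lit 5) (nat_lit 332) (nat_lit 258) (nat_lit 190)) (XT.nd (nat_lit 78) (nat_lit 304) (nat_lit 0) (XT.lf (nat_lit 0) (nat_lit 8671445457) (nat_lit 304) (nat_lit 5777531986) (nat_lit 380) (nat_lit 1289130468) (nat_lit 81) (nat_lit 5) (nat_lit 85) (nat_lit 5) (nat_lit 86) (nat_lit 5) (nat_lit 333) (nat_lit 258) (nat_lit 189)) (XT.lf (nat_lit 0) (nat_lit 3731589799) (nat_lit 304) (nat_lit 11551415383) (nat_lit 76) (nat_lit 779730192) (nat_lit 77) (nat_lit 5) (nat_lit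 81) (nat_lit 5) (nat_lit 78) (nat_lit 5) (nat_lit 334) (nat_lit 258) (nat_lit 188)))) (XT.nd (nat_lit 78) (nat_lit 304) (nat_lit 0) (XT.lf (nat_lit 0) (nat_lit 19009355) (nat_lit 304) (nat_lit 8909533152) (nat_lit 380) (nat_lit 7467542746) (nat_lit 73) (nat_lit 5) (nat_lit 77) (nat_lit 5) (nat_lit 78) (nat_lit 5) (nat_lit 335) (nat_lit 258) (nat_lit 187)) (XT.nd (nat_lit 78) (nat_lit 304) (nat_lit 0) (XT.lf (nat_lit 0) (nat_lit 12024922095) (nat_lit 304) (nat_lit 2291646503) (nat_lit 380) (nat_lit 2422179765) (nat_lit 73) (nat_lit 5) (nat_lit 77) (nat_lit 5) (nat_lit 78) (nat_lit 5) (nat_lit 336) (nat_lit 258) (nat_lit 186)) (XT.lf (nat_lit 0) (nat_lit 2773103130) (nat_lit 304) (nat_lit 9812004419) (nat_lit 76) (nat_lit 4505539841) (nat_lit 69) (nat_lit 5) (nat_lit 73) (nat_lit 5) (nat_lit 70) (nat_lit 5) (nat_lit 337) (nat_lit 258) (nat_lit 185))))) (XT.nd (nat_lit 234) (nat_lit 760) (nat_lit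 0) (XT.nd (nat_lit 78) (nat_lit 304) (nat_lit 0) (XT.lf (nat_lit 0) (nat_lit 2171841628) (nat_lit 228) (nat_lit 5939738422) (nat_lit 304) (nat_lit 9340813073) (nat_lit 66) (nat_lit 5) (nat_lit 69) (nat_lit 5) (nat_lit 70) (nat_lit 5) (nat_lit 338) (nat_lit 258) (nat_lit 184)) (XT.nd (nat_lit 78) (nat_lit 304) (nat_lit 0) (XT.lf (nat_lit 0) (nat_lit 13642099543) (nat_lit 304) (nat_lit 3247878765) (nat_lit 76) (nat_lit 934389539) (nat_lit 66) (nat_lit 5) (nat_lit 70) (nat_lit 5) (nat_lit 67) (nat_lit 5) (nat_lit 339) (nat_lit 258) (nat_lit 183)) (XT.lf (nat_lit 0) (nat_lit 1176053160) (nat_lit 304) (nat_lit 9053315188) (nat_lit 76) (nat_lit 7976803208) (nat_lit 62) (nat_lit 5) (nat_lit 66) (nat_lit 5) (nat_lit 63) (nat_lit 5) (nat_lit 340) (nat_lit 258) (nat_lit 182)))) (XT.nd (nat_lit 156) (nat_lit 532) (nat_lit 0) (XT.nd (nat_lit 78) (nat_lit 0) (nat_lit 0) (XT.lf (nat_lit 0) (nat_lit 3321608674)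 (nat_lit 228) (nat_lit 3321481435) (nat_lit 304) (nat_lit 11955703933) (nat_lit 59) (nat_lit 5) (nat_lit 62) (nat_lit 5) (nat_lit 63) (nat_lit 5) (nat_lit 341) (nat_lit 258) (nat_lit 181)) (XT.lf (nat_lit 0) (nat_lit 12321829729) (nat_lit 304) (nat_lit 2899789800) (nat_lit 76) (nat_lit 3780634750) (nat_lit 59) (nat_lit 5) (nat_lit 63) (nat_lit 5) (nat_lit 60) (nat_lit 5) (nat_lit 342) (nat_lit 258) (nat_lit 180))) (XT.nd (nat_lit 78) (nat_lit 304) (nat_lit 0) (XT.lf (nat_lit 0) (nat_lit 9893865634) (nat_lit 228) (nat_lit 8325948978) (nat_lit 304) (nat_lit 1197038578) (nat_lit 56) (nat_lit 5) (nat_lit 59) (nat_lit 5) (nat_lit 60) (nat_lit 5) (nat_lit 343) (nat_lit 258) (nat_lit 179)) (XT.lf (nat_lit 0) (nat_lit 3218611930) (nat_lit 228) (nat_lit 1177412136) (nat_lit 304) (nat_lit 15447228996) (nat_lit 52) (nat_lit 5) (nat_lit 55) (nat_lit 5) (nat_lit 56) (nat_lit 5) (nat_lit 344) (nat_lit 258) (nat_lit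 178)))))) (XT.nd (nat_lit 468) (nat_lit 836) (nat_lit 0) (XT.nd (nat_lit 234) (nat_lit 152) (nat_lit 0) (XT.nd (nat_lit 78) (nat_lit 456) (nat_lit 0) (XT.lf (nat_lit 0) (nat_lit 10209223385) (nat_lit 304) (nat_lit 3918608263) (nat_lit 76) (nat_lit 6153094456) (nat_lit 52) (nat_lit 5) (nat_lit 56) (nat_lit 5) (nat_lit 53) (nat_lit 5) (nat_lit 345) (nat_lit 258) (nat_lit 177)) (XT.nd (nat_lit 78) (nat_lit 304) (nat_lit 0) (XT.lf (nat_lit 0) (nat_lit 9221801445) (nat_lit 152) (nat_lit 7007227428) (nat_lit 228) (nat_lit 4502067502) (nat_lit 50) (nat_lit 5) (nat_lit 52) (nat_lit 5) (nat_lit 53) (nat_lit 5) (nat_lit 346) (nat_lit 258) (nat_lit 176)) (XT.lf (nat_lit 0) (nat_lit 1222515687) (nat_lit 304) (nat_lit 19628026845) (nat_lit 76) (nat_lit 343998565) (nat_lit 46) (nat_lit 5) (nat_lit 50) (nat_lit 5) (nat_lit 47) (nat_lit 5) (nat_lit 347) (nat_lit 258) (nat_lit 175)))) (XT.nd (nat_lit 78) (nat_lit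 152) (nat_lit 0) (XT.lf (nat_lit 0) (nat_lit 7148748646) (nat_lit 304) (nat_lit 6614638042) (nat_lit 76) (nat_lit 7906096134) (nat_lit 46) (nat_lit 5) (nat_lit 50) (nat_lit 5) (nat_lit 47) (nat_lit 5) (nat_lit 348) (nat_lit 258) (nat_lit 174)) (XT.nd (nat_lit 78) (nat_lit 0) (nat_lit 0) (XT.lf (nat_lit 0) (nat_lit 6821370093) (nat_lit 152) (nat_lit 6442057760) (nat_lit 228) (nat_lit 8895041846) (nat_lit 44) (nat_lit 5) (nat_lit 46) (nat_lit 5) (nat_lit 47) (nat_lit 5) (nat_lit 349) (nat_lit 258) (nat_lit 173)) (XT.lf (nat_lit 0) (nat_lit 19580634983) (nat_lit 228) (nat_lit 1974496642) (nat_lit 76) (nat_lit 1106622600) (nat_lit 44) (nat_lit 5) (nat_lit 47) (nat_lit 5) (nat_lit 45) (nat_lit 5) (nat_lit 350) (nat_lit 258) (nat_lit 172))))) (XT.nd (nat_lit 234) (nat_lit 380) (nat_lit 0) (XT.nd (nat_lit 78) (nat_lit 152) (nat_lit 0) (XT.lf (nat_lit 0) (nat_lit 2957456883) (nat_lit 304) (nat_lit 11351761310)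 (nat_lit 76) (nat_lit 8868783610) (nat_lit 40) (nat_lit 5) (nat_lit 44) (nat_lit 5) (nat_lit 41) (nat_lit 5) (nat_lit 351) (nat_lit 258) (nat_lit 171)) (XT.nd (nat_lit 78) (nat_lit 0) (nat_lit 0) (XT.lf (nat_lit 0) (nat_lit 2313488802) (nat_lit 152) (nat_lit 6818734852) (nat_lit 228) (nat_lit 14577177005) (nat_lit 38) (nat_lit 5) (nat_lit 40) (nat_lit 5) (nat_lit 41) (nat_lit 5) (nat_lit 352) (nat_lit 258) (nat_lit 170)) (XT.lf (nat_lit 0) (nat_lit 15544083505) (nat_lit 228) (nat_lit 7771768740) (nat_lit 76) (nat_lit 939861021) (nat_lit 38) (nat_lit 5) (nat_lit 41) (nat_lit 5) (nat_lit 39) (nat_lit 5) (nat_lit 353) (nat_lit 258) (nat_lit 169)))) (XT.nd (nat_lit 156) (nat_lit 152) (nat_lit 0) (XT.nd (nat_lit 78) (nat_lit 76) (nat_lit 0) (XT.lf (nat_lit 0) (nat_lit 6244663721) (nat_lit 152) (nat_lit 15959291577) (nat_lit 228) (nat_lit 2613355359) (nat_lit 36) (nat_lit 5) (nat_lit 38) (nat_lit 5)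 (nat_lit 39) (nat_lit 5) (nat_lit 354) (nat_lit 258) (nat_lit 168)) (XT.lf (nat_lit 0) (nat_lit 3642631750) (nat_lit 228) (nat_lit 4683183414) (nat_lit 76) (nat_lit 17069015257) (nat_lit 35) (nat_lit 5) (nat_lit 38) (nat_lit 5) (nat_lit 36) (nat_lit 5) (nat_lit 355) (nat_lit 258) (nat_lit 167))) (XT.nd (nat_lit 78) (nat_lit 0) (nat_lit 0) (XT.lf (nat_lit 0) (nat_lit 9681699447) (nat_lit 152) (nat_lit 402890629) (nat_lit 228) (nat_lit 15904072160) (nat_lit 33) (nat_lit 5) (nat_lit 35) (nat_lit 5) (nat_lit 36) (nat_lit 5) (nat_lit 356) (nat_lit 258) (nat_lit 166)) (XT.lf (nat_lit 0) (nat_lit 16773245246) (nat_lit 228) (nat_lit 2159006056) (nat_lit 76) (nat_lit 7666996595) (nat_lit 33) (nat_lit 5) (nat_lit 36) (nat_lit 5) (nat_lit 34) (nat_lit 5) (nat_lit 357) (nat_lit 258) (nat_lit 165))))))) (XT.nd (nat_lit 33774) (nat_lit 0) (nat_lit 32908) (XT.nd (nat_lit 33228) (nat_lit 0) (nat_lit 44916) (XT.nd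 (nat_lit 234) (nat_lit 152) (nat_lit 0) (XT.nd (nat_lit 78) (nat_lit 228) (nat_lit 0) (XT.lf (nat_lit 0) (nat_lit 12526057878) (nat_lit 152) (nat_lit 11192489922) (nat_lit 228) (nat_lit 3508491005) (nat_lit 31) (nat_lit 5) (nat_lit 33) (nat_lit 5) (nat_lit 34) (nat_lit 5) (nat_lit 358) (nat_lit 258) (nat_lit 164)) (XT.nd (nat_lit 78) (nat_lit 152) (nat_lit 0) (XT.lf (nat_lit 0) (nat_lit 2946227091) (nat_lit 228) (nat_lit 260210223) (nat_lit 76) (nat_lit 24667103675) (nat_lit 30) (nat_lit 5) (nat_lit 33) (nat_lit 5) (nat_lit 31) (nat_lit 5) (nat_lit 359) (nat_lit 258) (nat_lit 163)) (XT.lf (nat_lit 0) (nat_lit 9649204886) (nat_lit 228) (nat_lit 13834341667) (nat_lit 76) (nat_lit 5053389032) (nat_lit 28) (nat_lit 5) (nat_lit 31) (nat_lit 5) (nat_lit 29) (nat_lit 5) (nat_lit 360) (nat_lit 258) (nat_lit 162)))) (XT.nd (nat_lit 78) (nat_lit 0) (nat_lit 0) (XT.lf (nat_lit 0) (nat_lit 840485818) (nat_lit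 152) (nat_lit 15714902847) (nat_lit 228) (nat_lit 12664807689) (nat_lit 26) (nat_lit 5) (nat_lit 28) (nat_lit 5) (nat_lit 29) (nat_lit 5) (nat_lit 361) (nat_lit 258) (nat_lit 161)) (XT.nd (nat_lit 32838) (nat_lit 0) (nat_lit 46816) (XT.lf (nat_lit 0) (nat_lit 16098952930) (nat_lit 152) (nat_lit 7637467800) (nat_lit 228) (nat_lit 6186187431) (nat_lit 26) (nat_lit 5) (nat_lit 28) (nat_lit 5) (nat_lit 29) (nat_lit 5) (nat_lit 362) (nat_lit 258) (nat_lit 160)) (XT.lf (nat_lit 0) (nat_lit 1348668799) (nat_lit 76) (nat_lit 937314499) (nat_lit 76) (nat_lit 937314499) (nat_lit 642) (nat_lit 4) (nat_lit 643) (nat_lit 5) (nat_lit 643) (nat_lit 4) (nat_lit 262) (nat_lit 259) (nat_lit 259))))) (XT.nd (nat_lit 234) (nat_lit 1368) (nat_lit 0) (XT.nd (nat_lit 78) (nat_lit 304) (nat_lit 0) (XT.lf (nat_lit 0) (nat_lit 945467610) (nat_lit 152) (nat_lit 1619446039) (nat_lit 228) (nat_lit 3887625189) (nat_lit 639)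 (nat_lit 5) (nat_lit 641) (nat_lit 5) (nat_lit 642) (nat_lit 4) (nat_lit 263) (nat_lit 259) (nat_lit 258)) (XT.nd (nat_lit 78) (nat_lit 228) (nat_lit 0) (XT.lf (nat_lit 0) (nat_lit 499397595) (nat_lit 228) (nat_lit 738261670) (nat_lit 76) (nat_lit 5223825757) (nat_lit 638) (nat_lit 5) (nat_lit 641) (nat_lit 5) (nat_lit 639) (nat_lit 5) (nat_lit 264) (nat_lit 259) (nat_lit 257)) (XT.lf (nat_lit 0) (nat_lit 4108686943) (nat_lit 228) (nat_lit 717070042) (nat_lit 304) (nat_lit 1647452332) (nat_lit 635) (nat_lit 5) (nat_lit 638) (nat_lit 5) (nat_lit 639) (nat_lit 5) (nat_lit 265) (nat_lit 259) (nat_lit 256)))) (XT.nd (nat_lit 156) (nat_lit 532) (nat_lit 0) (XT.nd (nat_lit 78) (nat_lit 456) (nat_lit 0) (XT.lf (nat_lit 0) (nat_lit 2547481063) (nat_lit 304) (nat_lit 70560432) (nat_lit 380) (nat_lit 3869941982) (nat_lit 630) (nat_lit 5) (nat_lit 634) (nat_lit 5) (nat_lit 635) (nat_lit 5) (nat_lit 266) (nat_lit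 259) (nat_lit 255)) (XT.lf (nat_lit 0) (nat_lit 346659062) (nat_lit 456) (nat_lit 5469175120) (nat_lit 76) (nat_lit 689960250) (nat_lit 624) (nat_lit 5) (nat_lit 630) (nat_lit 5) (nat_lit 625) (nat_lit 5) (nat_lit 267) (nat_lit 259) (nat_lit 254))) (XT.nd (nat_lit 78) (nat_lit 532) (nat_lit 0) (XT.lf (nat_lit 0) (nat_lit 4508733217) (nat_lit 456) (nat_lit 429886215) (nat_lit 76) (nat_lit 1587783932) (nat_lit 624) (nat_lit 5) (nat_lit 630) (nat_lit 5) (nat_lit 625) (nat_lit 5) (nat_lit 268) (nat_lit 259) (nat_lit 253)) (XT.lf (nat_lit 0) (nat_lit 2096707739) (nat_lit 532) (nat_lit 1835370170) (nat_lit 76) (nat_lit 2617894063) (nat_lit 617) (nat_lit 5) (nat_lit 624) (nat_lit 5) (nat_lit 618) (nat_lit 5) (nat_lit 269) (nat_lit 259) (nat_lit 252)))))) (XT.nd (nat_lit 546) (nat_lit 7372) (nat_lit 0) (XT.nd (nat_lit 234) (nat_lit 2660) (nat_lit 0) (XT.nd (nat_lit 78) (nat_lit 1444) (nat_lit 0) (XT.lf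 (nat_lit 0) (nat_lit 3381381895) (nat_lit 532) (nat_lit 2801857950) (nat_lit 608) (nat_lit 393409001) (nat_lit 610) (nat_lit 5) (nat_lit 617) (nat_lit 5) (nat_lit 618) (nat_lit 5) (nat_lit 270) (nat_lit 259) (nat_lit 251)) (XT.nd (nat_lit 78) (nat_lit 760) (nat_lit 0) (XT.lf (nat_lit 0) (nat_lit 2083363356) (nat_lit 608) (nat_lit 1534922351) (nat_lit 684) (nat_lit 2987935325) (nat_lit 601) (nat_lit 5) (nat_lit 609) (nat_lit 5) (nat_lit 610) (nat_lit 5) (nat_lit 271) (nat_lit 259) (nat_lit 250)) (XT.lf (nat_lit 0) (nat_lit 833111833) (nat_lit 684) (nat_lit 144144239) (nat_lit 760) (nat_lit 5661732415) (nat_lit 591) (nat_lit 5) (nat_lit 600) (nat_lit 5) (nat_lit 601) (nat_lit 5) (nat_lit 272) (nat_lit 259) (nat_lit 249)))) (XT.nd (nat_lit 156) (nat_lit 1824) (nat_lit 0) (XT.nd (nat_lit 78) (nat_lit 836) (nat_lit 0) (XT.lf (nat_lit 0) (nat_lit 4920348537) (nat_lit 760) (nat_lit 386427507) (nat_lit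 76) (nat_lit 1367744819) (nat_lit 591) (nat_lit 5) (nat_lit 601) (nat_lit 5) (nat_lit 592) (nat_lit 5) (nat_lit 273) (nat_lit 259) (nat_lit 248)) (XT.lf (nat_lit 0) (nat_lit 2138687454) (nat_lit 836) (nat_lit 1559544928) (nat_lit 76) (nat_lit 3014794551) (nat_lit 580) (nat_lit 5) (nat_lit 591) (nat_lit 5) (nat_lit 581) (nat_lit 5) (nat_lit 274) (nat_lit 259) (nat_lit 247))) (XT.nd (nat_lit 78) (nat_lit 988) (nat_lit 0) (XT.lf (nat_lit 0) (nat_lit 4058746102) (nat_lit 836) (nat_lit 1961364315) (nat_lit 912) (nat_lit 734588641) (nat_lit 569) (nat_lit 5) (nat_lit 580) (nat_lit 5) (nat_lit 581) (nat_lit 5) (nat_lit 275) (nat_lit 259) (nat_lit 246)) (XT.lf (nat_lit 0) (nat_lit 2992461161) (nat_lit 912) (nat_lit 84482072) (nat_lit 988) (nat_lit 3722430964) (nat_lit 556) (nat_lit 5) (nat_lit 568) (nat_lit 5) (nat_lit 569) (nat_lit 5) (nat_lit 276) (nat_lit 259) (nat_lit 245))))) (XT.nd (nat_lit 234) (nat_lit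 5168) (nat_lit 0) (XT.nd (nat_lit 78) (nat_lit 1140) (nat_lit 0) (XT.lf (nat_lit 0) (nat_lit 60249038) (nat_lit 1064) (nat_lit 4892221096) (nat_lit 76) (nat_lit 1894650869) (nat_lit 542) (nat_lit 5) (nat_lit 556) (nat_lit 5) (nat_lit 543) (nat_lit 5) (nat_lit 277) (nat_lit 259) (nat_lit 244)) (XT.nd (nat_lit 78) (nat_lit 76) (nat_lit 0) (XT.lf (nat_lit 0) (nat_lit 935586750) (nat_lit 1064) (nat_lit 2877479691) (nat_lit 1140) (nat_lit 3084733374) (nat_lit 528) (nat_lit 5) (nat_lit 542) (nat_lit 5) (nat_lit 543) (nat_lit 5) (nat_lit 278) (nat_lit 259) (nat_lit 243)) (XT.lf (nat_lit 0) (nat_lit 628719237) (nat_lit 1140) (nat_lit 46236803) (nat_lit 76) (nat_lit 6276882026) (nat_lit 527) (nat_lit 5) (nat_lit 542) (nat_lit 5) (nat_lit 528) (nat_lit 5) (nat_lit 279) (nat_lit 259) (nat_lit 242)))) (XT.nd (nat_lit 156) (nat_lit 2736) (nat_lit 0) (XT.nd (nat_lit 78) (nat_lit 1292) (nat_lit 0) (XT.lf (nat_lit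 0) (nat_lit 4341873746) (nat_lit 1216) (nat_lit 1008628124) (nat_lit 76) (nat_lit 1658109604) (nat_lit 512) (nat_lit 5) (nat_lit 528) (nat_lit 5) (nat_lit 513) (nat_lit 5) (nat_lit 280) (nat_lit 259) (nat_lit 241)) (XT.lf (nat_lit 0) (nat_lit 1005482553) (nat_lit 1292) (nat_lit 1946922709) (nat_lit 76) (nat_lit 4116248657) (nat_lit 495) (nat_lit 5) (nat_lit 512) (nat_lit 5) (nat_lit 496) (nat_lit 5) (nat_lit 281) (nat_lit 259) (nat_lit 240))) (XT.nd (nat_lit 78) (nat_lit 1444) (nat_lit 0) (XT.lf (nat_lit 0) (nat_lit 4261959559) (nat_lit 1292) (nat_lit 409442058) (nat_lit 1368) (nat_lit 2460464632) (nat_lit 478) (nat_lit 5) (nat_lit 495) (nat_lit 5) (nat_lit 496) (nat_lit 5) (nat_lit 282) (nat_lit 259) (nat_lit 239)) (XT.lf (nat_lit 0) (nat_lit 1171103411) (nat_lit 1444) (nat_lit 3784990864) (nat_lit 76) (nat_lit 2242085550) (nat_lit 459) (nat_lit 5) (nat_lit 478) (nat_lit 5) (nat_lit 460) (nat_lit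 5) (nat_lit 283) (nat_lit 259) (nat_lit 238))))))))
noncomputable def xc49 : XT := (XT.nd (nat_lit 2106) (nat_lit 8284) (nat_lit 0) (XT.nd (nat_lit 1014) (nat_lit 7524) (nat_lit 0) (XT.nd (nat_lit 468) (nat_lit 5776) (nat_lit 0) (XT.nd (nat_lit 234) (nat_lit 3116) (nat_lit 0) (XT.nd (nat_lit 78) (nat_lit 3192) (nat_lit 0) (XT.lf (nat_lit 0) (nat_lit 2575989575) (nat_lit 1444) (nat_lit 2231110389) (nat_lit 1520) (nat_lit 2460586954) (nat_lit 440) (nat_lit 5) (nat_lit 459) (nat_lit 5) (nat_lit 460) (nat_lit 5) (nat_lit 284) (nat_lit 259) (nat_lit 237)) (XT.nd (nat_lit 78) (nat_lit 1596) (nat_lit 0) (XT.lf (nat_lit 0) (nat_lit 1129806689) (nat_lit 1596) (nat_lit 5585312809) (nat_lit 76) (nat_lit 625448283) (nat_lit 419) (nat_lit 5) (nat_lit 440) (nat_lit 5) (nat_lit 420) (nat_lit 5) (nat_lit 285) (nat_lit 259) (nat_lit 236)) (XT.lf (nat_lit 0) (nat_lit 928277163) (nat_lit 1596) (nat_lit 3813424364)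 (nat_lit 1672) (nat_lit 2674763281) (nat_lit 398) (nat_lit 5) (nat_lit 419) (nat_lit 5) (nat_lit 420) (nat_lit 5) (nat_lit 286) (nat_lit 259) (nat_lit 235)))) (XT.nd (nat_lit 78) (nat_lit 1368) (nat_lit 0) (XT.lf (nat_lit 0) (nat_lit 117807206) (nat_lit 1672) (nat_lit 771446486) (nat_lit 1748) (nat_lit 6606661554) (nat_lit 375) (nat_lit 5) (nat_lit 397) (nat_lit 5) (nat_lit 398) (nat_lit 5) (nat_lit 287) (nat_lit 259) (nat_lit 234)) (XT.nd (nat_lit 78) (nat_lit 1368) (nat_lit 0) (XT.lf (nat_lit 0) (nat_lit 4481869950) (nat_lit 1748) (nat_lit 697236811) (nat_lit 76) (nat_lit 2399220333) (nat_lit 375) (nat_lit 5) (nat_lit 398) (nat_lit 5) (nat_lit 376) (nat_lit 5) (nat_lit 288) (nat_lit 259) (nat_lit 233)) (XT.lf (nat_lit 0) (nat_lit 458172861) (nat_lit 1368) (nat_lit 1502434641) (nat_lit 76) (nat_lit 5703705298) (nat_lit 357) (nat_lit 5) (nat_lit 375) (nat_lit 5) (nat_lit 358) (nat_lit 5) (nat_lit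 289) (nat_lit 259) (nat_lit 232))))) (XT.nd (nat_lit 234) (nat_lit 3192) (nat_lit 0) (XT.nd (nat_lit 78) (nat_lit 1748) (nat_lit 0) (XT.lf (nat_lit 0) (nat_lit 4029631057) (nat_lit 912) (nat_lit 2323420960) (nat_lit 76) (nat_lit 1400456444) (nat_lit 346) (nat_lit 5) (nat_lit 358) (nat_lit 5) (nat_lit 347) (nat_lit 5) (nat_lit 290) (nat_lit 259) (nat_lit 231)) (XT.nd (nat_lit 78) (nat_lit 912) (nat_lit 0) (XT.lf (nat_lit 0) (nat_lit 4699325086) (nat_lit 836) (nat_lit 2967751915) (nat_lit 912) (nat_lit 179208534) (nat_lit 335) (nat_lit 5) (nat_lit 346) (nat_lit 5) (nat_lit 347) (nat_lit 5) (nat_lit 291) (nat_lit 259) (nat_lit 230)) (XT.lf (nat_lit 0) (nat_lit 3378035248) (nat_lit 912) (nat_lit 3988899688) (nat_lit 76) (nat_lit 575503250) (nat_lit 323) (nat_lit 5) (nat_lit 335) (nat_lit 5) (nat_lit 324) (nat_lit 5) (nat_lit 292) (nat_lit 259) (nat_lit 229)))) (XT.nd (nat_lit 156) (nat_lit 1520) (nat_lit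 0) (XT.nd (nat_lit 78) (nat_lit 836) (nat_lit 0) (XT.lf (nat_lit 0) (nat_lit 3194555173) (nat_lit 836) (nat_lit 3815620213) (nat_lit 912) (nat_lit 1031940231) (nat_lit 312) (nat_lit 5) (nat_lit 323) (nat_lit 5) (nat_lit 324) (nat_lit 5) (nat_lit 293) (nat_lit 259) (nat_lit 228)) (XT.lf (nat_lit 0) (nat_lit 2423595829) (nat_lit 760) (nat_lit 101596927) (nat_lit 836) (nat_lit 5620267032) (nat_lit 301) (nat_lit 5) (nat_lit 311) (nat_lit 5) (nat_lit 312) (nat_lit 5) (nat_lit 294) (nat_lit 259) (nat_lit 227))) (XT.nd (nat_lit 78) (nat_lit 760) (nat_lit 0) (XT.lf (nat_lit 0) (nat_lit 1622764844) (nat_lit 760) (nat_lit 4532032900) (nat_lit 836) (nat_lit 2097444945) (nat_lit 291) (nat_lit 5) (nat_lit 301) (nat_lit 5) (nat_lit 302) (nat_lit 5) (nat_lit 295) (nat_lit 259) (nat_lit 226)) (XT.lf (nat_lit 0) (nat_lit 809449219) (nat_lit 684) (nat_lit 659735006) (nat_lit 760) (nat_lit 6893748984) (nat_lit 281)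 (nat_lit 5) (nat_lit 290) (nat_lit 5) (nat_lit 291) (nat_lit 5) (nat_lit 296) (nat_lit 259) (nat_lit 225)))))) (XT.nd (nat_lit 546) (nat_lit 3344) (nat_lit 0) (XT.nd (nat_lit 234) (nat_lit 2660) (nat_lit 0) (XT.nd (nat_lit 78) (nat_lit 1520) (nat_lit 0) (XT.lf (nat_lit 0) (nat_lit 5096415373) (nat_lit 760) (nat_lit 44750719) (nat_lit 76) (nat_lit 3335924135) (nat_lit 281) (nat_lit 5) (nat_lit 291) (nat_lit 5) (nat_lit 282) (nat_lit 5) (nat_lit 297) (nat_lit 259) (nat_lit 224)) (XT.nd (nat_lit 78) (nat_lit 684) (nat_lit 0) (XT.lf (nat_lit 0) (nat_lit 206363705) (nat_lit 836) (nat_lit 903209584) (nat_lit 76) (nat_lit 7485695884) (nat_lit 270) (nat_lit 5) (nat_lit 281) (nat_lit 5) (nat_lit 271) (nat_lit 5) (nat_lit 298) (nat_lit 259) (nat_lit 223)) (XT.lf (nat_lit 0) (nat_lit 3839514627) (nat_lit 760) (nat_lit 1816631445) (nat_lit 76) (nat_lit 3060771974) (nat_lit 261) (nat_lit 5) (nat_lit 271) (nat_lit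 5) (nat_lit 262) (nat_lit 5) (nat_lit 299) (nat_lit 259) (nat_lit 222)))) (XT.nd (nat_lit 156) (nat_lit 1292) (nat_lit 0) (XT.nd (nat_lit 78) (nat_lit 684) (nat_lit 0) (XT.lf (nat_lit 0) (nat_lit 6088533318) (nat_lit 684) (nat_lit 1466738303) (nat_lit 760) (nat_lit 1287530892) (nat_lit 252) (nat_lit 5) (nat_lit 261) (nat_lit 5) (nat_lit 262) (nat_lit 5) (nat_lit 300) (nat_lit 259) (nat_lit 221)) (XT.lf (nat_lit 0) (nat_lit 2365349795) (nat_lit 684) (nat_lit 3746720143) (nat_lit 76) (nat_lit 2860397773) (nat_lit 243) (nat_lit 5) (nat_lit 252) (nat_lit 5) (nat_lit 244) (nat_lit 5) (nat_lit 301) (nat_lit 259) (nat_lit 220))) (XT.nd (nat_lit 78) (nat_lit 684) (nat_lit 0) (XT.lf (nat_lit 0) (nat_lit 4323748355) (nat_lit 608) (nat_lit 1766610050) (nat_lit 684) (nat_lit 3015947499) (nat_lit 235) (nat_lit 5) (nat_lit 243) (nat_lit 5) (nat_lit 244) (nat_lit 5) (nat_lit 302) (nat_lit 259) (nat_lit 219))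 (XT.lf (nat_lit 0) (nat_lit 663785109) (nat_lit 684) (nat_lit 5869859950) (nat_lit 76) (nat_lit 2710681148) (nat_lit 226) (nat_lit 5) (nat_lit 235) (nat_lit 5) (nat_lit 227) (nat_lit 5) (nat_lit 303) (nat_lit 259) (nat_lit 218))))) (XT.nd (nat_lit 234) (nat_lit 1596) (nat_lit 0) (XT.nd (nat_lit 78) (nat_lit 1140) (nat_lit 0) (XT.lf (nat_lit 0) (nat_lit 2363475726) (nat_lit 608) (nat_lit 2035359426) (nat_lit 684) (nat_lit 4987585091) (nat_lit 218) (nat_lit 5) (nat_lit 226) (nat_lit 5) (nat_lit 227) (nat_lit 5) (nat_lit 304) (nat_lit 259) (nat_lit 217)) (XT.nd (nat_lit 78) (nat_lit 608) (nat_lit 0) (XT.lf (nat_lit 0) (nat_lit 1301051114) (nat_lit 532) (nat_lit 6937589384) (nat_lit 608) (nat_lit 1294330912) (nat_lit 211) (nat_lit 5) (nat_lit 218) (nat_lit 5) (nat_lit 219) (nat_lit 5) (nat_lit 305) (nat_lit 259) (nat_lit 216)) (XT.lf (nat_lit 0) (nat_lit 169350225) (nat_lit 532) (nat_lit 2298437980)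 (nat_lit 608) (nat_lit 7216031412) (nat_lit 203) (nat_lit 5) (nat_lit 210) (nat_lit 5) (nat_lit 211) (nat_lit 5) (nat_lit 306) (nat_lit 259) (nat_lit 215)))) (XT.nd (nat_lit 156) (nat_lit 988) (nat_lit 0) (XT.nd (nat_lit 78) (nat_lit 608) (nat_lit 0) (XT.lf (nat_lit 0) (nat_lit 6327290425) (nat_lit 608) (nat_lit 1018299617) (nat_lit 76) (nat_lit 2493434746) (nat_lit 203) (nat_lit 5) (nat_lit 211) (nat_lit 5) (nat_lit 204) (nat_lit 5) (nat_lit 307) (nat_lit 259) (nat_lit 214)) (XT.lf (nat_lit 0) (nat_lit 297011280) (nat_lit 608) (nat_lit 2269958956) (nat_lit 76) (nat_lit 7431972949) (nat_lit 195) (nat_lit 5) (nat_lit 203) (nat_lit 5) (nat_lit 196) (nat_lit 5) (nat_lit 308) (nat_lit 259) (nat_lit 213))) (XT.nd (nat_lit 78) (nat_lit 456) (nat_lit 0) (XT.lf (nat_lit 0) (nat_lit 4170530092) (nat_lit 608) (nat_lit 3614873059) (nat_lit 76) (nat_lit 2377868624) (nat_lit 188) (nat_lit 5) (nat_lit 196) (nat_lit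 5) (nat_lit 189) (nat_lit 5) (nat_lit 309) (nat_lit 259) (nat_lit 212)) (XT.lf (nat_lit 0) (nat_lit 5295213613) (nat_lit 456) (nat_lit 2866081959) (nat_lit 532) (nat_lit 2171253947) (nat_lit 182) (nat_lit 5) (nat_lit 188) (nat_lit 5) (nat_lit 189) (nat_lit 5) (nat_lit 310) (nat_lit 259) (nat_lit 211))))))) (XT.nd (nat_lit 1014) (nat_lit 3268) (nat_lit 0) (XT.nd (nat_lit 468) (nat_lit 2432) (nat_lit 0) (XT.nd (nat_lit 234) (nat_lit 1064) (nat_lit 0) (XT.nd (nat_lit 78) (nat_lit 912) (nat_lit 0) (XT.lf (nat_lit 0) (nat_lit 1741631278) (nat_lit 608) (nat_lit 6552070851) (nat_lit 76) (nat_lit 2213014486) (nat_lit 174) (nat_lit 5) (nat_lit 182) (nat_lit 5) (nat_lit 175) (nat_lit 5) (nat_lit 311) (nat_lit 259) (nat_lit 210)) (XT.nd (nat_lit 78) (nat_lit 456) (nat_lit 0) (XT.lf (nat_lit 0) (nat_lit 2512573500) (nat_lit 456) (nat_lit 3235952760) (nat_lit 532) (nat_lit 4937210055) (nat_lit 168) (nat_lit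 5) (nat_lit 174) (nat_lit 5) (nat_lit 175) (nat_lit 5) (nat_lit 312) (nat_lit 259) (nat_lit 209)) (XT.lf (nat_lit 0) (nat_lit 983272823) (nat_lit 456) (nat_lit 8893522524) (nat_lit 532) (nat_lit 993343908) (nat_lit 162) (nat_lit 5) (nat_lit 168) (nat_lit 5) (nat_lit 169) (nat_lit 5) (nat_lit 313) (nat_lit 259) (nat_lit 208)))) (XT.nd (nat_lit 78) (nat_lit 988) (nat_lit 0) (XT.lf (nat_lit 0) (nat_lit 3044093021) (nat_lit 532) (nat_lit 660200837) (nat_lit 76) (nat_lit 7355106126) (nat_lit 161) (nat_lit 5) (nat_lit 168) (nat_lit 5) (nat_lit 162) (nat_lit 5) (nat_lit 314) (nat_lit 259) (nat_lit 207)) (XT.nd (nat_lit 78) (nat_lit 532) (nat_lit 0) (XT.lf (nat_lit 0) (nat_lit 7197666116) (nat_lit 532) (nat_lit 2395351905) (nat_lit 76) (nat_lit 1661052279) (nat_lit 155) (nat_lit 5) (nat_lit 162) (nat_lit 5) (nat_lit 156) (nat_lit 5) (nat_lit 315) (nat_lit 259) (nat_lit 206)) (XT.lf (nat_lit 0) (nat_lit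 38106255) (nat_lit 532) (nat_lit 4249883667) (nat_lit 76) (nat_lit 7166277315) (nat_lit 148) (nat_lit 5) (nat_lit 155) (nat_lit 5) (nat_lit 149) (nat_lit 5) (nat_lit 316) (nat_lit 259) (nat_lit 205))))) (XT.nd (nat_lit 234) (nat_lit 1140) (nat_lit 0) (XT.nd (nat_lit 78) (nat_lit 912) (nat_lit 0) (XT.lf (nat_lit 0) (nat_lit 4201990160) (nat_lit 456) (nat_lit 6241666944) (nat_lit 76) (nat_lit 1216274481) (nat_lit 143) (nat_lit 5) (nat_lit 149) (nat_lit 5) (nat_lit 144) (nat_lit 5) (nat_lit 317) (nat_lit 259) (nat_lit 204)) (XT.nd (nat_lit 78) (nat_lit 456) (nat_lit 0) (XT.lf (nat_lit 0) (nat_lit 3498514910) (nat_lit 456) (nat_lit 5015432951) (nat_lit 532) (nat_lit 3357384703) (nat_lit 137) (nat_lit 5) (nat_lit 143) (nat_lit 5) (nat_lit 144) (nat_lit 5) (nat_lit 318) (nat_lit 259) (nat_lit 203)) (XT.lf (nat_lit 0) (nat_lit 854361723) (nat_lit 456) (nat_lit 10633076952) (nat_lit 76) (nat_lit 601562159)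 (nat_lit 131) (nat_lit 5) (nat_lit 137) (nat_lit 5) (nat_lit 132) (nat_lit 5) (nat_lit 319) (nat_lit 259) (nat_lit 202)))) (XT.nd (nat_lit 156) (nat_lit 760) (nat_lit 0) (XT.nd (nat_lit 78) (nat_lit 380) (nat_lit 0) (XT.lf (nat_lit 0) (nat_lit 5182245465) (nat_lit 456) (nat_lit 755342931) (nat_lit 76) (nat_lit 6374486516) (nat_lit 131) (nat_lit 5) (nat_lit 137) (nat_lit 5) (nat_lit 132) (nat_lit 5) (nat_lit 320) (nat_lit 259) (nat_lit 201)) (XT.lf (nat_lit 0) (nat_lit 9464161713) (nat_lit 380) (nat_lit 183354135) (nat_lit 456) (nat_lit 2894201137) (nat_lit 126) (nat_lit 5) (nat_lit 131) (nat_lit 5) (nat_lit 132) (nat_lit 5) (nat_lit 321) (nat_lit 259) (nat_lit 200))) (XT.nd (nat_lit 78) (nat_lit 380) (nat_lit 0) (XT.lf (nat_lit 0) (nat_lit 1485658923) (nat_lit 380) (nat_lit 5586090522) (nat_lit 76) (nat_lit 5705605222) (nat_lit 121) (nat_lit 5) (nat_lit 126) (nat_lit 5) (nat_lit 122) (nat_lit 5)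 (nat_lit 322) (nat_lit 259) (nat_lit 199)) (XT.lf (nat_lit 0) (nat_lit 4754485500) (nat_lit 380) (nat_lit 1204104923) (nat_lit 456) (nat_lit 7061093256) (nat_lit 116) (nat_lit 5) (nat_lit 121) (nat_lit 5) (nat_lit 122) (nat_lit 5) (nat_lit 323) (nat_lit 259) (nat_lit 198)))))) (XT.nd (nat_lit 546) (nat_lit 1520) (nat_lit 0) (XT.nd (nat_lit 234) (nat_lit 988) (nat_lit 0) (XT.nd (nat_lit 78) (nat_lit 456) (nat_lit 0) (XT.lf (nat_lit 0) (nat_lit 2132101874) (nat_lit 304) (nat_lit 8465523939) (nat_lit 380) (nat_lit 2671042452) (nat_lit 112) (nat_lit 5) (nat_lit 116) (nat_lit 5) (nat_lit 117) (nat_lit 5) (nat_lit 324) (nat_lit 259) (nat_lit 197)) (XT.nd (nat_lit 78) (nat_lit 380) (nat_lit 0) (XT.lf (nat_lit 0) (nat_lit 1840062902) (nat_lit 380) (nat_lit 666832778) (nat_lit 76) (nat_lit 11017736745) (nat_lit 111) (nat_lit 5) (nat_lit 116) (nat_lit 5) (nat_lit 112) (nat_lit 5) (nat_lit 325) (nat_lit 259)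 (nat_lit 196)) (XT.lf (nat_lit 0) (nat_lit 6491006835) (nat_lit 456) (nat_lit 3653828607) (nat_lit 76) (nat_lit 3642293267) (nat_lit 106) (nat_lit 5) (nat_lit 112) (nat_lit 5) (nat_lit 107) (nat_lit 5) (nat_lit 326) (nat_lit 259) (nat_lit 195)))) (XT.nd (nat_lit 156) (nat_lit 304) (nat_lit 0) (XT.nd (nat_lit 78) (nat_lit 380) (nat_lit 0) (XT.lf (nat_lit 0) (nat_lit 7212731709) (nat_lit 304) (nat_lit 4088362418) (nat_lit 380) (nat_lit 2756035007) (nat_lit 102) (nat_lit 5) (nat_lit 106) (nat_lit 5) (nat_lit 107) (nat_lit 5) (nat_lit 327) (nat_lit 259) (nat_lit 194)) (XT.lf (nat_lit 0) (nat_lit 1912824188) (nat_lit 380) (nat_lit 10261272080) (nat_lit 76) (nat_lit 2160549383) (nat_lit 97) (nat_lit 5) (nat_lit 102) (nat_lit 5) (nat_lit 98) (nat_lit 5) (nat_lit 328) (nat_lit 259) (nat_lit 193))) (XT.nd (nat_lit 78) (nat_lit 0) (nat_lit 0) (XT.lf (nat_lit 0) (nat_lit 682398545) (nat_lit 304) (nat_lit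 6033413785) (nat_lit 380) (nat_lit 7903700765) (nat_lit 93) (nat_lit 5) (nat_lit 97) (nat_lit 5) (nat_lit 98) (nat_lit 5) (nat_lit 329) (nat_lit 259) (nat_lit 192)) (XT.lf (nat_lit 0) (nat_lit 11688349966) (nat_lit 380) (nat_lit 2891917082) (nat_lit 76) (nat_lit 332169655) (nat_lit 93) (nat_lit 5) (nat_lit 98) (nat_lit 5) (nat_lit 94) (nat_lit 5) (nat_lit 330) (nat_lit 259) (nat_lit 191))))) (XT.nd (nat_lit 234) (nat_lit 608) (nat_lit 0) (XT.nd (nat_lit 78) (nat_lit 532) (nat_lit 0) (XT.lf (nat_lit 0) (nat_lit 1625662650) (nat_lit 380) (nat_lit 6739029558) (nat_lit 76) (nat_lit 6848253429) (nat_lit 88) (nat_lit 5) (nat_lit 93) (nat_lit 5) (nat_lit 89) (nat_lit 5) (nat_lit 331) (nat_lit 259) (nat_lit 190)) (XT.nd (nat_lit 78) (nat_lit 304) (nat_lit 0) (XT.lf (nat_lit 0) (nat_lit 4667551522) (nat_lit 228) (nat_lit 1915306785) (nat_lit 304) (nat_lit 8939088047) (nat_lit 85) (nat_lit 5) (nat_lit 88)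 (nat_lit 5) (nat_lit 89) (nat_lit 5) (nat_lit 332) (nat_lit 259) (nat_lit 189)) (XT.lf (nat_lit 0) (nat_lit 576037154) (nat_lit 304) (nat_lit 11149294559) (nat_lit 380) (nat_lit 4114171492) (nat_lit 81) (nat_lit 5) (nat_lit 85) (nat_lit 5) (nat_lit 86) (nat_lit 5) (nat_lit 333) (nat_lit 259) (nat_lit 188)))) (XT.nd (nat_lit 156) (nat_lit 304) (nat_lit 0) (XT.nd (nat_lit 78) (nat_lit 228) (nat_lit 0) (XT.lf (nat_lit 0) (nat_lit 887809906) (nat_lit 380) (nat_lit 3755258728) (nat_lit 76) (nat_lit 11522552807) (nat_lit 80) (nat_lit 5) (nat_lit 85) (nat_lit 5) (nat_lit 81) (nat_lit 5) (nat_lit 334) (nat_lit 259) (nat_lit 187)) (XT.lf (nat_lit 0) (nat_lit 6008610047) (nat_lit 304) (nat_lit 8404700021) (nat_lit 76) (nat_lit 2087192200) (nat_lit 77) (nat_lit 5) (nat_lit 81) (nat_lit 5) (nat_lit 78) (nat_lit 5) (nat_lit 335) (nat_lit 259) (nat_lit 186))) (XT.nd (nat_lit 78) (nat_lit 0) (nat_lit 0) (XT.lf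 (nat_lit 0) (nat_lit 3456163502) (nat_lit 304) (nat_lit 7864560050) (nat_lit 380) (nat_lit 5523967746) (nat_lit 73) (nat_lit 5) (nat_lit 77) (nat_lit 5) (nat_lit 78) (nat_lit 5) (nat_lit 336) (nat_lit 259) (nat_lit 185)) (XT.lf (nat_lit 0) (nat_lit 15722158948) (nat_lit 304) (nat_lit 1086357941) (nat_lit 380) (nat_lit 390377893) (nat_lit 73) (nat_lit 5) (nat_lit 77) (nat_lit 5) (nat_lit 78) (nat_lit 5) (nat_lit 337) (nat_lit 259) (nat_lit 184))))))))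
noncomputable def xc50 : XT := (XT.nd (nat_lit 34710) (nat_lit 0) (nat_lit 26524) (XT.nd (nat_lit 1014) (nat_lit 1368) (nat_lit 0) (XT.nd (nat_lit 468) (nat_lit 912) (nat_lit 0) (XT.nd (nat_lit 234) (nat_lit 760) (nat_lit 0) (XT.nd (nat_lit 78) (nat_lit 228) (nat_lit 0) (XT.lf (nat_lit 0) (nat_lit 4902425257) (nat_lit 304) (nat_lit 6762887217) (nat_lit 76) (nat_lit 5896401691) (nat_lit 69) (nat_lit 5) (nat_lit 73) (nat_lit 5) (nat_lit 70) (nat_lit 5) (nat_lit 338) (nat_lit 259) (nat_lit 183)) (XT.nd (nat_lit 78) (nat_lit 0) (nat_lit 0) (XT.lf (nat_lit 0) (nat_lit 5526230264) (nat_lit 228) (nat_lit 4836586115) (nat_lit 304) (nat_lit 7572281958) (nat_lit 66) (nat_lit 5) (nat_lit 69) (nat_lit 5) (nat_lit 70) (nat_lit 5) (nat_lit 339) (nat_lit 259) (nat_lit 182)) (XT.lf (nat_lit 0) (nat_lit 16008846282) (nat_lit 304) (nat_lit 120285391) (nat_lit 76) (nat_lit 2190129378) (nat_lit 66) (nat_lit 5) (nat_lit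 70) (nat_lit 5) (nat_lit 67) (nat_lit 5) (nat_lit 340) (nat_lit 259) (nat_lit 181)))) (XT.nd (nat_lit 78) (nat_lit 456) (nat_lit 0) (XT.lf (nat_lit 0) (nat_lit 3145785401) (nat_lit 304) (nat_lit 6125844338) (nat_lit 76) (nat_lit 9441382937) (nat_lit 62) (nat_lit 5) (nat_lit 66) (nat_lit 5) (nat_lit 63) (nat_lit 5) (nat_lit 341) (nat_lit 259) (nat_lit 180)) (XT.nd (nat_lit 78) (nat_lit 228) (nat_lit 0) (XT.lf (nat_lit 0) (nat_lit 6568426124) (nat_lit 228) (nat_lit 2172497621) (nat_lit 304) (nat_lit 10377227364) (nat_lit 59) (nat_lit 5) (nat_lit 62) (nat_lit 5) (nat_lit 63) (nat_lit 5) (nat_lit 342) (nat_lit 259) (nat_lit 179)) (XT.lf (nat_lit 0) (nat_lit 99638841) (nat_lit 228) (nat_lit 14443607124) (nat_lit 304) (nat_lit 4991423302) (nat_lit 56) (nat_lit 5) (nat_lit 59) (nat_lit 5) (nat_lit 60) (nat_lit 5) (nat_lit 343) (nat_lit 259) (nat_lit 178))))) (XT.nd (nat_lit 234) (nat_lit 608) (nat_lit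 0) (XT.nd (nat_lit 78) (nat_lit 228) (nat_lit 0) (XT.lf (nat_lit 0) (nat_lit 612748780) (nat_lit 304) (nat_lit 6740707692) (nat_lit 76) (nat_lit 12608884176) (nat_lit 55) (nat_lit 5) (nat_lit 59) (nat_lit 5) (nat_lit 56) (nat_lit 5) (nat_lit 344) (nat_lit 259) (nat_lit 177)) (XT.nd (nat_lit 78) (nat_lit 0) (nat_lit 0) (XT.lf (nat_lit 0) (nat_lit 6323702399) (nat_lit 304) (nat_lit 14076585697) (nat_lit 76) (nat_lit 1776047) (nat_lit 52) (nat_lit 5) (nat_lit 56) (nat_lit 5) (nat_lit 53) (nat_lit 5) (nat_lit 345) (nat_lit 259) (nat_lit 176)) (XT.lf (nat_lit 0) (nat_lit 12266637452) (nat_lit 304) (nat_lit 1085757974) (nat_lit 76) (nat_lit 7501381772) (nat_lit 52) (nat_lit 5) (nat_lit 56) (nat_lit 5) (nat_lit 53) (nat_lit 5) (nat_lit 346) (nat_lit 259) (nat_lit 175)))) (XT.nd (nat_lit 156) (nat_lit 152) (nat_lit 0) (XT.nd (nat_lit 78) (nat_lit 304) (nat_lit 0) (XT.lf (nat_lit 0) (nat_lit 12400997153)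 (nat_lit 152) (nat_lit 6033881177) (nat_lit 228) (nat_lit 2883233558) (nat_lit 50) (nat_lit 5) (nat_lit 52) (nat_lit 5) (nat_lit 53) (nat_lit 5) (nat_lit 347) (nat_lit 259) (nat_lit 174)) (XT.lf (nat_lit 0) (nat_lit 2966017523) (nat_lit 304) (nat_lit 17311430467) (nat_lit 76) (nat_lit 1518280908) (nat_lit 46) (nat_lit 5) (nat_lit 50) (nat_lit 5) (nat_lit 47) (nat_lit 5) (nat_lit 348) (nat_lit 259) (nat_lit 173))) (XT.nd (nat_lit 78) (nat_lit 152) (nat_lit 0) (XT.lf (nat_lit 0) (nat_lit 9020324081) (nat_lit 304) (nat_lit 3992264384) (nat_lit 76) (nat_lit 9273339587) (nat_lit 46) (nat_lit 5) (nat_lit 50) (nat_lit 5) (nat_lit 47) (nat_lit 5) (nat_lit 349) (nat_lit 259) (nat_lit 172)) (XT.lf (nat_lit 0) (nat_lit 9801059659) (nat_lit 152) (nat_lit 5487136035) (nat_lit 228) (nat_lit 7502008277) (nat_lit 44) (nat_lit 5) (nat_lit 46) (nat_lit 5) (nat_lit 47) (nat_lit 5) (nat_lit 350) (nat_lit 259) (nat_lit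 171)))))) (XT.nd (nat_lit 546) (nat_lit 532) (nat_lit 0) (XT.nd (nat_lit 234) (nat_lit 380) (nat_lit 0) (XT.nd (nat_lit 78) (nat_lit 228) (nat_lit 0) (XT.lf (nat_lit 0) (nat_lit 694418123) (nat_lit 228) (nat_lit 21064862759) (nat_lit 304) (nat_lit 1550032967) (nat_lit 41) (nat_lit 5) (nat_lit 44) (nat_lit 5) (nat_lit 45) (nat_lit 5) (nat_lit 351) (nat_lit 259) (nat_lit 170)) (XT.nd (nat_lit 78) (nat_lit 152) (nat_lit 0) (XT.lf (nat_lit 0) (nat_lit 4614817015) (nat_lit 304) (nat_lit 8996092877) (nat_lit 76) (nat_lit 10230613333) (nat_lit 40) (nat_lit 5) (nat_lit 44) (nat_lit 5) (nat_lit 41) (nat_lit 5) (nat_lit 352) (nat_lit 259) (nat_lit 169)) (XT.lf (nat_lit 0) (nat_lit 5035371751) (nat_lit 152) (nat_lit 5910988247) (nat_lit 228) (nat_lit 13443086373) (nat_lit 38) (nat_lit 5) (nat_lit 40) (nat_lit 5) (nat_lit 41) (nat_lit 5) (nat_lit 353) (nat_lit 259) (nat_lit 168)))) (XT.nd (nat_lit 156) (nat_lit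 228) (nat_lit 0) (XT.nd (nat_lit 78) (nat_lit 152) (nat_lit 0) (XT.lf (nat_lit 0) (nat_lit 17512727835) (nat_lit 228) (nat_lit 5406385155) (nat_lit 76) (nat_lit 2033804932) (nat_lit 38) (nat_lit 5) (nat_lit 41) (nat_lit 5) (nat_lit 39) (nat_lit 5) (nat_lit 354) (nat_lit 259) (nat_lit 167)) (XT.lf (nat_lit 0) (nat_lit 8988382111) (nat_lit 152) (nat_lit 15356854429) (nat_lit 228) (nat_lit 1186682121) (nat_lit 36) (nat_lit 5) (nat_lit 38) (nat_lit 5) (nat_lit 39) (nat_lit 5) (nat_lit 355) (nat_lit 259) (nat_lit 166))) (XT.nd (nat_lit 78) (nat_lit 152) (nat_lit 0) (XT.lf (nat_lit 0) (nat_lit 5193983114) (nat_lit 228) (nat_lit 2322205270) (nat_lit 76) (nat_lit 18611257090) (nat_lit 35) (nat_lit 5) (nat_lit 38) (nat_lit 5) (nat_lit 36) (nat_lit 5) (nat_lit 356) (nat_lit 259) (nat_lit 165)) (XT.lf (nat_lit 0) (nat_lit 11807265314) (nat_lit 228) (nat_lit 14310672907) (nat_lit 76) (nat_lit 621604034) (nat_lit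 33) (nat_lit 5) (nat_lit 36) (nat_lit 5) (nat_lit 34) (nat_lit 5) (nat_lit 357) (nat_lit 259) (nat_lit 164))))) (XT.nd (nat_lit 234) (nat_lit 152) (nat_lit 0) (XT.nd (nat_lit 78) (nat_lit 228) (nat_lit 0) (XT.lf (nat_lit 0) (nat_lit 189194851) (nat_lit 152) (nat_lit 18469866270) (nat_lit 228) (nat_lit 8710145730) (nat_lit 31) (nat_lit 5) (nat_lit 33) (nat_lit 5) (nat_lit 34) (nat_lit 5) (nat_lit 358) (nat_lit 259) (nat_lit 163)) (XT.nd (nat_lit 78) (nat_lit 228) (nat_lit 0) (XT.lf (nat_lit 0) (nat_lit 15273222047) (nat_lit 152) (nat_lit 10513434249) (nat_lit 228) (nat_lit 2229707181) (nat_lit 31) (nat_lit 5) (nat_lit 33) (nat_lit 5) (nat_lit 34) (nat_lit 5) (nat_lit 359) (nat_lit 259) (nat_lit 162)) (XT.lf (nat_lit 0) (nat_lit 2079531489) (nat_lit 152) (nat_lit 2294687645) (nat_lit 228) (nat_lit 24308397648) (nat_lit 28) (nat_lit 5) (nat_lit 30) (nat_lit 5) (nat_lit 31) (nat_lit 5) (nat_lit 360)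 (nat_lit 259) (nat_lit 161)))) (XT.nd (nat_lit 32760) (nat_lit 0) (nat_lit 46892) (XT.nd (nat_lit 78) (nat_lit 152) (nat_lit 0) (XT.lf (nat_lit 0) (nat_lit 11247345507) (nat_lit 228) (nat_lit 11946731519) (nat_lit 76) (nat_lit 6172464860) (nat_lit 28) (nat_lit 5) (nat_lit 31) (nat_lit 5) (nat_lit 29) (nat_lit 5) (nat_lit 361) (nat_lit 259) (nat_lit 160)) (XT.lf (nat_lit 0) (nat_lit 3130983185) (nat_lit 152) (nat_lit 15206322891) (nat_lit 228) (nat_lit 11733472143) (nat_lit 26) (nat_lit 5) (nat_lit 28) (nat_lit 5) (nat_lit 29) (nat_lit 5) (nat_lit 362) (nat_lit 259) (nat_lit 159))) (XT.nd (nat_lit 78) (nat_lit 76) (nat_lit 0) (XT.lf (nat_lit 0) (nat_lit 1073741823) (nat_lit 0) (nat_lit 0) (nat_lit 0) (nat_lit 0) (nat_lit 644) (nat_lit 0) (nat_lit 1) (nat_lit 0) (nat_lit 1) (nat_lit 0) (nat_lit 260) (nat_lit 260) (nat_lit 260)) (XT.lf (nat_lit 0) (nat_lit 4435825060) (nat_lit 76) (nat_lit 1934815565)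 (nat_lit 0) (nat_lit 73097358) (nat_lit 643) (nat_lit 5) (nat_lit 644) (nat_lit 0) (nat_lit 643) (nat_lit 4) (nat_lit 261) (nat_lit 260) (nat_lit 259))))))) (XT.nd (nat_lit 1014) (nat_lit 15580) (nat_lit 0) (XT.nd (nat_lit 468) (nat_lit 3344) (nat_lit 0) (XT.nd (nat_lit 234) (nat_lit 1064) (nat_lit 0) (XT.nd (nat_lit 78) (nat_lit 228) (nat_lit 0) (XT.lf (nat_lit 0) (nat_lit 2369488125) (nat_lit 152) (nat_lit 3812019652) (nat_lit 76) (nat_lit 266609331) (nat_lit 641) (nat_lit 5) (nat_lit 643) (nat_lit 5) (nat_lit 642) (nat_lit 4) (nat_lit 262) (nat_lit 260) (nat_lit 258)) (XT.nd (nat_lit 78) (nat_lit 0) (nat_lit 0) (XT.lf (nat_lit 0) (nat_lit 241348516) (nat_lit 228) (nat_lit 5633523746) (nat_lit 76) (nat_lit 580719591) (nat_lit 638) (nat_lit 5) (nat_lit 641) (nat_lit 5) (nat_lit 639) (nat_lit 5) (nat_lit 263) (nat_lit 260) (nat_lit 257)) (XT.lf (nat_lit 0) (nat_lit 4495397260) (nat_lit 228) (nat_lit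 935675981) (nat_lit 76) (nat_lit 1034715255) (nat_lit 638) (nat_lit 5) (nat_lit 641) (nat_lit 5) (nat_lit 639) (nat_lit 5) (nat_lit 264) (nat_lit 260) (nat_lit 256)))) (XT.nd (nat_lit 78) (nat_lit 760) (nat_lit 0) (XT.lf (nat_lit 0) (nat_lit 2231660323) (nat_lit 304) (nat_lit 2630260626) (nat_lit 76) (nat_lit 1617034174) (nat_lit 634) (nat_lit 5) (nat_lit 638) (nat_lit 5) (nat_lit 635) (nat_lit 5) (nat_lit 265) (nat_lit 260) (nat_lit 255)) (XT.nd (nat_lit 78) (nat_lit 456) (nat_lit 0) (XT.lf (nat_lit 0) (nat_lit 2221962492) (nat_lit 304) (nat_lit 4173286129) (nat_lit 380) (nat_lit 99979482) (nat_lit 630) (nat_lit 5) (nat_lit 634) (nat_lit 5) (nat_lit 635) (nat_lit 5) (nat_lit 266) (nat_lit 260) (nat_lit 254)) (XT.lf (nat_lit 0) (nat_lit 633450720) (nat_lit 380) (nat_lit 3349738880) (nat_lit 456) (nat_lit 2531141307) (nat_lit 624) (nat_lit 5) (nat_lit 629) (nat_lit 5) (nat_lit 630) (nat_lit 5) (nat_lit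 267) (nat_lit 260) (nat_lit 253))))) (XT.nd (nat_lit 234) (nat_lit 2204) (nat_lit 0) (XT.nd (nat_lit 78) (nat_lit 1064) (nat_lit 0) (XT.lf (nat_lit 0) (nat_lit 1507812132) (nat_lit 456) (nat_lit 891676559) (nat_lit 76) (nat_lit 4136966616) (nat_lit 623) (nat_lit 5) (nat_lit 629) (nat_lit 5) (nat_lit 624) (nat_lit 5) (nat_lit 268) (nat_lit 260) (nat_lit 252)) (XT.nd (nat_lit 78) (nat_lit 608) (nat_lit 0) (XT.lf (nat_lit 0) (nat_lit 4195476519) (nat_lit 456) (nat_lit 1316810186) (nat_lit 532) (nat_lit 1049237948) (nat_lit 617) (nat_lit 5) (nat_lit 623) (nat_lit 5) (nat_lit 624) (nat_lit 5) (nat_lit 269) (nat_lit 260) (nat_lit 251)) (XT.lf (nat_lit 0) (nat_lit 2786439578) (nat_lit 532) (nat_lit 101207822) (nat_lit 608) (nat_lit 3701922283) (nat_lit 609) (nat_lit 5) (nat_lit 616) (nat_lit 5) (nat_lit 617) (nat_lit 5) (nat_lit 270) (nat_lit 260) (nat_lit 250)))) (XT.nd (nat_lit 156) (nat_lit 836) (nat_lit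 0) (XT.nd (nat_lit 78) (nat_lit 684) (nat_lit 0) (XT.lf (nat_lit 0) (nat_lit 195954901) (nat_lit 684) (nat_lit 5202584433) (nat_lit 76) (nat_lit 1222111392) (nat_lit 600) (nat_lit 5) (nat_lit 609) (nat_lit 5) (nat_lit 601) (nat_lit 5) (nat_lit 271) (nat_lit 260) (nat_lit 249)) (XT.lf (nat_lit 0) (nat_lit 78314505) (nat_lit 684) (nat_lit 3969977520) (nat_lit 760) (nat_lit 2606294111) (nat_lit 591) (nat_lit 5) (nat_lit 600) (nat_lit 5) (nat_lit 601) (nat_lit 5) (nat_lit 272) (nat_lit 260) (nat_lit 248))) (XT.nd (nat_lit 78) (nat_lit 760) (nat_lit 0) (XT.lf (nat_lit 0) (nat_lit 1207562722) (nat_lit 760) (nat_lit 1202218993) (nat_lit 76) (nat_lit 4281779191) (nat_lit 590) (nat_lit 5) (nat_lit 600) (nat_lit 5) (nat_lit 591) (nat_lit 5) (nat_lit 273) (nat_lit 260) (nat_lit 247)) (XT.lf (nat_lit 0) (nat_lit 4281101690) (nat_lit 760) (nat_lit 714132157) (nat_lit 836) (nat_lit 1736325330) (nat_lit 580)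 (nat_lit 5) (nat_lit 590) (nat_lit 5) (nat_lit 591) (nat_lit 5) (nat_lit 274) (nat_lit 260) (nat_lit 246)))))) (XT.nd (nat_lit 546) (nat_lit 9120) (nat_lit 0) (XT.nd (nat_lit 234) (nat_lit 3572) (nat_lit 0) (XT.nd (nat_lit 78) (nat_lit 1976) (nat_lit 0) (XT.lf (nat_lit 0) (nat_lit 2000650299) (nat_lit 912) (nat_lit 3673296739) (nat_lit 76) (nat_lit 1100587558) (nat_lit 568) (nat_lit 5) (nat_lit 580) (nat_lit 5) (nat_lit 569) (nat_lit 5) (nat_lit 275) (nat_lit 260) (nat_lit 245)) (XT.nd (nat_lit 78) (nat_lit 1064) (nat_lit 0) (XT.lf (nat_lit 0) (nat_lit 1951097457) (nat_lit 912) (nat_lit 3781920589) (nat_lit 988) (nat_lit 1087557444) (nat_lit 556) (nat_lit 5) (nat_lit 568) (nat_lit 5) (nat_lit 569) (nat_lit 5) (nat_lit 276) (nat_lit 260) (nat_lit 244)) (XT.lf (nat_lit 0) (nat_lit 827245232) (nat_lit 988) (nat_lit 1751746900) (nat_lit 1064) (nat_lit 4290686637) (nat_lit 542) (nat_lit 5) (nat_lit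 555) (nat_lit 5) (nat_lit 556) (nat_lit 5) (nat_lit 277) (nat_lit 260) (nat_lit 243)))) (XT.nd (nat_lit 156) (nat_lit 2432) (nat_lit 0) (XT.nd (nat_lit 78) (nat_lit 1140) (nat_lit 0) (XT.lf (nat_lit 0) (nat_lit 6254260602) (nat_lit 1064) (nat_lit 261888675) (nat_lit 76) (nat_lit 405824475) (nat_lit 542) (nat_lit 5) (nat_lit 556) (nat_lit 5) (nat_lit 543) (nat_lit 5) (nat_lit 278) (nat_lit 260) (nat_lit 242)) (XT.lf (nat_lit 0) (nat_lit 2953207969) (nat_lit 1140) (nat_lit 1333543766) (nat_lit 76) (nat_lit 2690225100) (nat_lit 527) (nat_lit 5) (nat_lit 542) (nat_lit 5) (nat_lit 528) (nat_lit 5) (nat_lit 279) (nat_lit 260) (nat_lit 241))) (XT.nd (nat_lit 78) (nat_lit 1292) (nat_lit 0) (XT.lf (nat_lit 0) (nat_lit 4660988033) (nat_lit 1140) (nat_lit 1928323751) (nat_lit 1216) (nat_lit 446039718) (nat_lit 512) (nat_lit 5) (nat_lit 527) (nat_lit 5) (nat_lit 528) (nat_lit 5) (nat_lit 280) (nat_lit 260)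 (nat_lit 240)) (XT.lf (nat_lit 0) (nat_lit 3118843190) (nat_lit 1292) (nat_lit 3406613040) (nat_lit 76) (nat_lit 571270947) (nat_lit 495) (nat_lit 5) (nat_lit 512) (nat_lit 5) (nat_lit 496) (nat_lit 5) (nat_lit 281) (nat_lit 260) (nat_lit 239))))) (XT.nd (nat_lit 234) (nat_lit 4940) (nat_lit 0) (XT.nd (nat_lit 78) (nat_lit 2888) (nat_lit 0) (XT.lf (nat_lit 0) (nat_lit 2736587419) (nat_lit 1292) (nat_lit 3983273089) (nat_lit 1368) (nat_lit 441432707) (nat_lit 478) (nat_lit 5) (nat_lit 495) (nat_lit 5) (nat_lit 496) (nat_lit 5) (nat_lit 282) (nat_lit 260) (nat_lit 238)) (XT.nd (nat_lit 78) (nat_lit 1444) (nat_lit 0) (XT.lf (nat_lit 0) (nat_lit 1793175294) (nat_lit 1368) (nat_lit 1291016848) (nat_lit 1444) (nat_lit 4144794728) (nat_lit 459) (nat_lit 5) (nat_lit 477) (nat_lit 5) (nat_lit 478) (nat_lit 5) (nat_lit 283) (nat_lit 260) (nat_lit 237)) (XT.lf (nat_lit 0) (nat_lit 864986627) (nat_lit 1444)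 (nat_lit 5782948829) (nat_lit 1520) (nat_lit 652055020) (nat_lit 440) (nat_lit 5) (nat_lit 459) (nat_lit 5) (nat_lit 460) (nat_lit 5) (nat_lit 284) (nat_lit 260) (nat_lit 236)))) (XT.nd (nat_lit 156) (nat_lit 3344) (nat_lit 0) (XT.nd (nat_lit 78) (nat_lit 1520) (nat_lit 0) (XT.lf (nat_lit 0) (nat_lit 2847170607) (nat_lit 1520) (nat_lit 64786950) (nat_lit 76) (nat_lit 4462076885) (nat_lit 439) (nat_lit 5) (nat_lit 459) (nat_lit 5) (nat_lit 440) (nat_lit 5) (nat_lit 285) (nat_lit 260) (nat_lit 235)) (XT.lf (nat_lit 0) (nat_lit 6383044557) (nat_lit 1596) (nat_lit 965828885) (nat_lit 76) (nat_lit 102625989) (nat_lit 419) (nat_lit 5) (nat_lit 440) (nat_lit 5) (nat_lit 420) (nat_lit 5) (nat_lit 286) (nat_lit 260) (nat_lit 234))) (XT.nd (nat_lit 78) (nat_lit 1672) (nat_lit 0) (XT.lf (nat_lit 0) (nat_lit 2417480974) (nat_lit 1672) (nat_lit 1882644698) (nat_lit 76) (nat_lit 3231801151) (nat_lit 397) (nat_lit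 5) (nat_lit 419) (nat_lit 5) (nat_lit 398) (nat_lit 5) (nat_lit 287) (nat_lit 260) (nat_lit 233)) (XT.lf (nat_lit 0) (nat_lit 4826055516) (nat_lit 1672) (nat_lit 1107174099) (nat_lit 1748) (nat_lit 1682690344) (nat_lit 375) (nat_lit 5) (nat_lit 397) (nat_lit 5) (nat_lit 398) (nat_lit 5) (nat_lit 288) (nat_lit 260) (nat_lit 232))))))))
noncomputable def xc51 : XT := (XT.nd (nat_lit 2106) (nat_lit 7068) (nat_lit 0) (XT.nd (nat_lit 1014) (nat_lit 6688) (nat_lit 0) (XT.nd (nat_lit 468) (nat_lit 5168) (nat_lit 0) (XT.nd (nat_lit 234) (nat_lit 1748) (nat_lit 0) (XT.nd (nat_lit 78) (nat_lit 1748) (nat_lit 0) (XT.lf (nat_lit 0) (nat_lit 1784435584) (nat_lit 1368) (nat_lit 3709261871) (nat_lit 76) (nat_lit 2209445693) (nat_lit 357) (nat_lit 5) (nat_lit 375) (nat_lit 5) (nat_lit 358) (nat_lit 5) (nat_lit 289) (nat_lit 260) (nat_lit 231)) (XT.nd (nat_lit 78) (nat_lit 912) (nat_lit 0) (XT.lf (nat_lit 0) (nat_lit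 3157464847) (nat_lit 836) (nat_lit 2127879303) (nat_lit 912) (nat_lit 2508446254) (nat_lit 346) (nat_lit 5) (nat_lit 357) (nat_lit 5) (nat_lit 358) (nat_lit 5) (nat_lit 290) (nat_lit 260) (nat_lit 230)) (XT.lf (nat_lit 0) (nat_lit 947410530) (nat_lit 912) (nat_lit 5570739937) (nat_lit 76) (nat_lit 1369825537) (nat_lit 334) (nat_lit 5) (nat_lit 346) (nat_lit 5) (nat_lit 335) (nat_lit 5) (nat_lit 291) (nat_lit 260) (nat_lit 229)))) (XT.nd (nat_lit 78) (nat_lit 912) (nat_lit 0) (XT.lf (nat_lit 0) (nat_lit 1454249618) (nat_lit 836) (nat_lit 2983269432) (nat_lit 912) (nat_lit 3547919554) (nat_lit 323) (nat_lit 5) (nat_lit 334) (nat_lit 5) (nat_lit 335) (nat_lit 5) (nat_lit 292) (nat_lit 260) (nat_lit 228)) (XT.nd (nat_lit 78) (nat_lit 76) (nat_lit 0) (XT.lf (nat_lit 0) (nat_lit 591954175) (nat_lit 836) (nat_lit 7397698799) (nat_lit 912) (nat_lit 97099615) (nat_lit 312) (nat_lit 5) (nat_lit 323) (nat_lit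 5) (nat_lit 324) (nat_lit 5) (nat_lit 293) (nat_lit 260) (nat_lit 227)) (XT.lf (nat_lit 0) (nat_lit 3388963108) (nat_lit 912) (nat_lit 306913276) (nat_lit 76) (nat_lit 4495309850) (nat_lit 311) (nat_lit 5) (nat_lit 323) (nat_lit 5) (nat_lit 312) (nat_lit 5) (nat_lit 294) (nat_lit 260) (nat_lit 226))))) (XT.nd (nat_lit 234) (nat_lit 2888) (nat_lit 0) (XT.nd (nat_lit 78) (nat_lit 1520) (nat_lit 0) (XT.lf (nat_lit 0) (nat_lit 6940536794) (nat_lit 836) (nat_lit 1201060836) (nat_lit 76) (nat_lit 157965795) (nat_lit 301) (nat_lit 5) (nat_lit 312) (nat_lit 5) (nat_lit 302) (nat_lit 5) (nat_lit 295) (nat_lit 260) (nat_lit 225)) (XT.nd (nat_lit 78) (nat_lit 684) (nat_lit 0) (XT.lf (nat_lit 0) (nat_lit 2143213348) (nat_lit 836) (nat_lit 2138557429) (nat_lit 76) (nat_lit 4129513420) (nat_lit 290) (nat_lit 5) (nat_lit 301) (nat_lit 5) (nat_lit 291) (nat_lit 5) (nat_lit 296) (nat_lit 260) (nat_lit 224)) (XT.lf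 (nat_lit 0) (nat_lit 5433651957) (nat_lit 684) (nat_lit 260199758) (nat_lit 760) (nat_lit 2833152463) (nat_lit 281) (nat_lit 5) (nat_lit 290) (nat_lit 5) (nat_lit 291) (nat_lit 5) (nat_lit 297) (nat_lit 260) (nat_lit 223)))) (XT.nd (nat_lit 156) (nat_lit 1368) (nat_lit 0) (XT.nd (nat_lit 78) (nat_lit 684) (nat_lit 0) (XT.lf (nat_lit 0) (nat_lit 684822992) (nat_lit 836) (nat_lit 4089659422) (nat_lit 76) (nat_lit 3871896868) (nat_lit 270) (nat_lit 5) (nat_lit 281) (nat_lit 5) (nat_lit 271) (nat_lit 5) (nat_lit 298) (nat_lit 260) (nat_lit 222)) (XT.lf (nat_lit 0) (nat_lit 3647478350) (nat_lit 684) (nat_lit 590267865) (nat_lit 760) (nat_lit 4531915243) (nat_lit 261) (nat_lit 5) (nat_lit 270) (nat_lit 5) (nat_lit 271) (nat_lit 5) (nat_lit 299) (nat_lit 260) (nat_lit 221))) (XT.nd (nat_lit 78) (nat_lit 684) (nat_lit 0) (XT.lf (nat_lit 0) (nat_lit 2698343695) (nat_lit 684) (nat_lit 5191293635) (nat_lit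 760) (nat_lit 1007213824) (nat_lit 252) (nat_lit 5) (nat_lit 261) (nat_lit 5) (nat_lit 262) (nat_lit 5) (nat_lit 300) (nat_lit 260) (nat_lit 220)) (XT.lf (nat_lit 0) (nat_lit 1708687494) (nat_lit 608) (nat_lit 854056012) (nat_lit 684) (nat_lit 6465347952) (nat_lit 243) (nat_lit 5) (nat_lit 251) (nat_lit 5) (nat_lit 252) (nat_lit 5) (nat_lit 301) (nat_lit 260) (nat_lit 219)))))) (XT.nd (nat_lit 546) (nat_lit 3116) (nat_lit 0) (XT.nd (nat_lit 234) (nat_lit 2280) (nat_lit 0) (XT.nd (nat_lit 78) (nat_lit 684) (nat_lit 0) (XT.lf (nat_lit 0) (nat_lit 664797701) (nat_lit 608) (nat_lit 5556953721) (nat_lit 684) (nat_lit 2941524035) (nat_lit 235) (nat_lit 5) (nat_lit 243) (nat_lit 5) (nat_lit 244) (nat_lit 5) (nat_lit 302) (nat_lit 260) (nat_lit 218)) (XT.nd (nat_lit 78) (nat_lit 608) (nat_lit 0) (XT.lf (nat_lit 0) (nat_lit 661198893) (nat_lit 684) (nat_lit 411860764) (nat_lit 76) (nat_lit 8229771663) (nat_lit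 234) (nat_lit 5) (nat_lit 243) (nat_lit 5) (nat_lit 235) (nat_lit 5) (nat_lit 303) (nat_lit 260) (nat_lit 217)) (XT.lf (nat_lit 0) (nat_lit 4335762508) (nat_lit 684) (nat_lit 1554490227) (nat_lit 76) (nat_lit 3555906185) (nat_lit 226) (nat_lit 5) (nat_lit 235) (nat_lit 5) (nat_lit 227) (nat_lit 5) (nat_lit 304) (nat_lit 260) (nat_lit 216)))) (XT.nd (nat_lit 156) (nat_lit 1064) (nat_lit 0) (XT.nd (nat_lit 78) (nat_lit 608) (nat_lit 0) (XT.lf (nat_lit 0) (nat_lit 6852976828) (nat_lit 608) (nat_lit 1252204894) (nat_lit 684) (nat_lit 1488959229) (nat_lit 218) (nat_lit 5) (nat_lit 226) (nat_lit 5) (nat_lit 227) (nat_lit 5) (nat_lit 305) (nat_lit 260) (nat_lit 215)) (XT.lf (nat_lit 0) (nat_lit 2214069988) (nat_lit 608) (nat_lit 4006852755) (nat_lit 76) (nat_lit 3525346566) (nat_lit 210) (nat_lit 5) (nat_lit 218) (nat_lit 5) (nat_lit 211) (nat_lit 5) (nat_lit 306) (nat_lit 260) (nat_lit 214))) (XT.nd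 (nat_lit 78) (nat_lit 532) (nat_lit 0) (XT.lf (nat_lit 0) (nat_lit 4565387252) (nat_lit 532) (nat_lit 1431881643) (nat_lit 608) (nat_lit 3905753034) (nat_lit 203) (nat_lit 5) (nat_lit 210) (nat_lit 5) (nat_lit 211) (nat_lit 5) (nat_lit 307) (nat_lit 260) (nat_lit 213)) (XT.lf (nat_lit 0) (nat_lit 3321111128) (nat_lit 532) (nat_lit 6578260858) (nat_lit 608) (nat_lit 165039128) (nat_lit 196) (nat_lit 5) (nat_lit 203) (nat_lit 5) (nat_lit 204) (nat_lit 5) (nat_lit 308) (nat_lit 260) (nat_lit 212))))) (XT.nd (nat_lit 234) (nat_lit 1976) (nat_lit 0) (XT.nd (nat_lit 78) (nat_lit 532) (nat_lit 0) (XT.lf (nat_lit 0) (nat_lit 1990339259) (nat_lit 532) (nat_lit 1642795314) (nat_lit 608) (nat_lit 6597196516) (nat_lit 188) (nat_lit 5) (nat_lit 195) (nat_lit 5) (nat_lit 196) (nat_lit 5) (nat_lit 309) (nat_lit 260) (nat_lit 211)) (XT.nd (nat_lit 78) (nat_lit 76) (nat_lit 0) (XT.lf (nat_lit 0) (nat_lit 577216437)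 (nat_lit 456) (nat_lit 6973824930) (nat_lit 532) (nat_lit 2850043827) (nat_lit 182) (nat_lit 5) (nat_lit 188) (nat_lit 5) (nat_lit 189) (nat_lit 5) (nat_lit 310) (nat_lit 260) (nat_lit 210)) (XT.lf (nat_lit 0) (nat_lit 1000281759) (nat_lit 532) (nat_lit 906113204) (nat_lit 76) (nat_lit 8670392974) (nat_lit 181) (nat_lit 5) (nat_lit 188) (nat_lit 5) (nat_lit 182) (nat_lit 5) (nat_lit 311) (nat_lit 260) (nat_lit 209)))) (XT.nd (nat_lit 156) (nat_lit 988) (nat_lit 0) (XT.nd (nat_lit 78) (nat_lit 456) (nat_lit 0) (XT.lf (nat_lit 0) (nat_lit 4941930423) (nat_lit 608) (nat_lit 2492265501) (nat_lit 76) (nat_lit 3322934371) (nat_lit 174) (nat_lit 5) (nat_lit 182) (nat_lit 5) (nat_lit 175) (nat_lit 5) (nat_lit 312) (nat_lit 260) (nat_lit 208)) (XT.lf (nat_lit 0) (nat_lit 6775263675) (nat_lit 456) (nat_lit 2229264610) (nat_lit 532) (nat_lit 1938335589) (nat_lit 168) (nat_lit 5) (nat_lit 174) (nat_lit 5)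 (nat_lit 175) (nat_lit 5) (nat_lit 313) (nat_lit 260) (nat_lit 207))) (XT.nd (nat_lit 78) (nat_lit 456) (nat_lit 0) (XT.lf (nat_lit 0) (nat_lit 2039822567) (nat_lit 532) (nat_lit 5959870533) (nat_lit 76) (nat_lit 3134004047) (nat_lit 161) (nat_lit 5) (nat_lit 168) (nat_lit 5) (nat_lit 162) (nat_lit 5) (nat_lit 314) (nat_lit 260) (nat_lit 206)) (XT.lf (nat_lit 0) (nat_lit 3459500016) (nat_lit 456) (nat_lit 2659103448) (nat_lit 532) (nat_lit 5211275753) (nat_lit 155) (nat_lit 5) (nat_lit 161) (nat_lit 5) (nat_lit 162) (nat_lit 5) (nat_lit 315) (nat_lit 260) (nat_lit 205))))))) (XT.nd (nat_lit 1014) (nat_lit 3040) (nat_lit 0) (XT.nd (nat_lit 468) (nat_lit 1824) (nat_lit 0) (XT.nd (nat_lit 234) (nat_lit 1292) (nat_lit 0) (XT.nd (nat_lit 78) (nat_lit 456) (nat_lit 0) (XT.lf (nat_lit 0) (nat_lit 1634219487) (nat_lit 456) (nat_lit 8697946856) (nat_lit 532) (nat_lit 1199563387) (nat_lit 149) (nat_lit 5)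 (nat_lit 155) (nat_lit 5) (nat_lit 156) (nat_lit 5) (nat_lit 316) (nat_lit 260) (nat_lit 204)) (XT.nd (nat_lit 78) (nat_lit 380) (nat_lit 0) (XT.lf (nat_lit 0) (nat_lit 2908966028) (nat_lit 532) (nat_lit 323922786) (nat_lit 76) (nat_lit 8506097473) (nat_lit 148) (nat_lit 5) (nat_lit 155) (nat_lit 5) (nat_lit 149) (nat_lit 5) (nat_lit 317) (nat_lit 260) (nat_lit 203)) (XT.lf (nat_lit 0) (nat_lit 7147706472) (nat_lit 456) (nat_lit 2391144346) (nat_lit 76) (nat_lit 2413015065) (nat_lit 143) (nat_lit 5) (nat_lit 149) (nat_lit 5) (nat_lit 144) (nat_lit 5) (nat_lit 318) (nat_lit 260) (nat_lit 202)))) (XT.nd (nat_lit 78) (nat_lit 836) (nat_lit 0) (XT.lf (nat_lit 0) (nat_lit 7575734900) (nat_lit 456) (nat_lit 3956952659) (nat_lit 532) (nat_lit 638090868) (nat_lit 137) (nat_lit 5) (nat_lit 143) (nat_lit 5) (nat_lit 144) (nat_lit 5) (nat_lit 319) (nat_lit 260) (nat_lit 201)) (XT.nd (nat_lit 78) (nat_lit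 380) (nat_lit 0) (XT.lf (nat_lit 0) (nat_lit 3615489151) (nat_lit 456) (nat_lit 6958485353) (nat_lit 76) (nat_lit 1821627497) (nat_lit 131) (nat_lit 5) (nat_lit 137) (nat_lit 5) (nat_lit 132) (nat_lit 5) (nat_lit 320) (nat_lit 260) (nat_lit 200)) (XT.lf (nat_lit 0) (nat_lit 3140450280) (nat_lit 380) (nat_lit 4873474354) (nat_lit 456) (nat_lit 4612668944) (nat_lit 126) (nat_lit 5) (nat_lit 131) (nat_lit 5) (nat_lit 132) (nat_lit 5) (nat_lit 321) (nat_lit 260) (nat_lit 199))))) (XT.nd (nat_lit 234) (nat_lit 1064) (nat_lit 0) (XT.nd (nat_lit 78) (nat_lit 456) (nat_lit 0) (XT.lf (nat_lit 0) (nat_lit 700373796) (nat_lit 304) (nat_lit 11850985349) (nat_lit 380) (nat_lit 313040075) (nat_lit 122) (nat_lit 5) (nat_lit 126) (nat_lit 5) (nat_lit 127) (nat_lit 5) (nat_lit 322) (nat_lit 260) (nat_lit 198)) (XT.nd (nat_lit 78) (nat_lit 380) (nat_lit 0) (XT.lf (nat_lit 0) (nat_lit 4108107070) (nat_lit 380) (nat_lit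 1920972720) (nat_lit 76) (nat_lit 7078818724) (nat_lit 121) (nat_lit 5) (nat_lit 126) (nat_lit 5) (nat_lit 122) (nat_lit 5) (nat_lit 323) (nat_lit 260) (nat_lit 197)) (XT.lf (nat_lit 0) (nat_lit 8664642976) (nat_lit 456) (nat_lit 4690924984) (nat_lit 76) (nat_lit 2976619) (nat_lit 116) (nat_lit 5) (nat_lit 122) (nat_lit 5) (nat_lit 117) (nat_lit 5) (nat_lit 324) (nat_lit 260) (nat_lit 196)))) (XT.nd (nat_lit 156) (nat_lit 304) (nat_lit 0) (XT.nd (nat_lit 78) (nat_lit 456) (nat_lit 0) (XT.lf (nat_lit 0) (nat_lit 5948361202) (nat_lit 304) (nat_lit 7453057941) (nat_lit 380) (nat_lit 214442642) (nat_lit 112) (nat_lit 5) (nat_lit 116) (nat_lit 5) (nat_lit 117) (nat_lit 5) (nat_lit 325) (nat_lit 260) (nat_lit 195)) (XT.lf (nat_lit 0) (nat_lit 3029292594) (nat_lit 380) (nat_lit 1316185418) (nat_lit 456) (nat_lit 9534795235) (nat_lit 106) (nat_lit 5) (nat_lit 111) (nat_lit 5) (nat_lit 112) (nat_lit 5)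 (nat_lit 326) (nat_lit 260) (nat_lit 194))) (XT.nd (nat_lit 78) (nat_lit 304) (nat_lit 0) (XT.lf (nat_lit 0) (nat_lit 9076980721) (nat_lit 456) (nat_lit 105970171) (nat_lit 76) (nat_lit 4968904780) (nat_lit 106) (nat_lit 5) (nat_lit 112) (nat_lit 5) (nat_lit 107) (nat_lit 5) (nat_lit 327) (nat_lit 260) (nat_lit 193)) (XT.lf (nat_lit 0) (nat_lit 11027248797) (nat_lit 304) (nat_lit 2957835442) (nat_lit 380) (nat_lit 445828531) (nat_lit 102) (nat_lit 5) (nat_lit 106) (nat_lit 5) (nat_lit 107) (nat_lit 5) (nat_lit 328) (nat_lit 260) (nat_lit 192)))))) (XT.nd (nat_lit 546) (nat_lit 1368) (nat_lit 0) (XT.nd (nat_lit 234) (nat_lit 684) (nat_lit 0) (XT.nd (nat_lit 78) (nat_lit 608) (nat_lit 0) (XT.lf (nat_lit 0) (nat_lit 4294273929) (nat_lit 380) (nat_lit 6958335372) (nat_lit 76) (nat_lit 3464612988) (nat_lit 97) (nat_lit 5) (nat_lit 102) (nat_lit 5) (nat_lit 98) (nat_lit 5) (nat_lit 329) (nat_lit 260)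 (nat_lit 191)) (XT.nd (nat_lit 78) (nat_lit 304) (nat_lit 0) (XT.lf (nat_lit 0) (nat_lit 4255064840) (nat_lit 304) (nat_lit 4941658862) (nat_lit 380) (nat_lit 5814833199) (nat_lit 93) (nat_lit 5) (nat_lit 97) (nat_lit 5) (nat_lit 98) (nat_lit 5) (nat_lit 330) (nat_lit 260) (nat_lit 190)) (XT.lf (nat_lit 0) (nat_lit 513961579) (nat_lit 304) (nat_lit 13749444396) (nat_lit 380) (nat_lit 1050990625) (nat_lit 89) (nat_lit 5) (nat_lit 93) (nat_lit 5) (nat_lit 94) (nat_lit 5) (nat_lit 331) (nat_lit 260) (nat_lit 189)))) (XT.nd (nat_lit 156) (nat_lit 380) (nat_lit 0) (XT.nd (nat_lit 78) (nat_lit 228) (nat_lit 0) (XT.lf (nat_lit 0) (nat_lit 3868389769) (nat_lit 380) (nat_lit 3481822405) (nat_lit 76) (nat_lit 8274362148) (nat_lit 88) (nat_lit 5) (nat_lit 93) (nat_lit 5) (nat_lit 89) (nat_lit 5) (nat_lit 332) (nat_lit 260) (nat_lit 188)) (XT.lf (nat_lit 0) (nat_lit 8210831808) (nat_lit 228) (nat_lit 721664001)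 (nat_lit 304) (nat_lit 7011211009) (nat_lit 85) (nat_lit 5) (nat_lit 88) (nat_lit 5) (nat_lit 89) (nat_lit 5) (nat_lit 333) (nat_lit 260) (nat_lit 187))) (XT.nd (nat_lit 78) (nat_lit 76) (nat_lit 0) (XT.lf (nat_lit 0) (nat_lit 3976552797) (nat_lit 304) (nat_lit 10219859182) (nat_lit 380) (nat_lit 2075059923) (nat_lit 81) (nat_lit 5) (nat_lit 85) (nat_lit 5) (nat_lit 86) (nat_lit 5) (nat_lit 334) (nat_lit 260) (nat_lit 186)) (XT.lf (nat_lit 0) (nat_lit 2986458433) (nat_lit 380) (nat_lit 554896776) (nat_lit 76) (nat_lit 13067004573) (nat_lit 80) (nat_lit 5) (nat_lit 85) (nat_lit 5) (nat_lit 81) (nat_lit 5) (nat_lit 335) (nat_lit 260) (nat_lit 185))))) (XT.nd (nat_lit 234) (nat_lit 532) (nat_lit 0) (XT.nd (nat_lit 78) (nat_lit 608) (nat_lit 0) (XT.lf (nat_lit 0) (nat_lit 8229656880) (nat_lit 304) (nat_lit 5364110487) (nat_lit 76) (nat_lit 3360167190) (nat_lit 77) (nat_lit 5) (nat_lit 81) (nat_lit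 5) (nat_lit 78) (nat_lit 5) (nat_lit 336) (nat_lit 260) (nat_lit 184)) (XT.nd (nat_lit 78) (nat_lit 304) (nat_lit 0) (XT.lf (nat_lit 0) (nat_lit 6799158300) (nat_lit 304) (nat_lit 6863566796) (nat_lit 380) (nat_lit 3646514676) (nat_lit 73) (nat_lit 5) (nat_lit 77) (nat_lit 5) (nat_lit 78) (nat_lit 5) (nat_lit 337) (nat_lit 260) (nat_lit 183)) (XT.lf (nat_lit 0) (nat_lit 1572379228) (nat_lit 304) (nat_lit 16000277110) (nat_lit 76) (nat_lit 102164799) (nat_lit 69) (nat_lit 5) (nat_lit 73) (nat_lit 5) (nat_lit 70) (nat_lit 5) (nat_lit 338) (nat_lit 260) (nat_lit 182)))) (XT.nd (nat_lit 156) (nat_lit 304) (nat_lit 0) (XT.nd (nat_lit 78) (nat_lit 228) (nat_lit 0) (XT.lf (nat_lit 0) (nat_lit 6978170871) (nat_lit 304) (nat_lit 3814225776) (nat_lit 76) (nat_lit 7256907330) (nat_lit 69) (nat_lit 5) (nat_lit 73) (nat_lit 5) (nat_lit 70) (nat_lit 5) (nat_lit 339) (nat_lit 260) (nat_lit 181)) (XT.lf (nat_lit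 0) (nat_lit 8792435107) (nat_lit 228) (nat_lit 3773893652) (nat_lit 304) (nat_lit 5868301857) (nat_lit 66) (nat_lit 5) (nat_lit 69) (nat_lit 5) (nat_lit 70) (nat_lit 5) (nat_lit 340) (nat_lit 260) (nat_lit 180))) (XT.nd (nat_lit 78) (nat_lit 76) (nat_lit 0) (XT.lf (nat_lit 0) (nat_lit 2954758067) (nat_lit 228) (nat_lit 15398654030) (nat_lit 304) (nat_lit 477492123) (nat_lit 63) (nat_lit 5) (nat_lit 66) (nat_lit 5) (nat_lit 67) (nat_lit 5) (nat_lit 341) (nat_lit 260) (nat_lit 179)) (XT.lf (nat_lit 0) (nat_lit 5063564228) (nat_lit 304) (nat_lit 3294189085) (nat_lit 76) (nat_lit 10879564224) (nat_lit 62) (nat_lit 5) (nat_lit 66) (nat_lit 5) (nat_lit 63) (nat_lit 5) (nat_lit 342) (nat_lit 260) (nat_lit 178))))))))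
noncomputable def xc52 : XT := (XT.nd (nat_lit 34710) (nat_lit 0) (nat_lit 22344) (XT.nd (nat_lit 1014) (nat_lit 760) (nat_lit 0) (XT.nd (nat_lit 468) (nat_lit 912) (nat_lit 0) (XT.nd (nat_lit 234) (nat_lit 380) (nat_lit 0) (XT.nd (nat_lit 78) (nat_lit 304) (nat_lit 0) (XT.lf (nat_lit 0) (nat_lit 9731987712) (nat_lit 228) (nat_lit 1060720663) (nat_lit 304) (nat_lit 8862596699) (nat_lit 59) (nat_lit 5) (nat_lit 62) (nat_lit 5) (nat_lit 63) (nat_lit 5) (nat_lit 343) (nat_lit 260) (nat_lit 177)) (XT.nd (nat_lit 78) (nat_lit 76) (nat_lit 0) (XT.lf (nat_lit 0) (nat_lit 3049291327) (nat_lit 228) (nat_lit 13694236593) (nat_lit 304) (nat_lit 3341319763) (nat_lit 56) (nat_lit 5) (nat_lit 59) (nat_lit 5) (nat_lit 60) (nat_lit 5) (nat_lit 344) (nat_lit 260) (nat_lit 176)) (XT.lf (nat_lit 0) (nat_lit 2355637002) (nat_lit 304) (nat_lit 4058619033) (nat_lit 76) (nat_lit 14111910777) (nat_lit 55) (nat_lit 5)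 (nat_lit 59) (nat_lit 5) (nat_lit 56) (nat_lit 5) (nat_lit 345) (nat_lit 260) (nat_lit 175)))) (XT.nd (nat_lit 78) (nat_lit 152) (nat_lit 0) (XT.lf (nat_lit 0) (nat_lit 8213546836) (nat_lit 304) (nat_lit 11634408960) (nat_lit 76) (nat_lit 1131629796) (nat_lit 52) (nat_lit 5) (nat_lit 56) (nat_lit 5) (nat_lit 53) (nat_lit 5) (nat_lit 346) (nat_lit 260) (nat_lit 174)) (XT.nd (nat_lit 78) (nat_lit 0) (nat_lit 0) (XT.lf (nat_lit 0) (nat_lit 1684808875) (nat_lit 152) (nat_lit 12611381515) (nat_lit 228) (nat_lit 7149446906) (nat_lit 50) (nat_lit 5) (nat_lit 52) (nat_lit 5) (nat_lit 53) (nat_lit 5) (nat_lit 347) (nat_lit 260) (nat_lit 173)) (XT.lf (nat_lit 0) (nat_lit 15508950966) (nat_lit 152) (nat_lit 5099275902) (nat_lit 228) (nat_lit 1316515398) (nat_lit 50) (nat_lit 5) (nat_lit 52) (nat_lit 5) (nat_lit 53) (nat_lit 5) (nat_lit 348) (nat_lit 260) (nat_lit 172))))) (XT.nd (nat_lit 234) (nat_lit 456)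 (nat_lit 0) (XT.nd (nat_lit 78) (nat_lit 152) (nat_lit 0) (XT.lf (nat_lit 0) (nat_lit 4663845598) (nat_lit 304) (nat_lit 15092120178) (nat_lit 76) (nat_lit 2660975519) (nat_lit 46) (nat_lit 5) (nat_lit 50) (nat_lit 5) (nat_lit 47) (nat_lit 5) (nat_lit 349) (nat_lit 260) (nat_lit 171)) (XT.nd (nat_lit 78) (nat_lit 152) (nat_lit 0) (XT.lf (nat_lit 0) (nat_lit 10852921716) (nat_lit 304) (nat_lit 1453145710) (nat_lit 76) (nat_lit 10616730244) (nat_lit 46) (nat_lit 5) (nat_lit 50) (nat_lit 5) (nat_lit 47) (nat_lit 5) (nat_lit 350) (nat_lit 260) (nat_lit 170)) (XT.lf (nat_lit 0) (nat_lit 12710840778) (nat_lit 152) (nat_lit 4569477085) (nat_lit 228) (nat_lit 6162467880) (nat_lit 44) (nat_lit 5) (nat_lit 46) (nat_lit 5) (nat_lit 47) (nat_lit 5) (nat_lit 351) (nat_lit 260) (nat_lit 169)))) (XT.nd (nat_lit 156) (nat_lit 152) (nat_lit 0) (XT.nd (nat_lit 78) (nat_lit 76) (nat_lit 0) (XT.lf (nat_lit 0) (nat_lit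 3312269129) (nat_lit 228) (nat_lit 20612285855) (nat_lit 304) (nat_lit 53346793) (nat_lit 41) (nat_lit 5) (nat_lit 44) (nat_lit 5) (nat_lit 45) (nat_lit 5) (nat_lit 352) (nat_lit 260) (nat_lit 168)) (XT.lf (nat_lit 0) (nat_lit 6231851803) (nat_lit 304) (nat_lit 6724528523) (nat_lit 76) (nat_lit 11570396485) (nat_lit 40) (nat_lit 5) (nat_lit 44) (nat_lit 5) (nat_lit 41) (nat_lit 5) (nat_lit 353) (nat_lit 260) (nat_lit 167))) (XT.nd (nat_lit 78) (nat_lit 0) (nat_lit 0) (XT.lf (nat_lit 0) (nat_lit 7686648084) (nat_lit 152) (nat_lit 5039860311) (nat_lit 228) (nat_lit 12365178152) (nat_lit 38) (nat_lit 5) (nat_lit 40) (nat_lit 5) (nat_lit 41) (nat_lit 5) (nat_lit 354) (nat_lit 260) (nat_lit 166)) (XT.lf (nat_lit 0) (nat_lit 19454192076) (nat_lit 228) (nat_lit 3119206695) (nat_lit 76) (nat_lit 3099388860) (nat_lit 38) (nat_lit 5) (nat_lit 41) (nat_lit 5) (nat_lit 39) (nat_lit 5) (nat_lit 355) (nat_lit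 260) (nat_lit 165)))))) (XT.nd (nat_lit 468) (nat_lit 0) (nat_lit 0) (XT.nd (nat_lit 234) (nat_lit 380) (nat_lit 0) (XT.nd (nat_lit 78) (nat_lit 152) (nat_lit 0) (XT.lf (nat_lit 0) (nat_lit 193818173) (nat_lit 228) (nat_lit 14603291588) (nat_lit 76) (nat_lit 11472546674) (nat_lit 35) (nat_lit 5) (nat_lit 38) (nat_lit 5) (nat_lit 36) (nat_lit 5) (nat_lit 356) (nat_lit 260) (nat_lit 164)) (XT.nd (nat_lit 78) (nat_lit 152) (nat_lit 0) (XT.lf (nat_lit 0) (nat_lit 6709094164) (nat_lit 228) (nat_lit 33992603) (nat_lit 76) (nat_lit 20140630127) (nat_lit 35) (nat_lit 5) (nat_lit 38) (nat_lit 5) (nat_lit 36) (nat_lit 5) (nat_lit 357) (nat_lit 260) (nat_lit 163)) (XT.lf (nat_lit 0) (nat_lit 13502638748) (nat_lit 228) (nat_lit 12399711769) (nat_lit 76) (nat_lit 1612199446) (nat_lit 33) (nat_lit 5) (nat_lit 36) (nat_lit 5) (nat_lit 34) (nat_lit 5) (nat_lit 358) (nat_lit 260) (nat_lit 162)))) (XT.nd (nat_lit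 78) (nat_lit 228) (nat_lit 0) (XT.lf (nat_lit 0) (nat_lit 2497183738) (nat_lit 152) (nat_lit 18038690053) (nat_lit 228) (nat_lit 7627723351) (nat_lit 31) (nat_lit 5) (nat_lit 33) (nat_lit 5) (nat_lit 34) (nat_lit 5) (nat_lit 359) (nat_lit 260) (nat_lit 161)) (XT.nd (nat_lit 78) (nat_lit 228) (nat_lit 0) (XT.lf (nat_lit 0) (nat_lit 17966674088) (nat_lit 152) (nat_lit 9872262321) (nat_lit 228) (nat_lit 992009317) (nat_lit 31) (nat_lit 5) (nat_lit 33) (nat_lit 5) (nat_lit 34) (nat_lit 5) (nat_lit 360) (nat_lit 260) (nat_lit 160)) (XT.lf (nat_lit 0) (nat_lit 4358063931) (nat_lit 152) (nat_lit 1411750236) (nat_lit 228) (nat_lit 23747674840) (nat_lit 28) (nat_lit 5) (nat_lit 30) (nat_lit 5) (nat_lit 31) (nat_lit 5) (nat_lit 361) (nat_lit 260) (nat_lit 159))))) (XT.nd (nat_lit 32916) (nat_lit 0) (nat_lit 45600) (XT.nd (nat_lit 32760) (nat_lit 0) (nat_lit 46284) (XT.lf (nat_lit 0) (nat_lit 12818307652)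 (nat_lit 228) (nat_lit 10134674046) (nat_lit 76) (nat_lit 7269575989) (nat_lit 28) (nat_lit 5) (nat_lit 31) (nat_lit 5) (nat_lit 29) (nat_lit 5) (nat_lit 362) (nat_lit 260) (nat_lit 158)) (XT.nd (nat_lit 78) (nat_lit 228) (nat_lit 0) (XT.lf (nat_lit 0) (nat_lit 1153935127) (nat_lit 228) (nat_lit 1034675818) (nat_lit 228) (nat_lit 1034675818) (nat_lit 640) (nat_lit 3) (nat_lit 643) (nat_lit 3) (nat_lit 643) (nat_lit 5) (nat_lit 261) (nat_lit 261) (nat_lit 258)) (XT.lf (nat_lit 0) (nat_lit 118843144) (nat_lit 228) (nat_lit 4008643089) (nat_lit 304) (nat_lit 2325031066) (nat_lit 637) (nat_lit 5) (nat_lit 640) (nat_lit 3) (nat_lit 641) (nat_lit 5) (nat_lit 262) (nat_lit 261) (nat_lit 257)))) (XT.nd (nat_lit 156) (nat_lit 380) (nat_lit 0) (XT.nd (nat_lit 78) (nat_lit 304) (nat_lit 0) (XT.lf (nat_lit 76) (nat_lit 554396081) (nat_lit 0) (nat_lit 3745161022) (nat_lit 304) (nat_lit 2161736286) (nat_lit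 638) (nat_lit 5) (nat_lit 637) (nat_lit 5) (nat_lit 641) (nat_lit 5) (nat_lit 263) (nat_lit 261) (nat_lit 256)) (XT.lf (nat_lit 0) (nat_lit 1971320423) (nat_lit 304) (nat_lit 1263178166) (nat_lit 380) (nat_lit 3238500807) (nat_lit 633) (nat_lit 5) (nat_lit 637) (nat_lit 5) (nat_lit 638) (nat_lit 5) (nat_lit 264) (nat_lit 261) (nat_lit 255))) (XT.nd (nat_lit 78) (nat_lit 380) (nat_lit 0) (XT.lf (nat_lit 76) (nat_lit 3464875437) (nat_lit 0) (nat_lit 2598168732) (nat_lit 380) (nat_lit 424662478) (nat_lit 634) (nat_lit 5) (nat_lit 633) (nat_lit 5) (nat_lit 638) (nat_lit 5) (nat_lit 265) (nat_lit 261) (nat_lit 254)) (XT.lf (nat_lit 76) (nat_lit 1761064712) (nat_lit 0) (nat_lit 1828365674) (nat_lit 456) (nat_lit 2915855453) (nat_lit 629) (nat_lit 5) (nat_lit 628) (nat_lit 5) (nat_lit 634) (nat_lit 5) (nat_lit 266) (nat_lit 261) (nat_lit 253))))))) (XT.nd (nat_lit 1014) (nat_lit 15580) (nat_lit 0) (XT.nd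 (nat_lit 468) (nat_lit 5472) (nat_lit 0) (XT.nd (nat_lit 234) (nat_lit 1292) (nat_lit 0) (XT.nd (nat_lit 78) (nat_lit 456) (nat_lit 0) (XT.lf (nat_lit 76) (nat_lit 109933238) (nat_lit 0) (nat_lit 937584361) (nat_lit 532) (nat_lit 5478492923) (nat_lit 623) (nat_lit 5) (nat_lit 622) (nat_lit 5) (nat_lit 629) (nat_lit 5) (nat_lit 267) (nat_lit 261) (nat_lit 252)) (XT.nd (nat_lit 78) (nat_lit 532) (nat_lit 0) (XT.lf (nat_lit 0) (nat_lit 4973938468) (nat_lit 456) (nat_lit 1481468471) (nat_lit 76) (nat_lit 94079945) (nat_lit 623) (nat_lit 5) (nat_lit 629) (nat_lit 5) (nat_lit 624) (nat_lit 5) (nat_lit 268) (nat_lit 261) (nat_lit 251)) (XT.lf (nat_lit 0) (nat_lit 2296463122) (nat_lit 532) (nat_lit 3036945210) (nat_lit 76) (nat_lit 1242442475) (nat_lit 616) (nat_lit 5) (nat_lit 623) (nat_lit 5) (nat_lit 617) (nat_lit 5) (nat_lit 269) (nat_lit 261) (nat_lit 250)))) (XT.nd (nat_lit 78) (nat_lit 760) (nat_lit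 0) (XT.lf (nat_lit 0) (nat_lit 2055870728) (nat_lit 532) (nat_lit 4089108640) (nat_lit 608) (nat_lit 460359174) (nat_lit 609) (nat_lit 5) (nat_lit 616) (nat_lit 5) (nat_lit 617) (nat_lit 5) (nat_lit 270) (nat_lit 261) (nat_lit 249)) (XT.nd (nat_lit 78) (nat_lit 76) (nat_lit 0) (XT.lf (nat_lit 0) (nat_lit 604535501) (nat_lit 608) (nat_lit 2708452846) (nat_lit 684) (nat_lit 3324733237) (nat_lit 600) (nat_lit 5) (nat_lit 608) (nat_lit 5) (nat_lit 609) (nat_lit 5) (nat_lit 271) (nat_lit 261) (nat_lit 248)) (XT.lf (nat_lit 0) (nat_lit 409558113) (nat_lit 684) (nat_lit 790672639) (nat_lit 76) (nat_lit 5472993484) (nat_lit 599) (nat_lit 5) (nat_lit 608) (nat_lit 5) (nat_lit 600) (nat_lit 5) (nat_lit 272) (nat_lit 261) (nat_lit 247))))) (XT.nd (nat_lit 234) (nat_lit 3116) (nat_lit 0) (XT.nd (nat_lit 78) (nat_lit 1672) (nat_lit 0) (XT.lf (nat_lit 0) (nat_lit 4110593310) (nat_lit 760) (nat_lit 2154216310)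 (nat_lit 76) (nat_lit 446700080) (nat_lit 590) (nat_lit 5) (nat_lit 600) (nat_lit 5) (nat_lit 591) (nat_lit 5) (nat_lit 273) (nat_lit 261) (nat_lit 246)) (XT.nd (nat_lit 78) (nat_lit 836) (nat_lit 0) (XT.lf (nat_lit 0) (nat_lit 1060930054) (nat_lit 836) (nat_lit 3487455142) (nat_lit 76) (nat_lit 2204462258) (nat_lit 579) (nat_lit 5) (nat_lit 590) (nat_lit 5) (nat_lit 580) (nat_lit 5) (nat_lit 274) (nat_lit 261) (nat_lit 245)) (XT.lf (nat_lit 0) (nat_lit 2002278641) (nat_lit 836) (nat_lit 2695827231) (nat_lit 912) (nat_lit 2099102631) (nat_lit 568) (nat_lit 5) (nat_lit 579) (nat_lit 5) (nat_lit 580) (nat_lit 5) (nat_lit 275) (nat_lit 261) (nat_lit 244)))) (XT.nd (nat_lit 156) (nat_lit 2128) (nat_lit 0) (XT.nd (nat_lit 78) (nat_lit 0) (nat_lit 0) (XT.lf (nat_lit 0) (nat_lit 772798416) (nat_lit 912) (nat_lit 711593330) (nat_lit 988) (nat_lit 5360359008) (nat_lit 555) (nat_lit 5) (nat_lit 567) (nat_lit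 5) (nat_lit 568) (nat_lit 5) (nat_lit 276) (nat_lit 261) (nat_lit 243)) (XT.lf (nat_lit 0) (nat_lit 5066779131) (nat_lit 988) (nat_lit 432927605) (nat_lit 76) (nat_lit 1395469241) (nat_lit 555) (nat_lit 5) (nat_lit 568) (nat_lit 5) (nat_lit 556) (nat_lit 5) (nat_lit 277) (nat_lit 261) (nat_lit 242))) (XT.nd (nat_lit 78) (nat_lit 1064) (nat_lit 0) (XT.lf (nat_lit 0) (nat_lit 1706589978) (nat_lit 1064) (nat_lit 1606846538) (nat_lit 76) (nat_lit 3635152474) (nat_lit 541) (nat_lit 5) (nat_lit 555) (nat_lit 5) (nat_lit 542) (nat_lit 5) (nat_lit 278) (nat_lit 261) (nat_lit 241)) (XT.lf (nat_lit 0) (nat_lit 4247728256) (nat_lit 1064) (nat_lit 989654939) (nat_lit 1140) (nat_lit 1767809834) (nat_lit 527) (nat_lit 5) (nat_lit 541) (nat_lit 5) (nat_lit 542) (nat_lit 5) (nat_lit 279) (nat_lit 261) (nat_lit 240)))))) (XT.nd (nat_lit 546) (nat_lit 7296) (nat_lit 0) (XT.nd (nat_lit 234) (nat_lit 4484) (nat_lit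 0) (XT.nd (nat_lit 78) (nat_lit 2584) (nat_lit 0) (XT.lf (nat_lit 0) (nat_lit 1713904762) (nat_lit 1216) (nat_lit 3896058233) (nat_lit 76) (nat_lit 1454872564) (nat_lit 511) (nat_lit 5) (nat_lit 527) (nat_lit 5) (nat_lit 512) (nat_lit 5) (nat_lit 280) (nat_lit 261) (nat_lit 239)) (XT.nd (nat_lit 78) (nat_lit 1368) (nat_lit 0) (XT.lf (nat_lit 0) (nat_lit 2104645572) (nat_lit 1216) (nat_lit 3099436696) (nat_lit 1292) (nat_lit 1923503829) (nat_lit 495) (nat_lit 5) (nat_lit 511) (nat_lit 5) (nat_lit 512) (nat_lit 5) (nat_lit 281) (nat_lit 261) (nat_lit 238)) (XT.lf (nat_lit 0) (nat_lit 1061152652) (nat_lit 1292) (nat_lit 448628970) (nat_lit 1368) (nat_lit 5683854293) (nat_lit 477) (nat_lit 5) (nat_lit 494) (nat_lit 5) (nat_lit 495) (nat_lit 5) (nat_lit 282) (nat_lit 261) (nat_lit 237)))) (XT.nd (nat_lit 156) (nat_lit 3040) (nat_lit 0) (XT.nd (nat_lit 78) (nat_lit 76) (nat_lit 0) (XT.lf (nat_lit 0)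 (nat_lit 17784106) (nat_lit 1368) (nat_lit 4944871943) (nat_lit 1444) (nat_lit 2300006868) (nat_lit 459) (nat_lit 5) (nat_lit 477) (nat_lit 5) (nat_lit 478) (nat_lit 5) (nat_lit 283) (nat_lit 261) (nat_lit 236)) (XT.lf (nat_lit 0) (nat_lit 1109763527) (nat_lit 1444) (nat_lit 997513919) (nat_lit 76) (nat_lit 5227629696) (nat_lit 458) (nat_lit 5) (nat_lit 477) (nat_lit 5) (nat_lit 459) (nat_lit 5) (nat_lit 284) (nat_lit 261) (nat_lit 235))) (XT.nd (nat_lit 78) (nat_lit 1596) (nat_lit 0) (XT.lf (nat_lit 0) (nat_lit 4529750923) (nat_lit 1520) (nat_lit 2010871756) (nat_lit 76) (nat_lit 869705030) (nat_lit 439) (nat_lit 5) (nat_lit 459) (nat_lit 5) (nat_lit 440) (nat_lit 5) (nat_lit 285) (nat_lit 261) (nat_lit 234)) (XT.lf (nat_lit 0) (nat_lit 507098117) (nat_lit 1596) (nat_lit 3022062226) (nat_lit 76) (nat_lit 3959865691) (nat_lit 418) (nat_lit 5) (nat_lit 439) (nat_lit 5) (nat_lit 419) (nat_lit 5)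 (nat_lit 286) (nat_lit 261) (nat_lit 233))))) (XT.nd (nat_lit 234) (nat_lit 2660) (nat_lit 0) (XT.nd (nat_lit 78) (nat_lit 3040) (nat_lit 0) (XT.lf (nat_lit 0) (nat_lit 3535668115) (nat_lit 1596) (nat_lit 360763126) (nat_lit 1672) (nat_lit 3674579173) (nat_lit 397) (nat_lit 5) (nat_lit 418) (nat_lit 5) (nat_lit 419) (nat_lit 5) (nat_lit 287) (nat_lit 261) (nat_lit 232)) (XT.nd (nat_lit 78) (nat_lit 1368) (nat_lit 0) (XT.lf (nat_lit 0) (nat_lit 2602789609) (nat_lit 1672) (nat_lit 4745621808) (nat_lit 1748) (nat_lit 307910159) (nat_lit 375) (nat_lit 5) (nat_lit 397) (nat_lit 5) (nat_lit 398) (nat_lit 5) (nat_lit 288) (nat_lit 261) (nat_lit 231)) (XT.lf (nat_lit 0) (nat_lit 1661634563) (nat_lit 1292) (nat_lit 1403529258) (nat_lit 1368) (nat_lit 4679763457) (nat_lit 357) (nat_lit 5) (nat_lit 374) (nat_lit 5) (nat_lit 375) (nat_lit 5) (nat_lit 289) (nat_lit 261) (nat_lit 230)))) (XT.nd (nat_lit 156)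 (nat_lit 1748) (nat_lit 0) (XT.nd (nat_lit 78) (nat_lit 76) (nat_lit 0) (XT.lf (nat_lit 0) (nat_lit 716588369) (nat_lit 836) (nat_lit 5779358818) (nat_lit 912) (nat_lit 1341069269) (nat_lit 346) (nat_lit 5) (nat_lit 357) (nat_lit 5) (nat_lit 358) (nat_lit 5) (nat_lit 290) (nat_lit 261) (nat_lit 229)) (XT.lf (nat_lit 0) (nat_lit 2030900424) (nat_lit 912) (nat_lit 239626270) (nat_lit 76) (nat_lit 5661932831) (nat_lit 345) (nat_lit 5) (nat_lit 357) (nat_lit 5) (nat_lit 346) (nat_lit 5) (nat_lit 291) (nat_lit 261) (nat_lit 228))) (XT.nd (nat_lit 78) (nat_lit 912) (nat_lit 0) (XT.lf (nat_lit 0) (nat_lit 5451795007) (nat_lit 912) (nat_lit 1198689621) (nat_lit 76) (nat_lit 1380858204) (nat_lit 334) (nat_lit 5) (nat_lit 346) (nat_lit 5) (nat_lit 335) (nat_lit 5) (nat_lit 292) (nat_lit 261) (nat_lit 227)) (XT.lf (nat_lit 0) (nat_lit 800724803) (nat_lit 912) (nat_lit 2175727106) (nat_lit 76) (nat_lit 5157308852)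 (nat_lit 322) (nat_lit 5) (nat_lit 334) (nat_lit 5) (nat_lit 323) (nat_lit 5) (nat_lit 293) (nat_lit 261) (nat_lit 226))))))))
noncomputable def xc53 : XT := (XT.nd (nat_lit 2106) (nat_lit 6384) (nat_lit 0) (XT.nd (nat_lit 1014) (nat_lit 5624) (nat_lit 0) (XT.nd (nat_lit 468) (nat_lit 3876) (nat_lit 0) (XT.nd (nat_lit 234) (nat_lit 2204) (nat_lit 0) (XT.nd (nat_lit 78) (nat_lit 1596) (nat_lit 0) (XT.lf (nat_lit 0) (nat_lit 4209960674) (nat_lit 912) (nat_lit 3176106668) (nat_lit 76) (nat_lit 853659187) (nat_lit 311) (nat_lit 5) (nat_lit 323) (nat_lit 5) (nat_lit 312) (nat_lit 5) (nat_lit 294) (nat_lit 261) (nat_lit 225)) (XT.nd (nat_lit 78) (nat_lit 836) (nat_lit 0) (XT.lf (nat_lit 0) (nat_lit 4148861664) (nat_lit 760) (nat_lit 3551874096) (nat_lit 836) (nat_lit 648616615) (nat_lit 301) (nat_lit 5) (nat_lit 311) (nat_lit 5) (nat_lit 312) (nat_lit 5) (nat_lit 295) (nat_lit 261) (nat_lit 224)) (XT.lf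 (nat_lit 0) (nat_lit 2761094734) (nat_lit 836) (nat_lit 5253513270) (nat_lit 76) (nat_lit 448068233) (nat_lit 290) (nat_lit 5) (nat_lit 301) (nat_lit 5) (nat_lit 291) (nat_lit 5) (nat_lit 296) (nat_lit 261) (nat_lit 223)))) (XT.nd (nat_lit 78) (nat_lit 1520) (nat_lit 0) (XT.lf (nat_lit 0) (nat_lit 2233953967) (nat_lit 684) (nat_lit 4017891389) (nat_lit 760) (nat_lit 2327778821) (nat_lit 281) (nat_lit 5) (nat_lit 290) (nat_lit 5) (nat_lit 291) (nat_lit 5) (nat_lit 297) (nat_lit 261) (nat_lit 222)) (XT.nd (nat_lit 78) (nat_lit 684) (nat_lit 0) (XT.lf (nat_lit 0) (nat_lit 1098794315) (nat_lit 836) (nat_lit 7460956294) (nat_lit 76) (nat_lit 140907281) (nat_lit 270) (nat_lit 5) (nat_lit 281) (nat_lit 5) (nat_lit 271) (nat_lit 5) (nat_lit 298) (nat_lit 261) (nat_lit 221)) (XT.lf (nat_lit 0) (nat_lit 188124772) (nat_lit 684) (nat_lit 4403425263) (nat_lit 760) (nat_lit 4233621292) (nat_lit 261) (nat_lit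 5) (nat_lit 270) (nat_lit 5) (nat_lit 271) (nat_lit 5) (nat_lit 299) (nat_lit 261) (nat_lit 220))))) (XT.nd (nat_lit 234) (nat_lit 2508) (nat_lit 0) (XT.nd (nat_lit 78) (nat_lit 1368) (nat_lit 0) (XT.lf (nat_lit 0) (nat_lit 8083556954) (nat_lit 684) (nat_lit 81219877) (nat_lit 760) (nat_lit 789184576) (nat_lit 261) (nat_lit 5) (nat_lit 270) (nat_lit 5) (nat_lit 271) (nat_lit 5) (nat_lit 300) (nat_lit 261) (nat_lit 219)) (XT.nd (nat_lit 78) (nat_lit 608) (nat_lit 0) (XT.lf (nat_lit 0) (nat_lit 2724150222) (nat_lit 760) (nat_lit 1994654442) (nat_lit 76) (nat_lit 4367469789) (nat_lit 251) (nat_lit 5) (nat_lit 261) (nat_lit 5) (nat_lit 252) (nat_lit 5) (nat_lit 301) (nat_lit 261) (nat_lit 218)) (XT.lf (nat_lit 0) (nat_lit 6071910530) (nat_lit 608) (nat_lit 234521476) (nat_lit 684) (nat_lit 2916586011) (nat_lit 243) (nat_lit 5) (nat_lit 251) (nat_lit 5) (nat_lit 252) (nat_lit 5) (nat_lit 302) (nat_lit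 261) (nat_lit 217)))) (XT.nd (nat_lit 156) (nat_lit 1216) (nat_lit 0) (XT.nd (nat_lit 78) (nat_lit 608) (nat_lit 0) (XT.lf (nat_lit 0) (nat_lit 628299697) (nat_lit 684) (nat_lit 4370649616) (nat_lit 76) (nat_lit 4364795368) (nat_lit 234) (nat_lit 5) (nat_lit 243) (nat_lit 5) (nat_lit 235) (nat_lit 5) (nat_lit 303) (nat_lit 261) (nat_lit 216)) (XT.lf (nat_lit 0) (nat_lit 3862470700) (nat_lit 608) (nat_lit 356587005) (nat_lit 684) (nat_lit 5289713828) (nat_lit 226) (nat_lit 5) (nat_lit 234) (nat_lit 5) (nat_lit 235) (nat_lit 5) (nat_lit 304) (nat_lit 261) (nat_lit 215))) (XT.nd (nat_lit 78) (nat_lit 608) (nat_lit 0) (XT.lf (nat_lit 0) (nat_lit 2667496793) (nat_lit 608) (nat_lit 5258078189) (nat_lit 684) (nat_lit 1732459089) (nat_lit 218) (nat_lit 5) (nat_lit 226) (nat_lit 5) (nat_lit 227) (nat_lit 5) (nat_lit 305) (nat_lit 261) (nat_lit 214)) (XT.lf (nat_lit 0) (nat_lit 1417403270) (nat_lit 532)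 (nat_lit 472013138) (nat_lit 608) (nat_lit 7922485970) (nat_lit 210) (nat_lit 5) (nat_lit 217) (nat_lit 5) (nat_lit 218) (nat_lit 5) (nat_lit 306) (nat_lit 261) (nat_lit 213)))))) (XT.nd (nat_lit 546) (nat_lit 2432) (nat_lit 0) (XT.nd (nat_lit 234) (nat_lit 2052) (nat_lit 0) (XT.nd (nat_lit 78) (nat_lit 608) (nat_lit 0) (XT.lf (nat_lit 0) (nat_lit 81159811) (nat_lit 532) (nat_lit 5526983532) (nat_lit 608) (nat_lit 4361821859) (nat_lit 203) (nat_lit 5) (nat_lit 210) (nat_lit 5) (nat_lit 211) (nat_lit 5) (nat_lit 307) (nat_lit 261) (nat_lit 212)) (XT.nd (nat_lit 78) (nat_lit 608) (nat_lit 0) (XT.lf (nat_lit 0) (nat_lit 8841246523) (nat_lit 532) (nat_lit 593030688) (nat_lit 608) (nat_lit 698616717) (nat_lit 203) (nat_lit 5) (nat_lit 210) (nat_lit 5) (nat_lit 211) (nat_lit 5) (nat_lit 308) (nat_lit 261) (nat_lit 211)) (XT.lf (nat_lit 0) (nat_lit 3049996775) (nat_lit 608) (nat_lit 2767511483) (nat_lit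 76) (nat_lit 4482525284) (nat_lit 195) (nat_lit 5) (nat_lit 203) (nat_lit 5) (nat_lit 196) (nat_lit 5) (nat_lit 309) (nat_lit 261) (nat_lit 210)))) (XT.nd (nat_lit 156) (nat_lit 988) (nat_lit 0) (XT.nd (nat_lit 78) (nat_lit 532) (nat_lit 0) (XT.lf (nat_lit 0) (nat_lit 6159266650) (nat_lit 532) (nat_lit 733578253) (nat_lit 608) (nat_lit 3579462544) (nat_lit 188) (nat_lit 5) (nat_lit 195) (nat_lit 5) (nat_lit 196) (nat_lit 5) (nat_lit 310) (nat_lit 261) (nat_lit 209)) (XT.lf (nat_lit 0) (nat_lit 216879961) (nat_lit 532) (nat_lit 5956008185) (nat_lit 76) (nat_lit 4476505482) (nat_lit 181) (nat_lit 5) (nat_lit 188) (nat_lit 5) (nat_lit 182) (nat_lit 5) (nat_lit 311) (nat_lit 261) (nat_lit 208))) (XT.nd (nat_lit 78) (nat_lit 456) (nat_lit 0) (XT.lf (nat_lit 0) (nat_lit 3130593864) (nat_lit 532) (nat_lit 943250298) (nat_lit 608) (nat_lit 6757602729) (nat_lit 174) (nat_lit 5) (nat_lit 181) (nat_lit 5)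 (nat_lit 182) (nat_lit 5) (nat_lit 312) (nat_lit 261) (nat_lit 207)) (XT.lf (nat_lit 0) (nat_lit 1464204408) (nat_lit 456) (nat_lit 6602829761) (nat_lit 532) (nat_lit 2951551172) (nat_lit 168) (nat_lit 5) (nat_lit 174) (nat_lit 5) (nat_lit 175) (nat_lit 5) (nat_lit 313) (nat_lit 261) (nat_lit 206))))) (XT.nd (nat_lit 234) (nat_lit 1444) (nat_lit 0) (XT.nd (nat_lit 78) (nat_lit 912) (nat_lit 0) (XT.lf (nat_lit 0) (nat_lit 957135143) (nat_lit 532) (nat_lit 292178518) (nat_lit 76) (nat_lit 9961907637) (nat_lit 167) (nat_lit 5) (nat_lit 174) (nat_lit 5) (nat_lit 168) (nat_lit 5) (nat_lit 314) (nat_lit 261) (nat_lit 205)) (XT.nd (nat_lit 78) (nat_lit 456) (nat_lit 0) (XT.lf (nat_lit 0) (nat_lit 4975508783) (nat_lit 532) (nat_lit 2163778383) (nat_lit 76) (nat_lit 4269339791) (nat_lit 161) (nat_lit 5) (nat_lit 168) (nat_lit 5) (nat_lit 162) (nat_lit 5) (nat_lit 315) (nat_lit 261) (nat_lit 204)) (XT.lf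 (nat_lit 0) (nat_lit 7473685443) (nat_lit 456) (nat_lit 1644633522) (nat_lit 532) (nat_lit 2493588554) (nat_lit 155) (nat_lit 5) (nat_lit 161) (nat_lit 5) (nat_lit 162) (nat_lit 5) (nat_lit 316) (nat_lit 261) (nat_lit 203)))) (XT.nd (nat_lit 156) (nat_lit 532) (nat_lit 0) (XT.nd (nat_lit 78) (nat_lit 380) (nat_lit 0) (XT.lf (nat_lit 0) (nat_lit 1566786783) (nat_lit 532) (nat_lit 6251018014) (nat_lit 76) (nat_lit 4002844095) (nat_lit 148) (nat_lit 5) (nat_lit 155) (nat_lit 5) (nat_lit 149) (nat_lit 5) (nat_lit 317) (nat_lit 261) (nat_lit 202)) (XT.lf (nat_lit 0) (nat_lit 3533474030) (nat_lit 380) (nat_lit 2190685749) (nat_lit 456) (nat_lit 6311009913) (nat_lit 143) (nat_lit 5) (nat_lit 148) (nat_lit 5) (nat_lit 149) (nat_lit 5) (nat_lit 318) (nat_lit 261) (nat_lit 201))) (XT.nd (nat_lit 78) (nat_lit 76) (nat_lit 0) (XT.lf (nat_lit 0) (nat_lit 1360958478) (nat_lit 456) (nat_lit 8667812215) (nat_lit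 532) (nat_lit 2226932401) (nat_lit 137) (nat_lit 5) (nat_lit 143) (nat_lit 5) (nat_lit 144) (nat_lit 5) (nat_lit 319) (nat_lit 261) (nat_lit 200)) (XT.lf (nat_lit 0) (nat_lit 1974659180) (nat_lit 532) (nat_lit 948206065) (nat_lit 76) (nat_lit 9559337072) (nat_lit 136) (nat_lit 5) (nat_lit 143) (nat_lit 5) (nat_lit 137) (nat_lit 5) (nat_lit 320) (nat_lit 261) (nat_lit 199))))))) (XT.nd (nat_lit 1014) (nat_lit 2736) (nat_lit 0) (XT.nd (nat_lit 468) (nat_lit 1748) (nat_lit 0) (XT.nd (nat_lit 234) (nat_lit 760) (nat_lit 0) (XT.nd (nat_lit 78) (nat_lit 760) (nat_lit 0) (XT.lf (nat_lit 0) (nat_lit 6302421708) (nat_lit 456) (nat_lit 3402904060) (nat_lit 76) (nat_lit 3009294018) (nat_lit 131) (nat_lit 5) (nat_lit 137) (nat_lit 5) (nat_lit 132) (nat_lit 5) (nat_lit 321) (nat_lit 261) (nat_lit 198)) (XT.nd (nat_lit 78) (nat_lit 380) (nat_lit 0) (XT.lf (nat_lit 0) (nat_lit 6937927765) (nat_lit 380) (nat_lit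 3843825530) (nat_lit 456) (nat_lit 2171846262) (nat_lit 126) (nat_lit 5) (nat_lit 131) (nat_lit 5) (nat_lit 132) (nat_lit 5) (nat_lit 322) (nat_lit 261) (nat_lit 197)) (XT.lf (nat_lit 0) (nat_lit 2184592009) (nat_lit 380) (nat_lit 8805784287) (nat_lit 76) (nat_lit 2208757165) (nat_lit 121) (nat_lit 5) (nat_lit 126) (nat_lit 5) (nat_lit 122) (nat_lit 5) (nat_lit 323) (nat_lit 261) (nat_lit 196)))) (XT.nd (nat_lit 78) (nat_lit 380) (nat_lit 0) (XT.lf (nat_lit 0) (nat_lit 1655802067) (nat_lit 380) (nat_lit 5016196394) (nat_lit 456) (nat_lit 6779174807) (nat_lit 116) (nat_lit 5) (nat_lit 121) (nat_lit 5) (nat_lit 122) (nat_lit 5) (nat_lit 324) (nat_lit 261) (nat_lit 195)) (XT.nd (nat_lit 78) (nat_lit 380) (nat_lit 0) (XT.lf (nat_lit 0) (nat_lit 11314390186) (nat_lit 456) (nat_lit 1236425325) (nat_lit 76) (nat_lit 1159573482) (nat_lit 116) (nat_lit 5) (nat_lit 122) (nat_lit 5) (nat_lit 117) (nat_lit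 5) (nat_lit 325) (nat_lit 261) (nat_lit 194)) (XT.lf (nat_lit 0) (nat_lit 2141773377) (nat_lit 380) (nat_lit 4326770520) (nat_lit 76) (nat_lit 7507565348) (nat_lit 111) (nat_lit 5) (nat_lit 116) (nat_lit 5) (nat_lit 112) (nat_lit 5) (nat_lit 326) (nat_lit 261) (nat_lit 193))))) (XT.nd (nat_lit 234) (nat_lit 988) (nat_lit 0) (XT.nd (nat_lit 78) (nat_lit 380) (nat_lit 0) (XT.lf (nat_lit 0) (nat_lit 6631584388) (nat_lit 380) (nat_lit 158078206) (nat_lit 456) (nat_lit 7459711354) (nat_lit 106) (nat_lit 5) (nat_lit 111) (nat_lit 5) (nat_lit 112) (nat_lit 5) (nat_lit 327) (nat_lit 261) (nat_lit 192)) (XT.nd (nat_lit 78) (nat_lit 76) (nat_lit 0) (XT.lf (nat_lit 0) (nat_lit 3382735270) (nat_lit 304) (nat_lit 8242494345) (nat_lit 380) (nat_lit 2904661876) (nat_lit 102) (nat_lit 5) (nat_lit 106) (nat_lit 5) (nat_lit 107) (nat_lit 5) (nat_lit 328) (nat_lit 261) (nat_lit 191)) (XT.lf (nat_lit 0) (nat_lit 1772763510)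 (nat_lit 380) (nat_lit 80670504) (nat_lit 76) (nat_lit 12964994033) (nat_lit 101) (nat_lit 5) (nat_lit 106) (nat_lit 5) (nat_lit 102) (nat_lit 5) (nat_lit 329) (nat_lit 261) (nat_lit 190)))) (XT.nd (nat_lit 156) (nat_lit 380) (nat_lit 0) (XT.nd (nat_lit 78) (nat_lit 304) (nat_lit 0) (XT.lf (nat_lit 0) (nat_lit 6613756322) (nat_lit 380) (nat_lit 3763583811) (nat_lit 76) (nat_lit 4736660647) (nat_lit 97) (nat_lit 5) (nat_lit 102) (nat_lit 5) (nat_lit 98) (nat_lit 5) (nat_lit 330) (nat_lit 261) (nat_lit 189)) (XT.lf (nat_lit 0) (nat_lit 7731000637) (nat_lit 304) (nat_lit 3890212770) (nat_lit 380) (nat_lit 3796820292) (nat_lit 93) (nat_lit 5) (nat_lit 97) (nat_lit 5) (nat_lit 98) (nat_lit 5) (nat_lit 331) (nat_lit 261) (nat_lit 188))) (XT.nd (nat_lit 78) (nat_lit 0) (nat_lit 0) (XT.lf (nat_lit 0) (nat_lit 1061732677) (nat_lit 380) (nat_lit 11878800176) (nat_lit 76) (nat_lit 2789980210) (nat_lit 88)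 (nat_lit 5) (nat_lit 93) (nat_lit 5) (nat_lit 89) (nat_lit 5) (nat_lit 332) (nat_lit 261) (nat_lit 187)) (XT.lf (nat_lit 0) (nat_lit 6052456580) (nat_lit 380) (nat_lit 325481489) (nat_lit 76) (nat_lit 9673183188) (nat_lit 88) (nat_lit 5) (nat_lit 93) (nat_lit 5) (nat_lit 89) (nat_lit 5) (nat_lit 333) (nat_lit 261) (nat_lit 186)))))) (XT.nd (nat_lit 546) (nat_lit 1292) (nat_lit 0) (XT.nd (nat_lit 234) (nat_lit 608) (nat_lit 0) (XT.nd (nat_lit 78) (nat_lit 608) (nat_lit 0) (XT.lf (nat_lit 0) (nat_lit 11231910726) (nat_lit 304) (nat_lit 4718420805) (nat_lit 76) (nat_lit 430251873) (nat_lit 85) (nat_lit 5) (nat_lit 89) (nat_lit 5) (nat_lit 86) (nat_lit 5) (nat_lit 334) (nat_lit 261) (nat_lit 185)) (XT.nd (nat_lit 78) (nat_lit 304) (nat_lit 0) (XT.lf (nat_lit 0) (nat_lit 7284872408) (nat_lit 304) (nat_lit 9335094591) (nat_lit 380) (nat_lit 98913460) (nat_lit 81) (nat_lit 5) (nat_lit 85) (nat_lit 5)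 (nat_lit 86) (nat_lit 5) (nat_lit 335) (nat_lit 261) (nat_lit 184)) (XT.lf (nat_lit 0) (nat_lit 2585200517) (nat_lit 228) (nat_lit 2460708641) (nat_lit 304) (nat_lit 12020559611) (nat_lit 77) (nat_lit 5) (nat_lit 80) (nat_lit 5) (nat_lit 81) (nat_lit 5) (nat_lit 336) (nat_lit 261) (nat_lit 183)))) (XT.nd (nat_lit 156) (nat_lit 304) (nat_lit 0) (XT.nd (nat_lit 78) (nat_lit 304) (nat_lit 0) (XT.lf (nat_lit 0) (nat_lit 10400185509) (nat_lit 304) (nat_lit 2421319470) (nat_lit 76) (nat_lit 4601851860) (nat_lit 77) (nat_lit 5) (nat_lit 81) (nat_lit 5) (nat_lit 78) (nat_lit 5) (nat_lit 337) (nat_lit 261) (nat_lit 182)) (XT.lf (nat_lit 0) (nat_lit 10056493303) (nat_lit 304) (nat_lit 5903548590) (nat_lit 380) (nat_lit 1830024452) (nat_lit 73) (nat_lit 5) (nat_lit 77) (nat_lit 5) (nat_lit 78) (nat_lit 5) (nat_lit 338) (nat_lit 261) (nat_lit 181))) (XT.nd (nat_lit 78) (nat_lit 0) (nat_lit 0) (XT.lf (nat_lit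 0) (nat_lit 3492048523) (nat_lit 304) (nat_lit 13420530027) (nat_lit 76) (nat_lit 1254369148) (nat_lit 69) (nat_lit 5) (nat_lit 73) (nat_lit 5) (nat_lit 70) (nat_lit 5) (nat_lit 339) (nat_lit 261) (nat_lit 180)) (XT.lf (nat_lit 0) (nat_lit 9005475142) (nat_lit 304) (nat_lit 958016243) (nat_lit 76) (nat_lit 8590283875) (nat_lit 69) (nat_lit 5) (nat_lit 73) (nat_lit 5) (nat_lit 70) (nat_lit 5) (nat_lit 340) (nat_lit 261) (nat_lit 179))))) (XT.nd (nat_lit 234) (nat_lit 760) (nat_lit 0) (XT.nd (nat_lit 78) (nat_lit 304) (nat_lit 0) (XT.lf (nat_lit 0) (nat_lit 11978649422) (nat_lit 228) (nat_lit 2748652505) (nat_lit 304) (nat_lit 4224058180) (nat_lit 66) (nat_lit 5) (nat_lit 69) (nat_lit 5) (nat_lit 70) (nat_lit 5) (nat_lit 341) (nat_lit 261) (nat_lit 178)) (XT.nd (nat_lit 78) (nat_lit 0) (nat_lit 0) (XT.lf (nat_lit 0) (nat_lit 1284929753) (nat_lit 304) (nat_lit 13421634829) (nat_lit 76) (nat_lit 4653325271)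 (nat_lit 62) (nat_lit 5) (nat_lit 66) (nat_lit 5) (nat_lit 63) (nat_lit 5) (nat_lit 342) (nat_lit 261) (nat_lit 177)) (XT.lf (nat_lit 0) (nat_lit 6934205499) (nat_lit 304) (nat_lit 550682226) (nat_lit 76) (nat_lit 12294592681) (nat_lit 62) (nat_lit 5) (nat_lit 66) (nat_lit 5) (nat_lit 63) (nat_lit 5) (nat_lit 343) (nat_lit 261) (nat_lit 176)))) (XT.nd (nat_lit 156) (nat_lit 304) (nat_lit 0) (XT.nd (nat_lit 78) (nat_lit 228) (nat_lit 0) (XT.lf (nat_lit 0) (nat_lit 12803428043) (nat_lit 304) (nat_lit 7390605607) (nat_lit 76) (nat_lit 16626789) (nat_lit 59) (nat_lit 5) (nat_lit 63) (nat_lit 5) (nat_lit 60) (nat_lit 5) (nat_lit 344) (nat_lit 261) (nat_lit 175)) (XT.lf (nat_lit 0) (nat_lit 5918282858) (nat_lit 228) (nat_lit 12990275544) (nat_lit 304) (nat_lit 1745031654) (nat_lit 56) (nat_lit 5) (nat_lit 59) (nat_lit 5) (nat_lit 60) (nat_lit 5) (nat_lit 345) (nat_lit 261) (nat_lit 174))) (XT.nd (nat_lit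 78) (nat_lit 228) (nat_lit 0) (XT.lf (nat_lit 0) (nat_lit 4051818185) (nat_lit 304) (nat_lit 1461638900) (nat_lit 76) (nat_lit 15595462346) (nat_lit 55) (nat_lit 5) (nat_lit 59) (nat_lit 5) (nat_lit 56) (nat_lit 5) (nat_lit 346) (nat_lit 261) (nat_lit 173)) (XT.lf (nat_lit 0) (nat_lit 10062491996) (nat_lit 304) (nat_lit 9283399464) (nat_lit 76) (nat_lit 2230523990) (nat_lit 52) (nat_lit 5) (nat_lit 56) (nat_lit 5) (nat_lit 53) (nat_lit 5) (nat_lit 347) (nat_lit 261) (nat_lit 172))))))))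
noncomputable def xc54 : XT := (XT.nd (nat_lit 34866) (nat_lit 0) (nat_lit 17708) (XT.nd (nat_lit 1014) (nat_lit 228) (nat_lit 0) (XT.nd (nat_lit 468) (nat_lit 684) (nat_lit 0) (XT.nd (nat_lit 234) (nat_lit 456) (nat_lit 0) (XT.nd (nat_lit 78) (nat_lit 304) (nat_lit 0) (XT.lf (nat_lit 0) (nat_lit 4391589935) (nat_lit 152) (nat_lit 11906595086) (nat_lit 228) (nat_lit 5758867045) (nat_lit 50) (nat_lit 5) (nat_lit 52) (nat_lit 5) (nat_lit 53) (nat_lit 5) (nat_lit 348) (nat_lit 261) (nat_lit 171)) (XT.nd (nat_lit 78) (nat_lit 228) (nat_lit 0) (XT.lf (nat_lit 0) (nat_lit 199649751) (nat_lit 228) (nat_lit 3999684211) (nat_lit 76) (nat_lit 18352100662) (nat_lit 49) (nat_lit 5) (nat_lit 52) (nat_lit 5) (nat_lit 50) (nat_lit 5) (nat_lit 349) (nat_lit 261) (nat_lit 170)) (XT.lf (nat_lit 0) (nat_lit 6320254085) (nat_lit 304) (nat_lit 12963440477) (nat_lit 76) (nat_lit 3774970289) (nat_lit 46) (nat_lit 5)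 (nat_lit 50) (nat_lit 5) (nat_lit 47) (nat_lit 5) (nat_lit 350) (nat_lit 261) (nat_lit 169)))) (XT.nd (nat_lit 78) (nat_lit 304) (nat_lit 0) (XT.lf (nat_lit 0) (nat_lit 1022931485) (nat_lit 152) (nat_lit 11634542848) (nat_lit 228) (nat_lit 10922986395) (nat_lit 44) (nat_lit 5) (nat_lit 46) (nat_lit 5) (nat_lit 47) (nat_lit 5) (nat_lit 351) (nat_lit 261) (nat_lit 168)) (XT.nd (nat_lit 78) (nat_lit 304) (nat_lit 0) (XT.lf (nat_lit 0) (nat_lit 15557760618) (nat_lit 152) (nat_lit 3686415266) (nat_lit 228) (nat_lit 4872555749) (nat_lit 44) (nat_lit 5) (nat_lit 46) (nat_lit 5) (nat_lit 47) (nat_lit 5) (nat_lit 352) (nat_lit 261) (nat_lit 167)) (XT.lf (nat_lit 0) (nat_lit 1381297985) (nat_lit 304) (nat_lit 18817820466) (nat_lit 76) (nat_lit 4469008960) (nat_lit 40) (nat_lit 5) (nat_lit 44) (nat_lit 5) (nat_lit 41) (nat_lit 5) (nat_lit 353) (nat_lit 261) (nat_lit 166))))) (XT.nd (nat_lit 234) (nat_lit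 532) (nat_lit 0) (XT.nd (nat_lit 78) (nat_lit 152) (nat_lit 0) (XT.lf (nat_lit 0) (nat_lit 7812520504) (nat_lit 304) (nat_lit 4530706700) (nat_lit 76) (nat_lit 12891082469) (nat_lit 40) (nat_lit 5) (nat_lit 44) (nat_lit 5) (nat_lit 41) (nat_lit 5) (nat_lit 354) (nat_lit 261) (nat_lit 165)) (XT.nd (nat_lit 78) (nat_lit 0) (nat_lit 0) (XT.lf (nat_lit 0) (nat_lit 10273940127) (nat_lit 152) (nat_lit 4202784291) (nat_lit 228) (nat_lit 11339959670) (nat_lit 38) (nat_lit 5) (nat_lit 40) (nat_lit 5) (nat_lit 41) (nat_lit 5) (nat_lit 355) (nat_lit 261) (nat_lit 164)) (XT.lf (nat_lit 0) (nat_lit 21372611322) (nat_lit 228) (nat_lit 904016741) (nat_lit 76) (nat_lit 4139273892) (nat_lit 38) (nat_lit 5) (nat_lit 41) (nat_lit 5) (nat_lit 39) (nat_lit 5) (nat_lit 356) (nat_lit 261) (nat_lit 163)))) (XT.nd (nat_lit 156) (nat_lit 152) (nat_lit 0) (XT.nd (nat_lit 78) (nat_lit 152) (nat_lit 0) (XT.lf (nat_lit 0) (nat_lit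 1519333258) (nat_lit 228) (nat_lit 12752187592) (nat_lit 76) (nat_lit 12759475817) (nat_lit 35) (nat_lit 5) (nat_lit 38) (nat_lit 5) (nat_lit 36) (nat_lit 5) (nat_lit 357) (nat_lit 261) (nat_lit 162)) (XT.lf (nat_lit 0) (nat_lit 2216585471) (nat_lit 152) (nat_lit 5989435721) (nat_lit 228) (nat_lit 19457949027) (nat_lit 33) (nat_lit 5) (nat_lit 35) (nat_lit 5) (nat_lit 36) (nat_lit 5) (nat_lit 358) (nat_lit 261) (nat_lit 161))) (XT.nd (nat_lit 78) (nat_lit 152) (nat_lit 0) (XT.lf (nat_lit 0) (nat_lit 15171885574) (nat_lit 228) (nat_lit 10565763518) (nat_lit 76) (nat_lit 2576718970) (nat_lit 33) (nat_lit 5) (nat_lit 36) (nat_lit 5) (nat_lit 34) (nat_lit 5) (nat_lit 359) (nat_lit 261) (nat_lit 160)) (XT.lf (nat_lit 0) (nat_lit 4742250104) (nat_lit 152) (nat_lit 17651137206) (nat_lit 228) (nat_lit 6589963712) (nat_lit 31) (nat_lit 5) (nat_lit 33) (nat_lit 5) (nat_lit 34) (nat_lit 5) (nat_lit 360) (nat_lit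 261) (nat_lit 159)))))) (XT.nd (nat_lit 33306) (nat_lit 0) (nat_lit 42636) (XT.nd (nat_lit 32994) (nat_lit 0) (nat_lit 45144) (XT.nd (nat_lit 78) (nat_lit 152) (nat_lit 0) (XT.lf (nat_lit 0) (nat_lit 205203682) (nat_lit 228) (nat_lit 9060185843) (nat_lit 76) (nat_lit 20406036180) (nat_lit 30) (nat_lit 5) (nat_lit 33) (nat_lit 5) (nat_lit 31) (nat_lit 5) (nat_lit 361) (nat_lit 261) (nat_lit 158)) (XT.nd (nat_lit 32838) (nat_lit 0) (nat_lit 46284) (XT.lf (nat_lit 0) (nat_lit 6577736471) (nat_lit 152) (nat_lit 556960658) (nat_lit 228) (nat_lit 23244180175) (nat_lit 28) (nat_lit 5) (nat_lit 30) (nat_lit 5) (nat_lit 31) (nat_lit 5) (nat_lit 362) (nat_lit 261) (nat_lit 157)) (XT.lf (nat_lit 0) (nat_lit 1059087085) (nat_lit 0) (nat_lit 1059087085) (nat_lit 228) (nat_lit 1111703036) (nat_lit 637) (nat_lit 5) (nat_lit 637) (nat_lit 3) (nat_lit 640) (nat_lit 3) (nat_lit 262) (nat_lit 262) (nat_lit 256))))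 (XT.nd (nat_lit 156) (nat_lit 760) (nat_lit 0) (XT.nd (nat_lit 78) (nat_lit 0) (nat_lit 0) (XT.lf (nat_lit 76) (nat_lit 165201359) (nat_lit 0) (nat_lit 1672193131) (nat_lit 380) (nat_lit 4632704599) (nat_lit 633) (nat_lit 5) (nat_lit 632) (nat_lit 3) (nat_lit 637) (nat_lit 5) (nat_lit 263) (nat_lit 262) (nat_lit 255)) (XT.lf (nat_lit 76) (nat_lit 4769484474) (nat_lit 0) (nat_lit 1090702390) (nat_lit 380) (nat_lit 623082550) (nat_lit 633) (nat_lit 5) (nat_lit 632) (nat_lit 3) (nat_lit 637) (nat_lit 5) (nat_lit 264) (nat_lit 262) (nat_lit 254))) (XT.nd (nat_lit 78) (nat_lit 380) (nat_lit 0) (XT.lf (nat_lit 76) (nat_lit 2949020369) (nat_lit 0) (nat_lit 375246773) (nat_lit 456) (nat_lit 3175050000) (nat_lit 628) (nat_lit 5) (nat_lit 627) (nat_lit 5) (nat_lit 633) (nat_lit 5) (nat_lit 265) (nat_lit 262) (nat_lit 253)) (XT.lf (nat_lit 0) (nat_lit 723930999) (nat_lit 456) (nat_lit 5339138667) (nat_lit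 532) (nat_lit 455388644) (nat_lit 622) (nat_lit 5) (nat_lit 628) (nat_lit 5) (nat_lit 629) (nat_lit 5) (nat_lit 266) (nat_lit 262) (nat_lit 252))))) (XT.nd (nat_lit 234) (nat_lit 1976) (nat_lit 0) (XT.nd (nat_lit 78) (nat_lit 532) (nat_lit 0) (XT.lf (nat_lit 0) (nat_lit 4575174334) (nat_lit 456) (nat_lit 547284998) (nat_lit 532) (nat_lit 1417916697) (nat_lit 622) (nat_lit 5) (nat_lit 628) (nat_lit 5) (nat_lit 629) (nat_lit 5) (nat_lit 267) (nat_lit 262) (nat_lit 251)) (XT.nd (nat_lit 78) (nat_lit 0) (nat_lit 0) (XT.lf (nat_lit 0) (nat_lit 1836208763) (nat_lit 532) (nat_lit 2214623136) (nat_lit 608) (nat_lit 2514380665) (nat_lit 615) (nat_lit 5) (nat_lit 622) (nat_lit 5) (nat_lit 623) (nat_lit 5) (nat_lit 268) (nat_lit 262) (nat_lit 250)) (XT.lf (nat_lit 76) (nat_lit 2751742930) (nat_lit 0) (nat_lit 2853318570) (nat_lit 608) (nat_lit 988047089) (nat_lit 616) (nat_lit 5) (nat_lit 615) (nat_lit 5)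 (nat_lit 623) (nat_lit 5) (nat_lit 269) (nat_lit 262) (nat_lit 249)))) (XT.nd (nat_lit 156) (nat_lit 1368) (nat_lit 0) (XT.nd (nat_lit 78) (nat_lit 0) (nat_lit 0) (XT.lf (nat_lit 76) (nat_lit 1188745721) (nat_lit 0) (nat_lit 1522498470) (nat_lit 684) (nat_lit 3912719296) (nat_lit 608) (nat_lit 5) (nat_lit 607) (nat_lit 5) (nat_lit 616) (nat_lit 5) (nat_lit 270) (nat_lit 262) (nat_lit 248)) (XT.lf (nat_lit 76) (nat_lit 6332993537) (nat_lit 0) (nat_lit 65534556) (nat_lit 684) (nat_lit 259439379) (nat_lit 608) (nat_lit 5) (nat_lit 607) (nat_lit 5) (nat_lit 616) (nat_lit 5) (nat_lit 271) (nat_lit 262) (nat_lit 247))) (XT.nd (nat_lit 78) (nat_lit 760) (nat_lit 0) (XT.lf (nat_lit 0) (nat_lit 3366594848) (nat_lit 684) (nat_lit 1806813447) (nat_lit 76) (nat_lit 1521101234) (nat_lit 599) (nat_lit 5) (nat_lit 608) (nat_lit 5) (nat_lit 600) (nat_lit 5) (nat_lit 272) (nat_lit 262) (nat_lit 246)) (XT.lf (nat_lit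 0) (nat_lit 256417655) (nat_lit 760) (nat_lit 3247250404) (nat_lit 76) (nat_lit 3230636637) (nat_lit 589) (nat_lit 5) (nat_lit 599) (nat_lit 5) (nat_lit 590) (nat_lit 5) (nat_lit 273) (nat_lit 262) (nat_lit 245))))))) (XT.nd (nat_lit 1014) (nat_lit 11932) (nat_lit 0) (XT.nd (nat_lit 468) (nat_lit 8208) (nat_lit 0) (XT.nd (nat_lit 234) (nat_lit 3116) (nat_lit 0) (XT.nd (nat_lit 78) (nat_lit 912) (nat_lit 0) (XT.lf (nat_lit 0) (nat_lit 2110412056) (nat_lit 760) (nat_lit 1692136497) (nat_lit 836) (nat_lit 2974458787) (nat_lit 579) (nat_lit 5) (nat_lit 589) (nat_lit 5) (nat_lit 590) (nat_lit 5) (nat_lit 274) (nat_lit 262) (nat_lit 244)) (XT.nd (nat_lit 78) (nat_lit 0) (nat_lit 0) (XT.lf (nat_lit 0) (nat_lit 529920223) (nat_lit 912) (nat_lit 6050774007) (nat_lit 76) (nat_lit 242267530) (nat_lit 567) (nat_lit 5) (nat_lit 579) (nat_lit 5) (nat_lit 568) (nat_lit 5) (nat_lit 275) (nat_lit 262) (nat_lit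 243)) (XT.lf (nat_lit 0) (nat_lit 4021128565) (nat_lit 912) (nat_lit 549277732) (nat_lit 76) (nat_lit 2301185450) (nat_lit 567) (nat_lit 5) (nat_lit 579) (nat_lit 5) (nat_lit 568) (nat_lit 5) (nat_lit 276) (nat_lit 262) (nat_lit 242)))) (XT.nd (nat_lit 78) (nat_lit 2128) (nat_lit 0) (XT.lf (nat_lit 0) (nat_lit 600963810) (nat_lit 988) (nat_lit 1826997169) (nat_lit 76) (nat_lit 4495461493) (nat_lit 554) (nat_lit 5) (nat_lit 567) (nat_lit 5) (nat_lit 555) (nat_lit 5) (nat_lit 277) (nat_lit 262) (nat_lit 241)) (XT.nd (nat_lit 78) (nat_lit 1140) (nat_lit 0) (XT.lf (nat_lit 0) (nat_lit 3890217201) (nat_lit 988) (nat_lit 140489244) (nat_lit 1064) (nat_lit 2947577151) (nat_lit 541) (nat_lit 5) (nat_lit 554) (nat_lit 5) (nat_lit 555) (nat_lit 5) (nat_lit 278) (nat_lit 262) (nat_lit 240)) (XT.lf (nat_lit 0) (nat_lit 452765549) (nat_lit 1140) (nat_lit 4334039484) (nat_lit 76) (nat_lit 2249410359) (nat_lit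 526) (nat_lit 5) (nat_lit 541) (nat_lit 5) (nat_lit 527) (nat_lit 5) (nat_lit 279) (nat_lit 262) (nat_lit 239))))) (XT.nd (nat_lit 234) (nat_lit 5776) (nat_lit 0) (XT.nd (nat_lit 78) (nat_lit 1292) (nat_lit 0) (XT.lf (nat_lit 0) (nat_lit 1526748222) (nat_lit 1140) (nat_lit 2309669832) (nat_lit 1216) (nat_lit 3260763525) (nat_lit 511) (nat_lit 5) (nat_lit 526) (nat_lit 5) (nat_lit 527) (nat_lit 5) (nat_lit 280) (nat_lit 262) (nat_lit 238)) (XT.nd (nat_lit 78) (nat_lit 0) (nat_lit 0) (XT.lf (nat_lit 0) (nat_lit 84522677) (nat_lit 1292) (nat_lit 6782071345) (nat_lit 76) (nat_lit 294968544) (nat_lit 494) (nat_lit 5) (nat_lit 511) (nat_lit 5) (nat_lit 495) (nat_lit 5) (nat_lit 281) (nat_lit 262) (nat_lit 237)) (XT.lf (nat_lit 0) (nat_lit 3433389908) (nat_lit 1292) (nat_lit 767029249) (nat_lit 76) (nat_lit 3028178727) (nat_lit 494) (nat_lit 5) (nat_lit 511) (nat_lit 5) (nat_lit 495) (nat_lit 5) (nat_lit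 282) (nat_lit 262) (nat_lit 236)))) (XT.nd (nat_lit 156) (nat_lit 3040) (nat_lit 0) (XT.nd (nat_lit 78) (nat_lit 1444) (nat_lit 0) (XT.lf (nat_lit 0) (nat_lit 5415440252) (nat_lit 1292) (nat_lit 1399364041) (nat_lit 1368) (nat_lit 484299742) (nat_lit 477) (nat_lit 5) (nat_lit 494) (nat_lit 5) (nat_lit 495) (nat_lit 5) (nat_lit 283) (nat_lit 262) (nat_lit 235)) (XT.lf (nat_lit 0) (nat_lit 2829938196) (nat_lit 1444) (nat_lit 3006403307) (nat_lit 76) (nat_lit 1536252909) (nat_lit 458) (nat_lit 5) (nat_lit 477) (nat_lit 5) (nat_lit 459) (nat_lit 5) (nat_lit 284) (nat_lit 262) (nat_lit 234))) (XT.nd (nat_lit 78) (nat_lit 1596) (nat_lit 0) (XT.lf (nat_lit 0) (nat_lit 3327306363) (nat_lit 1444) (nat_lit 2854707826) (nat_lit 1520) (nat_lit 1267405178) (nat_lit 439) (nat_lit 5) (nat_lit 458) (nat_lit 5) (nat_lit 459) (nat_lit 5) (nat_lit 285) (nat_lit 262) (nat_lit 233)) (XT.lf (nat_lit 0) (nat_lit 2018452553)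 (nat_lit 1596) (nat_lit 5236023490) (nat_lit 76) (nat_lit 275089312) (nat_lit 418) (nat_lit 5) (nat_lit 439) (nat_lit 5) (nat_lit 419) (nat_lit 5) (nat_lit 286) (nat_lit 262) (nat_lit 232)))))) (XT.nd (nat_lit 546) (nat_lit 4636) (nat_lit 0) (XT.nd (nat_lit 234) (nat_lit 3952) (nat_lit 0) (XT.nd (nat_lit 78) (nat_lit 1748) (nat_lit 0) (XT.lf (nat_lit 0) (nat_lit 1249543193) (nat_lit 1596) (nat_lit 4096657939) (nat_lit 1672) (nat_lit 2266622950) (nat_lit 397) (nat_lit 5) (nat_lit 418) (nat_lit 5) (nat_lit 419) (nat_lit 5) (nat_lit 287) (nat_lit 262) (nat_lit 231)) (XT.nd (nat_lit 78) (nat_lit 0) (nat_lit 0) (XT.lf (nat_lit 0) (nat_lit 213500787) (nat_lit 1672) (nat_lit 791336258) (nat_lit 1748) (nat_lit 6694811593) (nat_lit 374) (nat_lit 5) (nat_lit 396) (nat_lit 5) (nat_lit 397) (nat_lit 5) (nat_lit 288) (nat_lit 262) (nat_lit 230)) (XT.lf (nat_lit 0) (nat_lit 4313046536) (nat_lit 1748) (nat_lit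 832059953) (nat_lit 76) (nat_lit 2644363811) (nat_lit 374) (nat_lit 5) (nat_lit 397) (nat_lit 5) (nat_lit 375) (nat_lit 5) (nat_lit 289) (nat_lit 262) (nat_lit 229)))) (XT.nd (nat_lit 156) (nat_lit 1748) (nat_lit 0) (XT.nd (nat_lit 78) (nat_lit 912) (nat_lit 0) (XT.lf (nat_lit 0) (nat_lit 6011587854) (nat_lit 1292) (nat_lit 1664745695) (nat_lit 1368) (nat_lit 206614129) (nat_lit 357) (nat_lit 5) (nat_lit 374) (nat_lit 5) (nat_lit 375) (nat_lit 5) (nat_lit 290) (nat_lit 262) (nat_lit 228)) (XT.lf (nat_lit 0) (nat_lit 3084110183) (nat_lit 912) (nat_lit 2937680410) (nat_lit 76) (nat_lit 1957816605) (nat_lit 345) (nat_lit 5) (nat_lit 357) (nat_lit 5) (nat_lit 346) (nat_lit 5) (nat_lit 291) (nat_lit 262) (nat_lit 227))) (XT.nd (nat_lit 78) (nat_lit 912) (nat_lit 0) (XT.lf (nat_lit 0) (nat_lit 4066116869) (nat_lit 836) (nat_lit 2369873132) (nat_lit 912) (nat_lit 1643916166) (nat_lit 334) (nat_lit 5)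 (nat_lit 345) (nat_lit 5) (nat_lit 346) (nat_lit 5) (nat_lit 292) (nat_lit 262) (nat_lit 226)) (XT.lf (nat_lit 0) (nat_lit 1648526091) (nat_lit 912) (nat_lit 5110402237) (nat_lit 76) (nat_lit 1424819126) (nat_lit 322) (nat_lit 5) (nat_lit 334) (nat_lit 5) (nat_lit 323) (nat_lit 5) (nat_lit 293) (nat_lit 262) (nat_lit 225))))) (XT.nd (nat_lit 234) (nat_lit 2964) (nat_lit 0) (XT.nd (nat_lit 78) (nat_lit 836) (nat_lit 0) (XT.lf (nat_lit 0) (nat_lit 2053699923) (nat_lit 836) (nat_lit 2938546308) (nat_lit 912) (nat_lit 3298809989) (nat_lit 311) (nat_lit 5) (nat_lit 322) (nat_lit 5) (nat_lit 323) (nat_lit 5) (nat_lit 294) (nat_lit 262) (nat_lit 224)) (XT.nd (nat_lit 78) (nat_lit 0) (nat_lit 0) (XT.lf (nat_lit 0) (nat_lit 1920702) (nat_lit 836) (nat_lit 7378154039) (nat_lit 76) (nat_lit 1022214515) (nat_lit 300) (nat_lit 5) (nat_lit 311) (nat_lit 5) (nat_lit 301) (nat_lit 5) (nat_lit 295) (nat_lit 262)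 (nat_lit 223)) (XT.lf (nat_lit 0) (nat_lit 3340500142) (nat_lit 836) (nat_lit 53266593) (nat_lit 76) (nat_lit 5123044863) (nat_lit 300) (nat_lit 5) (nat_lit 311) (nat_lit 5) (nat_lit 301) (nat_lit 5) (nat_lit 296) (nat_lit 262) (nat_lit 222)))) (XT.nd (nat_lit 156) (nat_lit 1444) (nat_lit 0) (XT.nd (nat_lit 78) (nat_lit 760) (nat_lit 0) (XT.lf (nat_lit 0) (nat_lit 6756385146) (nat_lit 836) (nat_lit 1132119240) (nat_lit 76) (nat_lit 746781789) (nat_lit 290) (nat_lit 5) (nat_lit 301) (nat_lit 5) (nat_lit 291) (nat_lit 5) (nat_lit 297) (nat_lit 262) (nat_lit 221)) (XT.lf (nat_lit 0) (nat_lit 1487898175) (nat_lit 760) (nat_lit 2256801496) (nat_lit 76) (nat_lit 5012667577) (nat_lit 280) (nat_lit 5) (nat_lit 290) (nat_lit 5) (nat_lit 281) (nat_lit 5) (nat_lit 298) (nat_lit 262) (nat_lit 220))) (XT.nd (nat_lit 78) (nat_lit 684) (nat_lit 0) (XT.lf (nat_lit 0) (nat_lit 4903564866) (nat_lit 836) (nat_lit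 3414875578) (nat_lit 76) (nat_lit 565009119) (nat_lit 270) (nat_lit 5) (nat_lit 281) (nat_lit 5) (nat_lit 271) (nat_lit 5) (nat_lit 299) (nat_lit 262) (nat_lit 219)) (XT.lf (nat_lit 0) (nat_lit 4394403713) (nat_lit 684) (nat_lit 4024114406) (nat_lit 760) (nat_lit 594913305) (nat_lit 261) (nat_lit 5) (nat_lit 270) (nat_lit 5) (nat_lit 271) (nat_lit 5) (nat_lit 300) (nat_lit 262) (nat_lit 218))))))))
noncomputable def xc55 : XT := (XT.nd (nat_lit 2106) (nat_lit 5396) (nat_lit 0) (XT.nd (nat_lit 1014) (nat_lit 4788) (nat_lit 0) (XT.nd (nat_lit 468) (nat_lit 3268) (nat_lit 0) (XT.nd (nat_lit 234) (nat_lit 1292) (nat_lit 0) (XT.nd (nat_lit 78) (nat_lit 1292) (nat_lit 0) (XT.lf (nat_lit 0) (nat_lit 2830130418) (nat_lit 760) (nat_lit 5869858945) (nat_lit 76) (nat_lit 447469785) (nat_lit 251) (nat_lit 5) (nat_lit 261) (nat_lit 5) (nat_lit 252) (nat_lit 5) (nat_lit 301) (nat_lit 262) (nat_lit 217)) (XT.nd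 (nat_lit 78) (nat_lit 684) (nat_lit 0) (XT.lf (nat_lit 0) (nat_lit 2104574052) (nat_lit 608) (nat_lit 4247790282) (nat_lit 684) (nat_lit 2933063647) (nat_lit 243) (nat_lit 5) (nat_lit 251) (nat_lit 5) (nat_lit 252) (nat_lit 5) (nat_lit 302) (nat_lit 262) (nat_lit 216)) (XT.lf (nat_lit 0) (nat_lit 525197970) (nat_lit 684) (nat_lit 8531664634) (nat_lit 76) (nat_lit 371054125) (nat_lit 234) (nat_lit 5) (nat_lit 243) (nat_lit 5) (nat_lit 235) (nat_lit 5) (nat_lit 303) (nat_lit 262) (nat_lit 215)))) (XT.nd (nat_lit 78) (nat_lit 1292) (nat_lit 0) (XT.lf (nat_lit 0) (nat_lit 4057775022) (nat_lit 684) (nat_lit 389118337) (nat_lit 76) (nat_lit 5127236310) (nat_lit 234) (nat_lit 5) (nat_lit 243) (nat_lit 5) (nat_lit 235) (nat_lit 5) (nat_lit 304) (nat_lit 262) (nat_lit 214)) (XT.nd (nat_lit 78) (nat_lit 684) (nat_lit 0) (XT.lf (nat_lit 0) (nat_lit 7685400549) (nat_lit 684) (nat_lit 1702977993) (nat_lit 76)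 (nat_lit 336613313) (nat_lit 226) (nat_lit 5) (nat_lit 235) (nat_lit 5) (nat_lit 227) (nat_lit 5) (nat_lit 305) (nat_lit 262) (nat_lit 213)) (XT.lf (nat_lit 0) (nat_lit 1533851738) (nat_lit 684) (nat_lit 3099099240) (nat_lit 76) (nat_lit 5247019041) (nat_lit 217) (nat_lit 5) (nat_lit 226) (nat_lit 5) (nat_lit 218) (nat_lit 5) (nat_lit 306) (nat_lit 262) (nat_lit 212))))) (XT.nd (nat_lit 234) (nat_lit 1596) (nat_lit 0) (XT.nd (nat_lit 78) (nat_lit 1140) (nat_lit 0) (XT.lf (nat_lit 0) (nat_lit 5173160119) (nat_lit 608) (nat_lit 4558562255) (nat_lit 76) (nat_lit 307918996) (nat_lit 210) (nat_lit 5) (nat_lit 218) (nat_lit 5) (nat_lit 211) (nat_lit 5) (nat_lit 307) (nat_lit 262) (nat_lit 211)) (XT.nd (nat_lit 78) (nat_lit 608) (nat_lit 0) (XT.lf (nat_lit 0) (nat_lit 4101941842) (nat_lit 532) (nat_lit 4836669344) (nat_lit 608) (nat_lit 1265192138) (nat_lit 203) (nat_lit 5) (nat_lit 210) (nat_lit 5) (nat_lit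 211) (nat_lit 5) (nat_lit 308) (nat_lit 262) (nat_lit 210)) (XT.lf (nat_lit 0) (nat_lit 2401122233) (nat_lit 608) (nat_lit 7721113028) (nat_lit 76) (nat_lit 250594473) (nat_lit 195) (nat_lit 5) (nat_lit 203) (nat_lit 5) (nat_lit 196) (nat_lit 5) (nat_lit 309) (nat_lit 262) (nat_lit 209)))) (XT.nd (nat_lit 156) (nat_lit 1064) (nat_lit 0) (XT.nd (nat_lit 78) (nat_lit 0) (nat_lit 0) (XT.lf (nat_lit 0) (nat_lit 1101112312) (nat_lit 532) (nat_lit 5080578689) (nat_lit 608) (nat_lit 4364676310) (nat_lit 188) (nat_lit 5) (nat_lit 195) (nat_lit 5) (nat_lit 196) (nat_lit 5) (nat_lit 310) (nat_lit 262) (nat_lit 208)) (XT.lf (nat_lit 0) (nat_lit 10070442760) (nat_lit 608) (nat_lit 508854786) (nat_lit 76) (nat_lit 145953797) (nat_lit 188) (nat_lit 5) (nat_lit 196) (nat_lit 5) (nat_lit 189) (nat_lit 5) (nat_lit 311) (nat_lit 262) (nat_lit 207))) (XT.nd (nat_lit 78) (nat_lit 532) (nat_lit 0) (XT.lf (nat_lit 0)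 (nat_lit 3158559232) (nat_lit 532) (nat_lit 2229026136) (nat_lit 76) (nat_lit 5520864664) (nat_lit 181) (nat_lit 5) (nat_lit 188) (nat_lit 5) (nat_lit 182) (nat_lit 5) (nat_lit 312) (nat_lit 262) (nat_lit 206)) (XT.lf (nat_lit 0) (nat_lit 7066809244) (nat_lit 532) (nat_lit 3879388) (nat_lit 608) (nat_lit 4026537290) (nat_lit 174) (nat_lit 5) (nat_lit 181) (nat_lit 5) (nat_lit 182) (nat_lit 5) (nat_lit 313) (nat_lit 262) (nat_lit 205)))))) (XT.nd (nat_lit 546) (nat_lit 1900) (nat_lit 0) (XT.nd (nat_lit 234) (nat_lit 1444) (nat_lit 0) (XT.nd (nat_lit 78) (nat_lit 988) (nat_lit 0) (XT.lf (nat_lit 0) (nat_lit 5340115079) (nat_lit 456) (nat_lit 5790811735) (nat_lit 532) (nat_lit 160155355) (nat_lit 168) (nat_lit 5) (nat_lit 174) (nat_lit 5) (nat_lit 175) (nat_lit 5) (nat_lit 314) (nat_lit 262) (nat_lit 204)) (XT.nd (nat_lit 78) (nat_lit 456) (nat_lit 0) (XT.lf (nat_lit 0) (nat_lit 3503595513) (nat_lit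 456) (nat_lit 264391049) (nat_lit 532) (nat_lit 7722383700) (nat_lit 161) (nat_lit 5) (nat_lit 167) (nat_lit 5) (nat_lit 168) (nat_lit 5) (nat_lit 315) (nat_lit 262) (nat_lit 203)) (XT.lf (nat_lit 0) (nat_lit 1538195392) (nat_lit 456) (nat_lit 6306049603) (nat_lit 532) (nat_lit 3850751423) (nat_lit 155) (nat_lit 5) (nat_lit 161) (nat_lit 5) (nat_lit 162) (nat_lit 5) (nat_lit 316) (nat_lit 262) (nat_lit 202)))) (XT.nd (nat_lit 156) (nat_lit 912) (nat_lit 0) (XT.nd (nat_lit 78) (nat_lit 456) (nat_lit 0) (XT.lf (nat_lit 0) (nat_lit 138803811) (nat_lit 532) (nat_lit 522808266) (nat_lit 76) (nat_lit 11244088193) (nat_lit 154) (nat_lit 5) (nat_lit 161) (nat_lit 5) (nat_lit 155) (nat_lit 5) (nat_lit 317) (nat_lit 262) (nat_lit 201)) (XT.lf (nat_lit 0) (nat_lit 4239987585) (nat_lit 532) (nat_lit 2729060832) (nat_lit 76) (nat_lit 5152309893) (nat_lit 148) (nat_lit 5) (nat_lit 155) (nat_lit 5) (nat_lit 149)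 (nat_lit 5) (nat_lit 318) (nat_lit 262) (nat_lit 200))) (XT.nd (nat_lit 78) (nat_lit 532) (nat_lit 0) (XT.lf (nat_lit 0) (nat_lit 7288783942) (nat_lit 380) (nat_lit 1180500362) (nat_lit 456) (nat_lit 3874126752) (nat_lit 143) (nat_lit 5) (nat_lit 148) (nat_lit 5) (nat_lit 149) (nat_lit 5) (nat_lit 319) (nat_lit 262) (nat_lit 199)) (XT.lf (nat_lit 0) (nat_lit 283209471) (nat_lit 532) (nat_lit 7536382266) (nat_lit 76) (nat_lit 4751862041) (nat_lit 136) (nat_lit 5) (nat_lit 143) (nat_lit 5) (nat_lit 137) (nat_lit 5) (nat_lit 320) (nat_lit 262) (nat_lit 198))))) (XT.nd (nat_lit 234) (nat_lit 1064) (nat_lit 0) (XT.nd (nat_lit 78) (nat_lit 456) (nat_lit 0) (XT.lf (nat_lit 0) (nat_lit 2621134308) (nat_lit 380) (nat_lit 1902469224) (nat_lit 456) (nat_lit 8282027154) (nat_lit 131) (nat_lit 5) (nat_lit 136) (nat_lit 5) (nat_lit 137) (nat_lit 5) (nat_lit 321) (nat_lit 262) (nat_lit 197)) (XT.nd (nat_lit 78)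 (nat_lit 76) (nat_lit 0) (XT.lf (nat_lit 0) (nat_lit 43831248) (nat_lit 380) (nat_lit 8878400969) (nat_lit 456) (nat_lit 4124004016) (nat_lit 126) (nat_lit 5) (nat_lit 131) (nat_lit 5) (nat_lit 132) (nat_lit 5) (nat_lit 322) (nat_lit 262) (nat_lit 196)) (XT.lf (nat_lit 0) (nat_lit 191598073) (nat_lit 456) (nat_lit 2657902219) (nat_lit 76) (nat_lit 10443863276) (nat_lit 125) (nat_lit 5) (nat_lit 131) (nat_lit 5) (nat_lit 126) (nat_lit 5) (nat_lit 323) (nat_lit 262) (nat_lit 195)))) (XT.nd (nat_lit 156) (nat_lit 380) (nat_lit 0) (XT.nd (nat_lit 78) (nat_lit 380) (nat_lit 0) (XT.lf (nat_lit 0) (nat_lit 4609253667) (nat_lit 380) (nat_lit 5562493904) (nat_lit 76) (nat_lit 3375061651) (nat_lit 121) (nat_lit 5) (nat_lit 126) (nat_lit 5) (nat_lit 122) (nat_lit 5) (nat_lit 324) (nat_lit 262) (nat_lit 194)) (XT.lf (nat_lit 0) (nat_lit 5156035606) (nat_lit 380) (nat_lit 4028937682) (nat_lit 456) (nat_lit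 4622395616) (nat_lit 116) (nat_lit 5) (nat_lit 121) (nat_lit 5) (nat_lit 122) (nat_lit 5) (nat_lit 325) (nat_lit 262) (nat_lit 193))) (XT.nd (nat_lit 78) (nat_lit 76) (nat_lit 0) (XT.lf (nat_lit 0) (nat_lit 2143440165) (nat_lit 304) (nat_lit 11776921532) (nat_lit 380) (nat_lit 154956457) (nat_lit 112) (nat_lit 5) (nat_lit 116) (nat_lit 5) (nat_lit 117) (nat_lit 5) (nat_lit 326) (nat_lit 262) (nat_lit 192)) (XT.lf (nat_lit 0) (nat_lit 4430319606) (nat_lit 380) (nat_lit 1092146254) (nat_lit 76) (nat_lit 8827439741) (nat_lit 111) (nat_lit 5) (nat_lit 116) (nat_lit 5) (nat_lit 112) (nat_lit 5) (nat_lit 327) (nat_lit 262) (nat_lit 191))))))) (XT.nd (nat_lit 1014) (nat_lit 2204) (nat_lit 0) (XT.nd (nat_lit 468) (nat_lit 1444) (nat_lit 0) (XT.nd (nat_lit 234) (nat_lit 684) (nat_lit 0) (XT.nd (nat_lit 78) (nat_lit 684) (nat_lit 0) (XT.lf (nat_lit 0) (nat_lit 9180622043) (nat_lit 456) (nat_lit 4498159927)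 (nat_lit 76) (nat_lit 953355900) (nat_lit 106) (nat_lit 5) (nat_lit 112) (nat_lit 5) (nat_lit 107) (nat_lit 5) (nat_lit 328) (nat_lit 262) (nat_lit 190)) (XT.nd (nat_lit 78) (nat_lit 380) (nat_lit 0) (XT.lf (nat_lit 0) (nat_lit 6777020688) (nat_lit 304) (nat_lit 7342933919) (nat_lit 380) (nat_lit 801970672) (nat_lit 102) (nat_lit 5) (nat_lit 106) (nat_lit 5) (nat_lit 107) (nat_lit 5) (nat_lit 329) (nat_lit 262) (nat_lit 189)) (XT.lf (nat_lit 0) (nat_lit 3184350851) (nat_lit 304) (nat_lit 760436533) (nat_lit 380) (nat_lit 11274918537) (nat_lit 97) (nat_lit 5) (nat_lit 101) (nat_lit 5) (nat_lit 102) (nat_lit 5) (nat_lit 330) (nat_lit 262) (nat_lit 188)))) (XT.nd (nat_lit 78) (nat_lit 684) (nat_lit 0) (XT.lf (nat_lit 0) (nat_lit 8877070676) (nat_lit 380) (nat_lit 668364619) (nat_lit 76) (nat_lit 5979815485) (nat_lit 97) (nat_lit 5) (nat_lit 102) (nat_lit 5) (nat_lit 98) (nat_lit 5) (nat_lit 331) (nat_lit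 262) (nat_lit 187)) (XT.nd (nat_lit 78) (nat_lit 380) (nat_lit 0) (XT.lf (nat_lit 0) (nat_lit 11119009318) (nat_lit 304) (nat_lit 2876090745) (nat_lit 380) (nat_lit 1844123050) (nat_lit 93) (nat_lit 5) (nat_lit 97) (nat_lit 5) (nat_lit 98) (nat_lit 5) (nat_lit 332) (nat_lit 262) (nat_lit 186)) (XT.lf (nat_lit 0) (nat_lit 3101366325) (nat_lit 380) (nat_lit 9069343222) (nat_lit 76) (nat_lit 3990757456) (nat_lit 88) (nat_lit 5) (nat_lit 93) (nat_lit 5) (nat_lit 89) (nat_lit 5) (nat_lit 333) (nat_lit 262) (nat_lit 185))))) (XT.nd (nat_lit 234) (nat_lit 836) (nat_lit 0) (XT.nd (nat_lit 78) (nat_lit 380) (nat_lit 0) (XT.lf (nat_lit 0) (nat_lit 2774758098) (nat_lit 228) (nat_lit 5426590340) (nat_lit 304) (nat_lit 8291177747) (nat_lit 85) (nat_lit 5) (nat_lit 88) (nat_lit 5) (nat_lit 89) (nat_lit 5) (nat_lit 334) (nat_lit 262) (nat_lit 184)) (XT.nd (nat_lit 78) (nat_lit 380) (nat_lit 0) (XT.lf (nat_lit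 0) (nat_lit 13488244171) (nat_lit 304) (nat_lit 1804440987) (nat_lit 76) (nat_lit 1540168665) (nat_lit 85) (nat_lit 5) (nat_lit 89) (nat_lit 5) (nat_lit 86) (nat_lit 5) (nat_lit 335) (nat_lit 262) (nat_lit 183)) (XT.lf (nat_lit 0) (nat_lit 1795641861) (nat_lit 380) (nat_lit 6684484458) (nat_lit 76) (nat_lit 8701687075) (nat_lit 80) (nat_lit 5) (nat_lit 85) (nat_lit 5) (nat_lit 81) (nat_lit 5) (nat_lit 336) (nat_lit 262) (nat_lit 182)))) (XT.nd (nat_lit 156) (nat_lit 304) (nat_lit 0) (XT.nd (nat_lit 78) (nat_lit 304) (nat_lit 0) (XT.lf (nat_lit 0) (nat_lit 5645450201) (nat_lit 228) (nat_lit 1412159663) (nat_lit 304) (nat_lit 10482944579) (nat_lit 77) (nat_lit 5) (nat_lit 80) (nat_lit 5) (nat_lit 81) (nat_lit 5) (nat_lit 337) (nat_lit 262) (nat_lit 181)) (XT.lf (nat_lit 0) (nat_lit 437324973) (nat_lit 304) (nat_lit 12090919683) (nat_lit 380) (nat_lit 5380810340) (nat_lit 73) (nat_lit 5) (nat_lit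 77) (nat_lit 5) (nat_lit 78) (nat_lit 5) (nat_lit 338) (nat_lit 262) (nat_lit 180))) (XT.nd (nat_lit 78) (nat_lit 304) (nat_lit 0) (XT.lf (nat_lit 0) (nat_lit 13236272987) (nat_lit 304) (nat_lit 4981658714) (nat_lit 380) (nat_lit 69593236) (nat_lit 73) (nat_lit 5) (nat_lit 77) (nat_lit 5) (nat_lit 78) (nat_lit 5) (nat_lit 339) (nat_lit 262) (nat_lit 179)) (XT.lf (nat_lit 0) (nat_lit 5361818857) (nat_lit 304) (nat_lit 10939033009) (nat_lit 76) (nat_lit 2375174325) (nat_lit 69) (nat_lit 5) (nat_lit 73) (nat_lit 5) (nat_lit 70) (nat_lit 5) (nat_lit 340) (nat_lit 262) (nat_lit 178)))))) (XT.nd (nat_lit 546) (nat_lit 912) (nat_lit 0) (XT.nd (nat_lit 234) (nat_lit 760) (nat_lit 0) (XT.nd (nat_lit 78) (nat_lit 304) (nat_lit 0) (XT.lf (nat_lit 0) (nat_lit 1837451405) (nat_lit 228) (nat_lit 9163718796) (nat_lit 304) (nat_lit 8074096281) (nat_lit 66) (nat_lit 5) (nat_lit 69) (nat_lit 5) (nat_lit 70) (nat_lit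 5) (nat_lit 341) (nat_lit 262) (nat_lit 177)) (XT.nd (nat_lit 78) (nat_lit 304) (nat_lit 0) (XT.lf (nat_lit 0) (nat_lit 15092690083) (nat_lit 228) (nat_lit 1758006267) (nat_lit 304) (nat_lit 2634979442) (nat_lit 66) (nat_lit 5) (nat_lit 69) (nat_lit 5) (nat_lit 70) (nat_lit 5) (nat_lit 342) (nat_lit 262) (nat_lit 176)) (XT.lf (nat_lit 0) (nat_lit 2992151766) (nat_lit 304) (nat_lit 11064737727) (nat_lit 76) (nat_lit 5849858553) (nat_lit 62) (nat_lit 5) (nat_lit 66) (nat_lit 5) (nat_lit 63) (nat_lit 5) (nat_lit 343) (nat_lit 262) (nat_lit 175)))) (XT.nd (nat_lit 156) (nat_lit 532) (nat_lit 0) (XT.nd (nat_lit 78) (nat_lit 0) (nat_lit 0) (XT.lf (nat_lit 0) (nat_lit 2140035270) (nat_lit 228) (nat_lit 6636162883) (nat_lit 304) (nat_lit 11563438772) (nat_lit 59) (nat_lit 5) (nat_lit 62) (nat_lit 5) (nat_lit 63) (nat_lit 5) (nat_lit 344) (nat_lit 262) (nat_lit 174)) (XT.lf (nat_lit 0) (nat_lit 14784318447)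 (nat_lit 304) (nat_lit 4951075997) (nat_lit 76) (nat_lit 1049117471) (nat_lit 59) (nat_lit 5) (nat_lit 63) (nat_lit 5) (nat_lit 60) (nat_lit 5) (nat_lit 345) (nat_lit 262) (nat_lit 173))) (XT.nd (nat_lit 78) (nat_lit 304) (nat_lit 0) (XT.lf (nat_lit 0) (nat_lit 8713903539) (nat_lit 228) (nat_lit 12329189064) (nat_lit 304) (nat_lit 198242533) (nat_lit 56) (nat_lit 5) (nat_lit 59) (nat_lit 5) (nat_lit 60) (nat_lit 5) (nat_lit 346) (nat_lit 262) (nat_lit 172)) (XT.lf (nat_lit 0) (nat_lit 1071233329) (nat_lit 228) (nat_lit 4641295588) (nat_lit 304) (nat_lit 15998382803) (nat_lit 52) (nat_lit 5) (nat_lit 55) (nat_lit 5) (nat_lit 56) (nat_lit 5) (nat_lit 347) (nat_lit 262) (nat_lit 171))))) (XT.nd (nat_lit 234) (nat_lit 684) (nat_lit 0) (XT.nd (nat_lit 78) (nat_lit 228) (nat_lit 0) (XT.lf (nat_lit 0) (nat_lit 11874913230) (nat_lit 304) (nat_lit 7016853126) (nat_lit 76) (nat_lit 3301252793) (nat_lit 52)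 (nat_lit 5) (nat_lit 56) (nat_lit 5) (nat_lit 53) (nat_lit 5) (nat_lit 348) (nat_lit 262) (nat_lit 170)) (XT.nd (nat_lit 78) (nat_lit 76) (nat_lit 0) (XT.lf (nat_lit 0) (nat_lit 7027095570) (nat_lit 152) (nat_lit 11242841035) (nat_lit 228) (nat_lit 4418706986) (nat_lit 50) (nat_lit 5) (nat_lit 52) (nat_lit 5) (nat_lit 53) (nat_lit 5) (nat_lit 349) (nat_lit 262) (nat_lit 169)) (XT.lf (nat_lit 0) (nat_lit 1655235140) (nat_lit 228) (nat_lit 1669135850) (nat_lit 76) (nat_lit 19874173183) (nat_lit 49) (nat_lit 5) (nat_lit 52) (nat_lit 5) (nat_lit 50) (nat_lit 5) (nat_lit 350) (nat_lit 262) (nat_lit 168)))) (XT.nd (nat_lit 156) (nat_lit 304) (nat_lit 0) (XT.nd (nat_lit 78) (nat_lit 152) (nat_lit 0) (XT.lf (nat_lit 0) (nat_lit 7939301917) (nat_lit 304) (nat_lit 10919085791) (nat_lit 76) (nat_lit 4863019571) (nat_lit 46) (nat_lit 5) (nat_lit 50) (nat_lit 5) (nat_lit 47) (nat_lit 5) (nat_lit 351) (nat_lit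 262) (nat_lit 167)) (XT.lf (nat_lit 0) (nat_lit 3447400611) (nat_lit 152) (nat_lit 10993145996) (nat_lit 228) (nat_lit 9818844756) (nat_lit 44) (nat_lit 5) (nat_lit 46) (nat_lit 5) (nat_lit 47) (nat_lit 5) (nat_lit 352) (nat_lit 262) (nat_lit 166))) (XT.nd (nat_lit 78) (nat_lit 304) (nat_lit 0) (XT.lf (nat_lit 0) (nat_lit 18348552836) (nat_lit 152) (nat_lit 2835422154) (nat_lit 228) (nat_lit 3628605014) (nat_lit 44) (nat_lit 5) (nat_lit 46) (nat_lit 5) (nat_lit 47) (nat_lit 5) (nat_lit 353) (nat_lit 262) (nat_lit 165)) (XT.lf (nat_lit 0) (nat_lit 2775856485) (nat_lit 304) (nat_lit 17056570926) (nat_lit 76) (nat_lit 5548296791) (nat_lit 40) (nat_lit 5) (nat_lit 44) (nat_lit 5) (nat_lit 41) (nat_lit 5) (nat_lit 354) (nat_lit 262) (nat_lit 164))))))))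
noncomputable def xc56 : XT := (XT.nd (nat_lit 34866) (nat_lit 0) (nat_lit 13680) (XT.nd (nat_lit 33852) (nat_lit 0) (nat_lit 37696) (XT.nd (nat_lit 468) (nat_lit 228) (nat_lit 0) (XT.nd (nat_lit 234) (nat_lit 228) (nat_lit 0) (XT.nd (nat_lit 78) (nat_lit 304) (nat_lit 0) (XT.lf (nat_lit 0) (nat_lit 9360604430) (nat_lit 304) (nat_lit 2408585033) (nat_lit 76) (nat_lit 14195501898) (nat_lit 40) (nat_lit 5) (nat_lit 44) (nat_lit 5) (nat_lit 41) (nat_lit 5) (nat_lit 355) (nat_lit 262) (nat_lit 163)) (XT.nd (nat_lit 78) (nat_lit 152) (nat_lit 0) (XT.lf (nat_lit 0) (nat_lit 12803567136) (nat_lit 152) (nat_lit 3397326836) (nat_lit 228) (nat_lit 10364130723) (nat_lit 38) (nat_lit 5) (nat_lit 40) (nat_lit 5) (nat_lit 41) (nat_lit 5) (nat_lit 356) (nat_lit 262) (nat_lit 162)) (XT.lf (nat_lit 0) (nat_lit 1261642963) (nat_lit 152) (nat_lit 22018508998) (nat_lit 228) (nat_lit 3902547807) (nat_lit 36) (nat_lit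 5) (nat_lit 38) (nat_lit 5) (nat_lit 39) (nat_lit 5) (nat_lit 357) (nat_lit 262) (nat_lit 161)))) (XT.nd (nat_lit 78) (nat_lit 152) (nat_lit 0) (XT.lf (nat_lit 0) (nat_lit 2808857586) (nat_lit 228) (nat_lit 10976960078) (nat_lit 76) (nat_lit 14030894969) (nat_lit 35) (nat_lit 5) (nat_lit 38) (nat_lit 5) (nat_lit 36) (nat_lit 5) (nat_lit 358) (nat_lit 262) (nat_lit 160)) (XT.nd (nat_lit 78) (nat_lit 0) (nat_lit 0) (XT.lf (nat_lit 0) (nat_lit 4405868546) (nat_lit 152) (nat_lit 5267828755) (nat_lit 228) (nat_lit 18795436827) (nat_lit 33) (nat_lit 5) (nat_lit 35) (nat_lit 5) (nat_lit 36) (nat_lit 5) (nat_lit 359) (nat_lit 262) (nat_lit 159)) (XT.lf (nat_lit 0) (nat_lit 16818641409) (nat_lit 228) (nat_lit 8803426778) (nat_lit 76) (nat_lit 3517583118) (nat_lit 33) (nat_lit 5) (nat_lit 36) (nat_lit 5) (nat_lit 34) (nat_lit 5) (nat_lit 360) (nat_lit 262) (nat_lit 158))))) (XT.nd (nat_lit 33072) (nat_lit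 0) (nat_lit 44384) (XT.nd (nat_lit 78) (nat_lit 76) (nat_lit 0) (XT.lf (nat_lit 0) (nat_lit 6930092925) (nat_lit 152) (nat_lit 17305269730) (nat_lit 228) (nat_lit 5593778809) (nat_lit 31) (nat_lit 5) (nat_lit 33) (nat_lit 5) (nat_lit 34) (nat_lit 5) (nat_lit 361) (nat_lit 262) (nat_lit 157)) (XT.nd (nat_lit 32916) (nat_lit 0) (nat_lit 45752) (XT.lf (nat_lit 0) (nat_lit 1355268350) (nat_lit 228) (nat_lit 7330502175) (nat_lit 76) (nat_lit 21852627934) (nat_lit 30) (nat_lit 5) (nat_lit 33) (nat_lit 5) (nat_lit 31) (nat_lit 5) (nat_lit 362) (nat_lit 262) (nat_lit 156)) (XT.lf (nat_lit 0) (nat_lit 2894384077) (nat_lit 380) (nat_lit 173274749) (nat_lit 380) (nat_lit 173274749) (nat_lit 632) (nat_lit 3) (nat_lit 637) (nat_lit 3) (nat_lit 637) (nat_lit 5) (nat_lit 263) (nat_lit 263) (nat_lit 254)))) (XT.nd (nat_lit 156) (nat_lit 532) (nat_lit 0) (XT.nd (nat_lit 78) (nat_lit 456) (nat_lit 0) (XT.lf (nat_lit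 0) (nat_lit 3194024165) (nat_lit 380) (nat_lit 2303841924) (nat_lit 456) (nat_lit 998422393) (nat_lit 627) (nat_lit 5) (nat_lit 632) (nat_lit 3) (nat_lit 633) (nat_lit 5) (nat_lit 264) (nat_lit 263) (nat_lit 253)) (XT.lf (nat_lit 0) (nat_lit 533545431) (nat_lit 456) (nat_lit 4210128410) (nat_lit 532) (nat_lit 1770182712) (nat_lit 621) (nat_lit 5) (nat_lit 627) (nat_lit 5) (nat_lit 628) (nat_lit 5) (nat_lit 265) (nat_lit 263) (nat_lit 252))) (XT.nd (nat_lit 78) (nat_lit 532) (nat_lit 0) (XT.lf (nat_lit 76) (nat_lit 452736895) (nat_lit 0) (nat_lit 3857285779) (nat_lit 532) (nat_lit 2224273918) (nat_lit 622) (nat_lit 5) (nat_lit 621) (nat_lit 5) (nat_lit 628) (nat_lit 5) (nat_lit 266) (nat_lit 263) (nat_lit 251)) (XT.lf (nat_lit 0) (nat_lit 1505812704) (nat_lit 532) (nat_lit 1333776793) (nat_lit 608) (nat_lit 3718069553) (nat_lit 614) (nat_lit 5) (nat_lit 621) (nat_lit 5) (nat_lit 622) (nat_lit 5)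 (nat_lit 267) (nat_lit 263) (nat_lit 250)))))) (XT.nd (nat_lit 468) (nat_lit 4712) (nat_lit 0) (XT.nd (nat_lit 234) (nat_lit 1368) (nat_lit 0) (XT.nd (nat_lit 78) (nat_lit 608) (nat_lit 0) (XT.lf (nat_lit 76) (nat_lit 3508699743) (nat_lit 0) (nat_lit 1690299570) (nat_lit 608) (nat_lit 1384976871) (nat_lit 615) (nat_lit 5) (nat_lit 614) (nat_lit 5) (nat_lit 622) (nat_lit 5) (nat_lit 268) (nat_lit 263) (nat_lit 249)) (XT.nd (nat_lit 78) (nat_lit 0) (nat_lit 76) (XT.lf (nat_lit 76) (nat_lit 1832633590) (nat_lit 0) (nat_lit 409891431) (nat_lit 684) (nat_lit 4370774978) (nat_lit 607) (nat_lit 5) (nat_lit 606) (nat_lit 5) (nat_lit 615) (nat_lit 5) (nat_lit 269) (nat_lit 263) (nat_lit 248)) (XT.lf (nat_lit 76) (nat_lit 192442834) (nat_lit 0) (nat_lit 5660738728) (nat_lit 684) (nat_lit 792438763) (nat_lit 608) (nat_lit 5) (nat_lit 607) (nat_lit 5) (nat_lit 616) (nat_lit 5) (nat_lit 270) (nat_lit 263) (nat_lit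 247)))) (XT.nd (nat_lit 78) (nat_lit 760) (nat_lit 0) (XT.lf (nat_lit 0) (nat_lit 2757949506) (nat_lit 684) (nat_lit 1401983002) (nat_lit 760) (nat_lit 2520704075) (nat_lit 598) (nat_lit 5) (nat_lit 607) (nat_lit 5) (nat_lit 608) (nat_lit 5) (nat_lit 271) (nat_lit 263) (nat_lit 246)) (XT.nd (nat_lit 78) (nat_lit 760) (nat_lit 0) (XT.lf (nat_lit 76) (nat_lit 3765056476) (nat_lit 0) (nat_lit 2534695038) (nat_lit 760) (nat_lit 419084145) (nat_lit 599) (nat_lit 5) (nat_lit 598) (nat_lit 5) (nat_lit 608) (nat_lit 5) (nat_lit 272) (nat_lit 263) (nat_lit 245)) (XT.lf (nat_lit 76) (nat_lit 2277097521) (nat_lit 0) (nat_lit 768473196) (nat_lit 836) (nat_lit 3714383488) (nat_lit 589) (nat_lit 5) (nat_lit 588) (nat_lit 5) (nat_lit 599) (nat_lit 5) (nat_lit 273) (nat_lit 263) (nat_lit 244))))) (XT.nd (nat_lit 234) (nat_lit 3116) (nat_lit 0) (XT.nd (nat_lit 78) (nat_lit 912) (nat_lit 0) (XT.lf (nat_lit 0) (nat_lit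 822562777) (nat_lit 760) (nat_lit 5695142825) (nat_lit 836) (nat_lit 286499658) (nat_lit 579) (nat_lit 5) (nat_lit 589) (nat_lit 5) (nat_lit 590) (nat_lit 5) (nat_lit 274) (nat_lit 263) (nat_lit 243)) (XT.nd (nat_lit 78) (nat_lit 836) (nat_lit 0) (XT.lf (nat_lit 0) (nat_lit 3116414730) (nat_lit 836) (nat_lit 609379138) (nat_lit 76) (nat_lit 3125406196) (nat_lit 578) (nat_lit 5) (nat_lit 589) (nat_lit 5) (nat_lit 579) (nat_lit 5) (nat_lit 275) (nat_lit 263) (nat_lit 242)) (XT.lf (nat_lit 0) (nat_lit 4906578288) (nat_lit 836) (nat_lit 1625373382) (nat_lit 912) (nat_lit 369455103) (nat_lit 567) (nat_lit 5) (nat_lit 578) (nat_lit 5) (nat_lit 579) (nat_lit 5) (nat_lit 276) (nat_lit 263) (nat_lit 241)))) (XT.nd (nat_lit 156) (nat_lit 1140) (nat_lit 0) (XT.nd (nat_lit 78) (nat_lit 988) (nat_lit 0) (XT.lf (nat_lit 0) (nat_lit 2972299005) (nat_lit 988) (nat_lit 3368635974) (nat_lit 76) (nat_lit 613583278)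 (nat_lit 554) (nat_lit 5) (nat_lit 567) (nat_lit 5) (nat_lit 555) (nat_lit 5) (nat_lit 277) (nat_lit 263) (nat_lit 240)) (XT.lf (nat_lit 0) (nat_lit 2287382320) (nat_lit 988) (nat_lit 4048905243) (nat_lit 1064) (nat_lit 674465389) (nat_lit 541) (nat_lit 5) (nat_lit 554) (nat_lit 5) (nat_lit 555) (nat_lit 5) (nat_lit 278) (nat_lit 263) (nat_lit 239))) (XT.nd (nat_lit 78) (nat_lit 0) (nat_lit 0) (XT.lf (nat_lit 0) (nat_lit 1004442278) (nat_lit 1064) (nat_lit 1611297630) (nat_lit 1140) (nat_lit 4454311846) (nat_lit 526) (nat_lit 5) (nat_lit 540) (nat_lit 5) (nat_lit 541) (nat_lit 5) (nat_lit 279) (nat_lit 263) (nat_lit 238)) (XT.lf (nat_lit 0) (nat_lit 5926026987) (nat_lit 1140) (nat_lit 255234227) (nat_lit 76) (nat_lit 951278088) (nat_lit 526) (nat_lit 5) (nat_lit 541) (nat_lit 5) (nat_lit 527) (nat_lit 5) (nat_lit 280) (nat_lit 263) (nat_lit 237))))))) (XT.nd (nat_lit 1014) (nat_lit 8512) (nat_lit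 0) (XT.nd (nat_lit 468) (nat_lit 8816) (nat_lit 0) (XT.nd (nat_lit 234) (nat_lit 2888) (nat_lit 0) (XT.nd (nat_lit 78) (nat_lit 2584) (nat_lit 0) (XT.lf (nat_lit 0) (nat_lit 2053621499) (nat_lit 1216) (nat_lit 1498556177) (nat_lit 76) (nat_lit 3645691521) (nat_lit 510) (nat_lit 5) (nat_lit 526) (nat_lit 5) (nat_lit 511) (nat_lit 5) (nat_lit 281) (nat_lit 263) (nat_lit 236)) (XT.nd (nat_lit 78) (nat_lit 1368) (nat_lit 0) (XT.lf (nat_lit 0) (nat_lit 4541679945) (nat_lit 1216) (nat_lit 782121454) (nat_lit 1292) (nat_lit 1942726811) (nat_lit 494) (nat_lit 5) (nat_lit 510) (nat_lit 5) (nat_lit 511) (nat_lit 5) (nat_lit 282) (nat_lit 263) (nat_lit 235)) (XT.lf (nat_lit 0) (nat_lit 1282254086) (nat_lit 1368) (nat_lit 3950851526) (nat_lit 76) (nat_lit 2105158300) (nat_lit 476) (nat_lit 5) (nat_lit 494) (nat_lit 5) (nat_lit 477) (nat_lit 5) (nat_lit 283) (nat_lit 263) (nat_lit 234)))) (XT.nd (nat_lit 78)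 (nat_lit 1520) (nat_lit 0) (XT.lf (nat_lit 0) (nat_lit 2237884148) (nat_lit 1368) (nat_lit 2279778858) (nat_lit 1444) (nat_lit 2895524101) (nat_lit 458) (nat_lit 5) (nat_lit 476) (nat_lit 5) (nat_lit 477) (nat_lit 5) (nat_lit 284) (nat_lit 263) (nat_lit 233)) (XT.nd (nat_lit 78) (nat_lit 0) (nat_lit 0) (XT.lf (nat_lit 0) (nat_lit 297675356) (nat_lit 1520) (nat_lit 6390128325) (nat_lit 76) (nat_lit 803744437) (nat_lit 438) (nat_lit 5) (nat_lit 458) (nat_lit 5) (nat_lit 439) (nat_lit 5) (nat_lit 285) (nat_lit 263) (nat_lit 232)) (XT.lf (nat_lit 0) (nat_lit 3503687200) (nat_lit 1520) (nat_lit 51586884) (nat_lit 76) (nat_lit 4017562576) (nat_lit 438) (nat_lit 5) (nat_lit 458) (nat_lit 5) (nat_lit 439) (nat_lit 5) (nat_lit 286) (nat_lit 263) (nat_lit 231))))) (XT.nd (nat_lit 234) (nat_lit 3952) (nat_lit 0) (XT.nd (nat_lit 78) (nat_lit 3344) (nat_lit 0) (XT.lf (nat_lit 0) (nat_lit 6482055074) (nat_lit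 1520) (nat_lit 274243479) (nat_lit 1596) (nat_lit 901340992) (nat_lit 418) (nat_lit 5) (nat_lit 438) (nat_lit 5) (nat_lit 439) (nat_lit 5) (nat_lit 287) (nat_lit 263) (nat_lit 230)) (XT.nd (nat_lit 78) (nat_lit 1672) (nat_lit 0) (XT.lf (nat_lit 0) (nat_lit 2296607882) (nat_lit 1672) (nat_lit 2322973138) (nat_lit 76) (nat_lit 3125857318) (nat_lit 396) (nat_lit 5) (nat_lit 418) (nat_lit 5) (nat_lit 397) (nat_lit 5) (nat_lit 288) (nat_lit 263) (nat_lit 229)) (XT.lf (nat_lit 0) (nat_lit 4367553703) (nat_lit 1672) (nat_lit 1160969908) (nat_lit 1748) (nat_lit 2308300535) (nat_lit 374) (nat_lit 5) (nat_lit 396) (nat_lit 5) (nat_lit 397) (nat_lit 5) (nat_lit 289) (nat_lit 263) (nat_lit 228)))) (XT.nd (nat_lit 156) (nat_lit 1748) (nat_lit 0) (XT.nd (nat_lit 78) (nat_lit 836) (nat_lit 0) (XT.lf (nat_lit 0) (nat_lit 880991754) (nat_lit 1368) (nat_lit 4631035777) (nat_lit 76) (nat_lit 2419543707) (nat_lit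 356) (nat_lit 5) (nat_lit 374) (nat_lit 5) (nat_lit 357) (nat_lit 5) (nat_lit 290) (nat_lit 263) (nat_lit 227)) (XT.lf (nat_lit 0) (nat_lit 2216894707) (nat_lit 836) (nat_lit 1879149337) (nat_lit 912) (nat_lit 3933654496) (nat_lit 345) (nat_lit 5) (nat_lit 356) (nat_lit 5) (nat_lit 357) (nat_lit 5) (nat_lit 291) (nat_lit 263) (nat_lit 226))) (XT.nd (nat_lit 78) (nat_lit 912) (nat_lit 0) (XT.lf (nat_lit 0) (nat_lit 1124474802) (nat_lit 836) (nat_lit 6251462082) (nat_lit 912) (nat_lit 755534702) (nat_lit 334) (nat_lit 5) (nat_lit 345) (nat_lit 5) (nat_lit 346) (nat_lit 5) (nat_lit 292) (nat_lit 263) (nat_lit 225)) (XT.lf (nat_lit 0) (nat_lit 3491026) (nat_lit 836) (nat_lit 2452343106) (nat_lit 912) (nat_lit 5780784507) (nat_lit 322) (nat_lit 5) (nat_lit 333) (nat_lit 5) (nat_lit 334) (nat_lit 5) (nat_lit 293) (nat_lit 263) (nat_lit 224)))))) (XT.nd (nat_lit 546) (nat_lit 3876) (nat_lit 0) (XT.nd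 (nat_lit 234) (nat_lit 2964) (nat_lit 0) (XT.nd (nat_lit 78) (nat_lit 1672) (nat_lit 0) (XT.lf (nat_lit 0) (nat_lit 5731152458) (nat_lit 912) (nat_lit 1120253916) (nat_lit 76) (nat_lit 1493920799) (nat_lit 322) (nat_lit 5) (nat_lit 334) (nat_lit 5) (nat_lit 323) (nat_lit 5) (nat_lit 294) (nat_lit 263) (nat_lit 223)) (XT.nd (nat_lit 78) (nat_lit 760) (nat_lit 0) (XT.lf (nat_lit 0) (nat_lit 618192862) (nat_lit 912) (nat_lit 2270289004) (nat_lit 76) (nat_lit 5569207324) (nat_lit 310) (nat_lit 5) (nat_lit 322) (nat_lit 5) (nat_lit 311) (nat_lit 5) (nat_lit 295) (nat_lit 263) (nat_lit 222)) (XT.lf (nat_lit 0) (nat_lit 3885292237) (nat_lit 836) (nat_lit 3454934337) (nat_lit 76) (nat_lit 1233443885) (nat_lit 300) (nat_lit 5) (nat_lit 311) (nat_lit 5) (nat_lit 301) (nat_lit 5) (nat_lit 296) (nat_lit 263) (nat_lit 221)))) (XT.nd (nat_lit 156) (nat_lit 1444) (nat_lit 0) (XT.nd (nat_lit 78) (nat_lit 760)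 (nat_lit 0) (XT.lf (nat_lit 0) (nat_lit 4021729977) (nat_lit 760) (nat_lit 3215304591) (nat_lit 836) (nat_lit 1456421789) (nat_lit 290) (nat_lit 5) (nat_lit 300) (nat_lit 5) (nat_lit 301) (nat_lit 5) (nat_lit 297) (nat_lit 263) (nat_lit 220)) (XT.lf (nat_lit 0) (nat_lit 1824201844) (nat_lit 760) (nat_lit 5923974475) (nat_lit 76) (nat_lit 1068946043) (nat_lit 280) (nat_lit 5) (nat_lit 290) (nat_lit 5) (nat_lit 281) (nat_lit 5) (nat_lit 298) (nat_lit 263) (nat_lit 219))) (XT.nd (nat_lit 78) (nat_lit 684) (nat_lit 0) (XT.lf (nat_lit 0) (nat_lit 1716932053) (nat_lit 760) (nat_lit 3459576664) (nat_lit 836) (nat_lit 3767989465) (nat_lit 270) (nat_lit 5) (nat_lit 280) (nat_lit 5) (nat_lit 281) (nat_lit 5) (nat_lit 299) (nat_lit 263) (nat_lit 218)) (XT.lf (nat_lit 0) (nat_lit 514221397) (nat_lit 684) (nat_lit 8095078665) (nat_lit 760) (nat_lit 466848761) (nat_lit 261) (nat_lit 5) (nat_lit 270) (nat_lit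 5) (nat_lit 271) (nat_lit 5) (nat_lit 300) (nat_lit 263) (nat_lit 217))))) (XT.nd (nat_lit 234) (nat_lit 2432) (nat_lit 0) (XT.nd (nat_lit 78) (nat_lit 1368) (nat_lit 0) (XT.lf (nat_lit 0) (nat_lit 2898271874) (nat_lit 760) (nat_lit 745060652) (nat_lit 76) (nat_lit 5568016574) (nat_lit 260) (nat_lit 5) (nat_lit 270) (nat_lit 5) (nat_lit 261) (nat_lit 5) (nat_lit 301) (nat_lit 263) (nat_lit 216)) (XT.nd (nat_lit 78) (nat_lit 684) (nat_lit 0) (XT.lf (nat_lit 0) (nat_lit 6344961821) (nat_lit 760) (nat_lit 2034822421) (nat_lit 76) (nat_lit 971068176) (nat_lit 251) (nat_lit 5) (nat_lit 261) (nat_lit 5) (nat_lit 252) (nat_lit 5) (nat_lit 302) (nat_lit 263) (nat_lit 215)) (XT.lf (nat_lit 0) (nat_lit 398766218) (nat_lit 684) (nat_lit 3383372511) (nat_lit 76) (nat_lit 5712325560) (nat_lit 242) (nat_lit 5) (nat_lit 251) (nat_lit 5) (nat_lit 243) (nat_lit 5) (nat_lit 303) (nat_lit 263) (nat_lit 214)))) (XT.nd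 (nat_lit 156) (nat_lit 1216) (nat_lit 0) (XT.nd (nat_lit 78) (nat_lit 608) (nat_lit 0) (XT.lf (nat_lit 0) (nat_lit 3852241613) (nat_lit 684) (nat_lit 4794749751) (nat_lit 76) (nat_lit 995289712) (nat_lit 234) (nat_lit 5) (nat_lit 243) (nat_lit 5) (nat_lit 235) (nat_lit 5) (nat_lit 304) (nat_lit 263) (nat_lit 213)) (XT.lf (nat_lit 0) (nat_lit 3521967133) (nat_lit 608) (nat_lit 3895250517) (nat_lit 684) (nat_lit 2377199779) (nat_lit 226) (nat_lit 5) (nat_lit 234) (nat_lit 5) (nat_lit 235) (nat_lit 5) (nat_lit 305) (nat_lit 263) (nat_lit 212))) (XT.nd (nat_lit 78) (nat_lit 532) (nat_lit 0) (XT.lf (nat_lit 0) (nat_lit 1114070731) (nat_lit 684) (nat_lit 7810179509) (nat_lit 76) (nat_lit 1026941356) (nat_lit 217) (nat_lit 5) (nat_lit 226) (nat_lit 5) (nat_lit 218) (nat_lit 5) (nat_lit 306) (nat_lit 263) (nat_lit 211)) (XT.lf (nat_lit 0) (nat_lit 671545702) (nat_lit 532) (nat_lit 4018423477) (nat_lit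 608) (nat_lit 5422181538) (nat_lit 210) (nat_lit 5) (nat_lit 217) (nat_lit 5) (nat_lit 218) (nat_lit 5) (nat_lit 307) (nat_lit 263) (nat_lit 210))))))))
noncomputable def xc57 : XT := (XT.nd (nat_lit 2106) (nat_lit 4180) (nat_lit 0) (XT.nd (nat_lit 1014) (nat_lit 4180) (nat_lit 0) (XT.nd (nat_lit 468) (nat_lit 2356) (nat_lit 0) (XT.nd (nat_lit 234) (nat_lit 1596) (nat_lit 0) (XT.nd (nat_lit 78) (nat_lit 1140) (nat_lit 0) (XT.lf (nat_lit 0) (nat_lit 8373144988) (nat_lit 608) (nat_lit 845177483) (nat_lit 76) (nat_lit 1059654705) (nat_lit 210) (nat_lit 5) (nat_lit 218) (nat_lit 5) (nat_lit 211) (nat_lit 5) (nat_lit 308) (nat_lit 263) (nat_lit 209)) (XT.nd (nat_lit 78) (nat_lit 532) (nat_lit 0) (XT.lf (nat_lit 0) (nat_lit 1716257509) (nat_lit 608) (nat_lit 2447016232) (nat_lit 76) (nat_lit 6284903263) (nat_lit 202) (nat_lit 5) (nat_lit 210) (nat_lit 5) (nat_lit 203) (nat_lit 5) (nat_lit 309) (nat_lit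 263) (nat_lit 208)) (XT.lf (nat_lit 0) (nat_lit 5417859951) (nat_lit 608) (nat_lit 4130214521) (nat_lit 76) (nat_lit 1075236995) (nat_lit 195) (nat_lit 5) (nat_lit 203) (nat_lit 5) (nat_lit 196) (nat_lit 5) (nat_lit 310) (nat_lit 263) (nat_lit 207)))) (XT.nd (nat_lit 78) (nat_lit 1064) (nat_lit 0) (XT.lf (nat_lit 0) (nat_lit 4894661541) (nat_lit 532) (nat_lit 4355831926) (nat_lit 608) (nat_lit 1552841443) (nat_lit 188) (nat_lit 5) (nat_lit 195) (nat_lit 5) (nat_lit 196) (nat_lit 5) (nat_lit 311) (nat_lit 263) (nat_lit 206)) (XT.nd (nat_lit 78) (nat_lit 532) (nat_lit 0) (XT.lf (nat_lit 0) (nat_lit 2180604133) (nat_lit 532) (nat_lit 7781856591) (nat_lit 76) (nat_lit 1026039718) (nat_lit 181) (nat_lit 5) (nat_lit 188) (nat_lit 5) (nat_lit 182) (nat_lit 5) (nat_lit 312) (nat_lit 263) (nat_lit 205)) (XT.lf (nat_lit 0) (nat_lit 1403977801) (nat_lit 532) (nat_lit 4625135705) (nat_lit 608) (nat_lit 5149450978)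 (nat_lit 174) (nat_lit 5) (nat_lit 181) (nat_lit 5) (nat_lit 182) (nat_lit 5) (nat_lit 313) (nat_lit 263) (nat_lit 204))))) (XT.nd (nat_lit 234) (nat_lit 1368) (nat_lit 0) (XT.nd (nat_lit 78) (nat_lit 988) (nat_lit 0) (XT.lf (nat_lit 0) (nat_lit 9998319110) (nat_lit 608) (nat_lit 479723262) (nat_lit 76) (nat_lit 896214306) (nat_lit 174) (nat_lit 5) (nat_lit 182) (nat_lit 5) (nat_lit 175) (nat_lit 5) (nat_lit 314) (nat_lit 263) (nat_lit 203)) (XT.nd (nat_lit 78) (nat_lit 456) (nat_lit 0) (XT.lf (nat_lit 0) (nat_lit 2516222590) (nat_lit 532) (nat_lit 2479309439) (nat_lit 76) (nat_lit 6579223714) (nat_lit 167) (nat_lit 5) (nat_lit 174) (nat_lit 5) (nat_lit 168) (nat_lit 5) (nat_lit 315) (nat_lit 263) (nat_lit 202)) (XT.lf (nat_lit 0) (nat_lit 6509825016) (nat_lit 532) (nat_lit 4587024049) (nat_lit 76) (nat_lit 684200087) (nat_lit 161) (nat_lit 5) (nat_lit 168) (nat_lit 5) (nat_lit 162) (nat_lit 5)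 (nat_lit 316) (nat_lit 263) (nat_lit 201)))) (XT.nd (nat_lit 156) (nat_lit 380) (nat_lit 0) (XT.nd (nat_lit 78) (nat_lit 532) (nat_lit 0) (XT.lf (nat_lit 0) (nat_lit 5162911589) (nat_lit 456) (nat_lit 5493843709) (nat_lit 532) (nat_lit 1336133527) (nat_lit 155) (nat_lit 5) (nat_lit 161) (nat_lit 5) (nat_lit 162) (nat_lit 5) (nat_lit 317) (nat_lit 263) (nat_lit 200)) (XT.lf (nat_lit 0) (nat_lit 2684683274) (nat_lit 532) (nat_lit 9202698585) (nat_lit 76) (nat_lit 323309379) (nat_lit 148) (nat_lit 5) (nat_lit 155) (nat_lit 5) (nat_lit 149) (nat_lit 5) (nat_lit 318) (nat_lit 263) (nat_lit 199))) (XT.nd (nat_lit 78) (nat_lit 0) (nat_lit 0) (XT.lf (nat_lit 0) (nat_lit 694726760) (nat_lit 380) (nat_lit 6152413814) (nat_lit 456) (nat_lit 5586952881) (nat_lit 143) (nat_lit 5) (nat_lit 148) (nat_lit 5) (nat_lit 149) (nat_lit 5) (nat_lit 319) (nat_lit 263) (nat_lit 198)) (XT.lf (nat_lit 0) (nat_lit 10947268076)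 (nat_lit 380) (nat_lit 201770816) (nat_lit 456) (nat_lit 1514892493) (nat_lit 143) (nat_lit 5) (nat_lit 148) (nat_lit 5) (nat_lit 149) (nat_lit 5) (nat_lit 320) (nat_lit 263) (nat_lit 197)))))) (XT.nd (nat_lit 546) (nat_lit 1748) (nat_lit 0) (XT.nd (nat_lit 234) (nat_lit 1140) (nat_lit 0) (XT.nd (nat_lit 78) (nat_lit 760) (nat_lit 0) (XT.lf (nat_lit 0) (nat_lit 2692372197) (nat_lit 532) (nat_lit 4302852463) (nat_lit 76) (nat_lit 5904152014) (nat_lit 136) (nat_lit 5) (nat_lit 143) (nat_lit 5) (nat_lit 137) (nat_lit 5) (nat_lit 321) (nat_lit 263) (nat_lit 196)) (XT.nd (nat_lit 78) (nat_lit 380) (nat_lit 0) (XT.lf (nat_lit 0) (nat_lit 6103261362) (nat_lit 380) (nat_lit 908892128) (nat_lit 456) (nat_lit 6129417057) (nat_lit 131) (nat_lit 5) (nat_lit 136) (nat_lit 5) (nat_lit 137) (nat_lit 5) (nat_lit 322) (nat_lit 263) (nat_lit 195)) (XT.lf (nat_lit 0) (nat_lit 3434157327) (nat_lit 380) (nat_lit 8068680883)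 (nat_lit 456) (nat_lit 1887388252) (nat_lit 126) (nat_lit 5) (nat_lit 131) (nat_lit 5) (nat_lit 132) (nat_lit 5) (nat_lit 323) (nat_lit 263) (nat_lit 194)))) (XT.nd (nat_lit 156) (nat_lit 760) (nat_lit 0) (XT.nd (nat_lit 78) (nat_lit 0) (nat_lit 0) (XT.lf (nat_lit 0) (nat_lit 591559053) (nat_lit 304) (nat_lit 1871161401) (nat_lit 380) (nat_lit 11183053266) (nat_lit 121) (nat_lit 5) (nat_lit 125) (nat_lit 5) (nat_lit 126) (nat_lit 5) (nat_lit 324) (nat_lit 263) (nat_lit 193)) (XT.lf (nat_lit 0) (nat_lit 6971231813) (nat_lit 380) (nat_lit 2423247587) (nat_lit 76) (nat_lit 4513208374) (nat_lit 121) (nat_lit 5) (nat_lit 126) (nat_lit 5) (nat_lit 122) (nat_lit 5) (nat_lit 325) (nat_lit 263) (nat_lit 192))) (XT.nd (nat_lit 78) (nat_lit 380) (nat_lit 0) (XT.lf (nat_lit 0) (nat_lit 8563199920) (nat_lit 380) (nat_lit 3077372404) (nat_lit 456) (nat_lit 2536395568) (nat_lit 116) (nat_lit 5) (nat_lit 121)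 (nat_lit 5) (nat_lit 122) (nat_lit 5) (nat_lit 326) (nat_lit 263) (nat_lit 191)) (XT.lf (nat_lit 0) (nat_lit 2001995892) (nat_lit 380) (nat_lit 9022363715) (nat_lit 76) (nat_lit 3429076756) (nat_lit 111) (nat_lit 5) (nat_lit 116) (nat_lit 5) (nat_lit 112) (nat_lit 5) (nat_lit 327) (nat_lit 263) (nat_lit 190))))) (XT.nd (nat_lit 234) (nat_lit 988) (nat_lit 0) (XT.nd (nat_lit 78) (nat_lit 380) (nat_lit 0) (XT.lf (nat_lit 0) (nat_lit 2073580221) (nat_lit 380) (nat_lit 4599721540) (nat_lit 456) (nat_lit 8063955962) (nat_lit 106) (nat_lit 5) (nat_lit 111) (nat_lit 5) (nat_lit 112) (nat_lit 5) (nat_lit 328) (nat_lit 263) (nat_lit 189)) (XT.nd (nat_lit 78) (nat_lit 380) (nat_lit 0) (XT.lf (nat_lit 0) (nat_lit 11518748510) (nat_lit 456) (nat_lit 1478136132) (nat_lit 76) (nat_lit 2032047096) (nat_lit 106) (nat_lit 5) (nat_lit 112) (nat_lit 5) (nat_lit 107) (nat_lit 5) (nat_lit 329) (nat_lit 263) (nat_lit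 188)) (XT.lf (nat_lit 0) (nat_lit 1221858155) (nat_lit 380) (nat_lit 5252162249) (nat_lit 76) (nat_lit 8854056818) (nat_lit 101) (nat_lit 5) (nat_lit 106) (nat_lit 5) (nat_lit 102) (nat_lit 5) (nat_lit 330) (nat_lit 263) (nat_lit 187)))) (XT.nd (nat_lit 156) (nat_lit 380) (nat_lit 0) (XT.nd (nat_lit 78) (nat_lit 304) (nat_lit 0) (XT.lf (nat_lit 0) (nat_lit 6062804527) (nat_lit 380) (nat_lit 9276644224) (nat_lit 76) (nat_lit 296008284) (nat_lit 97) (nat_lit 5) (nat_lit 102) (nat_lit 5) (nat_lit 98) (nat_lit 5) (nat_lit 331) (nat_lit 263) (nat_lit 186)) (XT.lf (nat_lit 0) (nat_lit 2366589801) (nat_lit 304) (nat_lit 8738526327) (nat_lit 380) (nat_lit 4845835574) (nat_lit 93) (nat_lit 5) (nat_lit 97) (nat_lit 5) (nat_lit 98) (nat_lit 5) (nat_lit 332) (nat_lit 263) (nat_lit 185))) (XT.nd (nat_lit 78) (nat_lit 304) (nat_lit 0) (XT.lf (nat_lit 0) (nat_lit 47887310) (nat_lit 380) (nat_lit 1848250576) (nat_lit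 76) (nat_lit 14379277773) (nat_lit 92) (nat_lit 5) (nat_lit 97) (nat_lit 5) (nat_lit 93) (nat_lit 5) (nat_lit 333) (nat_lit 263) (nat_lit 184)) (XT.lf (nat_lit 0) (nat_lit 5086934102) (nat_lit 380) (nat_lit 6357333634) (nat_lit 76) (nat_lit 5163433182) (nat_lit 88) (nat_lit 5) (nat_lit 93) (nat_lit 5) (nat_lit 89) (nat_lit 5) (nat_lit 334) (nat_lit 263) (nat_lit 183))))))) (XT.nd (nat_lit 1014) (nat_lit 1672) (nat_lit 0) (XT.nd (nat_lit 468) (nat_lit 1292) (nat_lit 0) (XT.nd (nat_lit 234) (nat_lit 608) (nat_lit 0) (XT.nd (nat_lit 78) (nat_lit 380) (nat_lit 0) (XT.lf (nat_lit 0) (nat_lit 5793677413) (nat_lit 228) (nat_lit 4510176485) (nat_lit 304) (nat_lit 6645581335) (nat_lit 85) (nat_lit 5) (nat_lit 88) (nat_lit 5) (nat_lit 89) (nat_lit 5) (nat_lit 335) (nat_lit 263) (nat_lit 182)) (XT.nd (nat_lit 78) (nat_lit 76) (nat_lit 0) (XT.lf (nat_lit 0) (nat_lit 1035134134) (nat_lit 304) (nat_lit 14673674221)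 (nat_lit 380) (nat_lit 1591996787) (nat_lit 81) (nat_lit 5) (nat_lit 85) (nat_lit 5) (nat_lit 86) (nat_lit 5) (nat_lit 336) (nat_lit 263) (nat_lit 181)) (XT.lf (nat_lit 0) (nat_lit 3636848793) (nat_lit 380) (nat_lit 4027179084) (nat_lit 76) (nat_lit 9996811690) (nat_lit 80) (nat_lit 5) (nat_lit 85) (nat_lit 5) (nat_lit 81) (nat_lit 5) (nat_lit 337) (nat_lit 263) (nat_lit 180)))) (XT.nd (nat_lit 78) (nat_lit 380) (nat_lit 0) (XT.lf (nat_lit 0) (nat_lit 8626288558) (nat_lit 228) (nat_lit 396582859) (nat_lit 304) (nat_lit 9008167367) (nat_lit 77) (nat_lit 5) (nat_lit 80) (nat_lit 5) (nat_lit 81) (nat_lit 5) (nat_lit 338) (nat_lit 263) (nat_lit 179)) (XT.nd (nat_lit 78) (nat_lit 76) (nat_lit 0) (XT.lf (nat_lit 0) (nat_lit 3244701892) (nat_lit 304) (nat_lit 11386660542) (nat_lit 380) (nat_lit 3779776448) (nat_lit 73) (nat_lit 5) (nat_lit 77) (nat_lit 5) (nat_lit 78) (nat_lit 5) (nat_lit 339) (nat_lit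 263) (nat_lit 178)) (XT.lf (nat_lit 0) (nat_lit 1617941839) (nat_lit 380) (nat_lit 2466399946) (nat_lit 76) (nat_lit 14717433134) (nat_lit 72) (nat_lit 5) (nat_lit 77) (nat_lit 5) (nat_lit 73) (nat_lit 5) (nat_lit 340) (nat_lit 263) (nat_lit 177))))) (XT.nd (nat_lit 234) (nat_lit 836) (nat_lit 0) (XT.nd (nat_lit 78) (nat_lit 228) (nat_lit 0) (XT.lf (nat_lit 0) (nat_lit 7186363571) (nat_lit 304) (nat_lit 8548650960) (nat_lit 76) (nat_lit 3467425033) (nat_lit 69) (nat_lit 5) (nat_lit 73) (nat_lit 5) (nat_lit 70) (nat_lit 5) (nat_lit 341) (nat_lit 263) (nat_lit 176)) (XT.nd (nat_lit 78) (nat_lit 0) (nat_lit 0) (XT.lf (nat_lit 0) (nat_lit 4567022693) (nat_lit 228) (nat_lit 8396780056) (nat_lit 304) (nat_lit 6650493458) (nat_lit 66) (nat_lit 5) (nat_lit 69) (nat_lit 5) (nat_lit 70) (nat_lit 5) (nat_lit 342) (nat_lit 263) (nat_lit 175)) (XT.lf (nat_lit 0) (nat_lit 18142021995) (nat_lit 228) (nat_lit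 799241306) (nat_lit 304) (nat_lit 1096722309) (nat_lit 66) (nat_lit 5) (nat_lit 69) (nat_lit 5) (nat_lit 70) (nat_lit 5) (nat_lit 343) (nat_lit 263) (nat_lit 174)))) (XT.nd (nat_lit 156) (nat_lit 304) (nat_lit 0) (XT.nd (nat_lit 78) (nat_lit 228) (nat_lit 0) (XT.lf (nat_lit 0) (nat_lit 4654801719) (nat_lit 304) (nat_lit 8795542949) (nat_lit 76) (nat_lit 7021615526) (nat_lit 62) (nat_lit 5) (nat_lit 66) (nat_lit 5) (nat_lit 63) (nat_lit 5) (nat_lit 344) (nat_lit 263) (nat_lit 173)) (XT.lf (nat_lit 0) (nat_lit 4763172882) (nat_lit 228) (nat_lit 5819998733) (nat_lit 304) (nat_lit 10335263594) (nat_lit 59) (nat_lit 5) (nat_lit 62) (nat_lit 5) (nat_lit 63) (nat_lit 5) (nat_lit 345) (nat_lit 263) (nat_lit 172))) (XT.nd (nat_lit 78) (nat_lit 304) (nat_lit 0) (XT.lf (nat_lit 0) (nat_lit 16732973425) (nat_lit 304) (nat_lit 2591127007) (nat_lit 76) (nat_lit 2053342318) (nat_lit 59) (nat_lit 5) (nat_lit 63)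 (nat_lit 5) (nat_lit 60) (nat_lit 5) (nat_lit 346) (nat_lit 263) (nat_lit 171)) (XT.lf (nat_lit 0) (nat_lit 1286061992) (nat_lit 304) (nat_lit 10413897762) (nat_lit 76) (nat_lit 10148412641) (nat_lit 55) (nat_lit 5) (nat_lit 59) (nat_lit 5) (nat_lit 56) (nat_lit 5) (nat_lit 347) (nat_lit 263) (nat_lit 170)))))) (XT.nd (nat_lit 546) (nat_lit 836) (nat_lit 0) (XT.nd (nat_lit 234) (nat_lit 456) (nat_lit 0) (XT.nd (nat_lit 78) (nat_lit 152) (nat_lit 0) (XT.lf (nat_lit 0) (nat_lit 3551036030) (nat_lit 228) (nat_lit 3793007048) (nat_lit 304) (nat_lit 14988529312) (nat_lit 52) (nat_lit 5) (nat_lit 55) (nat_lit 5) (nat_lit 56) (nat_lit 5) (nat_lit 348) (nat_lit 263) (nat_lit 169)) (XT.nd (nat_lit 78) (nat_lit 152) (nat_lit 0) (XT.lf (nat_lit 0) (nat_lit 13654995555) (nat_lit 304) (nat_lit 4828406584) (nat_lit 76) (nat_lit 4346480482) (nat_lit 52) (nat_lit 5) (nat_lit 56) (nat_lit 5) (nat_lit 53) (nat_lit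 5) (nat_lit 349) (nat_lit 263) (nat_lit 168)) (XT.lf (nat_lit 0) (nat_lit 9597940425) (nat_lit 152) (nat_lit 10617781178) (nat_lit 228) (nat_lit 3125190271) (nat_lit 50) (nat_lit 5) (nat_lit 52) (nat_lit 5) (nat_lit 53) (nat_lit 5) (nat_lit 350) (nat_lit 263) (nat_lit 167)))) (XT.nd (nat_lit 156) (nat_lit 152) (nat_lit 0) (XT.nd (nat_lit 78) (nat_lit 0) (nat_lit 0) (XT.lf (nat_lit 0) (nat_lit 598507539) (nat_lit 228) (nat_lit 2476653724) (nat_lit 304) (nat_lit 20791517628) (nat_lit 46) (nat_lit 5) (nat_lit 49) (nat_lit 5) (nat_lit 50) (nat_lit 5) (nat_lit 351) (nat_lit 263) (nat_lit 166)) (XT.lf (nat_lit 0) (nat_lit 9524865469) (nat_lit 304) (nat_lit 8953079422) (nat_lit 76) (nat_lit 5927752814) (nat_lit 46) (nat_lit 5) (nat_lit 50) (nat_lit 5) (nat_lit 47) (nat_lit 5) (nat_lit 352) (nat_lit 263) (nat_lit 165))) (XT.nd (nat_lit 78) (nat_lit 0) (nat_lit 0) (XT.lf (nat_lit 0) (nat_lit 5807190978)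 (nat_lit 152) (nat_lit 10389362152) (nat_lit 228) (nat_lit 8763771838) (nat_lit 44) (nat_lit 5) (nat_lit 46) (nat_lit 5) (nat_lit 47) (nat_lit 5) (nat_lit 353) (nat_lit 263) (nat_lit 164)) (XT.lf (nat_lit 0) (nat_lit 21089658304) (nat_lit 152) (nat_lit 2014098194) (nat_lit 228) (nat_lit 2427134756) (nat_lit 44) (nat_lit 5) (nat_lit 46) (nat_lit 5) (nat_lit 47) (nat_lit 5) (nat_lit 354) (nat_lit 263) (nat_lit 163))))) (XT.nd (nat_lit 234) (nat_lit 380) (nat_lit 0) (XT.nd (nat_lit 78) (nat_lit 152) (nat_lit 0) (XT.lf (nat_lit 0) (nat_lit 4134577141) (nat_lit 304) (nat_lit 15375993425) (nat_lit 76) (nat_lit 6605703903) (nat_lit 40) (nat_lit 5) (nat_lit 44) (nat_lit 5) (nat_lit 41) (nat_lit 5) (nat_lit 355) (nat_lit 263) (nat_lit 162)) (XT.nd (nat_lit 78) (nat_lit 152) (nat_lit 0) (XT.lf (nat_lit 0) (nat_lit 10879718642) (nat_lit 304) (nat_lit 352420615) (nat_lit 76) (nat_lit 15486374924) (nat_lit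 40) (nat_lit 5) (nat_lit 44) (nat_lit 5) (nat_lit 41) (nat_lit 5) (nat_lit 356) (nat_lit 263) (nat_lit 161)) (XT.lf (nat_lit 0) (nat_lit 15281565002) (nat_lit 152) (nat_lit 2621179921) (nat_lit 228) (nat_lit 9434572283) (nat_lit 38) (nat_lit 5) (nat_lit 40) (nat_lit 5) (nat_lit 41) (nat_lit 5) (nat_lit 357) (nat_lit 263) (nat_lit 160)))) (XT.nd (nat_lit 156) (nat_lit 152) (nat_lit 0) (XT.nd (nat_lit 78) (nat_lit 76) (nat_lit 0) (XT.lf (nat_lit 0) (nat_lit 3378061892) (nat_lit 152) (nat_lit 21799936802) (nat_lit 228) (nat_lit 2795861430) (nat_lit 36) (nat_lit 5) (nat_lit 38) (nat_lit 5) (nat_lit 39) (nat_lit 5) (nat_lit 358) (nat_lit 263) (nat_lit 159)) (XT.lf (nat_lit 0) (nat_lit 4065660151) (nat_lit 228) (nat_lit 9272341893) (nat_lit 76) (nat_lit 15289445419) (nat_lit 35) (nat_lit 5) (nat_lit 38) (nat_lit 5) (nat_lit 36) (nat_lit 5) (nat_lit 359) (nat_lit 263) (nat_lit 158))) (XT.nd (nat_lit 78)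 (nat_lit 0) (nat_lit 0) (XT.lf (nat_lit 0) (nat_lit 6538973541) (nat_lit 152) (nat_lit 4576311315) (nat_lit 228) (nat_lit 18184589148) (nat_lit 33) (nat_lit 5) (nat_lit 35) (nat_lit 5) (nat_lit 36) (nat_lit 5) (nat_lit 360) (nat_lit 263) (nat_lit 157)) (XT.lf (nat_lit 0) (nat_lit 18446397247) (nat_lit 228) (nat_lit 7107580815) (nat_lit 76) (nat_lit 4437101166) (nat_lit 33) (nat_lit 5) (nat_lit 36) (nat_lit 5) (nat_lit 34) (nat_lit 5) (nat_lit 361) (nat_lit 263) (nat_lit 156))))))))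
noncomputable def xc58 : XT := (XT.nd (nat_lit 2106) (nat_lit 14820) (nat_lit 0) (XT.nd (nat_lit 1014) (nat_lit 15960) (nat_lit 0) (XT.nd (nat_lit 468) (nat_lit 3040) (nat_lit 0) (XT.nd (nat_lit 234) (nat_lit 532) (nat_lit 0) (XT.nd (nat_lit 78) (nat_lit 532) (nat_lit 0) (XT.lf (nat_lit 0) (nat_lit 235051281) (nat_lit 532) (nat_lit 1510555127) (nat_lit 532) (nat_lit 1510555127) (nat_lit 620) (nat_lit 3) (nat_lit 627) (nat_lit 3) (nat_lit 627) (nat_lit 5) (nat_lit 264) (nat_lit 264) (nat_lit 252)) (XT.nd (nat_lit 78) (nat_lit 532) (nat_lit 0) (XT.lf (nat_lit 76) (nat_lit 1522549837) (nat_lit 0) (nat_lit 2656755584) (nat_lit 532) (nat_lit 2351916765) (nat_lit 621) (nat_lit 5) (nat_lit 620) (nat_lit 3) (nat_lit 627) (nat_lit 5) (nat_lit 265) (nat_lit 264) (nat_lit 251)) (XT.lf (nat_lit 0) (nat_lit 1304975425) (nat_lit 532) (nat_lit 392628609) (nat_lit 608) (nat_lit 4855579849) (nat_lit 613) (nat_lit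 5) (nat_lit 620) (nat_lit 3) (nat_lit 621) (nat_lit 5) (nat_lit 266) (nat_lit 264) (nat_lit 250)))) (XT.nd (nat_lit 78) (nat_lit 532) (nat_lit 0) (XT.lf (nat_lit 76) (nat_lit 4328491574) (nat_lit 0) (nat_lit 597936338) (nat_lit 608) (nat_lit 1651505636) (nat_lit 614) (nat_lit 5) (nat_lit 613) (nat_lit 5) (nat_lit 621) (nat_lit 5) (nat_lit 267) (nat_lit 264) (nat_lit 249)) (XT.nd (nat_lit 78) (nat_lit 0) (nat_lit 0) (XT.lf (nat_lit 0) (nat_lit 1910512815) (nat_lit 608) (nat_lit 4071888755) (nat_lit 684) (nat_lit 623238401) (nat_lit 606) (nat_lit 5) (nat_lit 614) (nat_lit 5) (nat_lit 615) (nat_lit 5) (nat_lit 268) (nat_lit 264) (nat_lit 248)) (XT.lf (nat_lit 76) (nat_lit 775080977) (nat_lit 0) (nat_lit 4671424576) (nat_lit 684) (nat_lit 1189825490) (nat_lit 607) (nat_lit 5) (nat_lit 606) (nat_lit 5) (nat_lit 615) (nat_lit 5) (nat_lit 269) (nat_lit 264) (nat_lit 247))))) (XT.nd (nat_lit 234) (nat_lit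 1672) (nat_lit 0) (XT.nd (nat_lit 78) (nat_lit 684) (nat_lit 0) (XT.lf (nat_lit 0) (nat_lit 2284121678) (nat_lit 684) (nat_lit 938054519) (nat_lit 760) (nat_lit 3447702621) (nat_lit 597) (nat_lit 5) (nat_lit 606) (nat_lit 5) (nat_lit 607) (nat_lit 5) (nat_lit 270) (nat_lit 264) (nat_lit 246)) (XT.nd (nat_lit 78) (nat_lit 684) (nat_lit 0) (XT.lf (nat_lit 76) (nat_lit 4103001433) (nat_lit 0) (nat_lit 1641171137) (nat_lit 760) (nat_lit 962292609) (nat_lit 598) (nat_lit 5) (nat_lit 597) (nat_lit 5) (nat_lit 607) (nat_lit 5) (nat_lit 271) (nat_lit 264) (nat_lit 245)) (XT.lf (nat_lit 0) (nat_lit 2427017813) (nat_lit 760) (nat_lit 4242563217) (nat_lit 836) (nat_lit 76443029) (nat_lit 588) (nat_lit 5) (nat_lit 598) (nat_lit 5) (nat_lit 599) (nat_lit 5) (nat_lit 272) (nat_lit 264) (nat_lit 244)))) (XT.nd (nat_lit 156) (nat_lit 836) (nat_lit 0) (XT.nd (nat_lit 78) (nat_lit 836) (nat_lit 0) (XT.lf (nat_lit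 76) (nat_lit 929513266) (nat_lit 0) (nat_lit 4887379297) (nat_lit 836) (nat_lit 971649789) (nat_lit 589) (nat_lit 5) (nat_lit 588) (nat_lit 5) (nat_lit 599) (nat_lit 5) (nat_lit 273) (nat_lit 264) (nat_lit 243)) (XT.lf (nat_lit 0) (nat_lit 2351861707) (nat_lit 836) (nat_lit 611638315) (nat_lit 912) (nat_lit 3870482796) (nat_lit 577) (nat_lit 5) (nat_lit 588) (nat_lit 5) (nat_lit 589) (nat_lit 5) (nat_lit 274) (nat_lit 264) (nat_lit 242))) (XT.nd (nat_lit 78) (nat_lit 836) (nat_lit 0) (XT.lf (nat_lit 76) (nat_lit 4773126284) (nat_lit 0) (nat_lit 902603180) (nat_lit 912) (nat_lit 1206780031) (nat_lit 578) (nat_lit 5) (nat_lit 577) (nat_lit 5) (nat_lit 589) (nat_lit 5) (nat_lit 275) (nat_lit 264) (nat_lit 241)) (XT.lf (nat_lit 0) (nat_lit 2057587918) (nat_lit 912) (nat_lit 3593903749) (nat_lit 76) (nat_lit 1282457537) (nat_lit 566) (nat_lit 5) (nat_lit 578) (nat_lit 5) (nat_lit 567) (nat_lit 5) (nat_lit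 276) (nat_lit 264) (nat_lit 240)))))) (XT.nd (nat_lit 546) (nat_lit 9120) (nat_lit 0) (XT.nd (nat_lit 234) (nat_lit 4864) (nat_lit 0) (XT.nd (nat_lit 78) (nat_lit 1064) (nat_lit 0) (XT.lf (nat_lit 0) (nat_lit 1928343459) (nat_lit 912) (nat_lit 3396125453) (nat_lit 988) (nat_lit 1664002844) (nat_lit 554) (nat_lit 5) (nat_lit 566) (nat_lit 5) (nat_lit 567) (nat_lit 5) (nat_lit 277) (nat_lit 264) (nat_lit 239)) (XT.nd (nat_lit 78) (nat_lit 0) (nat_lit 0) (XT.lf (nat_lit 0) (nat_lit 539299479) (nat_lit 988) (nat_lit 1001740011) (nat_lit 1064) (nat_lit 5505132260) (nat_lit 540) (nat_lit 5) (nat_lit 553) (nat_lit 5) (nat_lit 554) (nat_lit 5) (nat_lit 278) (nat_lit 264) (nat_lit 238)) (XT.lf (nat_lit 0) (nat_lit 4756552653) (nat_lit 1064) (nat_lit 829235604) (nat_lit 76) (nat_lit 1520965693) (nat_lit 540) (nat_lit 5) (nat_lit 554) (nat_lit 5) (nat_lit 541) (nat_lit 5) (nat_lit 279) (nat_lit 264) (nat_lit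 237)))) (XT.nd (nat_lit 156) (nat_lit 2584) (nat_lit 0) (XT.nd (nat_lit 78) (nat_lit 1140) (nat_lit 0) (XT.lf (nat_lit 0) (nat_lit 822109143) (nat_lit 1140) (nat_lit 2175469738) (nat_lit 76) (nat_lit 4172871847) (nat_lit 525) (nat_lit 5) (nat_lit 540) (nat_lit 5) (nat_lit 526) (nat_lit 5) (nat_lit 280) (nat_lit 264) (nat_lit 236)) (XT.lf (nat_lit 0) (nat_lit 3725104076) (nat_lit 1140) (nat_lit 260240531) (nat_lit 1216) (nat_lit 3251950791) (nat_lit 510) (nat_lit 5) (nat_lit 525) (nat_lit 5) (nat_lit 526) (nat_lit 5) (nat_lit 281) (nat_lit 264) (nat_lit 235))) (XT.nd (nat_lit 78) (nat_lit 1368) (nat_lit 0) (XT.lf (nat_lit 0) (nat_lit 2463902052) (nat_lit 1216) (nat_lit 4727330530) (nat_lit 1292) (nat_lit 116056163) (nat_lit 494) (nat_lit 5) (nat_lit 510) (nat_lit 5) (nat_lit 511) (nat_lit 5) (nat_lit 282) (nat_lit 264) (nat_lit 234)) (XT.lf (nat_lit 0) (nat_lit 1203671333) (nat_lit 1292) (nat_lit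 1804884727) (nat_lit 1368) (nat_lit 4371805580) (nat_lit 476) (nat_lit 5) (nat_lit 493) (nat_lit 5) (nat_lit 494) (nat_lit 5) (nat_lit 283) (nat_lit 264) (nat_lit 233))))) (XT.nd (nat_lit 234) (nat_lit 6232) (nat_lit 0) (XT.nd (nat_lit 78) (nat_lit 2888) (nat_lit 0) (XT.lf (nat_lit 0) (nat_lit 6170643733) (nat_lit 1368) (nat_lit 44650017) (nat_lit 76) (nat_lit 1241502324) (nat_lit 476) (nat_lit 5) (nat_lit 494) (nat_lit 5) (nat_lit 477) (nat_lit 5) (nat_lit 284) (nat_lit 264) (nat_lit 232)) (XT.nd (nat_lit 78) (nat_lit 1444) (nat_lit 0) (XT.lf (nat_lit 0) (nat_lit 1826871640) (nat_lit 1444) (nat_lit 1283980083) (nat_lit 76) (nat_lit 4425320402) (nat_lit 457) (nat_lit 5) (nat_lit 476) (nat_lit 5) (nat_lit 458) (nat_lit 5) (nat_lit 285) (nat_lit 264) (nat_lit 231)) (XT.lf (nat_lit 0) (nat_lit 4959026608) (nat_lit 1520) (nat_lit 2518032357) (nat_lit 76) (nat_lit 141920253) (nat_lit 438) (nat_lit 5)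 (nat_lit 458) (nat_lit 5) (nat_lit 439) (nat_lit 5) (nat_lit 286) (nat_lit 264) (nat_lit 230)))) (XT.nd (nat_lit 156) (nat_lit 3040) (nat_lit 0) (XT.nd (nat_lit 78) (nat_lit 1596) (nat_lit 0) (XT.lf (nat_lit 0) (nat_lit 440436778) (nat_lit 1596) (nat_lit 3763897437) (nat_lit 76) (nat_lit 3500636532) (nat_lit 417) (nat_lit 5) (nat_lit 438) (nat_lit 5) (nat_lit 418) (nat_lit 5) (nat_lit 287) (nat_lit 264) (nat_lit 229)) (XT.lf (nat_lit 0) (nat_lit 2776008179) (nat_lit 1596) (nat_lit 769542161) (nat_lit 1672) (nat_lit 4248760710) (nat_lit 396) (nat_lit 5) (nat_lit 417) (nat_lit 5) (nat_lit 418) (nat_lit 5) (nat_lit 288) (nat_lit 264) (nat_lit 228))) (XT.nd (nat_lit 78) (nat_lit 1368) (nat_lit 0) (XT.lf (nat_lit 0) (nat_lit 1602383058) (nat_lit 1672) (nat_lit 5110043467) (nat_lit 1748) (nat_lit 1174608281) (nat_lit 374) (nat_lit 5) (nat_lit 396) (nat_lit 5) (nat_lit 397) (nat_lit 5) (nat_lit 289) (nat_lit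 264) (nat_lit 227)) (XT.lf (nat_lit 0) (nat_lit 417473471) (nat_lit 1292) (nat_lit 1506181588) (nat_lit 1368) (nat_lit 6059538198) (nat_lit 356) (nat_lit 5) (nat_lit 373) (nat_lit 5) (nat_lit 374) (nat_lit 5) (nat_lit 290) (nat_lit 264) (nat_lit 226))))))) (XT.nd (nat_lit 1014) (nat_lit 6156) (nat_lit 0) (XT.nd (nat_lit 468) (nat_lit 4408) (nat_lit 0) (XT.nd (nat_lit 234) (nat_lit 2508) (nat_lit 0) (XT.nd (nat_lit 78) (nat_lit 1748) (nat_lit 0) (XT.lf (nat_lit 0) (nat_lit 5074093325) (nat_lit 1368) (nat_lit 775851672) (nat_lit 76) (nat_lit 2232702182) (nat_lit 356) (nat_lit 5) (nat_lit 374) (nat_lit 5) (nat_lit 357) (nat_lit 5) (nat_lit 291) (nat_lit 264) (nat_lit 225)) (XT.nd (nat_lit 78) (nat_lit 836) (nat_lit 0) (XT.lf (nat_lit 0) (nat_lit 102647111) (nat_lit 912) (nat_lit 1973696652) (nat_lit 76) (nat_lit 6109381025) (nat_lit 344) (nat_lit 5) (nat_lit 356) (nat_lit 5) (nat_lit 345) (nat_lit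 5) (nat_lit 292) (nat_lit 264) (nat_lit 224)) (XT.lf (nat_lit 0) (nat_lit 3238644386) (nat_lit 912) (nat_lit 3205693294) (nat_lit 76) (nat_lit 1847777036) (nat_lit 333) (nat_lit 5) (nat_lit 345) (nat_lit 5) (nat_lit 334) (nat_lit 5) (nat_lit 293) (nat_lit 264) (nat_lit 223)))) (XT.nd (nat_lit 78) (nat_lit 1672) (nat_lit 0) (XT.lf (nat_lit 0) (nat_lit 3945056489) (nat_lit 836) (nat_lit 2499983912) (nat_lit 912) (nat_lit 1957192103) (nat_lit 322) (nat_lit 5) (nat_lit 333) (nat_lit 5) (nat_lit 334) (nat_lit 5) (nat_lit 294) (nat_lit 264) (nat_lit 222)) (XT.nd (nat_lit 78) (nat_lit 760) (nat_lit 0) (XT.lf (nat_lit 0) (nat_lit 1190805256) (nat_lit 912) (nat_lit 5735727989) (nat_lit 76) (nat_lit 1589520363) (nat_lit 310) (nat_lit 5) (nat_lit 322) (nat_lit 5) (nat_lit 311) (nat_lit 5) (nat_lit 295) (nat_lit 264) (nat_lit 221)) (XT.lf (nat_lit 0) (nat_lit 1577214134) (nat_lit 760) (nat_lit 2813194687)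 (nat_lit 836) (nat_lit 4243004440) (nat_lit 300) (nat_lit 5) (nat_lit 310) (nat_lit 5) (nat_lit 311) (nat_lit 5) (nat_lit 296) (nat_lit 264) (nat_lit 220))))) (XT.nd (nat_lit 234) (nat_lit 2888) (nat_lit 0) (XT.nd (nat_lit 78) (nat_lit 760) (nat_lit 0) (XT.lf (nat_lit 0) (nat_lit 352692636) (nat_lit 760) (nat_lit 7311844091) (nat_lit 836) (nat_lit 1090242362) (nat_lit 290) (nat_lit 5) (nat_lit 300) (nat_lit 5) (nat_lit 301) (nat_lit 5) (nat_lit 297) (nat_lit 264) (nat_lit 219)) (XT.nd (nat_lit 78) (nat_lit 684) (nat_lit 0) (XT.lf (nat_lit 0) (nat_lit 2124724011) (nat_lit 836) (nat_lit 908248457) (nat_lit 76) (nat_lit 5846668480) (nat_lit 289) (nat_lit 5) (nat_lit 300) (nat_lit 5) (nat_lit 290) (nat_lit 5) (nat_lit 298) (nat_lit 264) (nat_lit 218)) (XT.lf (nat_lit 0) (nat_lit 5405943564) (nat_lit 760) (nat_lit 2199829902) (nat_lit 76) (nat_lit 1402690592) (nat_lit 280) (nat_lit 5) (nat_lit 290)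 (nat_lit 5) (nat_lit 281) (nat_lit 5) (nat_lit 299) (nat_lit 264) (nat_lit 217)))) (XT.nd (nat_lit 156) (nat_lit 1368) (nat_lit 0) (XT.nd (nat_lit 78) (nat_lit 760) (nat_lit 0) (XT.lf (nat_lit 0) (nat_lit 5607000717) (nat_lit 760) (nat_lit 3174012797) (nat_lit 836) (nat_lit 360280412) (nat_lit 270) (nat_lit 5) (nat_lit 280) (nat_lit 5) (nat_lit 281) (nat_lit 5) (nat_lit 300) (nat_lit 264) (nat_lit 216)) (XT.lf (nat_lit 0) (nat_lit 2926419364) (nat_lit 760) (nat_lit 4923857942) (nat_lit 76) (nat_lit 1427767126) (nat_lit 260) (nat_lit 5) (nat_lit 270) (nat_lit 5) (nat_lit 261) (nat_lit 5) (nat_lit 301) (nat_lit 264) (nat_lit 215))) (XT.nd (nat_lit 78) (nat_lit 684) (nat_lit 0) (XT.lf (nat_lit 0) (nat_lit 3051054384) (nat_lit 684) (nat_lit 3255884918) (nat_lit 760) (nat_lit 3111954764) (nat_lit 251) (nat_lit 5) (nat_lit 260) (nat_lit 5) (nat_lit 261) (nat_lit 5) (nat_lit 302) (nat_lit 264) (nat_lit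 214)) (XT.lf (nat_lit 0) (nat_lit 212405908) (nat_lit 684) (nat_lit 7858197936) (nat_lit 76) (nat_lit 1493571425) (nat_lit 242) (nat_lit 5) (nat_lit 251) (nat_lit 5) (nat_lit 243) (nat_lit 5) (nat_lit 303) (nat_lit 264) (nat_lit 213)))))) (XT.nd (nat_lit 546) (nat_lit 2584) (nat_lit 0) (XT.nd (nat_lit 234) (nat_lit 2280) (nat_lit 0) (XT.nd (nat_lit 78) (nat_lit 684) (nat_lit 0) (XT.lf (nat_lit 0) (nat_lit 282897590) (nat_lit 608) (nat_lit 3315831148) (nat_lit 684) (nat_lit 6114627546) (nat_lit 234) (nat_lit 5) (nat_lit 242) (nat_lit 5) (nat_lit 243) (nat_lit 5) (nat_lit 304) (nat_lit 264) (nat_lit 212)) (XT.nd (nat_lit 78) (nat_lit 684) (nat_lit 0) (XT.lf (nat_lit 0) (nat_lit 7089015104) (nat_lit 684) (nat_lit 1174934196) (nat_lit 76) (nat_lit 1603057690) (nat_lit 234) (nat_lit 5) (nat_lit 243) (nat_lit 5) (nat_lit 235) (nat_lit 5) (nat_lit 305) (nat_lit 264) (nat_lit 211)) (XT.lf (nat_lit 0) (nat_lit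 660191107) (nat_lit 684) (nat_lit 2699226569) (nat_lit 76) (nat_lit 6665601976) (nat_lit 225) (nat_lit 5) (nat_lit 234) (nat_lit 5) (nat_lit 226) (nat_lit 5) (nat_lit 306) (nat_lit 264) (nat_lit 210)))) (XT.nd (nat_lit 156) (nat_lit 1140) (nat_lit 0) (XT.nd (nat_lit 78) (nat_lit 532) (nat_lit 0) (XT.lf (nat_lit 0) (nat_lit 4162776124) (nat_lit 684) (nat_lit 4301950450) (nat_lit 76) (nat_lit 1722737469) (nat_lit 217) (nat_lit 5) (nat_lit 226) (nat_lit 5) (nat_lit 218) (nat_lit 5) (nat_lit 307) (nat_lit 264) (nat_lit 209)) (XT.lf (nat_lit 0) (nat_lit 4373508343) (nat_lit 532) (nat_lit 3408524192) (nat_lit 608) (nat_lit 2572554802) (nat_lit 210) (nat_lit 5) (nat_lit 217) (nat_lit 5) (nat_lit 218) (nat_lit 5) (nat_lit 308) (nat_lit 264) (nat_lit 208))) (XT.nd (nat_lit 78) (nat_lit 532) (nat_lit 0) (XT.lf (nat_lit 0) (nat_lit 972857752) (nat_lit 608) (nat_lit 7737853280) (nat_lit 76) (nat_lit 1815869086)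 (nat_lit 202) (nat_lit 5) (nat_lit 210) (nat_lit 5) (nat_lit 203) (nat_lit 5) (nat_lit 309) (nat_lit 264) (nat_lit 207)) (XT.lf (nat_lit 0) (nat_lit 1103662675) (nat_lit 532) (nat_lit 3501217533) (nat_lit 608) (nat_lit 6098243021) (nat_lit 195) (nat_lit 5) (nat_lit 202) (nat_lit 5) (nat_lit 203) (nat_lit 5) (nat_lit 310) (nat_lit 264) (nat_lit 206))))) (XT.nd (nat_lit 234) (nat_lit 1520) (nat_lit 0) (XT.nd (nat_lit 78) (nat_lit 1064) (nat_lit 0) (XT.lf (nat_lit 0) (nat_lit 8356061742) (nat_lit 608) (nat_lit 651018027) (nat_lit 76) (nat_lit 1877712493) (nat_lit 195) (nat_lit 5) (nat_lit 203) (nat_lit 5) (nat_lit 196) (nat_lit 5) (nat_lit 311) (nat_lit 264) (nat_lit 205)) (XT.nd (nat_lit 78) (nat_lit 456) (nat_lit 0) (XT.lf (nat_lit 0) (nat_lit 1159018391) (nat_lit 608) (nat_lit 2492899555) (nat_lit 76) (nat_lit 7419352237) (nat_lit 187) (nat_lit 5) (nat_lit 195) (nat_lit 5) (nat_lit 188) (nat_lit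 5) (nat_lit 312) (nat_lit 264) (nat_lit 204)) (XT.lf (nat_lit 0) (nat_lit 4932121230) (nat_lit 532) (nat_lit 4441078016) (nat_lit 76) (nat_lit 1889658405) (nat_lit 181) (nat_lit 5) (nat_lit 188) (nat_lit 5) (nat_lit 182) (nat_lit 5) (nat_lit 313) (nat_lit 264) (nat_lit 203)))) (XT.nd (nat_lit 156) (nat_lit 456) (nat_lit 0) (XT.nd (nat_lit 78) (nat_lit 532) (nat_lit 0) (XT.lf (nat_lit 0) (nat_lit 4962343703) (nat_lit 532) (nat_lit 3878336094) (nat_lit 608) (nat_lit 2619097837) (nat_lit 174) (nat_lit 5) (nat_lit 181) (nat_lit 5) (nat_lit 182) (nat_lit 5) (nat_lit 314) (nat_lit 264) (nat_lit 202)) (XT.lf (nat_lit 0) (nat_lit 1199088501) (nat_lit 532) (nat_lit 8664177137) (nat_lit 76) (nat_lit 1798992185) (nat_lit 167) (nat_lit 5) (nat_lit 174) (nat_lit 5) (nat_lit 168) (nat_lit 5) (nat_lit 315) (nat_lit 264) (nat_lit 201))) (XT.nd (nat_lit 78) (nat_lit 0) (nat_lit 0) (XT.lf (nat_lit 0) (nat_lit 897726591)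 (nat_lit 456) (nat_lit 4225043782) (nat_lit 532) (nat_lit 6747192994) (nat_lit 161) (nat_lit 5) (nat_lit 167) (nat_lit 5) (nat_lit 168) (nat_lit 5) (nat_lit 316) (nat_lit 264) (nat_lit 200)) (XT.lf (nat_lit 0) (nat_lit 9184681418) (nat_lit 532) (nat_lit 1295861235) (nat_lit 76) (nat_lit 1602974094) (nat_lit 161) (nat_lit 5) (nat_lit 168) (nat_lit 5) (nat_lit 162) (nat_lit 5) (nat_lit 317) (nat_lit 264) (nat_lit 199))))))))
noncomputable def xc59 : XT := (XT.nd (nat_lit 2106) (nat_lit 2204) (nat_lit 0) (XT.nd (nat_lit 1014) (nat_lit 3040) (nat_lit 0) (XT.nd (nat_lit 468) (nat_lit 2204) (nat_lit 0) (XT.nd (nat_lit 234) (nat_lit 912) (nat_lit 0) (XT.nd (nat_lit 78) (nat_lit 836) (nat_lit 0) (XT.lf (nat_lit 0) (nat_lit 1088476801) (nat_lit 532) (nat_lit 3618974317) (nat_lit 76) (nat_lit 7595163641) (nat_lit 154) (nat_lit 5) (nat_lit 161) (nat_lit 5) (nat_lit 155) (nat_lit 5) (nat_lit 318) (nat_lit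 264) (nat_lit 198)) (XT.nd (nat_lit 78) (nat_lit 380) (nat_lit 0) (XT.lf (nat_lit 0) (nat_lit 5168566234) (nat_lit 532) (nat_lit 6084072794) (nat_lit 76) (nat_lit 1275037617) (nat_lit 148) (nat_lit 5) (nat_lit 155) (nat_lit 5) (nat_lit 149) (nat_lit 5) (nat_lit 319) (nat_lit 264) (nat_lit 197)) (XT.lf (nat_lit 0) (nat_lit 4055200229) (nat_lit 380) (nat_lit 5352379863) (nat_lit 456) (nat_lit 3351204126) (nat_lit 143) (nat_lit 5) (nat_lit 148) (nat_lit 5) (nat_lit 149) (nat_lit 5) (nat_lit 320) (nat_lit 264) (nat_lit 196)))) (XT.nd (nat_lit 78) (nat_lit 380) (nat_lit 0) (XT.lf (nat_lit 0) (nat_lit 777809958) (nat_lit 532) (nat_lit 11465330420) (nat_lit 76) (nat_lit 753385639) (nat_lit 136) (nat_lit 5) (nat_lit 143) (nat_lit 5) (nat_lit 137) (nat_lit 5) (nat_lit 321) (nat_lit 264) (nat_lit 195)) (XT.nd (nat_lit 78) (nat_lit 380) (nat_lit 0) (XT.lf (nat_lit 0) (nat_lit 5036001730) (nat_lit 532) (nat_lit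 1170913181) (nat_lit 76) (nat_lit 7033047818) (nat_lit 136) (nat_lit 5) (nat_lit 143) (nat_lit 5) (nat_lit 137) (nat_lit 5) (nat_lit 322) (nat_lit 264) (nat_lit 194)) (XT.lf (nat_lit 0) (nat_lit 9440648977) (nat_lit 456) (nat_lit 3996231122) (nat_lit 76) (nat_lit 53470016) (nat_lit 131) (nat_lit 5) (nat_lit 137) (nat_lit 5) (nat_lit 132) (nat_lit 5) (nat_lit 323) (nat_lit 264) (nat_lit 193))))) (XT.nd (nat_lit 234) (nat_lit 1064) (nat_lit 0) (XT.nd (nat_lit 78) (nat_lit 684) (nat_lit 0) (XT.lf (nat_lit 0) (nat_lit 277149873) (nat_lit 456) (nat_lit 7017430441) (nat_lit 76) (nat_lit 6452640389) (nat_lit 125) (nat_lit 5) (nat_lit 131) (nat_lit 5) (nat_lit 126) (nat_lit 5) (nat_lit 324) (nat_lit 264) (nat_lit 192)) (XT.nd (nat_lit 78) (nat_lit 380) (nat_lit 0) (XT.lf (nat_lit 0) (nat_lit 3781687882) (nat_lit 304) (nat_lit 907223758) (nat_lit 380) (nat_lit 9322168019) (nat_lit 121) (nat_lit 5) (nat_lit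 125) (nat_lit 5) (nat_lit 126) (nat_lit 5) (nat_lit 325) (nat_lit 264) (nat_lit 191)) (XT.lf (nat_lit 0) (nat_lit 628635913) (nat_lit 380) (nat_lit 8651865403) (nat_lit 456) (nat_lit 5001423099) (nat_lit 116) (nat_lit 5) (nat_lit 121) (nat_lit 5) (nat_lit 122) (nat_lit 5) (nat_lit 326) (nat_lit 264) (nat_lit 190)))) (XT.nd (nat_lit 156) (nat_lit 684) (nat_lit 0) (XT.nd (nat_lit 78) (nat_lit 380) (nat_lit 0) (XT.lf (nat_lit 0) (nat_lit 11885873321) (nat_lit 380) (nat_lit 2158822231) (nat_lit 456) (nat_lit 515520788) (nat_lit 116) (nat_lit 5) (nat_lit 121) (nat_lit 5) (nat_lit 122) (nat_lit 5) (nat_lit 327) (nat_lit 264) (nat_lit 189)) (XT.lf (nat_lit 0) (nat_lit 4097598981) (nat_lit 380) (nat_lit 6214106970) (nat_lit 76) (nat_lit 4533706526) (nat_lit 111) (nat_lit 5) (nat_lit 116) (nat_lit 5) (nat_lit 112) (nat_lit 5) (nat_lit 328) (nat_lit 264) (nat_lit 188))) (XT.nd (nat_lit 78) (nat_lit 304)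 (nat_lit 0) (XT.lf (nat_lit 0) (nat_lit 5164763340) (nat_lit 380) (nat_lit 3704659138) (nat_lit 456) (nat_lit 6269145113) (nat_lit 106) (nat_lit 5) (nat_lit 111) (nat_lit 5) (nat_lit 112) (nat_lit 5) (nat_lit 329) (nat_lit 264) (nat_lit 187)) (XT.lf (nat_lit 0) (nat_lit 1470668352) (nat_lit 304) (nat_lit 12347491106) (nat_lit 380) (nat_lit 1621699739) (nat_lit 102) (nat_lit 5) (nat_lit 106) (nat_lit 5) (nat_lit 107) (nat_lit 5) (nat_lit 330) (nat_lit 264) (nat_lit 186)))))) (XT.nd (nat_lit 546) (nat_lit 1368) (nat_lit 0) (XT.nd (nat_lit 234) (nat_lit 988) (nat_lit 0) (XT.nd (nat_lit 78) (nat_lit 608) (nat_lit 0) (XT.lf (nat_lit 0) (nat_lit 3178633061) (nat_lit 380) (nat_lit 2457774674) (nat_lit 76) (nat_lit 10112287486) (nat_lit 101) (nat_lit 5) (nat_lit 106) (nat_lit 5) (nat_lit 102) (nat_lit 5) (nat_lit 331) (nat_lit 264) (nat_lit 185)) (XT.nd (nat_lit 78) (nat_lit 304) (nat_lit 0) (XT.lf (nat_lit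 0) (nat_lit 8134366199) (nat_lit 380) (nat_lit 6619053154) (nat_lit 76) (nat_lit 1312509850) (nat_lit 97) (nat_lit 5) (nat_lit 102) (nat_lit 5) (nat_lit 98) (nat_lit 5) (nat_lit 332) (nat_lit 264) (nat_lit 184)) (XT.lf (nat_lit 0) (nat_lit 5325846559) (nat_lit 304) (nat_lit 7965813931) (nat_lit 380) (nat_lit 3099977195) (nat_lit 93) (nat_lit 5) (nat_lit 97) (nat_lit 5) (nat_lit 98) (nat_lit 5) (nat_lit 333) (nat_lit 264) (nat_lit 183)))) (XT.nd (nat_lit 156) (nat_lit 608) (nat_lit 0) (XT.nd (nat_lit 78) (nat_lit 0) (nat_lit 0) (XT.lf (nat_lit 0) (nat_lit 937551942) (nat_lit 304) (nat_lit 929926749) (nat_lit 380) (nat_lit 14859098905) (nat_lit 88) (nat_lit 5) (nat_lit 92) (nat_lit 5) (nat_lit 93) (nat_lit 5) (nat_lit 334) (nat_lit 264) (nat_lit 182)) (XT.lf (nat_lit 0) (nat_lit 7023430133) (nat_lit 380) (nat_lit 3735262725) (nat_lit 76) (nat_lit 6310845370) (nat_lit 88) (nat_lit 5) (nat_lit 93)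 (nat_lit 5) (nat_lit 89) (nat_lit 5) (nat_lit 335) (nat_lit 264) (nat_lit 181))) (XT.nd (nat_lit 78) (nat_lit 380) (nat_lit 0) (XT.lf (nat_lit 0) (nat_lit 8734644463) (nat_lit 228) (nat_lit 3628221374) (nat_lit 304) (nat_lit 5059359422) (nat_lit 85) (nat_lit 5) (nat_lit 88) (nat_lit 5) (nat_lit 89) (nat_lit 5) (nat_lit 336) (nat_lit 264) (nat_lit 180)) (XT.lf (nat_lit 0) (nat_lit 117028309) (nat_lit 380) (nat_lit 13968392900) (nat_lit 76) (nat_lit 3699253803) (nat_lit 80) (nat_lit 5) (nat_lit 85) (nat_lit 5) (nat_lit 81) (nat_lit 5) (nat_lit 337) (nat_lit 264) (nat_lit 179))))) (XT.nd (nat_lit 234) (nat_lit 836) (nat_lit 0) (XT.nd (nat_lit 78) (nat_lit 532) (nat_lit 0) (XT.lf (nat_lit 0) (nat_lit 5430691438) (nat_lit 380) (nat_lit 1454206251) (nat_lit 76) (nat_lit 11271429965) (nat_lit 80) (nat_lit 5) (nat_lit 85) (nat_lit 5) (nat_lit 81) (nat_lit 5) (nat_lit 338) (nat_lit 264) (nat_lit 178)) (XT.nd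 (nat_lit 78) (nat_lit 304) (nat_lit 0) (XT.lf (nat_lit 0) (nat_lit 10950253266) (nat_lit 304) (nat_lit 7006949362) (nat_lit 76) (nat_lit 581009758) (nat_lit 77) (nat_lit 5) (nat_lit 81) (nat_lit 5) (nat_lit 78) (nat_lit 5) (nat_lit 339) (nat_lit 264) (nat_lit 177)) (XT.lf (nat_lit 0) (nat_lit 5975898325) (nat_lit 304) (nat_lit 10722523029) (nat_lit 380) (nat_lit 2231883849) (nat_lit 73) (nat_lit 5) (nat_lit 77) (nat_lit 5) (nat_lit 78) (nat_lit 5) (nat_lit 340) (nat_lit 264) (nat_lit 176)))) (XT.nd (nat_lit 156) (nat_lit 532) (nat_lit 0) (XT.nd (nat_lit 78) (nat_lit 0) (nat_lit 0) (XT.lf (nat_lit 0) (nat_lit 38990342) (nat_lit 228) (nat_lit 3219488367) (nat_lit 304) (nat_lit 16074933164) (nat_lit 69) (nat_lit 5) (nat_lit 72) (nat_lit 5) (nat_lit 73) (nat_lit 5) (nat_lit 341) (nat_lit 264) (nat_lit 175)) (XT.lf (nat_lit 0) (nat_lit 8970142006) (nat_lit 304) (nat_lit 6242613515) (nat_lit 76) (nat_lit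 4533833944) (nat_lit 69) (nat_lit 5) (nat_lit 73) (nat_lit 5) (nat_lit 70) (nat_lit 5) (nat_lit 342) (nat_lit 264) (nat_lit 174))) (XT.nd (nat_lit 78) (nat_lit 304) (nat_lit 0) (XT.lf (nat_lit 0) (nat_lit 7224956878) (nat_lit 228) (nat_lit 7666639624) (nat_lit 304) (nat_lit 5279807760) (nat_lit 66) (nat_lit 5) (nat_lit 69) (nat_lit 5) (nat_lit 70) (nat_lit 5) (nat_lit 343) (nat_lit 264) (nat_lit 173)) (XT.lf (nat_lit 0) (nat_lit 393986833) (nat_lit 304) (nat_lit 20080037034) (nat_lit 76) (nat_lit 134555012) (nat_lit 62) (nat_lit 5) (nat_lit 66) (nat_lit 5) (nat_lit 63) (nat_lit 5) (nat_lit 344) (nat_lit 264) (nat_lit 172))))))) (XT.nd (nat_lit 1014) (nat_lit 380) (nat_lit 0) (XT.nd (nat_lit 468) (nat_lit 1064) (nat_lit 0) (XT.nd (nat_lit 234) (nat_lit 532) (nat_lit 0) (XT.nd (nat_lit 78) (nat_lit 228) (nat_lit 0) (XT.lf (nat_lit 0) (nat_lit 6277041113) (nat_lit 304) (nat_lit 6607588228) (nat_lit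 76) (nat_lit 8171335738) (nat_lit 62) (nat_lit 5) (nat_lit 66) (nat_lit 5) (nat_lit 63) (nat_lit 5) (nat_lit 345) (nat_lit 264) (nat_lit 171)) (XT.nd (nat_lit 78) (nat_lit 0) (nat_lit 0) (XT.lf (nat_lit 0) (nat_lit 7318111195) (nat_lit 228) (nat_lit 5037629107) (nat_lit 304) (nat_lit 9160659101) (nat_lit 59) (nat_lit 5) (nat_lit 62) (nat_lit 5) (nat_lit 63) (nat_lit 5) (nat_lit 346) (nat_lit 264) (nat_lit 170)) (XT.lf (nat_lit 0) (nat_lit 18653687695) (nat_lit 304) (nat_lit 304376635) (nat_lit 76) (nat_lit 3031854005) (nat_lit 59) (nat_lit 5) (nat_lit 63) (nat_lit 5) (nat_lit 60) (nat_lit 5) (nat_lit 347) (nat_lit 264) (nat_lit 169)))) (XT.nd (nat_lit 78) (nat_lit 228) (nat_lit 0) (XT.lf (nat_lit 0) (nat_lit 2726824845) (nat_lit 304) (nat_lit 8381106807) (nat_lit 76) (nat_lit 11367397890) (nat_lit 55) (nat_lit 5) (nat_lit 59) (nat_lit 5) (nat_lit 56) (nat_lit 5) (nat_lit 348) (nat_lit 264) (nat_lit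 168)) (XT.nd (nat_lit 78) (nat_lit 0) (nat_lit 0) (XT.lf (nat_lit 0) (nat_lit 5964726787) (nat_lit 228) (nat_lit 2975957964) (nat_lit 304) (nat_lit 14033901116) (nat_lit 52) (nat_lit 5) (nat_lit 55) (nat_lit 5) (nat_lit 56) (nat_lit 5) (nat_lit 349) (nat_lit 264) (nat_lit 167)) (XT.lf (nat_lit 0) (nat_lit 15406746399) (nat_lit 304) (nat_lit 2712016311) (nat_lit 76) (nat_lit 5368749819) (nat_lit 52) (nat_lit 5) (nat_lit 56) (nat_lit 5) (nat_lit 53) (nat_lit 5) (nat_lit 350) (nat_lit 264) (nat_lit 166))))) (XT.nd (nat_lit 234) (nat_lit 608) (nat_lit 0) (XT.nd (nat_lit 78) (nat_lit 304) (nat_lit 0) (XT.lf (nat_lit 0) (nat_lit 12110435135) (nat_lit 152) (nat_lit 10029212070) (nat_lit 228) (nat_lit 1874730761) (nat_lit 50) (nat_lit 5) (nat_lit 52) (nat_lit 5) (nat_lit 53) (nat_lit 5) (nat_lit 351) (nat_lit 264) (nat_lit 165)) (XT.nd (nat_lit 78) (nat_lit 0) (nat_lit 0) (XT.lf (nat_lit 0) (nat_lit 2822669627)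 (nat_lit 228) (nat_lit 1647017810) (nat_lit 304) (nat_lit 20086554061) (nat_lit 46) (nat_lit 5) (nat_lit 49) (nat_lit 5) (nat_lit 50) (nat_lit 5) (nat_lit 352) (nat_lit 264) (nat_lit 164)) (XT.lf (nat_lit 0) (nat_lit 11080650545) (nat_lit 304) (nat_lit 7059753677) (nat_lit 76) (nat_lit 6971682727) (nat_lit 46) (nat_lit 5) (nat_lit 50) (nat_lit 5) (nat_lit 47) (nat_lit 5) (nat_lit 353) (nat_lit 264) (nat_lit 163)))) (XT.nd (nat_lit 156) (nat_lit 456) (nat_lit 0) (XT.nd (nat_lit 78) (nat_lit 0) (nat_lit 0) (XT.lf (nat_lit 0) (nat_lit 8108250283) (nat_lit 152) (nat_lit 9821056003) (nat_lit 228) (nat_lit 7754521490) (nat_lit 44) (nat_lit 5) (nat_lit 46) (nat_lit 5) (nat_lit 47) (nat_lit 5) (nat_lit 354) (nat_lit 264) (nat_lit 162)) (XT.lf (nat_lit 0) (nat_lit 23787244728) (nat_lit 152) (nat_lit 1220164815) (nat_lit 228) (nat_lit 1264838601) (nat_lit 44) (nat_lit 5) (nat_lit 46) (nat_lit 5) (nat_lit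 47) (nat_lit 5) (nat_lit 355) (nat_lit 264) (nat_lit 161))) (XT.nd (nat_lit 78) (nat_lit 152) (nat_lit 0) (XT.lf (nat_lit 0) (nat_lit 5460843659) (nat_lit 304) (nat_lit 13770844131) (nat_lit 76) (nat_lit 7643688582) (nat_lit 40) (nat_lit 5) (nat_lit 44) (nat_lit 5) (nat_lit 41) (nat_lit 5) (nat_lit 356) (nat_lit 264) (nat_lit 160)) (XT.lf (nat_lit 0) (nat_lit 1665086516) (nat_lit 152) (nat_lit 10719047349) (nat_lit 228) (nat_lit 15112043473) (nat_lit 38) (nat_lit 5) (nat_lit 40) (nat_lit 5) (nat_lit 41) (nat_lit 5) (nat_lit 357) (nat_lit 264) (nat_lit 159)))))) (XT.nd (nat_lit 33618) (nat_lit 0) (nat_lit 41268) (XT.nd (nat_lit 234) (nat_lit 152) (nat_lit 0) (XT.nd (nat_lit 78) (nat_lit 228) (nat_lit 0) (XT.lf (nat_lit 0) (nat_lit 17713704903) (nat_lit 152) (nat_lit 1872153220) (nat_lit 228) (nat_lit 8548335852) (nat_lit 38) (nat_lit 5) (nat_lit 40) (nat_lit 5) (nat_lit 41) (nat_lit 5) (nat_lit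 358) (nat_lit 264) (nat_lit 158)) (XT.nd (nat_lit 78) (nat_lit 76) (nat_lit 0) (XT.lf (nat_lit 0) (nat_lit 5438654988) (nat_lit 152) (nat_lit 21625272953) (nat_lit 228) (nat_lit 1726223453) (nat_lit 36) (nat_lit 5) (nat_lit 38) (nat_lit 5) (nat_lit 39) (nat_lit 5) (nat_lit 359) (nat_lit 264) (nat_lit 157)) (XT.lf (nat_lit 0) (nat_lit 5292858381) (nat_lit 228) (nat_lit 7633340892) (nat_lit 76) (nat_lit 16537669361) (nat_lit 35) (nat_lit 5) (nat_lit 38) (nat_lit 5) (nat_lit 36) (nat_lit 5) (nat_lit 360) (nat_lit 264) (nat_lit 156)))) (XT.nd (nat_lit 33228) (nat_lit 0) (nat_lit 43472) (XT.nd (nat_lit 33150) (nat_lit 0) (nat_lit 44080) (XT.lf (nat_lit 0) (nat_lit 8621210179) (nat_lit 152) (nat_lit 3912816130) (nat_lit 228) (nat_lit 17622849243) (nat_lit 33) (nat_lit 5) (nat_lit 35) (nat_lit 5) (nat_lit 36) (nat_lit 5) (nat_lit 361) (nat_lit 264) (nat_lit 155)) (XT.lf (nat_lit 0) (nat_lit 309382420)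 (nat_lit 0) (nat_lit 309382420) (nat_lit 532) (nat_lit 2657086650) (nat_lit 613) (nat_lit 5) (nat_lit 613) (nat_lit 3) (nat_lit 620) (nat_lit 3) (nat_lit 265) (nat_lit 265) (nat_lit 250))) (XT.nd (nat_lit 78) (nat_lit 608) (nat_lit 0) (XT.lf (nat_lit 0) (nat_lit 4789864680) (nat_lit 532) (nat_lit 1364819836) (nat_lit 608) (nat_lit 420235775) (nat_lit 613) (nat_lit 5) (nat_lit 620) (nat_lit 3) (nat_lit 621) (nat_lit 5) (nat_lit 266) (nat_lit 265) (nat_lit 249)) (XT.lf (nat_lit 0) (nat_lit 1713017696) (nat_lit 608) (nat_lit 3305207210) (nat_lit 684) (nat_lit 1582789799) (nat_lit 605) (nat_lit 5) (nat_lit 613) (nat_lit 5) (nat_lit 614) (nat_lit 5) (nat_lit 267) (nat_lit 265) (nat_lit 248))))) (XT.nd (nat_lit 234) (nat_lit 1520) (nat_lit 0) (XT.nd (nat_lit 78) (nat_lit 684) (nat_lit 0) (XT.lf (nat_lit 76) (nat_lit 1420804204) (nat_lit 0) (nat_lit 3754780807) (nat_lit 684) (nat_lit 1454557691) (nat_lit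 606) (nat_lit 5) (nat_lit 605) (nat_lit 5) (nat_lit 614) (nat_lit 5) (nat_lit 268) (nat_lit 265) (nat_lit 247)) (XT.nd (nat_lit 78) (nat_lit 0) (nat_lit 0) (XT.lf (nat_lit 0) (nat_lit 1944692262) (nat_lit 684) (nat_lit 413313102) (nat_lit 760) (nat_lit 4304221571) (nat_lit 596) (nat_lit 5) (nat_lit 605) (nat_lit 5) (nat_lit 606) (nat_lit 5) (nat_lit 269) (nat_lit 265) (nat_lit 246)) (XT.lf (nat_lit 76) (nat_lit 4504300337) (nat_lit 0) (nat_lit 822638784) (nat_lit 760) (nat_lit 1370277114) (nat_lit 597) (nat_lit 5) (nat_lit 596) (nat_lit 5) (nat_lit 606) (nat_lit 5) (nat_lit 270) (nat_lit 265) (nat_lit 245)))) (XT.nd (nat_lit 156) (nat_lit 836) (nat_lit 0) (XT.nd (nat_lit 78) (nat_lit 0) (nat_lit 0) (XT.lf (nat_lit 0) (nat_lit 1950346277) (nat_lit 760) (nat_lit 3948017821) (nat_lit 836) (nat_lit 836760695) (nat_lit 587) (nat_lit 5) (nat_lit 597) (nat_lit 5) (nat_lit 598) (nat_lit 5) (nat_lit 271)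 (nat_lit 265) (nat_lit 244)) (XT.lf (nat_lit 76) (nat_lit 1098251272) (nat_lit 0) (nat_lit 4158706678) (nat_lit 836) (nat_lit 1519070820) (nat_lit 588) (nat_lit 5) (nat_lit 587) (nat_lit 5) (nat_lit 598) (nat_lit 5) (nat_lit 272) (nat_lit 265) (nat_lit 243))) (XT.nd (nat_lit 78) (nat_lit 0) (nat_lit 0) (XT.lf (nat_lit 0) (nat_lit 1726811540) (nat_lit 836) (nat_lit 554424638) (nat_lit 912) (nat_lit 4538688584) (nat_lit 576) (nat_lit 5) (nat_lit 587) (nat_lit 5) (nat_lit 588) (nat_lit 5) (nat_lit 273) (nat_lit 265) (nat_lit 242)) (XT.lf (nat_lit 76) (nat_lit 4701710813) (nat_lit 0) (nat_lit 261341932) (nat_lit 912) (nat_lit 1903740144) (nat_lit 577) (nat_lit 5) (nat_lit 576) (nat_lit 5) (nat_lit 588) (nat_lit 5) (nat_lit 274) (nat_lit 265) (nat_lit 241))))))))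
noncomputable def xc60 : XT := (XT.nd (nat_lit 2106) (nat_lit 11324) (nat_lit 0) (XT.nd (nat_lit 1014) (nat_lit 11932) (nat_lit 0) (XT.nd (nat_lit 468) (nat_lit 8208) (nat_lit 0) (XT.nd (nat_lit 234) (nat_lit 2052) (nat_lit 0) (XT.nd (nat_lit 78) (nat_lit 988) (nat_lit 0) (XT.lf (nat_lit 0) (nat_lit 1284895561) (nat_lit 912) (nat_lit 3761344877) (nat_lit 988) (nat_lit 1870335598) (nat_lit 565) (nat_lit 5) (nat_lit 577) (nat_lit 5) (nat_lit 578) (nat_lit 5) (nat_lit 275) (nat_lit 265) (nat_lit 240)) (XT.nd (nat_lit 78) (nat_lit 988) (nat_lit 0) (XT.lf (nat_lit 76) (nat_lit 1629690517) (nat_lit 0) (nat_lit 2829068323) (nat_lit 988) (nat_lit 2510652242) (nat_lit 566) (nat_lit 5) (nat_lit 565) (nat_lit 5) (nat_lit 578) (nat_lit 5) (nat_lit 276) (nat_lit 265) (nat_lit 239)) (XT.lf (nat_lit 76) (nat_lit 132920334) (nat_lit 0) (nat_lit 478507457) (nat_lit 1064) (nat_lit 6414091906) (nat_lit 553) (nat_lit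 5) (nat_lit 552) (nat_lit 5) (nat_lit 566) (nat_lit 5) (nat_lit 277) (nat_lit 265) (nat_lit 238)))) (XT.nd (nat_lit 78) (nat_lit 2128) (nat_lit 0) (XT.lf (nat_lit 0) (nat_lit 3735366013) (nat_lit 988) (nat_lit 1345362195) (nat_lit 76) (nat_lit 2003515066) (nat_lit 553) (nat_lit 5) (nat_lit 566) (nat_lit 5) (nat_lit 554) (nat_lit 5) (nat_lit 278) (nat_lit 265) (nat_lit 237)) (XT.nd (nat_lit 78) (nat_lit 1140) (nat_lit 0) (XT.lf (nat_lit 0) (nat_lit 4348370524) (nat_lit 988) (nat_lit 2532274214) (nat_lit 1064) (nat_lit 265637902) (nat_lit 540) (nat_lit 5) (nat_lit 553) (nat_lit 5) (nat_lit 554) (nat_lit 5) (nat_lit 279) (nat_lit 265) (nat_lit 236)) (XT.lf (nat_lit 0) (nat_lit 2799441263) (nat_lit 1140) (nat_lit 4245195693) (nat_lit 76) (nat_lit 166719563) (nat_lit 525) (nat_lit 5) (nat_lit 540) (nat_lit 5) (nat_lit 526) (nat_lit 5) (nat_lit 280) (nat_lit 265) (nat_lit 235))))) (XT.nd (nat_lit 234)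 (nat_lit 5776) (nat_lit 0) (XT.nd (nat_lit 78) (nat_lit 1292) (nat_lit 0) (XT.lf (nat_lit 0) (nat_lit 1590398894) (nat_lit 1140) (nat_lit 4309473198) (nat_lit 1216) (nat_lit 1379633686) (nat_lit 510) (nat_lit 5) (nat_lit 525) (nat_lit 5) (nat_lit 526) (nat_lit 5) (nat_lit 281) (nat_lit 265) (nat_lit 234)) (XT.nd (nat_lit 78) (nat_lit 0) (nat_lit 0) (XT.lf (nat_lit 0) (nat_lit 226254531) (nat_lit 1216) (nat_lit 1427240541) (nat_lit 1292) (nat_lit 5697416799) (nat_lit 493) (nat_lit 5) (nat_lit 509) (nat_lit 5) (nat_lit 510) (nat_lit 5) (nat_lit 282) (nat_lit 265) (nat_lit 233)) (XT.lf (nat_lit 0) (nat_lit 4712618314) (nat_lit 1292) (nat_lit 1122391005) (nat_lit 76) (nat_lit 1590284529) (nat_lit 493) (nat_lit 5) (nat_lit 510) (nat_lit 5) (nat_lit 494) (nat_lit 5) (nat_lit 283) (nat_lit 265) (nat_lit 232)))) (XT.nd (nat_lit 156) (nat_lit 3040) (nat_lit 0) (XT.nd (nat_lit 78) (nat_lit 1368) (nat_lit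 0) (XT.lf (nat_lit 0) (nat_lit 306325816) (nat_lit 1368) (nat_lit 2462424166) (nat_lit 76) (nat_lit 4734207731) (nat_lit 475) (nat_lit 5) (nat_lit 493) (nat_lit 5) (nat_lit 476) (nat_lit 5) (nat_lit 284) (nat_lit 265) (nat_lit 231)) (XT.lf (nat_lit 0) (nat_lit 3323543252) (nat_lit 1444) (nat_lit 3808582938) (nat_lit 76) (nat_lit 451660745) (nat_lit 457) (nat_lit 5) (nat_lit 476) (nat_lit 5) (nat_lit 458) (nat_lit 5) (nat_lit 285) (nat_lit 265) (nat_lit 230))) (XT.nd (nat_lit 78) (nat_lit 1596) (nat_lit 0) (XT.lf (nat_lit 0) (nat_lit 2506412064) (nat_lit 1444) (nat_lit 3887859954) (nat_lit 1520) (nat_lit 1273590742) (nat_lit 438) (nat_lit 5) (nat_lit 457) (nat_lit 5) (nat_lit 458) (nat_lit 5) (nat_lit 286) (nat_lit 265) (nat_lit 229)) (XT.lf (nat_lit 0) (nat_lit 1238598497) (nat_lit 1520) (nat_lit 487302542) (nat_lit 1596) (nat_lit 6029465803) (nat_lit 417) (nat_lit 5) (nat_lit 437) (nat_lit 5)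 (nat_lit 438) (nat_lit 5) (nat_lit 287) (nat_lit 265) (nat_lit 228)))))) (XT.nd (nat_lit 546) (nat_lit 4712) (nat_lit 0) (XT.nd (nat_lit 234) (nat_lit 3876) (nat_lit 0) (XT.nd (nat_lit 78) (nat_lit 3344) (nat_lit 0) (XT.lf (nat_lit 0) (nat_lit 4767952785) (nat_lit 1596) (nat_lit 47275843) (nat_lit 76) (nat_lit 3030776910) (nat_lit 417) (nat_lit 5) (nat_lit 438) (nat_lit 5) (nat_lit 418) (nat_lit 5) (nat_lit 288) (nat_lit 265) (nat_lit 227)) (XT.nd (nat_lit 78) (nat_lit 1748) (nat_lit 0) (XT.lf (nat_lit 0) (nat_lit 6626697230) (nat_lit 1596) (nat_lit 1238323733) (nat_lit 1672) (nat_lit 75140566) (nat_lit 396) (nat_lit 5) (nat_lit 417) (nat_lit 5) (nat_lit 418) (nat_lit 5) (nat_lit 289) (nat_lit 265) (nat_lit 226)) (XT.lf (nat_lit 0) (nat_lit 2949042288) (nat_lit 1748) (nat_lit 2611054465) (nat_lit 76) (nat_lit 2477308010) (nat_lit 373) (nat_lit 5) (nat_lit 396) (nat_lit 5) (nat_lit 374) (nat_lit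 5) (nat_lit 290) (nat_lit 265) (nat_lit 225)))) (XT.nd (nat_lit 156) (nat_lit 1672) (nat_lit 0) (XT.nd (nat_lit 78) (nat_lit 912) (nat_lit 0) (XT.lf (nat_lit 0) (nat_lit 4221748243) (nat_lit 1292) (nat_lit 1806585963) (nat_lit 1368) (nat_lit 2109980741) (nat_lit 356) (nat_lit 5) (nat_lit 373) (nat_lit 5) (nat_lit 374) (nat_lit 5) (nat_lit 291) (nat_lit 265) (nat_lit 224)) (XT.lf (nat_lit 0) (nat_lit 918260052) (nat_lit 912) (nat_lit 5243770998) (nat_lit 76) (nat_lit 2080700061) (nat_lit 344) (nat_lit 5) (nat_lit 356) (nat_lit 5) (nat_lit 345) (nat_lit 5) (nat_lit 292) (nat_lit 265) (nat_lit 223))) (XT.nd (nat_lit 78) (nat_lit 836) (nat_lit 0) (XT.lf (nat_lit 0) (nat_lit 1748326528) (nat_lit 836) (nat_lit 2234500126) (nat_lit 912) (nat_lit 4367753806) (nat_lit 333) (nat_lit 5) (nat_lit 344) (nat_lit 5) (nat_lit 345) (nat_lit 5) (nat_lit 293) (nat_lit 265) (nat_lit 222)) (XT.lf (nat_lit 0) (nat_lit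 480916776) (nat_lit 836) (nat_lit 6634650797) (nat_lit 912) (nat_lit 1346633686) (nat_lit 322) (nat_lit 5) (nat_lit 333) (nat_lit 5) (nat_lit 334) (nat_lit 5) (nat_lit 294) (nat_lit 265) (nat_lit 221))))) (XT.nd (nat_lit 234) (nat_lit 3040) (nat_lit 0) (XT.nd (nat_lit 78) (nat_lit 1596) (nat_lit 0) (XT.lf (nat_lit 0) (nat_lit 1728689631) (nat_lit 912) (nat_lit 810252352) (nat_lit 76) (nat_lit 6038322896) (nat_lit 321) (nat_lit 5) (nat_lit 333) (nat_lit 5) (nat_lit 322) (nat_lit 5) (nat_lit 295) (nat_lit 265) (nat_lit 220)) (XT.nd (nat_lit 78) (nat_lit 760) (nat_lit 0) (XT.lf (nat_lit 0) (nat_lit 4860927329) (nat_lit 912) (nat_lit 2126317924) (nat_lit 76) (nat_lit 1708754237) (nat_lit 310) (nat_lit 5) (nat_lit 322) (nat_lit 5) (nat_lit 311) (nat_lit 5) (nat_lit 296) (nat_lit 265) (nat_lit 219)) (XT.lf (nat_lit 0) (nat_lit 5344662411) (nat_lit 760) (nat_lit 2730153904) (nat_lit 836) (nat_lit 743780617)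 (nat_lit 300) (nat_lit 5) (nat_lit 310) (nat_lit 5) (nat_lit 311) (nat_lit 5) (nat_lit 297) (nat_lit 265) (nat_lit 218)))) (XT.nd (nat_lit 156) (nat_lit 1520) (nat_lit 0) (XT.nd (nat_lit 78) (nat_lit 684) (nat_lit 0) (XT.lf (nat_lit 0) (nat_lit 2391937455) (nat_lit 836) (nat_lit 4866382408) (nat_lit 76) (nat_lit 1686613569) (nat_lit 289) (nat_lit 5) (nat_lit 300) (nat_lit 5) (nat_lit 290) (nat_lit 5) (nat_lit 298) (nat_lit 265) (nat_lit 217)) (XT.lf (nat_lit 0) (nat_lit 2771213819) (nat_lit 684) (nat_lit 2833457482) (nat_lit 760) (nat_lit 3470479752) (nat_lit 280) (nat_lit 5) (nat_lit 289) (nat_lit 5) (nat_lit 290) (nat_lit 5) (nat_lit 299) (nat_lit 265) (nat_lit 216))) (XT.nd (nat_lit 78) (nat_lit 760) (nat_lit 0) (XT.lf (nat_lit 0) (nat_lit 1430821545) (nat_lit 760) (nat_lit 7471140705) (nat_lit 836) (nat_lit 307598328) (nat_lit 270) (nat_lit 5) (nat_lit 280) (nat_lit 5) (nat_lit 281) (nat_lit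 5) (nat_lit 300) (nat_lit 265) (nat_lit 215)) (XT.lf (nat_lit 0) (nat_lit 26532669) (nat_lit 684) (nat_lit 2882536421) (nat_lit 760) (nat_lit 6438644898) (nat_lit 260) (nat_lit 5) (nat_lit 269) (nat_lit 5) (nat_lit 270) (nat_lit 5) (nat_lit 301) (nat_lit 265) (nat_lit 214))))))) (XT.nd (nat_lit 1014) (nat_lit 5320) (nat_lit 0) (XT.nd (nat_lit 468) (nat_lit 2736) (nat_lit 0) (XT.nd (nat_lit 234) (nat_lit 1900) (nat_lit 0) (XT.nd (nat_lit 78) (nat_lit 1368) (nat_lit 0) (XT.lf (nat_lit 0) (nat_lit 6219949619) (nat_lit 760) (nat_lit 1403173942) (nat_lit 76) (nat_lit 1866855100) (nat_lit 260) (nat_lit 5) (nat_lit 270) (nat_lit 5) (nat_lit 261) (nat_lit 5) (nat_lit 302) (nat_lit 265) (nat_lit 213)) (XT.nd (nat_lit 78) (nat_lit 684) (nat_lit 0) (XT.lf (nat_lit 0) (nat_lit 6751470327) (nat_lit 684) (nat_lit 2880475100) (nat_lit 760) (nat_lit 4573921) (nat_lit 251) (nat_lit 5) (nat_lit 260) (nat_lit 5)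 (nat_lit 261) (nat_lit 5) (nat_lit 303) (nat_lit 265) (nat_lit 212)) (XT.lf (nat_lit 0) (nat_lit 3312140003) (nat_lit 684) (nat_lit 4439515695) (nat_lit 76) (nat_lit 2035459198) (nat_lit 242) (nat_lit 5) (nat_lit 251) (nat_lit 5) (nat_lit 243) (nat_lit 5) (nat_lit 304) (nat_lit 265) (nat_lit 211)))) (XT.nd (nat_lit 78) (nat_lit 1292) (nat_lit 0) (XT.lf (nat_lit 0) (nat_lit 3886523940) (nat_lit 608) (nat_lit 2846772687) (nat_lit 684) (nat_lit 3208871532) (nat_lit 234) (nat_lit 5) (nat_lit 242) (nat_lit 5) (nat_lit 243) (nat_lit 5) (nat_lit 305) (nat_lit 265) (nat_lit 210)) (XT.nd (nat_lit 78) (nat_lit 608) (nat_lit 0) (XT.lf (nat_lit 0) (nat_lit 155165399) (nat_lit 684) (nat_lit 7734403335) (nat_lit 76) (nat_lit 2212282981) (nat_lit 225) (nat_lit 5) (nat_lit 234) (nat_lit 5) (nat_lit 226) (nat_lit 5) (nat_lit 306) (nat_lit 265) (nat_lit 209)) (XT.lf (nat_lit 0) (nat_lit 760260419) (nat_lit 608)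 (nat_lit 2824657600) (nat_lit 684) (nat_lit 6680853183) (nat_lit 217) (nat_lit 5) (nat_lit 225) (nat_lit 5) (nat_lit 226) (nat_lit 5) (nat_lit 307) (nat_lit 265) (nat_lit 208))))) (XT.nd (nat_lit 234) (nat_lit 1596) (nat_lit 0) (XT.nd (nat_lit 78) (nat_lit 1140) (nat_lit 0) (XT.lf (nat_lit 0) (nat_lit 7129853084) (nat_lit 684) (nat_lit 903311306) (nat_lit 76) (nat_lit 2401234442) (nat_lit 217) (nat_lit 5) (nat_lit 226) (nat_lit 5) (nat_lit 218) (nat_lit 5) (nat_lit 308) (nat_lit 265) (nat_lit 207)) (XT.nd (nat_lit 78) (nat_lit 532) (nat_lit 0) (XT.lf (nat_lit 0) (nat_lit 187155641) (nat_lit 608) (nat_lit 2633847307) (nat_lit 76) (nat_lit 7786766992) (nat_lit 209) (nat_lit 5) (nat_lit 217) (nat_lit 5) (nat_lit 210) (nat_lit 5) (nat_lit 309) (nat_lit 265) (nat_lit 206)) (XT.lf (nat_lit 0) (nat_lit 3749586460) (nat_lit 608) (nat_lit 4465508625) (nat_lit 76) (nat_lit 2570626349) (nat_lit 202) (nat_lit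 5) (nat_lit 210) (nat_lit 5) (nat_lit 203) (nat_lit 5) (nat_lit 310) (nat_lit 265) (nat_lit 205)))) (XT.nd (nat_lit 156) (nat_lit 456) (nat_lit 0) (XT.nd (nat_lit 78) (nat_lit 608) (nat_lit 0) (XT.lf (nat_lit 0) (nat_lit 4584396780) (nat_lit 532) (nat_lit 2848531548) (nat_lit 608) (nat_lit 3535835001) (nat_lit 195) (nat_lit 5) (nat_lit 202) (nat_lit 5) (nat_lit 203) (nat_lit 5) (nat_lit 311) (nat_lit 265) (nat_lit 204)) (XT.lf (nat_lit 0) (nat_lit 82862765) (nat_lit 608) (nat_lit 8395643647) (nat_lit 76) (nat_lit 2678526098) (nat_lit 187) (nat_lit 5) (nat_lit 195) (nat_lit 5) (nat_lit 188) (nat_lit 5) (nat_lit 312) (nat_lit 265) (nat_lit 203))) (XT.nd (nat_lit 78) (nat_lit 0) (nat_lit 0) (XT.lf (nat_lit 0) (nat_lit 820059426) (nat_lit 456) (nat_lit 2959380317) (nat_lit 532) (nat_lit 7570725602) (nat_lit 181) (nat_lit 5) (nat_lit 187) (nat_lit 5) (nat_lit 188) (nat_lit 5) (nat_lit 313) (nat_lit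 265) (nat_lit 202)) (XT.lf (nat_lit 0) (nat_lit 7611990771) (nat_lit 532) (nat_lit 1205251752) (nat_lit 76) (nat_lit 2731377373) (nat_lit 181) (nat_lit 5) (nat_lit 188) (nat_lit 5) (nat_lit 182) (nat_lit 5) (nat_lit 314) (nat_lit 265) (nat_lit 201)))))) (XT.nd (nat_lit 546) (nat_lit 2432) (nat_lit 0) (XT.nd (nat_lit 234) (nat_lit 1368) (nat_lit 0) (XT.nd (nat_lit 78) (nat_lit 988) (nat_lit 0) (XT.lf (nat_lit 0) (nat_lit 8425613645) (nat_lit 532) (nat_lit 3159966898) (nat_lit 608) (nat_lit 166954709) (nat_lit 174) (nat_lit 5) (nat_lit 181) (nat_lit 5) (nat_lit 182) (nat_lit 5) (nat_lit 315) (nat_lit 265) (nat_lit 200)) (XT.nd (nat_lit 78) (nat_lit 456) (nat_lit 0) (XT.lf (nat_lit 0) (nat_lit 3686743165) (nat_lit 532) (nat_lit 5584644715) (nat_lit 76) (nat_lit 2690331391) (nat_lit 167) (nat_lit 5) (nat_lit 174) (nat_lit 5) (nat_lit 168) (nat_lit 5) (nat_lit 316) (nat_lit 265) (nat_lit 199)) (XT.lf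 (nat_lit 0) (nat_lit 4209937390) (nat_lit 456) (nat_lit 3468120098) (nat_lit 532) (nat_lit 4498640031) (nat_lit 161) (nat_lit 5) (nat_lit 167) (nat_lit 5) (nat_lit 168) (nat_lit 5) (nat_lit 317) (nat_lit 265) (nat_lit 198)))) (XT.nd (nat_lit 156) (nat_lit 836) (nat_lit 0) (XT.nd (nat_lit 78) (nat_lit 76) (nat_lit 0) (XT.lf (nat_lit 0) (nat_lit 1922423768) (nat_lit 456) (nat_lit 9887504411) (nat_lit 532) (nat_lit 587806092) (nat_lit 155) (nat_lit 5) (nat_lit 161) (nat_lit 5) (nat_lit 162) (nat_lit 5) (nat_lit 318) (nat_lit 265) (nat_lit 197)) (XT.lf (nat_lit 0) (nat_lit 3427328668) (nat_lit 532) (nat_lit 516150467) (nat_lit 76) (nat_lit 8680858581) (nat_lit 154) (nat_lit 5) (nat_lit 161) (nat_lit 5) (nat_lit 155) (nat_lit 5) (nat_lit 319) (nat_lit 265) (nat_lit 196))) (XT.nd (nat_lit 78) (nat_lit 380) (nat_lit 0) (XT.lf (nat_lit 0) (nat_lit 7589003994) (nat_lit 532) (nat_lit 3066758283) (nat_lit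 76) (nat_lit 2201241386) (nat_lit 148) (nat_lit 5) (nat_lit 155) (nat_lit 5) (nat_lit 149) (nat_lit 5) (nat_lit 320) (nat_lit 265) (nat_lit 195)) (XT.lf (nat_lit 0) (nat_lit 7324779382) (nat_lit 380) (nat_lit 4584865326) (nat_lit 456) (nat_lit 1186345451) (nat_lit 143) (nat_lit 5) (nat_lit 148) (nat_lit 5) (nat_lit 149) (nat_lit 5) (nat_lit 321) (nat_lit 265) (nat_lit 194))))) (XT.nd (nat_lit 234) (nat_lit 1520) (nat_lit 0) (XT.nd (nat_lit 78) (nat_lit 380) (nat_lit 0) (XT.lf (nat_lit 0) (nat_lit 2998094128) (nat_lit 532) (nat_lit 8643246783) (nat_lit 76) (nat_lit 1700036959) (nat_lit 136) (nat_lit 5) (nat_lit 143) (nat_lit 5) (nat_lit 137) (nat_lit 5) (nat_lit 322) (nat_lit 265) (nat_lit 193)) (XT.nd (nat_lit 78) (nat_lit 0) (nat_lit 0) (XT.lf (nat_lit 0) (nat_lit 1892610033) (nat_lit 380) (nat_lit 5439720867) (nat_lit 456) (nat_lit 6260852979) (nat_lit 131) (nat_lit 5) (nat_lit 136) (nat_lit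 5) (nat_lit 137) (nat_lit 5) (nat_lit 323) (nat_lit 265) (nat_lit 192)) (XT.lf (nat_lit 0) (nat_lit 11820398794) (nat_lit 456) (nat_lit 1055368527) (nat_lit 76) (nat_lit 976321188) (nat_lit 131) (nat_lit 5) (nat_lit 137) (nat_lit 5) (nat_lit 132) (nat_lit 5) (nat_lit 324) (nat_lit 265) (nat_lit 191)))) (XT.nd (nat_lit 156) (nat_lit 760) (nat_lit 0) (XT.nd (nat_lit 78) (nat_lit 304) (nat_lit 0) (XT.lf (nat_lit 0) (nat_lit 2355088022) (nat_lit 456) (nat_lit 4188365299) (nat_lit 76) (nat_lit 7573800187) (nat_lit 125) (nat_lit 5) (nat_lit 131) (nat_lit 5) (nat_lit 126) (nat_lit 5) (nat_lit 325) (nat_lit 265) (nat_lit 190)) (XT.lf (nat_lit 0) (nat_lit 6858512980) (nat_lit 380) (nat_lit 7504637342) (nat_lit 76) (nat_lit 26720579) (nat_lit 121) (nat_lit 5) (nat_lit 126) (nat_lit 5) (nat_lit 122) (nat_lit 5) (nat_lit 326) (nat_lit 265) (nat_lit 189))) (XT.nd (nat_lit 78) (nat_lit 380) (nat_lit 0) (XT.lf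 (nat_lit 0) (nat_lit 3623977906) (nat_lit 380) (nat_lit 7929992875) (nat_lit 456) (nat_lit 3115575843) (nat_lit 116) (nat_lit 5) (nat_lit 121) (nat_lit 5) (nat_lit 122) (nat_lit 5) (nat_lit 327) (nat_lit 265) (nat_lit 188)) (XT.lf (nat_lit 0) (nat_lit 167675326) (nat_lit 304) (nat_lit 1260059724) (nat_lit 380) (nat_lit 13529432152) (nat_lit 111) (nat_lit 5) (nat_lit 115) (nat_lit 5) (nat_lit 116) (nat_lit 5) (nat_lit 328) (nat_lit 265) (nat_lit 187))))))))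
noncomputable def xc61 : XT := (XT.nd (nat_lit 2106) (nat_lit 684) (nat_lit 0) (XT.nd (nat_lit 1014) (nat_lit 2204) (nat_lit 0) (XT.nd (nat_lit 468) (nat_lit 1520) (nat_lit 0) (XT.nd (nat_lit 234) (nat_lit 608) (nat_lit 0) (XT.nd (nat_lit 78) (nat_lit 760) (nat_lit 0) (XT.lf (nat_lit 0) (nat_lit 6139221655) (nat_lit 380) (nat_lit 3498345566) (nat_lit 76) (nat_lit 5613970213) (nat_lit 111) (nat_lit 5) (nat_lit 116) (nat_lit 5) (nat_lit 112) (nat_lit 5) (nat_lit 329) (nat_lit 265) (nat_lit 186)) (XT.nd (nat_lit 78) (nat_lit 380) (nat_lit 0) (XT.lf (nat_lit 0) (nat_lit 8174806357) (nat_lit 380) (nat_lit 2842046392) (nat_lit 456) (nat_lit 4537406546) (nat_lit 106) (nat_lit 5) (nat_lit 111) (nat_lit 5) (nat_lit 112) (nat_lit 5) (nat_lit 330) (nat_lit 265) (nat_lit 185)) (XT.lf (nat_lit 0) (nat_lit 215749579) (nat_lit 380) (nat_lit 11511448301) (nat_lit 76) (nat_lit 4137992132) (nat_lit 101) (nat_lit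 5) (nat_lit 106) (nat_lit 5) (nat_lit 102) (nat_lit 5) (nat_lit 331) (nat_lit 265) (nat_lit 184)))) (XT.nd (nat_lit 78) (nat_lit 304) (nat_lit 0) (XT.lf (nat_lit 0) (nat_lit 254325911) (nat_lit 304) (nat_lit 4831213860) (nat_lit 380) (nat_lit 11098610600) (nat_lit 97) (nat_lit 5) (nat_lit 101) (nat_lit 5) (nat_lit 102) (nat_lit 5) (nat_lit 332) (nat_lit 265) (nat_lit 183)) (XT.nd (nat_lit 78) (nat_lit 304) (nat_lit 0) (XT.lf (nat_lit 0) (nat_lit 10159599499) (nat_lit 380) (nat_lit 4050266471) (nat_lit 76) (nat_lit 2301664876) (nat_lit 97) (nat_lit 5) (nat_lit 102) (nat_lit 5) (nat_lit 98) (nat_lit 5) (nat_lit 333) (nat_lit 265) (nat_lit 182)) (XT.lf (nat_lit 0) (nat_lit 8208083133) (nat_lit 304) (nat_lit 7229325830) (nat_lit 380) (nat_lit 1410307601) (nat_lit 93) (nat_lit 5) (nat_lit 97) (nat_lit 5) (nat_lit 98) (nat_lit 5) (nat_lit 334) (nat_lit 265) (nat_lit 181))))) (XT.nd (nat_lit 234) (nat_lit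 912) (nat_lit 0) (XT.nd (nat_lit 78) (nat_lit 228) (nat_lit 0) (XT.lf (nat_lit 0) (nat_lit 3649214325) (nat_lit 380) (nat_lit 13525612623) (nat_lit 76) (nat_lit 18338646) (nat_lit 88) (nat_lit 5) (nat_lit 93) (nat_lit 5) (nat_lit 89) (nat_lit 5) (nat_lit 335) (nat_lit 265) (nat_lit 180)) (XT.nd (nat_lit 78) (nat_lit 228) (nat_lit 0) (XT.lf (nat_lit 0) (nat_lit 8915618575) (nat_lit 380) (nat_lit 1195995394) (nat_lit 76) (nat_lit 7435705835) (nat_lit 88) (nat_lit 5) (nat_lit 93) (nat_lit 5) (nat_lit 89) (nat_lit 5) (nat_lit 336) (nat_lit 265) (nat_lit 179)) (XT.lf (nat_lit 0) (nat_lit 11604994408) (nat_lit 228) (nat_lit 2778202518) (nat_lit 304) (nat_lit 3528050985) (nat_lit 85) (nat_lit 5) (nat_lit 88) (nat_lit 5) (nat_lit 89) (nat_lit 5) (nat_lit 337) (nat_lit 265) (nat_lit 178)))) (XT.nd (nat_lit 156) (nat_lit 304) (nat_lit 0) (XT.nd (nat_lit 78) (nat_lit 228) (nat_lit 0) (XT.lf (nat_lit 0) (nat_lit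 1756206325) (nat_lit 380) (nat_lit 11772116332) (nat_lit 76) (nat_lit 4756555615) (nat_lit 80) (nat_lit 5) (nat_lit 85) (nat_lit 5) (nat_lit 81) (nat_lit 5) (nat_lit 338) (nat_lit 265) (nat_lit 177)) (XT.lf (nat_lit 0) (nat_lit 1055159915) (nat_lit 228) (nat_lit 6133329438) (nat_lit 304) (nat_lit 11480025104) (nat_lit 77) (nat_lit 5) (nat_lit 80) (nat_lit 5) (nat_lit 81) (nat_lit 5) (nat_lit 339) (nat_lit 265) (nat_lit 176))) (XT.nd (nat_lit 78) (nat_lit 304) (nat_lit 0) (XT.lf (nat_lit 0) (nat_lit 12842855343) (nat_lit 304) (nat_lit 4693554066) (nat_lit 76) (nat_lit 1526079613) (nat_lit 77) (nat_lit 5) (nat_lit 81) (nat_lit 5) (nat_lit 78) (nat_lit 5) (nat_lit 340) (nat_lit 265) (nat_lit 175)) (XT.lf (nat_lit 0) (nat_lit 8637836579) (nat_lit 304) (nat_lit 10096194829) (nat_lit 380) (nat_lit 732919078) (nat_lit 73) (nat_lit 5) (nat_lit 77) (nat_lit 5) (nat_lit 78) (nat_lit 5) (nat_lit 341) (nat_lit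 265) (nat_lit 174)))))) (XT.nd (nat_lit 546) (nat_lit 912) (nat_lit 0) (XT.nd (nat_lit 234) (nat_lit 760) (nat_lit 0) (XT.nd (nat_lit 78) (nat_lit 228) (nat_lit 0) (XT.lf (nat_lit 0) (nat_lit 2503297728) (nat_lit 228) (nat_lit 2369300430) (nat_lit 304) (nat_lit 15009945533) (nat_lit 69) (nat_lit 5) (nat_lit 72) (nat_lit 5) (nat_lit 73) (nat_lit 5) (nat_lit 342) (nat_lit 265) (nat_lit 173)) (XT.nd (nat_lit 78) (nat_lit 228) (nat_lit 0) (XT.lf (nat_lit 0) (nat_lit 10717413415) (nat_lit 304) (nat_lit 4014492756) (nat_lit 76) (nat_lit 5576990221) (nat_lit 69) (nat_lit 5) (nat_lit 73) (nat_lit 5) (nat_lit 70) (nat_lit 5) (nat_lit 343) (nat_lit 265) (nat_lit 172)) (XT.lf (nat_lit 0) (nat_lit 9817917767) (nat_lit 228) (nat_lit 6970968312) (nat_lit 304) (nat_lit 3958137424) (nat_lit 66) (nat_lit 5) (nat_lit 69) (nat_lit 5) (nat_lit 70) (nat_lit 5) (nat_lit 344) (nat_lit 265) (nat_lit 171)))) (XT.nd (nat_lit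 156) (nat_lit 456) (nat_lit 0) (XT.nd (nat_lit 78) (nat_lit 0) (nat_lit 0) (XT.lf (nat_lit 0) (nat_lit 1845219392) (nat_lit 304) (nat_lit 18302029398) (nat_lit 76) (nat_lit 1050311805) (nat_lit 62) (nat_lit 5) (nat_lit 66) (nat_lit 5) (nat_lit 63) (nat_lit 5) (nat_lit 345) (nat_lit 265) (nat_lit 170)) (XT.lf (nat_lit 0) (nat_lit 7862840652) (nat_lit 304) (nat_lit 4494739421) (nat_lit 76) (nat_lit 9301640997) (nat_lit 62) (nat_lit 5) (nat_lit 66) (nat_lit 5) (nat_lit 63) (nat_lit 5) (nat_lit 346) (nat_lit 265) (nat_lit 169))) (XT.nd (nat_lit 78) (nat_lit 228) (nat_lit 0) (XT.lf (nat_lit 0) (nat_lit 9811236515) (nat_lit 228) (nat_lit 4286722361) (nat_lit 304) (nat_lit 8036042169) (nat_lit 59) (nat_lit 5) (nat_lit 62) (nat_lit 5) (nat_lit 63) (nat_lit 5) (nat_lit 347) (nat_lit 265) (nat_lit 168)) (XT.lf (nat_lit 0) (nat_lit 1940697782) (nat_lit 228) (nat_lit 18622485285) (nat_lit 304) (nat_lit 2058989091)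 (nat_lit 56) (nat_lit 5) (nat_lit 59) (nat_lit 5) (nat_lit 60) (nat_lit 5) (nat_lit 348) (nat_lit 265) (nat_lit 167))))) (XT.nd (nat_lit 234) (nat_lit 608) (nat_lit 0) (XT.nd (nat_lit 78) (nat_lit 228) (nat_lit 0) (XT.lf (nat_lit 0) (nat_lit 4130319658) (nat_lit 304) (nat_lit 6421956650) (nat_lit 76) (nat_lit 12570454768) (nat_lit 55) (nat_lit 5) (nat_lit 59) (nat_lit 5) (nat_lit 56) (nat_lit 5) (nat_lit 349) (nat_lit 265) (nat_lit 166)) (XT.nd (nat_lit 78) (nat_lit 0) (nat_lit 0) (XT.lf (nat_lit 0) (nat_lit 8318387863) (nat_lit 228) (nat_lit 2187831391) (nat_lit 304) (nat_lit 13131245725) (nat_lit 52) (nat_lit 5) (nat_lit 55) (nat_lit 5) (nat_lit 56) (nat_lit 5) (nat_lit 350) (nat_lit 265) (nat_lit 165)) (XT.lf (nat_lit 0) (nat_lit 17134007683) (nat_lit 304) (nat_lit 661938898) (nat_lit 76) (nat_lit 6370489967) (nat_lit 52) (nat_lit 5) (nat_lit 56) (nat_lit 5) (nat_lit 53) (nat_lit 5) (nat_lit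 351) (nat_lit 265) (nat_lit 164)))) (XT.nd (nat_lit 156) (nat_lit 152) (nat_lit 0) (XT.nd (nat_lit 78) (nat_lit 304) (nat_lit 0) (XT.lf (nat_lit 0) (nat_lit 14570606044) (nat_lit 152) (nat_lit 9475057286) (nat_lit 228) (nat_lit 663920918) (nat_lit 50) (nat_lit 5) (nat_lit 52) (nat_lit 5) (nat_lit 53) (nat_lit 5) (nat_lit 352) (nat_lit 265) (nat_lit 163)) (XT.lf (nat_lit 0) (nat_lit 4986911279) (nat_lit 228) (nat_lit 844382416) (nat_lit 304) (nat_lit 19436714925) (nat_lit 46) (nat_lit 5) (nat_lit 49) (nat_lit 5) (nat_lit 50) (nat_lit 5) (nat_lit 353) (nat_lit 265) (nat_lit 162))) (XT.nd (nat_lit 78) (nat_lit 152) (nat_lit 0) (XT.lf (nat_lit 0) (nat_lit 12610203733) (nat_lit 304) (nat_lit 5233731103) (nat_lit 76) (nat_lit 7997213008) (nat_lit 46) (nat_lit 5) (nat_lit 50) (nat_lit 5) (nat_lit 47) (nat_lit 5) (nat_lit 354) (nat_lit 265) (nat_lit 161)) (XT.lf (nat_lit 0) (nat_lit 10356251845) (nat_lit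 152) (nat_lit 9286215523) (nat_lit 228) (nat_lit 6788021021) (nat_lit 44) (nat_lit 5) (nat_lit 46) (nat_lit 5) (nat_lit 47) (nat_lit 5) (nat_lit 355) (nat_lit 265) (nat_lit 160))))))) (XT.nd (nat_lit 34164) (nat_lit 0) (nat_lit 31996) (XT.nd (nat_lit 33618) (nat_lit 0) (nat_lit 41040) (XT.nd (nat_lit 234) (nat_lit 228) (nat_lit 0) (XT.nd (nat_lit 78) (nat_lit 456) (nat_lit 0) (XT.lf (nat_lit 0) (nat_lit 26447225229) (nat_lit 152) (nat_lit 451456983) (nat_lit 228) (nat_lit 138573940) (nat_lit 44) (nat_lit 5) (nat_lit 46) (nat_lit 5) (nat_lit 47) (nat_lit 5) (nat_lit 356) (nat_lit 265) (nat_lit 159)) (XT.nd (nat_lit 78) (nat_lit 152) (nat_lit 0) (XT.lf (nat_lit 0) (nat_lit 6757885298) (nat_lit 304) (nat_lit 12236161842) (nat_lit 76) (nat_lit 8664604068) (nat_lit 40) (nat_lit 5) (nat_lit 44) (nat_lit 5) (nat_lit 41) (nat_lit 5) (nat_lit 357) (nat_lit 265) (nat_lit 158)) (XT.lf (nat_lit 0) (nat_lit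 3631245861) (nat_lit 152) (nat_lit 10237063334) (nat_lit 228) (nat_lit 14430187691) (nat_lit 38) (nat_lit 5) (nat_lit 40) (nat_lit 5) (nat_lit 41) (nat_lit 5) (nat_lit 358) (nat_lit 265) (nat_lit 157)))) (XT.nd (nat_lit 78) (nat_lit 228) (nat_lit 0) (XT.lf (nat_lit 0) (nat_lit 20105510952) (nat_lit 152) (nat_lit 1148166908) (nat_lit 228) (nat_lit 7702633416) (nat_lit 38) (nat_lit 5) (nat_lit 40) (nat_lit 5) (nat_lit 41) (nat_lit 5) (nat_lit 359) (nat_lit 265) (nat_lit 156)) (XT.nd (nat_lit 78) (nat_lit 76) (nat_lit 0) (XT.lf (nat_lit 0) (nat_lit 7448596842) (nat_lit 152) (nat_lit 21492937775) (nat_lit 228) (nat_lit 690712749) (nat_lit 36) (nat_lit 5) (nat_lit 38) (nat_lit 5) (nat_lit 39) (nat_lit 5) (nat_lit 360) (nat_lit 265) (nat_lit 155)) (XT.lf (nat_lit 0) (nat_lit 6493427925) (nat_lit 228) (nat_lit 6055223334) (nat_lit 76) (nat_lit 17778017162) (nat_lit 35) (nat_lit 5) (nat_lit 38) (nat_lit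 5) (nat_lit 36) (nat_lit 5) (nat_lit 361) (nat_lit 265) (nat_lit 154))))) (XT.nd (nat_lit 234) (nat_lit 1520) (nat_lit 0) (XT.nd (nat_lit 78) (nat_lit 684) (nat_lit 0) (XT.lf (nat_lit 0) (nat_lit 823602613) (nat_lit 684) (nat_lit 1238067043) (nat_lit 684) (nat_lit 1238067043) (nat_lit 604) (nat_lit 3) (nat_lit 613) (nat_lit 3) (nat_lit 613) (nat_lit 5) (nat_lit 266) (nat_lit 266) (nat_lit 248)) (XT.nd (nat_lit 78) (nat_lit 684) (nat_lit 0) (XT.lf (nat_lit 76) (nat_lit 2131414752) (nat_lit 0) (nat_lit 2908769019) (nat_lit 684) (nat_lit 1586866116) (nat_lit 605) (nat_lit 5) (nat_lit 604) (nat_lit 3) (nat_lit 613) (nat_lit 5) (nat_lit 267) (nat_lit 266) (nat_lit 247)) (XT.lf (nat_lit 76) (nat_lit 176316242) (nat_lit 0) (nat_lit 1564186994) (nat_lit 760) (nat_lit 4917148241) (nat_lit 596) (nat_lit 5) (nat_lit 595) (nat_lit 5) (nat_lit 605) (nat_lit 5) (nat_lit 268) (nat_lit 266) (nat_lit 246)))) (XT.nd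 (nat_lit 156) (nat_lit 836) (nat_lit 0) (XT.nd (nat_lit 78) (nat_lit 684) (nat_lit 0) (XT.lf (nat_lit 76) (nat_lit 4970692186) (nat_lit 0) (nat_lit 76990219) (nat_lit 760) (nat_lit 1643398422) (nat_lit 596) (nat_lit 5) (nat_lit 595) (nat_lit 5) (nat_lit 605) (nat_lit 5) (nat_lit 269) (nat_lit 266) (nat_lit 245)) (XT.lf (nat_lit 0) (nat_lit 1610158224) (nat_lit 760) (nat_lit 3592508720) (nat_lit 836) (nat_lit 1524679566) (nat_lit 586) (nat_lit 5) (nat_lit 596) (nat_lit 5) (nat_lit 597) (nat_lit 5) (nat_lit 270) (nat_lit 266) (nat_lit 244))) (XT.nd (nat_lit 78) (nat_lit 836) (nat_lit 0) (XT.lf (nat_lit 76) (nat_lit 1330476939) (nat_lit 0) (nat_lit 3506947489) (nat_lit 836) (nat_lit 1929228913) (nat_lit 587) (nat_lit 5) (nat_lit 586) (nat_lit 5) (nat_lit 597) (nat_lit 5) (nat_lit 271) (nat_lit 266) (nat_lit 243)) (XT.lf (nat_lit 0) (nat_lit 1240723992) (nat_lit 836) (nat_lit 436066869) (nat_lit 912)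 (nat_lit 5132222634) (nat_lit 575) (nat_lit 5) (nat_lit 586) (nat_lit 5) (nat_lit 587) (nat_lit 5) (nat_lit 272) (nat_lit 266) (nat_lit 242)))))) (XT.nd (nat_lit 546) (nat_lit 6308) (nat_lit 0) (XT.nd (nat_lit 234) (nat_lit 1900) (nat_lit 0) (XT.nd (nat_lit 78) (nat_lit 912) (nat_lit 0) (XT.lf (nat_lit 0) (nat_lit 4395261636) (nat_lit 836) (nat_lit 2162213352) (nat_lit 912) (nat_lit 296728974) (nat_lit 576) (nat_lit 5) (nat_lit 587) (nat_lit 5) (nat_lit 588) (nat_lit 5) (nat_lit 273) (nat_lit 266) (nat_lit 241)) (XT.nd (nat_lit 78) (nat_lit 0) (nat_lit 0) (XT.lf (nat_lit 0) (nat_lit 653574643) (nat_lit 912) (nat_lit 3869310996) (nat_lit 988) (nat_lit 2379497373) (nat_lit 564) (nat_lit 5) (nat_lit 576) (nat_lit 5) (nat_lit 577) (nat_lit 5) (nat_lit 274) (nat_lit 266) (nat_lit 240)) (XT.lf (nat_lit 76) (nat_lit 1393052469) (nat_lit 0) (nat_lit 2345383036) (nat_lit 988) (nat_lit 3215118078) (nat_lit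 565) (nat_lit 5) (nat_lit 564) (nat_lit 5) (nat_lit 577) (nat_lit 5) (nat_lit 275) (nat_lit 266) (nat_lit 239)))) (XT.nd (nat_lit 156) (nat_lit 988) (nat_lit 0) (XT.nd (nat_lit 78) (nat_lit 912) (nat_lit 0) (XT.lf (nat_lit 76) (nat_lit 6796623956) (nat_lit 0) (nat_lit 36628414) (nat_lit 988) (nat_lit 174773974) (nat_lit 565) (nat_lit 5) (nat_lit 564) (nat_lit 5) (nat_lit 577) (nat_lit 5) (nat_lit 276) (nat_lit 266) (nat_lit 238)) (XT.lf (nat_lit 0) (nat_lit 2861625048) (nat_lit 988) (nat_lit 1802015887) (nat_lit 1064) (nat_lit 2401345666) (nat_lit 552) (nat_lit 5) (nat_lit 565) (nat_lit 5) (nat_lit 566) (nat_lit 5) (nat_lit 277) (nat_lit 266) (nat_lit 237))) (XT.nd (nat_lit 78) (nat_lit 988) (nat_lit 0) (XT.lf (nat_lit 76) (nat_lit 3758292816) (nat_lit 0) (nat_lit 2150991574) (nat_lit 1064) (nat_lit 1216003842) (nat_lit 553) (nat_lit 5) (nat_lit 552) (nat_lit 5) (nat_lit 566) (nat_lit 5) (nat_lit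 278) (nat_lit 266) (nat_lit 236)) (XT.lf (nat_lit 0) (nat_lit 1765131207) (nat_lit 1064) (nat_lit 4922251462) (nat_lit 76) (nat_lit 501304718) (nat_lit 539) (nat_lit 5) (nat_lit 553) (nat_lit 5) (nat_lit 540) (nat_lit 5) (nat_lit 279) (nat_lit 266) (nat_lit 235))))) (XT.nd (nat_lit 234) (nat_lit 4028) (nat_lit 0) (XT.nd (nat_lit 78) (nat_lit 1216) (nat_lit 0) (XT.lf (nat_lit 0) (nat_lit 777093664) (nat_lit 1064) (nat_lit 3985518546) (nat_lit 1140) (nat_lit 2492445344) (nat_lit 525) (nat_lit 5) (nat_lit 539) (nat_lit 5) (nat_lit 540) (nat_lit 5) (nat_lit 280) (nat_lit 266) (nat_lit 234)) (XT.nd (nat_lit 78) (nat_lit 1140) (nat_lit 0) (XT.lf (nat_lit 0) (nat_lit 455901445) (nat_lit 1140) (nat_lit 683674167) (nat_lit 76) (nat_lit 6185144354) (nat_lit 524) (nat_lit 5) (nat_lit 539) (nat_lit 5) (nat_lit 525) (nat_lit 5) (nat_lit 281) (nat_lit 266) (nat_lit 233)) (XT.lf (nat_lit 0) (nat_lit 3410823958)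 (nat_lit 1216) (nat_lit 2142692713) (nat_lit 76) (nat_lit 1843677296) (nat_lit 509) (nat_lit 5) (nat_lit 525) (nat_lit 5) (nat_lit 510) (nat_lit 5) (nat_lit 282) (nat_lit 266) (nat_lit 232)))) (XT.nd (nat_lit 156) (nat_lit 1444) (nat_lit 0) (XT.nd (nat_lit 78) (nat_lit 1368) (nat_lit 0) (XT.lf (nat_lit 0) (nat_lit 3880747681) (nat_lit 1216) (nat_lit 2519054682) (nat_lit 1292) (nat_lit 1073219988) (nat_lit 493) (nat_lit 5) (nat_lit 509) (nat_lit 5) (nat_lit 510) (nat_lit 5) (nat_lit 283) (nat_lit 266) (nat_lit 231)) (XT.lf (nat_lit 0) (nat_lit 1846804967) (nat_lit 1368) (nat_lit 5043837176) (nat_lit 76) (nat_lit 661422090) (nat_lit 475) (nat_lit 5) (nat_lit 493) (nat_lit 5) (nat_lit 476) (nat_lit 5) (nat_lit 284) (nat_lit 266) (nat_lit 230))) (XT.nd (nat_lit 78) (nat_lit 76) (nat_lit 0) (XT.lf (nat_lit 0) (nat_lit 1126636991) (nat_lit 1368) (nat_lit 3673739366) (nat_lit 1444) (nat_lit 2833830228)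 (nat_lit 457) (nat_lit 5) (nat_lit 475) (nat_lit 5) (nat_lit 476) (nat_lit 5) (nat_lit 285) (nat_lit 266) (nat_lit 229)) (XT.lf (nat_lit 0) (nat_lit 69764637) (nat_lit 1444) (nat_lit 239837337) (nat_lit 76) (nat_lit 7410319939) (nat_lit 456) (nat_lit 5) (nat_lit 475) (nat_lit 5) (nat_lit 457) (nat_lit 5) (nat_lit 286) (nat_lit 266) (nat_lit 228))))))))
noncomputable def xc62 : XT := (XT.nd (nat_lit 2106) (nat_lit 8360) (nat_lit 0) (XT.nd (nat_lit 1014) (nat_lit 7752) (nat_lit 0) (XT.nd (nat_lit 468) (nat_lit 5016) (nat_lit 0) (XT.nd (nat_lit 234) (nat_lit 3040) (nat_lit 0) (XT.nd (nat_lit 78) (nat_lit 3192) (nat_lit 0) (XT.lf (nat_lit 0) (nat_lit 2999237233) (nat_lit 1520) (nat_lit 1621203330) (nat_lit 76) (nat_lit 3187923524) (nat_lit 437) (nat_lit 5) (nat_lit 457) (nat_lit 5) (nat_lit 438) (nat_lit 5) (nat_lit 287) (nat_lit 266) (nat_lit 227)) (XT.nd (nat_lit 78) (nat_lit 1672) (nat_lit 0) (XT.lf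 (nat_lit 0) (nat_lit 4902519993) (nat_lit 1520) (nat_lit 1067473611) (nat_lit 1596) (nat_lit 1930471162) (nat_lit 417) (nat_lit 5) (nat_lit 437) (nat_lit 5) (nat_lit 438) (nat_lit 5) (nat_lit 288) (nat_lit 266) (nat_lit 226)) (XT.lf (nat_lit 0) (nat_lit 991905699) (nat_lit 1672) (nat_lit 4394164232) (nat_lit 76) (nat_lit 2609775305) (nat_lit 395) (nat_lit 5) (nat_lit 417) (nat_lit 5) (nat_lit 396) (nat_lit 5) (nat_lit 289) (nat_lit 266) (nat_lit 225)))) (XT.nd (nat_lit 78) (nat_lit 1368) (nat_lit 0) (XT.lf (nat_lit 0) (nat_lit 2285357329) (nat_lit 1672) (nat_lit 1654112855) (nat_lit 1748) (nat_lit 4155154524) (nat_lit 373) (nat_lit 5) (nat_lit 395) (nat_lit 5) (nat_lit 396) (nat_lit 5) (nat_lit 290) (nat_lit 266) (nat_lit 224)) (XT.nd (nat_lit 78) (nat_lit 76) (nat_lit 0) (XT.lf (nat_lit 0) (nat_lit 956184605) (nat_lit 1292) (nat_lit 5992732219) (nat_lit 1368) (nat_lit 1248047339) (nat_lit 356)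 (nat_lit 5) (nat_lit 373) (nat_lit 5) (nat_lit 374) (nat_lit 5) (nat_lit 291) (nat_lit 266) (nat_lit 223)) (XT.lf (nat_lit 0) (nat_lit 1698337405) (nat_lit 1368) (nat_lit 391617716) (nat_lit 76) (nat_lit 6212755121) (nat_lit 355) (nat_lit 5) (nat_lit 373) (nat_lit 5) (nat_lit 356) (nat_lit 5) (nat_lit 292) (nat_lit 266) (nat_lit 222))))) (XT.nd (nat_lit 234) (nat_lit 2432) (nat_lit 0) (XT.nd (nat_lit 78) (nat_lit 1748) (nat_lit 0) (XT.lf (nat_lit 0) (nat_lit 4698962061) (nat_lit 912) (nat_lit 1752244843) (nat_lit 76) (nat_lit 1960661435) (nat_lit 344) (nat_lit 5) (nat_lit 356) (nat_lit 5) (nat_lit 345) (nat_lit 5) (nat_lit 293) (nat_lit 266) (nat_lit 221)) (XT.nd (nat_lit 78) (nat_lit 912) (nat_lit 0) (XT.lf (nat_lit 0) (nat_lit 5390417526) (nat_lit 836) (nat_lit 2379039295) (nat_lit 912) (nat_lit 755306279) (nat_lit 333) (nat_lit 5) (nat_lit 344) (nat_lit 5) (nat_lit 345) (nat_lit 5) (nat_lit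 294) (nat_lit 266) (nat_lit 220)) (XT.lf (nat_lit 0) (nat_lit 2241021111) (nat_lit 912) (nat_lit 4553901625) (nat_lit 76) (nat_lit 1846279651) (nat_lit 321) (nat_lit 5) (nat_lit 333) (nat_lit 5) (nat_lit 322) (nat_lit 5) (nat_lit 295) (nat_lit 266) (nat_lit 219)))) (XT.nd (nat_lit 156) (nat_lit 836) (nat_lit 0) (XT.nd (nat_lit 78) (nat_lit 760) (nat_lit 0) (XT.lf (nat_lit 0) (nat_lit 2752821355) (nat_lit 836) (nat_lit 2550323102) (nat_lit 912) (nat_lit 3458221662) (nat_lit 310) (nat_lit 5) (nat_lit 321) (nat_lit 5) (nat_lit 322) (nat_lit 5) (nat_lit 296) (nat_lit 266) (nat_lit 218)) (XT.lf (nat_lit 0) (nat_lit 1392565660) (nat_lit 760) (nat_lit 7048999556) (nat_lit 836) (nat_lit 443933763) (nat_lit 300) (nat_lit 5) (nat_lit 310) (nat_lit 5) (nat_lit 311) (nat_lit 5) (nat_lit 297) (nat_lit 266) (nat_lit 217))) (XT.nd (nat_lit 78) (nat_lit 760) (nat_lit 0) (XT.lf (nat_lit 0) (nat_lit 2617458538)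 (nat_lit 836) (nat_lit 19210381) (nat_lit 76) (nat_lit 6376560287) (nat_lit 299) (nat_lit 5) (nat_lit 310) (nat_lit 5) (nat_lit 300) (nat_lit 5) (nat_lit 298) (nat_lit 266) (nat_lit 216)) (XT.lf (nat_lit 0) (nat_lit 5762931513) (nat_lit 836) (nat_lit 1448912945) (nat_lit 76) (nat_lit 1932971665) (nat_lit 289) (nat_lit 5) (nat_lit 300) (nat_lit 5) (nat_lit 290) (nat_lit 5) (nat_lit 299) (nat_lit 266) (nat_lit 215)))))) (XT.nd (nat_lit 546) (nat_lit 3572) (nat_lit 0) (XT.nd (nat_lit 234) (nat_lit 1976) (nat_lit 0) (XT.nd (nat_lit 78) (nat_lit 1520) (nat_lit 0) (XT.lf (nat_lit 0) (nat_lit 6359998249) (nat_lit 684) (nat_lit 2638715868) (nat_lit 760) (nat_lit 281765072) (nat_lit 280) (nat_lit 5) (nat_lit 289) (nat_lit 5) (nat_lit 290) (nat_lit 5) (nat_lit 300) (nat_lit 266) (nat_lit 214)) (XT.nd (nat_lit 78) (nat_lit 684) (nat_lit 0) (XT.lf (nat_lit 0) (nat_lit 2867055898) (nat_lit 836) (nat_lit 4452668100)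 (nat_lit 76) (nat_lit 2100277649) (nat_lit 269) (nat_lit 5) (nat_lit 280) (nat_lit 5) (nat_lit 270) (nat_lit 5) (nat_lit 301) (nat_lit 266) (nat_lit 213)) (XT.lf (nat_lit 0) (nat_lit 3526990508) (nat_lit 684) (nat_lit 2579186320) (nat_lit 760) (nat_lit 3457546286) (nat_lit 260) (nat_lit 5) (nat_lit 269) (nat_lit 5) (nat_lit 270) (nat_lit 5) (nat_lit 302) (nat_lit 266) (nat_lit 212)))) (XT.nd (nat_lit 156) (nat_lit 608) (nat_lit 0) (XT.nd (nat_lit 78) (nat_lit 684) (nat_lit 0) (XT.lf (nat_lit 0) (nat_lit 2039295148) (nat_lit 684) (nat_lit 7402208634) (nat_lit 760) (nat_lit 270314366) (nat_lit 251) (nat_lit 5) (nat_lit 260) (nat_lit 5) (nat_lit 261) (nat_lit 5) (nat_lit 303) (nat_lit 266) (nat_lit 211)) (XT.lf (nat_lit 0) (nat_lit 478044564) (nat_lit 608) (nat_lit 2497845263) (nat_lit 684) (nat_lit 6888058238) (nat_lit 242) (nat_lit 5) (nat_lit 250) (nat_lit 5) (nat_lit 251) (nat_lit 5) (nat_lit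 304) (nat_lit 266) (nat_lit 210))) (XT.nd (nat_lit 78) (nat_lit 608) (nat_lit 0) (XT.lf (nat_lit 0) (nat_lit 6327294492) (nat_lit 684) (nat_lit 1128052114) (nat_lit 76) (nat_lit 2565069143) (nat_lit 242) (nat_lit 5) (nat_lit 251) (nat_lit 5) (nat_lit 243) (nat_lit 5) (nat_lit 305) (nat_lit 266) (nat_lit 209)) (XT.lf (nat_lit 0) (nat_lit 7391883372) (nat_lit 608) (nat_lit 2396278615) (nat_lit 684) (nat_lit 393275260) (nat_lit 234) (nat_lit 5) (nat_lit 242) (nat_lit 5) (nat_lit 243) (nat_lit 5) (nat_lit 306) (nat_lit 266) (nat_lit 208))))) (XT.nd (nat_lit 234) (nat_lit 1748) (nat_lit 0) (XT.nd (nat_lit 78) (nat_lit 1140) (nat_lit 0) (XT.lf (nat_lit 0) (nat_lit 2975339842) (nat_lit 684) (nat_lit 4538772489) (nat_lit 76) (nat_lit 2832639288) (nat_lit 225) (nat_lit 5) (nat_lit 234) (nat_lit 5) (nat_lit 226) (nat_lit 5) (nat_lit 307) (nat_lit 266) (nat_lit 207)) (XT.nd (nat_lit 78) (nat_lit 532) (nat_lit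 0) (XT.lf (nat_lit 0) (nat_lit 4155121419) (nat_lit 608) (nat_lit 2292751806) (nat_lit 684) (nat_lit 4068971447) (nat_lit 217) (nat_lit 5) (nat_lit 225) (nat_lit 5) (nat_lit 226) (nat_lit 5) (nat_lit 308) (nat_lit 266) (nat_lit 206)) (XT.lf (nat_lit 0) (nat_lit 2426608136) (nat_lit 532) (nat_lit 7611935823) (nat_lit 608) (nat_lit 653251600) (nat_lit 210) (nat_lit 5) (nat_lit 217) (nat_lit 5) (nat_lit 218) (nat_lit 5) (nat_lit 309) (nat_lit 266) (nat_lit 205)))) (XT.nd (nat_lit 156) (nat_lit 1140) (nat_lit 0) (XT.nd (nat_lit 78) (nat_lit 0) (nat_lit 0) (XT.lf (nat_lit 0) (nat_lit 603049241) (nat_lit 532) (nat_lit 2234917813) (nat_lit 608) (nat_lit 8033476487) (nat_lit 202) (nat_lit 5) (nat_lit 209) (nat_lit 5) (nat_lit 210) (nat_lit 5) (nat_lit 310) (nat_lit 266) (nat_lit 204)) (XT.lf (nat_lit 0) (nat_lit 6451896822) (nat_lit 608) (nat_lit 1296165134) (nat_lit 76) (nat_lit 3307827324) (nat_lit 202)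 (nat_lit 5) (nat_lit 210) (nat_lit 5) (nat_lit 203) (nat_lit 5) (nat_lit 311) (nat_lit 266) (nat_lit 203))) (XT.nd (nat_lit 78) (nat_lit 608) (nat_lit 0) (XT.lf (nat_lit 0) (nat_lit 7971645174) (nat_lit 532) (nat_lit 2219761357) (nat_lit 608) (nat_lit 1054149366) (nat_lit 195) (nat_lit 5) (nat_lit 202) (nat_lit 5) (nat_lit 203) (nat_lit 5) (nat_lit 312) (nat_lit 266) (nat_lit 202)) (XT.lf (nat_lit 0) (nat_lit 2590519940) (nat_lit 608) (nat_lit 5368881168) (nat_lit 76) (nat_lit 3480753585) (nat_lit 187) (nat_lit 5) (nat_lit 195) (nat_lit 5) (nat_lit 188) (nat_lit 5) (nat_lit 313) (nat_lit 266) (nat_lit 201))))))) (XT.nd (nat_lit 1014) (nat_lit 3648) (nat_lit 0) (XT.nd (nat_lit 468) (nat_lit 2204) (nat_lit 0) (XT.nd (nat_lit 234) (nat_lit 1444) (nat_lit 0) (XT.nd (nat_lit 78) (nat_lit 608) (nat_lit 0) (XT.lf (nat_lit 0) (nat_lit 4070101091) (nat_lit 456) (nat_lit 2275868676) (nat_lit 532) (nat_lit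 5294195498) (nat_lit 181) (nat_lit 5) (nat_lit 187) (nat_lit 5) (nat_lit 188) (nat_lit 5) (nat_lit 314) (nat_lit 266) (nat_lit 200)) (XT.nd (nat_lit 78) (nat_lit 76) (nat_lit 0) (XT.lf (nat_lit 0) (nat_lit 1959956737) (nat_lit 532) (nat_lit 8279683243) (nat_lit 608) (nat_lit 1606052623) (nat_lit 174) (nat_lit 5) (nat_lit 181) (nat_lit 5) (nat_lit 182) (nat_lit 5) (nat_lit 315) (nat_lit 266) (nat_lit 199)) (XT.lf (nat_lit 0) (nat_lit 2184449078) (nat_lit 608) (nat_lit 268855047) (nat_lit 76) (nat_lit 9603413706) (nat_lit 173) (nat_lit 5) (nat_lit 181) (nat_lit 5) (nat_lit 174) (nat_lit 5) (nat_lit 316) (nat_lit 266) (nat_lit 198)))) (XT.nd (nat_lit 78) (nat_lit 988) (nat_lit 0) (XT.lf (nat_lit 0) (nat_lit 6108290891) (nat_lit 532) (nat_lit 2604424856) (nat_lit 76) (nat_lit 3560342342) (nat_lit 167) (nat_lit 5) (nat_lit 174) (nat_lit 5) (nat_lit 168) (nat_lit 5) (nat_lit 317) (nat_lit 266) (nat_lit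 197)) (XT.nd (nat_lit 78) (nat_lit 532) (nat_lit 0) (XT.lf (nat_lit 0) (nat_lit 7432926060) (nat_lit 456) (nat_lit 2739215264) (nat_lit 532) (nat_lit 2323326113) (nat_lit 161) (nat_lit 5) (nat_lit 167) (nat_lit 5) (nat_lit 168) (nat_lit 5) (nat_lit 318) (nat_lit 266) (nat_lit 196)) (XT.lf (nat_lit 0) (nat_lit 1641526942) (nat_lit 532) (nat_lit 7667781539) (nat_lit 76) (nat_lit 3414460235) (nat_lit 154) (nat_lit 5) (nat_lit 161) (nat_lit 5) (nat_lit 155) (nat_lit 5) (nat_lit 319) (nat_lit 266) (nat_lit 195))))) (XT.nd (nat_lit 234) (nat_lit 1292) (nat_lit 0) (XT.nd (nat_lit 78) (nat_lit 456) (nat_lit 0) (XT.lf (nat_lit 0) (nat_lit 2528573697) (nat_lit 456) (nat_lit 3191804395) (nat_lit 532) (nat_lit 7237724322) (nat_lit 148) (nat_lit 5) (nat_lit 154) (nat_lit 5) (nat_lit 155) (nat_lit 5) (nat_lit 320) (nat_lit 266) (nat_lit 194)) (XT.nd (nat_lit 78) (nat_lit 456) (nat_lit 0) (XT.lf (nat_lit 0) (nat_lit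 9952012763) (nat_lit 532) (nat_lit 142608053) (nat_lit 76) (nat_lit 3104259154) (nat_lit 148) (nat_lit 5) (nat_lit 155) (nat_lit 5) (nat_lit 149) (nat_lit 5) (nat_lit 321) (nat_lit 266) (nat_lit 193)) (XT.lf (nat_lit 0) (nat_lit 901436439) (nat_lit 456) (nat_lit 2940115731) (nat_lit 76) (nat_lit 9604256691) (nat_lit 142) (nat_lit 5) (nat_lit 148) (nat_lit 5) (nat_lit 143) (nat_lit 5) (nat_lit 322) (nat_lit 266) (nat_lit 192)))) (XT.nd (nat_lit 156) (nat_lit 456) (nat_lit 0) (XT.nd (nat_lit 78) (nat_lit 380) (nat_lit 0) (XT.lf (nat_lit 0) (nat_lit 5158872913) (nat_lit 532) (nat_lit 5918244488) (nat_lit 76) (nat_lit 2622043583) (nat_lit 136) (nat_lit 5) (nat_lit 143) (nat_lit 5) (nat_lit 137) (nat_lit 5) (nat_lit 323) (nat_lit 266) (nat_lit 191)) (XT.lf (nat_lit 0) (nat_lit 4885271315) (nat_lit 380) (nat_lit 4696611562) (nat_lit 456) (nat_lit 4377493708) (nat_lit 131) (nat_lit 5) (nat_lit 136) (nat_lit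 5) (nat_lit 137) (nat_lit 5) (nat_lit 324) (nat_lit 266) (nat_lit 190))) (XT.nd (nat_lit 78) (nat_lit 76) (nat_lit 0) (XT.lf (nat_lit 0) (nat_lit 1821915145) (nat_lit 380) (nat_lit 12341105622) (nat_lit 456) (nat_lit 63888479) (nat_lit 126) (nat_lit 5) (nat_lit 131) (nat_lit 5) (nat_lit 132) (nat_lit 5) (nat_lit 325) (nat_lit 266) (nat_lit 189)) (XT.lf (nat_lit 0) (nat_lit 4376559452) (nat_lit 456) (nat_lit 1448912992) (nat_lit 76) (nat_lit 8675347859) (nat_lit 125) (nat_lit 5) (nat_lit 131) (nat_lit 5) (nat_lit 126) (nat_lit 5) (nat_lit 326) (nat_lit 266) (nat_lit 188)))))) (XT.nd (nat_lit 546) (nat_lit 1520) (nat_lit 0) (XT.nd (nat_lit 234) (nat_lit 1064) (nat_lit 0) (XT.nd (nat_lit 78) (nat_lit 760) (nat_lit 0) (XT.lf (nat_lit 0) (nat_lit 8982451985) (nat_lit 380) (nat_lit 4877887330) (nat_lit 76) (nat_lit 921956822) (nat_lit 121) (nat_lit 5) (nat_lit 126) (nat_lit 5) (nat_lit 122) (nat_lit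 5) (nat_lit 327) (nat_lit 266) (nat_lit 187)) (XT.nd (nat_lit 78) (nat_lit 380) (nat_lit 0) (XT.lf (nat_lit 0) (nat_lit 6538317862) (nat_lit 380) (nat_lit 7242802182) (nat_lit 456) (nat_lit 1290021582) (nat_lit 116) (nat_lit 5) (nat_lit 121) (nat_lit 5) (nat_lit 122) (nat_lit 5) (nat_lit 328) (nat_lit 266) (nat_lit 186)) (XT.lf (nat_lit 0) (nat_lit 2958417845) (nat_lit 304) (nat_lit 368928399) (nat_lit 380) (nat_lit 12040562018) (nat_lit 111) (nat_lit 5) (nat_lit 115) (nat_lit 5) (nat_lit 116) (nat_lit 5) (nat_lit 329) (nat_lit 266) (nat_lit 185)))) (XT.nd (nat_lit 156) (nat_lit 684) (nat_lit 0) (XT.nd (nat_lit 78) (nat_lit 380) (nat_lit 0) (XT.lf (nat_lit 0) (nat_lit 8131952084) (nat_lit 380) (nat_lit 867708589) (nat_lit 76) (nat_lit 6672437855) (nat_lit 111) (nat_lit 5) (nat_lit 116) (nat_lit 5) (nat_lit 112) (nat_lit 5) (nat_lit 330) (nat_lit 266) (nat_lit 184)) (XT.lf (nat_lit 0) (nat_lit 11111256237)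 (nat_lit 380) (nat_lit 2009452642) (nat_lit 456) (nat_lit 2863920936) (nat_lit 106) (nat_lit 5) (nat_lit 111) (nat_lit 5) (nat_lit 112) (nat_lit 5) (nat_lit 331) (nat_lit 266) (nat_lit 183))) (XT.nd (nat_lit 78) (nat_lit 304) (nat_lit 0) (XT.lf (nat_lit 0) (nat_lit 1979403102) (nat_lit 380) (nat_lit 9155337093) (nat_lit 76) (nat_lit 5170509711) (nat_lit 101) (nat_lit 5) (nat_lit 106) (nat_lit 5) (nat_lit 102) (nat_lit 5) (nat_lit 332) (nat_lit 266) (nat_lit 182)) (XT.lf (nat_lit 0) (nat_lit 2919582453) (nat_lit 304) (nat_lit 4041779592) (nat_lit 380) (nat_lit 9673117438) (nat_lit 97) (nat_lit 5) (nat_lit 101) (nat_lit 5) (nat_lit 102) (nat_lit 5) (nat_lit 333) (nat_lit 266) (nat_lit 181))))) (XT.nd (nat_lit 234) (nat_lit 836) (nat_lit 0) (XT.nd (nat_lit 78) (nat_lit 684) (nat_lit 0) (XT.lf (nat_lit 0) (nat_lit 12143341499) (nat_lit 380) (nat_lit 1563273873) (nat_lit 76) (nat_lit 3265973312) (nat_lit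 97) (nat_lit 5) (nat_lit 102) (nat_lit 5) (nat_lit 98) (nat_lit 5) (nat_lit 334) (nat_lit 266) (nat_lit 180)) (XT.nd (nat_lit 78) (nat_lit 304) (nat_lit 0) (XT.lf (nat_lit 0) (nat_lit 224733009) (nat_lit 380) (nat_lit 6300497540) (nat_lit 76) (nat_lit 10794265310) (nat_lit 92) (nat_lit 5) (nat_lit 97) (nat_lit 5) (nat_lit 93) (nat_lit 5) (nat_lit 335) (nat_lit 266) (nat_lit 179)) (XT.lf (nat_lit 0) (nat_lit 5391200986) (nat_lit 380) (nat_lit 11357278853) (nat_lit 76) (nat_lit 927175314) (nat_lit 88) (nat_lit 5) (nat_lit 93) (nat_lit 5) (nat_lit 89) (nat_lit 5) (nat_lit 336) (nat_lit 266) (nat_lit 178)))) (XT.nd (nat_lit 156) (nat_lit 608) (nat_lit 0) (XT.nd (nat_lit 78) (nat_lit 0) (nat_lit 0) (XT.lf (nat_lit 0) (nat_lit 1284094169) (nat_lit 228) (nat_lit 9492291544) (nat_lit 304) (nat_lit 7264851594) (nat_lit 85) (nat_lit 5) (nat_lit 88) (nat_lit 5) (nat_lit 89) (nat_lit 5) (nat_lit 337) (nat_lit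 266) (nat_lit 177)) (XT.lf (nat_lit 0) (nat_lit 14411727151) (nat_lit 228) (nat_lit 1957725898) (nat_lit 304) (nat_lit 2047419501) (nat_lit 85) (nat_lit 5) (nat_lit 88) (nat_lit 5) (nat_lit 89) (nat_lit 5) (nat_lit 338) (nat_lit 266) (nat_lit 176))) (XT.nd (nat_lit 78) (nat_lit 228) (nat_lit 0) (XT.lf (nat_lit 0) (nat_lit 3350665694) (nat_lit 380) (nat_lit 9660082013) (nat_lit 76) (nat_lit 5791253602) (nat_lit 80) (nat_lit 5) (nat_lit 85) (nat_lit 5) (nat_lit 81) (nat_lit 5) (nat_lit 339) (nat_lit 266) (nat_lit 175)) (XT.lf (nat_lit 0) (nat_lit 3512017615) (nat_lit 228) (nat_lit 5404739609) (nat_lit 304) (nat_lit 10280989677) (nat_lit 77) (nat_lit 5) (nat_lit 80) (nat_lit 5) (nat_lit 81) (nat_lit 5) (nat_lit 340) (nat_lit 266) (nat_lit 174))))))))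
noncomputable def xc63 : XT := (XT.nd (nat_lit 35334) (nat_lit 0) (nat_lit 19304) (XT.nd (nat_lit 1014) (nat_lit 1064) (nat_lit 0) (XT.nd (nat_lit 468) (nat_lit 988) (nat_lit 0) (XT.nd (nat_lit 234) (nat_lit 532) (nat_lit 0) (XT.nd (nat_lit 78) (nat_lit 608) (nat_lit 0) (XT.lf (nat_lit 0) (nat_lit 14702450060) (nat_lit 304) (nat_lit 2455622092) (nat_lit 76) (nat_lit 2446251258) (nat_lit 77) (nat_lit 5) (nat_lit 81) (nat_lit 5) (nat_lit 78) (nat_lit 5) (nat_lit 341) (nat_lit 266) (nat_lit 173)) (XT.nd (nat_lit 78) (nat_lit 228) (nat_lit 0) (XT.lf (nat_lit 0) (nat_lit 711666671) (nat_lit 380) (nat_lit 8789053755) (nat_lit 76) (nat_lit 10520675736) (nat_lit 72) (nat_lit 5) (nat_lit 77) (nat_lit 5) (nat_lit 73) (nat_lit 5) (nat_lit 342) (nat_lit 266) (nat_lit 172)) (XT.lf (nat_lit 0) (nat_lit 4900140157) (nat_lit 228) (nat_lit 1547955474) (nat_lit 304) (nat_lit 14001825927) (nat_lit 69) (nat_lit 5)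 (nat_lit 72) (nat_lit 5) (nat_lit 73) (nat_lit 5) (nat_lit 343) (nat_lit 266) (nat_lit 171)))) (XT.nd (nat_lit 78) (nat_lit 532) (nat_lit 0) (XT.lf (nat_lit 0) (nat_lit 12432250124) (nat_lit 304) (nat_lit 1858182168) (nat_lit 76) (nat_lit 6599367566) (nat_lit 69) (nat_lit 5) (nat_lit 73) (nat_lit 5) (nat_lit 70) (nat_lit 5) (nat_lit 344) (nat_lit 266) (nat_lit 170)) (XT.nd (nat_lit 78) (nat_lit 304) (nat_lit 0) (XT.lf (nat_lit 0) (nat_lit 12352263183) (nat_lit 228) (nat_lit 6307564135) (nat_lit 304) (nat_lit 2681778739) (nat_lit 66) (nat_lit 5) (nat_lit 69) (nat_lit 5) (nat_lit 70) (nat_lit 5) (nat_lit 345) (nat_lit 266) (nat_lit 169)) (XT.lf (nat_lit 0) (nat_lit 3257360736) (nat_lit 304) (nat_lit 16607326732) (nat_lit 76) (nat_lit 1941204835) (nat_lit 62) (nat_lit 5) (nat_lit 66) (nat_lit 5) (nat_lit 63) (nat_lit 5) (nat_lit 346) (nat_lit 266) (nat_lit 168))))) (XT.nd (nat_lit 234) (nat_lit 532)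 (nat_lit 0) (XT.nd (nat_lit 78) (nat_lit 456) (nat_lit 0) (XT.lf (nat_lit 0) (nat_lit 9415992632) (nat_lit 304) (nat_lit 2451170392) (nat_lit 76) (nat_lit 10415043311) (nat_lit 62) (nat_lit 5) (nat_lit 66) (nat_lit 5) (nat_lit 63) (nat_lit 5) (nat_lit 347) (nat_lit 266) (nat_lit 167)) (XT.nd (nat_lit 78) (nat_lit 228) (nat_lit 0) (XT.lf (nat_lit 0) (nat_lit 12248642688) (nat_lit 228) (nat_lit 3565068947) (nat_lit 304) (nat_lit 6958020121) (nat_lit 59) (nat_lit 5) (nat_lit 62) (nat_lit 5) (nat_lit 63) (nat_lit 5) (nat_lit 348) (nat_lit 266) (nat_lit 166)) (XT.lf (nat_lit 0) (nat_lit 4127650994) (nat_lit 228) (nat_lit 18326767555) (nat_lit 304) (nat_lit 820511547) (nat_lit 56) (nat_lit 5) (nat_lit 59) (nat_lit 5) (nat_lit 60) (nat_lit 5) (nat_lit 349) (nat_lit 266) (nat_lit 165)))) (XT.nd (nat_lit 156) (nat_lit 228) (nat_lit 0) (XT.nd (nat_lit 78) (nat_lit 228) (nat_lit 0) (XT.lf (nat_lit 0) (nat_lit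 5500048899) (nat_lit 304) (nat_lit 4530928516) (nat_lit 76) (nat_lit 13760119021) (nat_lit 55) (nat_lit 5) (nat_lit 59) (nat_lit 5) (nat_lit 56) (nat_lit 5) (nat_lit 350) (nat_lit 266) (nat_lit 164)) (XT.lf (nat_lit 0) (nat_lit 10617820989) (nat_lit 228) (nat_lit 1426427676) (nat_lit 304) (nat_lit 12277494884) (nat_lit 52) (nat_lit 5) (nat_lit 55) (nat_lit 5) (nat_lit 56) (nat_lit 5) (nat_lit 351) (nat_lit 266) (nat_lit 163))) (XT.nd (nat_lit 78) (nat_lit 76) (nat_lit 0) (XT.lf (nat_lit 0) (nat_lit 1344926534) (nat_lit 152) (nat_lit 17504272870) (nat_lit 228) (nat_lit 6017829604) (nat_lit 50) (nat_lit 5) (nat_lit 52) (nat_lit 5) (nat_lit 53) (nat_lit 5) (nat_lit 352) (nat_lit 266) (nat_lit 162)) (XT.lf (nat_lit 0) (nat_lit 503784237) (nat_lit 228) (nat_lit 8446195250) (nat_lit 76) (nat_lit 16477048966) (nat_lit 49) (nat_lit 5) (nat_lit 52) (nat_lit 5) (nat_lit 50) (nat_lit 5) (nat_lit 353) (nat_lit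 266) (nat_lit 161)))))) (XT.nd (nat_lit 546) (nat_lit 228) (nat_lit 0) (XT.nd (nat_lit 234) (nat_lit 456) (nat_lit 0) (XT.nd (nat_lit 78) (nat_lit 152) (nat_lit 0) (XT.lf (nat_lit 0) (nat_lit 7096704839) (nat_lit 228) (nat_lit 66578882) (nat_lit 304) (nat_lit 18839275551) (nat_lit 46) (nat_lit 5) (nat_lit 49) (nat_lit 5) (nat_lit 50) (nat_lit 5) (nat_lit 354) (nat_lit 266) (nat_lit 160)) (XT.nd (nat_lit 78) (nat_lit 152) (nat_lit 0) (XT.lf (nat_lit 0) (nat_lit 14116923147) (nat_lit 304) (nat_lit 3469906781) (nat_lit 76) (nat_lit 9006645657) (nat_lit 46) (nat_lit 5) (nat_lit 50) (nat_lit 5) (nat_lit 47) (nat_lit 5) (nat_lit 355) (nat_lit 266) (nat_lit 159)) (XT.lf (nat_lit 0) (nat_lit 12556612370) (nat_lit 152) (nat_lit 8782944924) (nat_lit 228) (nat_lit 5861360857) (nat_lit 44) (nat_lit 5) (nat_lit 46) (nat_lit 5) (nat_lit 47) (nat_lit 5) (nat_lit 356) (nat_lit 266) (nat_lit 158)))) (XT.nd (nat_lit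 156) (nat_lit 152) (nat_lit 0) (XT.nd (nat_lit 78) (nat_lit 0) (nat_lit 0) (XT.lf (nat_lit 0) (nat_lit 952307006) (nat_lit 304) (nat_lit 26569214462) (nat_lit 76) (nat_lit 304694831) (nat_lit 40) (nat_lit 5) (nat_lit 44) (nat_lit 5) (nat_lit 41) (nat_lit 5) (nat_lit 357) (nat_lit 266) (nat_lit 157)) (XT.lf (nat_lit 0) (nat_lit 8028786932) (nat_lit 304) (nat_lit 10767251209) (nat_lit 76) (nat_lit 9670705662) (nat_lit 40) (nat_lit 5) (nat_lit 44) (nat_lit 5) (nat_lit 41) (nat_lit 5) (nat_lit 358) (nat_lit 266) (nat_lit 156))) (XT.nd (nat_lit 78) (nat_lit 0) (nat_lit 0) (XT.lf (nat_lit 0) (nat_lit 5546391879) (nat_lit 152) (nat_lit 9786747168) (nat_lit 228) (nat_lit 13793042340) (nat_lit 38) (nat_lit 5) (nat_lit 40) (nat_lit 5) (nat_lit 41) (nat_lit 5) (nat_lit 359) (nat_lit 266) (nat_lit 155)) (XT.lf (nat_lit 0) (nat_lit 22462276904) (nat_lit 152) (nat_lit 447244861) (nat_lit 228) (nat_lit 6894827970)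 (nat_lit 38) (nat_lit 5) (nat_lit 40) (nat_lit 5) (nat_lit 41) (nat_lit 5) (nat_lit 360) (nat_lit 266) (nat_lit 154))))) (XT.nd (nat_lit 33462) (nat_lit 0) (nat_lit 40964) (XT.nd (nat_lit 33306) (nat_lit 0) (nat_lit 42560) (XT.lf (nat_lit 0) (nat_lit 309337029) (nat_lit 228) (nat_lit 21090057652) (nat_lit 76) (nat_lit 9101411253) (nat_lit 35) (nat_lit 5) (nat_lit 38) (nat_lit 5) (nat_lit 36) (nat_lit 5) (nat_lit 361) (nat_lit 266) (nat_lit 153)) (XT.nd (nat_lit 78) (nat_lit 0) (nat_lit 0) (XT.lf (nat_lit 0) (nat_lit 418341505) (nat_lit 0) (nat_lit 418341505) (nat_lit 684) (nat_lit 2491371314) (nat_lit 595) (nat_lit 5) (nat_lit 595) (nat_lit 3) (nat_lit 604) (nat_lit 3) (nat_lit 267) (nat_lit 267) (nat_lit 246)) (XT.lf (nat_lit 0) (nat_lit 4910033946) (nat_lit 684) (nat_lit 1187967322) (nat_lit 760) (nat_lit 589974816) (nat_lit 595) (nat_lit 5) (nat_lit 604) (nat_lit 3) (nat_lit 605) (nat_lit 5)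 (nat_lit 268) (nat_lit 267) (nat_lit 245)))) (XT.nd (nat_lit 156) (nat_lit 836) (nat_lit 0) (XT.nd (nat_lit 78) (nat_lit 0) (nat_lit 0) (XT.lf (nat_lit 0) (nat_lit 1406162017) (nat_lit 760) (nat_lit 3174266770) (nat_lit 836) (nat_lit 2142253514) (nat_lit 585) (nat_lit 5) (nat_lit 595) (nat_lit 5) (nat_lit 596) (nat_lit 5) (nat_lit 269) (nat_lit 267) (nat_lit 244)) (XT.lf (nat_lit 76) (nat_lit 1627937981) (nat_lit 0) (nat_lit 2929996165) (nat_lit 836) (nat_lit 2202473549) (nat_lit 586) (nat_lit 5) (nat_lit 585) (nat_lit 5) (nat_lit 596) (nat_lit 5) (nat_lit 270) (nat_lit 267) (nat_lit 243))) (XT.nd (nat_lit 78) (nat_lit 0) (nat_lit 76) (XT.lf (nat_lit 0) (nat_lit 893176338) (nat_lit 836) (nat_lit 254849677) (nat_lit 912) (nat_lit 5653213428) (nat_lit 574) (nat_lit 5) (nat_lit 585) (nat_lit 5) (nat_lit 586) (nat_lit 5) (nat_lit 271) (nat_lit 267) (nat_lit 242)) (XT.lf (nat_lit 0) (nat_lit 3971108618)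 (nat_lit 836) (nat_lit 2098315573) (nat_lit 912) (nat_lit 775322554) (nat_lit 575) (nat_lit 5) (nat_lit 586) (nat_lit 5) (nat_lit 587) (nat_lit 5) (nat_lit 272) (nat_lit 267) (nat_lit 241))))))) (XT.nd (nat_lit 1014) (nat_lit 14136) (nat_lit 0) (XT.nd (nat_lit 468) (nat_lit 4788) (nat_lit 0) (XT.nd (nat_lit 234) (nat_lit 1900) (nat_lit 0) (XT.nd (nat_lit 78) (nat_lit 0) (nat_lit 0) (XT.lf (nat_lit 0) (nat_lit 163095852) (nat_lit 912) (nat_lit 3916114440) (nat_lit 988) (nat_lit 2812146994) (nat_lit 563) (nat_lit 5) (nat_lit 575) (nat_lit 5) (nat_lit 576) (nat_lit 5) (nat_lit 273) (nat_lit 267) (nat_lit 240)) (XT.nd (nat_lit 78) (nat_lit 0) (nat_lit 76) (XT.lf (nat_lit 76) (nat_lit 1220098094) (nat_lit 0) (nat_lit 1942799636) (nat_lit 988) (nat_lit 3777987108) (nat_lit 564) (nat_lit 5) (nat_lit 563) (nat_lit 5) (nat_lit 576) (nat_lit 5) (nat_lit 274) (nat_lit 267) (nat_lit 239)) (XT.lf (nat_lit 0)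 (nat_lit 6172721983) (nat_lit 912) (nat_lit 497928462) (nat_lit 988) (nat_lit 322962483) (nat_lit 564) (nat_lit 5) (nat_lit 576) (nat_lit 5) (nat_lit 577) (nat_lit 5) (nat_lit 275) (nat_lit 267) (nat_lit 238)))) (XT.nd (nat_lit 78) (nat_lit 988) (nat_lit 0) (XT.lf (nat_lit 0) (nat_lit 2134608497) (nat_lit 988) (nat_lit 2197564625) (nat_lit 1064) (nat_lit 2716793139) (nat_lit 551) (nat_lit 5) (nat_lit 564) (nat_lit 5) (nat_lit 565) (nat_lit 5) (nat_lit 276) (nat_lit 267) (nat_lit 237)) (XT.nd (nat_lit 78) (nat_lit 988) (nat_lit 0) (XT.lf (nat_lit 76) (nat_lit 3231879558) (nat_lit 0) (nat_lit 1856834372) (nat_lit 1064) (nat_lit 2018842398) (nat_lit 552) (nat_lit 5) (nat_lit 551) (nat_lit 5) (nat_lit 565) (nat_lit 5) (nat_lit 277) (nat_lit 267) (nat_lit 236)) (XT.lf (nat_lit 0) (nat_lit 879894664) (nat_lit 1064) (nat_lit 5540040070) (nat_lit 1140) (nat_lit 749365780) (nat_lit 538) (nat_lit 5) (nat_lit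 552) (nat_lit 5) (nat_lit 553) (nat_lit 5) (nat_lit 278) (nat_lit 267) (nat_lit 235))))) (XT.nd (nat_lit 234) (nat_lit 3724) (nat_lit 0) (XT.nd (nat_lit 78) (nat_lit 1064) (nat_lit 0) (XT.lf (nat_lit 76) (nat_lit 25600670) (nat_lit 0) (nat_lit 3752942396) (nat_lit 1140) (nat_lit 3455377966) (nat_lit 539) (nat_lit 5) (nat_lit 538) (nat_lit 5) (nat_lit 553) (nat_lit 5) (nat_lit 279) (nat_lit 267) (nat_lit 234)) (XT.nd (nat_lit 78) (nat_lit 1064) (nat_lit 0) (XT.lf (nat_lit 76) (nat_lit 5766489952) (nat_lit 0) (nat_lit 938841684) (nat_lit 1140) (nat_lit 596420493) (nat_lit 539) (nat_lit 5) (nat_lit 538) (nat_lit 5) (nat_lit 553) (nat_lit 5) (nat_lit 280) (nat_lit 267) (nat_lit 233)) (XT.lf (nat_lit 0) (nat_lit 2264229891) (nat_lit 1140) (nat_lit 3103949538) (nat_lit 76) (nat_lit 2004290318) (nat_lit 524) (nat_lit 5) (nat_lit 539) (nat_lit 5) (nat_lit 525) (nat_lit 5) (nat_lit 281) (nat_lit 267) (nat_lit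 232)))) (XT.nd (nat_lit 156) (nat_lit 1292) (nat_lit 0) (XT.nd (nat_lit 78) (nat_lit 1292) (nat_lit 0) (XT.lf (nat_lit 0) (nat_lit 2780520677) (nat_lit 1140) (nat_lit 2365148719) (nat_lit 1216) (nat_lit 2300787522) (nat_lit 509) (nat_lit 5) (nat_lit 524) (nat_lit 5) (nat_lit 525) (nat_lit 5) (nat_lit 282) (nat_lit 267) (nat_lit 231)) (XT.lf (nat_lit 0) (nat_lit 527672096) (nat_lit 1292) (nat_lit 6222162687) (nat_lit 76) (nat_lit 773945597) (nat_lit 492) (nat_lit 5) (nat_lit 509) (nat_lit 5) (nat_lit 493) (nat_lit 5) (nat_lit 283) (nat_lit 267) (nat_lit 230))) (XT.nd (nat_lit 78) (nat_lit 1292) (nat_lit 0) (XT.lf (nat_lit 0) (nat_lit 3369662224) (nat_lit 1292) (nat_lit 191132099) (nat_lit 76) (nat_lit 4043207974) (nat_lit 492) (nat_lit 5) (nat_lit 509) (nat_lit 5) (nat_lit 493) (nat_lit 5) (nat_lit 284) (nat_lit 267) (nat_lit 229)) (XT.lf (nat_lit 0) (nat_lit 6032967759) (nat_lit 1292) (nat_lit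 217787311) (nat_lit 1368) (nat_lit 1436878188) (nat_lit 475) (nat_lit 5) (nat_lit 492) (nat_lit 5) (nat_lit 493) (nat_lit 5) (nat_lit 285) (nat_lit 267) (nat_lit 228)))))) (XT.nd (nat_lit 546) (nat_lit 5016) (nat_lit 0) (XT.nd (nat_lit 234) (nat_lit 4712) (nat_lit 0) (XT.nd (nat_lit 78) (nat_lit 2964) (nat_lit 0) (XT.lf (nat_lit 0) (nat_lit 1394529653) (nat_lit 1444) (nat_lit 3138765907) (nat_lit 76) (nat_lit 3240986098) (nat_lit 456) (nat_lit 5) (nat_lit 475) (nat_lit 5) (nat_lit 457) (nat_lit 5) (nat_lit 286) (nat_lit 267) (nat_lit 227)) (XT.nd (nat_lit 78) (nat_lit 1520) (nat_lit 0) (XT.lf (nat_lit 0) (nat_lit 3237249601) (nat_lit 1444) (nat_lit 1006202668) (nat_lit 1520) (nat_lit 3620918638) (nat_lit 437) (nat_lit 5) (nat_lit 456) (nat_lit 5) (nat_lit 457) (nat_lit 5) (nat_lit 287) (nat_lit 267) (nat_lit 226)) (XT.lf (nat_lit 0) (nat_lit 1829098933) (nat_lit 1520) (nat_lit 5319338887) (nat_lit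 1596) (nat_lit 809384205) (nat_lit 417) (nat_lit 5) (nat_lit 437) (nat_lit 5) (nat_lit 438) (nat_lit 5) (nat_lit 288) (nat_lit 267) (nat_lit 225)))) (XT.nd (nat_lit 156) (nat_lit 3040) (nat_lit 0) (XT.nd (nat_lit 78) (nat_lit 0) (nat_lit 0) (XT.lf (nat_lit 0) (nat_lit 405258236) (nat_lit 1596) (nat_lit 1616352569) (nat_lit 1672) (nat_lit 6033013022) (nat_lit 395) (nat_lit 5) (nat_lit 416) (nat_lit 5) (nat_lit 417) (nat_lit 5) (nat_lit 289) (nat_lit 267) (nat_lit 224)) (XT.lf (nat_lit 0) (nat_lit 4906140410) (nat_lit 1672) (nat_lit 1023319074) (nat_lit 76) (nat_lit 2225236880) (nat_lit 395) (nat_lit 5) (nat_lit 417) (nat_lit 5) (nat_lit 396) (nat_lit 5) (nat_lit 290) (nat_lit 267) (nat_lit 223))) (XT.nd (nat_lit 78) (nat_lit 1368) (nat_lit 0) (XT.lf (nat_lit 0) (nat_lit 5799761473) (nat_lit 1672) (nat_lit 2051602935) (nat_lit 1748) (nat_lit 406987288) (nat_lit 373) (nat_lit 5) (nat_lit 395) (nat_lit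 5) (nat_lit 396) (nat_lit 5) (nat_lit 291) (nat_lit 267) (nat_lit 222)) (XT.lf (nat_lit 0) (nat_lit 2462549888) (nat_lit 1368) (nat_lit 3927000764) (nat_lit 76) (nat_lit 1975784155) (nat_lit 355) (nat_lit 5) (nat_lit 373) (nat_lit 5) (nat_lit 356) (nat_lit 5) (nat_lit 292) (nat_lit 267) (nat_lit 221))))) (XT.nd (nat_lit 234) (nat_lit 2432) (nat_lit 0) (XT.nd (nat_lit 78) (nat_lit 1748) (nat_lit 0) (XT.lf (nat_lit 0) (nat_lit 3056778255) (nat_lit 836) (nat_lit 2334860013) (nat_lit 912) (nat_lit 3084314401) (nat_lit 344) (nat_lit 5) (nat_lit 355) (nat_lit 5) (nat_lit 356) (nat_lit 5) (nat_lit 293) (nat_lit 267) (nat_lit 220)) (XT.nd (nat_lit 78) (nat_lit 912) (nat_lit 0) (XT.lf (nat_lit 0) (nat_lit 1656291352) (nat_lit 836) (nat_lit 6732101115) (nat_lit 912) (nat_lit 201957967) (nat_lit 333) (nat_lit 5) (nat_lit 344) (nat_lit 5) (nat_lit 345) (nat_lit 5) (nat_lit 294) (nat_lit 267) (nat_lit 219))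 (XT.lf (nat_lit 0) (nat_lit 212080616) (nat_lit 836) (nat_lit 2503845027) (nat_lit 912) (nat_lit 5992242790) (nat_lit 321) (nat_lit 5) (nat_lit 332) (nat_lit 5) (nat_lit 333) (nat_lit 5) (nat_lit 295) (nat_lit 267) (nat_lit 218)))) (XT.nd (nat_lit 156) (nat_lit 1596) (nat_lit 0) (XT.nd (nat_lit 78) (nat_lit 836) (nat_lit 0) (XT.lf (nat_lit 0) (nat_lit 5710893488) (nat_lit 912) (nat_lit 1242676410) (nat_lit 76) (nat_lit 1876131431) (nat_lit 321) (nat_lit 5) (nat_lit 333) (nat_lit 5) (nat_lit 322) (nat_lit 5) (nat_lit 296) (nat_lit 267) (nat_lit 217)) (XT.lf (nat_lit 0) (nat_lit 6227311115) (nat_lit 836) (nat_lit 2560485847) (nat_lit 912) (nat_lit 167292866) (nat_lit 310) (nat_lit 5) (nat_lit 321) (nat_lit 5) (nat_lit 322) (nat_lit 5) (nat_lit 297) (nat_lit 267) (nat_lit 216))) (XT.nd (nat_lit 78) (nat_lit 760) (nat_lit 0) (XT.lf (nat_lit 0) (nat_lit 2823992845) (nat_lit 836) (nat_lit 4264297988)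 (nat_lit 76) (nat_lit 1995846944) (nat_lit 299) (nat_lit 5) (nat_lit 310) (nat_lit 5) (nat_lit 300) (nat_lit 5) (nat_lit 298) (nat_lit 267) (nat_lit 215)) (XT.lf (nat_lit 0) (nat_lit 3374425375) (nat_lit 760) (nat_lit 2523318045) (nat_lit 836) (nat_lit 3319439096) (nat_lit 289) (nat_lit 5) (nat_lit 299) (nat_lit 5) (nat_lit 300) (nat_lit 5) (nat_lit 299) (nat_lit 267) (nat_lit 214))))))))
noncomputable def xc64 : XT := (XT.nd (nat_lit 2028) (nat_lit 6004) (nat_lit 0) (XT.nd (nat_lit 1014) (nat_lit 4864) (nat_lit 0) (XT.nd (nat_lit 468) (nat_lit 3572) (nat_lit 0) (XT.nd (nat_lit 234) (nat_lit 2052) (nat_lit 0) (XT.nd (nat_lit 78) (nat_lit 836) (nat_lit 0) (XT.lf (nat_lit 0) (nat_lit 1891328479) (nat_lit 684) (nat_lit 7166617032) (nat_lit 760) (nat_lit 296434376) (nat_lit 280) (nat_lit 5) (nat_lit 289) (nat_lit 5) (nat_lit 290) (nat_lit 5) (nat_lit 300) (nat_lit 267) (nat_lit 213)) (XT.nd (nat_lit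 78) (nat_lit 0) (nat_lit 0) (XT.lf (nat_lit 0) (nat_lit 345664420) (nat_lit 760) (nat_lit 2433268322) (nat_lit 836) (nat_lit 6716466036) (nat_lit 269) (nat_lit 5) (nat_lit 279) (nat_lit 5) (nat_lit 280) (nat_lit 5) (nat_lit 301) (nat_lit 267) (nat_lit 212)) (XT.lf (nat_lit 0) (nat_lit 5950265185) (nat_lit 836) (nat_lit 1233080023) (nat_lit 76) (nat_lit 2457151777) (nat_lit 269) (nat_lit 5) (nat_lit 280) (nat_lit 5) (nat_lit 270) (nat_lit 5) (nat_lit 302) (nat_lit 267) (nat_lit 211)))) (XT.nd (nat_lit 78) (nat_lit 1368) (nat_lit 0) (XT.lf (nat_lit 0) (nat_lit 6931567174) (nat_lit 684) (nat_lit 2289113333) (nat_lit 760) (nat_lit 569230107) (nat_lit 260) (nat_lit 5) (nat_lit 269) (nat_lit 5) (nat_lit 270) (nat_lit 5) (nat_lit 303) (nat_lit 267) (nat_lit 210)) (XT.nd (nat_lit 78) (nat_lit 608) (nat_lit 0) (XT.lf (nat_lit 0) (nat_lit 2615941757) (nat_lit 760) (nat_lit 4557837748) (nat_lit 76) (nat_lit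 2769618275) (nat_lit 250) (nat_lit 5) (nat_lit 260) (nat_lit 5) (nat_lit 251) (nat_lit 5) (nat_lit 304) (nat_lit 267) (nat_lit 209)) (XT.lf (nat_lit 0) (nat_lit 3781202065) (nat_lit 608) (nat_lit 2111836057) (nat_lit 684) (nat_lit 4208332324) (nat_lit 242) (nat_lit 5) (nat_lit 250) (nat_lit 5) (nat_lit 251) (nat_lit 5) (nat_lit 305) (nat_lit 267) (nat_lit 208))))) (XT.nd (nat_lit 234) (nat_lit 2280) (nat_lit 0) (XT.nd (nat_lit 78) (nat_lit 684) (nat_lit 0) (XT.lf (nat_lit 0) (nat_lit 2112727223) (nat_lit 608) (nat_lit 7166515328) (nat_lit 684) (nat_lit 984660922) (nat_lit 234) (nat_lit 5) (nat_lit 242) (nat_lit 5) (nat_lit 243) (nat_lit 5) (nat_lit 306) (nat_lit 267) (nat_lit 207)) (XT.nd (nat_lit 78) (nat_lit 0) (nat_lit 0) (XT.lf (nat_lit 0) (nat_lit 366216190) (nat_lit 608) (nat_lit 1945112864) (nat_lit 684) (nat_lit 8119590598) (nat_lit 225) (nat_lit 5) (nat_lit 233) (nat_lit 5) (nat_lit 234)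 (nat_lit 5) (nat_lit 307) (nat_lit 267) (nat_lit 206)) (XT.lf (nat_lit 0) (nat_lit 5718497181) (nat_lit 684) (nat_lit 1444034593) (nat_lit 76) (nat_lit 3439805117) (nat_lit 225) (nat_lit 5) (nat_lit 234) (nat_lit 5) (nat_lit 226) (nat_lit 5) (nat_lit 308) (nat_lit 267) (nat_lit 205)))) (XT.nd (nat_lit 156) (nat_lit 1064) (nat_lit 0) (XT.nd (nat_lit 78) (nat_lit 608) (nat_lit 0) (XT.lf (nat_lit 0) (nat_lit 7458258600) (nat_lit 608) (nat_lit 1780286813) (nat_lit 684) (nat_lit 1540171205) (nat_lit 217) (nat_lit 5) (nat_lit 225) (nat_lit 5) (nat_lit 226) (nat_lit 5) (nat_lit 309) (nat_lit 267) (nat_lit 204)) (XT.lf (nat_lit 0) (nat_lit 1900326213) (nat_lit 608) (nat_lit 5297121192) (nat_lit 76) (nat_lit 3762295033) (nat_lit 209) (nat_lit 5) (nat_lit 217) (nat_lit 5) (nat_lit 210) (nat_lit 5) (nat_lit 310) (nat_lit 267) (nat_lit 203))) (XT.nd (nat_lit 78) (nat_lit 532) (nat_lit 0) (XT.lf (nat_lit 0)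 (nat_lit 3780688731) (nat_lit 532) (nat_lit 1652592212) (nat_lit 608) (nat_lit 5712541882) (nat_lit 202) (nat_lit 5) (nat_lit 209) (nat_lit 5) (nat_lit 210) (nat_lit 5) (nat_lit 311) (nat_lit 267) (nat_lit 202)) (XT.lf (nat_lit 0) (nat_lit 1802272352) (nat_lit 532) (nat_lit 7296039269) (nat_lit 608) (nat_lit 2238682106) (nat_lit 195) (nat_lit 5) (nat_lit 202) (nat_lit 5) (nat_lit 203) (nat_lit 5) (nat_lit 312) (nat_lit 267) (nat_lit 201)))))) (XT.nd (nat_lit 468) (nat_lit 2280) (nat_lit 0) (XT.nd (nat_lit 234) (nat_lit 1520) (nat_lit 0) (XT.nd (nat_lit 78) (nat_lit 988) (nat_lit 0) (XT.lf (nat_lit 0) (nat_lit 1335688195) (nat_lit 608) (nat_lit 268476195) (nat_lit 76) (nat_lit 9929312633) (nat_lit 194) (nat_lit 5) (nat_lit 202) (nat_lit 5) (nat_lit 195) (nat_lit 5) (nat_lit 313) (nat_lit 267) (nat_lit 200)) (XT.nd (nat_lit 78) (nat_lit 456) (nat_lit 0) (XT.lf (nat_lit 0) (nat_lit 5029599749) (nat_lit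 608) (nat_lit 2439522693) (nat_lit 76) (nat_lit 4265609508) (nat_lit 187) (nat_lit 5) (nat_lit 195) (nat_lit 5) (nat_lit 188) (nat_lit 5) (nat_lit 314) (nat_lit 267) (nat_lit 199)) (XT.lf (nat_lit 0) (nat_lit 7232490562) (nat_lit 456) (nat_lit 1616184468) (nat_lit 532) (nat_lit 3093089350) (nat_lit 181) (nat_lit 5) (nat_lit 187) (nat_lit 5) (nat_lit 188) (nat_lit 5) (nat_lit 315) (nat_lit 267) (nat_lit 198)))) (XT.nd (nat_lit 78) (nat_lit 912) (nat_lit 0) (XT.lf (nat_lit 0) (nat_lit 653050793) (nat_lit 608) (nat_lit 7106754247) (nat_lit 76) (nat_lit 4394467509) (nat_lit 173) (nat_lit 5) (nat_lit 181) (nat_lit 5) (nat_lit 174) (nat_lit 5) (nat_lit 316) (nat_lit 267) (nat_lit 197)) (XT.nd (nat_lit 78) (nat_lit 456) (nat_lit 0) (XT.lf (nat_lit 0) (nat_lit 2734489525) (nat_lit 456) (nat_lit 1752265995) (nat_lit 532) (nat_lit 7885672220) (nat_lit 167) (nat_lit 5) (nat_lit 173) (nat_lit 5) (nat_lit 174)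 (nat_lit 5) (nat_lit 317) (nat_lit 267) (nat_lit 196)) (XT.lf (nat_lit 0) (nat_lit 288288296) (nat_lit 456) (nat_lit 8183410791) (nat_lit 532) (nat_lit 4124727976) (nat_lit 161) (nat_lit 5) (nat_lit 167) (nat_lit 5) (nat_lit 168) (nat_lit 5) (nat_lit 318) (nat_lit 267) (nat_lit 195))))) (XT.nd (nat_lit 234) (nat_lit 1292) (nat_lit 0) (XT.nd (nat_lit 78) (nat_lit 988) (nat_lit 0) (XT.lf (nat_lit 0) (nat_lit 10574841683) (nat_lit 456) (nat_lit 2036257933) (nat_lit 532) (nat_lit 215371905) (nat_lit 161) (nat_lit 5) (nat_lit 167) (nat_lit 5) (nat_lit 168) (nat_lit 5) (nat_lit 319) (nat_lit 267) (nat_lit 194)) (XT.nd (nat_lit 78) (nat_lit 456) (nat_lit 0) (XT.lf (nat_lit 0) (nat_lit 3801270215) (nat_lit 532) (nat_lit 4958935393) (nat_lit 76) (nat_lit 4301939191) (nat_lit 154) (nat_lit 5) (nat_lit 161) (nat_lit 5) (nat_lit 155) (nat_lit 5) (nat_lit 320) (nat_lit 267) (nat_lit 193)) (XT.lf (nat_lit 0)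 (nat_lit 5495630671) (nat_lit 456) (nat_lit 2464157015) (nat_lit 532) (nat_lit 5344607632) (nat_lit 148) (nat_lit 5) (nat_lit 154) (nat_lit 5) (nat_lit 155) (nat_lit 5) (nat_lit 321) (nat_lit 267) (nat_lit 192)))) (XT.nd (nat_lit 156) (nat_lit 836) (nat_lit 0) (XT.nd (nat_lit 78) (nat_lit 76) (nat_lit 0) (XT.lf (nat_lit 0) (nat_lit 2731957275) (nat_lit 380) (nat_lit 9549115025) (nat_lit 456) (nat_lit 1272101753) (nat_lit 143) (nat_lit 5) (nat_lit 148) (nat_lit 5) (nat_lit 149) (nat_lit 5) (nat_lit 322) (nat_lit 267) (nat_lit 191)) (XT.lf (nat_lit 0) (nat_lit 2914855577) (nat_lit 456) (nat_lit 204021199) (nat_lit 76) (nat_lit 10689567661) (nat_lit 142) (nat_lit 5) (nat_lit 148) (nat_lit 5) (nat_lit 143) (nat_lit 5) (nat_lit 323) (nat_lit 267) (nat_lit 190))) (XT.nd (nat_lit 78) (nat_lit 380) (nat_lit 0) (XT.lf (nat_lit 0) (nat_lit 7265600605) (nat_lit 532) (nat_lit 3282803136) (nat_lit 76) (nat_lit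 3521711125) (nat_lit 136) (nat_lit 5) (nat_lit 143) (nat_lit 5) (nat_lit 137) (nat_lit 5) (nat_lit 324) (nat_lit 267) (nat_lit 189)) (XT.lf (nat_lit 0) (nat_lit 7799180743) (nat_lit 380) (nat_lit 3983234359) (nat_lit 456) (nat_lit 2556528144) (nat_lit 131) (nat_lit 5) (nat_lit 136) (nat_lit 5) (nat_lit 137) (nat_lit 5) (nat_lit 325) (nat_lit 267) (nat_lit 188))))))) (XT.nd (nat_lit 1014) (nat_lit 2508) (nat_lit 0) (XT.nd (nat_lit 468) (nat_lit 1596) (nat_lit 0) (XT.nd (nat_lit 234) (nat_lit 1140) (nat_lit 0) (XT.nd (nat_lit 78) (nat_lit 304) (nat_lit 0) (XT.lf (nat_lit 0) (nat_lit 1829056736) (nat_lit 456) (nat_lit 9995063018) (nat_lit 76) (nat_lit 2790818120) (nat_lit 125) (nat_lit 5) (nat_lit 131) (nat_lit 5) (nat_lit 126) (nat_lit 5) (nat_lit 326) (nat_lit 267) (nat_lit 187)) (XT.nd (nat_lit 78) (nat_lit 0) (nat_lit 0) (XT.lf (nat_lit 0) (nat_lit 1224311297) (nat_lit 304) (nat_lit 5130327789)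 (nat_lit 380) (nat_lit 8543389375) (nat_lit 121) (nat_lit 5) (nat_lit 125) (nat_lit 5) (nat_lit 126) (nat_lit 5) (nat_lit 327) (nat_lit 267) (nat_lit 186)) (XT.lf (nat_lit 0) (nat_lit 11059997573) (nat_lit 380) (nat_lit 2336044921) (nat_lit 76) (nat_lit 1792705947) (nat_lit 121) (nat_lit 5) (nat_lit 126) (nat_lit 5) (nat_lit 122) (nat_lit 5) (nat_lit 328) (nat_lit 267) (nat_lit 185)))) (XT.nd (nat_lit 78) (nat_lit 684) (nat_lit 0) (XT.lf (nat_lit 0) (nat_lit 473842503) (nat_lit 456) (nat_lit 6111077510) (nat_lit 76) (nat_lit 8902011681) (nat_lit 115) (nat_lit 5) (nat_lit 121) (nat_lit 5) (nat_lit 116) (nat_lit 5) (nat_lit 329) (nat_lit 267) (nat_lit 184)) (XT.nd (nat_lit 78) (nat_lit 380) (nat_lit 0) (XT.lf (nat_lit 0) (nat_lit 5180576900) (nat_lit 380) (nat_lit 10123397900) (nat_lit 76) (nat_lit 489112259) (nat_lit 111) (nat_lit 5) (nat_lit 116) (nat_lit 5) (nat_lit 112) (nat_lit 5) (nat_lit 330)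 (nat_lit 267) (nat_lit 183)) (XT.lf (nat_lit 0) (nat_lit 1707203878) (nat_lit 380) (nat_lit 8384526462) (nat_lit 456) (nat_lit 6015447520) (nat_lit 106) (nat_lit 5) (nat_lit 111) (nat_lit 5) (nat_lit 112) (nat_lit 5) (nat_lit 331) (nat_lit 267) (nat_lit 182))))) (XT.nd (nat_lit 234) (nat_lit 912) (nat_lit 0) (XT.nd (nat_lit 78) (nat_lit 684) (nat_lit 0) (XT.lf (nat_lit 0) (nat_lit 13981313398) (nat_lit 380) (nat_lit 1204569720) (nat_lit 456) (nat_lit 1244109650) (nat_lit 106) (nat_lit 5) (nat_lit 111) (nat_lit 5) (nat_lit 112) (nat_lit 5) (nat_lit 332) (nat_lit 267) (nat_lit 181)) (XT.nd (nat_lit 78) (nat_lit 304) (nat_lit 0) (XT.lf (nat_lit 0) (nat_lit 3695096851) (nat_lit 380) (nat_lit 6883617097) (nat_lit 76) (nat_lit 6181858214) (nat_lit 101) (nat_lit 5) (nat_lit 106) (nat_lit 5) (nat_lit 102) (nat_lit 5) (nat_lit 333) (nat_lit 267) (nat_lit 180)) (XT.lf (nat_lit 0) (nat_lit 5512238043) (nat_lit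 304) (nat_lit 3282298996) (nat_lit 380) (nat_lit 8305801789) (nat_lit 97) (nat_lit 5) (nat_lit 101) (nat_lit 5) (nat_lit 102) (nat_lit 5) (nat_lit 334) (nat_lit 267) (nat_lit 179)))) (XT.nd (nat_lit 156) (nat_lit 532) (nat_lit 0) (XT.nd (nat_lit 78) (nat_lit 76) (nat_lit 0) (XT.lf (nat_lit 0) (nat_lit 859867210) (nat_lit 304) (nat_lit 13235932548) (nat_lit 380) (nat_lit 3353535118) (nat_lit 93) (nat_lit 5) (nat_lit 97) (nat_lit 5) (nat_lit 98) (nat_lit 5) (nat_lit 335) (nat_lit 267) (nat_lit 178)) (XT.lf (nat_lit 0) (nat_lit 1794580388) (nat_lit 380) (nat_lit 4049232004) (nat_lit 76) (nat_lit 11963370115) (nat_lit 92) (nat_lit 5) (nat_lit 97) (nat_lit 5) (nat_lit 93) (nat_lit 5) (nat_lit 336) (nat_lit 267) (nat_lit 177))) (XT.nd (nat_lit 78) (nat_lit 228) (nat_lit 0) (XT.lf (nat_lit 0) (nat_lit 7091734481) (nat_lit 380) (nat_lit 9271659064) (nat_lit 76) (nat_lit 1811137721) (nat_lit 88) (nat_lit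 5) (nat_lit 93) (nat_lit 5) (nat_lit 89) (nat_lit 5) (nat_lit 337) (nat_lit 267) (nat_lit 176)) (XT.lf (nat_lit 0) (nat_lit 3709590694) (nat_lit 228) (nat_lit 8899562528) (nat_lit 304) (nat_lit 5942532081) (nat_lit 85) (nat_lit 5) (nat_lit 88) (nat_lit 5) (nat_lit 89) (nat_lit 5) (nat_lit 338) (nat_lit 267) (nat_lit 175)))))) (XT.nd (nat_lit 546) (nat_lit 1064) (nat_lit 0) (XT.nd (nat_lit 234) (nat_lit 836) (nat_lit 0) (XT.nd (nat_lit 78) (nat_lit 608) (nat_lit 0) (XT.lf (nat_lit 0) (nat_lit 17161529161) (nat_lit 228) (nat_lit 1164518100) (nat_lit 304) (nat_lit 613439114) (nat_lit 85) (nat_lit 5) (nat_lit 88) (nat_lit 5) (nat_lit 89) (nat_lit 5) (nat_lit 339) (nat_lit 267) (nat_lit 174)) (XT.nd (nat_lit 78) (nat_lit 228) (nat_lit 0) (XT.lf (nat_lit 0) (nat_lit 4904454757) (nat_lit 380) (nat_lit 7626199104) (nat_lit 76) (nat_lit 6805788003) (nat_lit 80) (nat_lit 5) (nat_lit 85) (nat_lit 5) (nat_lit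 81) (nat_lit 5) (nat_lit 340) (nat_lit 267) (nat_lit 173)) (XT.lf (nat_lit 0) (nat_lit 5903364479) (nat_lit 228) (nat_lit 4706678468) (nat_lit 304) (nat_lit 9134582738) (nat_lit 77) (nat_lit 5) (nat_lit 80) (nat_lit 5) (nat_lit 81) (nat_lit 5) (nat_lit 341) (nat_lit 267) (nat_lit 172)))) (XT.nd (nat_lit 156) (nat_lit 456) (nat_lit 0) (XT.nd (nat_lit 78) (nat_lit 380) (nat_lit 0) (XT.lf (nat_lit 0) (nat_lit 16533201247) (nat_lit 304) (nat_lit 287101485) (nat_lit 76) (nat_lit 3343834531) (nat_lit 77) (nat_lit 5) (nat_lit 81) (nat_lit 5) (nat_lit 78) (nat_lit 5) (nat_lit 342) (nat_lit 267) (nat_lit 171)) (XT.lf (nat_lit 0) (nat_lit 2106070291) (nat_lit 380) (nat_lit 6828168656) (nat_lit 76) (nat_lit 11659840888) (nat_lit 72) (nat_lit 5) (nat_lit 77) (nat_lit 5) (nat_lit 73) (nat_lit 5) (nat_lit 343) (nat_lit 267) (nat_lit 170))) (XT.nd (nat_lit 78) (nat_lit 228) (nat_lit 0) (XT.lf (nat_lit 0) (nat_lit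 7235610284) (nat_lit 228) (nat_lit 753198956) (nat_lit 304) (nat_lit 13047181891) (nat_lit 69) (nat_lit 5) (nat_lit 72) (nat_lit 5) (nat_lit 73) (nat_lit 5) (nat_lit 344) (nat_lit 267) (nat_lit 169)) (XT.lf (nat_lit 0) (nat_lit 235208035) (nat_lit 228) (nat_lit 13884869085) (nat_lit 304) (nat_lit 7369650943) (nat_lit 66) (nat_lit 5) (nat_lit 69) (nat_lit 5) (nat_lit 70) (nat_lit 5) (nat_lit 345) (nat_lit 267) (nat_lit 168))))) (XT.nd (nat_lit 234) (nat_lit 760) (nat_lit 0) (XT.nd (nat_lit 78) (nat_lit 304) (nat_lit 0) (XT.lf (nat_lit 0) (nat_lit 14834064825) (nat_lit 228) (nat_lit 5674344808) (nat_lit 304) (nat_lit 1447213902) (nat_lit 66) (nat_lit 5) (nat_lit 69) (nat_lit 5) (nat_lit 70) (nat_lit 5) (nat_lit 346) (nat_lit 267) (nat_lit 167)) (XT.nd (nat_lit 78) (nat_lit 0) (nat_lit 0) (XT.lf (nat_lit 0) (nat_lit 4633981325) (nat_lit 304) (nat_lit 14990584194) (nat_lit 76) (nat_lit 2809492518)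 (nat_lit 62) (nat_lit 5) (nat_lit 66) (nat_lit 5) (nat_lit 63) (nat_lit 5) (nat_lit 347) (nat_lit 267) (nat_lit 166)) (XT.lf (nat_lit 0) (nat_lit 10940122669) (nat_lit 304) (nat_lit 471344008) (nat_lit 76) (nat_lit 11513952414) (nat_lit 62) (nat_lit 5) (nat_lit 66) (nat_lit 5) (nat_lit 63) (nat_lit 5) (nat_lit 348) (nat_lit 267) (nat_lit 165)))) (XT.nd (nat_lit 156) (nat_lit 228) (nat_lit 0) (XT.nd (nat_lit 78) (nat_lit 304) (nat_lit 0) (XT.lf (nat_lit 0) (nat_lit 14636150114) (nat_lit 228) (nat_lit 2870574051) (nat_lit 304) (nat_lit 5923379338) (nat_lit 59) (nat_lit 5) (nat_lit 62) (nat_lit 5) (nat_lit 63) (nat_lit 5) (nat_lit 349) (nat_lit 267) (nat_lit 164)) (XT.lf (nat_lit 0) (nat_lit 375490739) (nat_lit 304) (nat_lit 17693213426) (nat_lit 76) (nat_lit 5880004380) (nat_lit 55) (nat_lit 5) (nat_lit 59) (nat_lit 5) (nat_lit 56) (nat_lit 5) (nat_lit 350) (nat_lit 267) (nat_lit 163))) (XT.nd (nat_lit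 78) (nat_lit 228) (nat_lit 0) (XT.lf (nat_lit 0) (nat_lit 6839354873) (nat_lit 304) (nat_lit 2702781686) (nat_lit 76) (nat_lit 14938829472) (nat_lit 55) (nat_lit 5) (nat_lit 59) (nat_lit 5) (nat_lit 56) (nat_lit 5) (nat_lit 351) (nat_lit 267) (nat_lit 162)) (XT.lf (nat_lit 0) (nat_lit 12868565525) (nat_lit 228) (nat_lit 689657251) (nat_lit 304) (nat_lit 11469753926) (nat_lit 52) (nat_lit 5) (nat_lit 55) (nat_lit 5) (nat_lit 56) (nat_lit 5) (nat_lit 352) (nat_lit 267) (nat_lit 161))))))))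
noncomputable def xc65 : XT := (XT.nd (nat_lit 35412) (nat_lit 0) (nat_lit 12464) (XT.nd (nat_lit 34320) (nat_lit 0) (nat_lit 33212) (XT.nd (nat_lit 468) (nat_lit 152) (nat_lit 0) (XT.nd (nat_lit 234) (nat_lit 456) (nat_lit 0) (XT.nd (nat_lit 78) (nat_lit 304) (nat_lit 0) (XT.lf (nat_lit 0) (nat_lit 3304196306) (nat_lit 152) (nat_lit 17246926434) (nat_lit 228) (nat_lit 5038832637) (nat_lit 50) (nat_lit 5) (nat_lit 52) (nat_lit 5) (nat_lit 53) (nat_lit 5) (nat_lit 353) (nat_lit 267) (nat_lit 160)) (XT.nd (nat_lit 78) (nat_lit 228) (nat_lit 0) (XT.lf (nat_lit 0) (nat_lit 1629892314) (nat_lit 228) (nat_lit 6821447100) (nat_lit 76) (nat_lit 17715941571) (nat_lit 49) (nat_lit 5) (nat_lit 52) (nat_lit 5) (nat_lit 50) (nat_lit 5) (nat_lit 354) (nat_lit 267) (nat_lit 159)) (XT.lf (nat_lit 0) (nat_lit 8473283885) (nat_lit 304) (nat_lit 17607695255) (nat_lit 76) (nat_lit 679426304) (nat_lit 46) (nat_lit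 5) (nat_lit 50) (nat_lit 5) (nat_lit 47) (nat_lit 5) (nat_lit 355) (nat_lit 267) (nat_lit 158)))) (XT.nd (nat_lit 78) (nat_lit 456) (nat_lit 0) (XT.lf (nat_lit 0) (nat_lit 15604068603) (nat_lit 304) (nat_lit 1763431587) (nat_lit 76) (nat_lit 10002187904) (nat_lit 46) (nat_lit 5) (nat_lit 50) (nat_lit 5) (nat_lit 47) (nat_lit 5) (nat_lit 356) (nat_lit 267) (nat_lit 157)) (XT.nd (nat_lit 78) (nat_lit 304) (nat_lit 0) (XT.lf (nat_lit 0) (nat_lit 14714508751) (nat_lit 152) (nat_lit 8309458002) (nat_lit 228) (nat_lit 4971784777) (nat_lit 44) (nat_lit 5) (nat_lit 46) (nat_lit 5) (nat_lit 47) (nat_lit 5) (nat_lit 357) (nat_lit 267) (nat_lit 156)) (XT.lf (nat_lit 0) (nat_lit 2017929688) (nat_lit 304) (nat_lit 25583771004) (nat_lit 76) (nat_lit 1038266232) (nat_lit 40) (nat_lit 5) (nat_lit 44) (nat_lit 5) (nat_lit 41) (nat_lit 5) (nat_lit 358) (nat_lit 267) (nat_lit 155))))) (XT.nd (nat_lit 33540) (nat_lit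 0) (nat_lit 40660) (XT.nd (nat_lit 78) (nat_lit 152) (nat_lit 0) (XT.lf (nat_lit 0) (nat_lit 9276498571) (nat_lit 304) (nat_lit 9359666910) (nat_lit 76) (nat_lit 10664157469) (nat_lit 40) (nat_lit 5) (nat_lit 44) (nat_lit 5) (nat_lit 41) (nat_lit 5) (nat_lit 359) (nat_lit 267) (nat_lit 154)) (XT.nd (nat_lit 78) (nat_lit 0) (nat_lit 0) (XT.lf (nat_lit 0) (nat_lit 7415308513) (nat_lit 152) (nat_lit 9366400986) (nat_lit 228) (nat_lit 13198207932) (nat_lit 38) (nat_lit 5) (nat_lit 40) (nat_lit 5) (nat_lit 41) (nat_lit 5) (nat_lit 360) (nat_lit 267) (nat_lit 153)) (XT.lf (nat_lit 0) (nat_lit 24558099706) (nat_lit 228) (nat_lit 5891442299) (nat_lit 76) (nat_lit 229442598) (nat_lit 38) (nat_lit 5) (nat_lit 41) (nat_lit 5) (nat_lit 39) (nat_lit 5) (nat_lit 361) (nat_lit 267) (nat_lit 152)))) (XT.nd (nat_lit 156) (nat_lit 836) (nat_lit 0) (XT.nd (nat_lit 78) (nat_lit 0) (nat_lit 0) (XT.lf (nat_lit 0) (nat_lit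 669091358) (nat_lit 836) (nat_lit 1345736327) (nat_lit 836) (nat_lit 1345736327) (nat_lit 584) (nat_lit 3) (nat_lit 595) (nat_lit 3) (nat_lit 595) (nat_lit 5) (nat_lit 268) (nat_lit 268) (nat_lit 244)) (XT.lf (nat_lit 76) (nat_lit 1992433117) (nat_lit 0) (nat_lit 2425815500) (nat_lit 836) (nat_lit 2339037648) (nat_lit 585) (nat_lit 5) (nat_lit 584) (nat_lit 3) (nat_lit 595) (nat_lit 5) (nat_lit 269) (nat_lit 268) (nat_lit 243))) (XT.nd (nat_lit 78) (nat_lit 0) (nat_lit 76) (XT.lf (nat_lit 0) (nat_lit 683863196) (nat_lit 836) (nat_lit 9010175) (nat_lit 912) (nat_lit 6103722475) (nat_lit 573) (nat_lit 5) (nat_lit 584) (nat_lit 3) (nat_lit 585) (nat_lit 5) (nat_lit 270) (nat_lit 268) (nat_lit 242)) (XT.lf (nat_lit 0) (nat_lit 3688538807) (nat_lit 836) (nat_lit 1969954437) (nat_lit 912) (nat_lit 1179953414) (nat_lit 574) (nat_lit 5) (nat_lit 585) (nat_lit 5) (nat_lit 586) (nat_lit 5) (nat_lit 271)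 (nat_lit 268) (nat_lit 241)))))) (XT.nd (nat_lit 546) (nat_lit 4712) (nat_lit 0) (XT.nd (nat_lit 234) (nat_lit 1900) (nat_lit 0) (XT.nd (nat_lit 78) (nat_lit 912) (nat_lit 0) (XT.lf (nat_lit 76) (nat_lit 2982209721) (nat_lit 0) (nat_lit 3711817742) (nat_lit 912) (nat_lit 189436820) (nat_lit 575) (nat_lit 5) (nat_lit 574) (nat_lit 5) (nat_lit 586) (nat_lit 5) (nat_lit 272) (nat_lit 268) (nat_lit 240)) (XT.nd (nat_lit 78) (nat_lit 0) (nat_lit 76) (XT.lf (nat_lit 76) (nat_lit 1112539674) (nat_lit 0) (nat_lit 1619125136) (nat_lit 988) (nat_lit 4199728523) (nat_lit 563) (nat_lit 5) (nat_lit 562) (nat_lit 5) (nat_lit 575) (nat_lit 5) (nat_lit 273) (nat_lit 268) (nat_lit 239)) (XT.lf (nat_lit 0) (nat_lit 5659730216) (nat_lit 912) (nat_lit 720289175) (nat_lit 988) (nat_lit 602393011) (nat_lit 563) (nat_lit 5) (nat_lit 575) (nat_lit 5) (nat_lit 576) (nat_lit 5) (nat_lit 274) (nat_lit 268) (nat_lit 238))))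 (XT.nd (nat_lit 156) (nat_lit 988) (nat_lit 0) (XT.nd (nat_lit 78) (nat_lit 0) (nat_lit 0) (XT.lf (nat_lit 0) (nat_lit 1553715640) (nat_lit 988) (nat_lit 2530338575) (nat_lit 1064) (nat_lit 2952113348) (nat_lit 550) (nat_lit 5) (nat_lit 563) (nat_lit 5) (nat_lit 564) (nat_lit 5) (nat_lit 275) (nat_lit 268) (nat_lit 237)) (XT.lf (nat_lit 76) (nat_lit 2770783815) (nat_lit 0) (nat_lit 1647474317) (nat_lit 1064) (nat_lit 2674812463) (nat_lit 551) (nat_lit 5) (nat_lit 550) (nat_lit 5) (nat_lit 564) (nat_lit 5) (nat_lit 276) (nat_lit 268) (nat_lit 236))) (XT.nd (nat_lit 78) (nat_lit 0) (nat_lit 0) (XT.lf (nat_lit 0) (nat_lit 143022258) (nat_lit 1064) (nat_lit 6096900476) (nat_lit 1140) (nat_lit 913254942) (nat_lit 537) (nat_lit 5) (nat_lit 551) (nat_lit 5) (nat_lit 552) (nat_lit 5) (nat_lit 277) (nat_lit 268) (nat_lit 235)) (XT.lf (nat_lit 0) (nat_lit 2951179183) (nat_lit 1064) (nat_lit 653745529) (nat_lit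 1140) (nat_lit 3611065544) (nat_lit 537) (nat_lit 5) (nat_lit 551) (nat_lit 5) (nat_lit 552) (nat_lit 5) (nat_lit 278) (nat_lit 268) (nat_lit 234))))) (XT.nd (nat_lit 234) (nat_lit 3648) (nat_lit 0) (XT.nd (nat_lit 78) (nat_lit 1064) (nat_lit 0) (XT.lf (nat_lit 76) (nat_lit 4954079088) (nat_lit 0) (nat_lit 825957854) (nat_lit 1140) (nat_lit 1502016728) (nat_lit 538) (nat_lit 5) (nat_lit 537) (nat_lit 5) (nat_lit 552) (nat_lit 5) (nat_lit 279) (nat_lit 268) (nat_lit 233)) (XT.nd (nat_lit 78) (nat_lit 0) (nat_lit 0) (XT.lf (nat_lit 0) (nat_lit 1271928609) (nat_lit 1140) (nat_lit 4004530323) (nat_lit 1216) (nat_lit 2074638760) (nat_lit 523) (nat_lit 5) (nat_lit 538) (nat_lit 5) (nat_lit 539) (nat_lit 5) (nat_lit 280) (nat_lit 268) (nat_lit 232)) (XT.lf (nat_lit 76) (nat_lit 1743527398) (nat_lit 0) (nat_lit 2306478664) (nat_lit 1216) (nat_lit 3373270325) (nat_lit 524) (nat_lit 5) (nat_lit 523) (nat_lit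 5) (nat_lit 539) (nat_lit 5) (nat_lit 281) (nat_lit 268) (nat_lit 231)))) (XT.nd (nat_lit 156) (nat_lit 2508) (nat_lit 0) (XT.nd (nat_lit 78) (nat_lit 76) (nat_lit 0) (XT.lf (nat_lit 0) (nat_lit 152739100) (nat_lit 1140) (nat_lit 6702776287) (nat_lit 1216) (nat_lit 643309018) (nat_lit 509) (nat_lit 5) (nat_lit 524) (nat_lit 5) (nat_lit 525) (nat_lit 5) (nat_lit 282) (nat_lit 268) (nat_lit 230)) (XT.lf (nat_lit 0) (nat_lit 2106689189) (nat_lit 1216) (nat_lit 1433818227) (nat_lit 76) (nat_lit 4036599896) (nat_lit 508) (nat_lit 5) (nat_lit 524) (nat_lit 5) (nat_lit 509) (nat_lit 5) (nat_lit 283) (nat_lit 268) (nat_lit 229))) (XT.nd (nat_lit 78) (nat_lit 1292) (nat_lit 0) (XT.lf (nat_lit 0) (nat_lit 4648266703) (nat_lit 1216) (nat_lit 227373051) (nat_lit 1292) (nat_lit 2783189304) (nat_lit 492) (nat_lit 5) (nat_lit 508) (nat_lit 5) (nat_lit 509) (nat_lit 5) (nat_lit 284) (nat_lit 268) (nat_lit 228))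 (XT.lf (nat_lit 0) (nat_lit 3145102393) (nat_lit 1292) (nat_lit 4550595263) (nat_lit 1368) (nat_lit 48020961) (nat_lit 475) (nat_lit 5) (nat_lit 492) (nat_lit 5) (nat_lit 493) (nat_lit 5) (nat_lit 285) (nat_lit 268) (nat_lit 227))))))) (XT.nd (nat_lit 1014) (nat_lit 7372) (nat_lit 0) (XT.nd (nat_lit 468) (nat_lit 5548) (nat_lit 0) (XT.nd (nat_lit 234) (nat_lit 4864) (nat_lit 0) (XT.nd (nat_lit 78) (nat_lit 1520) (nat_lit 0) (XT.lf (nat_lit 0) (nat_lit 1632540517) (nat_lit 1368) (nat_lit 1051545633) (nat_lit 1444) (nat_lit 5147758307) (nat_lit 456) (nat_lit 5) (nat_lit 474) (nat_lit 5) (nat_lit 475) (nat_lit 5) (nat_lit 286) (nat_lit 268) (nat_lit 226)) (XT.nd (nat_lit 78) (nat_lit 76) (nat_lit 0) (XT.lf (nat_lit 0) (nat_lit 110092618) (nat_lit 1444) (nat_lit 5356673467) (nat_lit 1520) (nat_lit 2456527497) (nat_lit 437) (nat_lit 5) (nat_lit 456) (nat_lit 5) (nat_lit 457) (nat_lit 5) (nat_lit 287)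 (nat_lit 268) (nat_lit 225)) (XT.lf (nat_lit 0) (nat_lit 282535676) (nat_lit 1520) (nat_lit 1398252627) (nat_lit 76) (nat_lit 6337299942) (nat_lit 436) (nat_lit 5) (nat_lit 456) (nat_lit 5) (nat_lit 437) (nat_lit 5) (nat_lit 288) (nat_lit 268) (nat_lit 224)))) (XT.nd (nat_lit 78) (nat_lit 3344) (nat_lit 0) (XT.lf (nat_lit 0) (nat_lit 3042594999) (nat_lit 1596) (nat_lit 2933466829) (nat_lit 76) (nat_lit 2139961893) (nat_lit 416) (nat_lit 5) (nat_lit 437) (nat_lit 5) (nat_lit 417) (nat_lit 5) (nat_lit 289) (nat_lit 268) (nat_lit 223)) (XT.nd (nat_lit 78) (nat_lit 1748) (nat_lit 0) (XT.lf (nat_lit 0) (nat_lit 3736386869) (nat_lit 1596) (nat_lit 2120165936) (nat_lit 1672) (nat_lit 2360986313) (nat_lit 395) (nat_lit 5) (nat_lit 416) (nat_lit 5) (nat_lit 417) (nat_lit 5) (nat_lit 290) (nat_lit 268) (nat_lit 222)) (XT.lf (nat_lit 0) (nat_lit 401598548) (nat_lit 1748) (nat_lit 6047857457) (nat_lit 76)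 (nat_lit 1873159567) (nat_lit 372) (nat_lit 5) (nat_lit 395) (nat_lit 5) (nat_lit 373) (nat_lit 5) (nat_lit 291) (nat_lit 268) (nat_lit 221))))) (XT.nd (nat_lit 234) (nat_lit 3344) (nat_lit 0) (XT.nd (nat_lit 78) (nat_lit 912) (nat_lit 0) (XT.lf (nat_lit 0) (nat_lit 779503931) (nat_lit 1292) (nat_lit 2414487070) (nat_lit 1368) (nat_lit 5237020013) (nat_lit 355) (nat_lit 5) (nat_lit 372) (nat_lit 5) (nat_lit 373) (nat_lit 5) (nat_lit 292) (nat_lit 268) (nat_lit 220)) (XT.nd (nat_lit 78) (nat_lit 912) (nat_lit 0) (XT.lf (nat_lit 0) (nat_lit 6053420665) (nat_lit 1368) (nat_lit 724369713) (nat_lit 76) (nat_lit 1765259865) (nat_lit 355) (nat_lit 5) (nat_lit 373) (nat_lit 5) (nat_lit 356) (nat_lit 5) (nat_lit 293) (nat_lit 268) (nat_lit 219)) (XT.lf (nat_lit 0) (nat_lit 326123895) (nat_lit 912) (nat_lit 2245788890) (nat_lit 76) (nat_lit 6086740107) (nat_lit 343) (nat_lit 5) (nat_lit 355) (nat_lit 5)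 (nat_lit 344) (nat_lit 5) (nat_lit 294) (nat_lit 268) (nat_lit 218)))) (XT.nd (nat_lit 156) (nat_lit 1672) (nat_lit 0) (XT.nd (nat_lit 78) (nat_lit 836) (nat_lit 0) (XT.lf (nat_lit 0) (nat_lit 3175595923) (nat_lit 912) (nat_lit 3808085597) (nat_lit 76) (nat_lit 1794104456) (nat_lit 332) (nat_lit 5) (nat_lit 344) (nat_lit 5) (nat_lit 333) (nat_lit 5) (nat_lit 295) (nat_lit 268) (nat_lit 217)) (XT.lf (nat_lit 0) (nat_lit 3497019510) (nat_lit 836) (nat_lit 2604082685) (nat_lit 912) (nat_lit 2799631203) (nat_lit 321) (nat_lit 5) (nat_lit 332) (nat_lit 5) (nat_lit 333) (nat_lit 5) (nat_lit 296) (nat_lit 268) (nat_lit 216))) (XT.nd (nat_lit 78) (nat_lit 760) (nat_lit 0) (XT.lf (nat_lit 0) (nat_lit 73858600) (nat_lit 912) (nat_lit 7031997434) (nat_lit 76) (nat_lit 1921790881) (nat_lit 309) (nat_lit 5) (nat_lit 321) (nat_lit 5) (nat_lit 310) (nat_lit 5) (nat_lit 297) (nat_lit 268) (nat_lit 215)) (XT.lf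 (nat_lit 0) (nat_lit 438832329) (nat_lit 760) (nat_lit 2551806247) (nat_lit 836) (nat_lit 6167504173) (nat_lit 299) (nat_lit 5) (nat_lit 309) (nat_lit 5) (nat_lit 310) (nat_lit 5) (nat_lit 298) (nat_lit 268) (nat_lit 214)))))) (XT.nd (nat_lit 546) (nat_lit 3648) (nat_lit 0) (XT.nd (nat_lit 234) (nat_lit 2204) (nat_lit 0) (XT.nd (nat_lit 78) (nat_lit 1520) (nat_lit 0) (XT.lf (nat_lit 0) (nat_lit 5995947697) (nat_lit 836) (nat_lit 1139842586) (nat_lit 76) (nat_lit 2156788729) (nat_lit 299) (nat_lit 5) (nat_lit 310) (nat_lit 5) (nat_lit 300) (nat_lit 5) (nat_lit 299) (nat_lit 268) (nat_lit 213)) (XT.nd (nat_lit 78) (nat_lit 760) (nat_lit 0) (XT.lf (nat_lit 0) (nat_lit 6675276407) (nat_lit 760) (nat_lit 2417488960) (nat_lit 836) (nat_lit 338300739) (nat_lit 289) (nat_lit 5) (nat_lit 299) (nat_lit 5) (nat_lit 300) (nat_lit 5) (nat_lit 300) (nat_lit 268) (nat_lit 212)) (XT.lf (nat_lit 0) (nat_lit 2672560727)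 (nat_lit 760) (nat_lit 4435113913) (nat_lit 76) (nat_lit 2465737858) (nat_lit 279) (nat_lit 5) (nat_lit 289) (nat_lit 5) (nat_lit 280) (nat_lit 5) (nat_lit 301) (nat_lit 268) (nat_lit 211)))) (XT.nd (nat_lit 156) (nat_lit 760) (nat_lit 0) (XT.nd (nat_lit 78) (nat_lit 684) (nat_lit 0) (XT.lf (nat_lit 0) (nat_lit 3553156102) (nat_lit 760) (nat_lit 2217168197) (nat_lit 836) (nat_lit 3949678146) (nat_lit 269) (nat_lit 5) (nat_lit 279) (nat_lit 5) (nat_lit 280) (nat_lit 5) (nat_lit 302) (nat_lit 268) (nat_lit 210)) (XT.lf (nat_lit 0) (nat_lit 1915735341) (nat_lit 684) (nat_lit 7050622229) (nat_lit 760) (nat_lit 904565912) (nat_lit 260) (nat_lit 5) (nat_lit 269) (nat_lit 5) (nat_lit 270) (nat_lit 5) (nat_lit 303) (nat_lit 268) (nat_lit 209))) (XT.nd (nat_lit 78) (nat_lit 0) (nat_lit 0) (XT.lf (nat_lit 0) (nat_lit 210809184) (nat_lit 684) (nat_lit 1995240551) (nat_lit 760) (nat_lit 7820002358) (nat_lit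 250) (nat_lit 5) (nat_lit 259) (nat_lit 5) (nat_lit 260) (nat_lit 5) (nat_lit 304) (nat_lit 268) (nat_lit 208)) (XT.lf (nat_lit 0) (nat_lit 5419195179) (nat_lit 760) (nat_lit 1543424580) (nat_lit 76) (nat_lit 3222702286) (nat_lit 250) (nat_lit 5) (nat_lit 260) (nat_lit 5) (nat_lit 251) (nat_lit 5) (nat_lit 305) (nat_lit 268) (nat_lit 207))))) (XT.nd (nat_lit 234) (nat_lit 1748) (nat_lit 0) (XT.nd (nat_lit 78) (nat_lit 1292) (nat_lit 0) (XT.lf (nat_lit 0) (nat_lit 6994662790) (nat_lit 608) (nat_lit 1740706678) (nat_lit 684) (nat_lit 1613903944) (nat_lit 242) (nat_lit 5) (nat_lit 250) (nat_lit 5) (nat_lit 251) (nat_lit 5) (nat_lit 306) (nat_lit 268) (nat_lit 206)) (XT.nd (nat_lit 78) (nat_lit 608) (nat_lit 0) (XT.lf (nat_lit 0) (nat_lit 1628918387) (nat_lit 684) (nat_lit 5251239600) (nat_lit 76) (nat_lit 3637458600) (nat_lit 233) (nat_lit 5) (nat_lit 242) (nat_lit 5) (nat_lit 234) (nat_lit 5) (nat_lit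 307) (nat_lit 268) (nat_lit 205)) (XT.lf (nat_lit 0) (nat_lit 3464181260) (nat_lit 608) (nat_lit 1489751458) (nat_lit 684) (nat_lit 5736760575) (nat_lit 225) (nat_lit 5) (nat_lit 233) (nat_lit 5) (nat_lit 234) (nat_lit 5) (nat_lit 308) (nat_lit 268) (nat_lit 204)))) (XT.nd (nat_lit 156) (nat_lit 1064) (nat_lit 0) (XT.nd (nat_lit 78) (nat_lit 76) (nat_lit 0) (XT.lf (nat_lit 0) (nat_lit 1578784543) (nat_lit 608) (nat_lit 6823070661) (nat_lit 684) (nat_lit 2466676243) (nat_lit 217) (nat_lit 5) (nat_lit 225) (nat_lit 5) (nat_lit 226) (nat_lit 5) (nat_lit 309) (nat_lit 268) (nat_lit 203)) (XT.lf (nat_lit 0) (nat_lit 900357026) (nat_lit 684) (nat_lit 379414963) (nat_lit 76) (nat_lit 9771633044) (nat_lit 216) (nat_lit 5) (nat_lit 225) (nat_lit 5) (nat_lit 217) (nat_lit 5) (nat_lit 310) (nat_lit 268) (nat_lit 202))) (XT.nd (nat_lit 78) (nat_lit 532) (nat_lit 0) (XT.lf (nat_lit 0) (nat_lit 4374482596) (nat_lit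 608) (nat_lit 2428743593) (nat_lit 76) (nat_lit 4435450517) (nat_lit 209) (nat_lit 5) (nat_lit 217) (nat_lit 5) (nat_lit 210) (nat_lit 5) (nat_lit 311) (nat_lit 268) (nat_lit 201)) (XT.lf (nat_lit 0) (nat_lit 6872286423) (nat_lit 532) (nat_lit 1090073517) (nat_lit 608) (nat_lit 3469045012) (nat_lit 202) (nat_lit 5) (nat_lit 209) (nat_lit 5) (nat_lit 210) (nat_lit 5) (nat_lit 312) (nat_lit 268) (nat_lit 200))))))))
noncomputable def xc66 : XT := (XT.nd (nat_lit 2106) (nat_lit 3572) (nat_lit 0) (XT.nd (nat_lit 1014) (nat_lit 3876) (nat_lit 0) (XT.nd (nat_lit 468) (nat_lit 2356) (nat_lit 0) (XT.nd (nat_lit 234) (nat_lit 1064) (nat_lit 0) (XT.nd (nat_lit 78) (nat_lit 988) (nat_lit 0) (XT.lf (nat_lit 0) (nat_lit 61507633) (nat_lit 608) (nat_lit 6799381971) (nat_lit 76) (nat_lit 4768371082) (nat_lit 194) (nat_lit 5) (nat_lit 202) (nat_lit 5) (nat_lit 195) (nat_lit 5) (nat_lit 313) (nat_lit 268) (nat_lit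 199)) (XT.nd (nat_lit 78) (nat_lit 456) (nat_lit 0) (XT.lf (nat_lit 0) (nat_lit 2677429129) (nat_lit 532) (nat_lit 984750894) (nat_lit 608) (nat_lit 8170213567) (nat_lit 187) (nat_lit 5) (nat_lit 194) (nat_lit 5) (nat_lit 195) (nat_lit 5) (nat_lit 314) (nat_lit 268) (nat_lit 198)) (XT.lf (nat_lit 0) (nat_lit 405633460) (nat_lit 456) (nat_lit 7003300169) (nat_lit 532) (nat_lit 4631951634) (nat_lit 181) (nat_lit 5) (nat_lit 187) (nat_lit 5) (nat_lit 188) (nat_lit 5) (nat_lit 315) (nat_lit 268) (nat_lit 197)))) (XT.nd (nat_lit 78) (nat_lit 1064) (nat_lit 0) (XT.lf (nat_lit 0) (nat_lit 10315226839) (nat_lit 456) (nat_lit 978497630) (nat_lit 532) (nat_lit 961419769) (nat_lit 181) (nat_lit 5) (nat_lit 187) (nat_lit 5) (nat_lit 188) (nat_lit 5) (nat_lit 316) (nat_lit 268) (nat_lit 196)) (XT.nd (nat_lit 78) (nat_lit 456) (nat_lit 0) (XT.lf (nat_lit 0) (nat_lit 2827029550) (nat_lit 608) (nat_lit 4431076386)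 (nat_lit 76) (nat_lit 5216487465) (nat_lit 173) (nat_lit 5) (nat_lit 181) (nat_lit 5) (nat_lit 174) (nat_lit 5) (nat_lit 317) (nat_lit 268) (nat_lit 195)) (XT.lf (nat_lit 0) (nat_lit 5658536045) (nat_lit 456) (nat_lit 1072912458) (nat_lit 532) (nat_lit 5968766206) (nat_lit 167) (nat_lit 5) (nat_lit 173) (nat_lit 5) (nat_lit 174) (nat_lit 5) (nat_lit 318) (nat_lit 268) (nat_lit 194))))) (XT.nd (nat_lit 234) (nat_lit 1368) (nat_lit 0) (XT.nd (nat_lit 78) (nat_lit 532) (nat_lit 0) (XT.lf (nat_lit 0) (nat_lit 3130847471) (nat_lit 456) (nat_lit 7666647300) (nat_lit 532) (nat_lit 2134242640) (nat_lit 161) (nat_lit 5) (nat_lit 167) (nat_lit 5) (nat_lit 168) (nat_lit 5) (nat_lit 319) (nat_lit 268) (nat_lit 193)) (XT.nd (nat_lit 78) (nat_lit 0) (nat_lit 0) (XT.lf (nat_lit 0) (nat_lit 467781076) (nat_lit 456) (nat_lit 1342059285) (nat_lit 532) (nat_lit 11359784627) (nat_lit 154) (nat_lit 5) (nat_lit 160)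 (nat_lit 5) (nat_lit 161) (nat_lit 5) (nat_lit 320) (nat_lit 268) (nat_lit 192)) (XT.lf (nat_lit 0) (nat_lit 5904654597) (nat_lit 532) (nat_lit 2337527574) (nat_lit 76) (nat_lit 5170977713) (nat_lit 154) (nat_lit 5) (nat_lit 161) (nat_lit 5) (nat_lit 155) (nat_lit 5) (nat_lit 321) (nat_lit 268) (nat_lit 191)))) (XT.nd (nat_lit 156) (nat_lit 456) (nat_lit 0) (XT.nd (nat_lit 78) (nat_lit 456) (nat_lit 0) (XT.lf (nat_lit 0) (nat_lit 8385732660) (nat_lit 456) (nat_lit 1761946829) (nat_lit 532) (nat_lit 3515834334) (nat_lit 148) (nat_lit 5) (nat_lit 154) (nat_lit 5) (nat_lit 155) (nat_lit 5) (nat_lit 322) (nat_lit 268) (nat_lit 190)) (XT.lf (nat_lit 0) (nat_lit 635439984) (nat_lit 456) (nat_lit 8395309277) (nat_lit 76) (nat_lit 4889638030) (nat_lit 142) (nat_lit 5) (nat_lit 148) (nat_lit 5) (nat_lit 143) (nat_lit 5) (nat_lit 323) (nat_lit 268) (nat_lit 189))) (XT.nd (nat_lit 78) (nat_lit 0) (nat_lit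 0) (XT.lf (nat_lit 0) (nat_lit 2484616095) (nat_lit 456) (nat_lit 2406166858) (nat_lit 532) (nat_lit 9293192059) (nat_lit 136) (nat_lit 5) (nat_lit 142) (nat_lit 5) (nat_lit 143) (nat_lit 5) (nat_lit 324) (nat_lit 268) (nat_lit 188)) (XT.lf (nat_lit 0) (nat_lit 9323479553) (nat_lit 532) (nat_lit 729775601) (nat_lit 76) (nat_lit 4401239577) (nat_lit 136) (nat_lit 5) (nat_lit 143) (nat_lit 5) (nat_lit 137) (nat_lit 5) (nat_lit 325) (nat_lit 268) (nat_lit 187)))))) (XT.nd (nat_lit 546) (nat_lit 1596) (nat_lit 0) (XT.nd (nat_lit 234) (nat_lit 1140) (nat_lit 0) (XT.nd (nat_lit 78) (nat_lit 760) (nat_lit 0) (XT.lf (nat_lit 0) (nat_lit 10641650168) (nat_lit 380) (nat_lit 3297494751) (nat_lit 456) (nat_lit 793003067) (nat_lit 131) (nat_lit 5) (nat_lit 136) (nat_lit 5) (nat_lit 137) (nat_lit 5) (nat_lit 326) (nat_lit 268) (nat_lit 186)) (XT.nd (nat_lit 78) (nat_lit 304) (nat_lit 0) (XT.lf (nat_lit 0) (nat_lit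 3669203982) (nat_lit 456) (nat_lit 7672939552) (nat_lit 76) (nat_lit 3674681826) (nat_lit 125) (nat_lit 5) (nat_lit 131) (nat_lit 5) (nat_lit 126) (nat_lit 5) (nat_lit 327) (nat_lit 268) (nat_lit 185)) (XT.lf (nat_lit 0) (nat_lit 3840477558) (nat_lit 304) (nat_lit 4454825343) (nat_lit 380) (nat_lit 7013835688) (nat_lit 121) (nat_lit 5) (nat_lit 125) (nat_lit 5) (nat_lit 126) (nat_lit 5) (nat_lit 328) (nat_lit 268) (nat_lit 184)))) (XT.nd (nat_lit 156) (nat_lit 684) (nat_lit 0) (XT.nd (nat_lit 78) (nat_lit 76) (nat_lit 0) (XT.lf (nat_lit 0) (nat_lit 129437888) (nat_lit 380) (nat_lit 12967481307) (nat_lit 456) (nat_lit 2512583214) (nat_lit 116) (nat_lit 5) (nat_lit 121) (nat_lit 5) (nat_lit 122) (nat_lit 5) (nat_lit 329) (nat_lit 268) (nat_lit 183)) (XT.lf (nat_lit 0) (nat_lit 2170721839) (nat_lit 456) (nat_lit 3778523304) (nat_lit 76) (nat_lit 9967873991) (nat_lit 115) (nat_lit 5) (nat_lit 121)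 (nat_lit 5) (nat_lit 116) (nat_lit 5) (nat_lit 330) (nat_lit 268) (nat_lit 182))) (XT.nd (nat_lit 78) (nat_lit 380) (nat_lit 0) (XT.lf (nat_lit 0) (nat_lit 6991077113) (nat_lit 380) (nat_lit 7923649895) (nat_lit 76) (nat_lit 1318306120) (nat_lit 111) (nat_lit 5) (nat_lit 116) (nat_lit 5) (nat_lit 112) (nat_lit 5) (nat_lit 331) (nat_lit 268) (nat_lit 181)) (XT.lf (nat_lit 0) (nat_lit 4221254435) (nat_lit 380) (nat_lit 7796094778) (nat_lit 456) (nat_lit 4539863456) (nat_lit 106) (nat_lit 5) (nat_lit 111) (nat_lit 5) (nat_lit 112) (nat_lit 5) (nat_lit 332) (nat_lit 268) (nat_lit 180))))) (XT.nd (nat_lit 234) (nat_lit 912) (nat_lit 0) (XT.nd (nat_lit 78) (nat_lit 608) (nat_lit 0) (XT.lf (nat_lit 0) (nat_lit 322099622) (nat_lit 456) (nat_lit 100943326) (nat_lit 76) (nat_lit 16467593117) (nat_lit 105) (nat_lit 5) (nat_lit 111) (nat_lit 5) (nat_lit 106) (nat_lit 5) (nat_lit 333) (nat_lit 268) (nat_lit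 179)) (XT.nd (nat_lit 78) (nat_lit 304) (nat_lit 0) (XT.lf (nat_lit 0) (nat_lit 5367182347) (nat_lit 380) (nat_lit 4689918137) (nat_lit 76) (nat_lit 7174395884) (nat_lit 101) (nat_lit 5) (nat_lit 106) (nat_lit 5) (nat_lit 102) (nat_lit 5) (nat_lit 334) (nat_lit 268) (nat_lit 178)) (XT.lf (nat_lit 0) (nat_lit 8038872143) (nat_lit 304) (nat_lit 2550591716) (nat_lit 380) (nat_lit 6992614478) (nat_lit 97) (nat_lit 5) (nat_lit 101) (nat_lit 5) (nat_lit 102) (nat_lit 5) (nat_lit 335) (nat_lit 268) (nat_lit 177)))) (XT.nd (nat_lit 156) (nat_lit 532) (nat_lit 0) (XT.nd (nat_lit 78) (nat_lit 76) (nat_lit 0) (XT.lf (nat_lit 0) (nat_lit 3234082153) (nat_lit 304) (nat_lit 12791567987) (nat_lit 380) (nat_lit 1916395311) (nat_lit 93) (nat_lit 5) (nat_lit 97) (nat_lit 5) (nat_lit 98) (nat_lit 5) (nat_lit 336) (nat_lit 268) (nat_lit 176)) (XT.lf (nat_lit 0) (nat_lit 3321794546) (nat_lit 380) (nat_lit 1870510583)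 (nat_lit 76) (nat_lit 13119025715) (nat_lit 92) (nat_lit 5) (nat_lit 97) (nat_lit 5) (nat_lit 93) (nat_lit 5) (nat_lit 337) (nat_lit 268) (nat_lit 175))) (XT.nd (nat_lit 78) (nat_lit 228) (nat_lit 0) (XT.lf (nat_lit 0) (nat_lit 8754950711) (nat_lit 380) (nat_lit 7262752418) (nat_lit 76) (nat_lit 2672472652) (nat_lit 88) (nat_lit 5) (nat_lit 93) (nat_lit 5) (nat_lit 89) (nat_lit 5) (nat_lit 338) (nat_lit 268) (nat_lit 174)) (XT.lf (nat_lit 0) (nat_lit 6070830061) (nat_lit 228) (nat_lit 8339423603) (nat_lit 304) (nat_lit 4668960498) (nat_lit 85) (nat_lit 5) (nat_lit 88) (nat_lit 5) (nat_lit 89) (nat_lit 5) (nat_lit 339) (nat_lit 268) (nat_lit 173))))))) (XT.nd (nat_lit 1014) (nat_lit 1292) (nat_lit 0) (XT.nd (nat_lit 468) (nat_lit 1064) (nat_lit 0) (XT.nd (nat_lit 234) (nat_lit 608) (nat_lit 0) (XT.nd (nat_lit 78) (nat_lit 228) (nat_lit 0) (XT.lf (nat_lit 0) (nat_lit 381250251) (nat_lit 304) (nat_lit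 388743596) (nat_lit 380) (nat_lit 18709350215) (nat_lit 80) (nat_lit 5) (nat_lit 84) (nat_lit 5) (nat_lit 85) (nat_lit 5) (nat_lit 340) (nat_lit 268) (nat_lit 172)) (XT.nd (nat_lit 78) (nat_lit 228) (nat_lit 0) (XT.lf (nat_lit 0) (nat_lit 6421433901) (nat_lit 380) (nat_lit 5664688754) (nat_lit 76) (nat_lit 7802493261) (nat_lit 80) (nat_lit 5) (nat_lit 85) (nat_lit 5) (nat_lit 81) (nat_lit 5) (nat_lit 341) (nat_lit 268) (nat_lit 171)) (XT.lf (nat_lit 0) (nat_lit 8235226781) (nat_lit 228) (nat_lit 4037054683) (nat_lit 304) (nat_lit 8037297166) (nat_lit 77) (nat_lit 5) (nat_lit 80) (nat_lit 5) (nat_lit 81) (nat_lit 5) (nat_lit 342) (nat_lit 268) (nat_lit 170)))) (XT.nd (nat_lit 78) (nat_lit 304) (nat_lit 0) (XT.lf (nat_lit 0) (nat_lit 1841921028) (nat_lit 304) (nat_lit 16509139730) (nat_lit 380) (nat_lit 2391071041) (nat_lit 73) (nat_lit 5) (nat_lit 77) (nat_lit 5) (nat_lit 78) (nat_lit 5) (nat_lit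 343) (nat_lit 268) (nat_lit 169)) (XT.nd (nat_lit 78) (nat_lit 228) (nat_lit 0) (XT.lf (nat_lit 0) (nat_lit 3463487126) (nat_lit 380) (nat_lit 4936155659) (nat_lit 76) (nat_lit 12785906149) (nat_lit 72) (nat_lit 5) (nat_lit 77) (nat_lit 5) (nat_lit 73) (nat_lit 5) (nat_lit 344) (nat_lit 268) (nat_lit 168)) (XT.lf (nat_lit 0) (nat_lit 9498516509) (nat_lit 304) (nat_lit 12125810760) (nat_lit 76) (nat_lit 16887782) (nat_lit 69) (nat_lit 5) (nat_lit 73) (nat_lit 5) (nat_lit 70) (nat_lit 5) (nat_lit 345) (nat_lit 268) (nat_lit 167))))) (XT.nd (nat_lit 234) (nat_lit 532) (nat_lit 0) (XT.nd (nat_lit 78) (nat_lit 304) (nat_lit 0) (XT.lf (nat_lit 0) (nat_lit 2292005778) (nat_lit 228) (nat_lit 13502923653) (nat_lit 304) (nat_lit 6314023772) (nat_lit 66) (nat_lit 5) (nat_lit 69) (nat_lit 5) (nat_lit 70) (nat_lit 5) (nat_lit 346) (nat_lit 268) (nat_lit 166)) (XT.nd (nat_lit 78) (nat_lit 304) (nat_lit 0) (XT.lf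 (nat_lit 0) (nat_lit 17269127064) (nat_lit 228) (nat_lit 5069340681) (nat_lit 304) (nat_lit 251099543) (nat_lit 66) (nat_lit 5) (nat_lit 69) (nat_lit 5) (nat_lit 70) (nat_lit 5) (nat_lit 347) (nat_lit 268) (nat_lit 165)) (XT.lf (nat_lit 0) (nat_lit 5978486453) (nat_lit 304) (nat_lit 13446746869) (nat_lit 76) (nat_lit 3657328560) (nat_lit 62) (nat_lit 5) (nat_lit 66) (nat_lit 5) (nat_lit 63) (nat_lit 5) (nat_lit 348) (nat_lit 268) (nat_lit 164)))) (XT.nd (nat_lit 156) (nat_lit 304) (nat_lit 0) (XT.nd (nat_lit 78) (nat_lit 0) (nat_lit 0) (XT.lf (nat_lit 0) (nat_lit 1469275631) (nat_lit 228) (nat_lit 10978964685) (nat_lit 304) (nat_lit 11140946776) (nat_lit 59) (nat_lit 5) (nat_lit 62) (nat_lit 5) (nat_lit 63) (nat_lit 5) (nat_lit 349) (nat_lit 268) (nat_lit 163)) (XT.lf (nat_lit 0) (nat_lit 16979323735) (nat_lit 228) (nat_lit 2201250642) (nat_lit 304) (nat_lit 4929074509) (nat_lit 59) (nat_lit 5)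 (nat_lit 62) (nat_lit 5) (nat_lit 63) (nat_lit 5) (nat_lit 350) (nat_lit 268) (nat_lit 162))) (XT.nd (nat_lit 78) (nat_lit 0) (nat_lit 0) (XT.lf (nat_lit 0) (nat_lit 1526856924) (nat_lit 304) (nat_lit 16317141203) (nat_lit 76) (nat_lit 6800003425) (nat_lit 55) (nat_lit 5) (nat_lit 59) (nat_lit 5) (nat_lit 56) (nat_lit 5) (nat_lit 351) (nat_lit 268) (nat_lit 161)) (XT.lf (nat_lit 0) (nat_lit 8151430144) (nat_lit 304) (nat_lit 932536374) (nat_lit 76) (nat_lit 16108935049) (nat_lit 55) (nat_lit 5) (nat_lit 59) (nat_lit 5) (nat_lit 56) (nat_lit 5) (nat_lit 352) (nat_lit 268) (nat_lit 160)))))) (XT.nd (nat_lit 546) (nat_lit 152) (nat_lit 0) (XT.nd (nat_lit 234) (nat_lit 684) (nat_lit 0) (XT.nd (nat_lit 78) (nat_lit 228) (nat_lit 0) (XT.lf (nat_lit 0) (nat_lit 15051608328) (nat_lit 304) (nat_lit 10680984412) (nat_lit 76) (nat_lit 24145288) (nat_lit 52) (nat_lit 5) (nat_lit 56) (nat_lit 5) (nat_lit 53)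 (nat_lit 5) (nat_lit 353) (nat_lit 268) (nat_lit 159)) (XT.nd (nat_lit 78) (nat_lit 76) (nat_lit 0) (XT.lf (nat_lit 0) (nat_lit 5212090200) (nat_lit 152) (nat_lit 17026776849) (nat_lit 228) (nat_lit 4097027633) (nat_lit 50) (nat_lit 5) (nat_lit 52) (nat_lit 5) (nat_lit 53) (nat_lit 5) (nat_lit 354) (nat_lit 268) (nat_lit 158)) (XT.lf (nat_lit 0) (nat_lit 2726008001) (nat_lit 228) (nat_lit 5255769081) (nat_lit 76) (nat_lit 18949258952) (nat_lit 49) (nat_lit 5) (nat_lit 52) (nat_lit 5) (nat_lit 50) (nat_lit 5) (nat_lit 355) (nat_lit 268) (nat_lit 157)))) (XT.nd (nat_lit 156) (nat_lit 456) (nat_lit 0) (XT.nd (nat_lit 78) (nat_lit 0) (nat_lit 0) (XT.lf (nat_lit 0) (nat_lit 9760140423) (nat_lit 304) (nat_lit 16378088834) (nat_lit 76) (nat_lit 1404025479) (nat_lit 46) (nat_lit 5) (nat_lit 50) (nat_lit 5) (nat_lit 47) (nat_lit 5) (nat_lit 356) (nat_lit 268) (nat_lit 156)) (XT.lf (nat_lit 0) (nat_lit 17074771265)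 (nat_lit 304) (nat_lit 109696401) (nat_lit 76) (nat_lit 10985958771) (nat_lit 46) (nat_lit 5) (nat_lit 50) (nat_lit 5) (nat_lit 47) (nat_lit 5) (nat_lit 357) (nat_lit 268) (nat_lit 155))) (XT.nd (nat_lit 78) (nat_lit 304) (nat_lit 0) (XT.lf (nat_lit 0) (nat_lit 16834893972) (nat_lit 152) (nat_lit 7864071866) (nat_lit 228) (nat_lit 4116680703) (nat_lit 44) (nat_lit 5) (nat_lit 46) (nat_lit 5) (nat_lit 47) (nat_lit 5) (nat_lit 358) (nat_lit 268) (nat_lit 154)) (XT.lf (nat_lit 0) (nat_lit 3055989939) (nat_lit 304) (nat_lit 24671088177) (nat_lit 76) (nat_lit 1752259497) (nat_lit 40) (nat_lit 5) (nat_lit 44) (nat_lit 5) (nat_lit 41) (nat_lit 5) (nat_lit 359) (nat_lit 268) (nat_lit 153))))) (XT.nd (nat_lit 33618) (nat_lit 0) (nat_lit 39748) (XT.nd (nat_lit 78) (nat_lit 152) (nat_lit 0) (XT.lf (nat_lit 0) (nat_lit 10503844363) (nat_lit 304) (nat_lit 8009198706) (nat_lit 76) (nat_lit 11647038774) (nat_lit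 40) (nat_lit 5) (nat_lit 44) (nat_lit 5) (nat_lit 41) (nat_lit 5) (nat_lit 360) (nat_lit 268) (nat_lit 152)) (XT.nd (nat_lit 33462) (nat_lit 0) (nat_lit 40660) (XT.lf (nat_lit 0) (nat_lit 9242560753) (nat_lit 152) (nat_lit 8974427989) (nat_lit 228) (nat_lit 12643427732) (nat_lit 38) (nat_lit 5) (nat_lit 40) (nat_lit 5) (nat_lit 41) (nat_lit 5) (nat_lit 361) (nat_lit 268) (nat_lit 151)) (XT.lf (nat_lit 0) (nat_lit 153647892) (nat_lit 0) (nat_lit 153647892) (nat_lit 836) (nat_lit 3090223639) (nat_lit 573) (nat_lit 5) (nat_lit 573) (nat_lit 3) (nat_lit 584) (nat_lit 3) (nat_lit 269) (nat_lit 269) (nat_lit 242)))) (XT.nd (nat_lit 156) (nat_lit 912) (nat_lit 0) (XT.nd (nat_lit 78) (nat_lit 0) (nat_lit 0) (XT.lf (nat_lit 0) (nat_lit 3547313553) (nat_lit 836) (nat_lit 1775343021) (nat_lit 912) (nat_lit 1512641457) (nat_lit 573) (nat_lit 5) (nat_lit 584) (nat_lit 3) (nat_lit 585) (nat_lit 5) (nat_lit 270)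 (nat_lit 269) (nat_lit 241)) (XT.lf (nat_lit 76) (nat_lit 3056843131) (nat_lit 0) (nat_lit 3419737504) (nat_lit 912) (nat_lit 402137829) (nat_lit 574) (nat_lit 5) (nat_lit 573) (nat_lit 5) (nat_lit 585) (nat_lit 5) (nat_lit 271) (nat_lit 269) (nat_lit 240))) (XT.nd (nat_lit 78) (nat_lit 0) (nat_lit 76) (XT.lf (nat_lit 76) (nat_lit 1072136677) (nat_lit 0) (nat_lit 1372239676) (nat_lit 988) (nat_lit 4480694095) (nat_lit 562) (nat_lit 5) (nat_lit 561) (nat_lit 5) (nat_lit 574) (nat_lit 5) (nat_lit 272) (nat_lit 269) (nat_lit 239)) (XT.lf (nat_lit 0) (nat_lit 5293612343) (nat_lit 912) (nat_lit 876532495) (nat_lit 988) (nat_lit 804274472) (nat_lit 562) (nat_lit 5) (nat_lit 574) (nat_lit 5) (nat_lit 575) (nat_lit 5) (nat_lit 273) (nat_lit 269) (nat_lit 238))))))))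
noncomputable def xc67 : XT := (XT.nd (nat_lit 2106) (nat_lit 12084) (nat_lit 0) (XT.nd (nat_lit 1014) (nat_lit 14060) (nat_lit 0) (XT.nd (nat_lit 468) (nat_lit 3648) (nat_lit 0) (XT.nd (nat_lit 234) (nat_lit 2052) (nat_lit 0) (XT.nd (nat_lit 78) (nat_lit 0) (nat_lit 0) (XT.lf (nat_lit 0) (nat_lit 1118466118) (nat_lit 988) (nat_lit 2798626323) (nat_lit 1064) (nat_lit 3109486341) (nat_lit 549) (nat_lit 5) (nat_lit 562) (nat_lit 5) (nat_lit 563) (nat_lit 5) (nat_lit 274) (nat_lit 269) (nat_lit 237)) (XT.nd (nat_lit 78) (nat_lit 0) (nat_lit 76) (XT.lf (nat_lit 76) (nat_lit 2376700708) (nat_lit 0) (nat_lit 1520664113) (nat_lit 1064) (nat_lit 3184452884) (nat_lit 550) (nat_lit 5) (nat_lit 549) (nat_lit 5) (nat_lit 563) (nat_lit 5) (nat_lit 275) (nat_lit 269) (nat_lit 236)) (XT.lf (nat_lit 76) (nat_lit 546174789) (nat_lit 0) (nat_lit 6142067297) (nat_lit 1064) (nat_lit 452002904) (nat_lit 551) (nat_lit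 5) (nat_lit 550) (nat_lit 5) (nat_lit 564) (nat_lit 5) (nat_lit 276) (nat_lit 269) (nat_lit 235)))) (XT.nd (nat_lit 78) (nat_lit 1064) (nat_lit 0) (XT.lf (nat_lit 0) (nat_lit 2275299683) (nat_lit 1064) (nat_lit 1268468418) (nat_lit 1140) (nat_lit 3657571417) (nat_lit 536) (nat_lit 5) (nat_lit 550) (nat_lit 5) (nat_lit 551) (nat_lit 5) (nat_lit 277) (nat_lit 269) (nat_lit 234)) (XT.nd (nat_lit 78) (nat_lit 1064) (nat_lit 0) (XT.lf (nat_lit 76) (nat_lit 4208519012) (nat_lit 0) (nat_lit 801585766) (nat_lit 1140) (nat_lit 2255561441) (nat_lit 537) (nat_lit 5) (nat_lit 536) (nat_lit 5) (nat_lit 551) (nat_lit 5) (nat_lit 278) (nat_lit 269) (nat_lit 233)) (XT.lf (nat_lit 0) (nat_lit 433135683) (nat_lit 1140) (nat_lit 4842774075) (nat_lit 1216) (nat_lit 2057147720) (nat_lit 522) (nat_lit 5) (nat_lit 537) (nat_lit 5) (nat_lit 538) (nat_lit 5) (nat_lit 279) (nat_lit 269) (nat_lit 232))))) (XT.nd (nat_lit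 234) (nat_lit 2508) (nat_lit 0) (XT.nd (nat_lit 78) (nat_lit 1140) (nat_lit 0) (XT.lf (nat_lit 76) (nat_lit 771416975) (nat_lit 0) (nat_lit 2340531372) (nat_lit 1216) (nat_lit 4291510289) (nat_lit 523) (nat_lit 5) (nat_lit 522) (nat_lit 5) (nat_lit 538) (nat_lit 5) (nat_lit 280) (nat_lit 269) (nat_lit 231)) (XT.nd (nat_lit 78) (nat_lit 1216) (nat_lit 0) (XT.lf (nat_lit 0) (nat_lit 5819739096) (nat_lit 1140) (nat_lit 922732021) (nat_lit 1216) (nat_lit 734614192) (nat_lit 523) (nat_lit 5) (nat_lit 538) (nat_lit 5) (nat_lit 539) (nat_lit 5) (nat_lit 281) (nat_lit 269) (nat_lit 230)) (XT.lf (nat_lit 0) (nat_lit 1003156077) (nat_lit 1216) (nat_lit 2614553933) (nat_lit 1292) (nat_lit 3935932072) (nat_lit 507) (nat_lit 5) (nat_lit 523) (nat_lit 5) (nat_lit 524) (nat_lit 5) (nat_lit 282) (nat_lit 269) (nat_lit 229)))) (XT.nd (nat_lit 156) (nat_lit 1368) (nat_lit 0) (XT.nd (nat_lit 78) (nat_lit 1140) (nat_lit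 0) (XT.lf (nat_lit 76) (nat_lit 3328084091) (nat_lit 0) (nat_lit 336121762) (nat_lit 1292) (nat_lit 3969284864) (nat_lit 508) (nat_lit 5) (nat_lit 507) (nat_lit 5) (nat_lit 524) (nat_lit 5) (nat_lit 283) (nat_lit 269) (nat_lit 228)) (XT.lf (nat_lit 0) (nat_lit 1709609913) (nat_lit 1216) (nat_lit 4661614427) (nat_lit 1292) (nat_lit 1345264664) (nat_lit 492) (nat_lit 5) (nat_lit 508) (nat_lit 5) (nat_lit 509) (nat_lit 5) (nat_lit 284) (nat_lit 269) (nat_lit 227))) (XT.nd (nat_lit 78) (nat_lit 0) (nat_lit 0) (XT.lf (nat_lit 0) (nat_lit 90061711) (nat_lit 1292) (nat_lit 1200650530) (nat_lit 1368) (nat_lit 6512141164) (nat_lit 474) (nat_lit 5) (nat_lit 491) (nat_lit 5) (nat_lit 492) (nat_lit 5) (nat_lit 285) (nat_lit 269) (nat_lit 226)) (XT.lf (nat_lit 0) (nat_lit 3964838452) (nat_lit 1368) (nat_lit 1526713886) (nat_lit 76) (nat_lit 2400602718) (nat_lit 474) (nat_lit 5) (nat_lit 492) (nat_lit 5) (nat_lit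 475) (nat_lit 5) (nat_lit 286) (nat_lit 269) (nat_lit 225)))))) (XT.nd (nat_lit 546) (nat_lit 5016) (nat_lit 0) (XT.nd (nat_lit 234) (nat_lit 4636) (nat_lit 0) (XT.nd (nat_lit 78) (nat_lit 3040) (nat_lit 0) (XT.lf (nat_lit 0) (nat_lit 4838985451) (nat_lit 1368) (nat_lit 1842872543) (nat_lit 1444) (nat_lit 1303093399) (nat_lit 456) (nat_lit 5) (nat_lit 474) (nat_lit 5) (nat_lit 475) (nat_lit 5) (nat_lit 287) (nat_lit 269) (nat_lit 224)) (XT.nd (nat_lit 78) (nat_lit 1520) (nat_lit 0) (XT.lf (nat_lit 0) (nat_lit 1350697132) (nat_lit 1520) (nat_lit 4785084028) (nat_lit 76) (nat_lit 1945250388) (nat_lit 436) (nat_lit 5) (nat_lit 456) (nat_lit 5) (nat_lit 437) (nat_lit 5) (nat_lit 288) (nat_lit 269) (nat_lit 223)) (XT.lf (nat_lit 0) (nat_lit 1734081494) (nat_lit 1520) (nat_lit 2303855196) (nat_lit 1596) (nat_lit 4142518153) (nat_lit 416) (nat_lit 5) (nat_lit 436) (nat_lit 5) (nat_lit 437) (nat_lit 5)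 (nat_lit 289) (nat_lit 269) (nat_lit 222)))) (XT.nd (nat_lit 156) (nat_lit 2964) (nat_lit 0) (XT.nd (nat_lit 78) (nat_lit 76) (nat_lit 0) (XT.lf (nat_lit 0) (nat_lit 160677238) (nat_lit 1596) (nat_lit 6617680304) (nat_lit 1672) (nat_lit 1505113943) (nat_lit 395) (nat_lit 5) (nat_lit 416) (nat_lit 5) (nat_lit 417) (nat_lit 5) (nat_lit 290) (nat_lit 269) (nat_lit 221)) (XT.lf (nat_lit 0) (nat_lit 1184283745) (nat_lit 1672) (nat_lit 1420725399) (nat_lit 76) (nat_lit 5784695942) (nat_lit 394) (nat_lit 5) (nat_lit 416) (nat_lit 5) (nat_lit 395) (nat_lit 5) (nat_lit 291) (nat_lit 269) (nat_lit 220))) (XT.nd (nat_lit 78) (nat_lit 1292) (nat_lit 0) (XT.lf (nat_lit 0) (nat_lit 3911344572) (nat_lit 1748) (nat_lit 3026471021) (nat_lit 76) (nat_lit 1561619761) (nat_lit 372) (nat_lit 5) (nat_lit 395) (nat_lit 5) (nat_lit 373) (nat_lit 5) (nat_lit 292) (nat_lit 269) (nat_lit 219)) (XT.lf (nat_lit 0) (nat_lit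 3953749224) (nat_lit 1292) (nat_lit 2752342348) (nat_lit 1368) (nat_lit 1906704035) (nat_lit 355) (nat_lit 5) (nat_lit 372) (nat_lit 5) (nat_lit 373) (nat_lit 5) (nat_lit 293) (nat_lit 269) (nat_lit 218))))) (XT.nd (nat_lit 234) (nat_lit 3268) (nat_lit 0) (XT.nd (nat_lit 78) (nat_lit 836) (nat_lit 0) (XT.lf (nat_lit 0) (nat_lit 824860172) (nat_lit 912) (nat_lit 6320002814) (nat_lit 76) (nat_lit 1585016512) (nat_lit 343) (nat_lit 5) (nat_lit 355) (nat_lit 5) (nat_lit 344) (nat_lit 5) (nat_lit 294) (nat_lit 269) (nat_lit 217)) (XT.nd (nat_lit 78) (nat_lit 0) (nat_lit 0) (XT.lf (nat_lit 0) (nat_lit 822647423) (nat_lit 836) (nat_lit 2781211269) (nat_lit 912) (nat_lit 5246588653) (nat_lit 332) (nat_lit 5) (nat_lit 343) (nat_lit 5) (nat_lit 344) (nat_lit 5) (nat_lit 295) (nat_lit 269) (nat_lit 216)) (XT.lf (nat_lit 0) (nat_lit 6457671655) (nat_lit 912) (nat_lit 780990926) (nat_lit 76) (nat_lit 1736190611)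 (nat_lit 332) (nat_lit 5) (nat_lit 344) (nat_lit 5) (nat_lit 333) (nat_lit 5) (nat_lit 296) (nat_lit 269) (nat_lit 215)))) (XT.nd (nat_lit 156) (nat_lit 1520) (nat_lit 0) (XT.nd (nat_lit 78) (nat_lit 836) (nat_lit 0) (XT.lf (nat_lit 0) (nat_lit 291299175) (nat_lit 912) (nat_lit 2412631404) (nat_lit 76) (nat_lit 6399048923) (nat_lit 320) (nat_lit 5) (nat_lit 332) (nat_lit 5) (nat_lit 321) (nat_lit 5) (nat_lit 297) (nat_lit 269) (nat_lit 214)) (XT.lf (nat_lit 0) (nat_lit 3141939544) (nat_lit 912) (nat_lit 4095801747) (nat_lit 76) (nat_lit 1997079532) (nat_lit 309) (nat_lit 5) (nat_lit 321) (nat_lit 5) (nat_lit 310) (nat_lit 5) (nat_lit 298) (nat_lit 269) (nat_lit 213))) (XT.nd (nat_lit 78) (nat_lit 760) (nat_lit 0) (XT.lf (nat_lit 0) (nat_lit 3548094049) (nat_lit 760) (nat_lit 2528933739) (nat_lit 836) (nat_lit 3293655748) (nat_lit 299) (nat_lit 5) (nat_lit 309) (nat_lit 5) (nat_lit 310) (nat_lit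 5) (nat_lit 299) (nat_lit 269) (nat_lit 212)) (XT.lf (nat_lit 0) (nat_lit 1916785296) (nat_lit 760) (nat_lit 7181501018) (nat_lit 836) (nat_lit 412416889) (nat_lit 289) (nat_lit 5) (nat_lit 299) (nat_lit 5) (nat_lit 300) (nat_lit 5) (nat_lit 300) (nat_lit 269) (nat_lit 211))))))) (XT.nd (nat_lit 1014) (nat_lit 5472) (nat_lit 0) (XT.nd (nat_lit 468) (nat_lit 3040) (nat_lit 0) (XT.nd (nat_lit 234) (nat_lit 2052) (nat_lit 0) (XT.nd (nat_lit 78) (nat_lit 760) (nat_lit 0) (XT.lf (nat_lit 0) (nat_lit 222851481) (nat_lit 684) (nat_lit 2300506300) (nat_lit 760) (nat_lit 7131242978) (nat_lit 279) (nat_lit 5) (nat_lit 288) (nat_lit 5) (nat_lit 289) (nat_lit 5) (nat_lit 301) (nat_lit 269) (nat_lit 210)) (XT.nd (nat_lit 78) (nat_lit 760) (nat_lit 0) (XT.lf (nat_lit 0) (nat_lit 5555908170) (nat_lit 760) (nat_lit 1504875172) (nat_lit 76) (nat_lit 2741731395) (nat_lit 279) (nat_lit 5) (nat_lit 289) (nat_lit 5)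 (nat_lit 280) (nat_lit 5) (nat_lit 302) (nat_lit 269) (nat_lit 209)) (XT.lf (nat_lit 0) (nat_lit 6673344667) (nat_lit 760) (nat_lit 2011180486) (nat_lit 836) (nat_lit 1270278141) (nat_lit 269) (nat_lit 5) (nat_lit 279) (nat_lit 5) (nat_lit 280) (nat_lit 5) (nat_lit 303) (nat_lit 269) (nat_lit 208)))) (XT.nd (nat_lit 78) (nat_lit 1292) (nat_lit 0) (XT.lf (nat_lit 0) (nat_lit 1782748125) (nat_lit 760) (nat_lit 5131162093) (nat_lit 76) (nat_lit 3197335159) (nat_lit 259) (nat_lit 5) (nat_lit 269) (nat_lit 5) (nat_lit 260) (nat_lit 5) (nat_lit 304) (nat_lit 269) (nat_lit 207)) (XT.nd (nat_lit 78) (nat_lit 608) (nat_lit 0) (XT.lf (nat_lit 0) (nat_lit 3224175690) (nat_lit 684) (nat_lit 1691105041) (nat_lit 760) (nat_lit 5356864591) (nat_lit 250) (nat_lit 5) (nat_lit 259) (nat_lit 5) (nat_lit 260) (nat_lit 5) (nat_lit 305) (nat_lit 269) (nat_lit 206)) (XT.lf (nat_lit 0) (nat_lit 1398878724) (nat_lit 608)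 (nat_lit 6760336687) (nat_lit 684) (nat_lit 2278343289) (nat_lit 242) (nat_lit 5) (nat_lit 250) (nat_lit 5) (nat_lit 251) (nat_lit 5) (nat_lit 306) (nat_lit 269) (nat_lit 205))))) (XT.nd (nat_lit 234) (nat_lit 1748) (nat_lit 0) (XT.nd (nat_lit 78) (nat_lit 1216) (nat_lit 0) (XT.lf (nat_lit 0) (nat_lit 890346977) (nat_lit 684) (nat_lit 487062930) (nat_lit 76) (nat_lit 9230251564) (nat_lit 241) (nat_lit 5) (nat_lit 250) (nat_lit 5) (nat_lit 242) (nat_lit 5) (nat_lit 307) (nat_lit 269) (nat_lit 204)) (XT.nd (nat_lit 78) (nat_lit 608) (nat_lit 0) (XT.lf (nat_lit 0) (nat_lit 4156641355) (nat_lit 684) (nat_lit 2451017269) (nat_lit 76) (nat_lit 4174269864) (nat_lit 233) (nat_lit 5) (nat_lit 242) (nat_lit 5) (nat_lit 234) (nat_lit 5) (nat_lit 308) (nat_lit 269) (nat_lit 203)) (XT.lf (nat_lit 0) (nat_lit 6477880083) (nat_lit 608) (nat_lit 1050218540) (nat_lit 684) (nat_lit 3433212774) (nat_lit 225) (nat_lit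 5) (nat_lit 233) (nat_lit 5) (nat_lit 234) (nat_lit 5) (nat_lit 309) (nat_lit 269) (nat_lit 202)))) (XT.nd (nat_lit 156) (nat_lit 532) (nat_lit 0) (XT.nd (nat_lit 78) (nat_lit 608) (nat_lit 0) (XT.lf (nat_lit 0) (nat_lit 4534910780) (nat_lit 608) (nat_lit 6495838937) (nat_lit 684) (nat_lit 114755522) (nat_lit 217) (nat_lit 5) (nat_lit 225) (nat_lit 5) (nat_lit 226) (nat_lit 5) (nat_lit 310) (nat_lit 269) (nat_lit 201)) (XT.lf (nat_lit 0) (nat_lit 2498371277) (nat_lit 532) (nat_lit 769590958) (nat_lit 608) (nat_lit 8066702113) (nat_lit 209) (nat_lit 5) (nat_lit 216) (nat_lit 5) (nat_lit 217) (nat_lit 5) (nat_lit 311) (nat_lit 269) (nat_lit 200))) (XT.nd (nat_lit 78) (nat_lit 0) (nat_lit 0) (XT.lf (nat_lit 0) (nat_lit 356583083) (nat_lit 532) (nat_lit 6429841659) (nat_lit 608) (nat_lit 4742370010) (nat_lit 202) (nat_lit 5) (nat_lit 209) (nat_lit 5) (nat_lit 210) (nat_lit 5) (nat_lit 312) (nat_lit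 269) (nat_lit 199)) (XT.lf (nat_lit 0) (nat_lit 9885672502) (nat_lit 532) (nat_lit 545816102) (nat_lit 608) (nat_lit 1296866833) (nat_lit 202) (nat_lit 5) (nat_lit 209) (nat_lit 5) (nat_lit 210) (nat_lit 5) (nat_lit 313) (nat_lit 269) (nat_lit 198)))))) (XT.nd (nat_lit 546) (nat_lit 2356) (nat_lit 0) (XT.nd (nat_lit 234) (nat_lit 1520) (nat_lit 0) (XT.nd (nat_lit 78) (nat_lit 988) (nat_lit 0) (XT.lf (nat_lit 0) (nat_lit 2266301927) (nat_lit 608) (nat_lit 4169533677) (nat_lit 76) (nat_lit 5496924193) (nat_lit 194) (nat_lit 5) (nat_lit 202) (nat_lit 5) (nat_lit 195) (nat_lit 5) (nat_lit 314) (nat_lit 269) (nat_lit 197)) (XT.nd (nat_lit 78) (nat_lit 456) (nat_lit 0) (XT.lf (nat_lit 0) (nat_lit 5545606235) (nat_lit 532) (nat_lit 383325288) (nat_lit 608) (nat_lit 6214014863) (nat_lit 187) (nat_lit 5) (nat_lit 194) (nat_lit 5) (nat_lit 195) (nat_lit 5) (nat_lit 315) (nat_lit 269) (nat_lit 196)) (XT.lf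 (nat_lit 0) (nat_lit 3200095240) (nat_lit 456) (nat_lit 6547212405) (nat_lit 532) (nat_lit 2611238084) (nat_lit 181) (nat_lit 5) (nat_lit 187) (nat_lit 5) (nat_lit 188) (nat_lit 5) (nat_lit 316) (nat_lit 269) (nat_lit 195)))) (XT.nd (nat_lit 156) (nat_lit 912) (nat_lit 0) (XT.nd (nat_lit 78) (nat_lit 0) (nat_lit 0) (XT.lf (nat_lit 0) (nat_lit 748064197) (nat_lit 532) (nat_lit 348787362) (nat_lit 608) (nat_lit 11483409007) (nat_lit 173) (nat_lit 5) (nat_lit 180) (nat_lit 5) (nat_lit 181) (nat_lit 5) (nat_lit 317) (nat_lit 269) (nat_lit 194)) (XT.lf (nat_lit 0) (nat_lit 4942557030) (nat_lit 608) (nat_lit 1840961747) (nat_lit 76) (nat_lit 6023548523) (nat_lit 173) (nat_lit 5) (nat_lit 181) (nat_lit 5) (nat_lit 174) (nat_lit 5) (nat_lit 318) (nat_lit 269) (nat_lit 193))) (XT.nd (nat_lit 78) (nat_lit 456) (nat_lit 0) (XT.lf (nat_lit 0) (nat_lit 8507160855) (nat_lit 456) (nat_lit 415193603) (nat_lit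 532) (nat_lit 4117971353) (nat_lit 167) (nat_lit 5) (nat_lit 173) (nat_lit 5) (nat_lit 174) (nat_lit 5) (nat_lit 319) (nat_lit 269) (nat_lit 192)) (XT.lf (nat_lit 0) (nat_lit 5896005364) (nat_lit 456) (nat_lit 7178138080) (nat_lit 532) (nat_lit 205408032) (nat_lit 161) (nat_lit 5) (nat_lit 167) (nat_lit 5) (nat_lit 168) (nat_lit 5) (nat_lit 320) (nat_lit 269) (nat_lit 191))))) (XT.nd (nat_lit 234) (nat_lit 1368) (nat_lit 0) (XT.nd (nat_lit 78) (nat_lit 456) (nat_lit 0) (XT.lf (nat_lit 0) (nat_lit 3136467207) (nat_lit 456) (nat_lit 654346019) (nat_lit 532) (nat_lit 9734335566) (nat_lit 154) (nat_lit 5) (nat_lit 160) (nat_lit 5) (nat_lit 161) (nat_lit 5) (nat_lit 321) (nat_lit 269) (nat_lit 190)) (XT.nd (nat_lit 78) (nat_lit 0) (nat_lit 0) (XT.lf (nat_lit 0) (nat_lit 206207500) (nat_lit 456) (nat_lit 7752075232) (nat_lit 532) (nat_lit 5818740827) (nat_lit 148) (nat_lit 5) (nat_lit 154) (nat_lit 5)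 (nat_lit 155) (nat_lit 5) (nat_lit 322) (nat_lit 269) (nat_lit 189)) (XT.lf (nat_lit 0) (nat_lit 11206098181) (nat_lit 456) (nat_lit 1083223656) (nat_lit 532) (nat_lit 1746380975) (nat_lit 148) (nat_lit 5) (nat_lit 154) (nat_lit 5) (nat_lit 155) (nat_lit 5) (nat_lit 323) (nat_lit 269) (nat_lit 188)))) (XT.nd (nat_lit 156) (nat_lit 456) (nat_lit 0) (XT.nd (nat_lit 78) (nat_lit 456) (nat_lit 0) (XT.lf (nat_lit 0) (nat_lit 2472318653) (nat_lit 456) (nat_lit 6062535793) (nat_lit 76) (nat_lit 5765862791) (nat_lit 142) (nat_lit 5) (nat_lit 148) (nat_lit 5) (nat_lit 143) (nat_lit 5) (nat_lit 324) (nat_lit 269) (nat_lit 187)) (XT.lf (nat_lit 0) (nat_lit 5101854744) (nat_lit 456) (nat_lit 1717029982) (nat_lit 532) (nat_lit 7754083561) (nat_lit 136) (nat_lit 5) (nat_lit 142) (nat_lit 5) (nat_lit 143) (nat_lit 5) (nat_lit 325) (nat_lit 269) (nat_lit 186))) (XT.nd (nat_lit 78) (nat_lit 76) (nat_lit 0) (XT.lf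 (nat_lit 0) (nat_lit 1770860296) (nat_lit 380) (nat_lit 9578113758) (nat_lit 456) (nat_lit 3503367474) (nat_lit 131) (nat_lit 5) (nat_lit 136) (nat_lit 5) (nat_lit 137) (nat_lit 5) (nat_lit 326) (nat_lit 269) (nat_lit 185)) (XT.lf (nat_lit 0) (nat_lit 905754551) (nat_lit 456) (nat_lit 1725574190) (nat_lit 76) (nat_lit 12507822808) (nat_lit 130) (nat_lit 5) (nat_lit 136) (nat_lit 5) (nat_lit 131) (nat_lit 5) (nat_lit 327) (nat_lit 269) (nat_lit 184))))))))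
noncomputable def xc68 : XT := (XT.nd (nat_lit 2028) (nat_lit 912) (nat_lit 0) (XT.nd (nat_lit 1014) (nat_lit 2508) (nat_lit 0) (XT.nd (nat_lit 468) (nat_lit 1596) (nat_lit 0) (XT.nd (nat_lit 234) (nat_lit 760) (nat_lit 0) (XT.nd (nat_lit 78) (nat_lit 684) (nat_lit 0) (XT.lf (nat_lit 0) (nat_lit 5462073525) (nat_lit 456) (nat_lit 5431664493) (nat_lit 76) (nat_lit 4539130181) (nat_lit 125) (nat_lit 5) (nat_lit 131) (nat_lit 5) (nat_lit 126) (nat_lit 5) (nat_lit 328) (nat_lit 269) (nat_lit 183)) (XT.nd (nat_lit 78) (nat_lit 380) (nat_lit 0) (XT.lf (nat_lit 0) (nat_lit 6387058575) (nat_lit 304) (nat_lit 3806669482) (nat_lit 380) (nat_lit 5540910794) (nat_lit 121) (nat_lit 5) (nat_lit 125) (nat_lit 5) (nat_lit 126) (nat_lit 5) (nat_lit 329) (nat_lit 269) (nat_lit 182)) (XT.lf (nat_lit 0) (nat_lit 2553474017) (nat_lit 380) (nat_lit 12558514572) (nat_lit 456) (nat_lit 932595875) (nat_lit 116) (nat_lit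 5) (nat_lit 121) (nat_lit 5) (nat_lit 122) (nat_lit 5) (nat_lit 330) (nat_lit 269) (nat_lit 181)))) (XT.nd (nat_lit 78) (nat_lit 684) (nat_lit 0) (XT.lf (nat_lit 0) (nat_lit 3821915754) (nat_lit 456) (nat_lit 1520414651) (nat_lit 76) (nat_lit 11019857670) (nat_lit 115) (nat_lit 5) (nat_lit 121) (nat_lit 5) (nat_lit 116) (nat_lit 5) (nat_lit 331) (nat_lit 269) (nat_lit 180)) (XT.nd (nat_lit 78) (nat_lit 380) (nat_lit 0) (XT.lf (nat_lit 0) (nat_lit 8760883804) (nat_lit 380) (nat_lit 5801617719) (nat_lit 76) (nat_lit 2125618988) (nat_lit 111) (nat_lit 5) (nat_lit 116) (nat_lit 5) (nat_lit 112) (nat_lit 5) (nat_lit 332) (nat_lit 269) (nat_lit 179)) (XT.lf (nat_lit 0) (nat_lit 6669349736) (nat_lit 380) (nat_lit 7238227714) (nat_lit 456) (nat_lit 3115075770) (nat_lit 106) (nat_lit 5) (nat_lit 111) (nat_lit 5) (nat_lit 112) (nat_lit 5) (nat_lit 333) (nat_lit 269) (nat_lit 178))))) (XT.nd (nat_lit 234)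 (nat_lit 912) (nat_lit 0) (XT.nd (nat_lit 78) (nat_lit 304) (nat_lit 0) (XT.lf (nat_lit 0) (nat_lit 1844004778) (nat_lit 380) (nat_lit 15169590060) (nat_lit 76) (nat_lit 352866623) (nat_lit 101) (nat_lit 5) (nat_lit 106) (nat_lit 5) (nat_lit 102) (nat_lit 5) (nat_lit 334) (nat_lit 269) (nat_lit 177)) (XT.nd (nat_lit 78) (nat_lit 304) (nat_lit 0) (XT.lf (nat_lit 0) (nat_lit 6999809271) (nat_lit 380) (nat_lit 2568189936) (nat_lit 76) (nat_lit 8150379879) (nat_lit 101) (nat_lit 5) (nat_lit 106) (nat_lit 5) (nat_lit 102) (nat_lit 5) (nat_lit 335) (nat_lit 269) (nat_lit 176)) (XT.lf (nat_lit 0) (nat_lit 10505758883) (nat_lit 304) (nat_lit 1844588730) (nat_lit 380) (nat_lit 5729717481) (nat_lit 97) (nat_lit 5) (nat_lit 101) (nat_lit 5) (nat_lit 102) (nat_lit 5) (nat_lit 336) (nat_lit 269) (nat_lit 175)))) (XT.nd (nat_lit 156) (nat_lit 228) (nat_lit 0) (XT.nd (nat_lit 78) (nat_lit 380) (nat_lit 0) (XT.lf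 (nat_lit 0) (nat_lit 5544714691) (nat_lit 304) (nat_lit 12382174733) (nat_lit 380) (nat_lit 524414212) (nat_lit 93) (nat_lit 5) (nat_lit 97) (nat_lit 5) (nat_lit 98) (nat_lit 5) (nat_lit 337) (nat_lit 269) (nat_lit 174)) (XT.lf (nat_lit 0) (nat_lit 244741512) (nat_lit 304) (nat_lit 4567094787) (nat_lit 380) (nat_lit 14020461527) (nat_lit 88) (nat_lit 5) (nat_lit 92) (nat_lit 5) (nat_lit 93) (nat_lit 5) (nat_lit 338) (nat_lit 269) (nat_lit 173))) (XT.nd (nat_lit 78) (nat_lit 228) (nat_lit 0) (XT.lf (nat_lit 0) (nat_lit 10384800850) (nat_lit 380) (nat_lit 5324864966) (nat_lit 76) (nat_lit 3513322483) (nat_lit 88) (nat_lit 5) (nat_lit 93) (nat_lit 5) (nat_lit 89) (nat_lit 5) (nat_lit 339) (nat_lit 269) (nat_lit 172)) (XT.lf (nat_lit 0) (nat_lit 8373750179) (nat_lit 228) (nat_lit 7809960914) (nat_lit 304) (nat_lit 3440523755) (nat_lit 85) (nat_lit 5) (nat_lit 88) (nat_lit 5) (nat_lit 89) (nat_lit 5)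 (nat_lit 340) (nat_lit 269) (nat_lit 171)))))) (XT.nd (nat_lit 468) (nat_lit 1292) (nat_lit 0) (XT.nd (nat_lit 234) (nat_lit 608) (nat_lit 0) (XT.nd (nat_lit 78) (nat_lit 228) (nat_lit 0) (XT.lf (nat_lit 0) (nat_lit 2120441050) (nat_lit 380) (nat_lit 17541935640) (nat_lit 76) (nat_lit 374293664) (nat_lit 80) (nat_lit 5) (nat_lit 85) (nat_lit 5) (nat_lit 81) (nat_lit 5) (nat_lit 341) (nat_lit 269) (nat_lit 170)) (XT.nd (nat_lit 78) (nat_lit 228) (nat_lit 0) (XT.lf (nat_lit 0) (nat_lit 7905287683) (nat_lit 380) (nat_lit 3770065062) (nat_lit 76) (nat_lit 8783605120) (nat_lit 80) (nat_lit 5) (nat_lit 85) (nat_lit 5) (nat_lit 81) (nat_lit 5) (nat_lit 342) (nat_lit 269) (nat_lit 169)) (XT.lf (nat_lit 0) (nat_lit 10513352835) (nat_lit 228) (nat_lit 3393886807) (nat_lit 304) (nat_lit 6985812579) (nat_lit 77) (nat_lit 5) (nat_lit 80) (nat_lit 5) (nat_lit 81) (nat_lit 5) (nat_lit 343) (nat_lit 269) (nat_lit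 168)))) (XT.nd (nat_lit 78) (nat_lit 304) (nat_lit 0) (XT.lf (nat_lit 0) (nat_lit 3915809491) (nat_lit 304) (nat_lit 16233600005) (nat_lit 380) (nat_lit 1189565867) (nat_lit 73) (nat_lit 5) (nat_lit 77) (nat_lit 5) (nat_lit 78) (nat_lit 5) (nat_lit 344) (nat_lit 269) (nat_lit 167)) (XT.nd (nat_lit 78) (nat_lit 228) (nat_lit 0) (XT.lf (nat_lit 0) (nat_lit 4787332098) (nat_lit 380) (nat_lit 3107750503) (nat_lit 76) (nat_lit 13901192292) (nat_lit 72) (nat_lit 5) (nat_lit 77) (nat_lit 5) (nat_lit 73) (nat_lit 5) (nat_lit 345) (nat_lit 269) (nat_lit 166)) (XT.lf (nat_lit 0) (nat_lit 10985357165) (nat_lit 304) (nat_lit 10525644526) (nat_lit 76) (nat_lit 754983272) (nat_lit 69) (nat_lit 5) (nat_lit 73) (nat_lit 5) (nat_lit 70) (nat_lit 5) (nat_lit 346) (nat_lit 269) (nat_lit 165))))) (XT.nd (nat_lit 234) (nat_lit 760) (nat_lit 0) (XT.nd (nat_lit 78) (nat_lit 304) (nat_lit 0) (XT.lf (nat_lit 0) (nat_lit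 4292843906) (nat_lit 228) (nat_lit 13155356536) (nat_lit 304) (nat_lit 5300016548) (nat_lit 66) (nat_lit 5) (nat_lit 69) (nat_lit 5) (nat_lit 70) (nat_lit 5) (nat_lit 347) (nat_lit 269) (nat_lit 164)) (XT.nd (nat_lit 78) (nat_lit 228) (nat_lit 0) (XT.lf (nat_lit 0) (nat_lit 897812650) (nat_lit 304) (nat_lit 3586850615) (nat_lit 76) (nat_lit 18759167269) (nat_lit 65) (nat_lit 5) (nat_lit 69) (nat_lit 5) (nat_lit 66) (nat_lit 5) (nat_lit 348) (nat_lit 269) (nat_lit 163)) (XT.lf (nat_lit 0) (nat_lit 7294126925) (nat_lit 304) (nat_lit 11971032628) (nat_lit 76) (nat_lit 4486768716) (nat_lit 62) (nat_lit 5) (nat_lit 66) (nat_lit 5) (nat_lit 63) (nat_lit 5) (nat_lit 349) (nat_lit 269) (nat_lit 162)))) (XT.nd (nat_lit 156) (nat_lit 532) (nat_lit 0) (XT.nd (nat_lit 78) (nat_lit 0) (nat_lit 0) (XT.lf (nat_lit 0) (nat_lit 3361984112) (nat_lit 228) (nat_lit 10574896120) (nat_lit 304) (nat_lit 10337305073)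 (nat_lit 59) (nat_lit 5) (nat_lit 62) (nat_lit 5) (nat_lit 63) (nat_lit 5) (nat_lit 350) (nat_lit 269) (nat_lit 161)) (XT.lf (nat_lit 0) (nat_lit 19283490060) (nat_lit 228) (nat_lit 1555212914) (nat_lit 304) (nat_lit 3972218486) (nat_lit 59) (nat_lit 5) (nat_lit 62) (nat_lit 5) (nat_lit 63) (nat_lit 5) (nat_lit 351) (nat_lit 269) (nat_lit 160))) (XT.nd (nat_lit 78) (nat_lit 228) (nat_lit 0) (XT.lf (nat_lit 0) (nat_lit 2647317607) (nat_lit 304) (nat_lit 15009248873) (nat_lit 76) (nat_lit 7704916821) (nat_lit 55) (nat_lit 5) (nat_lit 59) (nat_lit 5) (nat_lit 56) (nat_lit 5) (nat_lit 352) (nat_lit 269) (nat_lit 159)) (XT.lf (nat_lit 0) (nat_lit 794968609) (nat_lit 228) (nat_lit 8649520247) (nat_lit 304) (nat_lit 16482894298) (nat_lit 52) (nat_lit 5) (nat_lit 55) (nat_lit 5) (nat_lit 56) (nat_lit 5) (nat_lit 353) (nat_lit 269) (nat_lit 158))))))) (XT.nd (nat_lit 34554) (nat_lit 0) (nat_lit 30096) (XT.nd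 (nat_lit 468) (nat_lit 304) (nat_lit 0) (XT.nd (nat_lit 234) (nat_lit 380) (nat_lit 0) (XT.nd (nat_lit 78) (nat_lit 228) (nat_lit 0) (XT.lf (nat_lit 0) (nat_lit 16531765224) (nat_lit 304) (nat_lit 9268359879) (nat_lit 76) (nat_lit 708417510) (nat_lit 52) (nat_lit 5) (nat_lit 56) (nat_lit 5) (nat_lit 53) (nat_lit 5) (nat_lit 354) (nat_lit 269) (nat_lit 157)) (XT.nd (nat_lit 78) (nat_lit 76) (nat_lit 0) (XT.lf (nat_lit 0) (nat_lit 7073390228) (nat_lit 152) (nat_lit 16842361588) (nat_lit 228) (nat_lit 3189709427) (nat_lit 50) (nat_lit 5) (nat_lit 52) (nat_lit 5) (nat_lit 53) (nat_lit 5) (nat_lit 355) (nat_lit 269) (nat_lit 156)) (XT.lf (nat_lit 0) (nat_lit 3794892509) (nat_lit 228) (nat_lit 3744744414) (nat_lit 76) (nat_lit 20179287417) (nat_lit 49) (nat_lit 5) (nat_lit 52) (nat_lit 5) (nat_lit 50) (nat_lit 5) (nat_lit 356) (nat_lit 269) (nat_lit 155)))) (XT.nd (nat_lit 78) (nat_lit 152) (nat_lit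 0) (XT.lf (nat_lit 0) (nat_lit 11026323862) (nat_lit 304) (nat_lit 15212501272) (nat_lit 76) (nat_lit 2109937728) (nat_lit 46) (nat_lit 5) (nat_lit 50) (nat_lit 5) (nat_lit 47) (nat_lit 5) (nat_lit 357) (nat_lit 269) (nat_lit 154)) (XT.nd (nat_lit 78) (nat_lit 0) (nat_lit 0) (XT.lf (nat_lit 0) (nat_lit 1515559668) (nat_lit 152) (nat_lit 17026323128) (nat_lit 228) (nat_lit 10454275636) (nat_lit 44) (nat_lit 5) (nat_lit 46) (nat_lit 5) (nat_lit 47) (nat_lit 5) (nat_lit 358) (nat_lit 269) (nat_lit 153)) (XT.lf (nat_lit 0) (nat_lit 18922512154) (nat_lit 152) (nat_lit 7445201040) (nat_lit 228) (nat_lit 3293572003) (nat_lit 44) (nat_lit 5) (nat_lit 46) (nat_lit 5) (nat_lit 47) (nat_lit 5) (nat_lit 359) (nat_lit 269) (nat_lit 152))))) (XT.nd (nat_lit 33774) (nat_lit 0) (nat_lit 38608) (XT.nd (nat_lit 33618) (nat_lit 0) (nat_lit 39520) (XT.lf (nat_lit 0) (nat_lit 4069078214) (nat_lit 304) (nat_lit 23827474987)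 (nat_lit 76) (nat_lit 2448474448) (nat_lit 40) (nat_lit 5) (nat_lit 44) (nat_lit 5) (nat_lit 41) (nat_lit 5) (nat_lit 360) (nat_lit 269) (nat_lit 151)) (XT.nd (nat_lit 78) (nat_lit 988) (nat_lit 0) (XT.lf (nat_lit 0) (nat_lit 1601029669) (nat_lit 0) (nat_lit 1601029669) (nat_lit 836) (nat_lit 236509161) (nat_lit 573) (nat_lit 5) (nat_lit 573) (nat_lit 3) (nat_lit 584) (nat_lit 3) (nat_lit 270) (nat_lit 270) (nat_lit 240)) (XT.lf (nat_lit 76) (nat_lit 1100699420) (nat_lit 0) (nat_lit 1200092743) (nat_lit 988) (nat_lit 4621118276) (nat_lit 561) (nat_lit 5) (nat_lit 560) (nat_lit 3) (nat_lit 573) (nat_lit 5) (nat_lit 271) (nat_lit 270) (nat_lit 239)))) (XT.nd (nat_lit 156) (nat_lit 0) (nat_lit 0) (XT.nd (nat_lit 78) (nat_lit 988) (nat_lit 0) (XT.lf (nat_lit 0) (nat_lit 5074063526) (nat_lit 912) (nat_lit 964895752) (nat_lit 988) (nat_lit 930667088) (nat_lit 561) (nat_lit 5) (nat_lit 573) (nat_lit 5)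 (nat_lit 574) (nat_lit 5) (nat_lit 272) (nat_lit 270) (nat_lit 238)) (XT.lf (nat_lit 0) (nat_lit 828499791) (nat_lit 988) (nat_lit 3000671090) (nat_lit 1064) (nat_lit 3191020252) (nat_lit 548) (nat_lit 5) (nat_lit 561) (nat_lit 5) (nat_lit 562) (nat_lit 5) (nat_lit 273) (nat_lit 270) (nat_lit 237))) (XT.nd (nat_lit 78) (nat_lit 0) (nat_lit 76) (XT.lf (nat_lit 76) (nat_lit 2051371275) (nat_lit 0) (nat_lit 1474233424) (nat_lit 1064) (nat_lit 3548182607) (nat_lit 549) (nat_lit 5) (nat_lit 548) (nat_lit 5) (nat_lit 562) (nat_lit 5) (nat_lit 274) (nat_lit 270) (nat_lit 236)) (XT.lf (nat_lit 76) (nat_lit 103700472) (nat_lit 0) (nat_lit 6127184925) (nat_lit 1064) (nat_lit 899664141) (nat_lit 550) (nat_lit 5) (nat_lit 549) (nat_lit 5) (nat_lit 563) (nat_lit 5) (nat_lit 275) (nat_lit 270) (nat_lit 235)))))) (XT.nd (nat_lit 546) (nat_lit 5320) (nat_lit 0) (XT.nd (nat_lit 234) (nat_lit 2204) (nat_lit 0) (XT.nd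 (nat_lit 78) (nat_lit 0) (nat_lit 0) (XT.lf (nat_lit 0) (nat_lit 1750187053) (nat_lit 1064) (nat_lit 1817202839) (nat_lit 1140) (nat_lit 3622568665) (nat_lit 535) (nat_lit 5) (nat_lit 549) (nat_lit 5) (nat_lit 550) (nat_lit 5) (nat_lit 276) (nat_lit 270) (nat_lit 234)) (XT.nd (nat_lit 78) (nat_lit 0) (nat_lit 76) (XT.lf (nat_lit 76) (nat_lit 3531496490) (nat_lit 0) (nat_lit 863412945) (nat_lit 1140) (nat_lit 2857665080) (nat_lit 536) (nat_lit 5) (nat_lit 535) (nat_lit 5) (nat_lit 550) (nat_lit 5) (nat_lit 277) (nat_lit 270) (nat_lit 233)) (XT.lf (nat_lit 76) (nat_lit 1699649699) (nat_lit 0) (nat_lit 5362478826) (nat_lit 1140) (nat_lit 256170122) (nat_lit 537) (nat_lit 5) (nat_lit 536) (nat_lit 5) (nat_lit 551) (nat_lit 5) (nat_lit 278) (nat_lit 270) (nat_lit 232)))) (XT.nd (nat_lit 156) (nat_lit 1140) (nat_lit 0) (XT.nd (nat_lit 78) (nat_lit 0) (nat_lit 76) (XT.lf (nat_lit 0) (nat_lit 2331628667)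 (nat_lit 1140) (nat_lit 132368145) (nat_lit 1216) (nat_lit 4922970495) (nat_lit 521) (nat_lit 5) (nat_lit 536) (nat_lit 5) (nat_lit 537) (nat_lit 5) (nat_lit 279) (nat_lit 270) (nat_lit 231)) (XT.lf (nat_lit 0) (nat_lit 4944893667) (nat_lit 1140) (nat_lit 1930708877) (nat_lit 1216) (nat_lit 583119117) (nat_lit 522) (nat_lit 5) (nat_lit 537) (nat_lit 5) (nat_lit 538) (nat_lit 5) (nat_lit 280) (nat_lit 270) (nat_lit 230))) (XT.nd (nat_lit 78) (nat_lit 0) (nat_lit 0) (XT.lf (nat_lit 0) (nat_lit 58201871) (nat_lit 1216) (nat_lit 3731668544) (nat_lit 1292) (nat_lit 3743713621) (nat_lit 506) (nat_lit 5) (nat_lit 522) (nat_lit 5) (nat_lit 523) (nat_lit 5) (nat_lit 281) (nat_lit 270) (nat_lit 229)) (XT.lf (nat_lit 76) (nat_lit 2074081484) (nat_lit 0) (nat_lit 541428801) (nat_lit 1292) (nat_lit 4996083499) (nat_lit 507) (nat_lit 5) (nat_lit 506) (nat_lit 5) (nat_lit 523) (nat_lit 5) (nat_lit 282) (nat_lit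 270) (nat_lit 228))))) (XT.nd (nat_lit 234) (nat_lit 4104) (nat_lit 0) (XT.nd (nat_lit 78) (nat_lit 1292) (nat_lit 0) (XT.lf (nat_lit 76) (nat_lit 340057326) (nat_lit 0) (nat_lit 4873039386) (nat_lit 1292) (nat_lit 2479652874) (nat_lit 508) (nat_lit 5) (nat_lit 507) (nat_lit 5) (nat_lit 524) (nat_lit 5) (nat_lit 283) (nat_lit 270) (nat_lit 227)) (XT.nd (nat_lit 78) (nat_lit 0) (nat_lit 76) (XT.lf (nat_lit 0) (nat_lit 71290242) (nat_lit 1292) (nat_lit 1370287933) (nat_lit 1368) (nat_lit 6335610699) (nat_lit 490) (nat_lit 5) (nat_lit 507) (nat_lit 5) (nat_lit 508) (nat_lit 5) (nat_lit 284) (nat_lit 270) (nat_lit 226)) (XT.lf (nat_lit 0) (nat_lit 2631788334) (nat_lit 1292) (nat_lit 3099305256) (nat_lit 76) (nat_lit 2133476732) (nat_lit 491) (nat_lit 5) (nat_lit 508) (nat_lit 5) (nat_lit 492) (nat_lit 5) (nat_lit 285) (nat_lit 270) (nat_lit 225)))) (XT.nd (nat_lit 156) (nat_lit 1520) (nat_lit 0) (XT.nd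 (nat_lit 78) (nat_lit 1368) (nat_lit 0) (XT.lf (nat_lit 0) (nat_lit 3121597780) (nat_lit 1292) (nat_lit 2110256611) (nat_lit 1368) (nat_lit 2723532789) (nat_lit 474) (nat_lit 5) (nat_lit 491) (nat_lit 5) (nat_lit 492) (nat_lit 5) (nat_lit 286) (nat_lit 270) (nat_lit 224)) (XT.lf (nat_lit 0) (nat_lit 1472090406) (nat_lit 1368) (nat_lit 6404502325) (nat_lit 1444) (nat_lit 173069422) (nat_lit 456) (nat_lit 5) (nat_lit 474) (nat_lit 5) (nat_lit 475) (nat_lit 5) (nat_lit 287) (nat_lit 270) (nat_lit 223))) (XT.nd (nat_lit 78) (nat_lit 1444) (nat_lit 0) (XT.lf (nat_lit 0) (nat_lit 2395511800) (nat_lit 1444) (nat_lit 202737804) (nat_lit 76) (nat_lit 5548785167) (nat_lit 455) (nat_lit 5) (nat_lit 474) (nat_lit 5) (nat_lit 456) (nat_lit 5) (nat_lit 288) (nat_lit 270) (nat_lit 222)) (XT.lf (nat_lit 0) (nat_lit 5018078373) (nat_lit 1520) (nat_lit 1868890034) (nat_lit 76) (nat_lit 1360813627) (nat_lit 436)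 (nat_lit 5) (nat_lit 456) (nat_lit 5) (nat_lit 437) (nat_lit 5) (nat_lit 289) (nat_lit 270) (nat_lit 221))))))))
noncomputable def xc69 : XT := (XT.nd (nat_lit 2106) (nat_lit 8132) (nat_lit 0) (XT.nd (nat_lit 1014) (nat_lit 6992) (nat_lit 0) (XT.nd (nat_lit 468) (nat_lit 4864) (nat_lit 0) (XT.nd (nat_lit 234) (nat_lit 2204) (nat_lit 0) (XT.nd (nat_lit 78) (nat_lit 3344) (nat_lit 0) (XT.lf (nat_lit 0) (nat_lit 4796209702) (nat_lit 1520) (nat_lit 2903632311) (nat_lit 1596) (nat_lit 652159428) (nat_lit 416) (nat_lit 5) (nat_lit 436) (nat_lit 5) (nat_lit 437) (nat_lit 5) (nat_lit 290) (nat_lit 270) (nat_lit 220)) (XT.nd (nat_lit 78) (nat_lit 1672) (nat_lit 0) (XT.lf (nat_lit 0) (nat_lit 1949876270) (nat_lit 1672) (nat_lit 5269934599) (nat_lit 76) (nat_lit 1239865113) (nat_lit 394) (nat_lit 5) (nat_lit 416) (nat_lit 5) (nat_lit 395) (nat_lit 5) (nat_lit 291) (nat_lit 270) (nat_lit 219)) (XT.lf (nat_lit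 0) (nat_lit 1553609396) (nat_lit 1672) (nat_lit 3054747785) (nat_lit 1748) (nat_lit 3962448039) (nat_lit 372) (nat_lit 5) (nat_lit 394) (nat_lit 5) (nat_lit 395) (nat_lit 5) (nat_lit 292) (nat_lit 270) (nat_lit 218)))) (XT.nd (nat_lit 78) (nat_lit 2204) (nat_lit 0) (XT.lf (nat_lit 0) (nat_lit 7325600799) (nat_lit 1748) (nat_lit 98298087) (nat_lit 76) (nat_lit 1261843230) (nat_lit 372) (nat_lit 5) (nat_lit 395) (nat_lit 5) (nat_lit 373) (nat_lit 5) (nat_lit 293) (nat_lit 270) (nat_lit 217)) (XT.nd (nat_lit 78) (nat_lit 836) (nat_lit 0) (XT.lf (nat_lit 0) (nat_lit 1305973172) (nat_lit 1368) (nat_lit 1770360113) (nat_lit 76) (nat_lit 5727612672) (nat_lit 354) (nat_lit 5) (nat_lit 372) (nat_lit 5) (nat_lit 355) (nat_lit 5) (nat_lit 294) (nat_lit 270) (nat_lit 216)) (XT.lf (nat_lit 0) (nat_lit 4017188412) (nat_lit 912) (nat_lit 3475602110) (nat_lit 76) (nat_lit 1433103506) (nat_lit 343) (nat_lit 5)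 (nat_lit 355) (nat_lit 5) (nat_lit 344) (nat_lit 5) (nat_lit 295) (nat_lit 270) (nat_lit 215))))) (XT.nd (nat_lit 234) (nat_lit 2280) (nat_lit 0) (XT.nd (nat_lit 78) (nat_lit 1748) (nat_lit 0) (XT.lf (nat_lit 0) (nat_lit 3832104576) (nat_lit 836) (nat_lit 2974571787) (nat_lit 912) (nat_lit 2244933856) (nat_lit 332) (nat_lit 5) (nat_lit 343) (nat_lit 5) (nat_lit 344) (nat_lit 5) (nat_lit 296) (nat_lit 270) (nat_lit 214)) (XT.nd (nat_lit 78) (nat_lit 836) (nat_lit 0) (XT.lf (nat_lit 0) (nat_lit 481707683) (nat_lit 912) (nat_lit 6999270821) (nat_lit 76) (nat_lit 1700310739) (nat_lit 320) (nat_lit 5) (nat_lit 332) (nat_lit 5) (nat_lit 321) (nat_lit 5) (nat_lit 297) (nat_lit 270) (nat_lit 213)) (XT.lf (nat_lit 0) (nat_lit 475769493) (nat_lit 836) (nat_lit 2784375406) (nat_lit 912) (nat_lit 6054451759) (nat_lit 309) (nat_lit 5) (nat_lit 320) (nat_lit 5) (nat_lit 321) (nat_lit 5) (nat_lit 298) (nat_lit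 270) (nat_lit 212)))) (XT.nd (nat_lit 156) (nat_lit 1520) (nat_lit 0) (XT.nd (nat_lit 78) (nat_lit 760) (nat_lit 0) (XT.lf (nat_lit 0) (nat_lit 6126069712) (nat_lit 912) (nat_lit 1252179795) (nat_lit 76) (nat_lit 2073614525) (nat_lit 309) (nat_lit 5) (nat_lit 321) (nat_lit 5) (nat_lit 310) (nat_lit 5) (nat_lit 299) (nat_lit 270) (nat_lit 211)) (XT.lf (nat_lit 0) (nat_lit 6572905001) (nat_lit 760) (nat_lit 2511082556) (nat_lit 836) (nat_lit 509183725) (nat_lit 299) (nat_lit 5) (nat_lit 309) (nat_lit 5) (nat_lit 310) (nat_lit 5) (nat_lit 300) (nat_lit 270) (nat_lit 210))) (XT.nd (nat_lit 78) (nat_lit 684) (nat_lit 0) (XT.lf (nat_lit 0) (nat_lit 2363102823) (nat_lit 836) (nat_lit 4851861152) (nat_lit 76) (nat_lit 2523432340) (nat_lit 288) (nat_lit 5) (nat_lit 299) (nat_lit 5) (nat_lit 289) (nat_lit 5) (nat_lit 301) (nat_lit 270) (nat_lit 209)) (XT.lf (nat_lit 0) (nat_lit 3148515367) (nat_lit 684)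 (nat_lit 2170777645) (nat_lit 760) (nat_lit 4568563678) (nat_lit 279) (nat_lit 5) (nat_lit 288) (nat_lit 5) (nat_lit 289) (nat_lit 5) (nat_lit 302) (nat_lit 270) (nat_lit 208)))))) (XT.nd (nat_lit 546) (nat_lit 2888) (nat_lit 0) (XT.nd (nat_lit 234) (nat_lit 2584) (nat_lit 0) (XT.nd (nat_lit 78) (nat_lit 760) (nat_lit 0) (XT.lf (nat_lit 0) (nat_lit 1355198906) (nat_lit 760) (nat_lit 7018442519) (nat_lit 836) (nat_lit 1668007827) (nat_lit 269) (nat_lit 5) (nat_lit 279) (nat_lit 5) (nat_lit 280) (nat_lit 5) (nat_lit 303) (nat_lit 270) (nat_lit 207)) (XT.nd (nat_lit 78) (nat_lit 684) (nat_lit 0) (XT.lf (nat_lit 0) (nat_lit 1311464834) (nat_lit 836) (nat_lit 494390463) (nat_lit 76) (nat_lit 8393880819) (nat_lit 268) (nat_lit 5) (nat_lit 279) (nat_lit 5) (nat_lit 269) (nat_lit 5) (nat_lit 304) (nat_lit 270) (nat_lit 206)) (XT.lf (nat_lit 0) (nat_lit 4383342987) (nat_lit 760) (nat_lit 2403927702) (nat_lit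 76) (nat_lit 3574595680) (nat_lit 259) (nat_lit 5) (nat_lit 269) (nat_lit 5) (nat_lit 260) (nat_lit 5) (nat_lit 305) (nat_lit 270) (nat_lit 205)))) (XT.nd (nat_lit 156) (nat_lit 1216) (nat_lit 0) (XT.nd (nat_lit 78) (nat_lit 684) (nat_lit 0) (XT.lf (nat_lit 0) (nat_lit 6155326665) (nat_lit 684) (nat_lit 1398740138) (nat_lit 760) (nat_lit 2974693879) (nat_lit 250) (nat_lit 5) (nat_lit 259) (nat_lit 5) (nat_lit 260) (nat_lit 5) (nat_lit 306) (nat_lit 270) (nat_lit 204)) (XT.lf (nat_lit 0) (nat_lit 141235565) (nat_lit 684) (nat_lit 6423348627) (nat_lit 76) (nat_lit 4135623469) (nat_lit 241) (nat_lit 5) (nat_lit 250) (nat_lit 5) (nat_lit 242) (nat_lit 5) (nat_lit 307) (nat_lit 270) (nat_lit 203))) (XT.nd (nat_lit 78) (nat_lit 608) (nat_lit 0) (XT.lf (nat_lit 0) (nat_lit 2316330935) (nat_lit 608) (nat_lit 1001349923) (nat_lit 684) (nat_lit 7558606252) (nat_lit 233) (nat_lit 5) (nat_lit 241) (nat_lit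 5) (nat_lit 242) (nat_lit 5) (nat_lit 308) (nat_lit 270) (nat_lit 202)) (XT.lf (nat_lit 0) (nat_lit 266925004) (nat_lit 608) (nat_lit 6352707621) (nat_lit 684) (nat_lit 4437442502) (nat_lit 225) (nat_lit 5) (nat_lit 233) (nat_lit 5) (nat_lit 234) (nat_lit 5) (nat_lit 309) (nat_lit 270) (nat_lit 201))))) (XT.nd (nat_lit 234) (nat_lit 1672) (nat_lit 0) (XT.nd (nat_lit 78) (nat_lit 1216) (nat_lit 0) (XT.lf (nat_lit 0) (nat_lit 9414956975) (nat_lit 608) (nat_lit 625296157) (nat_lit 684) (nat_lit 1202671012) (nat_lit 225) (nat_lit 5) (nat_lit 233) (nat_lit 5) (nat_lit 234) (nat_lit 5) (nat_lit 310) (nat_lit 270) (nat_lit 200)) (XT.nd (nat_lit 78) (nat_lit 532) (nat_lit 0) (XT.lf (nat_lit 0) (nat_lit 2140025220) (nat_lit 684) (nat_lit 4034938949) (nat_lit 76) (nat_lit 5258360009) (nat_lit 216) (nat_lit 5) (nat_lit 225) (nat_lit 5) (nat_lit 217) (nat_lit 5) (nat_lit 311) (nat_lit 270) (nat_lit 199)) (XT.lf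 (nat_lit 0) (nat_lit 5301536368) (nat_lit 532) (nat_lit 273122982) (nat_lit 608) (nat_lit 6054485257) (nat_lit 209) (nat_lit 5) (nat_lit 216) (nat_lit 5) (nat_lit 217) (nat_lit 5) (nat_lit 312) (nat_lit 270) (nat_lit 198)))) (XT.nd (nat_lit 156) (nat_lit 532) (nat_lit 0) (XT.nd (nat_lit 78) (nat_lit 608) (nat_lit 0) (XT.lf (nat_lit 0) (nat_lit 3092734445) (nat_lit 532) (nat_lit 6062581938) (nat_lit 608) (nat_lit 2674690111) (nat_lit 202) (nat_lit 5) (nat_lit 209) (nat_lit 5) (nat_lit 210) (nat_lit 5) (nat_lit 313) (nat_lit 270) (nat_lit 197)) (XT.lf (nat_lit 0) (nat_lit 796650232) (nat_lit 532) (nat_lit 7711993) (nat_lit 608) (nat_lit 11232283716) (nat_lit 194) (nat_lit 5) (nat_lit 201) (nat_lit 5) (nat_lit 202) (nat_lit 5) (nat_lit 314) (nat_lit 270) (nat_lit 196))) (XT.nd (nat_lit 78) (nat_lit 532) (nat_lit 0) (XT.lf (nat_lit 0) (nat_lit 4410781762) (nat_lit 608) (nat_lit 1623463354) (nat_lit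 76) (nat_lit 6213723689) (nat_lit 194) (nat_lit 5) (nat_lit 202) (nat_lit 5) (nat_lit 195) (nat_lit 5) (nat_lit 315) (nat_lit 270) (nat_lit 195)) (XT.lf (nat_lit 0) (nat_lit 8141169515) (nat_lit 608) (nat_lit 4126869214) (nat_lit 76) (nat_lit 197300909) (nat_lit 187) (nat_lit 5) (nat_lit 195) (nat_lit 5) (nat_lit 188) (nat_lit 5) (nat_lit 316) (nat_lit 270) (nat_lit 194))))))) (XT.nd (nat_lit 1014) (nat_lit 3420) (nat_lit 0) (XT.nd (nat_lit 468) (nat_lit 2204) (nat_lit 0) (XT.nd (nat_lit 234) (nat_lit 988) (nat_lit 0) (XT.nd (nat_lit 78) (nat_lit 1064) (nat_lit 0) (XT.lf (nat_lit 0) (nat_lit 5918675886) (nat_lit 456) (nat_lit 6115683854) (nat_lit 532) (nat_lit 653877142) (nat_lit 181) (nat_lit 5) (nat_lit 187) (nat_lit 5) (nat_lit 188) (nat_lit 5) (nat_lit 317) (nat_lit 270) (nat_lit 193)) (XT.nd (nat_lit 78) (nat_lit 456) (nat_lit 0) (XT.lf (nat_lit 0) (nat_lit 3098994119) (nat_lit 608) (nat_lit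 9541094882) (nat_lit 76) (nat_lit 277078555) (nat_lit 173) (nat_lit 5) (nat_lit 181) (nat_lit 5) (nat_lit 174) (nat_lit 5) (nat_lit 318) (nat_lit 270) (nat_lit 192)) (XT.lf (nat_lit 0) (nat_lit 679453450) (nat_lit 456) (nat_lit 6329936907) (nat_lit 532) (nat_lit 6142434251) (nat_lit 167) (nat_lit 5) (nat_lit 173) (nat_lit 5) (nat_lit 174) (nat_lit 5) (nat_lit 319) (nat_lit 270) (nat_lit 191)))) (XT.nd (nat_lit 78) (nat_lit 988) (nat_lit 0) (XT.lf (nat_lit 0) (nat_lit 11066258623) (nat_lit 532) (nat_lit 2106967036) (nat_lit 76) (nat_lit 219733237) (nat_lit 167) (nat_lit 5) (nat_lit 174) (nat_lit 5) (nat_lit 168) (nat_lit 5) (nat_lit 320) (nat_lit 270) (nat_lit 190)) (XT.nd (nat_lit 78) (nat_lit 456) (nat_lit 0) (XT.lf (nat_lit 0) (nat_lit 1645031585) (nat_lit 532) (nat_lit 5060148306) (nat_lit 76) (nat_lit 6934707709) (nat_lit 160) (nat_lit 5) (nat_lit 167) (nat_lit 5) (nat_lit 161) (nat_lit 5)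 (nat_lit 321) (nat_lit 270) (nat_lit 189)) (XT.lf (nat_lit 0) (nat_lit 5720695374) (nat_lit 532) (nat_lit 8160862779) (nat_lit 76) (nat_lit 12049763) (nat_lit 154) (nat_lit 5) (nat_lit 161) (nat_lit 5) (nat_lit 155) (nat_lit 5) (nat_lit 322) (nat_lit 270) (nat_lit 188))))) (XT.nd (nat_lit 234) (nat_lit 1292) (nat_lit 0) (XT.nd (nat_lit 78) (nat_lit 456) (nat_lit 0) (XT.lf (nat_lit 0) (nat_lit 2706368038) (nat_lit 456) (nat_lit 7274364112) (nat_lit 532) (nat_lit 4172984228) (nat_lit 148) (nat_lit 5) (nat_lit 154) (nat_lit 5) (nat_lit 155) (nat_lit 5) (nat_lit 323) (nat_lit 270) (nat_lit 187)) (XT.nd (nat_lit 78) (nat_lit 456) (nat_lit 0) (XT.lf (nat_lit 0) (nat_lit 13963615411) (nat_lit 456) (nat_lit 426134562) (nat_lit 532) (nat_lit 31472575) (nat_lit 148) (nat_lit 5) (nat_lit 154) (nat_lit 5) (nat_lit 155) (nat_lit 5) (nat_lit 324) (nat_lit 270) (nat_lit 186)) (XT.lf (nat_lit 0) (nat_lit 4259953638)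 (nat_lit 456) (nat_lit 3808147599) (nat_lit 76) (nat_lit 6626495965) (nat_lit 142) (nat_lit 5) (nat_lit 148) (nat_lit 5) (nat_lit 143) (nat_lit 5) (nat_lit 325) (nat_lit 270) (nat_lit 185)))) (XT.nd (nat_lit 156) (nat_lit 456) (nat_lit 0) (XT.nd (nat_lit 78) (nat_lit 380) (nat_lit 0) (XT.lf (nat_lit 0) (nat_lit 7651649161) (nat_lit 456) (nat_lit 1050921990) (nat_lit 532) (nat_lit 6273156949) (nat_lit 136) (nat_lit 5) (nat_lit 142) (nat_lit 5) (nat_lit 143) (nat_lit 5) (nat_lit 326) (nat_lit 270) (nat_lit 184)) (XT.lf (nat_lit 0) (nat_lit 4211127636) (nat_lit 380) (nat_lit 9128551576) (nat_lit 456) (nat_lit 1924405670) (nat_lit 131) (nat_lit 5) (nat_lit 136) (nat_lit 5) (nat_lit 137) (nat_lit 5) (nat_lit 327) (nat_lit 270) (nat_lit 183))) (XT.nd (nat_lit 78) (nat_lit 0) (nat_lit 0) (XT.lf (nat_lit 0) (nat_lit 569973076) (nat_lit 380) (nat_lit 1980223726) (nat_lit 456) (nat_lit 13010001326) (nat_lit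 125) (nat_lit 5) (nat_lit 130) (nat_lit 5) (nat_lit 131) (nat_lit 5) (nat_lit 328) (nat_lit 270) (nat_lit 182)) (XT.lf (nat_lit 0) (nat_lit 7212129929) (nat_lit 456) (nat_lit 3265023284) (nat_lit 76) (nat_lit 5386217369) (nat_lit 125) (nat_lit 5) (nat_lit 131) (nat_lit 5) (nat_lit 126) (nat_lit 5) (nat_lit 329) (nat_lit 270) (nat_lit 181)))))) (XT.nd (nat_lit 546) (nat_lit 1596) (nat_lit 0) (XT.nd (nat_lit 234) (nat_lit 760) (nat_lit 0) (XT.nd (nat_lit 78) (nat_lit 760) (nat_lit 0) (XT.lf (nat_lit 0) (nat_lit 8870466628) (nat_lit 304) (nat_lit 3183947499) (nat_lit 380) (nat_lit 4120428754) (nat_lit 121) (nat_lit 5) (nat_lit 125) (nat_lit 5) (nat_lit 126) (nat_lit 5) (nat_lit 330) (nat_lit 270) (nat_lit 180)) (XT.nd (nat_lit 78) (nat_lit 304) (nat_lit 0) (XT.lf (nat_lit 0) (nat_lit 591900326) (nat_lit 456) (nat_lit 11587214504) (nat_lit 76) (nat_lit 4315432258) (nat_lit 115) (nat_lit 5) (nat_lit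 121) (nat_lit 5) (nat_lit 116) (nat_lit 5) (nat_lit 331) (nat_lit 270) (nat_lit 179)) (XT.lf (nat_lit 0) (nat_lit 678200224) (nat_lit 304) (nat_lit 4757801552) (nat_lit 380) (nat_lit 11386381697) (nat_lit 111) (nat_lit 5) (nat_lit 115) (nat_lit 5) (nat_lit 116) (nat_lit 5) (nat_lit 332) (nat_lit 270) (nat_lit 178)))) (XT.nd (nat_lit 156) (nat_lit 380) (nat_lit 0) (XT.nd (nat_lit 78) (nat_lit 380) (nat_lit 0) (XT.lf (nat_lit 0) (nat_lit 10494230044) (nat_lit 380) (nat_lit 3751383402) (nat_lit 76) (nat_lit 2913078467) (nat_lit 111) (nat_lit 5) (nat_lit 116) (nat_lit 5) (nat_lit 112) (nat_lit 5) (nat_lit 333) (nat_lit 270) (nat_lit 177)) (XT.lf (nat_lit 0) (nat_lit 9057626730) (nat_lit 380) (nat_lit 6709074321) (nat_lit 456) (nat_lit 1737151298) (nat_lit 106) (nat_lit 5) (nat_lit 111) (nat_lit 5) (nat_lit 112) (nat_lit 5) (nat_lit 334) (nat_lit 270) (nat_lit 176))) (XT.nd (nat_lit 78) (nat_lit 0)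 (nat_lit 0) (XT.lf (nat_lit 0) (nat_lit 3328073906) (nat_lit 380) (nat_lit 13428147912) (nat_lit 76) (nat_lit 1102046912) (nat_lit 101) (nat_lit 5) (nat_lit 106) (nat_lit 5) (nat_lit 102) (nat_lit 5) (nat_lit 335) (nat_lit 270) (nat_lit 175)) (XT.lf (nat_lit 0) (nat_lit 8596938485) (nat_lit 380) (nat_lit 512682382) (nat_lit 76) (nat_lit 9111973110) (nat_lit 101) (nat_lit 5) (nat_lit 106) (nat_lit 5) (nat_lit 102) (nat_lit 5) (nat_lit 336) (nat_lit 270) (nat_lit 174))))) (XT.nd (nat_lit 234) (nat_lit 608) (nat_lit 0) (XT.nd (nat_lit 78) (nat_lit 684) (nat_lit 0) (XT.lf (nat_lit 0) (nat_lit 12918886759) (nat_lit 304) (nat_lit 1162325547) (nat_lit 380) (nat_lit 4513471169) (nat_lit 97) (nat_lit 5) (nat_lit 101) (nat_lit 5) (nat_lit 102) (nat_lit 5) (nat_lit 337) (nat_lit 270) (nat_lit 173)) (XT.nd (nat_lit 78) (nat_lit 304) (nat_lit 0) (XT.lf (nat_lit 0) (nat_lit 815285921) (nat_lit 380) (nat_lit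 11185272260) (nat_lit 76) (nat_lit 6976839012) (nat_lit 92) (nat_lit 5) (nat_lit 97) (nat_lit 5) (nat_lit 93) (nat_lit 5) (nat_lit 338) (nat_lit 270) (nat_lit 172)) (XT.lf (nat_lit 0) (nat_lit 2322939877) (nat_lit 304) (nat_lit 3955773037) (nat_lit 380) (nat_lit 13091570675) (nat_lit 88) (nat_lit 5) (nat_lit 92) (nat_lit 5) (nat_lit 93) (nat_lit 5) (nat_lit 339) (nat_lit 270) (nat_lit 171)))) (XT.nd (nat_lit 156) (nat_lit 380) (nat_lit 0) (XT.nd (nat_lit 78) (nat_lit 228) (nat_lit 0) (XT.lf (nat_lit 0) (nat_lit 11985063527) (nat_lit 380) (nat_lit 3452590909) (nat_lit 76) (nat_lit 4335731915) (nat_lit 88) (nat_lit 5) (nat_lit 93) (nat_lit 5) (nat_lit 89) (nat_lit 5) (nat_lit 340) (nat_lit 270) (nat_lit 170)) (XT.lf (nat_lit 0) (nat_lit 10624015580) (nat_lit 228) (nat_lit 7309369181) (nat_lit 304) (nat_lit 2253791728) (nat_lit 85) (nat_lit 5) (nat_lit 88) (nat_lit 5) (nat_lit 89) (nat_lit 5) (nat_lit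 341) (nat_lit 270) (nat_lit 169))) (XT.nd (nat_lit 78) (nat_lit 0) (nat_lit 0) (XT.lf (nat_lit 0) (nat_lit 3437656967) (nat_lit 380) (nat_lit 16063762297) (nat_lit 76) (nat_lit 1110801173) (nat_lit 80) (nat_lit 5) (nat_lit 85) (nat_lit 5) (nat_lit 81) (nat_lit 5) (nat_lit 342) (nat_lit 270) (nat_lit 168)) (XT.lf (nat_lit 0) (nat_lit 9359536299) (nat_lit 380) (nat_lit 1937117100) (nat_lit 76) (nat_lit 9751267351) (nat_lit 80) (nat_lit 5) (nat_lit 85) (nat_lit 5) (nat_lit 81) (nat_lit 5) (nat_lit 343) (nat_lit 270) (nat_lit 167))))))))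
noncomputable def xc70 : XT := (XT.nd (nat_lit 35724) (nat_lit 0) (nat_lit 15656) (XT.nd (nat_lit 1014) (nat_lit 456) (nat_lit 0) (XT.nd (nat_lit 468) (nat_lit 1140) (nat_lit 0) (XT.nd (nat_lit 234) (nat_lit 532) (nat_lit 0) (XT.nd (nat_lit 78) (nat_lit 380) (nat_lit 0) (XT.lf (nat_lit 0) (nat_lit 12743230986) (nat_lit 228) (nat_lit 2775296665) (nat_lit 304) (nat_lit 5976984183) (nat_lit 77) (nat_lit 5) (nat_lit 80) (nat_lit 5) (nat_lit 81) (nat_lit 5) (nat_lit 344) (nat_lit 270) (nat_lit 166)) (XT.nd (nat_lit 78) (nat_lit 76) (nat_lit 0) (XT.lf (nat_lit 0) (nat_lit 5936036939) (nat_lit 304) (nat_lit 15994041961) (nat_lit 380) (nat_lit 25104568) (nat_lit 73) (nat_lit 5) (nat_lit 77) (nat_lit 5) (nat_lit 78) (nat_lit 5) (nat_lit 345) (nat_lit 270) (nat_lit 165)) (XT.lf (nat_lit 0) (nat_lit 6080862851) (nat_lit 380) (nat_lit 1337951794) (nat_lit 76) (nat_lit 15007933932) (nat_lit 72) (nat_lit 5)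 (nat_lit 77) (nat_lit 5) (nat_lit 73) (nat_lit 5) (nat_lit 346) (nat_lit 270) (nat_lit 164)))) (XT.nd (nat_lit 78) (nat_lit 304) (nat_lit 0) (XT.lf (nat_lit 0) (nat_lit 12447809916) (nat_lit 304) (nat_lit 8990211527) (nat_lit 76) (nat_lit 1472881009) (nat_lit 69) (nat_lit 5) (nat_lit 73) (nat_lit 5) (nat_lit 70) (nat_lit 5) (nat_lit 347) (nat_lit 270) (nat_lit 163)) (XT.nd (nat_lit 78) (nat_lit 76) (nat_lit 0) (XT.lf (nat_lit 0) (nat_lit 6242798000) (nat_lit 228) (nat_lit 12840567872) (nat_lit 304) (nat_lit 4324670794) (nat_lit 66) (nat_lit 5) (nat_lit 69) (nat_lit 5) (nat_lit 70) (nat_lit 5) (nat_lit 348) (nat_lit 270) (nat_lit 162)) (XT.lf (nat_lit 0) (nat_lit 2011610229) (nat_lit 304) (nat_lit 1911513723) (nat_lit 76) (nat_lit 19995910689) (nat_lit 65) (nat_lit 5) (nat_lit 69) (nat_lit 5) (nat_lit 66) (nat_lit 5) (nat_lit 349) (nat_lit 270) (nat_lit 161))))) (XT.nd (nat_lit 234) (nat_lit 684)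 (nat_lit 0) (XT.nd (nat_lit 78) (nat_lit 228) (nat_lit 0) (XT.lf (nat_lit 0) (nat_lit 8584009153) (nat_lit 304) (nat_lit 10558915943) (nat_lit 76) (nat_lit 5299777188) (nat_lit 62) (nat_lit 5) (nat_lit 66) (nat_lit 5) (nat_lit 63) (nat_lit 5) (nat_lit 350) (nat_lit 270) (nat_lit 160)) (XT.nd (nat_lit 78) (nat_lit 0) (nat_lit 0) (XT.lf (nat_lit 0) (nat_lit 5205354910) (nat_lit 228) (nat_lit 10200807812) (nat_lit 304) (nat_lit 9574872519) (nat_lit 59) (nat_lit 5) (nat_lit 62) (nat_lit 5) (nat_lit 63) (nat_lit 5) (nat_lit 351) (nat_lit 270) (nat_lit 159)) (XT.lf (nat_lit 0) (nat_lit 21553753281) (nat_lit 228) (nat_lit 930670086) (nat_lit 304) (nat_lit 3050072704) (nat_lit 59) (nat_lit 5) (nat_lit 62) (nat_lit 5) (nat_lit 63) (nat_lit 5) (nat_lit 352) (nat_lit 270) (nat_lit 158)))) (XT.nd (nat_lit 156) (nat_lit 152) (nat_lit 0) (XT.nd (nat_lit 78) (nat_lit 228) (nat_lit 0) (XT.lf (nat_lit 0) (nat_lit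 3739702518) (nat_lit 304) (nat_lit 13765298263) (nat_lit 76) (nat_lit 8596742329) (nat_lit 55) (nat_lit 5) (nat_lit 59) (nat_lit 5) (nat_lit 56) (nat_lit 5) (nat_lit 353) (nat_lit 270) (nat_lit 157)) (XT.lf (nat_lit 0) (nat_lit 2485558906) (nat_lit 228) (nat_lit 8236547742) (nat_lit 304) (nat_lit 15962896433) (nat_lit 52) (nat_lit 5) (nat_lit 55) (nat_lit 5) (nat_lit 56) (nat_lit 5) (nat_lit 354) (nat_lit 270) (nat_lit 156))) (XT.nd (nat_lit 78) (nat_lit 152) (nat_lit 0) (XT.lf (nat_lit 0) (nat_lit 17997280483) (nat_lit 304) (nat_lit 7912841003) (nat_lit 76) (nat_lit 1373979456) (nat_lit 52) (nat_lit 5) (nat_lit 56) (nat_lit 5) (nat_lit 53) (nat_lit 5) (nat_lit 355) (nat_lit 270) (nat_lit 155)) (XT.lf (nat_lit 0) (nat_lit 8892658879) (nat_lit 152) (nat_lit 16692322258) (nat_lit 228) (nat_lit 2314311036) (nat_lit 50) (nat_lit 5) (nat_lit 52) (nat_lit 5) (nat_lit 53) (nat_lit 5) (nat_lit 356) (nat_lit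 270) (nat_lit 154)))))) (XT.nd (nat_lit 34164) (nat_lit 0) (nat_lit 36176) (XT.nd (nat_lit 234) (nat_lit 0) (nat_lit 0) (XT.nd (nat_lit 78) (nat_lit 380) (nat_lit 0) (XT.lf (nat_lit 0) (nat_lit 4839179729) (nat_lit 228) (nat_lit 2284179084) (nat_lit 76) (nat_lit 21408241019) (nat_lit 49) (nat_lit 5) (nat_lit 52) (nat_lit 5) (nat_lit 50) (nat_lit 5) (nat_lit 357) (nat_lit 270) (nat_lit 153)) (XT.nd (nat_lit 78) (nat_lit 152) (nat_lit 0) (XT.lf (nat_lit 0) (nat_lit 12274616855) (nat_lit 304) (nat_lit 14107060656) (nat_lit 76) (nat_lit 2798922998) (nat_lit 46) (nat_lit 5) (nat_lit 50) (nat_lit 5) (nat_lit 47) (nat_lit 5) (nat_lit 358) (nat_lit 270) (nat_lit 152)) (XT.lf (nat_lit 0) (nat_lit 3097503509) (nat_lit 152) (nat_lit 16901391480) (nat_lit 228) (nat_lit 9848865923) (nat_lit 44) (nat_lit 5) (nat_lit 46) (nat_lit 5) (nat_lit 47) (nat_lit 5) (nat_lit 359) (nat_lit 270) (nat_lit 151)))) (XT.nd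 (nat_lit 33774) (nat_lit 0) (nat_lit 38228) (XT.nd (nat_lit 33696) (nat_lit 0) (nat_lit 39216) (XT.lf (nat_lit 0) (nat_lit 20981912810) (nat_lit 152) (nat_lit 7051351885) (nat_lit 228) (nat_lit 2500109277) (nat_lit 44) (nat_lit 5) (nat_lit 46) (nat_lit 5) (nat_lit 47) (nat_lit 5) (nat_lit 360) (nat_lit 270) (nat_lit 150)) (XT.lf (nat_lit 0) (nat_lit 2500450451) (nat_lit 988) (nat_lit 491782075) (nat_lit 988) (nat_lit 491782075) (nat_lit 560) (nat_lit 3) (nat_lit 573) (nat_lit 3) (nat_lit 573) (nat_lit 5) (nat_lit 271) (nat_lit 271) (nat_lit 238))) (XT.nd (nat_lit 78) (nat_lit 0) (nat_lit 0) (XT.lf (nat_lit 0) (nat_lit 683576627) (nat_lit 988) (nat_lit 3134666970) (nat_lit 1064) (nat_lit 3198755172) (nat_lit 547) (nat_lit 5) (nat_lit 560) (nat_lit 3) (nat_lit 561) (nat_lit 5) (nat_lit 272) (nat_lit 271) (nat_lit 237)) (XT.lf (nat_lit 76) (nat_lit 1796586319) (nat_lit 0) (nat_lit 1506084900) (nat_lit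 1064) (nat_lit 3766300799) (nat_lit 548) (nat_lit 5) (nat_lit 547) (nat_lit 5) (nat_lit 561) (nat_lit 5) (nat_lit 273) (nat_lit 271) (nat_lit 236))))) (XT.nd (nat_lit 234) (nat_lit 1064) (nat_lit 0) (XT.nd (nat_lit 78) (nat_lit 1064) (nat_lit 0) (XT.lf (nat_lit 0) (nat_lit 5927430238) (nat_lit 988) (nat_lit 264895853) (nat_lit 1064) (nat_lit 931739966) (nat_lit 548) (nat_lit 5) (nat_lit 561) (nat_lit 5) (nat_lit 562) (nat_lit 5) (nat_lit 274) (nat_lit 271) (nat_lit 235)) (XT.nd (nat_lit 78) (nat_lit 0) (nat_lit 0) (XT.lf (nat_lit 0) (nat_lit 1375412662) (nat_lit 1064) (nat_lit 2298203953) (nat_lit 1140) (nat_lit 3508220204) (nat_lit 534) (nat_lit 5) (nat_lit 548) (nat_lit 5) (nat_lit 549) (nat_lit 5) (nat_lit 275) (nat_lit 271) (nat_lit 234)) (XT.lf (nat_lit 76) (nat_lit 2924742660) (nat_lit 0) (nat_lit 1009207898) (nat_lit 1140) (nat_lit 3308815818) (nat_lit 535) (nat_lit 5) (nat_lit 534) (nat_lit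 5) (nat_lit 549) (nat_lit 5) (nat_lit 276) (nat_lit 271) (nat_lit 233)))) (XT.nd (nat_lit 156) (nat_lit 0) (nat_lit 76) (XT.nd (nat_lit 78) (nat_lit 1140) (nat_lit 0) (XT.lf (nat_lit 76) (nat_lit 976197495) (nat_lit 0) (nat_lit 5533706051) (nat_lit 1140) (nat_lit 796899889) (nat_lit 536) (nat_lit 5) (nat_lit 535) (nat_lit 5) (nat_lit 550) (nat_lit 5) (nat_lit 277) (nat_lit 271) (nat_lit 232)) (XT.lf (nat_lit 0) (nat_lit 1712128361) (nat_lit 1140) (nat_lit 958643557) (nat_lit 1216) (nat_lit 4702940809) (nat_lit 520) (nat_lit 5) (nat_lit 535) (nat_lit 5) (nat_lit 536) (nat_lit 5) (nat_lit 278) (nat_lit 271) (nat_lit 231))) (XT.nd (nat_lit 78) (nat_lit 0) (nat_lit 0) (XT.lf (nat_lit 0) (nat_lit 4229301783) (nat_lit 1140) (nat_lit 2871505449) (nat_lit 1216) (nat_lit 342928445) (nat_lit 521) (nat_lit 5) (nat_lit 536) (nat_lit 5) (nat_lit 537) (nat_lit 5) (nat_lit 279) (nat_lit 271) (nat_lit 230)) (XT.lf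 (nat_lit 76) (nat_lit 2728562755) (nat_lit 0) (nat_lit 4049659053) (nat_lit 1216) (nat_lit 738596137) (nat_lit 522) (nat_lit 5) (nat_lit 521) (nat_lit 5) (nat_lit 537) (nat_lit 5) (nat_lit 280) (nat_lit 271) (nat_lit 229))))))) (XT.nd (nat_lit 1014) (nat_lit 9272) (nat_lit 0) (XT.nd (nat_lit 468) (nat_lit 8968) (nat_lit 0) (XT.nd (nat_lit 234) (nat_lit 1140) (nat_lit 0) (XT.nd (nat_lit 78) (nat_lit 0) (nat_lit 76) (XT.lf (nat_lit 76) (nat_lit 887952087) (nat_lit 0) (nat_lit 840785697) (nat_lit 1292) (nat_lit 5864379321) (nat_lit 506) (nat_lit 5) (nat_lit 505) (nat_lit 5) (nat_lit 522) (nat_lit 5) (nat_lit 281) (nat_lit 271) (nat_lit 228)) (XT.nd (nat_lit 78) (nat_lit 0) (nat_lit 0) (XT.lf (nat_lit 0) (nat_lit 4226679026) (nat_lit 1216) (nat_lit 949250482) (nat_lit 1292) (nat_lit 2496422588) (nat_lit 506) (nat_lit 5) (nat_lit 522) (nat_lit 5) (nat_lit 523) (nat_lit 5) (nat_lit 282) (nat_lit 271)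 (nat_lit 227)) (XT.lf (nat_lit 76) (nat_lit 4983714363) (nat_lit 0) (nat_lit 1774118507) (nat_lit 1292) (nat_lit 997040476) (nat_lit 507) (nat_lit 5) (nat_lit 506) (nat_lit 5) (nat_lit 523) (nat_lit 5) (nat_lit 283) (nat_lit 271) (nat_lit 226)))) (XT.nd (nat_lit 78) (nat_lit 0) (nat_lit 0) (XT.lf (nat_lit 0) (nat_lit 1465895073) (nat_lit 1292) (nat_lit 4607431729) (nat_lit 1368) (nat_lit 1767199592) (nat_lit 490) (nat_lit 5) (nat_lit 507) (nat_lit 5) (nat_lit 508) (nat_lit 5) (nat_lit 284) (nat_lit 271) (nat_lit 225)) (XT.nd (nat_lit 78) (nat_lit 0) (nat_lit 76) (XT.lf (nat_lit 76) (nat_lit 1471257253) (nat_lit 0) (nat_lit 2482054955) (nat_lit 1368) (nat_lit 3976091255) (nat_lit 491) (nat_lit 5) (nat_lit 490) (nat_lit 5) (nat_lit 508) (nat_lit 5) (nat_lit 285) (nat_lit 271) (nat_lit 224)) (XT.lf (nat_lit 0) (nat_lit 6480407597) (nat_lit 1292) (nat_lit 290235373) (nat_lit 76) (nat_lit 1251069778)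 (nat_lit 491) (nat_lit 5) (nat_lit 508) (nat_lit 5) (nat_lit 492) (nat_lit 5) (nat_lit 286) (nat_lit 271) (nat_lit 223))))) (XT.nd (nat_lit 234) (nat_lit 4864) (nat_lit 0) (XT.nd (nat_lit 78) (nat_lit 2812) (nat_lit 0) (XT.lf (nat_lit 0) (nat_lit 937577599) (nat_lit 1368) (nat_lit 2053134193) (nat_lit 76) (nat_lit 5126343218) (nat_lit 473) (nat_lit 5) (nat_lit 491) (nat_lit 5) (nat_lit 474) (nat_lit 5) (nat_lit 287) (nat_lit 271) (nat_lit 222)) (XT.nd (nat_lit 78) (nat_lit 1444) (nat_lit 0) (XT.lf (nat_lit 0) (nat_lit 3435819132) (nat_lit 1444) (nat_lit 3833068932) (nat_lit 76) (nat_lit 946908994) (nat_lit 455) (nat_lit 5) (nat_lit 474) (nat_lit 5) (nat_lit 456) (nat_lit 5) (nat_lit 288) (nat_lit 271) (nat_lit 221)) (XT.lf (nat_lit 0) (nat_lit 2681368611) (nat_lit 1444) (nat_lit 3309964083) (nat_lit 1520) (nat_lit 2326582307) (nat_lit 436) (nat_lit 5) (nat_lit 455) (nat_lit 5) (nat_lit 456) (nat_lit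 5) (nat_lit 289) (nat_lit 271) (nat_lit 220)))) (XT.nd (nat_lit 156) (nat_lit 3268) (nat_lit 0) (XT.nd (nat_lit 78) (nat_lit 0) (nat_lit 0) (XT.lf (nat_lit 0) (nat_lit 167613914) (nat_lit 1596) (nat_lit 7452961541) (nat_lit 76) (nat_lit 803155690) (nat_lit 415) (nat_lit 5) (nat_lit 436) (nat_lit 5) (nat_lit 416) (nat_lit 5) (nat_lit 290) (nat_lit 271) (nat_lit 219)) (XT.lf (nat_lit 0) (nat_lit 2699539800) (nat_lit 1596) (nat_lit 773285467) (nat_lit 76) (nat_lit 5059754238) (nat_lit 415) (nat_lit 5) (nat_lit 436) (nat_lit 5) (nat_lit 416) (nat_lit 5) (nat_lit 291) (nat_lit 271) (nat_lit 218))) (XT.nd (nat_lit 78) (nat_lit 1672) (nat_lit 0) (XT.lf (nat_lit 0) (nat_lit 5288428734) (nat_lit 1672) (nat_lit 2518730995) (nat_lit 76) (nat_lit 837967428) (nat_lit 394) (nat_lit 5) (nat_lit 416) (nat_lit 5) (nat_lit 395) (nat_lit 5) (nat_lit 292) (nat_lit 271) (nat_lit 217)) (XT.lf (nat_lit 0) (nat_lit 4462319357)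 (nat_lit 1672) (nat_lit 3487391762) (nat_lit 1748) (nat_lit 811497960) (nat_lit 372) (nat_lit 5) (nat_lit 394) (nat_lit 5) (nat_lit 395) (nat_lit 5) (nat_lit 293) (nat_lit 271) (nat_lit 216)))))) (XT.nd (nat_lit 546) (nat_lit 3724) (nat_lit 0) (XT.nd (nat_lit 234) (nat_lit 3344) (nat_lit 0) (XT.nd (nat_lit 78) (nat_lit 836) (nat_lit 0) (XT.lf (nat_lit 0) (nat_lit 1766389973) (nat_lit 1368) (nat_lit 6111949403) (nat_lit 76) (nat_lit 1002647478) (nat_lit 354) (nat_lit 5) (nat_lit 372) (nat_lit 5) (nat_lit 355) (nat_lit 5) (nat_lit 294) (nat_lit 271) (nat_lit 215)) (XT.nd (nat_lit 78) (nat_lit 0) (nat_lit 0) (XT.lf (nat_lit 0) (nat_lit 1032665463) (nat_lit 836) (nat_lit 3377087176) (nat_lit 912) (nat_lit 4594563182) (nat_lit 343) (nat_lit 5) (nat_lit 354) (nat_lit 5) (nat_lit 355) (nat_lit 5) (nat_lit 295) (nat_lit 271) (nat_lit 214)) (XT.lf (nat_lit 0) (nat_lit 7123454310) (nat_lit 912) (nat_lit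 720033442) (nat_lit 76) (nat_lit 1288083132) (nat_lit 343) (nat_lit 5) (nat_lit 355) (nat_lit 5) (nat_lit 344) (nat_lit 5) (nat_lit 296) (nat_lit 271) (nat_lit 213)))) (XT.nd (nat_lit 156) (nat_lit 1596) (nat_lit 0) (XT.nd (nat_lit 78) (nat_lit 836) (nat_lit 0) (XT.lf (nat_lit 0) (nat_lit 656700842) (nat_lit 912) (nat_lit 2506315371) (nat_lit 76) (nat_lit 6099399341) (nat_lit 331) (nat_lit 5) (nat_lit 343) (nat_lit 5) (nat_lit 332) (nat_lit 5) (nat_lit 297) (nat_lit 271) (nat_lit 212)) (XT.lf (nat_lit 0) (nat_lit 3367049921) (nat_lit 912) (nat_lit 4340763472) (nat_lit 76) (nat_lit 1689292732) (nat_lit 320) (nat_lit 5) (nat_lit 332) (nat_lit 5) (nat_lit 321) (nat_lit 5) (nat_lit 298) (nat_lit 271) (nat_lit 211))) (XT.nd (nat_lit 78) (nat_lit 760) (nat_lit 0) (XT.lf (nat_lit 0) (nat_lit 3311990282) (nat_lit 836) (nat_lit 2851553743) (nat_lit 912) (nat_lit 3372238856) (nat_lit 309) (nat_lit 5) (nat_lit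 320) (nat_lit 5) (nat_lit 321) (nat_lit 5) (nat_lit 299) (nat_lit 271) (nat_lit 210)) (XT.lf (nat_lit 0) (nat_lit 1526481892) (nat_lit 760) (nat_lit 7517262351) (nat_lit 836) (nat_lit 634920403) (nat_lit 299) (nat_lit 5) (nat_lit 309) (nat_lit 5) (nat_lit 310) (nat_lit 5) (nat_lit 300) (nat_lit 271) (nat_lit 209))))) (XT.nd (nat_lit 234) (nat_lit 2204) (nat_lit 0) (XT.nd (nat_lit 78) (nat_lit 1444) (nat_lit 0) (XT.lf (nat_lit 0) (nat_lit 2164544634) (nat_lit 836) (nat_lit 319005834) (nat_lit 76) (nat_lit 7341864144) (nat_lit 298) (nat_lit 5) (nat_lit 309) (nat_lit 5) (nat_lit 299) (nat_lit 5) (nat_lit 301) (nat_lit 271) (nat_lit 208)) (XT.nd (nat_lit 78) (nat_lit 684) (nat_lit 0) (XT.lf (nat_lit 0) (nat_lit 5056600330) (nat_lit 836) (nat_lit 2200625321) (nat_lit 76) (nat_lit 2718950659) (nat_lit 288) (nat_lit 5) (nat_lit 299) (nat_lit 5) (nat_lit 289) (nat_lit 5) (nat_lit 302) (nat_lit 271) (nat_lit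 207)) (XT.lf (nat_lit 0) (nat_lit 5994387872) (nat_lit 684) (nat_lit 2048565840) (nat_lit 760) (nat_lit 2088393150) (nat_lit 279) (nat_lit 5) (nat_lit 288) (nat_lit 5) (nat_lit 289) (nat_lit 5) (nat_lit 303) (nat_lit 271) (nat_lit 206)))) (XT.nd (nat_lit 156) (nat_lit 684) (nat_lit 0) (XT.nd (nat_lit 78) (nat_lit 684) (nat_lit 0) (XT.lf (nat_lit 0) (nat_lit 831369491) (nat_lit 836) (nat_lit 6142668751) (nat_lit 76) (nat_lit 3316771761) (nat_lit 268) (nat_lit 5) (nat_lit 279) (nat_lit 5) (nat_lit 269) (nat_lit 5) (nat_lit 304) (nat_lit 271) (nat_lit 205)) (XT.lf (nat_lit 0) (nat_lit 2231914243) (nat_lit 684) (nat_lit 1586672053) (nat_lit 760) (nat_lit 6636063905) (nat_lit 259) (nat_lit 5) (nat_lit 268) (nat_lit 5) (nat_lit 269) (nat_lit 5) (nat_lit 305) (nat_lit 271) (nat_lit 204))) (XT.nd (nat_lit 78) (nat_lit 0) (nat_lit 0) (XT.lf (nat_lit 0) (nat_lit 242918740) (nat_lit 684) (nat_lit 6674399472)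 (nat_lit 760) (nat_lit 3705682372) (nat_lit 250) (nat_lit 5) (nat_lit 259) (nat_lit 5) (nat_lit 260) (nat_lit 5) (nat_lit 306) (nat_lit 271) (nat_lit 203)) (XT.lf (nat_lit 0) (nat_lit 9011704539) (nat_lit 684) (nat_lit 1117299519) (nat_lit 760) (nat_lit 667029569) (nat_lit 250) (nat_lit 5) (nat_lit 259) (nat_lit 5) (nat_lit 260) (nat_lit 5) (nat_lit 307) (nat_lit 271) (nat_lit 202))))))))
noncomputable def xc71 : XT := (XT.nd (nat_lit 2106) (nat_lit 5092) (nat_lit 0) (XT.nd (nat_lit 1014) (nat_lit 4256) (nat_lit 0) (XT.nd (nat_lit 468) (nat_lit 3192) (nat_lit 0) (XT.nd (nat_lit 234) (nat_lit 1216) (nat_lit 0) (XT.nd (nat_lit 78) (nat_lit 1216) (nat_lit 0) (XT.lf (nat_lit 0) (nat_lit 2461573909) (nat_lit 684) (nat_lit 3909615438) (nat_lit 76) (nat_lit 4602157143) (nat_lit 241) (nat_lit 5) (nat_lit 250) (nat_lit 5) (nat_lit 242) (nat_lit 5) (nat_lit 308) (nat_lit 271) (nat_lit 201)) (XT.nd (nat_lit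 78) (nat_lit 608) (nat_lit 0) (XT.lf (nat_lit 0) (nat_lit 5048345841) (nat_lit 608) (nat_lit 634794338) (nat_lit 684) (nat_lit 5472616602) (nat_lit 233) (nat_lit 5) (nat_lit 241) (nat_lit 5) (nat_lit 242) (nat_lit 5) (nat_lit 309) (nat_lit 271) (nat_lit 200)) (XT.lf (nat_lit 0) (nat_lit 2937787598) (nat_lit 608) (nat_lit 6100153957) (nat_lit 684) (nat_lit 2304994762) (nat_lit 225) (nat_lit 5) (nat_lit 233) (nat_lit 5) (nat_lit 234) (nat_lit 5) (nat_lit 310) (nat_lit 271) (nat_lit 199)))) (XT.nd (nat_lit 78) (nat_lit 532) (nat_lit 0) (XT.lf (nat_lit 0) (nat_lit 750611418) (nat_lit 608) (nat_lit 202492926) (nat_lit 684) (nat_lit 10582369692) (nat_lit 216) (nat_lit 5) (nat_lit 224) (nat_lit 5) (nat_lit 225) (nat_lit 5) (nat_lit 311) (nat_lit 271) (nat_lit 198)) (XT.nd (nat_lit 78) (nat_lit 532) (nat_lit 0) (XT.lf (nat_lit 0) (nat_lit 4331356921) (nat_lit 684) (nat_lit 1541974559) (nat_lit 76) (nat_lit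 5859103681) (nat_lit 216) (nat_lit 5) (nat_lit 225) (nat_lit 5) (nat_lit 217) (nat_lit 5) (nat_lit 312) (nat_lit 271) (nat_lit 197)) (XT.lf (nat_lit 0) (nat_lit 7825124523) (nat_lit 608) (nat_lit 3904241980) (nat_lit 76) (nat_lit 205681017) (nat_lit 209) (nat_lit 5) (nat_lit 217) (nat_lit 5) (nat_lit 210) (nat_lit 5) (nat_lit 313) (nat_lit 271) (nat_lit 196))))) (XT.nd (nat_lit 234) (nat_lit 1520) (nat_lit 0) (XT.nd (nat_lit 78) (nat_lit 1140) (nat_lit 0) (XT.lf (nat_lit 0) (nat_lit 5754518147) (nat_lit 532) (nat_lit 5716459611) (nat_lit 608) (nat_lit 671840042) (nat_lit 202) (nat_lit 5) (nat_lit 209) (nat_lit 5) (nat_lit 210) (nat_lit 5) (nat_lit 314) (nat_lit 271) (nat_lit 195)) (XT.nd (nat_lit 78) (nat_lit 532) (nat_lit 0) (XT.lf (nat_lit 0) (nat_lit 2844451982) (nat_lit 608) (nat_lit 8983788344) (nat_lit 76) (nat_lit 527978077) (nat_lit 194) (nat_lit 5) (nat_lit 202) (nat_lit 5) (nat_lit 195)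 (nat_lit 5) (nat_lit 315) (nat_lit 271) (nat_lit 194)) (XT.lf (nat_lit 0) (nat_lit 856892070) (nat_lit 532) (nat_lit 5649068367) (nat_lit 608) (nat_lit 6069017765) (nat_lit 187) (nat_lit 5) (nat_lit 194) (nat_lit 5) (nat_lit 195) (nat_lit 5) (nat_lit 316) (nat_lit 271) (nat_lit 193)))) (XT.nd (nat_lit 156) (nat_lit 988) (nat_lit 0) (XT.nd (nat_lit 78) (nat_lit 532) (nat_lit 0) (XT.lf (nat_lit 0) (nat_lit 10305409796) (nat_lit 608) (nat_lit 1737877028) (nat_lit 76) (nat_lit 756474489) (nat_lit 187) (nat_lit 5) (nat_lit 195) (nat_lit 5) (nat_lit 188) (nat_lit 5) (nat_lit 317) (nat_lit 271) (nat_lit 192)) (XT.lf (nat_lit 0) (nat_lit 1229014277) (nat_lit 532) (nat_lit 4469994444) (nat_lit 76) (nat_lit 7331005647) (nat_lit 180) (nat_lit 5) (nat_lit 187) (nat_lit 5) (nat_lit 181) (nat_lit 5) (nat_lit 318) (nat_lit 271) (nat_lit 191))) (XT.nd (nat_lit 78) (nat_lit 456) (nat_lit 0) (XT.lf (nat_lit 0) (nat_lit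 5050357296) (nat_lit 608) (nat_lit 7335354042) (nat_lit 76) (nat_lit 880751358) (nat_lit 173) (nat_lit 5) (nat_lit 181) (nat_lit 5) (nat_lit 174) (nat_lit 5) (nat_lit 319) (nat_lit 271) (nat_lit 190)) (XT.lf (nat_lit 0) (nat_lit 3151381427) (nat_lit 456) (nat_lit 5888473084) (nat_lit 532) (nat_lit 4469099808) (nat_lit 167) (nat_lit 5) (nat_lit 173) (nat_lit 5) (nat_lit 174) (nat_lit 5) (nat_lit 320) (nat_lit 271) (nat_lit 189)))))) (XT.nd (nat_lit 546) (nat_lit 1900) (nat_lit 0) (XT.nd (nat_lit 234) (nat_lit 1368) (nat_lit 0) (XT.nd (nat_lit 78) (nat_lit 532) (nat_lit 0) (XT.lf (nat_lit 0) (nat_lit 245539568) (nat_lit 456) (nat_lit 12925448265) (nat_lit 532) (nat_lit 587313371) (nat_lit 161) (nat_lit 5) (nat_lit 167) (nat_lit 5) (nat_lit 168) (nat_lit 5) (nat_lit 321) (nat_lit 271) (nat_lit 188)) (XT.nd (nat_lit 78) (nat_lit 456) (nat_lit 0) (XT.lf (nat_lit 0) (nat_lit 3441792350) (nat_lit 532)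 (nat_lit 2814431278) (nat_lit 76) (nat_lit 7756968533) (nat_lit 160) (nat_lit 5) (nat_lit 167) (nat_lit 5) (nat_lit 161) (nat_lit 5) (nat_lit 322) (nat_lit 271) (nat_lit 187)) (XT.lf (nat_lit 0) (nat_lit 7608343808) (nat_lit 532) (nat_lit 6016110613) (nat_lit 76) (nat_lit 650724802) (nat_lit 154) (nat_lit 5) (nat_lit 161) (nat_lit 5) (nat_lit 155) (nat_lit 5) (nat_lit 323) (nat_lit 271) (nat_lit 186)))) (XT.nd (nat_lit 156) (nat_lit 456) (nat_lit 0) (XT.nd (nat_lit 78) (nat_lit 456) (nat_lit 0) (XT.lf (nat_lit 0) (nat_lit 5138369063) (nat_lit 456) (nat_lit 6823094256) (nat_lit 532) (nat_lit 2582348678) (nat_lit 148) (nat_lit 5) (nat_lit 154) (nat_lit 5) (nat_lit 155) (nat_lit 5) (nat_lit 324) (nat_lit 271) (nat_lit 185)) (XT.lf (nat_lit 0) (nat_lit 1625595886) (nat_lit 456) (nat_lit 12963134524) (nat_lit 76) (nat_lit 231134437) (nat_lit 142) (nat_lit 5) (nat_lit 148) (nat_lit 5) (nat_lit 143) (nat_lit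 5) (nat_lit 325) (nat_lit 271) (nat_lit 184))) (XT.nd (nat_lit 78) (nat_lit 456) (nat_lit 0) (XT.lf (nat_lit 0) (nat_lit 6002857748) (nat_lit 456) (nat_lit 1625979295) (nat_lit 76) (nat_lit 7473473794) (nat_lit 142) (nat_lit 5) (nat_lit 148) (nat_lit 5) (nat_lit 143) (nat_lit 5) (nat_lit 326) (nat_lit 271) (nat_lit 183)) (XT.lf (nat_lit 0) (nat_lit 10140354800) (nat_lit 456) (nat_lit 406025019) (nat_lit 532) (nat_lit 4846167268) (nat_lit 136) (nat_lit 5) (nat_lit 142) (nat_lit 5) (nat_lit 143) (nat_lit 5) (nat_lit 327) (nat_lit 271) (nat_lit 182))))) (XT.nd (nat_lit 234) (nat_lit 1064) (nat_lit 0) (XT.nd (nat_lit 78) (nat_lit 456) (nat_lit 0) (XT.lf (nat_lit 0) (nat_lit 6587571306) (nat_lit 380) (nat_lit 8707803925) (nat_lit 456) (nat_lit 394747108) (nat_lit 131) (nat_lit 5) (nat_lit 136) (nat_lit 5) (nat_lit 137) (nat_lit 5) (nat_lit 328) (nat_lit 271) (nat_lit 181)) (XT.nd (nat_lit 78) (nat_lit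 0) (nat_lit 0) (XT.lf (nat_lit 0) (nat_lit 2821905358) (nat_lit 380) (nat_lit 1340250879) (nat_lit 456) (nat_lit 11833401113) (nat_lit 125) (nat_lit 5) (nat_lit 130) (nat_lit 5) (nat_lit 131) (nat_lit 5) (nat_lit 329) (nat_lit 271) (nat_lit 180)) (XT.lf (nat_lit 0) (nat_lit 8923633988) (nat_lit 456) (nat_lit 1167110899) (nat_lit 76) (nat_lit 6217907842) (nat_lit 125) (nat_lit 5) (nat_lit 131) (nat_lit 5) (nat_lit 126) (nat_lit 5) (nat_lit 330) (nat_lit 271) (nat_lit 179)))) (XT.nd (nat_lit 156) (nat_lit 304) (nat_lit 0) (XT.nd (nat_lit 78) (nat_lit 456) (nat_lit 0) (XT.lf (nat_lit 0) (nat_lit 11296818440) (nat_lit 304) (nat_lit 2584846198) (nat_lit 380) (nat_lit 2748415860) (nat_lit 121) (nat_lit 5) (nat_lit 125) (nat_lit 5) (nat_lit 126) (nat_lit 5) (nat_lit 331) (nat_lit 271) (nat_lit 178)) (XT.lf (nat_lit 0) (nat_lit 2061138136) (nat_lit 456) (nat_lit 9764605117) (nat_lit 76) (nat_lit 5133948813)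 (nat_lit 115) (nat_lit 5) (nat_lit 121) (nat_lit 5) (nat_lit 116) (nat_lit 5) (nat_lit 332) (nat_lit 271) (nat_lit 177))) (XT.nd (nat_lit 78) (nat_lit 0) (nat_lit 0) (XT.lf (nat_lit 0) (nat_lit 2833562717) (nat_lit 304) (nat_lit 4188585715) (nat_lit 380) (nat_lit 10275802670) (nat_lit 111) (nat_lit 5) (nat_lit 115) (nat_lit 5) (nat_lit 116) (nat_lit 5) (nat_lit 333) (nat_lit 271) (nat_lit 176)) (XT.lf (nat_lit 0) (nat_lit 12195162823) (nat_lit 380) (nat_lit 1767324991) (nat_lit 76) (nat_lit 3682618911) (nat_lit 111) (nat_lit 5) (nat_lit 116) (nat_lit 5) (nat_lit 112) (nat_lit 5) (nat_lit 334) (nat_lit 271) (nat_lit 175))))))) (XT.nd (nat_lit 1014) (nat_lit 1900) (nat_lit 0) (XT.nd (nat_lit 468) (nat_lit 1444) (nat_lit 0) (XT.nd (nat_lit 234) (nat_lit 684) (nat_lit 0) (XT.nd (nat_lit 78) (nat_lit 684) (nat_lit 0) (XT.lf (nat_lit 0) (nat_lit 11391940602) (nat_lit 380) (nat_lit 6206887012) (nat_lit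 456) (nat_lit 402352135) (nat_lit 106) (nat_lit 5) (nat_lit 111) (nat_lit 5) (nat_lit 112) (nat_lit 5) (nat_lit 335) (nat_lit 271) (nat_lit 174)) (XT.nd (nat_lit 78) (nat_lit 304) (nat_lit 0) (XT.lf (nat_lit 0) (nat_lit 4774649070) (nat_lit 380) (nat_lit 11760552299) (nat_lit 76) (nat_lit 1831304276) (nat_lit 101) (nat_lit 5) (nat_lit 106) (nat_lit 5) (nat_lit 102) (nat_lit 5) (nat_lit 336) (nat_lit 271) (nat_lit 173)) (XT.lf (nat_lit 0) (nat_lit 1501769089) (nat_lit 304) (nat_lit 8670335747) (nat_lit 380) (nat_lit 8569232099) (nat_lit 97) (nat_lit 5) (nat_lit 101) (nat_lit 5) (nat_lit 102) (nat_lit 5) (nat_lit 337) (nat_lit 271) (nat_lit 172)))) (XT.nd (nat_lit 78) (nat_lit 684) (nat_lit 0) (XT.lf (nat_lit 0) (nat_lit 15283977265) (nat_lit 304) (nat_lit 501935773) (nat_lit 380) (nat_lit 3340422258) (nat_lit 97) (nat_lit 5) (nat_lit 101) (nat_lit 5) (nat_lit 102) (nat_lit 5) (nat_lit 338) (nat_lit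 271) (nat_lit 171)) (XT.nd (nat_lit 78) (nat_lit 304) (nat_lit 0) (XT.lf (nat_lit 0) (nat_lit 2110692222) (nat_lit 380) (nat_lit 9536659099) (nat_lit 76) (nat_lit 7873431611) (nat_lit 92) (nat_lit 5) (nat_lit 97) (nat_lit 5) (nat_lit 93) (nat_lit 5) (nat_lit 339) (nat_lit 271) (nat_lit 170)) (XT.lf (nat_lit 0) (nat_lit 4344608580) (nat_lit 304) (nat_lit 3369069102) (nat_lit 380) (nat_lit 12212280188) (nat_lit 88) (nat_lit 5) (nat_lit 92) (nat_lit 5) (nat_lit 93) (nat_lit 5) (nat_lit 340) (nat_lit 271) (nat_lit 169))))) (XT.nd (nat_lit 234) (nat_lit 836) (nat_lit 0) (XT.nd (nat_lit 78) (nat_lit 608) (nat_lit 0) (XT.lf (nat_lit 0) (nat_lit 13559356362) (nat_lit 380) (nat_lit 1640794891) (nat_lit 76) (nat_lit 5141654337) (nat_lit 88) (nat_lit 5) (nat_lit 93) (nat_lit 5) (nat_lit 89) (nat_lit 5) (nat_lit 341) (nat_lit 271) (nat_lit 168)) (XT.nd (nat_lit 78) (nat_lit 380) (nat_lit 0) (XT.lf (nat_lit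 0) (nat_lit 12827035129) (nat_lit 228) (nat_lit 6835945419) (nat_lit 304) (nat_lit 1105506017) (nat_lit 85) (nat_lit 5) (nat_lit 88) (nat_lit 5) (nat_lit 89) (nat_lit 5) (nat_lit 342) (nat_lit 271) (nat_lit 167)) (XT.lf (nat_lit 0) (nat_lit 4722427438) (nat_lit 380) (nat_lit 14656306317) (nat_lit 76) (nat_lit 1827769944) (nat_lit 80) (nat_lit 5) (nat_lit 85) (nat_lit 5) (nat_lit 81) (nat_lit 5) (nat_lit 343) (nat_lit 271) (nat_lit 166)))) (XT.nd (nat_lit 156) (nat_lit 608) (nat_lit 0) (XT.nd (nat_lit 78) (nat_lit 228) (nat_lit 0) (XT.lf (nat_lit 0) (nat_lit 10787546429) (nat_lit 380) (nat_lit 160891924) (nat_lit 76) (nat_lit 10707538124) (nat_lit 80) (nat_lit 5) (nat_lit 85) (nat_lit 5) (nat_lit 81) (nat_lit 5) (nat_lit 344) (nat_lit 271) (nat_lit 165)) (XT.lf (nat_lit 0) (nat_lit 14930106638) (nat_lit 228) (nat_lit 2179503114) (nat_lit 304) (nat_lit 5007832240) (nat_lit 77) (nat_lit 5) (nat_lit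 80) (nat_lit 5) (nat_lit 81) (nat_lit 5) (nat_lit 345) (nat_lit 271) (nat_lit 164))) (XT.nd (nat_lit 78) (nat_lit 228) (nat_lit 0) (XT.lf (nat_lit 0) (nat_lit 1090899666) (nat_lit 380) (nat_lit 14690784861) (nat_lit 76) (nat_lit 6809425218) (nat_lit 72) (nat_lit 5) (nat_lit 77) (nat_lit 5) (nat_lit 73) (nat_lit 5) (nat_lit 346) (nat_lit 271) (nat_lit 163)) (XT.lf (nat_lit 0) (nat_lit 383018620) (nat_lit 228) (nat_lit 6966658135) (nat_lit 304) (nat_lit 15727754074) (nat_lit 69) (nat_lit 5) (nat_lit 72) (nat_lit 5) (nat_lit 73) (nat_lit 5) (nat_lit 347) (nat_lit 271) (nat_lit 162)))))) (XT.nd (nat_lit 546) (nat_lit 836) (nat_lit 0) (XT.nd (nat_lit 234) (nat_lit 760) (nat_lit 0) (XT.nd (nat_lit 78) (nat_lit 304) (nat_lit 0) (XT.lf (nat_lit 0) (nat_lit 13889103612) (nat_lit 304) (nat_lit 7514982125) (nat_lit 76) (nat_lit 2172405585) (nat_lit 69) (nat_lit 5) (nat_lit 73) (nat_lit 5) (nat_lit 70) (nat_lit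 5) (nat_lit 348) (nat_lit 271) (nat_lit 161)) (XT.nd (nat_lit 78) (nat_lit 76) (nat_lit 0) (XT.lf (nat_lit 0) (nat_lit 8146708178) (nat_lit 228) (nat_lit 12557060843) (nat_lit 304) (nat_lit 3385180783) (nat_lit 66) (nat_lit 5) (nat_lit 69) (nat_lit 5) (nat_lit 70) (nat_lit 5) (nat_lit 349) (nat_lit 271) (nat_lit 160)) (XT.lf (nat_lit 0) (nat_lit 3096431342) (nat_lit 304) (nat_lit 288264912) (nat_lit 76) (nat_lit 21231067868) (nat_lit 65) (nat_lit 5) (nat_lit 69) (nat_lit 5) (nat_lit 66) (nat_lit 5) (nat_lit 350) (nat_lit 271) (nat_lit 159)))) (XT.nd (nat_lit 156) (nat_lit 304) (nat_lit 0) (XT.nd (nat_lit 78) (nat_lit 228) (nat_lit 0) (XT.lf (nat_lit 0) (nat_lit 9851104714) (nat_lit 304) (nat_lit 9206112619) (nat_lit 76) (nat_lit 6098232668) (nat_lit 62) (nat_lit 5) (nat_lit 66) (nat_lit 5) (nat_lit 63) (nat_lit 5) (nat_lit 351) (nat_lit 271) (nat_lit 158)) (XT.lf (nat_lit 0) (nat_lit 7003999557)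 (nat_lit 228) (nat_lit 9855182323) (nat_lit 304) (nat_lit 8851135843) (nat_lit 59) (nat_lit 5) (nat_lit 62) (nat_lit 5) (nat_lit 63) (nat_lit 5) (nat_lit 352) (nat_lit 271) (nat_lit 157))) (XT.nd (nat_lit 78) (nat_lit 304) (nat_lit 0) (XT.lf (nat_lit 0) (nat_lit 23795010539) (nat_lit 228) (nat_lit 325920554) (nat_lit 304) (nat_lit 2160038137) (nat_lit 59) (nat_lit 5) (nat_lit 62) (nat_lit 5) (nat_lit 63) (nat_lit 5) (nat_lit 353) (nat_lit 271) (nat_lit 156)) (XT.lf (nat_lit 0) (nat_lit 4806710620) (nat_lit 304) (nat_lit 12581284757) (nat_lit 76) (nat_lit 9477396982) (nat_lit 55) (nat_lit 5) (nat_lit 59) (nat_lit 5) (nat_lit 56) (nat_lit 5) (nat_lit 354) (nat_lit 271) (nat_lit 155))))) (XT.nd (nat_lit 234) (nat_lit 456) (nat_lit 0) (XT.nd (nat_lit 78) (nat_lit 152) (nat_lit 0) (XT.lf (nat_lit 0) (nat_lit 4131189146) (nat_lit 228) (nat_lit 7849787909) (nat_lit 304) (nat_lit 15485534203) (nat_lit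 52) (nat_lit 5) (nat_lit 55) (nat_lit 5) (nat_lit 56) (nat_lit 5) (nat_lit 355) (nat_lit 271) (nat_lit 154)) (XT.nd (nat_lit 78) (nat_lit 152) (nat_lit 0) (XT.lf (nat_lit 0) (nat_lit 19451104357) (nat_lit 304) (nat_lit 6610430144) (nat_lit 76) (nat_lit 2022522263) (nat_lit 52) (nat_lit 5) (nat_lit 56) (nat_lit 5) (nat_lit 53) (nat_lit 5) (nat_lit 356) (nat_lit 271) (nat_lit 153)) (XT.lf (nat_lit 0) (nat_lit 10674253373) (nat_lit 152) (nat_lit 16575399234) (nat_lit 228) (nat_lit 1468395213) (nat_lit 50) (nat_lit 5) (nat_lit 52) (nat_lit 5) (nat_lit 53) (nat_lit 5) (nat_lit 357) (nat_lit 271) (nat_lit 152)))) (XT.nd (nat_lit 156) (nat_lit 152) (nat_lit 0) (XT.nd (nat_lit 78) (nat_lit 228) (nat_lit 0) (XT.lf (nat_lit 0) (nat_lit 5861384478) (nat_lit 228) (nat_lit 870088128) (nat_lit 76) (nat_lit 22638267475) (nat_lit 49) (nat_lit 5) (nat_lit 52) (nat_lit 5) (nat_lit 50) (nat_lit 5) (nat_lit 358) (nat_lit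 271) (nat_lit 151)) (XT.lf (nat_lit 0) (nat_lit 13507690196) (nat_lit 304) (nat_lit 13058111429) (nat_lit 76) (nat_lit 3472660824) (nat_lit 46) (nat_lit 5) (nat_lit 50) (nat_lit 5) (nat_lit 47) (nat_lit 5) (nat_lit 359) (nat_lit 271) (nat_lit 150))) (XT.nd (nat_lit 33774) (nat_lit 0) (nat_lit 38228) (XT.lf (nat_lit 0) (nat_lit 4638705596) (nat_lit 152) (nat_lit 16809204887) (nat_lit 228) (nat_lit 9278050459) (nat_lit 44) (nat_lit 5) (nat_lit 46) (nat_lit 5) (nat_lit 47) (nat_lit 5) (nat_lit 360) (nat_lit 271) (nat_lit 149)) (XT.lf (nat_lit 0) (nat_lit 807095122) (nat_lit 0) (nat_lit 807095122) (nat_lit 988) (nat_lit 1919493462) (nat_lit 547) (nat_lit 5) (nat_lit 547) (nat_lit 3) (nat_lit 560) (nat_lit 3) (nat_lit 272) (nat_lit 272) (nat_lit 236))))))))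
noncomputable def xc72 : XT := (XT.nd (nat_lit 2028) (nat_lit 13072) (nat_lit 0) (XT.nd (nat_lit 1014) (nat_lit 12844) (nat_lit 0) (XT.nd (nat_lit 468) (nat_lit 2280) (nat_lit 0) (XT.nd (nat_lit 234) (nat_lit 1064) (nat_lit 0) (XT.nd (nat_lit 78) (nat_lit 1064) (nat_lit 0) (XT.lf (nat_lit 0) (nat_lit 5776101507) (nat_lit 988) (nat_lit 560899539) (nat_lit 1064) (nat_lit 783818035) (nat_lit 547) (nat_lit 5) (nat_lit 560) (nat_lit 3) (nat_lit 561) (nat_lit 5) (nat_lit 273) (nat_lit 272) (nat_lit 235)) (XT.nd (nat_lit 78) (nat_lit 0) (nat_lit 0) (XT.lf (nat_lit 0) (nat_lit 1150670435) (nat_lit 1064) (nat_lit 2709679047) (nat_lit 1140) (nat_lit 3316617303) (nat_lit 533) (nat_lit 5) (nat_lit 547) (nat_lit 5) (nat_lit 548) (nat_lit 5) (nat_lit 274) (nat_lit 272) (nat_lit 234)) (XT.lf (nat_lit 76) (nat_lit 2390037069) (nat_lit 0) (nat_lit 1236815931) (nat_lit 1140) (nat_lit 3609379679) (nat_lit 534) (nat_lit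 5) (nat_lit 533) (nat_lit 5) (nat_lit 548) (nat_lit 5) (nat_lit 275) (nat_lit 272) (nat_lit 233)))) (XT.nd (nat_lit 78) (nat_lit 1140) (nat_lit 0) (XT.lf (nat_lit 76) (nat_lit 324595309) (nat_lit 0) (nat_lit 5790303390) (nat_lit 1140) (nat_lit 1183719091) (nat_lit 535) (nat_lit 5) (nat_lit 534) (nat_lit 5) (nat_lit 549) (nat_lit 5) (nat_lit 276) (nat_lit 272) (nat_lit 232)) (XT.nd (nat_lit 78) (nat_lit 0) (nat_lit 76) (XT.lf (nat_lit 0) (nat_lit 1247939724) (nat_lit 1140) (nat_lit 1715785082) (nat_lit 1216) (nat_lit 4400057835) (nat_lit 519) (nat_lit 5) (nat_lit 534) (nat_lit 5) (nat_lit 535) (nat_lit 5) (nat_lit 277) (nat_lit 272) (nat_lit 231)) (XT.lf (nat_lit 0) (nat_lit 3672404977) (nat_lit 1140) (nat_lit 3743392627) (nat_lit 1216) (nat_lit 16315320) (nat_lit 520) (nat_lit 5) (nat_lit 535) (nat_lit 5) (nat_lit 536) (nat_lit 5) (nat_lit 278) (nat_lit 272) (nat_lit 230))))) (XT.nd (nat_lit 234)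 (nat_lit 1140) (nat_lit 0) (XT.nd (nat_lit 78) (nat_lit 1216) (nat_lit 0) (XT.lf (nat_lit 76) (nat_lit 1726308140) (nat_lit 0) (nat_lit 4400282538) (nat_lit 1216) (nat_lit 1376845964) (nat_lit 521) (nat_lit 5) (nat_lit 520) (nat_lit 5) (nat_lit 536) (nat_lit 5) (nat_lit 279) (nat_lit 272) (nat_lit 229)) (XT.nd (nat_lit 78) (nat_lit 0) (nat_lit 76) (XT.lf (nat_lit 0) (nat_lit 1004684803) (nat_lit 1216) (nat_lit 225576923) (nat_lit 1292) (nat_lit 6347751383) (nat_lit 504) (nat_lit 5) (nat_lit 520) (nat_lit 5) (nat_lit 521) (nat_lit 5) (nat_lit 280) (nat_lit 272) (nat_lit 228)) (XT.lf (nat_lit 0) (nat_lit 3406732752) (nat_lit 1216) (nat_lit 2165654855) (nat_lit 1292) (nat_lit 2082978636) (nat_lit 505) (nat_lit 5) (nat_lit 521) (nat_lit 5) (nat_lit 522) (nat_lit 5) (nat_lit 281) (nat_lit 272) (nat_lit 227)))) (XT.nd (nat_lit 156) (nat_lit 0) (nat_lit 0) (XT.nd (nat_lit 78) (nat_lit 1216) (nat_lit 0)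 (XT.lf (nat_lit 76) (nat_lit 3631100367) (nat_lit 0) (nat_lit 2203553776) (nat_lit 1292) (nat_lit 1901384285) (nat_lit 506) (nat_lit 5) (nat_lit 505) (nat_lit 5) (nat_lit 522) (nat_lit 5) (nat_lit 282) (nat_lit 272) (nat_lit 226)) (XT.lf (nat_lit 0) (nat_lit 466282061) (nat_lit 1292) (nat_lit 6049373756) (nat_lit 1368) (nat_lit 1304343603) (nat_lit 489) (nat_lit 5) (nat_lit 506) (nat_lit 5) (nat_lit 507) (nat_lit 5) (nat_lit 283) (nat_lit 272) (nat_lit 225))) (XT.nd (nat_lit 78) (nat_lit 0) (nat_lit 76) (XT.lf (nat_lit 0) (nat_lit 2845986871) (nat_lit 1292) (nat_lit 108874939) (nat_lit 1368) (nat_lit 4952098280) (nat_lit 489) (nat_lit 5) (nat_lit 506) (nat_lit 5) (nat_lit 507) (nat_lit 5) (nat_lit 284) (nat_lit 272) (nat_lit 224)) (XT.lf (nat_lit 0) (nat_lit 5267474722) (nat_lit 1292) (nat_lit 1965695436) (nat_lit 1368) (nat_lit 764018599) (nat_lit 490) (nat_lit 5) (nat_lit 507) (nat_lit 5) (nat_lit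 508) (nat_lit 5) (nat_lit 285) (nat_lit 272) (nat_lit 223)))))) (XT.nd (nat_lit 468) (nat_lit 7220) (nat_lit 0) (XT.nd (nat_lit 234) (nat_lit 3040) (nat_lit 0) (XT.nd (nat_lit 78) (nat_lit 2660) (nat_lit 0) (XT.lf (nat_lit 76) (nat_lit 4250252679) (nat_lit 0) (nat_lit 3487573462) (nat_lit 1368) (nat_lit 352838833) (nat_lit 491) (nat_lit 5) (nat_lit 490) (nat_lit 5) (nat_lit 508) (nat_lit 5) (nat_lit 286) (nat_lit 272) (nat_lit 222)) (XT.nd (nat_lit 78) (nat_lit 1368) (nat_lit 0) (XT.lf (nat_lit 0) (nat_lit 2029379552) (nat_lit 1368) (nat_lit 5732226022) (nat_lit 76) (nat_lit 425899392) (nat_lit 473) (nat_lit 5) (nat_lit 491) (nat_lit 5) (nat_lit 474) (nat_lit 5) (nat_lit 287) (nat_lit 272) (nat_lit 221)) (XT.lf (nat_lit 0) (nat_lit 634144279) (nat_lit 1368) (nat_lit 3828962088) (nat_lit 1444) (nat_lit 3824460562) (nat_lit 455) (nat_lit 5) (nat_lit 473) (nat_lit 5) (nat_lit 474) (nat_lit 5) (nat_lit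 288) (nat_lit 272) (nat_lit 220)))) (XT.nd (nat_lit 78) (nat_lit 3040) (nat_lit 0) (XT.lf (nat_lit 0) (nat_lit 6943307607) (nat_lit 1444) (nat_lit 1176195060) (nat_lit 76) (nat_lit 271717208) (nat_lit 455) (nat_lit 5) (nat_lit 474) (nat_lit 5) (nat_lit 456) (nat_lit 5) (nat_lit 289) (nat_lit 272) (nat_lit 219)) (XT.nd (nat_lit 78) (nat_lit 1520) (nat_lit 0) (XT.lf (nat_lit 0) (nat_lit 982855365) (nat_lit 1520) (nat_lit 3015877484) (nat_lit 76) (nat_lit 4499254536) (nat_lit 435) (nat_lit 5) (nat_lit 455) (nat_lit 5) (nat_lit 436) (nat_lit 5) (nat_lit 290) (nat_lit 272) (nat_lit 218)) (XT.lf (nat_lit 0) (nat_lit 3437160999) (nat_lit 1596) (nat_lit 4875755488) (nat_lit 76) (nat_lit 295498238) (nat_lit 415) (nat_lit 5) (nat_lit 436) (nat_lit 5) (nat_lit 416) (nat_lit 5) (nat_lit 291) (nat_lit 272) (nat_lit 217))))) (XT.nd (nat_lit 234) (nat_lit 3876) (nat_lit 0) (XT.nd (nat_lit 78) (nat_lit 1748) (nat_lit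 0) (XT.lf (nat_lit 0) (nat_lit 1948286443) (nat_lit 1596) (nat_lit 4014324718) (nat_lit 1672) (nat_lit 2759645793) (nat_lit 394) (nat_lit 5) (nat_lit 415) (nat_lit 5) (nat_lit 416) (nat_lit 5) (nat_lit 292) (nat_lit 272) (nat_lit 216)) (XT.nd (nat_lit 78) (nat_lit 76) (nat_lit 0) (XT.lf (nat_lit 0) (nat_lit 149969780) (nat_lit 1672) (nat_lit 8389853052) (nat_lit 1748) (nat_lit 300222506) (nat_lit 372) (nat_lit 5) (nat_lit 394) (nat_lit 5) (nat_lit 395) (nat_lit 5) (nat_lit 293) (nat_lit 272) (nat_lit 215)) (XT.lf (nat_lit 0) (nat_lit 2216819015) (nat_lit 1748) (nat_lit 1681745136) (nat_lit 76) (nat_lit 5062299234) (nat_lit 371) (nat_lit 5) (nat_lit 394) (nat_lit 5) (nat_lit 372) (nat_lit 5) (nat_lit 294) (nat_lit 272) (nat_lit 214)))) (XT.nd (nat_lit 156) (nat_lit 1748) (nat_lit 0) (XT.nd (nat_lit 78) (nat_lit 836) (nat_lit 0) (XT.lf (nat_lit 0) (nat_lit 4788212277) (nat_lit 1368) (nat_lit 3535509063)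 (nat_lit 76) (nat_lit 761933547) (nat_lit 354) (nat_lit 5) (nat_lit 372) (nat_lit 5) (nat_lit 355) (nat_lit 5) (nat_lit 295) (nat_lit 272) (nat_lit 213)) (XT.lf (nat_lit 0) (nat_lit 3778669792) (nat_lit 836) (nat_lit 3663362975) (nat_lit 912) (nat_lit 1772097281) (nat_lit 343) (nat_lit 5) (nat_lit 354) (nat_lit 5) (nat_lit 355) (nat_lit 5) (nat_lit 296) (nat_lit 272) (nat_lit 212))) (XT.nd (nat_lit 78) (nat_lit 836) (nat_lit 0) (XT.lf (nat_lit 0) (nat_lit 806920134) (nat_lit 912) (nat_lit 7372030345) (nat_lit 76) (nat_lit 1167669074) (nat_lit 331) (nat_lit 5) (nat_lit 343) (nat_lit 5) (nat_lit 332) (nat_lit 5) (nat_lit 297) (nat_lit 272) (nat_lit 211)) (XT.lf (nat_lit 0) (nat_lit 110836329) (nat_lit 836) (nat_lit 3336250966) (nat_lit 912) (nat_lit 6035647236) (nat_lit 320) (nat_lit 5) (nat_lit 331) (nat_lit 5) (nat_lit 332) (nat_lit 5) (nat_lit 298) (nat_lit 272) (nat_lit 210))))))) (XT.nd (nat_lit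 1014) (nat_lit 5852) (nat_lit 0) (XT.nd (nat_lit 468) (nat_lit 4028) (nat_lit 0) (XT.nd (nat_lit 234) (nat_lit 1520) (nat_lit 0) (XT.nd (nat_lit 78) (nat_lit 1672) (nat_lit 0) (XT.lf (nat_lit 0) (nat_lit 6174151538) (nat_lit 912) (nat_lit 1767163703) (nat_lit 76) (nat_lit 1681504807) (nat_lit 320) (nat_lit 5) (nat_lit 332) (nat_lit 5) (nat_lit 321) (nat_lit 5) (nat_lit 299) (nat_lit 272) (nat_lit 209)) (XT.nd (nat_lit 78) (nat_lit 836) (nat_lit 0) (XT.lf (nat_lit 0) (nat_lit 6071306353) (nat_lit 836) (nat_lit 2921686154) (nat_lit 912) (nat_lit 773956068) (nat_lit 309) (nat_lit 5) (nat_lit 320) (nat_lit 5) (nat_lit 321) (nat_lit 5) (nat_lit 300) (nat_lit 272) (nat_lit 208)) (XT.lf (nat_lit 0) (nat_lit 1958614227) (nat_lit 836) (nat_lit 5685256322) (nat_lit 76) (nat_lit 2271239043) (nat_lit 298) (nat_lit 5) (nat_lit 309) (nat_lit 5) (nat_lit 299) (nat_lit 5) (nat_lit 301) (nat_lit 272) (nat_lit 207))))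 (XT.nd (nat_lit 78) (nat_lit 760) (nat_lit 0) (XT.lf (nat_lit 0) (nat_lit 2330381460) (nat_lit 760) (nat_lit 2442390413) (nat_lit 836) (nat_lit 5294675468) (nat_lit 288) (nat_lit 5) (nat_lit 298) (nat_lit 5) (nat_lit 299) (nat_lit 5) (nat_lit 302) (nat_lit 272) (nat_lit 206)) (XT.nd (nat_lit 78) (nat_lit 76) (nat_lit 0) (XT.lf (nat_lit 0) (nat_lit 374512095) (nat_lit 684) (nat_lit 7308274024) (nat_lit 760) (nat_lit 2541376122) (nat_lit 279) (nat_lit 5) (nat_lit 288) (nat_lit 5) (nat_lit 289) (nat_lit 5) (nat_lit 303) (nat_lit 272) (nat_lit 205)) (XT.lf (nat_lit 0) (nat_lit 311799282) (nat_lit 760) (nat_lit 1619549864) (nat_lit 76) (nat_lit 8453802339) (nat_lit 278) (nat_lit 5) (nat_lit 288) (nat_lit 5) (nat_lit 279) (nat_lit 5) (nat_lit 304) (nat_lit 272) (nat_lit 204))))) (XT.nd (nat_lit 234) (nat_lit 1900) (nat_lit 0) (XT.nd (nat_lit 78) (nat_lit 1368) (nat_lit 0) (XT.lf (nat_lit 0) (nat_lit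 3238142081) (nat_lit 836) (nat_lit 3694070693) (nat_lit 76) (nat_lit 3618012620) (nat_lit 268) (nat_lit 5) (nat_lit 279) (nat_lit 5) (nat_lit 269) (nat_lit 5) (nat_lit 305) (nat_lit 272) (nat_lit 203)) (XT.nd (nat_lit 78) (nat_lit 684) (nat_lit 0) (XT.lf (nat_lit 0) (nat_lit 4889034472) (nat_lit 684) (nat_lit 1373384241) (nat_lit 760) (nat_lit 4457661927) (nat_lit 259) (nat_lit 5) (nat_lit 268) (nat_lit 5) (nat_lit 269) (nat_lit 5) (nat_lit 306) (nat_lit 272) (nat_lit 202)) (XT.lf (nat_lit 0) (nat_lit 2844107345) (nat_lit 684) (nat_lit 6560648133) (nat_lit 760) (nat_lit 1489760487) (nat_lit 250) (nat_lit 5) (nat_lit 259) (nat_lit 5) (nat_lit 260) (nat_lit 5) (nat_lit 307) (nat_lit 272) (nat_lit 201)))) (XT.nd (nat_lit 156) (nat_lit 1216) (nat_lit 0) (XT.nd (nat_lit 78) (nat_lit 0) (nat_lit 0) (XT.lf (nat_lit 0) (nat_lit 725600326) (nat_lit 608) (nat_lit 830762626) (nat_lit 684) (nat_lit 9517452679)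 (nat_lit 241) (nat_lit 5) (nat_lit 249) (nat_lit 5) (nat_lit 250) (nat_lit 5) (nat_lit 308) (nat_lit 272) (nat_lit 200)) (XT.lf (nat_lit 0) (nat_lit 4718568715) (nat_lit 684) (nat_lit 1475830617) (nat_lit 76) (nat_lit 5063027938) (nat_lit 241) (nat_lit 5) (nat_lit 250) (nat_lit 5) (nat_lit 242) (nat_lit 5) (nat_lit 309) (nat_lit 272) (nat_lit 199))) (XT.nd (nat_lit 78) (nat_lit 608) (nat_lit 0) (XT.lf (nat_lit 0) (nat_lit 7709481367) (nat_lit 608) (nat_lit 280008323) (nat_lit 684) (nat_lit 3456808450) (nat_lit 233) (nat_lit 5) (nat_lit 241) (nat_lit 5) (nat_lit 242) (nat_lit 5) (nat_lit 310) (nat_lit 272) (nat_lit 198)) (XT.lf (nat_lit 0) (nat_lit 5535917309) (nat_lit 608) (nat_lit 5865461439) (nat_lit 684) (nat_lit 238626635) (nat_lit 225) (nat_lit 5) (nat_lit 233) (nat_lit 5) (nat_lit 234) (nat_lit 5) (nat_lit 311) (nat_lit 272) (nat_lit 197)))))) (XT.nd (nat_lit 546) (nat_lit 2508) (nat_lit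 0) (XT.nd (nat_lit 234) (nat_lit 2128) (nat_lit 0) (XT.nd (nat_lit 78) (nat_lit 532) (nat_lit 0) (XT.lf (nat_lit 0) (nat_lit 3045518989) (nat_lit 684) (nat_lit 8569178067) (nat_lit 76) (nat_lit 224257855) (nat_lit 216) (nat_lit 5) (nat_lit 225) (nat_lit 5) (nat_lit 217) (nat_lit 5) (nat_lit 312) (nat_lit 272) (nat_lit 196)) (XT.nd (nat_lit 78) (nat_lit 0) (nat_lit 0) (XT.lf (nat_lit 0) (nat_lit 887361655) (nat_lit 532) (nat_lit 5584722240) (nat_lit 608) (nat_lit 5570839745) (nat_lit 209) (nat_lit 5) (nat_lit 216) (nat_lit 5) (nat_lit 217) (nat_lit 5) (nat_lit 313) (nat_lit 272) (nat_lit 195)) (XT.lf (nat_lit 0) (nat_lit 10025239639) (nat_lit 608) (nat_lit 1559904435) (nat_lit 76) (nat_lit 667415752) (nat_lit 209) (nat_lit 5) (nat_lit 217) (nat_lit 5) (nat_lit 210) (nat_lit 5) (nat_lit 314) (nat_lit 272) (nat_lit 194)))) (XT.nd (nat_lit 156) (nat_lit 988) (nat_lit 0) (XT.nd (nat_lit 78) (nat_lit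 532) (nat_lit 0) (XT.lf (nat_lit 0) (nat_lit 1254841413) (nat_lit 608) (nat_lit 4127000903) (nat_lit 76) (nat_lit 7085422094) (nat_lit 201) (nat_lit 5) (nat_lit 209) (nat_lit 5) (nat_lit 202) (nat_lit 5) (nat_lit 315) (nat_lit 272) (nat_lit 193)) (XT.lf (nat_lit 0) (nat_lit 4830068756) (nat_lit 608) (nat_lit 6808815556) (nat_lit 76) (nat_lit 1048876569) (nat_lit 194) (nat_lit 5) (nat_lit 202) (nat_lit 5) (nat_lit 195) (nat_lit 5) (nat_lit 316) (nat_lit 272) (nat_lit 192))) (XT.nd (nat_lit 78) (nat_lit 456) (nat_lit 0) (XT.lf (nat_lit 0) (nat_lit 3287426383) (nat_lit 532) (nat_lit 5274261764) (nat_lit 608) (nat_lit 4352223172) (nat_lit 187) (nat_lit 5) (nat_lit 194) (nat_lit 5) (nat_lit 195) (nat_lit 5) (nat_lit 317) (nat_lit 272) (nat_lit 191)) (XT.lf (nat_lit 0) (nat_lit 586228514) (nat_lit 456) (nat_lit 11841938802) (nat_lit 532) (nat_lit 718241872) (nat_lit 181) (nat_lit 5) (nat_lit 187) (nat_lit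 5) (nat_lit 188) (nat_lit 5) (nat_lit 318) (nat_lit 272) (nat_lit 190))))) (XT.nd (nat_lit 234) (nat_lit 1444) (nat_lit 0) (XT.nd (nat_lit 78) (nat_lit 988) (nat_lit 0) (XT.lf (nat_lit 0) (nat_lit 3050854775) (nat_lit 532) (nat_lit 2249225189) (nat_lit 76) (nat_lit 8084114056) (nat_lit 180) (nat_lit 5) (nat_lit 187) (nat_lit 5) (nat_lit 181) (nat_lit 5) (nat_lit 319) (nat_lit 272) (nat_lit 189)) (XT.nd (nat_lit 78) (nat_lit 456) (nat_lit 0) (XT.lf (nat_lit 0) (nat_lit 6953581986) (nat_lit 608) (nat_lit 5206490461) (nat_lit 76) (nat_lit 1468358220) (nat_lit 173) (nat_lit 5) (nat_lit 181) (nat_lit 5) (nat_lit 174) (nat_lit 5) (nat_lit 320) (nat_lit 272) (nat_lit 188)) (XT.lf (nat_lit 0) (nat_lit 5556738568) (nat_lit 456) (nat_lit 5470008103) (nat_lit 532) (nat_lit 2852199599) (nat_lit 167) (nat_lit 5) (nat_lit 173) (nat_lit 5) (nat_lit 174) (nat_lit 5) (nat_lit 321) (nat_lit 272) (nat_lit 187))))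 (XT.nd (nat_lit 156) (nat_lit 912) (nat_lit 0) (XT.nd (nat_lit 78) (nat_lit 0) (nat_lit 0) (XT.lf (nat_lit 0) (nat_lit 1099515416) (nat_lit 532) (nat_lit 11586526107) (nat_lit 76) (nat_lit 1450240605) (nat_lit 160) (nat_lit 5) (nat_lit 167) (nat_lit 5) (nat_lit 161) (nat_lit 5) (nat_lit 322) (nat_lit 272) (nat_lit 186)) (XT.lf (nat_lit 0) (nat_lit 5192147467) (nat_lit 532) (nat_lit 638970280) (nat_lit 76) (nat_lit 8568638465) (nat_lit 160) (nat_lit 5) (nat_lit 167) (nat_lit 5) (nat_lit 161) (nat_lit 5) (nat_lit 323) (nat_lit 272) (nat_lit 185))) (XT.nd (nat_lit 78) (nat_lit 456) (nat_lit 0) (XT.lf (nat_lit 0) (nat_lit 9454114692) (nat_lit 532) (nat_lit 3944187438) (nat_lit 76) (nat_lit 1271918285) (nat_lit 154) (nat_lit 5) (nat_lit 161) (nat_lit 5) (nat_lit 155) (nat_lit 5) (nat_lit 324) (nat_lit 272) (nat_lit 184)) (XT.lf (nat_lit 0) (nat_lit 7508384010) (nat_lit 456) (nat_lit 6396718387) (nat_lit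 532) (nat_lit 1042489440) (nat_lit 148) (nat_lit 5) (nat_lit 154) (nat_lit 5) (nat_lit 155) (nat_lit 5) (nat_lit 325) (nat_lit 272) (nat_lit 183))))))))
noncomputable def xc73 : XT := (XT.nd (nat_lit 2106) (nat_lit 1216) (nat_lit 0) (XT.nd (nat_lit 1014) (nat_lit 2660) (nat_lit 0) (XT.nd (nat_lit 468) (nat_lit 1824) (nat_lit 0) (XT.nd (nat_lit 234) (nat_lit 1140) (nat_lit 0) (XT.nd (nat_lit 78) (nat_lit 456) (nat_lit 0) (XT.lf (nat_lit 0) (nat_lit 3242427356) (nat_lit 456) (nat_lit 11122501635) (nat_lit 76) (nat_lit 867372304) (nat_lit 142) (nat_lit 5) (nat_lit 148) (nat_lit 5) (nat_lit 143) (nat_lit 5) (nat_lit 326) (nat_lit 272) (nat_lit 182)) (XT.nd (nat_lit 78) (nat_lit 0) (nat_lit 0) (XT.lf (nat_lit 0) (nat_lit 496340163) (nat_lit 456) (nat_lit 7212217724) (nat_lit 532) (nat_lit 7815535010) (nat_lit 136) (nat_lit 5) (nat_lit 142) (nat_lit 5) (nat_lit 143) (nat_lit 5) (nat_lit 327) (nat_lit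 272) (nat_lit 181)) (XT.lf (nat_lit 0) (nat_lit 12356071903) (nat_lit 532) (nat_lit 3251121189) (nat_lit 76) (nat_lit 216511990) (nat_lit 136) (nat_lit 5) (nat_lit 143) (nat_lit 5) (nat_lit 137) (nat_lit 5) (nat_lit 328) (nat_lit 272) (nat_lit 180)))) (XT.nd (nat_lit 78) (nat_lit 684) (nat_lit 0) (XT.lf (nat_lit 0) (nat_lit 1075387158) (nat_lit 456) (nat_lit 7231703395) (nat_lit 76) (nat_lit 7823539203) (nat_lit 130) (nat_lit 5) (nat_lit 136) (nat_lit 5) (nat_lit 131) (nat_lit 5) (nat_lit 329) (nat_lit 272) (nat_lit 179)) (XT.nd (nat_lit 78) (nat_lit 304) (nat_lit 0) (XT.lf (nat_lit 0) (nat_lit 5013107046) (nat_lit 380) (nat_lit 721226095) (nat_lit 456) (nat_lit 10711449379) (nat_lit 125) (nat_lit 5) (nat_lit 130) (nat_lit 5) (nat_lit 131) (nat_lit 5) (nat_lit 330) (nat_lit 272) (nat_lit 178)) (XT.lf (nat_lit 0) (nat_lit 879218439) (nat_lit 304) (nat_lit 9727146038) (nat_lit 380) (nat_lit 6162572350)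 (nat_lit 121) (nat_lit 5) (nat_lit 125) (nat_lit 5) (nat_lit 126) (nat_lit 5) (nat_lit 331) (nat_lit 272) (nat_lit 177))))) (XT.nd (nat_lit 234) (nat_lit 1064) (nat_lit 0) (XT.nd (nat_lit 78) (nat_lit 760) (nat_lit 0) (XT.lf (nat_lit 0) (nat_lit 13671954318) (nat_lit 304) (nat_lit 2007645871) (nat_lit 380) (nat_lit 1421097617) (nat_lit 121) (nat_lit 5) (nat_lit 125) (nat_lit 5) (nat_lit 126) (nat_lit 5) (nat_lit 332) (nat_lit 272) (nat_lit 176)) (XT.nd (nat_lit 78) (nat_lit 304) (nat_lit 0) (XT.lf (nat_lit 0) (nat_lit 3491132144) (nat_lit 456) (nat_lit 8011897288) (nat_lit 76) (nat_lit 5937466370) (nat_lit 115) (nat_lit 5) (nat_lit 121) (nat_lit 5) (nat_lit 116) (nat_lit 5) (nat_lit 333) (nat_lit 272) (nat_lit 175)) (XT.lf (nat_lit 0) (nat_lit 4931027405) (nat_lit 304) (nat_lit 3643162239) (nat_lit 380) (nat_lit 9215266798) (nat_lit 111) (nat_lit 5) (nat_lit 115) (nat_lit 5) (nat_lit 116) (nat_lit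 5) (nat_lit 334) (nat_lit 272) (nat_lit 174)))) (XT.nd (nat_lit 156) (nat_lit 608) (nat_lit 0) (XT.nd (nat_lit 78) (nat_lit 76) (nat_lit 0) (XT.lf (nat_lit 0) (nat_lit 157973612) (nat_lit 380) (nat_lit 13710607494) (nat_lit 456) (nat_lit 4279139534) (nat_lit 106) (nat_lit 5) (nat_lit 111) (nat_lit 5) (nat_lit 112) (nat_lit 5) (nat_lit 335) (nat_lit 272) (nat_lit 173)) (XT.lf (nat_lit 0) (nat_lit 881166245) (nat_lit 456) (nat_lit 4842936205) (nat_lit 76) (nat_lit 12790803736) (nat_lit 105) (nat_lit 5) (nat_lit 111) (nat_lit 5) (nat_lit 106) (nat_lit 5) (nat_lit 336) (nat_lit 272) (nat_lit 172))) (XT.nd (nat_lit 78) (nat_lit 304) (nat_lit 0) (XT.lf (nat_lit 0) (nat_lit 6187313510) (nat_lit 380) (nat_lit 10161780546) (nat_lit 76) (nat_lit 2542474865) (nat_lit 101) (nat_lit 5) (nat_lit 106) (nat_lit 5) (nat_lit 102) (nat_lit 5) (nat_lit 337) (nat_lit 272) (nat_lit 171)) (XT.lf (nat_lit 0) (nat_lit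 3466748282) (nat_lit 304) (nat_lit 8255436558) (nat_lit 380) (nat_lit 7555966299) (nat_lit 97) (nat_lit 5) (nat_lit 101) (nat_lit 5) (nat_lit 102) (nat_lit 5) (nat_lit 338) (nat_lit 272) (nat_lit 170)))))) (XT.nd (nat_lit 546) (nat_lit 1140) (nat_lit 0) (XT.nd (nat_lit 234) (nat_lit 836) (nat_lit 0) (XT.nd (nat_lit 78) (nat_lit 684) (nat_lit 0) (XT.lf (nat_lit 0) (nat_lit 17469045866) (nat_lit 380) (nat_lit 2069835778) (nat_lit 76) (nat_lit 136540400) (nat_lit 97) (nat_lit 5) (nat_lit 102) (nat_lit 5) (nat_lit 98) (nat_lit 5) (nat_lit 339) (nat_lit 272) (nat_lit 169)) (XT.nd (nat_lit 78) (nat_lit 304) (nat_lit 0) (XT.lf (nat_lit 0) (nat_lit 3372003114) (nat_lit 380) (nat_lit 7952487094) (nat_lit 76) (nat_lit 8757468877) (nat_lit 92) (nat_lit 5) (nat_lit 97) (nat_lit 5) (nat_lit 93) (nat_lit 5) (nat_lit 340) (nat_lit 272) (nat_lit 168)) (XT.lf (nat_lit 0) (nat_lit 6314875678) (nat_lit 304) (nat_lit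 2805255582) (nat_lit 380) (nat_lit 11379631149) (nat_lit 88) (nat_lit 5) (nat_lit 92) (nat_lit 5) (nat_lit 93) (nat_lit 5) (nat_lit 341) (nat_lit 272) (nat_lit 167)))) (XT.nd (nat_lit 156) (nat_lit 532) (nat_lit 0) (XT.nd (nat_lit 78) (nat_lit 76) (nat_lit 0) (XT.lf (nat_lit 0) (nat_lit 116938385) (nat_lit 228) (nat_lit 14994967739) (nat_lit 304) (nat_lit 5816778706) (nat_lit 85) (nat_lit 5) (nat_lit 88) (nat_lit 5) (nat_lit 89) (nat_lit 5) (nat_lit 342) (nat_lit 272) (nat_lit 166)) (XT.lf (nat_lit 0) (nat_lit 7333206) (nat_lit 304) (nat_lit 6380700621) (nat_lit 76) (nat_lit 14980596372) (nat_lit 84) (nat_lit 5) (nat_lit 88) (nat_lit 5) (nat_lit 85) (nat_lit 5) (nat_lit 343) (nat_lit 272) (nat_lit 165))) (XT.nd (nat_lit 78) (nat_lit 228) (nat_lit 0) (XT.lf (nat_lit 0) (nat_lit 5977910010) (nat_lit 380) (nat_lit 13315084159) (nat_lit 76) (nat_lit 2527003773) (nat_lit 80) (nat_lit 5) (nat_lit 85)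 (nat_lit 5) (nat_lit 81) (nat_lit 5) (nat_lit 344) (nat_lit 272) (nat_lit 164)) (XT.lf (nat_lit 0) (nat_lit 1584097180) (nat_lit 228) (nat_lit 10618729339) (nat_lit 304) (nat_lit 10080583875) (nat_lit 77) (nat_lit 5) (nat_lit 80) (nat_lit 5) (nat_lit 81) (nat_lit 5) (nat_lit 345) (nat_lit 272) (nat_lit 163))))) (XT.nd (nat_lit 234) (nat_lit 532) (nat_lit 0) (XT.nd (nat_lit 78) (nat_lit 608) (nat_lit 0) (XT.lf (nat_lit 0) (nat_lit 17078998359) (nat_lit 228) (nat_lit 1604816144) (nat_lit 304) (nat_lit 4075532124) (nat_lit 77) (nat_lit 5) (nat_lit 80) (nat_lit 5) (nat_lit 81) (nat_lit 5) (nat_lit 346) (nat_lit 272) (nat_lit 162)) (XT.nd (nat_lit 78) (nat_lit 228) (nat_lit 0) (XT.lf (nat_lit 0) (nat_lit 2175957925) (nat_lit 380) (nat_lit 13426570921) (nat_lit 76) (nat_lit 7644886551) (nat_lit 72) (nat_lit 5) (nat_lit 77) (nat_lit 5) (nat_lit 73) (nat_lit 5) (nat_lit 347) (nat_lit 272) (nat_lit 161))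 (XT.lf (nat_lit 0) (nat_lit 2071786079) (nat_lit 228) (nat_lit 6530951816) (nat_lit 304) (nat_lit 15145994523) (nat_lit 69) (nat_lit 5) (nat_lit 72) (nat_lit 5) (nat_lit 73) (nat_lit 5) (nat_lit 348) (nat_lit 272) (nat_lit 160)))) (XT.nd (nat_lit 156) (nat_lit 304) (nat_lit 0) (XT.nd (nat_lit 78) (nat_lit 228) (nat_lit 0) (XT.lf (nat_lit 0) (nat_lit 15312336621) (nat_lit 304) (nat_lit 6095662291) (nat_lit 76) (nat_lit 2855296808) (nat_lit 69) (nat_lit 5) (nat_lit 73) (nat_lit 5) (nat_lit 70) (nat_lit 5) (nat_lit 349) (nat_lit 272) (nat_lit 159)) (XT.lf (nat_lit 0) (nat_lit 10009194293) (nat_lit 228) (nat_lit 12303436101) (nat_lit 304) (nat_lit 2478884255) (nat_lit 66) (nat_lit 5) (nat_lit 69) (nat_lit 5) (nat_lit 70) (nat_lit 5) (nat_lit 350) (nat_lit 272) (nat_lit 158))) (XT.nd (nat_lit 78) (nat_lit 0) (nat_lit 0) (XT.lf (nat_lit 0) (nat_lit 1304314700) (nat_lit 228) (nat_lit 2859141933) (nat_lit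 304) (nat_lit 21170965876) (nat_lit 62) (nat_lit 5) (nat_lit 65) (nat_lit 5) (nat_lit 66) (nat_lit 5) (nat_lit 351) (nat_lit 272) (nat_lit 157)) (XT.lf (nat_lit 0) (nat_lit 11098259389) (nat_lit 304) (nat_lit 7908565390) (nat_lit 76) (nat_lit 6883934068) (nat_lit 62) (nat_lit 5) (nat_lit 66) (nat_lit 5) (nat_lit 63) (nat_lit 5) (nat_lit 352) (nat_lit 272) (nat_lit 156))))))) (XT.nd (nat_lit 34788) (nat_lit 0) (nat_lit 29564) (XT.nd (nat_lit 468) (nat_lit 304) (nat_lit 0) (XT.nd (nat_lit 234) (nat_lit 380) (nat_lit 0) (XT.nd (nat_lit 78) (nat_lit 304) (nat_lit 0) (XT.lf (nat_lit 0) (nat_lit 8762318242) (nat_lit 228) (nat_lit 9536595429) (nat_lit 304) (nat_lit 8163721619) (nat_lit 59) (nat_lit 5) (nat_lit 62) (nat_lit 5) (nat_lit 63) (nat_lit 5) (nat_lit 353) (nat_lit 272) (nat_lit 155)) (XT.nd (nat_lit 78) (nat_lit 304) (nat_lit 0) (XT.lf (nat_lit 0) (nat_lit 25753005087) (nat_lit 304) (nat_lit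 1040685455) (nat_lit 76) (nat_lit 257235118) (nat_lit 59) (nat_lit 5) (nat_lit 63) (nat_lit 5) (nat_lit 60) (nat_lit 5) (nat_lit 354) (nat_lit 272) (nat_lit 154)) (XT.lf (nat_lit 0) (nat_lit 5850918562) (nat_lit 304) (nat_lit 11453423597) (nat_lit 76) (nat_lit 10348722740) (nat_lit 55) (nat_lit 5) (nat_lit 59) (nat_lit 5) (nat_lit 56) (nat_lit 5) (nat_lit 355) (nat_lit 272) (nat_lit 153)))) (XT.nd (nat_lit 78) (nat_lit 152) (nat_lit 0) (XT.lf (nat_lit 0) (nat_lit 5736002823) (nat_lit 228) (nat_lit 7487811224) (nat_lit 304) (nat_lit 15048743718) (nat_lit 52) (nat_lit 5) (nat_lit 55) (nat_lit 5) (nat_lit 56) (nat_lit 5) (nat_lit 356) (nat_lit 272) (nat_lit 152)) (XT.nd (nat_lit 78) (nat_lit 152) (nat_lit 0) (XT.lf (nat_lit 0) (nat_lit 20896081035) (nat_lit 304) (nat_lit 5357337552) (nat_lit 76) (nat_lit 2655658506) (nat_lit 52) (nat_lit 5) (nat_lit 56) (nat_lit 5) (nat_lit 53) (nat_lit 5) (nat_lit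 357) (nat_lit 272) (nat_lit 151)) (XT.lf (nat_lit 0) (nat_lit 12422339140) (nat_lit 152) (nat_lit 16490426606) (nat_lit 228) (nat_lit 649646472) (nat_lit 50) (nat_lit 5) (nat_lit 52) (nat_lit 5) (nat_lit 53) (nat_lit 5) (nat_lit 358) (nat_lit 272) (nat_lit 150))))) (XT.nd (nat_lit 34008) (nat_lit 0) (nat_lit 35872) (XT.nd (nat_lit 78) (nat_lit 0) (nat_lit 0) (XT.lf (nat_lit 0) (nat_lit 507979556) (nat_lit 228) (nat_lit 6359228879) (nat_lit 304) (nat_lit 23366772376) (nat_lit 46) (nat_lit 5) (nat_lit 49) (nat_lit 5) (nat_lit 50) (nat_lit 5) (nat_lit 359) (nat_lit 272) (nat_lit 149)) (XT.nd (nat_lit 33852) (nat_lit 0) (nat_lit 36936) (XT.lf (nat_lit 0) (nat_lit 14728110680) (nat_lit 304) (nat_lit 12062201792) (nat_lit 76) (nat_lit 4132755567) (nat_lit 46) (nat_lit 5) (nat_lit 50) (nat_lit 5) (nat_lit 47) (nat_lit 5) (nat_lit 360) (nat_lit 272) (nat_lit 148)) (XT.lf (nat_lit 0) (nat_lit 537888379)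 (nat_lit 1140) (nat_lit 1524891795) (nat_lit 1140) (nat_lit 1524891795) (nat_lit 532) (nat_lit 3) (nat_lit 547) (nat_lit 3) (nat_lit 547) (nat_lit 5) (nat_lit 273) (nat_lit 273) (nat_lit 234)))) (XT.nd (nat_lit 156) (nat_lit 1064) (nat_lit 0) (XT.nd (nat_lit 78) (nat_lit 0) (nat_lit 76) (XT.lf (nat_lit 76) (nat_lit 1929211705) (nat_lit 0) (nat_lit 1544155016) (nat_lit 1140) (nat_lit 3759600626) (nat_lit 533) (nat_lit 5) (nat_lit 532) (nat_lit 3) (nat_lit 547) (nat_lit 5) (nat_lit 274) (nat_lit 273) (nat_lit 233)) (XT.lf (nat_lit 0) (nat_lit 5878453509) (nat_lit 1064) (nat_lit 250021825) (nat_lit 1140) (nat_lit 1165225534) (nat_lit 533) (nat_lit 5) (nat_lit 547) (nat_lit 5) (nat_lit 548) (nat_lit 5) (nat_lit 275) (nat_lit 273) (nat_lit 232))) (XT.nd (nat_lit 78) (nat_lit 0) (nat_lit 0) (XT.lf (nat_lit 0) (nat_lit 938688502) (nat_lit 1140) (nat_lit 2402004921) (nat_lit 1216) (nat_lit 4016474321)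 (nat_lit 518) (nat_lit 5) (nat_lit 533) (nat_lit 5) (nat_lit 534) (nat_lit 5) (nat_lit 276) (nat_lit 273) (nat_lit 231)) (XT.lf (nat_lit 76) (nat_lit 2876597489) (nat_lit 0) (nat_lit 399769915) (nat_lit 1216) (nat_lit 4147422826) (nat_lit 519) (nat_lit 5) (nat_lit 518) (nat_lit 5) (nat_lit 534) (nat_lit 5) (nat_lit 277) (nat_lit 273) (nat_lit 230)))))) (XT.nd (nat_lit 546) (nat_lit 4028) (nat_lit 0) (XT.nd (nat_lit 234) (nat_lit 1140) (nat_lit 0) (XT.nd (nat_lit 78) (nat_lit 1216) (nat_lit 0) (XT.lf (nat_lit 76) (nat_lit 797304891) (nat_lit 0) (nat_lit 4839863315) (nat_lit 1216) (nat_lit 1856266610) (nat_lit 520) (nat_lit 5) (nat_lit 519) (nat_lit 5) (nat_lit 535) (nat_lit 5) (nat_lit 278) (nat_lit 273) (nat_lit 229)) (XT.nd (nat_lit 78) (nat_lit 0) (nat_lit 76) (XT.lf (nat_lit 0) (nat_lit 446608991) (nat_lit 1216) (nat_lit 1257023716) (nat_lit 1292) (nat_lit 5862558084) (nat_lit 503) (nat_lit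 5) (nat_lit 519) (nat_lit 5) (nat_lit 520) (nat_lit 5) (nat_lit 279) (nat_lit 273) (nat_lit 228)) (XT.lf (nat_lit 0) (nat_lit 2750417171) (nat_lit 1216) (nat_lit 3311877337) (nat_lit 1292) (nat_lit 1579525163) (nat_lit 504) (nat_lit 5) (nat_lit 520) (nat_lit 5) (nat_lit 521) (nat_lit 5) (nat_lit 280) (nat_lit 273) (nat_lit 227)))) (XT.nd (nat_lit 156) (nat_lit 1216) (nat_lit 0) (XT.nd (nat_lit 78) (nat_lit 0) (nat_lit 76) (XT.lf (nat_lit 76) (nat_lit 2351267277) (nat_lit 0) (nat_lit 2727920371) (nat_lit 1292) (nat_lit 2641487502) (nat_lit 505) (nat_lit 5) (nat_lit 504) (nat_lit 5) (nat_lit 521) (nat_lit 5) (nat_lit 281) (nat_lit 273) (nat_lit 226)) (XT.lf (nat_lit 76) (nat_lit 377119748) (nat_lit 0) (nat_lit 7053114801) (nat_lit 1292) (nat_lit 372686000) (nat_lit 506) (nat_lit 5) (nat_lit 505) (nat_lit 5) (nat_lit 522) (nat_lit 5) (nat_lit 282) (nat_lit 273) (nat_lit 225))) (XT.nd (nat_lit 78)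 (nat_lit 0) (nat_lit 76) (XT.lf (nat_lit 0) (nat_lit 1917427688) (nat_lit 1292) (nat_lit 1600129732) (nat_lit 1368) (nat_lit 4370309688) (nat_lit 488) (nat_lit 5) (nat_lit 505) (nat_lit 5) (nat_lit 506) (nat_lit 5) (nat_lit 283) (nat_lit 273) (nat_lit 224)) (XT.lf (nat_lit 0) (nat_lit 4227328684) (nat_lit 1292) (nat_lit 3571873257) (nat_lit 1368) (nat_lit 177054927) (nat_lit 489) (nat_lit 5) (nat_lit 506) (nat_lit 5) (nat_lit 507) (nat_lit 5) (nat_lit 284) (nat_lit 273) (nat_lit 223))))) (XT.nd (nat_lit 234) (nat_lit 2736) (nat_lit 0) (XT.nd (nat_lit 78) (nat_lit 1368) (nat_lit 0) (XT.lf (nat_lit 76) (nat_lit 2502211407) (nat_lit 0) (nat_lit 4083321630) (nat_lit 1368) (nat_lit 1482250221) (nat_lit 490) (nat_lit 5) (nat_lit 489) (nat_lit 5) (nat_lit 507) (nat_lit 5) (nat_lit 285) (nat_lit 273) (nat_lit 222)) (XT.nd (nat_lit 78) (nat_lit 0) (nat_lit 76) (XT.lf (nat_lit 76) (nat_lit 596936897) (nat_lit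 0) (nat_lit 202111099) (nat_lit 1444) (nat_lit 7363802692) (nat_lit 472) (nat_lit 5) (nat_lit 471) (nat_lit 5) (nat_lit 490) (nat_lit 5) (nat_lit 286) (nat_lit 273) (nat_lit 221)) (XT.lf (nat_lit 0) (nat_lit 3122774305) (nat_lit 1368) (nat_lit 1326081286) (nat_lit 1444) (nat_lit 3811896182) (nat_lit 472) (nat_lit 5) (nat_lit 490) (nat_lit 5) (nat_lit 491) (nat_lit 5) (nat_lit 287) (nat_lit 273) (nat_lit 220)))) (XT.nd (nat_lit 156) (nat_lit 1520) (nat_lit 0) (XT.nd (nat_lit 78) (nat_lit 1292) (nat_lit 0) (XT.lf (nat_lit 76) (nat_lit 5116441914) (nat_lit 0) (nat_lit 367744681) (nat_lit 1444) (nat_lit 2878102188) (nat_lit 473) (nat_lit 5) (nat_lit 472) (nat_lit 5) (nat_lit 491) (nat_lit 5) (nat_lit 288) (nat_lit 273) (nat_lit 219)) (XT.lf (nat_lit 0) (nat_lit 3270734942) (nat_lit 1368) (nat_lit 4636014948) (nat_lit 1444) (nat_lit 560372518) (nat_lit 455) (nat_lit 5) (nat_lit 473) (nat_lit 5) (nat_lit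 474) (nat_lit 5) (nat_lit 289) (nat_lit 273) (nat_lit 218))) (XT.nd (nat_lit 78) (nat_lit 0) (nat_lit 0) (XT.lf (nat_lit 0) (nat_lit 1405577435) (nat_lit 1444) (nat_lit 367291164) (nat_lit 1520) (nat_lit 6802650370) (nat_lit 435) (nat_lit 5) (nat_lit 454) (nat_lit 5) (nat_lit 455) (nat_lit 5) (nat_lit 290) (nat_lit 273) (nat_lit 217)) (XT.lf (nat_lit 0) (nat_lit 4167969445) (nat_lit 1520) (nat_lit 491398195) (nat_lit 76) (nat_lit 4027788564) (nat_lit 435) (nat_lit 5) (nat_lit 455) (nat_lit 5) (nat_lit 436) (nat_lit 5) (nat_lit 291) (nat_lit 273) (nat_lit 216))))))))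
noncomputable def xc74 : XT := (XT.nd (nat_lit 2106) (nat_lit 8132) (nat_lit 0) (XT.nd (nat_lit 1014) (nat_lit 6992) (nat_lit 0) (XT.nd (nat_lit 468) (nat_lit 4788) (nat_lit 0) (XT.nd (nat_lit 234) (nat_lit 2204) (nat_lit 0) (XT.nd (nat_lit 78) (nat_lit 3344) (nat_lit 0) (XT.lf (nat_lit 0) (nat_lit 6419212517) (nat_lit 1520) (nat_lit 199480412) (nat_lit 1596) (nat_lit 2183825086) (nat_lit 415) (nat_lit 5) (nat_lit 435) (nat_lit 5) (nat_lit 436) (nat_lit 5) (nat_lit 292) (nat_lit 273) (nat_lit 215)) (XT.nd (nat_lit 78) (nat_lit 1672) (nat_lit 0) (XT.lf (nat_lit 0) (nat_lit 221572770) (nat_lit 1672) (nat_lit 4318867847) (nat_lit 76) (nat_lit 4380862056) (nat_lit 393) (nat_lit 5) (nat_lit 415) (nat_lit 5) (nat_lit 394) (nat_lit 5) (nat_lit 293) (nat_lit 273) (nat_lit 214)) (XT.lf (nat_lit 0) (nat_lit 2647932905) (nat_lit 1748) (nat_lit 6287911432) (nat_lit 76) (nat_lit 107995424) (nat_lit 371) (nat_lit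 5) (nat_lit 394) (nat_lit 5) (nat_lit 372) (nat_lit 5) (nat_lit 294) (nat_lit 273) (nat_lit 213)))) (XT.nd (nat_lit 78) (nat_lit 912) (nat_lit 0) (XT.lf (nat_lit 0) (nat_lit 862471917) (nat_lit 1292) (nat_lit 4293545088) (nat_lit 1368) (nat_lit 4013902916) (nat_lit 354) (nat_lit 5) (nat_lit 371) (nat_lit 5) (nat_lit 372) (nat_lit 5) (nat_lit 295) (nat_lit 273) (nat_lit 212)) (XT.nd (nat_lit 78) (nat_lit 912) (nat_lit 0) (XT.lf (nat_lit 0) (nat_lit 7730266228) (nat_lit 1368) (nat_lit 1040199255) (nat_lit 76) (nat_lit 529542844) (nat_lit 354) (nat_lit 5) (nat_lit 372) (nat_lit 5) (nat_lit 355) (nat_lit 5) (nat_lit 296) (nat_lit 273) (nat_lit 211)) (XT.lf (nat_lit 0) (nat_lit 952451526) (nat_lit 912) (nat_lit 2988766427) (nat_lit 76) (nat_lit 5492357768) (nat_lit 342) (nat_lit 5) (nat_lit 354) (nat_lit 5) (nat_lit 343) (nat_lit 5) (nat_lit 297) (nat_lit 273) (nat_lit 210))))) (XT.nd (nat_lit 234)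 (nat_lit 2280) (nat_lit 0) (XT.nd (nat_lit 78) (nat_lit 1672) (nat_lit 0) (XT.lf (nat_lit 0) (nat_lit 3520414926) (nat_lit 912) (nat_lit 4980679097) (nat_lit 76) (nat_lit 1070060915) (nat_lit 331) (nat_lit 5) (nat_lit 343) (nat_lit 5) (nat_lit 332) (nat_lit 5) (nat_lit 298) (nat_lit 273) (nat_lit 209)) (XT.nd (nat_lit 78) (nat_lit 836) (nat_lit 0) (XT.lf (nat_lit 0) (nat_lit 2684288671) (nat_lit 836) (nat_lit 3493856648) (nat_lit 912) (nat_lit 3534501389) (nat_lit 320) (nat_lit 5) (nat_lit 331) (nat_lit 5) (nat_lit 332) (nat_lit 5) (nat_lit 299) (nat_lit 273) (nat_lit 208)) (XT.lf (nat_lit 0) (nat_lit 738114074) (nat_lit 836) (nat_lit 8176803812) (nat_lit 912) (nat_lit 943517724) (nat_lit 309) (nat_lit 5) (nat_lit 320) (nat_lit 5) (nat_lit 321) (nat_lit 5) (nat_lit 300) (nat_lit 273) (nat_lit 207)))) (XT.nd (nat_lit 156) (nat_lit 1444) (nat_lit 0) (XT.nd (nat_lit 78) (nat_lit 760) (nat_lit 0) (XT.lf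 (nat_lit 0) (nat_lit 1724399373) (nat_lit 912) (nat_lit 1258836376) (nat_lit 76) (nat_lit 7024738528) (nat_lit 308) (nat_lit 5) (nat_lit 320) (nat_lit 5) (nat_lit 309) (nat_lit 5) (nat_lit 301) (nat_lit 273) (nat_lit 206)) (XT.lf (nat_lit 0) (nat_lit 4471897429) (nat_lit 836) (nat_lit 3303975081) (nat_lit 76) (nat_lit 2385790272) (nat_lit 298) (nat_lit 5) (nat_lit 309) (nat_lit 5) (nat_lit 299) (nat_lit 5) (nat_lit 302) (nat_lit 273) (nat_lit 205))) (XT.nd (nat_lit 78) (nat_lit 684) (nat_lit 0) (XT.lf (nat_lit 0) (nat_lit 4910731280) (nat_lit 760) (nat_lit 2404556944) (nat_lit 836) (nat_lit 3004438979) (nat_lit 288) (nat_lit 5) (nat_lit 298) (nat_lit 5) (nat_lit 299) (nat_lit 5) (nat_lit 303) (nat_lit 273) (nat_lit 204)) (XT.lf (nat_lit 0) (nat_lit 2903683817) (nat_lit 684) (nat_lit 7356084059) (nat_lit 760) (nat_lit 222483545) (nat_lit 279) (nat_lit 5) (nat_lit 288) (nat_lit 5) (nat_lit 289) (nat_lit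 5) (nat_lit 304) (nat_lit 273) (nat_lit 203)))))) (XT.nd (nat_lit 546) (nat_lit 3496) (nat_lit 0) (XT.nd (nat_lit 234) (nat_lit 1976) (nat_lit 0) (XT.nd (nat_lit 78) (nat_lit 684) (nat_lit 0) (XT.lf (nat_lit 0) (nat_lit 819328945) (nat_lit 760) (nat_lit 1802018942) (nat_lit 836) (nat_lit 8027730679) (nat_lit 268) (nat_lit 5) (nat_lit 278) (nat_lit 5) (nat_lit 279) (nat_lit 5) (nat_lit 305) (nat_lit 273) (nat_lit 202)) (XT.nd (nat_lit 78) (nat_lit 684) (nat_lit 0) (XT.lf (nat_lit 0) (nat_lit 5580390977) (nat_lit 836) (nat_lit 1323152668) (nat_lit 76) (nat_lit 3916710136) (nat_lit 268) (nat_lit 5) (nat_lit 279) (nat_lit 5) (nat_lit 269) (nat_lit 5) (nat_lit 306) (nat_lit 273) (nat_lit 201)) (XT.lf (nat_lit 0) (nat_lit 7477182366) (nat_lit 684) (nat_lit 1168673832) (nat_lit 760) (nat_lit 2350385192) (nat_lit 259) (nat_lit 5) (nat_lit 268) (nat_lit 5) (nat_lit 269) (nat_lit 5) (nat_lit 307) (nat_lit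 273) (nat_lit 200)))) (XT.nd (nat_lit 156) (nat_lit 608) (nat_lit 0) (XT.nd (nat_lit 78) (nat_lit 608) (nat_lit 0) (XT.lf (nat_lit 0) (nat_lit 650410816) (nat_lit 760) (nat_lit 5806732766) (nat_lit 76) (nat_lit 4719655662) (nat_lit 249) (nat_lit 5) (nat_lit 259) (nat_lit 5) (nat_lit 250) (nat_lit 5) (nat_lit 308) (nat_lit 273) (nat_lit 199)) (XT.lf (nat_lit 0) (nat_lit 3182436169) (nat_lit 608) (nat_lit 538116570) (nat_lit 684) (nat_lit 7641713146) (nat_lit 241) (nat_lit 5) (nat_lit 249) (nat_lit 5) (nat_lit 250) (nat_lit 5) (nat_lit 309) (nat_lit 273) (nat_lit 198))) (XT.nd (nat_lit 78) (nat_lit 0) (nat_lit 0) (XT.lf (nat_lit 0) (nat_lit 896280587) (nat_lit 608) (nat_lit 6027490424) (nat_lit 684) (nat_lit 4628733127) (nat_lit 233) (nat_lit 5) (nat_lit 241) (nat_lit 5) (nat_lit 242) (nat_lit 5) (nat_lit 310) (nat_lit 273) (nat_lit 197)) (XT.lf (nat_lit 0) (nat_lit 10242838139) (nat_lit 684) (nat_lit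 1442119580) (nat_lit 76) (nat_lit 63123037) (nat_lit 233) (nat_lit 5) (nat_lit 242) (nat_lit 5) (nat_lit 234) (nat_lit 5) (nat_lit 311) (nat_lit 273) (nat_lit 196))))) (XT.nd (nat_lit 234) (nat_lit 1672) (nat_lit 0) (XT.nd (nat_lit 78) (nat_lit 1140) (nat_lit 0) (XT.lf (nat_lit 0) (nat_lit 1743968642) (nat_lit 684) (nat_lit 3892034079) (nat_lit 76) (nat_lit 6312235277) (nat_lit 224) (nat_lit 5) (nat_lit 233) (nat_lit 5) (nat_lit 225) (nat_lit 5) (nat_lit 312) (nat_lit 273) (nat_lit 195)) (XT.nd (nat_lit 78) (nat_lit 532) (nat_lit 0) (XT.lf (nat_lit 0) (nat_lit 5083510701) (nat_lit 684) (nat_lit 6434061618) (nat_lit 76) (nat_lit 636386823) (nat_lit 216) (nat_lit 5) (nat_lit 225) (nat_lit 5) (nat_lit 217) (nat_lit 5) (nat_lit 313) (nat_lit 273) (nat_lit 194)) (XT.lf (nat_lit 0) (nat_lit 3267363826) (nat_lit 532) (nat_lit 5304090592) (nat_lit 608) (nat_lit 3793456758) (nat_lit 209) (nat_lit 5) (nat_lit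 216) (nat_lit 5) (nat_lit 217) (nat_lit 5) (nat_lit 314) (nat_lit 273) (nat_lit 193)))) (XT.nd (nat_lit 156) (nat_lit 1064) (nat_lit 0) (XT.nd (nat_lit 78) (nat_lit 76) (nat_lit 0) (XT.lf (nat_lit 0) (nat_lit 722946663) (nat_lit 532) (nat_lit 11460285610) (nat_lit 608) (nat_lit 398598461) (nat_lit 202) (nat_lit 5) (nat_lit 209) (nat_lit 5) (nat_lit 210) (nat_lit 5) (nat_lit 315) (nat_lit 273) (nat_lit 192)) (XT.lf (nat_lit 0) (nat_lit 3119012262) (nat_lit 608) (nat_lit 1942907405) (nat_lit 76) (nat_lit 7741726911) (nat_lit 201) (nat_lit 5) (nat_lit 209) (nat_lit 5) (nat_lit 202) (nat_lit 5) (nat_lit 316) (nat_lit 273) (nat_lit 191))) (XT.nd (nat_lit 78) (nat_lit 532) (nat_lit 0) (XT.lf (nat_lit 0) (nat_lit 6766170004) (nat_lit 608) (nat_lit 4708917105) (nat_lit 76) (nat_lit 1556409555) (nat_lit 194) (nat_lit 5) (nat_lit 202) (nat_lit 5) (nat_lit 195) (nat_lit 5) (nat_lit 317) (nat_lit 273) (nat_lit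 190)) (XT.lf (nat_lit 0) (nat_lit 5652829786) (nat_lit 532) (nat_lit 4919454783) (nat_lit 608) (nat_lit 2692927368) (nat_lit 187) (nat_lit 5) (nat_lit 194) (nat_lit 5) (nat_lit 195) (nat_lit 5) (nat_lit 318) (nat_lit 273) (nat_lit 189))))))) (XT.nd (nat_lit 1014) (nat_lit 3420) (nat_lit 0) (XT.nd (nat_lit 468) (nat_lit 2204) (nat_lit 0) (XT.nd (nat_lit 234) (nat_lit 1444) (nat_lit 0) (XT.nd (nat_lit 78) (nat_lit 532) (nat_lit 0) (XT.lf (nat_lit 0) (nat_lit 1002893988) (nat_lit 532) (nat_lit 10645902225) (nat_lit 76) (nat_lit 1856450072) (nat_lit 180) (nat_lit 5) (nat_lit 187) (nat_lit 5) (nat_lit 181) (nat_lit 5) (nat_lit 319) (nat_lit 273) (nat_lit 188)) (XT.nd (nat_lit 78) (nat_lit 532) (nat_lit 0) (XT.lf (nat_lit 0) (nat_lit 4824885903) (nat_lit 532) (nat_lit 97011975) (nat_lit 76) (nat_lit 8829209105) (nat_lit 180) (nat_lit 5) (nat_lit 187) (nat_lit 5) (nat_lit 181) (nat_lit 5) (nat_lit 320)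 (nat_lit 273) (nat_lit 187)) (XT.lf (nat_lit 0) (nat_lit 8813347870) (nat_lit 608) (nat_lit 3148598831) (nat_lit 76) (nat_lit 2041379012) (nat_lit 173) (nat_lit 5) (nat_lit 181) (nat_lit 5) (nat_lit 174) (nat_lit 5) (nat_lit 321) (nat_lit 273) (nat_lit 186)))) (XT.nd (nat_lit 78) (nat_lit 988) (nat_lit 0) (XT.lf (nat_lit 0) (nat_lit 7901606148) (nat_lit 456) (nat_lit 5073151449) (nat_lit 532) (nat_lit 1287305409) (nat_lit 167) (nat_lit 5) (nat_lit 173) (nat_lit 5) (nat_lit 174) (nat_lit 5) (nat_lit 322) (nat_lit 273) (nat_lit 185)) (XT.nd (nat_lit 78) (nat_lit 456) (nat_lit 0) (XT.lf (nat_lit 0) (nat_lit 2731628399) (nat_lit 532) (nat_lit 9740050107) (nat_lit 76) (nat_lit 2055845760) (nat_lit 160) (nat_lit 5) (nat_lit 167) (nat_lit 5) (nat_lit 161) (nat_lit 5) (nat_lit 323) (nat_lit 273) (nat_lit 184)) (XT.lf (nat_lit 0) (nat_lit 1491589859) (nat_lit 456) (nat_lit 5418557413) (nat_lit 532) (nat_lit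 7889518303) (nat_lit 154) (nat_lit 5) (nat_lit 160) (nat_lit 5) (nat_lit 161) (nat_lit 5) (nat_lit 324) (nat_lit 273) (nat_lit 183))))) (XT.nd (nat_lit 234) (nat_lit 1292) (nat_lit 0) (XT.nd (nat_lit 78) (nat_lit 912) (nat_lit 0) (XT.lf (nat_lit 0) (nat_lit 11262406405) (nat_lit 532) (nat_lit 1939403914) (nat_lit 76) (nat_lit 1877209152) (nat_lit 154) (nat_lit 5) (nat_lit 161) (nat_lit 5) (nat_lit 155) (nat_lit 5) (nat_lit 325) (nat_lit 273) (nat_lit 182)) (XT.nd (nat_lit 78) (nat_lit 380) (nat_lit 0) (XT.lf (nat_lit 0) (nat_lit 444812904) (nat_lit 532) (nat_lit 5545979335) (nat_lit 76) (nat_lit 9374501921) (nat_lit 147) (nat_lit 5) (nat_lit 154) (nat_lit 5) (nat_lit 148) (nat_lit 5) (nat_lit 326) (nat_lit 273) (nat_lit 181)) (XT.lf (nat_lit 0) (nat_lit 4817750504) (nat_lit 456) (nat_lit 9354633725) (nat_lit 76) (nat_lit 1486572693) (nat_lit 142) (nat_lit 5) (nat_lit 148) (nat_lit 5) (nat_lit 143)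 (nat_lit 5) (nat_lit 327) (nat_lit 273) (nat_lit 180)))) (XT.nd (nat_lit 156) (nat_lit 836) (nat_lit 0) (XT.nd (nat_lit 78) (nat_lit 0) (nat_lit 0) (XT.lf (nat_lit 0) (nat_lit 2578678289) (nat_lit 456) (nat_lit 6809559896) (nat_lit 532) (nat_lit 6571878538) (nat_lit 136) (nat_lit 5) (nat_lit 142) (nat_lit 5) (nat_lit 143) (nat_lit 5) (nat_lit 328) (nat_lit 273) (nat_lit 179)) (XT.lf (nat_lit 0) (nat_lit 14136892582) (nat_lit 532) (nat_lit 1316491946) (nat_lit 76) (nat_lit 816119722) (nat_lit 136) (nat_lit 5) (nat_lit 143) (nat_lit 5) (nat_lit 137) (nat_lit 5) (nat_lit 329) (nat_lit 273) (nat_lit 178))) (XT.nd (nat_lit 78) (nat_lit 380) (nat_lit 0) (XT.lf (nat_lit 0) (nat_lit 2499527542) (nat_lit 456) (nat_lit 5430288655) (nat_lit 76) (nat_lit 8656219821) (nat_lit 130) (nat_lit 5) (nat_lit 136) (nat_lit 5) (nat_lit 131) (nat_lit 5) (nat_lit 330) (nat_lit 273) (nat_lit 177)) (XT.lf (nat_lit 0) (nat_lit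 7149120511) (nat_lit 380) (nat_lit 121473198) (nat_lit 456) (nat_lit 9640622280) (nat_lit 125) (nat_lit 5) (nat_lit 130) (nat_lit 5) (nat_lit 131) (nat_lit 5) (nat_lit 331) (nat_lit 273) (nat_lit 176)))))) (XT.nd (nat_lit 546) (nat_lit 1596) (nat_lit 0) (XT.nd (nat_lit 234) (nat_lit 1064) (nat_lit 0) (XT.nd (nat_lit 78) (nat_lit 456) (nat_lit 0) (XT.lf (nat_lit 0) (nat_lit 2882518609) (nat_lit 304) (nat_lit 9383284970) (nat_lit 380) (nat_lit 4978740084) (nat_lit 121) (nat_lit 5) (nat_lit 125) (nat_lit 5) (nat_lit 126) (nat_lit 5) (nat_lit 332) (nat_lit 273) (nat_lit 175)) (XT.nd (nat_lit 78) (nat_lit 456) (nat_lit 0) (XT.lf (nat_lit 0) (nat_lit 16001456265) (nat_lit 304) (nat_lit 1450714618) (nat_lit 380) (nat_lit 134886434) (nat_lit 121) (nat_lit 5) (nat_lit 125) (nat_lit 5) (nat_lit 126) (nat_lit 5) (nat_lit 333) (nat_lit 273) (nat_lit 174)) (XT.lf (nat_lit 0) (nat_lit 4885487999) (nat_lit 456)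 (nat_lit 6324036672) (nat_lit 76) (nat_lit 6727805549) (nat_lit 115) (nat_lit 5) (nat_lit 121) (nat_lit 5) (nat_lit 116) (nat_lit 5) (nat_lit 334) (nat_lit 273) (nat_lit 173)))) (XT.nd (nat_lit 156) (nat_lit 380) (nat_lit 0) (XT.nd (nat_lit 78) (nat_lit 380) (nat_lit 0) (XT.lf (nat_lit 0) (nat_lit 6975892723) (nat_lit 304) (nat_lit 3119898856) (nat_lit 380) (nat_lit 8201490140) (nat_lit 111) (nat_lit 5) (nat_lit 115) (nat_lit 5) (nat_lit 116) (nat_lit 5) (nat_lit 335) (nat_lit 273) (nat_lit 172)) (XT.lf (nat_lit 0) (nat_lit 2050270345) (nat_lit 380) (nat_lit 13478160590) (nat_lit 456) (nat_lit 3138291214) (nat_lit 106) (nat_lit 5) (nat_lit 111) (nat_lit 5) (nat_lit 112) (nat_lit 5) (nat_lit 336) (nat_lit 273) (nat_lit 171))) (XT.nd (nat_lit 78) (nat_lit 304) (nat_lit 0) (XT.lf (nat_lit 0) (nat_lit 2123694848) (nat_lit 456) (nat_lit 3138955358) (nat_lit 76) (nat_lit 13782853724) (nat_lit 105) (nat_lit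 5) (nat_lit 111) (nat_lit 5) (nat_lit 106) (nat_lit 5) (nat_lit 337) (nat_lit 273) (nat_lit 170)) (XT.lf (nat_lit 0) (nat_lit 7569487696) (nat_lit 380) (nat_lit 8627074794) (nat_lit 76) (nat_lit 3237310201) (nat_lit 101) (nat_lit 5) (nat_lit 106) (nat_lit 5) (nat_lit 102) (nat_lit 5) (nat_lit 338) (nat_lit 273) (nat_lit 169))))) (XT.nd (nat_lit 234) (nat_lit 912) (nat_lit 0) (XT.nd (nat_lit 78) (nat_lit 380) (nat_lit 0) (XT.lf (nat_lit 0) (nat_lit 5380465237) (nat_lit 304) (nat_lit 7866838686) (nat_lit 380) (nat_lit 6585225396) (nat_lit 97) (nat_lit 5) (nat_lit 101) (nat_lit 5) (nat_lit 102) (nat_lit 5) (nat_lit 339) (nat_lit 273) (nat_lit 168)) (XT.nd (nat_lit 78) (nat_lit 380) (nat_lit 0) (XT.lf (nat_lit 0) (nat_lit 19136403228) (nat_lit 380) (nat_lit 355668878) (nat_lit 76) (nat_lit 750264080) (nat_lit 97) (nat_lit 5) (nat_lit 102) (nat_lit 5) (nat_lit 98) (nat_lit 5) (nat_lit 340) (nat_lit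 273) (nat_lit 167)) (XT.lf (nat_lit 0) (nat_lit 4602383798) (nat_lit 380) (nat_lit 6428151179) (nat_lit 76) (nat_lit 9630838921) (nat_lit 92) (nat_lit 5) (nat_lit 97) (nat_lit 5) (nat_lit 93) (nat_lit 5) (nat_lit 341) (nat_lit 273) (nat_lit 166)))) (XT.nd (nat_lit 156) (nat_lit 380) (nat_lit 0) (XT.nd (nat_lit 78) (nat_lit 228) (nat_lit 0) (XT.lf (nat_lit 0) (nat_lit 8238631347) (nat_lit 304) (nat_lit 2262694809) (nat_lit 380) (nat_lit 10590831145) (nat_lit 88) (nat_lit 5) (nat_lit 92) (nat_lit 5) (nat_lit 93) (nat_lit 5) (nat_lit 342) (nat_lit 273) (nat_lit 165)) (XT.lf (nat_lit 0) (nat_lit 1844847125) (nat_lit 228) (nat_lit 14810893718) (nat_lit 304) (nat_lit 4878561815) (nat_lit 85) (nat_lit 5) (nat_lit 88) (nat_lit 5) (nat_lit 89) (nat_lit 5) (nat_lit 343) (nat_lit 273) (nat_lit 164))) (XT.nd (nat_lit 78) (nat_lit 304) (nat_lit 0) (XT.lf (nat_lit 0) (nat_lit 1073695654) (nat_lit 304) (nat_lit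 4883365535) (nat_lit 76) (nat_lit 16030892763) (nat_lit 84) (nat_lit 5) (nat_lit 88) (nat_lit 5) (nat_lit 85) (nat_lit 5) (nat_lit 344) (nat_lit 273) (nat_lit 163)) (XT.lf (nat_lit 0) (nat_lit 7207119823) (nat_lit 380) (nat_lit 12035856933) (nat_lit 76) (nat_lit 3210223379) (nat_lit 80) (nat_lit 5) (nat_lit 85) (nat_lit 5) (nat_lit 81) (nat_lit 5) (nat_lit 345) (nat_lit 273) (nat_lit 162))))))))
noncomputable def xc75 : XT := (XT.nd (nat_lit 35958) (nat_lit 0) (nat_lit 13528) (XT.nd (nat_lit 1014) (nat_lit 456) (nat_lit 0) (XT.nd (nat_lit 468) (nat_lit 1064) (nat_lit 0) (XT.nd (nat_lit 234) (nat_lit 456) (nat_lit 0) (XT.nd (nat_lit 78) (nat_lit 380) (nat_lit 0) (XT.lf (nat_lit 0) (nat_lit 3283065262) (nat_lit 228) (nat_lit 10315862032) (nat_lit 304) (nat_lit 9331996456) (nat_lit 77) (nat_lit 5) (nat_lit 80) (nat_lit 5) (nat_lit 81) (nat_lit 5) (nat_lit 346) (nat_lit 273) (nat_lit 161)) (XT.nd (nat_lit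 78) (nat_lit 380) (nat_lit 0) (XT.lf (nat_lit 0) (nat_lit 19194713131) (nat_lit 228) (nat_lit 1049631320) (nat_lit 304) (nat_lit 3177404947) (nat_lit 77) (nat_lit 5) (nat_lit 80) (nat_lit 5) (nat_lit 81) (nat_lit 5) (nat_lit 347) (nat_lit 273) (nat_lit 160)) (XT.lf (nat_lit 0) (nat_lit 3233159812) (nat_lit 380) (nat_lit 12222300949) (nat_lit 76) (nat_lit 8469179490) (nat_lit 72) (nat_lit 5) (nat_lit 77) (nat_lit 5) (nat_lit 73) (nat_lit 5) (nat_lit 348) (nat_lit 273) (nat_lit 159)))) (XT.nd (nat_lit 78) (nat_lit 228) (nat_lit 0) (XT.lf (nat_lit 0) (nat_lit 3714934007) (nat_lit 228) (nat_lit 6119183073) (nat_lit 304) (nat_lit 14607262686) (nat_lit 69) (nat_lit 5) (nat_lit 72) (nat_lit 5) (nat_lit 73) (nat_lit 5) (nat_lit 349) (nat_lit 273) (nat_lit 158)) (XT.nd (nat_lit 78) (nat_lit 228) (nat_lit 0) (XT.lf (nat_lit 0) (nat_lit 16720485964) (nat_lit 304) (nat_lit 4728179349) (nat_lit 76) (nat_lit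 3523215166) (nat_lit 69) (nat_lit 5) (nat_lit 73) (nat_lit 5) (nat_lit 70) (nat_lit 5) (nat_lit 350) (nat_lit 273) (nat_lit 157)) (XT.lf (nat_lit 0) (nat_lit 11834670301) (nat_lit 228) (nat_lit 12078386513) (nat_lit 304) (nat_lit 1603253656) (nat_lit 66) (nat_lit 5) (nat_lit 69) (nat_lit 5) (nat_lit 70) (nat_lit 5) (nat_lit 351) (nat_lit 273) (nat_lit 156))))) (XT.nd (nat_lit 234) (nat_lit 532) (nat_lit 0) (XT.nd (nat_lit 78) (nat_lit 228) (nat_lit 0) (XT.lf (nat_lit 0) (nat_lit 2856473999) (nat_lit 228) (nat_lit 2351940745) (nat_lit 304) (nat_lit 20867326514) (nat_lit 62) (nat_lit 5) (nat_lit 65) (nat_lit 5) (nat_lit 66) (nat_lit 5) (nat_lit 352) (nat_lit 273) (nat_lit 155)) (XT.nd (nat_lit 78) (nat_lit 228) (nat_lit 0) (XT.lf (nat_lit 0) (nat_lit 12328201736) (nat_lit 304) (nat_lit 6662430318) (nat_lit 76) (nat_lit 7658605940) (nat_lit 62) (nat_lit 5) (nat_lit 66) (nat_lit 5) (nat_lit 63) (nat_lit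 5) (nat_lit 353) (nat_lit 273) (nat_lit 154)) (XT.lf (nat_lit 0) (nat_lit 10484513549) (nat_lit 228) (nat_lit 9243710952) (nat_lit 304) (nat_lit 7510388099) (nat_lit 59) (nat_lit 5) (nat_lit 62) (nat_lit 5) (nat_lit 63) (nat_lit 5) (nat_lit 354) (nat_lit 273) (nat_lit 153)))) (XT.nd (nat_lit 156) (nat_lit 228) (nat_lit 0) (XT.nd (nat_lit 78) (nat_lit 76) (nat_lit 0) (XT.lf (nat_lit 0) (nat_lit 363412010) (nat_lit 228) (nat_lit 27022894738) (nat_lit 304) (nat_lit 458646160) (nat_lit 56) (nat_lit 5) (nat_lit 59) (nat_lit 5) (nat_lit 60) (nat_lit 5) (nat_lit 355) (nat_lit 273) (nat_lit 152)) (XT.lf (nat_lit 0) (nat_lit 6874788680) (nat_lit 304) (nat_lit 10378136964) (nat_lit 76) (nat_lit 11212491849) (nat_lit 55) (nat_lit 5) (nat_lit 59) (nat_lit 5) (nat_lit 56) (nat_lit 5) (nat_lit 356) (nat_lit 273) (nat_lit 151))) (XT.nd (nat_lit 78) (nat_lit 0) (nat_lit 0) (XT.lf (nat_lit 0) (nat_lit 7303952455)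 (nat_lit 228) (nat_lit 7149272479) (nat_lit 304) (nat_lit 14650591069) (nat_lit 52) (nat_lit 5) (nat_lit 55) (nat_lit 5) (nat_lit 56) (nat_lit 5) (nat_lit 357) (nat_lit 273) (nat_lit 150)) (XT.lf (nat_lit 0) (nat_lit 22334956629) (nat_lit 304) (nat_lit 4149968797) (nat_lit 76) (nat_lit 3274927257) (nat_lit 52) (nat_lit 5) (nat_lit 56) (nat_lit 5) (nat_lit 53) (nat_lit 5) (nat_lit 358) (nat_lit 273) (nat_lit 149)))))) (XT.nd (nat_lit 34398) (nat_lit 0) (nat_lit 33516) (XT.nd (nat_lit 34086) (nat_lit 0) (nat_lit 34656) (XT.nd (nat_lit 78) (nat_lit 228) (nat_lit 0) (XT.lf (nat_lit 0) (nat_lit 142246071) (nat_lit 228) (nat_lit 16293126831) (nat_lit 76) (nat_lit 13997701963) (nat_lit 49) (nat_lit 5) (nat_lit 52) (nat_lit 5) (nat_lit 50) (nat_lit 5) (nat_lit 359) (nat_lit 273) (nat_lit 148)) (XT.nd (nat_lit 33930) (nat_lit 0) (nat_lit 36936) (XT.lf (nat_lit 0) (nat_lit 1858010377) (nat_lit 228) (nat_lit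 6003109887) (nat_lit 304) (nat_lit 23263884692) (nat_lit 46) (nat_lit 5) (nat_lit 49) (nat_lit 5) (nat_lit 50) (nat_lit 5) (nat_lit 360) (nat_lit 273) (nat_lit 147)) (XT.lf (nat_lit 0) (nat_lit 2900181039) (nat_lit 1140) (nat_lit 372921570) (nat_lit 1140) (nat_lit 372921570) (nat_lit 532) (nat_lit 3) (nat_lit 547) (nat_lit 3) (nat_lit 547) (nat_lit 5) (nat_lit 274) (nat_lit 274) (nat_lit 232)))) (XT.nd (nat_lit 156) (nat_lit 1140) (nat_lit 0) (XT.nd (nat_lit 78) (nat_lit 0) (nat_lit 0) (XT.lf (nat_lit 0) (nat_lit 784125246) (nat_lit 1140) (nat_lit 3015464794) (nat_lit 1216) (nat_lit 3554271805) (nat_lit 517) (nat_lit 5) (nat_lit 532) (nat_lit 3) (nat_lit 533) (nat_lit 5) (nat_lit 275) (nat_lit 274) (nat_lit 231)) (XT.lf (nat_lit 76) (nat_lit 2139662288) (nat_lit 0) (nat_lit 899274306) (nat_lit 1216) (nat_lit 4379861861) (nat_lit 518) (nat_lit 5) (nat_lit 517) (nat_lit 5) (nat_lit 533) (nat_lit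 5) (nat_lit 276) (nat_lit 274) (nat_lit 230))) (XT.nd (nat_lit 78) (nat_lit 1216) (nat_lit 0) (XT.lf (nat_lit 0) (nat_lit 5309946319) (nat_lit 1140) (nat_lit 55892729) (nat_lit 1216) (nat_lit 2120956289) (nat_lit 518) (nat_lit 5) (nat_lit 533) (nat_lit 5) (nat_lit 534) (nat_lit 5) (nat_lit 277) (nat_lit 274) (nat_lit 229)) (XT.lf (nat_lit 0) (nat_lit 48300762) (nat_lit 1216) (nat_lit 2216242605) (nat_lit 1292) (nat_lit 5293210895) (nat_lit 502) (nat_lit 5) (nat_lit 518) (nat_lit 5) (nat_lit 519) (nat_lit 5) (nat_lit 278) (nat_lit 274) (nat_lit 228))))) (XT.nd (nat_lit 234) (nat_lit 1216) (nat_lit 0) (XT.nd (nat_lit 78) (nat_lit 0) (nat_lit 0) (XT.lf (nat_lit 0) (nat_lit 2257228732) (nat_lit 1216) (nat_lit 4386137460) (nat_lit 1292) (nat_lit 988332949) (nat_lit 503) (nat_lit 5) (nat_lit 519) (nat_lit 5) (nat_lit 520) (nat_lit 5) (nat_lit 279) (nat_lit 274) (nat_lit 227)) (XT.nd (nat_lit 78) (nat_lit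 0) (nat_lit 76) (XT.lf (nat_lit 76) (nat_lit 1145987329) (nat_lit 0) (nat_lit 3344865987) (nat_lit 1292) (nat_lit 3217915172) (nat_lit 504) (nat_lit 5) (nat_lit 503) (nat_lit 5) (nat_lit 520) (nat_lit 5) (nat_lit 280) (nat_lit 274) (nat_lit 226)) (XT.lf (nat_lit 0) (nat_lit 6744673681) (nat_lit 1216) (nat_lit 932812089) (nat_lit 1292) (nat_lit 111672925) (nat_lit 504) (nat_lit 5) (nat_lit 520) (nat_lit 5) (nat_lit 521) (nat_lit 5) (nat_lit 281) (nat_lit 274) (nat_lit 225)))) (XT.nd (nat_lit 156) (nat_lit 0) (nat_lit 76) (XT.nd (nat_lit 78) (nat_lit 0) (nat_lit 0) (XT.lf (nat_lit 0) (nat_lit 1157373467) (nat_lit 1292) (nat_lit 3020046002) (nat_lit 1368) (nat_lit 3694877365) (nat_lit 487) (nat_lit 5) (nat_lit 504) (nat_lit 5) (nat_lit 505) (nat_lit 5) (nat_lit 282) (nat_lit 274) (nat_lit 224)) (XT.lf (nat_lit 76) (nat_lit 2848478245) (nat_lit 0) (nat_lit 514054806) (nat_lit 1368) (nat_lit 4596296286)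 (nat_lit 488) (nat_lit 5) (nat_lit 487) (nat_lit 5) (nat_lit 505) (nat_lit 5) (nat_lit 283) (nat_lit 274) (nat_lit 223))) (XT.nd (nat_lit 78) (nat_lit 0) (nat_lit 0) (XT.lf (nat_lit 76) (nat_lit 827839169) (nat_lit 0) (nat_lit 4781639209) (nat_lit 1368) (nat_lit 2439031883) (nat_lit 489) (nat_lit 5) (nat_lit 488) (nat_lit 5) (nat_lit 506) (nat_lit 5) (nat_lit 284) (nat_lit 274) (nat_lit 222)) (XT.lf (nat_lit 76) (nat_lit 6962860859) (nat_lit 0) (nat_lit 929282899) (nat_lit 1368) (nat_lit 249434792) (nat_lit 489) (nat_lit 5) (nat_lit 488) (nat_lit 5) (nat_lit 506) (nat_lit 5) (nat_lit 285) (nat_lit 274) (nat_lit 221))))))) (XT.nd (nat_lit 1014) (nat_lit 8968) (nat_lit 0) (XT.nd (nat_lit 468) (nat_lit 7068) (nat_lit 0) (XT.nd (nat_lit 234) (nat_lit 2736) (nat_lit 0) (XT.nd (nat_lit 78) (nat_lit 0) (nat_lit 0) (XT.lf (nat_lit 0) (nat_lit 1964290451) (nat_lit 1368) (nat_lit 3207764467) (nat_lit 1444)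 (nat_lit 3065488685) (nat_lit 471) (nat_lit 5) (nat_lit 489) (nat_lit 5) (nat_lit 490) (nat_lit 5) (nat_lit 286) (nat_lit 274) (nat_lit 220)) (XT.nd (nat_lit 78) (nat_lit 0) (nat_lit 76) (XT.lf (nat_lit 76) (nat_lit 3088906431) (nat_lit 0) (nat_lit 1120064605) (nat_lit 1444) (nat_lit 4128083323) (nat_lit 472) (nat_lit 5) (nat_lit 471) (nat_lit 5) (nat_lit 490) (nat_lit 5) (nat_lit 287) (nat_lit 274) (nat_lit 219)) (XT.lf (nat_lit 76) (nat_lit 1125267045) (nat_lit 0) (nat_lit 5380079967) (nat_lit 1444) (nat_lit 1934573002) (nat_lit 473) (nat_lit 5) (nat_lit 472) (nat_lit 5) (nat_lit 491) (nat_lit 5) (nat_lit 288) (nat_lit 274) (nat_lit 218)))) (XT.nd (nat_lit 78) (nat_lit 1368) (nat_lit 0) (XT.lf (nat_lit 0) (nat_lit 300215002) (nat_lit 1444) (nat_lit 842171732) (nat_lit 1520) (nat_lit 7403902055) (nat_lit 453) (nat_lit 5) (nat_lit 472) (nat_lit 5) (nat_lit 473) (nat_lit 5) (nat_lit 289) (nat_lit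 274) (nat_lit 217)) (XT.nd (nat_lit 78) (nat_lit 1444) (nat_lit 0) (XT.lf (nat_lit 0) (nat_lit 2573479777) (nat_lit 1444) (nat_lit 2836796019) (nat_lit 76) (nat_lit 3245415127) (nat_lit 454) (nat_lit 5) (nat_lit 473) (nat_lit 5) (nat_lit 455) (nat_lit 5) (nat_lit 290) (nat_lit 274) (nat_lit 216)) (XT.lf (nat_lit 0) (nat_lit 3918730444) (nat_lit 1444) (nat_lit 974914679) (nat_lit 1520) (nat_lit 3875206796) (nat_lit 435) (nat_lit 5) (nat_lit 454) (nat_lit 5) (nat_lit 455) (nat_lit 5) (nat_lit 291) (nat_lit 274) (nat_lit 215))))) (XT.nd (nat_lit 234) (nat_lit 3876) (nat_lit 0) (XT.nd (nat_lit 78) (nat_lit 1672) (nat_lit 0) (XT.lf (nat_lit 0) (nat_lit 1984736499) (nat_lit 1520) (nat_lit 5295640694) (nat_lit 1596) (nat_lit 1605140685) (nat_lit 415) (nat_lit 5) (nat_lit 435) (nat_lit 5) (nat_lit 436) (nat_lit 5) (nat_lit 292) (nat_lit 274) (nat_lit 214)) (XT.nd (nat_lit 78) (nat_lit 0) (nat_lit 0) (XT.lf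 (nat_lit 0) (nat_lit 26260819) (nat_lit 1596) (nat_lit 679290983) (nat_lit 1672) (nat_lit 8300441054) (nat_lit 393) (nat_lit 5) (nat_lit 414) (nat_lit 5) (nat_lit 415) (nat_lit 5) (nat_lit 293) (nat_lit 274) (nat_lit 213)) (XT.lf (nat_lit 0) (nat_lit 3081202222) (nat_lit 1672) (nat_lit 1960106232) (nat_lit 76) (nat_lit 4088258158) (nat_lit 393) (nat_lit 5) (nat_lit 415) (nat_lit 5) (nat_lit 394) (nat_lit 5) (nat_lit 294) (nat_lit 274) (nat_lit 212)))) (XT.nd (nat_lit 156) (nat_lit 912) (nat_lit 0) (XT.nd (nat_lit 78) (nat_lit 1292) (nat_lit 0) (XT.lf (nat_lit 0) (nat_lit 5287310118) (nat_lit 1672) (nat_lit 225108424) (nat_lit 1748) (nat_lit 3744787404) (nat_lit 371) (nat_lit 5) (nat_lit 393) (nat_lit 5) (nat_lit 394) (nat_lit 5) (nat_lit 295) (nat_lit 274) (nat_lit 211)) (XT.lf (nat_lit 0) (nat_lit 3355769396) (nat_lit 1292) (nat_lit 4673459043) (nat_lit 1368) (nat_lit 1359235885) (nat_lit 354)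 (nat_lit 5) (nat_lit 371) (nat_lit 5) (nat_lit 372) (nat_lit 5) (nat_lit 296) (nat_lit 274) (nat_lit 210))) (XT.nd (nat_lit 78) (nat_lit 0) (nat_lit 0) (XT.lf (nat_lit 0) (nat_lit 1070841438) (nat_lit 912) (nat_lit 8132009308) (nat_lit 76) (nat_lit 320960910) (nat_lit 342) (nat_lit 5) (nat_lit 354) (nat_lit 5) (nat_lit 343) (nat_lit 5) (nat_lit 297) (nat_lit 274) (nat_lit 209)) (XT.lf (nat_lit 0) (nat_lit 3576720341) (nat_lit 912) (nat_lit 629653064) (nat_lit 76) (nat_lit 5456278734) (nat_lit 342) (nat_lit 5) (nat_lit 354) (nat_lit 5) (nat_lit 343) (nat_lit 5) (nat_lit 298) (nat_lit 274) (nat_lit 208)))))) (XT.nd (nat_lit 546) (nat_lit 4104) (nat_lit 0) (XT.nd (nat_lit 234) (nat_lit 2280) (nat_lit 0) (XT.nd (nat_lit 78) (nat_lit 1748) (nat_lit 0) (XT.lf (nat_lit 0) (nat_lit 6160938477) (nat_lit 912) (nat_lit 2667556196) (nat_lit 76) (nat_lit 977138488) (nat_lit 331) (nat_lit 5) (nat_lit 343) (nat_lit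 5) (nat_lit 332) (nat_lit 5) (nat_lit 299) (nat_lit 274) (nat_lit 207)) (XT.nd (nat_lit 78) (nat_lit 912) (nat_lit 0) (XT.lf (nat_lit 0) (nat_lit 5187408766) (nat_lit 836) (nat_lit 3652888724) (nat_lit 912) (nat_lit 1112291296) (nat_lit 320) (nat_lit 5) (nat_lit 331) (nat_lit 5) (nat_lit 332) (nat_lit 5) (nat_lit 300) (nat_lit 274) (nat_lit 206)) (XT.lf (nat_lit 0) (nat_lit 1478902024) (nat_lit 912) (nat_lit 6919175514) (nat_lit 76) (nat_lit 1705668140) (nat_lit 308) (nat_lit 5) (nat_lit 320) (nat_lit 5) (nat_lit 309) (nat_lit 5) (nat_lit 301) (nat_lit 274) (nat_lit 205)))) (XT.nd (nat_lit 156) (nat_lit 1520) (nat_lit 0) (XT.nd (nat_lit 78) (nat_lit 0) (nat_lit 0) (XT.lf (nat_lit 0) (nat_lit 1114565726) (nat_lit 760) (nat_lit 3035772656) (nat_lit 836) (nat_lit 6108634087) (nat_lit 298) (nat_lit 5) (nat_lit 308) (nat_lit 5) (nat_lit 309) (nat_lit 5) (nat_lit 302) (nat_lit 274) (nat_lit 204)) (XT.lf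 (nat_lit 0) (nat_lit 6919679365) (nat_lit 836) (nat_lit 997741397) (nat_lit 76) (nat_lit 2501113680) (nat_lit 298) (nat_lit 5) (nat_lit 309) (nat_lit 5) (nat_lit 299) (nat_lit 5) (nat_lit 303) (nat_lit 274) (nat_lit 203))) (XT.nd (nat_lit 78) (nat_lit 760) (nat_lit 0) (XT.lf (nat_lit 0) (nat_lit 7424382161) (nat_lit 760) (nat_lit 2371966363) (nat_lit 836) (nat_lit 786082420) (nat_lit 288) (nat_lit 5) (nat_lit 298) (nat_lit 5) (nat_lit 299) (nat_lit 5) (nat_lit 304) (nat_lit 274) (nat_lit 202)) (XT.lf (nat_lit 0) (nat_lit 2001881377) (nat_lit 760) (nat_lit 5399854593) (nat_lit 76) (nat_lit 3348875788) (nat_lit 278) (nat_lit 5) (nat_lit 288) (nat_lit 5) (nat_lit 279) (nat_lit 5) (nat_lit 305) (nat_lit 274) (nat_lit 201))))) (XT.nd (nat_lit 234) (nat_lit 2660) (nat_lit 0) (XT.nd (nat_lit 78) (nat_lit 684) (nat_lit 0) (XT.lf (nat_lit 0) (nat_lit 3209479517) (nat_lit 760) (nat_lit 1669007447) (nat_lit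 836) (nat_lit 6044963614) (nat_lit 268) (nat_lit 5) (nat_lit 278) (nat_lit 5) (nat_lit 279) (nat_lit 5) (nat_lit 306) (nat_lit 274) (nat_lit 200)) (XT.nd (nat_lit 78) (nat_lit 0) (nat_lit 0) (XT.lf (nat_lit 0) (nat_lit 989407112) (nat_lit 684) (nat_lit 6881045924) (nat_lit 760) (nat_lit 3230469554) (nat_lit 259) (nat_lit 5) (nat_lit 268) (nat_lit 5) (nat_lit 269) (nat_lit 5) (nat_lit 307) (nat_lit 274) (nat_lit 199)) (XT.lf (nat_lit 0) (nat_lit 10002823938) (nat_lit 684) (nat_lit 971938461) (nat_lit 760) (nat_lit 308533100) (nat_lit 259) (nat_lit 5) (nat_lit 268) (nat_lit 5) (nat_lit 269) (nat_lit 5) (nat_lit 308) (nat_lit 274) (nat_lit 198)))) (XT.nd (nat_lit 156) (nat_lit 1292) (nat_lit 0) (XT.nd (nat_lit 78) (nat_lit 608) (nat_lit 0) (XT.lf (nat_lit 0) (nat_lit 2710397725) (nat_lit 760) (nat_lit 3647797390) (nat_lit 76) (nat_lit 5111725568) (nat_lit 249) (nat_lit 5) (nat_lit 259) (nat_lit 5)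 (nat_lit 250) (nat_lit 5) (nat_lit 309) (nat_lit 274) (nat_lit 197)) (XT.lf (nat_lit 0) (nat_lit 5573194231) (nat_lit 608) (nat_lit 254920888) (nat_lit 684) (nat_lit 5833766772) (nat_lit 241) (nat_lit 5) (nat_lit 249) (nat_lit 5) (nat_lit 250) (nat_lit 5) (nat_lit 310) (nat_lit 274) (nat_lit 196))) (XT.nd (nat_lit 78) (nat_lit 684) (nat_lit 0) (XT.lf (nat_lit 0) (nat_lit 3219886439) (nat_lit 608) (nat_lit 5866207872) (nat_lit 684) (nat_lit 2772598520) (nat_lit 233) (nat_lit 5) (nat_lit 241) (nat_lit 5) (nat_lit 242) (nat_lit 5) (nat_lit 311) (nat_lit 274) (nat_lit 195)) (XT.lf (nat_lit 0) (nat_lit 388767346) (nat_lit 684) (nat_lit 11271845923) (nat_lit 76) (nat_lit 400502671) (nat_lit 224) (nat_lit 5) (nat_lit 233) (nat_lit 5) (nat_lit 225) (nat_lit 5) (nat_lit 312) (nat_lit 274) (nat_lit 194))))))))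
noncomputable def xc76 : XT := (XT.nd (nat_lit 2028) (nat_lit 4256) (nat_lit 0) (XT.nd (nat_lit 1014) (nat_lit 3724) (nat_lit 0) (XT.nd (nat_lit 468) (nat_lit 3040) (nat_lit 0) (XT.nd (nat_lit 234) (nat_lit 1140) (nat_lit 0) (XT.nd (nat_lit 78) (nat_lit 1140) (nat_lit 0) (XT.lf (nat_lit 0) (nat_lit 3668783278) (nat_lit 684) (nat_lit 1752615598) (nat_lit 76) (nat_lit 6846640338) (nat_lit 224) (nat_lit 5) (nat_lit 233) (nat_lit 5) (nat_lit 225) (nat_lit 5) (nat_lit 313) (nat_lit 274) (nat_lit 193)) (XT.nd (nat_lit 78) (nat_lit 532) (nat_lit 0) (XT.lf (nat_lit 0) (nat_lit 7070897860) (nat_lit 684) (nat_lit 4372213271) (nat_lit 76) (nat_lit 1037607970) (nat_lit 216) (nat_lit 5) (nat_lit 225) (nat_lit 5) (nat_lit 217) (nat_lit 5) (nat_lit 314) (nat_lit 274) (nat_lit 192)) (XT.lf (nat_lit 0) (nat_lit 5583672346) (nat_lit 532) (nat_lit 5040766977) (nat_lit 608) (nat_lit 2074375006) (nat_lit 209) (nat_lit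 5) (nat_lit 216) (nat_lit 5) (nat_lit 217) (nat_lit 5) (nat_lit 315) (nat_lit 274) (nat_lit 191)))) (XT.nd (nat_lit 78) (nat_lit 532) (nat_lit 0) (XT.lf (nat_lit 0) (nat_lit 1368153937) (nat_lit 608) (nat_lit 9971301956) (nat_lit 76) (nat_lit 1583343498) (nat_lit 201) (nat_lit 5) (nat_lit 209) (nat_lit 5) (nat_lit 202) (nat_lit 5) (nat_lit 316) (nat_lit 274) (nat_lit 190)) (XT.nd (nat_lit 78) (nat_lit 0) (nat_lit 0) (XT.lf (nat_lit 0) (nat_lit 176541161) (nat_lit 532) (nat_lit 4758863255) (nat_lit 608) (nat_lit 8216853318) (nat_lit 194) (nat_lit 5) (nat_lit 201) (nat_lit 5) (nat_lit 202) (nat_lit 5) (nat_lit 317) (nat_lit 274) (nat_lit 189)) (XT.lf (nat_lit 0) (nat_lit 8657532128) (nat_lit 608) (nat_lit 2678290078) (nat_lit 76) (nat_lit 2051840354) (nat_lit 194) (nat_lit 5) (nat_lit 202) (nat_lit 5) (nat_lit 195) (nat_lit 5) (nat_lit 318) (nat_lit 274) (nat_lit 188))))) (XT.nd (nat_lit 234) (nat_lit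 1444) (nat_lit 0) (XT.nd (nat_lit 78) (nat_lit 1064) (nat_lit 0) (XT.lf (nat_lit 0) (nat_lit 7959072811) (nat_lit 532) (nat_lit 4583453891) (nat_lit 608) (nat_lit 1086598118) (nat_lit 187) (nat_lit 5) (nat_lit 194) (nat_lit 5) (nat_lit 195) (nat_lit 5) (nat_lit 319) (nat_lit 274) (nat_lit 187)) (XT.nd (nat_lit 78) (nat_lit 532) (nat_lit 0) (XT.lf (nat_lit 0) (nat_lit 2666481279) (nat_lit 532) (nat_lit 8810240486) (nat_lit 76) (nat_lit 2400077193) (nat_lit 180) (nat_lit 5) (nat_lit 187) (nat_lit 5) (nat_lit 181) (nat_lit 5) (nat_lit 320) (nat_lit 274) (nat_lit 186)) (XT.lf (nat_lit 0) (nat_lit 2018825611) (nat_lit 532) (nat_lit 4549837211) (nat_lit 608) (nat_lit 7562089282) (nat_lit 173) (nat_lit 5) (nat_lit 180) (nat_lit 5) (nat_lit 181) (nat_lit 5) (nat_lit 321) (nat_lit 274) (nat_lit 185)))) (XT.nd (nat_lit 156) (nat_lit 912) (nat_lit 0) (XT.nd (nat_lit 78) (nat_lit 532) (nat_lit 0) (XT.lf (nat_lit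 0) (nat_lit 10634123482) (nat_lit 608) (nat_lit 1156068066) (nat_lit 76) (nat_lit 2601225383) (nat_lit 173) (nat_lit 5) (nat_lit 181) (nat_lit 5) (nat_lit 174) (nat_lit 5) (nat_lit 322) (nat_lit 274) (nat_lit 184)) (XT.lf (nat_lit 0) (nat_lit 226778670) (nat_lit 532) (nat_lit 4468289841) (nat_lit 76) (nat_lit 9963483675) (nat_lit 166) (nat_lit 5) (nat_lit 173) (nat_lit 5) (nat_lit 167) (nat_lit 5) (nat_lit 323) (nat_lit 274) (nat_lit 183))) (XT.nd (nat_lit 78) (nat_lit 456) (nat_lit 0) (XT.lf (nat_lit 0) (nat_lit 4320908310) (nat_lit 532) (nat_lit 7964128523) (nat_lit 76) (nat_lit 2647352349) (nat_lit 160) (nat_lit 5) (nat_lit 167) (nat_lit 5) (nat_lit 161) (nat_lit 5) (nat_lit 324) (nat_lit 274) (nat_lit 182)) (XT.lf (nat_lit 0) (nat_lit 3570907802) (nat_lit 456) (nat_lit 5023181881) (nat_lit 532) (nat_lit 6619242623) (nat_lit 154) (nat_lit 5) (nat_lit 160) (nat_lit 5) (nat_lit 161) (nat_lit 5)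 (nat_lit 325) (nat_lit 274) (nat_lit 181)))))) (XT.nd (nat_lit 468) (nat_lit 1900) (nat_lit 0) (XT.nd (nat_lit 234) (nat_lit 912) (nat_lit 0) (XT.nd (nat_lit 78) (nat_lit 456) (nat_lit 0) (XT.lf (nat_lit 0) (nat_lit 3696444) (nat_lit 456) (nat_lit 13033752229) (nat_lit 532) (nat_lit 2464430528) (nat_lit 148) (nat_lit 5) (nat_lit 154) (nat_lit 5) (nat_lit 155) (nat_lit 5) (nat_lit 326) (nat_lit 274) (nat_lit 180)) (XT.nd (nat_lit 78) (nat_lit 380) (nat_lit 0) (XT.lf (nat_lit 0) (nat_lit 1876287575) (nat_lit 532) (nat_lit 3724015668) (nat_lit 76) (nat_lit 10196856646) (nat_lit 147) (nat_lit 5) (nat_lit 154) (nat_lit 5) (nat_lit 148) (nat_lit 5) (nat_lit 327) (nat_lit 274) (nat_lit 179)) (XT.lf (nat_lit 0) (nat_lit 6355487212) (nat_lit 456) (nat_lit 7654366942) (nat_lit 76) (nat_lit 2090298180) (nat_lit 142) (nat_lit 5) (nat_lit 148) (nat_lit 5) (nat_lit 143) (nat_lit 5) (nat_lit 328) (nat_lit 274)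 (nat_lit 178)))) (XT.nd (nat_lit 78) (nat_lit 456) (nat_lit 0) (XT.lf (nat_lit 0) (nat_lit 4604806590) (nat_lit 456) (nat_lit 6430356864) (nat_lit 532) (nat_lit 5375762652) (nat_lit 136) (nat_lit 5) (nat_lit 142) (nat_lit 5) (nat_lit 143) (nat_lit 5) (nat_lit 329) (nat_lit 274) (nat_lit 177)) (XT.nd (nat_lit 78) (nat_lit 76) (nat_lit 0) (XT.lf (nat_lit 0) (nat_lit 566957460) (nat_lit 380) (nat_lit 15326913766) (nat_lit 456) (nat_lit 836392213) (nat_lit 131) (nat_lit 5) (nat_lit 136) (nat_lit 5) (nat_lit 137) (nat_lit 5) (nat_lit 330) (nat_lit 274) (nat_lit 176)) (XT.lf (nat_lit 0) (nat_lit 3886492603) (nat_lit 456) (nat_lit 3690693928) (nat_lit 76) (nat_lit 9479554679) (nat_lit 130) (nat_lit 5) (nat_lit 136) (nat_lit 5) (nat_lit 131) (nat_lit 5) (nat_lit 331) (nat_lit 274) (nat_lit 175))))) (XT.nd (nat_lit 234) (nat_lit 760) (nat_lit 0) (XT.nd (nat_lit 78) (nat_lit 760) (nat_lit 0) (XT.lf (nat_lit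 0) (nat_lit 8777620214) (nat_lit 456) (nat_lit 8159975214) (nat_lit 76) (nat_lit 454561097) (nat_lit 125) (nat_lit 5) (nat_lit 131) (nat_lit 5) (nat_lit 126) (nat_lit 5) (nat_lit 332) (nat_lit 274) (nat_lit 174)) (XT.nd (nat_lit 78) (nat_lit 456) (nat_lit 0) (XT.lf (nat_lit 0) (nat_lit 4832434282) (nat_lit 304) (nat_lit 9065598441) (nat_lit 380) (nat_lit 3837962372) (nat_lit 121) (nat_lit 5) (nat_lit 125) (nat_lit 5) (nat_lit 126) (nat_lit 5) (nat_lit 333) (nat_lit 274) (nat_lit 173)) (XT.lf (nat_lit 0) (nat_lit 196473384) (nat_lit 380) (nat_lit 903826790) (nat_lit 456) (nat_lit 16989067790) (nat_lit 115) (nat_lit 5) (nat_lit 120) (nat_lit 5) (nat_lit 121) (nat_lit 5) (nat_lit 334) (nat_lit 274) (nat_lit 172)))) (XT.nd (nat_lit 156) (nat_lit 456) (nat_lit 0) (XT.nd (nat_lit 78) (nat_lit 304) (nat_lit 0) (XT.lf (nat_lit 0) (nat_lit 6247644958) (nat_lit 456) (nat_lit 4696227813) (nat_lit 76) (nat_lit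 7506711247) (nat_lit 115) (nat_lit 5) (nat_lit 121) (nat_lit 5) (nat_lit 116) (nat_lit 5) (nat_lit 335) (nat_lit 274) (nat_lit 171)) (XT.lf (nat_lit 0) (nat_lit 8973212200) (nat_lit 304) (nat_lit 2617249002) (nat_lit 380) (nat_lit 7231364931) (nat_lit 111) (nat_lit 5) (nat_lit 115) (nat_lit 5) (nat_lit 116) (nat_lit 5) (nat_lit 336) (nat_lit 274) (nat_lit 170))) (XT.nd (nat_lit 78) (nat_lit 76) (nat_lit 0) (XT.lf (nat_lit 0) (nat_lit 3890982455) (nat_lit 380) (nat_lit 13275695030) (nat_lit 456) (nat_lit 2036076009) (nat_lit 106) (nat_lit 5) (nat_lit 111) (nat_lit 5) (nat_lit 112) (nat_lit 5) (nat_lit 337) (nat_lit 274) (nat_lit 169)) (XT.lf (nat_lit 0) (nat_lit 3333690561) (nat_lit 456) (nat_lit 1490010688) (nat_lit 76) (nat_lit 14769744818) (nat_lit 105) (nat_lit 5) (nat_lit 111) (nat_lit 5) (nat_lit 106) (nat_lit 5) (nat_lit 338) (nat_lit 274) (nat_lit 168))))))) (XT.nd (nat_lit 1014) (nat_lit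 1520) (nat_lit 0) (XT.nd (nat_lit 468) (nat_lit 1216) (nat_lit 0) (XT.nd (nat_lit 234) (nat_lit 608) (nat_lit 0) (XT.nd (nat_lit 78) (nat_lit 608) (nat_lit 0) (XT.lf (nat_lit 0) (nat_lit 8924439968) (nat_lit 380) (nat_lit 7151926091) (nat_lit 76) (nat_lit 3917482660) (nat_lit 101) (nat_lit 5) (nat_lit 106) (nat_lit 5) (nat_lit 102) (nat_lit 5) (nat_lit 339) (nat_lit 274) (nat_lit 167)) (XT.nd (nat_lit 78) (nat_lit 304) (nat_lit 0) (XT.lf (nat_lit 0) (nat_lit 7247708684) (nat_lit 304) (nat_lit 7503106860) (nat_lit 380) (nat_lit 5654099066) (nat_lit 97) (nat_lit 5) (nat_lit 101) (nat_lit 5) (nat_lit 102) (nat_lit 5) (nat_lit 340) (nat_lit 274) (nat_lit 166)) (XT.lf (nat_lit 0) (nat_lit 1325340402) (nat_lit 304) (nat_lit 19471416605) (nat_lit 380) (nat_lit 30668946) (nat_lit 93) (nat_lit 5) (nat_lit 97) (nat_lit 5) (nat_lit 98) (nat_lit 5) (nat_lit 341) (nat_lit 274) (nat_lit 165)))) (XT.nd (nat_lit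 78) (nat_lit 532) (nat_lit 0) (XT.lf (nat_lit 0) (nat_lit 5804854021) (nat_lit 380) (nat_lit 4959283464) (nat_lit 76) (nat_lit 10495356489) (nat_lit 92) (nat_lit 5) (nat_lit 97) (nat_lit 5) (nat_lit 93) (nat_lit 5) (nat_lit 342) (nat_lit 274) (nat_lit 164)) (XT.nd (nat_lit 78) (nat_lit 228) (nat_lit 0) (XT.lf (nat_lit 0) (nat_lit 10120543231) (nat_lit 304) (nat_lit 1739833415) (nat_lit 380) (nat_lit 9843244609) (nat_lit 88) (nat_lit 5) (nat_lit 92) (nat_lit 5) (nat_lit 93) (nat_lit 5) (nat_lit 343) (nat_lit 274) (nat_lit 163)) (XT.lf (nat_lit 0) (nat_lit 3525605479) (nat_lit 228) (nat_lit 14657687252) (nat_lit 304) (nat_lit 3976073112) (nat_lit 85) (nat_lit 5) (nat_lit 88) (nat_lit 5) (nat_lit 89) (nat_lit 5) (nat_lit 344) (nat_lit 274) (nat_lit 162))))) (XT.nd (nat_lit 234) (nat_lit 608) (nat_lit 0) (XT.nd (nat_lit 78) (nat_lit 532) (nat_lit 0) (XT.lf (nat_lit 0) (nat_lit 2110848038) (nat_lit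 304) (nat_lit 3438051905) (nat_lit 76) (nat_lit 17078205161) (nat_lit 84) (nat_lit 5) (nat_lit 88) (nat_lit 5) (nat_lit 85) (nat_lit 5) (nat_lit 345) (nat_lit 274) (nat_lit 161)) (XT.nd (nat_lit 78) (nat_lit 228) (nat_lit 0) (XT.lf (nat_lit 0) (nat_lit 8412938954) (nat_lit 380) (nat_lit 10814615975) (nat_lit 76) (nat_lit 3879071784) (nat_lit 80) (nat_lit 5) (nat_lit 85) (nat_lit 5) (nat_lit 81) (nat_lit 5) (nat_lit 346) (nat_lit 274) (nat_lit 160)) (XT.lf (nat_lit 0) (nat_lit 4938202677) (nat_lit 228) (nat_lit 10039581283) (nat_lit 304) (nat_lit 8621283398) (nat_lit 77) (nat_lit 5) (nat_lit 80) (nat_lit 5) (nat_lit 81) (nat_lit 5) (nat_lit 347) (nat_lit 274) (nat_lit 159)))) (XT.nd (nat_lit 156) (nat_lit 228) (nat_lit 0) (XT.nd (nat_lit 78) (nat_lit 380) (nat_lit 0) (XT.lf (nat_lit 0) (nat_lit 21281860795) (nat_lit 228) (nat_lit 512424522) (nat_lit 304) (nat_lit 2310908695) (nat_lit 77) (nat_lit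 5) (nat_lit 80) (nat_lit 5) (nat_lit 81) (nat_lit 5) (nat_lit 348) (nat_lit 274) (nat_lit 158)) (XT.lf (nat_lit 0) (nat_lit 4265137310) (nat_lit 380) (nat_lit 11074155103) (nat_lit 76) (nat_lit 9284048865) (nat_lit 72) (nat_lit 5) (nat_lit 77) (nat_lit 5) (nat_lit 73) (nat_lit 5) (nat_lit 349) (nat_lit 274) (nat_lit 157))) (XT.nd (nat_lit 78) (nat_lit 0) (nat_lit 0) (XT.lf (nat_lit 0) (nat_lit 5316620829) (nat_lit 228) (nat_lit 5729945579) (nat_lit 304) (nat_lit 14109377567) (nat_lit 69) (nat_lit 5) (nat_lit 72) (nat_lit 5) (nat_lit 73) (nat_lit 5) (nat_lit 350) (nat_lit 274) (nat_lit 156)) (XT.lf (nat_lit 0) (nat_lit 18116415977) (nat_lit 304) (nat_lit 3408668511) (nat_lit 76) (nat_lit 4177747001) (nat_lit 69) (nat_lit 5) (nat_lit 73) (nat_lit 5) (nat_lit 70) (nat_lit 5) (nat_lit 351) (nat_lit 274) (nat_lit 155)))))) (XT.nd (nat_lit 546) (nat_lit 228) (nat_lit 0) (XT.nd (nat_lit 234) (nat_lit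 760) (nat_lit 0) (XT.nd (nat_lit 78) (nat_lit 304) (nat_lit 0) (XT.lf (nat_lit 0) (nat_lit 13627357859) (nat_lit 228) (nat_lit 11880692232) (nat_lit 304) (nat_lit 755887860) (nat_lit 66) (nat_lit 5) (nat_lit 69) (nat_lit 5) (nat_lit 70) (nat_lit 5) (nat_lit 352) (nat_lit 274) (nat_lit 154)) (XT.nd (nat_lit 78) (nat_lit 0) (nat_lit 0) (XT.lf (nat_lit 0) (nat_lit 4368343973) (nat_lit 228) (nat_lit 1863562738) (nat_lit 304) (nat_lit 20608467114) (nat_lit 62) (nat_lit 5) (nat_lit 65) (nat_lit 5) (nat_lit 66) (nat_lit 5) (nat_lit 353) (nat_lit 274) (nat_lit 153)) (XT.lf (nat_lit 0) (nat_lit 13543551196) (nat_lit 304) (nat_lit 5464063966) (nat_lit 76) (nat_lit 8423903614) (nat_lit 62) (nat_lit 5) (nat_lit 66) (nat_lit 5) (nat_lit 63) (nat_lit 5) (nat_lit 354) (nat_lit 274) (nat_lit 152)))) (XT.nd (nat_lit 156) (nat_lit 228) (nat_lit 0) (XT.nd (nat_lit 78) (nat_lit 304) (nat_lit 0) (XT.lf (nat_lit 0)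 (nat_lit 12174603447) (nat_lit 228) (nat_lit 8975275897) (nat_lit 304) (nat_lit 6889017520) (nat_lit 59) (nat_lit 5) (nat_lit 62) (nat_lit 5) (nat_lit 63) (nat_lit 5) (nat_lit 355) (nat_lit 274) (nat_lit 151)) (XT.lf (nat_lit 0) (nat_lit 357423692) (nat_lit 304) (nat_lit 26925357488) (nat_lit 76) (nat_lit 1380844422) (nat_lit 55) (nat_lit 5) (nat_lit 59) (nat_lit 5) (nat_lit 56) (nat_lit 5) (nat_lit 356) (nat_lit 274) (nat_lit 150))) (XT.nd (nat_lit 78) (nat_lit 228) (nat_lit 0) (XT.lf (nat_lit 0) (nat_lit 7880676567) (nat_lit 304) (nat_lit 9352041785) (nat_lit 76) (nat_lit 12070411921) (nat_lit 55) (nat_lit 5) (nat_lit 59) (nat_lit 5) (nat_lit 56) (nat_lit 5) (nat_lit 357) (nat_lit 274) (nat_lit 149)) (XT.lf (nat_lit 0) (nat_lit 8838811954) (nat_lit 228) (nat_lit 6832906010) (nat_lit 304) (nat_lit 14289265216) (nat_lit 52) (nat_lit 5) (nat_lit 55) (nat_lit 5) (nat_lit 56) (nat_lit 5) (nat_lit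 358) (nat_lit 274) (nat_lit 148))))) (XT.nd (nat_lit 34164) (nat_lit 0) (nat_lit 34428) (XT.nd (nat_lit 78) (nat_lit 228) (nat_lit 0) (XT.lf (nat_lit 0) (nat_lit 23770386762) (nat_lit 304) (nat_lit 2984912877) (nat_lit 76) (nat_lit 3881798881) (nat_lit 52) (nat_lit 5) (nat_lit 56) (nat_lit 5) (nat_lit 53) (nat_lit 5) (nat_lit 359) (nat_lit 274) (nat_lit 147)) (XT.nd (nat_lit 34008) (nat_lit 0) (nat_lit 35568) (XT.lf (nat_lit 0) (nat_lit 903046680) (nat_lit 228) (nat_lit 15503002767) (nat_lit 76) (nat_lit 14924656545) (nat_lit 49) (nat_lit 5) (nat_lit 52) (nat_lit 5) (nat_lit 50) (nat_lit 5) (nat_lit 360) (nat_lit 274) (nat_lit 146)) (XT.lf (nat_lit 0) (nat_lit 739953552) (nat_lit 0) (nat_lit 739953552) (nat_lit 1140) (nat_lit 2228660420) (nat_lit 517) (nat_lit 5) (nat_lit 517) (nat_lit 3) (nat_lit 532) (nat_lit 3) (nat_lit 275) (nat_lit 275) (nat_lit 230)))) (XT.nd (nat_lit 156) (nat_lit 1140)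 (nat_lit 0) (XT.nd (nat_lit 78) (nat_lit 0) (nat_lit 0) (XT.lf (nat_lit 0) (nat_lit 5148988261) (nat_lit 1140) (nat_lit 822715049) (nat_lit 1216) (nat_lit 1511722109) (nat_lit 517) (nat_lit 5) (nat_lit 532) (nat_lit 3) (nat_lit 533) (nat_lit 5) (nat_lit 276) (nat_lit 275) (nat_lit 229)) (XT.lf (nat_lit 76) (nat_lit 4450023416) (nat_lit 0) (nat_lit 2909557392) (nat_lit 1216) (nat_lit 193089654) (nat_lit 518) (nat_lit 5) (nat_lit 517) (nat_lit 5) (nat_lit 533) (nat_lit 5) (nat_lit 277) (nat_lit 275) (nat_lit 228))) (XT.nd (nat_lit 78) (nat_lit 0) (nat_lit 0) (XT.lf (nat_lit 0) (nat_lit 1926793089) (nat_lit 1216) (nat_lit 5386608218) (nat_lit 1292) (nat_lit 311593377) (nat_lit 502) (nat_lit 5) (nat_lit 518) (nat_lit 5) (nat_lit 519) (nat_lit 5) (nat_lit 278) (nat_lit 275) (nat_lit 227)) (XT.lf (nat_lit 76) (nat_lit 17079626) (nat_lit 0) (nat_lit 4052123356) (nat_lit 1292) (nat_lit 3631103738) (nat_lit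 503) (nat_lit 5) (nat_lit 502) (nat_lit 5) (nat_lit 519) (nat_lit 5) (nat_lit 279) (nat_lit 275) (nat_lit 226))))))))
noncomputable def xc77 : XT := (XT.nd (nat_lit 2106) (nat_lit 11628) (nat_lit 0) (XT.nd (nat_lit 1014) (nat_lit 11932) (nat_lit 0) (XT.nd (nat_lit 468) (nat_lit 2660) (nat_lit 0) (XT.nd (nat_lit 234) (nat_lit 1216) (nat_lit 0) (XT.nd (nat_lit 78) (nat_lit 1216) (nat_lit 0) (XT.lf (nat_lit 76) (nat_lit 5612037198) (nat_lit 0) (nat_lit 623173428) (nat_lit 1292) (nat_lit 1543553504) (nat_lit 503) (nat_lit 5) (nat_lit 502) (nat_lit 5) (nat_lit 519) (nat_lit 5) (nat_lit 280) (nat_lit 275) (nat_lit 225)) (XT.nd (nat_lit 78) (nat_lit 0) (nat_lit 0) (XT.lf (nat_lit 0) (nat_lit 565246806) (nat_lit 1292) (nat_lit 4366827113) (nat_lit 1368) (nat_lit 2928160008) (nat_lit 486) (nat_lit 5) (nat_lit 503) (nat_lit 5) (nat_lit 504) (nat_lit 5) (nat_lit 281) (nat_lit 275) (nat_lit 224)) (XT.lf (nat_lit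 76) (nat_lit 1367130736) (nat_lit 0) (nat_lit 1303768785) (nat_lit 1368) (nat_lit 5274020071) (nat_lit 487) (nat_lit 5) (nat_lit 486) (nat_lit 5) (nat_lit 504) (nat_lit 5) (nat_lit 282) (nat_lit 275) (nat_lit 223)))) (XT.nd (nat_lit 78) (nat_lit 1292) (nat_lit 0) (XT.lf (nat_lit 0) (nat_lit 4813946593) (nat_lit 1292) (nat_lit 760963801) (nat_lit 1368) (nat_lit 2457816004) (nat_lit 487) (nat_lit 5) (nat_lit 504) (nat_lit 5) (nat_lit 505) (nat_lit 5) (nat_lit 283) (nat_lit 275) (nat_lit 222)) (XT.nd (nat_lit 78) (nat_lit 1292) (nat_lit 0) (XT.lf (nat_lit 76) (nat_lit 5245495348) (nat_lit 0) (nat_lit 1749282982) (nat_lit 1368) (nat_lit 1128982382) (nat_lit 488) (nat_lit 5) (nat_lit 487) (nat_lit 5) (nat_lit 505) (nat_lit 5) (nat_lit 284) (nat_lit 275) (nat_lit 221)) (XT.lf (nat_lit 0) (nat_lit 982684416) (nat_lit 1368) (nat_lit 5017433941) (nat_lit 1444) (nat_lit 2217882942) (nat_lit 470) (nat_lit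 5) (nat_lit 488) (nat_lit 5) (nat_lit 489) (nat_lit 5) (nat_lit 285) (nat_lit 275) (nat_lit 220))))) (XT.nd (nat_lit 234) (nat_lit 2660) (nat_lit 0) (XT.nd (nat_lit 78) (nat_lit 0) (nat_lit 76) (XT.lf (nat_lit 76) (nat_lit 1136028264) (nat_lit 0) (nat_lit 1978905354) (nat_lit 1444) (nat_lit 5200593194) (nat_lit 471) (nat_lit 5) (nat_lit 470) (nat_lit 5) (nat_lit 489) (nat_lit 5) (nat_lit 286) (nat_lit 275) (nat_lit 219)) (XT.nd (nat_lit 78) (nat_lit 0) (nat_lit 0) (XT.lf (nat_lit 0) (nat_lit 5294955427) (nat_lit 1368) (nat_lit 933498696) (nat_lit 1444) (nat_lit 2187904539) (nat_lit 471) (nat_lit 5) (nat_lit 489) (nat_lit 5) (nat_lit 490) (nat_lit 5) (nat_lit 287) (nat_lit 275) (nat_lit 218)) (XT.lf (nat_lit 76) (nat_lit 5513613803) (nat_lit 0) (nat_lit 2013210489) (nat_lit 1444) (nat_lit 993717275) (nat_lit 472) (nat_lit 5) (nat_lit 471) (nat_lit 5) (nat_lit 490) (nat_lit 5) (nat_lit 288) (nat_lit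 275) (nat_lit 217)))) (XT.nd (nat_lit 156) (nat_lit 1368) (nat_lit 0) (XT.nd (nat_lit 78) (nat_lit 0) (nat_lit 0) (XT.lf (nat_lit 0) (nat_lit 1165349484) (nat_lit 1444) (nat_lit 5111637349) (nat_lit 1520) (nat_lit 2351094771) (nat_lit 453) (nat_lit 5) (nat_lit 472) (nat_lit 5) (nat_lit 473) (nat_lit 5) (nat_lit 289) (nat_lit 275) (nat_lit 216)) (XT.lf (nat_lit 76) (nat_lit 1491461634) (nat_lit 0) (nat_lit 1868051372) (nat_lit 1520) (nat_lit 5379577806) (nat_lit 454) (nat_lit 5) (nat_lit 453) (nat_lit 5) (nat_lit 473) (nat_lit 5) (nat_lit 290) (nat_lit 275) (nat_lit 215))) (XT.nd (nat_lit 78) (nat_lit 1444) (nat_lit 0) (XT.lf (nat_lit 0) (nat_lit 5613351343) (nat_lit 1444) (nat_lit 554348187) (nat_lit 76) (nat_lit 2685903137) (nat_lit 454) (nat_lit 5) (nat_lit 473) (nat_lit 5) (nat_lit 455) (nat_lit 5) (nat_lit 291) (nat_lit 275) (nat_lit 214)) (XT.lf (nat_lit 0) (nat_lit 6365433356) (nat_lit 1444)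 (nat_lit 1566519345) (nat_lit 1520) (nat_lit 1039702151) (nat_lit 435) (nat_lit 5) (nat_lit 454) (nat_lit 5) (nat_lit 455) (nat_lit 5) (nat_lit 292) (nat_lit 275) (nat_lit 213)))))) (XT.nd (nat_lit 546) (nat_lit 4028) (nat_lit 0) (XT.nd (nat_lit 234) (nat_lit 3040) (nat_lit 0) (XT.nd (nat_lit 78) (nat_lit 3268) (nat_lit 0) (XT.lf (nat_lit 0) (nat_lit 1208408396) (nat_lit 1596) (nat_lit 4702782318) (nat_lit 76) (nat_lit 3181991489) (nat_lit 414) (nat_lit 5) (nat_lit 435) (nat_lit 5) (nat_lit 415) (nat_lit 5) (nat_lit 293) (nat_lit 275) (nat_lit 212)) (XT.nd (nat_lit 78) (nat_lit 1672) (nat_lit 0) (XT.lf (nat_lit 0) (nat_lit 2382492378) (nat_lit 1596) (nat_lit 1116820093) (nat_lit 1672) (nat_lit 5719160234) (nat_lit 393) (nat_lit 5) (nat_lit 414) (nat_lit 5) (nat_lit 415) (nat_lit 5) (nat_lit 294) (nat_lit 275) (nat_lit 211)) (XT.lf (nat_lit 0) (nat_lit 330918095) (nat_lit 1672) (nat_lit 5534078149)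 (nat_lit 1748) (nat_lit 3482447631) (nat_lit 371) (nat_lit 5) (nat_lit 393) (nat_lit 5) (nat_lit 394) (nat_lit 5) (nat_lit 295) (nat_lit 275) (nat_lit 210)))) (XT.nd (nat_lit 156) (nat_lit 1672) (nat_lit 0) (XT.nd (nat_lit 78) (nat_lit 1368) (nat_lit 0) (XT.lf (nat_lit 0) (nat_lit 7753364139) (nat_lit 1672) (nat_lit 550291285) (nat_lit 1748) (nat_lit 1176630409) (nat_lit 371) (nat_lit 5) (nat_lit 393) (nat_lit 5) (nat_lit 394) (nat_lit 5) (nat_lit 296) (nat_lit 275) (nat_lit 209)) (XT.lf (nat_lit 0) (nat_lit 1199824933) (nat_lit 1368) (nat_lit 3842479422) (nat_lit 76) (nat_lit 4574349216) (nat_lit 353) (nat_lit 5) (nat_lit 371) (nat_lit 5) (nat_lit 354) (nat_lit 5) (nat_lit 297) (nat_lit 275) (nat_lit 208))) (XT.nd (nat_lit 78) (nat_lit 836) (nat_lit 0) (XT.lf (nat_lit 0) (nat_lit 3623059175) (nat_lit 912) (nat_lit 5998516814) (nat_lit 76) (nat_lit 135589963) (nat_lit 342) (nat_lit 5) (nat_lit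 354) (nat_lit 5) (nat_lit 343) (nat_lit 5) (nat_lit 298) (nat_lit 275) (nat_lit 207)) (XT.lf (nat_lit 0) (nat_lit 1681719979) (nat_lit 836) (nat_lit 4459912554) (nat_lit 912) (nat_lit 3759845789) (nat_lit 331) (nat_lit 5) (nat_lit 342) (nat_lit 5) (nat_lit 343) (nat_lit 5) (nat_lit 299) (nat_lit 275) (nat_lit 206))))) (XT.nd (nat_lit 234) (nat_lit 2280) (nat_lit 0) (XT.nd (nat_lit 78) (nat_lit 1748) (nat_lit 0) (XT.lf (nat_lit 0) (nat_lit 8735163466) (nat_lit 912) (nat_lit 426399667) (nat_lit 76) (nat_lit 888605291) (nat_lit 331) (nat_lit 5) (nat_lit 343) (nat_lit 5) (nat_lit 332) (nat_lit 5) (nat_lit 300) (nat_lit 275) (nat_lit 205)) (XT.nd (nat_lit 78) (nat_lit 836) (nat_lit 0) (XT.lf (nat_lit 0) (nat_lit 1221224061) (nat_lit 912) (nat_lit 2584160403) (nat_lit 76) (nat_lit 6397136686) (nat_lit 319) (nat_lit 5) (nat_lit 331) (nat_lit 5) (nat_lit 320) (nat_lit 5) (nat_lit 301) (nat_lit 275) (nat_lit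 204)) (XT.lf (nat_lit 0) (nat_lit 3821298724) (nat_lit 912) (nat_lit 4800003727) (nat_lit 76) (nat_lit 1737889281) (nat_lit 308) (nat_lit 5) (nat_lit 320) (nat_lit 5) (nat_lit 309) (nat_lit 5) (nat_lit 302) (nat_lit 275) (nat_lit 203)))) (XT.nd (nat_lit 156) (nat_lit 760) (nat_lit 0) (XT.nd (nat_lit 78) (nat_lit 760) (nat_lit 0) (XT.lf (nat_lit 0) (nat_lit 3437001043) (nat_lit 760) (nat_lit 3083805922) (nat_lit 836) (nat_lit 3999359466) (nat_lit 298) (nat_lit 5) (nat_lit 308) (nat_lit 5) (nat_lit 309) (nat_lit 5) (nat_lit 303) (nat_lit 275) (nat_lit 202)) (XT.lf (nat_lit 0) (nat_lit 1256075859) (nat_lit 760) (nat_lit 8060162636) (nat_lit 836) (nat_lit 1369464797) (nat_lit 288) (nat_lit 5) (nat_lit 298) (nat_lit 5) (nat_lit 299) (nat_lit 5) (nat_lit 304) (nat_lit 275) (nat_lit 201))) (XT.nd (nat_lit 78) (nat_lit 684) (nat_lit 0) (XT.lf (nat_lit 0) (nat_lit 1348388705) (nat_lit 836) (nat_lit 986972735)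 (nat_lit 76) (nat_lit 8520168504) (nat_lit 287) (nat_lit 5) (nat_lit 298) (nat_lit 5) (nat_lit 288) (nat_lit 5) (nat_lit 305) (nat_lit 275) (nat_lit 200)) (XT.lf (nat_lit 0) (nat_lit 4162073533) (nat_lit 760) (nat_lit 3295300892) (nat_lit 76) (nat_lit 3572267174) (nat_lit 278) (nat_lit 5) (nat_lit 288) (nat_lit 5) (nat_lit 279) (nat_lit 5) (nat_lit 306) (nat_lit 275) (nat_lit 199))))))) (XT.nd (nat_lit 1014) (nat_lit 5244) (nat_lit 0) (XT.nd (nat_lit 468) (nat_lit 2964) (nat_lit 0) (XT.nd (nat_lit 234) (nat_lit 1216) (nat_lit 0) (XT.nd (nat_lit 78) (nat_lit 1444) (nat_lit 0) (XT.lf (nat_lit 0) (nat_lit 5535541171) (nat_lit 760) (nat_lit 1542744308) (nat_lit 836) (nat_lit 4130357216) (nat_lit 268) (nat_lit 5) (nat_lit 278) (nat_lit 5) (nat_lit 279) (nat_lit 5) (nat_lit 307) (nat_lit 275) (nat_lit 198)) (XT.nd (nat_lit 78) (nat_lit 760) (nat_lit 0) (XT.lf (nat_lit 0) (nat_lit 3253386511) (nat_lit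 684) (nat_lit 6862433044) (nat_lit 760) (nat_lit 1276545148) (nat_lit 259) (nat_lit 5) (nat_lit 268) (nat_lit 5) (nat_lit 269) (nat_lit 5) (nat_lit 308) (nat_lit 275) (nat_lit 197)) (XT.lf (nat_lit 0) (nat_lit 891537591) (nat_lit 684) (nat_lit 765621257) (nat_lit 760) (nat_lit 9923928127) (nat_lit 249) (nat_lit 5) (nat_lit 258) (nat_lit 5) (nat_lit 259) (nat_lit 5) (nat_lit 309) (nat_lit 275) (nat_lit 196)))) (XT.nd (nat_lit 78) (nat_lit 1216) (nat_lit 0) (XT.lf (nat_lit 0) (nat_lit 4715052653) (nat_lit 760) (nat_lit 1558025581) (nat_lit 76) (nat_lit 5501178982) (nat_lit 249) (nat_lit 5) (nat_lit 259) (nat_lit 5) (nat_lit 250) (nat_lit 5) (nat_lit 310) (nat_lit 275) (nat_lit 195)) (XT.nd (nat_lit 78) (nat_lit 608) (nat_lit 0) (XT.lf (nat_lit 0) (nat_lit 7884456092) (nat_lit 684) (nat_lit 4069065297) (nat_lit 76) (nat_lit 19330477) (nat_lit 241) (nat_lit 5) (nat_lit 250) (nat_lit 5) (nat_lit 242)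 (nat_lit 5) (nat_lit 311) (nat_lit 275) (nat_lit 194)) (XT.lf (nat_lit 0) (nat_lit 5481359489) (nat_lit 608) (nat_lit 5719725200) (nat_lit 684) (nat_lit 975300842) (nat_lit 233) (nat_lit 5) (nat_lit 241) (nat_lit 5) (nat_lit 242) (nat_lit 5) (nat_lit 312) (nat_lit 275) (nat_lit 193))))) (XT.nd (nat_lit 234) (nat_lit 1672) (nat_lit 0) (XT.nd (nat_lit 78) (nat_lit 608) (nat_lit 0) (XT.lf (nat_lit 0) (nat_lit 2218387237) (nat_lit 684) (nat_lit 9419535764) (nat_lit 76) (nat_lit 747506103) (nat_lit 224) (nat_lit 5) (nat_lit 233) (nat_lit 5) (nat_lit 225) (nat_lit 5) (nat_lit 313) (nat_lit 275) (nat_lit 192)) (XT.nd (nat_lit 78) (nat_lit 0) (nat_lit 0) (XT.lf (nat_lit 0) (nat_lit 325743690) (nat_lit 608) (nat_lit 5220224701) (nat_lit 684) (nat_lit 7053642211) (nat_lit 216) (nat_lit 5) (nat_lit 224) (nat_lit 5) (nat_lit 225) (nat_lit 5) (nat_lit 314) (nat_lit 275) (nat_lit 191)) (XT.lf (nat_lit 0) (nat_lit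 9012576910) (nat_lit 684) (nat_lit 2377948247) (nat_lit 76) (nat_lit 1428929954) (nat_lit 216) (nat_lit 5) (nat_lit 225) (nat_lit 5) (nat_lit 217) (nat_lit 5) (nat_lit 315) (nat_lit 275) (nat_lit 190)))) (XT.nd (nat_lit 156) (nat_lit 532) (nat_lit 0) (XT.nd (nat_lit 78) (nat_lit 608) (nat_lit 0) (XT.lf (nat_lit 0) (nat_lit 7842131339) (nat_lit 532) (nat_lit 4793793801) (nat_lit 608) (nat_lit 408935925) (nat_lit 209) (nat_lit 5) (nat_lit 216) (nat_lit 5) (nat_lit 217) (nat_lit 5) (nat_lit 316) (nat_lit 275) (nat_lit 189)) (XT.lf (nat_lit 0) (nat_lit 3080728229) (nat_lit 608) (nat_lit 8158382354) (nat_lit 76) (nat_lit 2036930734) (nat_lit 201) (nat_lit 5) (nat_lit 209) (nat_lit 5) (nat_lit 202) (nat_lit 5) (nat_lit 317) (nat_lit 275) (nat_lit 188))) (XT.nd (nat_lit 78) (nat_lit 0) (nat_lit 0) (XT.lf (nat_lit 0) (nat_lit 2259630414) (nat_lit 532) (nat_lit 4460170889) (nat_lit 608) (nat_lit 6793315466)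 (nat_lit 194) (nat_lit 5) (nat_lit 201) (nat_lit 5) (nat_lit 202) (nat_lit 5) (nat_lit 318) (nat_lit 275) (nat_lit 187)) (XT.lf (nat_lit 0) (nat_lit 10508715368) (nat_lit 608) (nat_lit 711419872) (nat_lit 76) (nat_lit 2536374652) (nat_lit 194) (nat_lit 5) (nat_lit 202) (nat_lit 5) (nat_lit 195) (nat_lit 5) (nat_lit 319) (nat_lit 275) (nat_lit 186)))))) (XT.nd (nat_lit 546) (nat_lit 2204) (nat_lit 0) (XT.nd (nat_lit 234) (nat_lit 1444) (nat_lit 0) (XT.nd (nat_lit 78) (nat_lit 988) (nat_lit 0) (XT.lf (nat_lit 0) (nat_lit 464895371) (nat_lit 608) (nat_lit 3797117640) (nat_lit 76) (nat_lit 9743835145) (nat_lit 186) (nat_lit 5) (nat_lit 194) (nat_lit 5) (nat_lit 187) (nat_lit 5) (nat_lit 320) (nat_lit 275) (nat_lit 185)) (XT.nd (nat_lit 78) (nat_lit 532) (nat_lit 0) (XT.lf (nat_lit 0) (nat_lit 4286206579) (nat_lit 532) (nat_lit 7043216939) (nat_lit 76) (nat_lit 2932003742) (nat_lit 180) (nat_lit 5)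 (nat_lit 187) (nat_lit 5) (nat_lit 181) (nat_lit 5) (nat_lit 321) (nat_lit 275) (nat_lit 184)) (XT.lf (nat_lit 0) (nat_lit 4077765213) (nat_lit 532) (nat_lit 4195816601) (nat_lit 608) (nat_lit 6250080284) (nat_lit 173) (nat_lit 5) (nat_lit 180) (nat_lit 5) (nat_lit 181) (nat_lit 5) (nat_lit 322) (nat_lit 275) (nat_lit 183)))) (XT.nd (nat_lit 156) (nat_lit 912) (nat_lit 0) (XT.nd (nat_lit 78) (nat_lit 76) (nat_lit 0) (XT.lf (nat_lit 0) (nat_lit 786755369) (nat_lit 456) (nat_lit 11638532828) (nat_lit 532) (nat_lit 2367597947) (nat_lit 167) (nat_lit 5) (nat_lit 173) (nat_lit 5) (nat_lit 174) (nat_lit 5) (nat_lit 323) (nat_lit 275) (nat_lit 182)) (XT.lf (nat_lit 0) (nat_lit 1680762258) (nat_lit 532) (nat_lit 2647044029) (nat_lit 76) (nat_lit 10740768384) (nat_lit 166) (nat_lit 5) (nat_lit 173) (nat_lit 5) (nat_lit 167) (nat_lit 5) (nat_lit 324) (nat_lit 275) (nat_lit 181))) (XT.nd (nat_lit 78) (nat_lit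 456) (nat_lit 0) (XT.lf (nat_lit 0) (nat_lit 5871339649) (nat_lit 532) (nat_lit 6253648018) (nat_lit 76) (nat_lit 3226189657) (nat_lit 160) (nat_lit 5) (nat_lit 167) (nat_lit 5) (nat_lit 161) (nat_lit 5) (nat_lit 325) (nat_lit 275) (nat_lit 180)) (XT.lf (nat_lit 0) (nat_lit 5595812627) (nat_lit 456) (nat_lit 4647972677) (nat_lit 532) (nat_lit 5397364413) (nat_lit 154) (nat_lit 5) (nat_lit 160) (nat_lit 5) (nat_lit 161) (nat_lit 5) (nat_lit 326) (nat_lit 275) (nat_lit 179))))) (XT.nd (nat_lit 234) (nat_lit 1292) (nat_lit 0) (XT.nd (nat_lit 78) (nat_lit 456) (nat_lit 0) (XT.lf (nat_lit 0) (nat_lit 1915230980) (nat_lit 456) (nat_lit 12880399395) (nat_lit 532) (nat_lit 1143240639) (nat_lit 148) (nat_lit 5) (nat_lit 154) (nat_lit 5) (nat_lit 155) (nat_lit 5) (nat_lit 327) (nat_lit 275) (nat_lit 178)) (XT.nd (nat_lit 78) (nat_lit 380) (nat_lit 0) (XT.lf (nat_lit 0) (nat_lit 3269300006) (nat_lit 532)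 (nat_lit 1961532115) (nat_lit 76) (nat_lit 11012819531) (nat_lit 147) (nat_lit 5) (nat_lit 154) (nat_lit 5) (nat_lit 148) (nat_lit 5) (nat_lit 328) (nat_lit 275) (nat_lit 177)) (XT.lf (nat_lit 0) (nat_lit 7859380400) (nat_lit 456) (nat_lit 6016804251) (nat_lit 76) (nat_lit 2680039179) (nat_lit 142) (nat_lit 5) (nat_lit 148) (nat_lit 5) (nat_lit 143) (nat_lit 5) (nat_lit 329) (nat_lit 275) (nat_lit 176)))) (XT.nd (nat_lit 156) (nat_lit 380) (nat_lit 0) (XT.nd (nat_lit 78) (nat_lit 456) (nat_lit 0) (XT.lf (nat_lit 0) (nat_lit 6579851487) (nat_lit 456) (nat_lit 6073272445) (nat_lit 532) (nat_lit 4223742815) (nat_lit 136) (nat_lit 5) (nat_lit 142) (nat_lit 5) (nat_lit 143) (nat_lit 5) (nat_lit 330) (nat_lit 275) (nat_lit 175)) (XT.lf (nat_lit 0) (nat_lit 423580784) (nat_lit 456) (nat_lit 14795521167) (nat_lit 76) (nat_lit 1987088161) (nat_lit 130) (nat_lit 5) (nat_lit 136) (nat_lit 5) (nat_lit 131)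 (nat_lit 5) (nat_lit 331) (nat_lit 275) (nat_lit 174))) (XT.nd (nat_lit 78) (nat_lit 380) (nat_lit 0) (XT.lf (nat_lit 0) (nat_lit 5239753639) (nat_lit 456) (nat_lit 2008122838) (nat_lit 76) (nat_lit 10295233866) (nat_lit 130) (nat_lit 5) (nat_lit 136) (nat_lit 5) (nat_lit 131) (nat_lit 5) (nat_lit 332) (nat_lit 275) (nat_lit 173)) (XT.lf (nat_lit 0) (nat_lit 10256634594) (nat_lit 456) (nat_lit 6619336838) (nat_lit 76) (nat_lit 1013053764) (nat_lit 125) (nat_lit 5) (nat_lit 131) (nat_lit 5) (nat_lit 126) (nat_lit 5) (nat_lit 333) (nat_lit 275) (nat_lit 172))))))))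
noncomputable def xc78 : XT := (XT.nd (nat_lit 36192) (nat_lit 0) (nat_lit 19456) (XT.nd (nat_lit 1014) (nat_lit 2432) (nat_lit 0) (XT.nd (nat_lit 468) (nat_lit 1292) (nat_lit 0) (XT.nd (nat_lit 234) (nat_lit 1064) (nat_lit 0) (XT.nd (nat_lit 78) (nat_lit 456) (nat_lit 0) (XT.lf (nat_lit 0) (nat_lit 6733878338) (nat_lit 304) (nat_lit 8772776991) (nat_lit 380) (nat_lit 2737020637) (nat_lit 121) (nat_lit 5) (nat_lit 125) (nat_lit 5) (nat_lit 126) (nat_lit 5) (nat_lit 334) (nat_lit 275) (nat_lit 171)) (XT.nd (nat_lit 78) (nat_lit 0) (nat_lit 0) (XT.lf (nat_lit 0) (nat_lit 1946577590) (nat_lit 380) (nat_lit 363232362) (nat_lit 456) (nat_lit 16298170917) (nat_lit 115) (nat_lit 5) (nat_lit 120) (nat_lit 5) (nat_lit 121) (nat_lit 5) (nat_lit 335) (nat_lit 275) (nat_lit 170)) (XT.lf (nat_lit 0) (nat_lit 7580886653) (nat_lit 456) (nat_lit 3123918343) (nat_lit 76) (nat_lit 8275857849) (nat_lit 115) (nat_lit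 5) (nat_lit 121) (nat_lit 5) (nat_lit 116) (nat_lit 5) (nat_lit 336) (nat_lit 275) (nat_lit 169)))) (XT.nd (nat_lit 78) (nat_lit 760) (nat_lit 0) (XT.lf (nat_lit 0) (nat_lit 10927810296) (nat_lit 304) (nat_lit 2133746660) (nat_lit 380) (nat_lit 6301949094) (nat_lit 111) (nat_lit 5) (nat_lit 115) (nat_lit 5) (nat_lit 116) (nat_lit 5) (nat_lit 337) (nat_lit 275) (nat_lit 168)) (XT.nd (nat_lit 78) (nat_lit 380) (nat_lit 0) (XT.lf (nat_lit 0) (nat_lit 5684782341) (nat_lit 380) (nat_lit 13101988902) (nat_lit 456) (nat_lit 969470532) (nat_lit 106) (nat_lit 5) (nat_lit 111) (nat_lit 5) (nat_lit 112) (nat_lit 5) (nat_lit 338) (nat_lit 275) (nat_lit 167)) (XT.lf (nat_lit 0) (nat_lit 109780273) (nat_lit 304) (nat_lit 4405117198) (nat_lit 380) (nat_lit 15644259317) (nat_lit 101) (nat_lit 5) (nat_lit 105) (nat_lit 5) (nat_lit 106) (nat_lit 5) (nat_lit 339) (nat_lit 275) (nat_lit 166))))) (XT.nd (nat_lit 234)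 (nat_lit 608) (nat_lit 0) (XT.nd (nat_lit 78) (nat_lit 684) (nat_lit 0) (XT.lf (nat_lit 0) (nat_lit 10255296592) (nat_lit 380) (nat_lit 5732059378) (nat_lit 76) (nat_lit 4584590656) (nat_lit 101) (nat_lit 5) (nat_lit 106) (nat_lit 5) (nat_lit 102) (nat_lit 5) (nat_lit 340) (nat_lit 275) (nat_lit 165)) (XT.nd (nat_lit 78) (nat_lit 380) (nat_lit 0) (XT.lf (nat_lit 0) (nat_lit 9073047844) (nat_lit 304) (nat_lit 7162890436) (nat_lit 380) (nat_lit 4759829973) (nat_lit 97) (nat_lit 5) (nat_lit 101) (nat_lit 5) (nat_lit 102) (nat_lit 5) (nat_lit 341) (nat_lit 275) (nat_lit 164)) (XT.lf (nat_lit 0) (nat_lit 1002222085) (nat_lit 380) (nat_lit 18473630156) (nat_lit 76) (nat_lit 1955312106) (nat_lit 92) (nat_lit 5) (nat_lit 97) (nat_lit 5) (nat_lit 93) (nat_lit 5) (nat_lit 342) (nat_lit 275) (nat_lit 163)))) (XT.nd (nat_lit 156) (nat_lit 304) (nat_lit 0) (XT.nd (nat_lit 78) (nat_lit 304) (nat_lit 0) (XT.lf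 (nat_lit 0) (nat_lit 6982297511) (nat_lit 380) (nat_lit 3541738798) (nat_lit 76) (nat_lit 11352768226) (nat_lit 92) (nat_lit 5) (nat_lit 97) (nat_lit 5) (nat_lit 93) (nat_lit 5) (nat_lit 343) (nat_lit 275) (nat_lit 162)) (XT.lf (nat_lit 0) (nat_lit 11965070965) (nat_lit 304) (nat_lit 1235197200) (nat_lit 380) (nat_lit 9134383714) (nat_lit 88) (nat_lit 5) (nat_lit 92) (nat_lit 5) (nat_lit 93) (nat_lit 5) (nat_lit 344) (nat_lit 275) (nat_lit 161))) (XT.nd (nat_lit 78) (nat_lit 76) (nat_lit 0) (XT.lf (nat_lit 0) (nat_lit 5163481231) (nat_lit 228) (nat_lit 14534185448) (nat_lit 304) (nat_lit 3106717774) (nat_lit 85) (nat_lit 5) (nat_lit 88) (nat_lit 5) (nat_lit 89) (nat_lit 5) (nat_lit 345) (nat_lit 275) (nat_lit 160)) (XT.lf (nat_lit 0) (nat_lit 3121427239) (nat_lit 304) (nat_lit 2040755537) (nat_lit 76) (nat_lit 18124424080) (nat_lit 84) (nat_lit 5) (nat_lit 88) (nat_lit 5) (nat_lit 85) (nat_lit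 5) (nat_lit 346) (nat_lit 275) (nat_lit 159)))))) (XT.nd (nat_lit 546) (nat_lit 988) (nat_lit 0) (XT.nd (nat_lit 234) (nat_lit 912) (nat_lit 0) (XT.nd (nat_lit 78) (nat_lit 228) (nat_lit 0) (XT.lf (nat_lit 0) (nat_lit 9598125252) (nat_lit 380) (nat_lit 9647569238) (nat_lit 76) (nat_lit 4535119404) (nat_lit 80) (nat_lit 5) (nat_lit 85) (nat_lit 5) (nat_lit 81) (nat_lit 5) (nat_lit 347) (nat_lit 275) (nat_lit 158)) (XT.nd (nat_lit 78) (nat_lit 0) (nat_lit 0) (XT.lf (nat_lit 0) (nat_lit 6553636398) (nat_lit 228) (nat_lit 9788636938) (nat_lit 304) (nat_lit 7946117628) (nat_lit 77) (nat_lit 5) (nat_lit 80) (nat_lit 5) (nat_lit 81) (nat_lit 5) (nat_lit 348) (nat_lit 275) (nat_lit 157)) (XT.lf (nat_lit 0) (nat_lit 23336668293) (nat_lit 304) (nat_lit 1465430434) (nat_lit 76) (nat_lit 8144777) (nat_lit 77) (nat_lit 5) (nat_lit 81) (nat_lit 5) (nat_lit 78) (nat_lit 5) (nat_lit 349) (nat_lit 275) (nat_lit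 156)))) (XT.nd (nat_lit 156) (nat_lit 304) (nat_lit 0) (XT.nd (nat_lit 78) (nat_lit 228) (nat_lit 0) (XT.lf (nat_lit 0) (nat_lit 5274402300) (nat_lit 380) (nat_lit 9978521453) (nat_lit 76) (nat_lit 10091172451) (nat_lit 72) (nat_lit 5) (nat_lit 77) (nat_lit 5) (nat_lit 73) (nat_lit 5) (nat_lit 350) (nat_lit 275) (nat_lit 155)) (XT.lf (nat_lit 0) (nat_lit 6880812453) (nat_lit 228) (nat_lit 5361912768) (nat_lit 304) (nat_lit 13650292036) (nat_lit 69) (nat_lit 5) (nat_lit 72) (nat_lit 5) (nat_lit 73) (nat_lit 5) (nat_lit 351) (nat_lit 275) (nat_lit 154))) (XT.nd (nat_lit 78) (nat_lit 304) (nat_lit 0) (XT.lf (nat_lit 0) (nat_lit 19502886526) (nat_lit 304) (nat_lit 2133460174) (nat_lit 76) (nat_lit 4820409395) (nat_lit 69) (nat_lit 5) (nat_lit 73) (nat_lit 5) (nat_lit 70) (nat_lit 5) (nat_lit 352) (nat_lit 275) (nat_lit 153)) (XT.lf (nat_lit 0) (nat_lit 64636658) (nat_lit 304) (nat_lit 11644145643)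 (nat_lit 76) (nat_lit 15326228795) (nat_lit 65) (nat_lit 5) (nat_lit 69) (nat_lit 5) (nat_lit 66) (nat_lit 5) (nat_lit 353) (nat_lit 275) (nat_lit 152))))) (XT.nd (nat_lit 234) (nat_lit 532) (nat_lit 0) (XT.nd (nat_lit 78) (nat_lit 228) (nat_lit 0) (XT.lf (nat_lit 0) (nat_lit 5843701724) (nat_lit 228) (nat_lit 1392618617) (nat_lit 304) (nat_lit 20392637617) (nat_lit 62) (nat_lit 5) (nat_lit 65) (nat_lit 5) (nat_lit 66) (nat_lit 5) (nat_lit 354) (nat_lit 275) (nat_lit 151)) (XT.nd (nat_lit 78) (nat_lit 228) (nat_lit 0) (XT.lf (nat_lit 0) (nat_lit 14746825785) (nat_lit 304) (nat_lit 4310011276) (nat_lit 76) (nat_lit 9181418060) (nat_lit 62) (nat_lit 5) (nat_lit 66) (nat_lit 5) (nat_lit 63) (nat_lit 5) (nat_lit 355) (nat_lit 275) (nat_lit 150)) (XT.lf (nat_lit 0) (nat_lit 13836433587) (nat_lit 228) (nat_lit 8730115864) (nat_lit 304) (nat_lit 6297608847) (nat_lit 59) (nat_lit 5) (nat_lit 62) (nat_lit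 5) (nat_lit 63) (nat_lit 5) (nat_lit 356) (nat_lit 275) (nat_lit 149)))) (XT.nd (nat_lit 156) (nat_lit 228) (nat_lit 0) (XT.nd (nat_lit 78) (nat_lit 0) (nat_lit 0) (XT.lf (nat_lit 0) (nat_lit 1144500022) (nat_lit 304) (nat_lit 26434633467) (nat_lit 76) (nat_lit 1928624431) (nat_lit 55) (nat_lit 5) (nat_lit 59) (nat_lit 5) (nat_lit 56) (nat_lit 5) (nat_lit 357) (nat_lit 275) (nat_lit 148)) (XT.lf (nat_lit 0) (nat_lit 8870838242) (nat_lit 304) (nat_lit 8371938236) (nat_lit 76) (nat_lit 12924130761) (nat_lit 55) (nat_lit 5) (nat_lit 59) (nat_lit 5) (nat_lit 56) (nat_lit 5) (nat_lit 358) (nat_lit 275) (nat_lit 147))) (XT.nd (nat_lit 34164) (nat_lit 0) (nat_lit 35340) (XT.lf (nat_lit 0) (nat_lit 10344188326) (nat_lit 228) (nat_lit 6537521201) (nat_lit 304) (nat_lit 13963071284) (nat_lit 52) (nat_lit 5) (nat_lit 55) (nat_lit 5) (nat_lit 56) (nat_lit 5) (nat_lit 359) (nat_lit 275) (nat_lit 146)) (XT.lf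 (nat_lit 0) (nat_lit 1819307155) (nat_lit 0) (nat_lit 1819307155) (nat_lit 1140) (nat_lit 136872828) (nat_lit 517) (nat_lit 5) (nat_lit 517) (nat_lit 3) (nat_lit 532) (nat_lit 3) (nat_lit 276) (nat_lit 276) (nat_lit 228))))))) (XT.nd (nat_lit 1014) (nat_lit 10944) (nat_lit 0) (XT.nd (nat_lit 468) (nat_lit 2508) (nat_lit 0) (XT.nd (nat_lit 234) (nat_lit 1140) (nat_lit 0) (XT.nd (nat_lit 78) (nat_lit 0) (nat_lit 76) (XT.lf (nat_lit 76) (nat_lit 1307277742) (nat_lit 0) (nat_lit 454538459) (nat_lit 1292) (nat_lit 5859824340) (nat_lit 501) (nat_lit 5) (nat_lit 500) (nat_lit 3) (nat_lit 517) (nat_lit 5) (nat_lit 277) (nat_lit 276) (nat_lit 227)) (XT.nd (nat_lit 78) (nat_lit 0) (nat_lit 0) (XT.lf (nat_lit 0) (nat_lit 3820631031) (nat_lit 1216) (nat_lit 1020029682) (nat_lit 1292) (nat_lit 2854486482) (nat_lit 501) (nat_lit 5) (nat_lit 517) (nat_lit 5) (nat_lit 518) (nat_lit 5) (nat_lit 278) (nat_lit 276)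 (nat_lit 226)) (XT.lf (nat_lit 76) (nat_lit 4446820098) (nat_lit 0) (nat_lit 1449461733) (nat_lit 1292) (nat_lit 1875548308) (nat_lit 502) (nat_lit 5) (nat_lit 501) (nat_lit 5) (nat_lit 518) (nat_lit 5) (nat_lit 279) (nat_lit 276) (nat_lit 225)))) (XT.nd (nat_lit 78) (nat_lit 0) (nat_lit 0) (XT.lf (nat_lit 0) (nat_lit 140601636) (nat_lit 1292) (nat_lit 5638632030) (nat_lit 1368) (nat_lit 2072432755) (nat_lit 485) (nat_lit 5) (nat_lit 502) (nat_lit 5) (nat_lit 503) (nat_lit 5) (nat_lit 280) (nat_lit 276) (nat_lit 224)) (XT.nd (nat_lit 78) (nat_lit 0) (nat_lit 76) (XT.lf (nat_lit 0) (nat_lit 2150978795) (nat_lit 1292) (nat_lit 36154782) (nat_lit 1368) (nat_lit 5747398802) (nat_lit 485) (nat_lit 5) (nat_lit 502) (nat_lit 5) (nat_lit 503) (nat_lit 5) (nat_lit 281) (nat_lit 276) (nat_lit 223)) (XT.lf (nat_lit 0) (nat_lit 4198218719) (nat_lit 1292) (nat_lit 2262637415) (nat_lit 1368) (nat_lit 1559562219)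 (nat_lit 486) (nat_lit 5) (nat_lit 503) (nat_lit 5) (nat_lit 504) (nat_lit 5) (nat_lit 282) (nat_lit 276) (nat_lit 222))))) (XT.nd (nat_lit 234) (nat_lit 1292) (nat_lit 0) (XT.nd (nat_lit 78) (nat_lit 1292) (nat_lit 0) (XT.lf (nat_lit 76) (nat_lit 3607075794) (nat_lit 0) (nat_lit 2668921330) (nat_lit 1368) (nat_lit 1833564526) (nat_lit 487) (nat_lit 5) (nat_lit 486) (nat_lit 5) (nat_lit 504) (nat_lit 5) (nat_lit 283) (nat_lit 276) (nat_lit 221)) (XT.nd (nat_lit 78) (nat_lit 0) (nat_lit 0) (XT.lf (nat_lit 0) (nat_lit 177238615) (nat_lit 1368) (nat_lit 6753267574) (nat_lit 1444) (nat_lit 1271598797) (nat_lit 469) (nat_lit 5) (nat_lit 487) (nat_lit 5) (nat_lit 488) (nat_lit 5) (nat_lit 284) (nat_lit 276) (nat_lit 220)) (XT.lf (nat_lit 0) (nat_lit 2206079908) (nat_lit 1368) (nat_lit 730662253) (nat_lit 1444) (nat_lit 5360845941) (nat_lit 469) (nat_lit 5) (nat_lit 487) (nat_lit 5) (nat_lit 488) (nat_lit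 5) (nat_lit 285) (nat_lit 276) (nat_lit 219)))) (XT.nd (nat_lit 156) (nat_lit 1368) (nat_lit 0) (XT.nd (nat_lit 78) (nat_lit 0) (nat_lit 0) (XT.lf (nat_lit 0) (nat_lit 4275374737) (nat_lit 1368) (nat_lit 2902383958) (nat_lit 1444) (nat_lit 1218641926) (nat_lit 470) (nat_lit 5) (nat_lit 488) (nat_lit 5) (nat_lit 489) (nat_lit 5) (nat_lit 286) (nat_lit 276) (nat_lit 218)) (XT.lf (nat_lit 76) (nat_lit 3398925883) (nat_lit 0) (nat_lit 2992091543) (nat_lit 1444) (nat_lit 2107529734) (nat_lit 471) (nat_lit 5) (nat_lit 470) (nat_lit 5) (nat_lit 489) (nat_lit 5) (nat_lit 287) (nat_lit 276) (nat_lit 217))) (XT.nd (nat_lit 78) (nat_lit 1444) (nat_lit 0) (XT.lf (nat_lit 76) (nat_lit 1289835143) (nat_lit 0) (nat_lit 7256268629) (nat_lit 1444) (nat_lit 58188259) (nat_lit 472) (nat_lit 5) (nat_lit 471) (nat_lit 5) (nat_lit 490) (nat_lit 5) (nat_lit 288) (nat_lit 276) (nat_lit 216)) (XT.lf (nat_lit 0) (nat_lit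 2020790019) (nat_lit 1444) (nat_lit 849458827) (nat_lit 1520) (nat_lit 5842843166) (nat_lit 452) (nat_lit 5) (nat_lit 471) (nat_lit 5) (nat_lit 472) (nat_lit 5) (nat_lit 289) (nat_lit 276) (nat_lit 215)))))) (XT.nd (nat_lit 546) (nat_lit 4788) (nat_lit 0) (XT.nd (nat_lit 234) (nat_lit 4864) (nat_lit 0) (XT.nd (nat_lit 78) (nat_lit 1368) (nat_lit 0) (XT.lf (nat_lit 0) (nat_lit 4152356568) (nat_lit 1444) (nat_lit 2993784788) (nat_lit 1520) (nat_lit 1679236124) (nat_lit 453) (nat_lit 5) (nat_lit 472) (nat_lit 5) (nat_lit 473) (nat_lit 5) (nat_lit 290) (nat_lit 276) (nat_lit 214)) (XT.nd (nat_lit 78) (nat_lit 1368) (nat_lit 0) (XT.lf (nat_lit 76) (nat_lit 3770559615) (nat_lit 0) (nat_lit 2570310350) (nat_lit 1520) (nat_lit 2600349480) (nat_lit 454) (nat_lit 5) (nat_lit 453) (nat_lit 5) (nat_lit 473) (nat_lit 5) (nat_lit 291) (nat_lit 276) (nat_lit 213)) (XT.lf (nat_lit 0) (nat_lit 1682735302) (nat_lit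 1444) (nat_lit 6902539973) (nat_lit 1520) (nat_lit 475503200) (nat_lit 435) (nat_lit 5) (nat_lit 454) (nat_lit 5) (nat_lit 455) (nat_lit 5) (nat_lit 292) (nat_lit 276) (nat_lit 212)))) (XT.nd (nat_lit 156) (nat_lit 3268) (nat_lit 0) (XT.nd (nat_lit 78) (nat_lit 1520) (nat_lit 0) (XT.lf (nat_lit 0) (nat_lit 1688978844) (nat_lit 1520) (nat_lit 443277763) (nat_lit 76) (nat_lit 7051522352) (nat_lit 434) (nat_lit 5) (nat_lit 454) (nat_lit 5) (nat_lit 435) (nat_lit 5) (nat_lit 293) (nat_lit 276) (nat_lit 211)) (XT.lf (nat_lit 0) (nat_lit 3921651922) (nat_lit 1596) (nat_lit 2587019509) (nat_lit 76) (nat_lit 2801583835) (nat_lit 414) (nat_lit 5) (nat_lit 435) (nat_lit 5) (nat_lit 415) (nat_lit 5) (nat_lit 294) (nat_lit 276) (nat_lit 210))) (XT.nd (nat_lit 78) (nat_lit 1672) (nat_lit 0) (XT.lf (nat_lit 0) (nat_lit 4674198778) (nat_lit 1596) (nat_lit 1543528938) (nat_lit 1672) (nat_lit 3222911446) (nat_lit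 393) (nat_lit 5) (nat_lit 414) (nat_lit 5) (nat_lit 415) (nat_lit 5) (nat_lit 295) (nat_lit 276) (nat_lit 209)) (XT.lf (nat_lit 0) (nat_lit 2581073518) (nat_lit 1672) (nat_lit 6009255453) (nat_lit 1748) (nat_lit 984493275) (nat_lit 371) (nat_lit 5) (nat_lit 393) (nat_lit 5) (nat_lit 394) (nat_lit 5) (nat_lit 296) (nat_lit 276) (nat_lit 208))))) (XT.nd (nat_lit 234) (nat_lit 2584) (nat_lit 0) (XT.nd (nat_lit 78) (nat_lit 836) (nat_lit 0) (XT.lf (nat_lit 0) (nat_lit 445050136) (nat_lit 1292) (nat_lit 855296497) (nat_lit 1368) (nat_lit 8412619318) (nat_lit 353) (nat_lit 5) (nat_lit 370) (nat_lit 5) (nat_lit 371) (nat_lit 5) (nat_lit 297) (nat_lit 276) (nat_lit 207)) (XT.nd (nat_lit 78) (nat_lit 836) (nat_lit 0) (XT.lf (nat_lit 0) (nat_lit 3669108845) (nat_lit 1368) (nat_lit 1731241841) (nat_lit 76) (nat_lit 4454235539) (nat_lit 353) (nat_lit 5) (nat_lit 371) (nat_lit 5) (nat_lit 354) (nat_lit 5) (nat_lit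 298) (nat_lit 276) (nat_lit 206)) (XT.lf (nat_lit 0) (nat_lit 6062735241) (nat_lit 836) (nat_lit 44735034) (nat_lit 912) (nat_lit 3893050476) (nat_lit 342) (nat_lit 5) (nat_lit 353) (nat_lit 5) (nat_lit 354) (nat_lit 5) (nat_lit 299) (nat_lit 276) (nat_lit 205)))) (XT.nd (nat_lit 156) (nat_lit 836) (nat_lit 0) (XT.nd (nat_lit 78) (nat_lit 912) (nat_lit 0) (XT.lf (nat_lit 0) (nat_lit 3936791644) (nat_lit 836) (nat_lit 4709645349) (nat_lit 912) (nat_lit 1503882537) (nat_lit 331) (nat_lit 5) (nat_lit 342) (nat_lit 5) (nat_lit 343) (nat_lit 5) (nat_lit 300) (nat_lit 276) (nat_lit 204)) (XT.lf (nat_lit 0) (nat_lit 943758085) (nat_lit 912) (nat_lit 8538881701) (nat_lit 76) (nat_lit 821894863) (nat_lit 319) (nat_lit 5) (nat_lit 331) (nat_lit 5) (nat_lit 320) (nat_lit 5) (nat_lit 301) (nat_lit 276) (nat_lit 203))) (XT.nd (nat_lit 78) (nat_lit 836) (nat_lit 0) (XT.lf (nat_lit 0) (nat_lit 3474713040) (nat_lit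 912) (nat_lit 478127261) (nat_lit 76) (nat_lit 6509763396) (nat_lit 319) (nat_lit 5) (nat_lit 331) (nat_lit 5) (nat_lit 320) (nat_lit 5) (nat_lit 302) (nat_lit 276) (nat_lit 202)) (XT.lf (nat_lit 0) (nat_lit 6102051022) (nat_lit 912) (nat_lit 2750821585) (nat_lit 76) (nat_lit 1772164801) (nat_lit 308) (nat_lit 5) (nat_lit 320) (nat_lit 5) (nat_lit 309) (nat_lit 5) (nat_lit 303) (nat_lit 276) (nat_lit 201))))))))
noncomputable def xc79 : XT := (XT.nd (nat_lit 2106) (nat_lit 6308) (nat_lit 0) (XT.nd (nat_lit 1014) (nat_lit 5624) (nat_lit 0) (XT.nd (nat_lit 468) (nat_lit 3192) (nat_lit 0) (XT.nd (nat_lit 234) (nat_lit 1520) (nat_lit 0) (XT.nd (nat_lit 78) (nat_lit 1520) (nat_lit 0) (XT.lf (nat_lit 0) (nat_lit 5697711551) (nat_lit 760) (nat_lit 3135750854) (nat_lit 836) (nat_lit 1958407416) (nat_lit 298) (nat_lit 5) (nat_lit 308) (nat_lit 5) (nat_lit 309) (nat_lit 5) (nat_lit 304) (nat_lit 276) (nat_lit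 200)) (XT.nd (nat_lit 78) (nat_lit 684) (nat_lit 0) (XT.lf (nat_lit 0) (nat_lit 692838914) (nat_lit 836) (nat_lit 7508638981) (nat_lit 76) (nat_lit 2761796101) (nat_lit 287) (nat_lit 5) (nat_lit 298) (nat_lit 5) (nat_lit 288) (nat_lit 5) (nat_lit 305) (nat_lit 276) (nat_lit 199)) (XT.lf (nat_lit 0) (nat_lit 1129020591) (nat_lit 684) (nat_lit 2291313286) (nat_lit 760) (nat_lit 7718789573) (nat_lit 278) (nat_lit 5) (nat_lit 287) (nat_lit 5) (nat_lit 288) (nat_lit 5) (nat_lit 306) (nat_lit 276) (nat_lit 198)))) (XT.nd (nat_lit 78) (nat_lit 1520) (nat_lit 0) (XT.lf (nat_lit 0) (nat_lit 6266515073) (nat_lit 760) (nat_lit 1257719785) (nat_lit 76) (nat_lit 3795303897) (nat_lit 278) (nat_lit 5) (nat_lit 288) (nat_lit 5) (nat_lit 279) (nat_lit 5) (nat_lit 307) (nat_lit 276) (nat_lit 197)) (XT.nd (nat_lit 78) (nat_lit 760) (nat_lit 0) (XT.lf (nat_lit 0) (nat_lit 7803386337) (nat_lit 760) (nat_lit 1422815532)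 (nat_lit 836) (nat_lit 2278629035) (nat_lit 268) (nat_lit 5) (nat_lit 278) (nat_lit 5) (nat_lit 279) (nat_lit 5) (nat_lit 308) (nat_lit 276) (nat_lit 196)) (XT.lf (nat_lit 0) (nat_lit 610161741) (nat_lit 760) (nat_lit 6241923991) (nat_lit 76) (nat_lit 4842771245) (nat_lit 258) (nat_lit 5) (nat_lit 268) (nat_lit 5) (nat_lit 259) (nat_lit 5) (nat_lit 309) (nat_lit 276) (nat_lit 195))))) (XT.nd (nat_lit 234) (nat_lit 1900) (nat_lit 0) (XT.nd (nat_lit 78) (nat_lit 608) (nat_lit 0) (XT.lf (nat_lit 0) (nat_lit 3016370135) (nat_lit 684) (nat_lit 556318717) (nat_lit 760) (nat_lit 8317257895) (nat_lit 249) (nat_lit 5) (nat_lit 258) (nat_lit 5) (nat_lit 259) (nat_lit 5) (nat_lit 310) (nat_lit 276) (nat_lit 194)) (XT.nd (nat_lit 78) (nat_lit 0) (nat_lit 0) (XT.lf (nat_lit 0) (nat_lit 474418053) (nat_lit 608) (nat_lit 6198101656) (nat_lit 684) (nat_lit 5417424981) (nat_lit 241) (nat_lit 5) (nat_lit 249) (nat_lit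 5) (nat_lit 250) (nat_lit 5) (nat_lit 311) (nat_lit 276) (nat_lit 193)) (XT.lf (nat_lit 0) (nat_lit 9896088548) (nat_lit 684) (nat_lit 2116881223) (nat_lit 76) (nat_lit 282381275) (nat_lit 241) (nat_lit 5) (nat_lit 250) (nat_lit 5) (nat_lit 242) (nat_lit 5) (nat_lit 312) (nat_lit 276) (nat_lit 192)))) (XT.nd (nat_lit 156) (nat_lit 608) (nat_lit 0) (XT.nd (nat_lit 78) (nat_lit 608) (nat_lit 0) (XT.lf (nat_lit 0) (nat_lit 757896723) (nat_lit 684) (nat_lit 4824376473) (nat_lit 76) (nat_lit 6923421357) (nat_lit 232) (nat_lit 5) (nat_lit 241) (nat_lit 5) (nat_lit 233) (nat_lit 5) (nat_lit 313) (nat_lit 276) (nat_lit 191)) (XT.lf (nat_lit 0) (nat_lit 3998537563) (nat_lit 684) (nat_lit 7637397982) (nat_lit 76) (nat_lit 1085689935) (nat_lit 224) (nat_lit 5) (nat_lit 233) (nat_lit 5) (nat_lit 225) (nat_lit 5) (nat_lit 314) (nat_lit 276) (nat_lit 190))) (XT.nd (nat_lit 78) (nat_lit 0) (nat_lit 0) (XT.lf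 (nat_lit 0) (nat_lit 2366742164) (nat_lit 608) (nat_lit 5022481414) (nat_lit 684) (nat_lit 5553775177) (nat_lit 216) (nat_lit 5) (nat_lit 224) (nat_lit 5) (nat_lit 225) (nat_lit 5) (nat_lit 315) (nat_lit 276) (nat_lit 189)) (XT.lf (nat_lit 0) (nat_lit 10913222965) (nat_lit 684) (nat_lit 445863731) (nat_lit 76) (nat_lit 1811315002) (nat_lit 216) (nat_lit 5) (nat_lit 225) (nat_lit 5) (nat_lit 217) (nat_lit 5) (nat_lit 316) (nat_lit 276) (nat_lit 188)))))) (XT.nd (nat_lit 546) (nat_lit 2356) (nat_lit 0) (XT.nd (nat_lit 234) (nat_lit 1596) (nat_lit 0) (XT.nd (nat_lit 78) (nat_lit 1064) (nat_lit 0) (XT.lf (nat_lit 0) (nat_lit 1191457145) (nat_lit 608) (nat_lit 3362817069) (nat_lit 76) (nat_lit 8848862635) (nat_lit 208) (nat_lit 5) (nat_lit 216) (nat_lit 5) (nat_lit 209) (nat_lit 5) (nat_lit 317) (nat_lit 276) (nat_lit 187)) (XT.nd (nat_lit 78) (nat_lit 532) (nat_lit 0) (XT.lf (nat_lit 0) (nat_lit 4748727109)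 (nat_lit 608) (nat_lit 6412315971) (nat_lit 76) (nat_lit 2480814536) (nat_lit 201) (nat_lit 5) (nat_lit 209) (nat_lit 5) (nat_lit 202) (nat_lit 5) (nat_lit 318) (nat_lit 276) (nat_lit 186)) (XT.lf (nat_lit 0) (nat_lit 4285938526) (nat_lit 532) (nat_lit 4177859262) (nat_lit 608) (nat_lit 5422938804) (nat_lit 194) (nat_lit 5) (nat_lit 201) (nat_lit 5) (nat_lit 202) (nat_lit 5) (nat_lit 319) (nat_lit 276) (nat_lit 185)))) (XT.nd (nat_lit 156) (nat_lit 988) (nat_lit 0) (XT.nd (nat_lit 78) (nat_lit 76) (nat_lit 0) (XT.lf (nat_lit 0) (nat_lit 1212844371) (nat_lit 532) (nat_lit 11119108166) (nat_lit 608) (nat_lit 1806194467) (nat_lit 187) (nat_lit 5) (nat_lit 194) (nat_lit 5) (nat_lit 195) (nat_lit 5) (nat_lit 320) (nat_lit 276) (nat_lit 184)) (XT.lf (nat_lit 0) (nat_lit 1958164483) (nat_lit 608) (nat_lit 1992123291) (nat_lit 76) (nat_lit 10445293993) (nat_lit 186) (nat_lit 5) (nat_lit 194) (nat_lit 5)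 (nat_lit 187) (nat_lit 5) (nat_lit 321) (nat_lit 276) (nat_lit 183))) (XT.nd (nat_lit 78) (nat_lit 532) (nat_lit 0) (XT.lf (nat_lit 0) (nat_lit 5866136788) (nat_lit 532) (nat_lit 5339789381) (nat_lit 76) (nat_lit 3453486555) (nat_lit 180) (nat_lit 5) (nat_lit 187) (nat_lit 5) (nat_lit 181) (nat_lit 5) (nat_lit 322) (nat_lit 276) (nat_lit 182)) (XT.lf (nat_lit 0) (nat_lit 6083758112) (nat_lit 532) (nat_lit 3859332981) (nat_lit 608) (nat_lit 4987048545) (nat_lit 173) (nat_lit 5) (nat_lit 180) (nat_lit 5) (nat_lit 181) (nat_lit 5) (nat_lit 323) (nat_lit 276) (nat_lit 181))))) (XT.nd (nat_lit 234) (nat_lit 1368) (nat_lit 0) (XT.nd (nat_lit 78) (nat_lit 532) (nat_lit 0) (XT.lf (nat_lit 0) (nat_lit 2689262658) (nat_lit 456) (nat_lit 11503802466) (nat_lit 532) (nat_lit 1014924438) (nat_lit 167) (nat_lit 5) (nat_lit 173) (nat_lit 5) (nat_lit 174) (nat_lit 5) (nat_lit 324) (nat_lit 276) (nat_lit 180)) (XT.nd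 (nat_lit 78) (nat_lit 456) (nat_lit 0) (XT.lf (nat_lit 0) (nat_lit 3095291288) (nat_lit 532) (nat_lit 883402747) (nat_lit 76) (nat_lit 11513910654) (nat_lit 166) (nat_lit 5) (nat_lit 173) (nat_lit 5) (nat_lit 167) (nat_lit 5) (nat_lit 325) (nat_lit 276) (nat_lit 179)) (XT.lf (nat_lit 0) (nat_lit 7386723962) (nat_lit 532) (nat_lit 4603756882) (nat_lit 76) (nat_lit 3793723519) (nat_lit 160) (nat_lit 5) (nat_lit 167) (nat_lit 5) (nat_lit 161) (nat_lit 5) (nat_lit 326) (nat_lit 276) (nat_lit 178)))) (XT.nd (nat_lit 156) (nat_lit 380) (nat_lit 0) (XT.nd (nat_lit 78) (nat_lit 532) (nat_lit 0) (XT.lf (nat_lit 0) (nat_lit 7571376318) (nat_lit 456) (nat_lit 4291696275) (nat_lit 532) (nat_lit 4220369813) (nat_lit 154) (nat_lit 5) (nat_lit 160) (nat_lit 5) (nat_lit 161) (nat_lit 5) (nat_lit 327) (nat_lit 276) (nat_lit 177)) (XT.lf (nat_lit 0) (nat_lit 135695863) (nat_lit 532) (nat_lit 12617088324) (nat_lit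 76) (nat_lit 3637781563) (nat_lit 147) (nat_lit 5) (nat_lit 154) (nat_lit 5) (nat_lit 148) (nat_lit 5) (nat_lit 328) (nat_lit 276) (nat_lit 176))) (XT.nd (nat_lit 78) (nat_lit 380) (nat_lit 0) (XT.lf (nat_lit 0) (nat_lit 4627369396) (nat_lit 532) (nat_lit 253761034) (nat_lit 76) (nat_lit 11823981933) (nat_lit 147) (nat_lit 5) (nat_lit 154) (nat_lit 5) (nat_lit 148) (nat_lit 5) (nat_lit 329) (nat_lit 276) (nat_lit 175)) (XT.lf (nat_lit 0) (nat_lit 9333005692) (nat_lit 456) (nat_lit 4437299236) (nat_lit 76) (nat_lit 3257218613) (nat_lit 142) (nat_lit 5) (nat_lit 148) (nat_lit 5) (nat_lit 143) (nat_lit 5) (nat_lit 330) (nat_lit 276) (nat_lit 174))))))) (XT.nd (nat_lit 1014) (nat_lit 2508) (nat_lit 0) (XT.nd (nat_lit 468) (nat_lit 1748) (nat_lit 0) (XT.nd (nat_lit 234) (nat_lit 1140) (nat_lit 0) (XT.nd (nat_lit 78) (nat_lit 456) (nat_lit 0) (XT.lf (nat_lit 0) (nat_lit 8508702117) (nat_lit 456) (nat_lit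 5737047463) (nat_lit 532) (nat_lit 3112550758) (nat_lit 136) (nat_lit 5) (nat_lit 142) (nat_lit 5) (nat_lit 143) (nat_lit 5) (nat_lit 331) (nat_lit 276) (nat_lit 173)) (XT.nd (nat_lit 78) (nat_lit 0) (nat_lit 0) (XT.lf (nat_lit 0) (nat_lit 1636935060) (nat_lit 456) (nat_lit 13498326697) (nat_lit 76) (nat_lit 2562518812) (nat_lit 130) (nat_lit 5) (nat_lit 136) (nat_lit 5) (nat_lit 131) (nat_lit 5) (nat_lit 332) (nat_lit 276) (nat_lit 172)) (XT.lf (nat_lit 0) (nat_lit 6562622805) (nat_lit 456) (nat_lit 378016906) (nat_lit 76) (nat_lit 11104885062) (nat_lit 130) (nat_lit 5) (nat_lit 136) (nat_lit 5) (nat_lit 131) (nat_lit 5) (nat_lit 333) (nat_lit 276) (nat_lit 171)))) (XT.nd (nat_lit 78) (nat_lit 760) (nat_lit 0) (XT.lf (nat_lit 0) (nat_lit 11710234069) (nat_lit 456) (nat_lit 5134970734) (nat_lit 76) (nat_lit 1557024258) (nat_lit 125) (nat_lit 5) (nat_lit 131) (nat_lit 5) (nat_lit 126) (nat_lit 5)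 (nat_lit 334) (nat_lit 276) (nat_lit 170)) (XT.nd (nat_lit 78) (nat_lit 456) (nat_lit 0) (XT.lf (nat_lit 0) (nat_lit 8591537094) (nat_lit 304) (nat_lit 8503592120) (nat_lit 380) (nat_lit 1672858651) (nat_lit 121) (nat_lit 5) (nat_lit 125) (nat_lit 5) (nat_lit 126) (nat_lit 5) (nat_lit 335) (nat_lit 276) (nat_lit 169)) (XT.lf (nat_lit 0) (nat_lit 3489114327) (nat_lit 456) (nat_lit 15495518898) (nat_lit 76) (nat_lit 158879639) (nat_lit 115) (nat_lit 5) (nat_lit 121) (nat_lit 5) (nat_lit 116) (nat_lit 5) (nat_lit 336) (nat_lit 276) (nat_lit 168))))) (XT.nd (nat_lit 234) (nat_lit 988) (nat_lit 0) (XT.nd (nat_lit 78) (nat_lit 760) (nat_lit 0) (XT.lf (nat_lit 0) (nat_lit 8888351284) (nat_lit 456) (nat_lit 1602784064) (nat_lit 76) (nat_lit 9036854166) (nat_lit 115) (nat_lit 5) (nat_lit 121) (nat_lit 5) (nat_lit 116) (nat_lit 5) (nat_lit 337) (nat_lit 276) (nat_lit 167)) (XT.nd (nat_lit 78) (nat_lit 456)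 (nat_lit 0) (XT.lf (nat_lit 0) (nat_lit 12844297381) (nat_lit 304) (nat_lit 1668001484) (nat_lit 380) (nat_lit 5410456351) (nat_lit 111) (nat_lit 5) (nat_lit 115) (nat_lit 5) (nat_lit 116) (nat_lit 5) (nat_lit 338) (nat_lit 276) (nat_lit 166)) (XT.lf (nat_lit 0) (nat_lit 63554611) (nat_lit 456) (nat_lit 12891924312) (nat_lit 76) (nat_lit 7372144426) (nat_lit 105) (nat_lit 5) (nat_lit 111) (nat_lit 5) (nat_lit 106) (nat_lit 5) (nat_lit 339) (nat_lit 276) (nat_lit 165)))) (XT.nd (nat_lit 156) (nat_lit 684) (nat_lit 0) (XT.nd (nat_lit 78) (nat_lit 0) (nat_lit 0) (XT.lf (nat_lit 0) (nat_lit 1682389153) (nat_lit 304) (nat_lit 3996603537) (nat_lit 380) (nat_lit 15063924006) (nat_lit 101) (nat_lit 5) (nat_lit 105) (nat_lit 5) (nat_lit 106) (nat_lit 5) (nat_lit 340) (nat_lit 276) (nat_lit 164)) (XT.lf (nat_lit 0) (nat_lit 11565051281) (nat_lit 380) (nat_lit 4363419317) (nat_lit 76) (nat_lit 5240163551)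 (nat_lit 101) (nat_lit 5) (nat_lit 106) (nat_lit 5) (nat_lit 102) (nat_lit 5) (nat_lit 341) (nat_lit 276) (nat_lit 163))) (XT.nd (nat_lit 78) (nat_lit 380) (nat_lit 0) (XT.lf (nat_lit 0) (nat_lit 10860846688) (nat_lit 304) (nat_lit 6844918604) (nat_lit 380) (nat_lit 3899804564) (nat_lit 97) (nat_lit 5) (nat_lit 101) (nat_lit 5) (nat_lit 102) (nat_lit 5) (nat_lit 342) (nat_lit 276) (nat_lit 162)) (XT.lf (nat_lit 0) (nat_lit 2006364349) (nat_lit 380) (nat_lit 17507136954) (nat_lit 76) (nat_lit 2540720054) (nat_lit 92) (nat_lit 5) (nat_lit 97) (nat_lit 5) (nat_lit 93) (nat_lit 5) (nat_lit 343) (nat_lit 276) (nat_lit 161)))))) (XT.nd (nat_lit 546) (nat_lit 1368) (nat_lit 0) (XT.nd (nat_lit 234) (nat_lit 608) (nat_lit 0) (XT.nd (nat_lit 78) (nat_lit 532) (nat_lit 0) (XT.lf (nat_lit 0) (nat_lit 8137470904) (nat_lit 380) (nat_lit 2171581150) (nat_lit 76) (nat_lit 12204757666) (nat_lit 92) (nat_lit 5)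 (nat_lit 97) (nat_lit 5) (nat_lit 93) (nat_lit 5) (nat_lit 344) (nat_lit 276) (nat_lit 160)) (XT.nd (nat_lit 78) (nat_lit 228) (nat_lit 0) (XT.lf (nat_lit 0) (nat_lit 13776479912) (nat_lit 304) (nat_lit 747386289) (nat_lit 380) (nat_lit 8461899782) (nat_lit 88) (nat_lit 5) (nat_lit 92) (nat_lit 5) (nat_lit 93) (nat_lit 5) (nat_lit 345) (nat_lit 276) (nat_lit 159)) (XT.lf (nat_lit 0) (nat_lit 6762544013) (nat_lit 228) (nat_lit 14439310434) (nat_lit 304) (nat_lit 2268033614) (nat_lit 85) (nat_lit 5) (nat_lit 88) (nat_lit 5) (nat_lit 89) (nat_lit 5) (nat_lit 346) (nat_lit 276) (nat_lit 158)))) (XT.nd (nat_lit 156) (nat_lit 228) (nat_lit 0) (XT.nd (nat_lit 78) (nat_lit 304) (nat_lit 0) (XT.lf (nat_lit 0) (nat_lit 4107947575) (nat_lit 304) (nat_lit 687671552) (nat_lit 76) (nat_lit 19171383086) (nat_lit 84) (nat_lit 5) (nat_lit 88) (nat_lit 5) (nat_lit 85) (nat_lit 5) (nat_lit 347) (nat_lit 276) (nat_lit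 157)) (XT.lf (nat_lit 0) (nat_lit 10765320710) (nat_lit 380) (nat_lit 8531128451) (nat_lit 76) (nat_lit 5179868874) (nat_lit 80) (nat_lit 5) (nat_lit 85) (nat_lit 5) (nat_lit 81) (nat_lit 5) (nat_lit 348) (nat_lit 276) (nat_lit 156))) (XT.nd (nat_lit 78) (nat_lit 0) (nat_lit 0) (XT.lf (nat_lit 0) (nat_lit 8133304818) (nat_lit 228) (nat_lit 9561858885) (nat_lit 304) (nat_lit 7304301071) (nat_lit 77) (nat_lit 5) (nat_lit 80) (nat_lit 5) (nat_lit 81) (nat_lit 5) (nat_lit 349) (nat_lit 276) (nat_lit 155)) (XT.lf (nat_lit 0) (nat_lit 24877546196) (nat_lit 304) (nat_lit 152831964) (nat_lit 76) (nat_lit 507041095) (nat_lit 77) (nat_lit 5) (nat_lit 81) (nat_lit 5) (nat_lit 78) (nat_lit 5) (nat_lit 350) (nat_lit 276) (nat_lit 154))))) (XT.nd (nat_lit 234) (nat_lit 760) (nat_lit 0) (XT.nd (nat_lit 78) (nat_lit 228) (nat_lit 0) (XT.lf (nat_lit 0) (nat_lit 6263354390) (nat_lit 380) (nat_lit 8931983701) (nat_lit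 76) (nat_lit 10892165820) (nat_lit 72) (nat_lit 5) (nat_lit 77) (nat_lit 5) (nat_lit 73) (nat_lit 5) (nat_lit 351) (nat_lit 276) (nat_lit 153)) (XT.nd (nat_lit 78) (nat_lit 0) (nat_lit 0) (XT.lf (nat_lit 0) (nat_lit 8411294700) (nat_lit 228) (nat_lit 5013833232) (nat_lit 304) (nat_lit 13228085407) (nat_lit 69) (nat_lit 5) (nat_lit 72) (nat_lit 5) (nat_lit 73) (nat_lit 5) (nat_lit 352) (nat_lit 276) (nat_lit 152)) (XT.lf (nat_lit 0) (nat_lit 20882560802) (nat_lit 304) (nat_lit 899067908) (nat_lit 76) (nat_lit 5452654803) (nat_lit 69) (nat_lit 5) (nat_lit 73) (nat_lit 5) (nat_lit 70) (nat_lit 5) (nat_lit 353) (nat_lit 276) (nat_lit 151)))) (XT.nd (nat_lit 156) (nat_lit 228) (nat_lit 0) (XT.nd (nat_lit 78) (nat_lit 228) (nat_lit 0) (XT.lf (nat_lit 0) (nat_lit 851748858) (nat_lit 304) (nat_lit 10705434480) (nat_lit 76) (nat_lit 16272904772) (nat_lit 65) (nat_lit 5) (nat_lit 69) (nat_lit 5) (nat_lit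 66) (nat_lit 5) (nat_lit 354) (nat_lit 276) (nat_lit 150)) (XT.lf (nat_lit 0) (nat_lit 7286151462) (nat_lit 228) (nat_lit 937789576) (nat_lit 304) (nat_lit 20218213042) (nat_lit 62) (nat_lit 5) (nat_lit 65) (nat_lit 5) (nat_lit 66) (nat_lit 5) (nat_lit 355) (nat_lit 276) (nat_lit 149))) (XT.nd (nat_lit 78) (nat_lit 228) (nat_lit 0) (XT.lf (nat_lit 0) (nat_lit 15940449385) (nat_lit 304) (nat_lit 3196994140) (nat_lit 76) (nat_lit 9932680507) (nat_lit 62) (nat_lit 5) (nat_lit 66) (nat_lit 5) (nat_lit 63) (nat_lit 5) (nat_lit 356) (nat_lit 276) (nat_lit 148)) (XT.lf (nat_lit 0) (nat_lit 15473688944) (nat_lit 228) (nat_lit 8507130746) (nat_lit 304) (nat_lit 5734270925) (nat_lit 59) (nat_lit 5) (nat_lit 62) (nat_lit 5) (nat_lit 63) (nat_lit 5) (nat_lit 357) (nat_lit 276) (nat_lit 147))))))))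
noncomputable def xc80 : XT := (XT.nd (nat_lit 36192) (nat_lit 0) (nat_lit 7980) (XT.nd (nat_lit 35178) (nat_lit 0) (nat_lit 21812) (XT.nd (nat_lit 34632) (nat_lit 0) (nat_lit 31388) (XT.nd (nat_lit 34398) (nat_lit 0) (nat_lit 32604) (XT.nd (nat_lit 78) (nat_lit 0) (nat_lit 0) (XT.lf (nat_lit 0) (nat_lit 1910622768) (nat_lit 304) (nat_lit 26003726061) (nat_lit 76) (nat_lit 2463771011) (nat_lit 55) (nat_lit 5) (nat_lit 59) (nat_lit 5) (nat_lit 56) (nat_lit 5) (nat_lit 358) (nat_lit 276) (nat_lit 146)) (XT.nd (nat_lit 34242) (nat_lit 0) (nat_lit 33820) (XT.lf (nat_lit 0) (nat_lit 9847436929) (nat_lit 304) (nat_lit 7434798898) (nat_lit 76) (nat_lit 13775240943) (nat_lit 55) (nat_lit 5) (nat_lit 59) (nat_lit 5) (nat_lit 56) (nat_lit 5) (nat_lit 359) (nat_lit 276) (nat_lit 145)) (XT.lf (nat_lit 0) (nat_lit 1868916286) (nat_lit 1292) (nat_lit 988898647) (nat_lit 1292) (nat_lit 988898647) (nat_lit 500)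 (nat_lit 3) (nat_lit 517) (nat_lit 3) (nat_lit 517) (nat_lit 5) (nat_lit 277) (nat_lit 277) (nat_lit 226)))) (XT.nd (nat_lit 78) (nat_lit 1216) (nat_lit 0) (XT.lf (nat_lit 76) (nat_lit 3363338406) (nat_lit 0) (nat_lit 2363546056) (nat_lit 1292) (nat_lit 2041480336) (nat_lit 501) (nat_lit 5) (nat_lit 500) (nat_lit 3) (nat_lit 517) (nat_lit 5) (nat_lit 278) (nat_lit 277) (nat_lit 225)) (XT.nd (nat_lit 78) (nat_lit 1292) (nat_lit 0) (XT.lf (nat_lit 76) (nat_lit 1012230743) (nat_lit 0) (nat_lit 6715909511) (nat_lit 1292) (nat_lit 118430072) (nat_lit 502) (nat_lit 5) (nat_lit 501) (nat_lit 5) (nat_lit 518) (nat_lit 5) (nat_lit 279) (nat_lit 277) (nat_lit 224)) (XT.lf (nat_lit 0) (nat_lit 1810505031) (nat_lit 1292) (nat_lit 1343085957) (nat_lit 1368) (nat_lit 4773903862) (nat_lit 484) (nat_lit 5) (nat_lit 501) (nat_lit 5) (nat_lit 502) (nat_lit 5) (nat_lit 280) (nat_lit 277) (nat_lit 223))))) (XT.nd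 (nat_lit 234) (nat_lit 1292) (nat_lit 0) (XT.nd (nat_lit 78) (nat_lit 0) (nat_lit 0) (XT.lf (nat_lit 0) (nat_lit 3756458136) (nat_lit 1292) (nat_lit 3686187561) (nat_lit 1368) (nat_lit 569035645) (nat_lit 485) (nat_lit 5) (nat_lit 502) (nat_lit 5) (nat_lit 503) (nat_lit 5) (nat_lit 281) (nat_lit 277) (nat_lit 222)) (XT.nd (nat_lit 78) (nat_lit 0) (nat_lit 76) (XT.lf (nat_lit 76) (nat_lit 2049448616) (nat_lit 0) (nat_lit 3685811020) (nat_lit 1368) (nat_lit 2363707567) (nat_lit 486) (nat_lit 5) (nat_lit 485) (nat_lit 5) (nat_lit 503) (nat_lit 5) (nat_lit 282) (nat_lit 277) (nat_lit 221)) (XT.lf (nat_lit 0) (nat_lit 7732605763) (nat_lit 1292) (nat_lit 223631335) (nat_lit 1368) (nat_lit 233512258) (nat_lit 486) (nat_lit 5) (nat_lit 503) (nat_lit 5) (nat_lit 504) (nat_lit 5) (nat_lit 283) (nat_lit 277) (nat_lit 220)))) (XT.nd (nat_lit 156) (nat_lit 0) (nat_lit 76) (XT.nd (nat_lit 78) (nat_lit 0) (nat_lit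 76) (XT.lf (nat_lit 0) (nat_lit 1483806940) (nat_lit 1368) (nat_lit 2505144294) (nat_lit 1444) (nat_lit 4294227495) (nat_lit 468) (nat_lit 5) (nat_lit 486) (nat_lit 5) (nat_lit 487) (nat_lit 5) (nat_lit 284) (nat_lit 277) (nat_lit 219)) (XT.lf (nat_lit 0) (nat_lit 3438556503) (nat_lit 1368) (nat_lit 4794311167) (nat_lit 1444) (nat_lit 147303929) (nat_lit 469) (nat_lit 5) (nat_lit 487) (nat_lit 5) (nat_lit 488) (nat_lit 5) (nat_lit 285) (nat_lit 277) (nat_lit 218))) (XT.nd (nat_lit 78) (nat_lit 0) (nat_lit 76) (XT.lf (nat_lit 76) (nat_lit 1363902240) (nat_lit 0) (nat_lit 4078381179) (nat_lit 1444) (nat_lit 3038039163) (nat_lit 470) (nat_lit 5) (nat_lit 469) (nat_lit 5) (nat_lit 488) (nat_lit 5) (nat_lit 286) (nat_lit 277) (nat_lit 217)) (XT.lf (nat_lit 0) (nat_lit 7479524176) (nat_lit 1368) (nat_lit 853935634) (nat_lit 1444) (nat_lit 250603667) (nat_lit 470) (nat_lit 5) (nat_lit 488) (nat_lit 5)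 (nat_lit 489) (nat_lit 5) (nat_lit 287) (nat_lit 277) (nat_lit 216)))))) (XT.nd (nat_lit 468) (nat_lit 6916) (nat_lit 0) (XT.nd (nat_lit 234) (nat_lit 1368) (nat_lit 0) (XT.nd (nat_lit 78) (nat_lit 0) (nat_lit 76) (XT.lf (nat_lit 0) (nat_lit 880118758) (nat_lit 1444) (nat_lit 3094895385) (nat_lit 1520) (nat_lit 4715742411) (nat_lit 451) (nat_lit 5) (nat_lit 470) (nat_lit 5) (nat_lit 471) (nat_lit 5) (nat_lit 288) (nat_lit 277) (nat_lit 215)) (XT.nd (nat_lit 78) (nat_lit 0) (nat_lit 0) (XT.lf (nat_lit 0) (nat_lit 2883468689) (nat_lit 1444) (nat_lit 5357742879) (nat_lit 1520) (nat_lit 559859035) (nat_lit 452) (nat_lit 5) (nat_lit 471) (nat_lit 5) (nat_lit 472) (nat_lit 5) (nat_lit 289) (nat_lit 277) (nat_lit 214)) (XT.lf (nat_lit 76) (nat_lit 1253889367) (nat_lit 0) (nat_lit 3692574708) (nat_lit 1520) (nat_lit 3968287031) (nat_lit 453) (nat_lit 5) (nat_lit 452) (nat_lit 5) (nat_lit 472) (nat_lit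 5) (nat_lit 290) (nat_lit 277) (nat_lit 213)))) (XT.nd (nat_lit 78) (nat_lit 1520) (nat_lit 0) (XT.lf (nat_lit 0) (nat_lit 7059514313) (nat_lit 1444) (nat_lit 942772919) (nat_lit 1520) (nat_lit 1029838026) (nat_lit 453) (nat_lit 5) (nat_lit 472) (nat_lit 5) (nat_lit 473) (nat_lit 5) (nat_lit 291) (nat_lit 277) (nat_lit 212)) (XT.nd (nat_lit 78) (nat_lit 0) (nat_lit 76) (XT.lf (nat_lit 0) (nat_lit 92226682) (nat_lit 1520) (nat_lit 3163696000) (nat_lit 1596) (nat_lit 5896923896) (nat_lit 433) (nat_lit 5) (nat_lit 453) (nat_lit 5) (nat_lit 454) (nat_lit 5) (nat_lit 292) (nat_lit 277) (nat_lit 211)) (XT.lf (nat_lit 0) (nat_lit 2182506660) (nat_lit 1520) (nat_lit 5427100267) (nat_lit 76) (nat_lit 1667558890) (nat_lit 434) (nat_lit 5) (nat_lit 454) (nat_lit 5) (nat_lit 435) (nat_lit 5) (nat_lit 293) (nat_lit 277) (nat_lit 210))))) (XT.nd (nat_lit 234) (nat_lit 3876) (nat_lit 0) (XT.nd (nat_lit 78) (nat_lit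 1596) (nat_lit 0) (XT.lf (nat_lit 0) (nat_lit 1671269406) (nat_lit 1520) (nat_lit 2667435188) (nat_lit 1596) (nat_lit 5066487600) (nat_lit 414) (nat_lit 5) (nat_lit 434) (nat_lit 5) (nat_lit 435) (nat_lit 5) (nat_lit 294) (nat_lit 277) (nat_lit 209)) (XT.nd (nat_lit 78) (nat_lit 1596) (nat_lit 0) (XT.lf (nat_lit 0) (nat_lit 6562622503) (nat_lit 1596) (nat_lit 537336026) (nat_lit 76) (nat_lit 2437080687) (nat_lit 414) (nat_lit 5) (nat_lit 435) (nat_lit 5) (nat_lit 415) (nat_lit 5) (nat_lit 295) (nat_lit 277) (nat_lit 208)) (XT.lf (nat_lit 0) (nat_lit 6907205991) (nat_lit 1596) (nat_lit 1960467516) (nat_lit 1672) (nat_lit 804919183) (nat_lit 393) (nat_lit 5) (nat_lit 414) (nat_lit 5) (nat_lit 415) (nat_lit 5) (nat_lit 296) (nat_lit 277) (nat_lit 207)))) (XT.nd (nat_lit 156) (nat_lit 836) (nat_lit 0) (XT.nd (nat_lit 78) (nat_lit 1292) (nat_lit 0) (XT.lf (nat_lit 0) (nat_lit 1420136837) (nat_lit 1748)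 (nat_lit 5051274612) (nat_lit 76) (nat_lit 3340468655) (nat_lit 370) (nat_lit 5) (nat_lit 393) (nat_lit 5) (nat_lit 371) (nat_lit 5) (nat_lit 297) (nat_lit 277) (nat_lit 206)) (XT.lf (nat_lit 0) (nat_lit 2569292996) (nat_lit 1292) (nat_lit 1134124442) (nat_lit 1368) (nat_lit 6251810489) (nat_lit 353) (nat_lit 5) (nat_lit 370) (nat_lit 5) (nat_lit 371) (nat_lit 5) (nat_lit 298) (nat_lit 277) (nat_lit 205))) (XT.nd (nat_lit 78) (nat_lit 0) (nat_lit 0) (XT.lf (nat_lit 0) (nat_lit 319715091) (nat_lit 836) (nat_lit 5755151233) (nat_lit 912) (nat_lit 4027651771) (nat_lit 342) (nat_lit 5) (nat_lit 353) (nat_lit 5) (nat_lit 354) (nat_lit 5) (nat_lit 299) (nat_lit 277) (nat_lit 204)) (XT.lf (nat_lit 0) (nat_lit 8309269435) (nat_lit 836) (nat_lit 221634323) (nat_lit 912) (nat_lit 1723088590) (nat_lit 342) (nat_lit 5) (nat_lit 353) (nat_lit 5) (nat_lit 354) (nat_lit 5) (nat_lit 300) (nat_lit 277) (nat_lit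 203))))))) (XT.nd (nat_lit 1014) (nat_lit 6156) (nat_lit 0) (XT.nd (nat_lit 468) (nat_lit 3496) (nat_lit 0) (XT.nd (nat_lit 234) (nat_lit 1596) (nat_lit 0) (XT.nd (nat_lit 78) (nat_lit 1672) (nat_lit 0) (XT.lf (nat_lit 0) (nat_lit 674815236) (nat_lit 912) (nat_lit 4280871357) (nat_lit 76) (nat_lit 5453617645) (nat_lit 330) (nat_lit 5) (nat_lit 342) (nat_lit 5) (nat_lit 331) (nat_lit 5) (nat_lit 301) (nat_lit 277) (nat_lit 202)) (XT.nd (nat_lit 78) (nat_lit 836) (nat_lit 0) (XT.lf (nat_lit 0) (nat_lit 3124354572) (nat_lit 912) (nat_lit 6675088973) (nat_lit 76) (nat_lit 769573660) (nat_lit 319) (nat_lit 5) (nat_lit 331) (nat_lit 5) (nat_lit 320) (nat_lit 5) (nat_lit 302) (nat_lit 277) (nat_lit 201)) (XT.lf (nat_lit 0) (nat_lit 1586549598) (nat_lit 836) (nat_lit 4092301633) (nat_lit 912) (nat_lit 5054071662) (nat_lit 308) (nat_lit 5) (nat_lit 319) (nat_lit 5) (nat_lit 320) (nat_lit 5) (nat_lit 303)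 (nat_lit 277) (nat_lit 200)))) (XT.nd (nat_lit 78) (nat_lit 1596) (nat_lit 0) (XT.lf (nat_lit 0) (nat_lit 8326882123) (nat_lit 912) (nat_lit 766061613) (nat_lit 76) (nat_lit 1808493890) (nat_lit 308) (nat_lit 5) (nat_lit 320) (nat_lit 5) (nat_lit 309) (nat_lit 5) (nat_lit 304) (nat_lit 277) (nat_lit 199)) (XT.nd (nat_lit 78) (nat_lit 760) (nat_lit 0) (XT.lf (nat_lit 0) (nat_lit 19468089) (nat_lit 836) (nat_lit 3171984244) (nat_lit 76) (nat_lit 7882789550) (nat_lit 297) (nat_lit 5) (nat_lit 308) (nat_lit 5) (nat_lit 298) (nat_lit 5) (nat_lit 305) (nat_lit 277) (nat_lit 198)) (XT.lf (nat_lit 0) (nat_lit 2678831034) (nat_lit 836) (nat_lit 5665164945) (nat_lit 76) (nat_lit 2907471591) (nat_lit 287) (nat_lit 5) (nat_lit 298) (nat_lit 5) (nat_lit 288) (nat_lit 5) (nat_lit 306) (nat_lit 277) (nat_lit 197))))) (XT.nd (nat_lit 234) (nat_lit 2052) (nat_lit 0) (XT.nd (nat_lit 78) (nat_lit 760) (nat_lit 0)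 (XT.lf (nat_lit 0) (nat_lit 3198061676) (nat_lit 684) (nat_lit 2246063809) (nat_lit 760) (nat_lit 5989388322) (nat_lit 278) (nat_lit 5) (nat_lit 287) (nat_lit 5) (nat_lit 288) (nat_lit 5) (nat_lit 307) (nat_lit 277) (nat_lit 196)) (XT.nd (nat_lit 78) (nat_lit 0) (nat_lit 0) (XT.lf (nat_lit 0) (nat_lit 727894823) (nat_lit 760) (nat_lit 7597285059) (nat_lit 836) (nat_lit 3295211536) (nat_lit 268) (nat_lit 5) (nat_lit 278) (nat_lit 5) (nat_lit 279) (nat_lit 5) (nat_lit 308) (nat_lit 277) (nat_lit 195)) (XT.lf (nat_lit 0) (nat_lit 10018616150) (nat_lit 760) (nat_lit 1308830090) (nat_lit 836) (nat_lit 484758763) (nat_lit 268) (nat_lit 5) (nat_lit 278) (nat_lit 5) (nat_lit 279) (nat_lit 5) (nat_lit 309) (nat_lit 277) (nat_lit 194)))) (XT.nd (nat_lit 156) (nat_lit 608) (nat_lit 0) (XT.nd (nat_lit 78) (nat_lit 684) (nat_lit 0) (XT.lf (nat_lit 0) (nat_lit 2426712293) (nat_lit 760) (nat_lit 4418919928) (nat_lit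 76) (nat_lit 5162885618) (nat_lit 258) (nat_lit 5) (nat_lit 268) (nat_lit 5) (nat_lit 259) (nat_lit 5) (nat_lit 310) (nat_lit 277) (nat_lit 193)) (XT.lf (nat_lit 0) (nat_lit 5084508913) (nat_lit 684) (nat_lit 354070416) (nat_lit 760) (nat_lit 6771707223) (nat_lit 249) (nat_lit 5) (nat_lit 258) (nat_lit 5) (nat_lit 259) (nat_lit 5) (nat_lit 311) (nat_lit 277) (nat_lit 192))) (XT.nd (nat_lit 78) (nat_lit 0) (nat_lit 0) (XT.lf (nat_lit 0) (nat_lit 2468583579) (nat_lit 608) (nat_lit 6125832101) (nat_lit 684) (nat_lit 3822643040) (nat_lit 241) (nat_lit 5) (nat_lit 249) (nat_lit 5) (nat_lit 250) (nat_lit 5) (nat_lit 312) (nat_lit 277) (nat_lit 191)) (XT.lf (nat_lit 0) (nat_lit 11866172046) (nat_lit 684) (nat_lit 225202409) (nat_lit 76) (nat_lit 538256694) (nat_lit 241) (nat_lit 5) (nat_lit 250) (nat_lit 5) (nat_lit 242) (nat_lit 5) (nat_lit 313) (nat_lit 277) (nat_lit 190)))))) (XT.nd (nat_lit 546) (nat_lit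 2584) (nat_lit 0) (XT.nd (nat_lit 234) (nat_lit 1672) (nat_lit 0) (XT.nd (nat_lit 78) (nat_lit 1216) (nat_lit 0) (XT.lf (nat_lit 0) (nat_lit 2429499312) (nat_lit 684) (nat_lit 3022667875) (nat_lit 76) (nat_lit 7394658247) (nat_lit 232) (nat_lit 5) (nat_lit 241) (nat_lit 5) (nat_lit 233) (nat_lit 5) (nat_lit 314) (nat_lit 277) (nat_lit 189)) (XT.nd (nat_lit 78) (nat_lit 608) (nat_lit 0) (XT.lf (nat_lit 0) (nat_lit 5733724823) (nat_lit 684) (nat_lit 5920319663) (nat_lit 76) (nat_lit 1415893445) (nat_lit 224) (nat_lit 5) (nat_lit 233) (nat_lit 5) (nat_lit 225) (nat_lit 5) (nat_lit 315) (nat_lit 277) (nat_lit 188)) (XT.lf (nat_lit 0) (nat_lit 4352369900) (nat_lit 608) (nat_lit 4839146969) (nat_lit 684) (nat_lit 4107157874) (nat_lit 216) (nat_lit 5) (nat_lit 224) (nat_lit 5) (nat_lit 225) (nat_lit 5) (nat_lit 316) (nat_lit 277) (nat_lit 187)))) (XT.nd (nat_lit 156) (nat_lit 1064) (nat_lit 0) (XT.nd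 (nat_lit 78) (nat_lit 76) (nat_lit 0) (XT.lf (nat_lit 0) (nat_lit 1448171677) (nat_lit 532) (nat_lit 11338535120) (nat_lit 608) (nat_lit 746912741) (nat_lit 209) (nat_lit 5) (nat_lit 216) (nat_lit 5) (nat_lit 217) (nat_lit 5) (nat_lit 317) (nat_lit 277) (nat_lit 186)) (XT.lf (nat_lit 0) (nat_lit 2742081604) (nat_lit 608) (nat_lit 1584863036) (nat_lit 76) (nat_lit 9447063069) (nat_lit 208) (nat_lit 5) (nat_lit 216) (nat_lit 5) (nat_lit 209) (nat_lit 5) (nat_lit 318) (nat_lit 277) (nat_lit 185))) (XT.nd (nat_lit 78) (nat_lit 532) (nat_lit 0) (XT.lf (nat_lit 0) (nat_lit 6376321388) (nat_lit 608) (nat_lit 4728148686) (nat_lit 76) (nat_lit 2916041951) (nat_lit 201) (nat_lit 5) (nat_lit 209) (nat_lit 5) (nat_lit 202) (nat_lit 5) (nat_lit 319) (nat_lit 277) (nat_lit 184)) (XT.lf (nat_lit 0) (nat_lit 6260608867) (nat_lit 532) (nat_lit 3910965090) (nat_lit 608) (nat_lit 4101814992) (nat_lit 194) (nat_lit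 5) (nat_lit 201) (nat_lit 5) (nat_lit 202) (nat_lit 5) (nat_lit 320) (nat_lit 277) (nat_lit 183))))) (XT.nd (nat_lit 234) (nat_lit 1520) (nat_lit 0) (XT.nd (nat_lit 78) (nat_lit 532) (nat_lit 0) (XT.lf (nat_lit 0) (nat_lit 3092329775) (nat_lit 532) (nat_lit 11035537143) (nat_lit 608) (nat_lit 405058296) (nat_lit 187) (nat_lit 5) (nat_lit 194) (nat_lit 5) (nat_lit 195) (nat_lit 5) (nat_lit 321) (nat_lit 277) (nat_lit 182)) (XT.nd (nat_lit 78) (nat_lit 456) (nat_lit 0) (XT.lf (nat_lit 0) (nat_lit 3411312519) (nat_lit 608) (nat_lit 243132274) (nat_lit 76) (nat_lit 11144310079) (nat_lit 186) (nat_lit 5) (nat_lit 194) (nat_lit 5) (nat_lit 187) (nat_lit 5) (nat_lit 322) (nat_lit 277) (nat_lit 181)) (XT.lf (nat_lit 0) (nat_lit 7410151819) (nat_lit 532) (nat_lit 3695171990) (nat_lit 76) (nat_lit 3965727876) (nat_lit 180) (nat_lit 5) (nat_lit 187) (nat_lit 5) (nat_lit 181) (nat_lit 5) (nat_lit 323) (nat_lit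 277) (nat_lit 180)))) (XT.nd (nat_lit 156) (nat_lit 456) (nat_lit 0) (XT.nd (nat_lit 78) (nat_lit 532) (nat_lit 0) (XT.lf (nat_lit 0) (nat_lit 8041801012) (nat_lit 532) (nat_lit 3539296100) (nat_lit 608) (nat_lit 3769392448) (nat_lit 173) (nat_lit 5) (nat_lit 180) (nat_lit 5) (nat_lit 181) (nat_lit 5) (nat_lit 324) (nat_lit 277) (nat_lit 179)) (XT.lf (nat_lit 0) (nat_lit 292712987) (nat_lit 532) (nat_lit 11098130002) (nat_lit 76) (nat_lit 4246311108) (nat_lit 166) (nat_lit 5) (nat_lit 173) (nat_lit 5) (nat_lit 167) (nat_lit 5) (nat_lit 325) (nat_lit 277) (nat_lit 178))) (XT.nd (nat_lit 78) (nat_lit 0) (nat_lit 0) (XT.lf (nat_lit 0) (nat_lit 838344046) (nat_lit 456) (nat_lit 3641049954) (nat_lit 532) (nat_lit 11451461622) (nat_lit 160) (nat_lit 5) (nat_lit 166) (nat_lit 5) (nat_lit 167) (nat_lit 5) (nat_lit 326) (nat_lit 277) (nat_lit 177)) (XT.lf (nat_lit 0) (nat_lit 8870691712) (nat_lit 532) (nat_lit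 3009849063) (nat_lit 76) (nat_lit 4351260527) (nat_lit 160) (nat_lit 5) (nat_lit 167) (nat_lit 5) (nat_lit 161) (nat_lit 5) (nat_lit 327) (nat_lit 277) (nat_lit 176))))))))
noncomputable def xc81 : XT := (XT.nd (nat_lit 2106) (nat_lit 836) (nat_lit 0) (XT.nd (nat_lit 1014) (nat_lit 2964) (nat_lit 0) (XT.nd (nat_lit 468) (nat_lit 1900) (nat_lit 0) (XT.nd (nat_lit 234) (nat_lit 912) (nat_lit 0) (XT.nd (nat_lit 78) (nat_lit 912) (nat_lit 0) (XT.lf (nat_lit 0) (nat_lit 9502438159) (nat_lit 456) (nat_lit 3953187684) (nat_lit 532) (nat_lit 3084924603) (nat_lit 154) (nat_lit 5) (nat_lit 160) (nat_lit 5) (nat_lit 161) (nat_lit 5) (nat_lit 328) (nat_lit 277) (nat_lit 175)) (XT.nd (nat_lit 78) (nat_lit 380) (nat_lit 0) (XT.lf (nat_lit 0) (nat_lit 1363058379) (nat_lit 532) (nat_lit 11280438794) (nat_lit 76) (nat_lit 4213689589) (nat_lit 147) (nat_lit 5) (nat_lit 154) (nat_lit 5) (nat_lit 148) (nat_lit 5)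 (nat_lit 329) (nat_lit 277) (nat_lit 174)) (XT.lf (nat_lit 0) (nat_lit 1422488323) (nat_lit 380) (nat_lit 4540599679) (nat_lit 456) (nat_lit 11218628009) (nat_lit 142) (nat_lit 5) (nat_lit 147) (nat_lit 5) (nat_lit 148) (nat_lit 5) (nat_lit 330) (nat_lit 277) (nat_lit 173)))) (XT.nd (nat_lit 78) (nat_lit 912) (nat_lit 0) (XT.lf (nat_lit 0) (nat_lit 10779782440) (nat_lit 456) (nat_lit 2911440795) (nat_lit 76) (nat_lit 3823196325) (nat_lit 142) (nat_lit 5) (nat_lit 148) (nat_lit 5) (nat_lit 143) (nat_lit 5) (nat_lit 331) (nat_lit 277) (nat_lit 172)) (XT.nd (nat_lit 78) (nat_lit 456) (nat_lit 0) (XT.lf (nat_lit 0) (nat_lit 10396025660) (nat_lit 456) (nat_lit 5420495341) (nat_lit 532) (nat_lit 2039083712) (nat_lit 136) (nat_lit 5) (nat_lit 142) (nat_lit 5) (nat_lit 143) (nat_lit 5) (nat_lit 332) (nat_lit 277) (nat_lit 171)) (XT.lf (nat_lit 0) (nat_lit 2817767924) (nat_lit 456) (nat_lit 12262160365)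 (nat_lit 76) (nat_lit 3125602319) (nat_lit 130) (nat_lit 5) (nat_lit 136) (nat_lit 5) (nat_lit 131) (nat_lit 5) (nat_lit 333) (nat_lit 277) (nat_lit 170))))) (XT.nd (nat_lit 234) (nat_lit 1216) (nat_lit 0) (XT.nd (nat_lit 78) (nat_lit 304) (nat_lit 0) (XT.lf (nat_lit 0) (nat_lit 1219959204) (nat_lit 380) (nat_lit 6646225023) (nat_lit 456) (nat_lit 10698039741) (nat_lit 125) (nat_lit 5) (nat_lit 130) (nat_lit 5) (nat_lit 131) (nat_lit 5) (nat_lit 334) (nat_lit 277) (nat_lit 169)) (XT.nd (nat_lit 78) (nat_lit 304) (nat_lit 0) (XT.lf (nat_lit 0) (nat_lit 13141662155) (nat_lit 456) (nat_lit 3702681645) (nat_lit 76) (nat_lit 2087832338) (nat_lit 125) (nat_lit 5) (nat_lit 131) (nat_lit 5) (nat_lit 126) (nat_lit 5) (nat_lit 335) (nat_lit 277) (nat_lit 168)) (XT.lf (nat_lit 0) (nat_lit 10409884966) (nat_lit 304) (nat_lit 8256891815) (nat_lit 380) (nat_lit 642572543) (nat_lit 121) (nat_lit 5) (nat_lit 125)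 (nat_lit 5) (nat_lit 126) (nat_lit 5) (nat_lit 336) (nat_lit 277) (nat_lit 167)))) (XT.nd (nat_lit 156) (nat_lit 760) (nat_lit 0) (XT.nd (nat_lit 78) (nat_lit 0) (nat_lit 0) (XT.lf (nat_lit 0) (nat_lit 4642368369) (nat_lit 456) (nat_lit 14392567156) (nat_lit 76) (nat_lit 661433000) (nat_lit 115) (nat_lit 5) (nat_lit 121) (nat_lit 5) (nat_lit 116) (nat_lit 5) (nat_lit 337) (nat_lit 277) (nat_lit 166)) (XT.lf (nat_lit 0) (nat_lit 10173041252) (nat_lit 456) (nat_lit 128714859) (nat_lit 76) (nat_lit 9791248114) (nat_lit 115) (nat_lit 5) (nat_lit 121) (nat_lit 5) (nat_lit 116) (nat_lit 5) (nat_lit 338) (nat_lit 277) (nat_lit 165))) (XT.nd (nat_lit 78) (nat_lit 456) (nat_lit 0) (XT.lf (nat_lit 0) (nat_lit 14727083910) (nat_lit 304) (nat_lit 1218694204) (nat_lit 380) (nat_lit 4554246885) (nat_lit 111) (nat_lit 5) (nat_lit 115) (nat_lit 5) (nat_lit 116) (nat_lit 5) (nat_lit 339) (nat_lit 277) (nat_lit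 164)) (XT.lf (nat_lit 0) (nat_lit 1054256645) (nat_lit 456) (nat_lit 11775057170) (nat_lit 76) (nat_lit 8087933365) (nat_lit 105) (nat_lit 5) (nat_lit 111) (nat_lit 5) (nat_lit 106) (nat_lit 5) (nat_lit 340) (nat_lit 277) (nat_lit 163)))))) (XT.nd (nat_lit 546) (nat_lit 1444) (nat_lit 0) (XT.nd (nat_lit 234) (nat_lit 912) (nat_lit 0) (XT.nd (nat_lit 78) (nat_lit 304) (nat_lit 0) (XT.lf (nat_lit 0) (nat_lit 3212091172) (nat_lit 304) (nat_lit 3606870973) (nat_lit 380) (nat_lit 14526433591) (nat_lit 101) (nat_lit 5) (nat_lit 105) (nat_lit 5) (nat_lit 106) (nat_lit 5) (nat_lit 341) (nat_lit 277) (nat_lit 162)) (XT.nd (nat_lit 78) (nat_lit 304) (nat_lit 0) (XT.lf (nat_lit 0) (nat_lit 12856574213) (nat_lit 380) (nat_lit 3042156902) (nat_lit 76) (nat_lit 5885666294) (nat_lit 101) (nat_lit 5) (nat_lit 106) (nat_lit 5) (nat_lit 102) (nat_lit 5) (nat_lit 342) (nat_lit 277) (nat_lit 161)) (XT.lf (nat_lit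 0) (nat_lit 12615277432) (nat_lit 304) (nat_lit 6547995878) (nat_lit 380) (nat_lit 3071544381) (nat_lit 97) (nat_lit 5) (nat_lit 101) (nat_lit 5) (nat_lit 102) (nat_lit 5) (nat_lit 343) (nat_lit 277) (nat_lit 160)))) (XT.nd (nat_lit 156) (nat_lit 532) (nat_lit 0) (XT.nd (nat_lit 78) (nat_lit 0) (nat_lit 0) (XT.lf (nat_lit 0) (nat_lit 2984714956) (nat_lit 380) (nat_lit 16598943478) (nat_lit 76) (nat_lit 3113452716) (nat_lit 92) (nat_lit 5) (nat_lit 97) (nat_lit 5) (nat_lit 93) (nat_lit 5) (nat_lit 344) (nat_lit 277) (nat_lit 159)) (XT.lf (nat_lit 0) (nat_lit 9273012193) (nat_lit 380) (nat_lit 845070735) (nat_lit 76) (nat_lit 13052949969) (nat_lit 92) (nat_lit 5) (nat_lit 97) (nat_lit 5) (nat_lit 93) (nat_lit 5) (nat_lit 345) (nat_lit 277) (nat_lit 158))) (XT.nd (nat_lit 78) (nat_lit 228) (nat_lit 0) (XT.lf (nat_lit 0) (nat_lit 15558854163) (nat_lit 304) (nat_lit 275070554) (nat_lit 380) (nat_lit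 7823575191) (nat_lit 88) (nat_lit 5) (nat_lit 92) (nat_lit 5) (nat_lit 93) (nat_lit 5) (nat_lit 346) (nat_lit 277) (nat_lit 157)) (XT.lf (nat_lit 0) (nat_lit 8326678081) (nat_lit 228) (nat_lit 14372065034) (nat_lit 304) (nat_lit 1457682981) (nat_lit 85) (nat_lit 5) (nat_lit 88) (nat_lit 5) (nat_lit 89) (nat_lit 5) (nat_lit 347) (nat_lit 277) (nat_lit 156))))) (XT.nd (nat_lit 234) (nat_lit 836) (nat_lit 0) (XT.nd (nat_lit 78) (nat_lit 228) (nat_lit 0) (XT.lf (nat_lit 0) (nat_lit 633121466) (nat_lit 304) (nat_lit 4443797877) (nat_lit 380) (nat_lit 19591852793) (nat_lit 80) (nat_lit 5) (nat_lit 84) (nat_lit 5) (nat_lit 85) (nat_lit 5) (nat_lit 348) (nat_lit 277) (nat_lit 155)) (XT.nd (nat_lit 78) (nat_lit 228) (nat_lit 0) (XT.lf (nat_lit 0) (nat_lit 11917059388) (nat_lit 380) (nat_lit 7461897008) (nat_lit 76) (nat_lit 5814759603) (nat_lit 80) (nat_lit 5) (nat_lit 85) (nat_lit 5) (nat_lit 81) (nat_lit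 5) (nat_lit 349) (nat_lit 277) (nat_lit 154)) (XT.lf (nat_lit 0) (nat_lit 9680970027) (nat_lit 228) (nat_lit 9358152713) (nat_lit 304) (nat_lit 6693757102) (nat_lit 77) (nat_lit 5) (nat_lit 80) (nat_lit 5) (nat_lit 81) (nat_lit 5) (nat_lit 350) (nat_lit 277) (nat_lit 153)))) (XT.nd (nat_lit 156) (nat_lit 456) (nat_lit 0) (XT.nd (nat_lit 78) (nat_lit 0) (nat_lit 0) (XT.lf (nat_lit 0) (nat_lit 134726529) (nat_lit 380) (nat_lit 25151959119) (nat_lit 76) (nat_lit 1000542790) (nat_lit 72) (nat_lit 5) (nat_lit 77) (nat_lit 5) (nat_lit 73) (nat_lit 5) (nat_lit 351) (nat_lit 277) (nat_lit 152)) (XT.lf (nat_lit 0) (nat_lit 7234288316) (nat_lit 380) (nat_lit 7931309604) (nat_lit 76) (nat_lit 11688586932) (nat_lit 72) (nat_lit 5) (nat_lit 77) (nat_lit 5) (nat_lit 73) (nat_lit 5) (nat_lit 352) (nat_lit 277) (nat_lit 151))) (XT.nd (nat_lit 78) (nat_lit 228) (nat_lit 0) (XT.lf (nat_lit 0) (nat_lit 9911685077)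 (nat_lit 228) (nat_lit 4684526371) (nat_lit 304) (nat_lit 12840956444) (nat_lit 69) (nat_lit 5) (nat_lit 72) (nat_lit 5) (nat_lit 73) (nat_lit 5) (nat_lit 353) (nat_lit 277) (nat_lit 150)) (XT.lf (nat_lit 0) (nat_lit 301780789) (nat_lit 228) (nat_lit 21958191295) (nat_lit 304) (nat_lit 5776054009) (nat_lit 66) (nat_lit 5) (nat_lit 69) (nat_lit 5) (nat_lit 70) (nat_lit 5) (nat_lit 354) (nat_lit 277) (nat_lit 149))))))) (XT.nd (nat_lit 35256) (nat_lit 0) (nat_lit 22648) (XT.nd (nat_lit 34710) (nat_lit 0) (nat_lit 31312) (XT.nd (nat_lit 234) (nat_lit 532) (nat_lit 0) (XT.nd (nat_lit 78) (nat_lit 228) (nat_lit 0) (XT.lf (nat_lit 0) (nat_lit 1617402276) (nat_lit 304) (nat_lit 9812500491) (nat_lit 76) (nat_lit 17220031601) (nat_lit 65) (nat_lit 5) (nat_lit 69) (nat_lit 5) (nat_lit 66) (nat_lit 5) (nat_lit 355) (nat_lit 277) (nat_lit 148)) (XT.nd (nat_lit 78) (nat_lit 0) (nat_lit 0) (XT.lf (nat_lit 0)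 (nat_lit 8699135748) (nat_lit 228) (nat_lit 497822970) (nat_lit 304) (nat_lit 20083687038) (nat_lit 62) (nat_lit 5) (nat_lit 65) (nat_lit 5) (nat_lit 66) (nat_lit 5) (nat_lit 356) (nat_lit 277) (nat_lit 147)) (XT.lf (nat_lit 0) (nat_lit 17126758660) (nat_lit 304) (nat_lit 2121900595) (nat_lit 76) (nat_lit 10679166818) (nat_lit 62) (nat_lit 5) (nat_lit 66) (nat_lit 5) (nat_lit 63) (nat_lit 5) (nat_lit 357) (nat_lit 277) (nat_lit 146)))) (XT.nd (nat_lit 78) (nat_lit 304) (nat_lit 0) (XT.lf (nat_lit 0) (nat_lit 17089904843) (nat_lit 228) (nat_lit 8305290663) (nat_lit 304) (nat_lit 5197216022) (nat_lit 59) (nat_lit 5) (nat_lit 62) (nat_lit 5) (nat_lit 63) (nat_lit 5) (nat_lit 358) (nat_lit 277) (nat_lit 145)) (XT.nd (nat_lit 34320) (nat_lit 0) (nat_lit 33820) (XT.lf (nat_lit 0) (nat_lit 2657721586) (nat_lit 304) (nat_lit 25630150964) (nat_lit 76) (nat_lit 2987573713) (nat_lit 55) (nat_lit 5) (nat_lit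 59) (nat_lit 5) (nat_lit 56) (nat_lit 5) (nat_lit 359) (nat_lit 277) (nat_lit 144)) (XT.lf (nat_lit 0) (nat_lit 3817760034) (nat_lit 1292) (nat_lit 52356344) (nat_lit 1292) (nat_lit 52356344) (nat_lit 500) (nat_lit 3) (nat_lit 517) (nat_lit 3) (nat_lit 517) (nat_lit 5) (nat_lit 278) (nat_lit 278) (nat_lit 224))))) (XT.nd (nat_lit 234) (nat_lit 1216) (nat_lit 0) (XT.nd (nat_lit 78) (nat_lit 0) (nat_lit 0) (XT.lf (nat_lit 0) (nat_lit 1640334897) (nat_lit 1292) (nat_lit 2569679398) (nat_lit 1368) (nat_lit 3713963481) (nat_lit 483) (nat_lit 5) (nat_lit 500) (nat_lit 3) (nat_lit 501) (nat_lit 5) (nat_lit 279) (nat_lit 278) (nat_lit 223)) (XT.nd (nat_lit 78) (nat_lit 0) (nat_lit 76) (XT.lf (nat_lit 76) (nat_lit 2973361814) (nat_lit 0) (nat_lit 518342493) (nat_lit 1368) (nat_lit 4514734916) (nat_lit 484) (nat_lit 5) (nat_lit 483) (nat_lit 5) (nat_lit 501) (nat_lit 5) (nat_lit 280) (nat_lit 278) (nat_lit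 222)) (XT.lf (nat_lit 76) (nat_lit 574511419) (nat_lit 0) (nat_lit 4797652494) (nat_lit 1368) (nat_lit 2719802789) (nat_lit 485) (nat_lit 5) (nat_lit 484) (nat_lit 5) (nat_lit 502) (nat_lit 5) (nat_lit 281) (nat_lit 278) (nat_lit 221)))) (XT.nd (nat_lit 156) (nat_lit 0) (nat_lit 0) (XT.nd (nat_lit 78) (nat_lit 1292) (nat_lit 0) (XT.lf (nat_lit 76) (nat_lit 6377904620) (nat_lit 0) (nat_lit 901415475) (nat_lit 1368) (nat_lit 901395587) (nat_lit 485) (nat_lit 5) (nat_lit 484) (nat_lit 5) (nat_lit 502) (nat_lit 5) (nat_lit 282) (nat_lit 278) (nat_lit 220)) (XT.lf (nat_lit 0) (nat_lit 940201459) (nat_lit 1368) (nat_lit 4200438825) (nat_lit 1444) (nat_lit 3131791464) (nat_lit 467) (nat_lit 5) (nat_lit 485) (nat_lit 5) (nat_lit 486) (nat_lit 5) (nat_lit 283) (nat_lit 278) (nat_lit 219))) (XT.nd (nat_lit 78) (nat_lit 0) (nat_lit 76) (XT.lf (nat_lit 76) (nat_lit 1753381474) (nat_lit 0) (nat_lit 1037251360)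 (nat_lit 1444) (nat_lit 5576887316) (nat_lit 468) (nat_lit 5) (nat_lit 467) (nat_lit 5) (nat_lit 486) (nat_lit 5) (nat_lit 284) (nat_lit 278) (nat_lit 218)) (XT.lf (nat_lit 0) (nat_lit 4683764119) (nat_lit 1368) (nat_lit 581849873) (nat_lit 1444) (nat_lit 3200158500) (nat_lit 468) (nat_lit 5) (nat_lit 486) (nat_lit 5) (nat_lit 487) (nat_lit 5) (nat_lit 285) (nat_lit 278) (nat_lit 217)))))) (XT.nd (nat_lit 546) (nat_lit 6080) (nat_lit 0) (XT.nd (nat_lit 234) (nat_lit 1292) (nat_lit 0) (XT.nd (nat_lit 78) (nat_lit 1368) (nat_lit 0) (XT.lf (nat_lit 76) (nat_lit 5660480679) (nat_lit 0) (nat_lit 956535952) (nat_lit 1444) (nat_lit 1950342649) (nat_lit 469) (nat_lit 5) (nat_lit 468) (nat_lit 5) (nat_lit 487) (nat_lit 5) (nat_lit 286) (nat_lit 278) (nat_lit 216)) (XT.nd (nat_lit 78) (nat_lit 1444) (nat_lit 0) (XT.lf (nat_lit 76) (nat_lit 3409236106) (nat_lit 0) (nat_lit 5189031730) (nat_lit 1444) (nat_lit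 73977680) (nat_lit 470) (nat_lit 5) (nat_lit 469) (nat_lit 5) (nat_lit 488) (nat_lit 5) (nat_lit 287) (nat_lit 278) (nat_lit 215)) (XT.lf (nat_lit 76) (nat_lit 1131830238) (nat_lit 0) (nat_lit 678367989) (nat_lit 1520) (nat_lit 6970370187) (nat_lit 451) (nat_lit 5) (nat_lit 450) (nat_lit 5) (nat_lit 470) (nat_lit 5) (nat_lit 288) (nat_lit 278) (nat_lit 214)))) (XT.nd (nat_lit 156) (nat_lit 1368) (nat_lit 0) (XT.nd (nat_lit 78) (nat_lit 0) (nat_lit 0) (XT.lf (nat_lit 0) (nat_lit 3755428471) (nat_lit 1444) (nat_lit 1167174290) (nat_lit 1520) (nat_lit 3969465707) (nat_lit 451) (nat_lit 5) (nat_lit 470) (nat_lit 5) (nat_lit 471) (nat_lit 5) (nat_lit 289) (nat_lit 278) (nat_lit 213)) (XT.lf (nat_lit 76) (nat_lit 5538283856) (nat_lit 0) (nat_lit 206729442) (nat_lit 1520) (nat_lit 3262226807) (nat_lit 452) (nat_lit 5) (nat_lit 451) (nat_lit 5) (nat_lit 471) (nat_lit 5) (nat_lit 290) (nat_lit 278) (nat_lit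 212))) (XT.nd (nat_lit 78) (nat_lit 1444) (nat_lit 0) (XT.lf (nat_lit 76) (nat_lit 3309094404) (nat_lit 0) (nat_lit 4491774110) (nat_lit 1520) (nat_lit 1324911899) (nat_lit 453) (nat_lit 5) (nat_lit 452) (nat_lit 5) (nat_lit 472) (nat_lit 5) (nat_lit 291) (nat_lit 278) (nat_lit 211)) (XT.lf (nat_lit 0) (nat_lit 644213070) (nat_lit 1520) (nat_lit 8191716564) (nat_lit 1596) (nat_lit 412253537) (nat_lit 433) (nat_lit 5) (nat_lit 453) (nat_lit 5) (nat_lit 454) (nat_lit 5) (nat_lit 292) (nat_lit 278) (nat_lit 210))))) (XT.nd (nat_lit 234) (nat_lit 4636) (nat_lit 0) (XT.nd (nat_lit 78) (nat_lit 1444) (nat_lit 0) (XT.lf (nat_lit 0) (nat_lit 2673426392) (nat_lit 1520) (nat_lit 1237027150) (nat_lit 1596) (nat_lit 5463290768) (nat_lit 433) (nat_lit 5) (nat_lit 453) (nat_lit 5) (nat_lit 454) (nat_lit 5) (nat_lit 293) (nat_lit 278) (nat_lit 209)) (XT.nd (nat_lit 78) (nat_lit 1520) (nat_lit 0) (XT.lf (nat_lit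 0) (nat_lit 4760802632) (nat_lit 1520) (nat_lit 3545324436) (nat_lit 76) (nat_lit 1197040021) (nat_lit 434) (nat_lit 5) (nat_lit 454) (nat_lit 5) (nat_lit 435) (nat_lit 5) (nat_lit 294) (nat_lit 278) (nat_lit 208)) (XT.lf (nat_lit 0) (nat_lit 3732825303) (nat_lit 1520) (nat_lit 3188731705) (nat_lit 1596) (nat_lit 2714739758) (nat_lit 414) (nat_lit 5) (nat_lit 434) (nat_lit 5) (nat_lit 435) (nat_lit 5) (nat_lit 295) (nat_lit 278) (nat_lit 207)))) (XT.nd (nat_lit 156) (nat_lit 2964) (nat_lit 0) (XT.nd (nat_lit 78) (nat_lit 76) (nat_lit 0) (XT.lf (nat_lit 0) (nat_lit 1471015209) (nat_lit 1596) (nat_lit 7676508849) (nat_lit 1672) (nat_lit 625926685) (nat_lit 393) (nat_lit 5) (nat_lit 414) (nat_lit 5) (nat_lit 415) (nat_lit 5) (nat_lit 296) (nat_lit 278) (nat_lit 206)) (XT.lf (nat_lit 0) (nat_lit 1521046050) (nat_lit 1672) (nat_lit 837385349) (nat_lit 76) (nat_lit 7555816146) (nat_lit 392) (nat_lit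 5) (nat_lit 414) (nat_lit 5) (nat_lit 393) (nat_lit 5) (nat_lit 297) (nat_lit 278) (nat_lit 205))) (XT.nd (nat_lit 78) (nat_lit 1292) (nat_lit 0) (XT.lf (nat_lit 0) (nat_lit 3744639097) (nat_lit 1748) (nat_lit 3180282136) (nat_lit 76) (nat_lit 3133885279) (nat_lit 370) (nat_lit 5) (nat_lit 393) (nat_lit 5) (nat_lit 371) (nat_lit 5) (nat_lit 298) (nat_lit 278) (nat_lit 204)) (XT.lf (nat_lit 0) (nat_lit 4636089343) (nat_lit 1292) (nat_lit 1406784285) (nat_lit 1368) (nat_lit 4164704225) (nat_lit 353) (nat_lit 5) (nat_lit 370) (nat_lit 5) (nat_lit 371) (nat_lit 5) (nat_lit 299) (nat_lit 278) (nat_lit 203))))))))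
noncomputable def xc82 : XT := (XT.nd (nat_lit 2106) (nat_lit 7144) (nat_lit 0) (XT.nd (nat_lit 1014) (nat_lit 6308) (nat_lit 0) (XT.nd (nat_lit 468) (nat_lit 3724) (nat_lit 0) (XT.nd (nat_lit 234) (nat_lit 2432) (nat_lit 0) (XT.nd (nat_lit 78) (nat_lit 912) (nat_lit 0) (XT.lf (nat_lit 0) (nat_lit 2333823181) (nat_lit 836) (nat_lit 6098249691) (nat_lit 912) (nat_lit 1928332392) (nat_lit 342) (nat_lit 5) (nat_lit 353) (nat_lit 5) (nat_lit 354) (nat_lit 5) (nat_lit 300) (nat_lit 278) (nat_lit 202)) (XT.nd (nat_lit 78) (nat_lit 836) (nat_lit 0) (XT.lf (nat_lit 0) (nat_lit 375710161) (nat_lit 912) (nat_lit 15531512) (nat_lit 76) (nat_lit 10126448800) (nat_lit 341) (nat_lit 5) (nat_lit 353) (nat_lit 5) (nat_lit 342) (nat_lit 5) (nat_lit 301) (nat_lit 278) (nat_lit 201)) (XT.lf (nat_lit 0) (nat_lit 2772068695) (nat_lit 912) (nat_lit 2421357790) (nat_lit 76) (nat_lit 5485055722) (nat_lit 330) (nat_lit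 5) (nat_lit 342) (nat_lit 5) (nat_lit 331) (nat_lit 5) (nat_lit 302) (nat_lit 278) (nat_lit 200)))) (XT.nd (nat_lit 78) (nat_lit 1596) (nat_lit 0) (XT.lf (nat_lit 0) (nat_lit 5246819062) (nat_lit 912) (nat_lit 4877076793) (nat_lit 76) (nat_lit 720101675) (nat_lit 319) (nat_lit 5) (nat_lit 331) (nat_lit 5) (nat_lit 320) (nat_lit 5) (nat_lit 303) (nat_lit 278) (nat_lit 199)) (XT.nd (nat_lit 78) (nat_lit 760) (nat_lit 0) (XT.lf (nat_lit 0) (nat_lit 3599991462) (nat_lit 836) (nat_lit 4231633396) (nat_lit 912) (nat_lit 3182166188) (nat_lit 308) (nat_lit 5) (nat_lit 319) (nat_lit 5) (nat_lit 320) (nat_lit 5) (nat_lit 304) (nat_lit 278) (nat_lit 198)) (XT.lf (nat_lit 0) (nat_lit 1174980646) (nat_lit 760) (nat_lit 9333900338) (nat_lit 836) (nat_lit 679527406) (nat_lit 298) (nat_lit 5) (nat_lit 308) (nat_lit 5) (nat_lit 309) (nat_lit 5) (nat_lit 305) (nat_lit 278) (nat_lit 197))))) (XT.nd (nat_lit 234)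 (nat_lit 2204) (nat_lit 0) (XT.nd (nat_lit 78) (nat_lit 1444) (nat_lit 0) (XT.lf (nat_lit 0) (nat_lit 1914832334) (nat_lit 836) (nat_lit 1323603346) (nat_lit 76) (nat_lit 8128778140) (nat_lit 297) (nat_lit 5) (nat_lit 308) (nat_lit 5) (nat_lit 298) (nat_lit 5) (nat_lit 306) (nat_lit 278) (nat_lit 196)) (XT.nd (nat_lit 78) (nat_lit 684) (nat_lit 0) (XT.lf (nat_lit 0) (nat_lit 4611592000) (nat_lit 836) (nat_lit 3885140436) (nat_lit 76) (nat_lit 3053911129) (nat_lit 287) (nat_lit 5) (nat_lit 298) (nat_lit 5) (nat_lit 288) (nat_lit 5) (nat_lit 307) (nat_lit 278) (nat_lit 195)) (XT.lf (nat_lit 0) (nat_lit 5212346883) (nat_lit 684) (nat_lit 2206000276) (nat_lit 760) (nat_lit 4320672442) (nat_lit 278) (nat_lit 5) (nat_lit 287) (nat_lit 5) (nat_lit 288) (nat_lit 5) (nat_lit 308) (nat_lit 278) (nat_lit 194)))) (XT.nd (nat_lit 156) (nat_lit 684) (nat_lit 0) (XT.nd (nat_lit 78) (nat_lit 760) (nat_lit 0) (XT.lf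 (nat_lit 0) (nat_lit 2673157126) (nat_lit 760) (nat_lit 7673096904) (nat_lit 836) (nat_lit 1586078423) (nat_lit 268) (nat_lit 5) (nat_lit 278) (nat_lit 5) (nat_lit 279) (nat_lit 5) (nat_lit 309) (nat_lit 278) (nat_lit 193)) (XT.lf (nat_lit 0) (nat_lit 48085144) (nat_lit 684) (nat_lit 1191782067) (nat_lit 760) (nat_lit 10890931971) (nat_lit 258) (nat_lit 5) (nat_lit 267) (nat_lit 5) (nat_lit 268) (nat_lit 5) (nat_lit 310) (nat_lit 278) (nat_lit 192))) (XT.nd (nat_lit 78) (nat_lit 684) (nat_lit 0) (XT.lf (nat_lit 0) (nat_lit 4194532701) (nat_lit 760) (nat_lit 2656622993) (nat_lit 76) (nat_lit 5482567394) (nat_lit 258) (nat_lit 5) (nat_lit 268) (nat_lit 5) (nat_lit 259) (nat_lit 5) (nat_lit 311) (nat_lit 278) (nat_lit 191)) (XT.lf (nat_lit 0) (nat_lit 7101166787) (nat_lit 684) (nat_lit 158322596) (nat_lit 760) (nat_lit 5282834301) (nat_lit 249) (nat_lit 5) (nat_lit 258) (nat_lit 5) (nat_lit 259) (nat_lit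 5) (nat_lit 312) (nat_lit 278) (nat_lit 190)))))) (XT.nd (nat_lit 546) (nat_lit 2660) (nat_lit 0) (XT.nd (nat_lit 234) (nat_lit 2356) (nat_lit 0) (XT.nd (nat_lit 78) (nat_lit 684) (nat_lit 0) (XT.lf (nat_lit 0) (nat_lit 4408917817) (nat_lit 608) (nat_lit 6066216918) (nat_lit 684) (nat_lit 2280894118) (nat_lit 241) (nat_lit 5) (nat_lit 249) (nat_lit 5) (nat_lit 250) (nat_lit 5) (nat_lit 313) (nat_lit 278) (nat_lit 189)) (XT.nd (nat_lit 78) (nat_lit 0) (nat_lit 0) (XT.lf (nat_lit 0) (nat_lit 823254738) (nat_lit 684) (nat_lit 11348728529) (nat_lit 76) (nat_lit 803621151) (nat_lit 232) (nat_lit 5) (nat_lit 241) (nat_lit 5) (nat_lit 233) (nat_lit 5) (nat_lit 314) (nat_lit 278) (nat_lit 188)) (XT.lf (nat_lit 0) (nat_lit 4056598344) (nat_lit 684) (nat_lit 1278641631) (nat_lit 76) (nat_lit 7864904299) (nat_lit 232) (nat_lit 5) (nat_lit 241) (nat_lit 5) (nat_lit 233) (nat_lit 5) (nat_lit 315) (nat_lit 278)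 (nat_lit 187)))) (XT.nd (nat_lit 156) (nat_lit 1140) (nat_lit 0) (XT.nd (nat_lit 78) (nat_lit 608) (nat_lit 0) (XT.lf (nat_lit 0) (nat_lit 7428246827) (nat_lit 684) (nat_lit 4263448850) (nat_lit 76) (nat_lit 1738917719) (nat_lit 224) (nat_lit 5) (nat_lit 233) (nat_lit 5) (nat_lit 225) (nat_lit 5) (nat_lit 316) (nat_lit 278) (nat_lit 186)) (XT.lf (nat_lit 0) (nat_lit 6287659135) (nat_lit 608) (nat_lit 4669485967) (nat_lit 684) (nat_lit 2709748086) (nat_lit 216) (nat_lit 5) (nat_lit 224) (nat_lit 5) (nat_lit 225) (nat_lit 5) (nat_lit 317) (nat_lit 278) (nat_lit 185))) (XT.nd (nat_lit 78) (nat_lit 532) (nat_lit 0) (XT.lf (nat_lit 0) (nat_lit 711527652) (nat_lit 608) (nat_lit 10618901268) (nat_lit 76) (nat_lit 2578985272) (nat_lit 208) (nat_lit 5) (nat_lit 216) (nat_lit 5) (nat_lit 209) (nat_lit 5) (nat_lit 318) (nat_lit 278) (nat_lit 184)) (XT.lf (nat_lit 0) (nat_lit 140418209) (nat_lit 532) (nat_lit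 4112757924) (nat_lit 608) (nat_lit 9904602669) (nat_lit 201) (nat_lit 5) (nat_lit 208) (nat_lit 5) (nat_lit 209) (nat_lit 5) (nat_lit 319) (nat_lit 278) (nat_lit 183))))) (XT.nd (nat_lit 234) (nat_lit 1520) (nat_lit 0) (XT.nd (nat_lit 78) (nat_lit 1140) (nat_lit 0) (XT.lf (nat_lit 0) (nat_lit 7967490816) (nat_lit 608) (nat_lit 3101177268) (nat_lit 76) (nat_lit 3343614621) (nat_lit 201) (nat_lit 5) (nat_lit 209) (nat_lit 5) (nat_lit 202) (nat_lit 5) (nat_lit 320) (nat_lit 278) (nat_lit 182)) (XT.nd (nat_lit 78) (nat_lit 608) (nat_lit 0) (XT.lf (nat_lit 0) (nat_lit 8188546074) (nat_lit 532) (nat_lit 3658579697) (nat_lit 608) (nat_lit 2826234343) (nat_lit 194) (nat_lit 5) (nat_lit 201) (nat_lit 5) (nat_lit 202) (nat_lit 5) (nat_lit 321) (nat_lit 278) (nat_lit 181)) (XT.lf (nat_lit 0) (nat_lit 942051158) (nat_lit 608) (nat_lit 10025031959) (nat_lit 76) (nat_lit 3974025440) (nat_lit 186) (nat_lit 5)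 (nat_lit 194) (nat_lit 5) (nat_lit 187) (nat_lit 5) (nat_lit 322) (nat_lit 278) (nat_lit 180)))) (XT.nd (nat_lit 156) (nat_lit 1064) (nat_lit 0) (XT.nd (nat_lit 78) (nat_lit 0) (nat_lit 0) (XT.lf (nat_lit 0) (nat_lit 1473828073) (nat_lit 456) (nat_lit 3363751551) (nat_lit 532) (nat_lit 10377899339) (nat_lit 180) (nat_lit 5) (nat_lit 186) (nat_lit 5) (nat_lit 187) (nat_lit 5) (nat_lit 323) (nat_lit 278) (nat_lit 179)) (XT.lf (nat_lit 0) (nat_lit 8921956730) (nat_lit 532) (nat_lit 2104819616) (nat_lit 76) (nat_lit 4469879017) (nat_lit 180) (nat_lit 5) (nat_lit 187) (nat_lit 5) (nat_lit 181) (nat_lit 5) (nat_lit 324) (nat_lit 278) (nat_lit 178))) (XT.nd (nat_lit 78) (nat_lit 532) (nat_lit 0) (XT.lf (nat_lit 0) (nat_lit 9956662504) (nat_lit 532) (nat_lit 3234675784) (nat_lit 608) (nat_lit 2593693418) (nat_lit 173) (nat_lit 5) (nat_lit 180) (nat_lit 5) (nat_lit 181) (nat_lit 5) (nat_lit 325) (nat_lit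 278) (nat_lit 177)) (XT.lf (nat_lit 0) (nat_lit 1549844754) (nat_lit 532) (nat_lit 9744419685) (nat_lit 76) (nat_lit 4786355403) (nat_lit 166) (nat_lit 5) (nat_lit 173) (nat_lit 5) (nat_lit 167) (nat_lit 5) (nat_lit 326) (nat_lit 278) (nat_lit 176))))))) (XT.nd (nat_lit 1014) (nat_lit 2964) (nat_lit 0) (XT.nd (nat_lit 468) (nat_lit 2356) (nat_lit 0) (XT.nd (nat_lit 234) (nat_lit 912) (nat_lit 0) (XT.nd (nat_lit 78) (nat_lit 456) (nat_lit 0) (XT.lf (nat_lit 0) (nat_lit 2522784624) (nat_lit 456) (nat_lit 3313755066) (nat_lit 532) (nat_lit 10547124312) (nat_lit 160) (nat_lit 5) (nat_lit 166) (nat_lit 5) (nat_lit 167) (nat_lit 5) (nat_lit 327) (nat_lit 278) (nat_lit 175)) (XT.nd (nat_lit 78) (nat_lit 456) (nat_lit 0) (XT.lf (nat_lit 0) (nat_lit 10326713521) (nat_lit 532) (nat_lit 1467549072) (nat_lit 76) (nat_lit 4900051998) (nat_lit 160) (nat_lit 5) (nat_lit 167) (nat_lit 5) (nat_lit 161) (nat_lit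 5) (nat_lit 328) (nat_lit 278) (nat_lit 174)) (XT.lf (nat_lit 0) (nat_lit 11393619844) (nat_lit 456) (nat_lit 3631346441) (nat_lit 532) (nat_lit 1987863232) (nat_lit 154) (nat_lit 5) (nat_lit 160) (nat_lit 5) (nat_lit 161) (nat_lit 5) (nat_lit 329) (nat_lit 278) (nat_lit 173)))) (XT.nd (nat_lit 78) (nat_lit 380) (nat_lit 0) (XT.lf (nat_lit 0) (nat_lit 2557019826) (nat_lit 532) (nat_lit 10002147105) (nat_lit 76) (nat_lit 4780080085) (nat_lit 147) (nat_lit 5) (nat_lit 154) (nat_lit 5) (nat_lit 148) (nat_lit 5) (nat_lit 330) (nat_lit 278) (nat_lit 172)) (XT.nd (nat_lit 78) (nat_lit 0) (nat_lit 0) (XT.lf (nat_lit 0) (nat_lit 3055638710) (nat_lit 380) (nat_lit 4216153496) (nat_lit 456) (nat_lit 10402202397) (nat_lit 142) (nat_lit 5) (nat_lit 147) (nat_lit 5) (nat_lit 148) (nat_lit 5) (nat_lit 331) (nat_lit 278) (nat_lit 171)) (XT.lf (nat_lit 0) (nat_lit 12202984168) (nat_lit 456) (nat_lit 1435038692)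 (nat_lit 76) (nat_lit 4379273263) (nat_lit 142) (nat_lit 5) (nat_lit 148) (nat_lit 5) (nat_lit 143) (nat_lit 5) (nat_lit 332) (nat_lit 278) (nat_lit 170))))) (XT.nd (nat_lit 234) (nat_lit 1064) (nat_lit 0) (XT.nd (nat_lit 78) (nat_lit 836) (nat_lit 0) (XT.lf (nat_lit 0) (nat_lit 12246281847) (nat_lit 456) (nat_lit 5122497942) (nat_lit 532) (nat_lit 1000394249) (nat_lit 136) (nat_lit 5) (nat_lit 142) (nat_lit 5) (nat_lit 143) (nat_lit 5) (nat_lit 333) (nat_lit 278) (nat_lit 169)) (XT.nd (nat_lit 78) (nat_lit 380) (nat_lit 0) (XT.lf (nat_lit 0) (nat_lit 3969060140) (nat_lit 456) (nat_lit 11083115822) (nat_lit 76) (nat_lit 3677668006) (nat_lit 130) (nat_lit 5) (nat_lit 136) (nat_lit 5) (nat_lit 131) (nat_lit 5) (nat_lit 334) (nat_lit 278) (nat_lit 168)) (XT.lf (nat_lit 0) (nat_lit 2778370567) (nat_lit 380) (nat_lit 6369368326) (nat_lit 456) (nat_lit 9951998106) (nat_lit 125) (nat_lit 5) (nat_lit 130)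 (nat_lit 5) (nat_lit 131) (nat_lit 5) (nat_lit 335) (nat_lit 278) (nat_lit 167)))) (XT.nd (nat_lit 156) (nat_lit 684) (nat_lit 0) (XT.nd (nat_lit 78) (nat_lit 380) (nat_lit 0) (XT.lf (nat_lit 0) (nat_lit 14554029717) (nat_lit 456) (nat_lit 2318486185) (nat_lit 76) (nat_lit 2606775492) (nat_lit 125) (nat_lit 5) (nat_lit 131) (nat_lit 5) (nat_lit 126) (nat_lit 5) (nat_lit 336) (nat_lit 278) (nat_lit 166)) (XT.lf (nat_lit 0) (nat_lit 351921787) (nat_lit 380) (nat_lit 7677312968) (nat_lit 76) (nat_lit 11838914981) (nat_lit 120) (nat_lit 5) (nat_lit 125) (nat_lit 5) (nat_lit 121) (nat_lit 5) (nat_lit 337) (nat_lit 278) (nat_lit 165))) (XT.nd (nat_lit 78) (nat_lit 304) (nat_lit 0) (XT.lf (nat_lit 0) (nat_lit 5770027216) (nat_lit 456) (nat_lit 13346525989) (nat_lit 76) (nat_lit 1150487954) (nat_lit 115) (nat_lit 5) (nat_lit 121) (nat_lit 5) (nat_lit 116) (nat_lit 5) (nat_lit 338) (nat_lit 278) (nat_lit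 164)) (XT.lf (nat_lit 0) (nat_lit 1319504162) (nat_lit 304) (nat_lit 10126895224) (nat_lit 380) (nat_lit 9229594086) (nat_lit 111) (nat_lit 5) (nat_lit 115) (nat_lit 5) (nat_lit 116) (nat_lit 5) (nat_lit 339) (nat_lit 278) (nat_lit 163)))))) (XT.nd (nat_lit 546) (nat_lit 1216) (nat_lit 0) (XT.nd (nat_lit 234) (nat_lit 988) (nat_lit 0) (XT.nd (nat_lit 78) (nat_lit 760) (nat_lit 0) (XT.lf (nat_lit 0) (nat_lit 16580393842) (nat_lit 304) (nat_lit 784572286) (nat_lit 380) (nat_lit 3730818531) (nat_lit 111) (nat_lit 5) (nat_lit 115) (nat_lit 5) (nat_lit 116) (nat_lit 5) (nat_lit 340) (nat_lit 278) (nat_lit 162)) (XT.nd (nat_lit 78) (nat_lit 304) (nat_lit 0) (XT.lf (nat_lit 0) (nat_lit 2017918840) (nat_lit 456) (nat_lit 10710998233) (nat_lit 76) (nat_lit 8796802496) (nat_lit 105) (nat_lit 5) (nat_lit 111) (nat_lit 5) (nat_lit 106) (nat_lit 5) (nat_lit 341) (nat_lit 278) (nat_lit 161)) (XT.lf (nat_lit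 0) (nat_lit 4702770379) (nat_lit 304) (nat_lit 3234701318) (nat_lit 380) (nat_lit 14029614538) (nat_lit 101) (nat_lit 5) (nat_lit 105) (nat_lit 5) (nat_lit 106) (nat_lit 5) (nat_lit 342) (nat_lit 278) (nat_lit 160)))) (XT.nd (nat_lit 156) (nat_lit 684) (nat_lit 0) (XT.nd (nat_lit 78) (nat_lit 304) (nat_lit 0) (XT.lf (nat_lit 0) (nat_lit 14132620570) (nat_lit 380) (nat_lit 1764616825) (nat_lit 76) (nat_lit 6522503825) (nat_lit 101) (nat_lit 5) (nat_lit 106) (nat_lit 5) (nat_lit 102) (nat_lit 5) (nat_lit 343) (nat_lit 278) (nat_lit 159)) (XT.lf (nat_lit 0) (nat_lit 14340333307) (nat_lit 304) (nat_lit 6270997839) (nat_lit 380) (nat_lit 2272697857) (nat_lit 97) (nat_lit 5) (nat_lit 101) (nat_lit 5) (nat_lit 102) (nat_lit 5) (nat_lit 344) (nat_lit 278) (nat_lit 158))) (XT.nd (nat_lit 78) (nat_lit 304) (nat_lit 0) (XT.lf (nat_lit 0) (nat_lit 3939709960) (nat_lit 380) (nat_lit 15745787657) (nat_lit 76)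 (nat_lit 3674865593) (nat_lit 92) (nat_lit 5) (nat_lit 97) (nat_lit 5) (nat_lit 93) (nat_lit 5) (nat_lit 345) (nat_lit 278) (nat_lit 157)) (XT.lf (nat_lit 0) (nat_lit 447213422) (nat_lit 304) (nat_lit 9947138912) (nat_lit 380) (nat_lit 13454606608) (nat_lit 88) (nat_lit 5) (nat_lit 92) (nat_lit 5) (nat_lit 93) (nat_lit 5) (nat_lit 346) (nat_lit 278) (nat_lit 156))))) (XT.nd (nat_lit 234) (nat_lit 608) (nat_lit 0) (XT.nd (nat_lit 78) (nat_lit 608) (nat_lit 0) (XT.lf (nat_lit 0) (nat_lit 17134282403) (nat_lit 380) (nat_lit 7035489281) (nat_lit 76) (nat_lit 180614436) (nat_lit 88) (nat_lit 5) (nat_lit 93) (nat_lit 5) (nat_lit 89) (nat_lit 5) (nat_lit 347) (nat_lit 278) (nat_lit 155)) (XT.nd (nat_lit 78) (nat_lit 380) (nat_lit 0) (XT.lf (nat_lit 0) (nat_lit 9859594408) (nat_lit 228) (nat_lit 14331528699) (nat_lit 304) (nat_lit 673445102) (nat_lit 85) (nat_lit 5) (nat_lit 88) (nat_lit 5) (nat_lit 89)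 (nat_lit 5) (nat_lit 348) (nat_lit 278) (nat_lit 154)) (XT.lf (nat_lit 0) (nat_lit 1925407712) (nat_lit 304) (nat_lit 4105396382) (nat_lit 380) (nat_lit 19361692869) (nat_lit 80) (nat_lit 5) (nat_lit 84) (nat_lit 5) (nat_lit 85) (nat_lit 5) (nat_lit 349) (nat_lit 278) (nat_lit 153)))) (XT.nd (nat_lit 156) (nat_lit 380) (nat_lit 0) (XT.nd (nat_lit 78) (nat_lit 228) (nat_lit 0) (XT.lf (nat_lit 0) (nat_lit 13055774918) (nat_lit 380) (nat_lit 6436658531) (nat_lit 76) (nat_lit 6441172099) (nat_lit 80) (nat_lit 5) (nat_lit 85) (nat_lit 5) (nat_lit 81) (nat_lit 5) (nat_lit 350) (nat_lit 278) (nat_lit 152)) (XT.lf (nat_lit 0) (nat_lit 11200229427) (nat_lit 228) (nat_lit 9176495617) (nat_lit 304) (nat_lit 6112523438) (nat_lit 77) (nat_lit 5) (nat_lit 80) (nat_lit 5) (nat_lit 81) (nat_lit 5) (nat_lit 351) (nat_lit 278) (nat_lit 151))) (XT.nd (nat_lit 78) (nat_lit 0) (nat_lit 0) (XT.lf (nat_lit 0) (nat_lit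 898994823) (nat_lit 380) (nat_lit 24674834778) (nat_lit 76) (nat_lit 1486535906) (nat_lit 72) (nat_lit 5) (nat_lit 77) (nat_lit 5) (nat_lit 73) (nat_lit 5) (nat_lit 352) (nat_lit 278) (nat_lit 150)) (XT.lf (nat_lit 0) (nat_lit 8189400945) (nat_lit 380) (nat_lit 6973440042) (nat_lit 76) (nat_lit 12481940494) (nat_lit 72) (nat_lit 5) (nat_lit 77) (nat_lit 5) (nat_lit 73) (nat_lit 5) (nat_lit 353) (nat_lit 278) (nat_lit 149))))))))
noncomputable def xc83 : XT := (XT.nd (nat_lit 36426) (nat_lit 0) (nat_lit 8664) (XT.nd (nat_lit 35334) (nat_lit 0) (nat_lit 23636) (XT.nd (nat_lit 34788) (nat_lit 0) (nat_lit 30932) (XT.nd (nat_lit 234) (nat_lit 456) (nat_lit 0) (XT.nd (nat_lit 78) (nat_lit 304) (nat_lit 0) (XT.lf (nat_lit 0) (nat_lit 11385443901) (nat_lit 228) (nat_lit 4372878301) (nat_lit 304) (nat_lit 12487216785) (nat_lit 69) (nat_lit 5) (nat_lit 72) (nat_lit 5) (nat_lit 73) (nat_lit 5) (nat_lit 354)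 (nat_lit 278) (nat_lit 148)) (XT.nd (nat_lit 78) (nat_lit 76) (nat_lit 0) (XT.lf (nat_lit 0) (nat_lit 1479773150) (nat_lit 228) (nat_lit 22161568486) (nat_lit 304) (nat_lit 5221241936) (nat_lit 66) (nat_lit 5) (nat_lit 69) (nat_lit 5) (nat_lit 70) (nat_lit 5) (nat_lit 355) (nat_lit 278) (nat_lit 147)) (XT.lf (nat_lit 0) (nat_lit 2363540474) (nat_lit 304) (nat_lit 8962472618) (nat_lit 76) (nat_lit 18169227220) (nat_lit 65) (nat_lit 5) (nat_lit 69) (nat_lit 5) (nat_lit 66) (nat_lit 5) (nat_lit 356) (nat_lit 278) (nat_lit 146)))) (XT.nd (nat_lit 78) (nat_lit 228) (nat_lit 0) (XT.lf (nat_lit 0) (nat_lit 10085946130) (nat_lit 228) (nat_lit 71528238) (nat_lit 304) (nat_lit 19987665841) (nat_lit 62) (nat_lit 5) (nat_lit 65) (nat_lit 5) (nat_lit 66) (nat_lit 5) (nat_lit 357) (nat_lit 278) (nat_lit 145)) (XT.nd (nat_lit 78) (nat_lit 228) (nat_lit 0) (XT.lf (nat_lit 0) (nat_lit 18308009617) (nat_lit 304)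 (nat_lit 1081774627) (nat_lit 76) (nat_lit 11422301646) (nat_lit 62) (nat_lit 5) (nat_lit 66) (nat_lit 5) (nat_lit 63) (nat_lit 5) (nat_lit 358) (nat_lit 278) (nat_lit 144)) (XT.lf (nat_lit 0) (nat_lit 18688477406) (nat_lit 228) (nat_lit 8123632148) (nat_lit 304) (nat_lit 4684753738) (nat_lit 59) (nat_lit 5) (nat_lit 62) (nat_lit 5) (nat_lit 63) (nat_lit 5) (nat_lit 359) (nat_lit 278) (nat_lit 143))))) (XT.nd (nat_lit 234) (nat_lit 1292) (nat_lit 0) (XT.nd (nat_lit 78) (nat_lit 0) (nat_lit 0) (XT.lf (nat_lit 0) (nat_lit 851180904) (nat_lit 0) (nat_lit 851180904) (nat_lit 1292) (nat_lit 2299971922) (nat_lit 483) (nat_lit 5) (nat_lit 483) (nat_lit 3) (nat_lit 500) (nat_lit 3) (nat_lit 279) (nat_lit 279) (nat_lit 222)) (XT.nd (nat_lit 78) (nat_lit 0) (nat_lit 0) (XT.lf (nat_lit 0) (nat_lit 5191743106) (nat_lit 1292) (nat_lit 805083002) (nat_lit 1368) (nat_lit 2091620919) (nat_lit 483) (nat_lit 5)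 (nat_lit 500) (nat_lit 3) (nat_lit 501) (nat_lit 5) (nat_lit 280) (nat_lit 279) (nat_lit 221)) (XT.lf (nat_lit 76) (nat_lit 4874370267) (nat_lit 0) (nat_lit 2134041018) (nat_lit 1368) (nat_lit 1166869262) (nat_lit 484) (nat_lit 5) (nat_lit 483) (nat_lit 5) (nat_lit 501) (nat_lit 5) (nat_lit 281) (nat_lit 279) (nat_lit 220)))) (XT.nd (nat_lit 156) (nat_lit 0) (nat_lit 76) (XT.nd (nat_lit 78) (nat_lit 0) (nat_lit 0) (XT.lf (nat_lit 0) (nat_lit 574863877) (nat_lit 1368) (nat_lit 5814619038) (nat_lit 1444) (nat_lit 1875853343) (nat_lit 466) (nat_lit 5) (nat_lit 484) (nat_lit 5) (nat_lit 485) (nat_lit 5) (nat_lit 282) (nat_lit 279) (nat_lit 219)) (XT.lf (nat_lit 76) (nat_lit 3716701) (nat_lit 0) (nat_lit 2322298956) (nat_lit 1444) (nat_lit 6032520004) (nat_lit 467) (nat_lit 5) (nat_lit 466) (nat_lit 5) (nat_lit 485) (nat_lit 5) (nat_lit 283) (nat_lit 279) (nat_lit 218))) (XT.nd (nat_lit 78) (nat_lit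 0) (nat_lit 0) (XT.lf (nat_lit 0) (nat_lit 4119401743) (nat_lit 1368) (nat_lit 2427349191) (nat_lit 1444) (nat_lit 1908041141) (nat_lit 467) (nat_lit 5) (nat_lit 485) (nat_lit 5) (nat_lit 486) (nat_lit 5) (nat_lit 284) (nat_lit 279) (nat_lit 217)) (XT.lf (nat_lit 76) (nat_lit 3674275031) (nat_lit 0) (nat_lit 2271424690) (nat_lit 1444) (nat_lit 2608707679) (nat_lit 468) (nat_lit 5) (nat_lit 467) (nat_lit 5) (nat_lit 486) (nat_lit 5) (nat_lit 285) (nat_lit 279) (nat_lit 216)))))) (XT.nd (nat_lit 546) (nat_lit 4712) (nat_lit 0) (XT.nd (nat_lit 234) (nat_lit 1292) (nat_lit 0) (XT.nd (nat_lit 78) (nat_lit 1444) (nat_lit 0) (XT.lf (nat_lit 76) (nat_lit 1301493568) (nat_lit 0) (nat_lit 6505541269) (nat_lit 1444) (nat_lit 850423248) (nat_lit 469) (nat_lit 5) (nat_lit 468) (nat_lit 5) (nat_lit 487) (nat_lit 5) (nat_lit 286) (nat_lit 279) (nat_lit 215)) (XT.nd (nat_lit 78) (nat_lit 0) (nat_lit 76) (XT.lf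 (nat_lit 0) (nat_lit 938928459) (nat_lit 1444) (nat_lit 1086543839) (nat_lit 1520) (nat_lit 6738234277) (nat_lit 449) (nat_lit 5) (nat_lit 468) (nat_lit 5) (nat_lit 469) (nat_lit 5) (nat_lit 287) (nat_lit 279) (nat_lit 214)) (XT.lf (nat_lit 0) (nat_lit 2766854476) (nat_lit 1444) (nat_lit 3490847858) (nat_lit 1520) (nat_lit 2615446738) (nat_lit 450) (nat_lit 5) (nat_lit 469) (nat_lit 5) (nat_lit 470) (nat_lit 5) (nat_lit 288) (nat_lit 279) (nat_lit 213)))) (XT.nd (nat_lit 156) (nat_lit 1368) (nat_lit 0) (XT.nd (nat_lit 78) (nat_lit 0) (nat_lit 76) (XT.lf (nat_lit 76) (nat_lit 3064037486) (nat_lit 0) (nat_lit 1572065333) (nat_lit 1520) (nat_lit 4350088869) (nat_lit 451) (nat_lit 5) (nat_lit 450) (nat_lit 5) (nat_lit 470) (nat_lit 5) (nat_lit 289) (nat_lit 279) (nat_lit 212)) (XT.lf (nat_lit 76) (nat_lit 711723958) (nat_lit 0) (nat_lit 5846355633) (nat_lit 1520) (nat_lit 2544658150) (nat_lit 452)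 (nat_lit 5) (nat_lit 451) (nat_lit 5) (nat_lit 471) (nat_lit 5) (nat_lit 290) (nat_lit 279) (nat_lit 211))) (XT.nd (nat_lit 78) (nat_lit 1444) (nat_lit 0) (XT.lf (nat_lit 76) (nat_lit 7578111929) (nat_lit 0) (nat_lit 958569640) (nat_lit 1520) (nat_lit 686163152) (nat_lit 452) (nat_lit 5) (nat_lit 451) (nat_lit 5) (nat_lit 471) (nat_lit 5) (nat_lit 291) (nat_lit 279) (nat_lit 210)) (XT.lf (nat_lit 0) (nat_lit 1222937861) (nat_lit 1520) (nat_lit 4044286827) (nat_lit 1596) (nat_lit 4078993348) (nat_lit 432) (nat_lit 5) (nat_lit 452) (nat_lit 5) (nat_lit 453) (nat_lit 5) (nat_lit 292) (nat_lit 279) (nat_lit 209))))) (XT.nd (nat_lit 234) (nat_lit 4712) (nat_lit 0) (XT.nd (nat_lit 78) (nat_lit 0) (nat_lit 76) (XT.lf (nat_lit 76) (nat_lit 2997607138) (nat_lit 0) (nat_lit 170371410) (nat_lit 1596) (nat_lit 6305504048) (nat_lit 433) (nat_lit 5) (nat_lit 432) (nat_lit 5) (nat_lit 453) (nat_lit 5) (nat_lit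 293) (nat_lit 279) (nat_lit 208)) (XT.nd (nat_lit 78) (nat_lit 0) (nat_lit 76) (XT.lf (nat_lit 76) (nat_lit 639785722) (nat_lit 0) (nat_lit 4548417688) (nat_lit 1596) (nat_lit 4416064378) (nat_lit 434) (nat_lit 5) (nat_lit 433) (nat_lit 5) (nat_lit 454) (nat_lit 5) (nat_lit 294) (nat_lit 279) (nat_lit 207)) (XT.lf (nat_lit 0) (nat_lit 7272201291) (nat_lit 1520) (nat_lit 1724463093) (nat_lit 76) (nat_lit 742287034) (nat_lit 434) (nat_lit 5) (nat_lit 454) (nat_lit 5) (nat_lit 435) (nat_lit 5) (nat_lit 295) (nat_lit 279) (nat_lit 206)))) (XT.nd (nat_lit 156) (nat_lit 1672) (nat_lit 0) (XT.nd (nat_lit 78) (nat_lit 1672) (nat_lit 0) (XT.lf (nat_lit 0) (nat_lit 5740764266) (nat_lit 1520) (nat_lit 3700336216) (nat_lit 1596) (nat_lit 436164542) (nat_lit 414) (nat_lit 5) (nat_lit 434) (nat_lit 5) (nat_lit 435) (nat_lit 5) (nat_lit 296) (nat_lit 279) (nat_lit 205)) (XT.lf (nat_lit 0) (nat_lit 1634857190)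 (nat_lit 1672) (nat_lit 6600157605) (nat_lit 76) (nat_lit 1784509028) (nat_lit 392) (nat_lit 5) (nat_lit 414) (nat_lit 5) (nat_lit 393) (nat_lit 5) (nat_lit 297) (nat_lit 279) (nat_lit 204))) (XT.nd (nat_lit 78) (nat_lit 0) (nat_lit 0) (XT.lf (nat_lit 0) (nat_lit 1041605532) (nat_lit 1672) (nat_lit 2736792228) (nat_lit 1748) (nat_lit 6387302967) (nat_lit 370) (nat_lit 5) (nat_lit 392) (nat_lit 5) (nat_lit 393) (nat_lit 5) (nat_lit 298) (nat_lit 279) (nat_lit 203)) (XT.lf (nat_lit 0) (nat_lit 6007886135) (nat_lit 1748) (nat_lit 1369261422) (nat_lit 76) (nat_lit 2938715830) (nat_lit 370) (nat_lit 5) (nat_lit 393) (nat_lit 5) (nat_lit 371) (nat_lit 5) (nat_lit 299) (nat_lit 279) (nat_lit 202))))))) (XT.nd (nat_lit 1014) (nat_lit 6460) (nat_lit 0) (XT.nd (nat_lit 468) (nat_lit 3800) (nat_lit 0) (XT.nd (nat_lit 234) (nat_lit 1672) (nat_lit 0) (XT.nd (nat_lit 78) (nat_lit 1748) (nat_lit 0) (XT.lf (nat_lit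 0) (nat_lit 6650671653) (nat_lit 1292) (nat_lit 1673925235) (nat_lit 1368) (nat_lit 2145559596) (nat_lit 353) (nat_lit 5) (nat_lit 370) (nat_lit 5) (nat_lit 371) (nat_lit 5) (nat_lit 300) (nat_lit 279) (nat_lit 201)) (XT.nd (nat_lit 78) (nat_lit 836) (nat_lit 0) (XT.lf (nat_lit 0) (nat_lit 105123895) (nat_lit 912) (nat_lit 6336027591) (nat_lit 76) (nat_lit 4187457726) (nat_lit 341) (nat_lit 5) (nat_lit 353) (nat_lit 5) (nat_lit 342) (nat_lit 5) (nat_lit 301) (nat_lit 279) (nat_lit 200)) (XT.lf (nat_lit 0) (nat_lit 1871121610) (nat_lit 836) (nat_lit 533112419) (nat_lit 912) (nat_lit 8387126594) (nat_lit 330) (nat_lit 5) (nat_lit 341) (nat_lit 5) (nat_lit 342) (nat_lit 5) (nat_lit 302) (nat_lit 279) (nat_lit 199)))) (XT.nd (nat_lit 78) (nat_lit 1672) (nat_lit 0) (XT.lf (nat_lit 0) (nat_lit 4813010944) (nat_lit 912) (nat_lit 620174687) (nat_lit 76) (nat_lit 5525024066) (nat_lit 330) (nat_lit 5) (nat_lit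 342) (nat_lit 5) (nat_lit 331) (nat_lit 5) (nat_lit 303) (nat_lit 279) (nat_lit 198)) (XT.nd (nat_lit 78) (nat_lit 836) (nat_lit 0) (XT.lf (nat_lit 0) (nat_lit 7316499864) (nat_lit 912) (nat_lit 3139832825) (nat_lit 76) (nat_lit 673310726) (nat_lit 319) (nat_lit 5) (nat_lit 331) (nat_lit 5) (nat_lit 320) (nat_lit 5) (nat_lit 304) (nat_lit 279) (nat_lit 197)) (XT.lf (nat_lit 0) (nat_lit 5560989016) (nat_lit 836) (nat_lit 4374194343) (nat_lit 912) (nat_lit 1370262313) (nat_lit 308) (nat_lit 5) (nat_lit 319) (nat_lit 5) (nat_lit 320) (nat_lit 5) (nat_lit 305) (nat_lit 279) (nat_lit 196))))) (XT.nd (nat_lit 234) (nat_lit 2204) (nat_lit 0) (XT.nd (nat_lit 78) (nat_lit 760) (nat_lit 0) (XT.lf (nat_lit 0) (nat_lit 1148858689) (nat_lit 836) (nat_lit 8422353825) (nat_lit 76) (nat_lit 1914827054) (nat_lit 297) (nat_lit 5) (nat_lit 308) (nat_lit 5) (nat_lit 298) (nat_lit 5) (nat_lit 306) (nat_lit 279) (nat_lit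 195)) (XT.nd (nat_lit 78) (nat_lit 0) (nat_lit 0) (XT.lf (nat_lit 0) (nat_lit 474890075) (nat_lit 760) (nat_lit 3286482598) (nat_lit 836) (nat_lit 7909793992) (nat_lit 287) (nat_lit 5) (nat_lit 297) (nat_lit 5) (nat_lit 298) (nat_lit 5) (nat_lit 307) (nat_lit 279) (nat_lit 194)) (XT.lf (nat_lit 0) (nat_lit 6496000683) (nat_lit 836) (nat_lit 2163651991) (nat_lit 76) (nat_lit 3201344647) (nat_lit 287) (nat_lit 5) (nat_lit 298) (nat_lit 5) (nat_lit 288) (nat_lit 5) (nat_lit 308) (nat_lit 279) (nat_lit 193)))) (XT.nd (nat_lit 156) (nat_lit 684) (nat_lit 0) (XT.nd (nat_lit 78) (nat_lit 836) (nat_lit 0) (XT.lf (nat_lit 0) (nat_lit 7176939890) (nat_lit 684) (nat_lit 2170902645) (nat_lit 760) (nat_lit 2708000666) (nat_lit 278) (nat_lit 5) (nat_lit 287) (nat_lit 5) (nat_lit 288) (nat_lit 5) (nat_lit 309) (nat_lit 279) (nat_lit 192)) (XT.lf (nat_lit 0) (nat_lit 69617511) (nat_lit 836) (nat_lit 7689829970)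 (nat_lit 76) (nat_lit 4496280127) (nat_lit 267) (nat_lit 5) (nat_lit 278) (nat_lit 5) (nat_lit 268) (nat_lit 5) (nat_lit 310) (nat_lit 279) (nat_lit 191))) (XT.nd (nat_lit 78) (nat_lit 0) (nat_lit 0) (XT.lf (nat_lit 0) (nat_lit 1856246252) (nat_lit 684) (nat_lit 1065413928) (nat_lit 760) (nat_lit 9539054627) (nat_lit 258) (nat_lit 5) (nat_lit 267) (nat_lit 5) (nat_lit 268) (nat_lit 5) (nat_lit 311) (nat_lit 279) (nat_lit 190)) (XT.lf (nat_lit 0) (nat_lit 5918086695) (nat_lit 760) (nat_lit 950230126) (nat_lit 76) (nat_lit 5802379705) (nat_lit 258) (nat_lit 5) (nat_lit 268) (nat_lit 5) (nat_lit 259) (nat_lit 5) (nat_lit 312) (nat_lit 279) (nat_lit 189)))))) (XT.nd (nat_lit 546) (nat_lit 2660) (nat_lit 0) (XT.nd (nat_lit 234) (nat_lit 1824) (nat_lit 0) (XT.nd (nat_lit 78) (nat_lit 1292) (nat_lit 0) (XT.lf (nat_lit 0) (nat_lit 9040069155) (nat_lit 760) (nat_lit 3815177320) (nat_lit 76) (nat_lit 31038692)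 (nat_lit 249) (nat_lit 5) (nat_lit 259) (nat_lit 5) (nat_lit 250) (nat_lit 5) (nat_lit 313) (nat_lit 279) (nat_lit 188)) (XT.nd (nat_lit 78) (nat_lit 684) (nat_lit 0) (XT.lf (nat_lit 0) (nat_lit 6300330164) (nat_lit 608) (nat_lit 6018784871) (nat_lit 684) (nat_lit 787978485) (nat_lit 241) (nat_lit 5) (nat_lit 249) (nat_lit 5) (nat_lit 250) (nat_lit 5) (nat_lit 314) (nat_lit 279) (nat_lit 187)) (XT.lf (nat_lit 0) (nat_lit 2356898061) (nat_lit 684) (nat_lit 9907922152) (nat_lit 76) (nat_lit 1068900955) (nat_lit 232) (nat_lit 5) (nat_lit 241) (nat_lit 5) (nat_lit 233) (nat_lit 5) (nat_lit 315) (nat_lit 279) (nat_lit 186)))) (XT.nd (nat_lit 156) (nat_lit 1216) (nat_lit 0) (XT.nd (nat_lit 78) (nat_lit 0) (nat_lit 0) (XT.lf (nat_lit 0) (nat_lit 417866142) (nat_lit 608) (nat_lit 5228139022) (nat_lit 684) (nat_lit 7919845116) (nat_lit 224) (nat_lit 5) (nat_lit 232) (nat_lit 5) (nat_lit 233) (nat_lit 5)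 (nat_lit 316) (nat_lit 279) (nat_lit 185)) (XT.lf (nat_lit 0) (nat_lit 9086206173) (nat_lit 684) (nat_lit 2662178593) (nat_lit 76) (nat_lit 2055528149) (nat_lit 224) (nat_lit 5) (nat_lit 233) (nat_lit 5) (nat_lit 225) (nat_lit 5) (nat_lit 317) (nat_lit 279) (nat_lit 184))) (XT.nd (nat_lit 78) (nat_lit 608) (nat_lit 0) (XT.lf (nat_lit 0) (nat_lit 8177408842) (nat_lit 608) (nat_lit 4512807976) (nat_lit 684) (nat_lit 1357706072) (nat_lit 216) (nat_lit 5) (nat_lit 224) (nat_lit 5) (nat_lit 225) (nat_lit 5) (nat_lit 318) (nat_lit 279) (nat_lit 183)) (XT.lf (nat_lit 0) (nat_lit 2119203961) (nat_lit 608) (nat_lit 9218064882) (nat_lit 76) (nat_lit 2960854082) (nat_lit 208) (nat_lit 5) (nat_lit 216) (nat_lit 5) (nat_lit 209) (nat_lit 5) (nat_lit 319) (nat_lit 279) (nat_lit 182))))) (XT.nd (nat_lit 234) (nat_lit 1596) (nat_lit 0) (XT.nd (nat_lit 78) (nat_lit 532) (nat_lit 0) (XT.lf (nat_lit 0) (nat_lit 1836138902)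 (nat_lit 532) (nat_lit 3901566829) (nat_lit 608) (nat_lit 8816845338) (nat_lit 201) (nat_lit 5) (nat_lit 208) (nat_lit 5) (nat_lit 209) (nat_lit 5) (nat_lit 320) (nat_lit 279) (nat_lit 181)) (XT.nd (nat_lit 78) (nat_lit 532) (nat_lit 0) (XT.lf (nat_lit 0) (nat_lit 9526036501) (nat_lit 608) (nat_lit 1526933976) (nat_lit 76) (nat_lit 3764491833) (nat_lit 201) (nat_lit 5) (nat_lit 209) (nat_lit 5) (nat_lit 202) (nat_lit 5) (nat_lit 321) (nat_lit 279) (nat_lit 180)) (XT.lf (nat_lit 0) (nat_lit 10074431452) (nat_lit 532) (nat_lit 3419845858) (nat_lit 608) (nat_lit 1592673651) (nat_lit 194) (nat_lit 5) (nat_lit 201) (nat_lit 5) (nat_lit 202) (nat_lit 5) (nat_lit 322) (nat_lit 279) (nat_lit 179)))) (XT.nd (nat_lit 156) (nat_lit 532) (nat_lit 0) (XT.nd (nat_lit 78) (nat_lit 456) (nat_lit 0) (XT.lf (nat_lit 0) (nat_lit 2246389061) (nat_lit 608) (nat_lit 8670516126) (nat_lit 76) (nat_lit 4446177234) (nat_lit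 186) (nat_lit 5) (nat_lit 194) (nat_lit 5) (nat_lit 187) (nat_lit 5) (nat_lit 323) (nat_lit 279) (nat_lit 178)) (XT.lf (nat_lit 0) (nat_lit 3146454970) (nat_lit 456) (nat_lit 3085733869) (nat_lit 532) (nat_lit 9414048481) (nat_lit 180) (nat_lit 5) (nat_lit 186) (nat_lit 5) (nat_lit 187) (nat_lit 5) (nat_lit 324) (nat_lit 279) (nat_lit 177))) (XT.nd (nat_lit 78) (nat_lit 532) (nat_lit 0) (XT.lf (nat_lit 0) (nat_lit 10405093192) (nat_lit 532) (nat_lit 564412944) (nat_lit 76) (nat_lit 4967043824) (nat_lit 180) (nat_lit 5) (nat_lit 187) (nat_lit 5) (nat_lit 181) (nat_lit 5) (nat_lit 325) (nat_lit 279) (nat_lit 176)) (XT.lf (nat_lit 0) (nat_lit 11832897927) (nat_lit 532) (nat_lit 2944498413) (nat_lit 608) (nat_lit 1456704709) (nat_lit 173) (nat_lit 5) (nat_lit 180) (nat_lit 5) (nat_lit 181) (nat_lit 5) (nat_lit 326) (nat_lit 279) (nat_lit 175))))))))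
noncomputable def xc84 : XT := (XT.nd (nat_lit 2028) (nat_lit 1140) (nat_lit 0) (XT.nd (nat_lit 1014) (nat_lit 2888) (nat_lit 0) (XT.nd (nat_lit 468) (nat_lit 2052) (nat_lit 0) (XT.nd (nat_lit 234) (nat_lit 912) (nat_lit 0) (XT.nd (nat_lit 78) (nat_lit 912) (nat_lit 0) (XT.lf (nat_lit 0) (nat_lit 2773030055) (nat_lit 532) (nat_lit 8446918910) (nat_lit 76) (nat_lit 5318912943) (nat_lit 166) (nat_lit 5) (nat_lit 173) (nat_lit 5) (nat_lit 167) (nat_lit 5) (nat_lit 327) (nat_lit 279) (nat_lit 174)) (XT.nd (nat_lit 78) (nat_lit 456) (nat_lit 0) (XT.lf (nat_lit 0) (nat_lit 4162508371) (nat_lit 456) (nat_lit 3001699732) (nat_lit 532) (nat_lit 9687290366) (nat_lit 160) (nat_lit 5) (nat_lit 166) (nat_lit 5) (nat_lit 167) (nat_lit 5) (nat_lit 328) (nat_lit 279) (nat_lit 173)) (XT.lf (nat_lit 0) (nat_lit 27665092) (nat_lit 456) (nat_lit 11730625323) (nat_lit 532) (nat_lit 5413812270) (nat_lit 154) (nat_lit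 5) (nat_lit 160) (nat_lit 5) (nat_lit 161) (nat_lit 5) (nat_lit 329) (nat_lit 279) (nat_lit 172)))) (XT.nd (nat_lit 78) (nat_lit 912) (nat_lit 0) (XT.lf (nat_lit 0) (nat_lit 13249339780) (nat_lit 456) (nat_lit 3325132838) (nat_lit 532) (nat_lit 926178449) (nat_lit 154) (nat_lit 5) (nat_lit 160) (nat_lit 5) (nat_lit 161) (nat_lit 5) (nat_lit 330) (nat_lit 279) (nat_lit 171)) (XT.nd (nat_lit 78) (nat_lit 380) (nat_lit 0) (XT.lf (nat_lit 0) (nat_lit 3720609199) (nat_lit 532) (nat_lit 8778312137) (nat_lit 76) (nat_lit 5338205655) (nat_lit 147) (nat_lit 5) (nat_lit 154) (nat_lit 5) (nat_lit 148) (nat_lit 5) (nat_lit 331) (nat_lit 279) (nat_lit 170)) (XT.lf (nat_lit 0) (nat_lit 4646483796) (nat_lit 380) (nat_lit 3908417936) (nat_lit 456) (nat_lit 9627470042) (nat_lit 142) (nat_lit 5) (nat_lit 147) (nat_lit 5) (nat_lit 148) (nat_lit 5) (nat_lit 332) (nat_lit 279) (nat_lit 169))))) (XT.nd (nat_lit 234)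 (nat_lit 1140) (nat_lit 0) (XT.nd (nat_lit 78) (nat_lit 912) (nat_lit 0) (XT.lf (nat_lit 0) (nat_lit 13605748455) (nat_lit 456) (nat_lit 4109904) (nat_lit 76) (nat_lit 4926695431) (nat_lit 142) (nat_lit 5) (nat_lit 148) (nat_lit 5) (nat_lit 143) (nat_lit 5) (nat_lit 333) (nat_lit 279) (nat_lit 168)) (XT.nd (nat_lit 78) (nat_lit 380) (nat_lit 0) (XT.lf (nat_lit 0) (nat_lit 6236441) (nat_lit 532) (nat_lit 4835723358) (nat_lit 76) (nat_lit 14057458386) (nat_lit 135) (nat_lit 5) (nat_lit 142) (nat_lit 5) (nat_lit 136) (nat_lit 5) (nat_lit 334) (nat_lit 279) (nat_lit 167)) (XT.lf (nat_lit 0) (nat_lit 5093654782) (nat_lit 456) (nat_lit 9957498869) (nat_lit 76) (nat_lit 4219987506) (nat_lit 130) (nat_lit 5) (nat_lit 136) (nat_lit 5) (nat_lit 131) (nat_lit 5) (nat_lit 335) (nat_lit 279) (nat_lit 166)))) (XT.nd (nat_lit 156) (nat_lit 760) (nat_lit 0) (XT.nd (nat_lit 78) (nat_lit 0) (nat_lit 0) (XT.lf (nat_lit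 0) (nat_lit 4296176003) (nat_lit 380) (nat_lit 6111544250) (nat_lit 456) (nat_lit 9244824402) (nat_lit 125) (nat_lit 5) (nat_lit 130) (nat_lit 5) (nat_lit 131) (nat_lit 5) (nat_lit 336) (nat_lit 279) (nat_lit 165)) (XT.lf (nat_lit 0) (nat_lit 15950324184) (nat_lit 456) (nat_lit 978599816) (nat_lit 76) (nat_lit 3115092984) (nat_lit 125) (nat_lit 5) (nat_lit 131) (nat_lit 5) (nat_lit 126) (nat_lit 5) (nat_lit 337) (nat_lit 279) (nat_lit 164))) (XT.nd (nat_lit 78) (nat_lit 380) (nat_lit 0) (XT.lf (nat_lit 0) (nat_lit 1309874321) (nat_lit 380) (nat_lit 6508029988) (nat_lit 76) (nat_lit 12626904481) (nat_lit 120) (nat_lit 5) (nat_lit 125) (nat_lit 5) (nat_lit 121) (nat_lit 5) (nat_lit 338) (nat_lit 279) (nat_lit 163)) (XT.lf (nat_lit 0) (nat_lit 6874778325) (nat_lit 456) (nat_lit 12353936396) (nat_lit 76) (nat_lit 1627279870) (nat_lit 115) (nat_lit 5) (nat_lit 121) (nat_lit 5) (nat_lit 116) (nat_lit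 5) (nat_lit 339) (nat_lit 279) (nat_lit 162)))))) (XT.nd (nat_lit 468) (nat_lit 1520) (nat_lit 0) (XT.nd (nat_lit 234) (nat_lit 608) (nat_lit 0) (XT.nd (nat_lit 78) (nat_lit 456) (nat_lit 0) (XT.lf (nat_lit 0) (nat_lit 2729475127) (nat_lit 304) (nat_lit 9973728542) (nat_lit 380) (nat_lit 8574388938) (nat_lit 111) (nat_lit 5) (nat_lit 115) (nat_lit 5) (nat_lit 116) (nat_lit 5) (nat_lit 340) (nat_lit 279) (nat_lit 161)) (XT.nd (nat_lit 78) (nat_lit 456) (nat_lit 0) (XT.lf (nat_lit 0) (nat_lit 18408277347) (nat_lit 304) (nat_lit 364445824) (nat_lit 380) (nat_lit 2937798455) (nat_lit 111) (nat_lit 5) (nat_lit 115) (nat_lit 5) (nat_lit 116) (nat_lit 5) (nat_lit 341) (nat_lit 279) (nat_lit 160)) (XT.lf (nat_lit 0) (nat_lit 2956988308) (nat_lit 456) (nat_lit 9696376957) (nat_lit 76) (nat_lit 9500174127) (nat_lit 105) (nat_lit 5) (nat_lit 111) (nat_lit 5) (nat_lit 106) (nat_lit 5) (nat_lit 342) (nat_lit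 279) (nat_lit 159)))) (XT.nd (nat_lit 78) (nat_lit 304) (nat_lit 0) (XT.lf (nat_lit 0) (nat_lit 6158130492) (nat_lit 304) (nat_lit 2878942109) (nat_lit 380) (nat_lit 13571426660) (nat_lit 101) (nat_lit 5) (nat_lit 105) (nat_lit 5) (nat_lit 106) (nat_lit 5) (nat_lit 343) (nat_lit 279) (nat_lit 158)) (XT.nd (nat_lit 78) (nat_lit 304) (nat_lit 0) (XT.lf (nat_lit 0) (nat_lit 15395838636) (nat_lit 380) (nat_lit 527325541) (nat_lit 76) (nat_lit 7152025243) (nat_lit 101) (nat_lit 5) (nat_lit 106) (nat_lit 5) (nat_lit 102) (nat_lit 5) (nat_lit 344) (nat_lit 279) (nat_lit 157)) (XT.lf (nat_lit 0) (nat_lit 16039840650) (nat_lit 304) (nat_lit 6012867132) (nat_lit 380) (nat_lit 1501032573) (nat_lit 97) (nat_lit 5) (nat_lit 101) (nat_lit 5) (nat_lit 102) (nat_lit 5) (nat_lit 345) (nat_lit 279) (nat_lit 156))))) (XT.nd (nat_lit 234) (nat_lit 836) (nat_lit 0) (XT.nd (nat_lit 78) (nat_lit 304) (nat_lit 0) (XT.lf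 (nat_lit 0) (nat_lit 4873674240) (nat_lit 380) (nat_lit 14944597213) (nat_lit 76) (nat_lit 4226255207) (nat_lit 92) (nat_lit 5) (nat_lit 97) (nat_lit 5) (nat_lit 93) (nat_lit 5) (nat_lit 346) (nat_lit 279) (nat_lit 155)) (XT.nd (nat_lit 78) (nat_lit 0) (nat_lit 0) (XT.lf (nat_lit 0) (nat_lit 1713531834) (nat_lit 304) (nat_lit 9792798344) (nat_lit 380) (nat_lit 13041772271) (nat_lit 88) (nat_lit 5) (nat_lit 92) (nat_lit 5) (nat_lit 93) (nat_lit 5) (nat_lit 347) (nat_lit 279) (nat_lit 154)) (XT.lf (nat_lit 0) (nat_lit 18428006854) (nat_lit 380) (nat_lit 6017148437) (nat_lit 76) (nat_lit 619835564) (nat_lit 88) (nat_lit 5) (nat_lit 93) (nat_lit 5) (nat_lit 89) (nat_lit 5) (nat_lit 348) (nat_lit 279) (nat_lit 153)))) (XT.nd (nat_lit 156) (nat_lit 228) (nat_lit 0) (XT.nd (nat_lit 78) (nat_lit 304) (nat_lit 0) (XT.lf (nat_lit 0) (nat_lit 85652859) (nat_lit 304) (nat_lit 14230626048) (nat_lit 76) (nat_lit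 11278614482) (nat_lit 84) (nat_lit 5) (nat_lit 88) (nat_lit 5) (nat_lit 85) (nat_lit 5) (nat_lit 349) (nat_lit 279) (nat_lit 152)) (XT.lf (nat_lit 0) (nat_lit 3183370342) (nat_lit 304) (nat_lit 3783921238) (nat_lit 380) (nat_lit 19171579844) (nat_lit 80) (nat_lit 5) (nat_lit 84) (nat_lit 5) (nat_lit 85) (nat_lit 5) (nat_lit 350) (nat_lit 279) (nat_lit 151))) (XT.nd (nat_lit 78) (nat_lit 228) (nat_lit 0) (XT.lf (nat_lit 0) (nat_lit 14183807622) (nat_lit 380) (nat_lit 5452366084) (nat_lit 76) (nat_lit 7060432059) (nat_lit 80) (nat_lit 5) (nat_lit 85) (nat_lit 5) (nat_lit 81) (nat_lit 5) (nat_lit 351) (nat_lit 279) (nat_lit 150)) (XT.lf (nat_lit 0) (nat_lit 12694526723) (nat_lit 228) (nat_lit 9015932557) (nat_lit 304) (nat_lit 5558745426) (nat_lit 77) (nat_lit 5) (nat_lit 80) (nat_lit 5) (nat_lit 81) (nat_lit 5) (nat_lit 352) (nat_lit 279) (nat_lit 149))))))) (XT.nd (nat_lit 35412) (nat_lit 0) (nat_lit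 23408) (XT.nd (nat_lit 468) (nat_lit 0) (nat_lit 0) (XT.nd (nat_lit 234) (nat_lit 532) (nat_lit 0) (XT.nd (nat_lit 78) (nat_lit 228) (nat_lit 0) (XT.lf (nat_lit 0) (nat_lit 1642551056) (nat_lit 380) (nat_lit 24254100355) (nat_lit 76) (nat_lit 1960933880) (nat_lit 72) (nat_lit 5) (nat_lit 77) (nat_lit 5) (nat_lit 73) (nat_lit 5) (nat_lit 353) (nat_lit 279) (nat_lit 148)) (XT.nd (nat_lit 78) (nat_lit 228) (nat_lit 0) (XT.lf (nat_lit 0) (nat_lit 9130797913) (nat_lit 380) (nat_lit 6055478714) (nat_lit 76) (nat_lit 13273682104) (nat_lit 72) (nat_lit 5) (nat_lit 77) (nat_lit 5) (nat_lit 73) (nat_lit 5) (nat_lit 354) (nat_lit 279) (nat_lit 147)) (XT.lf (nat_lit 0) (nat_lit 12835884843) (nat_lit 228) (nat_lit 4077837992) (nat_lit 304) (nat_lit 12165284743) (nat_lit 69) (nat_lit 5) (nat_lit 72) (nat_lit 5) (nat_lit 73) (nat_lit 5) (nat_lit 355) (nat_lit 279) (nat_lit 146)))) (XT.nd (nat_lit 78) (nat_lit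 304) (nat_lit 0) (XT.lf (nat_lit 0) (nat_lit 2626003405) (nat_lit 228) (nat_lit 22397187010) (nat_lit 304) (nat_lit 4691581057) (nat_lit 66) (nat_lit 5) (nat_lit 69) (nat_lit 5) (nat_lit 70) (nat_lit 5) (nat_lit 356) (nat_lit 279) (nat_lit 145)) (XT.nd (nat_lit 78) (nat_lit 228) (nat_lit 0) (XT.lf (nat_lit 0) (nat_lit 3092016798) (nat_lit 304) (nat_lit 8152637317) (nat_lit 76) (nat_lit 19122066004) (nat_lit 65) (nat_lit 5) (nat_lit 69) (nat_lit 5) (nat_lit 66) (nat_lit 5) (nat_lit 357) (nat_lit 279) (nat_lit 144)) (XT.lf (nat_lit 0) (nat_lit 11109728218) (nat_lit 304) (nat_lit 19588857595) (nat_lit 76) (nat_lit 337738592) (nat_lit 62) (nat_lit 5) (nat_lit 66) (nat_lit 5) (nat_lit 63) (nat_lit 5) (nat_lit 358) (nat_lit 279) (nat_lit 143))))) (XT.nd (nat_lit 34632) (nat_lit 0) (nat_lit 30628) (XT.nd (nat_lit 34476) (nat_lit 0) (nat_lit 30628) (XT.lf (nat_lit 0) (nat_lit 19486383846) (nat_lit 304)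 (nat_lit 73806540) (nat_lit 76) (nat_lit 12163462375) (nat_lit 62) (nat_lit 5) (nat_lit 66) (nat_lit 5) (nat_lit 63) (nat_lit 5) (nat_lit 359) (nat_lit 279) (nat_lit 142)) (XT.nd (nat_lit 78) (nat_lit 1368) (nat_lit 0) (XT.lf (nat_lit 0) (nat_lit 1729532954) (nat_lit 0) (nat_lit 1729532954) (nat_lit 1292) (nat_lit 627668800) (nat_lit 483) (nat_lit 5) (nat_lit 483) (nat_lit 3) (nat_lit 500) (nat_lit 3) (nat_lit 280) (nat_lit 280) (nat_lit 220)) (XT.lf (nat_lit 0) (nat_lit 387532389) (nat_lit 1368) (nat_lit 7345704552) (nat_lit 1444) (nat_lit 528647971) (nat_lit 465) (nat_lit 5) (nat_lit 483) (nat_lit 5) (nat_lit 484) (nat_lit 5) (nat_lit 281) (nat_lit 280) (nat_lit 219)))) (XT.nd (nat_lit 156) (nat_lit 0) (nat_lit 76) (XT.nd (nat_lit 78) (nat_lit 0) (nat_lit 76) (XT.lf (nat_lit 0) (nat_lit 2054177313) (nat_lit 1368) (nat_lit 1638393518) (nat_lit 1444) (nat_lit 4660441881) (nat_lit 465) (nat_lit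 5) (nat_lit 483) (nat_lit 5) (nat_lit 484) (nat_lit 5) (nat_lit 282) (nat_lit 280) (nat_lit 218)) (XT.lf (nat_lit 0) (nat_lit 3739927615) (nat_lit 1368) (nat_lit 4188537883) (nat_lit 1444) (nat_lit 519081751) (nat_lit 466) (nat_lit 5) (nat_lit 484) (nat_lit 5) (nat_lit 485) (nat_lit 5) (nat_lit 283) (nat_lit 280) (nat_lit 217))) (XT.nd (nat_lit 78) (nat_lit 0) (nat_lit 76) (XT.lf (nat_lit 76) (nat_lit 1775136635) (nat_lit 0) (nat_lit 3688293808) (nat_lit 1444) (nat_lit 3081797203) (nat_lit 467) (nat_lit 5) (nat_lit 466) (nat_lit 5) (nat_lit 485) (nat_lit 5) (nat_lit 284) (nat_lit 280) (nat_lit 216)) (XT.lf (nat_lit 0) (nat_lit 7213098076) (nat_lit 1368) (nat_lit 710083137) (nat_lit 1444) (nat_lit 723219913) (nat_lit 467) (nat_lit 5) (nat_lit 485) (nat_lit 5) (nat_lit 486) (nat_lit 5) (nat_lit 285) (nat_lit 280) (nat_lit 215)))))) (XT.nd (nat_lit 546) (nat_lit 4636) (nat_lit 0) (XT.nd (nat_lit 234)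 (nat_lit 1292) (nat_lit 0) (XT.nd (nat_lit 78) (nat_lit 0) (nat_lit 76) (XT.lf (nat_lit 0) (nat_lit 265005821) (nat_lit 1444) (nat_lit 3206778745) (nat_lit 1520) (nat_lit 5278763633) (nat_lit 448) (nat_lit 5) (nat_lit 467) (nat_lit 5) (nat_lit 468) (nat_lit 5) (nat_lit 286) (nat_lit 280) (nat_lit 214)) (XT.nd (nat_lit 78) (nat_lit 0) (nat_lit 0) (XT.lf (nat_lit 0) (nat_lit 1971896695) (nat_lit 1444) (nat_lit 5731637545) (nat_lit 1520) (nat_lit 1154601779) (nat_lit 449) (nat_lit 5) (nat_lit 468) (nat_lit 5) (nat_lit 469) (nat_lit 5) (nat_lit 287) (nat_lit 280) (nat_lit 213)) (XT.lf (nat_lit 76) (nat_lit 675465050) (nat_lit 0) (nat_lit 3049749435) (nat_lit 1520) (nat_lit 5243879118) (nat_lit 450) (nat_lit 5) (nat_lit 449) (nat_lit 5) (nat_lit 469) (nat_lit 5) (nat_lit 288) (nat_lit 280) (nat_lit 212)))) (XT.nd (nat_lit 156) (nat_lit 1444) (nat_lit 0) (XT.nd (nat_lit 78) (nat_lit 0) (nat_lit 0) (XT.lf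 (nat_lit 0) (nat_lit 5528766839) (nat_lit 1444) (nat_lit 1776780654) (nat_lit 1520) (nat_lit 1777924901) (nat_lit 450) (nat_lit 5) (nat_lit 469) (nat_lit 5) (nat_lit 470) (nat_lit 5) (nat_lit 289) (nat_lit 280) (nat_lit 211)) (XT.lf (nat_lit 76) (nat_lit 4945243501) (nat_lit 0) (nat_lit 2442439946) (nat_lit 1520) (nat_lit 1813617811) (nat_lit 451) (nat_lit 5) (nat_lit 450) (nat_lit 5) (nat_lit 470) (nat_lit 5) (nat_lit 290) (nat_lit 280) (nat_lit 210))) (XT.nd (nat_lit 78) (nat_lit 1520) (nat_lit 0) (XT.lf (nat_lit 76) (nat_lit 2552182044) (nat_lit 0) (nat_lit 6745666996) (nat_lit 1520) (nat_lit 24948905) (nat_lit 452) (nat_lit 5) (nat_lit 451) (nat_lit 5) (nat_lit 471) (nat_lit 5) (nat_lit 291) (nat_lit 280) (nat_lit 209)) (XT.lf (nat_lit 76) (nat_lit 113234940) (nat_lit 0) (nat_lit 1677401277) (nat_lit 1596) (nat_lit 7657166029) (nat_lit 432) (nat_lit 5) (nat_lit 431) (nat_lit 5) (nat_lit 452)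 (nat_lit 5) (nat_lit 292) (nat_lit 280) (nat_lit 208))))) (XT.nd (nat_lit 234) (nat_lit 4712) (nat_lit 0) (XT.nd (nat_lit 78) (nat_lit 0) (nat_lit 0) (XT.lf (nat_lit 0) (nat_lit 3681814107) (nat_lit 1520) (nat_lit 2338827337) (nat_lit 1596) (nat_lit 3555522003) (nat_lit 432) (nat_lit 5) (nat_lit 452) (nat_lit 5) (nat_lit 453) (nat_lit 5) (nat_lit 293) (nat_lit 280) (nat_lit 207)) (XT.nd (nat_lit 78) (nat_lit 0) (nat_lit 76) (XT.lf (nat_lit 76) (nat_lit 4884685981) (nat_lit 0) (nat_lit 741639160) (nat_lit 1596) (nat_lit 4082156597) (nat_lit 433) (nat_lit 5) (nat_lit 432) (nat_lit 5) (nat_lit 453) (nat_lit 5) (nat_lit 294) (nat_lit 280) (nat_lit 206)) (XT.lf (nat_lit 76) (nat_lit 2478996554) (nat_lit 0) (nat_lit 5167573963) (nat_lit 1596) (nat_lit 2197888175) (nat_lit 434) (nat_lit 5) (nat_lit 433) (nat_lit 5) (nat_lit 454) (nat_lit 5) (nat_lit 295) (nat_lit 280) (nat_lit 205)))) (XT.nd (nat_lit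 156) (nat_lit 3268) (nat_lit 0) (XT.nd (nat_lit 78) (nat_lit 76) (nat_lit 0) (XT.lf (nat_lit 0) (nat_lit 40930527) (nat_lit 1520) (nat_lit 9682311261) (nat_lit 1596) (nat_lit 261392810) (nat_lit 414) (nat_lit 5) (nat_lit 434) (nat_lit 5) (nat_lit 435) (nat_lit 5) (nat_lit 296) (nat_lit 280) (nat_lit 204)) (XT.lf (nat_lit 0) (nat_lit 1752009985) (nat_lit 1596) (nat_lit 2439645163) (nat_lit 76) (nat_lit 5936338976) (nat_lit 413) (nat_lit 5) (nat_lit 434) (nat_lit 5) (nat_lit 414) (nat_lit 5) (nat_lit 297) (nat_lit 280) (nat_lit 203))) (XT.nd (nat_lit 78) (nat_lit 1672) (nat_lit 0) (XT.lf (nat_lit 0) (nat_lit 3824638377) (nat_lit 1672) (nat_lit 4962772432) (nat_lit 76) (nat_lit 1488194856) (nat_lit 392) (nat_lit 5) (nat_lit 414) (nat_lit 5) (nat_lit 393) (nat_lit 5) (nat_lit 298) (nat_lit 280) (nat_lit 202)) (XT.lf (nat_lit 0) (nat_lit 2878466578) (nat_lit 1672) (nat_lit 3103390303) (nat_lit 1748)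 (nat_lit 4445372758) (nat_lit 370) (nat_lit 5) (nat_lit 392) (nat_lit 5) (nat_lit 393) (nat_lit 5) (nat_lit 299) (nat_lit 280) (nat_lit 201))))))))
noncomputable def xc85 : XT := (XT.nd (nat_lit 2106) (nat_lit 7296) (nat_lit 0) (XT.nd (nat_lit 1014) (nat_lit 6460) (nat_lit 0) (XT.nd (nat_lit 468) (nat_lit 4636) (nat_lit 0) (XT.nd (nat_lit 234) (nat_lit 1672) (nat_lit 0) (XT.nd (nat_lit 78) (nat_lit 912) (nat_lit 0) (XT.lf (nat_lit 0) (nat_lit 391791494) (nat_lit 1292) (nat_lit 7826311949) (nat_lit 1368) (nat_lit 2365044032) (nat_lit 353) (nat_lit 5) (nat_lit 370) (nat_lit 5) (nat_lit 371) (nat_lit 5) (nat_lit 300) (nat_lit 280) (nat_lit 200)) (XT.nd (nat_lit 78) (nat_lit 912) (nat_lit 0) (XT.lf (nat_lit 0) (nat_lit 8618030081) (nat_lit 1292) (nat_lit 1936168085) (nat_lit 1368) (nat_lit 188919921) (nat_lit 353) (nat_lit 5) (nat_lit 370) (nat_lit 5) (nat_lit 371) (nat_lit 5) (nat_lit 301) (nat_lit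 280) (nat_lit 199)) (XT.lf (nat_lit 0) (nat_lit 2054980526) (nat_lit 912) (nat_lit 4717779320) (nat_lit 76) (nat_lit 4134302213) (nat_lit 341) (nat_lit 5) (nat_lit 353) (nat_lit 5) (nat_lit 342) (nat_lit 5) (nat_lit 302) (nat_lit 280) (nat_lit 198)))) (XT.nd (nat_lit 78) (nat_lit 836) (nat_lit 0) (XT.lf (nat_lit 0) (nat_lit 3706246366) (nat_lit 836) (nat_lit 671667903) (nat_lit 912) (nat_lit 6697727592) (nat_lit 330) (nat_lit 5) (nat_lit 341) (nat_lit 5) (nat_lit 342) (nat_lit 5) (nat_lit 303) (nat_lit 280) (nat_lit 197)) (XT.nd (nat_lit 78) (nat_lit 0) (nat_lit 0) (XT.lf (nat_lit 0) (nat_lit 1142462354) (nat_lit 836) (nat_lit 5667752138) (nat_lit 912) (nat_lit 4438298322) (nat_lit 319) (nat_lit 5) (nat_lit 330) (nat_lit 5) (nat_lit 331) (nat_lit 5) (nat_lit 304) (nat_lit 280) (nat_lit 196)) (XT.lf (nat_lit 0) (nat_lit 9338498612) (nat_lit 912) (nat_lit 1458595373) (nat_lit 76) (nat_lit 629042144)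 (nat_lit 319) (nat_lit 5) (nat_lit 331) (nat_lit 5) (nat_lit 320) (nat_lit 5) (nat_lit 305) (nat_lit 280) (nat_lit 195))))) (XT.nd (nat_lit 234) (nat_lit 2204) (nat_lit 0) (XT.nd (nat_lit 78) (nat_lit 1520) (nat_lit 0) (XT.lf (nat_lit 0) (nat_lit 381438780) (nat_lit 912) (nat_lit 4136137494) (nat_lit 76) (nat_lit 7090448406) (nat_lit 307) (nat_lit 5) (nat_lit 319) (nat_lit 5) (nat_lit 308) (nat_lit 5) (nat_lit 306) (nat_lit 280) (nat_lit 194)) (XT.nd (nat_lit 78) (nat_lit 760) (nat_lit 0) (XT.lf (nat_lit 0) (nat_lit 2917316748) (nat_lit 836) (nat_lit 6896409630) (nat_lit 76) (nat_lit 1980970198) (nat_lit 297) (nat_lit 5) (nat_lit 308) (nat_lit 5) (nat_lit 298) (nat_lit 5) (nat_lit 307) (nat_lit 280) (nat_lit 193)) (XT.lf (nat_lit 0) (nat_lit 2238895674) (nat_lit 760) (nat_lit 3330166443) (nat_lit 836) (nat_lit 6417134493) (nat_lit 287) (nat_lit 5) (nat_lit 297) (nat_lit 5) (nat_lit 298) (nat_lit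 5) (nat_lit 308) (nat_lit 280) (nat_lit 192)))) (XT.nd (nat_lit 156) (nat_lit 1520) (nat_lit 0) (XT.nd (nat_lit 78) (nat_lit 684) (nat_lit 0) (XT.lf (nat_lit 0) (nat_lit 8336710588) (nat_lit 836) (nat_lit 496030060) (nat_lit 76) (nat_lit 3349997094) (nat_lit 287) (nat_lit 5) (nat_lit 298) (nat_lit 5) (nat_lit 288) (nat_lit 5) (nat_lit 309) (nat_lit 280) (nat_lit 191)) (XT.lf (nat_lit 0) (nat_lit 9096671312) (nat_lit 684) (nat_lit 2140565836) (nat_lit 760) (nat_lit 1146963422) (nat_lit 278) (nat_lit 5) (nat_lit 287) (nat_lit 5) (nat_lit 288) (nat_lit 5) (nat_lit 310) (nat_lit 280) (nat_lit 190))) (XT.nd (nat_lit 78) (nat_lit 684) (nat_lit 0) (XT.lf (nat_lit 0) (nat_lit 1657013354) (nat_lit 836) (nat_lit 6189434466) (nat_lit 76) (nat_lit 4744161575) (nat_lit 267) (nat_lit 5) (nat_lit 278) (nat_lit 5) (nat_lit 268) (nat_lit 5) (nat_lit 311) (nat_lit 280) (nat_lit 189)) (XT.lf (nat_lit 0) (nat_lit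 3614939157) (nat_lit 684) (nat_lit 944561188) (nat_lit 760) (nat_lit 8242979774) (nat_lit 258) (nat_lit 5) (nat_lit 267) (nat_lit 5) (nat_lit 268) (nat_lit 5) (nat_lit 312) (nat_lit 280) (nat_lit 188)))))) (XT.nd (nat_lit 546) (nat_lit 3268) (nat_lit 0) (XT.nd (nat_lit 234) (nat_lit 1824) (nat_lit 0) (XT.nd (nat_lit 78) (nat_lit 684) (nat_lit 0) (XT.lf (nat_lit 0) (nat_lit 714192325) (nat_lit 684) (nat_lit 6892076444) (nat_lit 760) (nat_lit 5413314189) (nat_lit 249) (nat_lit 5) (nat_lit 258) (nat_lit 5) (nat_lit 259) (nat_lit 5) (nat_lit 313) (nat_lit 280) (nat_lit 187)) (XT.nd (nat_lit 78) (nat_lit 684) (nat_lit 0) (XT.lf (nat_lit 0) (nat_lit 10785353484) (nat_lit 760) (nat_lit 2244124570) (nat_lit 76) (nat_lit 212922106) (nat_lit 249) (nat_lit 5) (nat_lit 259) (nat_lit 5) (nat_lit 250) (nat_lit 5) (nat_lit 314) (nat_lit 280) (nat_lit 186)) (XT.lf (nat_lit 0) (nat_lit 651439880) (nat_lit 684)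 (nat_lit 5327288041) (nat_lit 76) (nat_lit 7491691388) (nat_lit 240) (nat_lit 5) (nat_lit 249) (nat_lit 5) (nat_lit 241) (nat_lit 5) (nat_lit 315) (nat_lit 280) (nat_lit 185)))) (XT.nd (nat_lit 156) (nat_lit 608) (nat_lit 0) (XT.nd (nat_lit 78) (nat_lit 608) (nat_lit 0) (XT.lf (nat_lit 0) (nat_lit 3849931029) (nat_lit 684) (nat_lit 8526143667) (nat_lit 76) (nat_lit 1328294942) (nat_lit 232) (nat_lit 5) (nat_lit 241) (nat_lit 5) (nat_lit 233) (nat_lit 5) (nat_lit 316) (nat_lit 280) (nat_lit 184)) (XT.lf (nat_lit 0) (nat_lit 2082178234) (nat_lit 608) (nat_lit 5124830567) (nat_lit 684) (nat_lit 6737094573) (nat_lit 224) (nat_lit 5) (nat_lit 232) (nat_lit 5) (nat_lit 233) (nat_lit 5) (nat_lit 317) (nat_lit 280) (nat_lit 183))) (XT.nd (nat_lit 78) (nat_lit 608) (nat_lit 0) (XT.lf (nat_lit 0) (nat_lit 10711523003) (nat_lit 684) (nat_lit 1112131874) (nat_lit 76) (nat_lit 2366456787) (nat_lit 224) (nat_lit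 5) (nat_lit 233) (nat_lit 5) (nat_lit 225) (nat_lit 5) (nat_lit 318) (nat_lit 280) (nat_lit 182)) (XT.lf (nat_lit 0) (nat_lit 10026199797) (nat_lit 608) (nat_lit 4368465031) (nat_lit 684) (nat_lit 47382059) (nat_lit 216) (nat_lit 5) (nat_lit 224) (nat_lit 5) (nat_lit 225) (nat_lit 5) (nat_lit 319) (nat_lit 280) (nat_lit 181))))) (XT.nd (nat_lit 234) (nat_lit 2128) (nat_lit 0) (XT.nd (nat_lit 78) (nat_lit 532) (nat_lit 0) (XT.lf (nat_lit 0) (nat_lit 3489529517) (nat_lit 608) (nat_lit 7873904195) (nat_lit 76) (nat_lit 3336699454) (nat_lit 208) (nat_lit 5) (nat_lit 216) (nat_lit 5) (nat_lit 209) (nat_lit 5) (nat_lit 320) (nat_lit 280) (nat_lit 180)) (XT.nd (nat_lit 78) (nat_lit 0) (nat_lit 0) (XT.lf (nat_lit 0) (nat_lit 3485631728) (nat_lit 532) (nat_lit 3703245908) (nat_lit 608) (nat_lit 7775953948) (nat_lit 201) (nat_lit 5) (nat_lit 208) (nat_lit 5) (nat_lit 209) (nat_lit 5) (nat_lit 321) (nat_lit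 280) (nat_lit 179)) (XT.lf (nat_lit 0) (nat_lit 11055592655) (nat_lit 608) (nat_lit 1171998) (nat_lit 76) (nat_lit 4179593402) (nat_lit 201) (nat_lit 5) (nat_lit 209) (nat_lit 5) (nat_lit 202) (nat_lit 5) (nat_lit 322) (nat_lit 280) (nat_lit 178)))) (XT.nd (nat_lit 156) (nat_lit 988) (nat_lit 0) (XT.nd (nat_lit 78) (nat_lit 608) (nat_lit 0) (XT.lf (nat_lit 0) (nat_lit 11922737537) (nat_lit 532) (nat_lit 3193954825) (nat_lit 608) (nat_lit 397784691) (nat_lit 194) (nat_lit 5) (nat_lit 201) (nat_lit 5) (nat_lit 202) (nat_lit 5) (nat_lit 323) (nat_lit 280) (nat_lit 177)) (XT.lf (nat_lit 0) (nat_lit 3516605098) (nat_lit 608) (nat_lit 7370383903) (nat_lit 76) (nat_lit 4912233896) (nat_lit 186) (nat_lit 5) (nat_lit 194) (nat_lit 5) (nat_lit 187) (nat_lit 5) (nat_lit 324) (nat_lit 280) (nat_lit 176))) (XT.nd (nat_lit 78) (nat_lit 532) (nat_lit 0) (XT.lf (nat_lit 0) (nat_lit 4775783160) (nat_lit 456) (nat_lit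 2821127803) (nat_lit 532) (nat_lit 8494483097) (nat_lit 180) (nat_lit 5) (nat_lit 186) (nat_lit 5) (nat_lit 187) (nat_lit 5) (nat_lit 325) (nat_lit 280) (nat_lit 175)) (XT.lf (nat_lit 0) (nat_lit 942516804) (nat_lit 532) (nat_lit 10926552993) (nat_lit 608) (nat_lit 4521884602) (nat_lit 173) (nat_lit 5) (nat_lit 180) (nat_lit 5) (nat_lit 181) (nat_lit 5) (nat_lit 326) (nat_lit 280) (nat_lit 174))))))) (XT.nd (nat_lit 1014) (nat_lit 3268) (nat_lit 0) (XT.nd (nat_lit 468) (nat_lit 2052) (nat_lit 0) (XT.nd (nat_lit 234) (nat_lit 988) (nat_lit 0) (XT.nd (nat_lit 78) (nat_lit 988) (nat_lit 0) (XT.lf (nat_lit 0) (nat_lit 13674863418) (nat_lit 532) (nat_lit 2667843598) (nat_lit 608) (nat_lit 355340799) (nat_lit 173) (nat_lit 5) (nat_lit 180) (nat_lit 5) (nat_lit 181) (nat_lit 5) (nat_lit 327) (nat_lit 280) (nat_lit 173)) (XT.nd (nat_lit 78) (nat_lit 456) (nat_lit 0) (XT.lf (nat_lit 0) (nat_lit 3965364097)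 (nat_lit 532) (nat_lit 7201756051) (nat_lit 76) (nat_lit 5845118920) (nat_lit 166) (nat_lit 5) (nat_lit 173) (nat_lit 5) (nat_lit 167) (nat_lit 5) (nat_lit 328) (nat_lit 280) (nat_lit 172)) (XT.lf (nat_lit 0) (nat_lit 5761641523) (nat_lit 456) (nat_lit 2703902683) (nat_lit 532) (nat_lit 8869182831) (nat_lit 160) (nat_lit 5) (nat_lit 166) (nat_lit 5) (nat_lit 167) (nat_lit 5) (nat_lit 329) (nat_lit 280) (nat_lit 171)))) (XT.nd (nat_lit 78) (nat_lit 532) (nat_lit 0) (XT.lf (nat_lit 0) (nat_lit 1498311879) (nat_lit 456) (nat_lit 11679481951) (nat_lit 532) (nat_lit 4487565784) (nat_lit 154) (nat_lit 5) (nat_lit 160) (nat_lit 5) (nat_lit 161) (nat_lit 5) (nat_lit 330) (nat_lit 280) (nat_lit 170)) (XT.nd (nat_lit 78) (nat_lit 456) (nat_lit 0) (XT.lf (nat_lit 0) (nat_lit 101637770) (nat_lit 532) (nat_lit 2931244553) (nat_lit 76) (nat_lit 14971506796) (nat_lit 153) (nat_lit 5) (nat_lit 160) (nat_lit 5)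 (nat_lit 154) (nat_lit 5) (nat_lit 331) (nat_lit 280) (nat_lit 169)) (XT.lf (nat_lit 0) (nat_lit 4856714965) (nat_lit 532) (nat_lit 7605240179) (nat_lit 76) (nat_lit 5889268186) (nat_lit 147) (nat_lit 5) (nat_lit 154) (nat_lit 5) (nat_lit 148) (nat_lit 5) (nat_lit 332) (nat_lit 280) (nat_lit 168))))) (XT.nd (nat_lit 234) (nat_lit 1140) (nat_lit 0) (XT.nd (nat_lit 78) (nat_lit 532) (nat_lit 0) (XT.lf (nat_lit 0) (nat_lit 6198995403) (nat_lit 380) (nat_lit 3616376324) (nat_lit 456) (nat_lit 8891882392) (nat_lit 142) (nat_lit 5) (nat_lit 147) (nat_lit 5) (nat_lit 148) (nat_lit 5) (nat_lit 333) (nat_lit 280) (nat_lit 167)) (XT.nd (nat_lit 78) (nat_lit 76) (nat_lit 0) (XT.lf (nat_lit 0) (nat_lit 1403541973) (nat_lit 456) (nat_lit 13596657051) (nat_lit 532) (nat_lit 4072228390) (nat_lit 136) (nat_lit 5) (nat_lit 142) (nat_lit 5) (nat_lit 143) (nat_lit 5) (nat_lit 334) (nat_lit 280) (nat_lit 166)) (XT.lf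 (nat_lit 0) (nat_lit 970820327) (nat_lit 532) (nat_lit 3600678630) (nat_lit 76) (nat_lit 14875140368) (nat_lit 135) (nat_lit 5) (nat_lit 142) (nat_lit 5) (nat_lit 136) (nat_lit 5) (nat_lit 335) (nat_lit 280) (nat_lit 165)))) (XT.nd (nat_lit 156) (nat_lit 380) (nat_lit 0) (XT.nd (nat_lit 78) (nat_lit 380) (nat_lit 0) (XT.lf (nat_lit 0) (nat_lit 6194266138) (nat_lit 456) (nat_lit 8881814910) (nat_lit 76) (nat_lit 4753778629) (nat_lit 130) (nat_lit 5) (nat_lit 136) (nat_lit 5) (nat_lit 131) (nat_lit 5) (nat_lit 336) (nat_lit 280) (nat_lit 164)) (XT.lf (nat_lit 0) (nat_lit 5777172055) (nat_lit 380) (nat_lit 5871754443) (nat_lit 456) (nat_lit 8574168712) (nat_lit 125) (nat_lit 5) (nat_lit 130) (nat_lit 5) (nat_lit 131) (nat_lit 5) (nat_lit 337) (nat_lit 280) (nat_lit 163))) (XT.nd (nat_lit 78) (nat_lit 76) (nat_lit 0) (XT.lf (nat_lit 0) (nat_lit 324835745) (nat_lit 304) (nat_lit 17010691600) (nat_lit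 380) (nat_lit 3291242988) (nat_lit 121) (nat_lit 5) (nat_lit 125) (nat_lit 5) (nat_lit 126) (nat_lit 5) (nat_lit 338) (nat_lit 280) (nat_lit 162)) (XT.lf (nat_lit 0) (nat_lit 2242181089) (nat_lit 380) (nat_lit 5384011420) (nat_lit 76) (nat_lit 13413687909) (nat_lit 120) (nat_lit 5) (nat_lit 125) (nat_lit 5) (nat_lit 121) (nat_lit 5) (nat_lit 339) (nat_lit 280) (nat_lit 161)))))) (XT.nd (nat_lit 546) (nat_lit 1520) (nat_lit 0) (XT.nd (nat_lit 234) (nat_lit 1064) (nat_lit 0) (XT.nd (nat_lit 78) (nat_lit 304) (nat_lit 0) (XT.lf (nat_lit 0) (nat_lit 7959191429) (nat_lit 456) (nat_lit 11411532174) (nat_lit 76) (nat_lit 2092987018) (nat_lit 115) (nat_lit 5) (nat_lit 121) (nat_lit 5) (nat_lit 116) (nat_lit 5) (nat_lit 340) (nat_lit 280) (nat_lit 160)) (XT.nd (nat_lit 78) (nat_lit 0) (nat_lit 0) (XT.lf (nat_lit 0) (nat_lit 4103079468) (nat_lit 304) (nat_lit 9842199011) (nat_lit 380) (nat_lit 7953033585)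 (nat_lit 111) (nat_lit 5) (nat_lit 115) (nat_lit 5) (nat_lit 116) (nat_lit 5) (nat_lit 341) (nat_lit 280) (nat_lit 159)) (XT.lf (nat_lit 0) (nat_lit 20172084508) (nat_lit 380) (nat_lit 2130396970) (nat_lit 76) (nat_lit 42254779) (nat_lit 111) (nat_lit 5) (nat_lit 116) (nat_lit 5) (nat_lit 112) (nat_lit 5) (nat_lit 342) (nat_lit 280) (nat_lit 158)))) (XT.nd (nat_lit 156) (nat_lit 304) (nat_lit 0) (XT.nd (nat_lit 78) (nat_lit 304) (nat_lit 0) (XT.lf (nat_lit 0) (nat_lit 3873798534) (nat_lit 456) (nat_lit 8728006108) (nat_lit 76) (nat_lit 10199419671) (nat_lit 105) (nat_lit 5) (nat_lit 111) (nat_lit 5) (nat_lit 106) (nat_lit 5) (nat_lit 343) (nat_lit 280) (nat_lit 157)) (XT.lf (nat_lit 0) (nat_lit 7581706532) (nat_lit 304) (nat_lit 2538502710) (nat_lit 380) (nat_lit 13149955723) (nat_lit 101) (nat_lit 5) (nat_lit 105) (nat_lit 5) (nat_lit 106) (nat_lit 5) (nat_lit 344) (nat_lit 280) (nat_lit 156)))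 (XT.nd (nat_lit 78) (nat_lit 0) (nat_lit 0) (XT.lf (nat_lit 0) (nat_lit 681964095) (nat_lit 304) (nat_lit 15971241134) (nat_lit 380) (nat_lit 7097991419) (nat_lit 97) (nat_lit 5) (nat_lit 101) (nat_lit 5) (nat_lit 102) (nat_lit 5) (nat_lit 345) (nat_lit 280) (nat_lit 155)) (XT.lf (nat_lit 0) (nat_lit 17717470353) (nat_lit 304) (nat_lit 5772609690) (nat_lit 380) (nat_lit 754427938) (nat_lit 97) (nat_lit 5) (nat_lit 101) (nat_lit 5) (nat_lit 102) (nat_lit 5) (nat_lit 346) (nat_lit 280) (nat_lit 154))))) (XT.nd (nat_lit 234) (nat_lit 836) (nat_lit 0) (XT.nd (nat_lit 78) (nat_lit 304) (nat_lit 0) (XT.lf (nat_lit 0) (nat_lit 5788828742) (nat_lit 380) (nat_lit 14192478844) (nat_lit 76) (nat_lit 4768863061) (nat_lit 92) (nat_lit 5) (nat_lit 97) (nat_lit 5) (nat_lit 93) (nat_lit 5) (nat_lit 347) (nat_lit 280) (nat_lit 153)) (XT.nd (nat_lit 78) (nat_lit 0) (nat_lit 0) (XT.lf (nat_lit 0) (nat_lit 2945918098)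 (nat_lit 304) (nat_lit 9659817532) (nat_lit 380) (nat_lit 12663421767) (nat_lit 88) (nat_lit 5) (nat_lit 92) (nat_lit 5) (nat_lit 93) (nat_lit 5) (nat_lit 348) (nat_lit 280) (nat_lit 152)) (XT.lf (nat_lit 0) (nat_lit 19715785299) (nat_lit 380) (nat_lit 5038830275) (nat_lit 76) (nat_lit 1047331277) (nat_lit 88) (nat_lit 5) (nat_lit 93) (nat_lit 5) (nat_lit 89) (nat_lit 5) (nat_lit 349) (nat_lit 280) (nat_lit 151)))) (XT.nd (nat_lit 156) (nat_lit 228) (nat_lit 0) (XT.nd (nat_lit 78) (nat_lit 304) (nat_lit 0) (XT.lf (nat_lit 0) (nat_lit 814213577) (nat_lit 304) (nat_lit 13507584098) (nat_lit 76) (nat_lit 12026141936) (nat_lit 84) (nat_lit 5) (nat_lit 88) (nat_lit 5) (nat_lit 85) (nat_lit 5) (nat_lit 350) (nat_lit 280) (nat_lit 150)) (XT.lf (nat_lit 0) (nat_lit 4410175437) (nat_lit 304) (nat_lit 3478325824) (nat_lit 380) (nat_lit 19020019904) (nat_lit 80) (nat_lit 5) (nat_lit 84) (nat_lit 5) (nat_lit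 85) (nat_lit 5) (nat_lit 351) (nat_lit 280) (nat_lit 149))) (XT.nd (nat_lit 78) (nat_lit 228) (nat_lit 0) (XT.lf (nat_lit 0) (nat_lit 15303411263) (nat_lit 380) (nat_lit 4506131993) (nat_lit 76) (nat_lit 7673814252) (nat_lit 80) (nat_lit 5) (nat_lit 85) (nat_lit 5) (nat_lit 81) (nat_lit 5) (nat_lit 352) (nat_lit 280) (nat_lit 148)) (XT.lf (nat_lit 0) (nat_lit 14167162329) (nat_lit 228) (nat_lit 8875572633) (nat_lit 304) (nat_lit 5030669713) (nat_lit 77) (nat_lit 5) (nat_lit 80) (nat_lit 5) (nat_lit 81) (nat_lit 5) (nat_lit 353) (nat_lit 280) (nat_lit 147))))))))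
noncomputable def xc86 : XT := (XT.nd (nat_lit 36660) (nat_lit 0) (nat_lit 7676) (XT.nd (nat_lit 35568) (nat_lit 0) (nat_lit 21812) (XT.nd (nat_lit 35022) (nat_lit 0) (nat_lit 29032) (XT.nd (nat_lit 234) (nat_lit 304) (nat_lit 0) (XT.nd (nat_lit 78) (nat_lit 228) (nat_lit 0) (XT.lf (nat_lit 0) (nat_lit 2367278985) (nat_lit 380) (nat_lit 23887388871) (nat_lit 76) (nat_lit 2424891406) (nat_lit 72) (nat_lit 5) (nat_lit 77) (nat_lit 5) (nat_lit 73) (nat_lit 5) (nat_lit 354) (nat_lit 280) (nat_lit 146)) (XT.nd (nat_lit 78) (nat_lit 228) (nat_lit 0) (XT.lf (nat_lit 0) (nat_lit 10060499906) (nat_lit 380) (nat_lit 5174682400) (nat_lit 76) (nat_lit 14065222188) (nat_lit 72) (nat_lit 5) (nat_lit 77) (nat_lit 5) (nat_lit 73) (nat_lit 5) (nat_lit 355) (nat_lit 280) (nat_lit 145)) (XT.lf (nat_lit 0) (nat_lit 14266184900) (nat_lit 228) (nat_lit 3798413628) (nat_lit 304) (nat_lit 11873679476) (nat_lit 69) (nat_lit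 5) (nat_lit 72) (nat_lit 5) (nat_lit 73) (nat_lit 5) (nat_lit 356) (nat_lit 280) (nat_lit 144)))) (XT.nd (nat_lit 78) (nat_lit 76) (nat_lit 0) (XT.lf (nat_lit 0) (nat_lit 3743370613) (nat_lit 228) (nat_lit 22664513563) (nat_lit 304) (nat_lit 4185426672) (nat_lit 66) (nat_lit 5) (nat_lit 69) (nat_lit 5) (nat_lit 70) (nat_lit 5) (nat_lit 357) (nat_lit 280) (nat_lit 143)) (XT.nd (nat_lit 34632) (nat_lit 0) (nat_lit 30324) (XT.lf (nat_lit 0) (nat_lit 3804600198) (nat_lit 304) (nat_lit 7380429293) (nat_lit 76) (nat_lit 20080082746) (nat_lit 65) (nat_lit 5) (nat_lit 69) (nat_lit 5) (nat_lit 66) (nat_lit 5) (nat_lit 358) (nat_lit 280) (nat_lit 142)) (XT.lf (nat_lit 0) (nat_lit 981797962) (nat_lit 1444) (nat_lit 1596894060) (nat_lit 1444) (nat_lit 1596894060) (nat_lit 464) (nat_lit 3) (nat_lit 483) (nat_lit 3) (nat_lit 483) (nat_lit 5) (nat_lit 281) (nat_lit 281) (nat_lit 218))))) (XT.nd (nat_lit 234)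 (nat_lit 1292) (nat_lit 0) (XT.nd (nat_lit 78) (nat_lit 0) (nat_lit 76) (XT.lf (nat_lit 76) (nat_lit 2574143653) (nat_lit 0) (nat_lit 977272276) (nat_lit 1444) (nat_lit 4892487639) (nat_lit 465) (nat_lit 5) (nat_lit 464) (nat_lit 3) (nat_lit 483) (nat_lit 5) (nat_lit 282) (nat_lit 281) (nat_lit 217)) (XT.nd (nat_lit 78) (nat_lit 0) (nat_lit 0) (XT.lf (nat_lit 0) (nat_lit 5170086583) (nat_lit 1368) (nat_lit 34476515) (nat_lit 1444) (nat_lit 3335242918) (nat_lit 465) (nat_lit 5) (nat_lit 483) (nat_lit 5) (nat_lit 484) (nat_lit 5) (nat_lit 283) (nat_lit 281) (nat_lit 216)) (XT.lf (nat_lit 76) (nat_lit 6016617190) (nat_lit 0) (nat_lit 807873706) (nat_lit 1444) (nat_lit 1814403036) (nat_lit 466) (nat_lit 5) (nat_lit 465) (nat_lit 5) (nat_lit 484) (nat_lit 5) (nat_lit 284) (nat_lit 281) (nat_lit 215)))) (XT.nd (nat_lit 156) (nat_lit 0) (nat_lit 76) (XT.nd (nat_lit 78) (nat_lit 1444) (nat_lit 0) (XT.lf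 (nat_lit 76) (nat_lit 3498018817) (nat_lit 0) (nat_lit 5020854097) (nat_lit 1444) (nat_lit 222325017) (nat_lit 467) (nat_lit 5) (nat_lit 466) (nat_lit 5) (nat_lit 485) (nat_lit 5) (nat_lit 285) (nat_lit 281) (nat_lit 214)) (XT.lf (nat_lit 76) (nat_lit 956698209) (nat_lit 0) (nat_lit 416000165) (nat_lit 1520) (nat_lit 7474261057) (nat_lit 448) (nat_lit 5) (nat_lit 447) (nat_lit 5) (nat_lit 467) (nat_lit 5) (nat_lit 286) (nat_lit 281) (nat_lit 213))) (XT.nd (nat_lit 78) (nat_lit 0) (nat_lit 76) (XT.lf (nat_lit 0) (nat_lit 3022258146) (nat_lit 1444) (nat_lit 1604130179) (nat_lit 1520) (nat_lit 4329328471) (nat_lit 448) (nat_lit 5) (nat_lit 467) (nat_lit 5) (nat_lit 468) (nat_lit 5) (nat_lit 287) (nat_lit 281) (nat_lit 212)) (XT.lf (nat_lit 0) (nat_lit 4704580397) (nat_lit 1444) (nat_lit 4169852341) (nat_lit 1520) (nat_lit 193683810) (nat_lit 449) (nat_lit 5) (nat_lit 468) (nat_lit 5) (nat_lit 469)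 (nat_lit 5) (nat_lit 288) (nat_lit 281) (nat_lit 211)))))) (XT.nd (nat_lit 546) (nat_lit 5928) (nat_lit 0) (XT.nd (nat_lit 234) (nat_lit 0) (nat_lit 76) (XT.nd (nat_lit 78) (nat_lit 1444) (nat_lit 0) (XT.lf (nat_lit 76) (nat_lit 2401335553) (nat_lit 0) (nat_lit 4042366385) (nat_lit 1520) (nat_lit 2740103625) (nat_lit 450) (nat_lit 5) (nat_lit 449) (nat_lit 5) (nat_lit 469) (nat_lit 5) (nat_lit 289) (nat_lit 281) (nat_lit 210)) (XT.nd (nat_lit 78) (nat_lit 1520) (nat_lit 0) (XT.lf (nat_lit 0) (nat_lit 8219756369) (nat_lit 1444) (nat_lit 115697571) (nat_lit 1520) (nat_lit 967858709) (nat_lit 450) (nat_lit 5) (nat_lit 469) (nat_lit 5) (nat_lit 470) (nat_lit 5) (nat_lit 290) (nat_lit 281) (nat_lit 209)) (XT.lf (nat_lit 0) (nat_lit 637381708) (nat_lit 1520) (nat_lit 2650011149) (nat_lit 1596) (nat_lit 6138514549) (nat_lit 430) (nat_lit 5) (nat_lit 450) (nat_lit 5) (nat_lit 451) (nat_lit 5) (nat_lit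 291) (nat_lit 281) (nat_lit 208)))) (XT.nd (nat_lit 156) (nat_lit 0) (nat_lit 76) (XT.nd (nat_lit 78) (nat_lit 0) (nat_lit 0) (XT.lf (nat_lit 0) (nat_lit 2389571634) (nat_lit 1520) (nat_lit 5224794773) (nat_lit 1596) (nat_lit 1937822806) (nat_lit 431) (nat_lit 5) (nat_lit 451) (nat_lit 5) (nat_lit 452) (nat_lit 5) (nat_lit 292) (nat_lit 281) (nat_lit 207)) (XT.lf (nat_lit 76) (nat_lit 1837032989) (nat_lit 0) (nat_lit 2363086455) (nat_lit 1596) (nat_lit 5482062394) (nat_lit 432) (nat_lit 5) (nat_lit 431) (nat_lit 5) (nat_lit 452) (nat_lit 5) (nat_lit 293) (nat_lit 281) (nat_lit 206))) (XT.nd (nat_lit 78) (nat_lit 0) (nat_lit 0) (XT.lf (nat_lit 0) (nat_lit 6075413135) (nat_lit 1520) (nat_lit 687069173) (nat_lit 1596) (nat_lit 3053420441) (nat_lit 432) (nat_lit 5) (nat_lit 452) (nat_lit 5) (nat_lit 453) (nat_lit 5) (nat_lit 294) (nat_lit 281) (nat_lit 205)) (XT.lf (nat_lit 76) (nat_lit 6725213390)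 (nat_lit 0) (nat_lit 1297545238) (nat_lit 1596) (nat_lit 1930596813) (nat_lit 433) (nat_lit 5) (nat_lit 432) (nat_lit 5) (nat_lit 453) (nat_lit 5) (nat_lit 295) (nat_lit 281) (nat_lit 204))))) (XT.nd (nat_lit 234) (nat_lit 4560) (nat_lit 0) (XT.nd (nat_lit 78) (nat_lit 1596) (nat_lit 0) (XT.lf (nat_lit 76) (nat_lit 4268907275) (nat_lit 0) (nat_lit 5777595756) (nat_lit 1596) (nat_lit 48104079) (nat_lit 434) (nat_lit 5) (nat_lit 433) (nat_lit 5) (nat_lit 454) (nat_lit 5) (nat_lit 296) (nat_lit 281) (nat_lit 203)) (XT.nd (nat_lit 78) (nat_lit 0) (nat_lit 76) (XT.lf (nat_lit 76) (nat_lit 1764027277) (nat_lit 0) (nat_lit 102358502) (nat_lit 1672) (nat_lit 8373491868) (nat_lit 413) (nat_lit 5) (nat_lit 412) (nat_lit 5) (nat_lit 434) (nat_lit 5) (nat_lit 297) (nat_lit 281) (nat_lit 202)) (XT.lf (nat_lit 0) (nat_lit 3873914687) (nat_lit 1596) (nat_lit 799163302) (nat_lit 76) (nat_lit 5715729106) (nat_lit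 413) (nat_lit 5) (nat_lit 434) (nat_lit 5) (nat_lit 414) (nat_lit 5) (nat_lit 298) (nat_lit 281) (nat_lit 201)))) (XT.nd (nat_lit 156) (nat_lit 1368) (nat_lit 0) (XT.nd (nat_lit 78) (nat_lit 1672) (nat_lit 0) (XT.lf (nat_lit 0) (nat_lit 5957226026) (nat_lit 1672) (nat_lit 3381624593) (nat_lit 76) (nat_lit 1203074048) (nat_lit 392) (nat_lit 5) (nat_lit 414) (nat_lit 5) (nat_lit 393) (nat_lit 5) (nat_lit 299) (nat_lit 281) (nat_lit 200)) (XT.lf (nat_lit 0) (nat_lit 4666783890) (nat_lit 1672) (nat_lit 3464655184) (nat_lit 1748) (nat_lit 2567659102) (nat_lit 370) (nat_lit 5) (nat_lit 392) (nat_lit 5) (nat_lit 393) (nat_lit 5) (nat_lit 300) (nat_lit 281) (nat_lit 199))) (XT.nd (nat_lit 78) (nat_lit 76) (nat_lit 0) (XT.lf (nat_lit 0) (nat_lit 2119893082) (nat_lit 1292) (nat_lit 8266950912) (nat_lit 1368) (nat_lit 473853156) (nat_lit 353) (nat_lit 5) (nat_lit 370) (nat_lit 5) (nat_lit 371) (nat_lit 5)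 (nat_lit 301) (nat_lit 281) (nat_lit 198)) (XT.lf (nat_lit 0) (nat_lit 1687972636) (nat_lit 1368) (nat_lit 494807292) (nat_lit 76) (nat_lit 8843628291) (nat_lit 352) (nat_lit 5) (nat_lit 370) (nat_lit 5) (nat_lit 353) (nat_lit 5) (nat_lit 302) (nat_lit 281) (nat_lit 197))))))) (XT.nd (nat_lit 1014) (nat_lit 6308) (nat_lit 0) (XT.nd (nat_lit 468) (nat_lit 3648) (nat_lit 0) (XT.nd (nat_lit 234) (nat_lit 1672) (nat_lit 0) (XT.nd (nat_lit 78) (nat_lit 1672) (nat_lit 0) (XT.lf (nat_lit 0) (nat_lit 3951584144) (nat_lit 912) (nat_lit 3154789088) (nat_lit 76) (nat_lit 4089814694) (nat_lit 341) (nat_lit 5) (nat_lit 353) (nat_lit 5) (nat_lit 342) (nat_lit 5) (nat_lit 303) (nat_lit 281) (nat_lit 196)) (XT.nd (nat_lit 78) (nat_lit 836) (nat_lit 0) (XT.lf (nat_lit 0) (nat_lit 5494303498) (nat_lit 836) (nat_lit 807344485) (nat_lit 912) (nat_lit 5069068694) (nat_lit 330) (nat_lit 5) (nat_lit 341) (nat_lit 5)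 (nat_lit 342) (nat_lit 5) (nat_lit 304) (nat_lit 281) (nat_lit 195)) (XT.lf (nat_lit 0) (nat_lit 2863729656) (nat_lit 836) (nat_lit 5901206691) (nat_lit 912) (nat_lit 2784716248) (nat_lit 319) (nat_lit 5) (nat_lit 330) (nat_lit 5) (nat_lit 331) (nat_lit 5) (nat_lit 305) (nat_lit 281) (nat_lit 194)))) (XT.nd (nat_lit 78) (nat_lit 836) (nat_lit 0) (XT.lf (nat_lit 0) (nat_lit 173436772) (nat_lit 836) (nat_lit 11145375528) (nat_lit 912) (nat_lit 414835520) (nat_lit 308) (nat_lit 5) (nat_lit 319) (nat_lit 5) (nat_lit 320) (nat_lit 5) (nat_lit 306) (nat_lit 281) (nat_lit 193)) (XT.nd (nat_lit 78) (nat_lit 760) (nat_lit 0) (XT.lf (nat_lit 0) (nat_lit 2065328536) (nat_lit 912) (nat_lit 2590423041) (nat_lit 76) (nat_lit 7265856822) (nat_lit 307) (nat_lit 5) (nat_lit 319) (nat_lit 5) (nat_lit 308) (nat_lit 5) (nat_lit 307) (nat_lit 281) (nat_lit 192)) (XT.lf (nat_lit 0) (nat_lit 4639290298) (nat_lit 836)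 (nat_lit 5426786876) (nat_lit 76) (nat_lit 2048598316) (nat_lit 297) (nat_lit 5) (nat_lit 308) (nat_lit 5) (nat_lit 298) (nat_lit 5) (nat_lit 308) (nat_lit 281) (nat_lit 191))))) (XT.nd (nat_lit 234) (nat_lit 2128) (nat_lit 0) (XT.nd (nat_lit 78) (nat_lit 760) (nat_lit 0) (XT.lf (nat_lit 0) (nat_lit 3955378123) (nat_lit 760) (nat_lit 3378312898) (nat_lit 836) (nat_lit 4979001607) (nat_lit 287) (nat_lit 5) (nat_lit 297) (nat_lit 5) (nat_lit 298) (nat_lit 5) (nat_lit 309) (nat_lit 281) (nat_lit 190)) (XT.nd (nat_lit 78) (nat_lit 76) (nat_lit 0) (XT.lf (nat_lit 0) (nat_lit 1137079131) (nat_lit 684) (nat_lit 9008467962) (nat_lit 760) (nat_lit 2370392504) (nat_lit 278) (nat_lit 5) (nat_lit 287) (nat_lit 5) (nat_lit 288) (nat_lit 5) (nat_lit 310) (nat_lit 281) (nat_lit 189)) (XT.lf (nat_lit 0) (nat_lit 361823067) (nat_lit 760) (nat_lit 1750547849) (nat_lit 76) (nat_lit 10611902721) (nat_lit 277) (nat_lit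 5) (nat_lit 287) (nat_lit 5) (nat_lit 278) (nat_lit 5) (nat_lit 311) (nat_lit 281) (nat_lit 188)))) (XT.nd (nat_lit 156) (nat_lit 684) (nat_lit 0) (XT.nd (nat_lit 78) (nat_lit 684) (nat_lit 0) (XT.lf (nat_lit 0) (nat_lit 3201027947) (nat_lit 836) (nat_lit 4743398769) (nat_lit 76) (nat_lit 4992993203) (nat_lit 267) (nat_lit 5) (nat_lit 278) (nat_lit 5) (nat_lit 268) (nat_lit 5) (nat_lit 312) (nat_lit 281) (nat_lit 187)) (XT.lf (nat_lit 0) (nat_lit 5328633365) (nat_lit 684) (nat_lit 828855080) (nat_lit 760) (nat_lit 6998850097) (nat_lit 258) (nat_lit 5) (nat_lit 267) (nat_lit 5) (nat_lit 268) (nat_lit 5) (nat_lit 313) (nat_lit 281) (nat_lit 186))) (XT.nd (nat_lit 78) (nat_lit 0) (nat_lit 0) (XT.lf (nat_lit 0) (nat_lit 2343626630) (nat_lit 684) (nat_lit 6920822220) (nat_lit 760) (nat_lit 4116158729) (nat_lit 249) (nat_lit 5) (nat_lit 258) (nat_lit 5) (nat_lit 259) (nat_lit 5) (nat_lit 314) (nat_lit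 281) (nat_lit 185)) (XT.lf (nat_lit 0) (nat_lit 12498377991) (nat_lit 760) (nat_lit 722695297) (nat_lit 76) (nat_lit 389874622) (nat_lit 249) (nat_lit 5) (nat_lit 259) (nat_lit 5) (nat_lit 250) (nat_lit 5) (nat_lit 315) (nat_lit 281) (nat_lit 184)))))) (XT.nd (nat_lit 546) (nat_lit 2660) (nat_lit 0) (XT.nd (nat_lit 234) (nat_lit 1748) (nat_lit 0) (XT.nd (nat_lit 78) (nat_lit 1216) (nat_lit 0) (XT.lf (nat_lit 0) (nat_lit 2040021822) (nat_lit 684) (nat_lit 3905045551) (nat_lit 76) (nat_lit 7901193794) (nat_lit 240) (nat_lit 5) (nat_lit 249) (nat_lit 5) (nat_lit 241) (nat_lit 5) (nat_lit 316) (nat_lit 281) (nat_lit 183)) (XT.nd (nat_lit 78) (nat_lit 608) (nat_lit 0) (XT.lf (nat_lit 0) (nat_lit 5306107654) (nat_lit 684) (nat_lit 7199294223) (nat_lit 76) (nat_lit 1582421251) (nat_lit 232) (nat_lit 5) (nat_lit 241) (nat_lit 5) (nat_lit 233) (nat_lit 5) (nat_lit 317) (nat_lit 281) (nat_lit 182)) (XT.lf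 (nat_lit 0) (nat_lit 3701600982) (nat_lit 608) (nat_lit 5033356683) (nat_lit 684) (nat_lit 5600395179) (nat_lit 224) (nat_lit 5) (nat_lit 232) (nat_lit 5) (nat_lit 233) (nat_lit 5) (nat_lit 318) (nat_lit 281) (nat_lit 181)))) (XT.nd (nat_lit 156) (nat_lit 1064) (nat_lit 0) (XT.nd (nat_lit 78) (nat_lit 76) (nat_lit 0) (XT.lf (nat_lit 0) (nat_lit 396046850) (nat_lit 608) (nat_lit 11914471613) (nat_lit 684) (nat_lit 2278929129) (nat_lit 216) (nat_lit 5) (nat_lit 224) (nat_lit 5) (nat_lit 225) (nat_lit 5) (nat_lit 319) (nat_lit 281) (nat_lit 180)) (XT.lf (nat_lit 0) (nat_lit 1208633476) (nat_lit 684) (nat_lit 3019105239) (nat_lit 76) (nat_lit 10621664776) (nat_lit 215) (nat_lit 5) (nat_lit 224) (nat_lit 5) (nat_lit 216) (nat_lit 5) (nat_lit 320) (nat_lit 281) (nat_lit 179))) (XT.nd (nat_lit 78) (nat_lit 532) (nat_lit 0) (XT.lf (nat_lit 0) (nat_lit 4825952077) (nat_lit 608) (nat_lit 6582453648) (nat_lit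 76) (nat_lit 3707344079) (nat_lit 208) (nat_lit 5) (nat_lit 216) (nat_lit 5) (nat_lit 209) (nat_lit 5) (nat_lit 321) (nat_lit 281) (nat_lit 178)) (XT.lf (nat_lit 0) (nat_lit 5093083759) (nat_lit 532) (nat_lit 3517078769) (nat_lit 608) (nat_lit 6778770931) (nat_lit 201) (nat_lit 5) (nat_lit 208) (nat_lit 5) (nat_lit 209) (nat_lit 5) (nat_lit 322) (nat_lit 281) (nat_lit 177))))) (XT.nd (nat_lit 234) (nat_lit 1520) (nat_lit 0) (XT.nd (nat_lit 78) (nat_lit 608) (nat_lit 0) (XT.lf (nat_lit 0) (nat_lit 1499818683) (nat_lit 532) (nat_lit 11069556852) (nat_lit 608) (nat_lit 3099721541) (nat_lit 194) (nat_lit 5) (nat_lit 201) (nat_lit 5) (nat_lit 202) (nat_lit 5) (nat_lit 323) (nat_lit 281) (nat_lit 176)) (XT.nd (nat_lit 78) (nat_lit 532) (nat_lit 0) (XT.lf (nat_lit 0) (nat_lit 751627904) (nat_lit 608) (nat_lit 2223471802) (nat_lit 76) (nat_lit 12981070157) (nat_lit 193) (nat_lit 5) (nat_lit 201) (nat_lit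 5) (nat_lit 194) (nat_lit 5) (nat_lit 324) (nat_lit 281) (nat_lit 175)) (XT.lf (nat_lit 0) (nat_lit 4755880577) (nat_lit 608) (nat_lit 6120812315) (nat_lit 76) (nat_lit 5373175562) (nat_lit 186) (nat_lit 5) (nat_lit 194) (nat_lit 5) (nat_lit 187) (nat_lit 5) (nat_lit 325) (nat_lit 281) (nat_lit 174)))) (XT.nd (nat_lit 156) (nat_lit 532) (nat_lit 0) (XT.nd (nat_lit 78) (nat_lit 532) (nat_lit 0) (XT.lf (nat_lit 0) (nat_lit 6365879674) (nat_lit 456) (nat_lit 2569087037) (nat_lit 532) (nat_lit 7616329712) (nat_lit 180) (nat_lit 5) (nat_lit 186) (nat_lit 5) (nat_lit 187) (nat_lit 5) (nat_lit 326) (nat_lit 281) (nat_lit 173)) (XT.lf (nat_lit 0) (nat_lit 2414460806) (nat_lit 532) (nat_lit 10899990585) (nat_lit 608) (nat_lit 3545827499) (nat_lit 173) (nat_lit 5) (nat_lit 180) (nat_lit 5) (nat_lit 181) (nat_lit 5) (nat_lit 327) (nat_lit 281) (nat_lit 172))) (XT.nd (nat_lit 78) (nat_lit 456) (nat_lit 0)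 (XT.lf (nat_lit 0) (nat_lit 703977123) (nat_lit 608) (nat_lit 1695139864) (nat_lit 76) (nat_lit 14778028042) (nat_lit 172) (nat_lit 5) (nat_lit 180) (nat_lit 5) (nat_lit 173) (nat_lit 5) (nat_lit 328) (nat_lit 281) (nat_lit 171)) (XT.lf (nat_lit 0) (nat_lit 5129798808) (nat_lit 532) (nat_lit 6005262379) (nat_lit 76) (nat_lit 6366064521) (nat_lit 166) (nat_lit 5) (nat_lit 173) (nat_lit 5) (nat_lit 167) (nat_lit 5) (nat_lit 329) (nat_lit 281) (nat_lit 170))))))))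
noncomputable def xc87 : XT := (XT.nd (nat_lit 2106) (nat_lit 456) (nat_lit 0) (XT.nd (nat_lit 1014) (nat_lit 2964) (nat_lit 0) (XT.nd (nat_lit 468) (nat_lit 1900) (nat_lit 0) (XT.nd (nat_lit 234) (nat_lit 1292) (nat_lit 0) (XT.nd (nat_lit 78) (nat_lit 532) (nat_lit 0) (XT.lf (nat_lit 0) (nat_lit 7324120236) (nat_lit 456) (nat_lit 2419435787) (nat_lit 532) (nat_lit 8090177491) (nat_lit 160) (nat_lit 5) (nat_lit 166) (nat_lit 5) (nat_lit 167) (nat_lit 5) (nat_lit 330) (nat_lit 281) (nat_lit 169)) (XT.nd (nat_lit 78) (nat_lit 76) (nat_lit 0) (XT.lf (nat_lit 0) (nat_lit 2928704572) (nat_lit 456) (nat_lit 11649941693) (nat_lit 532) (nat_lit 3596025489) (nat_lit 154) (nat_lit 5) (nat_lit 160) (nat_lit 5) (nat_lit 161) (nat_lit 5) (nat_lit 331) (nat_lit 281) (nat_lit 168)) (XT.lf (nat_lit 0) (nat_lit 1087899426) (nat_lit 532) (nat_lit 1660512544) (nat_lit 76) (nat_lit 15775932220) (nat_lit 153) (nat_lit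 5) (nat_lit 160) (nat_lit 5) (nat_lit 154) (nat_lit 5) (nat_lit 332) (nat_lit 281) (nat_lit 167)))) (XT.nd (nat_lit 78) (nat_lit 836) (nat_lit 0) (XT.lf (nat_lit 0) (nat_lit 5968094131) (nat_lit 532) (nat_lit 6479432522) (nat_lit 76) (nat_lit 6434422395) (nat_lit 147) (nat_lit 5) (nat_lit 154) (nat_lit 5) (nat_lit 148) (nat_lit 5) (nat_lit 333) (nat_lit 281) (nat_lit 166)) (XT.nd (nat_lit 78) (nat_lit 456) (nat_lit 0) (XT.lf (nat_lit 0) (nat_lit 7716963656) (nat_lit 380) (nat_lit 3339068621) (nat_lit 456) (nat_lit 8193032537) (nat_lit 142) (nat_lit 5) (nat_lit 147) (nat_lit 5) (nat_lit 148) (nat_lit 5) (nat_lit 334) (nat_lit 281) (nat_lit 165)) (XT.lf (nat_lit 0) (nat_lit 2772664380) (nat_lit 456) (nat_lit 13607228581) (nat_lit 532) (nat_lit 3245644641) (nat_lit 136) (nat_lit 5) (nat_lit 142) (nat_lit 5) (nat_lit 143) (nat_lit 5) (nat_lit 335) (nat_lit 281) (nat_lit 164))))) (XT.nd (nat_lit 234)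 (nat_lit 1064) (nat_lit 0) (XT.nd (nat_lit 78) (nat_lit 760) (nat_lit 0) (XT.lf (nat_lit 0) (nat_lit 1908981409) (nat_lit 532) (nat_lit 2407806888) (nat_lit 76) (nat_lit 15694623187) (nat_lit 135) (nat_lit 5) (nat_lit 142) (nat_lit 5) (nat_lit 136) (nat_lit 5) (nat_lit 336) (nat_lit 281) (nat_lit 163)) (XT.nd (nat_lit 78) (nat_lit 380) (nat_lit 0) (XT.lf (nat_lit 0) (nat_lit 7273488140) (nat_lit 456) (nat_lit 7852757128) (nat_lit 76) (nat_lit 5280209027) (nat_lit 130) (nat_lit 5) (nat_lit 136) (nat_lit 5) (nat_lit 131) (nat_lit 5) (nat_lit 337) (nat_lit 281) (nat_lit 162)) (XT.lf (nat_lit 0) (nat_lit 7224981300) (nat_lit 380) (nat_lit 5649060686) (nat_lit 456) (nat_lit 7937812454) (nat_lit 125) (nat_lit 5) (nat_lit 130) (nat_lit 5) (nat_lit 131) (nat_lit 5) (nat_lit 338) (nat_lit 281) (nat_lit 161)))) (XT.nd (nat_lit 156) (nat_lit 684) (nat_lit 0) (XT.nd (nat_lit 78) (nat_lit 76) (nat_lit 0) (XT.lf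 (nat_lit 0) (nat_lit 1603492860) (nat_lit 304) (nat_lit 17112996466) (nat_lit 380) (nat_lit 2511457773) (nat_lit 121) (nat_lit 5) (nat_lit 125) (nat_lit 5) (nat_lit 126) (nat_lit 5) (nat_lit 339) (nat_lit 281) (nat_lit 160)) (XT.lf (nat_lit 0) (nat_lit 3151194603) (nat_lit 380) (nat_lit 4302003185) (nat_lit 76) (nat_lit 14200655332) (nat_lit 120) (nat_lit 5) (nat_lit 125) (nat_lit 5) (nat_lit 121) (nat_lit 5) (nat_lit 340) (nat_lit 281) (nat_lit 159))) (XT.nd (nat_lit 78) (nat_lit 304) (nat_lit 0) (XT.lf (nat_lit 0) (nat_lit 9025726391) (nat_lit 456) (nat_lit 10516228678) (nat_lit 76) (nat_lit 2548734262) (nat_lit 115) (nat_lit 5) (nat_lit 121) (nat_lit 5) (nat_lit 116) (nat_lit 5) (nat_lit 341) (nat_lit 281) (nat_lit 158)) (XT.lf (nat_lit 0) (nat_lit 5443741921) (nat_lit 304) (nat_lit 9731449911) (nat_lit 380) (nat_lit 7363472060) (nat_lit 111) (nat_lit 5) (nat_lit 115) (nat_lit 5) (nat_lit 116)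 (nat_lit 5) (nat_lit 342) (nat_lit 281) (nat_lit 157)))))) (XT.nd (nat_lit 546) (nat_lit 1216) (nat_lit 0) (XT.nd (nat_lit 234) (nat_lit 988) (nat_lit 0) (XT.nd (nat_lit 78) (nat_lit 760) (nat_lit 0) (XT.lf (nat_lit 0) (nat_lit 21567723857) (nat_lit 380) (nat_lit 998647245) (nat_lit 76) (nat_lit 432541946) (nat_lit 111) (nat_lit 5) (nat_lit 116) (nat_lit 5) (nat_lit 112) (nat_lit 5) (nat_lit 343) (nat_lit 281) (nat_lit 156)) (XT.nd (nat_lit 78) (nat_lit 304) (nat_lit 0) (XT.lf (nat_lit 0) (nat_lit 4770576707) (nat_lit 456) (nat_lit 7802870932) (nat_lit 76) (nat_lit 10895863493) (nat_lit 105) (nat_lit 5) (nat_lit 111) (nat_lit 5) (nat_lit 106) (nat_lit 5) (nat_lit 344) (nat_lit 281) (nat_lit 155)) (XT.lf (nat_lit 0) (nat_lit 8976875821) (nat_lit 304) (nat_lit 2212350634) (nat_lit 380) (nat_lit 12763406476) (nat_lit 101) (nat_lit 5) (nat_lit 105) (nat_lit 5) (nat_lit 106) (nat_lit 5) (nat_lit 345)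 (nat_lit 281) (nat_lit 154)))) (XT.nd (nat_lit 156) (nat_lit 684) (nat_lit 0) (XT.nd (nat_lit 78) (nat_lit 0) (nat_lit 0) (XT.lf (nat_lit 0) (nat_lit 1864009895) (nat_lit 304) (nat_lit 16041986664) (nat_lit 380) (nat_lit 6542352898) (nat_lit 97) (nat_lit 5) (nat_lit 101) (nat_lit 5) (nat_lit 102) (nat_lit 5) (nat_lit 346) (nat_lit 281) (nat_lit 153)) (XT.lf (nat_lit 0) (nat_lit 19376748713) (nat_lit 304) (nat_lit 5549291181) (nat_lit 380) (nat_lit 30868287) (nat_lit 97) (nat_lit 5) (nat_lit 101) (nat_lit 5) (nat_lit 102) (nat_lit 5) (nat_lit 347) (nat_lit 281) (nat_lit 152))) (XT.nd (nat_lit 78) (nat_lit 304) (nat_lit 0) (XT.lf (nat_lit 0) (nat_lit 6687297332) (nat_lit 380) (nat_lit 13486708025) (nat_lit 76) (nat_lit 5303879369) (nat_lit 92) (nat_lit 5) (nat_lit 97) (nat_lit 5) (nat_lit 93) (nat_lit 5) (nat_lit 348) (nat_lit 281) (nat_lit 151)) (XT.lf (nat_lit 0) (nat_lit 4147482849) (nat_lit 304)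 (nat_lit 9547345340) (nat_lit 380) (nat_lit 12317899147) (nat_lit 88) (nat_lit 5) (nat_lit 92) (nat_lit 5) (nat_lit 93) (nat_lit 5) (nat_lit 349) (nat_lit 281) (nat_lit 150))))) (XT.nd (nat_lit 234) (nat_lit 608) (nat_lit 0) (XT.nd (nat_lit 78) (nat_lit 608) (nat_lit 0) (XT.lf (nat_lit 0) (nat_lit 21000008636) (nat_lit 380) (nat_lit 4097684300) (nat_lit 76) (nat_lit 1464179291) (nat_lit 88) (nat_lit 5) (nat_lit 93) (nat_lit 5) (nat_lit 89) (nat_lit 5) (nat_lit 350) (nat_lit 281) (nat_lit 149)) (XT.nd (nat_lit 78) (nat_lit 304) (nat_lit 0) (XT.lf (nat_lit 0) (nat_lit 1522956254) (nat_lit 304) (nat_lit 12828863339) (nat_lit 76) (nat_lit 12772607238) (nat_lit 84) (nat_lit 5) (nat_lit 88) (nat_lit 5) (nat_lit 85) (nat_lit 5) (nat_lit 351) (nat_lit 281) (nat_lit 148)) (XT.lf (nat_lit 0) (nat_lit 5608843209) (nat_lit 304) (nat_lit 3187621351) (nat_lit 380) (nat_lit 18905629140) (nat_lit 80) (nat_lit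 5) (nat_lit 84) (nat_lit 5) (nat_lit 85) (nat_lit 5) (nat_lit 352) (nat_lit 281) (nat_lit 147)))) (XT.nd (nat_lit 156) (nat_lit 380) (nat_lit 0) (XT.nd (nat_lit 78) (nat_lit 228) (nat_lit 0) (XT.lf (nat_lit 0) (nat_lit 16416759441) (nat_lit 380) (nat_lit 3595218230) (nat_lit 76) (nat_lit 8282546194) (nat_lit 80) (nat_lit 5) (nat_lit 85) (nat_lit 5) (nat_lit 81) (nat_lit 5) (nat_lit 353) (nat_lit 281) (nat_lit 146)) (XT.lf (nat_lit 0) (nat_lit 15621303229) (nat_lit 228) (nat_lit 8754585687) (nat_lit 304) (nat_lit 4526638276) (nat_lit 77) (nat_lit 5) (nat_lit 80) (nat_lit 5) (nat_lit 81) (nat_lit 5) (nat_lit 354) (nat_lit 281) (nat_lit 145))) (XT.nd (nat_lit 78) (nat_lit 0) (nat_lit 0) (XT.lf (nat_lit 0) (nat_lit 3074975079) (nat_lit 380) (nat_lit 23572495319) (nat_lit 76) (nat_lit 2879511567) (nat_lit 72) (nat_lit 5) (nat_lit 77) (nat_lit 5) (nat_lit 73) (nat_lit 5) (nat_lit 355) (nat_lit 281) (nat_lit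 144)) (XT.lf (nat_lit 0) (nat_lit 10980448616) (nat_lit 380) (nat_lit 4328451787) (nat_lit 76) (nat_lit 14857929745) (nat_lit 72) (nat_lit 5) (nat_lit 77) (nat_lit 5) (nat_lit 73) (nat_lit 5) (nat_lit 356) (nat_lit 281) (nat_lit 143))))))) (XT.nd (nat_lit 35646) (nat_lit 0) (nat_lit 19228) (XT.nd (nat_lit 35100) (nat_lit 0) (nat_lit 27664) (XT.nd (nat_lit 34866) (nat_lit 0) (nat_lit 28880) (XT.nd (nat_lit 78) (nat_lit 228) (nat_lit 0) (XT.lf (nat_lit 0) (nat_lit 15679393855) (nat_lit 228) (nat_lit 3533669172) (nat_lit 304) (nat_lit 11611015499) (nat_lit 69) (nat_lit 5) (nat_lit 72) (nat_lit 5) (nat_lit 73) (nat_lit 5) (nat_lit 357) (nat_lit 281) (nat_lit 142)) (XT.nd (nat_lit 34710) (nat_lit 0) (nat_lit 30248) (XT.lf (nat_lit 0) (nat_lit 4834639688) (nat_lit 228) (nat_lit 22963084980) (nat_lit 304) (nat_lit 3701222467) (nat_lit 66) (nat_lit 5) (nat_lit 69) (nat_lit 5) (nat_lit 70) (nat_lit 5) (nat_lit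 358) (nat_lit 281) (nat_lit 141)) (XT.lf (nat_lit 0) (nat_lit 2538085607) (nat_lit 1444) (nat_lit 865437842) (nat_lit 1444) (nat_lit 865437842) (nat_lit 464) (nat_lit 3) (nat_lit 483) (nat_lit 3) (nat_lit 483) (nat_lit 5) (nat_lit 282) (nat_lit 282) (nat_lit 216)))) (XT.nd (nat_lit 78) (nat_lit 1368) (nat_lit 0) (XT.lf (nat_lit 76) (nat_lit 4184805563) (nat_lit 0) (nat_lit 2447834581) (nat_lit 1444) (nat_lit 2002454471) (nat_lit 465) (nat_lit 5) (nat_lit 464) (nat_lit 3) (nat_lit 483) (nat_lit 5) (nat_lit 283) (nat_lit 282) (nat_lit 215)) (XT.nd (nat_lit 78) (nat_lit 1444) (nat_lit 0) (XT.lf (nat_lit 76) (nat_lit 1542900503) (nat_lit 0) (nat_lit 6671261767) (nat_lit 1444) (nat_lit 521502711) (nat_lit 466) (nat_lit 5) (nat_lit 465) (nat_lit 5) (nat_lit 484) (nat_lit 5) (nat_lit 284) (nat_lit 282) (nat_lit 214)) (XT.lf (nat_lit 0) (nat_lit 981755337) (nat_lit 1444) (nat_lit 1115925203) (nat_lit 1520)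 (nat_lit 6741668617) (nat_lit 446) (nat_lit 5) (nat_lit 465) (nat_lit 5) (nat_lit 466) (nat_lit 5) (nat_lit 285) (nat_lit 282) (nat_lit 213))))) (XT.nd (nat_lit 234) (nat_lit 1292) (nat_lit 0) (XT.nd (nat_lit 78) (nat_lit 0) (nat_lit 0) (XT.lf (nat_lit 0) (nat_lit 2519989367) (nat_lit 1444) (nat_lit 3786348656) (nat_lit 1520) (nat_lit 2639844160) (nat_lit 447) (nat_lit 5) (nat_lit 466) (nat_lit 5) (nat_lit 467) (nat_lit 5) (nat_lit 286) (nat_lit 282) (nat_lit 212)) (XT.nd (nat_lit 78) (nat_lit 0) (nat_lit 76) (XT.lf (nat_lit 76) (nat_lit 2571875050) (nat_lit 0) (nat_lit 1518305533) (nat_lit 1520) (nat_lit 4966368591) (nat_lit 448) (nat_lit 5) (nat_lit 447) (nat_lit 5) (nat_lit 467) (nat_lit 5) (nat_lit 287) (nat_lit 282) (nat_lit 211)) (XT.lf (nat_lit 0) (nat_lit 5704406850) (nat_lit 1444) (nat_lit 50923207) (nat_lit 1520) (nat_lit 3415002396) (nat_lit 448) (nat_lit 5) (nat_lit 467) (nat_lit 5)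 (nat_lit 468) (nat_lit 5) (nat_lit 288) (nat_lit 282) (nat_lit 210)))) (XT.nd (nat_lit 156) (nat_lit 1368) (nat_lit 0) (XT.nd (nat_lit 78) (nat_lit 0) (nat_lit 76) (XT.lf (nat_lit 76) (nat_lit 6621902032) (nat_lit 0) (nat_lit 748732470) (nat_lit 1520) (nat_lit 1916865821) (nat_lit 449) (nat_lit 5) (nat_lit 448) (nat_lit 5) (nat_lit 468) (nat_lit 5) (nat_lit 289) (nat_lit 282) (nat_lit 209)) (XT.lf (nat_lit 76) (nat_lit 4081073377) (nat_lit 0) (nat_lit 5013033613) (nat_lit 1520) (nat_lit 313972426) (nat_lit 450) (nat_lit 5) (nat_lit 449) (nat_lit 5) (nat_lit 469) (nat_lit 5) (nat_lit 290) (nat_lit 282) (nat_lit 208))) (XT.nd (nat_lit 78) (nat_lit 0) (nat_lit 0) (XT.lf (nat_lit 0) (nat_lit 1306434282) (nat_lit 1520) (nat_lit 8024472291) (nat_lit 1596) (nat_lit 201495814) (nat_lit 430) (nat_lit 5) (nat_lit 450) (nat_lit 5) (nat_lit 451) (nat_lit 5) (nat_lit 291) (nat_lit 282) (nat_lit 207)) (XT.lf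 (nat_lit 0) (nat_lit 2994997412) (nat_lit 1520) (nat_lit 1106738484) (nat_lit 1596) (nat_lit 5558239656) (nat_lit 430) (nat_lit 5) (nat_lit 450) (nat_lit 5) (nat_lit 451) (nat_lit 5) (nat_lit 292) (nat_lit 282) (nat_lit 206)))))) (XT.nd (nat_lit 546) (nat_lit 5548) (nat_lit 0) (XT.nd (nat_lit 234) (nat_lit 2964) (nat_lit 0) (XT.nd (nat_lit 78) (nat_lit 0) (nat_lit 0) (XT.lf (nat_lit 0) (nat_lit 4737563789) (nat_lit 1520) (nat_lit 3733152566) (nat_lit 1596) (nat_lit 1320629725) (nat_lit 431) (nat_lit 5) (nat_lit 451) (nat_lit 5) (nat_lit 452) (nat_lit 5) (nat_lit 293) (nat_lit 282) (nat_lit 205)) (XT.nd (nat_lit 78) (nat_lit 0) (nat_lit 76) (XT.lf (nat_lit 76) (nat_lit 3513786925) (nat_lit 0) (nat_lit 3032869746) (nat_lit 1596) (nat_lit 3379752077) (nat_lit 432) (nat_lit 5) (nat_lit 431) (nat_lit 5) (nat_lit 452) (nat_lit 5) (nat_lit 294) (nat_lit 282) (nat_lit 204)) (XT.lf (nat_lit 76) (nat_lit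 927561448) (nat_lit 0) (nat_lit 7488219189) (nat_lit 1596) (nat_lit 1649662458) (nat_lit 433) (nat_lit 5) (nat_lit 432) (nat_lit 5) (nat_lit 453) (nat_lit 5) (nat_lit 295) (nat_lit 282) (nat_lit 203)))) (XT.nd (nat_lit 156) (nat_lit 1444) (nat_lit 0) (XT.nd (nat_lit 78) (nat_lit 0) (nat_lit 76) (XT.lf (nat_lit 0) (nat_lit 152938977) (nat_lit 1596) (nat_lit 1685529131) (nat_lit 1672) (nat_lit 8369749570) (nat_lit 411) (nat_lit 5) (nat_lit 432) (nat_lit 5) (nat_lit 433) (nat_lit 5) (nat_lit 296) (nat_lit 282) (nat_lit 202)) (XT.lf (nat_lit 0) (nat_lit 2012240487) (nat_lit 1596) (nat_lit 4354055972) (nat_lit 1672) (nat_lit 3988292575) (nat_lit 412) (nat_lit 5) (nat_lit 433) (nat_lit 5) (nat_lit 434) (nat_lit 5) (nat_lit 297) (nat_lit 282) (nat_lit 201))) (XT.nd (nat_lit 78) (nat_lit 1520) (nat_lit 0) (XT.lf (nat_lit 76) (nat_lit 3436335354) (nat_lit 0) (nat_lit 497660862) (nat_lit 1672) (nat_lit 6571253185)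 (nat_lit 413) (nat_lit 5) (nat_lit 412) (nat_lit 5) (nat_lit 434) (nat_lit 5) (nat_lit 298) (nat_lit 282) (nat_lit 200)) (XT.lf (nat_lit 0) (nat_lit 802688682) (nat_lit 1596) (nat_lit 5143210601) (nat_lit 1672) (nat_lit 4713910858) (nat_lit 392) (nat_lit 5) (nat_lit 413) (nat_lit 5) (nat_lit 414) (nat_lit 5) (nat_lit 299) (nat_lit 282) (nat_lit 199))))) (XT.nd (nat_lit 234) (nat_lit 2508) (nat_lit 0) (XT.nd (nat_lit 78) (nat_lit 3040) (nat_lit 0) (XT.lf (nat_lit 0) (nat_lit 8037958546) (nat_lit 1672) (nat_lit 1852353176) (nat_lit 76) (nat_lit 928329571) (nat_lit 392) (nat_lit 5) (nat_lit 414) (nat_lit 5) (nat_lit 393) (nat_lit 5) (nat_lit 300) (nat_lit 282) (nat_lit 198)) (XT.nd (nat_lit 78) (nat_lit 1368) (nat_lit 0) (XT.lf (nat_lit 0) (nat_lit 6411051065) (nat_lit 1672) (nat_lit 3821364347) (nat_lit 1748) (nat_lit 749057958) (nat_lit 370) (nat_lit 5) (nat_lit 392) (nat_lit 5) (nat_lit 393) (nat_lit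 5) (nat_lit 301) (nat_lit 282) (nat_lit 197)) (XT.lf (nat_lit 0) (nat_lit 1343582946) (nat_lit 1368) (nat_lit 7356393340) (nat_lit 76) (nat_lit 2448713235) (nat_lit 352) (nat_lit 5) (nat_lit 370) (nat_lit 5) (nat_lit 353) (nat_lit 5) (nat_lit 302) (nat_lit 282) (nat_lit 196)))) (XT.nd (nat_lit 156) (nat_lit 1672) (nat_lit 0) (XT.nd (nat_lit 78) (nat_lit 0) (nat_lit 0) (XT.lf (nat_lit 0) (nat_lit 1100378189) (nat_lit 836) (nat_lit 2417465960) (nat_lit 912) (nat_lit 7802425155) (nat_lit 341) (nat_lit 5) (nat_lit 352) (nat_lit 5) (nat_lit 353) (nat_lit 5) (nat_lit 303) (nat_lit 282) (nat_lit 195)) (XT.lf (nat_lit 0) (nat_lit 5799751993) (nat_lit 912) (nat_lit 1642755778) (nat_lit 76) (nat_lit 4053666092) (nat_lit 341) (nat_lit 5) (nat_lit 353) (nat_lit 5) (nat_lit 342) (nat_lit 5) (nat_lit 304) (nat_lit 282) (nat_lit 194))) (XT.nd (nat_lit 78) (nat_lit 836) (nat_lit 0) (XT.lf (nat_lit 0) (nat_lit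 7239743160) (nat_lit 836) (nat_lit 940459668) (nat_lit 912) (nat_lit 3496576023) (nat_lit 330) (nat_lit 5) (nat_lit 341) (nat_lit 5) (nat_lit 342) (nat_lit 5) (nat_lit 305) (nat_lit 282) (nat_lit 193)) (XT.lf (nat_lit 0) (nat_lit 4539794653) (nat_lit 836) (nat_lit 6138024200) (nat_lit 912) (nat_lit 1184092381) (nat_lit 319) (nat_lit 5) (nat_lit 330) (nat_lit 5) (nat_lit 331) (nat_lit 5) (nat_lit 306) (nat_lit 282) (nat_lit 192))))))))
noncomputable def xc88 : XT := (XT.nd (nat_lit 2028) (nat_lit 6460) (nat_lit 0) (XT.nd (nat_lit 1014) (nat_lit 5320) (nat_lit 0) (XT.nd (nat_lit 468) (nat_lit 4028) (nat_lit 0) (XT.nd (nat_lit 234) (nat_lit 1520) (nat_lit 0) (XT.nd (nat_lit 78) (nat_lit 760) (nat_lit 0) (XT.lf (nat_lit 0) (nat_lit 1202057831) (nat_lit 912) (nat_lit 10283079523) (nat_lit 76) (nat_lit 566927790) (nat_lit 307) (nat_lit 5) (nat_lit 319) (nat_lit 5) (nat_lit 308) (nat_lit 5) (nat_lit 307)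 (nat_lit 282) (nat_lit 191)) (XT.nd (nat_lit 78) (nat_lit 760) (nat_lit 0) (XT.lf (nat_lit 0) (nat_lit 3703729709) (nat_lit 912) (nat_lit 1094190424) (nat_lit 76) (nat_lit 7448668952) (nat_lit 307) (nat_lit 5) (nat_lit 319) (nat_lit 5) (nat_lit 308) (nat_lit 5) (nat_lit 308) (nat_lit 282) (nat_lit 190)) (XT.lf (nat_lit 0) (nat_lit 6319098706) (nat_lit 836) (nat_lit 4009314260) (nat_lit 76) (nat_lit 2117784622) (nat_lit 297) (nat_lit 5) (nat_lit 308) (nat_lit 5) (nat_lit 298) (nat_lit 5) (nat_lit 309) (nat_lit 282) (nat_lit 189)))) (XT.nd (nat_lit 78) (nat_lit 760) (nat_lit 0) (XT.lf (nat_lit 0) (nat_lit 5628677584) (nat_lit 760) (nat_lit 3430874899) (nat_lit 836) (nat_lit 3591330538) (nat_lit 287) (nat_lit 5) (nat_lit 297) (nat_lit 5) (nat_lit 298) (nat_lit 5) (nat_lit 310) (nat_lit 282) (nat_lit 188)) (XT.nd (nat_lit 78) (nat_lit 76) (nat_lit 0) (XT.lf (nat_lit 0) (nat_lit 2730980204) (nat_lit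 684) (nat_lit 9191359019) (nat_lit 760) (nat_lit 938587939) (nat_lit 278) (nat_lit 5) (nat_lit 287) (nat_lit 5) (nat_lit 288) (nat_lit 5) (nat_lit 311) (nat_lit 282) (nat_lit 187)) (XT.lf (nat_lit 0) (nat_lit 1812682927) (nat_lit 760) (nat_lit 268577496) (nat_lit 76) (nat_lit 10994949402) (nat_lit 277) (nat_lit 5) (nat_lit 287) (nat_lit 5) (nat_lit 278) (nat_lit 5) (nat_lit 312) (nat_lit 282) (nat_lit 186))))) (XT.nd (nat_lit 234) (nat_lit 1900) (nat_lit 0) (XT.nd (nat_lit 78) (nat_lit 1368) (nat_lit 0) (XT.lf (nat_lit 0) (nat_lit 4705583804) (nat_lit 836) (nat_lit 3347649330) (nat_lit 76) (nat_lit 5243175855) (nat_lit 267) (nat_lit 5) (nat_lit 278) (nat_lit 5) (nat_lit 268) (nat_lit 5) (nat_lit 313) (nat_lit 282) (nat_lit 185)) (XT.nd (nat_lit 78) (nat_lit 684) (nat_lit 0) (XT.lf (nat_lit 0) (nat_lit 7001590711) (nat_lit 684) (nat_lit 717946444) (nat_lit 760) (nat_lit 5803010086) (nat_lit 258)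 (nat_lit 5) (nat_lit 267) (nat_lit 5) (nat_lit 268) (nat_lit 5) (nat_lit 314) (nat_lit 282) (nat_lit 184)) (XT.lf (nat_lit 0) (nat_lit 3929637697) (nat_lit 684) (nat_lit 6960649245) (nat_lit 760) (nat_lit 2863873027) (nat_lit 249) (nat_lit 5) (nat_lit 258) (nat_lit 5) (nat_lit 259) (nat_lit 5) (nat_lit 315) (nat_lit 282) (nat_lit 183)))) (XT.nd (nat_lit 156) (nat_lit 1216) (nat_lit 0) (XT.nd (nat_lit 78) (nat_lit 0) (nat_lit 0) (XT.lf (nat_lit 0) (nat_lit 193316472) (nat_lit 684) (nat_lit 13230188454) (nat_lit 76) (nat_lit 568571517) (nat_lit 240) (nat_lit 5) (nat_lit 249) (nat_lit 5) (nat_lit 241) (nat_lit 5) (nat_lit 316) (nat_lit 282) (nat_lit 182)) (XT.lf (nat_lit 0) (nat_lit 3391672798) (nat_lit 684) (nat_lit 2530952567) (nat_lit 76) (nat_lit 8312375771) (nat_lit 240) (nat_lit 5) (nat_lit 249) (nat_lit 5) (nat_lit 241) (nat_lit 5) (nat_lit 317) (nat_lit 282) (nat_lit 181))) (XT.nd (nat_lit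 78) (nat_lit 608) (nat_lit 0) (XT.lf (nat_lit 0) (nat_lit 6729009136) (nat_lit 684) (nat_lit 5923488948) (nat_lit 76) (nat_lit 1831870946) (nat_lit 232) (nat_lit 5) (nat_lit 241) (nat_lit 5) (nat_lit 233) (nat_lit 5) (nat_lit 318) (nat_lit 282) (nat_lit 180)) (XT.lf (nat_lit 0) (nat_lit 5280230689) (nat_lit 608) (nat_lit 4953215144) (nat_lit 684) (nat_lit 4506448102) (nat_lit 224) (nat_lit 5) (nat_lit 232) (nat_lit 5) (nat_lit 233) (nat_lit 5) (nat_lit 319) (nat_lit 282) (nat_lit 179)))))) (XT.nd (nat_lit 468) (nat_lit 2964) (nat_lit 0) (XT.nd (nat_lit 234) (nat_lit 1140) (nat_lit 0) (XT.nd (nat_lit 78) (nat_lit 608) (nat_lit 0) (XT.lf (nat_lit 0) (nat_lit 1875329254) (nat_lit 608) (nat_lit 12015915761) (nat_lit 684) (nat_lit 1110890109) (nat_lit 216) (nat_lit 5) (nat_lit 224) (nat_lit 5) (nat_lit 225) (nat_lit 5) (nat_lit 320) (nat_lit 282) (nat_lit 178)) (XT.nd (nat_lit 78) (nat_lit 532) (nat_lit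 0) (XT.lf (nat_lit 0) (nat_lit 2429544125) (nat_lit 684) (nat_lit 1668543135) (nat_lit 76) (nat_lit 11172374601) (nat_lit 215) (nat_lit 5) (nat_lit 224) (nat_lit 5) (nat_lit 216) (nat_lit 5) (nat_lit 321) (nat_lit 282) (nat_lit 177)) (XT.lf (nat_lit 0) (nat_lit 6131760590) (nat_lit 608) (nat_lit 5339953959) (nat_lit 76) (nat_lit 4073577732) (nat_lit 208) (nat_lit 5) (nat_lit 216) (nat_lit 5) (nat_lit 209) (nat_lit 5) (nat_lit 322) (nat_lit 282) (nat_lit 176)))) (XT.nd (nat_lit 78) (nat_lit 608) (nat_lit 0) (XT.lf (nat_lit 0) (nat_lit 6662487714) (nat_lit 532) (nat_lit 3342390815) (nat_lit 608) (nat_lit 5822305955) (nat_lit 201) (nat_lit 5) (nat_lit 208) (nat_lit 5) (nat_lit 209) (nat_lit 5) (nat_lit 323) (nat_lit 282) (nat_lit 175)) (XT.nd (nat_lit 78) (nat_lit 76) (nat_lit 0) (XT.lf (nat_lit 0) (nat_lit 2959689184) (nat_lit 532) (nat_lit 11101031961) (nat_lit 608) (nat_lit 2055494861) (nat_lit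 194) (nat_lit 5) (nat_lit 201) (nat_lit 5) (nat_lit 202) (nat_lit 5) (nat_lit 324) (nat_lit 282) (nat_lit 174)) (XT.lf (nat_lit 0) (nat_lit 1863791793) (nat_lit 608) (nat_lit 901393095) (nat_lit 76) (nat_lit 13647241281) (nat_lit 193) (nat_lit 5) (nat_lit 201) (nat_lit 5) (nat_lit 194) (nat_lit 5) (nat_lit 325) (nat_lit 282) (nat_lit 173))))) (XT.nd (nat_lit 234) (nat_lit 1444) (nat_lit 0) (XT.nd (nat_lit 78) (nat_lit 988) (nat_lit 0) (XT.lf (nat_lit 0) (nat_lit 5967250863) (nat_lit 608) (nat_lit 4918176805) (nat_lit 76) (nat_lit 5829945011) (nat_lit 186) (nat_lit 5) (nat_lit 194) (nat_lit 5) (nat_lit 187) (nat_lit 5) (nat_lit 326) (nat_lit 282) (nat_lit 172)) (XT.nd (nat_lit 78) (nat_lit 532) (nat_lit 0) (XT.lf (nat_lit 0) (nat_lit 7920625524) (nat_lit 456) (nat_lit 2328811548) (nat_lit 532) (nat_lit 6776869865) (nat_lit 180) (nat_lit 5) (nat_lit 186) (nat_lit 5) (nat_lit 187) (nat_lit 5) (nat_lit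 327) (nat_lit 282) (nat_lit 171)) (XT.lf (nat_lit 0) (nat_lit 3847690651) (nat_lit 532) (nat_lit 10892972961) (nat_lit 608) (nat_lit 2604305593) (nat_lit 173) (nat_lit 5) (nat_lit 180) (nat_lit 5) (nat_lit 181) (nat_lit 5) (nat_lit 328) (nat_lit 282) (nat_lit 170)))) (XT.nd (nat_lit 156) (nat_lit 912) (nat_lit 0) (XT.nd (nat_lit 78) (nat_lit 456) (nat_lit 0) (XT.lf (nat_lit 0) (nat_lit 1729128841) (nat_lit 608) (nat_lit 410935388) (nat_lit 76) (nat_lit 15531760078) (nat_lit 172) (nat_lit 5) (nat_lit 180) (nat_lit 5) (nat_lit 173) (nat_lit 5) (nat_lit 329) (nat_lit 282) (nat_lit 169)) (XT.lf (nat_lit 0) (nat_lit 6269152087) (nat_lit 532) (nat_lit 4853959836) (nat_lit 76) (nat_lit 6882800094) (nat_lit 166) (nat_lit 5) (nat_lit 173) (nat_lit 5) (nat_lit 167) (nat_lit 5) (nat_lit 330) (nat_lit 282) (nat_lit 168))) (XT.nd (nat_lit 78) (nat_lit 456) (nat_lit 0) (XT.lf (nat_lit 0) (nat_lit 8853702894)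 (nat_lit 456) (nat_lit 2147420901) (nat_lit 532) (nat_lit 7347793906) (nat_lit 160) (nat_lit 5) (nat_lit 166) (nat_lit 5) (nat_lit 167) (nat_lit 5) (nat_lit 331) (nat_lit 282) (nat_lit 167)) (XT.lf (nat_lit 0) (nat_lit 4322478930) (nat_lit 456) (nat_lit 11641324461) (nat_lit 532) (nat_lit 2736645186) (nat_lit 154) (nat_lit 5) (nat_lit 160) (nat_lit 5) (nat_lit 161) (nat_lit 5) (nat_lit 332) (nat_lit 282) (nat_lit 166))))))) (XT.nd (nat_lit 1014) (nat_lit 2736) (nat_lit 0) (XT.nd (nat_lit 468) (nat_lit 1900) (nat_lit 0) (XT.nd (nat_lit 234) (nat_lit 912) (nat_lit 0) (XT.nd (nat_lit 78) (nat_lit 836) (nat_lit 0) (XT.lf (nat_lit 0) (nat_lit 2047308512) (nat_lit 532) (nat_lit 429651754) (nat_lit 76) (nat_lit 16584095869) (nat_lit 153) (nat_lit 5) (nat_lit 160) (nat_lit 5) (nat_lit 154) (nat_lit 5) (nat_lit 333) (nat_lit 282) (nat_lit 165)) (XT.nd (nat_lit 78) (nat_lit 380) (nat_lit 0) (XT.lf (nat_lit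 0) (nat_lit 7057380821) (nat_lit 532) (nat_lit 5397573757) (nat_lit 76) (nat_lit 6974779191) (nat_lit 147) (nat_lit 5) (nat_lit 154) (nat_lit 5) (nat_lit 148) (nat_lit 5) (nat_lit 334) (nat_lit 282) (nat_lit 164)) (XT.lf (nat_lit 0) (nat_lit 9204008800) (nat_lit 380) (nat_lit 3075588128) (nat_lit 456) (nat_lit 7528646940) (nat_lit 142) (nat_lit 5) (nat_lit 147) (nat_lit 5) (nat_lit 148) (nat_lit 5) (nat_lit 335) (nat_lit 282) (nat_lit 163)))) (XT.nd (nat_lit 78) (nat_lit 456) (nat_lit 0) (XT.lf (nat_lit 0) (nat_lit 4106684305) (nat_lit 456) (nat_lit 13640925521) (nat_lit 532) (nat_lit 2448725545) (nat_lit 136) (nat_lit 5) (nat_lit 142) (nat_lit 5) (nat_lit 143) (nat_lit 5) (nat_lit 336) (nat_lit 282) (nat_lit 162)) (XT.nd (nat_lit 78) (nat_lit 380) (nat_lit 0) (XT.lf (nat_lit 0) (nat_lit 2823104911) (nat_lit 532) (nat_lit 1253825523) (nat_lit 76) (nat_lit 16517265641) (nat_lit 135) (nat_lit 5)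 (nat_lit 142) (nat_lit 5) (nat_lit 136) (nat_lit 5) (nat_lit 337) (nat_lit 282) (nat_lit 161)) (XT.lf (nat_lit 0) (nat_lit 8333802330) (nat_lit 456) (nat_lit 6867195314) (nat_lit 76) (nat_lit 5800399670) (nat_lit 130) (nat_lit 5) (nat_lit 136) (nat_lit 5) (nat_lit 131) (nat_lit 5) (nat_lit 338) (nat_lit 282) (nat_lit 160))))) (XT.nd (nat_lit 234) (nat_lit 1140) (nat_lit 0) (XT.nd (nat_lit 78) (nat_lit 380) (nat_lit 0) (XT.lf (nat_lit 0) (nat_lit 8643063648) (nat_lit 380) (nat_lit 5442581531) (nat_lit 456) (nat_lit 7333660731) (nat_lit 125) (nat_lit 5) (nat_lit 130) (nat_lit 5) (nat_lit 131) (nat_lit 5) (nat_lit 339) (nat_lit 282) (nat_lit 159)) (XT.nd (nat_lit 78) (nat_lit 76) (nat_lit 0) (XT.lf (nat_lit 0) (nat_lit 2847668946) (nat_lit 304) (nat_lit 17241792259) (nat_lit 380) (nat_lit 1758709788) (nat_lit 121) (nat_lit 5) (nat_lit 125) (nat_lit 5) (nat_lit 126) (nat_lit 5) (nat_lit 340) (nat_lit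 282) (nat_lit 158)) (XT.lf (nat_lit 0) (nat_lit 4039158739) (nat_lit 380) (nat_lit 3258918331) (nat_lit 76) (nat_lit 14989156645) (nat_lit 120) (nat_lit 5) (nat_lit 125) (nat_lit 5) (nat_lit 121) (nat_lit 5) (nat_lit 341) (nat_lit 282) (nat_lit 157)))) (XT.nd (nat_lit 156) (nat_lit 456) (nat_lit 0) (XT.nd (nat_lit 78) (nat_lit 304) (nat_lit 0) (XT.lf (nat_lit 0) (nat_lit 10076740635) (nat_lit 456) (nat_lit 9665112219) (nat_lit 76) (nat_lit 2995596546) (nat_lit 115) (nat_lit 5) (nat_lit 121) (nat_lit 5) (nat_lit 116) (nat_lit 5) (nat_lit 342) (nat_lit 282) (nat_lit 156)) (XT.lf (nat_lit 0) (nat_lit 6754730745) (nat_lit 304) (nat_lit 9640685264) (nat_lit 380) (nat_lit 6803763033) (nat_lit 111) (nat_lit 5) (nat_lit 115) (nat_lit 5) (nat_lit 116) (nat_lit 5) (nat_lit 343) (nat_lit 282) (nat_lit 155))) (XT.nd (nat_lit 78) (nat_lit 76) (nat_lit 0) (XT.lf (nat_lit 0) (nat_lit 99727040) (nat_lit 380) (nat_lit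 22860776237) (nat_lit 456) (nat_lit 713126869) (nat_lit 106) (nat_lit 5) (nat_lit 111) (nat_lit 5) (nat_lit 112) (nat_lit 5) (nat_lit 344) (nat_lit 282) (nat_lit 154)) (XT.lf (nat_lit 0) (nat_lit 5649450645) (nat_lit 456) (nat_lit 6918118943) (nat_lit 76) (nat_lit 11590786557) (nat_lit 105) (nat_lit 5) (nat_lit 111) (nat_lit 5) (nat_lit 106) (nat_lit 5) (nat_lit 345) (nat_lit 282) (nat_lit 153)))))) (XT.nd (nat_lit 546) (nat_lit 1140) (nat_lit 0) (XT.nd (nat_lit 234) (nat_lit 912) (nat_lit 0) (XT.nd (nat_lit 78) (nat_lit 380) (nat_lit 0) (XT.lf (nat_lit 0) (nat_lit 10346868394) (nat_lit 304) (nat_lit 1899508074) (nat_lit 380) (nat_lit 12410096098) (nat_lit 101) (nat_lit 5) (nat_lit 105) (nat_lit 5) (nat_lit 106) (nat_lit 5) (nat_lit 346) (nat_lit 282) (nat_lit 152)) (XT.nd (nat_lit 78) (nat_lit 76) (nat_lit 0) (XT.lf (nat_lit 0) (nat_lit 3014837231) (nat_lit 304) (nat_lit 16138297914) (nat_lit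 380) (nat_lit 6014164758) (nat_lit 97) (nat_lit 5) (nat_lit 101) (nat_lit 5) (nat_lit 102) (nat_lit 5) (nat_lit 347) (nat_lit 282) (nat_lit 151)) (XT.lf (nat_lit 0) (nat_lit 662755973) (nat_lit 380) (nat_lit 4674830239) (nat_lit 76) (nat_lit 20353864303) (nat_lit 96) (nat_lit 5) (nat_lit 101) (nat_lit 5) (nat_lit 97) (nat_lit 5) (nat_lit 348) (nat_lit 282) (nat_lit 150)))) (XT.nd (nat_lit 156) (nat_lit 304) (nat_lit 0) (XT.nd (nat_lit 78) (nat_lit 304) (nat_lit 0) (XT.lf (nat_lit 0) (nat_lit 7571113280) (nat_lit 380) (nat_lit 12824719405) (nat_lit 76) (nat_lit 5832446609) (nat_lit 92) (nat_lit 5) (nat_lit 97) (nat_lit 5) (nat_lit 93) (nat_lit 5) (nat_lit 349) (nat_lit 282) (nat_lit 149)) (XT.lf (nat_lit 0) (nat_lit 5321193042) (nat_lit 304) (nat_lit 9454590736) (nat_lit 380) (nat_lit 12003653226) (nat_lit 88) (nat_lit 5) (nat_lit 92) (nat_lit 5) (nat_lit 93) (nat_lit 5) (nat_lit 350) (nat_lit 282)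 (nat_lit 148))) (XT.nd (nat_lit 78) (nat_lit 304) (nat_lit 0) (XT.lf (nat_lit 0) (nat_lit 22282992002) (nat_lit 380) (nat_lit 3191007060) (nat_lit 76) (nat_lit 1871407598) (nat_lit 88) (nat_lit 5) (nat_lit 93) (nat_lit 5) (nat_lit 89) (nat_lit 5) (nat_lit 351) (nat_lit 282) (nat_lit 147)) (XT.lf (nat_lit 0) (nat_lit 2213678659) (nat_lit 304) (nat_lit 12192004023) (nat_lit 76) (nat_lit 13519326829) (nat_lit 84) (nat_lit 5) (nat_lit 88) (nat_lit 5) (nat_lit 85) (nat_lit 5) (nat_lit 352) (nat_lit 282) (nat_lit 146))))) (XT.nd (nat_lit 234) (nat_lit 608) (nat_lit 0) (XT.nd (nat_lit 78) (nat_lit 228) (nat_lit 0) (XT.lf (nat_lit 0) (nat_lit 6782257444) (nat_lit 304) (nat_lit 2910873474) (nat_lit 380) (nat_lit 18827127960) (nat_lit 80) (nat_lit 5) (nat_lit 84) (nat_lit 5) (nat_lit 85) (nat_lit 5) (nat_lit 353) (nat_lit 282) (nat_lit 145)) (XT.nd (nat_lit 78) (nat_lit 228) (nat_lit 0) (XT.lf (nat_lit 0)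 (nat_lit 17525951677) (nat_lit 380) (nat_lit 2717027343) (nat_lit 76) (nat_lit 8887811640) (nat_lit 80) (nat_lit 5) (nat_lit 85) (nat_lit 5) (nat_lit 81) (nat_lit 5) (nat_lit 354) (nat_lit 282) (nat_lit 144)) (XT.lf (nat_lit 0) (nat_lit 17059992311) (nat_lit 228) (nat_lit 8652199104) (nat_lit 304) (nat_lit 4045082793) (nat_lit 77) (nat_lit 5) (nat_lit 80) (nat_lit 5) (nat_lit 81) (nat_lit 5) (nat_lit 355) (nat_lit 282) (nat_lit 143)))) (XT.nd (nat_lit 156) (nat_lit 228) (nat_lit 0) (XT.nd (nat_lit 78) (nat_lit 0) (nat_lit 0) (XT.lf (nat_lit 0) (nat_lit 3767354150) (nat_lit 380) (nat_lit 23307368154) (nat_lit 76) (nat_lit 3325849236) (nat_lit 72) (nat_lit 5) (nat_lit 77) (nat_lit 5) (nat_lit 73) (nat_lit 5) (nat_lit 356) (nat_lit 282) (nat_lit 142)) (XT.lf (nat_lit 0) (nat_lit 11892512384) (nat_lit 380) (nat_lit 3514322792) (nat_lit 76) (nat_lit 15653135912) (nat_lit 72) (nat_lit 5) (nat_lit 77)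 (nat_lit 5) (nat_lit 73) (nat_lit 5) (nat_lit 357) (nat_lit 282) (nat_lit 141))) (XT.nd (nat_lit 34788) (nat_lit 0) (nat_lit 30020) (XT.lf (nat_lit 0) (nat_lit 17078443223) (nat_lit 228) (nat_lit 3282721132) (nat_lit 304) (nat_lit 11375997523) (nat_lit 69) (nat_lit 5) (nat_lit 72) (nat_lit 5) (nat_lit 73) (nat_lit 5) (nat_lit 358) (nat_lit 282) (nat_lit 140)) (XT.lf (nat_lit 0) (nat_lit 4053415380) (nat_lit 1444) (nat_lit 156776564) (nat_lit 1444) (nat_lit 156776564) (nat_lit 464) (nat_lit 3) (nat_lit 483) (nat_lit 3) (nat_lit 483) (nat_lit 5) (nat_lit 283) (nat_lit 283) (nat_lit 214))))))))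
noncomputable def xc89 : XT := (XT.nd (nat_lit 2106) (nat_lit 12236) (nat_lit 0) (XT.nd (nat_lit 1014) (nat_lit 8664) (nat_lit 0) (XT.nd (nat_lit 468) (nat_lit 2584) (nat_lit 0) (XT.nd (nat_lit 234) (nat_lit 0) (nat_lit 152) (XT.nd (nat_lit 78) (nat_lit 0) (nat_lit 76) (XT.lf (nat_lit 0) (nat_lit 789462952) (nat_lit 1444) (nat_lit 3085019780) (nat_lit 1520) (nat_lit 4961001074) (nat_lit 445) (nat_lit 5) (nat_lit 464) (nat_lit 3) (nat_lit 465) (nat_lit 5) (nat_lit 284) (nat_lit 283) (nat_lit 213)) (XT.nd (nat_lit 78) (nat_lit 0) (nat_lit 0) (XT.lf (nat_lit 0) (nat_lit 2213664332) (nat_lit 1444) (nat_lit 5877985986) (nat_lit 1520) (nat_lit 848917210) (nat_lit 446) (nat_lit 5) (nat_lit 465) (nat_lit 5) (nat_lit 466) (nat_lit 5) (nat_lit 285) (nat_lit 283) (nat_lit 212)) (XT.lf (nat_lit 76) (nat_lit 337621027) (nat_lit 0) (nat_lit 3339630813) (nat_lit 1520) (nat_lit 5371663900) (nat_lit 447) (nat_lit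 5) (nat_lit 446) (nat_lit 5) (nat_lit 466) (nat_lit 5) (nat_lit 286) (nat_lit 283) (nat_lit 211)))) (XT.nd (nat_lit 78) (nat_lit 0) (nat_lit 0) (XT.lf (nat_lit 0) (nat_lit 5183939342) (nat_lit 1444) (nat_lit 2379872147) (nat_lit 1520) (nat_lit 1596762924) (nat_lit 447) (nat_lit 5) (nat_lit 466) (nat_lit 5) (nat_lit 467) (nat_lit 5) (nat_lit 287) (nat_lit 283) (nat_lit 210)) (XT.nd (nat_lit 78) (nat_lit 0) (nat_lit 76) (XT.lf (nat_lit 76) (nat_lit 4144436989) (nat_lit 0) (nat_lit 2591119628) (nat_lit 1520) (nat_lit 2540074232) (nat_lit 448) (nat_lit 5) (nat_lit 447) (nat_lit 5) (nat_lit 467) (nat_lit 5) (nat_lit 288) (nat_lit 283) (nat_lit 209)) (XT.lf (nat_lit 76) (nat_lit 1476319223) (nat_lit 0) (nat_lit 6851524427) (nat_lit 1520) (nat_lit 1066454250) (nat_lit 449) (nat_lit 5) (nat_lit 448) (nat_lit 5) (nat_lit 468) (nat_lit 5) (nat_lit 289) (nat_lit 283) (nat_lit 208))))) (XT.nd (nat_lit 234)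 (nat_lit 1292) (nat_lit 0) (XT.nd (nat_lit 78) (nat_lit 0) (nat_lit 76) (XT.lf (nat_lit 0) (nat_lit 450515932) (nat_lit 1520) (nat_lit 1213948997) (nat_lit 1596) (nat_lit 7851939546) (nat_lit 428) (nat_lit 5) (nat_lit 448) (nat_lit 5) (nat_lit 449) (nat_lit 5) (nat_lit 290) (nat_lit 283) (nat_lit 207)) (XT.nd (nat_lit 78) (nat_lit 0) (nat_lit 0) (XT.lf (nat_lit 0) (nat_lit 2014186577) (nat_lit 1520) (nat_lit 3936359209) (nat_lit 1596) (nat_lit 3691212077) (nat_lit 429) (nat_lit 5) (nat_lit 449) (nat_lit 5) (nat_lit 450) (nat_lit 5) (nat_lit 291) (nat_lit 283) (nat_lit 206)) (XT.lf (nat_lit 76) (nat_lit 3077797788) (nat_lit 0) (nat_lit 541729560) (nat_lit 1596) (nat_lit 6151486401) (nat_lit 430) (nat_lit 5) (nat_lit 429) (nat_lit 5) (nat_lit 450) (nat_lit 5) (nat_lit 292) (nat_lit 283) (nat_lit 205)))) (XT.nd (nat_lit 156) (nat_lit 1444) (nat_lit 0) (XT.nd (nat_lit 78) (nat_lit 0) (nat_lit 76) (XT.lf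 (nat_lit 76) (nat_lit 394857175) (nat_lit 0) (nat_lit 4896808950) (nat_lit 1596) (nat_lit 4612144444) (nat_lit 431) (nat_lit 5) (nat_lit 430) (nat_lit 5) (nat_lit 451) (nat_lit 5) (nat_lit 293) (nat_lit 283) (nat_lit 204)) (XT.lf (nat_lit 0) (nat_lit 7025326490) (nat_lit 1520) (nat_lit 2291385194) (nat_lit 1596) (nat_lit 723687427) (nat_lit 431) (nat_lit 5) (nat_lit 451) (nat_lit 5) (nat_lit 452) (nat_lit 5) (nat_lit 294) (nat_lit 283) (nat_lit 203))) (XT.nd (nat_lit 78) (nat_lit 1520) (nat_lit 0) (XT.lf (nat_lit 76) (nat_lit 5147754539) (nat_lit 0) (nat_lit 3688367759) (nat_lit 1596) (nat_lit 1344494446) (nat_lit 432) (nat_lit 5) (nat_lit 431) (nat_lit 5) (nat_lit 452) (nat_lit 5) (nat_lit 295) (nat_lit 283) (nat_lit 202)) (XT.lf (nat_lit 0) (nat_lit 376893489) (nat_lit 1596) (nat_lit 7821814785) (nat_lit 1672) (nat_lit 2126203567) (nat_lit 411) (nat_lit 5) (nat_lit 432) (nat_lit 5) (nat_lit 433)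 (nat_lit 5) (nat_lit 296) (nat_lit 283) (nat_lit 201)))))) (XT.nd (nat_lit 546) (nat_lit 4180) (nat_lit 0) (XT.nd (nat_lit 234) (nat_lit 4484) (nat_lit 0) (XT.nd (nat_lit 78) (nat_lit 0) (nat_lit 76) (XT.lf (nat_lit 0) (nat_lit 2151469994) (nat_lit 1596) (nat_lit 202918997) (nat_lit 1672) (nat_lit 8118604161) (nat_lit 411) (nat_lit 5) (nat_lit 432) (nat_lit 5) (nat_lit 433) (nat_lit 5) (nat_lit 297) (nat_lit 283) (nat_lit 200)) (XT.nd (nat_lit 78) (nat_lit 0) (nat_lit 0) (XT.lf (nat_lit 0) (nat_lit 4015427826) (nat_lit 1596) (nat_lit 2933076969) (nat_lit 1672) (nat_lit 3676319685) (nat_lit 412) (nat_lit 5) (nat_lit 433) (nat_lit 5) (nat_lit 434) (nat_lit 5) (nat_lit 298) (nat_lit 283) (nat_lit 199)) (XT.lf (nat_lit 76) (nat_lit 5065853219) (nat_lit 0) (nat_lit 882306594) (nat_lit 1672) (nat_lit 4832823395) (nat_lit 413) (nat_lit 5) (nat_lit 412) (nat_lit 5) (nat_lit 434) (nat_lit 5) (nat_lit 299)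 (nat_lit 283) (nat_lit 198)))) (XT.nd (nat_lit 156) (nat_lit 3040) (nat_lit 0) (XT.nd (nat_lit 78) (nat_lit 0) (nat_lit 0) (XT.lf (nat_lit 0) (nat_lit 2369578238) (nat_lit 1596) (nat_lit 5603300662) (nat_lit 1672) (nat_lit 2968296405) (nat_lit 392) (nat_lit 5) (nat_lit 413) (nat_lit 5) (nat_lit 414) (nat_lit 5) (nat_lit 300) (nat_lit 283) (nat_lit 197)) (XT.lf (nat_lit 0) (nat_lit 10071929557) (nat_lit 1672) (nat_lit 370813624) (nat_lit 76) (nat_lit 663186058) (nat_lit 392) (nat_lit 5) (nat_lit 414) (nat_lit 5) (nat_lit 393) (nat_lit 5) (nat_lit 301) (nat_lit 283) (nat_lit 196))) (XT.nd (nat_lit 78) (nat_lit 1292) (nat_lit 0) (XT.lf (nat_lit 0) (nat_lit 1001968614) (nat_lit 1748) (nat_lit 3165572431) (nat_lit 76) (nat_lit 7106862607) (nat_lit 369) (nat_lit 5) (nat_lit 392) (nat_lit 5) (nat_lit 370) (nat_lit 5) (nat_lit 302) (nat_lit 283) (nat_lit 195)) (XT.lf (nat_lit 0) (nat_lit 3104364172) (nat_lit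 1368) (nat_lit 6027960827) (nat_lit 76) (nat_lit 2315108439) (nat_lit 352) (nat_lit 5) (nat_lit 370) (nat_lit 5) (nat_lit 353) (nat_lit 5) (nat_lit 303) (nat_lit 283) (nat_lit 194))))) (XT.nd (nat_lit 234) (nat_lit 2508) (nat_lit 0) (XT.nd (nat_lit 78) (nat_lit 836) (nat_lit 0) (XT.lf (nat_lit 0) (nat_lit 2657381147) (nat_lit 836) (nat_lit 2646255943) (nat_lit 912) (nat_lit 6321365922) (nat_lit 341) (nat_lit 5) (nat_lit 352) (nat_lit 5) (nat_lit 353) (nat_lit 5) (nat_lit 304) (nat_lit 283) (nat_lit 193)) (XT.nd (nat_lit 78) (nat_lit 836) (nat_lit 0) (XT.lf (nat_lit 0) (nat_lit 7604077596) (nat_lit 912) (nat_lit 177591300) (nat_lit 76) (nat_lit 4025551271) (nat_lit 341) (nat_lit 5) (nat_lit 353) (nat_lit 5) (nat_lit 342) (nat_lit 5) (nat_lit 305) (nat_lit 283) (nat_lit 192)) (XT.lf (nat_lit 0) (nat_lit 8946812500) (nat_lit 836) (nat_lit 1071317296) (nat_lit 912) (nat_lit 1975905641) (nat_lit 330)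 (nat_lit 5) (nat_lit 341) (nat_lit 5) (nat_lit 342) (nat_lit 5) (nat_lit 306) (nat_lit 283) (nat_lit 191)))) (XT.nd (nat_lit 156) (nat_lit 760) (nat_lit 0) (XT.nd (nat_lit 78) (nat_lit 836) (nat_lit 0) (XT.lf (nat_lit 0) (nat_lit 363047509) (nat_lit 912) (nat_lit 6013030792) (nat_lit 76) (nat_lit 5809376556) (nat_lit 318) (nat_lit 5) (nat_lit 330) (nat_lit 5) (nat_lit 319) (nat_lit 5) (nat_lit 307) (nat_lit 283) (nat_lit 190)) (XT.lf (nat_lit 0) (nat_lit 2768645116) (nat_lit 912) (nat_lit 9063469667) (nat_lit 76) (nat_lit 549796231) (nat_lit 307) (nat_lit 5) (nat_lit 319) (nat_lit 5) (nat_lit 308) (nat_lit 5) (nat_lit 308) (nat_lit 283) (nat_lit 189))) (XT.nd (nat_lit 78) (nat_lit 0) (nat_lit 0) (XT.lf (nat_lit 0) (nat_lit 361317009) (nat_lit 760) (nat_lit 4941817636) (nat_lit 836) (nat_lit 7280012879) (nat_lit 297) (nat_lit 5) (nat_lit 307) (nat_lit 5) (nat_lit 308) (nat_lit 5) (nat_lit 309) (nat_lit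 283) (nat_lit 188)) (XT.lf (nat_lit 0) (nat_lit 7960862918) (nat_lit 836) (nat_lit 2640031787) (nat_lit 76) (nat_lit 2188602877) (nat_lit 297) (nat_lit 5) (nat_lit 308) (nat_lit 5) (nat_lit 298) (nat_lit 5) (nat_lit 310) (nat_lit 283) (nat_lit 187))))))) (XT.nd (nat_lit 1014) (nat_lit 5472) (nat_lit 0) (XT.nd (nat_lit 468) (nat_lit 3116) (nat_lit 0) (XT.nd (nat_lit 234) (nat_lit 1368) (nat_lit 0) (XT.nd (nat_lit 78) (nat_lit 1520) (nat_lit 0) (XT.lf (nat_lit 0) (nat_lit 7262933441) (nat_lit 760) (nat_lit 3487814355) (nat_lit 836) (nat_lit 2250261785) (nat_lit 287) (nat_lit 5) (nat_lit 297) (nat_lit 5) (nat_lit 298) (nat_lit 5) (nat_lit 311) (nat_lit 283) (nat_lit 186)) (XT.nd (nat_lit 78) (nat_lit 760) (nat_lit 0) (XT.lf (nat_lit 0) (nat_lit 443996733) (nat_lit 760) (nat_lit 8937775615) (nat_lit 76) (nat_lit 3836183871) (nat_lit 277) (nat_lit 5) (nat_lit 287) (nat_lit 5) (nat_lit 278) (nat_lit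 5) (nat_lit 312) (nat_lit 283) (nat_lit 185)) (XT.lf (nat_lit 0) (nat_lit 1185311724) (nat_lit 760) (nat_lit 2046790500) (nat_lit 836) (nat_lit 10208158142) (nat_lit 267) (nat_lit 5) (nat_lit 277) (nat_lit 5) (nat_lit 278) (nat_lit 5) (nat_lit 313) (nat_lit 283) (nat_lit 184)))) (XT.nd (nat_lit 78) (nat_lit 1368) (nat_lit 0) (XT.lf (nat_lit 0) (nat_lit 6174421238) (nat_lit 836) (nat_lit 1998317851) (nat_lit 76) (nat_lit 5495101027) (nat_lit 267) (nat_lit 5) (nat_lit 278) (nat_lit 5) (nat_lit 268) (nat_lit 5) (nat_lit 314) (nat_lit 283) (nat_lit 183)) (XT.nd (nat_lit 78) (nat_lit 684) (nat_lit 0) (XT.lf (nat_lit 0) (nat_lit 8637878743) (nat_lit 684) (nat_lit 611504548) (nat_lit 760) (nat_lit 4651993862) (nat_lit 258) (nat_lit 5) (nat_lit 267) (nat_lit 5) (nat_lit 268) (nat_lit 5) (nat_lit 315) (nat_lit 283) (nat_lit 182)) (XT.lf (nat_lit 0) (nat_lit 5476221584) (nat_lit 684) (nat_lit 7011303353)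 (nat_lit 760) (nat_lit 1652993606) (nat_lit 249) (nat_lit 5) (nat_lit 258) (nat_lit 5) (nat_lit 259) (nat_lit 5) (nat_lit 316) (nat_lit 283) (nat_lit 181))))) (XT.nd (nat_lit 234) (nat_lit 1824) (nat_lit 0) (XT.nd (nat_lit 78) (nat_lit 608) (nat_lit 0) (XT.lf (nat_lit 0) (nat_lit 1451980356) (nat_lit 684) (nat_lit 12179284059) (nat_lit 76) (nat_lit 754702607) (nat_lit 240) (nat_lit 5) (nat_lit 249) (nat_lit 5) (nat_lit 241) (nat_lit 5) (nat_lit 317) (nat_lit 283) (nat_lit 180)) (XT.nd (nat_lit 78) (nat_lit 608) (nat_lit 0) (XT.lf (nat_lit 0) (nat_lit 4709796176) (nat_lit 684) (nat_lit 1201240319) (nat_lit 76) (nat_lit 8725896505) (nat_lit 240) (nat_lit 5) (nat_lit 249) (nat_lit 5) (nat_lit 241) (nat_lit 5) (nat_lit 318) (nat_lit 283) (nat_lit 179)) (XT.lf (nat_lit 0) (nat_lit 8122055065) (nat_lit 684) (nat_lit 4695044024) (nat_lit 76) (nat_lit 2077209823) (nat_lit 232) (nat_lit 5) (nat_lit 241)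 (nat_lit 5) (nat_lit 233) (nat_lit 5) (nat_lit 319) (nat_lit 283) (nat_lit 178)))) (XT.nd (nat_lit 156) (nat_lit 532) (nat_lit 0) (XT.nd (nat_lit 78) (nat_lit 684) (nat_lit 0) (XT.lf (nat_lit 0) (nat_lit 6821974095) (nat_lit 608) (nat_lit 4883937870) (nat_lit 684) (nat_lit 3452124217) (nat_lit 224) (nat_lit 5) (nat_lit 232) (nat_lit 5) (nat_lit 233) (nat_lit 5) (nat_lit 320) (nat_lit 283) (nat_lit 177)) (XT.lf (nat_lit 0) (nat_lit 20937024) (nat_lit 684) (nat_lit 12114020585) (nat_lit 76) (nat_lit 3293677786) (nat_lit 215) (nat_lit 5) (nat_lit 224) (nat_lit 5) (nat_lit 216) (nat_lit 5) (nat_lit 321) (nat_lit 283) (nat_lit 176))) (XT.nd (nat_lit 78) (nat_lit 532) (nat_lit 0) (XT.lf (nat_lit 0) (nat_lit 3619078243) (nat_lit 684) (nat_lit 360191227) (nat_lit 76) (nat_lit 11726284534) (nat_lit 215) (nat_lit 5) (nat_lit 224) (nat_lit 5) (nat_lit 216) (nat_lit 5) (nat_lit 322) (nat_lit 283) (nat_lit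 175)) (XT.lf (nat_lit 0) (nat_lit 7410095489) (nat_lit 608) (nat_lit 4142839637) (nat_lit 76) (nat_lit 4436159585) (nat_lit 208) (nat_lit 5) (nat_lit 216) (nat_lit 5) (nat_lit 209) (nat_lit 5) (nat_lit 323) (nat_lit 283) (nat_lit 174)))))) (XT.nd (nat_lit 546) (nat_lit 2280) (nat_lit 0) (XT.nd (nat_lit 234) (nat_lit 1520) (nat_lit 0) (XT.nd (nat_lit 78) (nat_lit 1140) (nat_lit 0) (XT.lf (nat_lit 0) (nat_lit 8197654496) (nat_lit 532) (nat_lit 3178546866) (nat_lit 608) (nat_lit 4903725907) (nat_lit 201) (nat_lit 5) (nat_lit 208) (nat_lit 5) (nat_lit 209) (nat_lit 5) (nat_lit 324) (nat_lit 283) (nat_lit 173)) (XT.nd (nat_lit 78) (nat_lit 608) (nat_lit 0) (XT.lf (nat_lit 0) (nat_lit 4382136132) (nat_lit 532) (nat_lit 11150707659) (nat_lit 608) (nat_lit 1045222365) (nat_lit 194) (nat_lit 5) (nat_lit 201) (nat_lit 5) (nat_lit 202) (nat_lit 5) (nat_lit 325) (nat_lit 283) (nat_lit 172)) (XT.lf (nat_lit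 0) (nat_lit 385684476) (nat_lit 532) (nat_lit 2563591881) (nat_lit 608) (nat_lit 13934331230) (nat_lit 186) (nat_lit 5) (nat_lit 193) (nat_lit 5) (nat_lit 194) (nat_lit 5) (nat_lit 326) (nat_lit 283) (nat_lit 171)))) (XT.nd (nat_lit 156) (nat_lit 1064) (nat_lit 0) (XT.nd (nat_lit 78) (nat_lit 456) (nat_lit 0) (XT.lf (nat_lit 0) (nat_lit 7153614858) (nat_lit 608) (nat_lit 3759039218) (nat_lit 76) (nat_lit 6283450376) (nat_lit 186) (nat_lit 5) (nat_lit 194) (nat_lit 5) (nat_lit 187) (nat_lit 5) (nat_lit 327) (nat_lit 283) (nat_lit 170)) (XT.lf (nat_lit 0) (nat_lit 9443727803) (nat_lit 456) (nat_lit 2099544874) (nat_lit 532) (nat_lit 5973530906) (nat_lit 180) (nat_lit 5) (nat_lit 186) (nat_lit 5) (nat_lit 187) (nat_lit 5) (nat_lit 328) (nat_lit 283) (nat_lit 169))) (XT.nd (nat_lit 78) (nat_lit 532) (nat_lit 0) (XT.lf (nat_lit 0) (nat_lit 5245802133) (nat_lit 532) (nat_lit 10904918770) (nat_lit 608)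 (nat_lit 1694691589) (nat_lit 173) (nat_lit 5) (nat_lit 180) (nat_lit 5) (nat_lit 181) (nat_lit 5) (nat_lit 329) (nat_lit 283) (nat_lit 168)) (XT.lf (nat_lit 0) (nat_lit 846256193) (nat_lit 456) (nat_lit 1886637806) (nat_lit 532) (nat_lit 15449524614) (nat_lit 166) (nat_lit 5) (nat_lit 172) (nat_lit 5) (nat_lit 173) (nat_lit 5) (nat_lit 330) (nat_lit 283) (nat_lit 167))))) (XT.nd (nat_lit 234) (nat_lit 1368) (nat_lit 0) (XT.nd (nat_lit 78) (nat_lit 912) (nat_lit 0) (XT.lf (nat_lit 0) (nat_lit 7386116569) (nat_lit 532) (nat_lit 3744549491) (nat_lit 76) (nat_lit 7396338143) (nat_lit 166) (nat_lit 5) (nat_lit 173) (nat_lit 5) (nat_lit 167) (nat_lit 5) (nat_lit 331) (nat_lit 283) (nat_lit 166)) (XT.nd (nat_lit 78) (nat_lit 456) (nat_lit 0) (XT.lf (nat_lit 0) (nat_lit 10353981764) (nat_lit 456) (nat_lit 1887026900) (nat_lit 532) (nat_lit 6639686946) (nat_lit 160) (nat_lit 5) (nat_lit 166) (nat_lit 5)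 (nat_lit 167) (nat_lit 5) (nat_lit 332) (nat_lit 283) (nat_lit 165)) (XT.lf (nat_lit 0) (nat_lit 5683101757) (nat_lit 456) (nat_lit 11653006005) (nat_lit 532) (nat_lit 1907008215) (nat_lit 154) (nat_lit 5) (nat_lit 160) (nat_lit 5) (nat_lit 161) (nat_lit 5) (nat_lit 333) (nat_lit 283) (nat_lit 164)))) (XT.nd (nat_lit 156) (nat_lit 836) (nat_lit 0) (XT.nd (nat_lit 78) (nat_lit 0) (nat_lit 0) (XT.lf (nat_lit 0) (nat_lit 774780189) (nat_lit 456) (nat_lit 2212549557) (nat_lit 532) (nat_lit 16627530816) (nat_lit 147) (nat_lit 5) (nat_lit 153) (nat_lit 5) (nat_lit 154) (nat_lit 5) (nat_lit 334) (nat_lit 283) (nat_lit 163)) (XT.lf (nat_lit 0) (nat_lit 8127094389) (nat_lit 532) (nat_lit 4356520726) (nat_lit 76) (nat_lit 7511408865) (nat_lit 147) (nat_lit 5) (nat_lit 154) (nat_lit 5) (nat_lit 148) (nat_lit 5) (nat_lit 335) (nat_lit 283) (nat_lit 162))) (XT.nd (nat_lit 78) (nat_lit 456) (nat_lit 0) (XT.lf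 (nat_lit 0) (nat_lit 10663592382) (nat_lit 380) (nat_lit 2825078364) (nat_lit 456) (nat_lit 6896577634) (nat_lit 142) (nat_lit 5) (nat_lit 147) (nat_lit 5) (nat_lit 148) (nat_lit 5) (nat_lit 336) (nat_lit 283) (nat_lit 161)) (XT.lf (nat_lit 0) (nat_lit 5408921494) (nat_lit 456) (nat_lit 13697132344) (nat_lit 532) (nat_lit 1679234691) (nat_lit 136) (nat_lit 5) (nat_lit 142) (nat_lit 5) (nat_lit 143) (nat_lit 5) (nat_lit 337) (nat_lit 283) (nat_lit 160))))))))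
noncomputable def xc90 : XT := (XT.nd (nat_lit 36894) (nat_lit 0) (nat_lit 14136) (XT.nd (nat_lit 1014) (nat_lit 1520) (nat_lit 0) (XT.nd (nat_lit 468) (nat_lit 1748) (nat_lit 0) (XT.nd (nat_lit 234) (nat_lit 760) (nat_lit 0) (XT.nd (nat_lit 78) (nat_lit 760) (nat_lit 0) (XT.lf (nat_lit 0) (nat_lit 3715465189) (nat_lit 532) (nat_lit 135614507) (nat_lit 76) (nat_lit 17344392395) (nat_lit 135) (nat_lit 5) (nat_lit 142) (nat_lit 5) (nat_lit 136) (nat_lit 5) (nat_lit 338) (nat_lit 283) (nat_lit 159)) (XT.nd (nat_lit 78) (nat_lit 380) (nat_lit 0) (XT.lf (nat_lit 0) (nat_lit 9377585413) (nat_lit 456) (nat_lit 5922165336) (nat_lit 76) (nat_lit 6315428128) (nat_lit 130) (nat_lit 5) (nat_lit 136) (nat_lit 5) (nat_lit 131) (nat_lit 5) (nat_lit 339) (nat_lit 283) (nat_lit 158)) (XT.lf (nat_lit 0) (nat_lit 10034727043) (nat_lit 380) (nat_lit 5251489126) (nat_lit 456) (nat_lit 6759735125) (nat_lit 125) (nat_lit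 5) (nat_lit 130) (nat_lit 5) (nat_lit 131) (nat_lit 5) (nat_lit 340) (nat_lit 283) (nat_lit 157)))) (XT.nd (nat_lit 78) (nat_lit 456) (nat_lit 0) (XT.lf (nat_lit 0) (nat_lit 4060510929) (nat_lit 304) (nat_lit 17396529201) (nat_lit 380) (nat_lit 1030915216) (nat_lit 121) (nat_lit 5) (nat_lit 125) (nat_lit 5) (nat_lit 126) (nat_lit 5) (nat_lit 341) (nat_lit 283) (nat_lit 156)) (XT.nd (nat_lit 78) (nat_lit 380) (nat_lit 0) (XT.lf (nat_lit 0) (nat_lit 4908215768) (nat_lit 380) (nat_lit 2251826846) (nat_lit 76) (nat_lit 15780505068) (nat_lit 120) (nat_lit 5) (nat_lit 125) (nat_lit 5) (nat_lit 121) (nat_lit 5) (nat_lit 342) (nat_lit 283) (nat_lit 155)) (XT.lf (nat_lit 0) (nat_lit 11114496199) (nat_lit 456) (nat_lit 8855430069) (nat_lit 76) (nat_lit 3434602210) (nat_lit 115) (nat_lit 5) (nat_lit 121) (nat_lit 5) (nat_lit 116) (nat_lit 5) (nat_lit 343) (nat_lit 283) (nat_lit 154))))) (XT.nd (nat_lit 234)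 (nat_lit 988) (nat_lit 0) (XT.nd (nat_lit 78) (nat_lit 456) (nat_lit 0) (XT.lf (nat_lit 0) (nat_lit 8039167904) (nat_lit 304) (nat_lit 9569166690) (nat_lit 380) (nat_lit 6272073125) (nat_lit 111) (nat_lit 5) (nat_lit 115) (nat_lit 5) (nat_lit 116) (nat_lit 5) (nat_lit 344) (nat_lit 283) (nat_lit 153)) (XT.nd (nat_lit 78) (nat_lit 76) (nat_lit 0) (XT.lf (nat_lit 0) (nat_lit 1179166532) (nat_lit 380) (nat_lit 23179469266) (nat_lit 456) (nat_lit 10700815) (nat_lit 106) (nat_lit 5) (nat_lit 111) (nat_lit 5) (nat_lit 112) (nat_lit 5) (nat_lit 345) (nat_lit 283) (nat_lit 152)) (XT.lf (nat_lit 0) (nat_lit 6512455361) (nat_lit 456) (nat_lit 6071050280) (nat_lit 76) (nat_lit 12285429901) (nat_lit 105) (nat_lit 5) (nat_lit 111) (nat_lit 5) (nat_lit 106) (nat_lit 5) (nat_lit 346) (nat_lit 283) (nat_lit 151)))) (XT.nd (nat_lit 156) (nat_lit 380) (nat_lit 0) (XT.nd (nat_lit 78) (nat_lit 304) (nat_lit 0) (XT.lf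 (nat_lit 0) (nat_lit 11694776847) (nat_lit 304) (nat_lit 1599048618) (nat_lit 380) (nat_lit 12088448021) (nat_lit 101) (nat_lit 5) (nat_lit 105) (nat_lit 5) (nat_lit 106) (nat_lit 5) (nat_lit 347) (nat_lit 283) (nat_lit 150)) (XT.lf (nat_lit 0) (nat_lit 4137337243) (nat_lit 304) (nat_lit 16259596111) (nat_lit 380) (nat_lit 5511717868) (nat_lit 97) (nat_lit 5) (nat_lit 101) (nat_lit 5) (nat_lit 102) (nat_lit 5) (nat_lit 348) (nat_lit 283) (nat_lit 149))) (XT.nd (nat_lit 78) (nat_lit 304) (nat_lit 0) (XT.lf (nat_lit 0) (nat_lit 1336925881) (nat_lit 380) (nat_lit 3804115034) (nat_lit 76) (nat_lit 21307797436) (nat_lit 96) (nat_lit 5) (nat_lit 101) (nat_lit 5) (nat_lit 97) (nat_lit 5) (nat_lit 349) (nat_lit 283) (nat_lit 148)) (XT.lf (nat_lit 0) (nat_lit 8442225403) (nat_lit 380) (nat_lit 12204097747) (nat_lit 76) (nat_lit 6355662876) (nat_lit 92) (nat_lit 5) (nat_lit 97) (nat_lit 5) (nat_lit 93) (nat_lit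 5) (nat_lit 350) (nat_lit 283) (nat_lit 147)))))) (XT.nd (nat_lit 546) (nat_lit 0) (nat_lit 0) (XT.nd (nat_lit 234) (nat_lit 912) (nat_lit 0) (XT.nd (nat_lit 78) (nat_lit 304) (nat_lit 0) (XT.lf (nat_lit 0) (nat_lit 6469881250) (nat_lit 304) (nat_lit 9380819689) (nat_lit 380) (nat_lit 11719231864) (nat_lit 88) (nat_lit 5) (nat_lit 92) (nat_lit 5) (nat_lit 93) (nat_lit 5) (nat_lit 351) (nat_lit 283) (nat_lit 146)) (XT.nd (nat_lit 78) (nat_lit 304) (nat_lit 0) (XT.lf (nat_lit 0) (nat_lit 23566980967) (nat_lit 380) (nat_lit 2316233200) (nat_lit 76) (nat_lit 2269997679) (nat_lit 88) (nat_lit 5) (nat_lit 93) (nat_lit 5) (nat_lit 89) (nat_lit 5) (nat_lit 352) (nat_lit 283) (nat_lit 145)) (XT.lf (nat_lit 0) (nat_lit 2888095162) (nat_lit 304) (nat_lit 11594690134) (nat_lit 76) (nat_lit 14267579246) (nat_lit 84) (nat_lit 5) (nat_lit 88) (nat_lit 5) (nat_lit 85) (nat_lit 5) (nat_lit 353) (nat_lit 283) (nat_lit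 144)))) (XT.nd (nat_lit 156) (nat_lit 608) (nat_lit 0) (XT.nd (nat_lit 78) (nat_lit 0) (nat_lit 0) (XT.lf (nat_lit 0) (nat_lit 7933174445) (nat_lit 304) (nat_lit 2647199096) (nat_lit 380) (nat_lit 18783335847) (nat_lit 80) (nat_lit 5) (nat_lit 84) (nat_lit 5) (nat_lit 85) (nat_lit 5) (nat_lit 354) (nat_lit 283) (nat_lit 143)) (XT.lf (nat_lit 0) (nat_lit 18633019183) (nat_lit 380) (nat_lit 1869093886) (nat_lit 76) (nat_lit 9490753899) (nat_lit 80) (nat_lit 5) (nat_lit 85) (nat_lit 5) (nat_lit 81) (nat_lit 5) (nat_lit 355) (nat_lit 283) (nat_lit 142))) (XT.nd (nat_lit 78) (nat_lit 380) (nat_lit 0) (XT.lf (nat_lit 0) (nat_lit 18486157228) (nat_lit 228) (nat_lit 8567694803) (nat_lit 304) (nat_lit 3584519327) (nat_lit 77) (nat_lit 5) (nat_lit 80) (nat_lit 5) (nat_lit 81) (nat_lit 5) (nat_lit 356) (nat_lit 283) (nat_lit 141)) (XT.lf (nat_lit 0) (nat_lit 4446054686) (nat_lit 380) (nat_lit 23090101287)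 (nat_lit 76) (nat_lit 3764914299) (nat_lit 72) (nat_lit 5) (nat_lit 77) (nat_lit 5) (nat_lit 73) (nat_lit 5) (nat_lit 357) (nat_lit 283) (nat_lit 140))))) (XT.nd (nat_lit 35022) (nat_lit 0) (nat_lit 28348) (XT.nd (nat_lit 34866) (nat_lit 0) (nat_lit 28348) (XT.lf (nat_lit 0) (nat_lit 12798491553) (nat_lit 380) (nat_lit 2729958387) (nat_lit 76) (nat_lit 16452137354) (nat_lit 72) (nat_lit 5) (nat_lit 77) (nat_lit 5) (nat_lit 73) (nat_lit 5) (nat_lit 358) (nat_lit 283) (nat_lit 139)) (XT.nd (nat_lit 78) (nat_lit 0) (nat_lit 0) (XT.lf (nat_lit 0) (nat_lit 527480853) (nat_lit 0) (nat_lit 527480853) (nat_lit 1444) (nat_lit 3414403177) (nat_lit 445) (nat_lit 5) (nat_lit 445) (nat_lit 3) (nat_lit 464) (nat_lit 3) (nat_lit 284) (nat_lit 284) (nat_lit 212)) (XT.lf (nat_lit 0) (nat_lit 3475924324) (nat_lit 1444) (nat_lit 1777451000) (nat_lit 1520) (nat_lit 3791624431) (nat_lit 445) (nat_lit 5) (nat_lit 464)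 (nat_lit 3) (nat_lit 465) (nat_lit 5) (nat_lit 285) (nat_lit 284) (nat_lit 211)))) (XT.nd (nat_lit 156) (nat_lit 0) (nat_lit 152) (XT.nd (nat_lit 78) (nat_lit 0) (nat_lit 76) (XT.lf (nat_lit 76) (nat_lit 4537730671) (nat_lit 0) (nat_lit 330754938) (nat_lit 1520) (nat_lit 4286304489) (nat_lit 446) (nat_lit 5) (nat_lit 445) (nat_lit 5) (nat_lit 465) (nat_lit 5) (nat_lit 286) (nat_lit 284) (nat_lit 210)) (XT.lf (nat_lit 76) (nat_lit 1763810500) (nat_lit 0) (nat_lit 4543888694) (nat_lit 1520) (nat_lit 2960120035) (nat_lit 447) (nat_lit 5) (nat_lit 446) (nat_lit 5) (nat_lit 466) (nat_lit 5) (nat_lit 287) (nat_lit 284) (nat_lit 209))) (XT.nd (nat_lit 78) (nat_lit 0) (nat_lit 0) (XT.lf (nat_lit 0) (nat_lit 7779225922) (nat_lit 1444) (nat_lit 1018459405) (nat_lit 1520) (nat_lit 586812516) (nat_lit 447) (nat_lit 5) (nat_lit 466) (nat_lit 5) (nat_lit 467) (nat_lit 5) (nat_lit 288) (nat_lit 284) (nat_lit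 208)) (XT.lf (nat_lit 76) (nat_lit 5678333383) (nat_lit 0) (nat_lit 3637148937) (nat_lit 1520) (nat_lit 188822961) (nat_lit 448) (nat_lit 5) (nat_lit 447) (nat_lit 5) (nat_lit 467) (nat_lit 5) (nat_lit 289) (nat_lit 284) (nat_lit 207))))))) (XT.nd (nat_lit 1014) (nat_lit 8436) (nat_lit 0) (XT.nd (nat_lit 468) (nat_lit 4484) (nat_lit 0) (XT.nd (nat_lit 234) (nat_lit 0) (nat_lit 76) (XT.nd (nat_lit 78) (nat_lit 0) (nat_lit 0) (XT.lf (nat_lit 0) (nat_lit 1245078353) (nat_lit 1520) (nat_lit 6673824718) (nat_lit 1596) (nat_lit 1708844813) (nat_lit 428) (nat_lit 5) (nat_lit 448) (nat_lit 5) (nat_lit 449) (nat_lit 5) (nat_lit 290) (nat_lit 284) (nat_lit 206)) (XT.nd (nat_lit 78) (nat_lit 0) (nat_lit 76) (XT.lf (nat_lit 76) (nat_lit 183654267) (nat_lit 0) (nat_lit 2542850995) (nat_lit 1596) (nat_lit 7028259159) (nat_lit 429) (nat_lit 5) (nat_lit 428) (nat_lit 5) (nat_lit 449) (nat_lit 5) (nat_lit 291)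 (nat_lit 284) (nat_lit 205)) (XT.lf (nat_lit 0) (nat_lit 4274005933) (nat_lit 1520) (nat_lit 2594974691) (nat_lit 1596) (nat_lit 3016214225) (nat_lit 429) (nat_lit 5) (nat_lit 449) (nat_lit 5) (nat_lit 450) (nat_lit 5) (nat_lit 292) (nat_lit 284) (nat_lit 204)))) (XT.nd (nat_lit 78) (nat_lit 0) (nat_lit 76) (XT.lf (nat_lit 76) (nat_lit 4605928762) (nat_lit 0) (nat_lit 1266840299) (nat_lit 1596) (nat_lit 4146707347) (nat_lit 430) (nat_lit 5) (nat_lit 429) (nat_lit 5) (nat_lit 450) (nat_lit 5) (nat_lit 293) (nat_lit 284) (nat_lit 203)) (XT.nd (nat_lit 78) (nat_lit 0) (nat_lit 76) (XT.lf (nat_lit 76) (nat_lit 1867676615) (nat_lit 0) (nat_lit 5669946960) (nat_lit 1596) (nat_lit 2619834215) (nat_lit 431) (nat_lit 5) (nat_lit 430) (nat_lit 5) (nat_lit 451) (nat_lit 5) (nat_lit 294) (nat_lit 284) (nat_lit 202)) (XT.lf (nat_lit 0) (nat_lit 9258553801) (nat_lit 1520) (nat_lit 895557094) (nat_lit 1596) (nat_lit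 145378076) (nat_lit 431) (nat_lit 5) (nat_lit 451) (nat_lit 5) (nat_lit 452) (nat_lit 5) (nat_lit 295) (nat_lit 284) (nat_lit 201))))) (XT.nd (nat_lit 234) (nat_lit 3116) (nat_lit 0) (XT.nd (nat_lit 78) (nat_lit 0) (nat_lit 76) (XT.lf (nat_lit 0) (nat_lit 620916793) (nat_lit 1596) (nat_lit 3706041947) (nat_lit 1672) (nat_lit 6117912457) (nat_lit 410) (nat_lit 5) (nat_lit 431) (nat_lit 5) (nat_lit 432) (nat_lit 5) (nat_lit 296) (nat_lit 284) (nat_lit 200)) (XT.nd (nat_lit 78) (nat_lit 0) (nat_lit 0) (XT.lf (nat_lit 0) (nat_lit 2324067136) (nat_lit 1596) (nat_lit 6567948833) (nat_lit 1672) (nat_lit 1702380066) (nat_lit 411) (nat_lit 5) (nat_lit 432) (nat_lit 5) (nat_lit 433) (nat_lit 5) (nat_lit 297) (nat_lit 284) (nat_lit 199)) (XT.lf (nat_lit 76) (nat_lit 1252586765) (nat_lit 0) (nat_lit 2851042323) (nat_lit 1672) (nat_lit 6644300758) (nat_lit 412) (nat_lit 5) (nat_lit 411) (nat_lit 5) (nat_lit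 433) (nat_lit 5) (nat_lit 298) (nat_lit 284) (nat_lit 198)))) (XT.nd (nat_lit 156) (nat_lit 3268) (nat_lit 0) (XT.nd (nat_lit 78) (nat_lit 0) (nat_lit 0) (XT.lf (nat_lit 0) (nat_lit 5967184961) (nat_lit 1596) (nat_lit 1558536821) (nat_lit 1672) (nat_lit 3379764458) (nat_lit 412) (nat_lit 5) (nat_lit 433) (nat_lit 5) (nat_lit 434) (nat_lit 5) (nat_lit 299) (nat_lit 284) (nat_lit 197)) (XT.lf (nat_lit 76) (nat_lit 6656633421) (nat_lit 0) (nat_lit 1257268493) (nat_lit 1672) (nat_lit 3153350198) (nat_lit 413) (nat_lit 5) (nat_lit 412) (nat_lit 5) (nat_lit 434) (nat_lit 5) (nat_lit 300) (nat_lit 284) (nat_lit 196))) (XT.nd (nat_lit 78) (nat_lit 1748) (nat_lit 0) (XT.lf (nat_lit 0) (nat_lit 3894910939) (nat_lit 1596) (nat_lit 6059639612) (nat_lit 1672) (nat_lit 1278636863) (nat_lit 392) (nat_lit 5) (nat_lit 413) (nat_lit 5) (nat_lit 414) (nat_lit 5) (nat_lit 301) (nat_lit 284) (nat_lit 195)) (XT.lf (nat_lit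 0) (nat_lit 658437851) (nat_lit 1748) (nat_lit 10327052073) (nat_lit 76) (nat_lit 418258401) (nat_lit 369) (nat_lit 5) (nat_lit 392) (nat_lit 5) (nat_lit 370) (nat_lit 5) (nat_lit 302) (nat_lit 284) (nat_lit 194)))))) (XT.nd (nat_lit 546) (nat_lit 3724) (nat_lit 0) (XT.nd (nat_lit 234) (nat_lit 2584) (nat_lit 0) (XT.nd (nat_lit 78) (nat_lit 2128) (nat_lit 0) (XT.lf (nat_lit 0) (nat_lit 2694182032) (nat_lit 1748) (nat_lit 1811813748) (nat_lit 76) (nat_lit 7072127676) (nat_lit 369) (nat_lit 5) (nat_lit 392) (nat_lit 5) (nat_lit 370) (nat_lit 5) (nat_lit 303) (nat_lit 284) (nat_lit 193)) (XT.nd (nat_lit 78) (nat_lit 836) (nat_lit 0) (XT.lf (nat_lit 0) (nat_lit 4819206603) (nat_lit 1368) (nat_lit 4748601411) (nat_lit 76) (nat_lit 2189381945) (nat_lit 352) (nat_lit 5) (nat_lit 370) (nat_lit 5) (nat_lit 353) (nat_lit 5) (nat_lit 304) (nat_lit 284) (nat_lit 192)) (XT.lf (nat_lit 0) (nat_lit 4173610841)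 (nat_lit 836) (nat_lit 2872939317) (nat_lit 912) (nat_lit 4894330505) (nat_lit 341) (nat_lit 5) (nat_lit 352) (nat_lit 5) (nat_lit 353) (nat_lit 5) (nat_lit 305) (nat_lit 284) (nat_lit 191)))) (XT.nd (nat_lit 156) (nat_lit 1748) (nat_lit 0) (XT.nd (nat_lit 78) (nat_lit 0) (nat_lit 0) (XT.lf (nat_lit 0) (nat_lit 1261132630) (nat_lit 836) (nat_lit 8116000658) (nat_lit 912) (nat_lit 2752243301) (nat_lit 330) (nat_lit 5) (nat_lit 341) (nat_lit 5) (nat_lit 342) (nat_lit 5) (nat_lit 306) (nat_lit 284) (nat_lit 190)) (XT.lf (nat_lit 0) (nat_lit 10619568884) (nat_lit 836) (nat_lit 1200208478) (nat_lit 912) (nat_lit 502929382) (nat_lit 330) (nat_lit 5) (nat_lit 341) (nat_lit 5) (nat_lit 342) (nat_lit 5) (nat_lit 307) (nat_lit 284) (nat_lit 189))) (XT.nd (nat_lit 78) (nat_lit 836) (nat_lit 0) (XT.lf (nat_lit 0) (nat_lit 1850673019) (nat_lit 912) (nat_lit 4759892885) (nat_lit 76) (nat_lit 5909844545) (nat_lit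 318) (nat_lit 5) (nat_lit 330) (nat_lit 5) (nat_lit 319) (nat_lit 5) (nat_lit 308) (nat_lit 284) (nat_lit 188)) (XT.lf (nat_lit 0) (nat_lit 4294371592) (nat_lit 912) (nat_lit 7894990835) (nat_lit 76) (nat_lit 534110466) (nat_lit 307) (nat_lit 5) (nat_lit 319) (nat_lit 5) (nat_lit 308) (nat_lit 5) (nat_lit 309) (nat_lit 284) (nat_lit 187))))) (XT.nd (nat_lit 234) (nat_lit 2204) (nat_lit 0) (XT.nd (nat_lit 78) (nat_lit 760) (nat_lit 0) (XT.lf (nat_lit 0) (nat_lit 1789170939) (nat_lit 760) (nat_lit 5082905635) (nat_lit 836) (nat_lit 6059356663) (nat_lit 297) (nat_lit 5) (nat_lit 307) (nat_lit 5) (nat_lit 308) (nat_lit 5) (nat_lit 310) (nat_lit 284) (nat_lit 186)) (XT.nd (nat_lit 78) (nat_lit 760) (nat_lit 0) (XT.lf (nat_lit 0) (nat_lit 9568518339) (nat_lit 836) (nat_lit 1315177785) (nat_lit 76) (nat_lit 2261127508) (nat_lit 297) (nat_lit 5) (nat_lit 308) (nat_lit 5) (nat_lit 298) (nat_lit 5) (nat_lit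 311) (nat_lit 284) (nat_lit 185)) (XT.lf (nat_lit 0) (nat_lit 8862097276) (nat_lit 760) (nat_lit 3549101825) (nat_lit 836) (nat_lit 952128513) (nat_lit 287) (nat_lit 5) (nat_lit 297) (nat_lit 5) (nat_lit 298) (nat_lit 5) (nat_lit 312) (nat_lit 284) (nat_lit 184)))) (XT.nd (nat_lit 156) (nat_lit 684) (nat_lit 0) (XT.nd (nat_lit 78) (nat_lit 760) (nat_lit 0) (XT.lf (nat_lit 0) (nat_lit 1775125354) (nat_lit 760) (nat_lit 7801636098) (nat_lit 76) (nat_lit 4010469535) (nat_lit 277) (nat_lit 5) (nat_lit 287) (nat_lit 5) (nat_lit 278) (nat_lit 5) (nat_lit 313) (nat_lit 284) (nat_lit 183)) (XT.lf (nat_lit 0) (nat_lit 2602361204) (nat_lit 760) (nat_lit 2015099577) (nat_lit 836) (nat_lit 9199358181) (nat_lit 267) (nat_lit 5) (nat_lit 277) (nat_lit 5) (nat_lit 278) (nat_lit 5) (nat_lit 314) (nat_lit 284) (nat_lit 182))) (XT.nd (nat_lit 78) (nat_lit 684) (nat_lit 0) (XT.lf (nat_lit 0) (nat_lit 7611110111)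 (nat_lit 836) (nat_lit 691728637) (nat_lit 76) (nat_lit 5749151810) (nat_lit 267) (nat_lit 5) (nat_lit 278) (nat_lit 5) (nat_lit 268) (nat_lit 5) (nat_lit 315) (nat_lit 284) (nat_lit 181)) (XT.lf (nat_lit 0) (nat_lit 10241383386) (nat_lit 684) (nat_lit 509215987) (nat_lit 760) (nat_lit 3542513686) (nat_lit 258) (nat_lit 5) (nat_lit 267) (nat_lit 5) (nat_lit 268) (nat_lit 5) (nat_lit 316) (nat_lit 284) (nat_lit 180))))))))
noncomputable def xc91 : XT := (XT.nd (nat_lit 2106) (nat_lit 3648) (nat_lit 0) (XT.nd (nat_lit 1014) (nat_lit 4560) (nat_lit 0) (XT.nd (nat_lit 468) (nat_lit 2660) (nat_lit 0) (XT.nd (nat_lit 234) (nat_lit 1292) (nat_lit 0) (XT.nd (nat_lit 78) (nat_lit 1292) (nat_lit 0) (XT.lf (nat_lit 0) (nat_lit 6987190065) (nat_lit 684) (nat_lit 7072556423) (nat_lit 760) (nat_lit 480229176) (nat_lit 249) (nat_lit 5) (nat_lit 258) (nat_lit 5) (nat_lit 259) (nat_lit 5) (nat_lit 317) (nat_lit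 284) (nat_lit 179)) (XT.nd (nat_lit 78) (nat_lit 608) (nat_lit 0) (XT.lf (nat_lit 0) (nat_lit 2676484615) (nat_lit 684) (nat_lit 11179962751) (nat_lit 76) (nat_lit 936712094) (nat_lit 240) (nat_lit 5) (nat_lit 249) (nat_lit 5) (nat_lit 241) (nat_lit 5) (nat_lit 318) (nat_lit 284) (nat_lit 178)) (XT.lf (nat_lit 0) (nat_lit 88838899) (nat_lit 608) (nat_lit 5909376360) (nat_lit 684) (nat_lit 9054137912) (nat_lit 232) (nat_lit 5) (nat_lit 240) (nat_lit 5) (nat_lit 241) (nat_lit 5) (nat_lit 319) (nat_lit 284) (nat_lit 177)))) (XT.nd (nat_lit 78) (nat_lit 1292) (nat_lit 0) (XT.lf (nat_lit 0) (nat_lit 9488514017) (nat_lit 684) (nat_lit 3510464492) (nat_lit 76) (nat_lit 2318980117) (nat_lit 232) (nat_lit 5) (nat_lit 241) (nat_lit 5) (nat_lit 233) (nat_lit 5) (nat_lit 320) (nat_lit 284) (nat_lit 176)) (XT.nd (nat_lit 78) (nat_lit 684) (nat_lit 0) (XT.lf (nat_lit 0) (nat_lit 8330560630) (nat_lit 608) (nat_lit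 4825089120) (nat_lit 684) (nat_lit 2434453777) (nat_lit 224) (nat_lit 5) (nat_lit 232) (nat_lit 5) (nat_lit 233) (nat_lit 5) (nat_lit 321) (nat_lit 284) (nat_lit 175)) (XT.lf (nat_lit 0) (nat_lit 1105689207) (nat_lit 684) (nat_lit 11158598288) (nat_lit 76) (nat_lit 3604855785) (nat_lit 215) (nat_lit 5) (nat_lit 224) (nat_lit 5) (nat_lit 216) (nat_lit 5) (nat_lit 322) (nat_lit 284) (nat_lit 174))))) (XT.nd (nat_lit 234) (nat_lit 1596) (nat_lit 0) (XT.nd (nat_lit 78) (nat_lit 532) (nat_lit 0) (XT.lf (nat_lit 0) (nat_lit 921518936) (nat_lit 532) (nat_lit 3864662409) (nat_lit 608) (nat_lit 11368719445) (nat_lit 208) (nat_lit 5) (nat_lit 215) (nat_lit 5) (nat_lit 216) (nat_lit 5) (nat_lit 323) (nat_lit 284) (nat_lit 173)) (XT.nd (nat_lit 78) (nat_lit 532) (nat_lit 0) (XT.lf (nat_lit 0) (nat_lit 8663958427) (nat_lit 608) (nat_lit 2987727201) (nat_lit 76) (nat_lit 4795820414) (nat_lit 208) (nat_lit 5)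 (nat_lit 216) (nat_lit 5) (nat_lit 209) (nat_lit 5) (nat_lit 324) (nat_lit 284) (nat_lit 172)) (XT.lf (nat_lit 0) (nat_lit 9702225050) (nat_lit 532) (nat_lit 3024948920) (nat_lit 608) (nat_lit 4020345436) (nat_lit 201) (nat_lit 5) (nat_lit 208) (nat_lit 5) (nat_lit 209) (nat_lit 5) (nat_lit 325) (nat_lit 284) (nat_lit 171)))) (XT.nd (nat_lit 156) (nat_lit 456) (nat_lit 0) (XT.nd (nat_lit 78) (nat_lit 608) (nat_lit 0) (XT.lf (nat_lit 0) (nat_lit 5770699163) (nat_lit 532) (nat_lit 11218139379) (nat_lit 608) (nat_lit 66175282) (nat_lit 194) (nat_lit 5) (nat_lit 201) (nat_lit 5) (nat_lit 202) (nat_lit 5) (nat_lit 326) (nat_lit 284) (nat_lit 170)) (XT.lf (nat_lit 0) (nat_lit 1647568683) (nat_lit 532) (nat_lit 2366412691) (nat_lit 608) (nat_lit 13356044394) (nat_lit 186) (nat_lit 5) (nat_lit 193) (nat_lit 5) (nat_lit 194) (nat_lit 5) (nat_lit 327) (nat_lit 284) (nat_lit 169))) (XT.nd (nat_lit 78) (nat_lit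 456) (nat_lit 0) (XT.lf (nat_lit 0) (nat_lit 8317743965) (nat_lit 608) (nat_lit 2640136448) (nat_lit 76) (nat_lit 6734567719) (nat_lit 186) (nat_lit 5) (nat_lit 194) (nat_lit 5) (nat_lit 187) (nat_lit 5) (nat_lit 328) (nat_lit 284) (nat_lit 168)) (XT.lf (nat_lit 0) (nat_lit 10938731138) (nat_lit 456) (nat_lit 1880571543) (nat_lit 532) (nat_lit 5203877323) (nat_lit 180) (nat_lit 5) (nat_lit 186) (nat_lit 5) (nat_lit 187) (nat_lit 5) (nat_lit 329) (nat_lit 284) (nat_lit 167)))))) (XT.nd (nat_lit 546) (nat_lit 2052) (nat_lit 0) (XT.nd (nat_lit 234) (nat_lit 1444) (nat_lit 0) (XT.nd (nat_lit 78) (nat_lit 532) (nat_lit 0) (XT.lf (nat_lit 0) (nat_lit 6612225836) (nat_lit 532) (nat_lit 10935296251) (nat_lit 608) (nat_lit 814489664) (nat_lit 173) (nat_lit 5) (nat_lit 180) (nat_lit 5) (nat_lit 181) (nat_lit 5) (nat_lit 330) (nat_lit 284) (nat_lit 166)) (XT.nd (nat_lit 78) (nat_lit 0) (nat_lit 0) (XT.lf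 (nat_lit 0) (nat_lit 2073589956) (nat_lit 456) (nat_lit 1641164481) (nat_lit 532) (nat_lit 14994646663) (nat_lit 166) (nat_lit 5) (nat_lit 172) (nat_lit 5) (nat_lit 173) (nat_lit 5) (nat_lit 331) (nat_lit 284) (nat_lit 165)) (XT.lf (nat_lit 0) (nat_lit 8483267904) (nat_lit 532) (nat_lit 2673900643) (nat_lit 76) (nat_lit 7907656174) (nat_lit 166) (nat_lit 5) (nat_lit 173) (nat_lit 5) (nat_lit 167) (nat_lit 5) (nat_lit 332) (nat_lit 284) (nat_lit 164)))) (XT.nd (nat_lit 156) (nat_lit 532) (nat_lit 0) (XT.nd (nat_lit 78) (nat_lit 456) (nat_lit 0) (XT.lf (nat_lit 0) (nat_lit 11828394018) (nat_lit 456) (nat_lit 1637466882) (nat_lit 532) (nat_lit 5963638817) (nat_lit 160) (nat_lit 5) (nat_lit 166) (nat_lit 5) (nat_lit 167) (nat_lit 5) (nat_lit 333) (nat_lit 284) (nat_lit 163)) (XT.lf (nat_lit 0) (nat_lit 7013881792) (nat_lit 456) (nat_lit 11684415216) (nat_lit 532) (nat_lit 1104819530) (nat_lit 154)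 (nat_lit 5) (nat_lit 160) (nat_lit 5) (nat_lit 161) (nat_lit 5) (nat_lit 334) (nat_lit 284) (nat_lit 162))) (XT.nd (nat_lit 78) (nat_lit 0) (nat_lit 0) (XT.lf (nat_lit 0) (nat_lit 1951009398) (nat_lit 456) (nat_lit 1956851199) (nat_lit 532) (nat_lit 16278398477) (nat_lit 147) (nat_lit 5) (nat_lit 153) (nat_lit 5) (nat_lit 154) (nat_lit 5) (nat_lit 335) (nat_lit 284) (nat_lit 161)) (XT.lf (nat_lit 0) (nat_lit 9179647106) (nat_lit 532) (nat_lit 3353292091) (nat_lit 76) (nat_lit 8045344116) (nat_lit 147) (nat_lit 5) (nat_lit 154) (nat_lit 5) (nat_lit 148) (nat_lit 5) (nat_lit 336) (nat_lit 284) (nat_lit 160))))) (XT.nd (nat_lit 234) (nat_lit 760) (nat_lit 0) (XT.nd (nat_lit 78) (nat_lit 912) (nat_lit 0) (XT.lf (nat_lit 0) (nat_lit 12099027836) (nat_lit 380) (nat_lit 2586730132) (nat_lit 456) (nat_lit 6294794866) (nat_lit 142) (nat_lit 5) (nat_lit 147) (nat_lit 5) (nat_lit 148) (nat_lit 5) (nat_lit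 337) (nat_lit 284) (nat_lit 159)) (XT.nd (nat_lit 78) (nat_lit 456) (nat_lit 0) (XT.lf (nat_lit 0) (nat_lit 6682544272) (nat_lit 456) (nat_lit 13775290218) (nat_lit 532) (nat_lit 935048041) (nat_lit 136) (nat_lit 5) (nat_lit 142) (nat_lit 5) (nat_lit 143) (nat_lit 5) (nat_lit 338) (nat_lit 284) (nat_lit 158)) (XT.lf (nat_lit 0) (nat_lit 962415969) (nat_lit 380) (nat_lit 3632065552) (nat_lit 456) (nat_lit 17221129923) (nat_lit 130) (nat_lit 5) (nat_lit 135) (nat_lit 5) (nat_lit 136) (nat_lit 5) (nat_lit 339) (nat_lit 284) (nat_lit 157)))) (XT.nd (nat_lit 156) (nat_lit 380) (nat_lit 0) (XT.nd (nat_lit 78) (nat_lit 380) (nat_lit 0) (XT.lf (nat_lit 0) (nat_lit 10407116400) (nat_lit 456) (nat_lit 5014859200) (nat_lit 76) (nat_lit 6826331701) (nat_lit 130) (nat_lit 5) (nat_lit 136) (nat_lit 5) (nat_lit 131) (nat_lit 5) (nat_lit 340) (nat_lit 284) (nat_lit 156)) (XT.lf (nat_lit 0) (nat_lit 11403137584)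 (nat_lit 380) (nat_lit 5075006228) (nat_lit 456) (nat_lit 6214166891) (nat_lit 125) (nat_lit 5) (nat_lit 130) (nat_lit 5) (nat_lit 131) (nat_lit 5) (nat_lit 341) (nat_lit 284) (nat_lit 155))) (XT.nd (nat_lit 78) (nat_lit 76) (nat_lit 0) (XT.lf (nat_lit 0) (nat_lit 5245020116) (nat_lit 304) (nat_lit 17576718200) (nat_lit 380) (nat_lit 326093906) (nat_lit 121) (nat_lit 5) (nat_lit 125) (nat_lit 5) (nat_lit 126) (nat_lit 5) (nat_lit 342) (nat_lit 284) (nat_lit 154)) (XT.lf (nat_lit 0) (nat_lit 5760413007) (nat_lit 380) (nat_lit 1277946046) (nat_lit 76) (nat_lit 16575980474) (nat_lit 120) (nat_lit 5) (nat_lit 125) (nat_lit 5) (nat_lit 121) (nat_lit 5) (nat_lit 343) (nat_lit 284) (nat_lit 153))))))) (XT.nd (nat_lit 1014) (nat_lit 608) (nat_lit 0) (XT.nd (nat_lit 468) (nat_lit 1292) (nat_lit 0) (XT.nd (nat_lit 234) (nat_lit 608) (nat_lit 0) (XT.nd (nat_lit 78) (nat_lit 760) (nat_lit 0) (XT.lf (nat_lit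 0) (nat_lit 12141166398) (nat_lit 456) (nat_lit 8084581032) (nat_lit 76) (nat_lit 3866736107) (nat_lit 115) (nat_lit 5) (nat_lit 121) (nat_lit 5) (nat_lit 116) (nat_lit 5) (nat_lit 344) (nat_lit 284) (nat_lit 152)) (XT.nd (nat_lit 78) (nat_lit 456) (nat_lit 0) (XT.lf (nat_lit 0) (nat_lit 9300038706) (nat_lit 304) (nat_lit 9516210462) (nat_lit 380) (nat_lit 5766670611) (nat_lit 111) (nat_lit 5) (nat_lit 115) (nat_lit 5) (nat_lit 116) (nat_lit 5) (nat_lit 345) (nat_lit 284) (nat_lit 151)) (XT.lf (nat_lit 0) (nat_lit 662444262) (nat_lit 456) (nat_lit 22861908252) (nat_lit 76) (nat_lit 1562307096) (nat_lit 105) (nat_lit 5) (nat_lit 111) (nat_lit 5) (nat_lit 106) (nat_lit 5) (nat_lit 346) (nat_lit 284) (nat_lit 150)))) (XT.nd (nat_lit 78) (nat_lit 608) (nat_lit 0) (XT.lf (nat_lit 0) (nat_lit 7361539265) (nat_lit 456) (nat_lit 5259108612) (nat_lit 76) (nat_lit 12980997933) (nat_lit 105) (nat_lit 5) (nat_lit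 111) (nat_lit 5) (nat_lit 106) (nat_lit 5) (nat_lit 347) (nat_lit 284) (nat_lit 149)) (XT.nd (nat_lit 78) (nat_lit 304) (nat_lit 0) (XT.lf (nat_lit 0) (nat_lit 13023565672) (nat_lit 304) (nat_lit 1310094166) (nat_lit 380) (nat_lit 11796986126) (nat_lit 101) (nat_lit 5) (nat_lit 105) (nat_lit 5) (nat_lit 106) (nat_lit 5) (nat_lit 348) (nat_lit 284) (nat_lit 148)) (XT.lf (nat_lit 0) (nat_lit 5234268083) (nat_lit 304) (nat_lit 16405362371) (nat_lit 380) (nat_lit 5033397208) (nat_lit 97) (nat_lit 5) (nat_lit 101) (nat_lit 5) (nat_lit 102) (nat_lit 5) (nat_lit 349) (nat_lit 284) (nat_lit 147))))) (XT.nd (nat_lit 234) (nat_lit 608) (nat_lit 0) (XT.nd (nat_lit 78) (nat_lit 608) (nat_lit 0) (XT.lf (nat_lit 0) (nat_lit 1993762122) (nat_lit 380) (nat_lit 2965311619) (nat_lit 76) (nat_lit 22270640750) (nat_lit 96) (nat_lit 5) (nat_lit 101) (nat_lit 5) (nat_lit 97) (nat_lit 5) (nat_lit 350) (nat_lit 284) (nat_lit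 146)) (XT.nd (nat_lit 78) (nat_lit 304) (nat_lit 0) (XT.lf (nat_lit 0) (nat_lit 9302503876) (nat_lit 380) (nat_lit 11622569402) (nat_lit 76) (nat_lit 6874585065) (nat_lit 92) (nat_lit 5) (nat_lit 97) (nat_lit 5) (nat_lit 93) (nat_lit 5) (nat_lit 351) (nat_lit 284) (nat_lit 145)) (XT.lf (nat_lit 0) (nat_lit 7596254448) (nat_lit 304) (nat_lit 9325352236) (nat_lit 380) (nat_lit 11463276574) (nat_lit 88) (nat_lit 5) (nat_lit 92) (nat_lit 5) (nat_lit 93) (nat_lit 5) (nat_lit 352) (nat_lit 284) (nat_lit 144)))) (XT.nd (nat_lit 156) (nat_lit 304) (nat_lit 0) (XT.nd (nat_lit 78) (nat_lit 304) (nat_lit 0) (XT.lf (nat_lit 0) (nat_lit 24854157429) (nat_lit 380) (nat_lit 1470927028) (nat_lit 76) (nat_lit 2660887555) (nat_lit 88) (nat_lit 5) (nat_lit 93) (nat_lit 5) (nat_lit 89) (nat_lit 5) (nat_lit 353) (nat_lit 284) (nat_lit 143)) (XT.lf (nat_lit 0) (nat_lit 3547842120) (nat_lit 304) (nat_lit 11034741217)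 (nat_lit 76) (nat_lit 15018608425) (nat_lit 84) (nat_lit 5) (nat_lit 88) (nat_lit 5) (nat_lit 85) (nat_lit 5) (nat_lit 354) (nat_lit 284) (nat_lit 142))) (XT.nd (nat_lit 78) (nat_lit 0) (nat_lit 0) (XT.lf (nat_lit 0) (nat_lit 9064231491) (nat_lit 304) (nat_lit 2395763356) (nat_lit 380) (nat_lit 18773166442) (nat_lit 80) (nat_lit 5) (nat_lit 84) (nat_lit 5) (nat_lit 85) (nat_lit 5) (nat_lit 355) (nat_lit 284) (nat_lit 141)) (XT.lf (nat_lit 0) (nat_lit 19739930350) (nat_lit 380) (nat_lit 1049076330) (nat_lit 76) (nat_lit 10092478975) (nat_lit 80) (nat_lit 5) (nat_lit 85) (nat_lit 5) (nat_lit 81) (nat_lit 5) (nat_lit 356) (nat_lit 284) (nat_lit 140)))))) (XT.nd (nat_lit 35412) (nat_lit 0) (nat_lit 25612) (XT.nd (nat_lit 35100) (nat_lit 0) (nat_lit 26904) (XT.nd (nat_lit 78) (nat_lit 380) (nat_lit 0) (XT.lf (nat_lit 0) (nat_lit 19902618793) (nat_lit 228) (nat_lit 8500406415) (nat_lit 304) (nat_lit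 3143543313) (nat_lit 77) (nat_lit 5) (nat_lit 80) (nat_lit 5) (nat_lit 81) (nat_lit 5) (nat_lit 357) (nat_lit 284) (nat_lit 139)) (XT.nd (nat_lit 34944) (nat_lit 0) (nat_lit 28348) (XT.lf (nat_lit 0) (nat_lit 5112643898) (nat_lit 380) (nat_lit 22918926570) (nat_lit 76) (nat_lit 4197674704) (nat_lit 72) (nat_lit 5) (nat_lit 77) (nat_lit 5) (nat_lit 73) (nat_lit 5) (nat_lit 358) (nat_lit 284) (nat_lit 138)) (XT.lf (nat_lit 0) (nat_lit 1191715448) (nat_lit 0) (nat_lit 1191715448) (nat_lit 1444) (nat_lit 2192965413) (nat_lit 445) (nat_lit 5) (nat_lit 445) (nat_lit 3) (nat_lit 464) (nat_lit 3) (nat_lit 285) (nat_lit 285) (nat_lit 210)))) (XT.nd (nat_lit 156) (nat_lit 1444) (nat_lit 0) (XT.nd (nat_lit 78) (nat_lit 0) (nat_lit 0) (XT.lf (nat_lit 0) (nat_lit 6090125216) (nat_lit 1444) (nat_lit 511027736) (nat_lit 1520) (nat_lit 2662836945) (nat_lit 445) (nat_lit 5) (nat_lit 464) (nat_lit 3) (nat_lit 465)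 (nat_lit 5) (nat_lit 286) (nat_lit 285) (nat_lit 209)) (XT.lf (nat_lit 76) (nat_lit 5972198061) (nat_lit 0) (nat_lit 1487590376) (nat_lit 1520) (nat_lit 1918641965) (nat_lit 446) (nat_lit 5) (nat_lit 445) (nat_lit 5) (nat_lit 465) (nat_lit 5) (nat_lit 287) (nat_lit 285) (nat_lit 208))) (XT.nd (nat_lit 78) (nat_lit 1520) (nat_lit 0) (XT.lf (nat_lit 76) (nat_lit 3151497971) (nat_lit 0) (nat_lit 5720896238) (nat_lit 1520) (nat_lit 623913001) (nat_lit 447) (nat_lit 5) (nat_lit 446) (nat_lit 5) (nat_lit 466) (nat_lit 5) (nat_lit 288) (nat_lit 285) (nat_lit 207)) (XT.lf (nat_lit 76) (nat_lit 298351235) (nat_lit 0) (nat_lit 391339200) (nat_lit 1596) (nat_lit 8928189146) (nat_lit 427) (nat_lit 5) (nat_lit 426) (nat_lit 5) (nat_lit 447) (nat_lit 5) (nat_lit 289) (nat_lit 285) (nat_lit 206))))) (XT.nd (nat_lit 234) (nat_lit 1368) (nat_lit 0) (XT.nd (nat_lit 78) (nat_lit 0) (nat_lit 76) (XT.lf (nat_lit 0)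 (nat_lit 2066161882) (nat_lit 1520) (nat_lit 2578948073) (nat_lit 1596) (nat_lit 5097305053) (nat_lit 427) (nat_lit 5) (nat_lit 447) (nat_lit 5) (nat_lit 448) (nat_lit 5) (nat_lit 290) (nat_lit 285) (nat_lit 205)) (XT.nd (nat_lit 78) (nat_lit 0) (nat_lit 0) (XT.lf (nat_lit 0) (nat_lit 3477849585) (nat_lit 1520) (nat_lit 5484123852) (nat_lit 1596) (nat_lit 908870633) (nat_lit 428) (nat_lit 5) (nat_lit 448) (nat_lit 5) (nat_lit 449) (nat_lit 5) (nat_lit 291) (nat_lit 285) (nat_lit 204)) (XT.lf (nat_lit 76) (nat_lit 1556529773) (nat_lit 0) (nat_lit 3392123135) (nat_lit 1596) (nat_lit 5054172762) (nat_lit 429) (nat_lit 5) (nat_lit 428) (nat_lit 5) (nat_lit 449) (nat_lit 5) (nat_lit 292) (nat_lit 285) (nat_lit 203)))) (XT.nd (nat_lit 156) (nat_lit 1520) (nat_lit 0) (XT.nd (nat_lit 78) (nat_lit 0) (nat_lit 0) (XT.lf (nat_lit 0) (nat_lit 6475365671) (nat_lit 1520) (nat_lit 1297128490) (nat_lit 1596) (nat_lit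 2366070796) (nat_lit 429) (nat_lit 5) (nat_lit 449) (nat_lit 5) (nat_lit 450) (nat_lit 5) (nat_lit 293) (nat_lit 285) (nat_lit 202)) (XT.lf (nat_lit 76) (nat_lit 6097483043) (nat_lit 0) (nat_lit 1973012961) (nat_lit 1596) (nat_lit 2207461055) (nat_lit 430) (nat_lit 5) (nat_lit 429) (nat_lit 5) (nat_lit 450) (nat_lit 5) (nat_lit 294) (nat_lit 285) (nat_lit 201))) (XT.nd (nat_lit 78) (nat_lit 1596) (nat_lit 0) (XT.lf (nat_lit 76) (nat_lit 3300814770) (nat_lit 0) (nat_lit 6430330731) (nat_lit 1596) (nat_lit 690064116) (nat_lit 431) (nat_lit 5) (nat_lit 430) (nat_lit 5) (nat_lit 451) (nat_lit 5) (nat_lit 295) (nat_lit 285) (nat_lit 200)) (XT.lf (nat_lit 76) (nat_lit 455621219) (nat_lit 0) (nat_lit 412539881) (nat_lit 1672) (nat_lit 9700380685) (nat_lit 410) (nat_lit 5) (nat_lit 409) (nat_lit 5) (nat_lit 431) (nat_lit 5) (nat_lit 296) (nat_lit 285) (nat_lit 199))))))))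
noncomputable def xc92 : XT := (XT.nd (nat_lit 2106) (nat_lit 8968) (nat_lit 0) (XT.nd (nat_lit 1014) (nat_lit 7828) (nat_lit 0) (XT.nd (nat_lit 468) (nat_lit 5548) (nat_lit 0) (XT.nd (nat_lit 234) (nat_lit 1444) (nat_lit 0) (XT.nd (nat_lit 78) (nat_lit 0) (nat_lit 76) (XT.lf (nat_lit 0) (nat_lit 2513032645) (nat_lit 1596) (nat_lit 2432724295) (nat_lit 1672) (nat_lit 5773489827) (nat_lit 410) (nat_lit 5) (nat_lit 431) (nat_lit 5) (nat_lit 432) (nat_lit 5) (nat_lit 297) (nat_lit 285) (nat_lit 198)) (XT.nd (nat_lit 78) (nat_lit 0) (nat_lit 0) (XT.lf (nat_lit 0) (nat_lit 4218529317) (nat_lit 1596) (nat_lit 5361914063) (nat_lit 1672) (nat_lit 1293832647) (nat_lit 411) (nat_lit 5) (nat_lit 432) (nat_lit 5) (nat_lit 433) (nat_lit 5) (nat_lit 298) (nat_lit 285) (nat_lit 197)) (XT.lf (nat_lit 76) (nat_lit 2670474407) (nat_lit 0) (nat_lit 3336817837) (nat_lit 1672) (nat_lit 5026049765) (nat_lit 412) (nat_lit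 5) (nat_lit 411) (nat_lit 5) (nat_lit 433) (nat_lit 5) (nat_lit 299) (nat_lit 285) (nat_lit 196)))) (XT.nd (nat_lit 78) (nat_lit 1596) (nat_lit 0) (XT.lf (nat_lit 0) (nat_lit 7872371026) (nat_lit 1596) (nat_lit 226715816) (nat_lit 1672) (nat_lit 3097667132) (nat_lit 412) (nat_lit 5) (nat_lit 433) (nat_lit 5) (nat_lit 434) (nat_lit 5) (nat_lit 300) (nat_lit 285) (nat_lit 195)) (XT.nd (nat_lit 78) (nat_lit 1596) (nat_lit 0) (XT.lf (nat_lit 76) (nat_lit 8212543758) (nat_lit 0) (nat_lit 1623474341) (nat_lit 1672) (nat_lit 1528224151) (nat_lit 413) (nat_lit 5) (nat_lit 412) (nat_lit 5) (nat_lit 434) (nat_lit 5) (nat_lit 301) (nat_lit 285) (nat_lit 194)) (XT.lf (nat_lit 0) (nat_lit 354891009) (nat_lit 1672) (nat_lit 6155850065) (nat_lit 76) (nat_lit 5025251474) (nat_lit 391) (nat_lit 5) (nat_lit 413) (nat_lit 5) (nat_lit 392) (nat_lit 5) (nat_lit 302) (nat_lit 285) (nat_lit 193))))) (XT.nd (nat_lit 234)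 (nat_lit 2584) (nat_lit 0) (XT.nd (nat_lit 78) (nat_lit 1292) (nat_lit 0) (XT.lf (nat_lit 0) (nat_lit 2291933084) (nat_lit 1748) (nat_lit 9230333677) (nat_lit 76) (nat_lit 190086920) (nat_lit 369) (nat_lit 5) (nat_lit 392) (nat_lit 5) (nat_lit 370) (nat_lit 5) (nat_lit 303) (nat_lit 285) (nat_lit 192)) (XT.nd (nat_lit 78) (nat_lit 1292) (nat_lit 0) (XT.lf (nat_lit 0) (nat_lit 4341747394) (nat_lit 1748) (nat_lit 500605094) (nat_lit 76) (nat_lit 7050583513) (nat_lit 369) (nat_lit 5) (nat_lit 392) (nat_lit 5) (nat_lit 370) (nat_lit 5) (nat_lit 304) (nat_lit 285) (nat_lit 191)) (XT.lf (nat_lit 0) (nat_lit 6492401434) (nat_lit 1368) (nat_lit 3514682564) (nat_lit 76) (nat_lit 2071087772) (nat_lit 352) (nat_lit 5) (nat_lit 370) (nat_lit 5) (nat_lit 353) (nat_lit 5) (nat_lit 305) (nat_lit 285) (nat_lit 190)))) (XT.nd (nat_lit 156) (nat_lit 912) (nat_lit 0) (XT.nd (nat_lit 78) (nat_lit 836) (nat_lit 0)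 (XT.lf (nat_lit 0) (nat_lit 5652865975) (nat_lit 836) (nat_lit 3097967818) (nat_lit 912) (nat_lit 3517287864) (nat_lit 341) (nat_lit 5) (nat_lit 352) (nat_lit 5) (nat_lit 353) (nat_lit 5) (nat_lit 306) (nat_lit 285) (nat_lit 189)) (XT.lf (nat_lit 0) (nat_lit 2662415161) (nat_lit 836) (nat_lit 8453414331) (nat_lit 912) (nat_lit 1347185912) (nat_lit 330) (nat_lit 5) (nat_lit 341) (nat_lit 5) (nat_lit 342) (nat_lit 5) (nat_lit 307) (nat_lit 285) (nat_lit 188))) (XT.nd (nat_lit 78) (nat_lit 836) (nat_lit 0) (XT.lf (nat_lit 0) (nat_lit 914130239) (nat_lit 912) (nat_lit 407147919) (nat_lit 76) (nat_lit 11341627874) (nat_lit 329) (nat_lit 5) (nat_lit 341) (nat_lit 5) (nat_lit 330) (nat_lit 5) (nat_lit 308) (nat_lit 285) (nat_lit 187)) (XT.lf (nat_lit 0) (nat_lit 3298156717) (nat_lit 912) (nat_lit 3551451261) (nat_lit 76) (nat_lit 6017563760) (nat_lit 318) (nat_lit 5) (nat_lit 330) (nat_lit 5) (nat_lit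 319) (nat_lit 5) (nat_lit 309) (nat_lit 285) (nat_lit 186)))))) (XT.nd (nat_lit 546) (nat_lit 3268) (nat_lit 0) (XT.nd (nat_lit 234) (nat_lit 2964) (nat_lit 0) (XT.nd (nat_lit 78) (nat_lit 760) (nat_lit 0) (XT.lf (nat_lit 0) (nat_lit 5783054868) (nat_lit 912) (nat_lit 6774141511) (nat_lit 76) (nat_lit 519801372) (nat_lit 307) (nat_lit 5) (nat_lit 319) (nat_lit 5) (nat_lit 308) (nat_lit 5) (nat_lit 310) (nat_lit 285) (nat_lit 185)) (XT.nd (nat_lit 78) (nat_lit 0) (nat_lit 0) (XT.lf (nat_lit 0) (nat_lit 3178518063) (nat_lit 760) (nat_lit 5228637661) (nat_lit 836) (nat_lit 4884688496) (nat_lit 297) (nat_lit 5) (nat_lit 307) (nat_lit 5) (nat_lit 308) (nat_lit 5) (nat_lit 311) (nat_lit 285) (nat_lit 184)) (XT.lf (nat_lit 0) (nat_lit 11145827007) (nat_lit 836) (nat_lit 31176662) (nat_lit 76) (nat_lit 2335433709) (nat_lit 297) (nat_lit 5) (nat_lit 308) (nat_lit 5) (nat_lit 298) (nat_lit 5) (nat_lit 312)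 (nat_lit 285) (nat_lit 183)))) (XT.nd (nat_lit 156) (nat_lit 1444) (nat_lit 0) (XT.nd (nat_lit 78) (nat_lit 684) (nat_lit 0) (XT.lf (nat_lit 0) (nat_lit 302534839) (nat_lit 836) (nat_lit 3310151204) (nat_lit 76) (nat_lit 10125380135) (nat_lit 286) (nat_lit 5) (nat_lit 297) (nat_lit 5) (nat_lit 287) (nat_lit 5) (nat_lit 313) (nat_lit 285) (nat_lit 182)) (XT.lf (nat_lit 0) (nat_lit 3070540222) (nat_lit 760) (nat_lit 6712023398) (nat_lit 76) (nat_lit 4186585439) (nat_lit 277) (nat_lit 5) (nat_lit 287) (nat_lit 5) (nat_lit 278) (nat_lit 5) (nat_lit 314) (nat_lit 285) (nat_lit 181))) (XT.nd (nat_lit 78) (nat_lit 684) (nat_lit 0) (XT.lf (nat_lit 0) (nat_lit 3982618984) (nat_lit 760) (nat_lit 1987801940) (nat_lit 836) (nat_lit 8235783166) (nat_lit 267) (nat_lit 5) (nat_lit 277) (nat_lit 5) (nat_lit 278) (nat_lit 5) (nat_lit 315) (nat_lit 285) (nat_lit 180)) (XT.lf (nat_lit 0) (nat_lit 583262936) (nat_lit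 684) (nat_lit 8439584936) (nat_lit 760) (nat_lit 5426227794) (nat_lit 258) (nat_lit 5) (nat_lit 267) (nat_lit 5) (nat_lit 268) (nat_lit 5) (nat_lit 316) (nat_lit 285) (nat_lit 179))))) (XT.nd (nat_lit 234) (nat_lit 1900) (nat_lit 0) (XT.nd (nat_lit 78) (nat_lit 1368) (nat_lit 0) (XT.lf (nat_lit 0) (nat_lit 11815820931) (nat_lit 684) (nat_lit 410783637) (nat_lit 760) (nat_lit 2471449110) (nat_lit 258) (nat_lit 5) (nat_lit 267) (nat_lit 5) (nat_lit 268) (nat_lit 5) (nat_lit 317) (nat_lit 285) (nat_lit 178)) (XT.nd (nat_lit 78) (nat_lit 608) (nat_lit 0) (XT.lf (nat_lit 0) (nat_lit 648926165) (nat_lit 760) (nat_lit 6490924431) (nat_lit 76) (nat_lit 7812901753) (nat_lit 248) (nat_lit 5) (nat_lit 258) (nat_lit 5) (nat_lit 249) (nat_lit 5) (nat_lit 318) (nat_lit 285) (nat_lit 177)) (XT.lf (nat_lit 0) (nat_lit 3869932936) (nat_lit 684) (nat_lit 10229001157) (nat_lit 76) (nat_lit 1115033467) (nat_lit 240)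 (nat_lit 5) (nat_lit 249) (nat_lit 5) (nat_lit 241) (nat_lit 5) (nat_lit 319) (nat_lit 285) (nat_lit 176)))) (XT.nd (nat_lit 156) (nat_lit 1292) (nat_lit 0) (XT.nd (nat_lit 78) (nat_lit 0) (nat_lit 0) (XT.lf (nat_lit 0) (nat_lit 1356994872) (nat_lit 608) (nat_lit 5910115079) (nat_lit 684) (nat_lit 8214332319) (nat_lit 232) (nat_lit 5) (nat_lit 240) (nat_lit 5) (nat_lit 241) (nat_lit 5) (nat_lit 320) (nat_lit 285) (nat_lit 175)) (XT.lf (nat_lit 0) (nat_lit 10831513578) (nat_lit 684) (nat_lit 2366432727) (nat_lit 76) (nat_lit 2557702127) (nat_lit 232) (nat_lit 5) (nat_lit 241) (nat_lit 5) (nat_lit 233) (nat_lit 5) (nat_lit 321) (nat_lit 285) (nat_lit 174))) (XT.nd (nat_lit 78) (nat_lit 684) (nat_lit 0) (XT.lf (nat_lit 0) (nat_lit 9809553999) (nat_lit 608) (nat_lit 4776263808) (nat_lit 684) (nat_lit 1450616652) (nat_lit 224) (nat_lit 5) (nat_lit 232) (nat_lit 5) (nat_lit 233) (nat_lit 5) (nat_lit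 322) (nat_lit 285) (nat_lit 173)) (XT.lf (nat_lit 0) (nat_lit 2160750798) (nat_lit 684) (nat_lit 10250220300) (nat_lit 76) (nat_lit 3913178351) (nat_lit 215) (nat_lit 5) (nat_lit 224) (nat_lit 5) (nat_lit 216) (nat_lit 5) (nat_lit 323) (nat_lit 285) (nat_lit 172))))))) (XT.nd (nat_lit 1014) (nat_lit 3800) (nat_lit 0) (XT.nd (nat_lit 468) (nat_lit 2964) (nat_lit 0) (XT.nd (nat_lit 234) (nat_lit 1140) (nat_lit 0) (XT.nd (nat_lit 78) (nat_lit 532) (nat_lit 0) (XT.lf (nat_lit 0) (nat_lit 2172132036) (nat_lit 532) (nat_lit 3757702168) (nat_lit 608) (nat_lit 10689100310) (nat_lit 208) (nat_lit 5) (nat_lit 215) (nat_lit 5) (nat_lit 216) (nat_lit 5) (nat_lit 324) (nat_lit 285) (nat_lit 171)) (XT.nd (nat_lit 78) (nat_lit 532) (nat_lit 0) (XT.lf (nat_lit 0) (nat_lit 9896221485) (nat_lit 608) (nat_lit 1871404050) (nat_lit 76) (nat_lit 5153264675) (nat_lit 208) (nat_lit 5) (nat_lit 216) (nat_lit 5) (nat_lit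 209) (nat_lit 5) (nat_lit 325) (nat_lit 285) (nat_lit 170)) (XT.lf (nat_lit 0) (nat_lit 11179681582) (nat_lit 532) (nat_lit 2881034033) (nat_lit 608) (nat_lit 3169618021) (nat_lit 201) (nat_lit 5) (nat_lit 208) (nat_lit 5) (nat_lit 209) (nat_lit 5) (nat_lit 326) (nat_lit 285) (nat_lit 169)))) (XT.nd (nat_lit 78) (nat_lit 532) (nat_lit 0) (XT.lf (nat_lit 0) (nat_lit 872644911) (nat_lit 608) (nat_lit 10424425263) (nat_lit 76) (nat_lit 6250255645) (nat_lit 193) (nat_lit 5) (nat_lit 201) (nat_lit 5) (nat_lit 194) (nat_lit 5) (nat_lit 327) (nat_lit 285) (nat_lit 168)) (XT.nd (nat_lit 78) (nat_lit 0) (nat_lit 0) (XT.lf (nat_lit 0) (nat_lit 2875536297) (nat_lit 532) (nat_lit 2179051837) (nat_lit 608) (nat_lit 12817601611) (nat_lit 186) (nat_lit 5) (nat_lit 193) (nat_lit 5) (nat_lit 194) (nat_lit 5) (nat_lit 328) (nat_lit 285) (nat_lit 167)) (XT.lf (nat_lit 0) (nat_lit 9462290574) (nat_lit 608) (nat_lit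 1558369717) (nat_lit 76) (nat_lit 7184143475) (nat_lit 186) (nat_lit 5) (nat_lit 194) (nat_lit 5) (nat_lit 187) (nat_lit 5) (nat_lit 329) (nat_lit 285) (nat_lit 166))))) (XT.nd (nat_lit 234) (nat_lit 1444) (nat_lit 0) (XT.nd (nat_lit 78) (nat_lit 1064) (nat_lit 0) (XT.lf (nat_lit 0) (nat_lit 12409028524) (nat_lit 456) (nat_lit 1671214652) (nat_lit 532) (nat_lit 4465602550) (nat_lit 180) (nat_lit 5) (nat_lit 186) (nat_lit 5) (nat_lit 187) (nat_lit 5) (nat_lit 330) (nat_lit 285) (nat_lit 165)) (XT.nd (nat_lit 78) (nat_lit 456) (nat_lit 0) (XT.lf (nat_lit 0) (nat_lit 38165460) (nat_lit 608) (nat_lit 10945199302) (nat_lit 76) (nat_lit 7911816284) (nat_lit 172) (nat_lit 5) (nat_lit 180) (nat_lit 5) (nat_lit 173) (nat_lit 5) (nat_lit 331) (nat_lit 285) (nat_lit 164)) (XT.lf (nat_lit 0) (nat_lit 3268747110) (nat_lit 456) (nat_lit 1405667152) (nat_lit 532) (nat_lit 14578840206) (nat_lit 166) (nat_lit 5)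 (nat_lit 172) (nat_lit 5) (nat_lit 173) (nat_lit 5) (nat_lit 332) (nat_lit 285) (nat_lit 163)))) (XT.nd (nat_lit 156) (nat_lit 988) (nat_lit 0) (XT.nd (nat_lit 78) (nat_lit 456) (nat_lit 0) (XT.lf (nat_lit 0) (nat_lit 9563072603) (nat_lit 532) (nat_lit 1639040527) (nat_lit 76) (nat_lit 8417699402) (nat_lit 166) (nat_lit 5) (nat_lit 173) (nat_lit 5) (nat_lit 167) (nat_lit 5) (nat_lit 333) (nat_lit 285) (nat_lit 162)) (XT.lf (nat_lit 0) (nat_lit 13280232172) (nat_lit 456) (nat_lit 1397995522) (nat_lit 532) (nat_lit 5317551528) (nat_lit 160) (nat_lit 5) (nat_lit 166) (nat_lit 5) (nat_lit 167) (nat_lit 5) (nat_lit 334) (nat_lit 285) (nat_lit 161))) (XT.nd (nat_lit 78) (nat_lit 532) (nat_lit 0) (XT.lf (nat_lit 0) (nat_lit 8317980009) (nat_lit 456) (nat_lit 11735031593) (nat_lit 532) (nat_lit 327898199) (nat_lit 154) (nat_lit 5) (nat_lit 160) (nat_lit 5) (nat_lit 161) (nat_lit 5) (nat_lit 335) (nat_lit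 285) (nat_lit 160)) (XT.lf (nat_lit 0) (nat_lit 3096339381) (nat_lit 456) (nat_lit 1711970304) (nat_lit 532) (nat_lit 15967468442) (nat_lit 147) (nat_lit 5) (nat_lit 153) (nat_lit 5) (nat_lit 154) (nat_lit 5) (nat_lit 336) (nat_lit 285) (nat_lit 159)))))) (XT.nd (nat_lit 546) (nat_lit 1748) (nat_lit 0) (XT.nd (nat_lit 234) (nat_lit 1216) (nat_lit 0) (XT.nd (nat_lit 78) (nat_lit 836) (nat_lit 0) (XT.lf (nat_lit 0) (nat_lit 10217351427) (nat_lit 532) (nat_lit 2385058489) (nat_lit 76) (nat_lit 8577582926) (nat_lit 147) (nat_lit 5) (nat_lit 154) (nat_lit 5) (nat_lit 148) (nat_lit 5) (nat_lit 337) (nat_lit 285) (nat_lit 158)) (XT.nd (nat_lit 78) (nat_lit 456) (nat_lit 0) (XT.lf (nat_lit 0) (nat_lit 13513490501) (nat_lit 380) (nat_lit 2359778749) (nat_lit 456) (nat_lit 5721380161) (nat_lit 142) (nat_lit 5) (nat_lit 147) (nat_lit 5) (nat_lit 148) (nat_lit 5) (nat_lit 338) (nat_lit 285) (nat_lit 157))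 (XT.lf (nat_lit 0) (nat_lit 7930579402) (nat_lit 456) (nat_lit 13874894390) (nat_lit 532) (nat_lit 214146997) (nat_lit 136) (nat_lit 5) (nat_lit 142) (nat_lit 5) (nat_lit 143) (nat_lit 5) (nat_lit 339) (nat_lit 285) (nat_lit 156)))) (XT.nd (nat_lit 156) (nat_lit 760) (nat_lit 0) (XT.nd (nat_lit 78) (nat_lit 0) (nat_lit 0) (XT.lf (nat_lit 0) (nat_lit 2031872127) (nat_lit 380) (nat_lit 3424801784) (nat_lit 456) (nat_lit 16998566411) (nat_lit 130) (nat_lit 5) (nat_lit 135) (nat_lit 5) (nat_lit 136) (nat_lit 5) (nat_lit 340) (nat_lit 285) (nat_lit 155)) (XT.lf (nat_lit 0) (nat_lit 11424583379) (nat_lit 456) (nat_lit 4142615658) (nat_lit 76) (nat_lit 7334110367) (nat_lit 130) (nat_lit 5) (nat_lit 136) (nat_lit 5) (nat_lit 131) (nat_lit 5) (nat_lit 341) (nat_lit 285) (nat_lit 154))) (XT.nd (nat_lit 78) (nat_lit 380) (nat_lit 0) (XT.lf (nat_lit 0) (nat_lit 12751329110) (nat_lit 380) (nat_lit 4912403391)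 (nat_lit 456) (nat_lit 5695190553) (nat_lit 125) (nat_lit 5) (nat_lit 130) (nat_lit 5) (nat_lit 131) (nat_lit 5) (nat_lit 342) (nat_lit 285) (nat_lit 153)) (XT.lf (nat_lit 0) (nat_lit 352946578) (nat_lit 380) (nat_lit 17426613205) (nat_lit 76) (nat_lit 6048746567) (nat_lit 120) (nat_lit 5) (nat_lit 125) (nat_lit 5) (nat_lit 121) (nat_lit 5) (nat_lit 343) (nat_lit 285) (nat_lit 152))))) (XT.nd (nat_lit 234) (nat_lit 1064) (nat_lit 0) (XT.nd (nat_lit 78) (nat_lit 684) (nat_lit 0) (XT.lf (nat_lit 0) (nat_lit 6597709105) (nat_lit 380) (nat_lit 334631485) (nat_lit 76) (nat_lit 17376832566) (nat_lit 120) (nat_lit 5) (nat_lit 125) (nat_lit 5) (nat_lit 121) (nat_lit 5) (nat_lit 344) (nat_lit 285) (nat_lit 151)) (XT.nd (nat_lit 78) (nat_lit 304) (nat_lit 0) (XT.lf (nat_lit 0) (nat_lit 13158842161) (nat_lit 456) (nat_lit 7350106549) (nat_lit 76) (nat_lit 4292942574) (nat_lit 115) (nat_lit 5) (nat_lit 121)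 (nat_lit 5) (nat_lit 116) (nat_lit 5) (nat_lit 345) (nat_lit 285) (nat_lit 150)) (XT.lf (nat_lit 0) (nat_lit 10540200923) (nat_lit 304) (nat_lit 9481184730) (nat_lit 380) (nat_lit 5285919473) (nat_lit 111) (nat_lit 5) (nat_lit 115) (nat_lit 5) (nat_lit 116) (nat_lit 5) (nat_lit 346) (nat_lit 285) (nat_lit 149)))) (XT.nd (nat_lit 156) (nat_lit 608) (nat_lit 0) (XT.nd (nat_lit 78) (nat_lit 0) (nat_lit 0) (XT.lf (nat_lit 0) (nat_lit 1316987729) (nat_lit 456) (nat_lit 22582645912) (nat_lit 76) (nat_lit 1926657022) (nat_lit 105) (nat_lit 5) (nat_lit 111) (nat_lit 5) (nat_lit 106) (nat_lit 5) (nat_lit 347) (nat_lit 285) (nat_lit 148)) (XT.lf (nat_lit 0) (nat_lit 8198570043) (nat_lit 456) (nat_lit 4479872562) (nat_lit 76) (nat_lit 13678661572) (nat_lit 105) (nat_lit 5) (nat_lit 111) (nat_lit 5) (nat_lit 106) (nat_lit 5) (nat_lit 348) (nat_lit 285) (nat_lit 147))) (XT.nd (nat_lit 78) (nat_lit 304) (nat_lit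 0) (XT.lf (nat_lit 0) (nat_lit 14336080088) (nat_lit 304) (nat_lit 1031812007) (nat_lit 380) (nat_lit 11534329271) (nat_lit 101) (nat_lit 5) (nat_lit 105) (nat_lit 5) (nat_lit 106) (nat_lit 5) (nat_lit 349) (nat_lit 285) (nat_lit 146)) (XT.lf (nat_lit 0) (nat_lit 6308263533) (nat_lit 304) (nat_lit 16575135060) (nat_lit 380) (nat_lit 4577676346) (nat_lit 97) (nat_lit 5) (nat_lit 101) (nat_lit 5) (nat_lit 102) (nat_lit 5) (nat_lit 350) (nat_lit 285) (nat_lit 145))))))))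
noncomputable def xc93 : XT := (XT.nd (nat_lit 37128) (nat_lit 0) (nat_lit 6992) (XT.nd (nat_lit 36036) (nat_lit 0) (nat_lit 20672) (XT.nd (nat_lit 468) (nat_lit 0) (nat_lit 0) (XT.nd (nat_lit 234) (nat_lit 608) (nat_lit 0) (XT.nd (nat_lit 78) (nat_lit 608) (nat_lit 0) (XT.lf (nat_lit 0) (nat_lit 2634900714) (nat_lit 380) (nat_lit 2156046002) (nat_lit 76) (nat_lit 23243792862) (nat_lit 96) (nat_lit 5) (nat_lit 101) (nat_lit 5) (nat_lit 97) (nat_lit 5) (nat_lit 351) (nat_lit 285) (nat_lit 144)) (XT.nd (nat_lit 78) (nat_lit 304) (nat_lit 0) (XT.lf (nat_lit 0) (nat_lit 10153745747) (nat_lit 380) (nat_lit 11077994267) (nat_lit 76) (nat_lit 7390231896) (nat_lit 92) (nat_lit 5) (nat_lit 97) (nat_lit 5) (nat_lit 93) (nat_lit 5) (nat_lit 352) (nat_lit 285) (nat_lit 143)) (XT.lf (nat_lit 0) (nat_lit 8702902343) (nat_lit 304) (nat_lit 9287559741) (nat_lit 380) (nat_lit 11234517462) (nat_lit 88) (nat_lit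 5) (nat_lit 92) (nat_lit 5) (nat_lit 93) (nat_lit 5) (nat_lit 353) (nat_lit 285) (nat_lit 142)))) (XT.nd (nat_lit 78) (nat_lit 608) (nat_lit 0) (XT.lf (nat_lit 0) (nat_lit 26146645224) (nat_lit 380) (nat_lit 652774541) (nat_lit 76) (nat_lit 3044974664) (nat_lit 88) (nat_lit 5) (nat_lit 93) (nat_lit 5) (nat_lit 89) (nat_lit 5) (nat_lit 354) (nat_lit 285) (nat_lit 141)) (XT.nd (nat_lit 78) (nat_lit 304) (nat_lit 0) (XT.lf (nat_lit 0) (nat_lit 4194482966) (nat_lit 304) (nat_lit 10510104671) (nat_lit 76) (nat_lit 15773626855) (nat_lit 84) (nat_lit 5) (nat_lit 88) (nat_lit 5) (nat_lit 85) (nat_lit 5) (nat_lit 355) (nat_lit 285) (nat_lit 140)) (XT.lf (nat_lit 0) (nat_lit 10177954847) (nat_lit 304) (nat_lit 2155776786) (nat_lit 380) (nat_lit 18795622929) (nat_lit 80) (nat_lit 5) (nat_lit 84) (nat_lit 5) (nat_lit 85) (nat_lit 5) (nat_lit 356) (nat_lit 285) (nat_lit 139))))) (XT.nd (nat_lit 35256) (nat_lit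 0) (nat_lit 26220) (XT.nd (nat_lit 35100) (nat_lit 0) (nat_lit 27740) (XT.lf (nat_lit 0) (nat_lit 20848595968) (nat_lit 380) (nat_lit 254749418) (nat_lit 76) (nat_lit 10694058565) (nat_lit 80) (nat_lit 5) (nat_lit 85) (nat_lit 5) (nat_lit 81) (nat_lit 5) (nat_lit 357) (nat_lit 285) (nat_lit 138)) (XT.nd (nat_lit 78) (nat_lit 0) (nat_lit 0) (XT.lf (nat_lit 0) (nat_lit 1838655684) (nat_lit 0) (nat_lit 1838655684) (nat_lit 1444) (nat_lit 1010880063) (nat_lit 445) (nat_lit 5) (nat_lit 445) (nat_lit 3) (nat_lit 464) (nat_lit 3) (nat_lit 286) (nat_lit 286) (nat_lit 208)) (XT.lf (nat_lit 76) (nat_lit 727166276) (nat_lit 0) (nat_lit 7916227247) (nat_lit 1520) (nat_lit 849067466) (nat_lit 446) (nat_lit 5) (nat_lit 445) (nat_lit 5) (nat_lit 465) (nat_lit 5) (nat_lit 287) (nat_lit 286) (nat_lit 207)))) (XT.nd (nat_lit 156) (nat_lit 0) (nat_lit 76) (XT.nd (nat_lit 78) (nat_lit 0) (nat_lit 76) (XT.lf (nat_lit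 0) (nat_lit 371814162) (nat_lit 1520) (nat_lit 2238984160) (nat_lit 1596) (nat_lit 7000860474) (nat_lit 425) (nat_lit 5) (nat_lit 445) (nat_lit 5) (nat_lit 446) (nat_lit 5) (nat_lit 288) (nat_lit 286) (nat_lit 206)) (XT.lf (nat_lit 0) (nat_lit 1621624180) (nat_lit 1520) (nat_lit 5240967961) (nat_lit 1596) (nat_lit 2871688496) (nat_lit 426) (nat_lit 5) (nat_lit 446) (nat_lit 5) (nat_lit 447) (nat_lit 5) (nat_lit 289) (nat_lit 286) (nat_lit 205))) (XT.nd (nat_lit 78) (nat_lit 0) (nat_lit 76) (XT.lf (nat_lit 76) (nat_lit 1576386014) (nat_lit 0) (nat_lit 1332357549) (nat_lit 1596) (nat_lit 6951877283) (nat_lit 427) (nat_lit 5) (nat_lit 426) (nat_lit 5) (nat_lit 447) (nat_lit 5) (nat_lit 290) (nat_lit 286) (nat_lit 204)) (XT.lf (nat_lit 0) (nat_lit 4256621423) (nat_lit 1520) (nat_lit 1373876851) (nat_lit 1596) (nat_lit 4359845055) (nat_lit 427) (nat_lit 5) (nat_lit 447) (nat_lit 5) (nat_lit 448) (nat_lit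 5) (nat_lit 291) (nat_lit 286) (nat_lit 203)))))) (XT.nd (nat_lit 546) (nat_lit 4332) (nat_lit 0) (XT.nd (nat_lit 234) (nat_lit 1444) (nat_lit 0) (XT.nd (nat_lit 78) (nat_lit 0) (nat_lit 0) (XT.lf (nat_lit 0) (nat_lit 5651577929) (nat_lit 1520) (nat_lit 4338518802) (nat_lit 1596) (nat_lit 133761858) (nat_lit 428) (nat_lit 5) (nat_lit 448) (nat_lit 5) (nat_lit 449) (nat_lit 5) (nat_lit 292) (nat_lit 286) (nat_lit 202)) (XT.nd (nat_lit 78) (nat_lit 0) (nat_lit 76) (XT.lf (nat_lit 76) (nat_lit 2892099149) (nat_lit 0) (nat_lit 4222500845) (nat_lit 1596) (nat_lit 3146287931) (nat_lit 429) (nat_lit 5) (nat_lit 428) (nat_lit 5) (nat_lit 449) (nat_lit 5) (nat_lit 293) (nat_lit 286) (nat_lit 201)) (XT.lf (nat_lit 0) (nat_lit 8623759509) (nat_lit 1520) (nat_lit 39317450) (nat_lit 1596) (nat_lit 1738938248) (nat_lit 429) (nat_lit 5) (nat_lit 449) (nat_lit 5) (nat_lit 450) (nat_lit 5) (nat_lit 294) (nat_lit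 286) (nat_lit 200)))) (XT.nd (nat_lit 156) (nat_lit 0) (nat_lit 0) (XT.nd (nat_lit 78) (nat_lit 1520) (nat_lit 0) (XT.lf (nat_lit 76) (nat_lit 7556094608) (nat_lit 0) (nat_lit 2662015259) (nat_lit 1596) (nat_lit 328499184) (nat_lit 430) (nat_lit 5) (nat_lit 429) (nat_lit 5) (nat_lit 450) (nat_lit 5) (nat_lit 295) (nat_lit 286) (nat_lit 199)) (XT.lf (nat_lit 0) (nat_lit 1166804494) (nat_lit 1596) (nat_lit 6005006854) (nat_lit 1672) (nat_lit 3523261079) (nat_lit 409) (nat_lit 5) (nat_lit 430) (nat_lit 5) (nat_lit 431) (nat_lit 5) (nat_lit 296) (nat_lit 286) (nat_lit 198))) (XT.nd (nat_lit 78) (nat_lit 0) (nat_lit 76) (XT.lf (nat_lit 76) (nat_lit 1772188356) (nat_lit 0) (nat_lit 944310558) (nat_lit 1672) (nat_lit 8131196179) (nat_lit 410) (nat_lit 5) (nat_lit 409) (nat_lit 5) (nat_lit 431) (nat_lit 5) (nat_lit 297) (nat_lit 286) (nat_lit 197)) (XT.lf (nat_lit 0) (nat_lit 4354366077) (nat_lit 1596)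 (nat_lit 1200683014) (nat_lit 1672) (nat_lit 5449041581) (nat_lit 410) (nat_lit 5) (nat_lit 431) (nat_lit 5) (nat_lit 432) (nat_lit 5) (nat_lit 298) (nat_lit 286) (nat_lit 196))))) (XT.nd (nat_lit 234) (nat_lit 4484) (nat_lit 0) (XT.nd (nat_lit 78) (nat_lit 0) (nat_lit 0) (XT.lf (nat_lit 0) (nat_lit 6065077812) (nat_lit 1596) (nat_lit 4200240393) (nat_lit 1672) (nat_lit 899412806) (nat_lit 411) (nat_lit 5) (nat_lit 432) (nat_lit 5) (nat_lit 433) (nat_lit 5) (nat_lit 299) (nat_lit 286) (nat_lit 195)) (XT.nd (nat_lit 78) (nat_lit 0) (nat_lit 76) (XT.lf (nat_lit 76) (nat_lit 4051663236) (nat_lit 0) (nat_lit 3814190958) (nat_lit 1672) (nat_lit 3463587770) (nat_lit 412) (nat_lit 5) (nat_lit 411) (nat_lit 5) (nat_lit 433) (nat_lit 5) (nat_lit 300) (nat_lit 286) (nat_lit 194)) (XT.lf (nat_lit 76) (nat_lit 1080089420) (nat_lit 0) (nat_lit 8662546660) (nat_lit 1672) (nat_lit 1756044031) (nat_lit 413) (nat_lit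 5) (nat_lit 412) (nat_lit 5) (nat_lit 434) (nat_lit 5) (nat_lit 301) (nat_lit 286) (nat_lit 193)))) (XT.nd (nat_lit 156) (nat_lit 2888) (nat_lit 0) (XT.nd (nat_lit 78) (nat_lit 0) (nat_lit 76) (XT.lf (nat_lit 0) (nat_lit 46320758) (nat_lit 1672) (nat_lit 1935178228) (nat_lit 1748) (nat_lit 9690647732) (nat_lit 390) (nat_lit 5) (nat_lit 412) (nat_lit 5) (nat_lit 413) (nat_lit 5) (nat_lit 302) (nat_lit 286) (nat_lit 192)) (XT.lf (nat_lit 0) (nat_lit 1925170447) (nat_lit 1672) (nat_lit 5026524348) (nat_lit 76) (nat_lit 4897988515) (nat_lit 391) (nat_lit 5) (nat_lit 413) (nat_lit 5) (nat_lit 392) (nat_lit 5) (nat_lit 303) (nat_lit 286) (nat_lit 191))) (XT.nd (nat_lit 78) (nat_lit 1292) (nat_lit 0) (XT.lf (nat_lit 0) (nat_lit 3850477567) (nat_lit 1672) (nat_lit 31524890) (nat_lit 1748) (nat_lit 8150134093) (nat_lit 369) (nat_lit 5) (nat_lit 391) (nat_lit 5) (nat_lit 392) (nat_lit 5) (nat_lit 304) (nat_lit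 286) (nat_lit 190)) (XT.lf (nat_lit 0) (nat_lit 781804417) (nat_lit 1292) (nat_lit 5172074011) (nat_lit 1368) (nat_lit 6265080396) (nat_lit 352) (nat_lit 5) (nat_lit 369) (nat_lit 5) (nat_lit 370) (nat_lit 5) (nat_lit 305) (nat_lit 286) (nat_lit 189))))))) (XT.nd (nat_lit 1014) (nat_lit 6536) (nat_lit 0) (XT.nd (nat_lit 468) (nat_lit 3724) (nat_lit 0) (XT.nd (nat_lit 234) (nat_lit 1672) (nat_lit 0) (XT.nd (nat_lit 78) (nat_lit 1748) (nat_lit 0) (XT.lf (nat_lit 0) (nat_lit 8128043146) (nat_lit 1368) (nat_lit 2322755817) (nat_lit 76) (nat_lit 1959805728) (nat_lit 352) (nat_lit 5) (nat_lit 370) (nat_lit 5) (nat_lit 353) (nat_lit 5) (nat_lit 306) (nat_lit 286) (nat_lit 188)) (XT.nd (nat_lit 78) (nat_lit 912) (nat_lit 0) (XT.lf (nat_lit 0) (nat_lit 7098770937) (nat_lit 836) (nat_lit 3321777170) (nat_lit 912) (nat_lit 2186410462) (nat_lit 341) (nat_lit 5) (nat_lit 352) (nat_lit 5) (nat_lit 353) (nat_lit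 5) (nat_lit 307) (nat_lit 286) (nat_lit 187)) (XT.lf (nat_lit 0) (nat_lit 14435613) (nat_lit 912) (nat_lit 8781025754) (nat_lit 76) (nat_lit 4012936159) (nat_lit 329) (nat_lit 5) (nat_lit 341) (nat_lit 5) (nat_lit 330) (nat_lit 5) (nat_lit 308) (nat_lit 286) (nat_lit 186)))) (XT.nd (nat_lit 78) (nat_lit 836) (nat_lit 0) (XT.lf (nat_lit 0) (nat_lit 858482492) (nat_lit 836) (nat_lit 1432177977) (nat_lit 912) (nat_lit 10724168330) (nat_lit 318) (nat_lit 5) (nat_lit 329) (nat_lit 5) (nat_lit 330) (nat_lit 5) (nat_lit 309) (nat_lit 286) (nat_lit 185)) (XT.nd (nat_lit 78) (nat_lit 836) (nat_lit 0) (XT.lf (nat_lit 0) (nat_lit 4709160526) (nat_lit 912) (nat_lit 2384323000) (nat_lit 76) (nat_lit 6132508504) (nat_lit 318) (nat_lit 5) (nat_lit 330) (nat_lit 5) (nat_lit 319) (nat_lit 5) (nat_lit 310) (nat_lit 286) (nat_lit 184)) (XT.lf (nat_lit 0) (nat_lit 7238337567) (nat_lit 912) (nat_lit 5697604187) (nat_lit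 76) (nat_lit 506804210) (nat_lit 307) (nat_lit 5) (nat_lit 319) (nat_lit 5) (nat_lit 308) (nat_lit 5) (nat_lit 311) (nat_lit 286) (nat_lit 183))))) (XT.nd (nat_lit 234) (nat_lit 2128) (nat_lit 0) (XT.nd (nat_lit 78) (nat_lit 836) (nat_lit 0) (XT.lf (nat_lit 0) (nat_lit 4532872563) (nat_lit 760) (nat_lit 5379129421) (nat_lit 836) (nat_lit 3752645999) (nat_lit 297) (nat_lit 5) (nat_lit 307) (nat_lit 5) (nat_lit 308) (nat_lit 5) (nat_lit 312) (nat_lit 286) (nat_lit 182)) (XT.nd (nat_lit 78) (nat_lit 76) (nat_lit 0) (XT.lf (nat_lit 0) (nat_lit 1231524342) (nat_lit 760) (nat_lit 11472860659) (nat_lit 836) (nat_lit 1188069086) (nat_lit 287) (nat_lit 5) (nat_lit 297) (nat_lit 5) (nat_lit 298) (nat_lit 5) (nat_lit 313) (nat_lit 286) (nat_lit 181)) (XT.lf (nat_lit 0) (nat_lit 1509051974) (nat_lit 836) (nat_lit 2165465977) (nat_lit 76) (nat_lit 10450910675) (nat_lit 286) (nat_lit 5) (nat_lit 297) (nat_lit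 5) (nat_lit 287) (nat_lit 5) (nat_lit 314) (nat_lit 286) (nat_lit 180)))) (XT.nd (nat_lit 156) (nat_lit 684) (nat_lit 0) (XT.nd (nat_lit 78) (nat_lit 760) (nat_lit 0) (XT.lf (nat_lit 0) (nat_lit 4333512406) (nat_lit 760) (nat_lit 5665705917) (nat_lit 76) (nat_lit 4364781567) (nat_lit 277) (nat_lit 5) (nat_lit 287) (nat_lit 5) (nat_lit 278) (nat_lit 5) (nat_lit 315) (nat_lit 286) (nat_lit 179)) (XT.lf (nat_lit 0) (nat_lit 5329533639) (nat_lit 760) (nat_lit 1964722618) (nat_lit 836) (nat_lit 7314456472) (nat_lit 267) (nat_lit 5) (nat_lit 277) (nat_lit 5) (nat_lit 278) (nat_lit 5) (nat_lit 316) (nat_lit 286) (nat_lit 178))) (XT.nd (nat_lit 78) (nat_lit 0) (nat_lit 0) (XT.lf (nat_lit 0) (nat_lit 1831048244) (nat_lit 684) (nat_lit 8582375562) (nat_lit 760) (nat_lit 4445966097) (nat_lit 258) (nat_lit 5) (nat_lit 267) (nat_lit 5) (nat_lit 268) (nat_lit 5) (nat_lit 317) (nat_lit 286) (nat_lit 177)) (XT.lf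 (nat_lit 0) (nat_lit 13364749364) (nat_lit 684) (nat_lit 315925669) (nat_lit 760) (nat_lit 1435836729) (nat_lit 258) (nat_lit 5) (nat_lit 267) (nat_lit 5) (nat_lit 268) (nat_lit 5) (nat_lit 318) (nat_lit 286) (nat_lit 176)))))) (XT.nd (nat_lit 546) (nat_lit 2736) (nat_lit 0) (XT.nd (nat_lit 234) (nat_lit 1824) (nat_lit 0) (XT.nd (nat_lit 78) (nat_lit 1216) (nat_lit 0) (XT.lf (nat_lit 0) (nat_lit 1740196171) (nat_lit 760) (nat_lit 5474196579) (nat_lit 76) (nat_lit 8164803593) (nat_lit 248) (nat_lit 5) (nat_lit 258) (nat_lit 5) (nat_lit 249) (nat_lit 5) (nat_lit 319) (nat_lit 286) (nat_lit 175)) (XT.nd (nat_lit 78) (nat_lit 608) (nat_lit 0) (XT.lf (nat_lit 0) (nat_lit 5035285127) (nat_lit 684) (nat_lit 9323353069) (nat_lit 76) (nat_lit 1290081238) (nat_lit 240) (nat_lit 5) (nat_lit 249) (nat_lit 5) (nat_lit 241) (nat_lit 5) (nat_lit 320) (nat_lit 286) (nat_lit 174)) (XT.lf (nat_lit 0) (nat_lit 2590551175)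 (nat_lit 608) (nat_lit 5921010225) (nat_lit 684) (nat_lit 7413133172) (nat_lit 232) (nat_lit 5) (nat_lit 240) (nat_lit 5) (nat_lit 241) (nat_lit 5) (nat_lit 321) (nat_lit 286) (nat_lit 173)))) (XT.nd (nat_lit 156) (nat_lit 1216) (nat_lit 0) (XT.nd (nat_lit 78) (nat_lit 608) (nat_lit 0) (XT.lf (nat_lit 0) (nat_lit 12154049844) (nat_lit 684) (nat_lit 1259797563) (nat_lit 76) (nat_lit 2793875746) (nat_lit 232) (nat_lit 5) (nat_lit 241) (nat_lit 5) (nat_lit 233) (nat_lit 5) (nat_lit 322) (nat_lit 286) (nat_lit 172)) (XT.lf (nat_lit 0) (nat_lit 11262363147) (nat_lit 608) (nat_lit 4737085904) (nat_lit 684) (nat_lit 497933117) (nat_lit 224) (nat_lit 5) (nat_lit 232) (nat_lit 5) (nat_lit 233) (nat_lit 5) (nat_lit 323) (nat_lit 286) (nat_lit 171))) (XT.nd (nat_lit 78) (nat_lit 532) (nat_lit 0) (XT.lf (nat_lit 0) (nat_lit 3188803519) (nat_lit 684) (nat_lit 9385952062) (nat_lit 76) (nat_lit 4219259622) (nat_lit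 215) (nat_lit 5) (nat_lit 224) (nat_lit 5) (nat_lit 216) (nat_lit 5) (nat_lit 324) (nat_lit 286) (nat_lit 170)) (XT.lf (nat_lit 0) (nat_lit 3390060190) (nat_lit 532) (nat_lit 3660328498) (nat_lit 608) (nat_lit 10047683850) (nat_lit 208) (nat_lit 5) (nat_lit 215) (nat_lit 5) (nat_lit 216) (nat_lit 5) (nat_lit 325) (nat_lit 286) (nat_lit 169))))) (XT.nd (nat_lit 234) (nat_lit 1596) (nat_lit 0) (XT.nd (nat_lit 78) (nat_lit 1140) (nat_lit 0) (XT.lf (nat_lit 0) (nat_lit 11109635894) (nat_lit 608) (nat_lit 790817952) (nat_lit 76) (nat_lit 5509172493) (nat_lit 208) (nat_lit 5) (nat_lit 216) (nat_lit 5) (nat_lit 209) (nat_lit 5) (nat_lit 326) (nat_lit 286) (nat_lit 168)) (XT.nd (nat_lit 78) (nat_lit 608) (nat_lit 0) (XT.lf (nat_lit 0) (nat_lit 12633358184) (nat_lit 532) (nat_lit 2746272336) (nat_lit 608) (nat_lit 2349127546) (nat_lit 201) (nat_lit 5) (nat_lit 208) (nat_lit 5) (nat_lit 209) (nat_lit 5)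 (nat_lit 327) (nat_lit 286) (nat_lit 167)) (XT.lf (nat_lit 0) (nat_lit 1784781008) (nat_lit 608) (nat_lit 9607950465) (nat_lit 76) (nat_lit 6662777461) (nat_lit 193) (nat_lit 5) (nat_lit 201) (nat_lit 5) (nat_lit 194) (nat_lit 5) (nat_lit 328) (nat_lit 286) (nat_lit 166)))) (XT.nd (nat_lit 156) (nat_lit 1064) (nat_lit 0) (XT.nd (nat_lit 78) (nat_lit 0) (nat_lit 0) (XT.lf (nat_lit 0) (nat_lit 4072689890) (nat_lit 532) (nat_lit 2000900690) (nat_lit 608) (nat_lit 12316915110) (nat_lit 186) (nat_lit 5) (nat_lit 193) (nat_lit 5) (nat_lit 194) (nat_lit 5) (nat_lit 329) (nat_lit 286) (nat_lit 165)) (XT.lf (nat_lit 0) (nat_lit 10589796100) (nat_lit 608) (nat_lit 510794459) (nat_lit 76) (nat_lit 7632996767) (nat_lit 186) (nat_lit 5) (nat_lit 194) (nat_lit 5) (nat_lit 187) (nat_lit 5) (nat_lit 330) (nat_lit 286) (nat_lit 164))) (XT.nd (nat_lit 78) (nat_lit 608) (nat_lit 0) (XT.lf (nat_lit 0) (nat_lit 13857871584)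 (nat_lit 456) (nat_lit 1470833570) (nat_lit 532) (nat_lit 3756521241) (nat_lit 180) (nat_lit 5) (nat_lit 186) (nat_lit 5) (nat_lit 187) (nat_lit 5) (nat_lit 331) (nat_lit 286) (nat_lit 163)) (XT.lf (nat_lit 0) (nat_lit 855680649) (nat_lit 608) (nat_lit 10188030408) (nat_lit 76) (nat_lit 8401547219) (nat_lit 172) (nat_lit 5) (nat_lit 180) (nat_lit 5) (nat_lit 173) (nat_lit 5) (nat_lit 332) (nat_lit 286) (nat_lit 162))))))))
noncomputable def xc94 : XT := (XT.nd (nat_lit 37206) (nat_lit 0) (nat_lit 15656) (XT.nd (nat_lit 1014) (nat_lit 2660) (nat_lit 0) (XT.nd (nat_lit 468) (nat_lit 2432) (nat_lit 0) (XT.nd (nat_lit 234) (nat_lit 988) (nat_lit 0) (XT.nd (nat_lit 78) (nat_lit 456) (nat_lit 0) (XT.lf (nat_lit 0) (nat_lit 4434723044) (nat_lit 456) (nat_lit 1179449699) (nat_lit 532) (nat_lit 14200251170) (nat_lit 166) (nat_lit 5) (nat_lit 172) (nat_lit 5) (nat_lit 173) (nat_lit 5) (nat_lit 333) (nat_lit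 286) (nat_lit 161)) (XT.nd (nat_lit 78) (nat_lit 456) (nat_lit 0) (XT.lf (nat_lit 0) (nat_lit 10627895464) (nat_lit 532) (nat_lit 637144597) (nat_lit 76) (nat_lit 8927383313) (nat_lit 166) (nat_lit 5) (nat_lit 173) (nat_lit 5) (nat_lit 167) (nat_lit 5) (nat_lit 334) (nat_lit 286) (nat_lit 160)) (XT.lf (nat_lit 0) (nat_lit 14712653968) (nat_lit 456) (nat_lit 1167906575) (nat_lit 532) (nat_lit 4699439791) (nat_lit 160) (nat_lit 5) (nat_lit 166) (nat_lit 5) (nat_lit 167) (nat_lit 5) (nat_lit 335) (nat_lit 286) (nat_lit 159)))) (XT.nd (nat_lit 78) (nat_lit 456) (nat_lit 0) (XT.lf (nat_lit 0) (nat_lit 420244841) (nat_lit 532) (nat_lit 11381317966) (nat_lit 76) (nat_lit 9175354459) (nat_lit 153) (nat_lit 5) (nat_lit 160) (nat_lit 5) (nat_lit 154) (nat_lit 5) (nat_lit 336) (nat_lit 286) (nat_lit 158)) (XT.nd (nat_lit 78) (nat_lit 0) (nat_lit 0) (XT.lf (nat_lit 0) (nat_lit 4213642514) (nat_lit 456) (nat_lit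 1477170085) (nat_lit 532) (nat_lit 15693092561) (nat_lit 147) (nat_lit 5) (nat_lit 153) (nat_lit 5) (nat_lit 154) (nat_lit 5) (nat_lit 337) (nat_lit 286) (nat_lit 157)) (XT.lf (nat_lit 0) (nat_lit 11242426882) (nat_lit 532) (nat_lit 1449133228) (nat_lit 76) (nat_lit 9109091284) (nat_lit 147) (nat_lit 5) (nat_lit 154) (nat_lit 5) (nat_lit 148) (nat_lit 5) (nat_lit 338) (nat_lit 286) (nat_lit 156))))) (XT.nd (nat_lit 234) (nat_lit 1140) (nat_lit 0) (XT.nd (nat_lit 78) (nat_lit 912) (nat_lit 0) (XT.lf (nat_lit 0) (nat_lit 14910027114) (nat_lit 380) (nat_lit 2143501429) (nat_lit 456) (nat_lit 5174519775) (nat_lit 142) (nat_lit 5) (nat_lit 147) (nat_lit 5) (nat_lit 148) (nat_lit 5) (nat_lit 339) (nat_lit 286) (nat_lit 155)) (XT.nd (nat_lit 78) (nat_lit 380) (nat_lit 0) (XT.lf (nat_lit 0) (nat_lit 479022188) (nat_lit 532) (nat_lit 13513255060) (nat_lit 76) (nat_lit 8673684745) (nat_lit 135) (nat_lit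 5) (nat_lit 142) (nat_lit 5) (nat_lit 136) (nat_lit 5) (nat_lit 340) (nat_lit 286) (nat_lit 154)) (XT.lf (nat_lit 0) (nat_lit 3073678209) (nat_lit 380) (nat_lit 3229472754) (nat_lit 456) (nat_lit 16811758949) (nat_lit 130) (nat_lit 5) (nat_lit 135) (nat_lit 5) (nat_lit 136) (nat_lit 5) (nat_lit 341) (nat_lit 286) (nat_lit 153)))) (XT.nd (nat_lit 156) (nat_lit 760) (nat_lit 0) (XT.nd (nat_lit 78) (nat_lit 380) (nat_lit 0) (XT.lf (nat_lit 0) (nat_lit 12432089932) (nat_lit 456) (nat_lit 3302911361) (nat_lit 76) (nat_lit 7839729602) (nat_lit 130) (nat_lit 5) (nat_lit 136) (nat_lit 5) (nat_lit 131) (nat_lit 5) (nat_lit 342) (nat_lit 286) (nat_lit 152)) (XT.lf (nat_lit 0) (nat_lit 14082212275) (nat_lit 380) (nat_lit 4762996321) (nat_lit 456) (nat_lit 5201137847) (nat_lit 125) (nat_lit 5) (nat_lit 130) (nat_lit 5) (nat_lit 131) (nat_lit 5) (nat_lit 343) (nat_lit 286) (nat_lit 151))) (XT.nd (nat_lit 78)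 (nat_lit 380) (nat_lit 0) (XT.lf (nat_lit 0) (nat_lit 1008664789) (nat_lit 380) (nat_lit 16996350492) (nat_lit 76) (nat_lit 6524939719) (nat_lit 120) (nat_lit 5) (nat_lit 125) (nat_lit 5) (nat_lit 121) (nat_lit 5) (nat_lit 344) (nat_lit 286) (nat_lit 150)) (XT.lf (nat_lit 0) (nat_lit 588347905) (nat_lit 380) (nat_lit 6837452042) (nat_lit 456) (nat_lit 17599755947) (nat_lit 115) (nat_lit 5) (nat_lit 120) (nat_lit 5) (nat_lit 121) (nat_lit 5) (nat_lit 345) (nat_lit 286) (nat_lit 149)))))) (XT.nd (nat_lit 546) (nat_lit 1216) (nat_lit 0) (XT.nd (nat_lit 234) (nat_lit 684) (nat_lit 0) (XT.nd (nat_lit 78) (nat_lit 760) (nat_lit 0) (XT.lf (nat_lit 0) (nat_lit 14169538023) (nat_lit 456) (nat_lit 6649682312) (nat_lit 76) (nat_lit 4714128234) (nat_lit 115) (nat_lit 5) (nat_lit 121) (nat_lit 5) (nat_lit 116) (nat_lit 5) (nat_lit 346) (nat_lit 286) (nat_lit 148)) (XT.nd (nat_lit 78) (nat_lit 456) (nat_lit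 0) (XT.lf (nat_lit 0) (nat_lit 11762393431) (nat_lit 304) (nat_lit 9463506928) (nat_lit 380) (nat_lit 4828273798) (nat_lit 111) (nat_lit 5) (nat_lit 115) (nat_lit 5) (nat_lit 116) (nat_lit 5) (nat_lit 347) (nat_lit 286) (nat_lit 147)) (XT.lf (nat_lit 0) (nat_lit 1954734837) (nat_lit 456) (nat_lit 22350407514) (nat_lit 76) (nat_lit 2283712754) (nat_lit 105) (nat_lit 5) (nat_lit 111) (nat_lit 5) (nat_lit 106) (nat_lit 5) (nat_lit 348) (nat_lit 286) (nat_lit 146)))) (XT.nd (nat_lit 156) (nat_lit 380) (nat_lit 0) (XT.nd (nat_lit 78) (nat_lit 304) (nat_lit 0) (XT.lf (nat_lit 0) (nat_lit 9025340228) (nat_lit 456) (nat_lit 3731047597) (nat_lit 76) (nat_lit 14379561246) (nat_lit 105) (nat_lit 5) (nat_lit 111) (nat_lit 5) (nat_lit 106) (nat_lit 5) (nat_lit 349) (nat_lit 286) (nat_lit 145)) (XT.lf (nat_lit 0) (nat_lit 15635054418) (nat_lit 304) (nat_lit 763412060) (nat_lit 380) (nat_lit 11299186145) (nat_lit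 101) (nat_lit 5) (nat_lit 105) (nat_lit 5) (nat_lit 106) (nat_lit 5) (nat_lit 350) (nat_lit 286) (nat_lit 144))) (XT.nd (nat_lit 78) (nat_lit 76) (nat_lit 0) (XT.lf (nat_lit 0) (nat_lit 7361841166) (nat_lit 304) (nat_lit 16768507329) (nat_lit 380) (nat_lit 4143112227) (nat_lit 97) (nat_lit 5) (nat_lit 101) (nat_lit 5) (nat_lit 102) (nat_lit 5) (nat_lit 351) (nat_lit 286) (nat_lit 143)) (XT.lf (nat_lit 0) (nat_lit 3261902989) (nat_lit 380) (nat_lit 1374064204) (nat_lit 76) (nat_lit 24228629401) (nat_lit 96) (nat_lit 5) (nat_lit 101) (nat_lit 5) (nat_lit 97) (nat_lit 5) (nat_lit 352) (nat_lit 286) (nat_lit 142))))) (XT.nd (nat_lit 234) (nat_lit 380) (nat_lit 0) (XT.nd (nat_lit 78) (nat_lit 532) (nat_lit 0) (XT.lf (nat_lit 0) (nat_lit 10997680163) (nat_lit 380) (nat_lit 10568358209) (nat_lit 76) (nat_lit 7903586772) (nat_lit 92) (nat_lit 5) (nat_lit 97) (nat_lit 5) (nat_lit 93) (nat_lit 5) (nat_lit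 353) (nat_lit 286) (nat_lit 141)) (XT.nd (nat_lit 78) (nat_lit 228) (nat_lit 0) (XT.lf (nat_lit 0) (nat_lit 9792305241) (nat_lit 304) (nat_lit 9266862315) (nat_lit 380) (nat_lit 11031768455) (nat_lit 88) (nat_lit 5) (nat_lit 92) (nat_lit 5) (nat_lit 93) (nat_lit 5) (nat_lit 354) (nat_lit 286) (nat_lit 140)) (XT.lf (nat_lit 0) (nat_lit 142290265) (nat_lit 228) (nat_lit 27305149052) (nat_lit 304) (nat_lit 3281752168) (nat_lit 85) (nat_lit 5) (nat_lit 88) (nat_lit 5) (nat_lit 89) (nat_lit 5) (nat_lit 355) (nat_lit 286) (nat_lit 139)))) (XT.nd (nat_lit 35256) (nat_lit 0) (nat_lit 26144) (XT.nd (nat_lit 78) (nat_lit 304) (nat_lit 0) (XT.lf (nat_lit 0) (nat_lit 4829513028) (nat_lit 304) (nat_lit 10018848490) (nat_lit 76) (nat_lit 16533818579) (nat_lit 84) (nat_lit 5) (nat_lit 88) (nat_lit 5) (nat_lit 85) (nat_lit 5) (nat_lit 356) (nat_lit 286) (nat_lit 138)) (XT.lf (nat_lit 0) (nat_lit 11276767347) (nat_lit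 304) (nat_lit 1926492628) (nat_lit 380) (nat_lit 18849793714) (nat_lit 80) (nat_lit 5) (nat_lit 84) (nat_lit 5) (nat_lit 85) (nat_lit 5) (nat_lit 357) (nat_lit 286) (nat_lit 137))) (XT.nd (nat_lit 78) (nat_lit 0) (nat_lit 76) (XT.lf (nat_lit 0) (nat_lit 133263752) (nat_lit 1596) (nat_lit 2335761369) (nat_lit 1596) (nat_lit 2335761369) (nat_lit 424) (nat_lit 3) (nat_lit 445) (nat_lit 3) (nat_lit 445) (nat_lit 5) (nat_lit 287) (nat_lit 287) (nat_lit 206)) (XT.lf (nat_lit 0) (nat_lit 1391393507) (nat_lit 1520) (nat_lit 7802571247) (nat_lit 1596) (nat_lit 536411651) (nat_lit 425) (nat_lit 5) (nat_lit 445) (nat_lit 5) (nat_lit 446) (nat_lit 5) (nat_lit 288) (nat_lit 287) (nat_lit 205))))))) (XT.nd (nat_lit 1014) (nat_lit 9272) (nat_lit 0) (XT.nd (nat_lit 468) (nat_lit 1292) (nat_lit 0) (XT.nd (nat_lit 234) (nat_lit 0) (nat_lit 152) (XT.nd (nat_lit 78) (nat_lit 0) (nat_lit 76) (XT.lf (nat_lit 0) (nat_lit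 2571767863) (nat_lit 1520) (nat_lit 1121683571) (nat_lit 1596) (nat_lit 6160953266) (nat_lit 425) (nat_lit 5) (nat_lit 445) (nat_lit 5) (nat_lit 446) (nat_lit 5) (nat_lit 289) (nat_lit 287) (nat_lit 204)) (XT.nd (nat_lit 78) (nat_lit 0) (nat_lit 0) (XT.lf (nat_lit 0) (nat_lit 3796605603) (nat_lit 1520) (nat_lit 4182235861) (nat_lit 1596) (nat_lit 2003166303) (nat_lit 426) (nat_lit 5) (nat_lit 446) (nat_lit 5) (nat_lit 447) (nat_lit 5) (nat_lit 290) (nat_lit 287) (nat_lit 203)) (XT.lf (nat_lit 76) (nat_lit 2819911208) (nat_lit 0) (nat_lit 2248262081) (nat_lit 1596) (nat_lit 5045099887) (nat_lit 427) (nat_lit 5) (nat_lit 426) (nat_lit 5) (nat_lit 447) (nat_lit 5) (nat_lit 291) (nat_lit 287) (nat_lit 202)))) (XT.nd (nat_lit 78) (nat_lit 0) (nat_lit 0) (XT.lf (nat_lit 0) (nat_lit 6390611596) (nat_lit 1520) (nat_lit 206270775) (nat_lit 1596) (nat_lit 3651372664) (nat_lit 427) (nat_lit 5) (nat_lit 447)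 (nat_lit 5) (nat_lit 448) (nat_lit 5) (nat_lit 292) (nat_lit 287) (nat_lit 201)) (XT.nd (nat_lit 78) (nat_lit 0) (nat_lit 76) (XT.lf (nat_lit 76) (nat_lit 7149035195) (nat_lit 0) (nat_lit 626760657) (nat_lit 1596) (nat_lit 2611061039) (nat_lit 428) (nat_lit 5) (nat_lit 427) (nat_lit 5) (nat_lit 448) (nat_lit 5) (nat_lit 293) (nat_lit 287) (nat_lit 200)) (XT.lf (nat_lit 76) (nat_lit 4193748996) (nat_lit 0) (nat_lit 5035964461) (nat_lit 1596) (nat_lit 1299390856) (nat_lit 429) (nat_lit 5) (nat_lit 428) (nat_lit 5) (nat_lit 449) (nat_lit 5) (nat_lit 294) (nat_lit 287) (nat_lit 199))))) (XT.nd (nat_lit 234) (nat_lit 0) (nat_lit 76) (XT.nd (nat_lit 78) (nat_lit 0) (nat_lit 0) (XT.lf (nat_lit 0) (nat_lit 55911646) (nat_lit 1596) (nat_lit 9478422053) (nat_lit 1672) (nat_lit 1141209139) (nat_lit 408) (nat_lit 5) (nat_lit 429) (nat_lit 5) (nat_lit 430) (nat_lit 5) (nat_lit 295) (nat_lit 287) (nat_lit 198))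 (XT.nd (nat_lit 78) (nat_lit 0) (nat_lit 76) (XT.lf (nat_lit 0) (nat_lit 1475560503) (nat_lit 1596) (nat_lit 1850071554) (nat_lit 1672) (nat_lit 7499772573) (nat_lit 408) (nat_lit 5) (nat_lit 429) (nat_lit 5) (nat_lit 430) (nat_lit 5) (nat_lit 296) (nat_lit 287) (nat_lit 197)) (XT.lf (nat_lit 0) (nat_lit 2962812219) (nat_lit 1596) (nat_lit 4936797107) (nat_lit 1672) (nat_lit 3079680554) (nat_lit 409) (nat_lit 5) (nat_lit 430) (nat_lit 5) (nat_lit 431) (nat_lit 5) (nat_lit 297) (nat_lit 287) (nat_lit 196)))) (XT.nd (nat_lit 156) (nat_lit 0) (nat_lit 152) (XT.nd (nat_lit 78) (nat_lit 0) (nat_lit 76) (XT.lf (nat_lit 76) (nat_lit 3053460802) (nat_lit 0) (nat_lit 1462218987) (nat_lit 1672) (nat_lit 6621718994) (nat_lit 410) (nat_lit 5) (nat_lit 409) (nat_lit 5) (nat_lit 431) (nat_lit 5) (nat_lit 298) (nat_lit 287) (nat_lit 195)) (XT.lf (nat_lit 0) (nat_lit 6149567191) (nat_lit 1596) (nat_lit 6594155)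 (nat_lit 1672) (nat_lit 5143427204) (nat_lit 410) (nat_lit 5) (nat_lit 431) (nat_lit 5) (nat_lit 432) (nat_lit 5) (nat_lit 299) (nat_lit 287) (nat_lit 194))) (XT.nd (nat_lit 78) (nat_lit 0) (nat_lit 0) (XT.lf (nat_lit 0) (nat_lit 7868288150) (nat_lit 1596) (nat_lit 3079635207) (nat_lit 1672) (nat_lit 518029820) (nat_lit 411) (nat_lit 5) (nat_lit 432) (nat_lit 5) (nat_lit 433) (nat_lit 5) (nat_lit 300) (nat_lit 287) (nat_lit 193)) (XT.lf (nat_lit 76) (nat_lit 5399600725) (nat_lit 0) (nat_lit 4284228514) (nat_lit 1672) (nat_lit 1952599101) (nat_lit 412) (nat_lit 5) (nat_lit 411) (nat_lit 5) (nat_lit 433) (nat_lit 5) (nat_lit 301) (nat_lit 287) (nat_lit 192)))))) (XT.nd (nat_lit 546) (nat_lit 4180) (nat_lit 0) (XT.nd (nat_lit 234) (nat_lit 3724) (nat_lit 0) (XT.nd (nat_lit 78) (nat_lit 1672) (nat_lit 0) (XT.lf (nat_lit 76) (nat_lit 2353617594) (nat_lit 0) (nat_lit 9223035924) (nat_lit 1672) (nat_lit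 234931941) (nat_lit 413) (nat_lit 5) (nat_lit 412) (nat_lit 5) (nat_lit 434) (nat_lit 5) (nat_lit 302) (nat_lit 287) (nat_lit 191)) (XT.nd (nat_lit 78) (nat_lit 0) (nat_lit 76) (XT.lf (nat_lit 0) (nat_lit 1555625746) (nat_lit 1672) (nat_lit 767056453) (nat_lit 1748) (nat_lit 9668309097) (nat_lit 390) (nat_lit 5) (nat_lit 412) (nat_lit 5) (nat_lit 413) (nat_lit 5) (nat_lit 303) (nat_lit 287) (nat_lit 190)) (XT.lf (nat_lit 0) (nat_lit 3453028971) (nat_lit 1672) (nat_lit 3938747904) (nat_lit 76) (nat_lit 4782867181) (nat_lit 391) (nat_lit 5) (nat_lit 413) (nat_lit 5) (nat_lit 392) (nat_lit 5) (nat_lit 304) (nat_lit 287) (nat_lit 189)))) (XT.nd (nat_lit 156) (nat_lit 836) (nat_lit 0) (XT.nd (nat_lit 78) (nat_lit 1292) (nat_lit 0) (XT.lf (nat_lit 0) (nat_lit 5184469706) (nat_lit 1672) (nat_lit 249188855) (nat_lit 1748) (nat_lit 6929643325) (nat_lit 369) (nat_lit 5) (nat_lit 391) (nat_lit 5) (nat_lit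 392) (nat_lit 5) (nat_lit 305) (nat_lit 287) (nat_lit 188)) (XT.lf (nat_lit 0) (nat_lit 2034667568) (nat_lit 1292) (nat_lit 5497837462) (nat_lit 1368) (nat_lit 5023959404) (nat_lit 352) (nat_lit 5) (nat_lit 369) (nat_lit 5) (nat_lit 370) (nat_lit 5) (nat_lit 306) (nat_lit 287) (nat_lit 187))) (XT.nd (nat_lit 78) (nat_lit 836) (nat_lit 0) (XT.lf (nat_lit 0) (nat_lit 9730042296) (nat_lit 1368) (nat_lit 1169545453) (nat_lit 76) (nat_lit 1855139935) (nat_lit 352) (nat_lit 5) (nat_lit 370) (nat_lit 5) (nat_lit 353) (nat_lit 5) (nat_lit 307) (nat_lit 287) (nat_lit 186)) (XT.lf (nat_lit 0) (nat_lit 8514787117) (nat_lit 836) (nat_lit 3544788312) (nat_lit 912) (nat_lit 898061747) (nat_lit 341) (nat_lit 5) (nat_lit 352) (nat_lit 5) (nat_lit 353) (nat_lit 5) (nat_lit 308) (nat_lit 287) (nat_lit 185))))) (XT.nd (nat_lit 234) (nat_lit 2432) (nat_lit 0) (XT.nd (nat_lit 78) (nat_lit 836) (nat_lit 0) (XT.lf (nat_lit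 0) (nat_lit 1319269152) (nat_lit 912) (nat_lit 7814761676) (nat_lit 76) (nat_lit 4031576938) (nat_lit 329) (nat_lit 5) (nat_lit 341) (nat_lit 5) (nat_lit 330) (nat_lit 5) (nat_lit 309) (nat_lit 287) (nat_lit 184)) (XT.nd (nat_lit 78) (nat_lit 0) (nat_lit 0) (XT.lf (nat_lit 0) (nat_lit 2093981480) (nat_lit 836) (nat_lit 1539661492) (nat_lit 912) (nat_lit 9745219537) (nat_lit 318) (nat_lit 5) (nat_lit 329) (nat_lit 5) (nat_lit 330) (nat_lit 5) (nat_lit 310) (nat_lit 287) (nat_lit 183)) (XT.lf (nat_lit 0) (nat_lit 6087176889) (nat_lit 912) (nat_lit 1255294863) (nat_lit 76) (nat_lit 6254666276) (nat_lit 318) (nat_lit 5) (nat_lit 330) (nat_lit 5) (nat_lit 319) (nat_lit 5) (nat_lit 311) (nat_lit 287) (nat_lit 182)))) (XT.nd (nat_lit 156) (nat_lit 836) (nat_lit 0) (XT.nd (nat_lit 78) (nat_lit 760) (nat_lit 0) (XT.lf (nat_lit 0) (nat_lit 8663698696) (nat_lit 912) (nat_lit 4662234292) (nat_lit 76) (nat_lit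 495058384) (nat_lit 307) (nat_lit 5) (nat_lit 319) (nat_lit 5) (nat_lit 308) (nat_lit 5) (nat_lit 312) (nat_lit 287) (nat_lit 181)) (XT.lf (nat_lit 0) (nat_lit 5855586008) (nat_lit 760) (nat_lit 5534501447) (nat_lit 836) (nat_lit 2660038129) (nat_lit 297) (nat_lit 5) (nat_lit 307) (nat_lit 5) (nat_lit 308) (nat_lit 5) (nat_lit 313) (nat_lit 287) (nat_lit 180))) (XT.nd (nat_lit 78) (nat_lit 76) (nat_lit 0) (XT.lf (nat_lit 0) (nat_lit 2459970738) (nat_lit 760) (nat_lit 11779655009) (nat_lit 836) (nat_lit 45697128) (nat_lit 287) (nat_lit 5) (nat_lit 297) (nat_lit 5) (nat_lit 298) (nat_lit 5) (nat_lit 314) (nat_lit 287) (nat_lit 179)) (XT.lf (nat_lit 0) (nat_lit 2683026606) (nat_lit 836) (nat_lit 1057850295) (nat_lit 76) (nat_lit 10784957494) (nat_lit 286) (nat_lit 5) (nat_lit 297) (nat_lit 5) (nat_lit 287) (nat_lit 5) (nat_lit 315) (nat_lit 287) (nat_lit 178))))))))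
noncomputable def xc95 : XT := (XT.nd (nat_lit 2106) (nat_lit 3496) (nat_lit 0) (XT.nd (nat_lit 1014) (nat_lit 5396) (nat_lit 0) (XT.nd (nat_lit 468) (nat_lit 2964) (nat_lit 0) (XT.nd (nat_lit 234) (nat_lit 1368) (nat_lit 0) (XT.nd (nat_lit 78) (nat_lit 1444) (nat_lit 0) (XT.lf (nat_lit 0) (nat_lit 5567161833) (nat_lit 760) (nat_lit 4659620745) (nat_lit 76) (nat_lit 4545304206) (nat_lit 277) (nat_lit 5) (nat_lit 287) (nat_lit 5) (nat_lit 278) (nat_lit 5) (nat_lit 316) (nat_lit 287) (nat_lit 177)) (XT.nd (nat_lit 78) (nat_lit 684) (nat_lit 0) (XT.lf (nat_lit 0) (nat_lit 6646395882) (nat_lit 760) (nat_lit 1945699003) (nat_lit 836) (nat_lit 6432560928) (nat_lit 267) (nat_lit 5) (nat_lit 277) (nat_lit 5) (nat_lit 278) (nat_lit 5) (nat_lit 317) (nat_lit 287) (nat_lit 176)) (XT.lf (nat_lit 0) (nat_lit 3045643580) (nat_lit 684) (nat_lit 8735787142) (nat_lit 760) (nat_lit 3501912212) (nat_lit 258) (nat_lit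 5) (nat_lit 267) (nat_lit 5) (nat_lit 268) (nat_lit 5) (nat_lit 318) (nat_lit 287) (nat_lit 175)))) (XT.nd (nat_lit 78) (nat_lit 1368) (nat_lit 0) (XT.lf (nat_lit 0) (nat_lit 14891579116) (nat_lit 684) (nat_lit 224374617) (nat_lit 760) (nat_lit 432860502) (nat_lit 258) (nat_lit 5) (nat_lit 267) (nat_lit 5) (nat_lit 268) (nat_lit 5) (nat_lit 319) (nat_lit 287) (nat_lit 174)) (XT.nd (nat_lit 78) (nat_lit 608) (nat_lit 0) (XT.lf (nat_lit 0) (nat_lit 2802678446) (nat_lit 760) (nat_lit 4496509397) (nat_lit 76) (nat_lit 8520516660) (nat_lit 248) (nat_lit 5) (nat_lit 258) (nat_lit 5) (nat_lit 249) (nat_lit 5) (nat_lit 320) (nat_lit 287) (nat_lit 173)) (XT.lf (nat_lit 0) (nat_lit 6175366399) (nat_lit 684) (nat_lit 8460139039) (nat_lit 76) (nat_lit 1462252208) (nat_lit 240) (nat_lit 5) (nat_lit 249) (nat_lit 5) (nat_lit 241) (nat_lit 5) (nat_lit 321) (nat_lit 287) (nat_lit 172))))) (XT.nd (nat_lit 234)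 (nat_lit 1672) (nat_lit 0) (XT.nd (nat_lit 78) (nat_lit 684) (nat_lit 0) (XT.lf (nat_lit 0) (nat_lit 3792639900) (nat_lit 608) (nat_lit 5941784743) (nat_lit 684) (nat_lit 6648036247) (nat_lit 232) (nat_lit 5) (nat_lit 240) (nat_lit 5) (nat_lit 241) (nat_lit 5) (nat_lit 322) (nat_lit 287) (nat_lit 171)) (XT.nd (nat_lit 78) (nat_lit 684) (nat_lit 0) (XT.lf (nat_lit 0) (nat_lit 13458996401) (nat_lit 684) (nat_lit 187564018) (nat_lit 76) (nat_lit 3027981918) (nat_lit 232) (nat_lit 5) (nat_lit 241) (nat_lit 5) (nat_lit 233) (nat_lit 5) (nat_lit 323) (nat_lit 287) (nat_lit 170)) (XT.lf (nat_lit 0) (nat_lit 420555885) (nat_lit 684) (nat_lit 4283828911) (nat_lit 76) (nat_lit 12268874600) (nat_lit 223) (nat_lit 5) (nat_lit 232) (nat_lit 5) (nat_lit 224) (nat_lit 5) (nat_lit 324) (nat_lit 287) (nat_lit 169)))) (XT.nd (nat_lit 156) (nat_lit 532) (nat_lit 0) (XT.nd (nat_lit 78) (nat_lit 532) (nat_lit 0) (XT.lf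 (nat_lit 0) (nat_lit 4192404467) (nat_lit 684) (nat_lit 8563020445) (nat_lit 76) (nat_lit 4523691987) (nat_lit 215) (nat_lit 5) (nat_lit 224) (nat_lit 5) (nat_lit 216) (nat_lit 5) (nat_lit 325) (nat_lit 287) (nat_lit 168)) (XT.lf (nat_lit 0) (nat_lit 4578352809) (nat_lit 532) (nat_lit 3572094489) (nat_lit 608) (nat_lit 9442252767) (nat_lit 208) (nat_lit 5) (nat_lit 215) (nat_lit 5) (nat_lit 216) (nat_lit 5) (nat_lit 326) (nat_lit 287) (nat_lit 167))) (XT.nd (nat_lit 78) (nat_lit 0) (nat_lit 0) (XT.lf (nat_lit 0) (nat_lit 260347380) (nat_lit 532) (nat_lit 12048183259) (nat_lit 608) (nat_lit 5605544502) (nat_lit 201) (nat_lit 5) (nat_lit 208) (nat_lit 5) (nat_lit 209) (nat_lit 5) (nat_lit 327) (nat_lit 287) (nat_lit 166)) (XT.lf (nat_lit 0) (nat_lit 14066450884) (nat_lit 532) (nat_lit 2620165155) (nat_lit 608) (nat_lit 1556580338) (nat_lit 201) (nat_lit 5) (nat_lit 208) (nat_lit 5) (nat_lit 209)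 (nat_lit 5) (nat_lit 328) (nat_lit 287) (nat_lit 165)))))) (XT.nd (nat_lit 546) (nat_lit 2280) (nat_lit 0) (XT.nd (nat_lit 234) (nat_lit 1520) (nat_lit 0) (XT.nd (nat_lit 78) (nat_lit 988) (nat_lit 0) (XT.lf (nat_lit 0) (nat_lit 2673423646) (nat_lit 608) (nat_lit 8831802557) (nat_lit 76) (nat_lit 7074758200) (nat_lit 193) (nat_lit 5) (nat_lit 201) (nat_lit 5) (nat_lit 194) (nat_lit 5) (nat_lit 329) (nat_lit 287) (nat_lit 164)) (XT.nd (nat_lit 78) (nat_lit 456) (nat_lit 0) (XT.lf (nat_lit 0) (nat_lit 5241988604) (nat_lit 532) (nat_lit 1831384207) (nat_lit 608) (nat_lit 11852022951) (nat_lit 186) (nat_lit 5) (nat_lit 193) (nat_lit 5) (nat_lit 194) (nat_lit 5) (nat_lit 330) (nat_lit 287) (nat_lit 163)) (XT.lf (nat_lit 0) (nat_lit 512105604) (nat_lit 456) (nat_lit 11193917913) (nat_lit 532) (nat_lit 7573140945) (nat_lit 180) (nat_lit 5) (nat_lit 186) (nat_lit 5) (nat_lit 187) (nat_lit 5) (nat_lit 331)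 (nat_lit 287) (nat_lit 162)))) (XT.nd (nat_lit 156) (nat_lit 912) (nat_lit 0) (XT.nd (nat_lit 78) (nat_lit 608) (nat_lit 0) (XT.lf (nat_lit 0) (nat_lit 15288380288) (nat_lit 456) (nat_lit 1278821787) (nat_lit 532) (nat_lit 3074561977) (nat_lit 180) (nat_lit 5) (nat_lit 186) (nat_lit 5) (nat_lit 187) (nat_lit 5) (nat_lit 332) (nat_lit 287) (nat_lit 161)) (XT.lf (nat_lit 0) (nat_lit 1650858303) (nat_lit 608) (nat_lit 9470460016) (nat_lit 76) (nat_lit 8891482641) (nat_lit 172) (nat_lit 5) (nat_lit 180) (nat_lit 5) (nat_lit 173) (nat_lit 5) (nat_lit 333) (nat_lit 287) (nat_lit 160))) (XT.nd (nat_lit 78) (nat_lit 456) (nat_lit 0) (XT.lf (nat_lit 0) (nat_lit 5574375652) (nat_lit 456) (nat_lit 961852262) (nat_lit 532) (nat_lit 13857143573) (nat_lit 166) (nat_lit 5) (nat_lit 172) (nat_lit 5) (nat_lit 173) (nat_lit 5) (nat_lit 334) (nat_lit 287) (nat_lit 159)) (XT.lf (nat_lit 0) (nat_lit 338917622) (nat_lit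 456) (nat_lit 11343289464) (nat_lit 532) (nat_lit 9100878968) (nat_lit 160) (nat_lit 5) (nat_lit 166) (nat_lit 5) (nat_lit 167) (nat_lit 5) (nat_lit 335) (nat_lit 287) (nat_lit 158))))) (XT.nd (nat_lit 234) (nat_lit 1292) (nat_lit 0) (XT.nd (nat_lit 78) (nat_lit 988) (nat_lit 0) (XT.lf (nat_lit 0) (nat_lit 16128691736) (nat_lit 456) (nat_lit 946530527) (nat_lit 532) (nat_lit 4107424322) (nat_lit 160) (nat_lit 5) (nat_lit 166) (nat_lit 5) (nat_lit 167) (nat_lit 5) (nat_lit 336) (nat_lit 287) (nat_lit 157)) (XT.nd (nat_lit 78) (nat_lit 456) (nat_lit 0) (XT.lf (nat_lit 0) (nat_lit 1143145833) (nat_lit 532) (nat_lit 10741225862) (nat_lit 76) (nat_lit 9707277083) (nat_lit 153) (nat_lit 5) (nat_lit 160) (nat_lit 5) (nat_lit 154) (nat_lit 5) (nat_lit 337) (nat_lit 287) (nat_lit 156)) (XT.lf (nat_lit 0) (nat_lit 5305659248) (nat_lit 456) (nat_lit 1251752576) (nat_lit 532) (nat_lit 15453733642) (nat_lit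 147) (nat_lit 5) (nat_lit 153) (nat_lit 5) (nat_lit 154) (nat_lit 5) (nat_lit 338) (nat_lit 287) (nat_lit 155)))) (XT.nd (nat_lit 156) (nat_lit 912) (nat_lit 0) (XT.nd (nat_lit 78) (nat_lit 380) (nat_lit 0) (XT.lf (nat_lit 0) (nat_lit 12257006611) (nat_lit 532) (nat_lit 542963512) (nat_lit 76) (nat_lit 9640805790) (nat_lit 147) (nat_lit 5) (nat_lit 154) (nat_lit 5) (nat_lit 148) (nat_lit 5) (nat_lit 339) (nat_lit 287) (nat_lit 154)) (XT.lf (nat_lit 0) (nat_lit 16291564799) (nat_lit 380) (nat_lit 1937214821) (nat_lit 456) (nat_lit 4652498518) (nat_lit 142) (nat_lit 5) (nat_lit 147) (nat_lit 5) (nat_lit 148) (nat_lit 5) (nat_lit 340) (nat_lit 287) (nat_lit 153))) (XT.nd (nat_lit 78) (nat_lit 380) (nat_lit 0) (XT.lf (nat_lit 0) (nat_lit 1150100142) (nat_lit 532) (nat_lit 12978860580) (nat_lit 76) (nat_lit 9203523575) (nat_lit 135) (nat_lit 5) (nat_lit 142) (nat_lit 5) (nat_lit 136) (nat_lit 5) (nat_lit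 341) (nat_lit 287) (nat_lit 152)) (XT.lf (nat_lit 0) (nat_lit 4090433677) (nat_lit 380) (nat_lit 3045394468) (nat_lit 456) (nat_lit 16659344393) (nat_lit 130) (nat_lit 5) (nat_lit 135) (nat_lit 5) (nat_lit 136) (nat_lit 5) (nat_lit 342) (nat_lit 287) (nat_lit 151))))))) (XT.nd (nat_lit 1014) (nat_lit 304) (nat_lit 0) (XT.nd (nat_lit 468) (nat_lit 1748) (nat_lit 0) (XT.nd (nat_lit 234) (nat_lit 684) (nat_lit 0) (XT.nd (nat_lit 78) (nat_lit 760) (nat_lit 0) (XT.lf (nat_lit 0) (nat_lit 13431661219) (nat_lit 456) (nat_lit 2493352489) (nat_lit 76) (nat_lit 8344123039) (nat_lit 130) (nat_lit 5) (nat_lit 136) (nat_lit 5) (nat_lit 131) (nat_lit 5) (nat_lit 343) (nat_lit 287) (nat_lit 150)) (XT.nd (nat_lit 78) (nat_lit 380) (nat_lit 0) (XT.lf (nat_lit 0) (nat_lit 15398583150) (nat_lit 380) (nat_lit 4626143378) (nat_lit 456) (nat_lit 4730432024) (nat_lit 125) (nat_lit 5) (nat_lit 130) (nat_lit 5) (nat_lit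 131) (nat_lit 5) (nat_lit 344) (nat_lit 287) (nat_lit 149)) (XT.lf (nat_lit 0) (nat_lit 1647021456) (nat_lit 380) (nat_lit 16607889505) (nat_lit 76) (nat_lit 6998499915) (nat_lit 120) (nat_lit 5) (nat_lit 125) (nat_lit 5) (nat_lit 121) (nat_lit 5) (nat_lit 345) (nat_lit 287) (nat_lit 148)))) (XT.nd (nat_lit 78) (nat_lit 304) (nat_lit 0) (XT.lf (nat_lit 0) (nat_lit 1489775159) (nat_lit 380) (nat_lit 6754922020) (nat_lit 456) (nat_lit 17519430266) (nat_lit 115) (nat_lit 5) (nat_lit 120) (nat_lit 5) (nat_lit 121) (nat_lit 5) (nat_lit 346) (nat_lit 287) (nat_lit 147)) (XT.nd (nat_lit 78) (nat_lit 304) (nat_lit 0) (XT.lf (nat_lit 0) (nat_lit 15175197826) (nat_lit 456) (nat_lit 5981110351) (nat_lit 76) (nat_lit 5131164659) (nat_lit 115) (nat_lit 5) (nat_lit 121) (nat_lit 5) (nat_lit 116) (nat_lit 5) (nat_lit 347) (nat_lit 287) (nat_lit 146)) (XT.lf (nat_lit 0) (nat_lit 12969244383) (nat_lit 304) (nat_lit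 9462641335) (nat_lit 380) (nat_lit 4392272488) (nat_lit 111) (nat_lit 5) (nat_lit 115) (nat_lit 5) (nat_lit 116) (nat_lit 5) (nat_lit 348) (nat_lit 287) (nat_lit 145))))) (XT.nd (nat_lit 234) (nat_lit 988) (nat_lit 0) (XT.nd (nat_lit 78) (nat_lit 304) (nat_lit 0) (XT.lf (nat_lit 0) (nat_lit 2577273080) (nat_lit 456) (nat_lit 22163423485) (nat_lit 76) (nat_lit 2634301638) (nat_lit 105) (nat_lit 5) (nat_lit 111) (nat_lit 5) (nat_lit 106) (nat_lit 5) (nat_lit 349) (nat_lit 287) (nat_lit 144)) (XT.nd (nat_lit 78) (nat_lit 304) (nat_lit 0) (XT.lf (nat_lit 0) (nat_lit 9843572472) (nat_lit 456) (nat_lit 3010458390) (nat_lit 76) (nat_lit 15084809735) (nat_lit 105) (nat_lit 5) (nat_lit 111) (nat_lit 5) (nat_lit 106) (nat_lit 5) (nat_lit 350) (nat_lit 287) (nat_lit 143)) (XT.lf (nat_lit 0) (nat_lit 16923120027) (nat_lit 304) (nat_lit 504144277) (nat_lit 380) (nat_lit 11090350434) (nat_lit 101) (nat_lit 5)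 (nat_lit 105) (nat_lit 5) (nat_lit 106) (nat_lit 5) (nat_lit 351) (nat_lit 287) (nat_lit 142)))) (XT.nd (nat_lit 156) (nat_lit 608) (nat_lit 0) (XT.nd (nat_lit 78) (nat_lit 76) (nat_lit 0) (XT.lf (nat_lit 0) (nat_lit 8397410066) (nat_lit 304) (nat_lit 16985124825) (nat_lit 380) (nat_lit 3728340263) (nat_lit 97) (nat_lit 5) (nat_lit 101) (nat_lit 5) (nat_lit 102) (nat_lit 5) (nat_lit 352) (nat_lit 287) (nat_lit 141)) (XT.lf (nat_lit 0) (nat_lit 3876260459) (nat_lit 380) (nat_lit 617224882) (nat_lit 76) (nat_lit 25226506054) (nat_lit 96) (nat_lit 5) (nat_lit 101) (nat_lit 5) (nat_lit 97) (nat_lit 5) (nat_lit 353) (nat_lit 287) (nat_lit 140))) (XT.nd (nat_lit 78) (nat_lit 304) (nat_lit 0) (XT.lf (nat_lit 0) (nat_lit 11835973319) (nat_lit 380) (nat_lit 10091765929) (nat_lit 76) (nat_lit 8415600512) (nat_lit 92) (nat_lit 5) (nat_lit 97) (nat_lit 5) (nat_lit 93) (nat_lit 5) (nat_lit 354) (nat_lit 287)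 (nat_lit 139)) (XT.lf (nat_lit 0) (nat_lit 10866841508) (nat_lit 304) (nat_lit 9262726402) (nat_lit 380) (nat_lit 10853922817) (nat_lit 88) (nat_lit 5) (nat_lit 92) (nat_lit 5) (nat_lit 93) (nat_lit 5) (nat_lit 355) (nat_lit 287) (nat_lit 138)))))) (XT.nd (nat_lit 35724) (nat_lit 0) (nat_lit 24548) (XT.nd (nat_lit 35412) (nat_lit 0) (nat_lit 25840) (XT.nd (nat_lit 78) (nat_lit 76) (nat_lit 0) (XT.lf (nat_lit 0) (nat_lit 922865245) (nat_lit 228) (nat_lit 27838918303) (nat_lit 304) (nat_lit 2879270253) (nat_lit 85) (nat_lit 5) (nat_lit 88) (nat_lit 5) (nat_lit 89) (nat_lit 5) (nat_lit 356) (nat_lit 287) (nat_lit 137)) (XT.nd (nat_lit 35256) (nat_lit 0) (nat_lit 25840) (XT.lf (nat_lit 0) (nat_lit 5454364083) (nat_lit 304) (nat_lit 9559154429) (nat_lit 76) (nat_lit 17300342060) (nat_lit 84) (nat_lit 5) (nat_lit 88) (nat_lit 5) (nat_lit 85) (nat_lit 5) (nat_lit 357) (nat_lit 287) (nat_lit 136)) (XT.lf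 (nat_lit 0) (nat_lit 1231440765) (nat_lit 1596) (nat_lit 1847345900) (nat_lit 1596) (nat_lit 1847345900) (nat_lit 424) (nat_lit 3) (nat_lit 445) (nat_lit 3) (nat_lit 445) (nat_lit 5) (nat_lit 288) (nat_lit 288) (nat_lit 204)))) (XT.nd (nat_lit 156) (nat_lit 0) (nat_lit 152) (XT.nd (nat_lit 78) (nat_lit 0) (nat_lit 76) (XT.lf (nat_lit 76) (nat_lit 3088201906) (nat_lit 0) (nat_lit 473052618) (nat_lit 1596) (nat_lit 6416696154) (nat_lit 425) (nat_lit 5) (nat_lit 424) (nat_lit 3) (nat_lit 445) (nat_lit 5) (nat_lit 289) (nat_lit 288) (nat_lit 203)) (XT.lf (nat_lit 0) (nat_lit 4712074143) (nat_lit 1520) (nat_lit 38857395) (nat_lit 1596) (nat_lit 5356119292) (nat_lit 425) (nat_lit 5) (nat_lit 445) (nat_lit 5) (nat_lit 446) (nat_lit 5) (nat_lit 290) (nat_lit 288) (nat_lit 202))) (XT.nd (nat_lit 78) (nat_lit 0) (nat_lit 0) (XT.lf (nat_lit 0) (nat_lit 5914776273) (nat_lit 1520) (nat_lit 3161542941) (nat_lit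 1596) (nat_lit 1163390572) (nat_lit 426) (nat_lit 5) (nat_lit 446) (nat_lit 5) (nat_lit 447) (nat_lit 5) (nat_lit 291) (nat_lit 288) (nat_lit 201)) (XT.lf (nat_lit 76) (nat_lit 4032073456) (nat_lit 0) (nat_lit 3141361564) (nat_lit 1596) (nat_lit 3202547978) (nat_lit 427) (nat_lit 5) (nat_lit 426) (nat_lit 5) (nat_lit 447) (nat_lit 5) (nat_lit 292) (nat_lit 288) (nat_lit 200))))) (XT.nd (nat_lit 234) (nat_lit 0) (nat_lit 76) (XT.nd (nat_lit 78) (nat_lit 1520) (nat_lit 0) (XT.lf (nat_lit 76) (nat_lit 939291104) (nat_lit 0) (nat_lit 7540259530) (nat_lit 1596) (nat_lit 2036630899) (nat_lit 428) (nat_lit 5) (nat_lit 427) (nat_lit 5) (nat_lit 448) (nat_lit 5) (nat_lit 293) (nat_lit 288) (nat_lit 199)) (XT.nd (nat_lit 78) (nat_lit 1520) (nat_lit 0) (XT.lf (nat_lit 76) (nat_lit 8484451368) (nat_lit 0) (nat_lit 1367937239) (nat_lit 1596) (nat_lit 807676798) (nat_lit 428) (nat_lit 5) (nat_lit 427) (nat_lit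 5) (nat_lit 448) (nat_lit 5) (nat_lit 294) (nat_lit 288) (nat_lit 198)) (XT.lf (nat_lit 0) (nat_lit 485029600) (nat_lit 1596) (nat_lit 5346123107) (nat_lit 1672) (nat_lit 4976424458) (nat_lit 407) (nat_lit 5) (nat_lit 428) (nat_lit 5) (nat_lit 429) (nat_lit 5) (nat_lit 295) (nat_lit 288) (nat_lit 197)))) (XT.nd (nat_lit 156) (nat_lit 0) (nat_lit 76) (XT.nd (nat_lit 78) (nat_lit 0) (nat_lit 0) (XT.lf (nat_lit 0) (nat_lit 1814362867) (nat_lit 1596) (nat_lit 8570579081) (nat_lit 1672) (nat_lit 574317051) (nat_lit 408) (nat_lit 5) (nat_lit 429) (nat_lit 5) (nat_lit 430) (nat_lit 5) (nat_lit 296) (nat_lit 288) (nat_lit 196)) (XT.lf (nat_lit 0) (nat_lit 3225433019) (nat_lit 1596) (nat_lit 748102211) (nat_lit 1672) (nat_lit 7141145980) (nat_lit 408) (nat_lit 5) (nat_lit 429) (nat_lit 5) (nat_lit 430) (nat_lit 5) (nat_lit 297) (nat_lit 288) (nat_lit 195))) (XT.nd (nat_lit 78) (nat_lit 0) (nat_lit 0) (XT.lf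 (nat_lit 0) (nat_lit 4711611366) (nat_lit 1596) (nat_lit 3908202035) (nat_lit 1672) (nat_lit 2654323438) (nat_lit 409) (nat_lit 5) (nat_lit 430) (nat_lit 5) (nat_lit 431) (nat_lit 5) (nat_lit 298) (nat_lit 288) (nat_lit 194)) (XT.lf (nat_lit 76) (nat_lit 4302673068) (nat_lit 0) (nat_lit 1967560825) (nat_lit 1672) (nat_lit 5167610576) (nat_lit 410) (nat_lit 5) (nat_lit 409) (nat_lit 5) (nat_lit 431) (nat_lit 5) (nat_lit 299) (nat_lit 288) (nat_lit 193))))))))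
noncomputable def xc96 : XT := (XT.nd (nat_lit 2028) (nat_lit 9272) (nat_lit 0) (XT.nd (nat_lit 1014) (nat_lit 7220) (nat_lit 0) (XT.nd (nat_lit 468) (nat_lit 5472) (nat_lit 0) (XT.nd (nat_lit 234) (nat_lit 1520) (nat_lit 0) (XT.nd (nat_lit 78) (nat_lit 0) (nat_lit 76) (XT.lf (nat_lit 76) (nat_lit 1168022891) (nat_lit 0) (nat_lit 6742631891) (nat_lit 1672) (nat_lit 3695132516) (nat_lit 411) (nat_lit 5) (nat_lit 410) (nat_lit 5) (nat_lit 432) (nat_lit 5) (nat_lit 300) (nat_lit 288) (nat_lit 192)) (XT.nd (nat_lit 78) (nat_lit 0) (nat_lit 0) (XT.lf (nat_lit 0) (nat_lit 9632527956) (nat_lit 1596) (nat_lit 1996972518) (nat_lit 1672) (nat_lit 148647188) (nat_lit 411) (nat_lit 5) (nat_lit 432) (nat_lit 5) (nat_lit 433) (nat_lit 5) (nat_lit 301) (nat_lit 288) (nat_lit 191)) (XT.lf (nat_lit 76) (nat_lit 6717576674) (nat_lit 0) (nat_lit 4747953622) (nat_lit 1672) (nat_lit 488982425) (nat_lit 412) (nat_lit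 5) (nat_lit 411) (nat_lit 5) (nat_lit 433) (nat_lit 5) (nat_lit 302) (nat_lit 288) (nat_lit 190)))) (XT.nd (nat_lit 78) (nat_lit 0) (nat_lit 0) (XT.lf (nat_lit 0) (nat_lit 1225189211) (nat_lit 1672) (nat_lit 8549672583) (nat_lit 1748) (nat_lit 2360695057) (nat_lit 390) (nat_lit 5) (nat_lit 412) (nat_lit 5) (nat_lit 413) (nat_lit 5) (nat_lit 303) (nat_lit 288) (nat_lit 189)) (XT.nd (nat_lit 78) (nat_lit 0) (nat_lit 76) (XT.lf (nat_lit 76) (nat_lit 370581635) (nat_lit 0) (nat_lit 2655473800) (nat_lit 1748) (nat_lit 9295095542) (nat_lit 391) (nat_lit 5) (nat_lit 390) (nat_lit 5) (nat_lit 413) (nat_lit 5) (nat_lit 304) (nat_lit 288) (nat_lit 188)) (XT.lf (nat_lit 0) (nat_lit 4942333301) (nat_lit 1672) (nat_lit 2889437277) (nat_lit 76) (nat_lit 4679335581) (nat_lit 391) (nat_lit 5) (nat_lit 413) (nat_lit 5) (nat_lit 392) (nat_lit 5) (nat_lit 305) (nat_lit 288) (nat_lit 187))))) (XT.nd (nat_lit 234)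 (nat_lit 2584) (nat_lit 0) (XT.nd (nat_lit 78) (nat_lit 1292) (nat_lit 0) (XT.lf (nat_lit 0) (nat_lit 6488535998) (nat_lit 1672) (nat_lit 460942227) (nat_lit 1748) (nat_lit 5756634529) (nat_lit 369) (nat_lit 5) (nat_lit 391) (nat_lit 5) (nat_lit 392) (nat_lit 5) (nat_lit 306) (nat_lit 288) (nat_lit 186)) (XT.nd (nat_lit 78) (nat_lit 0) (nat_lit 0) (XT.lf (nat_lit 0) (nat_lit 3254543505) (nat_lit 1292) (nat_lit 5823580607) (nat_lit 1368) (nat_lit 3827639443) (nat_lit 352) (nat_lit 5) (nat_lit 369) (nat_lit 5) (nat_lit 370) (nat_lit 5) (nat_lit 307) (nat_lit 288) (nat_lit 185)) (XT.lf (nat_lit 0) (nat_lit 11302137604) (nat_lit 1368) (nat_lit 51937841) (nat_lit 76) (nat_lit 1756717438) (nat_lit 352) (nat_lit 5) (nat_lit 370) (nat_lit 5) (nat_lit 353) (nat_lit 5) (nat_lit 308) (nat_lit 288) (nat_lit 184)))) (XT.nd (nat_lit 156) (nat_lit 836) (nat_lit 0) (XT.nd (nat_lit 78) (nat_lit 836) (nat_lit 0)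 (XT.lf (nat_lit 0) (nat_lit 346609417) (nat_lit 912) (nat_lit 3418473195) (nat_lit 76) (nat_lit 9555288266) (nat_lit 340) (nat_lit 5) (nat_lit 352) (nat_lit 5) (nat_lit 341) (nat_lit 5) (nat_lit 309) (nat_lit 288) (nat_lit 183)) (XT.lf (nat_lit 0) (nat_lit 2588369775) (nat_lit 912) (nat_lit 6890099190) (nat_lit 76) (nat_lit 4056617651) (nat_lit 329) (nat_lit 5) (nat_lit 341) (nat_lit 5) (nat_lit 330) (nat_lit 5) (nat_lit 310) (nat_lit 288) (nat_lit 182))) (XT.nd (nat_lit 78) (nat_lit 0) (nat_lit 0) (XT.lf (nat_lit 0) (nat_lit 3297101154) (nat_lit 836) (nat_lit 1646665904) (nat_lit 912) (nat_lit 8811566281) (nat_lit 318) (nat_lit 5) (nat_lit 329) (nat_lit 5) (nat_lit 330) (nat_lit 5) (nat_lit 311) (nat_lit 288) (nat_lit 181)) (XT.lf (nat_lit 0) (nat_lit 7435539719) (nat_lit 912) (nat_lit 161312813) (nat_lit 76) (nat_lit 6384037358) (nat_lit 318) (nat_lit 5) (nat_lit 330) (nat_lit 5) (nat_lit 319)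 (nat_lit 5) (nat_lit 312) (nat_lit 288) (nat_lit 180)))))) (XT.nd (nat_lit 468) (nat_lit 3344) (nat_lit 0) (XT.nd (nat_lit 234) (nat_lit 1444) (nat_lit 0) (XT.nd (nat_lit 78) (nat_lit 1596) (nat_lit 0) (XT.lf (nat_lit 0) (nat_lit 10062464405) (nat_lit 912) (nat_lit 3665049742) (nat_lit 76) (nat_lit 484507221) (nat_lit 307) (nat_lit 5) (nat_lit 319) (nat_lit 5) (nat_lit 308) (nat_lit 5) (nat_lit 313) (nat_lit 288) (nat_lit 179)) (XT.nd (nat_lit 78) (nat_lit 836) (nat_lit 0) (XT.lf (nat_lit 0) (nat_lit 7149857857) (nat_lit 760) (nat_lit 5694879165) (nat_lit 836) (nat_lit 1603834702) (nat_lit 297) (nat_lit 5) (nat_lit 307) (nat_lit 5) (nat_lit 308) (nat_lit 5) (nat_lit 314) (nat_lit 288) (nat_lit 178)) (XT.lf (nat_lit 0) (nat_lit 1049377488) (nat_lit 836) (nat_lit 11041380249) (nat_lit 76) (nat_lit 2600454149) (nat_lit 286) (nat_lit 5) (nat_lit 297) (nat_lit 5) (nat_lit 287) (nat_lit 5) (nat_lit 315)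 (nat_lit 288) (nat_lit 177)))) (XT.nd (nat_lit 78) (nat_lit 760) (nat_lit 0) (XT.lf (nat_lit 0) (nat_lit 15891405) (nat_lit 684) (nat_lit 3811640074) (nat_lit 760) (nat_lit 11112059586) (nat_lit 277) (nat_lit 5) (nat_lit 286) (nat_lit 5) (nat_lit 287) (nat_lit 5) (nat_lit 316) (nat_lit 288) (nat_lit 176)) (XT.nd (nat_lit 78) (nat_lit 760) (nat_lit 0) (XT.lf (nat_lit 0) (nat_lit 6774467060) (nat_lit 760) (nat_lit 3690863462) (nat_lit 76) (nat_lit 4728396476) (nat_lit 277) (nat_lit 5) (nat_lit 287) (nat_lit 5) (nat_lit 278) (nat_lit 5) (nat_lit 317) (nat_lit 288) (nat_lit 175)) (XT.lf (nat_lit 0) (nat_lit 7936348822) (nat_lit 760) (nat_lit 1930580206) (nat_lit 836) (nat_lit 5587429321) (nat_lit 267) (nat_lit 5) (nat_lit 277) (nat_lit 5) (nat_lit 278) (nat_lit 5) (nat_lit 318) (nat_lit 288) (nat_lit 174))))) (XT.nd (nat_lit 234) (nat_lit 1900) (nat_lit 0) (XT.nd (nat_lit 78) (nat_lit 760) (nat_lit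 0) (XT.lf (nat_lit 0) (nat_lit 4230107326) (nat_lit 684) (nat_lit 8899774521) (nat_lit 760) (nat_lit 2591385764) (nat_lit 258) (nat_lit 5) (nat_lit 267) (nat_lit 5) (nat_lit 268) (nat_lit 5) (nat_lit 319) (nat_lit 288) (nat_lit 173)) (XT.nd (nat_lit 78) (nat_lit 0) (nat_lit 0) (XT.lf (nat_lit 0) (nat_lit 406099897) (nat_lit 684) (nat_lit 129609897) (nat_lit 760) (nat_lit 15459469673) (nat_lit 248) (nat_lit 5) (nat_lit 257) (nat_lit 5) (nat_lit 258) (nat_lit 5) (nat_lit 320) (nat_lit 288) (nat_lit 172)) (XT.lf (nat_lit 0) (nat_lit 3839041191) (nat_lit 760) (nat_lit 3555042082) (nat_lit 76) (nat_lit 8880542527) (nat_lit 248) (nat_lit 5) (nat_lit 258) (nat_lit 5) (nat_lit 249) (nat_lit 5) (nat_lit 321) (nat_lit 288) (nat_lit 171)))) (XT.nd (nat_lit 156) (nat_lit 684) (nat_lit 0) (XT.nd (nat_lit 78) (nat_lit 608) (nat_lit 0) (XT.lf (nat_lit 0) (nat_lit 7292876160) (nat_lit 684) (nat_lit 7636636563)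 (nat_lit 76) (nat_lit 1631926668) (nat_lit 240) (nat_lit 5) (nat_lit 249) (nat_lit 5) (nat_lit 241) (nat_lit 5) (nat_lit 322) (nat_lit 288) (nat_lit 170)) (XT.lf (nat_lit 0) (nat_lit 4966247724) (nat_lit 608) (nat_lit 5972186661) (nat_lit 684) (nat_lit 5916672433) (nat_lit 232) (nat_lit 5) (nat_lit 240) (nat_lit 5) (nat_lit 241) (nat_lit 5) (nat_lit 323) (nat_lit 288) (nat_lit 169))) (XT.nd (nat_lit 78) (nat_lit 76) (nat_lit 0) (XT.lf (nat_lit 0) (nat_lit 864453884) (nat_lit 608) (nat_lit 13890271573) (nat_lit 684) (nat_lit 2401642743) (nat_lit 224) (nat_lit 5) (nat_lit 232) (nat_lit 5) (nat_lit 233) (nat_lit 5) (nat_lit 324) (nat_lit 288) (nat_lit 168)) (XT.lf (nat_lit 0) (nat_lit 1306676756) (nat_lit 684) (nat_lit 3370859395) (nat_lit 76) (nat_lit 12786907232) (nat_lit 223) (nat_lit 5) (nat_lit 232) (nat_lit 5) (nat_lit 224) (nat_lit 5) (nat_lit 325) (nat_lit 288) (nat_lit 167))))))) (XT.nd (nat_lit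 1014) (nat_lit 3952) (nat_lit 0) (XT.nd (nat_lit 468) (nat_lit 2508) (nat_lit 0) (XT.nd (nat_lit 234) (nat_lit 1140) (nat_lit 0) (XT.nd (nat_lit 78) (nat_lit 1064) (nat_lit 0) (XT.lf (nat_lit 0) (nat_lit 5173994155) (nat_lit 684) (nat_lit 7778804283) (nat_lit 76) (nat_lit 4827047742) (nat_lit 215) (nat_lit 5) (nat_lit 224) (nat_lit 5) (nat_lit 216) (nat_lit 5) (nat_lit 326) (nat_lit 288) (nat_lit 166)) (XT.nd (nat_lit 78) (nat_lit 532) (nat_lit 0) (XT.lf (nat_lit 0) (nat_lit 5739919448) (nat_lit 532) (nat_lit 3492581987) (nat_lit 608) (nat_lit 8870716317) (nat_lit 208) (nat_lit 5) (nat_lit 215) (nat_lit 5) (nat_lit 216) (nat_lit 5) (nat_lit 327) (nat_lit 288) (nat_lit 165)) (XT.lf (nat_lit 0) (nat_lit 1291548048) (nat_lit 532) (nat_lit 12207206086) (nat_lit 608) (nat_lit 4935826337) (nat_lit 201) (nat_lit 5) (nat_lit 208) (nat_lit 5) (nat_lit 209) (nat_lit 5) (nat_lit 328) (nat_lit 288) (nat_lit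 164)))) (XT.nd (nat_lit 78) (nat_lit 1140) (nat_lit 0) (XT.lf (nat_lit 0) (nat_lit 15482027174) (nat_lit 532) (nat_lit 2502243244) (nat_lit 608) (nat_lit 789797651) (nat_lit 201) (nat_lit 5) (nat_lit 208) (nat_lit 5) (nat_lit 209) (nat_lit 5) (nat_lit 329) (nat_lit 288) (nat_lit 163)) (XT.nd (nat_lit 78) (nat_lit 532) (nat_lit 0) (XT.lf (nat_lit 0) (nat_lit 3540787452) (nat_lit 608) (nat_lit 8093470346) (nat_lit 76) (nat_lit 7486923101) (nat_lit 193) (nat_lit 5) (nat_lit 201) (nat_lit 5) (nat_lit 194) (nat_lit 5) (nat_lit 330) (nat_lit 288) (nat_lit 162)) (XT.lf (nat_lit 0) (nat_lit 6386257422) (nat_lit 532) (nat_lit 1669958967) (nat_lit 608) (nat_lit 11421081978) (nat_lit 186) (nat_lit 5) (nat_lit 193) (nat_lit 5) (nat_lit 194) (nat_lit 5) (nat_lit 331) (nat_lit 288) (nat_lit 161))))) (XT.nd (nat_lit 234) (nat_lit 1444) (nat_lit 0) (XT.nd (nat_lit 78) (nat_lit 608) (nat_lit 0) (XT.lf (nat_lit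 0) (nat_lit 1512684846) (nat_lit 456) (nat_lit 11300476431) (nat_lit 532) (nat_lit 7028825560) (nat_lit 180) (nat_lit 5) (nat_lit 186) (nat_lit 5) (nat_lit 187) (nat_lit 5) (nat_lit 332) (nat_lit 288) (nat_lit 160)) (XT.nd (nat_lit 78) (nat_lit 608) (nat_lit 0) (XT.lf (nat_lit 0) (nat_lit 16703552157) (nat_lit 456) (nat_lit 1094604868) (nat_lit 532) (nat_lit 2417760376) (nat_lit 180) (nat_lit 5) (nat_lit 186) (nat_lit 5) (nat_lit 187) (nat_lit 5) (nat_lit 333) (nat_lit 288) (nat_lit 159)) (XT.lf (nat_lit 0) (nat_lit 2425718424) (nat_lit 608) (nat_lit 8790099027) (nat_lit 76) (nat_lit 9382460323) (nat_lit 172) (nat_lit 5) (nat_lit 180) (nat_lit 5) (nat_lit 173) (nat_lit 5) (nat_lit 334) (nat_lit 288) (nat_lit 158)))) (XT.nd (nat_lit 156) (nat_lit 532) (nat_lit 0) (XT.nd (nat_lit 78) (nat_lit 456) (nat_lit 0) (XT.lf (nat_lit 0) (nat_lit 6690434254) (nat_lit 456) (nat_lit 752249042) (nat_lit 532)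 (nat_lit 13547893104) (nat_lit 166) (nat_lit 5) (nat_lit 172) (nat_lit 5) (nat_lit 173) (nat_lit 5) (nat_lit 335) (nat_lit 288) (nat_lit 157)) (XT.lf (nat_lit 0) (nat_lit 1295355198) (nat_lit 456) (nat_lit 11434643249) (nat_lit 532) (nat_lit 8662256149) (nat_lit 160) (nat_lit 5) (nat_lit 166) (nat_lit 5) (nat_lit 167) (nat_lit 5) (nat_lit 336) (nat_lit 288) (nat_lit 156))) (XT.nd (nat_lit 78) (nat_lit 532) (nat_lit 0) (XT.lf (nat_lit 0) (nat_lit 17531261272) (nat_lit 456) (nat_lit 733232367) (nat_lit 532) (nat_lit 3539725510) (nat_lit 160) (nat_lit 5) (nat_lit 166) (nat_lit 5) (nat_lit 167) (nat_lit 5) (nat_lit 337) (nat_lit 288) (nat_lit 155)) (XT.lf (nat_lit 0) (nat_lit 1846960093) (nat_lit 532) (nat_lit 10138274927) (nat_lit 76) (nat_lit 10240423938) (nat_lit 153) (nat_lit 5) (nat_lit 160) (nat_lit 5) (nat_lit 154) (nat_lit 5) (nat_lit 338) (nat_lit 288) (nat_lit 154)))))) (XT.nd (nat_lit 546)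 (nat_lit 1824) (nat_lit 0) (XT.nd (nat_lit 234) (nat_lit 1292) (nat_lit 0) (XT.nd (nat_lit 78) (nat_lit 380) (nat_lit 0) (XT.lf (nat_lit 0) (nat_lit 6375006665) (nat_lit 456) (nat_lit 1035056297) (nat_lit 532) (nat_lit 15247959569) (nat_lit 147) (nat_lit 5) (nat_lit 153) (nat_lit 5) (nat_lit 154) (nat_lit 5) (nat_lit 339) (nat_lit 288) (nat_lit 153)) (XT.nd (nat_lit 78) (nat_lit 0) (nat_lit 0) (XT.lf (nat_lit 0) (nat_lit 340341500) (nat_lit 380) (nat_lit 12925011764) (nat_lit 456) (nat_lit 9835504338) (nat_lit 142) (nat_lit 5) (nat_lit 147) (nat_lit 5) (nat_lit 148) (nat_lit 5) (nat_lit 340) (nat_lit 288) (nat_lit 152)) (XT.lf (nat_lit 0) (nat_lit 17660919597) (nat_lit 380) (nat_lit 1740272682) (nat_lit 456) (nat_lit 4153693938) (nat_lit 142) (nat_lit 5) (nat_lit 147) (nat_lit 5) (nat_lit 148) (nat_lit 5) (nat_lit 341) (nat_lit 288) (nat_lit 151)))) (XT.nd (nat_lit 156) (nat_lit 380) (nat_lit 0)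 (XT.nd (nat_lit 78) (nat_lit 380) (nat_lit 0) (XT.lf (nat_lit 0) (nat_lit 1803612750) (nat_lit 532) (nat_lit 12482382179) (nat_lit 76) (nat_lit 9733779803) (nat_lit 135) (nat_lit 5) (nat_lit 142) (nat_lit 5) (nat_lit 136) (nat_lit 5) (nat_lit 342) (nat_lit 288) (nat_lit 150)) (XT.lf (nat_lit 0) (nat_lit 5084619136) (nat_lit 380) (nat_lit 2871922228) (nat_lit 456) (nat_lit 16540058531) (nat_lit 130) (nat_lit 5) (nat_lit 135) (nat_lit 5) (nat_lit 136) (nat_lit 5) (nat_lit 343) (nat_lit 288) (nat_lit 149))) (XT.nd (nat_lit 78) (nat_lit 380) (nat_lit 0) (XT.lf (nat_lit 0) (nat_lit 14425249748) (nat_lit 456) (nat_lit 1711666861) (nat_lit 76) (nat_lit 8848195010) (nat_lit 130) (nat_lit 5) (nat_lit 136) (nat_lit 5) (nat_lit 131) (nat_lit 5) (nat_lit 344) (nat_lit 288) (nat_lit 148)) (XT.lf (nat_lit 0) (nat_lit 16703131377) (nat_lit 380) (nat_lit 4501243229) (nat_lit 456) (nat_lit 4281582464) (nat_lit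 125) (nat_lit 5) (nat_lit 130) (nat_lit 5) (nat_lit 131) (nat_lit 5) (nat_lit 345) (nat_lit 288) (nat_lit 147))))) (XT.nd (nat_lit 234) (nat_lit 1064) (nat_lit 0) (XT.nd (nat_lit 78) (nat_lit 380) (nat_lit 0) (XT.lf (nat_lit 0) (nat_lit 2269621584) (nat_lit 380) (nat_lit 16259343739) (nat_lit 76) (nat_lit 7470319371) (nat_lit 120) (nat_lit 5) (nat_lit 125) (nat_lit 5) (nat_lit 121) (nat_lit 5) (nat_lit 346) (nat_lit 288) (nat_lit 146)) (XT.nd (nat_lit 78) (nat_lit 0) (nat_lit 0) (XT.lf (nat_lit 0) (nat_lit 2367512826) (nat_lit 380) (nat_lit 6686428590) (nat_lit 456) (nat_lit 17471614778) (nat_lit 115) (nat_lit 5) (nat_lit 120) (nat_lit 5) (nat_lit 121) (nat_lit 5) (nat_lit 347) (nat_lit 288) (nat_lit 145)) (XT.lf (nat_lit 0) (nat_lit 16177700119) (nat_lit 456) (nat_lit 5342311565) (nat_lit 76) (nat_lit 5544890886) (nat_lit 115) (nat_lit 5) (nat_lit 121) (nat_lit 5) (nat_lit 116) (nat_lit 5) (nat_lit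 348) (nat_lit 288) (nat_lit 144)))) (XT.nd (nat_lit 156) (nat_lit 304) (nat_lit 0) (XT.nd (nat_lit 78) (nat_lit 456) (nat_lit 0) (XT.lf (nat_lit 0) (nat_lit 14163278967) (nat_lit 304) (nat_lit 9478096782) (nat_lit 380) (nat_lit 3976534277) (nat_lit 111) (nat_lit 5) (nat_lit 115) (nat_lit 5) (nat_lit 116) (nat_lit 5) (nat_lit 349) (nat_lit 288) (nat_lit 143)) (XT.lf (nat_lit 0) (nat_lit 3186117522) (nat_lit 456) (nat_lit 22020053729) (nat_lit 76) (nat_lit 2979215786) (nat_lit 105) (nat_lit 5) (nat_lit 111) (nat_lit 5) (nat_lit 106) (nat_lit 5) (nat_lit 350) (nat_lit 288) (nat_lit 142))) (XT.nd (nat_lit 78) (nat_lit 304) (nat_lit 0) (XT.lf (nat_lit 0) (nat_lit 10654924548) (nat_lit 456) (nat_lit 2316041598) (nat_lit 76) (nat_lit 15795494900) (nat_lit 105) (nat_lit 5) (nat_lit 111) (nat_lit 5) (nat_lit 106) (nat_lit 5) (nat_lit 351) (nat_lit 288) (nat_lit 141)) (XT.lf (nat_lit 0) (nat_lit 18202812852)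 (nat_lit 304) (nat_lit 253296181) (nat_lit 380) (nat_lit 10906696261) (nat_lit 101) (nat_lit 5) (nat_lit 105) (nat_lit 5) (nat_lit 106) (nat_lit 5) (nat_lit 352) (nat_lit 288) (nat_lit 140))))))))
noncomputable def xc97 : XT := (XT.nd (nat_lit 37362) (nat_lit 0) (nat_lit 5700) (XT.nd (nat_lit 36270) (nat_lit 0) (nat_lit 19380) (XT.nd (nat_lit 35724) (nat_lit 0) (nat_lit 24396) (XT.nd (nat_lit 234) (nat_lit 532) (nat_lit 0) (XT.nd (nat_lit 78) (nat_lit 380) (nat_lit 0) (XT.lf (nat_lit 0) (nat_lit 9417278136) (nat_lit 304) (nat_lit 17224683542) (nat_lit 380) (nat_lit 3332069696) (nat_lit 97) (nat_lit 5) (nat_lit 101) (nat_lit 5) (nat_lit 102) (nat_lit 5) (nat_lit 353) (nat_lit 288) (nat_lit 139)) (XT.nd (nat_lit 78) (nat_lit 0) (nat_lit 0) (XT.lf (nat_lit 0) (nat_lit 118055964) (nat_lit 304) (nat_lit 4362109952) (nat_lit 380) (nat_lit 26121472011) (nat_lit 92) (nat_lit 5) (nat_lit 96) (nat_lit 5)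 (nat_lit 97) (nat_lit 5) (nat_lit 354) (nat_lit 288) (nat_lit 138)) (XT.lf (nat_lit 0) (nat_lit 12670233169) (nat_lit 380) (nat_lit 9646434238) (nat_lit 76) (nat_lit 8927193926) (nat_lit 92) (nat_lit 5) (nat_lit 97) (nat_lit 5) (nat_lit 93) (nat_lit 5) (nat_lit 355) (nat_lit 288) (nat_lit 137)))) (XT.nd (nat_lit 78) (nat_lit 228) (nat_lit 0) (XT.lf (nat_lit 0) (nat_lit 11928794638) (nat_lit 304) (nat_lit 9274662504) (nat_lit 380) (nat_lit 10699948937) (nat_lit 88) (nat_lit 5) (nat_lit 92) (nat_lit 5) (nat_lit 93) (nat_lit 5) (nat_lit 356) (nat_lit 288) (nat_lit 136)) (XT.nd (nat_lit 35334) (nat_lit 0) (nat_lit 25764) (XT.lf (nat_lit 0) (nat_lit 1682294320) (nat_lit 228) (nat_lit 28405082910) (nat_lit 304) (nat_lit 2493469570) (nat_lit 85) (nat_lit 5) (nat_lit 88) (nat_lit 5) (nat_lit 89) (nat_lit 5) (nat_lit 357) (nat_lit 288) (nat_lit 135)) (XT.lf (nat_lit 0) (nat_lit 2299752731) (nat_lit 1596)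 (nat_lit 1376337481) (nat_lit 1596) (nat_lit 1376337481) (nat_lit 424) (nat_lit 3) (nat_lit 445) (nat_lit 3) (nat_lit 445) (nat_lit 5) (nat_lit 289) (nat_lit 289) (nat_lit 202))))) (XT.nd (nat_lit 234) (nat_lit 1368) (nat_lit 0) (XT.nd (nat_lit 78) (nat_lit 0) (nat_lit 76) (XT.lf (nat_lit 76) (nat_lit 4216624191) (nat_lit 0) (nat_lit 1460850669) (nat_lit 1596) (nat_lit 4557953920) (nat_lit 425) (nat_lit 5) (nat_lit 424) (nat_lit 3) (nat_lit 445) (nat_lit 5) (nat_lit 290) (nat_lit 289) (nat_lit 201)) (XT.nd (nat_lit 78) (nat_lit 0) (nat_lit 76) (XT.lf (nat_lit 76) (nat_lit 1025817011) (nat_lit 0) (nat_lit 5778999448) (nat_lit 1596) (nat_lit 3564794251) (nat_lit 426) (nat_lit 5) (nat_lit 425) (nat_lit 5) (nat_lit 446) (nat_lit 5) (nat_lit 291) (nat_lit 289) (nat_lit 200)) (XT.lf (nat_lit 0) (nat_lit 7981438623) (nat_lit 1520) (nat_lit 2176023506) (nat_lit 1596) (nat_lit 350077829) (nat_lit 426) (nat_lit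 5) (nat_lit 446) (nat_lit 5) (nat_lit 447) (nat_lit 5) (nat_lit 292) (nat_lit 289) (nat_lit 199)))) (XT.nd (nat_lit 156) (nat_lit 1520) (nat_lit 0) (XT.nd (nat_lit 78) (nat_lit 0) (nat_lit 76) (XT.lf (nat_lit 76) (nat_lit 5215873732) (nat_lit 0) (nat_lit 4013858252) (nat_lit 1596) (nat_lit 1419177811) (nat_lit 427) (nat_lit 5) (nat_lit 426) (nat_lit 5) (nat_lit 447) (nat_lit 5) (nat_lit 293) (nat_lit 289) (nat_lit 198)) (XT.lf (nat_lit 76) (nat_lit 2055766066) (nat_lit 0) (nat_lit 8467801066) (nat_lit 1596) (nat_lit 270821018) (nat_lit 428) (nat_lit 5) (nat_lit 427) (nat_lit 5) (nat_lit 448) (nat_lit 5) (nat_lit 294) (nat_lit 289) (nat_lit 197))) (XT.nd (nat_lit 78) (nat_lit 0) (nat_lit 76) (XT.lf (nat_lit 0) (nat_lit 929439014) (nat_lit 1596) (nat_lit 1154205871) (nat_lit 1672) (nat_lit 8859907151) (nat_lit 406) (nat_lit 5) (nat_lit 427) (nat_lit 5) (nat_lit 428) (nat_lit 5) (nat_lit 295) (nat_lit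 289) (nat_lit 196)) (XT.lf (nat_lit 0) (nat_lit 2201766544) (nat_lit 1596) (nat_lit 4403100948) (nat_lit 1672) (nat_lit 4491519822) (nat_lit 407) (nat_lit 5) (nat_lit 428) (nat_lit 5) (nat_lit 429) (nat_lit 5) (nat_lit 296) (nat_lit 289) (nat_lit 195)))))) (XT.nd (nat_lit 546) (nat_lit 3724) (nat_lit 0) (XT.nd (nat_lit 234) (nat_lit 1444) (nat_lit 0) (XT.nd (nat_lit 78) (nat_lit 0) (nat_lit 0) (XT.lf (nat_lit 0) (nat_lit 3524721618) (nat_lit 1596) (nat_lit 7703937726) (nat_lit 1672) (nat_lit 24925426) (nat_lit 408) (nat_lit 5) (nat_lit 429) (nat_lit 5) (nat_lit 430) (nat_lit 5) (nat_lit 297) (nat_lit 289) (nat_lit 194)) (XT.nd (nat_lit 78) (nat_lit 0) (nat_lit 76) (XT.lf (nat_lit 76) (nat_lit 324741658) (nat_lit 0) (nat_lit 4607259746) (nat_lit 1672) (nat_lit 6482629532) (nat_lit 409) (nat_lit 5) (nat_lit 408) (nat_lit 5) (nat_lit 430) (nat_lit 5) (nat_lit 298) (nat_lit 289) (nat_lit 193)) (XT.lf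 (nat_lit 0) (nat_lit 6417588589) (nat_lit 1596) (nat_lit 2916296447) (nat_lit 1672) (nat_lit 2245926435) (nat_lit 409) (nat_lit 5) (nat_lit 430) (nat_lit 5) (nat_lit 431) (nat_lit 5) (nat_lit 299) (nat_lit 289) (nat_lit 192)))) (XT.nd (nat_lit 156) (nat_lit 1520) (nat_lit 0) (XT.nd (nat_lit 78) (nat_lit 0) (nat_lit 76) (XT.lf (nat_lit 76) (nat_lit 5522910241) (nat_lit 0) (nat_lit 2461572350) (nat_lit 1672) (nat_lit 3764754091) (nat_lit 410) (nat_lit 5) (nat_lit 409) (nat_lit 5) (nat_lit 431) (nat_lit 5) (nat_lit 300) (nat_lit 289) (nat_lit 191)) (XT.lf (nat_lit 76) (nat_lit 2310524350) (nat_lit 0) (nat_lit 7323589448) (nat_lit 1672) (nat_lit 2288939587) (nat_lit 411) (nat_lit 5) (nat_lit 410) (nat_lit 5) (nat_lit 432) (nat_lit 5) (nat_lit 301) (nat_lit 289) (nat_lit 190))) (XT.nd (nat_lit 78) (nat_lit 1596) (nat_lit 0) (XT.lf (nat_lit 76) (nat_lit 11150842458) (nat_lit 0) (nat_lit 212507815) (nat_lit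 1672) (nat_lit 738154651) (nat_lit 411) (nat_lit 5) (nat_lit 410) (nat_lit 5) (nat_lit 432) (nat_lit 5) (nat_lit 302) (nat_lit 289) (nat_lit 189)) (XT.lf (nat_lit 0) (nat_lit 918950186) (nat_lit 1672) (nat_lit 4281231907) (nat_lit 1748) (nat_lit 7083616639) (nat_lit 389) (nat_lit 5) (nat_lit 411) (nat_lit 5) (nat_lit 412) (nat_lit 5) (nat_lit 303) (nat_lit 289) (nat_lit 188))))) (XT.nd (nat_lit 234) (nat_lit 3800) (nat_lit 0) (XT.nd (nat_lit 78) (nat_lit 0) (nat_lit 0) (XT.lf (nat_lit 0) (nat_lit 2641901057) (nat_lit 1672) (nat_lit 7684036995) (nat_lit 1748) (nat_lit 2145023430) (nat_lit 390) (nat_lit 5) (nat_lit 412) (nat_lit 5) (nat_lit 413) (nat_lit 5) (nat_lit 304) (nat_lit 289) (nat_lit 187)) (XT.nd (nat_lit 78) (nat_lit 0) (nat_lit 76) (XT.lf (nat_lit 76) (nat_lit 1485619693) (nat_lit 0) (nat_lit 2978148063) (nat_lit 1748) (nat_lit 8199047148) (nat_lit 391) (nat_lit 5) (nat_lit 390) (nat_lit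 5) (nat_lit 413) (nat_lit 5) (nat_lit 305) (nat_lit 289) (nat_lit 186)) (XT.lf (nat_lit 0) (nat_lit 6396771140) (nat_lit 1672) (nat_lit 1875665061) (nat_lit 76) (nat_lit 4586877854) (nat_lit 391) (nat_lit 5) (nat_lit 413) (nat_lit 5) (nat_lit 392) (nat_lit 5) (nat_lit 306) (nat_lit 289) (nat_lit 185)))) (XT.nd (nat_lit 156) (nat_lit 912) (nat_lit 0) (XT.nd (nat_lit 78) (nat_lit 1292) (nat_lit 0) (XT.lf (nat_lit 0) (nat_lit 7765793832) (nat_lit 1672) (nat_lit 667321824) (nat_lit 1748) (nat_lit 4627704668) (nat_lit 369) (nat_lit 5) (nat_lit 391) (nat_lit 5) (nat_lit 392) (nat_lit 5) (nat_lit 307) (nat_lit 289) (nat_lit 184)) (XT.lf (nat_lit 0) (nat_lit 4444493799) (nat_lit 1292) (nat_lit 6149865009) (nat_lit 1368) (nat_lit 2672755416) (nat_lit 352) (nat_lit 5) (nat_lit 369) (nat_lit 5) (nat_lit 370) (nat_lit 5) (nat_lit 308) (nat_lit 289) (nat_lit 183))) (XT.nd (nat_lit 78) (nat_lit 76) (nat_lit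 0) (XT.lf (nat_lit 0) (nat_lit 1046757055) (nat_lit 836) (nat_lit 11807946581) (nat_lit 912) (nat_lit 624226084) (nat_lit 341) (nat_lit 5) (nat_lit 352) (nat_lit 5) (nat_lit 353) (nat_lit 5) (nat_lit 309) (nat_lit 289) (nat_lit 182)) (XT.lf (nat_lit 0) (nat_lit 1544189743) (nat_lit 912) (nat_lit 2435480562) (nat_lit 76) (nat_lit 9715695309) (nat_lit 340) (nat_lit 5) (nat_lit 352) (nat_lit 5) (nat_lit 341) (nat_lit 5) (nat_lit 310) (nat_lit 289) (nat_lit 181))))))) (XT.nd (nat_lit 1014) (nat_lit 6080) (nat_lit 0) (XT.nd (nat_lit 468) (nat_lit 3496) (nat_lit 0) (XT.nd (nat_lit 234) (nat_lit 1596) (nat_lit 0) (XT.nd (nat_lit 78) (nat_lit 1672) (nat_lit 0) (XT.lf (nat_lit 0) (nat_lit 3824963793) (nat_lit 912) (nat_lit 6004234217) (nat_lit 76) (nat_lit 4087915017) (nat_lit 329) (nat_lit 5) (nat_lit 341) (nat_lit 5) (nat_lit 330) (nat_lit 5) (nat_lit 311) (nat_lit 289) (nat_lit 180)) (XT.nd (nat_lit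 78) (nat_lit 836) (nat_lit 0) (XT.lf (nat_lit 0) (nat_lit 4470856520) (nat_lit 836) (nat_lit 1753389445) (nat_lit 912) (nat_lit 7920281407) (nat_lit 318) (nat_lit 5) (nat_lit 329) (nat_lit 5) (nat_lit 330) (nat_lit 5) (nat_lit 312) (nat_lit 289) (nat_lit 179)) (XT.lf (nat_lit 0) (nat_lit 912495423) (nat_lit 836) (nat_lit 7850863859) (nat_lit 912) (nat_lit 5614063548) (nat_lit 307) (nat_lit 5) (nat_lit 318) (nat_lit 5) (nat_lit 319) (nat_lit 5) (nat_lit 313) (nat_lit 289) (nat_lit 178)))) (XT.nd (nat_lit 78) (nat_lit 1596) (nat_lit 0) (XT.lf (nat_lit 0) (nat_lit 11437818165) (nat_lit 912) (nat_lit 2703221067) (nat_lit 76) (nat_lit 475097755) (nat_lit 307) (nat_lit 5) (nat_lit 319) (nat_lit 5) (nat_lit 308) (nat_lit 5) (nat_lit 314) (nat_lit 289) (nat_lit 177)) (XT.nd (nat_lit 78) (nat_lit 836) (nat_lit 0) (XT.lf (nat_lit 0) (nat_lit 8418745400) (nat_lit 760) (nat_lit 5860392968) (nat_lit 836) (nat_lit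 581156482) (nat_lit 297) (nat_lit 5) (nat_lit 307) (nat_lit 5) (nat_lit 308) (nat_lit 5) (nat_lit 315) (nat_lit 289) (nat_lit 176)) (XT.lf (nat_lit 0) (nat_lit 2113782016) (nat_lit 836) (nat_lit 10299545160) (nat_lit 76) (nat_lit 2697246022) (nat_lit 286) (nat_lit 5) (nat_lit 297) (nat_lit 5) (nat_lit 287) (nat_lit 5) (nat_lit 316) (nat_lit 289) (nat_lit 175))))) (XT.nd (nat_lit 234) (nat_lit 2052) (nat_lit 0) (XT.nd (nat_lit 78) (nat_lit 760) (nat_lit 0) (XT.lf (nat_lit 0) (nat_lit 1072035253) (nat_lit 684) (nat_lit 3880014322) (nat_lit 760) (nat_lit 10414839667) (nat_lit 277) (nat_lit 5) (nat_lit 286) (nat_lit 5) (nat_lit 287) (nat_lit 5) (nat_lit 317) (nat_lit 289) (nat_lit 174)) (XT.nd (nat_lit 78) (nat_lit 760) (nat_lit 0) (XT.lf (nat_lit 0) (nat_lit 7958274520) (nat_lit 760) (nat_lit 2756678531) (nat_lit 76) (nat_lit 4914298840) (nat_lit 277) (nat_lit 5) (nat_lit 287) (nat_lit 5) (nat_lit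 278) (nat_lit 5) (nat_lit 318) (nat_lit 289) (nat_lit 173)) (XT.lf (nat_lit 0) (nat_lit 9202397685) (nat_lit 760) (nat_lit 1919226459) (nat_lit 836) (nat_lit 4776535437) (nat_lit 267) (nat_lit 5) (nat_lit 277) (nat_lit 5) (nat_lit 278) (nat_lit 5) (nat_lit 319) (nat_lit 289) (nat_lit 172)))) (XT.nd (nat_lit 156) (nat_lit 608) (nat_lit 0) (XT.nd (nat_lit 78) (nat_lit 760) (nat_lit 0) (XT.lf (nat_lit 0) (nat_lit 5387356891) (nat_lit 684) (nat_lit 9074312073) (nat_lit 760) (nat_lit 1711842188) (nat_lit 258) (nat_lit 5) (nat_lit 267) (nat_lit 5) (nat_lit 268) (nat_lit 5) (nat_lit 320) (nat_lit 289) (nat_lit 171)) (XT.lf (nat_lit 0) (nat_lit 1444878435) (nat_lit 684) (nat_lit 30781761) (nat_lit 760) (nat_lit 14980291063) (nat_lit 248) (nat_lit 5) (nat_lit 257) (nat_lit 5) (nat_lit 258) (nat_lit 5) (nat_lit 321) (nat_lit 289) (nat_lit 170))) (XT.nd (nat_lit 78) (nat_lit 608) (nat_lit 0) (XT.lf (nat_lit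 0) (nat_lit 4851829913) (nat_lit 760) (nat_lit 2647118364) (nat_lit 76) (nat_lit 9245375587) (nat_lit 248) (nat_lit 5) (nat_lit 258) (nat_lit 5) (nat_lit 249) (nat_lit 5) (nat_lit 322) (nat_lit 289) (nat_lit 169)) (XT.lf (nat_lit 0) (nat_lit 8390396320) (nat_lit 684) (nat_lit 6850270821) (nat_lit 76) (nat_lit 1799469531) (nat_lit 240) (nat_lit 5) (nat_lit 249) (nat_lit 5) (nat_lit 241) (nat_lit 5) (nat_lit 323) (nat_lit 289) (nat_lit 168)))))) (XT.nd (nat_lit 546) (nat_lit 3116) (nat_lit 0) (XT.nd (nat_lit 234) (nat_lit 1672) (nat_lit 0) (XT.nd (nat_lit 78) (nat_lit 684) (nat_lit 0) (XT.lf (nat_lit 0) (nat_lit 6114225284) (nat_lit 608) (nat_lit 6011987924) (nat_lit 684) (nat_lit 5216799713) (nat_lit 232) (nat_lit 5) (nat_lit 240) (nat_lit 5) (nat_lit 241) (nat_lit 5) (nat_lit 324) (nat_lit 289) (nat_lit 167)) (XT.nd (nat_lit 78) (nat_lit 76) (nat_lit 0) (XT.lf (nat_lit 0) (nat_lit 1889739210) (nat_lit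 608) (nat_lit 14149583103) (nat_lit 684) (nat_lit 1614359400) (nat_lit 224) (nat_lit 5) (nat_lit 232) (nat_lit 5) (nat_lit 233) (nat_lit 5) (nat_lit 325) (nat_lit 289) (nat_lit 166)) (XT.lf (nat_lit 0) (nat_lit 2169238538) (nat_lit 684) (nat_lit 2490286259) (nat_lit 76) (nat_lit 13311872159) (nat_lit 223) (nat_lit 5) (nat_lit 232) (nat_lit 5) (nat_lit 224) (nat_lit 5) (nat_lit 326) (nat_lit 289) (nat_lit 165)))) (XT.nd (nat_lit 156) (nat_lit 532) (nat_lit 0) (XT.nd (nat_lit 78) (nat_lit 532) (nat_lit 0) (XT.lf (nat_lit 0) (nat_lit 6135904105) (nat_lit 684) (nat_lit 7030825425) (nat_lit 76) (nat_lit 5129880662) (nat_lit 215) (nat_lit 5) (nat_lit 224) (nat_lit 5) (nat_lit 216) (nat_lit 5) (nat_lit 327) (nat_lit 289) (nat_lit 164)) (XT.lf (nat_lit 0) (nat_lit 6877538895) (nat_lit 532) (nat_lit 3421400039) (nat_lit 608) (nat_lit 8331103022) (nat_lit 208) (nat_lit 5) (nat_lit 215) (nat_lit 5) (nat_lit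 216) (nat_lit 5) (nat_lit 328) (nat_lit 289) (nat_lit 163))) (XT.nd (nat_lit 78) (nat_lit 0) (nat_lit 0) (XT.lf (nat_lit 0) (nat_lit 2294937950) (nat_lit 532) (nat_lit 12382619487) (nat_lit 608) (nat_lit 4294114626) (nat_lit 201) (nat_lit 5) (nat_lit 208) (nat_lit 5) (nat_lit 209) (nat_lit 5) (nat_lit 329) (nat_lit 289) (nat_lit 162)) (XT.lf (nat_lit 0) (nat_lit 16883035038) (nat_lit 532) (nat_lit 2392065123) (nat_lit 608) (nat_lit 46708569) (nat_lit 201) (nat_lit 5) (nat_lit 208) (nat_lit 5) (nat_lit 209) (nat_lit 5) (nat_lit 330) (nat_lit 289) (nat_lit 161))))) (XT.nd (nat_lit 234) (nat_lit 1520) (nat_lit 0) (XT.nd (nat_lit 78) (nat_lit 988) (nat_lit 0) (XT.lf (nat_lit 0) (nat_lit 4388985905) (nat_lit 608) (nat_lit 7390580906) (nat_lit 76) (nat_lit 7899976600) (nat_lit 193) (nat_lit 5) (nat_lit 201) (nat_lit 5) (nat_lit 194) (nat_lit 5) (nat_lit 331) (nat_lit 289) (nat_lit 160)) (XT.nd (nat_lit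 78) (nat_lit 456) (nat_lit 0) (XT.lf (nat_lit 0) (nat_lit 7508195940) (nat_lit 532) (nat_lit 1516111307) (nat_lit 608) (nat_lit 11022361189) (nat_lit 186) (nat_lit 5) (nat_lit 193) (nat_lit 5) (nat_lit 194) (nat_lit 5) (nat_lit 332) (nat_lit 289) (nat_lit 159)) (XT.lf (nat_lit 0) (nat_lit 2486726032) (nat_lit 456) (nat_lit 11423392109) (nat_lit 532) (nat_lit 6512468522) (nat_lit 180) (nat_lit 5) (nat_lit 186) (nat_lit 5) (nat_lit 187) (nat_lit 5) (nat_lit 333) (nat_lit 289) (nat_lit 158)))) (XT.nd (nat_lit 156) (nat_lit 912) (nat_lit 0) (XT.nd (nat_lit 78) (nat_lit 608) (nat_lit 0) (XT.lf (nat_lit 0) (nat_lit 18106270994) (nat_lit 456) (nat_lit 917638535) (nat_lit 532) (nat_lit 1784252600) (nat_lit 180) (nat_lit 5) (nat_lit 186) (nat_lit 5) (nat_lit 187) (nat_lit 5) (nat_lit 334) (nat_lit 289) (nat_lit 157)) (XT.lf (nat_lit 0) (nat_lit 3182187188) (nat_lit 608) (nat_lit 8144692007) (nat_lit 76)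 (nat_lit 9875295433) (nat_lit 172) (nat_lit 5) (nat_lit 180) (nat_lit 5) (nat_lit 173) (nat_lit 5) (nat_lit 335) (nat_lit 289) (nat_lit 156))) (XT.nd (nat_lit 78) (nat_lit 456) (nat_lit 0) (XT.lf (nat_lit 0) (nat_lit 7785508044) (nat_lit 456) (nat_lit 550046235) (nat_lit 532) (nat_lit 13270981064) (nat_lit 166) (nat_lit 5) (nat_lit 172) (nat_lit 5) (nat_lit 173) (nat_lit 5) (nat_lit 336) (nat_lit 289) (nat_lit 155)) (XT.lf (nat_lit 0) (nat_lit 2226166130) (nat_lit 456) (nat_lit 11543028104) (nat_lit 532) (nat_lit 8251326220) (nat_lit 160) (nat_lit 5) (nat_lit 166) (nat_lit 5) (nat_lit 167) (nat_lit 5) (nat_lit 337) (nat_lit 289) (nat_lit 154))))))))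
noncomputable def xc98 : XT := (XT.nd (nat_lit 37518) (nat_lit 0) (nat_lit 11248) (XT.nd (nat_lit 1014) (nat_lit 1444) (nat_lit 0) (XT.nd (nat_lit 468) (nat_lit 1824) (nat_lit 0) (XT.nd (nat_lit 234) (nat_lit 912) (nat_lit 0) (XT.nd (nat_lit 78) (nat_lit 988) (nat_lit 0) (XT.lf (nat_lit 0) (nat_lit 18923170252) (nat_lit 456) (nat_lit 527409490) (nat_lit 532) (nat_lit 2994657456) (nat_lit 160) (nat_lit 5) (nat_lit 166) (nat_lit 5) (nat_lit 167) (nat_lit 5) (nat_lit 338) (nat_lit 289) (nat_lit 153)) (XT.nd (nat_lit 78) (nat_lit 456) (nat_lit 0) (XT.lf (nat_lit 0) (nat_lit 2533455601) (nat_lit 532) (nat_lit 9570345023) (nat_lit 76) (nat_lit 10775677510) (nat_lit 153) (nat_lit 5) (nat_lit 160) (nat_lit 5) (nat_lit 154) (nat_lit 5) (nat_lit 339) (nat_lit 289) (nat_lit 152)) (XT.lf (nat_lit 0) (nat_lit 7424186585) (nat_lit 456) (nat_lit 826454054) (nat_lit 532) (nat_lit 15074437772) (nat_lit 147) (nat_lit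 5) (nat_lit 153) (nat_lit 5) (nat_lit 154) (nat_lit 5) (nat_lit 340) (nat_lit 289) (nat_lit 151)))) (XT.nd (nat_lit 78) (nat_lit 532) (nat_lit 0) (XT.lf (nat_lit 0) (nat_lit 1205510827) (nat_lit 380) (nat_lit 13065132424) (nat_lit 456) (nat_lit 9510783511) (nat_lit 142) (nat_lit 5) (nat_lit 147) (nat_lit 5) (nat_lit 148) (nat_lit 5) (nat_lit 341) (nat_lit 289) (nat_lit 150)) (XT.nd (nat_lit 78) (nat_lit 532) (nat_lit 0) (XT.lf (nat_lit 0) (nat_lit 19020804545) (nat_lit 380) (nat_lit 1552063685) (nat_lit 456) (nat_lit 3676570817) (nat_lit 142) (nat_lit 5) (nat_lit 147) (nat_lit 5) (nat_lit 148) (nat_lit 5) (nat_lit 342) (nat_lit 289) (nat_lit 149)) (XT.lf (nat_lit 0) (nat_lit 2441197053) (nat_lit 532) (nat_lit 12021860508) (nat_lit 76) (nat_lit 10265354438) (nat_lit 135) (nat_lit 5) (nat_lit 142) (nat_lit 5) (nat_lit 136) (nat_lit 5) (nat_lit 343) (nat_lit 289) (nat_lit 148))))) (XT.nd (nat_lit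 234) (nat_lit 1064) (nat_lit 0) (XT.nd (nat_lit 78) (nat_lit 380) (nat_lit 0) (XT.lf (nat_lit 0) (nat_lit 6058604075) (nat_lit 380) (nat_lit 2708448380) (nat_lit 456) (nat_lit 16452731026) (nat_lit 130) (nat_lit 5) (nat_lit 135) (nat_lit 5) (nat_lit 136) (nat_lit 5) (nat_lit 344) (nat_lit 289) (nat_lit 147)) (XT.nd (nat_lit 78) (nat_lit 380) (nat_lit 0) (XT.lf (nat_lit 0) (nat_lit 15414740856) (nat_lit 456) (nat_lit 955696476) (nat_lit 76) (nat_lit 9352822950) (nat_lit 130) (nat_lit 5) (nat_lit 136) (nat_lit 5) (nat_lit 131) (nat_lit 5) (nat_lit 345) (nat_lit 289) (nat_lit 146)) (XT.lf (nat_lit 0) (nat_lit 17998447895) (nat_lit 380) (nat_lit 4387732642) (nat_lit 456) (nat_lit 3853179602) (nat_lit 125) (nat_lit 5) (nat_lit 130) (nat_lit 5) (nat_lit 131) (nat_lit 5) (nat_lit 346) (nat_lit 289) (nat_lit 145)))) (XT.nd (nat_lit 156) (nat_lit 304) (nat_lit 0) (XT.nd (nat_lit 78) (nat_lit 380) (nat_lit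 0) (XT.lf (nat_lit 0) (nat_lit 2877996293) (nat_lit 380) (nat_lit 15948950377) (nat_lit 76) (nat_lit 7941261320) (nat_lit 120) (nat_lit 5) (nat_lit 125) (nat_lit 5) (nat_lit 121) (nat_lit 5) (nat_lit 347) (nat_lit 289) (nat_lit 144)) (XT.lf (nat_lit 0) (nat_lit 3223762465) (nat_lit 380) (nat_lit 6631444965) (nat_lit 456) (nat_lit 17455280238) (nat_lit 115) (nat_lit 5) (nat_lit 120) (nat_lit 5) (nat_lit 121) (nat_lit 5) (nat_lit 348) (nat_lit 289) (nat_lit 143))) (XT.nd (nat_lit 78) (nat_lit 304) (nat_lit 0) (XT.lf (nat_lit 0) (nat_lit 17178863301) (nat_lit 456) (nat_lit 4731318685) (nat_lit 76) (nat_lit 5956115818) (nat_lit 115) (nat_lit 5) (nat_lit 121) (nat_lit 5) (nat_lit 116) (nat_lit 5) (nat_lit 349) (nat_lit 289) (nat_lit 142)) (XT.lf (nat_lit 0) (nat_lit 15346926750) (nat_lit 304) (nat_lit 9509424517) (nat_lit 380) (nat_lit 3579753027) (nat_lit 111) (nat_lit 5) (nat_lit 115) (nat_lit 5)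 (nat_lit 116) (nat_lit 5) (nat_lit 350) (nat_lit 289) (nat_lit 141)))))) (XT.nd (nat_lit 35958) (nat_lit 0) (nat_lit 23788) (XT.nd (nat_lit 234) (nat_lit 684) (nat_lit 0) (XT.nd (nat_lit 78) (nat_lit 304) (nat_lit 0) (XT.lf (nat_lit 0) (nat_lit 3782715515) (nat_lit 456) (nat_lit 21918781026) (nat_lit 76) (nat_lit 3319214466) (nat_lit 105) (nat_lit 5) (nat_lit 111) (nat_lit 5) (nat_lit 106) (nat_lit 5) (nat_lit 351) (nat_lit 289) (nat_lit 140)) (XT.nd (nat_lit 78) (nat_lit 304) (nat_lit 0) (XT.lf (nat_lit 0) (nat_lit 11460994099) (nat_lit 456) (nat_lit 1645839045) (nat_lit 76) (nat_lit 16512682278) (nat_lit 105) (nat_lit 5) (nat_lit 111) (nat_lit 5) (nat_lit 106) (nat_lit 5) (nat_lit 352) (nat_lit 289) (nat_lit 139)) (XT.lf (nat_lit 0) (nat_lit 19476580548) (nat_lit 304) (nat_lit 10190547) (nat_lit 380) (nat_lit 10747173908) (nat_lit 101) (nat_lit 5) (nat_lit 105) (nat_lit 5) (nat_lit 106) (nat_lit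 5) (nat_lit 353) (nat_lit 289) (nat_lit 138)))) (XT.nd (nat_lit 156) (nat_lit 0) (nat_lit 0) (XT.nd (nat_lit 78) (nat_lit 380) (nat_lit 0) (XT.lf (nat_lit 0) (nat_lit 10423659019) (nat_lit 304) (nat_lit 17486927839) (nat_lit 380) (nat_lit 2953079223) (nat_lit 97) (nat_lit 5) (nat_lit 101) (nat_lit 5) (nat_lit 102) (nat_lit 5) (nat_lit 354) (nat_lit 289) (nat_lit 137)) (XT.lf (nat_lit 0) (nat_lit 840087853) (nat_lit 304) (nat_lit 4238051853) (nat_lit 380) (nat_lit 26432086655) (nat_lit 92) (nat_lit 5) (nat_lit 96) (nat_lit 5) (nat_lit 97) (nat_lit 5) (nat_lit 355) (nat_lit 289) (nat_lit 136))) (XT.nd (nat_lit 35490) (nat_lit 0) (nat_lit 25232) (XT.lf (nat_lit 0) (nat_lit 13502013884) (nat_lit 380) (nat_lit 9230685716) (nat_lit 76) (nat_lit 9439260286) (nat_lit 92) (nat_lit 5) (nat_lit 97) (nat_lit 5) (nat_lit 93) (nat_lit 5) (nat_lit 356) (nat_lit 289) (nat_lit 135)) (XT.lf (nat_lit 0) (nat_lit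 3340909272) (nat_lit 1596) (nat_lit 921417976) (nat_lit 1596) (nat_lit 921417976) (nat_lit 424) (nat_lit 3) (nat_lit 445) (nat_lit 3) (nat_lit 445) (nat_lit 5) (nat_lit 290) (nat_lit 290) (nat_lit 200))))) (XT.nd (nat_lit 234) (nat_lit 1444) (nat_lit 0) (XT.nd (nat_lit 78) (nat_lit 0) (nat_lit 76) (XT.lf (nat_lit 76) (nat_lit 5319441353) (nat_lit 0) (nat_lit 2422393668) (nat_lit 1596) (nat_lit 2761199165) (nat_lit 425) (nat_lit 5) (nat_lit 424) (nat_lit 3) (nat_lit 445) (nat_lit 5) (nat_lit 291) (nat_lit 290) (nat_lit 199)) (XT.nd (nat_lit 78) (nat_lit 0) (nat_lit 0) (XT.lf (nat_lit 76) (nat_lit 2061749420) (nat_lit 0) (nat_lit 6786822620) (nat_lit 1596) (nat_lit 1793803954) (nat_lit 426) (nat_lit 5) (nat_lit 425) (nat_lit 5) (nat_lit 446) (nat_lit 5) (nat_lit 292) (nat_lit 290) (nat_lit 198)) (XT.lf (nat_lit 76) (nat_lit 9559763084) (nat_lit 0) (nat_lit 444776640) (nat_lit 1596) (nat_lit 781067045)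 (nat_lit 426) (nat_lit 5) (nat_lit 425) (nat_lit 5) (nat_lit 446) (nat_lit 5) (nat_lit 293) (nat_lit 290) (nat_lit 197)))) (XT.nd (nat_lit 156) (nat_lit 0) (nat_lit 76) (XT.nd (nat_lit 78) (nat_lit 0) (nat_lit 76) (XT.lf (nat_lit 0) (nat_lit 305742382) (nat_lit 1596) (nat_lit 4560060696) (nat_lit 1672) (nat_lit 6066382688) (nat_lit 405) (nat_lit 5) (nat_lit 426) (nat_lit 5) (nat_lit 427) (nat_lit 5) (nat_lit 294) (nat_lit 290) (nat_lit 196)) (XT.lf (nat_lit 0) (nat_lit 1424164720) (nat_lit 1596) (nat_lit 7949187806) (nat_lit 1672) (nat_lit 1709541006) (nat_lit 406) (nat_lit 5) (nat_lit 427) (nat_lit 5) (nat_lit 428) (nat_lit 5) (nat_lit 295) (nat_lit 290) (nat_lit 195))) (XT.nd (nat_lit 78) (nat_lit 0) (nat_lit 76) (XT.lf (nat_lit 0) (nat_lit 2607275531) (nat_lit 1596) (nat_lit 169626377) (nat_lit 1672) (nat_lit 8460624180) (nat_lit 406) (nat_lit 5) (nat_lit 427) (nat_lit 5) (nat_lit 428) (nat_lit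 5) (nat_lit 296) (nat_lit 290) (nat_lit 194)) (XT.lf (nat_lit 0) (nat_lit 3872293153) (nat_lit 1596) (nat_lit 3495128134) (nat_lit 1672) (nat_lit 4028473571) (nat_lit 407) (nat_lit 5) (nat_lit 428) (nat_lit 5) (nat_lit 429) (nat_lit 5) (nat_lit 297) (nat_lit 290) (nat_lit 193))))))) (XT.nd (nat_lit 1014) (nat_lit 7600) (nat_lit 0) (XT.nd (nat_lit 468) (nat_lit 3648) (nat_lit 0) (XT.nd (nat_lit 234) (nat_lit 1444) (nat_lit 0) (XT.nd (nat_lit 78) (nat_lit 0) (nat_lit 76) (XT.lf (nat_lit 76) (nat_lit 4679500747) (nat_lit 0) (nat_lit 515178230) (nat_lit 1672) (nat_lit 6363972127) (nat_lit 408) (nat_lit 5) (nat_lit 407) (nat_lit 5) (nat_lit 429) (nat_lit 5) (nat_lit 298) (nat_lit 290) (nat_lit 192)) (XT.nd (nat_lit 78) (nat_lit 0) (nat_lit 76) (XT.lf (nat_lit 76) (nat_lit 1376549208) (nat_lit 0) (nat_lit 5225586592) (nat_lit 1672) (nat_lit 5123270290) (nat_lit 409) (nat_lit 5) (nat_lit 408) (nat_lit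 5) (nat_lit 430) (nat_lit 5) (nat_lit 299) (nat_lit 290) (nat_lit 191)) (XT.lf (nat_lit 0) (nat_lit 8084929030) (nat_lit 1596) (nat_lit 1958303533) (nat_lit 1672) (nat_lit 1853292252) (nat_lit 409) (nat_lit 5) (nat_lit 430) (nat_lit 5) (nat_lit 431) (nat_lit 5) (nat_lit 300) (nat_lit 290) (nat_lit 190)))) (XT.nd (nat_lit 78) (nat_lit 1596) (nat_lit 0) (XT.lf (nat_lit 76) (nat_lit 6717117656) (nat_lit 0) (nat_lit 2945434319) (nat_lit 1672) (nat_lit 2409240872) (nat_lit 410) (nat_lit 5) (nat_lit 409) (nat_lit 5) (nat_lit 431) (nat_lit 5) (nat_lit 301) (nat_lit 290) (nat_lit 189)) (XT.nd (nat_lit 78) (nat_lit 1672) (nat_lit 0) (XT.lf (nat_lit 76) (nat_lit 3423728074) (nat_lit 0) (nat_lit 7900238030) (nat_lit 1672) (nat_lit 927645568) (nat_lit 411) (nat_lit 5) (nat_lit 410) (nat_lit 5) (nat_lit 432) (nat_lit 5) (nat_lit 302) (nat_lit 290) (nat_lit 188)) (XT.lf (nat_lit 76) (nat_lit 59285984) (nat_lit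 0) (nat_lit 560875960) (nat_lit 1748) (nat_lit 11816014110) (nat_lit 389) (nat_lit 5) (nat_lit 388) (nat_lit 5) (nat_lit 411) (nat_lit 5) (nat_lit 303) (nat_lit 290) (nat_lit 187))))) (XT.nd (nat_lit 234) (nat_lit 3724) (nat_lit 0) (XT.nd (nat_lit 78) (nat_lit 0) (nat_lit 76) (XT.lf (nat_lit 0) (nat_lit 2281231293) (nat_lit 1672) (nat_lit 3363818944) (nat_lit 1748) (nat_lit 6979536213) (nat_lit 389) (nat_lit 5) (nat_lit 411) (nat_lit 5) (nat_lit 412) (nat_lit 5) (nat_lit 304) (nat_lit 290) (nat_lit 186)) (XT.nd (nat_lit 78) (nat_lit 0) (nat_lit 0) (XT.lf (nat_lit 0) (nat_lit 4021899130) (nat_lit 1672) (nat_lit 6856846949) (nat_lit 1748) (nat_lit 1939327494) (nat_lit 390) (nat_lit 5) (nat_lit 412) (nat_lit 5) (nat_lit 413) (nat_lit 5) (nat_lit 305) (nat_lit 290) (nat_lit 185)) (XT.lf (nat_lit 76) (nat_lit 2570739333) (nat_lit 0) (nat_lit 3296552783) (nat_lit 1748) (nat_lit 7149042258) (nat_lit 391)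 (nat_lit 5) (nat_lit 390) (nat_lit 5) (nat_lit 413) (nat_lit 5) (nat_lit 306) (nat_lit 290) (nat_lit 184)))) (XT.nd (nat_lit 156) (nat_lit 2204) (nat_lit 0) (XT.nd (nat_lit 78) (nat_lit 1672) (nat_lit 0) (XT.lf (nat_lit 0) (nat_lit 7819862736) (nat_lit 1672) (nat_lit 894650316) (nat_lit 76) (nat_lit 4505012237) (nat_lit 391) (nat_lit 5) (nat_lit 413) (nat_lit 5) (nat_lit 392) (nat_lit 5) (nat_lit 307) (nat_lit 290) (nat_lit 183)) (XT.lf (nat_lit 0) (nat_lit 9019223632) (nat_lit 1672) (nat_lit 868839575) (nat_lit 1748) (nat_lit 3539625735) (nat_lit 369) (nat_lit 5) (nat_lit 391) (nat_lit 5) (nat_lit 392) (nat_lit 5) (nat_lit 308) (nat_lit 290) (nat_lit 182))) (XT.nd (nat_lit 78) (nat_lit 912) (nat_lit 0) (XT.lf (nat_lit 0) (nat_lit 5607439311) (nat_lit 1292) (nat_lit 6477236804) (nat_lit 1368) (nat_lit 1556111602) (nat_lit 352) (nat_lit 5) (nat_lit 369) (nat_lit 5) (nat_lit 370) (nat_lit 5) (nat_lit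 309) (nat_lit 290) (nat_lit 181)) (XT.lf (nat_lit 0) (nat_lit 518083500) (nat_lit 912) (nat_lit 11747034410) (nat_lit 76) (nat_lit 1594363784) (nat_lit 340) (nat_lit 5) (nat_lit 352) (nat_lit 5) (nat_lit 341) (nat_lit 5) (nat_lit 310) (nat_lit 290) (nat_lit 180)))))) (XT.nd (nat_lit 546) (nat_lit 3496) (nat_lit 0) (XT.nd (nat_lit 234) (nat_lit 2432) (nat_lit 0) (XT.nd (nat_lit 78) (nat_lit 1672) (nat_lit 0) (XT.lf (nat_lit 0) (nat_lit 2709548373) (nat_lit 912) (nat_lit 1485312979) (nat_lit 76) (nat_lit 9888161922) (nat_lit 340) (nat_lit 5) (nat_lit 352) (nat_lit 5) (nat_lit 341) (nat_lit 5) (nat_lit 311) (nat_lit 290) (nat_lit 179)) (XT.nd (nat_lit 78) (nat_lit 836) (nat_lit 0) (XT.lf (nat_lit 0) (nat_lit 5032127566) (nat_lit 912) (nat_lit 5154511165) (nat_lit 76) (nat_lit 4125340700) (nat_lit 329) (nat_lit 5) (nat_lit 341) (nat_lit 5) (nat_lit 330) (nat_lit 5) (nat_lit 312) (nat_lit 290) (nat_lit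 178)) (XT.lf (nat_lit 0) (nat_lit 5618124200) (nat_lit 836) (nat_lit 1860024084) (nat_lit 912) (nat_lit 7068595983) (nat_lit 318) (nat_lit 5) (nat_lit 329) (nat_lit 5) (nat_lit 330) (nat_lit 5) (nat_lit 313) (nat_lit 290) (nat_lit 177)))) (XT.nd (nat_lit 156) (nat_lit 1596) (nat_lit 0) (XT.nd (nat_lit 78) (nat_lit 0) (nat_lit 0) (XT.lf (nat_lit 0) (nat_lit 1958680443) (nat_lit 836) (nat_lit 8109945984) (nat_lit 912) (nat_lit 4718518919) (nat_lit 307) (nat_lit 5) (nat_lit 318) (nat_lit 5) (nat_lit 319) (nat_lit 5) (nat_lit 314) (nat_lit 290) (nat_lit 176)) (XT.lf (nat_lit 0) (nat_lit 12792810403) (nat_lit 912) (nat_lit 1774062098) (nat_lit 76) (nat_lit 466780527) (nat_lit 307) (nat_lit 5) (nat_lit 319) (nat_lit 5) (nat_lit 308) (nat_lit 5) (nat_lit 315) (nat_lit 290) (nat_lit 175))) (XT.nd (nat_lit 78) (nat_lit 760) (nat_lit 0) (XT.lf (nat_lit 0) (nat_lit 405347317) (nat_lit 836) (nat_lit 5623110885)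 (nat_lit 76) (nat_lit 9257105754) (nat_lit 296) (nat_lit 5) (nat_lit 307) (nat_lit 5) (nat_lit 297) (nat_lit 5) (nat_lit 316) (nat_lit 290) (nat_lit 174)) (XT.lf (nat_lit 0) (nat_lit 3150824662) (nat_lit 836) (nat_lit 9597053998) (nat_lit 76) (nat_lit 2795863702) (nat_lit 286) (nat_lit 5) (nat_lit 297) (nat_lit 5) (nat_lit 287) (nat_lit 5) (nat_lit 317) (nat_lit 290) (nat_lit 173))))) (XT.nd (nat_lit 234) (nat_lit 2052) (nat_lit 0) (XT.nd (nat_lit 78) (nat_lit 760) (nat_lit 0) (XT.lf (nat_lit 0) (nat_lit 2099263806) (nat_lit 684) (nat_lit 3953078949) (nat_lit 760) (nat_lit 9755862757) (nat_lit 277) (nat_lit 5) (nat_lit 286) (nat_lit 5) (nat_lit 287) (nat_lit 5) (nat_lit 318) (nat_lit 290) (nat_lit 172)) (XT.nd (nat_lit 78) (nat_lit 760) (nat_lit 0) (XT.lf (nat_lit 0) (nat_lit 9121307277) (nat_lit 760) (nat_lit 1854450209) (nat_lit 76) (nat_lit 5103249598) (nat_lit 277) (nat_lit 5) (nat_lit 287)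 (nat_lit 5) (nat_lit 278) (nat_lit 5) (nat_lit 319) (nat_lit 290) (nat_lit 171)) (XT.lf (nat_lit 0) (nat_lit 10447418996) (nat_lit 760) (nat_lit 1911508547) (nat_lit 836) (nat_lit 3997485602) (nat_lit 267) (nat_lit 5) (nat_lit 277) (nat_lit 5) (nat_lit 278) (nat_lit 5) (nat_lit 320) (nat_lit 290) (nat_lit 170)))) (XT.nd (nat_lit 156) (nat_lit 608) (nat_lit 0) (XT.nd (nat_lit 78) (nat_lit 760) (nat_lit 0) (XT.lf (nat_lit 0) (nat_lit 6520177848) (nat_lit 684) (nat_lit 9259393086) (nat_lit 760) (nat_lit 860864388) (nat_lit 258) (nat_lit 5) (nat_lit 267) (nat_lit 5) (nat_lit 268) (nat_lit 5) (nat_lit 321) (nat_lit 290) (nat_lit 169)) (XT.lf (nat_lit 0) (nat_lit 2391197438) (nat_lit 760) (nat_lit 14476174904) (nat_lit 76) (nat_lit 64260882) (nat_lit 248) (nat_lit 5) (nat_lit 258) (nat_lit 5) (nat_lit 249) (nat_lit 5) (nat_lit 322) (nat_lit 290) (nat_lit 168))) (XT.nd (nat_lit 78) (nat_lit 608) (nat_lit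 0) (XT.lf (nat_lit 0) (nat_lit 5843475381) (nat_lit 760) (nat_lit 1770197689) (nat_lit 76) (nat_lit 9615504114) (nat_lit 248) (nat_lit 5) (nat_lit 258) (nat_lit 5) (nat_lit 249) (nat_lit 5) (nat_lit 323) (nat_lit 290) (nat_lit 167)) (XT.lf (nat_lit 0) (nat_lit 9470399166) (nat_lit 684) (nat_lit 6098605943) (nat_lit 76) (nat_lit 1965231412) (nat_lit 240) (nat_lit 5) (nat_lit 249) (nat_lit 5) (nat_lit 241) (nat_lit 5) (nat_lit 324) (nat_lit 290) (nat_lit 166))))))))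
noncomputable def xc99 : XT := (XT.nd (nat_lit 2106) (nat_lit 1444) (nat_lit 0) (XT.nd (nat_lit 1014) (nat_lit 4180) (nat_lit 0) (XT.nd (nat_lit 468) (nat_lit 2660) (nat_lit 0) (XT.nd (nat_lit 234) (nat_lit 1672) (nat_lit 0) (XT.nd (nat_lit 78) (nat_lit 684) (nat_lit 0) (XT.lf (nat_lit 0) (nat_lit 7239296051) (nat_lit 608) (nat_lit 6060983308) (nat_lit 684) (nat_lit 4546295605) (nat_lit 232) (nat_lit 5) (nat_lit 240) (nat_lit 5) (nat_lit 241) (nat_lit 5) (nat_lit 325) (nat_lit 290) (nat_lit 165)) (XT.nd (nat_lit 78) (nat_lit 76) (nat_lit 0) (XT.lf (nat_lit 0) (nat_lit 2888416220) (nat_lit 608) (nat_lit 14425709188) (nat_lit 684) (nat_lit 852786764) (nat_lit 224) (nat_lit 5) (nat_lit 232) (nat_lit 5) (nat_lit 233) (nat_lit 5) (nat_lit 326) (nat_lit 290) (nat_lit 164)) (XT.lf (nat_lit 0) (nat_lit 3010412857) (nat_lit 684) (nat_lit 1639649462) (nat_lit 76) (nat_lit 13844471522) (nat_lit 223) (nat_lit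 5) (nat_lit 232) (nat_lit 5) (nat_lit 224) (nat_lit 5) (nat_lit 327) (nat_lit 290) (nat_lit 163)))) (XT.nd (nat_lit 78) (nat_lit 1064) (nat_lit 0) (XT.lf (nat_lit 0) (nat_lit 7080364040) (nat_lit 684) (nat_lit 6316740302) (nat_lit 76) (nat_lit 5432727489) (nat_lit 215) (nat_lit 5) (nat_lit 224) (nat_lit 5) (nat_lit 216) (nat_lit 5) (nat_lit 328) (nat_lit 290) (nat_lit 162)) (XT.nd (nat_lit 78) (nat_lit 532) (nat_lit 0) (XT.lf (nat_lit 0) (nat_lit 7993867760) (nat_lit 532) (nat_lit 3358183422) (nat_lit 608) (nat_lit 7821553802) (nat_lit 208) (nat_lit 5) (nat_lit 215) (nat_lit 5) (nat_lit 216) (nat_lit 5) (nat_lit 329) (nat_lit 290) (nat_lit 161)) (XT.lf (nat_lit 0) (nat_lit 3273055068) (nat_lit 532) (nat_lit 12574248150) (nat_lit 608) (nat_lit 3678488539) (nat_lit 201) (nat_lit 5) (nat_lit 208) (nat_lit 5) (nat_lit 209) (nat_lit 5) (nat_lit 330) (nat_lit 290) (nat_lit 160))))) (XT.nd (nat_lit 234)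 (nat_lit 1520) (nat_lit 0) (XT.nd (nat_lit 78) (nat_lit 1064) (nat_lit 0) (XT.lf (nat_lit 0) (nat_lit 665808458) (nat_lit 608) (nat_lit 1618939119) (nat_lit 76) (nat_lit 17602035122) (nat_lit 200) (nat_lit 5) (nat_lit 208) (nat_lit 5) (nat_lit 201) (nat_lit 5) (nat_lit 331) (nat_lit 290) (nat_lit 159)) (XT.nd (nat_lit 78) (nat_lit 532) (nat_lit 0) (XT.lf (nat_lit 0) (nat_lit 5220037921) (nat_lit 608) (nat_lit 6720891462) (nat_lit 76) (nat_lit 8314604144) (nat_lit 193) (nat_lit 5) (nat_lit 201) (nat_lit 5) (nat_lit 194) (nat_lit 5) (nat_lit 332) (nat_lit 290) (nat_lit 158)) (XT.lf (nat_lit 0) (nat_lit 8610386673) (nat_lit 532) (nat_lit 1369355576) (nat_lit 608) (nat_lit 10654235486) (nat_lit 186) (nat_lit 5) (nat_lit 193) (nat_lit 5) (nat_lit 194) (nat_lit 5) (nat_lit 333) (nat_lit 290) (nat_lit 157)))) (XT.nd (nat_lit 156) (nat_lit 1064) (nat_lit 0) (XT.nd (nat_lit 78) (nat_lit 0) (nat_lit 0) (XT.lf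 (nat_lit 0) (nat_lit 3436679534) (nat_lit 456) (nat_lit 11562400203) (nat_lit 532) (nat_lit 6022366278) (nat_lit 180) (nat_lit 5) (nat_lit 186) (nat_lit 5) (nat_lit 187) (nat_lit 5) (nat_lit 334) (nat_lit 290) (nat_lit 156)) (XT.lf (nat_lit 0) (nat_lit 19499315163) (nat_lit 456) (nat_lit 747406846) (nat_lit 532) (nat_lit 1172269208) (nat_lit 180) (nat_lit 5) (nat_lit 186) (nat_lit 5) (nat_lit 187) (nat_lit 5) (nat_lit 335) (nat_lit 290) (nat_lit 155))) (XT.nd (nat_lit 78) (nat_lit 456) (nat_lit 0) (XT.lf (nat_lit 0) (nat_lit 3922102997) (nat_lit 608) (nat_lit 7532109408) (nat_lit 76) (nat_lit 10370782593) (nat_lit 172) (nat_lit 5) (nat_lit 180) (nat_lit 5) (nat_lit 173) (nat_lit 5) (nat_lit 336) (nat_lit 290) (nat_lit 154)) (XT.lf (nat_lit 0) (nat_lit 8862094080) (nat_lit 456) (nat_lit 354680077) (nat_lit 532) (nat_lit 13024988682) (nat_lit 166) (nat_lit 5) (nat_lit 172) (nat_lit 5) (nat_lit 173)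 (nat_lit 5) (nat_lit 337) (nat_lit 290) (nat_lit 153)))))) (XT.nd (nat_lit 546) (nat_lit 1824) (nat_lit 0) (XT.nd (nat_lit 234) (nat_lit 1368) (nat_lit 0) (XT.nd (nat_lit 78) (nat_lit 532) (nat_lit 0) (XT.lf (nat_lit 0) (nat_lit 3133699795) (nat_lit 456) (nat_lit 11668134629) (nat_lit 532) (nat_lit 7866574920) (nat_lit 160) (nat_lit 5) (nat_lit 166) (nat_lit 5) (nat_lit 167) (nat_lit 5) (nat_lit 338) (nat_lit 290) (nat_lit 152)) (XT.nd (nat_lit 78) (nat_lit 532) (nat_lit 0) (XT.lf (nat_lit 0) (nat_lit 20307126215) (nat_lit 456) (nat_lit 328489719) (nat_lit 532) (nat_lit 2470622339) (nat_lit 160) (nat_lit 5) (nat_lit 166) (nat_lit 5) (nat_lit 167) (nat_lit 5) (nat_lit 339) (nat_lit 290) (nat_lit 151)) (XT.lf (nat_lit 0) (nat_lit 3204319016) (nat_lit 532) (nat_lit 9035438076) (nat_lit 76) (nat_lit 11313898211) (nat_lit 153) (nat_lit 5) (nat_lit 160) (nat_lit 5) (nat_lit 154) (nat_lit 5) (nat_lit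 340) (nat_lit 290) (nat_lit 150)))) (XT.nd (nat_lit 156) (nat_lit 532) (nat_lit 0) (XT.nd (nat_lit 78) (nat_lit 380) (nat_lit 0) (XT.lf (nat_lit 0) (nat_lit 8455593226) (nat_lit 456) (nat_lit 625350859) (nat_lit 532) (nat_lit 14931930040) (nat_lit 147) (nat_lit 5) (nat_lit 153) (nat_lit 5) (nat_lit 154) (nat_lit 5) (nat_lit 341) (nat_lit 290) (nat_lit 149)) (XT.lf (nat_lit 0) (nat_lit 2047557084) (nat_lit 380) (nat_lit 13223671662) (nat_lit 456) (nat_lit 9211899308) (nat_lit 142) (nat_lit 5) (nat_lit 147) (nat_lit 5) (nat_lit 148) (nat_lit 5) (nat_lit 342) (nat_lit 290) (nat_lit 148))) (XT.nd (nat_lit 78) (nat_lit 532) (nat_lit 0) (XT.lf (nat_lit 0) (nat_lit 20373837354) (nat_lit 380) (nat_lit 1372009348) (nat_lit 456) (nat_lit 3219675992) (nat_lit 142) (nat_lit 5) (nat_lit 147) (nat_lit 5) (nat_lit 148) (nat_lit 5) (nat_lit 343) (nat_lit 290) (nat_lit 147)) (XT.lf (nat_lit 0) (nat_lit 3064414980)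 (nat_lit 532) (nat_lit 11595455208) (nat_lit 76) (nat_lit 10799124517) (nat_lit 135) (nat_lit 5) (nat_lit 142) (nat_lit 5) (nat_lit 136) (nat_lit 5) (nat_lit 344) (nat_lit 290) (nat_lit 146))))) (XT.nd (nat_lit 234) (nat_lit 1064) (nat_lit 0) (XT.nd (nat_lit 78) (nat_lit 380) (nat_lit 0) (XT.lf (nat_lit 0) (nat_lit 7014654181) (nat_lit 380) (nat_lit 2554400187) (nat_lit 456) (nat_lit 16396280662) (nat_lit 130) (nat_lit 5) (nat_lit 135) (nat_lit 5) (nat_lit 136) (nat_lit 5) (nat_lit 345) (nat_lit 290) (nat_lit 145)) (XT.nd (nat_lit 78) (nat_lit 380) (nat_lit 0) (XT.lf (nat_lit 0) (nat_lit 16401957910) (nat_lit 456) (nat_lit 223390472) (nat_lit 76) (nat_lit 9858859698) (nat_lit 130) (nat_lit 5) (nat_lit 136) (nat_lit 5) (nat_lit 131) (nat_lit 5) (nat_lit 346) (nat_lit 290) (nat_lit 144)) (XT.lf (nat_lit 0) (nat_lit 19287032284) (nat_lit 380) (nat_lit 4285084403) (nat_lit 456) (nat_lit 3443890141)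 (nat_lit 125) (nat_lit 5) (nat_lit 130) (nat_lit 5) (nat_lit 131) (nat_lit 5) (nat_lit 347) (nat_lit 290) (nat_lit 143)))) (XT.nd (nat_lit 156) (nat_lit 304) (nat_lit 0) (XT.nd (nat_lit 78) (nat_lit 380) (nat_lit 0) (XT.lf (nat_lit 0) (nat_lit 3473607614) (nat_lit 380) (nat_lit 15675063648) (nat_lit 76) (nat_lit 8412162339) (nat_lit 120) (nat_lit 5) (nat_lit 125) (nat_lit 5) (nat_lit 121) (nat_lit 5) (nat_lit 348) (nat_lit 290) (nat_lit 142)) (XT.lf (nat_lit 0) (nat_lit 4060624509) (nat_lit 380) (nat_lit 6589482967) (nat_lit 456) (nat_lit 17469481597) (nat_lit 115) (nat_lit 5) (nat_lit 120) (nat_lit 5) (nat_lit 121) (nat_lit 5) (nat_lit 349) (nat_lit 290) (nat_lit 141))) (XT.nd (nat_lit 78) (nat_lit 304) (nat_lit 0) (XT.lf (nat_lit 0) (nat_lit 18180450501) (nat_lit 456) (nat_lit 4146269626) (nat_lit 76) (nat_lit 6365620487) (nat_lit 115) (nat_lit 5) (nat_lit 121) (nat_lit 5) (nat_lit 116) (nat_lit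 5) (nat_lit 350) (nat_lit 290) (nat_lit 140)) (XT.lf (nat_lit 0) (nat_lit 16522528645) (nat_lit 304) (nat_lit 9556216190) (nat_lit 380) (nat_lit 3200693286) (nat_lit 111) (nat_lit 5) (nat_lit 115) (nat_lit 5) (nat_lit 116) (nat_lit 5) (nat_lit 351) (nat_lit 290) (nat_lit 139))))))) (XT.nd (nat_lit 36504) (nat_lit 0) (nat_lit 18848) (XT.nd (nat_lit 35958) (nat_lit 0) (nat_lit 23712) (XT.nd (nat_lit 234) (nat_lit 684) (nat_lit 0) (XT.nd (nat_lit 78) (nat_lit 304) (nat_lit 0) (XT.lf (nat_lit 0) (nat_lit 4368451169) (nat_lit 456) (nat_lit 21858204844) (nat_lit 76) (nat_lit 3655026366) (nat_lit 105) (nat_lit 5) (nat_lit 111) (nat_lit 5) (nat_lit 106) (nat_lit 5) (nat_lit 352) (nat_lit 290) (nat_lit 138)) (XT.nd (nat_lit 78) (nat_lit 304) (nat_lit 0) (XT.lf (nat_lit 0) (nat_lit 12263323133) (nat_lit 456) (nat_lit 997991291) (nat_lit 76) (nat_lit 17237417568) (nat_lit 105) (nat_lit 5) (nat_lit 111) (nat_lit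 5) (nat_lit 106) (nat_lit 5) (nat_lit 353) (nat_lit 290) (nat_lit 137)) (XT.lf (nat_lit 0) (nat_lit 20522438637) (nat_lit 380) (nat_lit 10386455151) (nat_lit 76) (nat_lit 222855163) (nat_lit 101) (nat_lit 5) (nat_lit 106) (nat_lit 5) (nat_lit 102) (nat_lit 5) (nat_lit 354) (nat_lit 290) (nat_lit 136)))) (XT.nd (nat_lit 78) (nat_lit 380) (nat_lit 0) (XT.lf (nat_lit 0) (nat_lit 11418678658) (nat_lit 304) (nat_lit 17771648590) (nat_lit 380) (nat_lit 2590212872) (nat_lit 97) (nat_lit 5) (nat_lit 101) (nat_lit 5) (nat_lit 102) (nat_lit 5) (nat_lit 355) (nat_lit 290) (nat_lit 135)) (XT.nd (nat_lit 35568) (nat_lit 0) (nat_lit 25232) (XT.lf (nat_lit 0) (nat_lit 1542536422) (nat_lit 304) (nat_lit 4124905542) (nat_lit 380) (nat_lit 26779173567) (nat_lit 92) (nat_lit 5) (nat_lit 96) (nat_lit 5) (nat_lit 97) (nat_lit 5) (nat_lit 356) (nat_lit 290) (nat_lit 134)) (XT.lf (nat_lit 0) (nat_lit 4357494320) (nat_lit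 1596) (nat_lit 481335349) (nat_lit 1596) (nat_lit 481335349) (nat_lit 424) (nat_lit 3) (nat_lit 445) (nat_lit 3) (nat_lit 445) (nat_lit 5) (nat_lit 291) (nat_lit 291) (nat_lit 198))))) (XT.nd (nat_lit 234) (nat_lit 0) (nat_lit 76) (XT.nd (nat_lit 78) (nat_lit 1520) (nat_lit 0) (XT.lf (nat_lit 76) (nat_lit 6399298357) (nat_lit 0) (nat_lit 3360102219) (nat_lit 1596) (nat_lit 1021532197) (nat_lit 425) (nat_lit 5) (nat_lit 424) (nat_lit 3) (nat_lit 445) (nat_lit 5) (nat_lit 292) (nat_lit 291) (nat_lit 197)) (XT.nd (nat_lit 78) (nat_lit 1596) (nat_lit 0) (XT.lf (nat_lit 76) (nat_lit 3071059627) (nat_lit 0) (nat_lit 7776979459) (nat_lit 1596) (nat_lit 77485050) (nat_lit 426) (nat_lit 5) (nat_lit 425) (nat_lit 5) (nat_lit 446) (nat_lit 5) (nat_lit 293) (nat_lit 291) (nat_lit 196)) (XT.lf (nat_lit 0) (nat_lit 902088413) (nat_lit 1596) (nat_lit 313620913) (nat_lit 1672) (nat_lit 9858275942) (nat_lit 404)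 (nat_lit 5) (nat_lit 425) (nat_lit 5) (nat_lit 426) (nat_lit 5) (nat_lit 294) (nat_lit 291) (nat_lit 195)))) (XT.nd (nat_lit 156) (nat_lit 0) (nat_lit 76) (XT.nd (nat_lit 78) (nat_lit 0) (nat_lit 76) (XT.lf (nat_lit 0) (nat_lit 1962878055) (nat_lit 1596) (nat_lit 3729310648) (nat_lit 1672) (nat_lit 5533669927) (nat_lit 405) (nat_lit 5) (nat_lit 426) (nat_lit 5) (nat_lit 427) (nat_lit 5) (nat_lit 295) (nat_lit 291) (nat_lit 194)) (XT.lf (nat_lit 0) (nat_lit 3068786115) (nat_lit 1596) (nat_lit 7198143372) (nat_lit 1672) (nat_lit 1115118320) (nat_lit 406) (nat_lit 5) (nat_lit 427) (nat_lit 5) (nat_lit 428) (nat_lit 5) (nat_lit 296) (nat_lit 291) (nat_lit 193))) (XT.nd (nat_lit 78) (nat_lit 0) (nat_lit 76) (XT.lf (nat_lit 76) (nat_lit 796429239) (nat_lit 0) (nat_lit 3449474780) (nat_lit 1672) (nat_lit 7296282752) (nat_lit 407) (nat_lit 5) (nat_lit 406) (nat_lit 5) (nat_lit 428) (nat_lit 5) (nat_lit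 297) (nat_lit 291) (nat_lit 192)) (XT.lf (nat_lit 0) (nat_lit 5500832211) (nat_lit 1596) (nat_lit 2619620170) (nat_lit 1672) (nat_lit 3585851630) (nat_lit 407) (nat_lit 5) (nat_lit 428) (nat_lit 5) (nat_lit 429) (nat_lit 5) (nat_lit 298) (nat_lit 291) (nat_lit 191)))))) (XT.nd (nat_lit 546) (nat_lit 3648) (nat_lit 0) (XT.nd (nat_lit 234) (nat_lit 1444) (nat_lit 0) (XT.nd (nat_lit 78) (nat_lit 0) (nat_lit 76) (XT.lf (nat_lit 76) (nat_lit 5784342371) (nat_lit 0) (nat_lit 1040759510) (nat_lit 1672) (nat_lit 5049632359) (nat_lit 408) (nat_lit 5) (nat_lit 407) (nat_lit 5) (nat_lit 429) (nat_lit 5) (nat_lit 299) (nat_lit 291) (nat_lit 190)) (XT.nd (nat_lit 78) (nat_lit 0) (nat_lit 76) (XT.lf (nat_lit 76) (nat_lit 2400092173) (nat_lit 0) (nat_lit 5834903018) (nat_lit 1672) (nat_lit 3812326936) (nat_lit 409) (nat_lit 5) (nat_lit 408) (nat_lit 5) (nat_lit 430) (nat_lit 5) (nat_lit 300) (nat_lit 291) (nat_lit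 189)) (XT.lf (nat_lit 0) (nat_lit 9717629397) (nat_lit 1596) (nat_lit 1031585765) (nat_lit 1672) (nat_lit 1475285612) (nat_lit 409) (nat_lit 5) (nat_lit 430) (nat_lit 5) (nat_lit 431) (nat_lit 5) (nat_lit 301) (nat_lit 291) (nat_lit 188)))) (XT.nd (nat_lit 156) (nat_lit 0) (nat_lit 0) (XT.nd (nat_lit 78) (nat_lit 1596) (nat_lit 0) (XT.lf (nat_lit 76) (nat_lit 7888110030) (nat_lit 0) (nat_lit 3420275621) (nat_lit 1672) (nat_lit 1097357628) (nat_lit 410) (nat_lit 5) (nat_lit 409) (nat_lit 5) (nat_lit 431) (nat_lit 5) (nat_lit 302) (nat_lit 291) (nat_lit 187)) (XT.lf (nat_lit 0) (nat_lit 387255173) (nat_lit 1672) (nat_lit 8083842343) (nat_lit 1748) (nat_lit 4120550609) (nat_lit 388) (nat_lit 5) (nat_lit 410) (nat_lit 5) (nat_lit 411) (nat_lit 5) (nat_lit 303) (nat_lit 291) (nat_lit 186))) (XT.nd (nat_lit 78) (nat_lit 0) (nat_lit 76) (XT.lf (nat_lit 76) (nat_lit 1047471552) (nat_lit 0) (nat_lit 889154885)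 (nat_lit 1748) (nat_lit 10845675773) (nat_lit 389) (nat_lit 5) (nat_lit 388) (nat_lit 5) (nat_lit 411) (nat_lit 5) (nat_lit 304) (nat_lit 291) (nat_lit 185)) (XT.lf (nat_lit 0) (nat_lit 3607762870) (nat_lit 1672) (nat_lit 2478919657) (nat_lit 1748) (nat_lit 6890506874) (nat_lit 389) (nat_lit 5) (nat_lit 411) (nat_lit 5) (nat_lit 412) (nat_lit 5) (nat_lit 305) (nat_lit 291) (nat_lit 184))))) (XT.nd (nat_lit 234) (nat_lit 2204) (nat_lit 0) (XT.nd (nat_lit 78) (nat_lit 1596) (nat_lit 0) (XT.lf (nat_lit 0) (nat_lit 5368629288) (nat_lit 1672) (nat_lit 6065558149) (nat_lit 1748) (nat_lit 1742962463) (nat_lit 390) (nat_lit 5) (nat_lit 412) (nat_lit 5) (nat_lit 413) (nat_lit 5) (nat_lit 306) (nat_lit 291) (nat_lit 183)) (XT.nd (nat_lit 78) (nat_lit 1596) (nat_lit 0) (XT.lf (nat_lit 76) (nat_lit 3628680675) (nat_lit 0) (nat_lit 3611360647) (nat_lit 1748) (nat_lit 6141931563) (nat_lit 391) (nat_lit 5) (nat_lit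 390) (nat_lit 5) (nat_lit 413) (nat_lit 5) (nat_lit 307) (nat_lit 291) (nat_lit 182)) (XT.lf (nat_lit 0) (nat_lit 56998025) (nat_lit 1672) (nat_lit 9158343869) (nat_lit 1748) (nat_lit 4376661283) (nat_lit 369) (nat_lit 5) (nat_lit 391) (nat_lit 5) (nat_lit 392) (nat_lit 5) (nat_lit 308) (nat_lit 291) (nat_lit 181)))) (XT.nd (nat_lit 156) (nat_lit 912) (nat_lit 0) (XT.nd (nat_lit 78) (nat_lit 1292) (nat_lit 0) (XT.lf (nat_lit 0) (nat_lit 10251677977) (nat_lit 1672) (nat_lit 1065984126) (nat_lit 1748) (nat_lit 2489334091) (nat_lit 369) (nat_lit 5) (nat_lit 391) (nat_lit 5) (nat_lit 392) (nat_lit 5) (nat_lit 309) (nat_lit 291) (nat_lit 180)) (XT.lf (nat_lit 0) (nat_lit 6746169321) (nat_lit 1292) (nat_lit 6806228094) (nat_lit 1368) (nat_lit 474671209) (nat_lit 352) (nat_lit 5) (nat_lit 369) (nat_lit 5) (nat_lit 370) (nat_lit 5) (nat_lit 310) (nat_lit 291) (nat_lit 179))) (XT.nd (nat_lit 78) (nat_lit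 0) (nat_lit 0) (XT.lf (nat_lit 0) (nat_lit 1620065750) (nat_lit 912) (nat_lit 11106016316) (nat_lit 76) (nat_lit 1526656594) (nat_lit 340) (nat_lit 5) (nat_lit 352) (nat_lit 5) (nat_lit 341) (nat_lit 5) (nat_lit 311) (nat_lit 291) (nat_lit 178)) (XT.lf (nat_lit 0) (nat_lit 3845630693) (nat_lit 912) (nat_lit 565378072) (nat_lit 76) (nat_lit 10072633863) (nat_lit 340) (nat_lit 5) (nat_lit 352) (nat_lit 5) (nat_lit 341) (nat_lit 5) (nat_lit 312) (nat_lit 291) (nat_lit 177))))))))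
noncomputable def xc100 : XT := (XT.nd (nat_lit 2028) (nat_lit 5244) (nat_lit 0) (XT.nd (nat_lit 1014) (nat_lit 5624) (nat_lit 0) (XT.nd (nat_lit 468) (nat_lit 3496) (nat_lit 0) (XT.nd (nat_lit 234) (nat_lit 1596) (nat_lit 0) (XT.nd (nat_lit 78) (nat_lit 1672) (nat_lit 0) (XT.lf (nat_lit 0) (nat_lit 6212797170) (nat_lit 912) (nat_lit 4338414029) (nat_lit 76) (nat_lit 4168780657) (nat_lit 329) (nat_lit 5) (nat_lit 341) (nat_lit 5) (nat_lit 330) (nat_lit 5) (nat_lit 313) (nat_lit 291) (nat_lit 176)) (XT.nd (nat_lit 78) (nat_lit 836) (nat_lit 0) (XT.lf (nat_lit 0) (nat_lit 6741651416) (nat_lit 836) (nat_lit 1966756050) (nat_lit 912) (nat_lit 6253889921) (nat_lit 318) (nat_lit 5) (nat_lit 329) (nat_lit 5) (nat_lit 330) (nat_lit 5) (nat_lit 314) (nat_lit 291) (nat_lit 175)) (XT.lf (nat_lit 0) (nat_lit 2977767143) (nat_lit 836) (nat_lit 8375448350) (nat_lit 912) (nat_lit 3857183983) (nat_lit 307) (nat_lit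 5) (nat_lit 318) (nat_lit 5) (nat_lit 319) (nat_lit 5) (nat_lit 315) (nat_lit 291) (nat_lit 174)))) (XT.nd (nat_lit 78) (nat_lit 1596) (nat_lit 0) (XT.lf (nat_lit 0) (nat_lit 14130367637) (nat_lit 912) (nat_lit 875021164) (nat_lit 76) (nat_lit 459509402) (nat_lit 307) (nat_lit 5) (nat_lit 319) (nat_lit 5) (nat_lit 308) (nat_lit 5) (nat_lit 316) (nat_lit 291) (nat_lit 173)) (XT.nd (nat_lit 78) (nat_lit 760) (nat_lit 0) (XT.lf (nat_lit 0) (nat_lit 1356416083) (nat_lit 836) (nat_lit 4841857376) (nat_lit 76) (nat_lit 9526423476) (nat_lit 296) (nat_lit 5) (nat_lit 307) (nat_lit 5) (nat_lit 297) (nat_lit 5) (nat_lit 317) (nat_lit 291) (nat_lit 172)) (XT.lf (nat_lit 0) (nat_lit 4163088289) (nat_lit 836) (nat_lit 8931551049) (nat_lit 76) (nat_lit 2896423844) (nat_lit 286) (nat_lit 5) (nat_lit 297) (nat_lit 5) (nat_lit 287) (nat_lit 5) (nat_lit 318) (nat_lit 291) (nat_lit 171))))) (XT.nd (nat_lit 234) (nat_lit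 2052) (nat_lit 0) (XT.nd (nat_lit 78) (nat_lit 760) (nat_lit 0) (XT.lf (nat_lit 0) (nat_lit 3100188271) (nat_lit 684) (nat_lit 4030823166) (nat_lit 760) (nat_lit 9132880142) (nat_lit 277) (nat_lit 5) (nat_lit 286) (nat_lit 5) (nat_lit 287) (nat_lit 5) (nat_lit 319) (nat_lit 291) (nat_lit 170)) (XT.nd (nat_lit 78) (nat_lit 760) (nat_lit 0) (XT.lf (nat_lit 0) (nat_lit 10266173303) (nat_lit 760) (nat_lit 981693972) (nat_lit 76) (nat_lit 5295485358) (nat_lit 277) (nat_lit 5) (nat_lit 287) (nat_lit 5) (nat_lit 278) (nat_lit 5) (nat_lit 320) (nat_lit 291) (nat_lit 169)) (XT.lf (nat_lit 0) (nat_lit 11674169289) (nat_lit 760) (nat_lit 1907307280) (nat_lit 836) (nat_lit 3248010699) (nat_lit 267) (nat_lit 5) (nat_lit 277) (nat_lit 5) (nat_lit 278) (nat_lit 5) (nat_lit 321) (nat_lit 291) (nat_lit 168)))) (XT.nd (nat_lit 156) (nat_lit 608) (nat_lit 0) (XT.nd (nat_lit 78) (nat_lit 760) (nat_lit 0) (XT.lf (nat_lit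 0) (nat_lit 7631232566) (nat_lit 684) (nat_lit 9455029201) (nat_lit 760) (nat_lit 36154864) (nat_lit 258) (nat_lit 5) (nat_lit 267) (nat_lit 5) (nat_lit 268) (nat_lit 5) (nat_lit 322) (nat_lit 291) (nat_lit 167)) (XT.lf (nat_lit 0) (nat_lit 3284380518) (nat_lit 760) (nat_lit 13981980320) (nat_lit 76) (nat_lit 156254008) (nat_lit 248) (nat_lit 5) (nat_lit 258) (nat_lit 5) (nat_lit 249) (nat_lit 5) (nat_lit 323) (nat_lit 291) (nat_lit 166))) (XT.nd (nat_lit 78) (nat_lit 608) (nat_lit 0) (XT.lf (nat_lit 0) (nat_lit 6816301154) (nat_lit 760) (nat_lit 921866890) (nat_lit 76) (nat_lit 9991411276) (nat_lit 248) (nat_lit 5) (nat_lit 258) (nat_lit 5) (nat_lit 249) (nat_lit 5) (nat_lit 324) (nat_lit 291) (nat_lit 165)) (XT.lf (nat_lit 0) (nat_lit 10535254808) (nat_lit 684) (nat_lit 5379336765) (nat_lit 76) (nat_lit 2129549647) (nat_lit 240) (nat_lit 5) (nat_lit 249) (nat_lit 5) (nat_lit 241) (nat_lit 5)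 (nat_lit 325) (nat_lit 291) (nat_lit 164)))))) (XT.nd (nat_lit 468) (nat_lit 2660) (nat_lit 0) (XT.nd (nat_lit 234) (nat_lit 1672) (nat_lit 0) (XT.nd (nat_lit 78) (nat_lit 684) (nat_lit 0) (XT.lf (nat_lit 0) (nat_lit 8344064722) (nat_lit 608) (nat_lit 6118989400) (nat_lit 684) (nat_lit 3903150022) (nat_lit 232) (nat_lit 5) (nat_lit 240) (nat_lit 5) (nat_lit 241) (nat_lit 5) (nat_lit 326) (nat_lit 291) (nat_lit 163)) (XT.nd (nat_lit 78) (nat_lit 76) (nat_lit 0) (XT.lf (nat_lit 0) (nat_lit 3862979757) (nat_lit 608) (nat_lit 14718635608) (nat_lit 684) (nat_lit 114864458) (nat_lit 224) (nat_lit 5) (nat_lit 232) (nat_lit 5) (nat_lit 233) (nat_lit 5) (nat_lit 327) (nat_lit 291) (nat_lit 162)) (XT.lf (nat_lit 0) (nat_lit 3832271253) (nat_lit 684) (nat_lit 816612172) (nat_lit 76) (nat_lit 14385400162) (nat_lit 223) (nat_lit 5) (nat_lit 232) (nat_lit 5) (nat_lit 224) (nat_lit 5) (nat_lit 328) (nat_lit 291)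 (nat_lit 161)))) (XT.nd (nat_lit 78) (nat_lit 1064) (nat_lit 0) (XT.lf (nat_lit 0) (nat_lit 8009508689) (nat_lit 684) (nat_lit 5634331977) (nat_lit 76) (nat_lit 5736109359) (nat_lit 215) (nat_lit 5) (nat_lit 224) (nat_lit 5) (nat_lit 216) (nat_lit 5) (nat_lit 329) (nat_lit 291) (nat_lit 160)) (XT.nd (nat_lit 78) (nat_lit 532) (nat_lit 0) (XT.lf (nat_lit 0) (nat_lit 9091448615) (nat_lit 532) (nat_lit 3302591270) (nat_lit 608) (nat_lit 7340315496) (nat_lit 208) (nat_lit 5) (nat_lit 215) (nat_lit 5) (nat_lit 216) (nat_lit 5) (nat_lit 330) (nat_lit 291) (nat_lit 159)) (XT.lf (nat_lit 0) (nat_lit 4228319940) (nat_lit 532) (nat_lit 12781949794) (nat_lit 608) (nat_lit 3087128118) (nat_lit 201) (nat_lit 5) (nat_lit 208) (nat_lit 5) (nat_lit 209) (nat_lit 5) (nat_lit 331) (nat_lit 291) (nat_lit 158))))) (XT.nd (nat_lit 234) (nat_lit 1520) (nat_lit 0) (XT.nd (nat_lit 78) (nat_lit 1064) (nat_lit 0) (XT.lf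 (nat_lit 0) (nat_lit 1358124419) (nat_lit 608) (nat_lit 826065663) (nat_lit 76) (nat_lit 18285352625) (nat_lit 200) (nat_lit 5) (nat_lit 208) (nat_lit 5) (nat_lit 201) (nat_lit 5) (nat_lit 332) (nat_lit 291) (nat_lit 157)) (XT.nd (nat_lit 78) (nat_lit 532) (nat_lit 0) (XT.lf (nat_lit 0) (nat_lit 6035874085) (nat_lit 608) (nat_lit 6082281735) (nat_lit 76) (nat_lit 8731473926) (nat_lit 193) (nat_lit 5) (nat_lit 201) (nat_lit 5) (nat_lit 194) (nat_lit 5) (nat_lit 333) (nat_lit 291) (nat_lit 156)) (XT.lf (nat_lit 0) (nat_lit 9695302905) (nat_lit 532) (nat_lit 1229232483) (nat_lit 608) (nat_lit 10315179791) (nat_lit 186) (nat_lit 5) (nat_lit 193) (nat_lit 5) (nat_lit 194) (nat_lit 5) (nat_lit 334) (nat_lit 291) (nat_lit 155)))) (XT.nd (nat_lit 156) (nat_lit 1064) (nat_lit 0) (XT.nd (nat_lit 78) (nat_lit 0) (nat_lit 0) (XT.lf (nat_lit 0) (nat_lit 4364882871) (nat_lit 456) (nat_lit 11717271390) (nat_lit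 532) (nat_lit 5556910112) (nat_lit 180) (nat_lit 5) (nat_lit 186) (nat_lit 5) (nat_lit 187) (nat_lit 5) (nat_lit 335) (nat_lit 291) (nat_lit 154)) (XT.lf (nat_lit 0) (nat_lit 20885365445) (nat_lit 456) (nat_lit 583420489) (nat_lit 532) (nat_lit 580129367) (nat_lit 180) (nat_lit 5) (nat_lit 186) (nat_lit 5) (nat_lit 187) (nat_lit 5) (nat_lit 336) (nat_lit 291) (nat_lit 153))) (XT.nd (nat_lit 78) (nat_lit 456) (nat_lit 0) (XT.lf (nat_lit 0) (nat_lit 4647222204) (nat_lit 608) (nat_lit 6950340238) (nat_lit 76) (nat_lit 10869697848) (nat_lit 172) (nat_lit 5) (nat_lit 180) (nat_lit 5) (nat_lit 173) (nat_lit 5) (nat_lit 337) (nat_lit 291) (nat_lit 152)) (XT.lf (nat_lit 0) (nat_lit 9922584856) (nat_lit 456) (nat_lit 165614998) (nat_lit 532) (nat_lit 12808591756) (nat_lit 166) (nat_lit 5) (nat_lit 172) (nat_lit 5) (nat_lit 173) (nat_lit 5) (nat_lit 338) (nat_lit 291) (nat_lit 151))))))) (XT.nd (nat_lit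 1014) (nat_lit 1368) (nat_lit 0) (XT.nd (nat_lit 468) (nat_lit 2052) (nat_lit 0) (XT.nd (nat_lit 234) (nat_lit 836) (nat_lit 0) (XT.nd (nat_lit 78) (nat_lit 532) (nat_lit 0) (XT.lf (nat_lit 0) (nat_lit 4020197057) (nat_lit 456) (nat_lit 11809691234) (nat_lit 532) (nat_lit 7506577177) (nat_lit 160) (nat_lit 5) (nat_lit 166) (nat_lit 5) (nat_lit 167) (nat_lit 5) (nat_lit 339) (nat_lit 291) (nat_lit 150)) (XT.nd (nat_lit 78) (nat_lit 532) (nat_lit 0) (XT.lf (nat_lit 0) (nat_lit 21685744145) (nat_lit 456) (nat_lit 135929427) (nat_lit 532) (nat_lit 1966105095) (nat_lit 160) (nat_lit 5) (nat_lit 166) (nat_lit 5) (nat_lit 167) (nat_lit 5) (nat_lit 340) (nat_lit 291) (nat_lit 149)) (XT.lf (nat_lit 0) (nat_lit 3861160950) (nat_lit 532) (nat_lit 8531671076) (nat_lit 76) (nat_lit 11855926503) (nat_lit 153) (nat_lit 5) (nat_lit 160) (nat_lit 5) (nat_lit 154) (nat_lit 5) (nat_lit 341) (nat_lit 291) (nat_lit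 148)))) (XT.nd (nat_lit 78) (nat_lit 380) (nat_lit 0) (XT.lf (nat_lit 0) (nat_lit 9471520467) (nat_lit 456) (nat_lit 431181971) (nat_lit 532) (nat_lit 14819287635) (nat_lit 147) (nat_lit 5) (nat_lit 153) (nat_lit 5) (nat_lit 154) (nat_lit 5) (nat_lit 342) (nat_lit 291) (nat_lit 147)) (XT.nd (nat_lit 78) (nat_lit 0) (nat_lit 0) (XT.lf (nat_lit 0) (nat_lit 2868603867) (nat_lit 380) (nat_lit 13400366037) (nat_lit 456) (nat_lit 8937584492) (nat_lit 142) (nat_lit 5) (nat_lit 147) (nat_lit 5) (nat_lit 148) (nat_lit 5) (nat_lit 343) (nat_lit 291) (nat_lit 146)) (XT.lf (nat_lit 0) (nat_lit 21722547688) (nat_lit 380) (nat_lit 1199562080) (nat_lit 456) (nat_lit 2781633461) (nat_lit 142) (nat_lit 5) (nat_lit 147) (nat_lit 5) (nat_lit 148) (nat_lit 5) (nat_lit 344) (nat_lit 291) (nat_lit 145))))) (XT.nd (nat_lit 234) (nat_lit 760) (nat_lit 0) (XT.nd (nat_lit 78) (nat_lit 760) (nat_lit 0) (XT.lf (nat_lit 0)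 (nat_lit 3674758227) (nat_lit 532) (nat_lit 11201438277) (nat_lit 76) (nat_lit 11335945312) (nat_lit 135) (nat_lit 5) (nat_lit 142) (nat_lit 5) (nat_lit 136) (nat_lit 5) (nat_lit 345) (nat_lit 291) (nat_lit 144)) (XT.nd (nat_lit 78) (nat_lit 380) (nat_lit 0) (XT.lf (nat_lit 0) (nat_lit 7954938262) (nat_lit 380) (nat_lit 2409237825) (nat_lit 456) (nat_lit 16369710891) (nat_lit 130) (nat_lit 5) (nat_lit 135) (nat_lit 5) (nat_lit 136) (nat_lit 5) (nat_lit 346) (nat_lit 291) (nat_lit 143)) (XT.lf (nat_lit 0) (nat_lit 493676175) (nat_lit 380) (nat_lit 16898196351) (nat_lit 456) (nat_lit 9876664775) (nat_lit 125) (nat_lit 5) (nat_lit 130) (nat_lit 5) (nat_lit 131) (nat_lit 5) (nat_lit 347) (nat_lit 291) (nat_lit 142)))) (XT.nd (nat_lit 156) (nat_lit 380) (nat_lit 0) (XT.nd (nat_lit 78) (nat_lit 380) (nat_lit 0) (XT.lf (nat_lit 0) (nat_lit 20571299725) (nat_lit 380) (nat_lit 4192805359) (nat_lit 456)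 (nat_lit 3052452534) (nat_lit 125) (nat_lit 5) (nat_lit 130) (nat_lit 5) (nat_lit 131) (nat_lit 5) (nat_lit 348) (nat_lit 291) (nat_lit 141)) (XT.lf (nat_lit 0) (nat_lit 4057853011) (nat_lit 380) (nat_lit 15436148586) (nat_lit 76) (nat_lit 8883834571) (nat_lit 120) (nat_lit 5) (nat_lit 125) (nat_lit 5) (nat_lit 121) (nat_lit 5) (nat_lit 349) (nat_lit 291) (nat_lit 140))) (XT.nd (nat_lit 78) (nat_lit 0) (nat_lit 0) (XT.lf (nat_lit 0) (nat_lit 4880104825) (nat_lit 380) (nat_lit 6560091061) (nat_lit 456) (nat_lit 17513353915) (nat_lit 115) (nat_lit 5) (nat_lit 120) (nat_lit 5) (nat_lit 121) (nat_lit 5) (nat_lit 350) (nat_lit 291) (nat_lit 139)) (XT.lf (nat_lit 0) (nat_lit 19184174225) (nat_lit 456) (nat_lit 3585401216) (nat_lit 76) (nat_lit 6774160215) (nat_lit 115) (nat_lit 5) (nat_lit 121) (nat_lit 5) (nat_lit 116) (nat_lit 5) (nat_lit 351) (nat_lit 291) (nat_lit 138)))))) (XT.nd (nat_lit 36114)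 (nat_lit 0) (nat_lit 23332) (XT.nd (nat_lit 234) (nat_lit 608) (nat_lit 0) (XT.nd (nat_lit 78) (nat_lit 456) (nat_lit 0) (XT.lf (nat_lit 0) (nat_lit 17692343531) (nat_lit 304) (nat_lit 9618101975) (nat_lit 380) (nat_lit 2838186107) (nat_lit 111) (nat_lit 5) (nat_lit 115) (nat_lit 5) (nat_lit 116) (nat_lit 5) (nat_lit 352) (nat_lit 291) (nat_lit 137)) (XT.nd (nat_lit 78) (nat_lit 0) (nat_lit 0) (XT.lf (nat_lit 0) (nat_lit 4944649570) (nat_lit 456) (nat_lit 21837035528) (nat_lit 76) (nat_lit 3987351742) (nat_lit 105) (nat_lit 5) (nat_lit 111) (nat_lit 5) (nat_lit 106) (nat_lit 5) (nat_lit 353) (nat_lit 291) (nat_lit 136)) (XT.lf (nat_lit 0) (nat_lit 13063402309) (nat_lit 456) (nat_lit 370731553) (nat_lit 76) (nat_lit 17970729012) (nat_lit 105) (nat_lit 5) (nat_lit 111) (nat_lit 5) (nat_lit 106) (nat_lit 5) (nat_lit 354) (nat_lit 291) (nat_lit 135)))) (XT.nd (nat_lit 35724) (nat_lit 0) (nat_lit 23256)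 (XT.nd (nat_lit 78) (nat_lit 304) (nat_lit 0) (XT.lf (nat_lit 0) (nat_lit 21563347500) (nat_lit 380) (nat_lit 10044300018) (nat_lit 76) (nat_lit 449367159) (nat_lit 101) (nat_lit 5) (nat_lit 106) (nat_lit 5) (nat_lit 102) (nat_lit 5) (nat_lit 355) (nat_lit 291) (nat_lit 134)) (XT.lf (nat_lit 0) (nat_lit 12404381508) (nat_lit 304) (nat_lit 18078681462) (nat_lit 380) (nat_lit 2242376108) (nat_lit 97) (nat_lit 5) (nat_lit 101) (nat_lit 5) (nat_lit 102) (nat_lit 5) (nat_lit 356) (nat_lit 291) (nat_lit 133))) (XT.nd (nat_lit 78) (nat_lit 1596) (nat_lit 0) (XT.lf (nat_lit 0) (nat_lit 5351974236) (nat_lit 1596) (nat_lit 54899580) (nat_lit 1596) (nat_lit 54899580) (nat_lit 424) (nat_lit 3) (nat_lit 445) (nat_lit 3) (nat_lit 445) (nat_lit 5) (nat_lit 292) (nat_lit 292) (nat_lit 196)) (XT.lf (nat_lit 0) (nat_lit 656974805) (nat_lit 1596) (nat_lit 3614901926) (nat_lit 1672) (nat_lit 6797340139) (nat_lit 403)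 (nat_lit 5) (nat_lit 424) (nat_lit 3) (nat_lit 425) (nat_lit 5) (nat_lit 293) (nat_lit 292) (nat_lit 195))))) (XT.nd (nat_lit 234) (nat_lit 0) (nat_lit 152) (XT.nd (nat_lit 78) (nat_lit 0) (nat_lit 0) (XT.lf (nat_lit 0) (nat_lit 1567874320) (nat_lit 1596) (nat_lit 7173294111) (nat_lit 1672) (nat_lit 2477865608) (nat_lit 404) (nat_lit 5) (nat_lit 425) (nat_lit 5) (nat_lit 426) (nat_lit 5) (nat_lit 294) (nat_lit 292) (nat_lit 194)) (XT.nd (nat_lit 78) (nat_lit 0) (nat_lit 76) (XT.lf (nat_lit 76) (nat_lit 574098069) (nat_lit 0) (nat_lit 1957457319) (nat_lit 1672) (nat_lit 8841306749) (nat_lit 405) (nat_lit 5) (nat_lit 404) (nat_lit 5) (nat_lit 426) (nat_lit 5) (nat_lit 295) (nat_lit 292) (nat_lit 193)) (XT.lf (nat_lit 0) (nat_lit 3575127957) (nat_lit 1596) (nat_lit 2929179534) (nat_lit 1672) (nat_lit 5026002731) (nat_lit 405) (nat_lit 5) (nat_lit 426) (nat_lit 5) (nat_lit 427) (nat_lit 5) (nat_lit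 296) (nat_lit 292) (nat_lit 192)))) (XT.nd (nat_lit 156) (nat_lit 0) (nat_lit 76) (XT.nd (nat_lit 78) (nat_lit 0) (nat_lit 0) (XT.lf (nat_lit 0) (nat_lit 4670790742) (nat_lit 1596) (nat_lit 6481370105) (nat_lit 1672) (nat_lit 539929285) (nat_lit 406) (nat_lit 5) (nat_lit 427) (nat_lit 5) (nat_lit 428) (nat_lit 5) (nat_lit 297) (nat_lit 292) (nat_lit 191)) (XT.lf (nat_lit 76) (nat_lit 1737907450) (nat_lit 0) (nat_lit 4107293440) (nat_lit 1672) (nat_lit 6012628344) (nat_lit 407) (nat_lit 5) (nat_lit 406) (nat_lit 5) (nat_lit 428) (nat_lit 5) (nat_lit 298) (nat_lit 292) (nat_lit 190))) (XT.nd (nat_lit 78) (nat_lit 0) (nat_lit 0) (XT.lf (nat_lit 0) (nat_lit 7091411201) (nat_lit 1596) (nat_lit 1774123746) (nat_lit 1672) (nat_lit 3162296867) (nat_lit 407) (nat_lit 5) (nat_lit 428) (nat_lit 5) (nat_lit 429) (nat_lit 5) (nat_lit 299) (nat_lit 292) (nat_lit 189)) (XT.lf (nat_lit 76) (nat_lit 6866965491)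 (nat_lit 0) (nat_lit 1552824914) (nat_lit 1672) (nat_lit 3782270418) (nat_lit 408) (nat_lit 5) (nat_lit 407) (nat_lit 5) (nat_lit 429) (nat_lit 5) (nat_lit 300) (nat_lit 292) (nat_lit 188))))))))
noncomputable def xc101 : XT := (XT.nd (nat_lit 2106) (nat_lit 9652) (nat_lit 0) (XT.nd (nat_lit 1014) (nat_lit 7372) (nat_lit 0) (XT.nd (nat_lit 468) (nat_lit 4408) (nat_lit 0) (XT.nd (nat_lit 234) (nat_lit 0) (nat_lit 76) (XT.nd (nat_lit 78) (nat_lit 1596) (nat_lit 0) (XT.lf (nat_lit 76) (nat_lit 3397956461) (nat_lit 0) (nat_lit 6436520784) (nat_lit 1672) (nat_lit 2546131693) (nat_lit 409) (nat_lit 5) (nat_lit 408) (nat_lit 5) (nat_lit 430) (nat_lit 5) (nat_lit 301) (nat_lit 292) (nat_lit 187)) (XT.nd (nat_lit 78) (nat_lit 1672) (nat_lit 0) (XT.lf (nat_lit 0) (nat_lit 11319510335) (nat_lit 1596) (nat_lit 133636293) (nat_lit 1672) (nat_lit 1110829497) (nat_lit 409) (nat_lit 5) (nat_lit 430) (nat_lit 5)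 (nat_lit 431) (nat_lit 5) (nat_lit 302) (nat_lit 292) (nat_lit 186)) (XT.lf (nat_lit 0) (nat_lit 172138014) (nat_lit 1672) (nat_lit 3713883576) (nat_lit 1748) (nat_lit 8865286974) (nat_lit 387) (nat_lit 5) (nat_lit 409) (nat_lit 5) (nat_lit 410) (nat_lit 5) (nat_lit 303) (nat_lit 292) (nat_lit 185)))) (XT.nd (nat_lit 78) (nat_lit 0) (nat_lit 0) (XT.lf (nat_lit 0) (nat_lit 1652712854) (nat_lit 1672) (nat_lit 7381241027) (nat_lit 1748) (nat_lit 3909394137) (nat_lit 388) (nat_lit 5) (nat_lit 410) (nat_lit 5) (nat_lit 411) (nat_lit 5) (nat_lit 304) (nat_lit 292) (nat_lit 184)) (XT.nd (nat_lit 78) (nat_lit 0) (nat_lit 76) (XT.lf (nat_lit 76) (nat_lit 2008678891) (nat_lit 0) (nat_lit 1209403521) (nat_lit 1748) (nat_lit 9922277302) (nat_lit 389) (nat_lit 5) (nat_lit 388) (nat_lit 5) (nat_lit 411) (nat_lit 5) (nat_lit 305) (nat_lit 292) (nat_lit 183)) (XT.lf (nat_lit 0) (nat_lit 4901870616) (nat_lit 1672)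 (nat_lit 1624063139) (nat_lit 1748) (nat_lit 6815936921) (nat_lit 389) (nat_lit 5) (nat_lit 411) (nat_lit 5) (nat_lit 412) (nat_lit 5) (nat_lit 306) (nat_lit 292) (nat_lit 182))))) (XT.nd (nat_lit 234) (nat_lit 3040) (nat_lit 0) (XT.nd (nat_lit 78) (nat_lit 1596) (nat_lit 0) (XT.lf (nat_lit 0) (nat_lit 6685379734) (nat_lit 1672) (nat_lit 5307762231) (nat_lit 1748) (nat_lit 1555318396) (nat_lit 390) (nat_lit 5) (nat_lit 412) (nat_lit 5) (nat_lit 413) (nat_lit 5) (nat_lit 307) (nat_lit 292) (nat_lit 181)) (XT.nd (nat_lit 78) (nat_lit 1596) (nat_lit 0) (XT.lf (nat_lit 76) (nat_lit 4662057225) (nat_lit 0) (nat_lit 3923218557) (nat_lit 1748) (nat_lit 5174731350) (nat_lit 391) (nat_lit 5) (nat_lit 390) (nat_lit 5) (nat_lit 413) (nat_lit 5) (nat_lit 308) (nat_lit 292) (nat_lit 180)) (XT.lf (nat_lit 0) (nat_lit 992569748) (nat_lit 1672) (nat_lit 9599190654) (nat_lit 1748) (nat_lit 3385164601) (nat_lit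 369) (nat_lit 5) (nat_lit 391) (nat_lit 5) (nat_lit 392) (nat_lit 5) (nat_lit 309) (nat_lit 292) (nat_lit 179)))) (XT.nd (nat_lit 156) (nat_lit 1672) (nat_lit 0) (XT.nd (nat_lit 78) (nat_lit 1368) (nat_lit 0) (XT.lf (nat_lit 0) (nat_lit 11465890242) (nat_lit 1672) (nat_lit 1259222357) (nat_lit 1748) (nat_lit 1473920405) (nat_lit 369) (nat_lit 5) (nat_lit 391) (nat_lit 5) (nat_lit 392) (nat_lit 5) (nat_lit 310) (nat_lit 292) (nat_lit 178)) (XT.lf (nat_lit 0) (nat_lit 566919417) (nat_lit 1368) (nat_lit 6566634530) (nat_lit 76) (nat_lit 7292626425) (nat_lit 351) (nat_lit 5) (nat_lit 369) (nat_lit 5) (nat_lit 352) (nat_lit 5) (nat_lit 311) (nat_lit 292) (nat_lit 177))) (XT.nd (nat_lit 78) (nat_lit 836) (nat_lit 0) (XT.lf (nat_lit 0) (nat_lit 2692741382) (nat_lit 912) (nat_lit 10502794575) (nat_lit 76) (nat_lit 1463550548) (nat_lit 340) (nat_lit 5) (nat_lit 352) (nat_lit 5) (nat_lit 341) (nat_lit 5)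 (nat_lit 312) (nat_lit 292) (nat_lit 176)) (XT.lf (nat_lit 0) (nat_lit 331131817) (nat_lit 836) (nat_lit 4626263995) (nat_lit 912) (nat_lit 9940097257) (nat_lit 329) (nat_lit 5) (nat_lit 340) (nat_lit 5) (nat_lit 341) (nat_lit 5) (nat_lit 313) (nat_lit 292) (nat_lit 175)))))) (XT.nd (nat_lit 546) (nat_lit 3420) (nat_lit 0) (XT.nd (nat_lit 234) (nat_lit 2280) (nat_lit 0) (XT.nd (nat_lit 78) (nat_lit 1672) (nat_lit 0) (XT.lf (nat_lit 0) (nat_lit 7369777539) (nat_lit 912) (nat_lit 3553557994) (nat_lit 76) (nat_lit 4218134526) (nat_lit 329) (nat_lit 5) (nat_lit 341) (nat_lit 5) (nat_lit 330) (nat_lit 5) (nat_lit 314) (nat_lit 292) (nat_lit 174)) (XT.nd (nat_lit 78) (nat_lit 836) (nat_lit 0) (XT.lf (nat_lit 0) (nat_lit 7844064489) (nat_lit 836) (nat_lit 2073766313) (nat_lit 912) (nat_lit 5473683127) (nat_lit 318) (nat_lit 5) (nat_lit 329) (nat_lit 5) (nat_lit 330) (nat_lit 5) (nat_lit 315) (nat_lit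 292) (nat_lit 173)) (XT.lf (nat_lit 0) (nat_lit 3972299787) (nat_lit 836) (nat_lit 8647641187) (nat_lit 912) (nat_lit 3027579016) (nat_lit 307) (nat_lit 5) (nat_lit 318) (nat_lit 5) (nat_lit 319) (nat_lit 5) (nat_lit 316) (nat_lit 292) (nat_lit 172)))) (XT.nd (nat_lit 156) (nat_lit 1444) (nat_lit 0) (XT.nd (nat_lit 78) (nat_lit 836) (nat_lit 0) (XT.lf (nat_lit 0) (nat_lit 15453301121) (nat_lit 912) (nat_lit 3672783) (nat_lit 76) (nat_lit 453241389) (nat_lit 307) (nat_lit 5) (nat_lit 319) (nat_lit 5) (nat_lit 308) (nat_lit 5) (nat_lit 317) (nat_lit 292) (nat_lit 171)) (XT.lf (nat_lit 0) (nat_lit 2282119731) (nat_lit 836) (nat_lit 4091697096) (nat_lit 76) (nat_lit 9804302662) (nat_lit 296) (nat_lit 5) (nat_lit 307) (nat_lit 5) (nat_lit 297) (nat_lit 5) (nat_lit 318) (nat_lit 292) (nat_lit 170))) (XT.nd (nat_lit 78) (nat_lit 684) (nat_lit 0) (XT.lf (nat_lit 0) (nat_lit 5153037858) (nat_lit 836) (nat_lit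 8300812908) (nat_lit 76) (nat_lit 2999043046) (nat_lit 286) (nat_lit 5) (nat_lit 297) (nat_lit 5) (nat_lit 287) (nat_lit 5) (nat_lit 319) (nat_lit 292) (nat_lit 169)) (XT.lf (nat_lit 0) (nat_lit 4077298501) (nat_lit 684) (nat_lit 4113244561) (nat_lit 760) (nat_lit 8543770593) (nat_lit 277) (nat_lit 5) (nat_lit 286) (nat_lit 5) (nat_lit 287) (nat_lit 5) (nat_lit 320) (nat_lit 292) (nat_lit 168))))) (XT.nd (nat_lit 234) (nat_lit 1900) (nat_lit 0) (XT.nd (nat_lit 78) (nat_lit 1520) (nat_lit 0) (XT.lf (nat_lit 0) (nat_lit 11395373328) (nat_lit 760) (nat_lit 136048418) (nat_lit 76) (nat_lit 5491241494) (nat_lit 277) (nat_lit 5) (nat_lit 287) (nat_lit 5) (nat_lit 278) (nat_lit 5) (nat_lit 321) (nat_lit 292) (nat_lit 167)) (XT.nd (nat_lit 78) (nat_lit 760) (nat_lit 0) (XT.lf (nat_lit 0) (nat_lit 12885293342) (nat_lit 760) (nat_lit 1906512998) (nat_lit 836) (nat_lit 2525958636) (nat_lit 267) (nat_lit 5)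 (nat_lit 277) (nat_lit 5) (nat_lit 278) (nat_lit 5) (nat_lit 322) (nat_lit 292) (nat_lit 166)) (XT.lf (nat_lit 0) (nat_lit 754445546) (nat_lit 760) (nat_lit 8901741624) (nat_lit 76) (nat_lit 7963560113) (nat_lit 257) (nat_lit 5) (nat_lit 267) (nat_lit 5) (nat_lit 258) (nat_lit 5) (nat_lit 323) (nat_lit 292) (nat_lit 165)))) (XT.nd (nat_lit 156) (nat_lit 1216) (nat_lit 0) (XT.nd (nat_lit 78) (nat_lit 0) (nat_lit 0) (XT.lf (nat_lit 0) (nat_lit 4157204662) (nat_lit 760) (nat_lit 13526258439) (nat_lit 76) (nat_lit 245836812) (nat_lit 248) (nat_lit 5) (nat_lit 258) (nat_lit 5) (nat_lit 249) (nat_lit 5) (nat_lit 324) (nat_lit 292) (nat_lit 164)) (XT.lf (nat_lit 0) (nat_lit 7772530702) (nat_lit 760) (nat_lit 99832323) (nat_lit 76) (nat_lit 10373576123) (nat_lit 248) (nat_lit 5) (nat_lit 258) (nat_lit 5) (nat_lit 249) (nat_lit 5) (nat_lit 325) (nat_lit 292) (nat_lit 163))) (XT.nd (nat_lit 78) (nat_lit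 608) (nat_lit 0) (XT.lf (nat_lit 0) (nat_lit 11587238239) (nat_lit 684) (nat_lit 4690281052) (nat_lit 76) (nat_lit 2292749260) (nat_lit 240) (nat_lit 5) (nat_lit 249) (nat_lit 5) (nat_lit 241) (nat_lit 5) (nat_lit 326) (nat_lit 292) (nat_lit 162)) (XT.lf (nat_lit 0) (nat_lit 9431025169) (nat_lit 608) (nat_lit 6185843644) (nat_lit 684) (nat_lit 3285458539) (nat_lit 232) (nat_lit 5) (nat_lit 240) (nat_lit 5) (nat_lit 241) (nat_lit 5) (nat_lit 327) (nat_lit 292) (nat_lit 161))))))) (XT.nd (nat_lit 1014) (nat_lit 4180) (nat_lit 0) (XT.nd (nat_lit 468) (nat_lit 3040) (nat_lit 0) (XT.nd (nat_lit 234) (nat_lit 1140) (nat_lit 0) (XT.nd (nat_lit 78) (nat_lit 608) (nat_lit 0) (XT.lf (nat_lit 0) (nat_lit 593480114) (nat_lit 684) (nat_lit 14430914809) (nat_lit 76) (nat_lit 4218347794) (nat_lit 223) (nat_lit 5) (nat_lit 232) (nat_lit 5) (nat_lit 224) (nat_lit 5) (nat_lit 328) (nat_lit 292) (nat_lit 160)) (XT.nd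 (nat_lit 78) (nat_lit 608) (nat_lit 0) (XT.lf (nat_lit 0) (nat_lit 4636791668) (nat_lit 684) (nat_lit 18953148) (nat_lit 76) (nat_lit 14935347023) (nat_lit 223) (nat_lit 5) (nat_lit 232) (nat_lit 5) (nat_lit 224) (nat_lit 5) (nat_lit 329) (nat_lit 292) (nat_lit 159)) (XT.lf (nat_lit 0) (nat_lit 8925384229) (nat_lit 684) (nat_lit 4981502634) (nat_lit 76) (nat_lit 6040533148) (nat_lit 215) (nat_lit 5) (nat_lit 224) (nat_lit 5) (nat_lit 216) (nat_lit 5) (nat_lit 330) (nat_lit 292) (nat_lit 158)))) (XT.nd (nat_lit 78) (nat_lit 608) (nat_lit 0) (XT.lf (nat_lit 0) (nat_lit 10172717685) (nat_lit 532) (nat_lit 3254305774) (nat_lit 608) (nat_lit 6885734763) (nat_lit 208) (nat_lit 5) (nat_lit 215) (nat_lit 5) (nat_lit 216) (nat_lit 5) (nat_lit 331) (nat_lit 292) (nat_lit 157)) (XT.nd (nat_lit 78) (nat_lit 76) (nat_lit 0) (XT.lf (nat_lit 0) (nat_lit 5163043249) (nat_lit 532) (nat_lit 13005613963) (nat_lit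 608) (nat_lit 2518308200) (nat_lit 201) (nat_lit 5) (nat_lit 208) (nat_lit 5) (nat_lit 209) (nat_lit 5) (nat_lit 332) (nat_lit 292) (nat_lit 156)) (XT.lf (nat_lit 0) (nat_lit 2032614694) (nat_lit 608) (nat_lit 57708196) (nat_lit 76) (nat_lit 18980257297) (nat_lit 200) (nat_lit 5) (nat_lit 208) (nat_lit 5) (nat_lit 201) (nat_lit 5) (nat_lit 333) (nat_lit 292) (nat_lit 155))))) (XT.nd (nat_lit 234) (nat_lit 1520) (nat_lit 0) (XT.nd (nat_lit 78) (nat_lit 988) (nat_lit 0) (XT.lf (nat_lit 0) (nat_lit 6838342546) (nat_lit 608) (nat_lit 5472746727) (nat_lit 76) (nat_lit 9151238539) (nat_lit 193) (nat_lit 5) (nat_lit 201) (nat_lit 5) (nat_lit 194) (nat_lit 5) (nat_lit 334) (nat_lit 292) (nat_lit 154)) (XT.nd (nat_lit 78) (nat_lit 456) (nat_lit 0) (XT.lf (nat_lit 0) (nat_lit 10765316137) (nat_lit 532) (nat_lit 1095307533) (nat_lit 608) (nat_lit 10003763511) (nat_lit 186) (nat_lit 5) (nat_lit 193) (nat_lit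 5) (nat_lit 194) (nat_lit 5) (nat_lit 335) (nat_lit 292) (nat_lit 153)) (XT.lf (nat_lit 0) (nat_lit 5273568024) (nat_lit 456) (nat_lit 11887810344) (nat_lit 532) (nat_lit 5114580602) (nat_lit 180) (nat_lit 5) (nat_lit 186) (nat_lit 5) (nat_lit 187) (nat_lit 5) (nat_lit 336) (nat_lit 292) (nat_lit 152)))) (XT.nd (nat_lit 156) (nat_lit 912) (nat_lit 0) (XT.nd (nat_lit 78) (nat_lit 608) (nat_lit 0) (XT.lf (nat_lit 0) (nat_lit 22267012492) (nat_lit 456) (nat_lit 425215155) (nat_lit 532) (nat_lit 6235371) (nat_lit 180) (nat_lit 5) (nat_lit 186) (nat_lit 5) (nat_lit 187) (nat_lit 5) (nat_lit 337) (nat_lit 292) (nat_lit 151)) (XT.lf (nat_lit 0) (nat_lit 5359224521) (nat_lit 608) (nat_lit 6397485140) (nat_lit 76) (nat_lit 11372800545) (nat_lit 172) (nat_lit 5) (nat_lit 180) (nat_lit 5) (nat_lit 173) (nat_lit 5) (nat_lit 338) (nat_lit 292) (nat_lit 150))) (XT.nd (nat_lit 78) (nat_lit 456) (nat_lit 0) (XT.lf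 (nat_lit 0) (nat_lit 10951731986) (nat_lit 532) (nat_lit 12603012146) (nat_lit 76) (nat_lit 17426531) (nat_lit 166) (nat_lit 5) (nat_lit 173) (nat_lit 5) (nat_lit 167) (nat_lit 5) (nat_lit 339) (nat_lit 292) (nat_lit 149)) (XT.lf (nat_lit 0) (nat_lit 4887797282) (nat_lit 456) (nat_lit 11967462570) (nat_lit 532) (nat_lit 7169992051) (nat_lit 160) (nat_lit 5) (nat_lit 166) (nat_lit 5) (nat_lit 167) (nat_lit 5) (nat_lit 340) (nat_lit 292) (nat_lit 148)))))) (XT.nd (nat_lit 546) (nat_lit 1900) (nat_lit 0) (XT.nd (nat_lit 234) (nat_lit 1292) (nat_lit 0) (XT.nd (nat_lit 78) (nat_lit 988) (nat_lit 0) (XT.lf (nat_lit 0) (nat_lit 23011095192) (nat_lit 532) (nat_lit 1429209928) (nat_lit 76) (nat_lit 50122129) (nat_lit 160) (nat_lit 5) (nat_lit 167) (nat_lit 5) (nat_lit 161) (nat_lit 5) (nat_lit 341) (nat_lit 292) (nat_lit 147)) (XT.nd (nat_lit 78) (nat_lit 456) (nat_lit 0) (XT.lf (nat_lit 0) (nat_lit 4505520958)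 (nat_lit 532) (nat_lit 8057269485) (nat_lit 76) (nat_lit 12402584923) (nat_lit 153) (nat_lit 5) (nat_lit 160) (nat_lit 5) (nat_lit 154) (nat_lit 5) (nat_lit 342) (nat_lit 292) (nat_lit 146)) (XT.lf (nat_lit 0) (nat_lit 10474168715) (nat_lit 456) (nat_lit 243411035) (nat_lit 532) (nat_lit 14735446709) (nat_lit 147) (nat_lit 5) (nat_lit 153) (nat_lit 5) (nat_lit 154) (nat_lit 5) (nat_lit 343) (nat_lit 292) (nat_lit 145)))) (XT.nd (nat_lit 156) (nat_lit 912) (nat_lit 0) (XT.nd (nat_lit 78) (nat_lit 0) (nat_lit 0) (XT.lf (nat_lit 0) (nat_lit 3670676753) (nat_lit 380) (nat_lit 13594991050) (nat_lit 456) (nat_lit 8686651045) (nat_lit 142) (nat_lit 5) (nat_lit 147) (nat_lit 5) (nat_lit 148) (nat_lit 5) (nat_lit 344) (nat_lit 292) (nat_lit 144)) (XT.lf (nat_lit 0) (nat_lit 23069384091) (nat_lit 380) (nat_lit 1034203342) (nat_lit 456) (nat_lit 2361139764) (nat_lit 142) (nat_lit 5) (nat_lit 147) (nat_lit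 5) (nat_lit 148) (nat_lit 5) (nat_lit 345) (nat_lit 292) (nat_lit 143))) (XT.nd (nat_lit 78) (nat_lit 380) (nat_lit 0) (XT.lf (nat_lit 0) (nat_lit 4273652871) (nat_lit 532) (nat_lit 10838187819) (nat_lit 76) (nat_lit 11876652440) (nat_lit 135) (nat_lit 5) (nat_lit 142) (nat_lit 5) (nat_lit 136) (nat_lit 5) (nat_lit 346) (nat_lit 292) (nat_lit 142)) (XT.lf (nat_lit 0) (nat_lit 8881534809) (nat_lit 380) (nat_lit 2272452496) (nat_lit 456) (nat_lit 16372105648) (nat_lit 130) (nat_lit 5) (nat_lit 135) (nat_lit 5) (nat_lit 136) (nat_lit 5) (nat_lit 347) (nat_lit 292) (nat_lit 141))))) (XT.nd (nat_lit 234) (nat_lit 1140) (nat_lit 0) (XT.nd (nat_lit 78) (nat_lit 380) (nat_lit 0) (XT.lf (nat_lit 0) (nat_lit 1193589832) (nat_lit 380) (nat_lit 17190742654) (nat_lit 456) (nat_lit 9692620727) (nat_lit 125) (nat_lit 5) (nat_lit 130) (nat_lit 5) (nat_lit 131) (nat_lit 5) (nat_lit 348) (nat_lit 292) (nat_lit 140))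 (XT.nd (nat_lit 78) (nat_lit 380) (nat_lit 0) (XT.lf (nat_lit 0) (nat_lit 21853587621) (nat_lit 380) (nat_lit 4110434580) (nat_lit 456) (nat_lit 2677672721) (nat_lit 125) (nat_lit 5) (nat_lit 130) (nat_lit 5) (nat_lit 131) (nat_lit 5) (nat_lit 349) (nat_lit 292) (nat_lit 139)) (XT.lf (nat_lit 0) (nat_lit 4632069673) (nat_lit 380) (nat_lit 15230775157) (nat_lit 76) (nat_lit 9357067830) (nat_lit 120) (nat_lit 5) (nat_lit 125) (nat_lit 5) (nat_lit 121) (nat_lit 5) (nat_lit 350) (nat_lit 292) (nat_lit 138)))) (XT.nd (nat_lit 156) (nat_lit 760) (nat_lit 0) (XT.nd (nat_lit 78) (nat_lit 0) (nat_lit 0) (XT.lf (nat_lit 0) (nat_lit 5684120921) (nat_lit 380) (nat_lit 6542852512) (nat_lit 456) (nat_lit 17586108544) (nat_lit 115) (nat_lit 5) (nat_lit 120) (nat_lit 5) (nat_lit 121) (nat_lit 5) (nat_lit 351) (nat_lit 292) (nat_lit 137)) (XT.lf (nat_lit 0) (nat_lit 20191700781) (nat_lit 456) (nat_lit 3047043279)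 (nat_lit 76) (nat_lit 7182466664) (nat_lit 115) (nat_lit 5) (nat_lit 121) (nat_lit 5) (nat_lit 116) (nat_lit 5) (nat_lit 352) (nat_lit 292) (nat_lit 136))) (XT.nd (nat_lit 78) (nat_lit 456) (nat_lit 0) (XT.lf (nat_lit 0) (nat_lit 18858554526) (nat_lit 304) (nat_lit 9694748814) (nat_lit 380) (nat_lit 2491125094) (nat_lit 111) (nat_lit 5) (nat_lit 115) (nat_lit 5) (nat_lit 116) (nat_lit 5) (nat_lit 353) (nat_lit 292) (nat_lit 135)) (XT.lf (nat_lit 0) (nat_lit 5512580786) (nat_lit 456) (nat_lit 21854088850) (nat_lit 76) (nat_lit 4316864447) (nat_lit 105) (nat_lit 5) (nat_lit 111) (nat_lit 5) (nat_lit 106) (nat_lit 5) (nat_lit 354) (nat_lit 292) (nat_lit 134))))))))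
noncomputable def xc102 : XT := (XT.nd (nat_lit 37752) (nat_lit 0) (nat_lit 3496) (XT.nd (nat_lit 36660) (nat_lit 0) (nat_lit 15656) (XT.nd (nat_lit 36114) (nat_lit 0) (nat_lit 23104) (XT.nd (nat_lit 35880) (nat_lit 0) (nat_lit 22952) (XT.nd (nat_lit 78) (nat_lit 0) (nat_lit 0) (XT.lf (nat_lit 0) (nat_lit 240777883) (nat_lit 304) (nat_lit 13623460395) (nat_lit 380) (nat_lit 18474415077) (nat_lit 101) (nat_lit 5) (nat_lit 105) (nat_lit 5) (nat_lit 106) (nat_lit 5) (nat_lit 355) (nat_lit 292) (nat_lit 133)) (XT.nd (nat_lit 35724) (nat_lit 0) (nat_lit 22952) (XT.lf (nat_lit 0) (nat_lit 22611073360) (nat_lit 380) (nat_lit 9729408085) (nat_lit 76) (nat_lit 670055585) (nat_lit 101) (nat_lit 5) (nat_lit 106) (nat_lit 5) (nat_lit 102) (nat_lit 5) (nat_lit 356) (nat_lit 292) (nat_lit 132)) (XT.lf (nat_lit 0) (nat_lit 356659203) (nat_lit 0) (nat_lit 356659203) (nat_lit 1596) (nat_lit 4895157592) (nat_lit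 403) (nat_lit 5) (nat_lit 403) (nat_lit 3) (nat_lit 424) (nat_lit 3) (nat_lit 293) (nat_lit 293) (nat_lit 194)))) (XT.nd (nat_lit 78) (nat_lit 0) (nat_lit 76) (XT.lf (nat_lit 0) (nat_lit 2274717289) (nat_lit 1596) (nat_lit 2883166041) (nat_lit 1672) (nat_lit 6210154780) (nat_lit 403) (nat_lit 5) (nat_lit 424) (nat_lit 3) (nat_lit 425) (nat_lit 5) (nat_lit 294) (nat_lit 293) (nat_lit 193)) (XT.nd (nat_lit 78) (nat_lit 0) (nat_lit 0) (XT.lf (nat_lit 0) (nat_lit 3167024042) (nat_lit 1596) (nat_lit 6524805350) (nat_lit 1672) (nat_lit 1831476501) (nat_lit 404) (nat_lit 5) (nat_lit 425) (nat_lit 5) (nat_lit 426) (nat_lit 5) (nat_lit 295) (nat_lit 293) (nat_lit 192)) (XT.lf (nat_lit 76) (nat_lit 1440996290) (nat_lit 0) (nat_lit 2678928719) (nat_lit 1672) (nat_lit 7562654245) (nat_lit 405) (nat_lit 5) (nat_lit 404) (nat_lit 5) (nat_lit 426) (nat_lit 5) (nat_lit 296) (nat_lit 293) (nat_lit 191))))) (XT.nd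 (nat_lit 234) (nat_lit 0) (nat_lit 152) (XT.nd (nat_lit 78) (nat_lit 0) (nat_lit 0) (XT.lf (nat_lit 0) (nat_lit 5146575934) (nat_lit 1596) (nat_lit 2157397617) (nat_lit 1672) (nat_lit 4541777351) (nat_lit 405) (nat_lit 5) (nat_lit 426) (nat_lit 5) (nat_lit 427) (nat_lit 5) (nat_lit 297) (nat_lit 293) (nat_lit 190)) (XT.nd (nat_lit 78) (nat_lit 0) (nat_lit 76) (XT.lf (nat_lit 76) (nat_lit 6216483920) (nat_lit 0) (nat_lit 17810432) (nat_lit 1672) (nat_lit 5778940649) (nat_lit 406) (nat_lit 5) (nat_lit 405) (nat_lit 5) (nat_lit 427) (nat_lit 5) (nat_lit 298) (nat_lit 293) (nat_lit 189)) (XT.lf (nat_lit 76) (nat_lit 2654956855) (nat_lit 0) (nat_lit 4753025597) (nat_lit 1672) (nat_lit 4776716411) (nat_lit 407) (nat_lit 5) (nat_lit 406) (nat_lit 5) (nat_lit 428) (nat_lit 5) (nat_lit 299) (nat_lit 293) (nat_lit 188)))) (XT.nd (nat_lit 156) (nat_lit 0) (nat_lit 76) (XT.nd (nat_lit 78) (nat_lit 0) (nat_lit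 0) (XT.lf (nat_lit 0) (nat_lit 8647874927) (nat_lit 1596) (nat_lit 956308689) (nat_lit 1672) (nat_lit 2756524514) (nat_lit 407) (nat_lit 5) (nat_lit 428) (nat_lit 5) (nat_lit 429) (nat_lit 5) (nat_lit 300) (nat_lit 293) (nat_lit 187)) (XT.lf (nat_lit 76) (nat_lit 7929881655) (nat_lit 0) (nat_lit 2052649946) (nat_lit 1672) (nat_lit 2558335465) (nat_lit 408) (nat_lit 5) (nat_lit 407) (nat_lit 5) (nat_lit 429) (nat_lit 5) (nat_lit 301) (nat_lit 293) (nat_lit 186))) (XT.nd (nat_lit 78) (nat_lit 0) (nat_lit 76) (XT.lf (nat_lit 76) (nat_lit 4372608438) (nat_lit 0) (nat_lit 7031700181) (nat_lit 1672) (nat_lit 1321200675) (nat_lit 409) (nat_lit 5) (nat_lit 408) (nat_lit 5) (nat_lit 430) (nat_lit 5) (nat_lit 302) (nat_lit 293) (nat_lit 185)) (XT.lf (nat_lit 76) (nat_lit 747735862) (nat_lit 0) (nat_lit 12151347068) (nat_lit 1672) (nat_lit 16020528) (nat_lit 410) (nat_lit 5) (nat_lit 409) (nat_lit 5) (nat_lit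 431) (nat_lit 5) (nat_lit 303) (nat_lit 293) (nat_lit 184)))))) (XT.nd (nat_lit 546) (nat_lit 4712) (nat_lit 0) (XT.nd (nat_lit 234) (nat_lit 1368) (nat_lit 0) (XT.nd (nat_lit 78) (nat_lit 0) (nat_lit 76) (XT.lf (nat_lit 0) (nat_lit 1390981642) (nat_lit 1672) (nat_lit 2946857107) (nat_lit 1748) (nat_lit 8770791064) (nat_lit 387) (nat_lit 5) (nat_lit 409) (nat_lit 5) (nat_lit 410) (nat_lit 5) (nat_lit 304) (nat_lit 293) (nat_lit 183)) (XT.nd (nat_lit 78) (nat_lit 0) (nat_lit 0) (XT.lf (nat_lit 0) (nat_lit 2884158718) (nat_lit 1672) (nat_lit 6711815230) (nat_lit 1748) (nat_lit 3711120310) (nat_lit 388) (nat_lit 5) (nat_lit 410) (nat_lit 5) (nat_lit 411) (nat_lit 5) (nat_lit 305) (nat_lit 293) (nat_lit 182)) (XT.lf (nat_lit 76) (nat_lit 2945349091) (nat_lit 0) (nat_lit 1522407269) (nat_lit 1748) (nat_lit 9042861312) (nat_lit 389) (nat_lit 5) (nat_lit 388) (nat_lit 5) (nat_lit 411) (nat_lit 5) (nat_lit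 306) (nat_lit 293) (nat_lit 181)))) (XT.nd (nat_lit 156) (nat_lit 1520) (nat_lit 0) (XT.nd (nat_lit 78) (nat_lit 0) (nat_lit 76) (XT.lf (nat_lit 0) (nat_lit 6166727526) (nat_lit 1672) (nat_lit 796902190) (nat_lit 1748) (nat_lit 6755276788) (nat_lit 389) (nat_lit 5) (nat_lit 411) (nat_lit 5) (nat_lit 412) (nat_lit 5) (nat_lit 307) (nat_lit 293) (nat_lit 180)) (XT.lf (nat_lit 0) (nat_lit 7975291270) (nat_lit 1672) (nat_lit 4581178656) (nat_lit 1748) (nat_lit 1375818139) (nat_lit 390) (nat_lit 5) (nat_lit 412) (nat_lit 5) (nat_lit 413) (nat_lit 5) (nat_lit 308) (nat_lit 293) (nat_lit 179))) (XT.nd (nat_lit 78) (nat_lit 1596) (nat_lit 0) (XT.lf (nat_lit 76) (nat_lit 5673364064) (nat_lit 0) (nat_lit 4232749490) (nat_lit 1748) (nat_lit 4244613538) (nat_lit 391) (nat_lit 5) (nat_lit 390) (nat_lit 5) (nat_lit 413) (nat_lit 5) (nat_lit 309) (nat_lit 293) (nat_lit 178)) (XT.lf (nat_lit 0) (nat_lit 1902601137)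 (nat_lit 1672) (nat_lit 10043728226) (nat_lit 1748) (nat_lit 2428376133) (nat_lit 369) (nat_lit 5) (nat_lit 391) (nat_lit 5) (nat_lit 392) (nat_lit 5) (nat_lit 310) (nat_lit 293) (nat_lit 177))))) (XT.nd (nat_lit 234) (nat_lit 2508) (nat_lit 0) (XT.nd (nat_lit 78) (nat_lit 2204) (nat_lit 0) (XT.lf (nat_lit 0) (nat_lit 12664482771) (nat_lit 1672) (nat_lit 1449000826) (nat_lit 1748) (nat_lit 490620146) (nat_lit 369) (nat_lit 5) (nat_lit 391) (nat_lit 5) (nat_lit 392) (nat_lit 5) (nat_lit 311) (nat_lit 293) (nat_lit 176)) (XT.nd (nat_lit 78) (nat_lit 836) (nat_lit 0) (XT.lf (nat_lit 0) (nat_lit 1573104681) (nat_lit 1368) (nat_lit 5887474251) (nat_lit 76) (nat_lit 7377872383) (nat_lit 351) (nat_lit 5) (nat_lit 369) (nat_lit 5) (nat_lit 352) (nat_lit 5) (nat_lit 312) (nat_lit 293) (nat_lit 175)) (XT.lf (nat_lit 0) (nat_lit 3738811265) (nat_lit 912) (nat_lit 9935229501) (nat_lit 76) (nat_lit 1404802956)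 (nat_lit 340) (nat_lit 5) (nat_lit 352) (nat_lit 5) (nat_lit 341) (nat_lit 5) (nat_lit 313) (nat_lit 293) (nat_lit 174)))) (XT.nd (nat_lit 156) (nat_lit 1672) (nat_lit 0) (XT.nd (nat_lit 78) (nat_lit 0) (nat_lit 0) (XT.lf (nat_lit 0) (nat_lit 1209394753) (nat_lit 836) (nat_lit 4839533169) (nat_lit 912) (nat_lit 9275944778) (nat_lit 329) (nat_lit 5) (nat_lit 340) (nat_lit 5) (nat_lit 341) (nat_lit 5) (nat_lit 314) (nat_lit 293) (nat_lit 173)) (XT.lf (nat_lit 0) (nat_lit 8505751111) (nat_lit 912) (nat_lit 2797681506) (nat_lit 76) (nat_lit 4273315048) (nat_lit 329) (nat_lit 5) (nat_lit 341) (nat_lit 5) (nat_lit 330) (nat_lit 5) (nat_lit 315) (nat_lit 293) (nat_lit 172))) (XT.nd (nat_lit 78) (nat_lit 836) (nat_lit 0) (XT.lf (nat_lit 0) (nat_lit 8927876885) (nat_lit 836) (nat_lit 2181231052) (nat_lit 912) (nat_lit 4725627158) (nat_lit 318) (nat_lit 5) (nat_lit 329) (nat_lit 5) (nat_lit 330) (nat_lit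 5) (nat_lit 316) (nat_lit 293) (nat_lit 171)) (XT.lf (nat_lit 0) (nat_lit 4944706248) (nat_lit 836) (nat_lit 8926798377) (nat_lit 912) (nat_lit 2227351163) (nat_lit 307) (nat_lit 5) (nat_lit 318) (nat_lit 5) (nat_lit 319) (nat_lit 5) (nat_lit 317) (nat_lit 293) (nat_lit 170))))))) (XT.nd (nat_lit 1014) (nat_lit 5168) (nat_lit 0) (XT.nd (nat_lit 468) (nat_lit 3952) (nat_lit 0) (XT.nd (nat_lit 234) (nat_lit 1444) (nat_lit 0) (XT.nd (nat_lit 78) (nat_lit 760) (nat_lit 0) (XT.lf (nat_lit 0) (nat_lit 394759777) (nat_lit 836) (nat_lit 15518963815) (nat_lit 76) (nat_lit 456074964) (nat_lit 296) (nat_lit 5) (nat_lit 307) (nat_lit 5) (nat_lit 297) (nat_lit 5) (nat_lit 318) (nat_lit 293) (nat_lit 169)) (XT.nd (nat_lit 78) (nat_lit 760) (nat_lit 0) (XT.lf (nat_lit 0) (nat_lit 3184791227) (nat_lit 836) (nat_lit 3370432548) (nat_lit 76) (nat_lit 10090972492) (nat_lit 296) (nat_lit 5) (nat_lit 307) (nat_lit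 5) (nat_lit 297) (nat_lit 5) (nat_lit 319) (nat_lit 293) (nat_lit 168)) (XT.lf (nat_lit 0) (nat_lit 6123028108) (nat_lit 836) (nat_lit 7702740799) (nat_lit 76) (nat_lit 3103838060) (nat_lit 286) (nat_lit 5) (nat_lit 297) (nat_lit 5) (nat_lit 287) (nat_lit 5) (nat_lit 320) (nat_lit 293) (nat_lit 167)))) (XT.nd (nat_lit 78) (nat_lit 760) (nat_lit 0) (XT.lf (nat_lit 0) (nat_lit 5032970817) (nat_lit 684) (nat_lit 4200348845) (nat_lit 760) (nat_lit 7986532995) (nat_lit 277) (nat_lit 5) (nat_lit 286) (nat_lit 5) (nat_lit 287) (nat_lit 5) (nat_lit 321) (nat_lit 293) (nat_lit 166)) (XT.nd (nat_lit 78) (nat_lit 0) (nat_lit 0) (XT.lf (nat_lit 0) (nat_lit 693832124) (nat_lit 760) (nat_lit 11821980957) (nat_lit 836) (nat_lit 5001425280) (nat_lit 267) (nat_lit 5) (nat_lit 277) (nat_lit 5) (nat_lit 278) (nat_lit 5) (nat_lit 322) (nat_lit 293) (nat_lit 165)) (XT.lf (nat_lit 0) (nat_lit 14083331994) (nat_lit 760)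 (nat_lit 1909025100) (nat_lit 836) (nat_lit 1829287226) (nat_lit 267) (nat_lit 5) (nat_lit 277) (nat_lit 5) (nat_lit 278) (nat_lit 5) (nat_lit 323) (nat_lit 293) (nat_lit 164))))) (XT.nd (nat_lit 234) (nat_lit 1900) (nat_lit 0) (XT.nd (nat_lit 78) (nat_lit 1292) (nat_lit 0) (XT.lf (nat_lit 0) (nat_lit 1522857642) (nat_lit 760) (nat_lit 8345025204) (nat_lit 76) (nat_lit 8265048539) (nat_lit 257) (nat_lit 5) (nat_lit 267) (nat_lit 5) (nat_lit 258) (nat_lit 5) (nat_lit 324) (nat_lit 293) (nat_lit 163)) (XT.nd (nat_lit 78) (nat_lit 608) (nat_lit 0) (XT.lf (nat_lit 0) (nat_lit 5011765961) (nat_lit 760) (nat_lit 13107103888) (nat_lit 76) (nat_lit 333233769) (nat_lit 248) (nat_lit 5) (nat_lit 258) (nat_lit 5) (nat_lit 249) (nat_lit 5) (nat_lit 325) (nat_lit 293) (nat_lit 162)) (XT.lf (nat_lit 0) (nat_lit 707364781) (nat_lit 608) (nat_lit 8011522056) (nat_lit 684) (nat_lit 10059702425) (nat_lit 240) (nat_lit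 5) (nat_lit 248) (nat_lit 5) (nat_lit 249) (nat_lit 5) (nat_lit 326) (nat_lit 293) (nat_lit 161)))) (XT.nd (nat_lit 156) (nat_lit 1292) (nat_lit 0) (XT.nd (nat_lit 78) (nat_lit 608) (nat_lit 0) (XT.lf (nat_lit 0) (nat_lit 12628536022) (nat_lit 684) (nat_lit 4029372163) (nat_lit 76) (nat_lit 2455143881) (nat_lit 240) (nat_lit 5) (nat_lit 249) (nat_lit 5) (nat_lit 241) (nat_lit 5) (nat_lit 327) (nat_lit 293) (nat_lit 160)) (XT.lf (nat_lit 0) (nat_lit 10502567956) (nat_lit 608) (nat_lit 6261403459) (nat_lit 684) (nat_lit 2691416031) (nat_lit 232) (nat_lit 5) (nat_lit 240) (nat_lit 5) (nat_lit 241) (nat_lit 5) (nat_lit 328) (nat_lit 293) (nat_lit 159))) (XT.nd (nat_lit 78) (nat_lit 608) (nat_lit 0) (XT.lf (nat_lit 0) (nat_lit 1280752748) (nat_lit 684) (nat_lit 14065631196) (nat_lit 76) (nat_lit 4459834982) (nat_lit 223) (nat_lit 5) (nat_lit 232) (nat_lit 5) (nat_lit 224) (nat_lit 5) (nat_lit 329) (nat_lit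 293) (nat_lit 158)) (XT.lf (nat_lit 0) (nat_lit 765479855) (nat_lit 608) (nat_lit 4665354721) (nat_lit 684) (nat_lit 14734486663) (nat_lit 215) (nat_lit 5) (nat_lit 223) (nat_lit 5) (nat_lit 224) (nat_lit 5) (nat_lit 330) (nat_lit 293) (nat_lit 157)))))) (XT.nd (nat_lit 546) (nat_lit 2508) (nat_lit 0) (XT.nd (nat_lit 234) (nat_lit 1596) (nat_lit 0) (XT.nd (nat_lit 78) (nat_lit 1064) (nat_lit 0) (XT.lf (nat_lit 0) (nat_lit 9829954390) (nat_lit 684) (nat_lit 4356266497) (nat_lit 76) (nat_lit 6346492764) (nat_lit 215) (nat_lit 5) (nat_lit 224) (nat_lit 5) (nat_lit 216) (nat_lit 5) (nat_lit 331) (nat_lit 293) (nat_lit 156)) (XT.nd (nat_lit 78) (nat_lit 532) (nat_lit 0) (XT.lf (nat_lit 0) (nat_lit 11240012149) (nat_lit 532) (nat_lit 3213030966) (nat_lit 608) (nat_lit 6456252327) (nat_lit 208) (nat_lit 5) (nat_lit 215) (nat_lit 5) (nat_lit 216) (nat_lit 5) (nat_lit 332) (nat_lit 293) (nat_lit 155)) (XT.lf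 (nat_lit 0) (nat_lit 6079433002) (nat_lit 532) (nat_lit 13245160904) (nat_lit 608) (nat_lit 1970392688) (nat_lit 201) (nat_lit 5) (nat_lit 208) (nat_lit 5) (nat_lit 209) (nat_lit 5) (nat_lit 333) (nat_lit 293) (nat_lit 154)))) (XT.nd (nat_lit 156) (nat_lit 988) (nat_lit 0) (XT.nd (nat_lit 78) (nat_lit 0) (nat_lit 0) (XT.lf (nat_lit 0) (nat_lit 697315971) (nat_lit 532) (nat_lit 1998171499) (nat_lit 608) (nat_lit 18994819827) (nat_lit 193) (nat_lit 5) (nat_lit 200) (nat_lit 5) (nat_lit 201) (nat_lit 5) (nat_lit 334) (nat_lit 293) (nat_lit 153)) (XT.lf (nat_lit 0) (nat_lit 7629214604) (nat_lit 608) (nat_lit 4890389908) (nat_lit 76) (nat_lit 9574536555) (nat_lit 193) (nat_lit 5) (nat_lit 201) (nat_lit 5) (nat_lit 194) (nat_lit 5) (nat_lit 335) (nat_lit 293) (nat_lit 152))) (XT.nd (nat_lit 78) (nat_lit 456) (nat_lit 0) (XT.lf (nat_lit 0) (nat_lit 11822703130) (nat_lit 532) (nat_lit 967169565) (nat_lit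 608) (nat_lit 9718645316) (nat_lit 186) (nat_lit 5) (nat_lit 193) (nat_lit 5) (nat_lit 194) (nat_lit 5) (nat_lit 336) (nat_lit 293) (nat_lit 151)) (XT.lf (nat_lit 0) (nat_lit 6164868350) (nat_lit 456) (nat_lit 12073854413) (nat_lit 532) (nat_lit 4693942411) (nat_lit 180) (nat_lit 5) (nat_lit 186) (nat_lit 5) (nat_lit 187) (nat_lit 5) (nat_lit 337) (nat_lit 293) (nat_lit 150))))) (XT.nd (nat_lit 234) (nat_lit 1444) (nat_lit 0) (XT.nd (nat_lit 78) (nat_lit 456) (nat_lit 0) (XT.lf (nat_lit 0) (nat_lit 278660169) (nat_lit 532) (nat_lit 266856025) (nat_lit 608) (nat_lit 22822557490) (nat_lit 172) (nat_lit 5) (nat_lit 179) (nat_lit 5) (nat_lit 180) (nat_lit 5) (nat_lit 338) (nat_lit 293) (nat_lit 149)) (XT.nd (nat_lit 78) (nat_lit 456) (nat_lit 0) (XT.lf (nat_lit 0) (nat_lit 6059718149) (nat_lit 608) (nat_lit 5871749872) (nat_lit 76) (nat_lit 11880835124) (nat_lit 172) (nat_lit 5) (nat_lit 180) (nat_lit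 5) (nat_lit 173) (nat_lit 5) (nat_lit 339) (nat_lit 293) (nat_lit 148)) (XT.lf (nat_lit 0) (nat_lit 11810016887) (nat_lit 532) (nat_lit 12265376929) (nat_lit 76) (nat_lit 193057959) (nat_lit 166) (nat_lit 5) (nat_lit 173) (nat_lit 5) (nat_lit 167) (nat_lit 5) (nat_lit 340) (nat_lit 293) (nat_lit 147)))) (XT.nd (nat_lit 156) (nat_lit 988) (nat_lit 0) (XT.nd (nat_lit 78) (nat_lit 0) (nat_lit 0) (XT.lf (nat_lit 0) (nat_lit 5738544985) (nat_lit 456) (nat_lit 12141248063) (nat_lit 532) (nat_lit 6855557983) (nat_lit 160) (nat_lit 5) (nat_lit 166) (nat_lit 5) (nat_lit 167) (nat_lit 5) (nat_lit 341) (nat_lit 293) (nat_lit 146)) (XT.lf (nat_lit 0) (nat_lit 24206358233) (nat_lit 532) (nat_lit 779300280) (nat_lit 76) (nat_lit 229110209) (nat_lit 160) (nat_lit 5) (nat_lit 167) (nat_lit 5) (nat_lit 161) (nat_lit 5) (nat_lit 342) (nat_lit 293) (nat_lit 145))) (XT.nd (nat_lit 78) (nat_lit 456) (nat_lit 0) (XT.lf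 (nat_lit 0) (nat_lit 5138872260) (nat_lit 532) (nat_lit 7610561024) (nat_lit 76) (nat_lit 12954680027) (nat_lit 153) (nat_lit 5) (nat_lit 160) (nat_lit 5) (nat_lit 154) (nat_lit 5) (nat_lit 343) (nat_lit 293) (nat_lit 144)) (XT.lf (nat_lit 0) (nat_lit 11465651419) (nat_lit 456) (nat_lit 61528339) (nat_lit 532) (nat_lit 14679423999) (nat_lit 147) (nat_lit 5) (nat_lit 153) (nat_lit 5) (nat_lit 154) (nat_lit 5) (nat_lit 344) (nat_lit 293) (nat_lit 143))))))))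
noncomputable def xc103 : XT := (XT.nd (nat_lit 37908) (nat_lit 0) (nat_lit 6688) (XT.nd (nat_lit 36816) (nat_lit 0) (nat_lit 21432) (XT.nd (nat_lit 468) (nat_lit 1520) (nat_lit 0) (XT.nd (nat_lit 234) (nat_lit 760) (nat_lit 0) (XT.nd (nat_lit 78) (nat_lit 532) (nat_lit 0) (XT.lf (nat_lit 0) (nat_lit 4455709650) (nat_lit 380) (nat_lit 13807359615) (nat_lit 456) (nat_lit 8457985819) (nat_lit 142) (nat_lit 5) (nat_lit 147) (nat_lit 5) (nat_lit 148) (nat_lit 5) (nat_lit 345) (nat_lit 293) (nat_lit 142)) (XT.nd (nat_lit 78) (nat_lit 532) (nat_lit 0) (XT.lf (nat_lit 0) (nat_lit 24416720559) (nat_lit 380) (nat_lit 875441902) (nat_lit 456) (nat_lit 1956959629) (nat_lit 142) (nat_lit 5) (nat_lit 147) (nat_lit 5) (nat_lit 148) (nat_lit 5) (nat_lit 346) (nat_lit 293) (nat_lit 141)) (XT.lf (nat_lit 0) (nat_lit 4862463736) (nat_lit 532) (nat_lit 10504182161) (nat_lit 76) (nat_lit 12422063869) (nat_lit 135)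 (nat_lit 5) (nat_lit 142) (nat_lit 5) (nat_lit 136) (nat_lit 5) (nat_lit 347) (nat_lit 293) (nat_lit 140)))) (XT.nd (nat_lit 78) (nat_lit 380) (nat_lit 0) (XT.lf (nat_lit 0) (nat_lit 9796438199) (nat_lit 380) (nat_lit 2143564648) (nat_lit 456) (nat_lit 16402625430) (nat_lit 130) (nat_lit 5) (nat_lit 135) (nat_lit 5) (nat_lit 136) (nat_lit 5) (nat_lit 348) (nat_lit 293) (nat_lit 139)) (XT.nd (nat_lit 78) (nat_lit 0) (nat_lit 0) (XT.lf (nat_lit 0) (nat_lit 1875173162) (nat_lit 380) (nat_lit 17504372759) (nat_lit 456) (nat_lit 9530629068) (nat_lit 125) (nat_lit 5) (nat_lit 130) (nat_lit 5) (nat_lit 131) (nat_lit 5) (nat_lit 349) (nat_lit 293) (nat_lit 138)) (XT.lf (nat_lit 0) (nat_lit 23136161886) (nat_lit 380) (nat_lit 4037541623) (nat_lit 456) (nat_lit 2318420105) (nat_lit 125) (nat_lit 5) (nat_lit 130) (nat_lit 5) (nat_lit 131) (nat_lit 5) (nat_lit 350) (nat_lit 293) (nat_lit 137))))) (XT.nd (nat_lit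 234) (nat_lit 760) (nat_lit 0) (XT.nd (nat_lit 78) (nat_lit 380) (nat_lit 0) (XT.lf (nat_lit 0) (nat_lit 5197538570) (nat_lit 380) (nat_lit 15057612743) (nat_lit 76) (nat_lit 9832631615) (nat_lit 120) (nat_lit 5) (nat_lit 125) (nat_lit 5) (nat_lit 121) (nat_lit 5) (nat_lit 351) (nat_lit 293) (nat_lit 136)) (XT.nd (nat_lit 78) (nat_lit 0) (nat_lit 0) (XT.lf (nat_lit 0) (nat_lit 6474507826) (nat_lit 380) (nat_lit 6537383652) (nat_lit 456) (nat_lit 17687029542) (nat_lit 115) (nat_lit 5) (nat_lit 120) (nat_lit 5) (nat_lit 121) (nat_lit 5) (nat_lit 352) (nat_lit 293) (nat_lit 135)) (XT.lf (nat_lit 0) (nat_lit 21204654489) (nat_lit 456) (nat_lit 2529613054) (nat_lit 76) (nat_lit 7591249780) (nat_lit 115) (nat_lit 5) (nat_lit 121) (nat_lit 5) (nat_lit 116) (nat_lit 5) (nat_lit 353) (nat_lit 293) (nat_lit 134)))) (XT.nd (nat_lit 35958) (nat_lit 0) (nat_lit 22648) (XT.nd (nat_lit 78) (nat_lit 456) (nat_lit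 0) (XT.lf (nat_lit 0) (nat_lit 20023274955) (nat_lit 304) (nat_lit 9785858768) (nat_lit 380) (nat_lit 2158462677) (nat_lit 111) (nat_lit 5) (nat_lit 115) (nat_lit 5) (nat_lit 116) (nat_lit 5) (nat_lit 354) (nat_lit 293) (nat_lit 133)) (XT.lf (nat_lit 0) (nat_lit 6073463658) (nat_lit 456) (nat_lit 21908280896) (nat_lit 76) (nat_lit 4644213864) (nat_lit 105) (nat_lit 5) (nat_lit 111) (nat_lit 5) (nat_lit 106) (nat_lit 5) (nat_lit 355) (nat_lit 293) (nat_lit 132))) (XT.nd (nat_lit 78) (nat_lit 0) (nat_lit 0) (XT.lf (nat_lit 0) (nat_lit 756494387) (nat_lit 0) (nat_lit 756494387) (nat_lit 1596) (nat_lit 4247547639) (nat_lit 403) (nat_lit 5) (nat_lit 403) (nat_lit 3) (nat_lit 424) (nat_lit 3) (nat_lit 294) (nat_lit 294) (nat_lit 192)) (XT.lf (nat_lit 0) (nat_lit 3849258401) (nat_lit 1596) (nat_lit 2177708017) (nat_lit 1672) (nat_lit 5650766555) (nat_lit 403) (nat_lit 5) (nat_lit 424) (nat_lit 3) (nat_lit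 425) (nat_lit 5) (nat_lit 295) (nat_lit 294) (nat_lit 191)))))) (XT.nd (nat_lit 546) (nat_lit 1292) (nat_lit 0) (XT.nd (nat_lit 234) (nat_lit 0) (nat_lit 76) (XT.nd (nat_lit 78) (nat_lit 0) (nat_lit 0) (XT.lf (nat_lit 0) (nat_lit 4725050593) (nat_lit 1596) (nat_lit 5906441128) (nat_lit 1672) (nat_lit 1207068288) (nat_lit 404) (nat_lit 5) (nat_lit 425) (nat_lit 5) (nat_lit 426) (nat_lit 5) (nat_lit 296) (nat_lit 294) (nat_lit 190)) (XT.nd (nat_lit 78) (nat_lit 0) (nat_lit 76) (XT.lf (nat_lit 76) (nat_lit 2285126620) (nat_lit 0) (nat_lit 3383999834) (nat_lit 1672) (nat_lit 6334267866) (nat_lit 405) (nat_lit 5) (nat_lit 404) (nat_lit 5) (nat_lit 426) (nat_lit 5) (nat_lit 297) (nat_lit 294) (nat_lit 189)) (XT.lf (nat_lit 0) (nat_lit 6681116616) (nat_lit 1596) (nat_lit 1411810087) (nat_lit 1672) (nat_lit 4079477121) (nat_lit 405) (nat_lit 5) (nat_lit 426) (nat_lit 5) (nat_lit 427) (nat_lit 5) (nat_lit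 298) (nat_lit 294) (nat_lit 188)))) (XT.nd (nat_lit 156) (nat_lit 0) (nat_lit 152) (XT.nd (nat_lit 78) (nat_lit 0) (nat_lit 76) (XT.lf (nat_lit 76) (nat_lit 7200141587) (nat_lit 0) (nat_lit 566302360) (nat_lit 1672) (nat_lit 4579201479) (nat_lit 406) (nat_lit 5) (nat_lit 405) (nat_lit 5) (nat_lit 427) (nat_lit 5) (nat_lit 299) (nat_lit 294) (nat_lit 187)) (XT.lf (nat_lit 76) (nat_lit 3549868245) (nat_lit 0) (nat_lit 5388135315) (nat_lit 1672) (nat_lit 3585028006) (nat_lit 407) (nat_lit 5) (nat_lit 406) (nat_lit 5) (nat_lit 428) (nat_lit 5) (nat_lit 300) (nat_lit 294) (nat_lit 186))) (XT.nd (nat_lit 78) (nat_lit 0) (nat_lit 0) (XT.lf (nat_lit 0) (nat_lit 10173897461) (nat_lit 1596) (nat_lit 163960370) (nat_lit 1672) (nat_lit 2367317846) (nat_lit 407) (nat_lit 5) (nat_lit 428) (nat_lit 5) (nat_lit 429) (nat_lit 5) (nat_lit 301) (nat_lit 294) (nat_lit 185)) (XT.lf (nat_lit 76) (nat_lit 8975495326)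 (nat_lit 0) (nat_lit 2541451883) (nat_lit 1672) (nat_lit 1374454872) (nat_lit 408) (nat_lit 5) (nat_lit 407) (nat_lit 5) (nat_lit 429) (nat_lit 5) (nat_lit 302) (nat_lit 294) (nat_lit 184))))) (XT.nd (nat_lit 234) (nat_lit 0) (nat_lit 76) (XT.nd (nat_lit 78) (nat_lit 1596) (nat_lit 0) (XT.lf (nat_lit 76) (nat_lit 5326402662) (nat_lit 0) (nat_lit 7621653706) (nat_lit 1672) (nat_lit 134222528) (nat_lit 409) (nat_lit 5) (nat_lit 408) (nat_lit 5) (nat_lit 430) (nat_lit 5) (nat_lit 303) (nat_lit 294) (nat_lit 183)) (XT.nd (nat_lit 78) (nat_lit 0) (nat_lit 0) (XT.lf (nat_lit 0) (nat_lit 1162044870) (nat_lit 1672) (nat_lit 11679424229) (nat_lit 1748) (nat_lit 436606102) (nat_lit 387) (nat_lit 5) (nat_lit 409) (nat_lit 5) (nat_lit 410) (nat_lit 5) (nat_lit 304) (nat_lit 294) (nat_lit 182)) (XT.lf (nat_lit 0) (nat_lit 2576720412) (nat_lit 1672) (nat_lit 2207246064) (nat_lit 1748) (nat_lit 8694151842) (nat_lit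 387) (nat_lit 5) (nat_lit 409) (nat_lit 5) (nat_lit 410) (nat_lit 5) (nat_lit 305) (nat_lit 294) (nat_lit 181)))) (XT.nd (nat_lit 156) (nat_lit 0) (nat_lit 76) (XT.nd (nat_lit 78) (nat_lit 0) (nat_lit 0) (XT.lf (nat_lit 0) (nat_lit 4084704102) (nat_lit 1672) (nat_lit 6073445842) (nat_lit 1748) (nat_lit 3525012454) (nat_lit 388) (nat_lit 5) (nat_lit 410) (nat_lit 5) (nat_lit 411) (nat_lit 5) (nat_lit 306) (nat_lit 294) (nat_lit 180)) (XT.lf (nat_lit 76) (nat_lit 3859809888) (nat_lit 0) (nat_lit 1828916174) (nat_lit 1748) (nat_lit 8204632296) (nat_lit 389) (nat_lit 5) (nat_lit 388) (nat_lit 5) (nat_lit 411) (nat_lit 5) (nat_lit 307) (nat_lit 294) (nat_lit 179))) (XT.nd (nat_lit 78) (nat_lit 0) (nat_lit 76) (XT.lf (nat_lit 76) (nat_lit 4858041) (nat_lit 0) (nat_lit 7400537304) (nat_lit 1748) (nat_lit 6703190370) (nat_lit 390) (nat_lit 5) (nat_lit 389) (nat_lit 5) (nat_lit 412) (nat_lit 5) (nat_lit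 308) (nat_lit 294) (nat_lit 178)) (XT.lf (nat_lit 0) (nat_lit 9241366997) (nat_lit 1672) (nat_lit 3883647062) (nat_lit 1748) (nat_lit 1203915373) (nat_lit 390) (nat_lit 5) (nat_lit 412) (nat_lit 5) (nat_lit 413) (nat_lit 5) (nat_lit 309) (nat_lit 294) (nat_lit 177))))))) (XT.nd (nat_lit 1014) (nat_lit 6384) (nat_lit 0) (XT.nd (nat_lit 468) (nat_lit 3952) (nat_lit 0) (XT.nd (nat_lit 234) (nat_lit 2964) (nat_lit 0) (XT.nd (nat_lit 78) (nat_lit 1672) (nat_lit 0) (XT.lf (nat_lit 76) (nat_lit 6664985593) (nat_lit 0) (nat_lit 4540554273) (nat_lit 1748) (nat_lit 3348896283) (nat_lit 391) (nat_lit 5) (nat_lit 390) (nat_lit 5) (nat_lit 413) (nat_lit 5) (nat_lit 310) (nat_lit 294) (nat_lit 176)) (XT.nd (nat_lit 78) (nat_lit 76) (nat_lit 0) (XT.lf (nat_lit 0) (nat_lit 2789403270) (nat_lit 1672) (nat_lit 10492614635) (nat_lit 1748) (nat_lit 1503637251) (nat_lit 369) (nat_lit 5) (nat_lit 391) (nat_lit 5) (nat_lit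 392) (nat_lit 5) (nat_lit 311) (nat_lit 294) (nat_lit 175)) (XT.lf (nat_lit 0) (nat_lit 457120499) (nat_lit 1748) (nat_lit 1175559106) (nat_lit 76) (nat_lit 13389786613) (nat_lit 368) (nat_lit 5) (nat_lit 391) (nat_lit 5) (nat_lit 369) (nat_lit 5) (nat_lit 312) (nat_lit 294) (nat_lit 174)))) (XT.nd (nat_lit 78) (nat_lit 1672) (nat_lit 0) (XT.lf (nat_lit 0) (nat_lit 2552692657) (nat_lit 1368) (nat_lit 5238234293) (nat_lit 76) (nat_lit 7473341050) (nat_lit 351) (nat_lit 5) (nat_lit 369) (nat_lit 5) (nat_lit 352) (nat_lit 5) (nat_lit 313) (nat_lit 294) (nat_lit 173)) (XT.nd (nat_lit 78) (nat_lit 836) (nat_lit 0) (XT.lf (nat_lit 0) (nat_lit 4760851786) (nat_lit 912) (nat_lit 9401305133) (nat_lit 76) (nat_lit 1350185702) (nat_lit 340) (nat_lit 5) (nat_lit 352) (nat_lit 5) (nat_lit 341) (nat_lit 5) (nat_lit 314) (nat_lit 294) (nat_lit 172)) (XT.lf (nat_lit 0) (nat_lit 2064159941) (nat_lit 836) (nat_lit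 5054924889) (nat_lit 912) (nat_lit 8647110862) (nat_lit 329) (nat_lit 5) (nat_lit 340) (nat_lit 5) (nat_lit 341) (nat_lit 5) (nat_lit 315) (nat_lit 294) (nat_lit 171))))) (XT.nd (nat_lit 234) (nat_lit 2280) (nat_lit 0) (XT.nd (nat_lit 78) (nat_lit 1672) (nat_lit 0) (XT.lf (nat_lit 0) (nat_lit 9623286022) (nat_lit 912) (nat_lit 2068638789) (nat_lit 76) (nat_lit 4334247543) (nat_lit 329) (nat_lit 5) (nat_lit 341) (nat_lit 5) (nat_lit 330) (nat_lit 5) (nat_lit 316) (nat_lit 294) (nat_lit 170)) (XT.nd (nat_lit 78) (nat_lit 836) (nat_lit 0) (XT.lf (nat_lit 0) (nat_lit 9995496830) (nat_lit 836) (nat_lit 2289322098) (nat_lit 912) (nat_lit 4007497336) (nat_lit 318) (nat_lit 5) (nat_lit 329) (nat_lit 5) (nat_lit 330) (nat_lit 5) (nat_lit 317) (nat_lit 294) (nat_lit 169)) (XT.lf (nat_lit 0) (nat_lit 5897305582) (nat_lit 836) (nat_lit 9213197817) (nat_lit 912) (nat_lit 1454266690) (nat_lit 307) (nat_lit 5)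 (nat_lit 318) (nat_lit 5) (nat_lit 319) (nat_lit 5) (nat_lit 318) (nat_lit 294) (nat_lit 168)))) (XT.nd (nat_lit 156) (nat_lit 1444) (nat_lit 0) (XT.nd (nat_lit 78) (nat_lit 0) (nat_lit 0) (XT.lf (nat_lit 0) (nat_lit 1216513157) (nat_lit 836) (nat_lit 15165100244) (nat_lit 76) (nat_lit 462515223) (nat_lit 296) (nat_lit 5) (nat_lit 307) (nat_lit 5) (nat_lit 297) (nat_lit 5) (nat_lit 319) (nat_lit 294) (nat_lit 167)) (XT.lf (nat_lit 0) (nat_lit 4066655922) (nat_lit 836) (nat_lit 2675980005) (nat_lit 76) (nat_lit 10386670609) (nat_lit 296) (nat_lit 5) (nat_lit 307) (nat_lit 5) (nat_lit 297) (nat_lit 5) (nat_lit 320) (nat_lit 294) (nat_lit 166))) (XT.nd (nat_lit 78) (nat_lit 684) (nat_lit 0) (XT.lf (nat_lit 0) (nat_lit 7075310821) (nat_lit 836) (nat_lit 7135353332) (nat_lit 76) (nat_lit 3210925982) (nat_lit 286) (nat_lit 5) (nat_lit 297) (nat_lit 5) (nat_lit 287) (nat_lit 5) (nat_lit 321) (nat_lit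 294) (nat_lit 165)) (XT.lf (nat_lit 0) (nat_lit 5969475411) (nat_lit 684) (nat_lit 4292149627) (nat_lit 760) (nat_lit 7459279409) (nat_lit 277) (nat_lit 5) (nat_lit 286) (nat_lit 5) (nat_lit 287) (nat_lit 5) (nat_lit 322) (nat_lit 294) (nat_lit 164)))))) (XT.nd (nat_lit 546) (nat_lit 2964) (nat_lit 0) (XT.nd (nat_lit 234) (nat_lit 1900) (nat_lit 0) (XT.nd (nat_lit 78) (nat_lit 760) (nat_lit 0) (XT.lf (nat_lit 0) (nat_lit 1502491604) (nat_lit 760) (nat_lit 12123549815) (nat_lit 836) (nat_lit 4401516418) (nat_lit 267) (nat_lit 5) (nat_lit 277) (nat_lit 5) (nat_lit 278) (nat_lit 5) (nat_lit 323) (nat_lit 294) (nat_lit 163)) (XT.nd (nat_lit 78) (nat_lit 760) (nat_lit 0) (XT.lf (nat_lit 0) (nat_lit 15270729543) (nat_lit 760) (nat_lit 1914751609) (nat_lit 836) (nat_lit 1156057473) (nat_lit 267) (nat_lit 5) (nat_lit 277) (nat_lit 5) (nat_lit 278) (nat_lit 5) (nat_lit 324) (nat_lit 294) (nat_lit 162))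 (XT.lf (nat_lit 0) (nat_lit 2271511351) (nat_lit 760) (nat_lit 7818894984) (nat_lit 76) (nat_lit 8571989176) (nat_lit 257) (nat_lit 5) (nat_lit 267) (nat_lit 5) (nat_lit 258) (nat_lit 5) (nat_lit 325) (nat_lit 294) (nat_lit 161)))) (XT.nd (nat_lit 156) (nat_lit 608) (nat_lit 0) (XT.nd (nat_lit 78) (nat_lit 608) (nat_lit 0) (XT.lf (nat_lit 0) (nat_lit 5850068001) (nat_lit 760) (nat_lit 12722729763) (nat_lit 76) (nat_lit 418659052) (nat_lit 248) (nat_lit 5) (nat_lit 258) (nat_lit 5) (nat_lit 249) (nat_lit 5) (nat_lit 326) (nat_lit 294) (nat_lit 160)) (XT.lf (nat_lit 0) (nat_lit 1493557536) (nat_lit 608) (nat_lit 8159774320) (nat_lit 684) (nat_lit 9674719721) (nat_lit 240) (nat_lit 5) (nat_lit 248) (nat_lit 5) (nat_lit 249) (nat_lit 5) (nat_lit 327) (nat_lit 294) (nat_lit 159))) (XT.nd (nat_lit 78) (nat_lit 608) (nat_lit 0) (XT.lf (nat_lit 0) (nat_lit 13661252633) (nat_lit 684) (nat_lit 3394652120)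 (nat_lit 76) (nat_lit 2617036622) (nat_lit 240) (nat_lit 5) (nat_lit 249) (nat_lit 5) (nat_lit 241) (nat_lit 5) (nat_lit 328) (nat_lit 294) (nat_lit 158)) (XT.lf (nat_lit 0) (nat_lit 11560987470) (nat_lit 608) (nat_lit 6345545408) (nat_lit 684) (nat_lit 2119310682) (nat_lit 232) (nat_lit 5) (nat_lit 240) (nat_lit 5) (nat_lit 241) (nat_lit 5) (nat_lit 329) (nat_lit 294) (nat_lit 157))))) (XT.nd (nat_lit 234) (nat_lit 1672) (nat_lit 0) (XT.nd (nat_lit 78) (nat_lit 608) (nat_lit 0) (XT.lf (nat_lit 0) (nat_lit 1950213345) (nat_lit 684) (nat_lit 13735209654) (nat_lit 76) (nat_lit 4701968945) (nat_lit 223) (nat_lit 5) (nat_lit 232) (nat_lit 5) (nat_lit 224) (nat_lit 5) (nat_lit 330) (nat_lit 294) (nat_lit 156)) (XT.nd (nat_lit 78) (nat_lit 0) (nat_lit 0) (XT.lf (nat_lit 0) (nat_lit 1528628086) (nat_lit 608) (nat_lit 4682595559) (nat_lit 684) (nat_lit 14546326603) (nat_lit 215) (nat_lit 5) (nat_lit 223)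 (nat_lit 5) (nat_lit 224) (nat_lit 5) (nat_lit 331) (nat_lit 294) (nat_lit 155)) (XT.lf (nat_lit 0) (nat_lit 10725106235) (nat_lit 684) (nat_lit 3756743146) (nat_lit 76) (nat_lit 6654470374) (nat_lit 215) (nat_lit 5) (nat_lit 224) (nat_lit 5) (nat_lit 216) (nat_lit 5) (nat_lit 332) (nat_lit 294) (nat_lit 154)))) (XT.nd (nat_lit 156) (nat_lit 608) (nat_lit 0) (XT.nd (nat_lit 78) (nat_lit 532) (nat_lit 0) (XT.lf (nat_lit 0) (nat_lit 12295577047) (nat_lit 532) (nat_lit 3178491570) (nat_lit 608) (nat_lit 6050397547) (nat_lit 208) (nat_lit 5) (nat_lit 215) (nat_lit 5) (nat_lit 216) (nat_lit 5) (nat_lit 333) (nat_lit 294) (nat_lit 153)) (XT.lf (nat_lit 0) (nat_lit 6979601320) (nat_lit 532) (nat_lit 13500540542) (nat_lit 608) (nat_lit 1441829139) (nat_lit 201) (nat_lit 5) (nat_lit 208) (nat_lit 5) (nat_lit 209) (nat_lit 5) (nat_lit 334) (nat_lit 294) (nat_lit 152))) (XT.nd (nat_lit 78) (nat_lit 0) (nat_lit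 0) (XT.lf (nat_lit 0) (nat_lit 1432294581) (nat_lit 532) (nat_lit 1911769253) (nat_lit 608) (nat_lit 18985266268) (nat_lit 193) (nat_lit 5) (nat_lit 200) (nat_lit 5) (nat_lit 201) (nat_lit 5) (nat_lit 335) (nat_lit 294) (nat_lit 151)) (XT.lf (nat_lit 0) (nat_lit 8410189998) (nat_lit 608) (nat_lit 4333416789) (nat_lit 76) (nat_lit 10001994029) (nat_lit 193) (nat_lit 5) (nat_lit 201) (nat_lit 5) (nat_lit 194) (nat_lit 5) (nat_lit 336) (nat_lit 294) (nat_lit 150))))))))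
noncomputable def xc104 : XT := (XT.nd (nat_lit 37908) (nat_lit 0) (nat_lit 9804) (XT.nd (nat_lit 1014) (nat_lit 1444) (nat_lit 0) (XT.nd (nat_lit 468) (nat_lit 2280) (nat_lit 0) (XT.nd (nat_lit 234) (nat_lit 912) (nat_lit 0) (XT.nd (nat_lit 78) (nat_lit 1064) (nat_lit 0) (XT.lf (nat_lit 0) (nat_lit 12869652590) (nat_lit 532) (nat_lit 844429355) (nat_lit 608) (nat_lit 9458568235) (nat_lit 186) (nat_lit 5) (nat_lit 193) (nat_lit 5) (nat_lit 194) (nat_lit 5) (nat_lit 337) (nat_lit 294) (nat_lit 149)) (XT.nd (nat_lit 78) (nat_lit 608) (nat_lit 0) (XT.lf (nat_lit 0) (nat_lit 7040825132) (nat_lit 456) (nat_lit 12275272382) (nat_lit 532) (nat_lit 4293639364) (nat_lit 180) (nat_lit 5) (nat_lit 186) (nat_lit 5) (nat_lit 187) (nat_lit 5) (nat_lit 338) (nat_lit 294) (nat_lit 148)) (XT.lf (nat_lit 0) (nat_lit 974094837) (nat_lit 532) (nat_lit 110718095) (nat_lit 608) (nat_lit 22973554987) (nat_lit 172) (nat_lit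 5) (nat_lit 179) (nat_lit 5) (nat_lit 180) (nat_lit 5) (nat_lit 339) (nat_lit 294) (nat_lit 147)))) (XT.nd (nat_lit 78) (nat_lit 912) (nat_lit 0) (XT.lf (nat_lit 0) (nat_lit 6750244628) (nat_lit 608) (nat_lit 5371439155) (nat_lit 76) (nat_lit 12394532835) (nat_lit 172) (nat_lit 5) (nat_lit 180) (nat_lit 5) (nat_lit 173) (nat_lit 5) (nat_lit 340) (nat_lit 294) (nat_lit 146)) (XT.nd (nat_lit 78) (nat_lit 456) (nat_lit 0) (XT.lf (nat_lit 0) (nat_lit 12663641497) (nat_lit 532) (nat_lit 11958698232) (nat_lit 76) (nat_lit 363906377) (nat_lit 166) (nat_lit 5) (nat_lit 173) (nat_lit 5) (nat_lit 167) (nat_lit 5) (nat_lit 341) (nat_lit 294) (nat_lit 145)) (XT.lf (nat_lit 0) (nat_lit 6574396107) (nat_lit 456) (nat_lit 12330880562) (nat_lit 532) (nat_lit 6562088300) (nat_lit 160) (nat_lit 5) (nat_lit 166) (nat_lit 5) (nat_lit 167) (nat_lit 5) (nat_lit 342) (nat_lit 294) (nat_lit 144))))) (XT.nd (nat_lit 234)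 (nat_lit 1292) (nat_lit 0) (XT.nd (nat_lit 78) (nat_lit 988) (nat_lit 0) (XT.lf (nat_lit 0) (nat_lit 25408494107) (nat_lit 532) (nat_lit 149662090) (nat_lit 76) (nat_lit 403279601) (nat_lit 160) (nat_lit 5) (nat_lit 167) (nat_lit 5) (nat_lit 161) (nat_lit 5) (nat_lit 343) (nat_lit 294) (nat_lit 143)) (XT.nd (nat_lit 78) (nat_lit 456) (nat_lit 0) (XT.lf (nat_lit 0) (nat_lit 5762626205) (nat_lit 532) (nat_lit 7189969808) (nat_lit 76) (nat_lit 13513004239) (nat_lit 153) (nat_lit 5) (nat_lit 160) (nat_lit 5) (nat_lit 154) (nat_lit 5) (nat_lit 344) (nat_lit 294) (nat_lit 142)) (XT.lf (nat_lit 0) (nat_lit 12333796740) (nat_lit 532) (nat_lit 14536108283) (nat_lit 76) (nat_lit 113443241) (nat_lit 147) (nat_lit 5) (nat_lit 154) (nat_lit 5) (nat_lit 148) (nat_lit 5) (nat_lit 345) (nat_lit 294) (nat_lit 141)))) (XT.nd (nat_lit 156) (nat_lit 912) (nat_lit 0) (XT.nd (nat_lit 78) (nat_lit 0) (nat_lit 0) (XT.lf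 (nat_lit 0) (nat_lit 5225550789) (nat_lit 380) (nat_lit 14037320656) (nat_lit 456) (nat_lit 8250546434) (nat_lit 142) (nat_lit 5) (nat_lit 147) (nat_lit 5) (nat_lit 148) (nat_lit 5) (nat_lit 346) (nat_lit 294) (nat_lit 140)) (XT.lf (nat_lit 0) (nat_lit 25766862806) (nat_lit 380) (nat_lit 722812201) (nat_lit 456) (nat_lit 1567921856) (nat_lit 142) (nat_lit 5) (nat_lit 147) (nat_lit 5) (nat_lit 148) (nat_lit 5) (nat_lit 347) (nat_lit 294) (nat_lit 139))) (XT.nd (nat_lit 78) (nat_lit 380) (nat_lit 0) (XT.lf (nat_lit 0) (nat_lit 5442498530) (nat_lit 532) (nat_lit 10197994313) (nat_lit 76) (nat_lit 12972981846) (nat_lit 135) (nat_lit 5) (nat_lit 142) (nat_lit 5) (nat_lit 136) (nat_lit 5) (nat_lit 348) (nat_lit 294) (nat_lit 138)) (XT.lf (nat_lit 0) (nat_lit 10701564587) (nat_lit 380) (nat_lit 2022122296) (nat_lit 456) (nat_lit 16460503621) (nat_lit 130) (nat_lit 5) (nat_lit 135) (nat_lit 5) (nat_lit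 136) (nat_lit 5) (nat_lit 349) (nat_lit 294) (nat_lit 137)))))) (XT.nd (nat_lit 36348) (nat_lit 0) (nat_lit 22192) (XT.nd (nat_lit 234) (nat_lit 684) (nat_lit 0) (XT.nd (nat_lit 78) (nat_lit 380) (nat_lit 0) (XT.lf (nat_lit 0) (nat_lit 2540133829) (nat_lit 380) (nat_lit 17839012684) (nat_lit 456) (nat_lit 9389768525) (nat_lit 125) (nat_lit 5) (nat_lit 130) (nat_lit 5) (nat_lit 131) (nat_lit 5) (nat_lit 350) (nat_lit 294) (nat_lit 136)) (XT.nd (nat_lit 78) (nat_lit 380) (nat_lit 0) (XT.lf (nat_lit 0) (nat_lit 24421222929) (nat_lit 380) (nat_lit 3973724904) (nat_lit 456) (nat_lit 1973623762) (nat_lit 125) (nat_lit 5) (nat_lit 130) (nat_lit 5) (nat_lit 131) (nat_lit 5) (nat_lit 351) (nat_lit 294) (nat_lit 135)) (XT.lf (nat_lit 0) (nat_lit 5755488299) (nat_lit 380) (nat_lit 14915424951) (nat_lit 76) (nat_lit 10311277026) (nat_lit 120) (nat_lit 5) (nat_lit 125) (nat_lit 5) (nat_lit 121) (nat_lit 5)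 (nat_lit 352) (nat_lit 294) (nat_lit 134)))) (XT.nd (nat_lit 78) (nat_lit 304) (nat_lit 0) (XT.lf (nat_lit 0) (nat_lit 7253023650) (nat_lit 380) (nat_lit 6543332256) (nat_lit 456) (nat_lit 17815470330) (nat_lit 115) (nat_lit 5) (nat_lit 120) (nat_lit 5) (nat_lit 121) (nat_lit 5) (nat_lit 353) (nat_lit 294) (nat_lit 133)) (XT.nd (nat_lit 78) (nat_lit 304) (nat_lit 0) (XT.lf (nat_lit 0) (nat_lit 22224621709) (nat_lit 456) (nat_lit 2031609916) (nat_lit 76) (nat_lit 8001199656) (nat_lit 115) (nat_lit 5) (nat_lit 121) (nat_lit 5) (nat_lit 116) (nat_lit 5) (nat_lit 354) (nat_lit 294) (nat_lit 132)) (XT.lf (nat_lit 0) (nat_lit 21188554025) (nat_lit 304) (nat_lit 9891167484) (nat_lit 380) (nat_lit 1839206595) (nat_lit 111) (nat_lit 5) (nat_lit 115) (nat_lit 5) (nat_lit 116) (nat_lit 5) (nat_lit 355) (nat_lit 294) (nat_lit 131))))) (XT.nd (nat_lit 234) (nat_lit 0) (nat_lit 76) (XT.nd (nat_lit 78) (nat_lit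 0) (nat_lit 0) (XT.lf (nat_lit 0) (nat_lit 1145986662) (nat_lit 0) (nat_lit 1145986662) (nat_lit 1596) (nat_lit 3626114911) (nat_lit 403) (nat_lit 5) (nat_lit 403) (nat_lit 3) (nat_lit 424) (nat_lit 3) (nat_lit 295) (nat_lit 295) (nat_lit 190)) (XT.nd (nat_lit 78) (nat_lit 0) (nat_lit 76) (XT.lf (nat_lit 0) (nat_lit 5384567988) (nat_lit 1596) (nat_lit 1496547595) (nat_lit 1672) (nat_lit 5117402505) (nat_lit 403) (nat_lit 5) (nat_lit 424) (nat_lit 3) (nat_lit 425) (nat_lit 5) (nat_lit 296) (nat_lit 295) (nat_lit 189)) (XT.lf (nat_lit 0) (nat_lit 6245834846) (nat_lit 1596) (nat_lit 5316259130) (nat_lit 1672) (nat_lit 602925442) (nat_lit 404) (nat_lit 5) (nat_lit 425) (nat_lit 5) (nat_lit 426) (nat_lit 5) (nat_lit 297) (nat_lit 295) (nat_lit 188)))) (XT.nd (nat_lit 156) (nat_lit 0) (nat_lit 76) (XT.nd (nat_lit 78) (nat_lit 0) (nat_lit 76) (XT.lf (nat_lit 76) (nat_lit 3108605899) (nat_lit 0) (nat_lit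 4074362559) (nat_lit 1672) (nat_lit 5152568118) (nat_lit 405) (nat_lit 5) (nat_lit 404) (nat_lit 5) (nat_lit 426) (nat_lit 5) (nat_lit 298) (nat_lit 295) (nat_lit 187)) (XT.lf (nat_lit 0) (nat_lit 8182467641) (nat_lit 1596) (nat_lit 690370010) (nat_lit 1672) (nat_lit 3637667306) (nat_lit 405) (nat_lit 5) (nat_lit 426) (nat_lit 5) (nat_lit 427) (nat_lit 5) (nat_lit 299) (nat_lit 295) (nat_lit 186))) (XT.nd (nat_lit 78) (nat_lit 0) (nat_lit 76) (XT.lf (nat_lit 76) (nat_lit 8167548559) (nat_lit 0) (nat_lit 1099794037) (nat_lit 1672) (nat_lit 3422292115) (nat_lit 406) (nat_lit 5) (nat_lit 405) (nat_lit 5) (nat_lit 427) (nat_lit 5) (nat_lit 300) (nat_lit 295) (nat_lit 185)) (XT.lf (nat_lit 76) (nat_lit 4424827564) (nat_lit 0) (nat_lit 6014025721) (nat_lit 1672) (nat_lit 2434222830) (nat_lit 407) (nat_lit 5) (nat_lit 406) (nat_lit 5) (nat_lit 428) (nat_lit 5) (nat_lit 301) (nat_lit 295) (nat_lit 184)))))))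 (XT.nd (nat_lit 1014) (nat_lit 8436) (nat_lit 0) (XT.nd (nat_lit 468) (nat_lit 2660) (nat_lit 0) (XT.nd (nat_lit 234) (nat_lit 0) (nat_lit 76) (XT.nd (nat_lit 78) (nat_lit 1596) (nat_lit 0) (XT.lf (nat_lit 76) (nat_lit 613067979) (nat_lit 0) (nat_lit 11063905901) (nat_lit 1672) (nat_lit 1384436571) (nat_lit 408) (nat_lit 5) (nat_lit 407) (nat_lit 5) (nat_lit 429) (nat_lit 5) (nat_lit 302) (nat_lit 295) (nat_lit 183)) (XT.nd (nat_lit 78) (nat_lit 1596) (nat_lit 0) (XT.lf (nat_lit 76) (nat_lit 10006111133) (nat_lit 0) (nat_lit 3020393562) (nat_lit 1672) (nat_lit 227423217) (nat_lit 408) (nat_lit 5) (nat_lit 407) (nat_lit 5) (nat_lit 429) (nat_lit 5) (nat_lit 303) (nat_lit 295) (nat_lit 182)) (XT.lf (nat_lit 0) (nat_lit 1004601663) (nat_lit 1672) (nat_lit 7196206472) (nat_lit 1748) (nat_lit 5250246122) (nat_lit 386) (nat_lit 5) (nat_lit 408) (nat_lit 5) (nat_lit 409) (nat_lit 5) (nat_lit 304) (nat_lit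 295) (nat_lit 181)))) (XT.nd (nat_lit 78) (nat_lit 0) (nat_lit 0) (XT.lf (nat_lit 0) (nat_lit 2307594877) (nat_lit 1672) (nat_lit 11225907192) (nat_lit 1748) (nat_lit 119837339) (nat_lit 387) (nat_lit 5) (nat_lit 409) (nat_lit 5) (nat_lit 410) (nat_lit 5) (nat_lit 305) (nat_lit 295) (nat_lit 180)) (XT.nd (nat_lit 78) (nat_lit 0) (nat_lit 76) (XT.lf (nat_lit 0) (nat_lit 3732360529) (nat_lit 1672) (nat_lit 1492978239) (nat_lit 1748) (nat_lit 8634717226) (nat_lit 387) (nat_lit 5) (nat_lit 409) (nat_lit 5) (nat_lit 410) (nat_lit 5) (nat_lit 306) (nat_lit 295) (nat_lit 179)) (XT.lf (nat_lit 0) (nat_lit 5257316507) (nat_lit 1672) (nat_lit 5464128956) (nat_lit 1748) (nat_lit 3350395718) (nat_lit 388) (nat_lit 5) (nat_lit 410) (nat_lit 5) (nat_lit 411) (nat_lit 5) (nat_lit 307) (nat_lit 295) (nat_lit 178))))) (XT.nd (nat_lit 234) (nat_lit 2812) (nat_lit 0) (XT.nd (nat_lit 78) (nat_lit 0) (nat_lit 76) (XT.lf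 (nat_lit 76) (nat_lit 4754282970) (nat_lit 0) (nat_lit 2129647254) (nat_lit 1748) (nat_lit 7404947102) (nat_lit 389) (nat_lit 5) (nat_lit 388) (nat_lit 5) (nat_lit 411) (nat_lit 5) (nat_lit 308) (nat_lit 295) (nat_lit 177)) (XT.nd (nat_lit 78) (nat_lit 0) (nat_lit 76) (XT.lf (nat_lit 76) (nat_lit 793556353) (nat_lit 0) (nat_lit 7832272185) (nat_lit 1748) (nat_lit 5885281425) (nat_lit 390) (nat_lit 5) (nat_lit 389) (nat_lit 5) (nat_lit 412) (nat_lit 5) (nat_lit 309) (nat_lit 295) (nat_lit 176)) (XT.lf (nat_lit 0) (nat_lit 10486481500) (nat_lit 1672) (nat_lit 3213120039) (nat_lit 1748) (nat_lit 1039092774) (nat_lit 390) (nat_lit 5) (nat_lit 412) (nat_lit 5) (nat_lit 413) (nat_lit 5) (nat_lit 310) (nat_lit 295) (nat_lit 175)))) (XT.nd (nat_lit 156) (nat_lit 1368) (nat_lit 0) (XT.nd (nat_lit 78) (nat_lit 1596) (nat_lit 0) (XT.lf (nat_lit 76) (nat_lit 7639202864) (nat_lit 0) (nat_lit 4847213260) (nat_lit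 1748) (nat_lit 2485035090) (nat_lit 391) (nat_lit 5) (nat_lit 390) (nat_lit 5) (nat_lit 413) (nat_lit 5) (nat_lit 311) (nat_lit 295) (nat_lit 174)) (XT.lf (nat_lit 0) (nat_lit 3655179910) (nat_lit 1672) (nat_lit 10946496251) (nat_lit 1748) (nat_lit 608421959) (nat_lit 369) (nat_lit 5) (nat_lit 391) (nat_lit 5) (nat_lit 392) (nat_lit 5) (nat_lit 312) (nat_lit 295) (nat_lit 173))) (XT.nd (nat_lit 78) (nat_lit 1292) (nat_lit 0) (XT.lf (nat_lit 0) (nat_lit 1371797109) (nat_lit 1748) (nat_lit 438868577) (nat_lit 76) (nat_lit 13643786369) (nat_lit 368) (nat_lit 5) (nat_lit 391) (nat_lit 5) (nat_lit 369) (nat_lit 5) (nat_lit 313) (nat_lit 295) (nat_lit 172)) (XT.lf (nat_lit 0) (nat_lit 3508144995) (nat_lit 1368) (nat_lit 4616925120) (nat_lit 76) (nat_lit 7578899088) (nat_lit 351) (nat_lit 5) (nat_lit 369) (nat_lit 5) (nat_lit 352) (nat_lit 5) (nat_lit 314) (nat_lit 295) (nat_lit 171)))))) (XT.nd (nat_lit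 546) (nat_lit 4256) (nat_lit 0) (XT.nd (nat_lit 234) (nat_lit 2508) (nat_lit 0) (XT.nd (nat_lit 78) (nat_lit 836) (nat_lit 0) (XT.lf (nat_lit 0) (nat_lit 5761322906) (nat_lit 912) (nat_lit 8899122162) (nat_lit 76) (nat_lit 1299484428) (nat_lit 340) (nat_lit 5) (nat_lit 352) (nat_lit 5) (nat_lit 341) (nat_lit 5) (nat_lit 315) (nat_lit 295) (nat_lit 170)) (XT.nd (nat_lit 78) (nat_lit 0) (nat_lit 0) (XT.lf (nat_lit 0) (nat_lit 2897583793) (nat_lit 836) (nat_lit 5272748265) (nat_lit 912) (nat_lit 8051483882) (nat_lit 329) (nat_lit 5) (nat_lit 340) (nat_lit 5) (nat_lit 341) (nat_lit 5) (nat_lit 316) (nat_lit 295) (nat_lit 169)) (XT.lf (nat_lit 0) (nat_lit 10724843852) (nat_lit 912) (nat_lit 1364392777) (nat_lit 76) (nat_lit 4400869412) (nat_lit 329) (nat_lit 5) (nat_lit 341) (nat_lit 5) (nat_lit 330) (nat_lit 5) (nat_lit 317) (nat_lit 295) (nat_lit 168)))) (XT.nd (nat_lit 156) (nat_lit 836) (nat_lit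 0) (XT.nd (nat_lit 78) (nat_lit 836) (nat_lit 0) (XT.lf (nat_lit 0) (nat_lit 11049234521) (nat_lit 836) (nat_lit 2398207355) (nat_lit 912) (nat_lit 3317185319) (nat_lit 318) (nat_lit 5) (nat_lit 329) (nat_lit 5) (nat_lit 330) (nat_lit 5) (nat_lit 318) (nat_lit 295) (nat_lit 167)) (XT.lf (nat_lit 0) (nat_lit 6832315188) (nat_lit 836) (nat_lit 9507121783) (nat_lit 912) (nat_lit 706203666) (nat_lit 307) (nat_lit 5) (nat_lit 318) (nat_lit 5) (nat_lit 319) (nat_lit 5) (nat_lit 319) (nat_lit 295) (nat_lit 166))) (XT.nd (nat_lit 78) (nat_lit 0) (nat_lit 0) (XT.lf (nat_lit 0) (nat_lit 2016426958) (nat_lit 836) (nat_lit 14847659543) (nat_lit 76) (nat_lit 469564410) (nat_lit 296) (nat_lit 5) (nat_lit 307) (nat_lit 5) (nat_lit 297) (nat_lit 5) (nat_lit 320) (nat_lit 295) (nat_lit 165)) (XT.lf (nat_lit 0) (nat_lit 4929838518) (nat_lit 836) (nat_lit 2006362601) (nat_lit 76) (nat_lit 10691643281) (nat_lit 296)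 (nat_lit 5) (nat_lit 307) (nat_lit 5) (nat_lit 297) (nat_lit 5) (nat_lit 321) (nat_lit 295) (nat_lit 164))))) (XT.nd (nat_lit 234) (nat_lit 2052) (nat_lit 0) (XT.nd (nat_lit 78) (nat_lit 1444) (nat_lit 0) (XT.lf (nat_lit 0) (nat_lit 8012041698) (nat_lit 836) (nat_lit 6596779667) (nat_lit 76) (nat_lit 3320424447) (nat_lit 286) (nat_lit 5) (nat_lit 297) (nat_lit 5) (nat_lit 287) (nat_lit 5) (nat_lit 322) (nat_lit 295) (nat_lit 163)) (XT.nd (nat_lit 78) (nat_lit 760) (nat_lit 0) (XT.lf (nat_lit 0) (nat_lit 6888983342) (nat_lit 684) (nat_lit 4388668208) (nat_lit 760) (nat_lit 6960228518) (nat_lit 277) (nat_lit 5) (nat_lit 286) (nat_lit 5) (nat_lit 287) (nat_lit 5) (nat_lit 323) (nat_lit 295) (nat_lit 162)) (XT.lf (nat_lit 0) (nat_lit 2290185370) (nat_lit 760) (nat_lit 12437213354) (nat_lit 836) (nat_lit 3826660581) (nat_lit 267) (nat_lit 5) (nat_lit 277) (nat_lit 5) (nat_lit 278) (nat_lit 5) (nat_lit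 324) (nat_lit 295) (nat_lit 161)))) (XT.nd (nat_lit 156) (nat_lit 1292) (nat_lit 0) (XT.nd (nat_lit 78) (nat_lit 760) (nat_lit 0) (XT.lf (nat_lit 0) (nat_lit 16449840767) (nat_lit 760) (nat_lit 1923608764) (nat_lit 836) (nat_lit 504427227) (nat_lit 267) (nat_lit 5) (nat_lit 277) (nat_lit 5) (nat_lit 278) (nat_lit 5) (nat_lit 325) (nat_lit 295) (nat_lit 160)) (XT.lf (nat_lit 0) (nat_lit 3002271433) (nat_lit 760) (nat_lit 7321554042) (nat_lit 76) (nat_lit 8884751812) (nat_lit 257) (nat_lit 5) (nat_lit 267) (nat_lit 5) (nat_lit 258) (nat_lit 5) (nat_lit 326) (nat_lit 295) (nat_lit 159))) (XT.nd (nat_lit 78) (nat_lit 608) (nat_lit 0) (XT.lf (nat_lit 0) (nat_lit 6674028012) (nat_lit 760) (nat_lit 12371461103) (nat_lit 76) (nat_lit 502317204) (nat_lit 248) (nat_lit 5) (nat_lit 258) (nat_lit 5) (nat_lit 249) (nat_lit 5) (nat_lit 327) (nat_lit 295) (nat_lit 158)) (XT.lf (nat_lit 0) (nat_lit 2259423563)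 (nat_lit 608) (nat_lit 8317760689) (nat_lit 684) (nat_lit 9317611160) (nat_lit 240) (nat_lit 5) (nat_lit 248) (nat_lit 5) (nat_lit 249) (nat_lit 5) (nat_lit 328) (nat_lit 295) (nat_lit 157))))))))
noncomputable def xc105 : XT := (XT.nd (nat_lit 38064) (nat_lit 0) (nat_lit 13756) (XT.nd (nat_lit 1014) (nat_lit 4332) (nat_lit 0) (XT.nd (nat_lit 468) (nat_lit 2736) (nat_lit 0) (XT.nd (nat_lit 234) (nat_lit 1140) (nat_lit 0) (XT.nd (nat_lit 78) (nat_lit 1292) (nat_lit 0) (XT.lf (nat_lit 0) (nat_lit 14687416472) (nat_lit 684) (nat_lit 2784265077) (nat_lit 76) (nat_lit 2778720898) (nat_lit 240) (nat_lit 5) (nat_lit 249) (nat_lit 5) (nat_lit 241) (nat_lit 5) (nat_lit 329) (nat_lit 295) (nat_lit 156)) (XT.nd (nat_lit 78) (nat_lit 684) (nat_lit 0) (XT.lf (nat_lit 0) (nat_lit 12608488670) (nat_lit 608) (nat_lit 6438164429) (nat_lit 684) (nat_lit 1567518308) (nat_lit 232) (nat_lit 5) (nat_lit 240) (nat_lit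 5) (nat_lit 241) (nat_lit 5) (nat_lit 330) (nat_lit 295) (nat_lit 155)) (XT.lf (nat_lit 0) (nat_lit 2603533597) (nat_lit 684) (nat_lit 13438065758) (nat_lit 76) (nat_lit 4945147831) (nat_lit 223) (nat_lit 5) (nat_lit 232) (nat_lit 5) (nat_lit 224) (nat_lit 5) (nat_lit 331) (nat_lit 295) (nat_lit 154)))) (XT.nd (nat_lit 78) (nat_lit 532) (nat_lit 0) (XT.lf (nat_lit 0) (nat_lit 2272181184) (nat_lit 608) (nat_lit 4707398240) (nat_lit 684) (nat_lit 14388697493) (nat_lit 215) (nat_lit 5) (nat_lit 223) (nat_lit 5) (nat_lit 224) (nat_lit 5) (nat_lit 332) (nat_lit 295) (nat_lit 153)) (XT.nd (nat_lit 78) (nat_lit 532) (nat_lit 0) (XT.lf (nat_lit 0) (nat_lit 11612655646) (nat_lit 684) (nat_lit 3181151214) (nat_lit 76) (nat_lit 6964937577) (nat_lit 215) (nat_lit 5) (nat_lit 224) (nat_lit 5) (nat_lit 216) (nat_lit 5) (nat_lit 333) (nat_lit 295) (nat_lit 152)) (XT.lf (nat_lit 0) (nat_lit 13341571830) (nat_lit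 532) (nat_lit 3150431928) (nat_lit 608) (nat_lit 5666783307) (nat_lit 208) (nat_lit 5) (nat_lit 215) (nat_lit 5) (nat_lit 216) (nat_lit 5) (nat_lit 334) (nat_lit 295) (nat_lit 151))))) (XT.nd (nat_lit 234) (nat_lit 1596) (nat_lit 0) (XT.nd (nat_lit 78) (nat_lit 608) (nat_lit 0) (XT.lf (nat_lit 0) (nat_lit 7865570875) (nat_lit 532) (nat_lit 13771731526) (nat_lit 608) (nat_lit 931143651) (nat_lit 201) (nat_lit 5) (nat_lit 208) (nat_lit 5) (nat_lit 209) (nat_lit 5) (nat_lit 335) (nat_lit 295) (nat_lit 150)) (XT.nd (nat_lit 78) (nat_lit 0) (nat_lit 0) (XT.lf (nat_lit 0) (nat_lit 2148332634) (nat_lit 532) (nat_lit 1831175879) (nat_lit 608) (nat_lit 19008685926) (nat_lit 193) (nat_lit 5) (nat_lit 200) (nat_lit 5) (nat_lit 201) (nat_lit 5) (nat_lit 336) (nat_lit 295) (nat_lit 149)) (XT.lf (nat_lit 0) (nat_lit 9182901915) (nat_lit 608) (nat_lit 3800128863) (nat_lit 76) (nat_lit 10434225946) (nat_lit 193)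 (nat_lit 5) (nat_lit 201) (nat_lit 5) (nat_lit 194) (nat_lit 5) (nat_lit 337) (nat_lit 295) (nat_lit 148)))) (XT.nd (nat_lit 156) (nat_lit 608) (nat_lit 0) (XT.nd (nat_lit 78) (nat_lit 456) (nat_lit 0) (XT.lf (nat_lit 0) (nat_lit 13908271498) (nat_lit 532) (nat_lit 726718314) (nat_lit 608) (nat_lit 9222355029) (nat_lit 186) (nat_lit 5) (nat_lit 193) (nat_lit 5) (nat_lit 194) (nat_lit 5) (nat_lit 338) (nat_lit 295) (nat_lit 147)) (XT.lf (nat_lit 0) (nat_lit 7903393775) (nat_lit 456) (nat_lit 12491963333) (nat_lit 532) (nat_lit 3912389802) (nat_lit 180) (nat_lit 5) (nat_lit 186) (nat_lit 5) (nat_lit 187) (nat_lit 5) (nat_lit 339) (nat_lit 295) (nat_lit 146))) (XT.nd (nat_lit 78) (nat_lit 0) (nat_lit 0) (XT.lf (nat_lit 0) (nat_lit 1610534312) (nat_lit 608) (nat_lit 23119300454) (nat_lit 76) (nat_lit 40147911) (nat_lit 172) (nat_lit 5) (nat_lit 180) (nat_lit 5) (nat_lit 173) (nat_lit 5) (nat_lit 340)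 (nat_lit 295) (nat_lit 145)) (XT.lf (nat_lit 0) (nat_lit 7432283434) (nat_lit 608) (nat_lit 4894950873) (nat_lit 76) (nat_lit 12914613383) (nat_lit 172) (nat_lit 5) (nat_lit 180) (nat_lit 5) (nat_lit 173) (nat_lit 5) (nat_lit 341) (nat_lit 295) (nat_lit 144)))))) (XT.nd (nat_lit 546) (nat_lit 2052) (nat_lit 0) (XT.nd (nat_lit 234) (nat_lit 912) (nat_lit 0) (XT.nd (nat_lit 78) (nat_lit 912) (nat_lit 0) (XT.lf (nat_lit 0) (nat_lit 13514211599) (nat_lit 532) (nat_lit 11681546270) (nat_lit 76) (nat_lit 530405320) (nat_lit 166) (nat_lit 5) (nat_lit 173) (nat_lit 5) (nat_lit 167) (nat_lit 5) (nat_lit 342) (nat_lit 295) (nat_lit 143)) (XT.nd (nat_lit 78) (nat_lit 456) (nat_lit 0) (XT.lf (nat_lit 0) (nat_lit 7397223968) (nat_lit 456) (nat_lit 12536225073) (nat_lit 532) (nat_lit 6288466999) (nat_lit 160) (nat_lit 5) (nat_lit 166) (nat_lit 5) (nat_lit 167) (nat_lit 5) (nat_lit 343) (nat_lit 295) (nat_lit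 142)) (XT.lf (nat_lit 0) (nat_lit 467510875) (nat_lit 456) (nat_lit 26154897376) (nat_lit 532) (nat_lit 108595110) (nat_lit 154) (nat_lit 5) (nat_lit 160) (nat_lit 5) (nat_lit 161) (nat_lit 5) (nat_lit 344) (nat_lit 295) (nat_lit 141)))) (XT.nd (nat_lit 156) (nat_lit 380) (nat_lit 0) (XT.nd (nat_lit 78) (nat_lit 456) (nat_lit 0) (XT.lf (nat_lit 0) (nat_lit 6378136509) (nat_lit 532) (nat_lit 6794010833) (nat_lit 76) (nat_lit 14078337633) (nat_lit 153) (nat_lit 5) (nat_lit 160) (nat_lit 5) (nat_lit 154) (nat_lit 5) (nat_lit 345) (nat_lit 295) (nat_lit 140)) (XT.lf (nat_lit 0) (nat_lit 13138548182) (nat_lit 532) (nat_lit 14362651368) (nat_lit 76) (nat_lit 282730475) (nat_lit 147) (nat_lit 5) (nat_lit 154) (nat_lit 5) (nat_lit 148) (nat_lit 5) (nat_lit 346) (nat_lit 295) (nat_lit 139))) (XT.nd (nat_lit 78) (nat_lit 0) (nat_lit 0) (XT.lf (nat_lit 0) (nat_lit 5981968411) (nat_lit 380) (nat_lit 14284757792)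 (nat_lit 456) (nat_lit 8063357427) (nat_lit 142) (nat_lit 5) (nat_lit 147) (nat_lit 5) (nat_lit 148) (nat_lit 5) (nat_lit 347) (nat_lit 295) (nat_lit 138)) (XT.lf (nat_lit 0) (nat_lit 27122054223) (nat_lit 380) (nat_lit 575872796) (nat_lit 456) (nat_lit 1192915434) (nat_lit 142) (nat_lit 5) (nat_lit 147) (nat_lit 5) (nat_lit 148) (nat_lit 5) (nat_lit 348) (nat_lit 295) (nat_lit 137))))) (XT.nd (nat_lit 234) (nat_lit 760) (nat_lit 0) (XT.nd (nat_lit 78) (nat_lit 760) (nat_lit 0) (XT.lf (nat_lit 0) (nat_lit 6015011756) (nat_lit 532) (nat_lit 9918286757) (nat_lit 76) (nat_lit 13530194736) (nat_lit 135) (nat_lit 5) (nat_lit 142) (nat_lit 5) (nat_lit 136) (nat_lit 5) (nat_lit 349) (nat_lit 295) (nat_lit 136)) (XT.nd (nat_lit 78) (nat_lit 380) (nat_lit 0) (XT.lf (nat_lit 0) (nat_lit 11598757478) (nat_lit 380) (nat_lit 1907699443) (nat_lit 456) (nat_lit 16545043046) (nat_lit 130) (nat_lit 5) (nat_lit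 135) (nat_lit 5) (nat_lit 136) (nat_lit 5) (nat_lit 350) (nat_lit 295) (nat_lit 135)) (XT.lf (nat_lit 0) (nat_lit 3190101132) (nat_lit 380) (nat_lit 18194626785) (nat_lit 456) (nat_lit 9269181050) (nat_lit 125) (nat_lit 5) (nat_lit 130) (nat_lit 5) (nat_lit 131) (nat_lit 5) (nat_lit 351) (nat_lit 295) (nat_lit 134)))) (XT.nd (nat_lit 156) (nat_lit 380) (nat_lit 0) (XT.nd (nat_lit 78) (nat_lit 380) (nat_lit 0) (XT.lf (nat_lit 0) (nat_lit 25710911352) (nat_lit 380) (nat_lit 3918610166) (nat_lit 456) (nat_lit 1642268853) (nat_lit 125) (nat_lit 5) (nat_lit 130) (nat_lit 5) (nat_lit 131) (nat_lit 5) (nat_lit 352) (nat_lit 295) (nat_lit 133)) (XT.lf (nat_lit 0) (nat_lit 6307098721) (nat_lit 380) (nat_lit 14803064744) (nat_lit 76) (nat_lit 10793738593) (nat_lit 120) (nat_lit 5) (nat_lit 125) (nat_lit 5) (nat_lit 121) (nat_lit 5) (nat_lit 353) (nat_lit 295) (nat_lit 132))) (XT.nd (nat_lit 78) (nat_lit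 0) (nat_lit 0) (XT.lf (nat_lit 0) (nat_lit 8021354854) (nat_lit 380) (nat_lit 6560376021) (nat_lit 456) (nat_lit 17970850550) (nat_lit 115) (nat_lit 5) (nat_lit 120) (nat_lit 5) (nat_lit 121) (nat_lit 5) (nat_lit 354) (nat_lit 295) (nat_lit 131)) (XT.lf (nat_lit 0) (nat_lit 23253154672) (nat_lit 456) (nat_lit 1551610405) (nat_lit 76) (nat_lit 8412988292) (nat_lit 115) (nat_lit 5) (nat_lit 121) (nat_lit 5) (nat_lit 116) (nat_lit 5) (nat_lit 355) (nat_lit 295) (nat_lit 130))))))) (XT.nd (nat_lit 1014) (nat_lit 6764) (nat_lit 0) (XT.nd (nat_lit 468) (nat_lit 1368) (nat_lit 0) (XT.nd (nat_lit 234) (nat_lit 0) (nat_lit 76) (XT.nd (nat_lit 78) (nat_lit 0) (nat_lit 0) (XT.lf (nat_lit 0) (nat_lit 1526108032) (nat_lit 0) (nat_lit 1526108032) (nat_lit 1596) (nat_lit 3029026779) (nat_lit 403) (nat_lit 5) (nat_lit 403) (nat_lit 3) (nat_lit 424) (nat_lit 3) (nat_lit 296) (nat_lit 296) (nat_lit 188)) (XT.nd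 (nat_lit 78) (nat_lit 0) (nat_lit 76) (XT.lf (nat_lit 0) (nat_lit 6884432707) (nat_lit 1596) (nat_lit 837804035) (nat_lit 1672) (nat_lit 4608386125) (nat_lit 403) (nat_lit 5) (nat_lit 424) (nat_lit 3) (nat_lit 425) (nat_lit 5) (nat_lit 297) (nat_lit 296) (nat_lit 187)) (XT.lf (nat_lit 0) (nat_lit 7733080506) (nat_lit 1596) (nat_lit 4752422150) (nat_lit 1672) (nat_lit 17417301) (nat_lit 404) (nat_lit 5) (nat_lit 425) (nat_lit 5) (nat_lit 426) (nat_lit 5) (nat_lit 298) (nat_lit 296) (nat_lit 186)))) (XT.nd (nat_lit 78) (nat_lit 0) (nat_lit 76) (XT.lf (nat_lit 76) (nat_lit 3913453745) (nat_lit 0) (nat_lit 4751634185) (nat_lit 1672) (nat_lit 4014160164) (nat_lit 405) (nat_lit 5) (nat_lit 404) (nat_lit 5) (nat_lit 426) (nat_lit 5) (nat_lit 299) (nat_lit 296) (nat_lit 185)) (XT.nd (nat_lit 78) (nat_lit 0) (nat_lit 0) (XT.lf (nat_lit 76) (nat_lit 8986202) (nat_lit 0) (nat_lit 9645253351) (nat_lit 1672)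 (nat_lit 3206062390) (nat_lit 406) (nat_lit 5) (nat_lit 405) (nat_lit 5) (nat_lit 427) (nat_lit 5) (nat_lit 300) (nat_lit 296) (nat_lit 184)) (XT.lf (nat_lit 76) (nat_lit 9120844149) (nat_lit 0) (nat_lit 1619641102) (nat_lit 1672) (nat_lit 2304972747) (nat_lit 406) (nat_lit 5) (nat_lit 405) (nat_lit 5) (nat_lit 427) (nat_lit 5) (nat_lit 301) (nat_lit 296) (nat_lit 183))))) (XT.nd (nat_lit 234) (nat_lit 0) (nat_lit 76) (XT.nd (nat_lit 78) (nat_lit 1596) (nat_lit 0) (XT.lf (nat_lit 76) (nat_lit 5281922727) (nat_lit 0) (nat_lit 6632043201) (nat_lit 1672) (nat_lit 1321128282) (nat_lit 407) (nat_lit 5) (nat_lit 406) (nat_lit 5) (nat_lit 428) (nat_lit 5) (nat_lit 302) (nat_lit 296) (nat_lit 182)) (XT.nd (nat_lit 78) (nat_lit 1672) (nat_lit 0) (XT.lf (nat_lit 76) (nat_lit 1370635697) (nat_lit 0) (nat_lit 11786792129) (nat_lit 1672) (nat_lit 272314036) (nat_lit 408) (nat_lit 5) (nat_lit 407) (nat_lit 5)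 (nat_lit 429) (nat_lit 5) (nat_lit 303) (nat_lit 296) (nat_lit 181)) (XT.lf (nat_lit 0) (nat_lit 874190565) (nat_lit 1672) (nat_lit 2610530128) (nat_lit 1748) (nat_lit 10143883912) (nat_lit 385) (nat_lit 5) (nat_lit 407) (nat_lit 5) (nat_lit 408) (nat_lit 5) (nat_lit 304) (nat_lit 296) (nat_lit 180)))) (XT.nd (nat_lit 156) (nat_lit 0) (nat_lit 76) (XT.nd (nat_lit 78) (nat_lit 0) (nat_lit 0) (XT.lf (nat_lit 0) (nat_lit 2110277186) (nat_lit 1672) (nat_lit 6666076601) (nat_lit 1748) (nat_lit 5055882245) (nat_lit 386) (nat_lit 5) (nat_lit 408) (nat_lit 5) (nat_lit 409) (nat_lit 5) (nat_lit 305) (nat_lit 296) (nat_lit 179)) (XT.lf (nat_lit 76) (nat_lit 3234996321) (nat_lit 0) (nat_lit 189990534) (nat_lit 1748) (nat_lit 10616174790) (nat_lit 387) (nat_lit 5) (nat_lit 386) (nat_lit 5) (nat_lit 409) (nat_lit 5) (nat_lit 306) (nat_lit 296) (nat_lit 178))) (XT.nd (nat_lit 78) (nat_lit 0) (nat_lit 76) (XT.lf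 (nat_lit 0) (nat_lit 4860768809) (nat_lit 1672) (nat_lit 802085422) (nat_lit 1748) (nat_lit 8591883758) (nat_lit 387) (nat_lit 5) (nat_lit 409) (nat_lit 5) (nat_lit 410) (nat_lit 5) (nat_lit 307) (nat_lit 296) (nat_lit 177)) (XT.lf (nat_lit 0) (nat_lit 6404828897) (nat_lit 1672) (nat_lit 4881969064) (nat_lit 1748) (nat_lit 3186634700) (nat_lit 388) (nat_lit 5) (nat_lit 410) (nat_lit 5) (nat_lit 411) (nat_lit 5) (nat_lit 308) (nat_lit 296) (nat_lit 176)))))) (XT.nd (nat_lit 546) (nat_lit 4180) (nat_lit 0) (XT.nd (nat_lit 234) (nat_lit 2812) (nat_lit 0) (XT.nd (nat_lit 78) (nat_lit 0) (nat_lit 76) (XT.lf (nat_lit 76) (nat_lit 5630890897) (nat_lit 0) (nat_lit 2425286690) (nat_lit 1748) (nat_lit 6641305937) (nat_lit 389) (nat_lit 5) (nat_lit 388) (nat_lit 5) (nat_lit 411) (nat_lit 5) (nat_lit 309) (nat_lit 296) (nat_lit 175)) (XT.nd (nat_lit 78) (nat_lit 0) (nat_lit 76) (XT.lf (nat_lit 76) (nat_lit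 1560649470) (nat_lit 0) (nat_lit 8264920397) (nat_lit 1748) (nat_lit 5101330248) (nat_lit 390) (nat_lit 5) (nat_lit 389) (nat_lit 5) (nat_lit 412) (nat_lit 5) (nat_lit 310) (nat_lit 296) (nat_lit 174)) (XT.lf (nat_lit 0) (nat_lit 11713389540) (nat_lit 1672) (nat_lit 2567656316) (nat_lit 1748) (nat_lit 880860278) (nat_lit 390) (nat_lit 5) (nat_lit 412) (nat_lit 5) (nat_lit 413) (nat_lit 5) (nat_lit 311) (nat_lit 296) (nat_lit 173)))) (XT.nd (nat_lit 156) (nat_lit 1292) (nat_lit 0) (XT.nd (nat_lit 78) (nat_lit 1672) (nat_lit 0) (XT.lf (nat_lit 76) (nat_lit 8598200520) (nat_lit 0) (nat_lit 5153287928) (nat_lit 1748) (nat_lit 1650614437) (nat_lit 391) (nat_lit 5) (nat_lit 390) (nat_lit 5) (nat_lit 413) (nat_lit 5) (nat_lit 312) (nat_lit 296) (nat_lit 172)) (XT.lf (nat_lit 0) (nat_lit 256265686) (nat_lit 1748) (nat_lit 11148023861) (nat_lit 76) (nat_lit 4244049058) (nat_lit 368) (nat_lit 5) (nat_lit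 391) (nat_lit 5) (nat_lit 369) (nat_lit 5) (nat_lit 313) (nat_lit 296) (nat_lit 171))) (XT.nd (nat_lit 78) (nat_lit 0) (nat_lit 0) (XT.lf (nat_lit 0) (nat_lit 279271861) (nat_lit 1292) (nat_lit 1984736413) (nat_lit 1368) (nat_lit 13636425704) (nat_lit 351) (nat_lit 5) (nat_lit 368) (nat_lit 5) (nat_lit 369) (nat_lit 5) (nat_lit 314) (nat_lit 296) (nat_lit 170)) (XT.lf (nat_lit 0) (nat_lit 4441810081) (nat_lit 1368) (nat_lit 4021663241) (nat_lit 76) (nat_lit 7694434413) (nat_lit 351) (nat_lit 5) (nat_lit 369) (nat_lit 5) (nat_lit 352) (nat_lit 5) (nat_lit 315) (nat_lit 296) (nat_lit 169))))) (XT.nd (nat_lit 234) (nat_lit 2508) (nat_lit 0) (XT.nd (nat_lit 78) (nat_lit 836) (nat_lit 0) (XT.lf (nat_lit 0) (nat_lit 6742575797) (nat_lit 912) (nat_lit 8426891259) (nat_lit 76) (nat_lit 1252497761) (nat_lit 340) (nat_lit 5) (nat_lit 352) (nat_lit 5) (nat_lit 341) (nat_lit 5) (nat_lit 316) (nat_lit 296)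 (nat_lit 168)) (XT.nd (nat_lit 78) (nat_lit 0) (nat_lit 0) (XT.lf (nat_lit 0) (nat_lit 3711723158) (nat_lit 836) (nat_lit 5493307591) (nat_lit 912) (nat_lit 7487070904) (nat_lit 329) (nat_lit 5) (nat_lit 340) (nat_lit 5) (nat_lit 341) (nat_lit 5) (nat_lit 317) (nat_lit 296) (nat_lit 167)) (XT.lf (nat_lit 0) (nat_lit 11812786971) (nat_lit 912) (nat_lit 683008435) (nat_lit 76) (nat_lit 4473129675) (nat_lit 329) (nat_lit 5) (nat_lit 341) (nat_lit 5) (nat_lit 330) (nat_lit 5) (nat_lit 318) (nat_lit 296) (nat_lit 166)))) (XT.nd (nat_lit 156) (nat_lit 760) (nat_lit 0) (XT.nd (nat_lit 78) (nat_lit 912) (nat_lit 0) (XT.lf (nat_lit 0) (nat_lit 12091308960) (nat_lit 836) (nat_lit 2508051204) (nat_lit 912) (nat_lit 2652692077) (nat_lit 318) (nat_lit 5) (nat_lit 329) (nat_lit 5) (nat_lit 330) (nat_lit 5) (nat_lit 319) (nat_lit 296) (nat_lit 165)) (XT.lf (nat_lit 0) (nat_lit 18607658) (nat_lit 912) (nat_lit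 9790124762) (nat_lit 76) (nat_lit 7733125065) (nat_lit 306) (nat_lit 5) (nat_lit 318) (nat_lit 5) (nat_lit 307) (nat_lit 5) (nat_lit 320) (nat_lit 296) (nat_lit 164))) (XT.nd (nat_lit 78) (nat_lit 0) (nat_lit 0) (XT.lf (nat_lit 0) (nat_lit 2796514833) (nat_lit 836) (nat_lit 14565034179) (nat_lit 76) (nat_lit 477216928) (nat_lit 296) (nat_lit 5) (nat_lit 307) (nat_lit 5) (nat_lit 297) (nat_lit 5) (nat_lit 321) (nat_lit 296) (nat_lit 163)) (XT.lf (nat_lit 0) (nat_lit 5776369661) (nat_lit 836) (nat_lit 1359703818) (nat_lit 76) (nat_lit 11006145575) (nat_lit 296) (nat_lit 5) (nat_lit 307) (nat_lit 5) (nat_lit 297) (nat_lit 5) (nat_lit 322) (nat_lit 296) (nat_lit 162))))))))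
noncomputable def xc106 : XT := (XT.nd (nat_lit 2106) (nat_lit 1672) (nat_lit 0) (XT.nd (nat_lit 1014) (nat_lit 5016) (nat_lit 0) (XT.nd (nat_lit 468) (nat_lit 3040) (nat_lit 0) (XT.nd (nat_lit 234) (nat_lit 1444) (nat_lit 0) (XT.nd (nat_lit 78) (nat_lit 1444) (nat_lit 0) (XT.lf (nat_lit 0) (nat_lit 8935286870) (nat_lit 836) (nat_lit 6085253078) (nat_lit 76) (nat_lit 3432451814) (nat_lit 286) (nat_lit 5) (nat_lit 297) (nat_lit 5) (nat_lit 287) (nat_lit 5) (nat_lit 323) (nat_lit 296) (nat_lit 161)) (XT.nd (nat_lit 78) (nat_lit 760) (nat_lit 0) (XT.lf (nat_lit 0) (nat_lit 7793573163) (nat_lit 684) (nat_lit 4489933394) (nat_lit 760) (nat_lit 6487699457) (nat_lit 277) (nat_lit 5) (nat_lit 286) (nat_lit 5) (nat_lit 287) (nat_lit 5) (nat_lit 324) (nat_lit 296) (nat_lit 160)) (XT.lf (nat_lit 0) (nat_lit 3058880580) (nat_lit 760) (nat_lit 12763159470) (nat_lit 836) (nat_lit 3275138097) (nat_lit 267) (nat_lit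 5) (nat_lit 277) (nat_lit 5) (nat_lit 278) (nat_lit 5) (nat_lit 325) (nat_lit 296) (nat_lit 159)))) (XT.nd (nat_lit 78) (nat_lit 1368) (nat_lit 0) (XT.lf (nat_lit 0) (nat_lit 125684530) (nat_lit 836) (nat_lit 1808992695) (nat_lit 76) (nat_lit 17496409651) (nat_lit 266) (nat_lit 5) (nat_lit 277) (nat_lit 5) (nat_lit 267) (nat_lit 5) (nat_lit 326) (nat_lit 296) (nat_lit 158)) (XT.nd (nat_lit 78) (nat_lit 684) (nat_lit 0) (XT.lf (nat_lit 0) (nat_lit 3716917521) (nat_lit 760) (nat_lit 6851307372) (nat_lit 76) (nat_lit 9203705490) (nat_lit 257) (nat_lit 5) (nat_lit 267) (nat_lit 5) (nat_lit 258) (nat_lit 5) (nat_lit 327) (nat_lit 296) (nat_lit 157)) (XT.lf (nat_lit 0) (nat_lit 7485482682) (nat_lit 760) (nat_lit 12051728744) (nat_lit 76) (nat_lit 584403761) (nat_lit 248) (nat_lit 5) (nat_lit 258) (nat_lit 5) (nat_lit 249) (nat_lit 5) (nat_lit 328) (nat_lit 296) (nat_lit 156))))) (XT.nd (nat_lit 234)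 (nat_lit 1824) (nat_lit 0) (XT.nd (nat_lit 78) (nat_lit 608) (nat_lit 0) (XT.lf (nat_lit 0) (nat_lit 3006873817) (nat_lit 608) (nat_lit 8485469718) (nat_lit 684) (nat_lit 8986949889) (nat_lit 240) (nat_lit 5) (nat_lit 248) (nat_lit 5) (nat_lit 249) (nat_lit 5) (nat_lit 329) (nat_lit 296) (nat_lit 155)) (XT.nd (nat_lit 78) (nat_lit 608) (nat_lit 0) (XT.lf (nat_lit 0) (nat_lit 15708985578) (nat_lit 684) (nat_lit 2196451143) (nat_lit 76) (nat_lit 2940481221) (nat_lit 240) (nat_lit 5) (nat_lit 249) (nat_lit 5) (nat_lit 241) (nat_lit 5) (nat_lit 330) (nat_lit 296) (nat_lit 154)) (XT.lf (nat_lit 0) (nat_lit 13647193492) (nat_lit 608) (nat_lit 6539173117) (nat_lit 684) (nat_lit 1034497016) (nat_lit 232) (nat_lit 5) (nat_lit 240) (nat_lit 5) (nat_lit 241) (nat_lit 5) (nat_lit 331) (nat_lit 296) (nat_lit 153)))) (XT.nd (nat_lit 156) (nat_lit 532) (nat_lit 0) (XT.nd (nat_lit 78) (nat_lit 608) (nat_lit 0)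 (XT.lf (nat_lit 0) (nat_lit 3242308708) (nat_lit 684) (nat_lit 13172718536) (nat_lit 76) (nat_lit 5189759987) (nat_lit 223) (nat_lit 5) (nat_lit 232) (nat_lit 5) (nat_lit 224) (nat_lit 5) (nat_lit 332) (nat_lit 296) (nat_lit 152)) (XT.lf (nat_lit 0) (nat_lit 2997990371) (nat_lit 608) (nat_lit 4739585230) (nat_lit 684) (nat_lit 14260438625) (nat_lit 215) (nat_lit 5) (nat_lit 223) (nat_lit 5) (nat_lit 224) (nat_lit 5) (nat_lit 333) (nat_lit 296) (nat_lit 151))) (XT.nd (nat_lit 78) (nat_lit 532) (nat_lit 0) (XT.lf (nat_lit 0) (nat_lit 12494352520) (nat_lit 684) (nat_lit 2627802428) (nat_lit 76) (nat_lit 7278356523) (nat_lit 215) (nat_lit 5) (nat_lit 224) (nat_lit 5) (nat_lit 216) (nat_lit 5) (nat_lit 334) (nat_lit 296) (nat_lit 150)) (XT.lf (nat_lit 0) (nat_lit 14380076569) (nat_lit 532) (nat_lit 3128614989) (nat_lit 608) (nat_lit 5304101193) (nat_lit 208) (nat_lit 5) (nat_lit 215) (nat_lit 5) (nat_lit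 216) (nat_lit 5) (nat_lit 335) (nat_lit 296) (nat_lit 149)))))) (XT.nd (nat_lit 546) (nat_lit 2280) (nat_lit 0) (XT.nd (nat_lit 234) (nat_lit 1596) (nat_lit 0) (XT.nd (nat_lit 78) (nat_lit 608) (nat_lit 0) (XT.lf (nat_lit 0) (nat_lit 8739280968) (nat_lit 532) (nat_lit 14058740356) (nat_lit 608) (nat_lit 436936042) (nat_lit 201) (nat_lit 5) (nat_lit 208) (nat_lit 5) (nat_lit 209) (nat_lit 5) (nat_lit 336) (nat_lit 296) (nat_lit 148)) (XT.nd (nat_lit 78) (nat_lit 0) (nat_lit 0) (XT.lf (nat_lit 0) (nat_lit 2847214902) (nat_lit 532) (nat_lit 1756083394) (nat_lit 608) (nat_lit 19064158749) (nat_lit 193) (nat_lit 5) (nat_lit 200) (nat_lit 5) (nat_lit 201) (nat_lit 5) (nat_lit 337) (nat_lit 296) (nat_lit 147)) (XT.lf (nat_lit 0) (nat_lit 9948921744) (nat_lit 608) (nat_lit 3288917884) (nat_lit 76) (nat_lit 10871837602) (nat_lit 193) (nat_lit 5) (nat_lit 201) (nat_lit 5) (nat_lit 194) (nat_lit 5) (nat_lit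 338) (nat_lit 296) (nat_lit 146)))) (XT.nd (nat_lit 156) (nat_lit 608) (nat_lit 0) (XT.nd (nat_lit 78) (nat_lit 456) (nat_lit 0) (XT.lf (nat_lit 0) (nat_lit 14940591119) (nat_lit 532) (nat_lit 613687247) (nat_lit 608) (nat_lit 9008903847) (nat_lit 186) (nat_lit 5) (nat_lit 193) (nat_lit 5) (nat_lit 194) (nat_lit 5) (nat_lit 339) (nat_lit 296) (nat_lit 145)) (XT.lf (nat_lit 0) (nat_lit 8754449673) (nat_lit 456) (nat_lit 12723855591) (nat_lit 532) (nat_lit 3548982211) (nat_lit 180) (nat_lit 5) (nat_lit 186) (nat_lit 5) (nat_lit 187) (nat_lit 5) (nat_lit 340) (nat_lit 296) (nat_lit 144))) (XT.nd (nat_lit 78) (nat_lit 0) (nat_lit 0) (XT.lf (nat_lit 0) (nat_lit 2124414874) (nat_lit 608) (nat_lit 23193819800) (nat_lit 76) (nat_lit 185279109) (nat_lit 172) (nat_lit 5) (nat_lit 180) (nat_lit 5) (nat_lit 173) (nat_lit 5) (nat_lit 341) (nat_lit 296) (nat_lit 143)) (XT.lf (nat_lit 0) (nat_lit 8107256338)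 (nat_lit 608) (nat_lit 4440770597) (nat_lit 76) (nat_lit 13441786504) (nat_lit 172) (nat_lit 5) (nat_lit 180) (nat_lit 5) (nat_lit 173) (nat_lit 5) (nat_lit 342) (nat_lit 296) (nat_lit 142))))) (XT.nd (nat_lit 234) (nat_lit 836) (nat_lit 0) (XT.nd (nat_lit 78) (nat_lit 988) (nat_lit 0) (XT.lf (nat_lit 0) (nat_lit 14363280946) (nat_lit 532) (nat_lit 11432583751) (nat_lit 76) (nat_lit 692968202) (nat_lit 166) (nat_lit 5) (nat_lit 173) (nat_lit 5) (nat_lit 167) (nat_lit 5) (nat_lit 343) (nat_lit 296) (nat_lit 141)) (XT.nd (nat_lit 78) (nat_lit 532) (nat_lit 0) (XT.lf (nat_lit 0) (nat_lit 8208824897) (nat_lit 456) (nat_lit 12757177595) (nat_lit 532) (nat_lit 6033644763) (nat_lit 160) (nat_lit 5) (nat_lit 166) (nat_lit 5) (nat_lit 167) (nat_lit 5) (nat_lit 344) (nat_lit 296) (nat_lit 140)) (XT.lf (nat_lit 0) (nat_lit 319353345) (nat_lit 532) (nat_lit 26456828251) (nat_lit 76) (nat_lit 747947666) (nat_lit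 153) (nat_lit 5) (nat_lit 160) (nat_lit 5) (nat_lit 154) (nat_lit 5) (nat_lit 345) (nat_lit 296) (nat_lit 139)))) (XT.nd (nat_lit 156) (nat_lit 380) (nat_lit 0) (XT.nd (nat_lit 78) (nat_lit 456) (nat_lit 0) (XT.lf (nat_lit 0) (nat_lit 6986703262) (nat_lit 532) (nat_lit 6421284764) (nat_lit 76) (nat_lit 14651449631) (nat_lit 153) (nat_lit 5) (nat_lit 160) (nat_lit 5) (nat_lit 154) (nat_lit 5) (nat_lit 346) (nat_lit 296) (nat_lit 138)) (XT.lf (nat_lit 0) (nat_lit 13942486454) (nat_lit 532) (nat_lit 14218980845) (nat_lit 76) (nat_lit 447573908) (nat_lit 147) (nat_lit 5) (nat_lit 154) (nat_lit 5) (nat_lit 148) (nat_lit 5) (nat_lit 347) (nat_lit 296) (nat_lit 137))) (XT.nd (nat_lit 78) (nat_lit 0) (nat_lit 0) (XT.lf (nat_lit 0) (nat_lit 6726656135) (nat_lit 380) (nat_lit 14549588127) (nat_lit 456) (nat_lit 7895506618) (nat_lit 142) (nat_lit 5) (nat_lit 147) (nat_lit 5) (nat_lit 148) (nat_lit 5) (nat_lit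 348) (nat_lit 296) (nat_lit 136)) (XT.lf (nat_lit 0) (nat_lit 28484481550) (nat_lit 380) (nat_lit 434204903) (nat_lit 456) (nat_lit 830885875) (nat_lit 142) (nat_lit 5) (nat_lit 147) (nat_lit 5) (nat_lit 148) (nat_lit 5) (nat_lit 349) (nat_lit 296) (nat_lit 135))))))) (XT.nd (nat_lit 37128) (nat_lit 0) (nat_lit 15884) (XT.nd (nat_lit 36582) (nat_lit 0) (nat_lit 20140) (XT.nd (nat_lit 234) (nat_lit 380) (nat_lit 0) (XT.nd (nat_lit 78) (nat_lit 760) (nat_lit 0) (XT.lf (nat_lit 0) (nat_lit 6581208429) (nat_lit 532) (nat_lit 9663806529) (nat_lit 76) (nat_lit 14094478781) (nat_lit 135) (nat_lit 5) (nat_lit 142) (nat_lit 5) (nat_lit 136) (nat_lit 5) (nat_lit 350) (nat_lit 296) (nat_lit 134)) (XT.nd (nat_lit 78) (nat_lit 380) (nat_lit 0) (XT.lf (nat_lit 0) (nat_lit 12489793020) (nat_lit 380) (nat_lit 1799894587) (nat_lit 456) (nat_lit 16655612752) (nat_lit 130) (nat_lit 5) (nat_lit 135) (nat_lit 5) (nat_lit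 136) (nat_lit 5) (nat_lit 351) (nat_lit 296) (nat_lit 133)) (XT.lf (nat_lit 0) (nat_lit 3826631094) (nat_lit 380) (nat_lit 18571216574) (nat_lit 456) (nat_lit 9168068500) (nat_lit 125) (nat_lit 5) (nat_lit 130) (nat_lit 5) (nat_lit 131) (nat_lit 5) (nat_lit 352) (nat_lit 296) (nat_lit 132)))) (XT.nd (nat_lit 78) (nat_lit 380) (nat_lit 0) (XT.lf (nat_lit 0) (nat_lit 27007313380) (nat_lit 380) (nat_lit 3871849039) (nat_lit 456) (nat_lit 1323393247) (nat_lit 125) (nat_lit 5) (nat_lit 130) (nat_lit 5) (nat_lit 131) (nat_lit 5) (nat_lit 353) (nat_lit 296) (nat_lit 131)) (XT.nd (nat_lit 36192) (nat_lit 0) (nat_lit 21508) (XT.lf (nat_lit 0) (nat_lit 6853504419) (nat_lit 380) (nat_lit 14719469858) (nat_lit 76) (nat_lit 11280736024) (nat_lit 120) (nat_lit 5) (nat_lit 125) (nat_lit 5) (nat_lit 121) (nat_lit 5) (nat_lit 354) (nat_lit 296) (nat_lit 130)) (XT.lf (nat_lit 0) (nat_lit 1897786051) (nat_lit 0)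 (nat_lit 1897786051) (nat_lit 1596) (nat_lit 2454545920) (nat_lit 403) (nat_lit 5) (nat_lit 403) (nat_lit 3) (nat_lit 424) (nat_lit 3) (nat_lit 297) (nat_lit 297) (nat_lit 186))))) (XT.nd (nat_lit 234) (nat_lit 1368) (nat_lit 0) (XT.nd (nat_lit 78) (nat_lit 0) (nat_lit 0) (XT.lf (nat_lit 0) (nat_lit 8352467884) (nat_lit 1596) (nat_lit 199689982) (nat_lit 1672) (nat_lit 4122131671) (nat_lit 403) (nat_lit 5) (nat_lit 424) (nat_lit 3) (nat_lit 425) (nat_lit 5) (nat_lit 298) (nat_lit 297) (nat_lit 185)) (XT.nd (nat_lit 78) (nat_lit 0) (nat_lit 76) (XT.lf (nat_lit 76) (nat_lit 8635620888) (nat_lit 0) (nat_lit 558329805) (nat_lit 1672) (nat_lit 3658487103) (nat_lit 404) (nat_lit 5) (nat_lit 403) (nat_lit 5) (nat_lit 425) (nat_lit 5) (nat_lit 299) (nat_lit 297) (nat_lit 184)) (XT.lf (nat_lit 76) (nat_lit 4701598868) (nat_lit 0) (nat_lit 5417362349) (nat_lit 1672) (nat_lit 2915822599) (nat_lit 405) (nat_lit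 5) (nat_lit 404) (nat_lit 5) (nat_lit 426) (nat_lit 5) (nat_lit 300) (nat_lit 297) (nat_lit 183)))) (XT.nd (nat_lit 156) (nat_lit 1520) (nat_lit 0) (XT.nd (nat_lit 78) (nat_lit 0) (nat_lit 0) (XT.lf (nat_lit 76) (nat_lit 696895724) (nat_lit 0) (nat_lit 10407284004) (nat_lit 1672) (nat_lit 2117789765) (nat_lit 406) (nat_lit 5) (nat_lit 405) (nat_lit 5) (nat_lit 427) (nat_lit 5) (nat_lit 301) (nat_lit 297) (nat_lit 182)) (XT.lf (nat_lit 76) (nat_lit 10062081061) (nat_lit 0) (nat_lit 2127136211) (nat_lit 1672) (nat_lit 1224166108) (nat_lit 406) (nat_lit 5) (nat_lit 405) (nat_lit 5) (nat_lit 427) (nat_lit 5) (nat_lit 302) (nat_lit 297) (nat_lit 181))) (XT.nd (nat_lit 78) (nat_lit 1596) (nat_lit 0) (XT.lf (nat_lit 76) (nat_lit 6123150072) (nat_lit 0) (nat_lit 7243481363) (nat_lit 1672) (nat_lit 242729108) (nat_lit 407) (nat_lit 5) (nat_lit 406) (nat_lit 5) (nat_lit 428) (nat_lit 5) (nat_lit 303) (nat_lit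 297) (nat_lit 180)) (XT.lf (nat_lit 0) (nat_lit 796364358) (nat_lit 1672) (nat_lit 11707213339) (nat_lit 1748) (nat_lit 1306790355) (nat_lit 385) (nat_lit 5) (nat_lit 407) (nat_lit 5) (nat_lit 408) (nat_lit 5) (nat_lit 304) (nat_lit 297) (nat_lit 179)))))) (XT.nd (nat_lit 546) (nat_lit 4256) (nat_lit 0) (XT.nd (nat_lit 234) (nat_lit 0) (nat_lit 152) (XT.nd (nat_lit 78) (nat_lit 0) (nat_lit 76) (XT.lf (nat_lit 0) (nat_lit 1942328151) (nat_lit 1672) (nat_lit 1997734452) (nat_lit 1748) (nat_lit 10075747240) (nat_lit 385) (nat_lit 5) (nat_lit 407) (nat_lit 5) (nat_lit 408) (nat_lit 5) (nat_lit 305) (nat_lit 297) (nat_lit 178)) (XT.nd (nat_lit 78) (nat_lit 0) (nat_lit 0) (XT.lf (nat_lit 0) (nat_lit 3187382723) (nat_lit 1672) (nat_lit 6162867207) (nat_lit 1748) (nat_lit 4875886303) (nat_lit 386) (nat_lit 5) (nat_lit 408) (nat_lit 5) (nat_lit 409) (nat_lit 5) (nat_lit 306) (nat_lit 297) (nat_lit 177))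 (XT.lf (nat_lit 76) (nat_lit 4023829452) (nat_lit 0) (nat_lit 492667671) (nat_lit 1748) (nat_lit 9925356259) (nat_lit 387) (nat_lit 5) (nat_lit 386) (nat_lit 5) (nat_lit 409) (nat_lit 5) (nat_lit 307) (nat_lit 297) (nat_lit 176)))) (XT.nd (nat_lit 156) (nat_lit 0) (nat_lit 76) (XT.nd (nat_lit 78) (nat_lit 0) (nat_lit 76) (XT.lf (nat_lit 0) (nat_lit 5964681668) (nat_lit 1672) (nat_lit 132696987) (nat_lit 1748) (nat_lit 8565094145) (nat_lit 387) (nat_lit 5) (nat_lit 409) (nat_lit 5) (nat_lit 410) (nat_lit 5) (nat_lit 308) (nat_lit 297) (nat_lit 175)) (XT.lf (nat_lit 0) (nat_lit 7529948497) (nat_lit 1672) (nat_lit 4325172635) (nat_lit 1748) (nat_lit 3033131196) (nat_lit 388) (nat_lit 5) (nat_lit 410) (nat_lit 5) (nat_lit 411) (nat_lit 5) (nat_lit 309) (nat_lit 297) (nat_lit 174))) (XT.nd (nat_lit 78) (nat_lit 0) (nat_lit 76) (XT.lf (nat_lit 76) (nat_lit 6491663640) (nat_lit 0) (nat_lit 2716491911)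 (nat_lit 1748) (nat_lit 5911343892) (nat_lit 389) (nat_lit 5) (nat_lit 388) (nat_lit 5) (nat_lit 411) (nat_lit 5) (nat_lit 310) (nat_lit 297) (nat_lit 173)) (XT.lf (nat_lit 76) (nat_lit 2308087699) (nat_lit 0) (nat_lit 8699200412) (nat_lit 1748) (nat_lit 4348997716) (nat_lit 390) (nat_lit 5) (nat_lit 389) (nat_lit 5) (nat_lit 412) (nat_lit 5) (nat_lit 311) (nat_lit 297) (nat_lit 172))))) (XT.nd (nat_lit 234) (nat_lit 2964) (nat_lit 0) (XT.nd (nat_lit 78) (nat_lit 1672) (nat_lit 0) (XT.lf (nat_lit 0) (nat_lit 12924734290) (nat_lit 1672) (nat_lit 1945414327) (nat_lit 1748) (nat_lit 728753446) (nat_lit 390) (nat_lit 5) (nat_lit 412) (nat_lit 5) (nat_lit 413) (nat_lit 5) (nat_lit 312) (nat_lit 297) (nat_lit 171)) (XT.nd (nat_lit 78) (nat_lit 1672) (nat_lit 0) (XT.lf (nat_lit 76) (nat_lit 9544073363) (nat_lit 0) (nat_lit 5459322394) (nat_lit 1748) (nat_lit 843339860) (nat_lit 391) (nat_lit 5) (nat_lit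 390) (nat_lit 5) (nat_lit 413) (nat_lit 5) (nat_lit 313) (nat_lit 297) (nat_lit 170)) (XT.lf (nat_lit 0) (nat_lit 1088462427) (nat_lit 1748) (nat_lit 10776014290) (nat_lit 76) (nat_lit 4236209741) (nat_lit 368) (nat_lit 5) (nat_lit 391) (nat_lit 5) (nat_lit 369) (nat_lit 5) (nat_lit 314) (nat_lit 297) (nat_lit 169)))) (XT.nd (nat_lit 156) (nat_lit 1672) (nat_lit 0) (XT.nd (nat_lit 78) (nat_lit 0) (nat_lit 0) (XT.lf (nat_lit 0) (nat_lit 982638987) (nat_lit 1292) (nat_lit 2154295817) (nat_lit 1368) (nat_lit 13223817768) (nat_lit 351) (nat_lit 5) (nat_lit 368) (nat_lit 5) (nat_lit 369) (nat_lit 5) (nat_lit 315) (nat_lit 297) (nat_lit 168)) (XT.lf (nat_lit 0) (nat_lit 5355930380) (nat_lit 1368) (nat_lit 3450664885) (nat_lit 76) (nat_lit 7819855392) (nat_lit 351) (nat_lit 5) (nat_lit 369) (nat_lit 5) (nat_lit 352) (nat_lit 5) (nat_lit 316) (nat_lit 297) (nat_lit 167))) (XT.nd (nat_lit 78) (nat_lit 836)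 (nat_lit 0) (XT.lf (nat_lit 0) (nat_lit 7706860049) (nat_lit 912) (nat_lit 7982926796) (nat_lit 76) (nat_lit 1209036592) (nat_lit 340) (nat_lit 5) (nat_lit 352) (nat_lit 5) (nat_lit 341) (nat_lit 5) (nat_lit 317) (nat_lit 297) (nat_lit 166)) (XT.lf (nat_lit 0) (nat_lit 4508541769) (nat_lit 836) (nat_lit 5716903009) (nat_lit 912) (nat_lit 6951990795) (nat_lit 329) (nat_lit 5) (nat_lit 340) (nat_lit 5) (nat_lit 341) (nat_lit 5) (nat_lit 318) (nat_lit 297) (nat_lit 165))))))))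
noncomputable def xc107 : XT := (XT.nd (nat_lit 2106) (nat_lit 2660) (nat_lit 0) (XT.nd (nat_lit 1014) (nat_lit 6080) (nat_lit 0) (XT.nd (nat_lit 468) (nat_lit 3496) (nat_lit 0) (XT.nd (nat_lit 234) (nat_lit 1520) (nat_lit 0) (XT.nd (nat_lit 78) (nat_lit 1748) (nat_lit 0) (XT.lf (nat_lit 0) (nat_lit 12889385495) (nat_lit 912) (nat_lit 22646464) (nat_lit 76) (nat_lit 4550988549) (nat_lit 329) (nat_lit 5) (nat_lit 341) (nat_lit 5) (nat_lit 330) (nat_lit 5) (nat_lit 319) (nat_lit 297) (nat_lit 164)) (XT.nd (nat_lit 78) (nat_lit 912) (nat_lit 0) (XT.lf (nat_lit 0) (nat_lit 13123854435) (nat_lit 836) (nat_lit 2619014890) (nat_lit 912) (nat_lit 2012121269) (nat_lit 318) (nat_lit 5) (nat_lit 329) (nat_lit 5) (nat_lit 330) (nat_lit 5) (nat_lit 320) (nat_lit 297) (nat_lit 163)) (XT.lf (nat_lit 0) (nat_lit 713347797) (nat_lit 912) (nat_lit 9400561699) (nat_lit 76) (nat_lit 7939832118) (nat_lit 306) (nat_lit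 5) (nat_lit 318) (nat_lit 5) (nat_lit 307) (nat_lit 5) (nat_lit 321) (nat_lit 297) (nat_lit 162)))) (XT.nd (nat_lit 78) (nat_lit 760) (nat_lit 0) (XT.lf (nat_lit 0) (nat_lit 3558697644) (nat_lit 836) (nat_lit 14315723399) (nat_lit 76) (nat_lit 485468383) (nat_lit 296) (nat_lit 5) (nat_lit 307) (nat_lit 5) (nat_lit 297) (nat_lit 5) (nat_lit 322) (nat_lit 297) (nat_lit 161)) (XT.nd (nat_lit 78) (nat_lit 760) (nat_lit 0) (XT.lf (nat_lit 0) (nat_lit 6608192174) (nat_lit 836) (nat_lit 734221335) (nat_lit 76) (nat_lit 11330441542) (nat_lit 296) (nat_lit 5) (nat_lit 307) (nat_lit 5) (nat_lit 297) (nat_lit 5) (nat_lit 323) (nat_lit 297) (nat_lit 160)) (XT.lf (nat_lit 0) (nat_lit 9847029067) (nat_lit 836) (nat_lit 5599104874) (nat_lit 76) (nat_lit 3547127352) (nat_lit 286) (nat_lit 5) (nat_lit 297) (nat_lit 5) (nat_lit 287) (nat_lit 5) (nat_lit 324) (nat_lit 297) (nat_lit 159))))) (XT.nd (nat_lit 234) (nat_lit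 1976) (nat_lit 0) (XT.nd (nat_lit 78) (nat_lit 836) (nat_lit 0) (XT.lf (nat_lit 0) (nat_lit 8685237197) (nat_lit 684) (nat_lit 4595981324) (nat_lit 760) (nat_lit 6040105994) (nat_lit 277) (nat_lit 5) (nat_lit 286) (nat_lit 5) (nat_lit 287) (nat_lit 5) (nat_lit 325) (nat_lit 297) (nat_lit 158)) (XT.nd (nat_lit 78) (nat_lit 76) (nat_lit 0) (XT.lf (nat_lit 0) (nat_lit 3810454377) (nat_lit 760) (nat_lit 13101591736) (nat_lit 836) (nat_lit 2745319565) (nat_lit 267) (nat_lit 5) (nat_lit 277) (nat_lit 5) (nat_lit 278) (nat_lit 5) (nat_lit 326) (nat_lit 297) (nat_lit 157)) (XT.lf (nat_lit 0) (nat_lit 731236997) (nat_lit 836) (nat_lit 1214274778) (nat_lit 76) (nat_lit 18056071424) (nat_lit 266) (nat_lit 5) (nat_lit 277) (nat_lit 5) (nat_lit 267) (nat_lit 5) (nat_lit 327) (nat_lit 297) (nat_lit 156)))) (XT.nd (nat_lit 156) (nat_lit 608) (nat_lit 0) (XT.nd (nat_lit 78) (nat_lit 684) (nat_lit 0) (XT.lf (nat_lit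 0) (nat_lit 4417149663) (nat_lit 760) (nat_lit 6406556000) (nat_lit 76) (nat_lit 9529219166) (nat_lit 257) (nat_lit 5) (nat_lit 267) (nat_lit 5) (nat_lit 258) (nat_lit 5) (nat_lit 328) (nat_lit 297) (nat_lit 155)) (XT.lf (nat_lit 0) (nat_lit 8286193671) (nat_lit 760) (nat_lit 11762063534) (nat_lit 76) (nat_lit 665105863) (nat_lit 248) (nat_lit 5) (nat_lit 258) (nat_lit 5) (nat_lit 249) (nat_lit 5) (nat_lit 329) (nat_lit 297) (nat_lit 154))) (XT.nd (nat_lit 78) (nat_lit 0) (nat_lit 0) (XT.lf (nat_lit 0) (nat_lit 3737731881) (nat_lit 608) (nat_lit 8662907039) (nat_lit 684) (nat_lit 8681396160) (nat_lit 240) (nat_lit 5) (nat_lit 248) (nat_lit 5) (nat_lit 249) (nat_lit 5) (nat_lit 330) (nat_lit 297) (nat_lit 153)) (XT.lf (nat_lit 0) (nat_lit 16727853045) (nat_lit 684) (nat_lit 1629540562) (nat_lit 76) (nat_lit 3102593949) (nat_lit 240) (nat_lit 5) (nat_lit 249) (nat_lit 5) (nat_lit 241) (nat_lit 5)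 (nat_lit 331) (nat_lit 297) (nat_lit 152)))))) (XT.nd (nat_lit 546) (nat_lit 2508) (nat_lit 0) (XT.nd (nat_lit 234) (nat_lit 1672) (nat_lit 0) (XT.nd (nat_lit 78) (nat_lit 1292) (nat_lit 0) (XT.lf (nat_lit 0) (nat_lit 14679146917) (nat_lit 608) (nat_lit 6648501064) (nat_lit 684) (nat_lit 518782147) (nat_lit 232) (nat_lit 5) (nat_lit 240) (nat_lit 5) (nat_lit 241) (nat_lit 5) (nat_lit 332) (nat_lit 297) (nat_lit 151)) (XT.nd (nat_lit 78) (nat_lit 608) (nat_lit 0) (XT.lf (nat_lit 0) (nat_lit 3868062372) (nat_lit 684) (nat_lit 12937784913) (nat_lit 76) (nat_lit 5436184922) (nat_lit 223) (nat_lit 5) (nat_lit 232) (nat_lit 5) (nat_lit 224) (nat_lit 5) (nat_lit 333) (nat_lit 297) (nat_lit 150)) (XT.lf (nat_lit 0) (nat_lit 3707822391) (nat_lit 608) (nat_lit 4778996883) (nat_lit 684) (nat_lit 14160473678) (nat_lit 215) (nat_lit 5) (nat_lit 223) (nat_lit 5) (nat_lit 224) (nat_lit 5) (nat_lit 334) (nat_lit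 297) (nat_lit 149)))) (XT.nd (nat_lit 156) (nat_lit 1140) (nat_lit 0) (XT.nd (nat_lit 78) (nat_lit 532) (nat_lit 0) (XT.lf (nat_lit 0) (nat_lit 13371885712) (nat_lit 684) (nat_lit 2095095995) (nat_lit 76) (nat_lit 7595180986) (nat_lit 215) (nat_lit 5) (nat_lit 224) (nat_lit 5) (nat_lit 216) (nat_lit 5) (nat_lit 335) (nat_lit 297) (nat_lit 148)) (XT.lf (nat_lit 0) (nat_lit 15413097853) (nat_lit 532) (nat_lit 3112821352) (nat_lit 608) (nat_lit 4961116950) (nat_lit 208) (nat_lit 5) (nat_lit 215) (nat_lit 5) (nat_lit 216) (nat_lit 5) (nat_lit 336) (nat_lit 297) (nat_lit 147))) (XT.nd (nat_lit 78) (nat_lit 532) (nat_lit 0) (XT.lf (nat_lit 0) (nat_lit 41572240) (nat_lit 608) (nat_lit 14319749369) (nat_lit 76) (nat_lit 9560742098) (nat_lit 200) (nat_lit 5) (nat_lit 208) (nat_lit 5) (nat_lit 201) (nat_lit 5) (nat_lit 337) (nat_lit 297) (nat_lit 146)) (XT.lf (nat_lit 0) (nat_lit 3530644630) (nat_lit 532)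 (nat_lit 1686202260) (nat_lit 608) (nat_lit 19150846679) (nat_lit 193) (nat_lit 5) (nat_lit 200) (nat_lit 5) (nat_lit 201) (nat_lit 5) (nat_lit 338) (nat_lit 297) (nat_lit 145))))) (XT.nd (nat_lit 234) (nat_lit 1520) (nat_lit 0) (XT.nd (nat_lit 78) (nat_lit 988) (nat_lit 0) (XT.lf (nat_lit 0) (nat_lit 10709763580) (nat_lit 608) (nat_lit 2798260466) (nat_lit 76) (nat_lit 11315425926) (nat_lit 193) (nat_lit 5) (nat_lit 201) (nat_lit 5) (nat_lit 194) (nat_lit 5) (nat_lit 339) (nat_lit 297) (nat_lit 144)) (XT.nd (nat_lit 78) (nat_lit 456) (nat_lit 0) (XT.lf (nat_lit 0) (nat_lit 15968572711) (nat_lit 532) (nat_lit 505005193) (nat_lit 608) (nat_lit 8817184128) (nat_lit 186) (nat_lit 5) (nat_lit 193) (nat_lit 5) (nat_lit 194) (nat_lit 5) (nat_lit 340) (nat_lit 297) (nat_lit 143)) (XT.lf (nat_lit 0) (nat_lit 9595793773) (nat_lit 456) (nat_lit 12970905747) (nat_lit 532) (nat_lit 3202271091) (nat_lit 180)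 (nat_lit 5) (nat_lit 186) (nat_lit 5) (nat_lit 187) (nat_lit 5) (nat_lit 341) (nat_lit 297) (nat_lit 142)))) (XT.nd (nat_lit 156) (nat_lit 912) (nat_lit 0) (XT.nd (nat_lit 78) (nat_lit 0) (nat_lit 0) (XT.lf (nat_lit 0) (nat_lit 2626986543) (nat_lit 608) (nat_lit 23306111285) (nat_lit 76) (nat_lit 326502258) (nat_lit 172) (nat_lit 5) (nat_lit 180) (nat_lit 5) (nat_lit 173) (nat_lit 5) (nat_lit 342) (nat_lit 297) (nat_lit 141)) (XT.lf (nat_lit 0) (nat_lit 8776531526) (nat_lit 608) (nat_lit 4007466424) (nat_lit 76) (nat_lit 13976753473) (nat_lit 172) (nat_lit 5) (nat_lit 180) (nat_lit 5) (nat_lit 173) (nat_lit 5) (nat_lit 343) (nat_lit 297) (nat_lit 140))) (XT.nd (nat_lit 78) (nat_lit 456) (nat_lit 0) (XT.lf (nat_lit 0) (nat_lit 15212355450) (nat_lit 532) (nat_lit 11210560880) (nat_lit 76) (nat_lit 851989619) (nat_lit 166) (nat_lit 5) (nat_lit 173) (nat_lit 5) (nat_lit 167) (nat_lit 5) (nat_lit 344)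 (nat_lit 297) (nat_lit 139)) (XT.lf (nat_lit 0) (nat_lit 9010923567) (nat_lit 456) (nat_lit 12993664032) (nat_lit 532) (nat_lit 5796635210) (nat_lit 160) (nat_lit 5) (nat_lit 166) (nat_lit 5) (nat_lit 167) (nat_lit 5) (nat_lit 345) (nat_lit 297) (nat_lit 138))))))) (XT.nd (nat_lit 37206) (nat_lit 0) (nat_lit 18468) (XT.nd (nat_lit 468) (nat_lit 760) (nat_lit 0) (XT.nd (nat_lit 234) (nat_lit 912) (nat_lit 0) (XT.nd (nat_lit 78) (nat_lit 456) (nat_lit 0) (XT.lf (nat_lit 0) (nat_lit 734004487) (nat_lit 532) (nat_lit 26690779318) (nat_lit 76) (nat_lit 916756843) (nat_lit 153) (nat_lit 5) (nat_lit 160) (nat_lit 5) (nat_lit 154) (nat_lit 5) (nat_lit 346) (nat_lit 297) (nat_lit 137)) (XT.nd (nat_lit 78) (nat_lit 456) (nat_lit 0) (XT.lf (nat_lit 0) (nat_lit 7589576730) (nat_lit 532) (nat_lit 6070473034) (nat_lit 76) (nat_lit 15233100641) (nat_lit 153) (nat_lit 5) (nat_lit 160) (nat_lit 5) (nat_lit 154)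 (nat_lit 5) (nat_lit 347) (nat_lit 297) (nat_lit 136)) (XT.lf (nat_lit 0) (nat_lit 14747019721) (nat_lit 532) (nat_lit 14103981730) (nat_lit 76) (nat_lit 608386854) (nat_lit 147) (nat_lit 5) (nat_lit 154) (nat_lit 5) (nat_lit 148) (nat_lit 5) (nat_lit 348) (nat_lit 297) (nat_lit 135)))) (XT.nd (nat_lit 78) (nat_lit 532) (nat_lit 0) (XT.lf (nat_lit 0) (nat_lit 7461238053) (nat_lit 380) (nat_lit 14831761133) (nat_lit 456) (nat_lit 7746141698) (nat_lit 142) (nat_lit 5) (nat_lit 147) (nat_lit 5) (nat_lit 148) (nat_lit 5) (nat_lit 349) (nat_lit 297) (nat_lit 134)) (XT.nd (nat_lit 78) (nat_lit 532) (nat_lit 0) (XT.lf (nat_lit 0) (nat_lit 29856280301) (nat_lit 380) (nat_lit 297411014) (nat_lit 456) (nat_lit 480831755) (nat_lit 142) (nat_lit 5) (nat_lit 147) (nat_lit 5) (nat_lit 148) (nat_lit 5) (nat_lit 350) (nat_lit 297) (nat_lit 133)) (XT.lf (nat_lit 0) (nat_lit 7142247585) (nat_lit 532) (nat_lit 9433380607)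 (nat_lit 76) (nat_lit 14666599789) (nat_lit 135) (nat_lit 5) (nat_lit 142) (nat_lit 5) (nat_lit 136) (nat_lit 5) (nat_lit 351) (nat_lit 297) (nat_lit 132))))) (XT.nd (nat_lit 36426) (nat_lit 0) (nat_lit 21128) (XT.nd (nat_lit 78) (nat_lit 380) (nat_lit 0) (XT.lf (nat_lit 0) (nat_lit 13376385028) (nat_lit 380) (nat_lit 1698329318) (nat_lit 456) (nat_lit 16791644991) (nat_lit 130) (nat_lit 5) (nat_lit 135) (nat_lit 5) (nat_lit 136) (nat_lit 5) (nat_lit 352) (nat_lit 297) (nat_lit 131)) (XT.nd (nat_lit 78) (nat_lit 0) (nat_lit 0) (XT.lf (nat_lit 0) (nat_lit 4451211276) (nat_lit 380) (nat_lit 18968819643) (nat_lit 456) (nat_lit 9085689514) (nat_lit 125) (nat_lit 5) (nat_lit 130) (nat_lit 5) (nat_lit 131) (nat_lit 5) (nat_lit 353) (nat_lit 297) (nat_lit 130)) (XT.lf (nat_lit 0) (nat_lit 28312466034) (nat_lit 380) (nat_lit 3833117686) (nat_lit 456) (nat_lit 1016084325) (nat_lit 125) (nat_lit 5) (nat_lit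 130) (nat_lit 5) (nat_lit 131) (nat_lit 5) (nat_lit 354) (nat_lit 297) (nat_lit 129)))) (XT.nd (nat_lit 156) (nat_lit 0) (nat_lit 0) (XT.nd (nat_lit 78) (nat_lit 0) (nat_lit 0) (XT.lf (nat_lit 0) (nat_lit 2261906717) (nat_lit 0) (nat_lit 2261906717) (nat_lit 1596) (nat_lit 1901024543) (nat_lit 403) (nat_lit 5) (nat_lit 403) (nat_lit 3) (nat_lit 424) (nat_lit 3) (nat_lit 298) (nat_lit 298) (nat_lit 184)) (XT.lf (nat_lit 76) (nat_lit 425069191) (nat_lit 0) (nat_lit 9369819369) (nat_lit 1672) (nat_lit 3234829424) (nat_lit 404) (nat_lit 5) (nat_lit 403) (nat_lit 5) (nat_lit 425) (nat_lit 5) (nat_lit 299) (nat_lit 298) (nat_lit 183))) (XT.nd (nat_lit 78) (nat_lit 0) (nat_lit 76) (XT.lf (nat_lit 76) (nat_lit 9509721808) (nat_lit 0) (nat_lit 1118493815) (nat_lit 1672) (nat_lit 2585691129) (nat_lit 404) (nat_lit 5) (nat_lit 403) (nat_lit 5) (nat_lit 425) (nat_lit 5) (nat_lit 300) (nat_lit 298) (nat_lit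 182)) (XT.lf (nat_lit 76) (nat_lit 5474885039) (nat_lit 0) (nat_lit 6073029736) (nat_lit 1672) (nat_lit 1854496854) (nat_lit 405) (nat_lit 5) (nat_lit 404) (nat_lit 5) (nat_lit 426) (nat_lit 5) (nat_lit 301) (nat_lit 298) (nat_lit 181)))))) (XT.nd (nat_lit 546) (nat_lit 1216) (nat_lit 0) (XT.nd (nat_lit 234) (nat_lit 0) (nat_lit 76) (XT.nd (nat_lit 78) (nat_lit 1596) (nat_lit 0) (XT.lf (nat_lit 76) (nat_lit 1365969186) (nat_lit 0) (nat_lit 11165042210) (nat_lit 1672) (nat_lit 1064861495) (nat_lit 406) (nat_lit 5) (nat_lit 405) (nat_lit 5) (nat_lit 427) (nat_lit 5) (nat_lit 302) (nat_lit 298) (nat_lit 180)) (XT.nd (nat_lit 78) (nat_lit 1596) (nat_lit 0) (XT.lf (nat_lit 76) (nat_lit 10993231444) (nat_lit 0) (nat_lit 2623513099) (nat_lit 1672) (nat_lit 176947438) (nat_lit 406) (nat_lit 5) (nat_lit 405) (nat_lit 5) (nat_lit 427) (nat_lit 5) (nat_lit 303) (nat_lit 298) (nat_lit 179)) (XT.lf (nat_lit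 0) (nat_lit 793299833) (nat_lit 1672) (nat_lit 7050961518) (nat_lit 1748) (nat_lit 6151797172) (nat_lit 384) (nat_lit 5) (nat_lit 406) (nat_lit 5) (nat_lit 407) (nat_lit 5) (nat_lit 304) (nat_lit 298) (nat_lit 178)))) (XT.nd (nat_lit 156) (nat_lit 0) (nat_lit 76) (XT.nd (nat_lit 78) (nat_lit 0) (nat_lit 0) (XT.lf (nat_lit 0) (nat_lit 1831820210) (nat_lit 1672) (nat_lit 11387447622) (nat_lit 1748) (nat_lit 984389027) (nat_lit 385) (nat_lit 5) (nat_lit 407) (nat_lit 5) (nat_lit 408) (nat_lit 5) (nat_lit 305) (nat_lit 298) (nat_lit 177)) (XT.lf (nat_lit 0) (nat_lit 2982699861) (nat_lit 1672) (nat_lit 1406227537) (nat_lit 1748) (nat_lit 10026946804) (nat_lit 385) (nat_lit 5) (nat_lit 407) (nat_lit 5) (nat_lit 408) (nat_lit 5) (nat_lit 306) (nat_lit 298) (nat_lit 176))) (XT.nd (nat_lit 78) (nat_lit 0) (nat_lit 0) (XT.lf (nat_lit 0) (nat_lit 4238605319) (nat_lit 1672) (nat_lit 5684927612) (nat_lit 1748)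 (nat_lit 4709529835) (nat_lit 386) (nat_lit 5) (nat_lit 408) (nat_lit 5) (nat_lit 409) (nat_lit 5) (nat_lit 307) (nat_lit 298) (nat_lit 175)) (XT.lf (nat_lit 76) (nat_lit 4796616389) (nat_lit 0) (nat_lit 787377404) (nat_lit 1748) (nat_lit 9271751337) (nat_lit 387) (nat_lit 5) (nat_lit 386) (nat_lit 5) (nat_lit 409) (nat_lit 5) (nat_lit 308) (nat_lit 298) (nat_lit 174))))) (XT.nd (nat_lit 234) (nat_lit 1444) (nat_lit 0) (XT.nd (nat_lit 78) (nat_lit 0) (nat_lit 76) (XT.lf (nat_lit 76) (nat_lit 523836384) (nat_lit 0) (nat_lit 6526278348) (nat_lit 1748) (nat_lit 8033399665) (nat_lit 388) (nat_lit 5) (nat_lit 387) (nat_lit 5) (nat_lit 410) (nat_lit 5) (nat_lit 309) (nat_lit 298) (nat_lit 173)) (XT.nd (nat_lit 78) (nat_lit 0) (nat_lit 0) (XT.lf (nat_lit 0) (nat_lit 8635265118) (nat_lit 1672) (nat_lit 3792042056) (nat_lit 1748) (nat_lit 2889322092) (nat_lit 388) (nat_lit 5) (nat_lit 410) (nat_lit 5) (nat_lit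 411) (nat_lit 5) (nat_lit 310) (nat_lit 298) (nat_lit 172)) (XT.lf (nat_lit 76) (nat_lit 7338544773) (nat_lit 0) (nat_lit 3003893558) (nat_lit 1748) (nat_lit 5212822937) (nat_lit 389) (nat_lit 5) (nat_lit 388) (nat_lit 5) (nat_lit 411) (nat_lit 5) (nat_lit 311) (nat_lit 298) (nat_lit 171)))) (XT.nd (nat_lit 156) (nat_lit 1596) (nat_lit 0) (XT.nd (nat_lit 78) (nat_lit 0) (nat_lit 76) (XT.lf (nat_lit 76) (nat_lit 3037730693) (nat_lit 0) (nat_lit 9135812586) (nat_lit 1748) (nat_lit 3626067291) (nat_lit 390) (nat_lit 5) (nat_lit 389) (nat_lit 5) (nat_lit 412) (nat_lit 5) (nat_lit 312) (nat_lit 298) (nat_lit 170)) (XT.lf (nat_lit 0) (nat_lit 14123055131) (nat_lit 1672) (nat_lit 1344646133) (nat_lit 1748) (nat_lit 582331912) (nat_lit 390) (nat_lit 5) (nat_lit 412) (nat_lit 5) (nat_lit 413) (nat_lit 5) (nat_lit 313) (nat_lit 298) (nat_lit 169))) (XT.nd (nat_lit 78) (nat_lit 1672) (nat_lit 0) (XT.lf (nat_lit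 76) (nat_lit 10478832576) (nat_lit 0) (nat_lit 5765844859) (nat_lit 1748) (nat_lit 61030469) (nat_lit 391) (nat_lit 5) (nat_lit 390) (nat_lit 5) (nat_lit 413) (nat_lit 5) (nat_lit 314) (nat_lit 298) (nat_lit 168)) (XT.lf (nat_lit 0) (nat_lit 1898294895) (nat_lit 1748) (nat_lit 10433397569) (nat_lit 76) (nat_lit 4235894027) (nat_lit 368) (nat_lit 5) (nat_lit 391) (nat_lit 5) (nat_lit 369) (nat_lit 5) (nat_lit 315) (nat_lit 298) (nat_lit 167))))))))
noncomputable def xc108 : XT := (XT.nd (nat_lit 2028) (nat_lit 4636) (nat_lit 0) (XT.nd (nat_lit 1014) (nat_lit 6080) (nat_lit 0) (XT.nd (nat_lit 468) (nat_lit 3952) (nat_lit 0) (XT.nd (nat_lit 234) (nat_lit 1672) (nat_lit 0) (XT.nd (nat_lit 78) (nat_lit 836) (nat_lit 0) (XT.lf (nat_lit 0) (nat_lit 1667211917) (nat_lit 1292) (nat_lit 2322626559) (nat_lit 1368) (nat_lit 12846000577) (nat_lit 351) (nat_lit 5) (nat_lit 368) (nat_lit 5) (nat_lit 369) (nat_lit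 5) (nat_lit 316) (nat_lit 298) (nat_lit 166)) (XT.nd (nat_lit 78) (nat_lit 836) (nat_lit 0) (XT.lf (nat_lit 0) (nat_lit 6252649385) (nat_lit 1368) (nat_lit 2902240017) (nat_lit 76) (nat_lit 7955090084) (nat_lit 351) (nat_lit 5) (nat_lit 369) (nat_lit 5) (nat_lit 352) (nat_lit 5) (nat_lit 317) (nat_lit 298) (nat_lit 165)) (XT.lf (nat_lit 0) (nat_lit 8656330511) (nat_lit 912) (nat_lit 7565640916) (nat_lit 76) (nat_lit 1168923393) (nat_lit 340) (nat_lit 5) (nat_lit 352) (nat_lit 5) (nat_lit 341) (nat_lit 5) (nat_lit 318) (nat_lit 298) (nat_lit 164)))) (XT.nd (nat_lit 78) (nat_lit 836) (nat_lit 0) (XT.lf (nat_lit 0) (nat_lit 5289916334) (nat_lit 836) (nat_lit 5943831147) (nat_lit 912) (nat_lit 6444467724) (nat_lit 329) (nat_lit 5) (nat_lit 340) (nat_lit 5) (nat_lit 341) (nat_lit 5) (nat_lit 319) (nat_lit 298) (nat_lit 163)) (XT.nd (nat_lit 78) (nat_lit 0) (nat_lit 0) (XT.lf (nat_lit 0) (nat_lit 626661440)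 (nat_lit 836) (nat_lit 13334231145) (nat_lit 912) (nat_lit 4011824310) (nat_lit 318) (nat_lit 5) (nat_lit 329) (nat_lit 5) (nat_lit 330) (nat_lit 5) (nat_lit 320) (nat_lit 298) (nat_lit 162)) (XT.lf (nat_lit 0) (nat_lit 14148926657) (nat_lit 836) (nat_lit 2731256888) (nat_lit 912) (nat_lit 1393672983) (nat_lit 318) (nat_lit 5) (nat_lit 329) (nat_lit 5) (nat_lit 330) (nat_lit 5) (nat_lit 321) (nat_lit 298) (nat_lit 161))))) (XT.nd (nat_lit 234) (nat_lit 2280) (nat_lit 0) (XT.nd (nat_lit 78) (nat_lit 760) (nat_lit 0) (XT.lf (nat_lit 0) (nat_lit 1389081259) (nat_lit 912) (nat_lit 9038534054) (nat_lit 76) (nat_lit 8154191942) (nat_lit 306) (nat_lit 5) (nat_lit 318) (nat_lit 5) (nat_lit 307) (nat_lit 5) (nat_lit 322) (nat_lit 298) (nat_lit 160)) (XT.nd (nat_lit 78) (nat_lit 0) (nat_lit 0) (XT.lf (nat_lit 0) (nat_lit 4304809469) (nat_lit 836) (nat_lit 14098327530) (nat_lit 76) (nat_lit 494315541) (nat_lit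 296) (nat_lit 5) (nat_lit 307) (nat_lit 5) (nat_lit 297) (nat_lit 5) (nat_lit 323) (nat_lit 298) (nat_lit 159)) (XT.lf (nat_lit 0) (nat_lit 7427166965) (nat_lit 836) (nat_lit 128221207) (nat_lit 76) (nat_lit 11664804407) (nat_lit 296) (nat_lit 5) (nat_lit 307) (nat_lit 5) (nat_lit 297) (nat_lit 5) (nat_lit 324) (nat_lit 298) (nat_lit 158)))) (XT.nd (nat_lit 156) (nat_lit 836) (nat_lit 0) (XT.nd (nat_lit 78) (nat_lit 684) (nat_lit 0) (XT.lf (nat_lit 0) (nat_lit 10749173458) (nat_lit 836) (nat_lit 5136758672) (nat_lit 76) (nat_lit 3664571414) (nat_lit 286) (nat_lit 5) (nat_lit 297) (nat_lit 5) (nat_lit 287) (nat_lit 5) (nat_lit 325) (nat_lit 298) (nat_lit 157)) (XT.lf (nat_lit 0) (nat_lit 9565887478) (nat_lit 684) (nat_lit 4706855324) (nat_lit 760) (nat_lit 5615951037) (nat_lit 277) (nat_lit 5) (nat_lit 286) (nat_lit 5) (nat_lit 287) (nat_lit 5) (nat_lit 326) (nat_lit 298) (nat_lit 156))) (XT.nd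 (nat_lit 78) (nat_lit 76) (nat_lit 0) (XT.lf (nat_lit 0) (nat_lit 4546699744) (nat_lit 760) (nat_lit 13452729301) (nat_lit 836) (nat_lit 2235660417) (nat_lit 267) (nat_lit 5) (nat_lit 277) (nat_lit 5) (nat_lit 278) (nat_lit 5) (nat_lit 327) (nat_lit 298) (nat_lit 155)) (XT.lf (nat_lit 0) (nat_lit 1320411294) (nat_lit 836) (nat_lit 638969872) (nat_lit 76) (nat_lit 18630527140) (nat_lit 266) (nat_lit 5) (nat_lit 277) (nat_lit 5) (nat_lit 267) (nat_lit 5) (nat_lit 328) (nat_lit 298) (nat_lit 154)))))) (XT.nd (nat_lit 468) (nat_lit 2812) (nat_lit 0) (XT.nd (nat_lit 234) (nat_lit 1292) (nat_lit 0) (XT.nd (nat_lit 78) (nat_lit 1292) (nat_lit 0) (XT.lf (nat_lit 0) (nat_lit 5104593567) (nat_lit 760) (nat_lit 5985791427) (nat_lit 76) (nat_lit 9861662345) (nat_lit 257) (nat_lit 5) (nat_lit 267) (nat_lit 5) (nat_lit 258) (nat_lit 5) (nat_lit 329) (nat_lit 298) (nat_lit 153)) (XT.nd (nat_lit 78) (nat_lit 608)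 (nat_lit 0) (XT.lf (nat_lit 0) (nat_lit 9077852822) (nat_lit 760) (nat_lit 11501090891) (nat_lit 76) (nat_lit 744602813) (nat_lit 248) (nat_lit 5) (nat_lit 258) (nat_lit 5) (nat_lit 249) (nat_lit 5) (nat_lit 330) (nat_lit 298) (nat_lit 152)) (XT.lf (nat_lit 0) (nat_lit 4453739650) (nat_lit 608) (nat_lit 8850094871) (nat_lit 684) (nat_lit 8399692483) (nat_lit 240) (nat_lit 5) (nat_lit 248) (nat_lit 5) (nat_lit 249) (nat_lit 5) (nat_lit 331) (nat_lit 298) (nat_lit 151)))) (XT.nd (nat_lit 78) (nat_lit 1292) (nat_lit 0) (XT.lf (nat_lit 0) (nat_lit 17745852177) (nat_lit 684) (nat_lit 1081948208) (nat_lit 76) (nat_lit 3265327994) (nat_lit 240) (nat_lit 5) (nat_lit 249) (nat_lit 5) (nat_lit 241) (nat_lit 5) (nat_lit 332) (nat_lit 298) (nat_lit 150)) (XT.nd (nat_lit 78) (nat_lit 684) (nat_lit 0) (XT.lf (nat_lit 0) (nat_lit 15706322739) (nat_lit 608) (nat_lit 6766094236) (nat_lit 684) (nat_lit 18981505)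 (nat_lit 232) (nat_lit 5) (nat_lit 240) (nat_lit 5) (nat_lit 241) (nat_lit 5) (nat_lit 333) (nat_lit 298) (nat_lit 149)) (XT.lf (nat_lit 0) (nat_lit 4482251479) (nat_lit 684) (nat_lit 12731974470) (nat_lit 76) (nat_lit 5684794208) (nat_lit 223) (nat_lit 5) (nat_lit 232) (nat_lit 5) (nat_lit 224) (nat_lit 5) (nat_lit 334) (nat_lit 298) (nat_lit 148))))) (XT.nd (nat_lit 234) (nat_lit 1672) (nat_lit 0) (XT.nd (nat_lit 78) (nat_lit 532) (nat_lit 0) (XT.lf (nat_lit 0) (nat_lit 4403365018) (nat_lit 608) (nat_lit 4825490643) (nat_lit 684) (nat_lit 14087806404) (nat_lit 215) (nat_lit 5) (nat_lit 223) (nat_lit 5) (nat_lit 224) (nat_lit 5) (nat_lit 335) (nat_lit 298) (nat_lit 147)) (XT.nd (nat_lit 78) (nat_lit 532) (nat_lit 0) (XT.lf (nat_lit 0) (nat_lit 14246887713) (nat_lit 684) (nat_lit 1581513295) (nat_lit 76) (nat_lit 7915857385) (nat_lit 215) (nat_lit 5) (nat_lit 224) (nat_lit 5) (nat_lit 216) (nat_lit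 5) (nat_lit 336) (nat_lit 298) (nat_lit 146)) (XT.lf (nat_lit 0) (nat_lit 16442574386) (nat_lit 532) (nat_lit 3102848386) (nat_lit 608) (nat_lit 4636666191) (nat_lit 208) (nat_lit 5) (nat_lit 215) (nat_lit 5) (nat_lit 216) (nat_lit 5) (nat_lit 337) (nat_lit 298) (nat_lit 145)))) (XT.nd (nat_lit 156) (nat_lit 532) (nat_lit 0) (XT.nd (nat_lit 78) (nat_lit 532) (nat_lit 0) (XT.lf (nat_lit 0) (nat_lit 500651393) (nat_lit 608) (nat_lit 14176361046) (nat_lit 76) (nat_lit 9953286448) (nat_lit 200) (nat_lit 5) (nat_lit 208) (nat_lit 5) (nat_lit 201) (nat_lit 5) (nat_lit 338) (nat_lit 298) (nat_lit 144)) (XT.lf (nat_lit 0) (nat_lit 4200248841) (nat_lit 532) (nat_lit 1621260346) (nat_lit 608) (nat_lit 19267989826) (nat_lit 193) (nat_lit 5) (nat_lit 200) (nat_lit 5) (nat_lit 201) (nat_lit 5) (nat_lit 339) (nat_lit 298) (nat_lit 143))) (XT.nd (nat_lit 78) (nat_lit 532) (nat_lit 0) (XT.lf (nat_lit 0) (nat_lit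 11466888501) (nat_lit 608) (nat_lit 2326712988) (nat_lit 76) (nat_lit 11765580754) (nat_lit 193) (nat_lit 5) (nat_lit 201) (nat_lit 5) (nat_lit 194) (nat_lit 5) (nat_lit 340) (nat_lit 298) (nat_lit 142)) (XT.lf (nat_lit 0) (nat_lit 16994112933) (nat_lit 532) (nat_lit 400358316) (nat_lit 608) (nat_lit 8646232751) (nat_lit 186) (nat_lit 5) (nat_lit 193) (nat_lit 5) (nat_lit 194) (nat_lit 5) (nat_lit 341) (nat_lit 298) (nat_lit 141))))))) (XT.nd (nat_lit 37284) (nat_lit 0) (nat_lit 19608) (XT.nd (nat_lit 468) (nat_lit 2128) (nat_lit 0) (XT.nd (nat_lit 234) (nat_lit 1444) (nat_lit 0) (XT.nd (nat_lit 78) (nat_lit 608) (nat_lit 0) (XT.lf (nat_lit 0) (nat_lit 10429157839) (nat_lit 456) (nat_lit 13233097759) (nat_lit 532) (nat_lit 2871173057) (nat_lit 180) (nat_lit 5) (nat_lit 186) (nat_lit 5) (nat_lit 187) (nat_lit 5) (nat_lit 342) (nat_lit 298) (nat_lit 140)) (XT.nd (nat_lit 78) (nat_lit 0) (nat_lit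 0) (XT.lf (nat_lit 0) (nat_lit 3119444196) (nat_lit 608) (nat_lit 23455268128) (nat_lit 76) (nat_lit 464174389) (nat_lit 172) (nat_lit 5) (nat_lit 180) (nat_lit 5) (nat_lit 173) (nat_lit 5) (nat_lit 343) (nat_lit 298) (nat_lit 139)) (XT.lf (nat_lit 0) (nat_lit 9441427527) (nat_lit 608) (nat_lit 3593684110) (nat_lit 76) (nat_lit 14520208565) (nat_lit 172) (nat_lit 5) (nat_lit 180) (nat_lit 5) (nat_lit 173) (nat_lit 5) (nat_lit 344) (nat_lit 298) (nat_lit 138)))) (XT.nd (nat_lit 78) (nat_lit 988) (nat_lit 0) (XT.lf (nat_lit 0) (nat_lit 16062897171) (nat_lit 532) (nat_lit 11014310657) (nat_lit 76) (nat_lit 1007846575) (nat_lit 166) (nat_lit 5) (nat_lit 173) (nat_lit 5) (nat_lit 167) (nat_lit 5) (nat_lit 345) (nat_lit 298) (nat_lit 137)) (XT.nd (nat_lit 78) (nat_lit 532) (nat_lit 0) (XT.lf (nat_lit 0) (nat_lit 9805178056) (nat_lit 456) (nat_lit 13245639198) (nat_lit 532) (nat_lit 5576511366) (nat_lit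 160) (nat_lit 5) (nat_lit 166) (nat_lit 5) (nat_lit 167) (nat_lit 5) (nat_lit 346) (nat_lit 298) (nat_lit 136)) (XT.lf (nat_lit 0) (nat_lit 1137842457) (nat_lit 532) (nat_lit 26963881074) (nat_lit 76) (nat_lit 1082228015) (nat_lit 153) (nat_lit 5) (nat_lit 160) (nat_lit 5) (nat_lit 154) (nat_lit 5) (nat_lit 347) (nat_lit 298) (nat_lit 135))))) (XT.nd (nat_lit 234) (nat_lit 1292) (nat_lit 0) (XT.nd (nat_lit 78) (nat_lit 836) (nat_lit 0) (XT.lf (nat_lit 0) (nat_lit 8187960959) (nat_lit 532) (nat_lit 5740333222) (nat_lit 76) (nat_lit 15824043628) (nat_lit 153) (nat_lit 5) (nat_lit 160) (nat_lit 5) (nat_lit 154) (nat_lit 5) (nat_lit 348) (nat_lit 298) (nat_lit 134)) (XT.nd (nat_lit 78) (nat_lit 380) (nat_lit 0) (XT.lf (nat_lit 0) (nat_lit 15553516157) (nat_lit 532) (nat_lit 14016620892) (nat_lit 76) (nat_lit 765563644) (nat_lit 147) (nat_lit 5) (nat_lit 154) (nat_lit 5) (nat_lit 148) (nat_lit 5) (nat_lit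 349) (nat_lit 298) (nat_lit 133)) (XT.lf (nat_lit 0) (nat_lit 8187273548) (nat_lit 380) (nat_lit 15131257621) (nat_lit 456) (nat_lit 7614467020) (nat_lit 142) (nat_lit 5) (nat_lit 147) (nat_lit 5) (nat_lit 148) (nat_lit 5) (nat_lit 350) (nat_lit 298) (nat_lit 132)))) (XT.nd (nat_lit 156) (nat_lit 760) (nat_lit 0) (XT.nd (nat_lit 78) (nat_lit 532) (nat_lit 0) (XT.lf (nat_lit 0) (nat_lit 31239539928) (nat_lit 380) (nat_lit 165113591) (nat_lit 456) (nat_lit 141801436) (nat_lit 142) (nat_lit 5) (nat_lit 147) (nat_lit 5) (nat_lit 148) (nat_lit 5) (nat_lit 351) (nat_lit 298) (nat_lit 131)) (XT.lf (nat_lit 0) (nat_lit 7699245622) (nat_lit 532) (nat_lit 9225911560) (nat_lit 76) (nat_lit 15247314764) (nat_lit 135) (nat_lit 5) (nat_lit 142) (nat_lit 5) (nat_lit 136) (nat_lit 5) (nat_lit 352) (nat_lit 298) (nat_lit 130))) (XT.nd (nat_lit 78) (nat_lit 380) (nat_lit 0) (XT.lf (nat_lit 0) (nat_lit 14260189744)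 (nat_lit 380) (nat_lit 1602646992) (nat_lit 456) (nat_lit 16952632400) (nat_lit 130) (nat_lit 5) (nat_lit 135) (nat_lit 5) (nat_lit 136) (nat_lit 5) (nat_lit 353) (nat_lit 298) (nat_lit 129)) (XT.lf (nat_lit 0) (nat_lit 5065265335) (nat_lit 380) (nat_lit 19387508675) (nat_lit 456) (nat_lit 9021356588) (nat_lit 125) (nat_lit 5) (nat_lit 130) (nat_lit 5) (nat_lit 131) (nat_lit 5) (nat_lit 354) (nat_lit 298) (nat_lit 128)))))) (XT.nd (nat_lit 546) (nat_lit 0) (nat_lit 152) (XT.nd (nat_lit 234) (nat_lit 1520) (nat_lit 0) (XT.nd (nat_lit 78) (nat_lit 0) (nat_lit 0) (XT.lf (nat_lit 0) (nat_lit 2619317207) (nat_lit 0) (nat_lit 2619317207) (nat_lit 1596) (nat_lit 1366898945) (nat_lit 403) (nat_lit 5) (nat_lit 403) (nat_lit 3) (nat_lit 424) (nat_lit 3) (nat_lit 299) (nat_lit 299) (nat_lit 182)) (XT.nd (nat_lit 78) (nat_lit 0) (nat_lit 0) (XT.lf (nat_lit 76) (nat_lit 1034939999) (nat_lit 0) (nat_lit 10178500471)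 (nat_lit 1672) (nat_lit 2183766941) (nat_lit 404) (nat_lit 5) (nat_lit 403) (nat_lit 5) (nat_lit 425) (nat_lit 5) (nat_lit 300) (nat_lit 299) (nat_lit 181)) (XT.lf (nat_lit 76) (nat_lit 10374740386) (nat_lit 0) (nat_lit 1664268553) (nat_lit 1672) (nat_lit 1548594517) (nat_lit 404) (nat_lit 5) (nat_lit 403) (nat_lit 5) (nat_lit 425) (nat_lit 5) (nat_lit 301) (nat_lit 299) (nat_lit 180)))) (XT.nd (nat_lit 156) (nat_lit 1596) (nat_lit 0) (XT.nd (nat_lit 78) (nat_lit 0) (nat_lit 76) (XT.lf (nat_lit 76) (nat_lit 6235076735) (nat_lit 0) (nat_lit 6720058517) (nat_lit 1672) (nat_lit 827277179) (nat_lit 405) (nat_lit 5) (nat_lit 404) (nat_lit 5) (nat_lit 426) (nat_lit 5) (nat_lit 302) (nat_lit 299) (nat_lit 179)) (XT.lf (nat_lit 76) (nat_lit 2017907437) (nat_lit 0) (nat_lit 11919957361) (nat_lit 1672) (nat_lit 44434862) (nat_lit 406) (nat_lit 5) (nat_lit 405) (nat_lit 5) (nat_lit 427) (nat_lit 5) (nat_lit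 303) (nat_lit 299) (nat_lit 178))) (XT.nd (nat_lit 78) (nat_lit 0) (nat_lit 76) (XT.lf (nat_lit 0) (nat_lit 828455257) (nat_lit 1672) (nat_lit 2275935791) (nat_lit 1748) (nat_lit 11082178009) (nat_lit 383) (nat_lit 5) (nat_lit 405) (nat_lit 5) (nat_lit 406) (nat_lit 5) (nat_lit 304) (nat_lit 299) (nat_lit 177)) (XT.lf (nat_lit 0) (nat_lit 1797428621) (nat_lit 1672) (nat_lit 6642062396) (nat_lit 1748) (nat_lit 5956074769) (nat_lit 384) (nat_lit 5) (nat_lit 406) (nat_lit 5) (nat_lit 407) (nat_lit 5) (nat_lit 305) (nat_lit 299) (nat_lit 176))))) (XT.nd (nat_lit 234) (nat_lit 0) (nat_lit 76) (XT.nd (nat_lit 78) (nat_lit 0) (nat_lit 0) (XT.lf (nat_lit 0) (nat_lit 2840271773) (nat_lit 1672) (nat_lit 11096606053) (nat_lit 1748) (nat_lit 673073268) (nat_lit 385) (nat_lit 5) (nat_lit 407) (nat_lit 5) (nat_lit 408) (nat_lit 5) (nat_lit 306) (nat_lit 299) (nat_lit 175)) (XT.nd (nat_lit 78) (nat_lit 0) (nat_lit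 76) (XT.lf (nat_lit 0) (nat_lit 3997906057) (nat_lit 1672) (nat_lit 834370676) (nat_lit 1748) (nat_lit 9996835373) (nat_lit 385) (nat_lit 5) (nat_lit 407) (nat_lit 5) (nat_lit 408) (nat_lit 5) (nat_lit 307) (nat_lit 299) (nat_lit 174)) (XT.lf (nat_lit 0) (nat_lit 5266509180) (nat_lit 1672) (nat_lit 5230698730) (nat_lit 1748) (nat_lit 4556129089) (nat_lit 386) (nat_lit 5) (nat_lit 408) (nat_lit 5) (nat_lit 409) (nat_lit 5) (nat_lit 308) (nat_lit 299) (nat_lit 173)))) (XT.nd (nat_lit 156) (nat_lit 0) (nat_lit 152) (XT.nd (nat_lit 78) (nat_lit 0) (nat_lit 76) (XT.lf (nat_lit 76) (nat_lit 5555155331) (nat_lit 0) (nat_lit 1074859319) (nat_lit 1748) (nat_lit 8653150546) (nat_lit 387) (nat_lit 5) (nat_lit 386) (nat_lit 5) (nat_lit 409) (nat_lit 5) (nat_lit 309) (nat_lit 299) (nat_lit 172)) (XT.lf (nat_lit 76) (nat_lit 1163861645) (nat_lit 0) (nat_lit 6953060338) (nat_lit 1748) (nat_lit 7401329373) (nat_lit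 388) (nat_lit 5) (nat_lit 387) (nat_lit 5) (nat_lit 410) (nat_lit 5) (nat_lit 310) (nat_lit 299) (nat_lit 171))) (XT.nd (nat_lit 78) (nat_lit 0) (nat_lit 0) (XT.lf (nat_lit 0) (nat_lit 9723259038) (nat_lit 1672) (nat_lit 3280969914) (nat_lit 1748) (nat_lit 2754677370) (nat_lit 388) (nat_lit 5) (nat_lit 410) (nat_lit 5) (nat_lit 411) (nat_lit 5) (nat_lit 311) (nat_lit 299) (nat_lit 170)) (XT.lf (nat_lit 76) (nat_lit 8173397340) (nat_lit 0) (nat_lit 3288097357) (nat_lit 1748) (nat_lit 4543624373) (nat_lit 389) (nat_lit 5) (nat_lit 388) (nat_lit 5) (nat_lit 411) (nat_lit 5) (nat_lit 312) (nat_lit 299) (nat_lit 169))))))))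
noncomputable def xc109 : XT := (XT.nd (nat_lit 2106) (nat_lit 4940) (nat_lit 0) (XT.nd (nat_lit 1014) (nat_lit 6536) (nat_lit 0) (XT.nd (nat_lit 468) (nat_lit 4940) (nat_lit 0) (XT.nd (nat_lit 234) (nat_lit 1216) (nat_lit 0) (XT.nd (nat_lit 78) (nat_lit 1672) (nat_lit 0) (XT.lf (nat_lit 76) (nat_lit 3751353294) (nat_lit 0) (nat_lit 9575440890) (nat_lit 1748) (nat_lit 2930437624) (nat_lit 390) (nat_lit 5) (nat_lit 389) (nat_lit 5) (nat_lit 412) (nat_lit 5) (nat_lit 313) (nat_lit 299) (nat_lit 168)) (XT.nd (nat_lit 78) (nat_lit 1748) (nat_lit 0) (XT.lf (nat_lit 0) (nat_lit 15310795059) (nat_lit 1672) (nat_lit 763691688) (nat_lit 1748) (nat_lit 441177930) (nat_lit 390) (nat_lit 5) (nat_lit 412) (nat_lit 5) (nat_lit 413) (nat_lit 5) (nat_lit 314) (nat_lit 299) (nat_lit 167)) (XT.lf (nat_lit 0) (nat_lit 689228623) (nat_lit 1748) (nat_lit 5379515266) (nat_lit 1824) (nat_lit 10710557918) (nat_lit 367)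 (nat_lit 5) (nat_lit 390) (nat_lit 5) (nat_lit 391) (nat_lit 5) (nat_lit 315) (nat_lit 299) (nat_lit 166)))) (XT.nd (nat_lit 78) (nat_lit 1292) (nat_lit 0) (XT.lf (nat_lit 0) (nat_lit 2687809105) (nat_lit 1748) (nat_lit 10118727566) (nat_lit 76) (nat_lit 4242882238) (nat_lit 368) (nat_lit 5) (nat_lit 391) (nat_lit 5) (nat_lit 369) (nat_lit 5) (nat_lit 316) (nat_lit 299) (nat_lit 165)) (XT.nd (nat_lit 78) (nat_lit 0) (nat_lit 0) (XT.lf (nat_lit 0) (nat_lit 2334716973) (nat_lit 1292) (nat_lit 2490054312) (nat_lit 1368) (nat_lit 12501310158) (nat_lit 351) (nat_lit 5) (nat_lit 368) (nat_lit 5) (nat_lit 369) (nat_lit 5) (nat_lit 317) (nat_lit 299) (nat_lit 164)) (XT.lf (nat_lit 0) (nat_lit 7134018190) (nat_lit 1368) (nat_lit 2374786703) (nat_lit 76) (nat_lit 8100085543) (nat_lit 351) (nat_lit 5) (nat_lit 369) (nat_lit 5) (nat_lit 352) (nat_lit 5) (nat_lit 318) (nat_lit 299) (nat_lit 163))))) (XT.nd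 (nat_lit 234) (nat_lit 2432) (nat_lit 0) (XT.nd (nat_lit 78) (nat_lit 1672) (nat_lit 0) (XT.lf (nat_lit 0) (nat_lit 9593053757) (nat_lit 912) (nat_lit 7173537955) (nat_lit 76) (nat_lit 1131991568) (nat_lit 340) (nat_lit 5) (nat_lit 352) (nat_lit 5) (nat_lit 341) (nat_lit 5) (nat_lit 319) (nat_lit 299) (nat_lit 162)) (XT.nd (nat_lit 78) (nat_lit 836) (nat_lit 0) (XT.lf (nat_lit 0) (nat_lit 6057642301) (nat_lit 836) (nat_lit 6174385734) (nat_lit 912) (nat_lit 5962825043) (nat_lit 329) (nat_lit 5) (nat_lit 340) (nat_lit 5) (nat_lit 341) (nat_lit 5) (nat_lit 320) (nat_lit 299) (nat_lit 161)) (XT.lf (nat_lit 0) (nat_lit 1258428846) (nat_lit 836) (nat_lit 13766948907) (nat_lit 912) (nat_lit 3473138337) (nat_lit 318) (nat_lit 5) (nat_lit 329) (nat_lit 5) (nat_lit 330) (nat_lit 5) (nat_lit 321) (nat_lit 299) (nat_lit 160)))) (XT.nd (nat_lit 156) (nat_lit 1520) (nat_lit 0) (XT.nd (nat_lit 78) (nat_lit 912)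 (nat_lit 0) (XT.lf (nat_lit 0) (nat_lit 15168508595) (nat_lit 836) (nat_lit 2844933262) (nat_lit 912) (nat_lit 795637829) (nat_lit 318) (nat_lit 5) (nat_lit 329) (nat_lit 5) (nat_lit 330) (nat_lit 5) (nat_lit 322) (nat_lit 299) (nat_lit 159)) (XT.lf (nat_lit 0) (nat_lit 2047525331) (nat_lit 912) (nat_lit 8702616368) (nat_lit 76) (nat_lit 8376350796) (nat_lit 306) (nat_lit 5) (nat_lit 318) (nat_lit 5) (nat_lit 307) (nat_lit 5) (nat_lit 323) (nat_lit 299) (nat_lit 158))) (XT.nd (nat_lit 78) (nat_lit 760) (nat_lit 0) (XT.lf (nat_lit 0) (nat_lit 5036603293) (nat_lit 836) (nat_lit 13911542630) (nat_lit 76) (nat_lit 503756287) (nat_lit 296) (nat_lit 5) (nat_lit 307) (nat_lit 5) (nat_lit 297) (nat_lit 5) (nat_lit 324) (nat_lit 299) (nat_lit 157)) (XT.lf (nat_lit 0) (nat_lit 466019548) (nat_lit 760) (nat_lit 7772084773) (nat_lit 836) (nat_lit 11546522930) (nat_lit 286) (nat_lit 5) (nat_lit 296) (nat_lit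 5) (nat_lit 297) (nat_lit 5) (nat_lit 325) (nat_lit 299) (nat_lit 156)))))) (XT.nd (nat_lit 546) (nat_lit 3040) (nat_lit 0) (XT.nd (nat_lit 234) (nat_lit 2052) (nat_lit 0) (XT.nd (nat_lit 78) (nat_lit 1444) (nat_lit 0) (XT.lf (nat_lit 0) (nat_lit 11643553195) (nat_lit 836) (nat_lit 4696724993) (nat_lit 76) (nat_lit 3784905617) (nat_lit 286) (nat_lit 5) (nat_lit 297) (nat_lit 5) (nat_lit 287) (nat_lit 5) (nat_lit 326) (nat_lit 299) (nat_lit 155)) (XT.nd (nat_lit 78) (nat_lit 760) (nat_lit 0) (XT.lf (nat_lit 0) (nat_lit 10437361384) (nat_lit 684) (nat_lit 4822605766) (nat_lit 760) (nat_lit 5213821464) (nat_lit 277) (nat_lit 5) (nat_lit 286) (nat_lit 5) (nat_lit 287) (nat_lit 5) (nat_lit 327) (nat_lit 299) (nat_lit 154)) (XT.lf (nat_lit 0) (nat_lit 5269331047) (nat_lit 760) (nat_lit 13816806809) (nat_lit 836) (nat_lit 1744695793) (nat_lit 267) (nat_lit 5) (nat_lit 277) (nat_lit 5) (nat_lit 278) (nat_lit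 5) (nat_lit 328) (nat_lit 299) (nat_lit 153)))) (XT.nd (nat_lit 156) (nat_lit 1292) (nat_lit 0) (XT.nd (nat_lit 78) (nat_lit 684) (nat_lit 0) (XT.lf (nat_lit 0) (nat_lit 1894699084) (nat_lit 836) (nat_lit 81521805) (nat_lit 76) (nat_lit 19220335190) (nat_lit 266) (nat_lit 5) (nat_lit 277) (nat_lit 5) (nat_lit 267) (nat_lit 5) (nat_lit 329) (nat_lit 299) (nat_lit 152)) (XT.lf (nat_lit 0) (nat_lit 5780805570) (nat_lit 760) (nat_lit 5587590400) (nat_lit 76) (nat_lit 10201405706) (nat_lit 257) (nat_lit 5) (nat_lit 267) (nat_lit 5) (nat_lit 258) (nat_lit 5) (nat_lit 330) (nat_lit 299) (nat_lit 151))) (XT.nd (nat_lit 78) (nat_lit 608) (nat_lit 0) (XT.lf (nat_lit 0) (nat_lit 9862087117) (nat_lit 760) (nat_lit 11267525683) (nat_lit 76) (nat_lit 823066614) (nat_lit 248) (nat_lit 5) (nat_lit 258) (nat_lit 5) (nat_lit 249) (nat_lit 5) (nat_lit 331) (nat_lit 299) (nat_lit 150)) (XT.lf (nat_lit 0) (nat_lit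 5156562710) (nat_lit 608) (nat_lit 9047071580) (nat_lit 684) (nat_lit 8140659070) (nat_lit 240) (nat_lit 5) (nat_lit 248) (nat_lit 5) (nat_lit 249) (nat_lit 5) (nat_lit 332) (nat_lit 299) (nat_lit 149))))) (XT.nd (nat_lit 234) (nat_lit 1748) (nat_lit 0) (XT.nd (nat_lit 78) (nat_lit 1292) (nat_lit 0) (XT.lf (nat_lit 0) (nat_lit 18764761383) (nat_lit 684) (nat_lit 552168394) (nat_lit 76) (nat_lit 3428945508) (nat_lit 240) (nat_lit 5) (nat_lit 249) (nat_lit 5) (nat_lit 241) (nat_lit 5) (nat_lit 333) (nat_lit 299) (nat_lit 148)) (XT.nd (nat_lit 78) (nat_lit 608) (nat_lit 0) (XT.lf (nat_lit 0) (nat_lit 460114467) (nat_lit 684) (nat_lit 6428712331) (nat_lit 76) (nat_lit 16267426956) (nat_lit 231) (nat_lit 5) (nat_lit 240) (nat_lit 5) (nat_lit 232) (nat_lit 5) (nat_lit 334) (nat_lit 299) (nat_lit 147)) (XT.lf (nat_lit 0) (nat_lit 5086270571) (nat_lit 684) (nat_lit 12554084528) (nat_lit 76) (nat_lit 5935952361)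 (nat_lit 223) (nat_lit 5) (nat_lit 232) (nat_lit 5) (nat_lit 224) (nat_lit 5) (nat_lit 335) (nat_lit 299) (nat_lit 146)))) (XT.nd (nat_lit 156) (nat_lit 1140) (nat_lit 0) (XT.nd (nat_lit 78) (nat_lit 0) (nat_lit 0) (XT.lf (nat_lit 0) (nat_lit 5086232256) (nat_lit 608) (nat_lit 4878940302) (nat_lit 684) (nat_lit 14041516585) (nat_lit 215) (nat_lit 5) (nat_lit 223) (nat_lit 5) (nat_lit 224) (nat_lit 5) (nat_lit 336) (nat_lit 299) (nat_lit 145)) (XT.lf (nat_lit 0) (nat_lit 15120939108) (nat_lit 684) (nat_lit 1085612876) (nat_lit 76) (nat_lit 8240825773) (nat_lit 215) (nat_lit 5) (nat_lit 224) (nat_lit 5) (nat_lit 216) (nat_lit 5) (nat_lit 337) (nat_lit 299) (nat_lit 144))) (XT.nd (nat_lit 78) (nat_lit 608) (nat_lit 0) (XT.lf (nat_lit 0) (nat_lit 17470382295) (nat_lit 532) (nat_lit 3098509379) (nat_lit 608) (nat_lit 4329650362) (nat_lit 208) (nat_lit 5) (nat_lit 215) (nat_lit 5) (nat_lit 216) (nat_lit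 5) (nat_lit 338) (nat_lit 299) (nat_lit 143)) (XT.lf (nat_lit 0) (nat_lit 947221492) (nat_lit 608) (nat_lit 14061562514) (nat_lit 76) (nat_lit 10351538248) (nat_lit 200) (nat_lit 5) (nat_lit 208) (nat_lit 5) (nat_lit 201) (nat_lit 5) (nat_lit 339) (nat_lit 299) (nat_lit 142))))))) (XT.nd (nat_lit 1014) (nat_lit 0) (nat_lit 0) (XT.nd (nat_lit 468) (nat_lit 2812) (nat_lit 0) (XT.nd (nat_lit 234) (nat_lit 1064) (nat_lit 0) (XT.nd (nat_lit 78) (nat_lit 532) (nat_lit 0) (XT.lf (nat_lit 0) (nat_lit 4857583361) (nat_lit 532) (nat_lit 1561001953) (nat_lit 608) (nat_lit 19414902881) (nat_lit 193) (nat_lit 5) (nat_lit 200) (nat_lit 5) (nat_lit 201) (nat_lit 5) (nat_lit 340) (nat_lit 299) (nat_lit 141)) (XT.nd (nat_lit 78) (nat_lit 532) (nat_lit 0) (XT.lf (nat_lit 0) (nat_lit 12221708630) (nat_lit 608) (nat_lit 1872906788) (nat_lit 76) (nat_lit 12222886050) (nat_lit 193) (nat_lit 5) (nat_lit 201) (nat_lit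 5) (nat_lit 194) (nat_lit 5) (nat_lit 341) (nat_lit 299) (nat_lit 140)) (XT.lf (nat_lit 0) (nat_lit 18019048999) (nat_lit 532) (nat_lit 299448872) (nat_lit 608) (nat_lit 8495150415) (nat_lit 186) (nat_lit 5) (nat_lit 193) (nat_lit 5) (nat_lit 194) (nat_lit 5) (nat_lit 342) (nat_lit 299) (nat_lit 139)))) (XT.nd (nat_lit 78) (nat_lit 608) (nat_lit 0) (XT.lf (nat_lit 0) (nat_lit 11256209454) (nat_lit 456) (nat_lit 13510442129) (nat_lit 532) (nat_lit 2554663167) (nat_lit 180) (nat_lit 5) (nat_lit 186) (nat_lit 5) (nat_lit 187) (nat_lit 5) (nat_lit 343) (nat_lit 299) (nat_lit 138)) (XT.nd (nat_lit 78) (nat_lit 0) (nat_lit 0) (XT.lf (nat_lit 0) (nat_lit 3602930488) (nat_lit 608) (nat_lit 23640473447) (nat_lit 76) (nat_lit 598636016) (nat_lit 172) (nat_lit 5) (nat_lit 180) (nat_lit 5) (nat_lit 173) (nat_lit 5) (nat_lit 344) (nat_lit 299) (nat_lit 137)) (XT.lf (nat_lit 0) (nat_lit 10103216922) (nat_lit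 608) (nat_lit 3198142474) (nat_lit 76) (nat_lit 15072840450) (nat_lit 172) (nat_lit 5) (nat_lit 180) (nat_lit 5) (nat_lit 173) (nat_lit 5) (nat_lit 345) (nat_lit 299) (nat_lit 136))))) (XT.nd (nat_lit 234) (nat_lit 1368) (nat_lit 0) (XT.nd (nat_lit 78) (nat_lit 988) (nat_lit 0) (XT.lf (nat_lit 0) (nat_lit 16916328114) (nat_lit 532) (nat_lit 10842744454) (nat_lit 76) (nat_lit 1160899643) (nat_lit 166) (nat_lit 5) (nat_lit 173) (nat_lit 5) (nat_lit 167) (nat_lit 5) (nat_lit 346) (nat_lit 299) (nat_lit 135)) (XT.nd (nat_lit 78) (nat_lit 532) (nat_lit 0) (XT.lf (nat_lit 0) (nat_lit 10593184640) (nat_lit 456) (nat_lit 13513085899) (nat_lit 532) (nat_lit 5372402332) (nat_lit 160) (nat_lit 5) (nat_lit 166) (nat_lit 5) (nat_lit 167) (nat_lit 5) (nat_lit 347) (nat_lit 299) (nat_lit 134)) (XT.lf (nat_lit 0) (nat_lit 1531877660) (nat_lit 532) (nat_lit 27275463522) (nat_lit 76) (nat_lit 1244743368) (nat_lit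 153) (nat_lit 5) (nat_lit 160) (nat_lit 5) (nat_lit 154) (nat_lit 5) (nat_lit 348) (nat_lit 299) (nat_lit 133)))) (XT.nd (nat_lit 156) (nat_lit 912) (nat_lit 0) (XT.nd (nat_lit 78) (nat_lit 456) (nat_lit 0) (XT.lf (nat_lit 0) (nat_lit 8783017196) (nat_lit 532) (nat_lit 5429694690) (nat_lit 76) (nat_lit 16425025629) (nat_lit 153) (nat_lit 5) (nat_lit 160) (nat_lit 5) (nat_lit 154) (nat_lit 5) (nat_lit 349) (nat_lit 299) (nat_lit 132)) (XT.lf (nat_lit 0) (nat_lit 16363307471) (nat_lit 532) (nat_lit 13955942886) (nat_lit 76) (nat_lit 919480865) (nat_lit 147) (nat_lit 5) (nat_lit 154) (nat_lit 5) (nat_lit 148) (nat_lit 5) (nat_lit 350) (nat_lit 299) (nat_lit 131))) (XT.nd (nat_lit 78) (nat_lit 532) (nat_lit 0) (XT.lf (nat_lit 0) (nat_lit 8906261869) (nat_lit 380) (nat_lit 15448088793) (nat_lit 456) (nat_lit 7499740574) (nat_lit 142) (nat_lit 5) (nat_lit 147) (nat_lit 5) (nat_lit 148) (nat_lit 5) (nat_lit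 351) (nat_lit 299) (nat_lit 130)) (XT.lf (nat_lit 0) (nat_lit 150920685) (nat_lit 456) (nat_lit 34715222) (nat_lit 532) (nat_lit 32300472782) (nat_lit 135) (nat_lit 5) (nat_lit 141) (nat_lit 5) (nat_lit 142) (nat_lit 5) (nat_lit 352) (nat_lit 299) (nat_lit 129)))))) (XT.nd (nat_lit 36972) (nat_lit 0) (nat_lit 18924) (XT.nd (nat_lit 36660) (nat_lit 0) (nat_lit 18772) (XT.nd (nat_lit 36504) (nat_lit 0) (nat_lit 20368) (XT.lf (nat_lit 0) (nat_lit 8253279461) (nat_lit 532) (nat_lit 9040373452) (nat_lit 76) (nat_lit 15837373458) (nat_lit 135) (nat_lit 5) (nat_lit 142) (nat_lit 5) (nat_lit 136) (nat_lit 5) (nat_lit 353) (nat_lit 299) (nat_lit 128)) (XT.nd (nat_lit 78) (nat_lit 0) (nat_lit 0) (XT.lf (nat_lit 0) (nat_lit 2970828469) (nat_lit 0) (nat_lit 2970828469) (nat_lit 1596) (nat_lit 850684371) (nat_lit 403) (nat_lit 5) (nat_lit 403) (nat_lit 3) (nat_lit 424) (nat_lit 3) (nat_lit 300) (nat_lit 300)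 (nat_lit 180)) (XT.lf (nat_lit 76) (nat_lit 1628829872) (nat_lit 0) (nat_lit 10981156382) (nat_lit 1672) (nat_lit 1167078642) (nat_lit 404) (nat_lit 5) (nat_lit 403) (nat_lit 5) (nat_lit 425) (nat_lit 5) (nat_lit 301) (nat_lit 300) (nat_lit 179)))) (XT.nd (nat_lit 156) (nat_lit 0) (nat_lit 76) (XT.nd (nat_lit 78) (nat_lit 1596) (nat_lit 0) (XT.lf (nat_lit 76) (nat_lit 11232430824) (nat_lit 0) (nat_lit 2197013015) (nat_lit 1672) (nat_lit 544371473) (nat_lit 404) (nat_lit 5) (nat_lit 403) (nat_lit 5) (nat_lit 425) (nat_lit 5) (nat_lit 302) (nat_lit 300) (nat_lit 178)) (XT.lf (nat_lit 0) (nat_lit 166387598) (nat_lit 1672) (nat_lit 7192310419) (nat_lit 1748) (nat_lit 6816360347) (nat_lit 382) (nat_lit 5) (nat_lit 404) (nat_lit 5) (nat_lit 405) (nat_lit 5) (nat_lit 303) (nat_lit 300) (nat_lit 177))) (XT.nd (nat_lit 78) (nat_lit 0) (nat_lit 0) (XT.lf (nat_lit 0) (nat_lit 933784579) (nat_lit 1672) (nat_lit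 11733361556) (nat_lit 1748) (nat_lit 1714281515) (nat_lit 383) (nat_lit 5) (nat_lit 405) (nat_lit 5) (nat_lit 406) (nat_lit 5) (nat_lit 304) (nat_lit 300) (nat_lit 176)) (XT.lf (nat_lit 0) (nat_lit 1803747976) (nat_lit 1672) (nat_lit 1771723304) (nat_lit 1748) (nat_lit 11016940535) (nat_lit 383) (nat_lit 5) (nat_lit 405) (nat_lit 5) (nat_lit 406) (nat_lit 5) (nat_lit 305) (nat_lit 300) (nat_lit 175))))) (XT.nd (nat_lit 234) (nat_lit 0) (nat_lit 152) (XT.nd (nat_lit 78) (nat_lit 0) (nat_lit 76) (XT.lf (nat_lit 0) (nat_lit 2775406331) (nat_lit 1672) (nat_lit 6256511404) (nat_lit 1748) (nat_lit 5776310110) (nat_lit 384) (nat_lit 5) (nat_lit 406) (nat_lit 5) (nat_lit 407) (nat_lit 5) (nat_lit 306) (nat_lit 300) (nat_lit 174)) (XT.nd (nat_lit 78) (nat_lit 0) (nat_lit 0) (XT.lf (nat_lit 0) (nat_lit 3824242257) (nat_lit 1672) (nat_lit 10833345315) (nat_lit 1748) (nat_lit 371984073) (nat_lit 385) (nat_lit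 5) (nat_lit 407) (nat_lit 5) (nat_lit 408) (nat_lit 5) (nat_lit 307) (nat_lit 300) (nat_lit 173)) (XT.lf (nat_lit 0) (nat_lit 4990428026) (nat_lit 1672) (nat_lit 280606729) (nat_lit 1748) (nat_lit 9984816752) (nat_lit 385) (nat_lit 5) (nat_lit 407) (nat_lit 5) (nat_lit 408) (nat_lit 5) (nat_lit 308) (nat_lit 300) (nat_lit 172)))) (XT.nd (nat_lit 156) (nat_lit 0) (nat_lit 76) (XT.nd (nat_lit 78) (nat_lit 0) (nat_lit 0) (XT.lf (nat_lit 0) (nat_lit 6273543668) (nat_lit 1672) (nat_lit 4798707721) (nat_lit 1748) (nat_lit 4415042540) (nat_lit 386) (nat_lit 5) (nat_lit 408) (nat_lit 5) (nat_lit 409) (nat_lit 5) (nat_lit 309) (nat_lit 300) (nat_lit 171)) (XT.lf (nat_lit 76) (nat_lit 6301167565) (nat_lit 0) (nat_lit 1355819014) (nat_lit 1748) (nat_lit 8067469041) (nat_lit 387) (nat_lit 5) (nat_lit 386) (nat_lit 5) (nat_lit 409) (nat_lit 5) (nat_lit 310) (nat_lit 300) (nat_lit 170))) (XT.nd (nat_lit 78)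 (nat_lit 0) (nat_lit 76) (XT.lf (nat_lit 76) (nat_lit 1787249707) (nat_lit 0) (nat_lit 7379385808) (nat_lit 1748) (nat_lit 6800414894) (nat_lit 388) (nat_lit 5) (nat_lit 387) (nat_lit 5) (nat_lit 410) (nat_lit 5) (nat_lit 311) (nat_lit 300) (nat_lit 169)) (XT.lf (nat_lit 0) (nat_lit 10796308461) (nat_lit 1672) (nat_lit 2790433601) (nat_lit 1748) (nat_lit 2628698232) (nat_lit 388) (nat_lit 5) (nat_lit 410) (nat_lit 5) (nat_lit 411) (nat_lit 5) (nat_lit 312) (nat_lit 300) (nat_lit 168))))))))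
noncomputable def xc110 : XT := (XT.nd (nat_lit 2106) (nat_lit 5548) (nat_lit 0) (XT.nd (nat_lit 1014) (nat_lit 6688) (nat_lit 0) (XT.nd (nat_lit 468) (nat_lit 4180) (nat_lit 0) (XT.nd (nat_lit 234) (nat_lit 2812) (nat_lit 0) (XT.nd (nat_lit 78) (nat_lit 0) (nat_lit 76) (XT.lf (nat_lit 76) (nat_lit 8998009407) (nat_lit 0) (nat_lit 3569685882) (nat_lit 1748) (nat_lit 3901741709) (nat_lit 389) (nat_lit 5) (nat_lit 388) (nat_lit 5) (nat_lit 411) (nat_lit 5) (nat_lit 313) (nat_lit 300) (nat_lit 167)) (XT.nd (nat_lit 78) (nat_lit 0) (nat_lit 76) (XT.lf (nat_lit 76) (nat_lit 4450651062) (nat_lit 0) (nat_lit 10018754571) (nat_lit 1748) (nat_lit 2260115589) (nat_lit 390) (nat_lit 5) (nat_lit 389) (nat_lit 5) (nat_lit 412) (nat_lit 5) (nat_lit 314) (nat_lit 300) (nat_lit 166)) (XT.lf (nat_lit 0) (nat_lit 16490307687) (nat_lit 1672) (nat_lit 200973416) (nat_lit 1748) (nat_lit 304894992) (nat_lit 390) (nat_lit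 5) (nat_lit 412) (nat_lit 5) (nat_lit 413) (nat_lit 5) (nat_lit 315) (nat_lit 300) (nat_lit 165)))) (XT.nd (nat_lit 78) (nat_lit 1216) (nat_lit 0) (XT.lf (nat_lit 0) (nat_lit 1418045333) (nat_lit 1748) (nat_lit 4954834004) (nat_lit 1824) (nat_lit 10895110700) (nat_lit 367) (nat_lit 5) (nat_lit 390) (nat_lit 5) (nat_lit 391) (nat_lit 5) (nat_lit 316) (nat_lit 300) (nat_lit 164)) (XT.nd (nat_lit 78) (nat_lit 1292) (nat_lit 0) (XT.lf (nat_lit 0) (nat_lit 3458956493) (nat_lit 1748) (nat_lit 9830648400) (nat_lit 76) (nat_lit 4256973673) (nat_lit 368) (nat_lit 5) (nat_lit 391) (nat_lit 5) (nat_lit 369) (nat_lit 5) (nat_lit 317) (nat_lit 300) (nat_lit 163)) (XT.lf (nat_lit 0) (nat_lit 2986800803) (nat_lit 1292) (nat_lit 2656893708) (nat_lit 1368) (nat_lit 12188188057) (nat_lit 351) (nat_lit 5) (nat_lit 368) (nat_lit 5) (nat_lit 369) (nat_lit 5) (nat_lit 318) (nat_lit 300) (nat_lit 162))))) (XT.nd (nat_lit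 234) (nat_lit 2508) (nat_lit 0) (XT.nd (nat_lit 78) (nat_lit 1672) (nat_lit 0) (XT.lf (nat_lit 0) (nat_lit 8002001714) (nat_lit 1368) (nat_lit 1866785781) (nat_lit 76) (nat_lit 8254807174) (nat_lit 351) (nat_lit 5) (nat_lit 369) (nat_lit 5) (nat_lit 352) (nat_lit 5) (nat_lit 319) (nat_lit 300) (nat_lit 161)) (XT.nd (nat_lit 78) (nat_lit 836) (nat_lit 0) (XT.lf (nat_lit 0) (nat_lit 10519014217) (nat_lit 912) (nat_lit 6805209183) (nat_lit 76) (nat_lit 1098084856) (nat_lit 340) (nat_lit 5) (nat_lit 352) (nat_lit 5) (nat_lit 341) (nat_lit 5) (nat_lit 320) (nat_lit 300) (nat_lit 160)) (XT.lf (nat_lit 0) (nat_lit 6813439321) (nat_lit 836) (nat_lit 6408858190) (nat_lit 912) (nat_lit 5505479506) (nat_lit 329) (nat_lit 5) (nat_lit 340) (nat_lit 5) (nat_lit 341) (nat_lit 5) (nat_lit 321) (nat_lit 300) (nat_lit 159)))) (XT.nd (nat_lit 156) (nat_lit 1672) (nat_lit 0) (XT.nd (nat_lit 78) (nat_lit 0) (nat_lit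 0) (XT.lf (nat_lit 0) (nat_lit 1873962428) (nat_lit 836) (nat_lit 14210771614) (nat_lit 912) (nat_lit 2956123416) (nat_lit 318) (nat_lit 5) (nat_lit 329) (nat_lit 5) (nat_lit 330) (nat_lit 5) (nat_lit 322) (nat_lit 300) (nat_lit 158)) (XT.lf (nat_lit 0) (nat_lit 16184516005) (nat_lit 836) (nat_lit 2960197997) (nat_lit 912) (nat_lit 216391361) (nat_lit 318) (nat_lit 5) (nat_lit 329) (nat_lit 5) (nat_lit 330) (nat_lit 5) (nat_lit 323) (nat_lit 300) (nat_lit 157))) (XT.nd (nat_lit 78) (nat_lit 760) (nat_lit 0) (XT.lf (nat_lit 0) (nat_lit 2690317512) (nat_lit 912) (nat_lit 8391469666) (nat_lit 76) (nat_lit 8606464107) (nat_lit 306) (nat_lit 5) (nat_lit 318) (nat_lit 5) (nat_lit 307) (nat_lit 5) (nat_lit 324) (nat_lit 300) (nat_lit 156)) (XT.lf (nat_lit 0) (nat_lit 5755756382) (nat_lit 836) (nat_lit 13754155450) (nat_lit 76) (nat_lit 513789590) (nat_lit 296) (nat_lit 5) (nat_lit 307) (nat_lit 5) (nat_lit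 297) (nat_lit 5) (nat_lit 325) (nat_lit 300) (nat_lit 155)))))) (XT.nd (nat_lit 546) (nat_lit 3040) (nat_lit 0) (XT.nd (nat_lit 234) (nat_lit 2204) (nat_lit 0) (XT.nd (nat_lit 78) (nat_lit 684) (nat_lit 0) (XT.lf (nat_lit 0) (nat_lit 1045409226) (nat_lit 760) (nat_lit 7995018935) (nat_lit 836) (nat_lit 11326249096) (nat_lit 286) (nat_lit 5) (nat_lit 296) (nat_lit 5) (nat_lit 297) (nat_lit 5) (nat_lit 326) (nat_lit 300) (nat_lit 154)) (XT.nd (nat_lit 78) (nat_lit 684) (nat_lit 0) (XT.lf (nat_lit 0) (nat_lit 12531934665) (nat_lit 836) (nat_lit 4277596166) (nat_lit 76) (nat_lit 3908253013) (nat_lit 286) (nat_lit 5) (nat_lit 297) (nat_lit 5) (nat_lit 287) (nat_lit 5) (nat_lit 327) (nat_lit 300) (nat_lit 153)) (XT.lf (nat_lit 0) (nat_lit 11301426971) (nat_lit 684) (nat_lit 4943289956) (nat_lit 760) (nat_lit 4832383245) (nat_lit 277) (nat_lit 5) (nat_lit 286) (nat_lit 5) (nat_lit 287) (nat_lit 5) (nat_lit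 328) (nat_lit 300) (nat_lit 152)))) (XT.nd (nat_lit 156) (nat_lit 684) (nat_lit 0) (XT.nd (nat_lit 78) (nat_lit 760) (nat_lit 0) (XT.lf (nat_lit 0) (nat_lit 5979989271) (nat_lit 760) (nat_lit 14194074355) (nat_lit 836) (nat_lit 1271035689) (nat_lit 267) (nat_lit 5) (nat_lit 277) (nat_lit 5) (nat_lit 278) (nat_lit 5) (nat_lit 329) (nat_lit 300) (nat_lit 151)) (XT.lf (nat_lit 0) (nat_lit 465656691) (nat_lit 684) (nat_lit 1992889611) (nat_lit 760) (nat_lit 19363430802) (nat_lit 257) (nat_lit 5) (nat_lit 266) (nat_lit 5) (nat_lit 267) (nat_lit 5) (nat_lit 330) (nat_lit 300) (nat_lit 150))) (XT.nd (nat_lit 78) (nat_lit 684) (nat_lit 0) (XT.lf (nat_lit 0) (nat_lit 6447277335) (nat_lit 760) (nat_lit 5210609978) (nat_lit 76) (nat_lit 10548821702) (nat_lit 257) (nat_lit 5) (nat_lit 267) (nat_lit 5) (nat_lit 258) (nat_lit 5) (nat_lit 331) (nat_lit 300) (nat_lit 149)) (XT.lf (nat_lit 0) (nat_lit 10640463361)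 (nat_lit 760) (nat_lit 11060167407) (nat_lit 76) (nat_lit 900662484) (nat_lit 248) (nat_lit 5) (nat_lit 258) (nat_lit 5) (nat_lit 249) (nat_lit 5) (nat_lit 332) (nat_lit 300) (nat_lit 148))))) (XT.nd (nat_lit 234) (nat_lit 1748) (nat_lit 0) (XT.nd (nat_lit 78) (nat_lit 684) (nat_lit 0) (XT.lf (nat_lit 0) (nat_lit 5847795430) (nat_lit 608) (nat_lit 9253891271) (nat_lit 684) (nat_lit 7903189532) (nat_lit 240) (nat_lit 5) (nat_lit 248) (nat_lit 5) (nat_lit 249) (nat_lit 5) (nat_lit 333) (nat_lit 300) (nat_lit 147)) (XT.nd (nat_lit 78) (nat_lit 684) (nat_lit 0) (XT.lf (nat_lit 0) (nat_lit 19786308845) (nat_lit 684) (nat_lit 38769962) (nat_lit 76) (nat_lit 3593702528) (nat_lit 240) (nat_lit 5) (nat_lit 249) (nat_lit 5) (nat_lit 241) (nat_lit 5) (nat_lit 334) (nat_lit 300) (nat_lit 146)) (XT.lf (nat_lit 0) (nat_lit 925806868) (nat_lit 684) (nat_lit 6093919119) (nat_lit 76) (nat_lit 16821893842) (nat_lit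 231) (nat_lit 5) (nat_lit 240) (nat_lit 5) (nat_lit 232) (nat_lit 5) (nat_lit 335) (nat_lit 300) (nat_lit 145)))) (XT.nd (nat_lit 156) (nat_lit 532) (nat_lit 0) (XT.nd (nat_lit 78) (nat_lit 608) (nat_lit 0) (XT.lf (nat_lit 0) (nat_lit 5681456055) (nat_lit 684) (nat_lit 12402995521) (nat_lit 76) (nat_lit 6190017667) (nat_lit 223) (nat_lit 5) (nat_lit 232) (nat_lit 5) (nat_lit 224) (nat_lit 5) (nat_lit 336) (nat_lit 300) (nat_lit 144)) (XT.lf (nat_lit 0) (nat_lit 5757969274) (nat_lit 608) (nat_lit 4939235310) (nat_lit 684) (nat_lit 14020756228) (nat_lit 215) (nat_lit 5) (nat_lit 223) (nat_lit 5) (nat_lit 224) (nat_lit 5) (nat_lit 337) (nat_lit 300) (nat_lit 143))) (XT.nd (nat_lit 78) (nat_lit 532) (nat_lit 0) (XT.lf (nat_lit 0) (nat_lit 15995572808) (nat_lit 684) (nat_lit 606025716) (nat_lit 76) (nat_lit 8570520775) (nat_lit 215) (nat_lit 5) (nat_lit 224) (nat_lit 5) (nat_lit 216) (nat_lit 5) (nat_lit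 338) (nat_lit 300) (nat_lit 142)) (XT.lf (nat_lit 0) (nat_lit 18498340195) (nat_lit 532) (nat_lit 3099632765) (nat_lit 608) (nat_lit 4039032931) (nat_lit 208) (nat_lit 5) (nat_lit 215) (nat_lit 5) (nat_lit 216) (nat_lit 5) (nat_lit 339) (nat_lit 300) (nat_lit 141))))))) (XT.nd (nat_lit 1014) (nat_lit 532) (nat_lit 0) (XT.nd (nat_lit 468) (nat_lit 2280) (nat_lit 0) (XT.nd (nat_lit 234) (nat_lit 1596) (nat_lit 0) (XT.nd (nat_lit 78) (nat_lit 532) (nat_lit 0) (XT.lf (nat_lit 0) (nat_lit 1382415927) (nat_lit 608) (nat_lit 13974323366) (nat_lit 76) (nat_lit 10756017100) (nat_lit 200) (nat_lit 5) (nat_lit 208) (nat_lit 5) (nat_lit 201) (nat_lit 5) (nat_lit 340) (nat_lit 300) (nat_lit 140)) (XT.nd (nat_lit 78) (nat_lit 0) (nat_lit 0) (XT.lf (nat_lit 0) (nat_lit 5504137569) (nat_lit 532) (nat_lit 1505186896) (nat_lit 608) (nat_lit 19590971759) (nat_lit 193) (nat_lit 5) (nat_lit 200) (nat_lit 5) (nat_lit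 201) (nat_lit 5) (nat_lit 341) (nat_lit 300) (nat_lit 139)) (XT.lf (nat_lit 0) (nat_lit 12975590988) (nat_lit 608) (nat_lit 1435543620) (nat_lit 76) (nat_lit 12687921085) (nat_lit 193) (nat_lit 5) (nat_lit 201) (nat_lit 5) (nat_lit 194) (nat_lit 5) (nat_lit 342) (nat_lit 300) (nat_lit 138)))) (XT.nd (nat_lit 78) (nat_lit 1064) (nat_lit 0) (XT.lf (nat_lit 0) (nat_lit 19045163573) (nat_lit 532) (nat_lit 201994226) (nat_lit 608) (nat_lit 8363098226) (nat_lit 186) (nat_lit 5) (nat_lit 193) (nat_lit 5) (nat_lit 194) (nat_lit 5) (nat_lit 343) (nat_lit 300) (nat_lit 137)) (XT.nd (nat_lit 78) (nat_lit 608) (nat_lit 0) (XT.lf (nat_lit 0) (nat_lit 12078556762) (nat_lit 456) (nat_lit 13802975146) (nat_lit 532) (nat_lit 2251771455) (nat_lit 180) (nat_lit 5) (nat_lit 186) (nat_lit 5) (nat_lit 187) (nat_lit 5) (nat_lit 344) (nat_lit 300) (nat_lit 136)) (XT.lf (nat_lit 0) (nat_lit 4078539344) (nat_lit 608) (nat_lit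 23860996233) (nat_lit 76) (nat_lit 730212211) (nat_lit 172) (nat_lit 5) (nat_lit 180) (nat_lit 5) (nat_lit 173) (nat_lit 5) (nat_lit 345) (nat_lit 300) (nat_lit 135))))) (XT.nd (nat_lit 234) (nat_lit 1368) (nat_lit 0) (XT.nd (nat_lit 78) (nat_lit 912) (nat_lit 0) (XT.lf (nat_lit 0) (nat_lit 10763129877) (nat_lit 608) (nat_lit 2819629061) (nat_lit 76) (nat_lit 15635333541) (nat_lit 172) (nat_lit 5) (nat_lit 180) (nat_lit 5) (nat_lit 173) (nat_lit 5) (nat_lit 346) (nat_lit 300) (nat_lit 134)) (XT.nd (nat_lit 78) (nat_lit 456) (nat_lit 0) (XT.lf (nat_lit 0) (nat_lit 17774033837) (nat_lit 532) (nat_lit 10694847861) (nat_lit 76) (nat_lit 1311494067) (nat_lit 166) (nat_lit 5) (nat_lit 173) (nat_lit 5) (nat_lit 167) (nat_lit 5) (nat_lit 347) (nat_lit 300) (nat_lit 133)) (XT.lf (nat_lit 0) (nat_lit 11376482339) (nat_lit 456) (nat_lit 13796014082) (nat_lit 532) (nat_lit 5183490158) (nat_lit 160) (nat_lit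 5) (nat_lit 166) (nat_lit 5) (nat_lit 167) (nat_lit 5) (nat_lit 348) (nat_lit 300) (nat_lit 132)))) (XT.nd (nat_lit 156) (nat_lit 836) (nat_lit 0) (XT.nd (nat_lit 78) (nat_lit 0) (nat_lit 0) (XT.lf (nat_lit 0) (nat_lit 1917074191) (nat_lit 532) (nat_lit 27624942448) (nat_lit 76) (nat_lit 1404668865) (nat_lit 153) (nat_lit 5) (nat_lit 160) (nat_lit 5) (nat_lit 154) (nat_lit 5) (nat_lit 349) (nat_lit 300) (nat_lit 131)) (XT.lf (nat_lit 0) (nat_lit 9375867130) (nat_lit 532) (nat_lit 5137454483) (nat_lit 76) (nat_lit 17036789210) (nat_lit 153) (nat_lit 5) (nat_lit 160) (nat_lit 5) (nat_lit 154) (nat_lit 5) (nat_lit 350) (nat_lit 300) (nat_lit 130))) (XT.nd (nat_lit 78) (nat_lit 380) (nat_lit 0) (XT.lf (nat_lit 0) (nat_lit 17177692252) (nat_lit 532) (nat_lit 13921066046) (nat_lit 76) (nat_lit 1070498518) (nat_lit 147) (nat_lit 5) (nat_lit 154) (nat_lit 5) (nat_lit 148) (nat_lit 5) (nat_lit 351) (nat_lit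 300) (nat_lit 129)) (XT.lf (nat_lit 0) (nat_lit 9619646458) (nat_lit 380) (nat_lit 15782295377) (nat_lit 456) (nat_lit 7401271148) (nat_lit 142) (nat_lit 5) (nat_lit 147) (nat_lit 5) (nat_lit 148) (nat_lit 5) (nat_lit 352) (nat_lit 300) (nat_lit 128)))))) (XT.nd (nat_lit 37050) (nat_lit 0) (nat_lit 18924) (XT.nd (nat_lit 36738) (nat_lit 0) (nat_lit 18696) (XT.nd (nat_lit 36582) (nat_lit 0) (nat_lit 20368) (XT.lf (nat_lit 0) (nat_lit 504619887) (nat_lit 532) (nat_lit 32856161533) (nat_lit 76) (nat_lit 93488247) (nat_lit 135) (nat_lit 5) (nat_lit 142) (nat_lit 5) (nat_lit 136) (nat_lit 5) (nat_lit 353) (nat_lit 300) (nat_lit 127)) (XT.nd (nat_lit 78) (nat_lit 0) (nat_lit 0) (XT.lf (nat_lit 0) (nat_lit 3317217671) (nat_lit 0) (nat_lit 3317217671) (nat_lit 1596) (nat_lit 350970156) (nat_lit 403) (nat_lit 5) (nat_lit 403) (nat_lit 3) (nat_lit 424) (nat_lit 3) (nat_lit 301) (nat_lit 301) (nat_lit 178))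 (XT.lf (nat_lit 76) (nat_lit 2208227027) (nat_lit 0) (nat_lit 11779344864) (nat_lit 1672) (nat_lit 182012477) (nat_lit 404) (nat_lit 5) (nat_lit 403) (nat_lit 5) (nat_lit 425) (nat_lit 5) (nat_lit 302) (nat_lit 301) (nat_lit 177)))) (XT.nd (nat_lit 156) (nat_lit 0) (nat_lit 152) (XT.nd (nat_lit 78) (nat_lit 0) (nat_lit 76) (XT.lf (nat_lit 0) (nat_lit 424029749) (nat_lit 1672) (nat_lit 2291148960) (nat_lit 1748) (nat_lit 11657608399) (nat_lit 381) (nat_lit 5) (nat_lit 403) (nat_lit 5) (nat_lit 404) (nat_lit 5) (nat_lit 303) (nat_lit 301) (nat_lit 176)) (XT.lf (nat_lit 0) (nat_lit 1120863350) (nat_lit 1672) (nat_lit 6865226512) (nat_lit 1748) (nat_lit 6594485037) (nat_lit 382) (nat_lit 5) (nat_lit 404) (nat_lit 5) (nat_lit 405) (nat_lit 5) (nat_lit 304) (nat_lit 301) (nat_lit 175))) (XT.nd (nat_lit 78) (nat_lit 0) (nat_lit 0) (XT.lf (nat_lit 0) (nat_lit 1884554487) (nat_lit 1672) (nat_lit 11529546323)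 (nat_lit 1748) (nat_lit 1379590724) (nat_lit 383) (nat_lit 5) (nat_lit 405) (nat_lit 5) (nat_lit 406) (nat_lit 5) (nat_lit 305) (nat_lit 301) (nat_lit 174)) (XT.lf (nat_lit 0) (nat_lit 2753740386) (nat_lit 1672) (nat_lit 1285247742) (nat_lit 1748) (nat_lit 10972575706) (nat_lit 383) (nat_lit 5) (nat_lit 405) (nat_lit 5) (nat_lit 406) (nat_lit 5) (nat_lit 306) (nat_lit 301) (nat_lit 173))))) (XT.nd (nat_lit 234) (nat_lit 0) (nat_lit 152) (XT.nd (nat_lit 78) (nat_lit 0) (nat_lit 76) (XT.lf (nat_lit 0) (nat_lit 3729678844) (nat_lit 1672) (nat_lit 5892964532) (nat_lit 1748) (nat_lit 5611728829) (nat_lit 384) (nat_lit 5) (nat_lit 406) (nat_lit 5) (nat_lit 407) (nat_lit 5) (nat_lit 307) (nat_lit 301) (nat_lit 172)) (XT.nd (nat_lit 78) (nat_lit 0) (nat_lit 0) (XT.lf (nat_lit 0) (nat_lit 4786139221) (nat_lit 1672) (nat_lit 10596408715) (nat_lit 1748) (nat_lit 80305068) (nat_lit 385) (nat_lit 5) (nat_lit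 407) (nat_lit 5) (nat_lit 408) (nat_lit 5) (nat_lit 308) (nat_lit 301) (nat_lit 171)) (XT.lf (nat_lit 76) (nat_lit 259954279) (nat_lit 0) (nat_lit 5704369234) (nat_lit 1748) (nat_lit 9732076783) (nat_lit 386) (nat_lit 5) (nat_lit 385) (nat_lit 5) (nat_lit 408) (nat_lit 5) (nat_lit 309) (nat_lit 301) (nat_lit 170)))) (XT.nd (nat_lit 156) (nat_lit 0) (nat_lit 76) (XT.nd (nat_lit 78) (nat_lit 0) (nat_lit 0) (XT.lf (nat_lit 0) (nat_lit 7262050867) (nat_lit 1672) (nat_lit 4387562938) (nat_lit 1748) (nat_lit 4285668553) (nat_lit 386) (nat_lit 5) (nat_lit 408) (nat_lit 5) (nat_lit 409) (nat_lit 5) (nat_lit 310) (nat_lit 301) (nat_lit 169)) (XT.lf (nat_lit 76) (nat_lit 7036302671) (nat_lit 0) (nat_lit 1630930303) (nat_lit 1748) (nat_lit 7512739392) (nat_lit 387) (nat_lit 5) (nat_lit 386) (nat_lit 5) (nat_lit 409) (nat_lit 5) (nat_lit 311) (nat_lit 301) (nat_lit 168))) (XT.nd (nat_lit 78) (nat_lit 0) (nat_lit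 76) (XT.lf (nat_lit 76) (nat_lit 2395558698) (nat_lit 0) (nat_lit 7806002239) (nat_lit 1748) (nat_lit 6228713927) (nat_lit 388) (nat_lit 5) (nat_lit 387) (nat_lit 5) (nat_lit 410) (nat_lit 5) (nat_lit 312) (nat_lit 301) (nat_lit 167)) (XT.lf (nat_lit 0) (nat_lit 11856696584) (nat_lit 1672) (nat_lit 2318990223) (nat_lit 1748) (nat_lit 2510915330) (nat_lit 388) (nat_lit 5) (nat_lit 410) (nat_lit 5) (nat_lit 411) (nat_lit 5) (nat_lit 313) (nat_lit 301) (nat_lit 166))))))))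
noncomputable def xc111 : XT := (XT.nd (nat_lit 2106) (nat_lit 4636) (nat_lit 0) (XT.nd (nat_lit 1014) (nat_lit 6688) (nat_lit 0) (XT.nd (nat_lit 468) (nat_lit 4180) (nat_lit 0) (XT.nd (nat_lit 234) (nat_lit 1216) (nat_lit 0) (XT.nd (nat_lit 78) (nat_lit 1596) (nat_lit 0) (XT.lf (nat_lit 76) (nat_lit 9814099322) (nat_lit 0) (nat_lit 3849220237) (nat_lit 1748) (nat_lit 3285273934) (nat_lit 389) (nat_lit 5) (nat_lit 388) (nat_lit 5) (nat_lit 411) (nat_lit 5) (nat_lit 314) (nat_lit 301) (nat_lit 165)) (XT.nd (nat_lit 78) (nat_lit 1672) (nat_lit 0) (XT.lf (nat_lit 76) (nat_lit 5137245500) (nat_lit 0) (nat_lit 10466409728) (nat_lit 1748) (nat_lit 1613209693) (nat_lit 390) (nat_lit 5) (nat_lit 389) (nat_lit 5) (nat_lit 412) (nat_lit 5) (nat_lit 315) (nat_lit 301) (nat_lit 164)) (XT.lf (nat_lit 0) (nat_lit 171932671) (nat_lit 1748) (nat_lit 17143453390) (nat_lit 1824) (nat_lit 176507457) (nat_lit 367)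 (nat_lit 5) (nat_lit 390) (nat_lit 5) (nat_lit 391) (nat_lit 5) (nat_lit 316) (nat_lit 301) (nat_lit 163)))) (XT.nd (nat_lit 78) (nat_lit 1216) (nat_lit 0) (XT.lf (nat_lit 0) (nat_lit 2128076420) (nat_lit 1748) (nat_lit 4551054930) (nat_lit 1824) (nat_lit 11093050876) (nat_lit 367) (nat_lit 5) (nat_lit 390) (nat_lit 5) (nat_lit 391) (nat_lit 5) (nat_lit 317) (nat_lit 301) (nat_lit 162)) (XT.nd (nat_lit 78) (nat_lit 1292) (nat_lit 0) (XT.lf (nat_lit 0) (nat_lit 4213600026) (nat_lit 1748) (nat_lit 9567889472) (nat_lit 76) (nat_lit 4277985709) (nat_lit 368) (nat_lit 5) (nat_lit 391) (nat_lit 5) (nat_lit 369) (nat_lit 5) (nat_lit 318) (nat_lit 301) (nat_lit 161)) (XT.lf (nat_lit 0) (nat_lit 3625035538) (nat_lit 1292) (nat_lit 2823449201) (nat_lit 1368) (nat_lit 11905175573) (nat_lit 351) (nat_lit 5) (nat_lit 368) (nat_lit 5) (nat_lit 369) (nat_lit 5) (nat_lit 319) (nat_lit 301) (nat_lit 160))))) (XT.nd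 (nat_lit 234) (nat_lit 2508) (nat_lit 0) (XT.nd (nat_lit 78) (nat_lit 1672) (nat_lit 0) (XT.lf (nat_lit 0) (nat_lit 8858484594) (nat_lit 1368) (nat_lit 1376795836) (nat_lit 76) (nat_lit 8419238141) (nat_lit 351) (nat_lit 5) (nat_lit 369) (nat_lit 5) (nat_lit 352) (nat_lit 5) (nat_lit 320) (nat_lit 301) (nat_lit 159)) (XT.nd (nat_lit 78) (nat_lit 836) (nat_lit 0) (XT.lf (nat_lit 0) (nat_lit 11436119989) (nat_lit 912) (nat_lit 6459327838) (nat_lit 76) (nat_lit 1067056755) (nat_lit 340) (nat_lit 5) (nat_lit 352) (nat_lit 5) (nat_lit 341) (nat_lit 5) (nat_lit 321) (nat_lit 301) (nat_lit 158)) (XT.lf (nat_lit 0) (nat_lit 7558956414) (nat_lit 836) (nat_lit 6647538190) (nat_lit 912) (nat_lit 5070935824) (nat_lit 329) (nat_lit 5) (nat_lit 340) (nat_lit 5) (nat_lit 341) (nat_lit 5) (nat_lit 322) (nat_lit 301) (nat_lit 157)))) (XT.nd (nat_lit 156) (nat_lit 1596) (nat_lit 0) (XT.nd (nat_lit 78) (nat_lit 76)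 (nat_lit 0) (XT.lf (nat_lit 0) (nat_lit 2474795041) (nat_lit 836) (nat_lit 14666140138) (nat_lit 912) (nat_lit 2459257990) (nat_lit 318) (nat_lit 5) (nat_lit 329) (nat_lit 5) (nat_lit 330) (nat_lit 5) (nat_lit 323) (nat_lit 301) (nat_lit 156)) (XT.lf (nat_lit 0) (nat_lit 341078444) (nat_lit 912) (nat_lit 2733836072) (nat_lit 76) (nat_lit 16855435430) (nat_lit 317) (nat_lit 5) (nat_lit 329) (nat_lit 5) (nat_lit 318) (nat_lit 5) (nat_lit 324) (nat_lit 301) (nat_lit 155))) (XT.nd (nat_lit 78) (nat_lit 760) (nat_lit 0) (XT.lf (nat_lit 0) (nat_lit 3319020646) (nat_lit 912) (nat_lit 8103836630) (nat_lit 76) (nat_lit 8844696477) (nat_lit 306) (nat_lit 5) (nat_lit 318) (nat_lit 5) (nat_lit 307) (nat_lit 5) (nat_lit 325) (nat_lit 301) (nat_lit 154)) (XT.lf (nat_lit 0) (nat_lit 6463875383) (nat_lit 836) (nat_lit 13625038707) (nat_lit 76) (nat_lit 524415469) (nat_lit 296) (nat_lit 5) (nat_lit 307) (nat_lit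 5) (nat_lit 297) (nat_lit 5) (nat_lit 326) (nat_lit 301) (nat_lit 153)))))) (XT.nd (nat_lit 546) (nat_lit 3040) (nat_lit 0) (XT.nd (nat_lit 234) (nat_lit 2204) (nat_lit 0) (XT.nd (nat_lit 78) (nat_lit 684) (nat_lit 0) (XT.lf (nat_lit 0) (nat_lit 1609723799) (nat_lit 760) (nat_lit 8225228274) (nat_lit 836) (nat_lit 11131896195) (nat_lit 286) (nat_lit 5) (nat_lit 296) (nat_lit 5) (nat_lit 297) (nat_lit 5) (nat_lit 327) (nat_lit 301) (nat_lit 152)) (XT.nd (nat_lit 78) (nat_lit 684) (nat_lit 0) (XT.lf (nat_lit 0) (nat_lit 13416022475) (nat_lit 836) (nat_lit 3878041521) (nat_lit 76) (nat_lit 4034738257) (nat_lit 286) (nat_lit 5) (nat_lit 297) (nat_lit 5) (nat_lit 287) (nat_lit 5) (nat_lit 328) (nat_lit 301) (nat_lit 151)) (XT.lf (nat_lit 0) (nat_lit 12159788044) (nat_lit 684) (nat_lit 5068972024) (nat_lit 760) (nat_lit 4470376833) (nat_lit 277) (nat_lit 5) (nat_lit 286) (nat_lit 5) (nat_lit 287) (nat_lit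 5) (nat_lit 329) (nat_lit 301) (nat_lit 150)))) (XT.nd (nat_lit 156) (nat_lit 684) (nat_lit 0) (XT.nd (nat_lit 78) (nat_lit 760) (nat_lit 0) (XT.lf (nat_lit 0) (nat_lit 6680246987) (nat_lit 760) (nat_lit 14584797464) (nat_lit 836) (nat_lit 813360389) (nat_lit 267) (nat_lit 5) (nat_lit 277) (nat_lit 5) (nat_lit 278) (nat_lit 5) (nat_lit 330) (nat_lit 301) (nat_lit 149)) (XT.lf (nat_lit 0) (nat_lit 998751695) (nat_lit 684) (nat_lit 2011973716) (nat_lit 760) (nat_lit 19456026280) (nat_lit 257) (nat_lit 5) (nat_lit 266) (nat_lit 5) (nat_lit 267) (nat_lit 5) (nat_lit 331) (nat_lit 301) (nat_lit 148))) (XT.nd (nat_lit 78) (nat_lit 684) (nat_lit 0) (XT.lf (nat_lit 0) (nat_lit 7105440303) (nat_lit 760) (nat_lit 4853582878) (nat_lit 76) (nat_lit 10904285151) (nat_lit 257) (nat_lit 5) (nat_lit 267) (nat_lit 5) (nat_lit 258) (nat_lit 5) (nat_lit 332) (nat_lit 301) (nat_lit 147)) (XT.lf (nat_lit 0) (nat_lit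 11414492635) (nat_lit 760) (nat_lit 10877895659) (nat_lit 76) (nat_lit 977549332) (nat_lit 248) (nat_lit 5) (nat_lit 258) (nat_lit 5) (nat_lit 249) (nat_lit 5) (nat_lit 333) (nat_lit 301) (nat_lit 146))))) (XT.nd (nat_lit 234) (nat_lit 1748) (nat_lit 0) (XT.nd (nat_lit 78) (nat_lit 684) (nat_lit 0) (XT.lf (nat_lit 0) (nat_lit 6528965778) (nat_lit 608) (nat_lit 9470623424) (nat_lit 684) (nat_lit 7686246846) (nat_lit 240) (nat_lit 5) (nat_lit 248) (nat_lit 5) (nat_lit 249) (nat_lit 5) (nat_lit 334) (nat_lit 301) (nat_lit 145)) (XT.nd (nat_lit 78) (nat_lit 76) (nat_lit 0) (XT.lf (nat_lit 0) (nat_lit 465716304) (nat_lit 608) (nat_lit 20349484384) (nat_lit 684) (nat_lit 3297157032) (nat_lit 232) (nat_lit 5) (nat_lit 240) (nat_lit 5) (nat_lit 241) (nat_lit 5) (nat_lit 335) (nat_lit 301) (nat_lit 144)) (XT.lf (nat_lit 0) (nat_lit 1379529765) (nat_lit 684) (nat_lit 5779371643) (nat_lit 76) (nat_lit 17389180572)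 (nat_lit 231) (nat_lit 5) (nat_lit 240) (nat_lit 5) (nat_lit 232) (nat_lit 5) (nat_lit 336) (nat_lit 301) (nat_lit 143)))) (XT.nd (nat_lit 156) (nat_lit 532) (nat_lit 0) (XT.nd (nat_lit 78) (nat_lit 608) (nat_lit 0) (XT.lf (nat_lit 0) (nat_lit 6269090205) (nat_lit 684) (nat_lit 12277666645) (nat_lit 76) (nat_lit 6447342982) (nat_lit 223) (nat_lit 5) (nat_lit 232) (nat_lit 5) (nat_lit 224) (nat_lit 5) (nat_lit 337) (nat_lit 301) (nat_lit 142)) (XT.lf (nat_lit 0) (nat_lit 6420057066) (nat_lit 608) (nat_lit 5006280121) (nat_lit 684) (nat_lit 14024746004) (nat_lit 215) (nat_lit 5) (nat_lit 223) (nat_lit 5) (nat_lit 224) (nat_lit 5) (nat_lit 338) (nat_lit 301) (nat_lit 141))) (XT.nd (nat_lit 78) (nat_lit 532) (nat_lit 0) (XT.lf (nat_lit 0) (nat_lit 16872278080) (nat_lit 684) (nat_lit 141450765) (nat_lit 76) (nat_lit 8905372499) (nat_lit 215) (nat_lit 5) (nat_lit 224) (nat_lit 5) (nat_lit 216) (nat_lit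 5) (nat_lit 339) (nat_lit 301) (nat_lit 140)) (XT.lf (nat_lit 0) (nat_lit 19528213985) (nat_lit 532) (nat_lit 3106061379) (nat_lit 608) (nat_lit 3763835796) (nat_lit 208) (nat_lit 5) (nat_lit 215) (nat_lit 5) (nat_lit 216) (nat_lit 5) (nat_lit 340) (nat_lit 301) (nat_lit 139))))))) (XT.nd (nat_lit 37674) (nat_lit 0) (nat_lit 17784) (XT.nd (nat_lit 468) (nat_lit 1900) (nat_lit 0) (XT.nd (nat_lit 234) (nat_lit 1596) (nat_lit 0) (XT.nd (nat_lit 78) (nat_lit 532) (nat_lit 0) (XT.lf (nat_lit 0) (nat_lit 1807315485) (nat_lit 608) (nat_lit 13913690664) (nat_lit 76) (nat_lit 11167238197) (nat_lit 200) (nat_lit 5) (nat_lit 208) (nat_lit 5) (nat_lit 201) (nat_lit 5) (nat_lit 341) (nat_lit 301) (nat_lit 138)) (XT.nd (nat_lit 78) (nat_lit 0) (nat_lit 0) (XT.lf (nat_lit 0) (nat_lit 6141338902) (nat_lit 532) (nat_lit 1453589637) (nat_lit 608) (nat_lit 19795650476) (nat_lit 193) (nat_lit 5) (nat_lit 200) (nat_lit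 5) (nat_lit 201) (nat_lit 5) (nat_lit 342) (nat_lit 301) (nat_lit 137)) (XT.lf (nat_lit 0) (nat_lit 13729861168) (nat_lit 608) (nat_lit 1013391367) (nat_lit 76) (nat_lit 13161261567) (nat_lit 193) (nat_lit 5) (nat_lit 201) (nat_lit 5) (nat_lit 194) (nat_lit 5) (nat_lit 343) (nat_lit 301) (nat_lit 136)))) (XT.nd (nat_lit 78) (nat_lit 1064) (nat_lit 0) (XT.lf (nat_lit 0) (nat_lit 20074189423) (nat_lit 532) (nat_lit 107725924) (nat_lit 608) (nat_lit 8249294500) (nat_lit 186) (nat_lit 5) (nat_lit 193) (nat_lit 5) (nat_lit 194) (nat_lit 5) (nat_lit 344) (nat_lit 301) (nat_lit 135)) (XT.nd (nat_lit 78) (nat_lit 608) (nat_lit 0) (XT.lf (nat_lit 0) (nat_lit 12897752964) (nat_lit 456) (nat_lit 14110758202) (nat_lit 532) (nat_lit 1961579659) (nat_lit 180) (nat_lit 5) (nat_lit 186) (nat_lit 5) (nat_lit 187) (nat_lit 5) (nat_lit 345) (nat_lit 301) (nat_lit 134)) (XT.lf (nat_lit 0) (nat_lit 4547319260) (nat_lit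 608) (nat_lit 24116187589) (nat_lit 76) (nat_lit 859213604) (nat_lit 172) (nat_lit 5) (nat_lit 180) (nat_lit 5) (nat_lit 173) (nat_lit 5) (nat_lit 346) (nat_lit 301) (nat_lit 133))))) (XT.nd (nat_lit 234) (nat_lit 988) (nat_lit 0) (XT.nd (nat_lit 78) (nat_lit 912) (nat_lit 0) (XT.lf (nat_lit 0) (nat_lit 11422357497) (nat_lit 608) (nat_lit 2456996058) (nat_lit 76) (nat_lit 16208369301) (nat_lit 172) (nat_lit 5) (nat_lit 180) (nat_lit 5) (nat_lit 173) (nat_lit 5) (nat_lit 347) (nat_lit 301) (nat_lit 132)) (XT.nd (nat_lit 78) (nat_lit 456) (nat_lit 0) (XT.lf (nat_lit 0) (nat_lit 18637366908) (nat_lit 532) (nat_lit 10569676777) (nat_lit 76) (nat_lit 1459960799) (nat_lit 166) (nat_lit 5) (nat_lit 173) (nat_lit 5) (nat_lit 167) (nat_lit 5) (nat_lit 348) (nat_lit 301) (nat_lit 131)) (XT.lf (nat_lit 0) (nat_lit 12156557241) (nat_lit 456) (nat_lit 14094460067) (nat_lit 532) (nat_lit 5009006887) (nat_lit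 160) (nat_lit 5) (nat_lit 166) (nat_lit 5) (nat_lit 167) (nat_lit 5) (nat_lit 349) (nat_lit 301) (nat_lit 130)))) (XT.nd (nat_lit 156) (nat_lit 456) (nat_lit 0) (XT.nd (nat_lit 78) (nat_lit 0) (nat_lit 0) (XT.lf (nat_lit 0) (nat_lit 2294352843) (nat_lit 532) (nat_lit 28011815918) (nat_lit 76) (nat_lit 1562355350) (nat_lit 153) (nat_lit 5) (nat_lit 160) (nat_lit 5) (nat_lit 154) (nat_lit 5) (nat_lit 350) (nat_lit 301) (nat_lit 129)) (XT.lf (nat_lit 0) (nat_lit 9967595985) (nat_lit 532) (nat_lit 4862573454) (nat_lit 76) (nat_lit 17660073875) (nat_lit 153) (nat_lit 5) (nat_lit 160) (nat_lit 5) (nat_lit 154) (nat_lit 5) (nat_lit 351) (nat_lit 301) (nat_lit 128))) (XT.nd (nat_lit 36738) (nat_lit 0) (nat_lit 17708) (XT.lf (nat_lit 0) (nat_lit 17997939184) (nat_lit 532) (nat_lit 13911178821) (nat_lit 76) (nat_lit 1218961128) (nat_lit 147) (nat_lit 5) (nat_lit 154) (nat_lit 5) (nat_lit 148) (nat_lit 5)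 (nat_lit 352) (nat_lit 301) (nat_lit 127)) (XT.lf (nat_lit 0) (nat_lit 131832872) (nat_lit 1748) (nat_lit 3526512981) (nat_lit 1748) (nat_lit 3526512981) (nat_lit 380) (nat_lit 3) (nat_lit 403) (nat_lit 3) (nat_lit 403) (nat_lit 5) (nat_lit 302) (nat_lit 302) (nat_lit 176)))))) (XT.nd (nat_lit 546) (nat_lit 0) (nat_lit 304) (XT.nd (nat_lit 234) (nat_lit 0) (nat_lit 152) (XT.nd (nat_lit 78) (nat_lit 0) (nat_lit 0) (XT.lf (nat_lit 0) (nat_lit 763897200) (nat_lit 1672) (nat_lit 11805547263) (nat_lit 1748) (nat_lit 2005528022) (nat_lit 381) (nat_lit 5) (nat_lit 403) (nat_lit 5) (nat_lit 404) (nat_lit 5) (nat_lit 303) (nat_lit 302) (nat_lit 175)) (XT.nd (nat_lit 78) (nat_lit 0) (nat_lit 76) (XT.lf (nat_lit 0) (nat_lit 1358023761) (nat_lit 1672) (nat_lit 1861404204) (nat_lit 1748) (nat_lit 11565393477) (nat_lit 381) (nat_lit 5) (nat_lit 403) (nat_lit 5) (nat_lit 404) (nat_lit 5) (nat_lit 304) (nat_lit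 302) (nat_lit 174)) (XT.lf (nat_lit 0) (nat_lit 2049469103) (nat_lit 1672) (nat_lit 6559492084) (nat_lit 1748) (nat_lit 6390428627) (nat_lit 382) (nat_lit 5) (nat_lit 404) (nat_lit 5) (nat_lit 405) (nat_lit 5) (nat_lit 305) (nat_lit 302) (nat_lit 173)))) (XT.nd (nat_lit 156) (nat_lit 0) (nat_lit 76) (XT.nd (nat_lit 78) (nat_lit 0) (nat_lit 0) (XT.lf (nat_lit 0) (nat_lit 2810877502) (nat_lit 1672) (nat_lit 11351522751) (nat_lit 1748) (nat_lit 1057024033) (nat_lit 383) (nat_lit 5) (nat_lit 405) (nat_lit 5) (nat_lit 406) (nat_lit 5) (nat_lit 306) (nat_lit 302) (nat_lit 172)) (XT.lf (nat_lit 0) (nat_lit 3680805394) (nat_lit 1672) (nat_lit 815154725) (nat_lit 1748) (nat_lit 10948399179) (nat_lit 383) (nat_lit 5) (nat_lit 405) (nat_lit 5) (nat_lit 406) (nat_lit 5) (nat_lit 307) (nat_lit 302) (nat_lit 171))) (XT.nd (nat_lit 78) (nat_lit 0) (nat_lit 0) (XT.lf (nat_lit 0) (nat_lit 4662579977) (nat_lit 1672)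 (nat_lit 5550154813) (nat_lit 1748) (nat_lit 5461605264) (nat_lit 384) (nat_lit 5) (nat_lit 406) (nat_lit 5) (nat_lit 407) (nat_lit 5) (nat_lit 308) (nat_lit 302) (nat_lit 170)) (XT.lf (nat_lit 76) (nat_lit 5524161459) (nat_lit 0) (nat_lit 205434445) (nat_lit 1748) (nat_lit 10180520869) (nat_lit 385) (nat_lit 5) (nat_lit 384) (nat_lit 5) (nat_lit 407) (nat_lit 5) (nat_lit 309) (nat_lit 302) (nat_lit 169))))) (XT.nd (nat_lit 234) (nat_lit 0) (nat_lit 152) (XT.nd (nat_lit 78) (nat_lit 0) (nat_lit 76) (XT.lf (nat_lit 76) (nat_lit 788838966) (nat_lit 0) (nat_lit 6133077771) (nat_lit 1748) (nat_lit 9229196113) (nat_lit 386) (nat_lit 5) (nat_lit 385) (nat_lit 5) (nat_lit 408) (nat_lit 5) (nat_lit 310) (nat_lit 302) (nat_lit 168)) (XT.nd (nat_lit 78) (nat_lit 0) (nat_lit 0) (XT.lf (nat_lit 0) (nat_lit 8234272737) (nat_lit 1672) (nat_lit 3995949167) (nat_lit 1748) (nat_lit 4167443188) (nat_lit 386) (nat_lit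 5) (nat_lit 408) (nat_lit 5) (nat_lit 409) (nat_lit 5) (nat_lit 311) (nat_lit 302) (nat_lit 167)) (XT.lf (nat_lit 76) (nat_lit 7762143452) (nat_lit 0) (nat_lit 1900837305) (nat_lit 1748) (nat_lit 6987104777) (nat_lit 387) (nat_lit 5) (nat_lit 386) (nat_lit 5) (nat_lit 409) (nat_lit 5) (nat_lit 312) (nat_lit 302) (nat_lit 166)))) (XT.nd (nat_lit 156) (nat_lit 0) (nat_lit 76) (XT.nd (nat_lit 78) (nat_lit 0) (nat_lit 76) (XT.lf (nat_lit 76) (nat_lit 2990275398) (nat_lit 0) (nat_lit 8233635842) (nat_lit 1748) (nat_lit 5684391054) (nat_lit 388) (nat_lit 5) (nat_lit 387) (nat_lit 5) (nat_lit 410) (nat_lit 5) (nat_lit 313) (nat_lit 302) (nat_lit 165)) (XT.lf (nat_lit 0) (nat_lit 12906618303) (nat_lit 1672) (nat_lit 1865271791) (nat_lit 1748) (nat_lit 2400887102) (nat_lit 388) (nat_lit 5) (nat_lit 410) (nat_lit 5) (nat_lit 411) (nat_lit 5) (nat_lit 314) (nat_lit 302) (nat_lit 164))) (XT.nd (nat_lit 78)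 (nat_lit 0) (nat_lit 76) (XT.lf (nat_lit 76) (nat_lit 10623320712) (nat_lit 0) (nat_lit 4127241645) (nat_lit 1748) (nat_lit 2692419176) (nat_lit 389) (nat_lit 5) (nat_lit 388) (nat_lit 5) (nat_lit 411) (nat_lit 5) (nat_lit 315) (nat_lit 302) (nat_lit 163)) (XT.lf (nat_lit 76) (nat_lit 5812689010) (nat_lit 0) (nat_lit 10919050828) (nat_lit 1748) (nat_lit 987923861) (nat_lit 390) (nat_lit 5) (nat_lit 389) (nat_lit 5) (nat_lit 412) (nat_lit 5) (nat_lit 316) (nat_lit 302) (nat_lit 162))))))))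
noncomputable def xc112 : XT := (XT.nd (nat_lit 2028) (nat_lit 3572) (nat_lit 0) (XT.nd (nat_lit 1014) (nat_lit 6536) (nat_lit 0) (XT.nd (nat_lit 468) (nat_lit 4104) (nat_lit 0) (XT.nd (nat_lit 234) (nat_lit 2052) (nat_lit 0) (XT.nd (nat_lit 78) (nat_lit 0) (nat_lit 0) (XT.lf (nat_lit 0) (nat_lit 825138930) (nat_lit 1748) (nat_lit 17121422920) (nat_lit 1824) (nat_lit 56644288) (nat_lit 367) (nat_lit 5) (nat_lit 390) (nat_lit 5) (nat_lit 391) (nat_lit 5) (nat_lit 317) (nat_lit 302) (nat_lit 161)) (XT.nd (nat_lit 78) (nat_lit 0) (nat_lit 76) (XT.lf (nat_lit 0) (nat_lit 2821091799) (nat_lit 1748) (nat_lit 4166873888) (nat_lit 1824) (nat_lit 11304329399) (nat_lit 367) (nat_lit 5) (nat_lit 390) (nat_lit 5) (nat_lit 391) (nat_lit 5) (nat_lit 318) (nat_lit 302) (nat_lit 160)) (XT.lf (nat_lit 0) (nat_lit 4953519985) (nat_lit 1748) (nat_lit 9329260797) (nat_lit 76) (nat_lit 4305752960) (nat_lit 368) (nat_lit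 5) (nat_lit 391) (nat_lit 5) (nat_lit 369) (nat_lit 5) (nat_lit 319) (nat_lit 302) (nat_lit 159)))) (XT.nd (nat_lit 78) (nat_lit 836) (nat_lit 0) (XT.lf (nat_lit 0) (nat_lit 4250923667) (nat_lit 1292) (nat_lit 2990015889) (nat_lit 1368) (nat_lit 11650908344) (nat_lit 351) (nat_lit 5) (nat_lit 368) (nat_lit 5) (nat_lit 369) (nat_lit 5) (nat_lit 320) (nat_lit 302) (nat_lit 158)) (XT.nd (nat_lit 78) (nat_lit 836) (nat_lit 0) (XT.lf (nat_lit 0) (nat_lit 9705276768) (nat_lit 1368) (nat_lit 903448455) (nat_lit 76) (nat_lit 8593378818) (nat_lit 351) (nat_lit 5) (nat_lit 369) (nat_lit 5) (nat_lit 352) (nat_lit 5) (nat_lit 321) (nat_lit 302) (nat_lit 157)) (XT.lf (nat_lit 0) (nat_lit 12346208344) (nat_lit 912) (nat_lit 6134644462) (nat_lit 76) (nat_lit 1038769988) (nat_lit 340) (nat_lit 5) (nat_lit 352) (nat_lit 5) (nat_lit 341) (nat_lit 5) (nat_lit 322) (nat_lit 302) (nat_lit 156))))) (XT.nd (nat_lit 234)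 (nat_lit 2356) (nat_lit 0) (XT.nd (nat_lit 78) (nat_lit 912) (nat_lit 0) (XT.lf (nat_lit 0) (nat_lit 8295776868) (nat_lit 836) (nat_lit 6890714223) (nat_lit 912) (nat_lit 4657781528) (nat_lit 329) (nat_lit 5) (nat_lit 340) (nat_lit 5) (nat_lit 341) (nat_lit 5) (nat_lit 323) (nat_lit 302) (nat_lit 155)) (XT.nd (nat_lit 78) (nat_lit 76) (nat_lit 0) (XT.lf (nat_lit 0) (nat_lit 3062389576) (nat_lit 836) (nat_lit 15133502395) (nat_lit 912) (nat_lit 1981099516) (nat_lit 318) (nat_lit 5) (nat_lit 329) (nat_lit 5) (nat_lit 330) (nat_lit 5) (nat_lit 324) (nat_lit 302) (nat_lit 154)) (XT.lf (nat_lit 0) (nat_lit 880143293) (nat_lit 912) (nat_lit 2310050548) (nat_lit 76) (nat_lit 17327115974) (nat_lit 317) (nat_lit 5) (nat_lit 329) (nat_lit 5) (nat_lit 318) (nat_lit 5) (nat_lit 325) (nat_lit 302) (nat_lit 153)))) (XT.nd (nat_lit 156) (nat_lit 760) (nat_lit 0) (XT.nd (nat_lit 78) (nat_lit 760) (nat_lit 0) (XT.lf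 (nat_lit 0) (nat_lit 3935127800) (nat_lit 912) (nat_lit 7838537057) (nat_lit 76) (nat_lit 9091221692) (nat_lit 306) (nat_lit 5) (nat_lit 318) (nat_lit 5) (nat_lit 307) (nat_lit 5) (nat_lit 326) (nat_lit 302) (nat_lit 152)) (XT.lf (nat_lit 0) (nat_lit 7162501146) (nat_lit 836) (nat_lit 13523146634) (nat_lit 76) (nat_lit 535634965) (nat_lit 296) (nat_lit 5) (nat_lit 307) (nat_lit 5) (nat_lit 297) (nat_lit 5) (nat_lit 327) (nat_lit 302) (nat_lit 151))) (XT.nd (nat_lit 78) (nat_lit 0) (nat_lit 0) (XT.lf (nat_lit 0) (nat_lit 2160374167) (nat_lit 760) (nat_lit 8462897338) (nat_lit 836) (nat_lit 10962374549) (nat_lit 286) (nat_lit 5) (nat_lit 296) (nat_lit 5) (nat_lit 297) (nat_lit 5) (nat_lit 328) (nat_lit 302) (nat_lit 150)) (XT.lf (nat_lit 0) (nat_lit 14297464192) (nat_lit 836) (nat_lit 3496802852) (nat_lit 76) (nat_lit 4164487779) (nat_lit 286) (nat_lit 5) (nat_lit 297) (nat_lit 5) (nat_lit 287) (nat_lit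 5) (nat_lit 329) (nat_lit 302) (nat_lit 149)))))) (XT.nd (nat_lit 468) (nat_lit 3040) (nat_lit 0) (XT.nd (nat_lit 234) (nat_lit 1292) (nat_lit 0) (XT.nd (nat_lit 78) (nat_lit 1520) (nat_lit 0) (XT.lf (nat_lit 0) (nat_lit 13014088956) (nat_lit 684) (nat_lit 5199722841) (nat_lit 760) (nat_lit 4126612834) (nat_lit 277) (nat_lit 5) (nat_lit 286) (nat_lit 5) (nat_lit 287) (nat_lit 5) (nat_lit 330) (nat_lit 302) (nat_lit 148)) (XT.nd (nat_lit 78) (nat_lit 760) (nat_lit 0) (XT.lf (nat_lit 0) (nat_lit 7371613053) (nat_lit 760) (nat_lit 14989257099) (nat_lit 836) (nat_lit 370416145) (nat_lit 267) (nat_lit 5) (nat_lit 277) (nat_lit 5) (nat_lit 278) (nat_lit 5) (nat_lit 331) (nat_lit 302) (nat_lit 147)) (XT.lf (nat_lit 0) (nat_lit 1518039633) (nat_lit 684) (nat_lit 2033966838) (nat_lit 760) (nat_lit 19579430467) (nat_lit 257) (nat_lit 5) (nat_lit 266) (nat_lit 5) (nat_lit 267) (nat_lit 5) (nat_lit 332) (nat_lit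 302) (nat_lit 146)))) (XT.nd (nat_lit 78) (nat_lit 1292) (nat_lit 0) (XT.lf (nat_lit 0) (nat_lit 7756669916) (nat_lit 760) (nat_lit 4515313090) (nat_lit 76) (nat_lit 11268173813) (nat_lit 257) (nat_lit 5) (nat_lit 267) (nat_lit 5) (nat_lit 258) (nat_lit 5) (nat_lit 333) (nat_lit 302) (nat_lit 145)) (XT.nd (nat_lit 78) (nat_lit 608) (nat_lit 0) (XT.lf (nat_lit 0) (nat_lit 12185634525) (nat_lit 760) (nat_lit 10719665867) (nat_lit 76) (nat_lit 1053880216) (nat_lit 248) (nat_lit 5) (nat_lit 258) (nat_lit 5) (nat_lit 249) (nat_lit 5) (nat_lit 334) (nat_lit 302) (nat_lit 144)) (XT.lf (nat_lit 0) (nat_lit 7201539895) (nat_lit 608) (nat_lit 9697352566) (nat_lit 684) (nat_lit 7488859539) (nat_lit 240) (nat_lit 5) (nat_lit 248) (nat_lit 5) (nat_lit 249) (nat_lit 5) (nat_lit 335) (nat_lit 302) (nat_lit 143))))) (XT.nd (nat_lit 234) (nat_lit 1748) (nat_lit 0) (XT.nd (nat_lit 78) (nat_lit 684) (nat_lit 0) (XT.lf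 (nat_lit 0) (nat_lit 956811042) (nat_lit 608) (nat_lit 20893407732) (nat_lit 684) (nat_lit 2977033564) (nat_lit 232) (nat_lit 5) (nat_lit 240) (nat_lit 5) (nat_lit 241) (nat_lit 5) (nat_lit 336) (nat_lit 302) (nat_lit 142)) (XT.nd (nat_lit 78) (nat_lit 608) (nat_lit 0) (XT.lf (nat_lit 0) (nat_lit 1822413152) (nat_lit 684) (nat_lit 5483938531) (nat_lit 76) (nat_lit 17969890691) (nat_lit 231) (nat_lit 5) (nat_lit 240) (nat_lit 5) (nat_lit 232) (nat_lit 5) (nat_lit 337) (nat_lit 302) (nat_lit 141)) (XT.lf (nat_lit 0) (nat_lit 6850404939) (nat_lit 684) (nat_lit 12177131774) (nat_lit 76) (nat_lit 6708276500) (nat_lit 223) (nat_lit 5) (nat_lit 232) (nat_lit 5) (nat_lit 224) (nat_lit 5) (nat_lit 338) (nat_lit 302) (nat_lit 140)))) (XT.nd (nat_lit 156) (nat_lit 608) (nat_lit 0) (XT.nd (nat_lit 78) (nat_lit 532) (nat_lit 0) (XT.lf (nat_lit 0) (nat_lit 7073916873) (nat_lit 608) (nat_lit 5079993600) (nat_lit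 684) (nat_lit 14052771907) (nat_lit 215) (nat_lit 5) (nat_lit 223) (nat_lit 5) (nat_lit 224) (nat_lit 5) (nat_lit 339) (nat_lit 302) (nat_lit 139)) (XT.lf (nat_lit 0) (nat_lit 313460369) (nat_lit 532) (nat_lit 17441079203) (nat_lit 608) (nat_lit 8934382228) (nat_lit 208) (nat_lit 5) (nat_lit 215) (nat_lit 5) (nat_lit 216) (nat_lit 5) (nat_lit 340) (nat_lit 302) (nat_lit 138))) (XT.nd (nat_lit 78) (nat_lit 608) (nat_lit 0) (XT.lf (nat_lit 0) (nat_lit 20561721433) (nat_lit 532) (nat_lit 3117651771) (nat_lit 608) (nat_lit 3503135899) (nat_lit 208) (nat_lit 5) (nat_lit 215) (nat_lit 5) (nat_lit 216) (nat_lit 5) (nat_lit 341) (nat_lit 302) (nat_lit 137)) (XT.lf (nat_lit 0) (nat_lit 2222951748) (nat_lit 608) (nat_lit 13878785045) (nat_lit 76) (nat_lit 11585713335) (nat_lit 200) (nat_lit 5) (nat_lit 208) (nat_lit 5) (nat_lit 201) (nat_lit 5) (nat_lit 342) (nat_lit 302) (nat_lit 136))))))) (XT.nd (nat_lit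 37752) (nat_lit 0) (nat_lit 16188) (XT.nd (nat_lit 468) (nat_lit 1444) (nat_lit 0) (XT.nd (nat_lit 234) (nat_lit 1064) (nat_lit 0) (XT.nd (nat_lit 78) (nat_lit 532) (nat_lit 0) (XT.lf (nat_lit 0) (nat_lit 6770557112) (nat_lit 532) (nat_lit 1405998470) (nat_lit 608) (nat_lit 20028458216) (nat_lit 193) (nat_lit 5) (nat_lit 200) (nat_lit 5) (nat_lit 201) (nat_lit 5) (nat_lit 343) (nat_lit 302) (nat_lit 135)) (XT.nd (nat_lit 78) (nat_lit 532) (nat_lit 0) (XT.lf (nat_lit 0) (nat_lit 14485806819) (nat_lit 608) (nat_lit 605279995) (nat_lit 76) (nat_lit 13643480740) (nat_lit 193) (nat_lit 5) (nat_lit 201) (nat_lit 5) (nat_lit 194) (nat_lit 5) (nat_lit 344) (nat_lit 302) (nat_lit 134)) (XT.lf (nat_lit 0) (nat_lit 21107813865) (nat_lit 532) (nat_lit 16388818) (nat_lit 608) (nat_lit 8153011742) (nat_lit 186) (nat_lit 5) (nat_lit 193) (nat_lit 5) (nat_lit 194) (nat_lit 5) (nat_lit 345) (nat_lit 302) (nat_lit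 133)))) (XT.nd (nat_lit 78) (nat_lit 608) (nat_lit 0) (XT.lf (nat_lit 0) (nat_lit 13715300596) (nat_lit 456) (nat_lit 14433877160) (nat_lit 532) (nat_lit 1683218132) (nat_lit 180) (nat_lit 5) (nat_lit 186) (nat_lit 5) (nat_lit 187) (nat_lit 5) (nat_lit 346) (nat_lit 302) (nat_lit 132)) (XT.nd (nat_lit 78) (nat_lit 0) (nat_lit 0) (XT.lf (nat_lit 0) (nat_lit 5010276433) (nat_lit 608) (nat_lit 24405477221) (nat_lit 76) (nat_lit 985937346) (nat_lit 172) (nat_lit 5) (nat_lit 180) (nat_lit 5) (nat_lit 173) (nat_lit 5) (nat_lit 347) (nat_lit 302) (nat_lit 131)) (XT.lf (nat_lit 0) (nat_lit 12082055014) (nat_lit 608) (nat_lit 2109156430) (nat_lit 76) (nat_lit 16792627500) (nat_lit 172) (nat_lit 5) (nat_lit 180) (nat_lit 5) (nat_lit 173) (nat_lit 5) (nat_lit 348) (nat_lit 302) (nat_lit 130))))) (XT.nd (nat_lit 234) (nat_lit 0) (nat_lit 0) (XT.nd (nat_lit 78) (nat_lit 988) (nat_lit 0) (XT.lf (nat_lit 0) (nat_lit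 19507650188) (nat_lit 532) (nat_lit 10466353733) (nat_lit 76) (nat_lit 1606617489) (nat_lit 166) (nat_lit 5) (nat_lit 173) (nat_lit 5) (nat_lit 167) (nat_lit 5) (nat_lit 349) (nat_lit 302) (nat_lit 129)) (XT.nd (nat_lit 78) (nat_lit 532) (nat_lit 0) (XT.lf (nat_lit 0) (nat_lit 12934846599) (nat_lit 456) (nat_lit 14408485841) (nat_lit 532) (nat_lit 4848231777) (nat_lit 160) (nat_lit 5) (nat_lit 166) (nat_lit 5) (nat_lit 167) (nat_lit 5) (nat_lit 350) (nat_lit 302) (nat_lit 128)) (XT.lf (nat_lit 0) (nat_lit 2664593953) (nat_lit 532) (nat_lit 28435661014) (nat_lit 76) (nat_lit 1718139593) (nat_lit 153) (nat_lit 5) (nat_lit 160) (nat_lit 5) (nat_lit 154) (nat_lit 5) (nat_lit 351) (nat_lit 302) (nat_lit 127)))) (XT.nd (nat_lit 36894) (nat_lit 0) (nat_lit 17328) (XT.nd (nat_lit 36816) (nat_lit 0) (nat_lit 17252) (XT.lf (nat_lit 0) (nat_lit 10559255442) (nat_lit 532) (nat_lit 4604072617) (nat_lit 76)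 (nat_lit 18295617433) (nat_lit 153) (nat_lit 5) (nat_lit 160) (nat_lit 5) (nat_lit 154) (nat_lit 5) (nat_lit 352) (nat_lit 302) (nat_lit 126)) (XT.lf (nat_lit 0) (nat_lit 596331742) (nat_lit 1748) (nat_lit 3397250036) (nat_lit 1748) (nat_lit 3397250036) (nat_lit 380) (nat_lit 3) (nat_lit 403) (nat_lit 3) (nat_lit 403) (nat_lit 5) (nat_lit 303) (nat_lit 303) (nat_lit 174))) (XT.nd (nat_lit 78) (nat_lit 0) (nat_lit 0) (XT.lf (nat_lit 0) (nat_lit 1681254037) (nat_lit 1672) (nat_lit 11675753268) (nat_lit 1748) (nat_lit 1636622820) (nat_lit 381) (nat_lit 5) (nat_lit 403) (nat_lit 5) (nat_lit 404) (nat_lit 5) (nat_lit 304) (nat_lit 303) (nat_lit 173)) (XT.lf (nat_lit 0) (nat_lit 2267152746) (nat_lit 1672) (nat_lit 1447381853) (nat_lit 1748) (nat_lit 11495781453) (nat_lit 381) (nat_lit 5) (nat_lit 403) (nat_lit 5) (nat_lit 404) (nat_lit 5) (nat_lit 305) (nat_lit 303) (nat_lit 172)))))) (XT.nd (nat_lit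 546) (nat_lit 1216) (nat_lit 0) (XT.nd (nat_lit 234) (nat_lit 0) (nat_lit 152) (XT.nd (nat_lit 78) (nat_lit 0) (nat_lit 76) (XT.lf (nat_lit 0) (nat_lit 2954557523) (nat_lit 1672) (nat_lit 6273958792) (nat_lit 1748) (nat_lit 6203320711) (nat_lit 382) (nat_lit 5) (nat_lit 404) (nat_lit 5) (nat_lit 405) (nat_lit 5) (nat_lit 306) (nat_lit 303) (nat_lit 171)) (XT.nd (nat_lit 78) (nat_lit 0) (nat_lit 0) (XT.lf (nat_lit 0) (nat_lit 3715060910) (nat_lit 1672) (nat_lit 11198233046) (nat_lit 1748) (nat_lit 745672813) (nat_lit 383) (nat_lit 5) (nat_lit 405) (nat_lit 5) (nat_lit 406) (nat_lit 5) (nat_lit 307) (nat_lit 303) (nat_lit 170)) (XT.lf (nat_lit 0) (nat_lit 4587207307) (nat_lit 1672) (nat_lit 360157534) (nat_lit 1748) (nat_lit 10943781309) (nat_lit 383) (nat_lit 5) (nat_lit 405) (nat_lit 5) (nat_lit 406) (nat_lit 5) (nat_lit 308) (nat_lit 303) (nat_lit 169)))) (XT.nd (nat_lit 156) (nat_lit 0) (nat_lit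 76) (XT.nd (nat_lit 78) (nat_lit 0) (nat_lit 0) (XT.lf (nat_lit 0) (nat_lit 5576338767) (nat_lit 1672) (nat_lit 5226887891) (nat_lit 1748) (nat_lit 5325259784) (nat_lit 384) (nat_lit 5) (nat_lit 406) (nat_lit 5) (nat_lit 407) (nat_lit 5) (nat_lit 309) (nat_lit 303) (nat_lit 168)) (XT.lf (nat_lit 76) (nat_lit 6171711908) (nat_lit 0) (nat_lit 484241361) (nat_lit 1748) (nat_lit 9715789088) (nat_lit 385) (nat_lit 5) (nat_lit 384) (nat_lit 5) (nat_lit 407) (nat_lit 5) (nat_lit 310) (nat_lit 303) (nat_lit 167))) (XT.nd (nat_lit 78) (nat_lit 0) (nat_lit 76) (XT.lf (nat_lit 76) (nat_lit 1303677722) (nat_lit 0) (nat_lit 6559861563) (nat_lit 1748) (nat_lit 8756856260) (nat_lit 386) (nat_lit 5) (nat_lit 385) (nat_lit 5) (nat_lit 408) (nat_lit 5) (nat_lit 311) (nat_lit 303) (nat_lit 166)) (XT.lf (nat_lit 0) (nat_lit 9192357894) (nat_lit 1672) (nat_lit 3622623138) (nat_lit 1748) (nat_lit 4059838128) (nat_lit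 386) (nat_lit 5) (nat_lit 408) (nat_lit 5) (nat_lit 409) (nat_lit 5) (nat_lit 312) (nat_lit 303) (nat_lit 165))))) (XT.nd (nat_lit 234) (nat_lit 1520) (nat_lit 0) (XT.nd (nat_lit 78) (nat_lit 0) (nat_lit 76) (XT.lf (nat_lit 76) (nat_lit 8480210603) (nat_lit 0) (nat_lit 2166156412) (nat_lit 1748) (nat_lit 6488812560) (nat_lit 387) (nat_lit 5) (nat_lit 386) (nat_lit 5) (nat_lit 409) (nat_lit 5) (nat_lit 313) (nat_lit 303) (nat_lit 164)) (XT.nd (nat_lit 78) (nat_lit 0) (nat_lit 76) (XT.lf (nat_lit 76) (nat_lit 3572819873) (nat_lit 0) (nat_lit 8662993430) (nat_lit 1748) (nat_lit 5165711465) (nat_lit 388) (nat_lit 5) (nat_lit 387) (nat_lit 5) (nat_lit 410) (nat_lit 5) (nat_lit 314) (nat_lit 303) (nat_lit 163)) (XT.lf (nat_lit 0) (nat_lit 13948186559) (nat_lit 1672) (nat_lit 1427980686) (nat_lit 1748) (nat_lit 2298198202) (nat_lit 388) (nat_lit 5) (nat_lit 410) (nat_lit 5) (nat_lit 411) (nat_lit 5) (nat_lit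 315) (nat_lit 303) (nat_lit 162)))) (XT.nd (nat_lit 156) (nat_lit 1672) (nat_lit 0) (XT.nd (nat_lit 78) (nat_lit 0) (nat_lit 76) (XT.lf (nat_lit 76) (nat_lit 11427267209) (nat_lit 0) (nat_lit 4404272958) (nat_lit 1748) (nat_lit 2121468708) (nat_lit 389) (nat_lit 5) (nat_lit 388) (nat_lit 5) (nat_lit 411) (nat_lit 5) (nat_lit 316) (nat_lit 303) (nat_lit 161)) (XT.lf (nat_lit 76) (nat_lit 6478469572) (nat_lit 0) (nat_lit 11377312151) (nat_lit 1748) (nat_lit 382551564) (nat_lit 390) (nat_lit 5) (nat_lit 389) (nat_lit 5) (nat_lit 412) (nat_lit 5) (nat_lit 317) (nat_lit 303) (nat_lit 160))) (XT.nd (nat_lit 78) (nat_lit 0) (nat_lit 76) (XT.lf (nat_lit 76) (nat_lit 1400710432) (nat_lit 0) (nat_lit 60422626) (nat_lit 1824) (nat_lit 17069488984) (nat_lit 367) (nat_lit 5) (nat_lit 366) (nat_lit 5) (nat_lit 390) (nat_lit 5) (nat_lit 318) (nat_lit 303) (nat_lit 159)) (XT.lf (nat_lit 0) (nat_lit 3498780531)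 (nat_lit 1748) (nat_lit 3801058453) (nat_lit 1824) (nat_lit 11528921621) (nat_lit 367) (nat_lit 5) (nat_lit 390) (nat_lit 5) (nat_lit 391) (nat_lit 5) (nat_lit 319) (nat_lit 303) (nat_lit 158))))))))
noncomputable def xc113 : XT := (XT.nd (nat_lit 2106) (nat_lit 2508) (nat_lit 0) (XT.nd (nat_lit 1014) (nat_lit 6080) (nat_lit 0) (XT.nd (nat_lit 468) (nat_lit 3952) (nat_lit 0) (XT.nd (nat_lit 234) (nat_lit 2508) (nat_lit 0) (XT.nd (nat_lit 78) (nat_lit 1292) (nat_lit 0) (XT.lf (nat_lit 0) (nat_lit 5680419448) (nat_lit 1748) (nat_lit 9113648603) (nat_lit 76) (nat_lit 4340126491) (nat_lit 368) (nat_lit 5) (nat_lit 391) (nat_lit 5) (nat_lit 369) (nat_lit 5) (nat_lit 320) (nat_lit 303) (nat_lit 157)) (XT.nd (nat_lit 78) (nat_lit 0) (nat_lit 0) (XT.lf (nat_lit 0) (nat_lit 4865902658) (nat_lit 1292) (nat_lit 3156880294) (nat_lit 1368) (nat_lit 11424111251) (nat_lit 351) (nat_lit 5) (nat_lit 368) (nat_lit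 5) (nat_lit 369) (nat_lit 5) (nat_lit 321) (nat_lit 303) (nat_lit 156)) (XT.lf (nat_lit 0) (nat_lit 10544118770) (nat_lit 1368) (nat_lit 445443739) (nat_lit 76) (nat_lit 8777246290) (nat_lit 351) (nat_lit 5) (nat_lit 369) (nat_lit 5) (nat_lit 352) (nat_lit 5) (nat_lit 322) (nat_lit 303) (nat_lit 155)))) (XT.nd (nat_lit 78) (nat_lit 1672) (nat_lit 0) (XT.lf (nat_lit 0) (nat_lit 13251050958) (nat_lit 912) (nat_lit 5829982494) (nat_lit 76) (nat_lit 1013095997) (nat_lit 340) (nat_lit 5) (nat_lit 352) (nat_lit 5) (nat_lit 341) (nat_lit 5) (nat_lit 323) (nat_lit 303) (nat_lit 154)) (XT.nd (nat_lit 78) (nat_lit 836) (nat_lit 0) (XT.lf (nat_lit 0) (nat_lit 9025422877) (nat_lit 836) (nat_lit 7138674114) (nat_lit 912) (nat_lit 4264682124) (nat_lit 329) (nat_lit 5) (nat_lit 340) (nat_lit 5) (nat_lit 341) (nat_lit 5) (nat_lit 324) (nat_lit 303) (nat_lit 153)) (XT.lf (nat_lit 0) (nat_lit 3638143517) (nat_lit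 836) (nat_lit 15613313908) (nat_lit 912) (nat_lit 1520279684) (nat_lit 318) (nat_lit 5) (nat_lit 329) (nat_lit 5) (nat_lit 330) (nat_lit 5) (nat_lit 325) (nat_lit 303) (nat_lit 152))))) (XT.nd (nat_lit 234) (nat_lit 2280) (nat_lit 0) (XT.nd (nat_lit 78) (nat_lit 1596) (nat_lit 0) (XT.lf (nat_lit 0) (nat_lit 1405022939) (nat_lit 912) (nat_lit 1902586482) (nat_lit 76) (nat_lit 17814897671) (nat_lit 317) (nat_lit 5) (nat_lit 329) (nat_lit 5) (nat_lit 318) (nat_lit 5) (nat_lit 326) (nat_lit 303) (nat_lit 151)) (XT.nd (nat_lit 78) (nat_lit 760) (nat_lit 0) (XT.lf (nat_lit 0) (nat_lit 4540066858) (nat_lit 912) (nat_lit 7594463578) (nat_lit 76) (nat_lit 9346222761) (nat_lit 306) (nat_lit 5) (nat_lit 318) (nat_lit 5) (nat_lit 307) (nat_lit 5) (nat_lit 327) (nat_lit 303) (nat_lit 150)) (XT.lf (nat_lit 0) (nat_lit 7853113292) (nat_lit 836) (nat_lit 13447510810) (nat_lit 76) (nat_lit 547450108) (nat_lit 296)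 (nat_lit 5) (nat_lit 307) (nat_lit 5) (nat_lit 297) (nat_lit 5) (nat_lit 328) (nat_lit 303) (nat_lit 149)))) (XT.nd (nat_lit 156) (nat_lit 1520) (nat_lit 0) (XT.nd (nat_lit 78) (nat_lit 0) (nat_lit 0) (XT.lf (nat_lit 0) (nat_lit 2698706604) (nat_lit 760) (nat_lit 8708218150) (nat_lit 836) (nat_lit 10816668981) (nat_lit 286) (nat_lit 5) (nat_lit 296) (nat_lit 5) (nat_lit 297) (nat_lit 5) (nat_lit 329) (nat_lit 303) (nat_lit 148)) (XT.lf (nat_lit 0) (nat_lit 15177854838) (nat_lit 836) (nat_lit 3132690147) (nat_lit 76) (nat_lit 4297629948) (nat_lit 286) (nat_lit 5) (nat_lit 297) (nat_lit 5) (nat_lit 287) (nat_lit 5) (nat_lit 330) (nat_lit 303) (nat_lit 147))) (XT.nd (nat_lit 78) (nat_lit 836) (nat_lit 0) (XT.lf (nat_lit 0) (nat_lit 13865919176) (nat_lit 684) (nat_lit 5335619942) (nat_lit 760) (nat_lit 3799967914) (nat_lit 277) (nat_lit 5) (nat_lit 286) (nat_lit 5) (nat_lit 287) (nat_lit 5) (nat_lit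 331) (nat_lit 303) (nat_lit 146)) (XT.lf (nat_lit 0) (nat_lit 58215257) (nat_lit 836) (nat_lit 15349143784) (nat_lit 76) (nat_lit 7996931152) (nat_lit 266) (nat_lit 5) (nat_lit 277) (nat_lit 5) (nat_lit 267) (nat_lit 5) (nat_lit 332) (nat_lit 303) (nat_lit 145)))))) (XT.nd (nat_lit 546) (nat_lit 2812) (nat_lit 0) (XT.nd (nat_lit 234) (nat_lit 1900) (nat_lit 0) (XT.nd (nat_lit 78) (nat_lit 684) (nat_lit 0) (XT.lf (nat_lit 0) (nat_lit 2024816930) (nat_lit 684) (nat_lit 2058822125) (nat_lit 760) (nat_lit 19732958540) (nat_lit 257) (nat_lit 5) (nat_lit 266) (nat_lit 5) (nat_lit 267) (nat_lit 5) (nat_lit 333) (nat_lit 303) (nat_lit 144)) (XT.nd (nat_lit 78) (nat_lit 684) (nat_lit 0) (XT.lf (nat_lit 0) (nat_lit 8402289614) (nat_lit 760) (nat_lit 4194671745) (nat_lit 76) (nat_lit 11640868954) (nat_lit 257) (nat_lit 5) (nat_lit 267) (nat_lit 5) (nat_lit 258) (nat_lit 5) (nat_lit 334) (nat_lit 303) (nat_lit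 143)) (XT.lf (nat_lit 0) (nat_lit 12955301130) (nat_lit 760) (nat_lit 10584505291) (nat_lit 76) (nat_lit 1129802782) (nat_lit 248) (nat_lit 5) (nat_lit 258) (nat_lit 5) (nat_lit 249) (nat_lit 5) (nat_lit 335) (nat_lit 303) (nat_lit 142)))) (XT.nd (nat_lit 156) (nat_lit 684) (nat_lit 0) (XT.nd (nat_lit 78) (nat_lit 608) (nat_lit 0) (XT.lf (nat_lit 0) (nat_lit 7866926409) (nat_lit 608) (nat_lit 9934177977) (nat_lit 684) (nat_lit 7310118112) (nat_lit 240) (nat_lit 5) (nat_lit 248) (nat_lit 5) (nat_lit 249) (nat_lit 5) (nat_lit 336) (nat_lit 303) (nat_lit 141)) (XT.lf (nat_lit 0) (nat_lit 1435249795) (nat_lit 608) (nat_lit 21457469665) (nat_lit 684) (nat_lit 2671360897) (nat_lit 232) (nat_lit 5) (nat_lit 240) (nat_lit 5) (nat_lit 241) (nat_lit 5) (nat_lit 337) (nat_lit 303) (nat_lit 140))) (XT.nd (nat_lit 78) (nat_lit 608) (nat_lit 0) (XT.lf (nat_lit 0) (nat_lit 2255535442) (nat_lit 684) (nat_lit 5206554282)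 (nat_lit 76) (nat_lit 18564633280) (nat_lit 231) (nat_lit 5) (nat_lit 240) (nat_lit 5) (nat_lit 232) (nat_lit 5) (nat_lit 338) (nat_lit 303) (nat_lit 139)) (XT.lf (nat_lit 0) (nat_lit 7426585414) (nat_lit 684) (nat_lit 12100495618) (nat_lit 76) (nat_lit 6973162489) (nat_lit 223) (nat_lit 5) (nat_lit 232) (nat_lit 5) (nat_lit 224) (nat_lit 5) (nat_lit 339) (nat_lit 303) (nat_lit 138))))) (XT.nd (nat_lit 234) (nat_lit 1672) (nat_lit 0) (XT.nd (nat_lit 78) (nat_lit 532) (nat_lit 0) (XT.lf (nat_lit 0) (nat_lit 7720914373) (nat_lit 608) (nat_lit 5160308457) (nat_lit 684) (nat_lit 14104182119) (nat_lit 215) (nat_lit 5) (nat_lit 223) (nat_lit 5) (nat_lit 224) (nat_lit 5) (nat_lit 340) (nat_lit 303) (nat_lit 137)) (XT.nd (nat_lit 78) (nat_lit 0) (nat_lit 0) (XT.lf (nat_lit 0) (nat_lit 757486537) (nat_lit 532) (nat_lit 17885096579) (nat_lit 608) (nat_lit 8839680713) (nat_lit 208) (nat_lit 5) (nat_lit 215)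 (nat_lit 5) (nat_lit 216) (nat_lit 5) (nat_lit 341) (nat_lit 303) (nat_lit 136)) (XT.lf (nat_lit 0) (nat_lit 21600536529) (nat_lit 532) (nat_lit 3134273557) (nat_lit 608) (nat_lit 3256062032) (nat_lit 208) (nat_lit 5) (nat_lit 215) (nat_lit 5) (nat_lit 216) (nat_lit 5) (nat_lit 342) (nat_lit 303) (nat_lit 135)))) (XT.nd (nat_lit 156) (nat_lit 532) (nat_lit 0) (XT.nd (nat_lit 78) (nat_lit 532) (nat_lit 0) (XT.lf (nat_lit 0) (nat_lit 2630310295) (nat_lit 608) (nat_lit 13868797067) (nat_lit 76) (nat_lit 12011951896) (nat_lit 200) (nat_lit 5) (nat_lit 208) (nat_lit 5) (nat_lit 201) (nat_lit 5) (nat_lit 343) (nat_lit 303) (nat_lit 134)) (XT.lf (nat_lit 0) (nat_lit 7393108309) (nat_lit 532) (nat_lit 1362214756) (nat_lit 608) (nat_lit 20288976611) (nat_lit 193) (nat_lit 5) (nat_lit 200) (nat_lit 5) (nat_lit 201) (nat_lit 5) (nat_lit 344) (nat_lit 303) (nat_lit 133))) (XT.nd (nat_lit 78) (nat_lit 532)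 (nat_lit 0) (XT.lf (nat_lit 0) (nat_lit 15244680973) (nat_lit 608) (nat_lit 210097728) (nat_lit 76) (nat_lit 14135150443) (nat_lit 193) (nat_lit 5) (nat_lit 201) (nat_lit 5) (nat_lit 194) (nat_lit 5) (nat_lit 345) (nat_lit 303) (nat_lit 132)) (XT.lf (nat_lit 0) (nat_lit 22075892384) (nat_lit 608) (nat_lit 8001783222) (nat_lit 76) (nat_lit 71312060) (nat_lit 186) (nat_lit 5) (nat_lit 194) (nat_lit 5) (nat_lit 187) (nat_lit 5) (nat_lit 346) (nat_lit 303) (nat_lit 131))))))) (XT.nd (nat_lit 37830) (nat_lit 0) (nat_lit 14212) (XT.nd (nat_lit 37284) (nat_lit 0) (nat_lit 17252) (XT.nd (nat_lit 234) (nat_lit 1444) (nat_lit 0) (XT.nd (nat_lit 78) (nat_lit 608) (nat_lit 0) (XT.lf (nat_lit 0) (nat_lit 14532655591) (nat_lit 456) (nat_lit 14772441794) (nat_lit 532) (nat_lit 1415862930) (nat_lit 180) (nat_lit 5) (nat_lit 186) (nat_lit 5) (nat_lit 187) (nat_lit 5) (nat_lit 347) (nat_lit 303) (nat_lit 130)) (XT.nd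 (nat_lit 78) (nat_lit 0) (nat_lit 0) (XT.lf (nat_lit 0) (nat_lit 5468377728) (nat_lit 608) (nat_lit 24728370169) (nat_lit 76) (nat_lit 1110668011) (nat_lit 172) (nat_lit 5) (nat_lit 180) (nat_lit 5) (nat_lit 173) (nat_lit 5) (nat_lit 348) (nat_lit 303) (nat_lit 129)) (XT.lf (nat_lit 0) (nat_lit 12743344821) (nat_lit 608) (nat_lit 1775080280) (nat_lit 76) (nat_lit 17388787436) (nat_lit 172) (nat_lit 5) (nat_lit 180) (nat_lit 5) (nat_lit 173) (nat_lit 5) (nat_lit 349) (nat_lit 303) (nat_lit 128)))) (XT.nd (nat_lit 78) (nat_lit 988) (nat_lit 0) (XT.lf (nat_lit 0) (nat_lit 20386179979) (nat_lit 532) (nat_lit 10384064444) (nat_lit 76) (nat_lit 1751769418) (nat_lit 166) (nat_lit 5) (nat_lit 173) (nat_lit 5) (nat_lit 167) (nat_lit 5) (nat_lit 350) (nat_lit 303) (nat_lit 127)) (XT.nd (nat_lit 78) (nat_lit 532) (nat_lit 0) (XT.lf (nat_lit 0) (nat_lit 13712742727) (nat_lit 456) (nat_lit 14738178415) (nat_lit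 532) (nat_lit 4700488688) (nat_lit 160) (nat_lit 5) (nat_lit 166) (nat_lit 5) (nat_lit 167) (nat_lit 5) (nat_lit 351) (nat_lit 303) (nat_lit 126)) (XT.lf (nat_lit 0) (nat_lit 3028640100) (nat_lit 532) (nat_lit 28896130805) (nat_lit 76) (nat_lit 1872345277) (nat_lit 153) (nat_lit 5) (nat_lit 160) (nat_lit 5) (nat_lit 154) (nat_lit 5) (nat_lit 352) (nat_lit 303) (nat_lit 125))))) (XT.nd (nat_lit 234) (nat_lit 0) (nat_lit 152) (XT.nd (nat_lit 78) (nat_lit 0) (nat_lit 76) (XT.lf (nat_lit 0) (nat_lit 1048328474) (nat_lit 1748) (nat_lit 3277602512) (nat_lit 1748) (nat_lit 3277602512) (nat_lit 380) (nat_lit 3) (nat_lit 403) (nat_lit 3) (nat_lit 403) (nat_lit 5) (nat_lit 304) (nat_lit 304) (nat_lit 172)) (XT.nd (nat_lit 78) (nat_lit 0) (nat_lit 0) (XT.lf (nat_lit 0) (nat_lit 2574787069) (nat_lit 1672) (nat_lit 11569846762) (nat_lit 1748) (nat_lit 1281280894) (nat_lit 381) (nat_lit 5) (nat_lit 403) (nat_lit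 5) (nat_lit 404) (nat_lit 5) (nat_lit 305) (nat_lit 304) (nat_lit 171)) (XT.lf (nat_lit 0) (nat_lit 3153706562) (nat_lit 1672) (nat_lit 1047910974) (nat_lit 1748) (nat_lit 11447994110) (nat_lit 381) (nat_lit 5) (nat_lit 403) (nat_lit 5) (nat_lit 404) (nat_lit 5) (nat_lit 306) (nat_lit 304) (nat_lit 170)))) (XT.nd (nat_lit 156) (nat_lit 0) (nat_lit 76) (XT.nd (nat_lit 78) (nat_lit 0) (nat_lit 76) (XT.lf (nat_lit 0) (nat_lit 3838372255) (nat_lit 1672) (nat_lit 6007546531) (nat_lit 1748) (nat_lit 6032345419) (nat_lit 382) (nat_lit 5) (nat_lit 404) (nat_lit 5) (nat_lit 405) (nat_lit 5) (nat_lit 307) (nat_lit 304) (nat_lit 169)) (XT.lf (nat_lit 0) (nat_lit 4599306670) (nat_lit 1672) (nat_lit 11068692822) (nat_lit 1748) (nat_lit 444674216) (nat_lit 383) (nat_lit 5) (nat_lit 405) (nat_lit 5) (nat_lit 406) (nat_lit 5) (nat_lit 308) (nat_lit 304) (nat_lit 168))) (XT.nd (nat_lit 78) (nat_lit 0) (nat_lit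 76) (XT.lf (nat_lit 76) (nat_lit 82043084) (nat_lit 0) (nat_lit 5393598491) (nat_lit 1748) (nat_lit 10876634068) (nat_lit 384) (nat_lit 5) (nat_lit 383) (nat_lit 5) (nat_lit 406) (nat_lit 5) (nat_lit 309) (nat_lit 304) (nat_lit 167)) (XT.lf (nat_lit 0) (nat_lit 6473086363) (nat_lit 1672) (nat_lit 4922037852) (nat_lit 1748) (nat_lit 5202056283) (nat_lit 384) (nat_lit 5) (nat_lit 406) (nat_lit 5) (nat_lit 407) (nat_lit 5) (nat_lit 310) (nat_lit 304) (nat_lit 166)))))) (XT.nd (nat_lit 546) (nat_lit 3344) (nat_lit 0) (XT.nd (nat_lit 234) (nat_lit 0) (nat_lit 152) (XT.nd (nat_lit 78) (nat_lit 0) (nat_lit 76) (XT.lf (nat_lit 76) (nat_lit 6811030109) (nat_lit 0) (nat_lit 755761610) (nat_lit 1748) (nat_lit 9281324965) (nat_lit 385) (nat_lit 5) (nat_lit 384) (nat_lit 5) (nat_lit 407) (nat_lit 5) (nat_lit 311) (nat_lit 304) (nat_lit 165)) (XT.nd (nat_lit 78) (nat_lit 0) (nat_lit 76) (XT.lf (nat_lit 76) (nat_lit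 1805766267) (nat_lit 0) (nat_lit 6985511647) (nat_lit 1748) (nat_lit 8313354260) (nat_lit 386) (nat_lit 5) (nat_lit 385) (nat_lit 5) (nat_lit 408) (nat_lit 5) (nat_lit 312) (nat_lit 304) (nat_lit 164)) (XT.lf (nat_lit 0) (nat_lit 10138368026) (nat_lit 1672) (nat_lit 3266409284) (nat_lit 1748) (nat_lit 3962358736) (nat_lit 386) (nat_lit 5) (nat_lit 408) (nat_lit 5) (nat_lit 409) (nat_lit 5) (nat_lit 313) (nat_lit 304) (nat_lit 163)))) (XT.nd (nat_lit 156) (nat_lit 0) (nat_lit 152) (XT.nd (nat_lit 78) (nat_lit 0) (nat_lit 76) (XT.lf (nat_lit 76) (nat_lit 9191967140) (nat_lit 0) (nat_lit 2427478166) (nat_lit 1748) (nat_lit 6016208239) (nat_lit 387) (nat_lit 5) (nat_lit 386) (nat_lit 5) (nat_lit 409) (nat_lit 5) (nat_lit 314) (nat_lit 304) (nat_lit 162)) (XT.lf (nat_lit 76) (nat_lit 4144549868) (nat_lit 0) (nat_lit 9094764194) (nat_lit 1748) (nat_lit 4671035037) (nat_lit 388) (nat_lit 5) (nat_lit 387)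 (nat_lit 5) (nat_lit 410) (nat_lit 5) (nat_lit 315) (nat_lit 304) (nat_lit 161))) (XT.nd (nat_lit 78) (nat_lit 0) (nat_lit 0) (XT.lf (nat_lit 0) (nat_lit 14983438364) (nat_lit 1672) (nat_lit 1005885373) (nat_lit 1748) (nat_lit 2202458020) (nat_lit 388) (nat_lit 5) (nat_lit 410) (nat_lit 5) (nat_lit 411) (nat_lit 5) (nat_lit 316) (nat_lit 304) (nat_lit 160)) (XT.lf (nat_lit 76) (nat_lit 12227476945) (nat_lit 0) (nat_lit 4680820096) (nat_lit 1748) (nat_lit 1570801295) (nat_lit 389) (nat_lit 5) (nat_lit 388) (nat_lit 5) (nat_lit 411) (nat_lit 5) (nat_lit 317) (nat_lit 304) (nat_lit 159))))) (XT.nd (nat_lit 234) (nat_lit 1976) (nat_lit 0) (XT.nd (nat_lit 78) (nat_lit 0) (nat_lit 0) (XT.lf (nat_lit 0) (nat_lit 201847284) (nat_lit 1748) (nat_lit 11638617399) (nat_lit 1824) (nat_lit 6932813401) (nat_lit 366) (nat_lit 5) (nat_lit 389) (nat_lit 5) (nat_lit 390) (nat_lit 5) (nat_lit 318) (nat_lit 304) (nat_lit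 158)) (XT.nd (nat_lit 78) (nat_lit 0) (nat_lit 76) (XT.lf (nat_lit 76) (nat_lit 1906566414) (nat_lit 0) (nat_lit 174914727) (nat_lit 1824) (nat_lit 16993099945) (nat_lit 367) (nat_lit 5) (nat_lit 366) (nat_lit 5) (nat_lit 390) (nat_lit 5) (nat_lit 319) (nat_lit 304) (nat_lit 157)) (XT.lf (nat_lit 0) (nat_lit 4162756085) (nat_lit 1748) (nat_lit 3452443725) (nat_lit 1824) (nat_lit 11766826540) (nat_lit 367) (nat_lit 5) (nat_lit 390) (nat_lit 5) (nat_lit 391) (nat_lit 5) (nat_lit 320) (nat_lit 304) (nat_lit 156)))) (XT.nd (nat_lit 156) (nat_lit 836) (nat_lit 0) (XT.nd (nat_lit 78) (nat_lit 1292) (nat_lit 0) (XT.lf (nat_lit 0) (nat_lit 6395929461) (nat_lit 1748) (nat_lit 8920011198) (nat_lit 76) (nat_lit 4380973082) (nat_lit 368) (nat_lit 5) (nat_lit 391) (nat_lit 5) (nat_lit 369) (nat_lit 5) (nat_lit 321) (nat_lit 304) (nat_lit 155)) (XT.lf (nat_lit 0) (nat_lit 5471349321) (nat_lit 1292) (nat_lit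 3324321107) (nat_lit 1368) (nat_lit 11223593620) (nat_lit 351) (nat_lit 5) (nat_lit 368) (nat_lit 5) (nat_lit 369) (nat_lit 5) (nat_lit 322) (nat_lit 304) (nat_lit 154))) (XT.nd (nat_lit 78) (nat_lit 836) (nat_lit 0) (XT.lf (nat_lit 0) (nat_lit 11376686747) (nat_lit 1368) (nat_lit 1546076) (nat_lit 76) (nat_lit 8970873893) (nat_lit 351) (nat_lit 5) (nat_lit 369) (nat_lit 5) (nat_lit 352) (nat_lit 5) (nat_lit 323) (nat_lit 304) (nat_lit 153)) (XT.lf (nat_lit 0) (nat_lit 14152358868) (nat_lit 912) (nat_lit 5544234121) (nat_lit 76) (nat_lit 989914468) (nat_lit 340) (nat_lit 5) (nat_lit 352) (nat_lit 5) (nat_lit 341) (nat_lit 5) (nat_lit 324) (nat_lit 304) (nat_lit 152))))))))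
noncomputable def xc114 : XT := (XT.nd (nat_lit 39078) (nat_lit 0) (nat_lit 9120) (XT.nd (nat_lit 1014) (nat_lit 5624) (nat_lit 0) (XT.nd (nat_lit 468) (nat_lit 3496) (nat_lit 0) (XT.nd (nat_lit 234) (nat_lit 2356) (nat_lit 0) (XT.nd (nat_lit 78) (nat_lit 912) (nat_lit 0) (XT.lf (nat_lit 0) (nat_lit 9749359947) (nat_lit 836) (nat_lit 7391705546) (nat_lit 912) (nat_lit 3890376523) (nat_lit 329) (nat_lit 5) (nat_lit 340) (nat_lit 5) (nat_lit 341) (nat_lit 5) (nat_lit 325) (nat_lit 304) (nat_lit 151)) (XT.nd (nat_lit 78) (nat_lit 76) (nat_lit 0) (XT.lf (nat_lit 0) (nat_lit 4203393256) (nat_lit 836) (nat_lit 16106038371) (nat_lit 912) (nat_lit 1075499898) (nat_lit 318) (nat_lit 5) (nat_lit 329) (nat_lit 5) (nat_lit 330) (nat_lit 5) (nat_lit 326) (nat_lit 304) (nat_lit 150)) (XT.lf (nat_lit 0) (nat_lit 1917034450) (nat_lit 912) (nat_lit 1510266789) (nat_lit 76) (nat_lit 18319151573) (nat_lit 317) (nat_lit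 5) (nat_lit 329) (nat_lit 5) (nat_lit 318) (nat_lit 5) (nat_lit 327) (nat_lit 304) (nat_lit 149)))) (XT.nd (nat_lit 78) (nat_lit 1520) (nat_lit 0) (XT.lf (nat_lit 0) (nat_lit 5135204885) (nat_lit 912) (nat_lit 7370577634) (nat_lit 76) (nat_lit 9609891957) (nat_lit 306) (nat_lit 5) (nat_lit 318) (nat_lit 5) (nat_lit 307) (nat_lit 5) (nat_lit 328) (nat_lit 304) (nat_lit 148)) (XT.nd (nat_lit 78) (nat_lit 760) (nat_lit 0) (XT.lf (nat_lit 0) (nat_lit 8537134546) (nat_lit 836) (nat_lit 13397236235) (nat_lit 76) (nat_lit 559863897) (nat_lit 296) (nat_lit 5) (nat_lit 307) (nat_lit 5) (nat_lit 297) (nat_lit 5) (nat_lit 329) (nat_lit 304) (nat_lit 147)) (XT.lf (nat_lit 0) (nat_lit 3226006960) (nat_lit 760) (nat_lit 8961390317) (nat_lit 836) (nat_lit 10693834897) (nat_lit 286) (nat_lit 5) (nat_lit 296) (nat_lit 5) (nat_lit 297) (nat_lit 5) (nat_lit 330) (nat_lit 304) (nat_lit 146))))) (XT.nd (nat_lit 234)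 (nat_lit 1976) (nat_lit 0) (XT.nd (nat_lit 78) (nat_lit 1520) (nat_lit 0) (XT.lf (nat_lit 0) (nat_lit 16058741166) (nat_lit 836) (nat_lit 2784577542) (nat_lit 76) (nat_lit 4434295236) (nat_lit 286) (nat_lit 5) (nat_lit 297) (nat_lit 5) (nat_lit 287) (nat_lit 5) (nat_lit 331) (nat_lit 304) (nat_lit 145)) (XT.nd (nat_lit 78) (nat_lit 836) (nat_lit 0) (XT.lf (nat_lit 0) (nat_lit 14716817621) (nat_lit 684) (nat_lit 5476747468) (nat_lit 760) (nat_lit 3489380934) (nat_lit 277) (nat_lit 5) (nat_lit 286) (nat_lit 5) (nat_lit 287) (nat_lit 5) (nat_lit 332) (nat_lit 304) (nat_lit 144)) (XT.lf (nat_lit 0) (nat_lit 469745928) (nat_lit 836) (nat_lit 15367689056) (nat_lit 76) (nat_lit 8260515413) (nat_lit 266) (nat_lit 5) (nat_lit 277) (nat_lit 5) (nat_lit 267) (nat_lit 5) (nat_lit 333) (nat_lit 304) (nat_lit 143)))) (XT.nd (nat_lit 156) (nat_lit 1292) (nat_lit 0) (XT.nd (nat_lit 78) (nat_lit 0) (nat_lit 0)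 (XT.lf (nat_lit 0) (nat_lit 2520320706) (nat_lit 684) (nat_lit 2086499016) (nat_lit 760) (nat_lit 19915997498) (nat_lit 257) (nat_lit 5) (nat_lit 266) (nat_lit 5) (nat_lit 267) (nat_lit 5) (nat_lit 334) (nat_lit 304) (nat_lit 142)) (XT.lf (nat_lit 0) (nat_lit 9043574629) (nat_lit 760) (nat_lit 3890593207) (nat_lit 76) (nat_lit 12022755903) (nat_lit 257) (nat_lit 5) (nat_lit 267) (nat_lit 5) (nat_lit 258) (nat_lit 5) (nat_lit 335) (nat_lit 304) (nat_lit 141))) (XT.nd (nat_lit 78) (nat_lit 608) (nat_lit 0) (XT.lf (nat_lit 0) (nat_lit 13724860879) (nat_lit 760) (nat_lit 10471509247) (nat_lit 76) (nat_lit 1205459671) (nat_lit 248) (nat_lit 5) (nat_lit 258) (nat_lit 5) (nat_lit 249) (nat_lit 5) (nat_lit 336) (nat_lit 304) (nat_lit 140)) (XT.lf (nat_lit 0) (nat_lit 8526480546) (nat_lit 608) (nat_lit 10181213435) (nat_lit 684) (nat_lit 7149171666) (nat_lit 240) (nat_lit 5) (nat_lit 248) (nat_lit 5) (nat_lit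 249) (nat_lit 5) (nat_lit 337) (nat_lit 304) (nat_lit 139)))))) (XT.nd (nat_lit 546) (nat_lit 2584) (nat_lit 0) (XT.nd (nat_lit 234) (nat_lit 1748) (nat_lit 0) (XT.nd (nat_lit 78) (nat_lit 684) (nat_lit 0) (XT.lf (nat_lit 0) (nat_lit 1902225116) (nat_lit 608) (nat_lit 22042055006) (nat_lit 684) (nat_lit 2379191728) (nat_lit 232) (nat_lit 5) (nat_lit 240) (nat_lit 5) (nat_lit 241) (nat_lit 5) (nat_lit 338) (nat_lit 304) (nat_lit 138)) (XT.nd (nat_lit 78) (nat_lit 608) (nat_lit 0) (XT.lf (nat_lit 0) (nat_lit 2679926828) (nat_lit 684) (nat_lit 4946215511) (nat_lit 76) (nat_lit 19174023847) (nat_lit 231) (nat_lit 5) (nat_lit 240) (nat_lit 5) (nat_lit 232) (nat_lit 5) (nat_lit 339) (nat_lit 304) (nat_lit 137)) (XT.lf (nat_lit 0) (nat_lit 7998773426) (nat_lit 684) (nat_lit 12046930121) (nat_lit 76) (nat_lit 7242341994) (nat_lit 223) (nat_lit 5) (nat_lit 232) (nat_lit 5) (nat_lit 224) (nat_lit 5) (nat_lit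 340) (nat_lit 304) (nat_lit 136)))) (XT.nd (nat_lit 156) (nat_lit 608) (nat_lit 0) (XT.nd (nat_lit 78) (nat_lit 532) (nat_lit 0) (XT.lf (nat_lit 0) (nat_lit 8362363648) (nat_lit 608) (nat_lit 5247170730) (nat_lit 684) (nat_lit 14178384079) (nat_lit 215) (nat_lit 5) (nat_lit 223) (nat_lit 5) (nat_lit 224) (nat_lit 5) (nat_lit 341) (nat_lit 304) (nat_lit 135)) (XT.lf (nat_lit 0) (nat_lit 1189884389) (nat_lit 532) (nat_lit 18346981742) (nat_lit 608) (nat_lit 8762960509) (nat_lit 208) (nat_lit 5) (nat_lit 215) (nat_lit 5) (nat_lit 216) (nat_lit 5) (nat_lit 342) (nat_lit 304) (nat_lit 134))) (XT.nd (nat_lit 78) (nat_lit 608) (nat_lit 0) (XT.lf (nat_lit 0) (nat_lit 22646293650) (nat_lit 532) (nat_lit 3155808818) (nat_lit 608) (nat_lit 3021791830) (nat_lit 208) (nat_lit 5) (nat_lit 215) (nat_lit 5) (nat_lit 216) (nat_lit 5) (nat_lit 343) (nat_lit 304) (nat_lit 133)) (XT.lf (nat_lit 0) (nat_lit 3030333747)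 (nat_lit 608) (nat_lit 13882983770) (nat_lit 76) (nat_lit 12446461798) (nat_lit 200) (nat_lit 5) (nat_lit 208) (nat_lit 5) (nat_lit 201) (nat_lit 5) (nat_lit 344) (nat_lit 304) (nat_lit 132))))) (XT.nd (nat_lit 234) (nat_lit 1520) (nat_lit 0) (XT.nd (nat_lit 78) (nat_lit 532) (nat_lit 0) (XT.lf (nat_lit 0) (nat_lit 8010258786) (nat_lit 532) (nat_lit 1322052196) (nat_lit 608) (nat_lit 20576847200) (nat_lit 193) (nat_lit 5) (nat_lit 200) (nat_lit 5) (nat_lit 201) (nat_lit 5) (nat_lit 345) (nat_lit 304) (nat_lit 131)) (XT.nd (nat_lit 78) (nat_lit 0) (nat_lit 0) (XT.lf (nat_lit 0) (nat_lit 175514464) (nat_lit 532) (nat_lit 15833330300) (nat_lit 608) (nat_lit 14462467226) (nat_lit 186) (nat_lit 5) (nat_lit 193) (nat_lit 5) (nat_lit 194) (nat_lit 5) (nat_lit 346) (nat_lit 304) (nat_lit 130)) (XT.lf (nat_lit 0) (nat_lit 23037983671) (nat_lit 608) (nat_lit 7852931302) (nat_lit 76) (nat_lit 156372670) (nat_lit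 186) (nat_lit 5) (nat_lit 194) (nat_lit 5) (nat_lit 187) (nat_lit 5) (nat_lit 347) (nat_lit 304) (nat_lit 129)))) (XT.nd (nat_lit 156) (nat_lit 456) (nat_lit 0) (XT.nd (nat_lit 78) (nat_lit 608) (nat_lit 0) (XT.lf (nat_lit 0) (nat_lit 15351231147) (nat_lit 456) (nat_lit 15126585280) (nat_lit 532) (nat_lit 1158733063) (nat_lit 180) (nat_lit 5) (nat_lit 186) (nat_lit 5) (nat_lit 187) (nat_lit 5) (nat_lit 348) (nat_lit 304) (nat_lit 128)) (XT.lf (nat_lit 0) (nat_lit 5922553484) (nat_lit 608) (nat_lit 25084443757) (nat_lit 76) (nat_lit 1233678450) (nat_lit 172) (nat_lit 5) (nat_lit 180) (nat_lit 5) (nat_lit 173) (nat_lit 5) (nat_lit 349) (nat_lit 304) (nat_lit 127))) (XT.nd (nat_lit 78) (nat_lit 456) (nat_lit 0) (XT.lf (nat_lit 0) (nat_lit 13407319364) (nat_lit 608) (nat_lit 1453791409) (nat_lit 76) (nat_lit 17997529117) (nat_lit 172) (nat_lit 5) (nat_lit 180) (nat_lit 5) (nat_lit 173) (nat_lit 5)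 (nat_lit 350) (nat_lit 304) (nat_lit 126)) (XT.lf (nat_lit 0) (nat_lit 21274229028) (nat_lit 532) (nat_lit 10322054564) (nat_lit 76) (nat_lit 1895710382) (nat_lit 166) (nat_lit 5) (nat_lit 173) (nat_lit 5) (nat_lit 167) (nat_lit 5) (nat_lit 351) (nat_lit 304) (nat_lit 125))))))) (XT.nd (nat_lit 1014) (nat_lit 7144) (nat_lit 0) (XT.nd (nat_lit 468) (nat_lit 0) (nat_lit 304) (XT.nd (nat_lit 234) (nat_lit 0) (nat_lit 152) (XT.nd (nat_lit 78) (nat_lit 0) (nat_lit 76) (XT.lf (nat_lit 0) (nat_lit 1488965604) (nat_lit 1748) (nat_lit 3167084301) (nat_lit 1748) (nat_lit 3167084301) (nat_lit 380) (nat_lit 3) (nat_lit 403) (nat_lit 3) (nat_lit 403) (nat_lit 5) (nat_lit 305) (nat_lit 305) (nat_lit 170)) (XT.nd (nat_lit 78) (nat_lit 0) (nat_lit 0) (XT.lf (nat_lit 0) (nat_lit 3446728966) (nat_lit 1672) (nat_lit 11486949607) (nat_lit 1748) (nat_lit 938495257) (nat_lit 381) (nat_lit 5) (nat_lit 403) (nat_lit 5)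 (nat_lit 404) (nat_lit 5) (nat_lit 306) (nat_lit 305) (nat_lit 169)) (XT.lf (nat_lit 0) (nat_lit 4019869492) (nat_lit 1672) (nat_lit 661879801) (nat_lit 1748) (nat_lit 11421313482) (nat_lit 381) (nat_lit 5) (nat_lit 403) (nat_lit 5) (nat_lit 404) (nat_lit 5) (nat_lit 307) (nat_lit 305) (nat_lit 168)))) (XT.nd (nat_lit 78) (nat_lit 0) (nat_lit 76) (XT.lf (nat_lit 0) (nat_lit 4703054958) (nat_lit 1672) (nat_lit 5759239583) (nat_lit 1748) (nat_lit 5876738429) (nat_lit 382) (nat_lit 5) (nat_lit 404) (nat_lit 5) (nat_lit 405) (nat_lit 5) (nat_lit 308) (nat_lit 305) (nat_lit 167)) (XT.nd (nat_lit 78) (nat_lit 0) (nat_lit 0) (XT.lf (nat_lit 0) (nat_lit 5465718270) (nat_lit 1672) (nat_lit 10961987261) (nat_lit 1748) (nat_lit 153208352) (nat_lit 383) (nat_lit 5) (nat_lit 405) (nat_lit 5) (nat_lit 406) (nat_lit 5) (nat_lit 309) (nat_lit 305) (nat_lit 166)) (XT.lf (nat_lit 76) (nat_lit 516152259) (nat_lit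 0) (nat_lit 5833777030) (nat_lit 1748) (nat_lit 10478159508) (nat_lit 384) (nat_lit 5) (nat_lit 383) (nat_lit 5) (nat_lit 406) (nat_lit 5) (nat_lit 310) (nat_lit 305) (nat_lit 165))))) (XT.nd (nat_lit 234) (nat_lit 0) (nat_lit 152) (XT.nd (nat_lit 78) (nat_lit 0) (nat_lit 0) (XT.lf (nat_lit 0) (nat_lit 7354862546) (nat_lit 1672) (nat_lit 4634543294) (nat_lit 1748) (nat_lit 5091399813) (nat_lit 384) (nat_lit 5) (nat_lit 406) (nat_lit 5) (nat_lit 407) (nat_lit 5) (nat_lit 311) (nat_lit 305) (nat_lit 164)) (XT.nd (nat_lit 78) (nat_lit 0) (nat_lit 76) (XT.lf (nat_lit 76) (nat_lit 7443456822) (nat_lit 0) (nat_lit 1020675016) (nat_lit 1748) (nat_lit 8875498718) (nat_lit 385) (nat_lit 5) (nat_lit 384) (nat_lit 5) (nat_lit 407) (nat_lit 5) (nat_lit 312) (nat_lit 305) (nat_lit 163)) (XT.lf (nat_lit 76) (nat_lit 2296340625) (nat_lit 0) (nat_lit 7410794064) (nat_lit 1748) (nat_lit 7897086411) (nat_lit 386)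 (nat_lit 5) (nat_lit 385) (nat_lit 5) (nat_lit 408) (nat_lit 5) (nat_lit 313) (nat_lit 305) (nat_lit 162)))) (XT.nd (nat_lit 156) (nat_lit 0) (nat_lit 76) (XT.nd (nat_lit 78) (nat_lit 0) (nat_lit 0) (XT.lf (nat_lit 0) (nat_lit 11074283978) (nat_lit 1672) (nat_lit 2926195748) (nat_lit 1748) (nat_lit 3874542217) (nat_lit 386) (nat_lit 5) (nat_lit 408) (nat_lit 5) (nat_lit 409) (nat_lit 5) (nat_lit 314) (nat_lit 305) (nat_lit 161)) (XT.lf (nat_lit 76) (nat_lit 9898822600) (nat_lit 0) (nat_lit 2685369022) (nat_lit 1748) (nat_lit 5567729743) (nat_lit 387) (nat_lit 5) (nat_lit 386) (nat_lit 5) (nat_lit 409) (nat_lit 5) (nat_lit 315) (nat_lit 305) (nat_lit 160))) (XT.nd (nat_lit 78) (nat_lit 0) (nat_lit 76) (XT.lf (nat_lit 76) (nat_lit 4706764956) (nat_lit 0) (nat_lit 9529621411) (nat_lit 1748) (nat_lit 4198810756) (nat_lit 388) (nat_lit 5) (nat_lit 387) (nat_lit 5) (nat_lit 410) (nat_lit 5) (nat_lit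 316) (nat_lit 305) (nat_lit 159)) (XT.lf (nat_lit 0) (nat_lit 16014340524) (nat_lit 1672) (nat_lit 597816357) (nat_lit 1748) (nat_lit 2113299290) (nat_lit 388) (nat_lit 5) (nat_lit 410) (nat_lit 5) (nat_lit 411) (nat_lit 5) (nat_lit 317) (nat_lit 305) (nat_lit 158)))))) (XT.nd (nat_lit 546) (nat_lit 4104) (nat_lit 0) (XT.nd (nat_lit 234) (nat_lit 1976) (nat_lit 0) (XT.nd (nat_lit 78) (nat_lit 1672) (nat_lit 0) (XT.lf (nat_lit 76) (nat_lit 13025436818) (nat_lit 0) (nat_lit 4957373410) (nat_lit 1748) (nat_lit 1038877852) (nat_lit 389) (nat_lit 5) (nat_lit 388) (nat_lit 5) (nat_lit 411) (nat_lit 5) (nat_lit 318) (nat_lit 305) (nat_lit 157)) (XT.nd (nat_lit 78) (nat_lit 0) (nat_lit 0) (XT.lf (nat_lit 0) (nat_lit 764701314) (nat_lit 1748) (nat_lit 11543357092) (nat_lit 1824) (nat_lit 7016865219) (nat_lit 366) (nat_lit 5) (nat_lit 389) (nat_lit 5) (nat_lit 390) (nat_lit 5) (nat_lit 319) (nat_lit 305)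 (nat_lit 156)) (XT.lf (nat_lit 76) (nat_lit 2400972068) (nat_lit 0) (nat_lit 286373332) (nat_lit 1824) (nat_lit 16948200033) (nat_lit 367) (nat_lit 5) (nat_lit 366) (nat_lit 5) (nat_lit 390) (nat_lit 5) (nat_lit 320) (nat_lit 305) (nat_lit 155)))) (XT.nd (nat_lit 156) (nat_lit 2052) (nat_lit 0) (XT.nd (nat_lit 78) (nat_lit 0) (nat_lit 76) (XT.lf (nat_lit 0) (nat_lit 4814561322) (nat_lit 1748) (nat_lit 3119928356) (nat_lit 1824) (nat_lit 12018066109) (nat_lit 367) (nat_lit 5) (nat_lit 390) (nat_lit 5) (nat_lit 391) (nat_lit 5) (nat_lit 321) (nat_lit 305) (nat_lit 154)) (XT.lf (nat_lit 0) (nat_lit 7101613952) (nat_lit 1748) (nat_lit 8747375071) (nat_lit 76) (nat_lit 4428174540) (nat_lit 368) (nat_lit 5) (nat_lit 391) (nat_lit 5) (nat_lit 369) (nat_lit 5) (nat_lit 322) (nat_lit 305) (nat_lit 153))) (XT.nd (nat_lit 78) (nat_lit 836) (nat_lit 0) (XT.lf (nat_lit 0) (nat_lit 6068583950) (nat_lit 1292)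 (nat_lit 3492609891) (nat_lit 1368) (nat_lit 11048244714) (nat_lit 351) (nat_lit 5) (nat_lit 368) (nat_lit 5) (nat_lit 369) (nat_lit 5) (nat_lit 323) (nat_lit 305) (nat_lit 152)) (XT.lf (nat_lit 0) (nat_lit 435126630) (nat_lit 836) (nat_lit 11772295723) (nat_lit 912) (nat_lit 8742009304) (nat_lit 340) (nat_lit 5) (nat_lit 351) (nat_lit 5) (nat_lit 352) (nat_lit 5) (nat_lit 324) (nat_lit 305) (nat_lit 151))))) (XT.nd (nat_lit 234) (nat_lit 2432) (nat_lit 0) (XT.nd (nat_lit 78) (nat_lit 1672) (nat_lit 0) (XT.lf (nat_lit 0) (nat_lit 15051787190) (nat_lit 912) (nat_lit 5276356368) (nat_lit 76) (nat_lit 969112883) (nat_lit 340) (nat_lit 5) (nat_lit 352) (nat_lit 5) (nat_lit 341) (nat_lit 5) (nat_lit 325) (nat_lit 305) (nat_lit 150)) (XT.nd (nat_lit 78) (nat_lit 836) (nat_lit 0) (XT.lf (nat_lit 0) (nat_lit 10469001066) (nat_lit 836) (nat_lit 7650096554) (nat_lit 912) (nat_lit 3533672733) (nat_lit 329)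 (nat_lit 5) (nat_lit 340) (nat_lit 5) (nat_lit 341) (nat_lit 5) (nat_lit 326) (nat_lit 305) (nat_lit 149)) (XT.lf (nat_lit 0) (nat_lit 4759418169) (nat_lit 836) (nat_lit 16612148210) (nat_lit 912) (nat_lit 645527005) (nat_lit 318) (nat_lit 5) (nat_lit 329) (nat_lit 5) (nat_lit 330) (nat_lit 5) (nat_lit 327) (nat_lit 305) (nat_lit 148)))) (XT.nd (nat_lit 156) (nat_lit 1520) (nat_lit 0) (XT.nd (nat_lit 78) (nat_lit 836) (nat_lit 0) (XT.lf (nat_lit 0) (nat_lit 2417434373) (nat_lit 912) (nat_lit 1131974748) (nat_lit 76) (nat_lit 18840266296) (nat_lit 317) (nat_lit 5) (nat_lit 329) (nat_lit 5) (nat_lit 318) (nat_lit 5) (nat_lit 328) (nat_lit 305) (nat_lit 147)) (XT.lf (nat_lit 0) (nat_lit 5721852247) (nat_lit 912) (nat_lit 7165905679) (nat_lit 76) (nat_lit 9882430881) (nat_lit 306) (nat_lit 5) (nat_lit 318) (nat_lit 5) (nat_lit 307) (nat_lit 5) (nat_lit 329) (nat_lit 305) (nat_lit 146))) (XT.nd (nat_lit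 78) (nat_lit 760) (nat_lit 0) (XT.lf (nat_lit 0) (nat_lit 9215934844) (nat_lit 836) (nat_lit 13371497652) (nat_lit 76) (nat_lit 572880274) (nat_lit 296) (nat_lit 5) (nat_lit 307) (nat_lit 5) (nat_lit 297) (nat_lit 5) (nat_lit 330) (nat_lit 305) (nat_lit 145)) (XT.lf (nat_lit 0) (nat_lit 3743504632) (nat_lit 760) (nat_lit 9222621150) (nat_lit 836) (nat_lit 10592994600) (nat_lit 286) (nat_lit 5) (nat_lit 296) (nat_lit 5) (nat_lit 297) (nat_lit 5) (nat_lit 331) (nat_lit 305) (nat_lit 144))))))))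
noncomputable def xc115 : XT := (XT.nd (nat_lit 39156) (nat_lit 0) (nat_lit 5168) (XT.nd (nat_lit 1014) (nat_lit 2736) (nat_lit 0) (XT.nd (nat_lit 468) (nat_lit 3040) (nat_lit 0) (XT.nd (nat_lit 234) (nat_lit 1368) (nat_lit 0) (XT.nd (nat_lit 78) (nat_lit 1520) (nat_lit 0) (XT.lf (nat_lit 0) (nat_lit 16941625734) (nat_lit 836) (nat_lit 2451399524) (nat_lit 76) (nat_lit 4574616383) (nat_lit 286) (nat_lit 5) (nat_lit 297) (nat_lit 5) (nat_lit 287) (nat_lit 5) (nat_lit 332) (nat_lit 305) (nat_lit 143)) (XT.nd (nat_lit 78) (nat_lit 836) (nat_lit 0) (XT.lf (nat_lit 0) (nat_lit 15568276783) (nat_lit 684) (nat_lit 5623196115) (nat_lit 760) (nat_lit 3193849319) (nat_lit 277) (nat_lit 5) (nat_lit 286) (nat_lit 5) (nat_lit 287) (nat_lit 5) (nat_lit 333) (nat_lit 305) (nat_lit 142)) (XT.lf (nat_lit 0) (nat_lit 870099228) (nat_lit 836) (nat_lit 15412159220) (nat_lit 76) (nat_lit 8530648084) (nat_lit 266) (nat_lit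 5) (nat_lit 277) (nat_lit 5) (nat_lit 267) (nat_lit 5) (nat_lit 334) (nat_lit 305) (nat_lit 141)))) (XT.nd (nat_lit 78) (nat_lit 684) (nat_lit 0) (XT.lf (nat_lit 0) (nat_lit 3005732636) (nat_lit 684) (nat_lit 2116962991) (nat_lit 760) (nat_lit 20128003016) (nat_lit 257) (nat_lit 5) (nat_lit 266) (nat_lit 5) (nat_lit 267) (nat_lit 5) (nat_lit 335) (nat_lit 305) (nat_lit 140)) (XT.nd (nat_lit 78) (nat_lit 684) (nat_lit 0) (XT.lf (nat_lit 0) (nat_lit 9681755585) (nat_lit 760) (nat_lit 3602071404) (nat_lit 76) (nat_lit 12414224591) (nat_lit 257) (nat_lit 5) (nat_lit 267) (nat_lit 5) (nat_lit 258) (nat_lit 5) (nat_lit 336) (nat_lit 305) (nat_lit 139)) (XT.lf (nat_lit 0) (nat_lit 14495642161) (nat_lit 760) (nat_lit 10379837575) (nat_lit 76) (nat_lit 1280988910) (nat_lit 248) (nat_lit 5) (nat_lit 258) (nat_lit 5) (nat_lit 249) (nat_lit 5) (nat_lit 337) (nat_lit 305) (nat_lit 138))))) (XT.nd (nat_lit 234)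 (nat_lit 1748) (nat_lit 0) (XT.nd (nat_lit 78) (nat_lit 684) (nat_lit 0) (XT.lf (nat_lit 0) (nat_lit 9181508015) (nat_lit 608) (nat_lit 10438586984) (nat_lit 684) (nat_lit 7005224732) (nat_lit 240) (nat_lit 5) (nat_lit 248) (nat_lit 5) (nat_lit 249) (nat_lit 5) (nat_lit 338) (nat_lit 305) (nat_lit 137)) (XT.nd (nat_lit 78) (nat_lit 76) (nat_lit 0) (XT.lf (nat_lit 0) (nat_lit 2358875079) (nat_lit 608) (nat_lit 22647572713) (nat_lit 684) (nat_lit 2099629602) (nat_lit 232) (nat_lit 5) (nat_lit 240) (nat_lit 5) (nat_lit 241) (nat_lit 5) (nat_lit 339) (nat_lit 305) (nat_lit 136)) (XT.lf (nat_lit 0) (nat_lit 3096572463) (nat_lit 684) (nat_lit 4701977413) (nat_lit 76) (nat_lit 19798685196) (nat_lit 231) (nat_lit 5) (nat_lit 240) (nat_lit 5) (nat_lit 232) (nat_lit 5) (nat_lit 340) (nat_lit 305) (nat_lit 135)))) (XT.nd (nat_lit 156) (nat_lit 532) (nat_lit 0) (XT.nd (nat_lit 78) (nat_lit 608) (nat_lit 0)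 (XT.lf (nat_lit 0) (nat_lit 8568070636) (nat_lit 684) (nat_lit 12015671077) (nat_lit 76) (nat_lit 7516153520) (nat_lit 223) (nat_lit 5) (nat_lit 232) (nat_lit 5) (nat_lit 224) (nat_lit 5) (nat_lit 341) (nat_lit 305) (nat_lit 134)) (XT.lf (nat_lit 0) (nat_lit 8999530950) (nat_lit 608) (nat_lit 5340539307) (nat_lit 684) (nat_lit 14274841734) (nat_lit 215) (nat_lit 5) (nat_lit 223) (nat_lit 5) (nat_lit 224) (nat_lit 5) (nat_lit 342) (nat_lit 305) (nat_lit 133))) (XT.nd (nat_lit 78) (nat_lit 0) (nat_lit 0) (XT.lf (nat_lit 0) (nat_lit 1611737256) (nat_lit 532) (nat_lit 18827009693) (nat_lit 608) (nat_lit 8703565769) (nat_lit 208) (nat_lit 5) (nat_lit 215) (nat_lit 5) (nat_lit 216) (nat_lit 5) (nat_lit 343) (nat_lit 305) (nat_lit 132)) (XT.lf (nat_lit 0) (nat_lit 23700591523) (nat_lit 532) (nat_lit 3182151527) (nat_lit 608) (nat_lit 2799548929) (nat_lit 208) (nat_lit 5) (nat_lit 215) (nat_lit 5) (nat_lit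 216) (nat_lit 5) (nat_lit 344) (nat_lit 305) (nat_lit 131)))))) (XT.nd (nat_lit 37596) (nat_lit 0) (nat_lit 15808) (XT.nd (nat_lit 234) (nat_lit 1064) (nat_lit 0) (XT.nd (nat_lit 78) (nat_lit 1064) (nat_lit 0) (XT.lf (nat_lit 0) (nat_lit 3423924638) (nat_lit 608) (nat_lit 13920665471) (nat_lit 76) (nat_lit 12889750406) (nat_lit 200) (nat_lit 5) (nat_lit 208) (nat_lit 5) (nat_lit 201) (nat_lit 5) (nat_lit 345) (nat_lit 305) (nat_lit 130)) (XT.nd (nat_lit 78) (nat_lit 532) (nat_lit 0) (XT.lf (nat_lit 0) (nat_lit 8623228656) (nat_lit 532) (nat_lit 1285336156) (nat_lit 608) (nat_lit 20891769065) (nat_lit 193) (nat_lit 5) (nat_lit 200) (nat_lit 5) (nat_lit 201) (nat_lit 5) (nat_lit 346) (nat_lit 305) (nat_lit 129)) (XT.lf (nat_lit 0) (nat_lit 552908257) (nat_lit 532) (nat_lit 16226754259) (nat_lit 608) (nat_lit 14599809473) (nat_lit 186) (nat_lit 5) (nat_lit 193) (nat_lit 5) (nat_lit 194) (nat_lit 5)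 (nat_lit 347) (nat_lit 305) (nat_lit 128)))) (XT.nd (nat_lit 156) (nat_lit 608) (nat_lit 0) (XT.nd (nat_lit 78) (nat_lit 456) (nat_lit 0) (XT.lf (nat_lit 0) (nat_lit 24011727117) (nat_lit 608) (nat_lit 7721938587) (nat_lit 76) (nat_lit 239225080) (nat_lit 186) (nat_lit 5) (nat_lit 194) (nat_lit 5) (nat_lit 187) (nat_lit 5) (nat_lit 348) (nat_lit 305) (nat_lit 127)) (XT.lf (nat_lit 0) (nat_lit 16172401400) (nat_lit 456) (nat_lit 15496463744) (nat_lit 532) (nat_lit 911087896) (nat_lit 180) (nat_lit 5) (nat_lit 186) (nat_lit 5) (nat_lit 187) (nat_lit 5) (nat_lit 349) (nat_lit 305) (nat_lit 126))) (XT.nd (nat_lit 78) (nat_lit 0) (nat_lit 0) (XT.lf (nat_lit 0) (nat_lit 6373700185) (nat_lit 608) (nat_lit 25473344759) (nat_lit 76) (nat_lit 1355230606) (nat_lit 172) (nat_lit 5) (nat_lit 180) (nat_lit 5) (nat_lit 173) (nat_lit 5) (nat_lit 350) (nat_lit 305) (nat_lit 125)) (XT.lf (nat_lit 0) (nat_lit 14075043893)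 (nat_lit 608) (nat_lit 1144364073) (nat_lit 76) (nat_lit 18619534411) (nat_lit 172) (nat_lit 5) (nat_lit 180) (nat_lit 5) (nat_lit 173) (nat_lit 5) (nat_lit 351) (nat_lit 305) (nat_lit 124))))) (XT.nd (nat_lit 234) (nat_lit 0) (nat_lit 152) (XT.nd (nat_lit 78) (nat_lit 0) (nat_lit 76) (XT.lf (nat_lit 0) (nat_lit 1919332824) (nat_lit 1748) (nat_lit 3065239175) (nat_lit 1748) (nat_lit 3065239175) (nat_lit 380) (nat_lit 3) (nat_lit 403) (nat_lit 3) (nat_lit 403) (nat_lit 5) (nat_lit 306) (nat_lit 306) (nat_lit 168)) (XT.nd (nat_lit 78) (nat_lit 0) (nat_lit 0) (XT.lf (nat_lit 0) (nat_lit 4299210188) (nat_lit 1672) (nat_lit 11426248869) (nat_lit 1748) (nat_lit 607309871) (nat_lit 381) (nat_lit 5) (nat_lit 403) (nat_lit 5) (nat_lit 404) (nat_lit 5) (nat_lit 307) (nat_lit 306) (nat_lit 167)) (XT.lf (nat_lit 0) (nat_lit 4867727084) (nat_lit 1672) (nat_lit 288232092) (nat_lit 1748) (nat_lit 11415078864)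 (nat_lit 381) (nat_lit 5) (nat_lit 403) (nat_lit 5) (nat_lit 404) (nat_lit 5) (nat_lit 308) (nat_lit 306) (nat_lit 166)))) (XT.nd (nat_lit 156) (nat_lit 0) (nat_lit 76) (XT.nd (nat_lit 78) (nat_lit 0) (nat_lit 0) (XT.lf (nat_lit 0) (nat_lit 5550651966) (nat_lit 1672) (nat_lit 5528082993) (nat_lit 1748) (nat_lit 5735784146) (nat_lit 382) (nat_lit 5) (nat_lit 404) (nat_lit 5) (nat_lit 405) (nat_lit 5) (nat_lit 309) (nat_lit 306) (nat_lit 165)) (XT.lf (nat_lit 76) (nat_lit 6185933805) (nat_lit 0) (nat_lit 131225416) (nat_lit 1748) (nat_lit 10746894103) (nat_lit 383) (nat_lit 5) (nat_lit 382) (nat_lit 5) (nat_lit 405) (nat_lit 5) (nat_lit 310) (nat_lit 306) (nat_lit 164))) (XT.nd (nat_lit 78) (nat_lit 0) (nat_lit 76) (XT.lf (nat_lit 76) (nat_lit 938506355) (nat_lit 0) (nat_lit 6271181314) (nat_lit 1748) (nat_lit 10109335680) (nat_lit 384) (nat_lit 5) (nat_lit 383) (nat_lit 5) (nat_lit 406) (nat_lit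 5) (nat_lit 311) (nat_lit 306) (nat_lit 163)) (XT.lf (nat_lit 0) (nat_lit 8223621904) (nat_lit 1672) (nat_lit 4363403616) (nat_lit 1748) (nat_lit 4992734362) (nat_lit 384) (nat_lit 5) (nat_lit 406) (nat_lit 5) (nat_lit 407) (nat_lit 5) (nat_lit 312) (nat_lit 306) (nat_lit 162))))))) (XT.nd (nat_lit 1014) (nat_lit 7600) (nat_lit 0) (XT.nd (nat_lit 468) (nat_lit 3344) (nat_lit 0) (XT.nd (nat_lit 234) (nat_lit 0) (nat_lit 152) (XT.nd (nat_lit 78) (nat_lit 0) (nat_lit 76) (XT.lf (nat_lit 76) (nat_lit 8070281885) (nat_lit 0) (nat_lit 1279630226) (nat_lit 1748) (nat_lit 8496777351) (nat_lit 385) (nat_lit 5) (nat_lit 384) (nat_lit 5) (nat_lit 407) (nat_lit 5) (nat_lit 313) (nat_lit 306) (nat_lit 161)) (XT.nd (nat_lit 78) (nat_lit 0) (nat_lit 76) (XT.lf (nat_lit 76) (nat_lit 2776580991) (nat_lit 0) (nat_lit 7836451911) (nat_lit 1748) (nat_lit 7506542619) (nat_lit 386) (nat_lit 5) (nat_lit 385) (nat_lit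 5) (nat_lit 408) (nat_lit 5) (nat_lit 314) (nat_lit 306) (nat_lit 160)) (XT.lf (nat_lit 0) (nat_lit 12002011519) (nat_lit 1672) (nat_lit 2600930613) (nat_lit 1748) (nat_lit 3795955899) (nat_lit 386) (nat_lit 5) (nat_lit 408) (nat_lit 5) (nat_lit 409) (nat_lit 5) (nat_lit 315) (nat_lit 306) (nat_lit 159)))) (XT.nd (nat_lit 78) (nat_lit 0) (nat_lit 76) (XT.lf (nat_lit 76) (nat_lit 10602137023) (nat_lit 0) (nat_lit 2940373028) (nat_lit 1748) (nat_lit 5141902040) (nat_lit 387) (nat_lit 5) (nat_lit 386) (nat_lit 5) (nat_lit 409) (nat_lit 5) (nat_lit 316) (nat_lit 306) (nat_lit 158)) (XT.nd (nat_lit 78) (nat_lit 0) (nat_lit 76) (XT.lf (nat_lit 76) (nat_lit 5260710474) (nat_lit 0) (nat_lit 9968224062) (nat_lit 1748) (nat_lit 3747571448) (nat_lit 388) (nat_lit 5) (nat_lit 387) (nat_lit 5) (nat_lit 410) (nat_lit 5) (nat_lit 317) (nat_lit 306) (nat_lit 157)) (XT.lf (nat_lit 0) (nat_lit 17042795067) (nat_lit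 1672) (nat_lit 202662359) (nat_lit 1748) (nat_lit 2030376777) (nat_lit 388) (nat_lit 5) (nat_lit 410) (nat_lit 5) (nat_lit 411) (nat_lit 5) (nat_lit 318) (nat_lit 306) (nat_lit 156))))) (XT.nd (nat_lit 234) (nat_lit 1976) (nat_lit 0) (XT.nd (nat_lit 78) (nat_lit 1672) (nat_lit 0) (XT.lf (nat_lit 76) (nat_lit 13822586541) (nat_lit 0) (nat_lit 5234408979) (nat_lit 1748) (nat_lit 524236400) (nat_lit 389) (nat_lit 5) (nat_lit 388) (nat_lit 5) (nat_lit 411) (nat_lit 5) (nat_lit 319) (nat_lit 306) (nat_lit 155)) (XT.nd (nat_lit 78) (nat_lit 0) (nat_lit 0) (XT.lf (nat_lit 0) (nat_lit 1312478446) (nat_lit 1748) (nat_lit 11470750434) (nat_lit 1824) (nat_lit 7110552829) (nat_lit 366) (nat_lit 5) (nat_lit 389) (nat_lit 5) (nat_lit 390) (nat_lit 5) (nat_lit 320) (nat_lit 306) (nat_lit 154)) (XT.lf (nat_lit 76) (nat_lit 2885112326) (nat_lit 0) (nat_lit 395078739) (nat_lit 1824) (nat_lit 16933794766) (nat_lit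 367) (nat_lit 5) (nat_lit 366) (nat_lit 5) (nat_lit 390) (nat_lit 5) (nat_lit 321) (nat_lit 306) (nat_lit 153)))) (XT.nd (nat_lit 156) (nat_lit 2052) (nat_lit 0) (XT.nd (nat_lit 78) (nat_lit 0) (nat_lit 76) (XT.lf (nat_lit 0) (nat_lit 5455673206) (nat_lit 1748) (nat_lit 2802470801) (nat_lit 1824) (nat_lit 12282684605) (nat_lit 367) (nat_lit 5) (nat_lit 390) (nat_lit 5) (nat_lit 391) (nat_lit 5) (nat_lit 322) (nat_lit 306) (nat_lit 152)) (XT.lf (nat_lit 0) (nat_lit 7798974376) (nat_lit 1748) (nat_lit 8594831234) (nat_lit 76) (nat_lit 4481627058) (nat_lit 368) (nat_lit 5) (nat_lit 391) (nat_lit 5) (nat_lit 369) (nat_lit 5) (nat_lit 323) (nat_lit 306) (nat_lit 151))) (XT.nd (nat_lit 78) (nat_lit 836) (nat_lit 0) (XT.lf (nat_lit 0) (nat_lit 6658874242) (nat_lit 1292) (nat_lit 3662011763) (nat_lit 1368) (nat_lit 10897029491) (nat_lit 351) (nat_lit 5) (nat_lit 368) (nat_lit 5) (nat_lit 369) (nat_lit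 5) (nat_lit 324) (nat_lit 306) (nat_lit 150)) (XT.lf (nat_lit 0) (nat_lit 859850004) (nat_lit 836) (nat_lit 12175144327) (nat_lit 912) (nat_lit 8533354369) (nat_lit 340) (nat_lit 5) (nat_lit 351) (nat_lit 5) (nat_lit 352) (nat_lit 5) (nat_lit 325) (nat_lit 306) (nat_lit 149)))))) (XT.nd (nat_lit 546) (nat_lit 3496) (nat_lit 0) (XT.nd (nat_lit 234) (nat_lit 2432) (nat_lit 0) (XT.nd (nat_lit 78) (nat_lit 1672) (nat_lit 0) (XT.lf (nat_lit 0) (nat_lit 15950939596) (nat_lit 912) (nat_lit 5025367412) (nat_lit 76) (nat_lit 950586100) (nat_lit 340) (nat_lit 5) (nat_lit 352) (nat_lit 5) (nat_lit 341) (nat_lit 5) (nat_lit 326) (nat_lit 306) (nat_lit 148)) (XT.nd (nat_lit 78) (nat_lit 836) (nat_lit 0) (XT.lf (nat_lit 0) (nat_lit 11185710668) (nat_lit 836) (nat_lit 7914136015) (nat_lit 912) (nat_lit 3193443792) (nat_lit 329) (nat_lit 5) (nat_lit 340) (nat_lit 5) (nat_lit 341) (nat_lit 5) (nat_lit 327) (nat_lit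 306) (nat_lit 147)) (XT.lf (nat_lit 0) (nat_lit 5307444484) (nat_lit 836) (nat_lit 17132125144) (nat_lit 912) (nat_lit 229189272) (nat_lit 318) (nat_lit 5) (nat_lit 329) (nat_lit 5) (nat_lit 330) (nat_lit 5) (nat_lit 328) (nat_lit 306) (nat_lit 146)))) (XT.nd (nat_lit 156) (nat_lit 1520) (nat_lit 0) (XT.nd (nat_lit 78) (nat_lit 836) (nat_lit 0) (XT.lf (nat_lit 0) (nat_lit 2907422660) (nat_lit 912) (nat_lit 766650321) (nat_lit 76) (nat_lit 19378648171) (nat_lit 317) (nat_lit 5) (nat_lit 329) (nat_lit 5) (nat_lit 318) (nat_lit 5) (nat_lit 329) (nat_lit 306) (nat_lit 145)) (XT.lf (nat_lit 0) (nat_lit 6301266525) (nat_lit 912) (nat_lit 6979535612) (nat_lit 76) (nat_lit 10164050536) (nat_lit 306) (nat_lit 5) (nat_lit 318) (nat_lit 5) (nat_lit 307) (nat_lit 5) (nat_lit 330) (nat_lit 306) (nat_lit 144))) (XT.nd (nat_lit 78) (nat_lit 760) (nat_lit 0) (XT.lf (nat_lit 0) (nat_lit 9890835230) (nat_lit 836)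 (nat_lit 13369536098) (nat_lit 76) (nat_lit 586504103) (nat_lit 296) (nat_lit 5) (nat_lit 307) (nat_lit 5) (nat_lit 297) (nat_lit 5) (nat_lit 331) (nat_lit 306) (nat_lit 143)) (XT.lf (nat_lit 0) (nat_lit 4252376332) (nat_lit 760) (nat_lit 9492125804) (nat_lit 836) (nat_lit 10513333836) (nat_lit 286) (nat_lit 5) (nat_lit 296) (nat_lit 5) (nat_lit 297) (nat_lit 5) (nat_lit 332) (nat_lit 306) (nat_lit 142))))) (XT.nd (nat_lit 234) (nat_lit 1976) (nat_lit 0) (XT.nd (nat_lit 78) (nat_lit 1520) (nat_lit 0) (XT.lf (nat_lit 0) (nat_lit 17827970776) (nat_lit 836) (nat_lit 2132147331) (nat_lit 76) (nat_lit 4718728556) (nat_lit 286) (nat_lit 5) (nat_lit 297) (nat_lit 5) (nat_lit 287) (nat_lit 5) (nat_lit 333) (nat_lit 306) (nat_lit 141)) (XT.nd (nat_lit 78) (nat_lit 836) (nat_lit 0) (XT.lf (nat_lit 0) (nat_lit 16421746646) (nat_lit 684) (nat_lit 5775063101) (nat_lit 760) (nat_lit 2912425621) (nat_lit 277)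 (nat_lit 5) (nat_lit 286) (nat_lit 5) (nat_lit 287) (nat_lit 5) (nat_lit 334) (nat_lit 306) (nat_lit 140)) (XT.lf (nat_lit 0) (nat_lit 1260290170) (nat_lit 836) (nat_lit 15481875766) (nat_lit 76) (nat_lit 8807603636) (nat_lit 266) (nat_lit 5) (nat_lit 277) (nat_lit 5) (nat_lit 267) (nat_lit 5) (nat_lit 335) (nat_lit 306) (nat_lit 139)))) (XT.nd (nat_lit 156) (nat_lit 1292) (nat_lit 0) (XT.nd (nat_lit 78) (nat_lit 0) (nat_lit 0) (XT.lf (nat_lit 0) (nat_lit 3482182594) (nat_lit 684) (nat_lit 2150185336) (nat_lit 760) (nat_lit 20368496507) (nat_lit 257) (nat_lit 5) (nat_lit 266) (nat_lit 5) (nat_lit 267) (nat_lit 5) (nat_lit 336) (nat_lit 306) (nat_lit 138)) (XT.lf (nat_lit 0) (nat_lit 10318021917) (nat_lit 760) (nat_lit 3328156358) (nat_lit 76) (nat_lit 12815670097) (nat_lit 257) (nat_lit 5) (nat_lit 267) (nat_lit 5) (nat_lit 258) (nat_lit 5) (nat_lit 337) (nat_lit 306) (nat_lit 137))) (XT.nd (nat_lit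 78) (nat_lit 608) (nat_lit 0) (XT.lf (nat_lit 0) (nat_lit 15268936778) (nat_lit 760) (nat_lit 10308711305) (nat_lit 76) (nat_lit 1356524288) (nat_lit 248) (nat_lit 5) (nat_lit 258) (nat_lit 5) (nat_lit 249) (nat_lit 5) (nat_lit 338) (nat_lit 306) (nat_lit 136)) (XT.lf (nat_lit 0) (nat_lit 9833268697) (nat_lit 608) (nat_lit 10706440745) (nat_lit 684) (nat_lit 6877534284) (nat_lit 240) (nat_lit 5) (nat_lit 248) (nat_lit 5) (nat_lit 249) (nat_lit 5) (nat_lit 339) (nat_lit 306) (nat_lit 135))))))))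
noncomputable def xc116 : XT := (XT.nd (nat_lit 39234) (nat_lit 0) (nat_lit 988) (XT.nd (nat_lit 38220) (nat_lit 0) (nat_lit 14136) (XT.nd (nat_lit 468) (nat_lit 2128) (nat_lit 0) (XT.nd (nat_lit 234) (nat_lit 1140) (nat_lit 0) (XT.nd (nat_lit 78) (nat_lit 684) (nat_lit 0) (XT.lf (nat_lit 0) (nat_lit 2806286830) (nat_lit 608) (nat_lit 23274455881) (nat_lit 684) (nat_lit 1831825881) (nat_lit 232) (nat_lit 5) (nat_lit 240) (nat_lit 5) (nat_lit 241) (nat_lit 5) (nat_lit 340) (nat_lit 306) (nat_lit 134)) (XT.nd (nat_lit 78) (nat_lit 608) (nat_lit 0) (XT.lf (nat_lit 0) (nat_lit 3506415466) (nat_lit 684) (nat_lit 4472950429) (nat_lit 76) (nat_lit 20439248290) (nat_lit 231) (nat_lit 5) (nat_lit 240) (nat_lit 5) (nat_lit 232) (nat_lit 5) (nat_lit 341) (nat_lit 306) (nat_lit 133)) (XT.lf (nat_lit 0) (nat_lit 9135541644) (nat_lit 684) (nat_lit 12006014951) (nat_lit 76) (nat_lit 7794933693) (nat_lit 223)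 (nat_lit 5) (nat_lit 232) (nat_lit 5) (nat_lit 224) (nat_lit 5) (nat_lit 342) (nat_lit 306) (nat_lit 132)))) (XT.nd (nat_lit 78) (nat_lit 532) (nat_lit 0) (XT.lf (nat_lit 0) (nat_lit 9633638279) (nat_lit 608) (nat_lit 5440385474) (nat_lit 684) (nat_lit 14393072973) (nat_lit 215) (nat_lit 5) (nat_lit 223) (nat_lit 5) (nat_lit 224) (nat_lit 5) (nat_lit 343) (nat_lit 306) (nat_lit 131)) (XT.nd (nat_lit 78) (nat_lit 0) (nat_lit 0) (XT.lf (nat_lit 0) (nat_lit 2024078755) (nat_lit 532) (nat_lit 19325478668) (nat_lit 608) (nat_lit 8660889580) (nat_lit 208) (nat_lit 5) (nat_lit 215) (nat_lit 5) (nat_lit 216) (nat_lit 5) (nat_lit 344) (nat_lit 306) (nat_lit 130)) (XT.lf (nat_lit 0) (nat_lit 24764997017) (nat_lit 532) (nat_lit 3213207029) (nat_lit 608) (nat_lit 2588600288) (nat_lit 208) (nat_lit 5) (nat_lit 215) (nat_lit 5) (nat_lit 216) (nat_lit 5) (nat_lit 345) (nat_lit 306) (nat_lit 129))))) (XT.nd (nat_lit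 234) (nat_lit 456) (nat_lit 0) (XT.nd (nat_lit 78) (nat_lit 1064) (nat_lit 0) (XT.lf (nat_lit 0) (nat_lit 3811948135) (nat_lit 608) (nat_lit 13981222741) (nat_lit 76) (nat_lit 13342325427) (nat_lit 200) (nat_lit 5) (nat_lit 208) (nat_lit 5) (nat_lit 201) (nat_lit 5) (nat_lit 346) (nat_lit 306) (nat_lit 128)) (XT.nd (nat_lit 78) (nat_lit 532) (nat_lit 0) (XT.lf (nat_lit 0) (nat_lit 9233195292) (nat_lit 532) (nat_lit 1251903022) (nat_lit 608) (nat_lit 21233496638) (nat_lit 193) (nat_lit 5) (nat_lit 200) (nat_lit 5) (nat_lit 201) (nat_lit 5) (nat_lit 347) (nat_lit 306) (nat_lit 127)) (XT.lf (nat_lit 0) (nat_lit 920262173) (nat_lit 532) (nat_lit 16636663730) (nat_lit 608) (nat_lit 14758294124) (nat_lit 186) (nat_lit 5) (nat_lit 193) (nat_lit 5) (nat_lit 194) (nat_lit 5) (nat_lit 348) (nat_lit 306) (nat_lit 126)))) (XT.nd (nat_lit 37362) (nat_lit 0) (nat_lit 15200) (XT.nd (nat_lit 78) (nat_lit 456)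 (nat_lit 0) (XT.lf (nat_lit 0) (nat_lit 24998460245) (nat_lit 608) (nat_lit 7608059319) (nat_lit 76) (nat_lit 320076288) (nat_lit 186) (nat_lit 5) (nat_lit 194) (nat_lit 5) (nat_lit 187) (nat_lit 5) (nat_lit 349) (nat_lit 306) (nat_lit 125)) (XT.lf (nat_lit 0) (nat_lit 16997504933) (nat_lit 456) (nat_lit 15882255861) (nat_lit 532) (nat_lit 672224700) (nat_lit 180) (nat_lit 5) (nat_lit 186) (nat_lit 5) (nat_lit 187) (nat_lit 5) (nat_lit 350) (nat_lit 306) (nat_lit 124))) (XT.nd (nat_lit 78) (nat_lit 0) (nat_lit 76) (XT.lf (nat_lit 0) (nat_lit 2340470403) (nat_lit 1748) (nat_lit 2971639130) (nat_lit 1748) (nat_lit 2971639130) (nat_lit 380) (nat_lit 3) (nat_lit 403) (nat_lit 3) (nat_lit 403) (nat_lit 5) (nat_lit 307) (nat_lit 307) (nat_lit 166)) (XT.lf (nat_lit 0) (nat_lit 5134265626) (nat_lit 1672) (nat_lit 11386993517) (nat_lit 1748) (nat_lit 286816523) (nat_lit 381) (nat_lit 5) (nat_lit 403) (nat_lit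 5) (nat_lit 404) (nat_lit 5) (nat_lit 308) (nat_lit 307) (nat_lit 165)))))) (XT.nd (nat_lit 468) (nat_lit 1140) (nat_lit 0) (XT.nd (nat_lit 234) (nat_lit 0) (nat_lit 152) (XT.nd (nat_lit 78) (nat_lit 0) (nat_lit 76) (XT.lf (nat_lit 76) (nat_lit 75020206) (nat_lit 0) (nat_lit 5624739493) (nat_lit 1748) (nat_lit 11354150878) (nat_lit 382) (nat_lit 5) (nat_lit 381) (nat_lit 5) (nat_lit 404) (nat_lit 5) (nat_lit 309) (nat_lit 307) (nat_lit 164)) (XT.nd (nat_lit 78) (nat_lit 0) (nat_lit 0) (XT.lf (nat_lit 0) (nat_lit 6383120587) (nat_lit 1672) (nat_lit 5313179157) (nat_lit 1748) (nat_lit 5608813052) (nat_lit 382) (nat_lit 5) (nat_lit 404) (nat_lit 5) (nat_lit 405) (nat_lit 5) (nat_lit 310) (nat_lit 307) (nat_lit 163)) (XT.lf (nat_lit 76) (nat_lit 6746080988) (nat_lit 0) (nat_lit 409577448) (nat_lit 1748) (nat_lit 10406829127) (nat_lit 383) (nat_lit 5) (nat_lit 382) (nat_lit 5) (nat_lit 405) (nat_lit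 5) (nat_lit 311) (nat_lit 307) (nat_lit 162)))) (XT.nd (nat_lit 78) (nat_lit 0) (nat_lit 76) (XT.lf (nat_lit 76) (nat_lit 1350175099) (nat_lit 0) (nat_lit 6706645412) (nat_lit 1748) (nat_lit 9768663811) (nat_lit 384) (nat_lit 5) (nat_lit 383) (nat_lit 5) (nat_lit 406) (nat_lit 5) (nat_lit 312) (nat_lit 307) (nat_lit 161)) (XT.nd (nat_lit 78) (nat_lit 0) (nat_lit 0) (XT.lf (nat_lit 0) (nat_lit 9081239677) (nat_lit 1672) (nat_lit 4107675527) (nat_lit 1748) (nat_lit 4905540763) (nat_lit 384) (nat_lit 5) (nat_lit 406) (nat_lit 5) (nat_lit 407) (nat_lit 5) (nat_lit 313) (nat_lit 307) (nat_lit 160)) (XT.lf (nat_lit 76) (nat_lit 8692747924) (nat_lit 0) (nat_lit 1533246731) (nat_lit 1748) (nat_lit 8143719196) (nat_lit 385) (nat_lit 5) (nat_lit 384) (nat_lit 5) (nat_lit 407) (nat_lit 5) (nat_lit 314) (nat_lit 307) (nat_lit 159))))) (XT.nd (nat_lit 234) (nat_lit 1444) (nat_lit 0) (XT.nd (nat_lit 78) (nat_lit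 0) (nat_lit 76) (XT.lf (nat_lit 76) (nat_lit 3247615386) (nat_lit 0) (nat_lit 8263207288) (nat_lit 1748) (nat_lit 7140301078) (nat_lit 386) (nat_lit 5) (nat_lit 385) (nat_lit 5) (nat_lit 408) (nat_lit 5) (nat_lit 315) (nat_lit 307) (nat_lit 158)) (XT.nd (nat_lit 78) (nat_lit 0) (nat_lit 0) (XT.lf (nat_lit 0) (nat_lit 12923386806) (nat_lit 1672) (nat_lit 2289618341) (nat_lit 1748) (nat_lit 3726195604) (nat_lit 386) (nat_lit 5) (nat_lit 408) (nat_lit 5) (nat_lit 409) (nat_lit 5) (nat_lit 316) (nat_lit 307) (nat_lit 157)) (XT.lf (nat_lit 76) (nat_lit 11303224742) (nat_lit 0) (nat_lit 3193013417) (nat_lit 1748) (nat_lit 4737332073) (nat_lit 387) (nat_lit 5) (nat_lit 386) (nat_lit 5) (nat_lit 409) (nat_lit 5) (nat_lit 317) (nat_lit 307) (nat_lit 156)))) (XT.nd (nat_lit 156) (nat_lit 1596) (nat_lit 0) (XT.nd (nat_lit 78) (nat_lit 0) (nat_lit 76) (XT.lf (nat_lit 76) (nat_lit 5807581246) (nat_lit 0) (nat_lit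 10411218383) (nat_lit 1748) (nat_lit 3315928810) (nat_lit 388) (nat_lit 5) (nat_lit 387) (nat_lit 5) (nat_lit 410) (nat_lit 5) (nat_lit 318) (nat_lit 307) (nat_lit 155)) (XT.lf (nat_lit 76) (nat_lit 183033811) (nat_lit 0) (nat_lit 17888798974) (nat_lit 1748) (nat_lit 1771520607) (nat_lit 389) (nat_lit 5) (nat_lit 388) (nat_lit 5) (nat_lit 411) (nat_lit 5) (nat_lit 319) (nat_lit 307) (nat_lit 154))) (XT.nd (nat_lit 78) (nat_lit 1672) (nat_lit 0) (XT.lf (nat_lit 76) (nat_lit 14620322502) (nat_lit 0) (nat_lit 5512389845) (nat_lit 1748) (nat_lit 25487303) (nat_lit 389) (nat_lit 5) (nat_lit 388) (nat_lit 5) (nat_lit 411) (nat_lit 5) (nat_lit 320) (nat_lit 307) (nat_lit 153)) (XT.lf (nat_lit 0) (nat_lit 1846561154) (nat_lit 1748) (nat_lit 11420012574) (nat_lit 1824) (nat_lit 7213756918) (nat_lit 366) (nat_lit 5) (nat_lit 389) (nat_lit 5) (nat_lit 390) (nat_lit 5) (nat_lit 321) (nat_lit 307) (nat_lit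 152))))))) (XT.nd (nat_lit 1014) (nat_lit 7068) (nat_lit 0) (XT.nd (nat_lit 468) (nat_lit 4104) (nat_lit 0) (XT.nd (nat_lit 234) (nat_lit 1976) (nat_lit 0) (XT.nd (nat_lit 78) (nat_lit 0) (nat_lit 76) (XT.lf (nat_lit 76) (nat_lit 3360119930) (nat_lit 0) (nat_lit 501298344) (nat_lit 1824) (nat_lit 16948971142) (nat_lit 367) (nat_lit 5) (nat_lit 366) (nat_lit 5) (nat_lit 390) (nat_lit 5) (nat_lit 322) (nat_lit 307) (nat_lit 151)) (XT.nd (nat_lit 78) (nat_lit 0) (nat_lit 76) (XT.lf (nat_lit 0) (nat_lit 6087507267) (nat_lit 1748) (nat_lit 2499085780) (nat_lit 1824) (nat_lit 12560748057) (nat_lit 367) (nat_lit 5) (nat_lit 390) (nat_lit 5) (nat_lit 391) (nat_lit 5) (nat_lit 323) (nat_lit 307) (nat_lit 150)) (XT.lf (nat_lit 0) (nat_lit 8489454123) (nat_lit 1748) (nat_lit 8461531776) (nat_lit 76) (nat_lit 4541240618) (nat_lit 368) (nat_lit 5) (nat_lit 391) (nat_lit 5) (nat_lit 369) (nat_lit 5) (nat_lit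 324) (nat_lit 307) (nat_lit 149)))) (XT.nd (nat_lit 78) (nat_lit 836) (nat_lit 0) (XT.lf (nat_lit 0) (nat_lit 7243439011) (nat_lit 1292) (nat_lit 3832786034) (nat_lit 1368) (nat_lit 10768984617) (nat_lit 351) (nat_lit 5) (nat_lit 368) (nat_lit 5) (nat_lit 369) (nat_lit 5) (nat_lit 325) (nat_lit 307) (nat_lit 148)) (XT.nd (nat_lit 78) (nat_lit 0) (nat_lit 0) (XT.lf (nat_lit 0) (nat_lit 1273683561) (nat_lit 836) (nat_lit 12587226570) (nat_lit 912) (nat_lit 8345472245) (nat_lit 340) (nat_lit 5) (nat_lit 351) (nat_lit 5) (nat_lit 352) (nat_lit 5) (nat_lit 326) (nat_lit 307) (nat_lit 147)) (XT.lf (nat_lit 0) (nat_lit 16851372572) (nat_lit 912) (nat_lit 4790343114) (nat_lit 76) (nat_lit 934235959) (nat_lit 340) (nat_lit 5) (nat_lit 352) (nat_lit 5) (nat_lit 341) (nat_lit 5) (nat_lit 327) (nat_lit 307) (nat_lit 146))))) (XT.nd (nat_lit 234) (nat_lit 2356) (nat_lit 0) (XT.nd (nat_lit 78) (nat_lit 912)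 (nat_lit 0) (XT.lf (nat_lit 0) (nat_lit 11900808400) (nat_lit 836) (nat_lit 8184114120) (nat_lit 912) (nat_lit 2868623933) (nat_lit 329) (nat_lit 5) (nat_lit 340) (nat_lit 5) (nat_lit 341) (nat_lit 5) (nat_lit 328) (nat_lit 307) (nat_lit 145)) (XT.nd (nat_lit 78) (nat_lit 0) (nat_lit 0) (XT.lf (nat_lit 0) (nat_lit 172337157) (nat_lit 912) (nat_lit 17492967111) (nat_lit 76) (nat_lit 5675155309) (nat_lit 317) (nat_lit 5) (nat_lit 329) (nat_lit 5) (nat_lit 318) (nat_lit 5) (nat_lit 329) (nat_lit 307) (nat_lit 144)) (XT.lf (nat_lit 0) (nat_lit 3388146382) (nat_lit 912) (nat_lit 413286677) (nat_lit 76) (nat_lit 19934721431) (nat_lit 317) (nat_lit 5) (nat_lit 329) (nat_lit 5) (nat_lit 318) (nat_lit 5) (nat_lit 330) (nat_lit 307) (nat_lit 143)))) (XT.nd (nat_lit 156) (nat_lit 760) (nat_lit 0) (XT.nd (nat_lit 78) (nat_lit 760) (nat_lit 0) (XT.lf (nat_lit 0) (nat_lit 6874656212) (nat_lit 912) (nat_lit 6810613416)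 (nat_lit 76) (nat_lit 10454971420) (nat_lit 306) (nat_lit 5) (nat_lit 318) (nat_lit 5) (nat_lit 307) (nat_lit 5) (nat_lit 331) (nat_lit 307) (nat_lit 142)) (XT.lf (nat_lit 0) (nat_lit 10563111556) (nat_lit 836) (nat_lit 13390655658) (nat_lit 76) (nat_lit 600741154) (nat_lit 296) (nat_lit 5) (nat_lit 307) (nat_lit 5) (nat_lit 297) (nat_lit 5) (nat_lit 332) (nat_lit 307) (nat_lit 141))) (XT.nd (nat_lit 78) (nat_lit 0) (nat_lit 0) (XT.lf (nat_lit 0) (nat_lit 4753749640) (nat_lit 760) (nat_lit 9770127414) (nat_lit 836) (nat_lit 10454098540) (nat_lit 286) (nat_lit 5) (nat_lit 296) (nat_lit 5) (nat_lit 297) (nat_lit 5) (nat_lit 333) (nat_lit 307) (nat_lit 140)) (XT.lf (nat_lit 0) (nat_lit 18719201897) (nat_lit 836) (nat_lit 1825865565) (nat_lit 76) (nat_lit 4866769517) (nat_lit 286) (nat_lit 5) (nat_lit 297) (nat_lit 5) (nat_lit 287) (nat_lit 5) (nat_lit 334) (nat_lit 307) (nat_lit 139)))))) (XT.nd (nat_lit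 546) (nat_lit 2964) (nat_lit 0) (XT.nd (nat_lit 234) (nat_lit 1900) (nat_lit 0) (XT.nd (nat_lit 78) (nat_lit 1520) (nat_lit 0) (XT.lf (nat_lit 0) (nat_lit 17278638427) (nat_lit 684) (nat_lit 5932452144) (nat_lit 760) (nat_lit 2644214284) (nat_lit 277) (nat_lit 5) (nat_lit 286) (nat_lit 5) (nat_lit 287) (nat_lit 5) (nat_lit 335) (nat_lit 307) (nat_lit 138)) (XT.nd (nat_lit 78) (nat_lit 684) (nat_lit 0) (XT.lf (nat_lit 0) (nat_lit 1641286702) (nat_lit 836) (nat_lit 15576223424) (nat_lit 76) (nat_lit 9091660296) (nat_lit 266) (nat_lit 5) (nat_lit 277) (nat_lit 5) (nat_lit 267) (nat_lit 5) (nat_lit 336) (nat_lit 307) (nat_lit 137)) (XT.lf (nat_lit 0) (nat_lit 3950752115) (nat_lit 684) (nat_lit 2186142923) (nat_lit 760) (nat_lit 20637062385) (nat_lit 257) (nat_lit 5) (nat_lit 266) (nat_lit 5) (nat_lit 267) (nat_lit 5) (nat_lit 337) (nat_lit 307) (nat_lit 136)))) (XT.nd (nat_lit 156) (nat_lit 1216) (nat_lit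 0) (XT.nd (nat_lit 78) (nat_lit 684) (nat_lit 0) (XT.lf (nat_lit 0) (nat_lit 10953525120) (nat_lit 760) (nat_lit 3067950914) (nat_lit 76) (nat_lit 13227493172) (nat_lit 257) (nat_lit 5) (nat_lit 267) (nat_lit 5) (nat_lit 258) (nat_lit 5) (nat_lit 338) (nat_lit 307) (nat_lit 135)) (XT.lf (nat_lit 0) (nat_lit 16046003234) (nat_lit 760) (nat_lit 10257409540) (nat_lit 76) (nat_lit 1432195708) (nat_lit 248) (nat_lit 5) (nat_lit 258) (nat_lit 5) (nat_lit 249) (nat_lit 5) (nat_lit 339) (nat_lit 307) (nat_lit 134))) (XT.nd (nat_lit 78) (nat_lit 608) (nat_lit 0) (XT.lf (nat_lit 0) (nat_lit 10482980154) (nat_lit 608) (nat_lit 10984930744) (nat_lit 684) (nat_lit 6765406933) (nat_lit 240) (nat_lit 5) (nat_lit 248) (nat_lit 5) (nat_lit 249) (nat_lit 5) (nat_lit 340) (nat_lit 307) (nat_lit 133)) (XT.lf (nat_lit 0) (nat_lit 3245499941) (nat_lit 608) (nat_lit 23923161786) (nat_lit 684) (nat_lit 1574976898) (nat_lit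 232) (nat_lit 5) (nat_lit 240) (nat_lit 5) (nat_lit 241) (nat_lit 5) (nat_lit 341) (nat_lit 307) (nat_lit 132))))) (XT.nd (nat_lit 234) (nat_lit 1672) (nat_lit 0) (XT.nd (nat_lit 78) (nat_lit 1216) (nat_lit 0) (XT.lf (nat_lit 0) (nat_lit 3910359772) (nat_lit 684) (nat_lit 4258297103) (nat_lit 76) (nat_lit 21096353101) (nat_lit 231) (nat_lit 5) (nat_lit 240) (nat_lit 5) (nat_lit 232) (nat_lit 5) (nat_lit 342) (nat_lit 307) (nat_lit 131)) (XT.nd (nat_lit 78) (nat_lit 608) (nat_lit 0) (XT.lf (nat_lit 0) (nat_lit 9702216893) (nat_lit 684) (nat_lit 12017315902) (nat_lit 76) (nat_lit 8079017887) (nat_lit 223) (nat_lit 5) (nat_lit 232) (nat_lit 5) (nat_lit 224) (nat_lit 5) (nat_lit 343) (nat_lit 307) (nat_lit 130)) (XT.lf (nat_lit 0) (nat_lit 10265866769) (nat_lit 608) (nat_lit 5546692512) (nat_lit 684) (nat_lit 14532647221) (nat_lit 215) (nat_lit 5) (nat_lit 223) (nat_lit 5) (nat_lit 224) (nat_lit 5)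 (nat_lit 344) (nat_lit 307) (nat_lit 129)))) (XT.nd (nat_lit 156) (nat_lit 1140) (nat_lit 0) (XT.nd (nat_lit 78) (nat_lit 0) (nat_lit 0) (XT.lf (nat_lit 0) (nat_lit 2427896020) (nat_lit 532) (nat_lit 19842709976) (nat_lit 608) (nat_lit 8634371502) (nat_lit 208) (nat_lit 5) (nat_lit 215) (nat_lit 5) (nat_lit 216) (nat_lit 5) (nat_lit 345) (nat_lit 307) (nat_lit 128)) (XT.lf (nat_lit 0) (nat_lit 25841048775) (nat_lit 532) (nat_lit 3248891539) (nat_lit 608) (nat_lit 2388253671) (nat_lit 208) (nat_lit 5) (nat_lit 215) (nat_lit 5) (nat_lit 216) (nat_lit 5) (nat_lit 346) (nat_lit 307) (nat_lit 127))) (XT.nd (nat_lit 78) (nat_lit 532) (nat_lit 0) (XT.lf (nat_lit 0) (nat_lit 4195234618) (nat_lit 608) (nat_lit 14064093588) (nat_lit 76) (nat_lit 13804695774) (nat_lit 200) (nat_lit 5) (nat_lit 208) (nat_lit 5) (nat_lit 201) (nat_lit 5) (nat_lit 347) (nat_lit 307) (nat_lit 126)) (XT.lf (nat_lit 0) (nat_lit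 9841296604) (nat_lit 532) (nat_lit 1221599599) (nat_lit 608) (nat_lit 21601837668) (nat_lit 193) (nat_lit 5) (nat_lit 200) (nat_lit 5) (nat_lit 201) (nat_lit 5) (nat_lit 348) (nat_lit 307) (nat_lit 125))))))))
noncomputable def xc117 : XT := (XT.nd (nat_lit 39390) (nat_lit 0) (nat_lit 532) (XT.nd (nat_lit 38298) (nat_lit 0) (nat_lit 9120) (XT.nd (nat_lit 37752) (nat_lit 0) (nat_lit 14896) (XT.nd (nat_lit 37518) (nat_lit 0) (nat_lit 14744) (XT.nd (nat_lit 78) (nat_lit 0) (nat_lit 0) (XT.lf (nat_lit 0) (nat_lit 1278501265) (nat_lit 532) (nat_lit 17063284467) (nat_lit 608) (nat_lit 14937578312) (nat_lit 186) (nat_lit 5) (nat_lit 193) (nat_lit 5) (nat_lit 194) (nat_lit 5) (nat_lit 349) (nat_lit 307) (nat_lit 124)) (XT.nd (nat_lit 37362) (nat_lit 0) (nat_lit 14744) (XT.lf (nat_lit 0) (nat_lit 25999503989) (nat_lit 608) (nat_lit 7510598935) (nat_lit 76) (nat_lit 399123817) (nat_lit 186) (nat_lit 5) (nat_lit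 194) (nat_lit 5) (nat_lit 187) (nat_lit 5) (nat_lit 350) (nat_lit 307) (nat_lit 123)) (XT.lf (nat_lit 0) (nat_lit 2753372416) (nat_lit 1748) (nat_lit 2885882828) (nat_lit 1748) (nat_lit 2885882828) (nat_lit 380) (nat_lit 3) (nat_lit 403) (nat_lit 3) (nat_lit 403) (nat_lit 5) (nat_lit 308) (nat_lit 308) (nat_lit 164)))) (XT.nd (nat_lit 78) (nat_lit 0) (nat_lit 76) (XT.lf (nat_lit 76) (nat_lit 5929832732) (nat_lit 0) (nat_lit 24165061) (nat_lit 1748) (nat_lit 11344483159) (nat_lit 381) (nat_lit 5) (nat_lit 380) (nat_lit 3) (nat_lit 403) (nat_lit 5) (nat_lit 309) (nat_lit 308) (nat_lit 163)) (XT.nd (nat_lit 78) (nat_lit 0) (nat_lit 76) (XT.lf (nat_lit 76) (nat_lit 431540420) (nat_lit 0) (nat_lit 6087674653) (nat_lit 1748) (nat_lit 11032835899) (nat_lit 382) (nat_lit 5) (nat_lit 381) (nat_lit 5) (nat_lit 404) (nat_lit 5) (nat_lit 310) (nat_lit 308) (nat_lit 162)) (XT.lf (nat_lit 0) (nat_lit 7202335066)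 (nat_lit 1672) (nat_lit 5113684603) (nat_lit 1748) (nat_lit 5495199210) (nat_lit 382) (nat_lit 5) (nat_lit 404) (nat_lit 5) (nat_lit 405) (nat_lit 5) (nat_lit 311) (nat_lit 308) (nat_lit 161))))) (XT.nd (nat_lit 234) (nat_lit 0) (nat_lit 152) (XT.nd (nat_lit 78) (nat_lit 0) (nat_lit 76) (XT.lf (nat_lit 76) (nat_lit 7301530784) (nat_lit 0) (nat_lit 680527482) (nat_lit 1748) (nat_lit 10094590794) (nat_lit 383) (nat_lit 5) (nat_lit 382) (nat_lit 5) (nat_lit 405) (nat_lit 5) (nat_lit 312) (nat_lit 308) (nat_lit 160)) (XT.nd (nat_lit 78) (nat_lit 0) (nat_lit 76) (XT.lf (nat_lit 76) (nat_lit 1752178658) (nat_lit 0) (nat_lit 7140975756) (nat_lit 1748) (nat_lit 9454737261) (nat_lit 384) (nat_lit 5) (nat_lit 383) (nat_lit 5) (nat_lit 406) (nat_lit 5) (nat_lit 313) (nat_lit 308) (nat_lit 159)) (XT.lf (nat_lit 0) (nat_lit 9929517301) (nat_lit 1672) (nat_lit 3866469750) (nat_lit 1748) (nat_lit 4829334727)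 (nat_lit 384) (nat_lit 5) (nat_lit 406) (nat_lit 5) (nat_lit 407) (nat_lit 5) (nat_lit 314) (nat_lit 308) (nat_lit 158)))) (XT.nd (nat_lit 156) (nat_lit 0) (nat_lit 152) (XT.nd (nat_lit 78) (nat_lit 0) (nat_lit 76) (XT.lf (nat_lit 76) (nat_lit 9312053863) (nat_lit 0) (nat_lit 1782116787) (nat_lit 1748) (nat_lit 7814968773) (nat_lit 385) (nat_lit 5) (nat_lit 384) (nat_lit 5) (nat_lit 407) (nat_lit 5) (nat_lit 315) (nat_lit 308) (nat_lit 157)) (XT.lf (nat_lit 76) (nat_lit 3710523124) (nat_lit 0) (nat_lit 8691763154) (nat_lit 1748) (nat_lit 6797023240) (nat_lit 386) (nat_lit 5) (nat_lit 385) (nat_lit 5) (nat_lit 408) (nat_lit 5) (nat_lit 316) (nat_lit 308) (nat_lit 156))) (XT.nd (nat_lit 78) (nat_lit 0) (nat_lit 0) (XT.lf (nat_lit 0) (nat_lit 13840181578) (nat_lit 1672) (nat_lit 1991316421) (nat_lit 1748) (nat_lit 3664884128) (nat_lit 386) (nat_lit 5) (nat_lit 408) (nat_lit 5) (nat_lit 409) (nat_lit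 5) (nat_lit 317) (nat_lit 308) (nat_lit 155)) (XT.lf (nat_lit 76) (nat_lit 12003357971) (nat_lit 0) (nat_lit 3443794109) (nat_lit 1748) (nat_lit 4352703964) (nat_lit 387) (nat_lit 5) (nat_lit 386) (nat_lit 5) (nat_lit 409) (nat_lit 5) (nat_lit 318) (nat_lit 308) (nat_lit 154)))))) (XT.nd (nat_lit 546) (nat_lit 4484) (nat_lit 0) (XT.nd (nat_lit 234) (nat_lit 0) (nat_lit 76) (XT.nd (nat_lit 78) (nat_lit 1672) (nat_lit 0) (XT.lf (nat_lit 76) (nat_lit 6348525111) (nat_lit 0) (nat_lit 10859239352) (nat_lit 1748) (nat_lit 2902568724) (nat_lit 388) (nat_lit 5) (nat_lit 387) (nat_lit 5) (nat_lit 410) (nat_lit 5) (nat_lit 319) (nat_lit 308) (nat_lit 153)) (XT.nd (nat_lit 78) (nat_lit 1748) (nat_lit 0) (XT.lf (nat_lit 76) (nat_lit 560426150) (nat_lit 0) (nat_lit 18542888765) (nat_lit 1748) (nat_lit 1325174780) (nat_lit 389) (nat_lit 5) (nat_lit 388) (nat_lit 5) (nat_lit 411) (nat_lit 5) (nat_lit 320) (nat_lit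 308) (nat_lit 152)) (XT.lf (nat_lit 0) (nat_lit 452675409) (nat_lit 1748) (nat_lit 5336054093) (nat_lit 1824) (nat_lit 14964288324) (nat_lit 365) (nat_lit 5) (nat_lit 388) (nat_lit 5) (nat_lit 389) (nat_lit 5) (nat_lit 321) (nat_lit 308) (nat_lit 151)))) (XT.nd (nat_lit 156) (nat_lit 0) (nat_lit 76) (XT.nd (nat_lit 78) (nat_lit 0) (nat_lit 0) (XT.lf (nat_lit 0) (nat_lit 2368268059) (nat_lit 1748) (nat_lit 11390419178) (nat_lit 1824) (nat_lit 7326378037) (nat_lit 366) (nat_lit 5) (nat_lit 389) (nat_lit 5) (nat_lit 390) (nat_lit 5) (nat_lit 322) (nat_lit 308) (nat_lit 150)) (XT.lf (nat_lit 76) (nat_lit 3827078899) (nat_lit 0) (nat_lit 605287471) (nat_lit 1824) (nat_lit 16992893697) (nat_lit 367) (nat_lit 5) (nat_lit 366) (nat_lit 5) (nat_lit 390) (nat_lit 5) (nat_lit 323) (nat_lit 308) (nat_lit 149))) (XT.nd (nat_lit 78) (nat_lit 0) (nat_lit 76) (XT.lf (nat_lit 0) (nat_lit 6711421829) (nat_lit 1748)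 (nat_lit 2208840949) (nat_lit 1824) (nat_lit 12852343723) (nat_lit 367) (nat_lit 5) (nat_lit 390) (nat_lit 5) (nat_lit 391) (nat_lit 5) (nat_lit 324) (nat_lit 308) (nat_lit 148)) (XT.lf (nat_lit 0) (nat_lit 9174442691) (nat_lit 1748) (nat_lit 8346686622) (nat_lit 76) (nat_lit 4606938435) (nat_lit 368) (nat_lit 5) (nat_lit 391) (nat_lit 5) (nat_lit 369) (nat_lit 5) (nat_lit 325) (nat_lit 308) (nat_lit 147))))) (XT.nd (nat_lit 234) (nat_lit 2584) (nat_lit 0) (XT.nd (nat_lit 78) (nat_lit 836) (nat_lit 0) (XT.lf (nat_lit 0) (nat_lit 7823451713) (nat_lit 1292) (nat_lit 4005186825) (nat_lit 1368) (nat_lit 10663214718) (nat_lit 351) (nat_lit 5) (nat_lit 368) (nat_lit 5) (nat_lit 369) (nat_lit 5) (nat_lit 326) (nat_lit 308) (nat_lit 146)) (XT.nd (nat_lit 78) (nat_lit 0) (nat_lit 0) (XT.lf (nat_lit 0) (nat_lit 1677657153) (nat_lit 836) (nat_lit 13008983166) (nat_lit 912) (nat_lit 8177434343) (nat_lit 340)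 (nat_lit 5) (nat_lit 351) (nat_lit 5) (nat_lit 352) (nat_lit 5) (nat_lit 327) (nat_lit 308) (nat_lit 145)) (XT.lf (nat_lit 0) (nat_lit 17754599477) (nat_lit 912) (nat_lit 4570413743) (nat_lit 76) (nat_lit 919970904) (nat_lit 340) (nat_lit 5) (nat_lit 352) (nat_lit 5) (nat_lit 341) (nat_lit 5) (nat_lit 328) (nat_lit 308) (nat_lit 144)))) (XT.nd (nat_lit 156) (nat_lit 836) (nat_lit 0) (XT.nd (nat_lit 78) (nat_lit 912) (nat_lit 0) (XT.lf (nat_lit 0) (nat_lit 12615572695) (nat_lit 836) (nat_lit 8460322835) (nat_lit 912) (nat_lit 2558204970) (nat_lit 329) (nat_lit 5) (nat_lit 340) (nat_lit 5) (nat_lit 341) (nat_lit 5) (nat_lit 329) (nat_lit 308) (nat_lit 143)) (XT.lf (nat_lit 0) (nat_lit 559547118) (nat_lit 912) (nat_lit 17652355005) (nat_lit 76) (nat_lit 5820860274) (nat_lit 317) (nat_lit 5) (nat_lit 329) (nat_lit 5) (nat_lit 318) (nat_lit 5) (nat_lit 330) (nat_lit 308) (nat_lit 142))) (XT.nd (nat_lit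 78) (nat_lit 836) (nat_lit 0) (XT.lf (nat_lit 0) (nat_lit 3860703246) (nat_lit 912) (nat_lit 70926909) (nat_lit 76) (nat_lit 20508928420) (nat_lit 317) (nat_lit 5) (nat_lit 329) (nat_lit 5) (nat_lit 318) (nat_lit 5) (nat_lit 331) (nat_lit 308) (nat_lit 141)) (XT.lf (nat_lit 0) (nat_lit 7443184231) (nat_lit 912) (nat_lit 6658339997) (nat_lit 76) (nat_lit 10755423624) (nat_lit 306) (nat_lit 5) (nat_lit 318) (nat_lit 5) (nat_lit 307) (nat_lit 5) (nat_lit 332) (nat_lit 308) (nat_lit 140))))))) (XT.nd (nat_lit 1014) (nat_lit 1672) (nat_lit 0) (XT.nd (nat_lit 468) (nat_lit 3192) (nat_lit 0) (XT.nd (nat_lit 234) (nat_lit 2204) (nat_lit 0) (XT.nd (nat_lit 78) (nat_lit 760) (nat_lit 0) (XT.lf (nat_lit 0) (nat_lit 11233997993) (nat_lit 836) (nat_lit 13434220437) (nat_lit 76) (nat_lit 615598083) (nat_lit 296) (nat_lit 5) (nat_lit 307) (nat_lit 5) (nat_lit 297) (nat_lit 5) (nat_lit 333) (nat_lit 308) (nat_lit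 139)) (XT.nd (nat_lit 78) (nat_lit 0) (nat_lit 0) (XT.lf (nat_lit 0) (nat_lit 5248706381) (nat_lit 760) (nat_lit 10056857248) (nat_lit 836) (nat_lit 10414591784) (nat_lit 286) (nat_lit 5) (nat_lit 296) (nat_lit 5) (nat_lit 297) (nat_lit 5) (nat_lit 334) (nat_lit 308) (nat_lit 138)) (XT.lf (nat_lit 0) (nat_lit 19616711593) (nat_lit 836) (nat_lit 1531648992) (nat_lit 76) (nat_lit 5018879780) (nat_lit 286) (nat_lit 5) (nat_lit 297) (nat_lit 5) (nat_lit 287) (nat_lit 5) (nat_lit 335) (nat_lit 308) (nat_lit 137)))) (XT.nd (nat_lit 78) (nat_lit 1520) (nat_lit 0) (XT.lf (nat_lit 0) (nat_lit 18140328131) (nat_lit 684) (nat_lit 6095473451) (nat_lit 760) (nat_lit 2388368590) (nat_lit 277) (nat_lit 5) (nat_lit 286) (nat_lit 5) (nat_lit 287) (nat_lit 5) (nat_lit 336) (nat_lit 308) (nat_lit 136)) (XT.nd (nat_lit 78) (nat_lit 684) (nat_lit 0) (XT.lf (nat_lit 0) (nat_lit 2014012744) (nat_lit 836) (nat_lit 15694647259)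 (nat_lit 76) (nat_lit 9383100415) (nat_lit 266) (nat_lit 5) (nat_lit 277) (nat_lit 5) (nat_lit 267) (nat_lit 5) (nat_lit 337) (nat_lit 308) (nat_lit 135)) (XT.lf (nat_lit 0) (nat_lit 4412477659) (nat_lit 684) (nat_lit 2224818008) (nat_lit 760) (nat_lit 20933345509) (nat_lit 257) (nat_lit 5) (nat_lit 266) (nat_lit 5) (nat_lit 267) (nat_lit 5) (nat_lit 338) (nat_lit 308) (nat_lit 134))))) (XT.nd (nat_lit 234) (nat_lit 1900) (nat_lit 0) (XT.nd (nat_lit 78) (nat_lit 1292) (nat_lit 0) (XT.lf (nat_lit 0) (nat_lit 11589381836) (nat_lit 760) (nat_lit 2820607658) (nat_lit 76) (nat_lit 13650100767) (nat_lit 257) (nat_lit 5) (nat_lit 267) (nat_lit 5) (nat_lit 258) (nat_lit 5) (nat_lit 339) (nat_lit 308) (nat_lit 133)) (XT.nd (nat_lit 78) (nat_lit 608) (nat_lit 0) (XT.lf (nat_lit 0) (nat_lit 16828069873) (nat_lit 760) (nat_lit 10225266520) (nat_lit 76) (nat_lit 1508129523) (nat_lit 248) (nat_lit 5) (nat_lit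 258) (nat_lit 5) (nat_lit 249) (nat_lit 5) (nat_lit 340) (nat_lit 308) (nat_lit 132)) (XT.lf (nat_lit 0) (nat_lit 11131820954) (nat_lit 608) (nat_lit 11274226783) (nat_lit 684) (nat_lit 6668196289) (nat_lit 240) (nat_lit 5) (nat_lit 248) (nat_lit 5) (nat_lit 249) (nat_lit 5) (nat_lit 341) (nat_lit 308) (nat_lit 131)))) (XT.nd (nat_lit 156) (nat_lit 1216) (nat_lit 0) (XT.nd (nat_lit 78) (nat_lit 76) (nat_lit 0) (XT.lf (nat_lit 0) (nat_lit 3677509586) (nat_lit 608) (nat_lit 24594171965) (nat_lit 684) (nat_lit 1328321257) (nat_lit 232) (nat_lit 5) (nat_lit 240) (nat_lit 5) (nat_lit 241) (nat_lit 5) (nat_lit 342) (nat_lit 308) (nat_lit 130)) (XT.lf (nat_lit 0) (nat_lit 4309272829) (nat_lit 684) (nat_lit 4057229125) (nat_lit 76) (nat_lit 21770649447) (nat_lit 231) (nat_lit 5) (nat_lit 240) (nat_lit 5) (nat_lit 232) (nat_lit 5) (nat_lit 343) (nat_lit 308) (nat_lit 129))) (XT.nd (nat_lit 78) (nat_lit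 608) (nat_lit 0) (XT.lf (nat_lit 0) (nat_lit 10269095447) (nat_lit 684) (nat_lit 12048982992) (nat_lit 76) (nat_lit 8368740844) (nat_lit 223) (nat_lit 5) (nat_lit 232) (nat_lit 5) (nat_lit 224) (nat_lit 5) (nat_lit 344) (nat_lit 308) (nat_lit 128)) (XT.lf (nat_lit 0) (nat_lit 10897359920) (nat_lit 608) (nat_lit 5659455314) (nat_lit 684) (nat_lit 14693183202) (nat_lit 215) (nat_lit 5) (nat_lit 223) (nat_lit 5) (nat_lit 224) (nat_lit 5) (nat_lit 345) (nat_lit 308) (nat_lit 127)))))) (XT.nd (nat_lit 37986) (nat_lit 0) (nat_lit 14364) (XT.nd (nat_lit 234) (nat_lit 532) (nat_lit 0) (XT.nd (nat_lit 78) (nat_lit 608) (nat_lit 0) (XT.lf (nat_lit 0) (nat_lit 2824132752) (nat_lit 532) (nat_lit 20379047876) (nat_lit 608) (nat_lit 8623495243) (nat_lit 208) (nat_lit 5) (nat_lit 215) (nat_lit 5) (nat_lit 216) (nat_lit 5) (nat_lit 346) (nat_lit 308) (nat_lit 126)) (XT.nd (nat_lit 78) (nat_lit 608) (nat_lit 0)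 (XT.lf (nat_lit 0) (nat_lit 26930260676) (nat_lit 532) (nat_lit 3289131684) (nat_lit 608) (nat_lit 2197855257) (nat_lit 208) (nat_lit 5) (nat_lit 215) (nat_lit 5) (nat_lit 216) (nat_lit 5) (nat_lit 347) (nat_lit 308) (nat_lit 125)) (XT.lf (nat_lit 0) (nat_lit 4574582127) (nat_lit 608) (nat_lit 14168770817) (nat_lit 76) (nat_lit 14277372403) (nat_lit 200) (nat_lit 5) (nat_lit 208) (nat_lit 5) (nat_lit 201) (nat_lit 5) (nat_lit 348) (nat_lit 308) (nat_lit 124)))) (XT.nd (nat_lit 37596) (nat_lit 0) (nat_lit 14212) (XT.nd (nat_lit 37518) (nat_lit 0) (nat_lit 14212) (XT.lf (nat_lit 0) (nat_lit 10448634149) (nat_lit 532) (nat_lit 1194282545) (nat_lit 608) (nat_lit 21996651334) (nat_lit 193) (nat_lit 5) (nat_lit 200) (nat_lit 5) (nat_lit 201) (nat_lit 5) (nat_lit 349) (nat_lit 308) (nat_lit 123)) (XT.lf (nat_lit 0) (nat_lit 3158989803) (nat_lit 1748) (nat_lit 2807594126) (nat_lit 1748) (nat_lit 2807594126)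 (nat_lit 380) (nat_lit 3) (nat_lit 403) (nat_lit 3) (nat_lit 403) (nat_lit 5) (nat_lit 309) (nat_lit 309) (nat_lit 162))) (XT.nd (nat_lit 78) (nat_lit 0) (nat_lit 76) (XT.lf (nat_lit 76) (nat_lit 6432108604) (nat_lit 0) (nat_lit 329831168) (nat_lit 1748) (nat_lit 11042416283) (nat_lit 381) (nat_lit 5) (nat_lit 380) (nat_lit 3) (nat_lit 403) (nat_lit 5) (nat_lit 310) (nat_lit 309) (nat_lit 161)) (XT.lf (nat_lit 76) (nat_lit 778419716) (nat_lit 0) (nat_lit 6547609987) (nat_lit 1748) (nat_lit 10739879505) (nat_lit 382) (nat_lit 5) (nat_lit 381) (nat_lit 5) (nat_lit 404) (nat_lit 5) (nat_lit 311) (nat_lit 309) (nat_lit 160))))) (XT.nd (nat_lit 234) (nat_lit 0) (nat_lit 152) (XT.nd (nat_lit 78) (nat_lit 0) (nat_lit 0) (XT.lf (nat_lit 0) (nat_lit 8010092233) (nat_lit 1672) (nat_lit 4928806962) (nat_lit 1748) (nat_lit 5394357916) (nat_lit 382) (nat_lit 5) (nat_lit 404) (nat_lit 5) (nat_lit 405) (nat_lit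 5) (nat_lit 312) (nat_lit 309) (nat_lit 159)) (XT.nd (nat_lit 78) (nat_lit 0) (nat_lit 76) (XT.lf (nat_lit 76) (nat_lit 7853376563) (nat_lit 0) (nat_lit 944757719) (nat_lit 1748) (nat_lit 9808830905) (nat_lit 383) (nat_lit 5) (nat_lit 382) (nat_lit 5) (nat_lit 405) (nat_lit 5) (nat_lit 313) (nat_lit 309) (nat_lit 158)) (XT.lf (nat_lit 76) (nat_lit 2145490843) (nat_lit 0) (nat_lit 7574953338) (nat_lit 1748) (nat_lit 9166236420) (nat_lit 384) (nat_lit 5) (nat_lit 383) (nat_lit 5) (nat_lit 406) (nat_lit 5) (nat_lit 314) (nat_lit 309) (nat_lit 157)))) (XT.nd (nat_lit 156) (nat_lit 0) (nat_lit 76) (XT.nd (nat_lit 78) (nat_lit 0) (nat_lit 0) (XT.lf (nat_lit 0) (nat_lit 10770187657) (nat_lit 1672) (nat_lit 3638947920) (nat_lit 1748) (nat_lit 4763664992) (nat_lit 384) (nat_lit 5) (nat_lit 406) (nat_lit 5) (nat_lit 407) (nat_lit 5) (nat_lit 315) (nat_lit 309) (nat_lit 156)) (XT.lf (nat_lit 76) (nat_lit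 9929358264) (nat_lit 0) (nat_lit 2026807224) (nat_lit 1748) (nat_lit 7509251940) (nat_lit 385) (nat_lit 5) (nat_lit 384) (nat_lit 5) (nat_lit 407) (nat_lit 5) (nat_lit 316) (nat_lit 309) (nat_lit 155))) (XT.nd (nat_lit 78) (nat_lit 0) (nat_lit 76) (XT.lf (nat_lit 76) (nat_lit 4166338090) (nat_lit 0) (nat_lit 9122805094) (nat_lit 1748) (nat_lit 6475449094) (nat_lit 386) (nat_lit 5) (nat_lit 385) (nat_lit 5) (nat_lit 408) (nat_lit 5) (nat_lit 317) (nat_lit 309) (nat_lit 154)) (XT.lf (nat_lit 0) (nat_lit 14754108081) (nat_lit 1672) (nat_lit 1705132197) (nat_lit 1748) (nat_lit 3611669804) (nat_lit 386) (nat_lit 5) (nat_lit 408) (nat_lit 5) (nat_lit 409) (nat_lit 5) (nat_lit 318) (nat_lit 309) (nat_lit 153))))))))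
noncomputable def xc118 : XT := (XT.nd (nat_lit 2106) (nat_lit 1748) (nat_lit 0) (XT.nd (nat_lit 1014) (nat_lit 7144) (nat_lit 0) (XT.nd (nat_lit 468) (nat_lit 3648) (nat_lit 0) (XT.nd (nat_lit 234) (nat_lit 1596) (nat_lit 0) (XT.nd (nat_lit 78) (nat_lit 0) (nat_lit 76) (XT.lf (nat_lit 76) (nat_lit 12703770225) (nat_lit 0) (nat_lit 3693201145) (nat_lit 1748) (nat_lit 3986774506) (nat_lit 387) (nat_lit 5) (nat_lit 386) (nat_lit 5) (nat_lit 409) (nat_lit 5) (nat_lit 319) (nat_lit 309) (nat_lit 152)) (XT.nd (nat_lit 78) (nat_lit 0) (nat_lit 76) (XT.lf (nat_lit 76) (nat_lit 6884646268) (nat_lit 0) (nat_lit 11312912111) (nat_lit 1748) (nat_lit 2506246832) (nat_lit 388) (nat_lit 5) (nat_lit 387) (nat_lit 5) (nat_lit 410) (nat_lit 5) (nat_lit 320) (nat_lit 309) (nat_lit 151)) (XT.lf (nat_lit 76) (nat_lit 927791601) (nat_lit 0) (nat_lit 19209860528) (nat_lit 1748) (nat_lit 894111431) (nat_lit 389) (nat_lit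 5) (nat_lit 388) (nat_lit 5) (nat_lit 411) (nat_lit 5) (nat_lit 321) (nat_lit 309) (nat_lit 150)))) (XT.nd (nat_lit 78) (nat_lit 0) (nat_lit 76) (XT.lf (nat_lit 0) (nat_lit 917366081) (nat_lit 1748) (nat_lit 5149459380) (nat_lit 1824) (nat_lit 15299421772) (nat_lit 365) (nat_lit 5) (nat_lit 388) (nat_lit 5) (nat_lit 389) (nat_lit 5) (nat_lit 322) (nat_lit 309) (nat_lit 149)) (XT.nd (nat_lit 78) (nat_lit 0) (nat_lit 0) (XT.lf (nat_lit 0) (nat_lit 2878858066) (nat_lit 1748) (nat_lit 11381303426) (nat_lit 1824) (nat_lit 7448335852) (nat_lit 366) (nat_lit 5) (nat_lit 389) (nat_lit 5) (nat_lit 390) (nat_lit 5) (nat_lit 323) (nat_lit 309) (nat_lit 148)) (XT.lf (nat_lit 76) (nat_lit 4287027821) (nat_lit 0) (nat_lit 707290167) (nat_lit 1824) (nat_lit 17064800802) (nat_lit 367) (nat_lit 5) (nat_lit 366) (nat_lit 5) (nat_lit 390) (nat_lit 5) (nat_lit 324) (nat_lit 309) (nat_lit 147))))) (XT.nd (nat_lit 234)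 (nat_lit 2584) (nat_lit 0) (XT.nd (nat_lit 78) (nat_lit 1216) (nat_lit 0) (XT.lf (nat_lit 0) (nat_lit 7328722014) (nat_lit 1748) (nat_lit 1930853746) (nat_lit 1824) (nat_lit 13157579625) (nat_lit 367) (nat_lit 5) (nat_lit 390) (nat_lit 5) (nat_lit 391) (nat_lit 5) (nat_lit 325) (nat_lit 309) (nat_lit 146)) (XT.nd (nat_lit 78) (nat_lit 1292) (nat_lit 0) (XT.lf (nat_lit 0) (nat_lit 9855279652) (nat_lit 1748) (nat_lit 8249560492) (nat_lit 76) (nat_lit 4678656436) (nat_lit 368) (nat_lit 5) (nat_lit 391) (nat_lit 5) (nat_lit 369) (nat_lit 5) (nat_lit 326) (nat_lit 309) (nat_lit 145)) (XT.lf (nat_lit 0) (nat_lit 8400043785) (nat_lit 1292) (nat_lit 4179463657) (nat_lit 1368) (nat_lit 10578888861) (nat_lit 351) (nat_lit 5) (nat_lit 368) (nat_lit 5) (nat_lit 369) (nat_lit 5) (nat_lit 327) (nat_lit 309) (nat_lit 144)))) (XT.nd (nat_lit 156) (nat_lit 1748) (nat_lit 0) (XT.nd (nat_lit 78) (nat_lit 0) (nat_lit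 0) (XT.lf (nat_lit 0) (nat_lit 2072753656) (nat_lit 836) (nat_lit 13440858654) (nat_lit 912) (nat_lit 8028373295) (nat_lit 340) (nat_lit 5) (nat_lit 351) (nat_lit 5) (nat_lit 352) (nat_lit 5) (nat_lit 328) (nat_lit 309) (nat_lit 143)) (XT.lf (nat_lit 0) (nat_lit 18662094401) (nat_lit 912) (nat_lit 4364760895) (nat_lit 76) (nat_lit 907705639) (nat_lit 340) (nat_lit 5) (nat_lit 352) (nat_lit 5) (nat_lit 341) (nat_lit 5) (nat_lit 329) (nat_lit 309) (nat_lit 142))) (XT.nd (nat_lit 78) (nat_lit 912) (nat_lit 0) (XT.lf (nat_lit 0) (nat_lit 13331244178) (nat_lit 836) (nat_lit 8743056349) (nat_lit 912) (nat_lit 2261232878) (nat_lit 329) (nat_lit 5) (nat_lit 340) (nat_lit 5) (nat_lit 341) (nat_lit 5) (nat_lit 330) (nat_lit 309) (nat_lit 141)) (XT.lf (nat_lit 0) (nat_lit 936442728) (nat_lit 912) (nat_lit 17837500054) (nat_lit 76) (nat_lit 5972345640) (nat_lit 317) (nat_lit 5) (nat_lit 329) (nat_lit 5) (nat_lit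 318) (nat_lit 5) (nat_lit 331) (nat_lit 309) (nat_lit 140)))))) (XT.nd (nat_lit 546) (nat_lit 3268) (nat_lit 0) (XT.nd (nat_lit 234) (nat_lit 2280) (nat_lit 0) (XT.nd (nat_lit 78) (nat_lit 760) (nat_lit 0) (XT.lf (nat_lit 0) (nat_lit 264812129) (nat_lit 836) (nat_lit 4063052130) (nat_lit 912) (nat_lit 20838637031) (nat_lit 306) (nat_lit 5) (nat_lit 317) (nat_lit 5) (nat_lit 318) (nat_lit 5) (nat_lit 332) (nat_lit 309) (nat_lit 139)) (XT.nd (nat_lit 78) (nat_lit 760) (nat_lit 0) (XT.lf (nat_lit 0) (nat_lit 8007971259) (nat_lit 912) (nat_lit 6521968204) (nat_lit 76) (nat_lit 11065646953) (nat_lit 306) (nat_lit 5) (nat_lit 318) (nat_lit 5) (nat_lit 307) (nat_lit 5) (nat_lit 333) (nat_lit 309) (nat_lit 138)) (XT.lf (nat_lit 0) (nat_lit 11904690371) (nat_lit 836) (nat_lit 13499651716) (nat_lit 76) (nat_lit 631082421) (nat_lit 296) (nat_lit 5) (nat_lit 307) (nat_lit 5) (nat_lit 297) (nat_lit 5) (nat_lit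 334) (nat_lit 309) (nat_lit 137)))) (XT.nd (nat_lit 156) (nat_lit 1520) (nat_lit 0) (XT.nd (nat_lit 78) (nat_lit 0) (nat_lit 0) (XT.lf (nat_lit 0) (nat_lit 5738285824) (nat_lit 760) (nat_lit 10352554869) (nat_lit 836) (nat_lit 10394170916) (nat_lit 286) (nat_lit 5) (nat_lit 296) (nat_lit 5) (nat_lit 297) (nat_lit 5) (nat_lit 335) (nat_lit 309) (nat_lit 136)) (XT.lf (nat_lit 0) (nat_lit 20521862615) (nat_lit 836) (nat_lit 1248639521) (nat_lit 76) (nat_lit 5175202774) (nat_lit 286) (nat_lit 5) (nat_lit 297) (nat_lit 5) (nat_lit 287) (nat_lit 5) (nat_lit 336) (nat_lit 309) (nat_lit 135))) (XT.nd (nat_lit 78) (nat_lit 836) (nat_lit 0) (XT.lf (nat_lit 0) (nat_lit 19008159948) (nat_lit 684) (nat_lit 6264243718) (nat_lit 760) (nat_lit 2144087776) (nat_lit 277) (nat_lit 5) (nat_lit 286) (nat_lit 5) (nat_lit 287) (nat_lit 5) (nat_lit 337) (nat_lit 309) (nat_lit 134)) (XT.lf (nat_lit 0) (nat_lit 2379351066)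 (nat_lit 836) (nat_lit 15836649966) (nat_lit 76) (nat_lit 9682210838) (nat_lit 266) (nat_lit 5) (nat_lit 277) (nat_lit 5) (nat_lit 267) (nat_lit 5) (nat_lit 338) (nat_lit 309) (nat_lit 133))))) (XT.nd (nat_lit 234) (nat_lit 1900) (nat_lit 0) (XT.nd (nat_lit 78) (nat_lit 684) (nat_lit 0) (XT.lf (nat_lit 0) (nat_lit 4868353716) (nat_lit 684) (nat_lit 2266198043) (nat_lit 760) (nat_lit 21257048818) (nat_lit 257) (nat_lit 5) (nat_lit 266) (nat_lit 5) (nat_lit 267) (nat_lit 5) (nat_lit 339) (nat_lit 309) (nat_lit 132)) (XT.nd (nat_lit 78) (nat_lit 684) (nat_lit 0) (XT.lf (nat_lit 0) (nat_lit 12226676791) (nat_lit 760) (nat_lit 2585326006) (nat_lit 76) (nat_lit 14083906552) (nat_lit 257) (nat_lit 5) (nat_lit 267) (nat_lit 5) (nat_lit 258) (nat_lit 5) (nat_lit 340) (nat_lit 309) (nat_lit 131)) (XT.lf (nat_lit 0) (nat_lit 17616337873) (nat_lit 760) (nat_lit 10211668867) (nat_lit 76) (nat_lit 1584448858)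 (nat_lit 248) (nat_lit 5) (nat_lit 258) (nat_lit 5) (nat_lit 249) (nat_lit 5) (nat_lit 341) (nat_lit 309) (nat_lit 130)))) (XT.nd (nat_lit 156) (nat_lit 684) (nat_lit 0) (XT.nd (nat_lit 78) (nat_lit 608) (nat_lit 0) (XT.lf (nat_lit 0) (nat_lit 11780933841) (nat_lit 608) (nat_lit 11574512326) (nat_lit 684) (nat_lit 6585300475) (nat_lit 240) (nat_lit 5) (nat_lit 248) (nat_lit 5) (nat_lit 249) (nat_lit 5) (nat_lit 342) (nat_lit 309) (nat_lit 129)) (XT.lf (nat_lit 0) (nat_lit 4103269549) (nat_lit 608) (nat_lit 25287992341) (nat_lit 684) (nat_lit 1091137292) (nat_lit 232) (nat_lit 5) (nat_lit 240) (nat_lit 5) (nat_lit 241) (nat_lit 5) (nat_lit 343) (nat_lit 309) (nat_lit 128))) (XT.nd (nat_lit 78) (nat_lit 608) (nat_lit 0) (XT.lf (nat_lit 0) (nat_lit 4703988156) (nat_lit 684) (nat_lit 3869004543) (nat_lit 76) (nat_lit 22462797822) (nat_lit 231) (nat_lit 5) (nat_lit 240) (nat_lit 5) (nat_lit 232) (nat_lit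 5) (nat_lit 344) (nat_lit 309) (nat_lit 127)) (XT.lf (nat_lit 0) (nat_lit 10837147617) (nat_lit 684) (nat_lit 12100477567) (nat_lit 76) (nat_lit 8664437267) (nat_lit 223) (nat_lit 5) (nat_lit 232) (nat_lit 5) (nat_lit 224) (nat_lit 5) (nat_lit 345) (nat_lit 309) (nat_lit 126))))))) (XT.nd (nat_lit 38532) (nat_lit 0) (nat_lit 8892) (XT.nd (nat_lit 37986) (nat_lit 0) (nat_lit 13756) (XT.nd (nat_lit 234) (nat_lit 608) (nat_lit 0) (XT.nd (nat_lit 78) (nat_lit 532) (nat_lit 0) (XT.lf (nat_lit 0) (nat_lit 11529226657) (nat_lit 608) (nat_lit 5778680039) (nat_lit 684) (nat_lit 14874346842) (nat_lit 215) (nat_lit 5) (nat_lit 223) (nat_lit 5) (nat_lit 224) (nat_lit 5) (nat_lit 346) (nat_lit 309) (nat_lit 125)) (XT.nd (nat_lit 78) (nat_lit 0) (nat_lit 0) (XT.lf (nat_lit 0) (nat_lit 3213692111) (nat_lit 532) (nat_lit 20934859505) (nat_lit 608) (nat_lit 8627786485) (nat_lit 208) (nat_lit 5) (nat_lit 215) (nat_lit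 5) (nat_lit 216) (nat_lit 5) (nat_lit 347) (nat_lit 309) (nat_lit 124)) (XT.lf (nat_lit 0) (nat_lit 28034125173) (nat_lit 532) (nat_lit 3333864074) (nat_lit 608) (nat_lit 2016787405) (nat_lit 208) (nat_lit 5) (nat_lit 215) (nat_lit 5) (nat_lit 216) (nat_lit 5) (nat_lit 348) (nat_lit 309) (nat_lit 123)))) (XT.nd (nat_lit 37596) (nat_lit 0) (nat_lit 13680) (XT.lf (nat_lit 0) (nat_lit 4950758671) (nat_lit 608) (nat_lit 14294799556) (nat_lit 76) (nat_lit 14760869140) (nat_lit 200) (nat_lit 5) (nat_lit 208) (nat_lit 5) (nat_lit 201) (nat_lit 5) (nat_lit 349) (nat_lit 309) (nat_lit 122)) (XT.nd (nat_lit 78) (nat_lit 0) (nat_lit 0) (XT.lf (nat_lit 0) (nat_lit 3558233258) (nat_lit 1748) (nat_lit 2736420699) (nat_lit 1748) (nat_lit 2736420699) (nat_lit 380) (nat_lit 3) (nat_lit 403) (nat_lit 3) (nat_lit 403) (nat_lit 5) (nat_lit 310) (nat_lit 310) (nat_lit 160)) (XT.lf (nat_lit 76) (nat_lit 6930831962)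 (nat_lit 0) (nat_lit 627162388) (nat_lit 1748) (nat_lit 10768163868) (nat_lit 381) (nat_lit 5) (nat_lit 380) (nat_lit 3) (nat_lit 403) (nat_lit 5) (nat_lit 311) (nat_lit 310) (nat_lit 159))))) (XT.nd (nat_lit 234) (nat_lit 0) (nat_lit 152) (XT.nd (nat_lit 78) (nat_lit 0) (nat_lit 76) (XT.lf (nat_lit 76) (nat_lit 1116536266) (nat_lit 0) (nat_lit 7005424934) (nat_lit 1748) (nat_lit 10473951213) (nat_lit 382) (nat_lit 5) (nat_lit 381) (nat_lit 5) (nat_lit 404) (nat_lit 5) (nat_lit 312) (nat_lit 310) (nat_lit 158)) (XT.nd (nat_lit 78) (nat_lit 0) (nat_lit 0) (XT.lf (nat_lit 0) (nat_lit 8808116855) (nat_lit 1672) (nat_lit 4757802117) (nat_lit 1748) (nat_lit 5305743494) (nat_lit 382) (nat_lit 5) (nat_lit 404) (nat_lit 5) (nat_lit 405) (nat_lit 5) (nat_lit 313) (nat_lit 310) (nat_lit 157)) (XT.lf (nat_lit 76) (nat_lit 8402673642) (nat_lit 0) (nat_lit 1202918918) (nat_lit 1748) (nat_lit 9548286131) (nat_lit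 383) (nat_lit 5) (nat_lit 382) (nat_lit 5) (nat_lit 405) (nat_lit 5) (nat_lit 314) (nat_lit 310) (nat_lit 156)))) (XT.nd (nat_lit 156) (nat_lit 0) (nat_lit 76) (XT.nd (nat_lit 78) (nat_lit 0) (nat_lit 76) (XT.lf (nat_lit 76) (nat_lit 2531042131) (nat_lit 0) (nat_lit 8009335796) (nat_lit 1748) (nat_lit 8901923901) (nat_lit 384) (nat_lit 5) (nat_lit 383) (nat_lit 5) (nat_lit 406) (nat_lit 5) (nat_lit 315) (nat_lit 310) (nat_lit 155)) (XT.lf (nat_lit 0) (nat_lit 11604920054) (nat_lit 1672) (nat_lit 3424319654) (nat_lit 1748) (nat_lit 4708111582) (nat_lit 384) (nat_lit 5) (nat_lit 406) (nat_lit 5) (nat_lit 407) (nat_lit 5) (nat_lit 316) (nat_lit 310) (nat_lit 154))) (XT.nd (nat_lit 78) (nat_lit 0) (nat_lit 76) (XT.lf (nat_lit 76) (nat_lit 10545782498) (nat_lit 0) (nat_lit 2267861166) (nat_lit 1748) (nat_lit 7225371334) (nat_lit 385) (nat_lit 5) (nat_lit 384) (nat_lit 5) (nat_lit 407) (nat_lit 5) (nat_lit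 317) (nat_lit 310) (nat_lit 153)) (XT.lf (nat_lit 76) (nat_lit 4616051837) (nat_lit 0) (nat_lit 9557003004) (nat_lit 1748) (nat_lit 6174392703) (nat_lit 386) (nat_lit 5) (nat_lit 385) (nat_lit 5) (nat_lit 408) (nat_lit 5) (nat_lit 318) (nat_lit 310) (nat_lit 152)))))) (XT.nd (nat_lit 546) (nat_lit 3648) (nat_lit 0) (XT.nd (nat_lit 234) (nat_lit 1596) (nat_lit 0) (XT.nd (nat_lit 78) (nat_lit 0) (nat_lit 0) (XT.lf (nat_lit 0) (nat_lit 15666823750) (nat_lit 1672) (nat_lit 1430219884) (nat_lit 1748) (nat_lit 3566225151) (nat_lit 386) (nat_lit 5) (nat_lit 408) (nat_lit 5) (nat_lit 409) (nat_lit 5) (nat_lit 319) (nat_lit 310) (nat_lit 151)) (XT.nd (nat_lit 78) (nat_lit 0) (nat_lit 76) (XT.lf (nat_lit 76) (nat_lit 13405659573) (nat_lit 0) (nat_lit 3941704043) (nat_lit 1748) (nat_lit 3638368902) (nat_lit 387) (nat_lit 5) (nat_lit 386) (nat_lit 5) (nat_lit 409) (nat_lit 5) (nat_lit 320) (nat_lit 310) (nat_lit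 150)) (XT.lf (nat_lit 76) (nat_lit 7417008452) (nat_lit 0) (nat_lit 11772853322) (nat_lit 1748) (nat_lit 2125784361) (nat_lit 388) (nat_lit 5) (nat_lit 387) (nat_lit 5) (nat_lit 410) (nat_lit 5) (nat_lit 321) (nat_lit 310) (nat_lit 149)))) (XT.nd (nat_lit 156) (nat_lit 0) (nat_lit 76) (XT.nd (nat_lit 78) (nat_lit 1748) (nat_lit 0) (XT.lf (nat_lit 76) (nat_lit 1286054860) (nat_lit 0) (nat_lit 19890487666) (nat_lit 1748) (nat_lit 477143095) (nat_lit 389) (nat_lit 5) (nat_lit 388) (nat_lit 5) (nat_lit 411) (nat_lit 5) (nat_lit 322) (nat_lit 310) (nat_lit 148)) (XT.lf (nat_lit 0) (nat_lit 1370101890) (nat_lit 1748) (nat_lit 4977167465) (nat_lit 1824) (nat_lit 15651141532) (nat_lit 365) (nat_lit 5) (nat_lit 388) (nat_lit 5) (nat_lit 389) (nat_lit 5) (nat_lit 323) (nat_lit 310) (nat_lit 147))) (XT.nd (nat_lit 78) (nat_lit 0) (nat_lit 0) (XT.lf (nat_lit 0) (nat_lit 3379534267) (nat_lit 1748) (nat_lit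 11392053182) (nat_lit 1824) (nat_lit 7579568446) (nat_lit 366) (nat_lit 5) (nat_lit 389) (nat_lit 5) (nat_lit 390) (nat_lit 5) (nat_lit 324) (nat_lit 310) (nat_lit 146)) (XT.lf (nat_lit 76) (nat_lit 4740962960) (nat_lit 0) (nat_lit 807539952) (nat_lit 1824) (nat_lit 17164001207) (nat_lit 367) (nat_lit 5) (nat_lit 366) (nat_lit 5) (nat_lit 390) (nat_lit 5) (nat_lit 325) (nat_lit 310) (nat_lit 145))))) (XT.nd (nat_lit 234) (nat_lit 2584) (nat_lit 0) (XT.nd (nat_lit 78) (nat_lit 1216) (nat_lit 0) (XT.lf (nat_lit 0) (nat_lit 7940663541) (nat_lit 1748) (nat_lit 1664288425) (nat_lit 1824) (nat_lit 13476584127) (nat_lit 367) (nat_lit 5) (nat_lit 390) (nat_lit 5) (nat_lit 391) (nat_lit 5) (nat_lit 326) (nat_lit 310) (nat_lit 144)) (XT.nd (nat_lit 78) (nat_lit 1292) (nat_lit 0) (XT.lf (nat_lit 0) (nat_lit 10533258411) (nat_lit 1748) (nat_lit 8169470034) (nat_lit 76) (nat_lit 4756342784) (nat_lit 368) (nat_lit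 5) (nat_lit 391) (nat_lit 5) (nat_lit 369) (nat_lit 5) (nat_lit 327) (nat_lit 310) (nat_lit 143)) (XT.lf (nat_lit 0) (nat_lit 8974307820) (nat_lit 1292) (nat_lit 4355862014) (nat_lit 1368) (nat_lit 10515237241) (nat_lit 351) (nat_lit 5) (nat_lit 368) (nat_lit 5) (nat_lit 369) (nat_lit 5) (nat_lit 328) (nat_lit 310) (nat_lit 142)))) (XT.nd (nat_lit 156) (nat_lit 1748) (nat_lit 0) (XT.nd (nat_lit 78) (nat_lit 0) (nat_lit 0) (XT.lf (nat_lit 0) (nat_lit 2459912029) (nat_lit 836) (nat_lit 13883302054) (nat_lit 912) (nat_lit 7897479675) (nat_lit 340) (nat_lit 5) (nat_lit 351) (nat_lit 5) (nat_lit 352) (nat_lit 5) (nat_lit 329) (nat_lit 310) (nat_lit 141)) (XT.lf (nat_lit 0) (nat_lit 19575295851) (nat_lit 912) (nat_lit 4172614590) (nat_lit 76) (nat_lit 897360796) (nat_lit 340) (nat_lit 5) (nat_lit 352) (nat_lit 5) (nat_lit 341) (nat_lit 5) (nat_lit 330) (nat_lit 310) (nat_lit 140))) (XT.nd (nat_lit 78)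 (nat_lit 912) (nat_lit 0) (XT.lf (nat_lit 0) (nat_lit 14049028898) (nat_lit 836) (nat_lit 9032611523) (nat_lit 912) (nat_lit 1976804580) (nat_lit 329) (nat_lit 5) (nat_lit 340) (nat_lit 5) (nat_lit 341) (nat_lit 5) (nat_lit 331) (nat_lit 310) (nat_lit 139)) (XT.lf (nat_lit 0) (nat_lit 1303973466) (nat_lit 912) (nat_lit 18047970894) (nat_lit 76) (nat_lit 6129703924) (nat_lit 317) (nat_lit 5) (nat_lit 329) (nat_lit 5) (nat_lit 318) (nat_lit 5) (nat_lit 332) (nat_lit 310) (nat_lit 138))))))))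
noncomputable def xc119 : XT := (XT.nd (nat_lit 39702) (nat_lit 0) (nat_lit 1140) (XT.nd (nat_lit 1014) (nat_lit 1748) (nat_lit 0) (XT.nd (nat_lit 468) (nat_lit 3496) (nat_lit 0) (XT.nd (nat_lit 234) (nat_lit 1444) (nat_lit 0) (XT.nd (nat_lit 78) (nat_lit 760) (nat_lit 0) (XT.lf (nat_lit 0) (nat_lit 592143527) (nat_lit 836) (nat_lit 4197181260) (nat_lit 912) (nat_lit 21125305998) (nat_lit 306) (nat_lit 5) (nat_lit 317) (nat_lit 5) (nat_lit 318) (nat_lit 5) (nat_lit 333) (nat_lit 310) (nat_lit 137)) (XT.nd (nat_lit 78) (nat_lit 760) (nat_lit 0) (XT.lf (nat_lit 0) (nat_lit 8570098888) (nat_lit 912) (nat_lit 6400800035) (nat_lit 76) (nat_lit 11385891052) (nat_lit 306) (nat_lit 5) (nat_lit 318) (nat_lit 5) (nat_lit 307) (nat_lit 5) (nat_lit 334) (nat_lit 310) (nat_lit 136)) (XT.lf (nat_lit 0) (nat_lit 12576349357) (nat_lit 836) (nat_lit 13586425286) (nat_lit 76) (nat_lit 647202561) (nat_lit 296) (nat_lit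 5) (nat_lit 307) (nat_lit 5) (nat_lit 297) (nat_lit 5) (nat_lit 335) (nat_lit 310) (nat_lit 135)))) (XT.nd (nat_lit 78) (nat_lit 684) (nat_lit 0) (XT.lf (nat_lit 0) (nat_lit 6223487704) (nat_lit 760) (nat_lit 10657468309) (nat_lit 836) (nat_lit 10392244868) (nat_lit 286) (nat_lit 5) (nat_lit 296) (nat_lit 5) (nat_lit 297) (nat_lit 5) (nat_lit 336) (nat_lit 310) (nat_lit 134)) (XT.nd (nat_lit 78) (nat_lit 684) (nat_lit 0) (XT.lf (nat_lit 0) (nat_lit 21435991180) (nat_lit 836) (nat_lit 976023355) (nat_lit 76) (nat_lit 5335885005) (nat_lit 286) (nat_lit 5) (nat_lit 297) (nat_lit 5) (nat_lit 287) (nat_lit 5) (nat_lit 337) (nat_lit 310) (nat_lit 133)) (XT.lf (nat_lit 0) (nat_lit 19883449494) (nat_lit 684) (nat_lit 6438886143) (nat_lit 760) (nat_lit 1910614319) (nat_lit 277) (nat_lit 5) (nat_lit 286) (nat_lit 5) (nat_lit 287) (nat_lit 5) (nat_lit 338) (nat_lit 310) (nat_lit 132))))) (XT.nd (nat_lit 234)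 (nat_lit 1976) (nat_lit 0) (XT.nd (nat_lit 78) (nat_lit 684) (nat_lit 0) (XT.lf (nat_lit 0) (nat_lit 2738146000) (nat_lit 836) (nat_lit 16001789326) (nat_lit 76) (nat_lit 9989283262) (nat_lit 266) (nat_lit 5) (nat_lit 277) (nat_lit 5) (nat_lit 267) (nat_lit 5) (nat_lit 339) (nat_lit 310) (nat_lit 131)) (XT.nd (nat_lit 78) (nat_lit 0) (nat_lit 0) (XT.lf (nat_lit 0) (nat_lit 5319335731) (nat_lit 684) (nat_lit 2310275507) (nat_lit 760) (nat_lit 21607931122) (nat_lit 257) (nat_lit 5) (nat_lit 266) (nat_lit 5) (nat_lit 267) (nat_lit 5) (nat_lit 340) (nat_lit 310) (nat_lit 130)) (XT.lf (nat_lit 0) (nat_lit 12866465595) (nat_lit 760) (nat_lit 2361349467) (nat_lit 76) (nat_lit 14529331432) (nat_lit 257) (nat_lit 5) (nat_lit 267) (nat_lit 5) (nat_lit 258) (nat_lit 5) (nat_lit 341) (nat_lit 310) (nat_lit 129)))) (XT.nd (nat_lit 156) (nat_lit 684) (nat_lit 0) (XT.nd (nat_lit 78) (nat_lit 608) (nat_lit 0)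 (XT.lf (nat_lit 0) (nat_lit 18411984107) (nat_lit 760) (nat_lit 10216053010) (nat_lit 76) (nat_lit 1661273914) (nat_lit 248) (nat_lit 5) (nat_lit 258) (nat_lit 5) (nat_lit 249) (nat_lit 5) (nat_lit 342) (nat_lit 310) (nat_lit 128)) (XT.lf (nat_lit 0) (nat_lit 12431428741) (nat_lit 608) (nat_lit 11885984418) (nat_lit 684) (nat_lit 6516159797) (nat_lit 240) (nat_lit 5) (nat_lit 248) (nat_lit 5) (nat_lit 249) (nat_lit 5) (nat_lit 343) (nat_lit 310) (nat_lit 127))) (XT.nd (nat_lit 78) (nat_lit 76) (nat_lit 0) (XT.lf (nat_lit 0) (nat_lit 4523695070) (nat_lit 608) (nat_lit 26005153382) (nat_lit 684) (nat_lit 862740671) (nat_lit 232) (nat_lit 5) (nat_lit 240) (nat_lit 5) (nat_lit 241) (nat_lit 5) (nat_lit 344) (nat_lit 310) (nat_lit 126)) (XT.lf (nat_lit 0) (nat_lit 5095307766) (nat_lit 684) (nat_lit 3692925131) (nat_lit 76) (nat_lit 23173470232) (nat_lit 231) (nat_lit 5) (nat_lit 240) (nat_lit 5) (nat_lit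 232) (nat_lit 5) (nat_lit 345) (nat_lit 310) (nat_lit 125)))))) (XT.nd (nat_lit 38142) (nat_lit 0) (nat_lit 13224) (XT.nd (nat_lit 234) (nat_lit 0) (nat_lit 0) (XT.nd (nat_lit 78) (nat_lit 1140) (nat_lit 0) (XT.lf (nat_lit 0) (nat_lit 11407317477) (nat_lit 684) (nat_lit 12171310808) (nat_lit 76) (nat_lit 8966442398) (nat_lit 223) (nat_lit 5) (nat_lit 232) (nat_lit 5) (nat_lit 224) (nat_lit 5) (nat_lit 346) (nat_lit 310) (nat_lit 124)) (XT.nd (nat_lit 78) (nat_lit 532) (nat_lit 0) (XT.lf (nat_lit 0) (nat_lit 12162544252) (nat_lit 608) (nat_lit 5904383795) (nat_lit 684) (nat_lit 15075849322) (nat_lit 215) (nat_lit 5) (nat_lit 223) (nat_lit 5) (nat_lit 224) (nat_lit 5) (nat_lit 347) (nat_lit 310) (nat_lit 123)) (XT.lf (nat_lit 0) (nat_lit 3597439454) (nat_lit 532) (nat_lit 21510534844) (nat_lit 608) (nat_lit 8646810846) (nat_lit 208) (nat_lit 5) (nat_lit 215) (nat_lit 5) (nat_lit 216) (nat_lit 5)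 (nat_lit 348) (nat_lit 310) (nat_lit 122)))) (XT.nd (nat_lit 37752) (nat_lit 0) (nat_lit 13072) (XT.nd (nat_lit 37674) (nat_lit 0) (nat_lit 13072) (XT.lf (nat_lit 0) (nat_lit 29154116480) (nat_lit 532) (nat_lit 3383034903) (nat_lit 608) (nat_lit 1844466529) (nat_lit 208) (nat_lit 5) (nat_lit 215) (nat_lit 5) (nat_lit 216) (nat_lit 5) (nat_lit 349) (nat_lit 310) (nat_lit 121)) (XT.lf (nat_lit 0) (nat_lit 3951975978) (nat_lit 1748) (nat_lit 2672032737) (nat_lit 1748) (nat_lit 2672032737) (nat_lit 380) (nat_lit 3) (nat_lit 403) (nat_lit 3) (nat_lit 403) (nat_lit 5) (nat_lit 311) (nat_lit 311) (nat_lit 158))) (XT.nd (nat_lit 78) (nat_lit 0) (nat_lit 76) (XT.lf (nat_lit 76) (nat_lit 7426965140) (nat_lit 0) (nat_lit 916913526) (nat_lit 1748) (nat_lit 10520443487) (nat_lit 381) (nat_lit 5) (nat_lit 380) (nat_lit 3) (nat_lit 403) (nat_lit 5) (nat_lit 312) (nat_lit 311) (nat_lit 157)) (XT.lf (nat_lit 76)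 (nat_lit 1446727574) (nat_lit 0) (nat_lit 7461969667) (nat_lit 1748) (nat_lit 10233805835) (nat_lit 382) (nat_lit 5) (nat_lit 381) (nat_lit 5) (nat_lit 404) (nat_lit 5) (nat_lit 313) (nat_lit 311) (nat_lit 156))))) (XT.nd (nat_lit 234) (nat_lit 0) (nat_lit 152) (XT.nd (nat_lit 78) (nat_lit 0) (nat_lit 0) (XT.lf (nat_lit 0) (nat_lit 9598066700) (nat_lit 1672) (nat_lit 4599971515) (nat_lit 1748) (nat_lit 5228847216) (nat_lit 382) (nat_lit 5) (nat_lit 404) (nat_lit 5) (nat_lit 405) (nat_lit 5) (nat_lit 314) (nat_lit 311) (nat_lit 155)) (XT.nd (nat_lit 78) (nat_lit 0) (nat_lit 76) (XT.lf (nat_lit 76) (nat_lit 8950442212) (nat_lit 0) (nat_lit 1455632434) (nat_lit 1748) (nat_lit 9311773360) (nat_lit 383) (nat_lit 5) (nat_lit 382) (nat_lit 5) (nat_lit 405) (nat_lit 5) (nat_lit 315) (nat_lit 311) (nat_lit 154)) (XT.lf (nat_lit 76) (nat_lit 2909722535) (nat_lit 0) (nat_lit 8444859397) (nat_lit 1748) (nat_lit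 8660640010) (nat_lit 384) (nat_lit 5) (nat_lit 383) (nat_lit 5) (nat_lit 406) (nat_lit 5) (nat_lit 316) (nat_lit 311) (nat_lit 153)))) (XT.nd (nat_lit 156) (nat_lit 0) (nat_lit 76) (XT.nd (nat_lit 78) (nat_lit 0) (nat_lit 0) (XT.lf (nat_lit 0) (nat_lit 12435324953) (nat_lit 1672) (nat_lit 3221839795) (nat_lit 1748) (nat_lit 4662284180) (nat_lit 384) (nat_lit 5) (nat_lit 406) (nat_lit 5) (nat_lit 407) (nat_lit 5) (nat_lit 317) (nat_lit 311) (nat_lit 152)) (XT.lf (nat_lit 76) (nat_lit 11162413761) (nat_lit 0) (nat_lit 2505799655) (nat_lit 1748) (nat_lit 6962202071) (nat_lit 385) (nat_lit 5) (nat_lit 384) (nat_lit 5) (nat_lit 407) (nat_lit 5) (nat_lit 318) (nat_lit 311) (nat_lit 151))) (XT.nd (nat_lit 78) (nat_lit 0) (nat_lit 76) (XT.lf (nat_lit 76) (nat_lit 5060616533) (nat_lit 0) (nat_lit 9995012705) (nat_lit 1748) (nat_lit 5892738008) (nat_lit 386) (nat_lit 5) (nat_lit 385) (nat_lit 5) (nat_lit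 408) (nat_lit 5) (nat_lit 319) (nat_lit 311) (nat_lit 150)) (XT.lf (nat_lit 0) (nat_lit 16579935660) (nat_lit 1672) (nat_lit 1165777739) (nat_lit 1748) (nat_lit 3528245605) (nat_lit 386) (nat_lit 5) (nat_lit 408) (nat_lit 5) (nat_lit 409) (nat_lit 5) (nat_lit 320) (nat_lit 311) (nat_lit 149))))))) (XT.nd (nat_lit 1014) (nat_lit 7144) (nat_lit 0) (XT.nd (nat_lit 468) (nat_lit 3648) (nat_lit 0) (XT.nd (nat_lit 234) (nat_lit 1596) (nat_lit 0) (XT.nd (nat_lit 78) (nat_lit 0) (nat_lit 76) (XT.lf (nat_lit 76) (nat_lit 14110191734) (nat_lit 0) (nat_lit 4189757092) (nat_lit 1748) (nat_lit 3306376752) (nat_lit 387) (nat_lit 5) (nat_lit 386) (nat_lit 5) (nat_lit 409) (nat_lit 5) (nat_lit 321) (nat_lit 311) (nat_lit 148)) (XT.nd (nat_lit 78) (nat_lit 0) (nat_lit 76) (XT.lf (nat_lit 76) (nat_lit 7946637941) (nat_lit 0) (nat_lit 12239672486) (nat_lit 1748) (nat_lit 1760064182) (nat_lit 388) (nat_lit 5) (nat_lit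 387) (nat_lit 5) (nat_lit 410) (nat_lit 5) (nat_lit 322) (nat_lit 311) (nat_lit 147)) (XT.lf (nat_lit 76) (nat_lit 1636098010) (nat_lit 0) (nat_lit 20585544573) (nat_lit 1748) (nat_lit 73141166) (nat_lit 389) (nat_lit 5) (nat_lit 388) (nat_lit 5) (nat_lit 411) (nat_lit 5) (nat_lit 323) (nat_lit 311) (nat_lit 146)))) (XT.nd (nat_lit 78) (nat_lit 0) (nat_lit 76) (XT.lf (nat_lit 0) (nat_lit 1812010703) (nat_lit 1748) (nat_lit 4818465054) (nat_lit 1824) (nat_lit 16019570215) (nat_lit 365) (nat_lit 5) (nat_lit 388) (nat_lit 5) (nat_lit 389) (nat_lit 5) (nat_lit 324) (nat_lit 311) (nat_lit 145)) (XT.nd (nat_lit 78) (nat_lit 0) (nat_lit 0) (XT.lf (nat_lit 0) (nat_lit 3871447638) (nat_lit 1748) (nat_lit 11422108352) (nat_lit 1824) (nat_lit 7720031679) (nat_lit 366) (nat_lit 5) (nat_lit 389) (nat_lit 5) (nat_lit 390) (nat_lit 5) (nat_lit 325) (nat_lit 311) (nat_lit 144)) (XT.lf (nat_lit 76) (nat_lit 5189841208)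 (nat_lit 0) (nat_lit 906260523) (nat_lit 1824) (nat_lit 17289870797) (nat_lit 367) (nat_lit 5) (nat_lit 366) (nat_lit 5) (nat_lit 390) (nat_lit 5) (nat_lit 326) (nat_lit 311) (nat_lit 143))))) (XT.nd (nat_lit 234) (nat_lit 2584) (nat_lit 0) (XT.nd (nat_lit 78) (nat_lit 1216) (nat_lit 0) (XT.lf (nat_lit 0) (nat_lit 8548456325) (nat_lit 1748) (nat_lit 1408353251) (nat_lit 1824) (nat_lit 13809505568) (nat_lit 367) (nat_lit 5) (nat_lit 390) (nat_lit 5) (nat_lit 391) (nat_lit 5) (nat_lit 327) (nat_lit 311) (nat_lit 142)) (XT.nd (nat_lit 78) (nat_lit 1292) (nat_lit 0) (XT.lf (nat_lit 0) (nat_lit 11209629780) (nat_lit 1748) (nat_lit 8105781137) (nat_lit 76) (nat_lit 4839957429) (nat_lit 368) (nat_lit 5) (nat_lit 391) (nat_lit 5) (nat_lit 369) (nat_lit 5) (nat_lit 328) (nat_lit 311) (nat_lit 141)) (XT.lf (nat_lit 0) (nat_lit 9547300577) (nat_lit 1292) (nat_lit 4534623884) (nat_lit 1368) (nat_lit 10471548082)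 (nat_lit 351) (nat_lit 5) (nat_lit 368) (nat_lit 5) (nat_lit 369) (nat_lit 5) (nat_lit 329) (nat_lit 311) (nat_lit 140)))) (XT.nd (nat_lit 156) (nat_lit 1748) (nat_lit 0) (XT.nd (nat_lit 78) (nat_lit 0) (nat_lit 0) (XT.lf (nat_lit 0) (nat_lit 2840030216) (nat_lit 836) (nat_lit 14336767502) (nat_lit 912) (nat_lit 7783998920) (nat_lit 340) (nat_lit 5) (nat_lit 351) (nat_lit 5) (nat_lit 352) (nat_lit 5) (nat_lit 330) (nat_lit 311) (nat_lit 139)) (XT.lf (nat_lit 0) (nat_lit 20495610263) (nat_lit 912) (nat_lit 3993250533) (nat_lit 76) (nat_lit 888862624) (nat_lit 340) (nat_lit 5) (nat_lit 352) (nat_lit 5) (nat_lit 341) (nat_lit 5) (nat_lit 331) (nat_lit 311) (nat_lit 138))) (XT.nd (nat_lit 78) (nat_lit 912) (nat_lit 0) (XT.lf (nat_lit 0) (nat_lit 14770101419) (nat_lit 836) (nat_lit 9329288316) (nat_lit 912) (nat_lit 1704064901) (nat_lit 329) (nat_lit 5) (nat_lit 340) (nat_lit 5) (nat_lit 341) (nat_lit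 5) (nat_lit 332) (nat_lit 311) (nat_lit 137)) (XT.lf (nat_lit 0) (nat_lit 1663045027) (nat_lit 912) (nat_lit 18283392336) (nat_lit 76) (nat_lit 6293035059) (nat_lit 317) (nat_lit 5) (nat_lit 329) (nat_lit 5) (nat_lit 318) (nat_lit 5) (nat_lit 333) (nat_lit 311) (nat_lit 136)))))) (XT.nd (nat_lit 546) (nat_lit 3268) (nat_lit 0) (XT.nd (nat_lit 234) (nat_lit 2280) (nat_lit 0) (XT.nd (nat_lit 78) (nat_lit 760) (nat_lit 0) (XT.lf (nat_lit 0) (nat_lit 910960744) (nat_lit 836) (nat_lit 4334631778) (nat_lit 912) (nat_lit 21440005754) (nat_lit 306) (nat_lit 5) (nat_lit 317) (nat_lit 5) (nat_lit 318) (nat_lit 5) (nat_lit 334) (nat_lit 311) (nat_lit 135)) (XT.nd (nat_lit 78) (nat_lit 760) (nat_lit 0) (XT.lf (nat_lit 0) (nat_lit 9130612629) (nat_lit 912) (nat_lit 6294183998) (nat_lit 76) (nat_lit 11716415555) (nat_lit 306) (nat_lit 5) (nat_lit 318) (nat_lit 5) (nat_lit 307) (nat_lit 5) (nat_lit 335) (nat_lit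 311) (nat_lit 134)) (XT.lf (nat_lit 0) (nat_lit 13250103477) (nat_lit 836) (nat_lit 13694068963) (nat_lit 76) (nat_lit 663967745) (nat_lit 296) (nat_lit 5) (nat_lit 307) (nat_lit 5) (nat_lit 297) (nat_lit 5) (nat_lit 336) (nat_lit 311) (nat_lit 133)))) (XT.nd (nat_lit 156) (nat_lit 1520) (nat_lit 0) (XT.nd (nat_lit 78) (nat_lit 0) (nat_lit 0) (XT.lf (nat_lit 0) (nat_lit 6705275099) (nat_lit 760) (nat_lit 10971854243) (nat_lit 836) (nat_lit 10408271639) (nat_lit 286) (nat_lit 5) (nat_lit 296) (nat_lit 5) (nat_lit 297) (nat_lit 5) (nat_lit 337) (nat_lit 311) (nat_lit 132)) (XT.lf (nat_lit 0) (nat_lit 22360410050) (nat_lit 836) (nat_lit 713028297) (nat_lit 76) (nat_lit 5501076220) (nat_lit 286) (nat_lit 5) (nat_lit 297) (nat_lit 5) (nat_lit 287) (nat_lit 5) (nat_lit 338) (nat_lit 311) (nat_lit 131))) (XT.nd (nat_lit 78) (nat_lit 836) (nat_lit 0) (XT.lf (nat_lit 0) (nat_lit 20767486910) (nat_lit 684)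 (nat_lit 6619530447) (nat_lit 760) (nat_lit 1687231372) (nat_lit 277) (nat_lit 5) (nat_lit 286) (nat_lit 5) (nat_lit 287) (nat_lit 5) (nat_lit 339) (nat_lit 311) (nat_lit 130)) (XT.lf (nat_lit 0) (nat_lit 3091206019) (nat_lit 836) (nat_lit 16189675847) (nat_lit 76) (nat_lit 10304614601) (nat_lit 266) (nat_lit 5) (nat_lit 277) (nat_lit 5) (nat_lit 267) (nat_lit 5) (nat_lit 340) (nat_lit 311) (nat_lit 129))))) (XT.nd (nat_lit 234) (nat_lit 1900) (nat_lit 0) (XT.nd (nat_lit 78) (nat_lit 684) (nat_lit 0) (XT.lf (nat_lit 0) (nat_lit 5766342896) (nat_lit 684) (nat_lit 2357047738) (nat_lit 760) (nat_lit 21985805062) (nat_lit 257) (nat_lit 5) (nat_lit 266) (nat_lit 5) (nat_lit 267) (nat_lit 5) (nat_lit 341) (nat_lit 311) (nat_lit 128)) (XT.nd (nat_lit 78) (nat_lit 684) (nat_lit 0) (XT.lf (nat_lit 0) (nat_lit 13509777406) (nat_lit 760) (nat_lit 2147963049) (nat_lit 76) (nat_lit 14986804064) (nat_lit 257)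 (nat_lit 5) (nat_lit 267) (nat_lit 5) (nat_lit 258) (nat_lit 5) (nat_lit 342) (nat_lit 311) (nat_lit 127)) (XT.lf (nat_lit 0) (nat_lit 19216163876) (nat_lit 760) (nat_lit 10237902757) (nat_lit 76) (nat_lit 1738722266) (nat_lit 248) (nat_lit 5) (nat_lit 258) (nat_lit 5) (nat_lit 249) (nat_lit 5) (nat_lit 343) (nat_lit 311) (nat_lit 126)))) (XT.nd (nat_lit 156) (nat_lit 684) (nat_lit 0) (XT.nd (nat_lit 78) (nat_lit 608) (nat_lit 0) (XT.lf (nat_lit 0) (nat_lit 13084385634) (nat_lit 608) (nat_lit 12208853632) (nat_lit 684) (nat_lit 6460254553) (nat_lit 240) (nat_lit 5) (nat_lit 248) (nat_lit 5) (nat_lit 249) (nat_lit 5) (nat_lit 344) (nat_lit 311) (nat_lit 125)) (XT.lf (nat_lit 0) (nat_lit 4939665546) (nat_lit 608) (nat_lit 26746210303) (nat_lit 684) (nat_lit 642482124) (nat_lit 232) (nat_lit 5) (nat_lit 240) (nat_lit 5) (nat_lit 241) (nat_lit 5) (nat_lit 345) (nat_lit 311) (nat_lit 124))) (XT.nd (nat_lit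 78) (nat_lit 608) (nat_lit 0) (XT.lf (nat_lit 0) (nat_lit 5484004461) (nat_lit 684) (nat_lit 3528333916) (nat_lit 76) (nat_lit 23903351004) (nat_lit 231) (nat_lit 5) (nat_lit 240) (nat_lit 5) (nat_lit 232) (nat_lit 5) (nat_lit 346) (nat_lit 311) (nat_lit 123)) (XT.lf (nat_lit 0) (nat_lit 11980525248) (nat_lit 684) (nat_lit 12261041435) (nat_lit 76) (nat_lit 9275092577) (nat_lit 223) (nat_lit 5) (nat_lit 232) (nat_lit 5) (nat_lit 224) (nat_lit 5) (nat_lit 347) (nat_lit 311) (nat_lit 122))))))))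
noncomputable def xc120 : XT := (XT.nd (nat_lit 39780) (nat_lit 0) (nat_lit 608) (XT.nd (nat_lit 38766) (nat_lit 0) (nat_lit 6916) (XT.nd (nat_lit 38220) (nat_lit 0) (nat_lit 12768) (XT.nd (nat_lit 37986) (nat_lit 0) (nat_lit 12616) (XT.nd (nat_lit 37830) (nat_lit 0) (nat_lit 12540) (XT.lf (nat_lit 0) (nat_lit 12798361098) (nat_lit 608) (nat_lit 6036594350) (nat_lit 684) (nat_lit 15297445261) (nat_lit 215) (nat_lit 5) (nat_lit 223) (nat_lit 5) (nat_lit 224) (nat_lit 5) (nat_lit 348) (nat_lit 311) (nat_lit 121)) (XT.nd (nat_lit 78) (nat_lit 0) (nat_lit 0) (XT.lf (nat_lit 0) (nat_lit 4341056251) (nat_lit 1748) (nat_lit 2614121720) (nat_lit 1748) (nat_lit 2614121720) (nat_lit 380) (nat_lit 3) (nat_lit 403) (nat_lit 3) (nat_lit 403) (nat_lit 5) (nat_lit 312) (nat_lit 312) (nat_lit 156)) (XT.lf (nat_lit 76) (nat_lit 7921437983) (nat_lit 0) (nat_lit 1199804349) (nat_lit 1748) (nat_lit 10298055757) (nat_lit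 381) (nat_lit 5) (nat_lit 380) (nat_lit 3) (nat_lit 403) (nat_lit 5) (nat_lit 313) (nat_lit 312) (nat_lit 155)))) (XT.nd (nat_lit 78) (nat_lit 0) (nat_lit 76) (XT.lf (nat_lit 76) (nat_lit 1769793101) (nat_lit 0) (nat_lit 7918067407) (nat_lit 1748) (nat_lit 10018278851) (nat_lit 382) (nat_lit 5) (nat_lit 381) (nat_lit 5) (nat_lit 404) (nat_lit 5) (nat_lit 314) (nat_lit 312) (nat_lit 154)) (XT.nd (nat_lit 78) (nat_lit 0) (nat_lit 0) (XT.lf (nat_lit 0) (nat_lit 10381537345) (nat_lit 1672) (nat_lit 4454659637) (nat_lit 1748) (nat_lit 5163195351) (nat_lit 382) (nat_lit 5) (nat_lit 404) (nat_lit 5) (nat_lit 405) (nat_lit 5) (nat_lit 315) (nat_lit 312) (nat_lit 153)) (XT.lf (nat_lit 76) (nat_lit 9497670118) (nat_lit 0) (nat_lit 1703492139) (nat_lit 1748) (nat_lit 9098185327) (nat_lit 383) (nat_lit 5) (nat_lit 382) (nat_lit 5) (nat_lit 405) (nat_lit 5) (nat_lit 316) (nat_lit 312) (nat_lit 152))))) (XT.nd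 (nat_lit 234) (nat_lit 0) (nat_lit 152) (XT.nd (nat_lit 78) (nat_lit 0) (nat_lit 76) (XT.lf (nat_lit 76) (nat_lit 3282384312) (nat_lit 0) (nat_lit 8882240928) (nat_lit 1748) (nat_lit 8441298490) (nat_lit 384) (nat_lit 5) (nat_lit 383) (nat_lit 5) (nat_lit 406) (nat_lit 5) (nat_lit 317) (nat_lit 312) (nat_lit 151)) (XT.nd (nat_lit 78) (nat_lit 0) (nat_lit 0) (XT.lf (nat_lit 0) (nat_lit 13262958458) (nat_lit 1672) (nat_lit 3030805812) (nat_lit 1748) (nat_lit 4625820581) (nat_lit 384) (nat_lit 5) (nat_lit 406) (nat_lit 5) (nat_lit 407) (nat_lit 5) (nat_lit 318) (nat_lit 312) (nat_lit 150)) (XT.lf (nat_lit 76) (nat_lit 11780307936) (nat_lit 0) (nat_lit 2741123191) (nat_lit 1748) (nat_lit 6718687699) (nat_lit 385) (nat_lit 5) (nat_lit 384) (nat_lit 5) (nat_lit 407) (nat_lit 5) (nat_lit 319) (nat_lit 312) (nat_lit 149)))) (XT.nd (nat_lit 156) (nat_lit 0) (nat_lit 76) (XT.nd (nat_lit 78) (nat_lit 0) (nat_lit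 76) (XT.lf (nat_lit 76) (nat_lit 5500947745) (nat_lit 0) (nat_lit 10437477480) (nat_lit 1748) (nat_lit 5629434865) (nat_lit 386) (nat_lit 5) (nat_lit 385) (nat_lit 5) (nat_lit 408) (nat_lit 5) (nat_lit 320) (nat_lit 312) (nat_lit 148)) (XT.lf (nat_lit 0) (nat_lit 17495004763) (nat_lit 1672) (nat_lit 911045405) (nat_lit 1748) (nat_lit 3497448332) (nat_lit 386) (nat_lit 5) (nat_lit 408) (nat_lit 5) (nat_lit 409) (nat_lit 5) (nat_lit 321) (nat_lit 312) (nat_lit 147))) (XT.nd (nat_lit 78) (nat_lit 0) (nat_lit 76) (XT.lf (nat_lit 76) (nat_lit 14818503022) (nat_lit 0) (nat_lit 4437800570) (nat_lit 1748) (nat_lit 2989748263) (nat_lit 387) (nat_lit 5) (nat_lit 386) (nat_lit 5) (nat_lit 409) (nat_lit 5) (nat_lit 322) (nat_lit 312) (nat_lit 146)) (XT.lf (nat_lit 76) (nat_lit 8474526413) (nat_lit 0) (nat_lit 12713973193) (nat_lit 1748) (nat_lit 1408027094) (nat_lit 388) (nat_lit 5) (nat_lit 387) (nat_lit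 5) (nat_lit 410) (nat_lit 5) (nat_lit 323) (nat_lit 312) (nat_lit 145)))))) (XT.nd (nat_lit 468) (nat_lit 4484) (nat_lit 0) (XT.nd (nat_lit 234) (nat_lit 0) (nat_lit 76) (XT.nd (nat_lit 78) (nat_lit 0) (nat_lit 0) (XT.lf (nat_lit 0) (nat_lit 314784437) (nat_lit 1748) (nat_lit 20978911132) (nat_lit 1824) (nat_lit 1661866483) (nat_lit 365) (nat_lit 5) (nat_lit 388) (nat_lit 5) (nat_lit 389) (nat_lit 5) (nat_lit 324) (nat_lit 312) (nat_lit 144)) (XT.nd (nat_lit 78) (nat_lit 0) (nat_lit 76) (XT.lf (nat_lit 0) (nat_lit 2244168890) (nat_lit 1748) (nat_lit 4672683032) (nat_lit 1824) (nat_lit 16404855631) (nat_lit 365) (nat_lit 5) (nat_lit 388) (nat_lit 5) (nat_lit 389) (nat_lit 5) (nat_lit 325) (nat_lit 312) (nat_lit 143)) (XT.lf (nat_lit 0) (nat_lit 4355700543) (nat_lit 1748) (nat_lit 11470958401) (nat_lit 1824) (nat_lit 7869698591) (nat_lit 366) (nat_lit 5) (nat_lit 389) (nat_lit 5) (nat_lit 390) (nat_lit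 5) (nat_lit 326) (nat_lit 312) (nat_lit 142)))) (XT.nd (nat_lit 78) (nat_lit 0) (nat_lit 76) (XT.lf (nat_lit 76) (nat_lit 5634582875) (nat_lit 0) (nat_lit 1003666430) (nat_lit 1824) (nat_lit 17441849561) (nat_lit 367) (nat_lit 5) (nat_lit 366) (nat_lit 5) (nat_lit 390) (nat_lit 5) (nat_lit 327) (nat_lit 312) (nat_lit 141)) (XT.nd (nat_lit 78) (nat_lit 0) (nat_lit 76) (XT.lf (nat_lit 0) (nat_lit 9153267898) (nat_lit 1748) (nat_lit 1162297857) (nat_lit 1824) (nat_lit 14156511931) (nat_lit 367) (nat_lit 5) (nat_lit 390) (nat_lit 5) (nat_lit 391) (nat_lit 5) (nat_lit 328) (nat_lit 312) (nat_lit 140)) (XT.lf (nat_lit 0) (nat_lit 11885605370) (nat_lit 1748) (nat_lit 8057906407) (nat_lit 76) (nat_lit 4929471697) (nat_lit 368) (nat_lit 5) (nat_lit 391) (nat_lit 5) (nat_lit 369) (nat_lit 5) (nat_lit 329) (nat_lit 312) (nat_lit 139))))) (XT.nd (nat_lit 234) (nat_lit 2584) (nat_lit 0) (XT.nd (nat_lit 78)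 (nat_lit 836) (nat_lit 0) (XT.lf (nat_lit 0) (nat_lit 10120045848) (nat_lit 1292) (nat_lit 4715988276) (nat_lit 1368) (nat_lit 10447164712) (nat_lit 351) (nat_lit 5) (nat_lit 368) (nat_lit 5) (nat_lit 369) (nat_lit 5) (nat_lit 330) (nat_lit 312) (nat_lit 138)) (XT.nd (nat_lit 78) (nat_lit 0) (nat_lit 0) (XT.lf (nat_lit 0) (nat_lit 3213967880) (nat_lit 836) (nat_lit 14801714892) (nat_lit 912) (nat_lit 7687228431) (nat_lit 340) (nat_lit 5) (nat_lit 351) (nat_lit 5) (nat_lit 352) (nat_lit 5) (nat_lit 331) (nat_lit 312) (nat_lit 137)) (XT.lf (nat_lit 0) (nat_lit 21424415356) (nat_lit 912) (nat_lit 3825987540) (nat_lit 76) (nat_lit 882142702) (nat_lit 340) (nat_lit 5) (nat_lit 352) (nat_lit 5) (nat_lit 341) (nat_lit 5) (nat_lit 332) (nat_lit 312) (nat_lit 136)))) (XT.nd (nat_lit 156) (nat_lit 836) (nat_lit 0) (XT.nd (nat_lit 78) (nat_lit 912) (nat_lit 0) (XT.lf (nat_lit 0) (nat_lit 15495607755) (nat_lit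 836) (nat_lit 9633390217) (nat_lit 912) (nat_lit 1442203705) (nat_lit 329) (nat_lit 5) (nat_lit 340) (nat_lit 5) (nat_lit 341) (nat_lit 5) (nat_lit 333) (nat_lit 312) (nat_lit 135)) (XT.lf (nat_lit 0) (nat_lit 2014522161) (nat_lit 912) (nat_lit 18543443088) (nat_lit 76) (nat_lit 6462446356) (nat_lit 317) (nat_lit 5) (nat_lit 329) (nat_lit 5) (nat_lit 318) (nat_lit 5) (nat_lit 334) (nat_lit 312) (nat_lit 134))) (XT.nd (nat_lit 78) (nat_lit 0) (nat_lit 0) (XT.lf (nat_lit 0) (nat_lit 1222060810) (nat_lit 836) (nat_lit 4475543650) (nat_lit 912) (nat_lit 21782461818) (nat_lit 306) (nat_lit 5) (nat_lit 317) (nat_lit 5) (nat_lit 318) (nat_lit 5) (nat_lit 335) (nat_lit 312) (nat_lit 133)) (XT.lf (nat_lit 0) (nat_lit 9690524763) (nat_lit 912) (nat_lit 6201512641) (nat_lit 76) (nat_lit 12057490237) (nat_lit 306) (nat_lit 5) (nat_lit 318) (nat_lit 5) (nat_lit 307) (nat_lit 5) (nat_lit 336) (nat_lit 312) (nat_lit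 132))))))) (XT.nd (nat_lit 38844) (nat_lit 0) (nat_lit 10792) (XT.nd (nat_lit 468) (nat_lit 2584) (nat_lit 0) (XT.nd (nat_lit 234) (nat_lit 2204) (nat_lit 0) (XT.nd (nat_lit 78) (nat_lit 760) (nat_lit 0) (XT.lf (nat_lit 0) (nat_lit 13927051995) (nat_lit 836) (nat_lit 13822160254) (nat_lit 76) (nat_lit 681388056) (nat_lit 296) (nat_lit 5) (nat_lit 307) (nat_lit 5) (nat_lit 297) (nat_lit 5) (nat_lit 337) (nat_lit 312) (nat_lit 131)) (XT.nd (nat_lit 78) (nat_lit 0) (nat_lit 0) (XT.lf (nat_lit 0) (nat_lit 7184577159) (nat_lit 760) (nat_lit 11295978185) (nat_lit 836) (nat_lit 10441755933) (nat_lit 286) (nat_lit 5) (nat_lit 296) (nat_lit 5) (nat_lit 297) (nat_lit 5) (nat_lit 338) (nat_lit 312) (nat_lit 130)) (XT.lf (nat_lit 0) (nat_lit 23296411468) (nat_lit 836) (nat_lit 458921212) (nat_lit 76) (nat_lit 5670929569) (nat_lit 286) (nat_lit 5) (nat_lit 297) (nat_lit 5) (nat_lit 287) (nat_lit 5) (nat_lit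 339) (nat_lit 312) (nat_lit 129)))) (XT.nd (nat_lit 78) (nat_lit 1520) (nat_lit 0) (XT.lf (nat_lit 0) (nat_lit 21661539825) (nat_lit 684) (nat_lit 6806312911) (nat_lit 760) (nat_lit 1473260345) (nat_lit 277) (nat_lit 5) (nat_lit 286) (nat_lit 5) (nat_lit 287) (nat_lit 5) (nat_lit 340) (nat_lit 312) (nat_lit 128)) (XT.nd (nat_lit 78) (nat_lit 684) (nat_lit 0) (XT.lf (nat_lit 0) (nat_lit 3439306173) (nat_lit 836) (nat_lit 16399970554) (nat_lit 76) (nat_lit 10628507343) (nat_lit 266) (nat_lit 5) (nat_lit 277) (nat_lit 5) (nat_lit 267) (nat_lit 5) (nat_lit 341) (nat_lit 312) (nat_lit 127)) (XT.lf (nat_lit 0) (nat_lit 6210260786) (nat_lit 684) (nat_lit 2406516797) (nat_lit 760) (nat_lit 22390535220) (nat_lit 257) (nat_lit 5) (nat_lit 266) (nat_lit 5) (nat_lit 267) (nat_lit 5) (nat_lit 342) (nat_lit 312) (nat_lit 126))))) (XT.nd (nat_lit 234) (nat_lit 1292) (nat_lit 0) (XT.nd (nat_lit 78) (nat_lit 1292)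 (nat_lit 0) (XT.lf (nat_lit 0) (nat_lit 14157617475) (nat_lit 760) (nat_lit 1944490827) (nat_lit 76) (nat_lit 15456761366) (nat_lit 257) (nat_lit 5) (nat_lit 267) (nat_lit 5) (nat_lit 258) (nat_lit 5) (nat_lit 343) (nat_lit 312) (nat_lit 125)) (XT.nd (nat_lit 78) (nat_lit 608) (nat_lit 0) (XT.lf (nat_lit 0) (nat_lit 20030013525) (nat_lit 760) (nat_lit 10276747028) (nat_lit 76) (nat_lit 1816909133) (nat_lit 248) (nat_lit 5) (nat_lit 258) (nat_lit 5) (nat_lit 249) (nat_lit 5) (nat_lit 344) (nat_lit 312) (nat_lit 124)) (XT.lf (nat_lit 0) (nat_lit 13740857282) (nat_lit 608) (nat_lit 12543344033) (nat_lit 684) (nat_lit 6417102968) (nat_lit 240) (nat_lit 5) (nat_lit 248) (nat_lit 5) (nat_lit 249) (nat_lit 5) (nat_lit 345) (nat_lit 312) (nat_lit 123)))) (XT.nd (nat_lit 156) (nat_lit 608) (nat_lit 0) (XT.nd (nat_lit 78) (nat_lit 76) (nat_lit 0) (XT.lf (nat_lit 0) (nat_lit 5352027087) (nat_lit 608) (nat_lit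 27511743299) (nat_lit 684) (nat_lit 429745308) (nat_lit 232) (nat_lit 5) (nat_lit 240) (nat_lit 5) (nat_lit 241) (nat_lit 5) (nat_lit 346) (nat_lit 312) (nat_lit 122)) (XT.lf (nat_lit 0) (nat_lit 5870824023) (nat_lit 684) (nat_lit 3374612844) (nat_lit 76) (nat_lit 24653137617) (nat_lit 231) (nat_lit 5) (nat_lit 240) (nat_lit 5) (nat_lit 232) (nat_lit 5) (nat_lit 347) (nat_lit 312) (nat_lit 121))) (XT.nd (nat_lit 37908) (nat_lit 0) (nat_lit 11932) (XT.lf (nat_lit 0) (nat_lit 12557669582) (nat_lit 684) (nat_lit 12369273567) (nat_lit 76) (nat_lit 9590725792) (nat_lit 223) (nat_lit 5) (nat_lit 232) (nat_lit 5) (nat_lit 224) (nat_lit 5) (nat_lit 348) (nat_lit 312) (nat_lit 120)) (XT.lf (nat_lit 0) (nat_lit 4726279921) (nat_lit 1748) (nat_lit 2562399271) (nat_lit 1748) (nat_lit 2562399271) (nat_lit 380) (nat_lit 3) (nat_lit 403) (nat_lit 3) (nat_lit 403) (nat_lit 5) (nat_lit 313) (nat_lit 313) (nat_lit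 154)))))) (XT.nd (nat_lit 546) (nat_lit 1140) (nat_lit 0) (XT.nd (nat_lit 234) (nat_lit 0) (nat_lit 152) (XT.nd (nat_lit 78) (nat_lit 0) (nat_lit 76) (XT.lf (nat_lit 76) (nat_lit 8415150392) (nat_lit 0) (nat_lit 1476521843) (nat_lit 1748) (nat_lit 10099879856) (nat_lit 381) (nat_lit 5) (nat_lit 380) (nat_lit 3) (nat_lit 403) (nat_lit 5) (nat_lit 314) (nat_lit 313) (nat_lit 153)) (XT.nd (nat_lit 78) (nat_lit 0) (nat_lit 76) (XT.lf (nat_lit 76) (nat_lit 2086496754) (nat_lit 0) (nat_lit 8374516632) (nat_lit 1748) (nat_lit 9826282059) (nat_lit 382) (nat_lit 5) (nat_lit 381) (nat_lit 5) (nat_lit 404) (nat_lit 5) (nat_lit 315) (nat_lit 313) (nat_lit 152)) (XT.lf (nat_lit 0) (nat_lit 11160066739) (nat_lit 1672) (nat_lit 4321251613) (nat_lit 1748) (nat_lit 5108347333) (nat_lit 382) (nat_lit 5) (nat_lit 404) (nat_lit 5) (nat_lit 405) (nat_lit 5) (nat_lit 316) (nat_lit 313) (nat_lit 151)))) (XT.nd (nat_lit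 156) (nat_lit 0) (nat_lit 152) (XT.nd (nat_lit 78) (nat_lit 0) (nat_lit 76) (XT.lf (nat_lit 76) (nat_lit 10045315500) (nat_lit 0) (nat_lit 1947066252) (nat_lit 1748) (nat_lit 8906486496) (nat_lit 383) (nat_lit 5) (nat_lit 382) (nat_lit 5) (nat_lit 405) (nat_lit 5) (nat_lit 317) (nat_lit 313) (nat_lit 150)) (XT.lf (nat_lit 76) (nat_lit 3649844531) (nat_lit 0) (nat_lit 9322179501) (nat_lit 1748) (nat_lit 8242882510) (nat_lit 384) (nat_lit 5) (nat_lit 383) (nat_lit 5) (nat_lit 406) (nat_lit 5) (nat_lit 318) (nat_lit 313) (nat_lit 149))) (XT.nd (nat_lit 78) (nat_lit 0) (nat_lit 0) (XT.lf (nat_lit 0) (nat_lit 14089326574) (nat_lit 1672) (nat_lit 2850555344) (nat_lit 1748) (nat_lit 4598385260) (nat_lit 384) (nat_lit 5) (nat_lit 406) (nat_lit 5) (nat_lit 407) (nat_lit 5) (nat_lit 319) (nat_lit 313) (nat_lit 148)) (XT.lf (nat_lit 76) (nat_lit 12400492329) (nat_lit 0) (nat_lit 2974313194) (nat_lit 1748)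 (nat_lit 6493836384) (nat_lit 385) (nat_lit 5) (nat_lit 384) (nat_lit 5) (nat_lit 407) (nat_lit 5) (nat_lit 320) (nat_lit 313) (nat_lit 147))))) (XT.nd (nat_lit 234) (nat_lit 1520) (nat_lit 0) (XT.nd (nat_lit 78) (nat_lit 0) (nat_lit 76) (XT.lf (nat_lit 76) (nat_lit 5937927084) (nat_lit 0) (nat_lit 10885029549) (nat_lit 1748) (nat_lit 5383495323) (nat_lit 386) (nat_lit 5) (nat_lit 385) (nat_lit 5) (nat_lit 408) (nat_lit 5) (nat_lit 321) (nat_lit 313) (nat_lit 146)) (XT.nd (nat_lit 78) (nat_lit 0) (nat_lit 0) (XT.lf (nat_lit 0) (nat_lit 18413549912) (nat_lit 1672) (nat_lit 665301391) (nat_lit 1748) (nat_lit 3473571102) (nat_lit 386) (nat_lit 5) (nat_lit 408) (nat_lit 5) (nat_lit 409) (nat_lit 5) (nat_lit 322) (nat_lit 313) (nat_lit 145)) (XT.lf (nat_lit 76) (nat_lit 15531703165) (nat_lit 0) (nat_lit 4686261919) (nat_lit 1748) (nat_lit 2687490677) (nat_lit 387) (nat_lit 5) (nat_lit 386) (nat_lit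 5) (nat_lit 409) (nat_lit 5) (nat_lit 323) (nat_lit 313) (nat_lit 144)))) (XT.nd (nat_lit 156) (nat_lit 0) (nat_lit 0) (XT.nd (nat_lit 78) (nat_lit 1672) (nat_lit 0) (XT.lf (nat_lit 76) (nat_lit 9001633667) (nat_lit 0) (nat_lit 13196354339) (nat_lit 1748) (nat_lit 1068668309) (nat_lit 388) (nat_lit 5) (nat_lit 387) (nat_lit 5) (nat_lit 410) (nat_lit 5) (nat_lit 324) (nat_lit 313) (nat_lit 143)) (XT.lf (nat_lit 0) (nat_lit 691022015) (nat_lit 1748) (nat_lit 21326398879) (nat_lit 1824) (nat_lit 1619196564) (nat_lit 365) (nat_lit 5) (nat_lit 388) (nat_lit 5) (nat_lit 389) (nat_lit 5) (nat_lit 325) (nat_lit 313) (nat_lit 142))) (XT.nd (nat_lit 78) (nat_lit 0) (nat_lit 76) (XT.lf (nat_lit 0) (nat_lit 2667604680) (nat_lit 1748) (nat_lit 4539194022) (nat_lit 1824) (nat_lit 16807170316) (nat_lit 365) (nat_lit 5) (nat_lit 388) (nat_lit 5) (nat_lit 389) (nat_lit 5) (nat_lit 326) (nat_lit 313) (nat_lit 141))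 (XT.lf (nat_lit 0) (nat_lit 4833350046) (nat_lit 1748) (nat_lit 11538140032) (nat_lit 1824) (nat_lit 8028558860) (nat_lit 366) (nat_lit 5) (nat_lit 389) (nat_lit 5) (nat_lit 390) (nat_lit 5) (nat_lit 327) (nat_lit 313) (nat_lit 140))))))))
noncomputable def xc121 : XT := (XT.nd (nat_lit 40092) (nat_lit 0) (nat_lit 608) (XT.nd (nat_lit 1014) (nat_lit 4104) (nat_lit 0) (XT.nd (nat_lit 468) (nat_lit 4104) (nat_lit 0) (XT.nd (nat_lit 234) (nat_lit 1976) (nat_lit 0) (XT.nd (nat_lit 78) (nat_lit 0) (nat_lit 76) (XT.lf (nat_lit 76) (nat_lit 6076074345) (nat_lit 0) (nat_lit 1099963708) (nat_lit 1824) (nat_lit 17619438765) (nat_lit 367) (nat_lit 5) (nat_lit 366) (nat_lit 5) (nat_lit 390) (nat_lit 5) (nat_lit 328) (nat_lit 313) (nat_lit 139)) (XT.nd (nat_lit 78) (nat_lit 0) (nat_lit 76) (XT.lf (nat_lit 0) (nat_lit 9756226650) (nat_lit 1748) (nat_lit 925410745) (nat_lit 1824) (nat_lit 14517790564) (nat_lit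 367) (nat_lit 5) (nat_lit 390) (nat_lit 5) (nat_lit 391) (nat_lit 5) (nat_lit 329) (nat_lit 313) (nat_lit 138)) (XT.lf (nat_lit 0) (nat_lit 12562360822) (nat_lit 1748) (nat_lit 8025302790) (nat_lit 76) (nat_lit 5024867908) (nat_lit 368) (nat_lit 5) (nat_lit 391) (nat_lit 5) (nat_lit 369) (nat_lit 5) (nat_lit 330) (nat_lit 313) (nat_lit 137)))) (XT.nd (nat_lit 78) (nat_lit 836) (nat_lit 0) (XT.lf (nat_lit 0) (nat_lit 10693537179) (nat_lit 1292) (nat_lit 4900191721) (nat_lit 1368) (nat_lit 10441482838) (nat_lit 351) (nat_lit 5) (nat_lit 368) (nat_lit 5) (nat_lit 369) (nat_lit 5) (nat_lit 331) (nat_lit 313) (nat_lit 136)) (XT.nd (nat_lit 78) (nat_lit 0) (nat_lit 0) (XT.lf (nat_lit 0) (nat_lit 3582549002) (nat_lit 836) (nat_lit 15278610494) (nat_lit 912) (nat_lit 7606514851) (nat_lit 340) (nat_lit 5) (nat_lit 351) (nat_lit 5) (nat_lit 352) (nat_lit 5) (nat_lit 332) (nat_lit 313) (nat_lit 135)) (XT.lf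 (nat_lit 0) (nat_lit 22363063347) (nat_lit 912) (nat_lit 3670185104) (nat_lit 76) (nat_lit 877137663) (nat_lit 340) (nat_lit 5) (nat_lit 352) (nat_lit 5) (nat_lit 341) (nat_lit 5) (nat_lit 333) (nat_lit 313) (nat_lit 134))))) (XT.nd (nat_lit 234) (nat_lit 1520) (nat_lit 0) (XT.nd (nat_lit 78) (nat_lit 1748) (nat_lit 0) (XT.lf (nat_lit 0) (nat_lit 16226668177) (nat_lit 836) (nat_lit 9945224662) (nat_lit 912) (nat_lit 1190453187) (nat_lit 329) (nat_lit 5) (nat_lit 340) (nat_lit 5) (nat_lit 341) (nat_lit 5) (nat_lit 334) (nat_lit 313) (nat_lit 133)) (XT.nd (nat_lit 78) (nat_lit 836) (nat_lit 0) (XT.lf (nat_lit 0) (nat_lit 2359231351) (nat_lit 912) (nat_lit 18827853631) (nat_lit 76) (nat_lit 6638052468) (nat_lit 317) (nat_lit 5) (nat_lit 329) (nat_lit 5) (nat_lit 318) (nat_lit 5) (nat_lit 335) (nat_lit 313) (nat_lit 132)) (XT.lf (nat_lit 0) (nat_lit 1526204247) (nat_lit 836) (nat_lit 4620058728) (nat_lit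 912) (nat_lit 22152455506) (nat_lit 306) (nat_lit 5) (nat_lit 317) (nat_lit 5) (nat_lit 318) (nat_lit 5) (nat_lit 336) (nat_lit 313) (nat_lit 131)))) (XT.nd (nat_lit 156) (nat_lit 760) (nat_lit 0) (XT.nd (nat_lit 78) (nat_lit 760) (nat_lit 0) (XT.lf (nat_lit 0) (nat_lit 10250817050) (nat_lit 912) (nat_lit 6122220216) (nat_lit 76) (nat_lit 12409395182) (nat_lit 306) (nat_lit 5) (nat_lit 318) (nat_lit 5) (nat_lit 307) (nat_lit 5) (nat_lit 337) (nat_lit 313) (nat_lit 130)) (XT.lf (nat_lit 0) (nat_lit 14608267659) (nat_lit 836) (nat_lit 13970324188) (nat_lit 76) (nat_lit 699474413) (nat_lit 296) (nat_lit 5) (nat_lit 307) (nat_lit 5) (nat_lit 297) (nat_lit 5) (nat_lit 338) (nat_lit 313) (nat_lit 129))) (XT.nd (nat_lit 78) (nat_lit 0) (nat_lit 0) (XT.lf (nat_lit 0) (nat_lit 7662291688) (nat_lit 760) (nat_lit 11630114684) (nat_lit 836) (nat_lit 10492246941) (nat_lit 286) (nat_lit 5) (nat_lit 296) (nat_lit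 5) (nat_lit 297) (nat_lit 5) (nat_lit 339) (nat_lit 313) (nat_lit 128)) (XT.lf (nat_lit 0) (nat_lit 24245269988) (nat_lit 836) (nat_lit 213005623) (nat_lit 76) (nat_lit 5845601770) (nat_lit 286) (nat_lit 5) (nat_lit 297) (nat_lit 5) (nat_lit 287) (nat_lit 5) (nat_lit 340) (nat_lit 313) (nat_lit 127)))))) (XT.nd (nat_lit 38532) (nat_lit 0) (nat_lit 11248) (XT.nd (nat_lit 234) (nat_lit 1900) (nat_lit 0) (XT.nd (nat_lit 78) (nat_lit 1520) (nat_lit 0) (XT.lf (nat_lit 0) (nat_lit 22566856193) (nat_lit 684) (nat_lit 6999376414) (nat_lit 760) (nat_lit 1268058618) (nat_lit 277) (nat_lit 5) (nat_lit 286) (nat_lit 5) (nat_lit 287) (nat_lit 5) (nat_lit 341) (nat_lit 313) (nat_lit 126)) (XT.nd (nat_lit 78) (nat_lit 684) (nat_lit 0) (XT.lf (nat_lit 0) (nat_lit 3783190395) (nat_lit 836) (nat_lit 16632382934) (nat_lit 76) (nat_lit 10961269910) (nat_lit 266) (nat_lit 5) (nat_lit 277) (nat_lit 5) (nat_lit 267)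 (nat_lit 5) (nat_lit 342) (nat_lit 313) (nat_lit 125)) (XT.lf (nat_lit 0) (nat_lit 6651943860) (nat_lit 684) (nat_lit 2458689327) (nat_lit 760) (nat_lit 22822036370) (nat_lit 257) (nat_lit 5) (nat_lit 266) (nat_lit 5) (nat_lit 267) (nat_lit 5) (nat_lit 343) (nat_lit 313) (nat_lit 124)))) (XT.nd (nat_lit 156) (nat_lit 1216) (nat_lit 0) (XT.nd (nat_lit 78) (nat_lit 684) (nat_lit 0) (XT.lf (nat_lit 0) (nat_lit 14810969571) (nat_lit 760) (nat_lit 1750293631) (nat_lit 76) (nat_lit 15939649031) (nat_lit 257) (nat_lit 5) (nat_lit 267) (nat_lit 5) (nat_lit 258) (nat_lit 5) (nat_lit 344) (nat_lit 313) (nat_lit 123)) (XT.lf (nat_lit 0) (nat_lit 20854652957) (nat_lit 760) (nat_lit 10332157732) (nat_lit 76) (nat_lit 1895947653) (nat_lit 248) (nat_lit 5) (nat_lit 258) (nat_lit 5) (nat_lit 249) (nat_lit 5) (nat_lit 345) (nat_lit 313) (nat_lit 122))) (XT.nd (nat_lit 78) (nat_lit 608) (nat_lit 0) (XT.lf (nat_lit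 0) (nat_lit 14401871840) (nat_lit 608) (nat_lit 12889693172) (nat_lit 684) (nat_lit 6386259264) (nat_lit 240) (nat_lit 5) (nat_lit 248) (nat_lit 5) (nat_lit 249) (nat_lit 5) (nat_lit 346) (nat_lit 313) (nat_lit 121)) (XT.lf (nat_lit 0) (nat_lit 5761594945) (nat_lit 608) (nat_lit 28302357816) (nat_lit 684) (nat_lit 223944783) (nat_lit 232) (nat_lit 5) (nat_lit 240) (nat_lit 5) (nat_lit 241) (nat_lit 5) (nat_lit 347) (nat_lit 313) (nat_lit 120))))) (XT.nd (nat_lit 234) (nat_lit 0) (nat_lit 152) (XT.nd (nat_lit 78) (nat_lit 0) (nat_lit 0) (XT.lf (nat_lit 0) (nat_lit 5108422718) (nat_lit 1748) (nat_lit 2516596067) (nat_lit 1748) (nat_lit 2516596067) (nat_lit 380) (nat_lit 3) (nat_lit 403) (nat_lit 3) (nat_lit 403) (nat_lit 5) (nat_lit 314) (nat_lit 314) (nat_lit 152)) (XT.nd (nat_lit 78) (nat_lit 0) (nat_lit 76) (XT.lf (nat_lit 76) (nat_lit 8908974750) (nat_lit 0) (nat_lit 1747722356) (nat_lit 1748)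 (nat_lit 9924869301) (nat_lit 381) (nat_lit 5) (nat_lit 380) (nat_lit 3) (nat_lit 403) (nat_lit 5) (nat_lit 315) (nat_lit 314) (nat_lit 151)) (XT.lf (nat_lit 76) (nat_lit 2397569232) (nat_lit 0) (nat_lit 8832093164) (nat_lit 1748) (nat_lit 9656799469) (nat_lit 382) (nat_lit 5) (nat_lit 381) (nat_lit 5) (nat_lit 404) (nat_lit 5) (nat_lit 316) (nat_lit 314) (nat_lit 150)))) (XT.nd (nat_lit 156) (nat_lit 0) (nat_lit 76) (XT.nd (nat_lit 78) (nat_lit 0) (nat_lit 0) (XT.lf (nat_lit 0) (nat_lit 11935139523) (nat_lit 1672) (nat_lit 4199170986) (nat_lit 1748) (nat_lit 5063894032) (nat_lit 382) (nat_lit 5) (nat_lit 404) (nat_lit 5) (nat_lit 405) (nat_lit 5) (nat_lit 317) (nat_lit 314) (nat_lit 149)) (XT.lf (nat_lit 76) (nat_lit 10594309312) (nat_lit 0) (nat_lit 2186899060) (nat_lit 1748) (nat_lit 8735709189) (nat_lit 383) (nat_lit 5) (nat_lit 382) (nat_lit 5) (nat_lit 405) (nat_lit 5) (nat_lit 318) (nat_lit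 314) (nat_lit 148))) (XT.nd (nat_lit 78) (nat_lit 0) (nat_lit 76) (XT.lf (nat_lit 76) (nat_lit 4012887506) (nat_lit 0) (nat_lit 9765358266) (nat_lit 1748) (nat_lit 8064440892) (nat_lit 384) (nat_lit 5) (nat_lit 383) (nat_lit 5) (nat_lit 406) (nat_lit 5) (nat_lit 319) (nat_lit 314) (nat_lit 147)) (XT.lf (nat_lit 0) (nat_lit 14915889266) (nat_lit 1672) (nat_lit 2680463897) (nat_lit 1748) (nat_lit 4579668009) (nat_lit 384) (nat_lit 5) (nat_lit 406) (nat_lit 5) (nat_lit 407) (nat_lit 5) (nat_lit 320) (nat_lit 314) (nat_lit 146))))))) (XT.nd (nat_lit 1014) (nat_lit 7600) (nat_lit 0) (XT.nd (nat_lit 468) (nat_lit 1900) (nat_lit 0) (XT.nd (nat_lit 234) (nat_lit 1444) (nat_lit 0) (XT.nd (nat_lit 78) (nat_lit 0) (nat_lit 76) (XT.lf (nat_lit 76) (nat_lit 13023968269) (nat_lit 0) (nat_lit 3205833387) (nat_lit 1748) (nat_lit 6286717319) (nat_lit 385) (nat_lit 5) (nat_lit 384) (nat_lit 5) (nat_lit 407) (nat_lit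 5) (nat_lit 321) (nat_lit 314) (nat_lit 145)) (XT.nd (nat_lit 78) (nat_lit 0) (nat_lit 76) (XT.lf (nat_lit 76) (nat_lit 6372404708) (nat_lit 0) (nat_lit 11338291477) (nat_lit 1748) (nat_lit 5153990109) (nat_lit 386) (nat_lit 5) (nat_lit 385) (nat_lit 5) (nat_lit 408) (nat_lit 5) (nat_lit 322) (nat_lit 314) (nat_lit 144)) (XT.lf (nat_lit 0) (nat_lit 19337051712) (nat_lit 1672) (nat_lit 427860700) (nat_lit 1748) (nat_lit 3456371240) (nat_lit 386) (nat_lit 5) (nat_lit 408) (nat_lit 5) (nat_lit 409) (nat_lit 5) (nat_lit 323) (nat_lit 314) (nat_lit 143)))) (XT.nd (nat_lit 78) (nat_lit 1596) (nat_lit 0) (XT.lf (nat_lit 76) (nat_lit 16250877987) (nat_lit 0) (nat_lit 4935556847) (nat_lit 1748) (nat_lit 2398664898) (nat_lit 387) (nat_lit 5) (nat_lit 386) (nat_lit 5) (nat_lit 409) (nat_lit 5) (nat_lit 324) (nat_lit 314) (nat_lit 142)) (XT.nd (nat_lit 78) (nat_lit 1672) (nat_lit 0) (XT.lf (nat_lit 76) (nat_lit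 9528890201) (nat_lit 0) (nat_lit 13687411290) (nat_lit 1748) (nat_lit 741034138) (nat_lit 388) (nat_lit 5) (nat_lit 387) (nat_lit 5) (nat_lit 410) (nat_lit 5) (nat_lit 325) (nat_lit 314) (nat_lit 141)) (XT.lf (nat_lit 0) (nat_lit 1057491242) (nat_lit 1748) (nat_lit 21700492301) (nat_lit 1824) (nat_lit 1580557914) (nat_lit 365) (nat_lit 5) (nat_lit 388) (nat_lit 5) (nat_lit 389) (nat_lit 5) (nat_lit 326) (nat_lit 314) (nat_lit 140))))) (XT.nd (nat_lit 234) (nat_lit 1900) (nat_lit 0) (XT.nd (nat_lit 78) (nat_lit 0) (nat_lit 76) (XT.lf (nat_lit 0) (nat_lit 3083301331) (nat_lit 1748) (nat_lit 4417410091) (nat_lit 1824) (nat_lit 17226711108) (nat_lit 365) (nat_lit 5) (nat_lit 388) (nat_lit 5) (nat_lit 389) (nat_lit 5) (nat_lit 327) (nat_lit 314) (nat_lit 139)) (XT.nd (nat_lit 78) (nat_lit 0) (nat_lit 0) (XT.lf (nat_lit 0) (nat_lit 5305411049) (nat_lit 1748) (nat_lit 11623235009) (nat_lit 1824) (nat_lit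 8196618294) (nat_lit 366) (nat_lit 5) (nat_lit 389) (nat_lit 5) (nat_lit 390) (nat_lit 5) (nat_lit 328) (nat_lit 314) (nat_lit 138)) (XT.lf (nat_lit 76) (nat_lit 6515170586) (nat_lit 0) (nat_lit 1195350483) (nat_lit 1824) (nat_lit 17822198303) (nat_lit 367) (nat_lit 5) (nat_lit 366) (nat_lit 5) (nat_lit 390) (nat_lit 5) (nat_lit 329) (nat_lit 314) (nat_lit 137)))) (XT.nd (nat_lit 156) (nat_lit 2052) (nat_lit 0) (XT.nd (nat_lit 78) (nat_lit 0) (nat_lit 76) (XT.lf (nat_lit 0) (nat_lit 10358424917) (nat_lit 1748) (nat_lit 697016928) (nat_lit 1824) (nat_lit 14893547935) (nat_lit 367) (nat_lit 5) (nat_lit 390) (nat_lit 5) (nat_lit 391) (nat_lit 5) (nat_lit 330) (nat_lit 314) (nat_lit 136)) (XT.lf (nat_lit 0) (nat_lit 13241038877) (nat_lit 1748) (nat_lit 8007469349) (nat_lit 76) (nat_lit 5126139028) (nat_lit 368) (nat_lit 5) (nat_lit 391) (nat_lit 5) (nat_lit 369) (nat_lit 5) (nat_lit 331) (nat_lit 314)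 (nat_lit 135))) (XT.nd (nat_lit 78) (nat_lit 836) (nat_lit 0) (XT.lf (nat_lit 0) (nat_lit 11268740462) (nat_lit 1292) (nat_lit 5087468748) (nat_lit 1368) (nat_lit 10453947970) (nat_lit 351) (nat_lit 5) (nat_lit 368) (nat_lit 5) (nat_lit 369) (nat_lit 5) (nat_lit 332) (nat_lit 314) (nat_lit 134)) (XT.lf (nat_lit 0) (nat_lit 3946564341) (nat_lit 836) (nat_lit 15767927576) (nat_lit 912) (nat_lit 7541251503) (nat_lit 340) (nat_lit 5) (nat_lit 351) (nat_lit 5) (nat_lit 352) (nat_lit 5) (nat_lit 333) (nat_lit 314) (nat_lit 133)))))) (XT.nd (nat_lit 546) (nat_lit 3496) (nat_lit 0) (XT.nd (nat_lit 234) (nat_lit 2356) (nat_lit 0) (XT.nd (nat_lit 78) (nat_lit 1748) (nat_lit 0) (XT.lf (nat_lit 0) (nat_lit 23312884015) (nat_lit 912) (nat_lit 3525241113) (nat_lit 76) (nat_lit 873788942) (nat_lit 340) (nat_lit 5) (nat_lit 352) (nat_lit 5) (nat_lit 341) (nat_lit 5) (nat_lit 334) (nat_lit 314) (nat_lit 132)) (XT.nd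 (nat_lit 78) (nat_lit 912) (nat_lit 0) (XT.lf (nat_lit 0) (nat_lit 16964379891) (nat_lit 836) (nat_lit 10265103447) (nat_lit 912) (nat_lit 948085313) (nat_lit 329) (nat_lit 5) (nat_lit 340) (nat_lit 5) (nat_lit 341) (nat_lit 5) (nat_lit 335) (nat_lit 314) (nat_lit 131)) (XT.lf (nat_lit 0) (nat_lit 2697963353) (nat_lit 912) (nat_lit 19136404246) (nat_lit 76) (nat_lit 6819975381) (nat_lit 317) (nat_lit 5) (nat_lit 329) (nat_lit 5) (nat_lit 318) (nat_lit 5) (nat_lit 336) (nat_lit 314) (nat_lit 130)))) (XT.nd (nat_lit 156) (nat_lit 1520) (nat_lit 0) (XT.nd (nat_lit 78) (nat_lit 0) (nat_lit 0) (XT.lf (nat_lit 0) (nat_lit 1824117448) (nat_lit 836) (nat_lit 4768320938) (nat_lit 912) (nat_lit 22549821926) (nat_lit 306) (nat_lit 5) (nat_lit 317) (nat_lit 5) (nat_lit 318) (nat_lit 5) (nat_lit 337) (nat_lit 314) (nat_lit 129)) (XT.lf (nat_lit 0) (nat_lit 10812443309) (nat_lit 912) (nat_lit 6055780493) (nat_lit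 76) (nat_lit 12772420970) (nat_lit 306) (nat_lit 5) (nat_lit 318) (nat_lit 5) (nat_lit 307) (nat_lit 5) (nat_lit 338) (nat_lit 314) (nat_lit 128))) (XT.nd (nat_lit 78) (nat_lit 760) (nat_lit 0) (XT.lf (nat_lit 0) (nat_lit 15294799320) (nat_lit 836) (nat_lit 14138231279) (nat_lit 76) (nat_lit 718238564) (nat_lit 296) (nat_lit 5) (nat_lit 307) (nat_lit 5) (nat_lit 297) (nat_lit 5) (nat_lit 339) (nat_lit 314) (nat_lit 127)) (XT.lf (nat_lit 0) (nat_lit 8139287608) (nat_lit 760) (nat_lit 11974547538) (nat_lit 836) (nat_lit 10559336274) (nat_lit 286) (nat_lit 5) (nat_lit 296) (nat_lit 5) (nat_lit 297) (nat_lit 5) (nat_lit 340) (nat_lit 314) (nat_lit 126))))) (XT.nd (nat_lit 234) (nat_lit 1976) (nat_lit 0) (XT.nd (nat_lit 78) (nat_lit 836) (nat_lit 0) (XT.lf (nat_lit 0) (nat_lit 25717848) (nat_lit 684) (nat_lit 25182694312) (nat_lit 760) (nat_lit 5999702403) (nat_lit 277) (nat_lit 5) (nat_lit 286) (nat_lit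 5) (nat_lit 287) (nat_lit 5) (nat_lit 341) (nat_lit 314) (nat_lit 125)) (XT.nd (nat_lit 78) (nat_lit 836) (nat_lit 0) (XT.lf (nat_lit 0) (nat_lit 23484667020) (nat_lit 684) (nat_lit 7198870494) (nat_lit 760) (nat_lit 1071017393) (nat_lit 277) (nat_lit 5) (nat_lit 286) (nat_lit 5) (nat_lit 287) (nat_lit 5) (nat_lit 342) (nat_lit 314) (nat_lit 124)) (XT.lf (nat_lit 0) (nat_lit 4123573690) (nat_lit 836) (nat_lit 16886669026) (nat_lit 76) (nat_lit 11303217015) (nat_lit 266) (nat_lit 5) (nat_lit 277) (nat_lit 5) (nat_lit 267) (nat_lit 5) (nat_lit 343) (nat_lit 314) (nat_lit 123)))) (XT.nd (nat_lit 156) (nat_lit 1292) (nat_lit 0) (XT.nd (nat_lit 78) (nat_lit 0) (nat_lit 0) (XT.lf (nat_lit 0) (nat_lit 7092217841) (nat_lit 684) (nat_lit 2513576433) (nat_lit 760) (nat_lit 23280271873) (nat_lit 257) (nat_lit 5) (nat_lit 266) (nat_lit 5) (nat_lit 267) (nat_lit 5) (nat_lit 344) (nat_lit 314) (nat_lit 122))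 (XT.lf (nat_lit 0) (nat_lit 15470798301) (nat_lit 760) (nat_lit 1564766885) (nat_lit 76) (nat_lit 16435922039) (nat_lit 257) (nat_lit 5) (nat_lit 267) (nat_lit 5) (nat_lit 258) (nat_lit 5) (nat_lit 345) (nat_lit 314) (nat_lit 121))) (XT.nd (nat_lit 78) (nat_lit 608) (nat_lit 0) (XT.lf (nat_lit 0) (nat_lit 21691188036) (nat_lit 760) (nat_lit 10403747776) (nat_lit 76) (nat_lit 1975949135) (nat_lit 248) (nat_lit 5) (nat_lit 258) (nat_lit 5) (nat_lit 249) (nat_lit 5) (nat_lit 346) (nat_lit 314) (nat_lit 120)) (XT.lf (nat_lit 0) (nat_lit 15068435337) (nat_lit 608) (nat_lit 13248152106) (nat_lit 684) (nat_lit 6367311842) (nat_lit 240) (nat_lit 5) (nat_lit 248) (nat_lit 5) (nat_lit 249) (nat_lit 5) (nat_lit 347) (nat_lit 314) (nat_lit 119))))))))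
noncomputable def xc122 : XT := (XT.nd (nat_lit 2106) (nat_lit 2204) (nat_lit 0) (XT.nd (nat_lit 1014) (nat_lit 6004) (nat_lit 0) (XT.nd (nat_lit 468) (nat_lit 1140) (nat_lit 0) (XT.nd (nat_lit 234) (nat_lit 0) (nat_lit 152) (XT.nd (nat_lit 78) (nat_lit 0) (nat_lit 0) (XT.lf (nat_lit 0) (nat_lit 5488232472) (nat_lit 1748) (nat_lit 2476460824) (nat_lit 1748) (nat_lit 2476460824) (nat_lit 380) (nat_lit 3) (nat_lit 403) (nat_lit 3) (nat_lit 403) (nat_lit 5) (nat_lit 315) (nat_lit 315) (nat_lit 150)) (XT.nd (nat_lit 78) (nat_lit 0) (nat_lit 76) (XT.lf (nat_lit 76) (nat_lit 9403758223) (nat_lit 0) (nat_lit 2014033617) (nat_lit 1748) (nat_lit 9772047984) (nat_lit 381) (nat_lit 5) (nat_lit 380) (nat_lit 3) (nat_lit 403) (nat_lit 5) (nat_lit 316) (nat_lit 315) (nat_lit 149)) (XT.lf (nat_lit 76) (nat_lit 2703710255) (nat_lit 0) (nat_lit 9291552173) (nat_lit 1748) (nat_lit 9508883460) (nat_lit 382) (nat_lit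 5) (nat_lit 381) (nat_lit 5) (nat_lit 404) (nat_lit 5) (nat_lit 317) (nat_lit 315) (nat_lit 148)))) (XT.nd (nat_lit 78) (nat_lit 0) (nat_lit 0) (XT.lf (nat_lit 0) (nat_lit 12708191147) (nat_lit 1672) (nat_lit 4087877593) (nat_lit 1748) (nat_lit 5029456133) (nat_lit 382) (nat_lit 5) (nat_lit 404) (nat_lit 5) (nat_lit 405) (nat_lit 5) (nat_lit 318) (nat_lit 315) (nat_lit 147)) (XT.nd (nat_lit 78) (nat_lit 0) (nat_lit 76) (XT.lf (nat_lit 76) (nat_lit 11145557714) (nat_lit 0) (nat_lit 2423512556) (nat_lit 1748) (nat_lit 8584949942) (nat_lit 383) (nat_lit 5) (nat_lit 382) (nat_lit 5) (nat_lit 405) (nat_lit 5) (nat_lit 319) (nat_lit 315) (nat_lit 146)) (XT.lf (nat_lit 76) (nat_lit 4372267098) (nat_lit 0) (nat_lit 10212446057) (nat_lit 1748) (nat_lit 7905084559) (nat_lit 384) (nat_lit 5) (nat_lit 383) (nat_lit 5) (nat_lit 406) (nat_lit 5) (nat_lit 320) (nat_lit 315) (nat_lit 145))))) (XT.nd (nat_lit 234)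 (nat_lit 1444) (nat_lit 0) (XT.nd (nat_lit 78) (nat_lit 0) (nat_lit 0) (XT.lf (nat_lit 0) (nat_lit 15744064308) (nat_lit 1672) (nat_lit 2519942657) (nat_lit 1748) (nat_lit 4569382672) (nat_lit 384) (nat_lit 5) (nat_lit 406) (nat_lit 5) (nat_lit 407) (nat_lit 5) (nat_lit 321) (nat_lit 315) (nat_lit 144)) (XT.nd (nat_lit 78) (nat_lit 0) (nat_lit 76) (XT.lf (nat_lit 76) (nat_lit 13651713588) (nat_lit 0) (nat_lit 3436131113) (nat_lit 1748) (nat_lit 6096457347) (nat_lit 385) (nat_lit 5) (nat_lit 384) (nat_lit 5) (nat_lit 407) (nat_lit 5) (nat_lit 322) (nat_lit 315) (nat_lit 143)) (XT.lf (nat_lit 76) (nat_lit 6805201707) (nat_lit 0) (nat_lit 11797877532) (nat_lit 1748) (nat_lit 4940045316) (nat_lit 386) (nat_lit 5) (nat_lit 385) (nat_lit 5) (nat_lit 408) (nat_lit 5) (nat_lit 323) (nat_lit 315) (nat_lit 142)))) (XT.nd (nat_lit 156) (nat_lit 1596) (nat_lit 0) (XT.nd (nat_lit 78) (nat_lit 0) (nat_lit 0)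 (XT.lf (nat_lit 0) (nat_lit 20266956177) (nat_lit 1672) (nat_lit 198072587) (nat_lit 1748) (nat_lit 3445624642) (nat_lit 386) (nat_lit 5) (nat_lit 408) (nat_lit 5) (nat_lit 409) (nat_lit 5) (nat_lit 324) (nat_lit 315) (nat_lit 141)) (XT.lf (nat_lit 76) (nat_lit 16977091976) (nat_lit 0) (nat_lit 5186090392) (nat_lit 1748) (nat_lit 2122382316) (nat_lit 387) (nat_lit 5) (nat_lit 386) (nat_lit 5) (nat_lit 409) (nat_lit 5) (nat_lit 325) (nat_lit 315) (nat_lit 140))) (XT.nd (nat_lit 78) (nat_lit 1672) (nat_lit 0) (XT.lf (nat_lit 76) (nat_lit 10057199667) (nat_lit 0) (nat_lit 14187737014) (nat_lit 1748) (nat_lit 424218862) (nat_lit 388) (nat_lit 5) (nat_lit 387) (nat_lit 5) (nat_lit 410) (nat_lit 5) (nat_lit 326) (nat_lit 315) (nat_lit 139)) (XT.lf (nat_lit 0) (nat_lit 1415107737) (nat_lit 1748) (nat_lit 22101060708) (nat_lit 1824) (nat_lit 1545766576) (nat_lit 365) (nat_lit 5) (nat_lit 388) (nat_lit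 5) (nat_lit 389) (nat_lit 5) (nat_lit 327) (nat_lit 315) (nat_lit 138)))))) (XT.nd (nat_lit 546) (nat_lit 4104) (nat_lit 0) (XT.nd (nat_lit 234) (nat_lit 1900) (nat_lit 0) (XT.nd (nat_lit 78) (nat_lit 0) (nat_lit 76) (XT.lf (nat_lit 0) (nat_lit 3492200136) (nat_lit 1748) (nat_lit 4306780586) (nat_lit 1824) (nat_lit 17663698775) (nat_lit 365) (nat_lit 5) (nat_lit 388) (nat_lit 5) (nat_lit 389) (nat_lit 5) (nat_lit 328) (nat_lit 315) (nat_lit 137)) (XT.nd (nat_lit 78) (nat_lit 0) (nat_lit 0) (XT.lf (nat_lit 0) (nat_lit 5772859271) (nat_lit 1748) (nat_lit 11725868128) (nat_lit 1824) (nat_lit 8373898376) (nat_lit 366) (nat_lit 5) (nat_lit 389) (nat_lit 5) (nat_lit 390) (nat_lit 5) (nat_lit 329) (nat_lit 315) (nat_lit 136)) (XT.lf (nat_lit 76) (nat_lit 6952697539) (nat_lit 0) (nat_lit 1290017543) (nat_lit 1824) (nat_lit 18049744237) (nat_lit 367) (nat_lit 5) (nat_lit 366) (nat_lit 5) (nat_lit 390) (nat_lit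 5) (nat_lit 330) (nat_lit 315) (nat_lit 135)))) (XT.nd (nat_lit 156) (nat_lit 2052) (nat_lit 0) (XT.nd (nat_lit 78) (nat_lit 0) (nat_lit 76) (XT.lf (nat_lit 0) (nat_lit 10960921907) (nat_lit 1748) (nat_lit 476475707) (nat_lit 1824) (nat_lit 15284009434) (nat_lit 367) (nat_lit 5) (nat_lit 390) (nat_lit 5) (nat_lit 391) (nat_lit 5) (nat_lit 331) (nat_lit 315) (nat_lit 134)) (XT.lf (nat_lit 0) (nat_lit 13922752304) (nat_lit 1748) (nat_lit 8003945174) (nat_lit 76) (nat_lit 5233288344) (nat_lit 368) (nat_lit 5) (nat_lit 391) (nat_lit 5) (nat_lit 369) (nat_lit 5) (nat_lit 332) (nat_lit 315) (nat_lit 133))) (XT.nd (nat_lit 78) (nat_lit 836) (nat_lit 0) (XT.lf (nat_lit 0) (nat_lit 11846596406) (nat_lit 1292) (nat_lit 5278052350) (nat_lit 1368) (nat_lit 10484053022) (nat_lit 351) (nat_lit 5) (nat_lit 368) (nat_lit 5) (nat_lit 369) (nat_lit 5) (nat_lit 333) (nat_lit 315) (nat_lit 132)) (XT.lf (nat_lit 0)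 (nat_lit 4306773760) (nat_lit 836) (nat_lit 16270147010) (nat_lit 912) (nat_lit 7490875991) (nat_lit 340) (nat_lit 5) (nat_lit 351) (nat_lit 5) (nat_lit 352) (nat_lit 5) (nat_lit 334) (nat_lit 315) (nat_lit 131))))) (XT.nd (nat_lit 234) (nat_lit 2356) (nat_lit 0) (XT.nd (nat_lit 78) (nat_lit 1748) (nat_lit 0) (XT.lf (nat_lit 0) (nat_lit 24275187651) (nat_lit 912) (nat_lit 3390589689) (nat_lit 76) (nat_lit 872042528) (nat_lit 340) (nat_lit 5) (nat_lit 352) (nat_lit 5) (nat_lit 341) (nat_lit 5) (nat_lit 335) (nat_lit 315) (nat_lit 130)) (XT.nd (nat_lit 78) (nat_lit 912) (nat_lit 0) (XT.lf (nat_lit 0) (nat_lit 17709819600) (nat_lit 836) (nat_lit 10593343142) (nat_lit 912) (nat_lit 714409418) (nat_lit 329) (nat_lit 5) (nat_lit 340) (nat_lit 5) (nat_lit 341) (nat_lit 5) (nat_lit 336) (nat_lit 315) (nat_lit 129)) (XT.lf (nat_lit 0) (nat_lit 3031475599) (nat_lit 912) (nat_lit 19468923187) (nat_lit 76)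 (nat_lit 7008344402) (nat_lit 317) (nat_lit 5) (nat_lit 329) (nat_lit 5) (nat_lit 318) (nat_lit 5) (nat_lit 337) (nat_lit 315) (nat_lit 128)))) (XT.nd (nat_lit 156) (nat_lit 1520) (nat_lit 0) (XT.nd (nat_lit 78) (nat_lit 0) (nat_lit 0) (XT.lf (nat_lit 0) (nat_lit 2116494920) (nat_lit 836) (nat_lit 4920476465) (nat_lit 912) (nat_lit 22974448128) (nat_lit 306) (nat_lit 5) (nat_lit 317) (nat_lit 5) (nat_lit 318) (nat_lit 5) (nat_lit 338) (nat_lit 315) (nat_lit 127)) (XT.lf (nat_lit 0) (nat_lit 11376331876) (nat_lit 912) (nat_lit 6001704704) (nat_lit 76) (nat_lit 13146868868) (nat_lit 306) (nat_lit 5) (nat_lit 318) (nat_lit 5) (nat_lit 307) (nat_lit 5) (nat_lit 339) (nat_lit 315) (nat_lit 126))) (XT.nd (nat_lit 78) (nat_lit 760) (nat_lit 0) (XT.lf (nat_lit 0) (nat_lit 15987674434) (nat_lit 836) (nat_lit 14325595642) (nat_lit 76) (nat_lit 737693081) (nat_lit 296) (nat_lit 5) (nat_lit 307) (nat_lit 5)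 (nat_lit 297) (nat_lit 5) (nat_lit 340) (nat_lit 315) (nat_lit 125)) (XT.lf (nat_lit 0) (nat_lit 8616407296) (nat_lit 760) (nat_lit 12329570006) (nat_lit 836) (nat_lit 10642656022) (nat_lit 286) (nat_lit 5) (nat_lit 296) (nat_lit 5) (nat_lit 297) (nat_lit 5) (nat_lit 341) (nat_lit 315) (nat_lit 124))))))) (XT.nd (nat_lit 39234) (nat_lit 0) (nat_lit 5472) (XT.nd (nat_lit 38688) (nat_lit 0) (nat_lit 9348) (XT.nd (nat_lit 234) (nat_lit 684) (nat_lit 0) (XT.nd (nat_lit 78) (nat_lit 836) (nat_lit 0) (XT.lf (nat_lit 0) (nat_lit 260280782) (nat_lit 684) (nat_lit 25927993382) (nat_lit 760) (nat_lit 5951457569) (nat_lit 277) (nat_lit 5) (nat_lit 286) (nat_lit 5) (nat_lit 287) (nat_lit 5) (nat_lit 342) (nat_lit 315) (nat_lit 123)) (XT.nd (nat_lit 78) (nat_lit 836) (nat_lit 0) (XT.lf (nat_lit 0) (nat_lit 24416188971) (nat_lit 684) (nat_lit 7404951405) (nat_lit 760) (nat_lit 881559656) (nat_lit 277) (nat_lit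 5) (nat_lit 286) (nat_lit 5) (nat_lit 287) (nat_lit 5) (nat_lit 343) (nat_lit 315) (nat_lit 122)) (XT.lf (nat_lit 0) (nat_lit 4461144208) (nat_lit 836) (nat_lit 17162629644) (nat_lit 76) (nat_lit 11654670023) (nat_lit 266) (nat_lit 5) (nat_lit 277) (nat_lit 5) (nat_lit 267) (nat_lit 5) (nat_lit 344) (nat_lit 315) (nat_lit 121)))) (XT.nd (nat_lit 78) (nat_lit 0) (nat_lit 0) (XT.lf (nat_lit 0) (nat_lit 7531881979) (nat_lit 684) (nat_lit 2571193573) (nat_lit 760) (nat_lit 23765252196) (nat_lit 257) (nat_lit 5) (nat_lit 266) (nat_lit 5) (nat_lit 267) (nat_lit 5) (nat_lit 345) (nat_lit 315) (nat_lit 120)) (XT.nd (nat_lit 38298) (nat_lit 0) (nat_lit 9348) (XT.lf (nat_lit 0) (nat_lit 16138051332) (nat_lit 760) (nat_lit 1387338551) (nat_lit 76) (nat_lit 16946045169) (nat_lit 257) (nat_lit 5) (nat_lit 267) (nat_lit 5) (nat_lit 258) (nat_lit 5) (nat_lit 346) (nat_lit 315) (nat_lit 119)) (XT.lf (nat_lit 0)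 (nat_lit 5866431217) (nat_lit 1748) (nat_lit 2441759338) (nat_lit 1748) (nat_lit 2441759338) (nat_lit 380) (nat_lit 3) (nat_lit 403) (nat_lit 3) (nat_lit 403) (nat_lit 5) (nat_lit 316) (nat_lit 316) (nat_lit 148))))) (XT.nd (nat_lit 234) (nat_lit 0) (nat_lit 152) (XT.nd (nat_lit 78) (nat_lit 0) (nat_lit 76) (XT.lf (nat_lit 76) (nat_lit 9900324952) (nat_lit 0) (nat_lit 2276056653) (nat_lit 1748) (nat_lit 9640506439) (nat_lit 381) (nat_lit 5) (nat_lit 380) (nat_lit 3) (nat_lit 403) (nat_lit 5) (nat_lit 317) (nat_lit 316) (nat_lit 147)) (XT.nd (nat_lit 78) (nat_lit 0) (nat_lit 76) (XT.lf (nat_lit 76) (nat_lit 3005590670) (nat_lit 0) (nat_lit 9753630074) (nat_lit 1748) (nat_lit 9381651148) (nat_lit 382) (nat_lit 5) (nat_lit 381) (nat_lit 5) (nat_lit 404) (nat_lit 5) (nat_lit 318) (nat_lit 316) (nat_lit 146)) (XT.lf (nat_lit 0) (nat_lit 13480611769) (nat_lit 1672) (nat_lit 3986865583) (nat_lit 1748)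 (nat_lit 5004682621) (nat_lit 382) (nat_lit 5) (nat_lit 404) (nat_lit 5) (nat_lit 405) (nat_lit 5) (nat_lit 319) (nat_lit 316) (nat_lit 145)))) (XT.nd (nat_lit 156) (nat_lit 0) (nat_lit 152) (XT.nd (nat_lit 78) (nat_lit 0) (nat_lit 76) (XT.lf (nat_lit 76) (nat_lit 11699944356) (nat_lit 0) (nat_lit 2657407982) (nat_lit 1748) (nat_lit 8453366078) (nat_lit 383) (nat_lit 5) (nat_lit 382) (nat_lit 5) (nat_lit 405) (nat_lit 5) (nat_lit 320) (nat_lit 316) (nat_lit 144)) (XT.lf (nat_lit 76) (nat_lit 4728708904) (nat_lit 0) (nat_lit 10664098958) (nat_lit 1748) (nat_lit 7763983198) (nat_lit 384) (nat_lit 5) (nat_lit 383) (nat_lit 5) (nat_lit 406) (nat_lit 5) (nat_lit 321) (nat_lit 316) (nat_lit 143))) (XT.nd (nat_lit 78) (nat_lit 0) (nat_lit 0) (XT.lf (nat_lit 0) (nat_lit 16575230958) (nat_lit 1672) (nat_lit 2368436443) (nat_lit 1748) (nat_lit 4567265945) (nat_lit 384) (nat_lit 5) (nat_lit 406) (nat_lit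 5) (nat_lit 407) (nat_lit 5) (nat_lit 322) (nat_lit 316) (nat_lit 142)) (XT.lf (nat_lit 76) (nat_lit 14284684988) (nat_lit 0) (nat_lit 3665638577) (nat_lit 1748) (nat_lit 5922237775) (nat_lit 385) (nat_lit 5) (nat_lit 384) (nat_lit 5) (nat_lit 407) (nat_lit 5) (nat_lit 323) (nat_lit 316) (nat_lit 141)))))) (XT.nd (nat_lit 546) (nat_lit 2736) (nat_lit 0) (XT.nd (nat_lit 234) (nat_lit 1520) (nat_lit 0) (XT.nd (nat_lit 78) (nat_lit 0) (nat_lit 76) (XT.lf (nat_lit 76) (nat_lit 7237112361) (nat_lit 0) (nat_lit 12264394977) (nat_lit 1748) (nat_lit 4740839289) (nat_lit 386) (nat_lit 5) (nat_lit 385) (nat_lit 5) (nat_lit 408) (nat_lit 5) (nat_lit 324) (nat_lit 316) (nat_lit 140)) (XT.nd (nat_lit 78) (nat_lit 0) (nat_lit 0) (XT.lf (nat_lit 76) (nat_lit 25009568) (nat_lit 0) (nat_lit 21179831043) (nat_lit 1748) (nat_lit 3416277650) (nat_lit 387) (nat_lit 5) (nat_lit 386) (nat_lit 5) (nat_lit 409) (nat_lit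 5) (nat_lit 325) (nat_lit 316) (nat_lit 139)) (XT.lf (nat_lit 76) (nat_lit 17711390738) (nat_lit 0) (nat_lit 5438257928) (nat_lit 1748) (nat_lit 1857801802) (nat_lit 387) (nat_lit 5) (nat_lit 386) (nat_lit 5) (nat_lit 409) (nat_lit 5) (nat_lit 326) (nat_lit 316) (nat_lit 138)))) (XT.nd (nat_lit 156) (nat_lit 0) (nat_lit 0) (XT.nd (nat_lit 78) (nat_lit 1672) (nat_lit 0) (XT.lf (nat_lit 76) (nat_lit 10587441211) (nat_lit 0) (nat_lit 14697923168) (nat_lit 1748) (nat_lit 117361772) (nat_lit 388) (nat_lit 5) (nat_lit 387) (nat_lit 5) (nat_lit 410) (nat_lit 5) (nat_lit 327) (nat_lit 316) (nat_lit 137)) (XT.lf (nat_lit 0) (nat_lit 1764745207) (nat_lit 1748) (nat_lit 22528022814) (nat_lit 1824) (nat_lit 1514650578) (nat_lit 365) (nat_lit 5) (nat_lit 388) (nat_lit 5) (nat_lit 389) (nat_lit 5) (nat_lit 328) (nat_lit 316) (nat_lit 136))) (XT.nd (nat_lit 78) (nat_lit 0) (nat_lit 76) (XT.lf (nat_lit 0) (nat_lit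 3895203265) (nat_lit 1748) (nat_lit 4206790105) (nat_lit 1824) (nat_lit 18118377704) (nat_lit 365) (nat_lit 5) (nat_lit 388) (nat_lit 5) (nat_lit 389) (nat_lit 5) (nat_lit 329) (nat_lit 316) (nat_lit 135)) (XT.lf (nat_lit 0) (nat_lit 6236634069) (nat_lit 1748) (nat_lit 11845705318) (nat_lit 1824) (nat_lit 8560435841) (nat_lit 366) (nat_lit 5) (nat_lit 389) (nat_lit 5) (nat_lit 390) (nat_lit 5) (nat_lit 330) (nat_lit 316) (nat_lit 134))))) (XT.nd (nat_lit 234) (nat_lit 2812) (nat_lit 0) (XT.nd (nat_lit 78) (nat_lit 0) (nat_lit 76) (XT.lf (nat_lit 76) (nat_lit 7389454387) (nat_lit 0) (nat_lit 1384148879) (nat_lit 1824) (nat_lit 18301746494) (nat_lit 367) (nat_lit 5) (nat_lit 366) (nat_lit 5) (nat_lit 390) (nat_lit 5) (nat_lit 331) (nat_lit 316) (nat_lit 133)) (XT.nd (nat_lit 78) (nat_lit 0) (nat_lit 76) (XT.lf (nat_lit 0) (nat_lit 11564746494) (nat_lit 1748) (nat_lit 263178566) (nat_lit 1824) (nat_lit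 15689419208) (nat_lit 367) (nat_lit 5) (nat_lit 390) (nat_lit 5) (nat_lit 391) (nat_lit 5) (nat_lit 332) (nat_lit 316) (nat_lit 132)) (XT.lf (nat_lit 0) (nat_lit 14608586688) (nat_lit 1748) (nat_lit 8014307421) (nat_lit 76) (nat_lit 5346329172) (nat_lit 368) (nat_lit 5) (nat_lit 391) (nat_lit 5) (nat_lit 369) (nat_lit 5) (nat_lit 333) (nat_lit 316) (nat_lit 131)))) (XT.nd (nat_lit 156) (nat_lit 836) (nat_lit 0) (XT.nd (nat_lit 78) (nat_lit 836) (nat_lit 0) (XT.lf (nat_lit 0) (nat_lit 12428022886) (nat_lit 1292) (nat_lit 5472174428) (nat_lit 1368) (nat_lit 10531336053) (nat_lit 351) (nat_lit 5) (nat_lit 368) (nat_lit 5) (nat_lit 369) (nat_lit 5) (nat_lit 334) (nat_lit 316) (nat_lit 130)) (XT.lf (nat_lit 0) (nat_lit 4663908435) (nat_lit 836) (nat_lit 16785757884) (nat_lit 912) (nat_lit 7454867934) (nat_lit 340) (nat_lit 5) (nat_lit 351) (nat_lit 5) (nat_lit 352) (nat_lit 5) (nat_lit 335) (nat_lit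 316) (nat_lit 129))) (XT.nd (nat_lit 78) (nat_lit 836) (nat_lit 0) (XT.lf (nat_lit 0) (nat_lit 25251267878) (nat_lit 912) (nat_lit 3265699163) (nat_lit 76) (nat_lit 871848744) (nat_lit 340) (nat_lit 5) (nat_lit 352) (nat_lit 5) (nat_lit 341) (nat_lit 5) (nat_lit 336) (nat_lit 316) (nat_lit 128)) (XT.lf (nat_lit 0) (nat_lit 18464045956) (nat_lit 836) (nat_lit 10930265495) (nat_lit 912) (nat_lit 488769918) (nat_lit 329) (nat_lit 5) (nat_lit 340) (nat_lit 5) (nat_lit 341) (nat_lit 5) (nat_lit 337) (nat_lit 316) (nat_lit 127))))))))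
noncomputable def xc123 : XT := (XT.nd (nat_lit 40482) (nat_lit 0) (nat_lit 836) (XT.nd (nat_lit 39390) (nat_lit 0) (nat_lit 6460) (XT.nd (nat_lit 468) (nat_lit 836) (nat_lit 0) (XT.nd (nat_lit 234) (nat_lit 2204) (nat_lit 0) (XT.nd (nat_lit 78) (nat_lit 836) (nat_lit 0) (XT.lf (nat_lit 0) (nat_lit 3360494469) (nat_lit 912) (nat_lit 19825284985) (nat_lit 76) (nat_lit 7203296176) (nat_lit 317) (nat_lit 5) (nat_lit 329) (nat_lit 5) (nat_lit 318) (nat_lit 5) (nat_lit 338) (nat_lit 316) (nat_lit 126)) (XT.nd (nat_lit 78) (nat_lit 0) (nat_lit 0) (XT.lf (nat_lit 0) (nat_lit 2404001408) (nat_lit 836) (nat_lit 5076673942) (nat_lit 912) (nat_lit 23426271395) (nat_lit 306) (nat_lit 5) (nat_lit 317) (nat_lit 5) (nat_lit 318) (nat_lit 5) (nat_lit 339) (nat_lit 316) (nat_lit 125)) (XT.lf (nat_lit 0) (nat_lit 11943387943) (nat_lit 912) (nat_lit 5959539611) (nat_lit 76) (nat_lit 13533051039) (nat_lit 306) (nat_lit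 5) (nat_lit 318) (nat_lit 5) (nat_lit 307) (nat_lit 5) (nat_lit 340) (nat_lit 316) (nat_lit 124)))) (XT.nd (nat_lit 78) (nat_lit 1444) (nat_lit 0) (XT.lf (nat_lit 0) (nat_lit 16687901457) (nat_lit 836) (nat_lit 14532173225) (nat_lit 76) (nat_lit 757851360) (nat_lit 296) (nat_lit 5) (nat_lit 307) (nat_lit 5) (nat_lit 297) (nat_lit 5) (nat_lit 341) (nat_lit 316) (nat_lit 123)) (XT.nd (nat_lit 78) (nat_lit 684) (nat_lit 0) (XT.lf (nat_lit 0) (nat_lit 9094468804) (nat_lit 760) (nat_lit 12695485047) (nat_lit 836) (nat_lit 10741876941) (nat_lit 286) (nat_lit 5) (nat_lit 296) (nat_lit 5) (nat_lit 297) (nat_lit 5) (nat_lit 342) (nat_lit 316) (nat_lit 122)) (XT.lf (nat_lit 0) (nat_lit 488460022) (nat_lit 684) (nat_lit 26696235898) (nat_lit 760) (nat_lit 5914867064) (nat_lit 277) (nat_lit 5) (nat_lit 286) (nat_lit 5) (nat_lit 287) (nat_lit 5) (nat_lit 343) (nat_lit 316) (nat_lit 121))))) (XT.nd (nat_lit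 38610) (nat_lit 0) (nat_lit 8664) (XT.nd (nat_lit 78) (nat_lit 836) (nat_lit 0) (XT.lf (nat_lit 0) (nat_lit 25362626889) (nat_lit 684) (nat_lit 7617782195) (nat_lit 760) (nat_lit 699138260) (nat_lit 277) (nat_lit 5) (nat_lit 286) (nat_lit 5) (nat_lit 287) (nat_lit 5) (nat_lit 344) (nat_lit 316) (nat_lit 120)) (XT.nd (nat_lit 38454) (nat_lit 0) (nat_lit 8664) (XT.lf (nat_lit 0) (nat_lit 4796565213) (nat_lit 836) (nat_lit 17460108729) (nat_lit 76) (nat_lit 12015957307) (nat_lit 266) (nat_lit 5) (nat_lit 277) (nat_lit 5) (nat_lit 267) (nat_lit 5) (nat_lit 345) (nat_lit 316) (nat_lit 119)) (XT.lf (nat_lit 0) (nat_lit 6243717179) (nat_lit 1748) (nat_lit 2412273585) (nat_lit 1748) (nat_lit 2412273585) (nat_lit 380) (nat_lit 3) (nat_lit 403) (nat_lit 3) (nat_lit 403) (nat_lit 5) (nat_lit 317) (nat_lit 317) (nat_lit 146)))) (XT.nd (nat_lit 156) (nat_lit 0) (nat_lit 152) (XT.nd (nat_lit 78) (nat_lit 0)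 (nat_lit 76) (XT.lf (nat_lit 76) (nat_lit 10399478147) (nat_lit 0) (nat_lit 2534367599) (nat_lit 1748) (nat_lit 9529398337) (nat_lit 381) (nat_lit 5) (nat_lit 380) (nat_lit 3) (nat_lit 403) (nat_lit 5) (nat_lit 318) (nat_lit 317) (nat_lit 145)) (XT.lf (nat_lit 76) (nat_lit 3303854448) (nat_lit 0) (nat_lit 10219046343) (nat_lit 1748) (nat_lit 9274280986) (nat_lit 382) (nat_lit 5) (nat_lit 381) (nat_lit 5) (nat_lit 404) (nat_lit 5) (nat_lit 319) (nat_lit 317) (nat_lit 144))) (XT.nd (nat_lit 78) (nat_lit 0) (nat_lit 0) (XT.lf (nat_lit 0) (nat_lit 14253749971) (nat_lit 1672) (nat_lit 3895661541) (nat_lit 1748) (nat_lit 4989249345) (nat_lit 382) (nat_lit 5) (nat_lit 404) (nat_lit 5) (nat_lit 405) (nat_lit 5) (nat_lit 320) (nat_lit 317) (nat_lit 143)) (XT.lf (nat_lit 76) (nat_lit 12258332553) (nat_lit 0) (nat_lit 2889067303) (nat_lit 1748) (nat_lit 8340172488) (nat_lit 383) (nat_lit 5) (nat_lit 382)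 (nat_lit 5) (nat_lit 405) (nat_lit 5) (nat_lit 321) (nat_lit 317) (nat_lit 142)))))) (XT.nd (nat_lit 546) (nat_lit 988) (nat_lit 0) (XT.nd (nat_lit 234) (nat_lit 1444) (nat_lit 0) (XT.nd (nat_lit 78) (nat_lit 0) (nat_lit 76) (XT.lf (nat_lit 76) (nat_lit 5082912327) (nat_lit 0) (nat_lit 11120961809) (nat_lit 1748) (nat_lit 7640362118) (nat_lit 384) (nat_lit 5) (nat_lit 383) (nat_lit 5) (nat_lit 406) (nat_lit 5) (nat_lit 322) (nat_lit 317) (nat_lit 141)) (XT.nd (nat_lit 78) (nat_lit 0) (nat_lit 0) (XT.lf (nat_lit 0) (nat_lit 17410733452) (nat_lit 1672) (nat_lit 2225421770) (nat_lit 1748) (nat_lit 4573076263) (nat_lit 384) (nat_lit 5) (nat_lit 406) (nat_lit 5) (nat_lit 407) (nat_lit 5) (nat_lit 323) (nat_lit 317) (nat_lit 140)) (XT.lf (nat_lit 76) (nat_lit 14923820309) (nat_lit 0) (nat_lit 3894774037) (nat_lit 1748) (nat_lit 5763291380) (nat_lit 385) (nat_lit 5) (nat_lit 384) (nat_lit 5) (nat_lit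 407) (nat_lit 5) (nat_lit 324) (nat_lit 317) (nat_lit 139)))) (XT.nd (nat_lit 156) (nat_lit 1596) (nat_lit 0) (XT.nd (nat_lit 78) (nat_lit 0) (nat_lit 76) (XT.lf (nat_lit 76) (nat_lit 7668906288) (nat_lit 0) (nat_lit 12738445329) (nat_lit 1748) (nat_lit 4555599686) (nat_lit 386) (nat_lit 5) (nat_lit 385) (nat_lit 5) (nat_lit 408) (nat_lit 5) (nat_lit 325) (nat_lit 317) (nat_lit 138)) (XT.lf (nat_lit 76) (nat_lit 244192867) (nat_lit 0) (nat_lit 21908997648) (nat_lit 1748) (nat_lit 3200074733) (nat_lit 387) (nat_lit 5) (nat_lit 386) (nat_lit 5) (nat_lit 409) (nat_lit 5) (nat_lit 326) (nat_lit 317) (nat_lit 137))) (XT.nd (nat_lit 78) (nat_lit 1672) (nat_lit 0) (XT.lf (nat_lit 76) (nat_lit 18454803345) (nat_lit 0) (nat_lit 5692446126) (nat_lit 1748) (nat_lit 1604126880) (nat_lit 387) (nat_lit 5) (nat_lit 386) (nat_lit 5) (nat_lit 409) (nat_lit 5) (nat_lit 327) (nat_lit 317) (nat_lit 136)) (XT.lf (nat_lit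 0) (nat_lit 177990224) (nat_lit 1748) (nat_lit 15039376526) (nat_lit 1824) (nat_lit 10941287067) (nat_lit 364) (nat_lit 5) (nat_lit 387) (nat_lit 5) (nat_lit 388) (nat_lit 5) (nat_lit 328) (nat_lit 317) (nat_lit 135))))) (XT.nd (nat_lit 234) (nat_lit 1064) (nat_lit 0) (XT.nd (nat_lit 78) (nat_lit 0) (nat_lit 0) (XT.lf (nat_lit 0) (nat_lit 2107238170) (nat_lit 1748) (nat_lit 22981345150) (nat_lit 1824) (nat_lit 1487049285) (nat_lit 365) (nat_lit 5) (nat_lit 388) (nat_lit 5) (nat_lit 389) (nat_lit 5) (nat_lit 329) (nat_lit 317) (nat_lit 134)) (XT.nd (nat_lit 78) (nat_lit 0) (nat_lit 76) (XT.lf (nat_lit 0) (nat_lit 4293176456) (nat_lit 1748) (nat_lit 4116956577) (nat_lit 1824) (nat_lit 18591015627) (nat_lit 365) (nat_lit 5) (nat_lit 388) (nat_lit 5) (nat_lit 389) (nat_lit 5) (nat_lit 330) (nat_lit 317) (nat_lit 133)) (XT.lf (nat_lit 0) (nat_lit 6697641112) (nat_lit 1748) (nat_lit 11982451862) (nat_lit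 1824) (nat_lit 8756282298) (nat_lit 366) (nat_lit 5) (nat_lit 389) (nat_lit 5) (nat_lit 390) (nat_lit 5) (nat_lit 331) (nat_lit 317) (nat_lit 132)))) (XT.nd (nat_lit 156) (nat_lit 1140) (nat_lit 0) (XT.nd (nat_lit 78) (nat_lit 0) (nat_lit 76) (XT.lf (nat_lit 76) (nat_lit 7826215709) (nat_lit 0) (nat_lit 1477922199) (nat_lit 1824) (nat_lit 18577926733) (nat_lit 367) (nat_lit 5) (nat_lit 366) (nat_lit 5) (nat_lit 390) (nat_lit 5) (nat_lit 332) (nat_lit 317) (nat_lit 131)) (XT.lf (nat_lit 0) (nat_lit 12170899870) (nat_lit 1748) (nat_lit 56547189) (nat_lit 1824) (nat_lit 16110040036) (nat_lit 367) (nat_lit 5) (nat_lit 390) (nat_lit 5) (nat_lit 391) (nat_lit 5) (nat_lit 333) (nat_lit 317) (nat_lit 130))) (XT.nd (nat_lit 78) (nat_lit 1292) (nat_lit 0) (XT.lf (nat_lit 0) (nat_lit 15299603093) (nat_lit 1748) (nat_lit 8038169476) (nat_lit 76) (nat_lit 5465284582) (nat_lit 368) (nat_lit 5) (nat_lit 391)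 (nat_lit 5) (nat_lit 369) (nat_lit 5) (nat_lit 334) (nat_lit 317) (nat_lit 129)) (XT.lf (nat_lit 0) (nat_lit 13013917196) (nat_lit 1292) (nat_lit 5670066220) (nat_lit 1368) (nat_lit 10595378162) (nat_lit 351) (nat_lit 5) (nat_lit 368) (nat_lit 5) (nat_lit 369) (nat_lit 5) (nat_lit 335) (nat_lit 317) (nat_lit 128))))))) (XT.nd (nat_lit 39468) (nat_lit 0) (nat_lit 6612) (XT.nd (nat_lit 468) (nat_lit 2204) (nat_lit 0) (XT.nd (nat_lit 234) (nat_lit 1748) (nat_lit 0) (XT.nd (nat_lit 78) (nat_lit 836) (nat_lit 0) (XT.lf (nat_lit 0) (nat_lit 5018672952) (nat_lit 836) (nat_lit 17315258101) (nat_lit 912) (nat_lit 7432746853) (nat_lit 340) (nat_lit 5) (nat_lit 351) (nat_lit 5) (nat_lit 352) (nat_lit 5) (nat_lit 336) (nat_lit 317) (nat_lit 127)) (XT.nd (nat_lit 78) (nat_lit 836) (nat_lit 0) (XT.lf (nat_lit 0) (nat_lit 26242404367) (nat_lit 912) (nat_lit 3150070159) (nat_lit 76) (nat_lit 873162035) (nat_lit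 340) (nat_lit 5) (nat_lit 352) (nat_lit 5) (nat_lit 341) (nat_lit 5) (nat_lit 337) (nat_lit 317) (nat_lit 126)) (XT.lf (nat_lit 0) (nat_lit 19228101907) (nat_lit 836) (nat_lit 11276197834) (nat_lit 912) (nat_lit 270544163) (nat_lit 329) (nat_lit 5) (nat_lit 340) (nat_lit 5) (nat_lit 341) (nat_lit 5) (nat_lit 338) (nat_lit 317) (nat_lit 125)))) (XT.nd (nat_lit 78) (nat_lit 836) (nat_lit 0) (XT.lf (nat_lit 0) (nat_lit 3685717449) (nat_lit 912) (nat_lit 20205408887) (nat_lit 76) (nat_lit 7404974704) (nat_lit 317) (nat_lit 5) (nat_lit 329) (nat_lit 5) (nat_lit 318) (nat_lit 5) (nat_lit 339) (nat_lit 317) (nat_lit 124)) (XT.nd (nat_lit 78) (nat_lit 0) (nat_lit 0) (XT.lf (nat_lit 0) (nat_lit 2687273905) (nat_lit 836) (nat_lit 5237064633) (nat_lit 912) (nat_lit 23905277676) (nat_lit 306) (nat_lit 5) (nat_lit 317) (nat_lit 5) (nat_lit 318) (nat_lit 5) (nat_lit 340) (nat_lit 317) (nat_lit 123)) (XT.lf (nat_lit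 0) (nat_lit 12514495795) (nat_lit 912) (nat_lit 5928865686) (nat_lit 76) (nat_lit 13931290759) (nat_lit 306) (nat_lit 5) (nat_lit 318) (nat_lit 5) (nat_lit 307) (nat_lit 5) (nat_lit 341) (nat_lit 317) (nat_lit 122))))) (XT.nd (nat_lit 234) (nat_lit 0) (nat_lit 0) (XT.nd (nat_lit 78) (nat_lit 1444) (nat_lit 0) (XT.lf (nat_lit 0) (nat_lit 17396472133) (nat_lit 836) (nat_lit 14757760171) (nat_lit 76) (nat_lit 778727617) (nat_lit 296) (nat_lit 5) (nat_lit 307) (nat_lit 5) (nat_lit 297) (nat_lit 5) (nat_lit 342) (nat_lit 317) (nat_lit 121)) (XT.nd (nat_lit 78) (nat_lit 684) (nat_lit 0) (XT.lf (nat_lit 0) (nat_lit 9574267982) (nat_lit 760) (nat_lit 13072605552) (nat_lit 836) (nat_lit 10856706761) (nat_lit 286) (nat_lit 5) (nat_lit 296) (nat_lit 5) (nat_lit 297) (nat_lit 5) (nat_lit 343) (nat_lit 317) (nat_lit 120)) (XT.lf (nat_lit 0) (nat_lit 710834452) (nat_lit 684) (nat_lit 27488076614) (nat_lit 760)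 (nat_lit 5889528430) (nat_lit 277) (nat_lit 5) (nat_lit 286) (nat_lit 5) (nat_lit 287) (nat_lit 5) (nat_lit 344) (nat_lit 317) (nat_lit 119)))) (XT.nd (nat_lit 38610) (nat_lit 0) (nat_lit 7828) (XT.nd (nat_lit 38532) (nat_lit 0) (nat_lit 7828) (XT.lf (nat_lit 0) (nat_lit 26325176210) (nat_lit 684) (nat_lit 7837532786) (nat_lit 760) (nat_lit 523234110) (nat_lit 277) (nat_lit 5) (nat_lit 286) (nat_lit 5) (nat_lit 287) (nat_lit 5) (nat_lit 345) (nat_lit 317) (nat_lit 118)) (XT.lf (nat_lit 0) (nat_lit 6620766676) (nat_lit 1748) (nat_lit 2387800870) (nat_lit 1748) (nat_lit 2387800870) (nat_lit 380) (nat_lit 3) (nat_lit 403) (nat_lit 3) (nat_lit 403) (nat_lit 5) (nat_lit 318) (nat_lit 318) (nat_lit 144))) (XT.nd (nat_lit 78) (nat_lit 0) (nat_lit 76) (XT.lf (nat_lit 76) (nat_lit 10902002077) (nat_lit 0) (nat_lit 2789519417) (nat_lit 1748) (nat_lit 9437937186) (nat_lit 381) (nat_lit 5) (nat_lit 380) (nat_lit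 3) (nat_lit 403) (nat_lit 5) (nat_lit 319) (nat_lit 318) (nat_lit 143)) (XT.lf (nat_lit 76) (nat_lit 3599120574) (nat_lit 0) (nat_lit 10688505250) (nat_lit 1748) (nat_lit 9186009561) (nat_lit 382) (nat_lit 5) (nat_lit 381) (nat_lit 5) (nat_lit 404) (nat_lit 5) (nat_lit 320) (nat_lit 318) (nat_lit 142)))))) (XT.nd (nat_lit 546) (nat_lit 1368) (nat_lit 0) (XT.nd (nat_lit 234) (nat_lit 0) (nat_lit 152) (XT.nd (nat_lit 78) (nat_lit 0) (nat_lit 0) (XT.lf (nat_lit 0) (nat_lit 15028916292) (nat_lit 1672) (nat_lit 3813822735) (nat_lit 1748) (nat_lit 4982857682) (nat_lit 382) (nat_lit 5) (nat_lit 404) (nat_lit 5) (nat_lit 405) (nat_lit 5) (nat_lit 321) (nat_lit 318) (nat_lit 141)) (XT.nd (nat_lit 78) (nat_lit 0) (nat_lit 76) (XT.lf (nat_lit 76) (nat_lit 12821567370) (nat_lit 0) (nat_lit 3118954593) (nat_lit 1748) (nat_lit 8244638599) (nat_lit 383) (nat_lit 5) (nat_lit 382) (nat_lit 5) (nat_lit 405) (nat_lit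 5) (nat_lit 322) (nat_lit 318) (nat_lit 140)) (XT.lf (nat_lit 76) (nat_lit 5435552544) (nat_lit 0) (nat_lit 11583669635) (nat_lit 1748) (nat_lit 7533499293) (nat_lit 384) (nat_lit 5) (nat_lit 383) (nat_lit 5) (nat_lit 406) (nat_lit 5) (nat_lit 323) (nat_lit 318) (nat_lit 139)))) (XT.nd (nat_lit 156) (nat_lit 0) (nat_lit 76) (XT.nd (nat_lit 78) (nat_lit 0) (nat_lit 0) (XT.lf (nat_lit 0) (nat_lit 18251884342) (nat_lit 1672) (nat_lit 2090405023) (nat_lit 1748) (nat_lit 4586592747) (nat_lit 384) (nat_lit 5) (nat_lit 406) (nat_lit 5) (nat_lit 407) (nat_lit 5) (nat_lit 324) (nat_lit 318) (nat_lit 138)) (XT.lf (nat_lit 76) (nat_lit 15570040688) (nat_lit 0) (nat_lit 4123942928) (nat_lit 1748) (nat_lit 5618899587) (nat_lit 385) (nat_lit 5) (nat_lit 384) (nat_lit 5) (nat_lit 407) (nat_lit 5) (nat_lit 325) (nat_lit 318) (nat_lit 137))) (XT.nd (nat_lit 78) (nat_lit 0) (nat_lit 76) (XT.lf (nat_lit 76) (nat_lit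 8101330491) (nat_lit 0) (nat_lit 13220625556) (nat_lit 1748) (nat_lit 4383600713) (nat_lit 386) (nat_lit 5) (nat_lit 385) (nat_lit 5) (nat_lit 408) (nat_lit 5) (nat_lit 326) (nat_lit 318) (nat_lit 136)) (XT.lf (nat_lit 76) (nat_lit 457412716) (nat_lit 0) (nat_lit 22654656374) (nat_lit 1748) (nat_lit 2995679911) (nat_lit 387) (nat_lit 5) (nat_lit 386) (nat_lit 5) (nat_lit 409) (nat_lit 5) (nat_lit 327) (nat_lit 318) (nat_lit 135))))) (XT.nd (nat_lit 234) (nat_lit 0) (nat_lit 76) (XT.nd (nat_lit 78) (nat_lit 1672) (nat_lit 0) (XT.lf (nat_lit 76) (nat_lit 19208344594) (nat_lit 0) (nat_lit 5949033875) (nat_lit 1748) (nat_lit 1360603051) (nat_lit 387) (nat_lit 5) (nat_lit 386) (nat_lit 5) (nat_lit 409) (nat_lit 5) (nat_lit 328) (nat_lit 318) (nat_lit 134)) (XT.nd (nat_lit 78) (nat_lit 0) (nat_lit 76) (XT.lf (nat_lit 0) (nat_lit 463551867) (nat_lit 1748) (nat_lit 15283580621) (nat_lit 1824) (nat_lit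 11190465300) (nat_lit 364) (nat_lit 5) (nat_lit 387) (nat_lit 5) (nat_lit 388) (nat_lit 5) (nat_lit 329) (nat_lit 318) (nat_lit 133)) (XT.lf (nat_lit 0) (nat_lit 2443384532) (nat_lit 1748) (nat_lit 23461040620) (nat_lit 1824) (nat_lit 1462812794) (nat_lit 365) (nat_lit 5) (nat_lit 388) (nat_lit 5) (nat_lit 389) (nat_lit 5) (nat_lit 330) (nat_lit 318) (nat_lit 132)))) (XT.nd (nat_lit 156) (nat_lit 0) (nat_lit 76) (XT.nd (nat_lit 78) (nat_lit 0) (nat_lit 76) (XT.lf (nat_lit 0) (nat_lit 4686951572) (nat_lit 1748) (nat_lit 4036829463) (nat_lit 1824) (nat_lit 19081903408) (nat_lit 365) (nat_lit 5) (nat_lit 388) (nat_lit 5) (nat_lit 389) (nat_lit 5) (nat_lit 331) (nat_lit 318) (nat_lit 131)) (XT.lf (nat_lit 0) (nat_lit 7156754926) (nat_lit 1748) (nat_lit 12135850750) (nat_lit 1824) (nat_lit 8961503881) (nat_lit 366) (nat_lit 5) (nat_lit 389) (nat_lit 5) (nat_lit 390) (nat_lit 5) (nat_lit 332) (nat_lit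 318) (nat_lit 130))) (XT.nd (nat_lit 78) (nat_lit 0) (nat_lit 76) (XT.lf (nat_lit 76) (nat_lit 8263733532) (nat_lit 0) (nat_lit 1571509421) (nat_lit 1824) (nat_lit 18878056357) (nat_lit 367) (nat_lit 5) (nat_lit 366) (nat_lit 5) (nat_lit 390) (nat_lit 5) (nat_lit 333) (nat_lit 318) (nat_lit 129)) (XT.lf (nat_lit 76) (nat_lit 145881681) (nat_lit 0) (nat_lit 12635423555) (nat_lit 1824) (nat_lit 16401218717) (nat_lit 368) (nat_lit 5) (nat_lit 367) (nat_lit 5) (nat_lit 391) (nat_lit 5) (nat_lit 334) (nat_lit 318) (nat_lit 128))))))))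
noncomputable def xc124 : XT := (XT.nd (nat_lit 40716) (nat_lit 0) (nat_lit 760) (XT.nd (nat_lit 39624) (nat_lit 0) (nat_lit 5928) (XT.nd (nat_lit 468) (nat_lit 2356) (nat_lit 0) (XT.nd (nat_lit 234) (nat_lit 1748) (nat_lit 0) (XT.nd (nat_lit 78) (nat_lit 2128) (nat_lit 0) (XT.lf (nat_lit 0) (nat_lit 15996840600) (nat_lit 1748) (nat_lit 8075179233) (nat_lit 76) (nat_lit 5590187163) (nat_lit 368) (nat_lit 5) (nat_lit 391) (nat_lit 5) (nat_lit 369) (nat_lit 5) (nat_lit 335) (nat_lit 318) (nat_lit 127)) (XT.nd (nat_lit 78) (nat_lit 836) (nat_lit 0) (XT.lf (nat_lit 0) (nat_lit 13605158186) (nat_lit 1292) (nat_lit 5871958724) (nat_lit 1368) (nat_lit 10675801508) (nat_lit 351) (nat_lit 5) (nat_lit 368) (nat_lit 5) (nat_lit 369) (nat_lit 5) (nat_lit 336) (nat_lit 318) (nat_lit 126)) (XT.lf (nat_lit 0) (nat_lit 5371747293) (nat_lit 836) (nat_lit 17859154980) (nat_lit 912) (nat_lit 7424070177) (nat_lit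 340) (nat_lit 5) (nat_lit 351) (nat_lit 5) (nat_lit 352) (nat_lit 5) (nat_lit 337) (nat_lit 318) (nat_lit 125)))) (XT.nd (nat_lit 78) (nat_lit 1748) (nat_lit 0) (XT.lf (nat_lit 0) (nat_lit 27249865443) (nat_lit 912) (nat_lit 3043233798) (nat_lit 76) (nat_lit 875940767) (nat_lit 340) (nat_lit 5) (nat_lit 352) (nat_lit 5) (nat_lit 341) (nat_lit 5) (nat_lit 338) (nat_lit 318) (nat_lit 124)) (XT.nd (nat_lit 78) (nat_lit 912) (nat_lit 0) (XT.lf (nat_lit 0) (nat_lit 20003016953) (nat_lit 836) (nat_lit 11631473470) (nat_lit 912) (nat_lit 59140409) (nat_lit 329) (nat_lit 5) (nat_lit 340) (nat_lit 5) (nat_lit 341) (nat_lit 5) (nat_lit 339) (nat_lit 318) (nat_lit 123)) (XT.lf (nat_lit 0) (nat_lit 4007815173) (nat_lit 912) (nat_lit 20609257413) (nat_lit 76) (nat_lit 7613531374) (nat_lit 317) (nat_lit 5) (nat_lit 329) (nat_lit 5) (nat_lit 318) (nat_lit 5) (nat_lit 340) (nat_lit 318) (nat_lit 122))))) (XT.nd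 (nat_lit 234) (nat_lit 760) (nat_lit 0) (XT.nd (nat_lit 78) (nat_lit 760) (nat_lit 0) (XT.lf (nat_lit 0) (nat_lit 2966923563) (nat_lit 836) (nat_lit 5401802618) (nat_lit 912) (nat_lit 24411500140) (nat_lit 306) (nat_lit 5) (nat_lit 317) (nat_lit 5) (nat_lit 318) (nat_lit 5) (nat_lit 341) (nat_lit 318) (nat_lit 121)) (XT.nd (nat_lit 78) (nat_lit 760) (nat_lit 0) (XT.lf (nat_lit 0) (nat_lit 13090520934) (nat_lit 912) (nat_lit 5909295411) (nat_lit 76) (nat_lit 14341922657) (nat_lit 306) (nat_lit 5) (nat_lit 318) (nat_lit 5) (nat_lit 307) (nat_lit 5) (nat_lit 342) (nat_lit 318) (nat_lit 120)) (XT.lf (nat_lit 0) (nat_lit 18114363688) (nat_lit 836) (nat_lit 15002191297) (nat_lit 76) (nat_lit 800336893) (nat_lit 296) (nat_lit 5) (nat_lit 307) (nat_lit 5) (nat_lit 297) (nat_lit 5) (nat_lit 343) (nat_lit 318) (nat_lit 119)))) (XT.nd (nat_lit 38766) (nat_lit 0) (nat_lit 7144) (XT.nd (nat_lit 38688) (nat_lit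 0) (nat_lit 7144) (XT.lf (nat_lit 0) (nat_lit 10056580491) (nat_lit 760) (nat_lit 13461254596) (nat_lit 836) (nat_lit 10986888604) (nat_lit 286) (nat_lit 5) (nat_lit 296) (nat_lit 5) (nat_lit 297) (nat_lit 5) (nat_lit 344) (nat_lit 318) (nat_lit 118)) (XT.lf (nat_lit 0) (nat_lit 6998235922) (nat_lit 1748) (nat_lit 2368153040) (nat_lit 1748) (nat_lit 2368153040) (nat_lit 380) (nat_lit 3) (nat_lit 403) (nat_lit 3) (nat_lit 403) (nat_lit 5) (nat_lit 319) (nat_lit 319) (nat_lit 142))) (XT.nd (nat_lit 78) (nat_lit 0) (nat_lit 76) (XT.lf (nat_lit 76) (nat_lit 11408663973) (nat_lit 0) (nat_lit 3042043523) (nat_lit 1748) (nat_lit 9365393238) (nat_lit 381) (nat_lit 5) (nat_lit 380) (nat_lit 3) (nat_lit 403) (nat_lit 5) (nat_lit 320) (nat_lit 319) (nat_lit 141)) (XT.lf (nat_lit 76) (nat_lit 3891984843) (nat_lit 0) (nat_lit 11162697515) (nat_lit 1748) (nat_lit 9116128583) (nat_lit 382) (nat_lit 5) (nat_lit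 381) (nat_lit 5) (nat_lit 404) (nat_lit 5) (nat_lit 321) (nat_lit 319) (nat_lit 140)))))) (XT.nd (nat_lit 546) (nat_lit 1368) (nat_lit 0) (XT.nd (nat_lit 234) (nat_lit 0) (nat_lit 152) (XT.nd (nat_lit 78) (nat_lit 0) (nat_lit 0) (XT.lf (nat_lit 0) (nat_lit 15807386591) (nat_lit 1672) (nat_lit 3740935454) (nat_lit 1748) (nat_lit 4985233276) (nat_lit 382) (nat_lit 5) (nat_lit 404) (nat_lit 5) (nat_lit 405) (nat_lit 5) (nat_lit 322) (nat_lit 319) (nat_lit 139)) (XT.nd (nat_lit 78) (nat_lit 0) (nat_lit 76) (XT.lf (nat_lit 76) (nat_lit 13390477602) (nat_lit 0) (nat_lit 3347517359) (nat_lit 1748) (nat_lit 8166085530) (nat_lit 383) (nat_lit 5) (nat_lit 382) (nat_lit 5) (nat_lit 405) (nat_lit 5) (nat_lit 323) (nat_lit 319) (nat_lit 138)) (XT.lf (nat_lit 76) (nat_lit 5787282375) (nat_lit 0) (nat_lit 12052849035) (nat_lit 1748) (nat_lit 7442722588) (nat_lit 384) (nat_lit 5) (nat_lit 383) (nat_lit 5) (nat_lit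 406) (nat_lit 5) (nat_lit 324) (nat_lit 319) (nat_lit 137)))) (XT.nd (nat_lit 156) (nat_lit 0) (nat_lit 76) (XT.nd (nat_lit 78) (nat_lit 0) (nat_lit 0) (XT.lf (nat_lit 0) (nat_lit 19099967676) (nat_lit 1672) (nat_lit 1962920736) (nat_lit 1748) (nat_lit 4607614223) (nat_lit 384) (nat_lit 5) (nat_lit 406) (nat_lit 5) (nat_lit 407) (nat_lit 5) (nat_lit 325) (nat_lit 319) (nat_lit 136)) (XT.lf (nat_lit 76) (nat_lit 16224252635) (nat_lit 0) (nat_lit 4353538932) (nat_lit 1748) (nat_lit 5488389815) (nat_lit 385) (nat_lit 5) (nat_lit 384) (nat_lit 5) (nat_lit 407) (nat_lit 5) (nat_lit 326) (nat_lit 319) (nat_lit 135))) (XT.nd (nat_lit 78) (nat_lit 0) (nat_lit 76) (XT.lf (nat_lit 76) (nat_lit 8535111300) (nat_lit 0) (nat_lit 13711529238) (nat_lit 1748) (nat_lit 4224160518) (nat_lit 386) (nat_lit 5) (nat_lit 385) (nat_lit 5) (nat_lit 408) (nat_lit 5) (nat_lit 327) (nat_lit 319) (nat_lit 134)) (XT.lf (nat_lit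 76) (nat_lit 665209999) (nat_lit 0) (nat_lit 23417610983) (nat_lit 1748) (nat_lit 2802397264) (nat_lit 387) (nat_lit 5) (nat_lit 386) (nat_lit 5) (nat_lit 409) (nat_lit 5) (nat_lit 328) (nat_lit 319) (nat_lit 133))))) (XT.nd (nat_lit 234) (nat_lit 0) (nat_lit 76) (XT.nd (nat_lit 78) (nat_lit 1672) (nat_lit 0) (XT.lf (nat_lit 76) (nat_lit 19973017166) (nat_lit 0) (nat_lit 6208393161) (nat_lit 1748) (nat_lit 1126515274) (nat_lit 387) (nat_lit 5) (nat_lit 386) (nat_lit 5) (nat_lit 409) (nat_lit 5) (nat_lit 329) (nat_lit 319) (nat_lit 132)) (XT.nd (nat_lit 78) (nat_lit 0) (nat_lit 76) (XT.lf (nat_lit 0) (nat_lit 741594474) (nat_lit 1748) (nat_lit 15546992177) (nat_lit 1824) (nat_lit 11451657269) (nat_lit 364) (nat_lit 5) (nat_lit 387) (nat_lit 5) (nat_lit 388) (nat_lit 5) (nat_lit 330) (nat_lit 319) (nat_lit 131)) (XT.lf (nat_lit 0) (nat_lit 2773948031) (nat_lit 1748) (nat_lit 23967167168) (nat_lit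 1824) (nat_lit 1441801364) (nat_lit 365) (nat_lit 5) (nat_lit 388) (nat_lit 5) (nat_lit 389) (nat_lit 5) (nat_lit 331) (nat_lit 319) (nat_lit 130)))) (XT.nd (nat_lit 156) (nat_lit 0) (nat_lit 76) (XT.nd (nat_lit 78) (nat_lit 0) (nat_lit 76) (XT.lf (nat_lit 0) (nat_lit 5077329015) (nat_lit 1748) (nat_lit 3965988065) (nat_lit 1824) (nat_lit 19591354865) (nat_lit 365) (nat_lit 5) (nat_lit 388) (nat_lit 5) (nat_lit 389) (nat_lit 5) (nat_lit 332) (nat_lit 319) (nat_lit 129)) (XT.lf (nat_lit 0) (nat_lit 7614821303) (nat_lit 1748) (nat_lit 12305681134) (nat_lit 1824) (nat_lit 9176180946) (nat_lit 366) (nat_lit 5) (nat_lit 389) (nat_lit 5) (nat_lit 390) (nat_lit 5) (nat_lit 333) (nat_lit 319) (nat_lit 128))) (XT.nd (nat_lit 78) (nat_lit 0) (nat_lit 76) (XT.lf (nat_lit 76) (nat_lit 8702739280) (nat_lit 0) (nat_lit 1665077134) (nat_lit 1824) (nat_lit 19201954671) (nat_lit 367) (nat_lit 5) (nat_lit 366) (nat_lit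 5) (nat_lit 390) (nat_lit 5) (nat_lit 334) (nat_lit 319) (nat_lit 127)) (XT.lf (nat_lit 76) (nat_lit 343395386) (nat_lit 0) (nat_lit 13052908582) (nat_lit 1824) (nat_lit 16656892784) (nat_lit 368) (nat_lit 5) (nat_lit 367) (nat_lit 5) (nat_lit 391) (nat_lit 5) (nat_lit 335) (nat_lit 319) (nat_lit 126))))))) (XT.nd (nat_lit 39702) (nat_lit 0) (nat_lit 5168) (XT.nd (nat_lit 468) (nat_lit 1596) (nat_lit 0) (XT.nd (nat_lit 234) (nat_lit 1748) (nat_lit 0) (XT.nd (nat_lit 78) (nat_lit 2128) (nat_lit 0) (XT.lf (nat_lit 0) (nat_lit 16701318742) (nat_lit 1748) (nat_lit 8125017486) (nat_lit 76) (nat_lit 5721078793) (nat_lit 368) (nat_lit 5) (nat_lit 391) (nat_lit 5) (nat_lit 369) (nat_lit 5) (nat_lit 336) (nat_lit 319) (nat_lit 125)) (XT.nd (nat_lit 78) (nat_lit 836) (nat_lit 0) (XT.lf (nat_lit 0) (nat_lit 14202608316) (nat_lit 1292) (nat_lit 6078083097) (nat_lit 1368) (nat_lit 10772267467) (nat_lit 351)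 (nat_lit 5) (nat_lit 368) (nat_lit 5) (nat_lit 369) (nat_lit 5) (nat_lit 337) (nat_lit 319) (nat_lit 124)) (XT.lf (nat_lit 0) (nat_lit 5723788723) (nat_lit 836) (nat_lit 18417965859) (nat_lit 912) (nat_lit 7428431381) (nat_lit 340) (nat_lit 5) (nat_lit 351) (nat_lit 5) (nat_lit 352) (nat_lit 5) (nat_lit 338) (nat_lit 319) (nat_lit 123)))) (XT.nd (nat_lit 78) (nat_lit 1748) (nat_lit 0) (XT.lf (nat_lit 0) (nat_lit 28274910605) (nat_lit 912) (nat_lit 2944749998) (nat_lit 76) (nat_lit 880147043) (nat_lit 340) (nat_lit 5) (nat_lit 352) (nat_lit 5) (nat_lit 341) (nat_lit 5) (nat_lit 339) (nat_lit 319) (nat_lit 122)) (XT.nd (nat_lit 78) (nat_lit 836) (nat_lit 0) (XT.lf (nat_lit 0) (nat_lit 144089237) (nat_lit 912) (nat_lit 11851375946) (nat_lit 76) (nat_lit 20644753155) (nat_lit 328) (nat_lit 5) (nat_lit 340) (nat_lit 5) (nat_lit 329) (nat_lit 5) (nat_lit 340) (nat_lit 319) (nat_lit 121)) (XT.lf (nat_lit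 0) (nat_lit 4327433359) (nat_lit 912) (nat_lit 21036835032) (nat_lit 76) (nat_lit 7829125014) (nat_lit 317) (nat_lit 5) (nat_lit 329) (nat_lit 5) (nat_lit 318) (nat_lit 5) (nat_lit 341) (nat_lit 319) (nat_lit 120))))) (XT.nd (nat_lit 38922) (nat_lit 0) (nat_lit 6384) (XT.nd (nat_lit 78) (nat_lit 760) (nat_lit 0) (XT.lf (nat_lit 0) (nat_lit 3243537491) (nat_lit 836) (nat_lit 5571044977) (nat_lit 912) (nat_lit 24945017859) (nat_lit 306) (nat_lit 5) (nat_lit 317) (nat_lit 5) (nat_lit 318) (nat_lit 5) (nat_lit 342) (nat_lit 319) (nat_lit 119)) (XT.nd (nat_lit 78) (nat_lit 760) (nat_lit 0) (XT.lf (nat_lit 0) (nat_lit 13672312126) (nat_lit 912) (nat_lit 5900471675) (nat_lit 76) (nat_lit 14765292953) (nat_lit 306) (nat_lit 5) (nat_lit 318) (nat_lit 5) (nat_lit 307) (nat_lit 5) (nat_lit 343) (nat_lit 319) (nat_lit 118)) (XT.lf (nat_lit 0) (nat_lit 18842540937) (nat_lit 836) (nat_lit 15265338684) (nat_lit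 76) (nat_lit 822695051) (nat_lit 296) (nat_lit 5) (nat_lit 307) (nat_lit 5) (nat_lit 297) (nat_lit 5) (nat_lit 344) (nat_lit 319) (nat_lit 117)))) (XT.nd (nat_lit 156) (nat_lit 0) (nat_lit 76) (XT.nd (nat_lit 78) (nat_lit 0) (nat_lit 0) (XT.lf (nat_lit 0) (nat_lit 7376762740) (nat_lit 1748) (nat_lit 2353155726) (nat_lit 1748) (nat_lit 2353155726) (nat_lit 380) (nat_lit 3) (nat_lit 403) (nat_lit 3) (nat_lit 403) (nat_lit 5) (nat_lit 320) (nat_lit 320) (nat_lit 140)) (XT.lf (nat_lit 76) (nat_lit 11920215846) (nat_lit 0) (nat_lit 3292451331) (nat_lit 1748) (nat_lit 9311090577) (nat_lit 381) (nat_lit 5) (nat_lit 380) (nat_lit 3) (nat_lit 403) (nat_lit 5) (nat_lit 321) (nat_lit 320) (nat_lit 139))) (XT.nd (nat_lit 78) (nat_lit 0) (nat_lit 76) (XT.lf (nat_lit 76) (nat_lit 4183021560) (nat_lit 0) (nat_lit 11642301890) (nat_lit 1748) (nat_lit 9063982067) (nat_lit 382) (nat_lit 5) (nat_lit 381) (nat_lit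 5) (nat_lit 404) (nat_lit 5) (nat_lit 322) (nat_lit 320) (nat_lit 138)) (XT.lf (nat_lit 0) (nat_lit 16590405257) (nat_lit 1672) (nat_lit 3676613454) (nat_lit 1748) (nat_lit 4996124861) (nat_lit 382) (nat_lit 5) (nat_lit 404) (nat_lit 5) (nat_lit 405) (nat_lit 5) (nat_lit 323) (nat_lit 320) (nat_lit 137)))))) (XT.nd (nat_lit 546) (nat_lit 1368) (nat_lit 0) (XT.nd (nat_lit 234) (nat_lit 0) (nat_lit 152) (XT.nd (nat_lit 78) (nat_lit 0) (nat_lit 76) (XT.lf (nat_lit 76) (nat_lit 13965877679) (nat_lit 0) (nat_lit 3575187794) (nat_lit 1748) (nat_lit 8103883416) (nat_lit 383) (nat_lit 5) (nat_lit 382) (nat_lit 5) (nat_lit 405) (nat_lit 5) (nat_lit 324) (nat_lit 320) (nat_lit 136)) (XT.nd (nat_lit 78) (nat_lit 0) (nat_lit 76) (XT.lf (nat_lit 76) (nat_lit 6138734059) (nat_lit 0) (nat_lit 12529119501) (nat_lit 1748) (nat_lit 7367407147) (nat_lit 384) (nat_lit 5) (nat_lit 383) (nat_lit 5) (nat_lit 406) (nat_lit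 5) (nat_lit 325) (nat_lit 320) (nat_lit 135)) (XT.lf (nat_lit 0) (nat_lit 19956242043) (nat_lit 1672) (nat_lit 1842529974) (nat_lit 1748) (nat_lit 4635958299) (nat_lit 384) (nat_lit 5) (nat_lit 406) (nat_lit 5) (nat_lit 407) (nat_lit 5) (nat_lit 326) (nat_lit 320) (nat_lit 134)))) (XT.nd (nat_lit 156) (nat_lit 0) (nat_lit 152) (XT.nd (nat_lit 78) (nat_lit 0) (nat_lit 76) (XT.lf (nat_lit 76) (nat_lit 16887350019) (nat_lit 0) (nat_lit 4583945003) (nat_lit 1748) (nat_lit 5371132979) (nat_lit 385) (nat_lit 5) (nat_lit 384) (nat_lit 5) (nat_lit 407) (nat_lit 5) (nat_lit 327) (nat_lit 320) (nat_lit 133)) (XT.lf (nat_lit 76) (nat_lit 8970956225) (nat_lit 0) (nat_lit 14211747691) (nat_lit 1748) (nat_lit 4076638735) (nat_lit 386) (nat_lit 5) (nat_lit 385) (nat_lit 5) (nat_lit 408) (nat_lit 5) (nat_lit 328) (nat_lit 320) (nat_lit 132))) (XT.nd (nat_lit 78) (nat_lit 0) (nat_lit 0) (XT.lf (nat_lit 76) (nat_lit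 868100507) (nat_lit 0) (nat_lit 24198671613) (nat_lit 1748) (nat_lit 2619570280) (nat_lit 387) (nat_lit 5) (nat_lit 386) (nat_lit 5) (nat_lit 409) (nat_lit 5) (nat_lit 329) (nat_lit 320) (nat_lit 131)) (XT.lf (nat_lit 76) (nat_lit 20749813709) (nat_lit 0) (nat_lit 6470889908) (nat_lit 1748) (nat_lit 901185585) (nat_lit 387) (nat_lit 5) (nat_lit 386) (nat_lit 5) (nat_lit 409) (nat_lit 5) (nat_lit 330) (nat_lit 320) (nat_lit 130))))) (XT.nd (nat_lit 234) (nat_lit 0) (nat_lit 152) (XT.nd (nat_lit 78) (nat_lit 0) (nat_lit 76) (XT.lf (nat_lit 0) (nat_lit 1012815870) (nat_lit 1748) (nat_lit 15829505380) (nat_lit 1824) (nat_lit 11724962864) (nat_lit 364) (nat_lit 5) (nat_lit 387) (nat_lit 5) (nat_lit 388) (nat_lit 5) (nat_lit 331) (nat_lit 320) (nat_lit 129)) (XT.nd (nat_lit 78) (nat_lit 0) (nat_lit 0) (XT.lf (nat_lit 0) (nat_lit 3099660546) (nat_lit 1748) (nat_lit 24499826569) (nat_lit 1824) (nat_lit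 1423884876) (nat_lit 365) (nat_lit 5) (nat_lit 388) (nat_lit 5) (nat_lit 389) (nat_lit 5) (nat_lit 332) (nat_lit 320) (nat_lit 128)) (XT.lf (nat_lit 0) (nat_lit 5465080025) (nat_lit 1748) (nat_lit 3904039927) (nat_lit 1824) (nat_lit 20119706648) (nat_lit 365) (nat_lit 5) (nat_lit 388) (nat_lit 5) (nat_lit 389) (nat_lit 5) (nat_lit 333) (nat_lit 320) (nat_lit 127)))) (XT.nd (nat_lit 156) (nat_lit 0) (nat_lit 76) (XT.nd (nat_lit 78) (nat_lit 0) (nat_lit 0) (XT.lf (nat_lit 0) (nat_lit 8072659597) (nat_lit 1748) (nat_lit 12491756894) (nat_lit 1824) (nat_lit 9400407791) (nat_lit 366) (nat_lit 5) (nat_lit 389) (nat_lit 5) (nat_lit 390) (nat_lit 5) (nat_lit 334) (nat_lit 320) (nat_lit 126)) (XT.lf (nat_lit 76) (nat_lit 9143945638) (nat_lit 0) (nat_lit 1758787041) (nat_lit 1824) (nat_lit 19549487177) (nat_lit 367) (nat_lit 5) (nat_lit 366) (nat_lit 5) (nat_lit 390) (nat_lit 5) (nat_lit 335) (nat_lit 320)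 (nat_lit 125))) (XT.nd (nat_lit 78) (nat_lit 0) (nat_lit 76) (XT.lf (nat_lit 76) (nat_lit 535747633) (nat_lit 0) (nat_lit 13480712561) (nat_lit 1824) (nat_lit 16933805247) (nat_lit 368) (nat_lit 5) (nat_lit 367) (nat_lit 5) (nat_lit 391) (nat_lit 5) (nat_lit 336) (nat_lit 320) (nat_lit 124)) (XT.lf (nat_lit 0) (nat_lit 17414039823) (nat_lit 1748) (nat_lit 8187396417) (nat_lit 76) (nat_lit 5858010446) (nat_lit 368) (nat_lit 5) (nat_lit 391) (nat_lit 5) (nat_lit 369) (nat_lit 5) (nat_lit 337) (nat_lit 320) (nat_lit 123))))))))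
noncomputable def xc125 : XT := (XT.nd (nat_lit 40950) (nat_lit 0) (nat_lit 1672) (XT.nd (nat_lit 39858) (nat_lit 0) (nat_lit 2584) (XT.nd (nat_lit 39312) (nat_lit 0) (nat_lit 5624) (XT.nd (nat_lit 234) (nat_lit 2584) (nat_lit 0) (XT.nd (nat_lit 78) (nat_lit 836) (nat_lit 0) (XT.lf (nat_lit 0) (nat_lit 14807115620) (nat_lit 1292) (nat_lit 6288671052) (nat_lit 1368) (nat_lit 10884474905) (nat_lit 351) (nat_lit 5) (nat_lit 368) (nat_lit 5) (nat_lit 369) (nat_lit 5) (nat_lit 338) (nat_lit 320) (nat_lit 122)) (XT.nd (nat_lit 78) (nat_lit 0) (nat_lit 0) (XT.lf (nat_lit 0) (nat_lit 6075433586) (nat_lit 836) (nat_lit 18992218691) (nat_lit 912) (nat_lit 7445458229) (nat_lit 340) (nat_lit 5) (nat_lit 351) (nat_lit 5) (nat_lit 352) (nat_lit 5) (nat_lit 339) (nat_lit 320) (nat_lit 121)) (XT.lf (nat_lit 0) (nat_lit 29318792949) (nat_lit 912) (nat_lit 2854205879) (nat_lit 76) (nat_lit 885746527) (nat_lit 340)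 (nat_lit 5) (nat_lit 352) (nat_lit 5) (nat_lit 341) (nat_lit 5) (nat_lit 340) (nat_lit 320) (nat_lit 120)))) (XT.nd (nat_lit 78) (nat_lit 1672) (nat_lit 0) (XT.lf (nat_lit 0) (nat_lit 340894666) (nat_lit 912) (nat_lit 12028237941) (nat_lit 76) (nat_lit 21246305733) (nat_lit 328) (nat_lit 5) (nat_lit 340) (nat_lit 5) (nat_lit 329) (nat_lit 5) (nat_lit 341) (nat_lit 320) (nat_lit 119)) (XT.nd (nat_lit 78) (nat_lit 836) (nat_lit 0) (XT.lf (nat_lit 0) (nat_lit 4645194649) (nat_lit 912) (nat_lit 21488186944) (nat_lit 76) (nat_lit 8051921942) (nat_lit 317) (nat_lit 5) (nat_lit 329) (nat_lit 5) (nat_lit 318) (nat_lit 5) (nat_lit 342) (nat_lit 320) (nat_lit 118)) (XT.lf (nat_lit 0) (nat_lit 3517680473) (nat_lit 836) (nat_lit 5744951970) (nat_lit 912) (nat_lit 25505954609) (nat_lit 306) (nat_lit 5) (nat_lit 317) (nat_lit 5) (nat_lit 318) (nat_lit 5) (nat_lit 343) (nat_lit 320) (nat_lit 117))))) (XT.nd (nat_lit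 234) (nat_lit 0) (nat_lit 152) (XT.nd (nat_lit 78) (nat_lit 0) (nat_lit 0) (XT.lf (nat_lit 0) (nat_lit 7756968195) (nat_lit 1748) (nat_lit 2342647651) (nat_lit 1748) (nat_lit 2342647651) (nat_lit 380) (nat_lit 3) (nat_lit 403) (nat_lit 3) (nat_lit 403) (nat_lit 5) (nat_lit 321) (nat_lit 321) (nat_lit 138)) (XT.nd (nat_lit 78) (nat_lit 0) (nat_lit 76) (XT.lf (nat_lit 76) (nat_lit 12437396225) (nat_lit 0) (nat_lit 3541235712) (nat_lit 1748) (nat_lit 9274404388) (nat_lit 381) (nat_lit 5) (nat_lit 380) (nat_lit 3) (nat_lit 403) (nat_lit 5) (nat_lit 322) (nat_lit 321) (nat_lit 137)) (XT.lf (nat_lit 76) (nat_lit 4472785156) (nat_lit 0) (nat_lit 12127986678) (nat_lit 1748) (nat_lit 9028963670) (nat_lit 382) (nat_lit 5) (nat_lit 381) (nat_lit 5) (nat_lit 404) (nat_lit 5) (nat_lit 323) (nat_lit 321) (nat_lit 136)))) (XT.nd (nat_lit 156) (nat_lit 0) (nat_lit 76) (XT.nd (nat_lit 78) (nat_lit 0) (nat_lit 0)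 (XT.lf (nat_lit 0) (nat_lit 17379188268) (nat_lit 1672) (nat_lit 3620496490) (nat_lit 1748) (nat_lit 5015303156) (nat_lit 382) (nat_lit 5) (nat_lit 404) (nat_lit 5) (nat_lit 405) (nat_lit 5) (nat_lit 324) (nat_lit 321) (nat_lit 135)) (XT.lf (nat_lit 76) (nat_lit 14548569486) (nat_lit 0) (nat_lit 3802383963) (nat_lit 1748) (nat_lit 8057448895) (nat_lit 383) (nat_lit 5) (nat_lit 382) (nat_lit 5) (nat_lit 405) (nat_lit 5) (nat_lit 325) (nat_lit 321) (nat_lit 134))) (XT.nd (nat_lit 78) (nat_lit 0) (nat_lit 76) (XT.lf (nat_lit 76) (nat_lit 6490520939) (nat_lit 0) (nat_lit 13013094693) (nat_lit 1748) (nat_lit 7306972938) (nat_lit 384) (nat_lit 5) (nat_lit 383) (nat_lit 5) (nat_lit 406) (nat_lit 5) (nat_lit 326) (nat_lit 321) (nat_lit 133)) (XT.lf (nat_lit 0) (nat_lit 20821943477) (nat_lit 1672) (nat_lit 1728818801) (nat_lit 1748) (nat_lit 4671460510) (nat_lit 384) (nat_lit 5) (nat_lit 406) (nat_lit 5)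 (nat_lit 407) (nat_lit 5) (nat_lit 327) (nat_lit 321) (nat_lit 132)))))) (XT.nd (nat_lit 546) (nat_lit 1824) (nat_lit 0) (XT.nd (nat_lit 234) (nat_lit 1520) (nat_lit 0) (XT.nd (nat_lit 78) (nat_lit 0) (nat_lit 76) (XT.lf (nat_lit 76) (nat_lit 17560215977) (nat_lit 0) (nat_lit 4815534333) (nat_lit 1748) (nat_lit 5266541141) (nat_lit 385) (nat_lit 5) (nat_lit 384) (nat_lit 5) (nat_lit 407) (nat_lit 5) (nat_lit 328) (nat_lit 321) (nat_lit 131)) (XT.nd (nat_lit 78) (nat_lit 0) (nat_lit 76) (XT.lf (nat_lit 76) (nat_lit 9409555726) (nat_lit 0) (nat_lit 14721871048) (nat_lit 1748) (nat_lit 3940434174) (nat_lit 386) (nat_lit 5) (nat_lit 385) (nat_lit 5) (nat_lit 408) (nat_lit 5) (nat_lit 329) (nat_lit 321) (nat_lit 130)) (XT.lf (nat_lit 76) (nat_lit 1066576559) (nat_lit 0) (nat_lit 24998655987) (nat_lit 1748) (nat_lit 2446579576) (nat_lit 387) (nat_lit 5) (nat_lit 386) (nat_lit 5) (nat_lit 409) (nat_lit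 5) (nat_lit 330) (nat_lit 321) (nat_lit 129)))) (XT.nd (nat_lit 156) (nat_lit 0) (nat_lit 76) (XT.nd (nat_lit 78) (nat_lit 1672) (nat_lit 0) (XT.lf (nat_lit 76) (nat_lit 21539718835) (nat_lit 0) (nat_lit 6736884785) (nat_lit 1748) (nat_lit 683970850) (nat_lit 387) (nat_lit 5) (nat_lit 386) (nat_lit 5) (nat_lit 409) (nat_lit 5) (nat_lit 331) (nat_lit 321) (nat_lit 128)) (XT.lf (nat_lit 0) (nat_lit 1277881806) (nat_lit 1748) (nat_lit 16131050394) (nat_lit 1824) (nat_lit 12010499928) (nat_lit 364) (nat_lit 5) (nat_lit 387) (nat_lit 5) (nat_lit 388) (nat_lit 5) (nat_lit 332) (nat_lit 321) (nat_lit 127))) (XT.nd (nat_lit 78) (nat_lit 0) (nat_lit 0) (XT.lf (nat_lit 0) (nat_lit 3421224284) (nat_lit 1748) (nat_lit 25059163328) (nat_lit 1824) (nat_lit 1408942332) (nat_lit 365) (nat_lit 5) (nat_lit 388) (nat_lit 5) (nat_lit 389) (nat_lit 5) (nat_lit 333) (nat_lit 321) (nat_lit 126)) (XT.lf (nat_lit 0) (nat_lit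 5850948856) (nat_lit 1748) (nat_lit 3850619340) (nat_lit 1824) (nat_lit 20667318149) (nat_lit 365) (nat_lit 5) (nat_lit 388) (nat_lit 5) (nat_lit 389) (nat_lit 5) (nat_lit 334) (nat_lit 321) (nat_lit 125))))) (XT.nd (nat_lit 234) (nat_lit 1976) (nat_lit 0) (XT.nd (nat_lit 78) (nat_lit 0) (nat_lit 0) (XT.lf (nat_lit 0) (nat_lit 8531064906) (nat_lit 1748) (nat_lit 12693925311) (nat_lit 1824) (nat_lit 9634292412) (nat_lit 366) (nat_lit 5) (nat_lit 389) (nat_lit 5) (nat_lit 390) (nat_lit 5) (nat_lit 335) (nat_lit 321) (nat_lit 124)) (XT.nd (nat_lit 78) (nat_lit 0) (nat_lit 76) (XT.lf (nat_lit 76) (nat_lit 9588048323) (nat_lit 0) (nat_lit 1852796380) (nat_lit 1824) (nat_lit 19920563993) (nat_lit 367) (nat_lit 5) (nat_lit 366) (nat_lit 5) (nat_lit 390) (nat_lit 5) (nat_lit 336) (nat_lit 321) (nat_lit 123)) (XT.lf (nat_lit 76) (nat_lit 723420011) (nat_lit 0) (nat_lit 13919271672) (nat_lit 1824) (nat_lit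 17231814390) (nat_lit 368) (nat_lit 5) (nat_lit 367) (nat_lit 5) (nat_lit 391) (nat_lit 5) (nat_lit 337) (nat_lit 321) (nat_lit 122)))) (XT.nd (nat_lit 156) (nat_lit 836) (nat_lit 0) (XT.nd (nat_lit 78) (nat_lit 1292) (nat_lit 0) (XT.lf (nat_lit 0) (nat_lit 18135991152) (nat_lit 1748) (nat_lit 8262058187) (nat_lit 76) (nat_lit 6001042010) (nat_lit 368) (nat_lit 5) (nat_lit 391) (nat_lit 5) (nat_lit 369) (nat_lit 5) (nat_lit 338) (nat_lit 321) (nat_lit 121)) (XT.lf (nat_lit 0) (nat_lit 15419515586) (nat_lit 1292) (nat_lit 6503955241) (nat_lit 1368) (nat_lit 11012158566) (nat_lit 351) (nat_lit 5) (nat_lit 368) (nat_lit 5) (nat_lit 369) (nat_lit 5) (nat_lit 339) (nat_lit 321) (nat_lit 120))) (XT.nd (nat_lit 78) (nat_lit 0) (nat_lit 0) (XT.lf (nat_lit 0) (nat_lit 6427299008) (nat_lit 836) (nat_lit 19582452644) (nat_lit 912) (nat_lit 7474811143) (nat_lit 340) (nat_lit 5) (nat_lit 351) (nat_lit 5) (nat_lit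 352) (nat_lit 5) (nat_lit 340) (nat_lit 321) (nat_lit 119)) (XT.lf (nat_lit 0) (nat_lit 30382761513) (nat_lit 912) (nat_lit 2771214260) (nat_lit 76) (nat_lit 892708284) (nat_lit 340) (nat_lit 5) (nat_lit 352) (nat_lit 5) (nat_lit 341) (nat_lit 5) (nat_lit 341) (nat_lit 321) (nat_lit 118))))))) (XT.nd (nat_lit 40014) (nat_lit 0) (nat_lit 912) (XT.nd (nat_lit 39468) (nat_lit 0) (nat_lit 2736) (XT.nd (nat_lit 39234) (nat_lit 0) (nat_lit 4028) (XT.nd (nat_lit 39078) (nat_lit 0) (nat_lit 3952) (XT.lf (nat_lit 0) (nat_lit 532554962) (nat_lit 912) (nat_lit 12220662717) (nat_lit 76) (nat_lit 21866926107) (nat_lit 328) (nat_lit 5) (nat_lit 340) (nat_lit 5) (nat_lit 329) (nat_lit 5) (nat_lit 342) (nat_lit 321) (nat_lit 117)) (XT.nd (nat_lit 78) (nat_lit 0) (nat_lit 0) (XT.lf (nat_lit 0) (nat_lit 8139458156) (nat_lit 1748) (nat_lit 2336479963) (nat_lit 1748) (nat_lit 2336479963) (nat_lit 380) (nat_lit 3)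 (nat_lit 403) (nat_lit 3) (nat_lit 403) (nat_lit 5) (nat_lit 322) (nat_lit 322) (nat_lit 136)) (XT.lf (nat_lit 76) (nat_lit 12960931820) (nat_lit 0) (nat_lit 3788872389) (nat_lit 1748) (nat_lit 9254758392) (nat_lit 381) (nat_lit 5) (nat_lit 380) (nat_lit 3) (nat_lit 403) (nat_lit 5) (nat_lit 323) (nat_lit 322) (nat_lit 135)))) (XT.nd (nat_lit 78) (nat_lit 0) (nat_lit 76) (XT.lf (nat_lit 76) (nat_lit 4761811721) (nat_lit 0) (nat_lit 12620411188) (nat_lit 1748) (nat_lit 9010514210) (nat_lit 382) (nat_lit 5) (nat_lit 381) (nat_lit 5) (nat_lit 404) (nat_lit 5) (nat_lit 324) (nat_lit 322) (nat_lit 134)) (XT.nd (nat_lit 78) (nat_lit 0) (nat_lit 0) (XT.lf (nat_lit 0) (nat_lit 18174926112) (nat_lit 1672) (nat_lit 3572248940) (nat_lit 1748) (nat_lit 5042559828) (nat_lit 382) (nat_lit 5) (nat_lit 404) (nat_lit 5) (nat_lit 405) (nat_lit 5) (nat_lit 325) (nat_lit 322) (nat_lit 133)) (XT.lf (nat_lit 76) (nat_lit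 15139344109) (nat_lit 0) (nat_lit 4029510939) (nat_lit 1748) (nat_lit 8026242753) (nat_lit 383) (nat_lit 5) (nat_lit 382) (nat_lit 5) (nat_lit 405) (nat_lit 5) (nat_lit 326) (nat_lit 322) (nat_lit 132))))) (XT.nd (nat_lit 234) (nat_lit 1444) (nat_lit 0) (XT.nd (nat_lit 78) (nat_lit 0) (nat_lit 76) (XT.lf (nat_lit 76) (nat_lit 6843239074) (nat_lit 0) (nat_lit 13505383666) (nat_lit 1748) (nat_lit 7260882453) (nat_lit 384) (nat_lit 5) (nat_lit 383) (nat_lit 5) (nat_lit 406) (nat_lit 5) (nat_lit 327) (nat_lit 322) (nat_lit 131)) (XT.nd (nat_lit 78) (nat_lit 0) (nat_lit 0) (XT.lf (nat_lit 0) (nat_lit 21698288248) (nat_lit 1672) (nat_lit 1621396843) (nat_lit 1748) (nat_lit 4713973503) (nat_lit 384) (nat_lit 5) (nat_lit 406) (nat_lit 5) (nat_lit 407) (nat_lit 5) (nat_lit 328) (nat_lit 322) (nat_lit 130)) (XT.lf (nat_lit 76) (nat_lit 18243724744) (nat_lit 0) (nat_lit 5048671284) (nat_lit 1748) (nat_lit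 5174065297) (nat_lit 385) (nat_lit 5) (nat_lit 384) (nat_lit 5) (nat_lit 407) (nat_lit 5) (nat_lit 329) (nat_lit 322) (nat_lit 129)))) (XT.nd (nat_lit 156) (nat_lit 1596) (nat_lit 0) (XT.nd (nat_lit 78) (nat_lit 0) (nat_lit 76) (XT.lf (nat_lit 76) (nat_lit 9851584894) (nat_lit 0) (nat_lit 15242489311) (nat_lit 1748) (nat_lit 3814982649) (nat_lit 386) (nat_lit 5) (nat_lit 385) (nat_lit 5) (nat_lit 408) (nat_lit 5) (nat_lit 330) (nat_lit 322) (nat_lit 128)) (XT.lf (nat_lit 76) (nat_lit 1261108531) (nat_lit 0) (nat_lit 25818390598) (nat_lit 1748) (nat_lit 2282840747) (nat_lit 387) (nat_lit 5) (nat_lit 386) (nat_lit 5) (nat_lit 409) (nat_lit 5) (nat_lit 331) (nat_lit 322) (nat_lit 127))) (XT.nd (nat_lit 78) (nat_lit 1672) (nat_lit 0) (XT.lf (nat_lit 76) (nat_lit 22343711055) (nat_lit 0) (nat_lit 7006733981) (nat_lit 1748) (nat_lit 474260639) (nat_lit 387) (nat_lit 5) (nat_lit 386) (nat_lit 5) (nat_lit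 409) (nat_lit 5) (nat_lit 332) (nat_lit 322) (nat_lit 126)) (XT.lf (nat_lit 0) (nat_lit 1537428045) (nat_lit 1748) (nat_lit 16451592192) (nat_lit 1824) (nat_lit 12308403932) (nat_lit 364) (nat_lit 5) (nat_lit 387) (nat_lit 5) (nat_lit 388) (nat_lit 5) (nat_lit 333) (nat_lit 322) (nat_lit 125)))))) (XT.nd (nat_lit 546) (nat_lit 836) (nat_lit 0) (XT.nd (nat_lit 234) (nat_lit 1064) (nat_lit 0) (XT.nd (nat_lit 78) (nat_lit 0) (nat_lit 0) (XT.lf (nat_lit 0) (nat_lit 3739313857) (nat_lit 1748) (nat_lit 25645363679) (nat_lit 1824) (nat_lit 1396861380) (nat_lit 365) (nat_lit 5) (nat_lit 388) (nat_lit 5) (nat_lit 389) (nat_lit 5) (nat_lit 334) (nat_lit 322) (nat_lit 124)) (XT.nd (nat_lit 78) (nat_lit 0) (nat_lit 76) (XT.lf (nat_lit 0) (nat_lit 6235654840) (nat_lit 1748) (nat_lit 3805385931) (nat_lit 1824) (nat_lit 21234571458) (nat_lit 365) (nat_lit 5) (nat_lit 388) (nat_lit 5) (nat_lit 389) (nat_lit 5)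 (nat_lit 335) (nat_lit 322) (nat_lit 123)) (XT.lf (nat_lit 0) (nat_lit 8990810145) (nat_lit 1748) (nat_lit 12912065825) (nat_lit 1824) (nat_lit 9877956294) (nat_lit 366) (nat_lit 5) (nat_lit 389) (nat_lit 5) (nat_lit 390) (nat_lit 5) (nat_lit 336) (nat_lit 322) (nat_lit 122)))) (XT.nd (nat_lit 156) (nat_lit 1140) (nat_lit 0) (XT.nd (nat_lit 78) (nat_lit 0) (nat_lit 76) (XT.lf (nat_lit 76) (nat_lit 10035727773) (nat_lit 0) (nat_lit 1947258326) (nat_lit 1824) (nat_lit 20315138402) (nat_lit 367) (nat_lit 5) (nat_lit 366) (nat_lit 5) (nat_lit 390) (nat_lit 5) (nat_lit 337) (nat_lit 322) (nat_lit 121)) (XT.lf (nat_lit 76) (nat_lit 906872022) (nat_lit 0) (nat_lit 14369027910) (nat_lit 1824) (nat_lit 17550818954) (nat_lit 368) (nat_lit 5) (nat_lit 367) (nat_lit 5) (nat_lit 391) (nat_lit 5) (nat_lit 338) (nat_lit 322) (nat_lit 120))) (XT.nd (nat_lit 78) (nat_lit 1292) (nat_lit 0) (XT.lf (nat_lit 0) (nat_lit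 18868147174) (nat_lit 1748) (nat_lit 8348773621) (nat_lit 76) (nat_lit 6150242138) (nat_lit 368) (nat_lit 5) (nat_lit 391) (nat_lit 5) (nat_lit 369) (nat_lit 5) (nat_lit 339) (nat_lit 322) (nat_lit 119)) (XT.lf (nat_lit 0) (nat_lit 16040632958) (nat_lit 1292) (nat_lit 6724169626) (nat_lit 1368) (nat_lit 11155087574) (nat_lit 351) (nat_lit 5) (nat_lit 368) (nat_lit 5) (nat_lit 369) (nat_lit 5) (nat_lit 340) (nat_lit 322) (nat_lit 118))))) (XT.nd (nat_lit 39312) (nat_lit 0) (nat_lit 3040) (XT.nd (nat_lit 78) (nat_lit 0) (nat_lit 0) (XT.lf (nat_lit 0) (nat_lit 6779984520) (nat_lit 836) (nat_lit 20189218704) (nat_lit 912) (nat_lit 7516181659) (nat_lit 340) (nat_lit 5) (nat_lit 351) (nat_lit 5) (nat_lit 352) (nat_lit 5) (nat_lit 341) (nat_lit 322) (nat_lit 117)) (XT.nd (nat_lit 39156) (nat_lit 0) (nat_lit 3040) (XT.lf (nat_lit 0) (nat_lit 31468063545) (nat_lit 912) (nat_lit 2695412244) (nat_lit 76)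 (nat_lit 901004624) (nat_lit 340) (nat_lit 5) (nat_lit 352) (nat_lit 5) (nat_lit 341) (nat_lit 5) (nat_lit 342) (nat_lit 322) (nat_lit 116)) (XT.lf (nat_lit 0) (nat_lit 8524824779) (nat_lit 1748) (nat_lit 2334515621) (nat_lit 1748) (nat_lit 2334515621) (nat_lit 380) (nat_lit 3) (nat_lit 403) (nat_lit 3) (nat_lit 403) (nat_lit 5) (nat_lit 323) (nat_lit 323) (nat_lit 134)))) (XT.nd (nat_lit 156) (nat_lit 0) (nat_lit 152) (XT.nd (nat_lit 78) (nat_lit 0) (nat_lit 76) (XT.lf (nat_lit 76) (nat_lit 13491539121) (nat_lit 0) (nat_lit 4035821251) (nat_lit 1748) (nat_lit 9251622438) (nat_lit 381) (nat_lit 5) (nat_lit 380) (nat_lit 3) (nat_lit 403) (nat_lit 5) (nat_lit 324) (nat_lit 323) (nat_lit 133)) (XT.lf (nat_lit 76) (nat_lit 5050620461) (nat_lit 0) (nat_lit 13120227134) (nat_lit 1748) (nat_lit 9008119325) (nat_lit 382) (nat_lit 5) (nat_lit 381) (nat_lit 5) (nat_lit 404) (nat_lit 5) (nat_lit 325) (nat_lit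 323) (nat_lit 132))) (XT.nd (nat_lit 78) (nat_lit 0) (nat_lit 0) (XT.lf (nat_lit 0) (nat_lit 18978786579) (nat_lit 1672) (nat_lit 3531558509) (nat_lit 1748) (nat_lit 5077706522) (nat_lit 382) (nat_lit 5) (nat_lit 404) (nat_lit 5) (nat_lit 405) (nat_lit 5) (nat_lit 326) (nat_lit 323) (nat_lit 131)) (XT.lf (nat_lit 76) (nat_lit 15738983512) (nat_lit 0) (nat_lit 4256961879) (nat_lit 1748) (nat_lit 8009767702) (nat_lit 383) (nat_lit 5) (nat_lit 382) (nat_lit 5) (nat_lit 405) (nat_lit 5) (nat_lit 327) (nat_lit 323) (nat_lit 130))))))))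
noncomputable def xc126 : XT := (XT.nd (nat_lit 41340) (nat_lit 0) (nat_lit 912) (XT.nd (nat_lit 1014) (nat_lit 988) (nat_lit 0) (XT.nd (nat_lit 468) (nat_lit 1444) (nat_lit 0) (XT.nd (nat_lit 234) (nat_lit 0) (nat_lit 152) (XT.nd (nat_lit 78) (nat_lit 0) (nat_lit 76) (XT.lf (nat_lit 76) (nat_lit 7197468761) (nat_lit 0) (nat_lit 14006592054) (nat_lit 1748) (nat_lit 7228638540) (nat_lit 384) (nat_lit 5) (nat_lit 383) (nat_lit 5) (nat_lit 406) (nat_lit 5) (nat_lit 328) (nat_lit 323) (nat_lit 129)) (XT.nd (nat_lit 78) (nat_lit 0) (nat_lit 0) (XT.lf (nat_lit 0) (nat_lit 22586475530) (nat_lit 1672) (nat_lit 1519895924) (nat_lit 1748) (nat_lit 4763366295) (nat_lit 384) (nat_lit 5) (nat_lit 406) (nat_lit 5) (nat_lit 407) (nat_lit 5) (nat_lit 329) (nat_lit 323) (nat_lit 128)) (XT.lf (nat_lit 76) (nat_lit 18938743421) (nat_lit 0) (nat_lit 5283712269) (nat_lit 1748) (nat_lit 5093193300) (nat_lit 385) (nat_lit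 5) (nat_lit 384) (nat_lit 5) (nat_lit 407) (nat_lit 5) (nat_lit 330) (nat_lit 323) (nat_lit 127)))) (XT.nd (nat_lit 78) (nat_lit 0) (nat_lit 76) (XT.lf (nat_lit 76) (nat_lit 10297705064) (nat_lit 0) (nat_lit 15774193373) (nat_lit 1748) (nat_lit 3699754919) (nat_lit 386) (nat_lit 5) (nat_lit 385) (nat_lit 5) (nat_lit 408) (nat_lit 5) (nat_lit 331) (nat_lit 323) (nat_lit 126)) (XT.nd (nat_lit 78) (nat_lit 0) (nat_lit 0) (XT.lf (nat_lit 76) (nat_lit 1452146306) (nat_lit 0) (nat_lit 26658711882) (nat_lit 1748) (nat_lit 2127802342) (nat_lit 387) (nat_lit 5) (nat_lit 386) (nat_lit 5) (nat_lit 409) (nat_lit 5) (nat_lit 332) (nat_lit 323) (nat_lit 125)) (XT.lf (nat_lit 76) (nat_lit 23162764639) (nat_lit 0) (nat_lit 7280789947) (nat_lit 1748) (nat_lit 271475227) (nat_lit 387) (nat_lit 5) (nat_lit 386) (nat_lit 5) (nat_lit 409) (nat_lit 5) (nat_lit 333) (nat_lit 323) (nat_lit 124))))) (XT.nd (nat_lit 234)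 (nat_lit 0) (nat_lit 152) (XT.nd (nat_lit 78) (nat_lit 0) (nat_lit 76) (XT.lf (nat_lit 0) (nat_lit 1792062324) (nat_lit 1748) (nat_lit 16791129483) (nat_lit 1824) (nat_lit 12618827703) (nat_lit 364) (nat_lit 5) (nat_lit 387) (nat_lit 5) (nat_lit 388) (nat_lit 5) (nat_lit 334) (nat_lit 323) (nat_lit 123)) (XT.nd (nat_lit 78) (nat_lit 0) (nat_lit 0) (XT.lf (nat_lit 0) (nat_lit 4054578242) (nat_lit 1748) (nat_lit 26258654696) (nat_lit 1824) (nat_lit 1387537867) (nat_lit 365) (nat_lit 5) (nat_lit 388) (nat_lit 5) (nat_lit 389) (nat_lit 5) (nat_lit 335) (nat_lit 323) (nat_lit 122)) (XT.lf (nat_lit 0) (nat_lit 6619894358) (nat_lit 1748) (nat_lit 3768023341) (nat_lit 1824) (nat_lit 21821871364) (nat_lit 365) (nat_lit 5) (nat_lit 388) (nat_lit 5) (nat_lit 389) (nat_lit 5) (nat_lit 336) (nat_lit 323) (nat_lit 121)))) (XT.nd (nat_lit 156) (nat_lit 0) (nat_lit 76) (XT.nd (nat_lit 78) (nat_lit 0) (nat_lit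 0) (XT.lf (nat_lit 0) (nat_lit 9452648025) (nat_lit 1748) (nat_lit 13146088893) (nat_lit 1824) (nat_lit 10131534223) (nat_lit 366) (nat_lit 5) (nat_lit 389) (nat_lit 5) (nat_lit 390) (nat_lit 5) (nat_lit 337) (nat_lit 323) (nat_lit 120)) (XT.lf (nat_lit 76) (nat_lit 10487650771) (nat_lit 0) (nat_lit 2042322370) (nat_lit 1824) (nat_lit 20733205514) (nat_lit 367) (nat_lit 5) (nat_lit 366) (nat_lit 5) (nat_lit 390) (nat_lit 5) (nat_lit 338) (nat_lit 323) (nat_lit 119))) (XT.nd (nat_lit 78) (nat_lit 0) (nat_lit 76) (XT.lf (nat_lit 76) (nat_lit 1086542515) (nat_lit 0) (nat_lit 14830429682) (nat_lit 1824) (nat_lit 17890756787) (nat_lit 368) (nat_lit 5) (nat_lit 367) (nat_lit 5) (nat_lit 391) (nat_lit 5) (nat_lit 339) (nat_lit 323) (nat_lit 118)) (XT.lf (nat_lit 0) (nat_lit 19611471529) (nat_lit 1748) (nat_lit 8447340975) (nat_lit 76) (nat_lit 6305688103) (nat_lit 368) (nat_lit 5) (nat_lit 391) (nat_lit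 5) (nat_lit 369) (nat_lit 5) (nat_lit 340) (nat_lit 323) (nat_lit 117)))))) (XT.nd (nat_lit 39780) (nat_lit 0) (nat_lit 988) (XT.nd (nat_lit 39468) (nat_lit 0) (nat_lit 2280) (XT.nd (nat_lit 39312) (nat_lit 0) (nat_lit 2204) (XT.lf (nat_lit 0) (nat_lit 16671283472) (nat_lit 1292) (nat_lit 6949549845) (nat_lit 1368) (nat_lit 11313064031) (nat_lit 351) (nat_lit 5) (nat_lit 368) (nat_lit 5) (nat_lit 369) (nat_lit 5) (nat_lit 341) (nat_lit 323) (nat_lit 116)) (XT.nd (nat_lit 78) (nat_lit 0) (nat_lit 0) (XT.lf (nat_lit 0) (nat_lit 8913647925) (nat_lit 1748) (nat_lit 2336628816) (nat_lit 1748) (nat_lit 2336628816) (nat_lit 380) (nat_lit 3) (nat_lit 403) (nat_lit 3) (nat_lit 403) (nat_lit 5) (nat_lit 324) (nat_lit 324) (nat_lit 132)) (XT.lf (nat_lit 76) (nat_lit 14029925926) (nat_lit 0) (nat_lit 4282527607) (nat_lit 1748) (nat_lit 9264510252) (nat_lit 381) (nat_lit 5) (nat_lit 380) (nat_lit 3) (nat_lit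 403) (nat_lit 5) (nat_lit 325) (nat_lit 324) (nat_lit 131)))) (XT.nd (nat_lit 156) (nat_lit 0) (nat_lit 76) (XT.nd (nat_lit 78) (nat_lit 0) (nat_lit 76) (XT.lf (nat_lit 76) (nat_lit 5339715084) (nat_lit 0) (nat_lit 13628079975) (nat_lit 1748) (nat_lit 9021307280) (nat_lit 382) (nat_lit 5) (nat_lit 381) (nat_lit 5) (nat_lit 404) (nat_lit 5) (nat_lit 326) (nat_lit 324) (nat_lit 130)) (XT.lf (nat_lit 0) (nat_lit 19791917434) (nat_lit 1672) (nat_lit 3498135014) (nat_lit 1748) (nat_lit 5120573961) (nat_lit 382) (nat_lit 5) (nat_lit 404) (nat_lit 5) (nat_lit 405) (nat_lit 5) (nat_lit 327) (nat_lit 324) (nat_lit 129))) (XT.nd (nat_lit 78) (nat_lit 0) (nat_lit 76) (XT.lf (nat_lit 76) (nat_lit 16348262151) (nat_lit 0) (nat_lit 4485119045) (nat_lit 1748) (nat_lit 8007566310) (nat_lit 383) (nat_lit 5) (nat_lit 382) (nat_lit 5) (nat_lit 405) (nat_lit 5) (nat_lit 328) (nat_lit 324) (nat_lit 128)) (XT.lf (nat_lit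 76) (nat_lit 7553776004) (nat_lit 0) (nat_lit 14517323209) (nat_lit 1748) (nat_lit 7209782373) (nat_lit 384) (nat_lit 5) (nat_lit 383) (nat_lit 5) (nat_lit 406) (nat_lit 5) (nat_lit 329) (nat_lit 324) (nat_lit 127))))) (XT.nd (nat_lit 234) (nat_lit 1520) (nat_lit 0) (XT.nd (nat_lit 78) (nat_lit 0) (nat_lit 0) (XT.lf (nat_lit 0) (nat_lit 23487689962) (nat_lit 1672) (nat_lit 1423968790) (nat_lit 1748) (nat_lit 4819523564) (nat_lit 384) (nat_lit 5) (nat_lit 406) (nat_lit 5) (nat_lit 407) (nat_lit 5) (nat_lit 330) (nat_lit 324) (nat_lit 126)) (XT.nd (nat_lit 78) (nat_lit 0) (nat_lit 76) (XT.lf (nat_lit 76) (nat_lit 19646133677) (nat_lit 0) (nat_lit 5521006602) (nat_lit 1748) (nat_lit 5023447902) (nat_lit 385) (nat_lit 5) (nat_lit 384) (nat_lit 5) (nat_lit 407) (nat_lit 5) (nat_lit 331) (nat_lit 324) (nat_lit 125)) (XT.lf (nat_lit 76) (nat_lit 10748565354) (nat_lit 0) (nat_lit 16317576006) (nat_lit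 1748) (nat_lit 3594254769) (nat_lit 386) (nat_lit 5) (nat_lit 385) (nat_lit 5) (nat_lit 408) (nat_lit 5) (nat_lit 332) (nat_lit 324) (nat_lit 124)))) (XT.nd (nat_lit 156) (nat_lit 1672) (nat_lit 0) (XT.nd (nat_lit 78) (nat_lit 0) (nat_lit 0) (XT.lf (nat_lit 76) (nat_lit 1640120649) (nat_lit 0) (nat_lit 27520467361) (nat_lit 1748) (nat_lit 1980943955) (nat_lit 387) (nat_lit 5) (nat_lit 386) (nat_lit 5) (nat_lit 409) (nat_lit 5) (nat_lit 333) (nat_lit 324) (nat_lit 123)) (XT.lf (nat_lit 76) (nat_lit 23997851417) (nat_lit 0) (nat_lit 7559402115) (nat_lit 1748) (nat_lit 75063700) (nat_lit 387) (nat_lit 5) (nat_lit 386) (nat_lit 5) (nat_lit 409) (nat_lit 5) (nat_lit 334) (nat_lit 324) (nat_lit 122))) (XT.nd (nat_lit 78) (nat_lit 0) (nat_lit 76) (XT.lf (nat_lit 0) (nat_lit 2042366223) (nat_lit 1748) (nat_lit 17149693723) (nat_lit 1824) (nat_lit 12941941175) (nat_lit 364) (nat_lit 5) (nat_lit 387) (nat_lit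 5) (nat_lit 388) (nat_lit 5) (nat_lit 335) (nat_lit 324) (nat_lit 121)) (XT.lf (nat_lit 0) (nat_lit 4367642651) (nat_lit 1748) (nat_lit 26899303495) (nat_lit 1824) (nat_lit 1380875422) (nat_lit 365) (nat_lit 5) (nat_lit 388) (nat_lit 5) (nat_lit 389) (nat_lit 5) (nat_lit 336) (nat_lit 324) (nat_lit 120))))))) (XT.nd (nat_lit 40326) (nat_lit 152) (nat_lit 0) (XT.nd (nat_lit 39780) (nat_lit 0) (nat_lit 1140) (XT.nd (nat_lit 234) (nat_lit 0) (nat_lit 152) (XT.nd (nat_lit 78) (nat_lit 0) (nat_lit 76) (XT.lf (nat_lit 0) (nat_lit 7004342705) (nat_lit 1748) (nat_lit 3738237981) (nat_lit 1824) (nat_lit 22429645388) (nat_lit 365) (nat_lit 5) (nat_lit 388) (nat_lit 5) (nat_lit 389) (nat_lit 5) (nat_lit 337) (nat_lit 324) (nat_lit 119)) (XT.nd (nat_lit 78) (nat_lit 0) (nat_lit 0) (XT.lf (nat_lit 0) (nat_lit 9917312935) (nat_lit 1748) (nat_lit 13395934934) (nat_lit 1824) (nat_lit 10395174132) (nat_lit 366)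 (nat_lit 5) (nat_lit 389) (nat_lit 5) (nat_lit 390) (nat_lit 5) (nat_lit 338) (nat_lit 324) (nat_lit 118)) (XT.lf (nat_lit 76) (nat_lit 10944471985) (nat_lit 0) (nat_lit 2138134689) (nat_lit 1824) (nat_lit 21174801038) (nat_lit 367) (nat_lit 5) (nat_lit 366) (nat_lit 5) (nat_lit 390) (nat_lit 5) (nat_lit 339) (nat_lit 324) (nat_lit 117)))) (XT.nd (nat_lit 78) (nat_lit 0) (nat_lit 76) (XT.lf (nat_lit 76) (nat_lit 1262851046) (nat_lit 0) (nat_lit 15303932387) (nat_lit 1824) (nat_lit 18251603596) (nat_lit 368) (nat_lit 5) (nat_lit 367) (nat_lit 5) (nat_lit 391) (nat_lit 5) (nat_lit 340) (nat_lit 324) (nat_lit 116)) (XT.nd (nat_lit 39390) (nat_lit 0) (nat_lit 912) (XT.lf (nat_lit 0) (nat_lit 20366919021) (nat_lit 1748) (nat_lit 8557584794) (nat_lit 76) (nat_lit 6467465684) (nat_lit 368) (nat_lit 5) (nat_lit 391) (nat_lit 5) (nat_lit 369) (nat_lit 5) (nat_lit 341) (nat_lit 324) (nat_lit 115)) (XT.lf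 (nat_lit 0) (nat_lit 9306496521) (nat_lit 1748) (nat_lit 2342704422) (nat_lit 1748) (nat_lit 2342704422) (nat_lit 380) (nat_lit 3) (nat_lit 403) (nat_lit 3) (nat_lit 403) (nat_lit 5) (nat_lit 325) (nat_lit 325) (nat_lit 130))))) (XT.nd (nat_lit 234) (nat_lit 0) (nat_lit 152) (XT.nd (nat_lit 78) (nat_lit 0) (nat_lit 76) (XT.lf (nat_lit 76) (nat_lit 14576792817) (nat_lit 0) (nat_lit 4529423379) (nat_lit 1748) (nat_lit 9292977317) (nat_lit 381) (nat_lit 5) (nat_lit 380) (nat_lit 3) (nat_lit 403) (nat_lit 5) (nat_lit 326) (nat_lit 325) (nat_lit 129)) (XT.nd (nat_lit 78) (nat_lit 0) (nat_lit 76) (XT.lf (nat_lit 76) (nat_lit 5629585119) (nat_lit 0) (nat_lit 14144610213) (nat_lit 1748) (nat_lit 9049646918) (nat_lit 382) (nat_lit 5) (nat_lit 381) (nat_lit 5) (nat_lit 404) (nat_lit 5) (nat_lit 327) (nat_lit 325) (nat_lit 128)) (XT.lf (nat_lit 0) (nat_lit 20615448977) (nat_lit 1672) (nat_lit 3471709236)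 (nat_lit 1748) (nat_lit 5171011090) (nat_lit 382) (nat_lit 5) (nat_lit 404) (nat_lit 5) (nat_lit 405) (nat_lit 5) (nat_lit 328) (nat_lit 325) (nat_lit 127)))) (XT.nd (nat_lit 156) (nat_lit 0) (nat_lit 152) (XT.nd (nat_lit 78) (nat_lit 0) (nat_lit 76) (XT.lf (nat_lit 76) (nat_lit 16967948525) (nat_lit 0) (nat_lit 4714354783) (nat_lit 1748) (nat_lit 8019219048) (nat_lit 383) (nat_lit 5) (nat_lit 382) (nat_lit 5) (nat_lit 405) (nat_lit 5) (nat_lit 329) (nat_lit 325) (nat_lit 126)) (XT.lf (nat_lit 76) (nat_lit 7912713896) (nat_lit 0) (nat_lit 15038179312) (nat_lit 1748) (nat_lit 7203891544) (nat_lit 384) (nat_lit 5) (nat_lit 383) (nat_lit 5) (nat_lit 406) (nat_lit 5) (nat_lit 330) (nat_lit 325) (nat_lit 125))) (XT.nd (nat_lit 78) (nat_lit 0) (nat_lit 0) (XT.lf (nat_lit 0) (nat_lit 24403104115) (nat_lit 1672) (nat_lit 1333287899) (nat_lit 1748) (nat_lit 4882344994) (nat_lit 384) (nat_lit 5) (nat_lit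 406) (nat_lit 5) (nat_lit 407) (nat_lit 5) (nat_lit 331) (nat_lit 325) (nat_lit 124)) (XT.lf (nat_lit 76) (nat_lit 20366753386) (nat_lit 0) (nat_lit 5760897300) (nat_lit 1748) (nat_lit 4964384917) (nat_lit 385) (nat_lit 5) (nat_lit 384) (nat_lit 5) (nat_lit 407) (nat_lit 5) (nat_lit 332) (nat_lit 325) (nat_lit 123)))))) (XT.nd (nat_lit 546) (nat_lit 0) (nat_lit 228) (XT.nd (nat_lit 234) (nat_lit 0) (nat_lit 76) (XT.nd (nat_lit 78) (nat_lit 1672) (nat_lit 0) (XT.lf (nat_lit 76) (nat_lit 11204804140) (nat_lit 0) (nat_lit 16873232829) (nat_lit 1748) (nat_lit 3498017187) (nat_lit 386) (nat_lit 5) (nat_lit 385) (nat_lit 5) (nat_lit 408) (nat_lit 5) (nat_lit 333) (nat_lit 325) (nat_lit 122)) (XT.nd (nat_lit 78) (nat_lit 1748) (nat_lit 0) (XT.lf (nat_lit 76) (nat_lit 1825444499) (nat_lit 0) (nat_lit 28404516789) (nat_lit 1748) (nat_lit 1841774425) (nat_lit 387) (nat_lit 5) (nat_lit 386) (nat_lit 5) (nat_lit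 409) (nat_lit 5) (nat_lit 334) (nat_lit 325) (nat_lit 121)) (XT.lf (nat_lit 0) (nat_lit 113983058) (nat_lit 1748) (nat_lit 7728169639) (nat_lit 1824) (nat_lit 24735194578) (nat_lit 363) (nat_lit 5) (nat_lit 386) (nat_lit 5) (nat_lit 387) (nat_lit 5) (nat_lit 335) (nat_lit 325) (nat_lit 120)))) (XT.nd (nat_lit 156) (nat_lit 0) (nat_lit 76) (XT.nd (nat_lit 78) (nat_lit 0) (nat_lit 76) (XT.lf (nat_lit 0) (nat_lit 2288896921) (nat_lit 1748) (nat_lit 17527348222) (nat_lit 1824) (nat_lit 13277931187) (nat_lit 364) (nat_lit 5) (nat_lit 387) (nat_lit 5) (nat_lit 388) (nat_lit 5) (nat_lit 336) (nat_lit 325) (nat_lit 119)) (XT.lf (nat_lit 0) (nat_lit 4679110295) (nat_lit 1748) (nat_lit 27567616522) (nat_lit 1824) (nat_lit 1376785067) (nat_lit 365) (nat_lit 5) (nat_lit 388) (nat_lit 5) (nat_lit 389) (nat_lit 5) (nat_lit 337) (nat_lit 325) (nat_lit 118))) (XT.nd (nat_lit 78) (nat_lit 0) (nat_lit 76) (XT.lf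 (nat_lit 0) (nat_lit 7389655865) (nat_lit 1748) (nat_lit 3715757860) (nat_lit 1824) (nat_lit 23058343858) (nat_lit 365) (nat_lit 5) (nat_lit 388) (nat_lit 5) (nat_lit 389) (nat_lit 5) (nat_lit 338) (nat_lit 325) (nat_lit 117)) (XT.lf (nat_lit 0) (nat_lit 10385522747) (nat_lit 1748) (nat_lit 13661573350) (nat_lit 1824) (nat_lit 10669036975) (nat_lit 366) (nat_lit 5) (nat_lit 389) (nat_lit 5) (nat_lit 390) (nat_lit 5) (nat_lit 339) (nat_lit 325) (nat_lit 116))))) (XT.nd (nat_lit 39702) (nat_lit 0) (nat_lit 1140) (XT.nd (nat_lit 39546) (nat_lit 0) (nat_lit 1064) (XT.lf (nat_lit 76) (nat_lit 11406835451) (nat_lit 0) (nat_lit 2234838488) (nat_lit 1824) (nat_lit 21640000163) (nat_lit 367) (nat_lit 5) (nat_lit 366) (nat_lit 5) (nat_lit 390) (nat_lit 5) (nat_lit 340) (nat_lit 325) (nat_lit 115)) (XT.nd (nat_lit 78) (nat_lit 0) (nat_lit 0) (XT.lf (nat_lit 0) (nat_lit 9703929855) (nat_lit 1748) (nat_lit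 2352637494) (nat_lit 1748) (nat_lit 2352637494) (nat_lit 380) (nat_lit 3) (nat_lit 403) (nat_lit 3) (nat_lit 403) (nat_lit 5) (nat_lit 326) (nat_lit 326) (nat_lit 128)) (XT.lf (nat_lit 76) (nat_lit 15132834571) (nat_lit 0) (nat_lit 4776928235) (nat_lit 1748) (nat_lit 9336618891) (nat_lit 381) (nat_lit 5) (nat_lit 380) (nat_lit 3) (nat_lit 403) (nat_lit 5) (nat_lit 327) (nat_lit 326) (nat_lit 127)))) (XT.nd (nat_lit 156) (nat_lit 0) (nat_lit 76) (XT.nd (nat_lit 78) (nat_lit 0) (nat_lit 76) (XT.lf (nat_lit 76) (nat_lit 5920707175) (nat_lit 0) (nat_lit 14670454634) (nat_lit 1748) (nat_lit 9092745733) (nat_lit 382) (nat_lit 5) (nat_lit 381) (nat_lit 5) (nat_lit 404) (nat_lit 5) (nat_lit 328) (nat_lit 326) (nat_lit 126)) (XT.lf (nat_lit 0) (nat_lit 21450496497) (nat_lit 1672) (nat_lit 3452031850) (nat_lit 1748) (nat_lit 5228884292) (nat_lit 382) (nat_lit 5) (nat_lit 404) (nat_lit 5) (nat_lit 405) (nat_lit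 5) (nat_lit 329) (nat_lit 326) (nat_lit 125))) (XT.nd (nat_lit 78) (nat_lit 0) (nat_lit 76) (XT.lf (nat_lit 76) (nat_lit 17598806670) (nat_lit 0) (nat_lit 4945032448) (nat_lit 1748) (nat_lit 8044342466) (nat_lit 383) (nat_lit 5) (nat_lit 382) (nat_lit 5) (nat_lit 405) (nat_lit 5) (nat_lit 330) (nat_lit 326) (nat_lit 124)) (XT.lf (nat_lit 76) (nat_lit 8274823950) (nat_lit 0) (nat_lit 15569762439) (nat_lit 1748) (nat_lit 7210578279) (nat_lit 384) (nat_lit 5) (nat_lit 383) (nat_lit 5) (nat_lit 406) (nat_lit 5) (nat_lit 331) (nat_lit 326) (nat_lit 123))))))))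
noncomputable def xc127 : XT := (XT.nd (nat_lit 81510) (nat_lit 0) (nat_lit 0) (XT.nd (nat_lit 40638) (nat_lit 0) (nat_lit 0) (XT.nd (nat_lit 468) (nat_lit 0) (nat_lit 152) (XT.nd (nat_lit 234) (nat_lit 1596) (nat_lit 0) (XT.nd (nat_lit 78) (nat_lit 0) (nat_lit 0) (XT.lf (nat_lit 0) (nat_lit 25333880859) (nat_lit 1672) (nat_lit 1247544284) (nat_lit 1748) (nat_lit 4951744672) (nat_lit 384) (nat_lit 5) (nat_lit 406) (nat_lit 5) (nat_lit 407) (nat_lit 5) (nat_lit 332) (nat_lit 326) (nat_lit 122)) (XT.nd (nat_lit 78) (nat_lit 0) (nat_lit 76) (XT.lf (nat_lit 76) (nat_lit 21101458221) (nat_lit 0) (nat_lit 6003721863) (nat_lit 1748) (nat_lit 4915591493) (nat_lit 385) (nat_lit 5) (nat_lit 384) (nat_lit 5) (nat_lit 407) (nat_lit 5) (nat_lit 333) (nat_lit 326) (nat_lit 121)) (XT.lf (nat_lit 76) (nat_lit 11667050466) (nat_lit 0) (nat_lit 17441763250) (nat_lit 1748) (nat_lit 3410606656) (nat_lit 386) (nat_lit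 5) (nat_lit 385) (nat_lit 5) (nat_lit 408) (nat_lit 5) (nat_lit 334) (nat_lit 326) (nat_lit 120)))) (XT.nd (nat_lit 78) (nat_lit 1748) (nat_lit 0) (XT.lf (nat_lit 76) (nat_lit 2008514208) (nat_lit 0) (nat_lit 29311733269) (nat_lit 1748) (nat_lit 1709830138) (nat_lit 387) (nat_lit 5) (nat_lit 386) (nat_lit 5) (nat_lit 409) (nat_lit 5) (nat_lit 335) (nat_lit 326) (nat_lit 119)) (XT.nd (nat_lit 78) (nat_lit 0) (nat_lit 76) (XT.lf (nat_lit 0) (nat_lit 296764094) (nat_lit 1748) (nat_lit 7832926249) (nat_lit 1824) (nat_lit 25421254556) (nat_lit 363) (nat_lit 5) (nat_lit 386) (nat_lit 5) (nat_lit 387) (nat_lit 5) (nat_lit 336) (nat_lit 326) (nat_lit 118)) (XT.lf (nat_lit 0) (nat_lit 2532188875) (nat_lit 1748) (nat_lit 17924187319) (nat_lit 1824) (nat_lit 13627001308) (nat_lit 364) (nat_lit 5) (nat_lit 387) (nat_lit 5) (nat_lit 388) (nat_lit 5) (nat_lit 337) (nat_lit 326) (nat_lit 117))))) (XT.nd (nat_lit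 39858) (nat_lit 0) (nat_lit 1140) (XT.nd (nat_lit 78) (nat_lit 0) (nat_lit 0) (XT.lf (nat_lit 0) (nat_lit 4989564069) (nat_lit 1748) (nat_lit 28263938940) (nat_lit 1824) (nat_lit 1375184841) (nat_lit 365) (nat_lit 5) (nat_lit 388) (nat_lit 5) (nat_lit 389) (nat_lit 5) (nat_lit 338) (nat_lit 326) (nat_lit 116)) (XT.nd (nat_lit 39702) (nat_lit 0) (nat_lit 1140) (XT.lf (nat_lit 0) (nat_lit 7776472205) (nat_lit 1748) (nat_lit 3700331491) (nat_lit 1824) (nat_lit 23708440020) (nat_lit 365) (nat_lit 5) (nat_lit 388) (nat_lit 5) (nat_lit 389) (nat_lit 5) (nat_lit 339) (nat_lit 326) (nat_lit 115)) (XT.lf (nat_lit 0) (nat_lit 10106498818) (nat_lit 1748) (nat_lit 2366332784) (nat_lit 1748) (nat_lit 2366332784) (nat_lit 380) (nat_lit 3) (nat_lit 403) (nat_lit 3) (nat_lit 403) (nat_lit 5) (nat_lit 327) (nat_lit 327) (nat_lit 126)))) (XT.nd (nat_lit 156) (nat_lit 0) (nat_lit 152) (XT.nd (nat_lit 78) (nat_lit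 0) (nat_lit 76) (XT.lf (nat_lit 76) (nat_lit 15698741534) (nat_lit 0) (nat_lit 5025450668) (nat_lit 1748) (nat_lit 9395068155) (nat_lit 381) (nat_lit 5) (nat_lit 380) (nat_lit 3) (nat_lit 403) (nat_lit 5) (nat_lit 328) (nat_lit 327) (nat_lit 125)) (XT.lf (nat_lit 76) (nat_lit 6213546132) (nat_lit 0) (nat_lit 15206247523) (nat_lit 1748) (nat_lit 9150248066) (nat_lit 382) (nat_lit 5) (nat_lit 381) (nat_lit 5) (nat_lit 404) (nat_lit 5) (nat_lit 329) (nat_lit 327) (nat_lit 124))) (XT.nd (nat_lit 78) (nat_lit 0) (nat_lit 0) (XT.lf (nat_lit 0) (nat_lit 22298162632) (nat_lit 1672) (nat_lit 3438872415) (nat_lit 1748) (nat_lit 5294076647) (nat_lit 382) (nat_lit 5) (nat_lit 404) (nat_lit 5) (nat_lit 405) (nat_lit 5) (nat_lit 330) (nat_lit 327) (nat_lit 123)) (XT.lf (nat_lit 76) (nat_lit 18241597611) (nat_lit 0) (nat_lit 5177507300) (nat_lit 1748) (nat_lit 8082587478) (nat_lit 383) (nat_lit 5) (nat_lit 382)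 (nat_lit 5) (nat_lit 405) (nat_lit 5) (nat_lit 331) (nat_lit 327) (nat_lit 122)))))) (XT.nd (nat_lit 40326) (nat_lit 0) (nat_lit 1292) (XT.nd (nat_lit 234) (nat_lit 1520) (nat_lit 0) (XT.nd (nat_lit 78) (nat_lit 0) (nat_lit 76) (XT.lf (nat_lit 76) (nat_lit 8640637372) (nat_lit 0) (nat_lit 16112675605) (nat_lit 1748) (nat_lit 7229487755) (nat_lit 384) (nat_lit 5) (nat_lit 383) (nat_lit 5) (nat_lit 406) (nat_lit 5) (nat_lit 332) (nat_lit 327) (nat_lit 121)) (XT.nd (nat_lit 78) (nat_lit 0) (nat_lit 0) (XT.lf (nat_lit 0) (nat_lit 26281175654) (nat_lit 1672) (nat_lit 1166446481) (nat_lit 1748) (nat_lit 5027650512) (nat_lit 384) (nat_lit 5) (nat_lit 406) (nat_lit 5) (nat_lit 407) (nat_lit 5) (nat_lit 333) (nat_lit 327) (nat_lit 120)) (XT.lf (nat_lit 76) (nat_lit 21851103186) (nat_lit 0) (nat_lit 6249813012) (nat_lit 1748) (nat_lit 4876684488) (nat_lit 385) (nat_lit 5) (nat_lit 384) (nat_lit 5) (nat_lit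 407) (nat_lit 5) (nat_lit 334) (nat_lit 327) (nat_lit 119)))) (XT.nd (nat_lit 156) (nat_lit 1672) (nat_lit 0) (XT.nd (nat_lit 78) (nat_lit 0) (nat_lit 76) (XT.lf (nat_lit 76) (nat_lit 12135925399) (nat_lit 0) (nat_lit 18023771390) (nat_lit 1748) (nat_lit 3331615545) (nat_lit 386) (nat_lit 5) (nat_lit 385) (nat_lit 5) (nat_lit 408) (nat_lit 5) (nat_lit 335) (nat_lit 327) (nat_lit 118)) (XT.lf (nat_lit 76) (nat_lit 2189710696) (nat_lit 0) (nat_lit 30243004369) (nat_lit 1748) (nat_lit 1584673427) (nat_lit 387) (nat_lit 5) (nat_lit 386) (nat_lit 5) (nat_lit 409) (nat_lit 5) (nat_lit 336) (nat_lit 327) (nat_lit 117))) (XT.nd (nat_lit 78) (nat_lit 0) (nat_lit 76) (XT.lf (nat_lit 0) (nat_lit 474732474) (nat_lit 1748) (nat_lit 7948120956) (nat_lit 1824) (nat_lit 26131110724) (nat_lit 363) (nat_lit 5) (nat_lit 386) (nat_lit 5) (nat_lit 387) (nat_lit 5) (nat_lit 337) (nat_lit 327) (nat_lit 116)) (XT.lf (nat_lit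 0) (nat_lit 2772755396) (nat_lit 1748) (nat_lit 18340335647) (nat_lit 1824) (nat_lit 13989371707) (nat_lit 364) (nat_lit 5) (nat_lit 387) (nat_lit 5) (nat_lit 388) (nat_lit 5) (nat_lit 338) (nat_lit 327) (nat_lit 115))))) (XT.nd (nat_lit 234) (nat_lit 0) (nat_lit 152) (XT.nd (nat_lit 78) (nat_lit 0) (nat_lit 0) (XT.lf (nat_lit 0) (nat_lit 10514747103) (nat_lit 1748) (nat_lit 2383704297) (nat_lit 1748) (nat_lit 2383704297) (nat_lit 380) (nat_lit 3) (nat_lit 403) (nat_lit 3) (nat_lit 403) (nat_lit 5) (nat_lit 328) (nat_lit 328) (nat_lit 124)) (XT.nd (nat_lit 78) (nat_lit 0) (nat_lit 76) (XT.lf (nat_lit 76) (nat_lit 16275200928) (nat_lit 0) (nat_lit 5275389026) (nat_lit 1748) (nat_lit 9467994474) (nat_lit 381) (nat_lit 5) (nat_lit 380) (nat_lit 3) (nat_lit 403) (nat_lit 5) (nat_lit 329) (nat_lit 328) (nat_lit 123)) (XT.lf (nat_lit 76) (nat_lit 6508556288) (nat_lit 0) (nat_lit 15752621817) (nat_lit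 1748) (nat_lit 9221833425) (nat_lit 382) (nat_lit 5) (nat_lit 381) (nat_lit 5) (nat_lit 404) (nat_lit 5) (nat_lit 330) (nat_lit 328) (nat_lit 122)))) (XT.nd (nat_lit 156) (nat_lit 0) (nat_lit 76) (XT.nd (nat_lit 78) (nat_lit 0) (nat_lit 0) (XT.lf (nat_lit 0) (nat_lit 23159539635) (nat_lit 1672) (nat_lit 3432018425) (nat_lit 1748) (nat_lit 5366487246) (nat_lit 382) (nat_lit 5) (nat_lit 404) (nat_lit 5) (nat_lit 405) (nat_lit 5) (nat_lit 331) (nat_lit 328) (nat_lit 121)) (XT.lf (nat_lit 76) (nat_lit 18897080756) (nat_lit 0) (nat_lit 5412127342) (nat_lit 1748) (nat_lit 8133637766) (nat_lit 383) (nat_lit 5) (nat_lit 382) (nat_lit 5) (nat_lit 405) (nat_lit 5) (nat_lit 332) (nat_lit 328) (nat_lit 120))) (XT.nd (nat_lit 78) (nat_lit 0) (nat_lit 76) (XT.lf (nat_lit 76) (nat_lit 9010676271) (nat_lit 0) (nat_lit 16667523770) (nat_lit 1748) (nat_lit 7260296535) (nat_lit 384) (nat_lit 5) (nat_lit 383) (nat_lit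 5) (nat_lit 406) (nat_lit 5) (nat_lit 333) (nat_lit 328) (nat_lit 119)) (XT.lf (nat_lit 0) (nat_lit 27246138748) (nat_lit 1672) (nat_lit 1089719514) (nat_lit 1748) (nat_lit 5110003733) (nat_lit 384) (nat_lit 5) (nat_lit 406) (nat_lit 5) (nat_lit 407) (nat_lit 5) (nat_lit 334) (nat_lit 328) (nat_lit 118))))))) (XT.nd (nat_lit 80886) (nat_lit 0) (nat_lit 1292) (XT.nd (nat_lit 40326) (nat_lit 0) (nat_lit 1368) (XT.nd (nat_lit 234) (nat_lit 1596) (nat_lit 0) (XT.nd (nat_lit 78) (nat_lit 0) (nat_lit 76) (XT.lf (nat_lit 76) (nat_lit 22616544113) (nat_lit 0) (nat_lit 6499499402) (nat_lit 1748) (nat_lit 4847308947) (nat_lit 385) (nat_lit 5) (nat_lit 384) (nat_lit 5) (nat_lit 407) (nat_lit 5) (nat_lit 335) (nat_lit 328) (nat_lit 117)) (XT.nd (nat_lit 78) (nat_lit 0) (nat_lit 76) (XT.lf (nat_lit 76) (nat_lit 12612043333) (nat_lit 0) (nat_lit 18619866983) (nat_lit 1748) (nat_lit 3260662598) (nat_lit 386)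 (nat_lit 5) (nat_lit 385) (nat_lit 5) (nat_lit 408) (nat_lit 5) (nat_lit 336) (nat_lit 328) (nat_lit 116)) (XT.lf (nat_lit 76) (nat_lit 2369400568) (nat_lit 0) (nat_lit 31199233233) (nat_lit 1748) (nat_lit 1465891058) (nat_lit 387) (nat_lit 5) (nat_lit 386) (nat_lit 5) (nat_lit 409) (nat_lit 5) (nat_lit 337) (nat_lit 328) (nat_lit 115)))) (XT.nd (nat_lit 39936) (nat_lit 0) (nat_lit 1292) (XT.lf (nat_lit 0) (nat_lit 648334857) (nat_lit 1748) (nat_lit 8073648117) (nat_lit 1824) (nat_lit 26865292450) (nat_lit 363) (nat_lit 5) (nat_lit 386) (nat_lit 5) (nat_lit 387) (nat_lit 5) (nat_lit 338) (nat_lit 328) (nat_lit 114)) (XT.nd (nat_lit 78) (nat_lit 0) (nat_lit 0) (XT.lf (nat_lit 0) (nat_lit 10929212346) (nat_lit 1748) (nat_lit 2404674875) (nat_lit 1748) (nat_lit 2404674875) (nat_lit 380) (nat_lit 3) (nat_lit 403) (nat_lit 3) (nat_lit 403) (nat_lit 5) (nat_lit 329) (nat_lit 329) (nat_lit 122)) (XT.lf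 (nat_lit 76) (nat_lit 16862898137) (nat_lit 0) (nat_lit 5527132494) (nat_lit 1748) (nat_lit 9555101774) (nat_lit 381) (nat_lit 5) (nat_lit 380) (nat_lit 3) (nat_lit 403) (nat_lit 5) (nat_lit 330) (nat_lit 329) (nat_lit 121))))) (XT.nd (nat_lit 234) (nat_lit 0) (nat_lit 152) (XT.nd (nat_lit 78) (nat_lit 0) (nat_lit 76) (XT.lf (nat_lit 76) (nat_lit 6806182448) (nat_lit 0) (nat_lit 16310210245) (nat_lit 1748) (nat_lit 9307214902) (nat_lit 382) (nat_lit 5) (nat_lit 381) (nat_lit 5) (nat_lit 404) (nat_lit 5) (nat_lit 331) (nat_lit 329) (nat_lit 120)) (XT.nd (nat_lit 78) (nat_lit 0) (nat_lit 0) (XT.lf (nat_lit 0) (nat_lit 24035711557) (nat_lit 1672) (nat_lit 3431274422) (nat_lit 1748) (nat_lit 5446030547) (nat_lit 382) (nat_lit 5) (nat_lit 404) (nat_lit 5) (nat_lit 405) (nat_lit 5) (nat_lit 332) (nat_lit 329) (nat_lit 119)) (XT.lf (nat_lit 76) (nat_lit 19566015251) (nat_lit 0) (nat_lit 5649234139) (nat_lit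 1748) (nat_lit 8197208274) (nat_lit 383) (nat_lit 5) (nat_lit 382) (nat_lit 5) (nat_lit 405) (nat_lit 5) (nat_lit 333) (nat_lit 329) (nat_lit 118)))) (XT.nd (nat_lit 156) (nat_lit 0) (nat_lit 76) (XT.nd (nat_lit 78) (nat_lit 0) (nat_lit 76) (XT.lf (nat_lit 76) (nat_lit 9385454830) (nat_lit 0) (nat_lit 17234914831) (nat_lit 1748) (nat_lit 7302711093) (nat_lit 384) (nat_lit 5) (nat_lit 383) (nat_lit 5) (nat_lit 406) (nat_lit 5) (nat_lit 334) (nat_lit 329) (nat_lit 117)) (XT.lf (nat_lit 0) (nat_lit 28229917315) (nat_lit 1672) (nat_lit 1017103943) (nat_lit 1748) (nat_lit 5198758371) (nat_lit 384) (nat_lit 5) (nat_lit 406) (nat_lit 5) (nat_lit 407) (nat_lit 5) (nat_lit 335) (nat_lit 329) (nat_lit 116))) (XT.nd (nat_lit 78) (nat_lit 0) (nat_lit 76) (XT.lf (nat_lit 76) (nat_lit 23398639109) (nat_lit 0) (nat_lit 6753106309) (nat_lit 1748) (nat_lit 4827136665) (nat_lit 385) (nat_lit 5) (nat_lit 384) (nat_lit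 5) (nat_lit 407) (nat_lit 5) (nat_lit 336) (nat_lit 329) (nat_lit 115)) (XT.lf (nat_lit 76) (nat_lit 13096013242) (nat_lit 0) (nat_lit 19230666264) (nat_lit 1748) (nat_lit 3197391503) (nat_lit 386) (nat_lit 5) (nat_lit 385) (nat_lit 5) (nat_lit 408) (nat_lit 5) (nat_lit 337) (nat_lit 329) (nat_lit 114)))))) (XT.nd (nat_lit 40716) (nat_lit 0) (nat_lit 0) (XT.nd (nat_lit 234) (nat_lit 0) (nat_lit 152) (XT.nd (nat_lit 78) (nat_lit 0) (nat_lit 0) (XT.lf (nat_lit 0) (nat_lit 11350427231) (nat_lit 1748) (nat_lit 2429175805) (nat_lit 1748) (nat_lit 2429175805) (nat_lit 380) (nat_lit 3) (nat_lit 403) (nat_lit 3) (nat_lit 403) (nat_lit 5) (nat_lit 330) (nat_lit 330) (nat_lit 120)) (XT.nd (nat_lit 78) (nat_lit 0) (nat_lit 76) (XT.lf (nat_lit 76) (nat_lit 17462517932) (nat_lit 0) (nat_lit 5781062029) (nat_lit 1748) (nat_lit 9656127025) (nat_lit 381) (nat_lit 5) (nat_lit 380) (nat_lit 3) (nat_lit 403) (nat_lit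 5) (nat_lit 331) (nat_lit 330) (nat_lit 119)) (XT.lf (nat_lit 76) (nat_lit 7106860966) (nat_lit 0) (nat_lit 16879646418) (nat_lit 1748) (nat_lit 9406137706) (nat_lit 382) (nat_lit 5) (nat_lit 381) (nat_lit 5) (nat_lit 404) (nat_lit 5) (nat_lit 332) (nat_lit 330) (nat_lit 118)))) (XT.nd (nat_lit 156) (nat_lit 0) (nat_lit 76) (XT.nd (nat_lit 78) (nat_lit 0) (nat_lit 0) (XT.lf (nat_lit 0) (nat_lit 24927756354) (nat_lit 1672) (nat_lit 3436461165) (nat_lit 1748) (nat_lit 5532635787) (nat_lit 382) (nat_lit 5) (nat_lit 404) (nat_lit 5) (nat_lit 405) (nat_lit 5) (nat_lit 333) (nat_lit 330) (nat_lit 117)) (XT.lf (nat_lit 76) (nat_lit 20249161297) (nat_lit 0) (nat_lit 5889163586) (nat_lit 1748) (nat_lit 8273043813) (nat_lit 383) (nat_lit 5) (nat_lit 382) (nat_lit 5) (nat_lit 405) (nat_lit 5) (nat_lit 334) (nat_lit 330) (nat_lit 116))) (XT.nd (nat_lit 78) (nat_lit 0) (nat_lit 76) (XT.lf (nat_lit 76) (nat_lit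 9765480413) (nat_lit 0) (nat_lit 17815460577) (nat_lit 1748) (nat_lit 7356466441) (nat_lit 384) (nat_lit 5) (nat_lit 383) (nat_lit 5) (nat_lit 406) (nat_lit 5) (nat_lit 335) (nat_lit 330) (nat_lit 115)) (XT.lf (nat_lit 0) (nat_lit 29233657520) (nat_lit 1672) (nat_lit 948354967) (nat_lit 1748) (nat_lit 5293880821) (nat_lit 384) (nat_lit 5) (nat_lit 406) (nat_lit 5) (nat_lit 407) (nat_lit 5) (nat_lit 336) (nat_lit 330) (nat_lit 114))))) (XT.nd (nat_lit 234) (nat_lit 0) (nat_lit 0) (XT.nd (nat_lit 78) (nat_lit 0) (nat_lit 0) (XT.lf (nat_lit 0) (nat_lit 11778920549) (nat_lit 1748) (nat_lit 2457146454) (nat_lit 1748) (nat_lit 2457146454) (nat_lit 380) (nat_lit 3) (nat_lit 403) (nat_lit 3) (nat_lit 403) (nat_lit 5) (nat_lit 331) (nat_lit 331) (nat_lit 118)) (XT.nd (nat_lit 78) (nat_lit 0) (nat_lit 76) (XT.lf (nat_lit 76) (nat_lit 18074745671) (nat_lit 0) (nat_lit 6037551255) (nat_lit 1748) (nat_lit 9770838830)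 (nat_lit 381) (nat_lit 5) (nat_lit 380) (nat_lit 3) (nat_lit 403) (nat_lit 5) (nat_lit 332) (nat_lit 331) (nat_lit 117)) (XT.lf (nat_lit 76) (nat_lit 7411020744) (nat_lit 0) (nat_lit 17461565893) (nat_lit 1748) (nat_lit 9518377786) (nat_lit 382) (nat_lit 5) (nat_lit 381) (nat_lit 5) (nat_lit 404) (nat_lit 5) (nat_lit 333) (nat_lit 331) (nat_lit 116)))) (XT.nd (nat_lit 40560) (nat_lit 152) (nat_lit 0) (XT.nd (nat_lit 78) (nat_lit 0) (nat_lit 0) (XT.lf (nat_lit 0) (nat_lit 25836747919) (nat_lit 1672) (nat_lit 3447414846) (nat_lit 1748) (nat_lit 5626246421) (nat_lit 382) (nat_lit 5) (nat_lit 404) (nat_lit 5) (nat_lit 405) (nat_lit 5) (nat_lit 334) (nat_lit 331) (nat_lit 115)) (XT.lf (nat_lit 76) (nat_lit 20947281425) (nat_lit 0) (nat_lit 6132246660) (nat_lit 1748) (nat_lit 8360917746) (nat_lit 383) (nat_lit 5) (nat_lit 382) (nat_lit 5) (nat_lit 405) (nat_lit 5) (nat_lit 335) (nat_lit 331) (nat_lit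 114))) (XT.nd (nat_lit 78) (nat_lit 0) (nat_lit 76) (XT.lf (nat_lit 76) (nat_lit 18700268464) (nat_lit 0) (nat_lit 6296967326) (nat_lit 1748) (nat_lit 9899036097) (nat_lit 381) (nat_lit 5) (nat_lit 380) (nat_lit 3) (nat_lit 403) (nat_lit 5) (nat_lit 333) (nat_lit 332) (nat_lit 115)) (XT.lf (nat_lit 76) (nat_lit 7719084187) (nat_lit 0) (nat_lit 18056607217) (nat_lit 1748) (nat_lit 9643740553) (nat_lit 382) (nat_lit 5) (nat_lit 381) (nat_lit 5) (nat_lit 404) (nat_lit 5) (nat_lit 334) (nat_lit 332) (nat_lit 114))))))))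

set_option maxRecDepth 10000000 in
noncomputable def Tp : PT := (PT.nd (nat_lit 5495178) (PT.nd (nat_lit 4886622) (PT.nd (nat_lit 4318470) (PT.nd (nat_lit 3831360) (PT.nd (nat_lit 3425448) pc0 pc1) (PT.nd (nat_lit 244062) pc2 pc3)) (PT.nd (nat_lit 324636) (PT.nd (nat_lit 162630) pc4 pc5) (PT.nd (nat_lit 121992) pc6 pc7))) (PT.nd (nat_lit 326274) (PT.nd (nat_lit 163722) (PT.nd (nat_lit 81978) pc8 pc9) (PT.nd (nat_lit 119886) pc10 pc11)) (PT.nd (nat_lit 160680) (PT.nd (nat_lit 80496) pc12 pc13) (PT.nd (nat_lit 42120) pc14 pc15)))) (PT.nd (nat_lit 365898) (PT.nd (nat_lit 202800) (PT.nd (nat_lit 83226) (PT.nd (nat_lit 41652) pc16 pc17) (PT.nd (nat_lit 78390) pc18 pc19)) (PT.nd (nat_lit 81822) (PT.nd (nat_lit 40950) pc20 pc21) (PT.nd (nat_lit 40716) pc22 pc23))) (PT.nd (nat_lit 201318) (PT.nd (nat_lit 80574) (PT.nd (nat_lit 40326) pc24 pc25) (PT.nd (nat_lit 42978) pc26 pc27)) (PT.nd (nat_lit 167154)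 (PT.nd (nat_lit 80886) pc28 pc29) (PT.nd (nat_lit 156468) pc30 pc31)))))

set_option maxRecDepth 10000000 in
noncomputable def Tx : XT := (XT.nd (nat_lit 8481174) (nat_lit 0) (nat_lit 228) XT.nil (XT.nd (nat_lit 5036772) (nat_lit 0) (nat_lit 0) (XT.nd (nat_lit 2392572) (nat_lit 0) (nat_lit 2660) (XT.nd (nat_lit 1660854) (nat_lit 0) (nat_lit 1140) (XT.nd (nat_lit 1137162) (nat_lit 0) (nat_lit 532) (XT.nd (nat_lit 810030) (nat_lit 0) (nat_lit 304) (XT.nd (nat_lit 566748) (nat_lit 0) (nat_lit 228) (XT.nd (nat_lit 365274) (nat_lit 0) (nat_lit 152) (XT.nd (nat_lit 243360) (nat_lit 0) (nat_lit 152) xc0 xc1) (XT.nd (nat_lit 120510) (nat_lit 0) (nat_lit 76) xc2 xc3)) (XT.nd (nat_lit 122304) (nat_lit 0) (nat_lit 0) (XT.nd (nat_lit 42276) (nat_lit 0) (nat_lit 0) xc4 xc5) (XT.nd (nat_lit 41886) (nat_lit 0) (nat_lit 0) xc6 xc7))) (XT.nd (nat_lit 164658) (nat_lit 0) (nat_lit 152) (XT.nd (nat_lit 82602) (nat_lit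 0) (nat_lit 0) (XT.nd (nat_lit 41340) (nat_lit 0) (nat_lit 0) xc8 xc9) (XT.nd (nat_lit 41106) (nat_lit 0) (nat_lit 76) xc10 xc11)) (XT.nd (nat_lit 81510) (nat_lit 0) (nat_lit 0) (XT.nd (nat_lit 40794) (nat_lit 0) (nat_lit 0) xc12 xc13) (XT.nd (nat_lit 40560) (nat_lit 0) (nat_lit 76) xc14 xc15)))) (XT.nd (nat_lit 282516) (nat_lit 0) (nat_lit 304) (XT.nd (nat_lit 159978) (nat_lit 0) (nat_lit 228) (XT.nd (nat_lit 80262) (nat_lit 0) (nat_lit 0) (XT.nd (nat_lit 40170) (nat_lit 0) (nat_lit 0) xc16 xc17) (XT.nd (nat_lit 39936) (nat_lit 0) (nat_lit 228) xc18 xc19)) (XT.nd (nat_lit 43758) (nat_lit 0) (nat_lit 0) (XT.nd (nat_lit 39546) (nat_lit 0) (nat_lit 76) xc20 xc21) (XT.nd (nat_lit 39468) (nat_lit 0) (nat_lit 0) xc22 xc23))) (XT.nd (nat_lit 121212) (nat_lit 0) (nat_lit 228) (XT.nd (nat_lit 78078) (nat_lit 0) (nat_lit 152) (XT.nd (nat_lit 39078) (nat_lit 0) (nat_lit 0) xc24 xc25) (XT.nd (nat_lit 4212)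 (nat_lit 1672) (nat_lit 0) xc26 xc27)) (XT.nd (nat_lit 42900) (nat_lit 0) (nat_lit 0) (XT.nd (nat_lit 38688) (nat_lit 0) (nat_lit 1064) xc28 xc29) (XT.nd (nat_lit 38610) (nat_lit 0) (nat_lit 76) xc30 xc31))))) (XT.nd (nat_lit 368472) (nat_lit 0) (nat_lit 608) (XT.nd (nat_lit 202410) (nat_lit 0) (nat_lit 304) (XT.nd (nat_lit 84786) (nat_lit 0) (nat_lit 152) (XT.nd (nat_lit 42432) (nat_lit 0) (nat_lit 0) (XT.nd (nat_lit 4134) (nat_lit 1140) (nat_lit 0) xc32 xc33) (XT.nd (nat_lit 38142) (nat_lit 0) (nat_lit 2432) xc34 xc35)) (XT.nd (nat_lit 42120) (nat_lit 0) (nat_lit 0) (XT.nd (nat_lit 37908) (nat_lit 0) (nat_lit 304) xc36 xc37) (XT.nd (nat_lit 37830) (nat_lit 0) (nat_lit 76) xc38 xc39))) (XT.nd (nat_lit 83304) (nat_lit 0) (nat_lit 152) (XT.nd (nat_lit 41652) (nat_lit 0) (nat_lit 152) (XT.nd (nat_lit 4134) (nat_lit 2812) (nat_lit 0) xc40 xc41) (XT.nd (nat_lit 4212) (nat_lit 684) (nat_lit 0) xc42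 xc43)) (XT.nd (nat_lit 41418) (nat_lit 0) (nat_lit 152) (XT.nd (nat_lit 37206) (nat_lit 0) (nat_lit 6992) xc44 xc45) (XT.nd (nat_lit 37128) (nat_lit 0) (nat_lit 4484) xc46 xc47)))) (XT.nd (nat_lit 164346) (nat_lit 0) (nat_lit 304) (XT.nd (nat_lit 82134) (nat_lit 0) (nat_lit 152) (XT.nd (nat_lit 41106) (nat_lit 0) (nat_lit 0) (XT.nd (nat_lit 36894) (nat_lit 0) (nat_lit 3572) xc48 xc49) (XT.nd (nat_lit 36816) (nat_lit 0) (nat_lit 2736) xc50 xc51)) (XT.nd (nat_lit 41028) (nat_lit 0) (nat_lit 0) (XT.nd (nat_lit 36816) (nat_lit 0) (nat_lit 1824) xc52 xc53) (XT.nd (nat_lit 36972) (nat_lit 0) (nat_lit 912) xc54 xc55))) (XT.nd (nat_lit 115674) (nat_lit 0) (nat_lit 380) (XT.nd (nat_lit 74178) (nat_lit 0) (nat_lit 228) (XT.nd (nat_lit 36972) (nat_lit 0) (nat_lit 228) xc56 xc57) (XT.nd (nat_lit 4212) (nat_lit 9728) (nat_lit 0) xc58 xc59)) (XT.nd (nat_lit 41574) (nat_lit 0) (nat_lit 0) (XT.nd (nat_lit 4212)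 (nat_lit 5776) (nat_lit 0) xc60 xc61) (XT.nd (nat_lit 4212) (nat_lit 3192) (nat_lit 0) xc62 xc63)))))) (XT.nd (nat_lit 853398) (nat_lit 0) (nat_lit 3572) (XT.nd (nat_lit 370266) (nat_lit 0) (nat_lit 1292) (XT.nd (nat_lit 201084) (nat_lit 0) (nat_lit 608) (XT.nd (nat_lit 83460) (nat_lit 0) (nat_lit 152) (XT.nd (nat_lit 41652) (nat_lit 0) (nat_lit 0) (XT.nd (nat_lit 4134) (nat_lit 1064) (nat_lit 0) xc64 xc65) (XT.nd (nat_lit 37596) (nat_lit 0) (nat_lit 6992) xc66 xc67)) (XT.nd (nat_lit 41886) (nat_lit 0) (nat_lit 304) (XT.nd (nat_lit 37674) (nat_lit 0) (nat_lit 3040) xc68 xc69) (XT.nd (nat_lit 37830) (nat_lit 0) (nat_lit 0) xc70 xc71))) (XT.nd (nat_lit 84396) (nat_lit 0) (nat_lit 228) (XT.nd (nat_lit 42120) (nat_lit 0) (nat_lit 0) (XT.nd (nat_lit 4134) (nat_lit 7752) (nat_lit 0) xc72 xc73) (XT.nd (nat_lit 4212) (nat_lit 2584) (nat_lit 0) xc74 xc75)) (XT.nd (nat_lit 42276) (nat_lit 0) (nat_lit 228)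 (XT.nd (nat_lit 38064) (nat_lit 0) (nat_lit 5776) xc76 xc77) (XT.nd (nat_lit 38298) (nat_lit 0) (nat_lit 532) xc78 xc79)))) (XT.nd (nat_lit 239850) (nat_lit 0) (nat_lit 1064) (XT.nd (nat_lit 119496) (nat_lit 0) (nat_lit 532) (XT.nd (nat_lit 76752) (nat_lit 0) (nat_lit 304) (XT.nd (nat_lit 38298) (nat_lit 0) (nat_lit 0) xc80 xc81) (XT.nd (nat_lit 4212) (nat_lit 988) (nat_lit 0) xc82 xc83)) (XT.nd (nat_lit 42744) (nat_lit 0) (nat_lit 228) (XT.nd (nat_lit 38532) (nat_lit 0) (nat_lit 1140) xc84 xc85) (XT.nd (nat_lit 38766) (nat_lit 0) (nat_lit 76) xc86 xc87))) (XT.nd (nat_lit 121134) (nat_lit 0) (nat_lit 836) (XT.nd (nat_lit 43056) (nat_lit 0) (nat_lit 228) (XT.nd (nat_lit 38844) (nat_lit 0) (nat_lit 5092) xc88 xc89) (XT.nd (nat_lit 39000) (nat_lit 0) (nat_lit 0) xc90 xc91)) (XT.nd (nat_lit 43446) (nat_lit 0) (nat_lit 0) (XT.nd (nat_lit 4212) (nat_lit 1292) (nat_lit 0) xc92 xc93) (XT.nd (nat_lit 39312)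 (nat_lit 0) (nat_lit 304) xc94 xc95))))) (XT.nd (nat_lit 570258) (nat_lit 0) (nat_lit 5168) (XT.nd (nat_lit 246714) (nat_lit 0) (nat_lit 1976) (XT.nd (nat_lit 122928) (nat_lit 0) (nat_lit 912) (XT.nd (nat_lit 43602) (nat_lit 0) (nat_lit 532) (XT.nd (nat_lit 4134) (nat_lit 1216) (nat_lit 0) xc96 xc97) (XT.nd (nat_lit 39624) (nat_lit 0) (nat_lit 0) xc98 xc99)) (XT.nd (nat_lit 43914) (nat_lit 0) (nat_lit 304) (XT.nd (nat_lit 39702) (nat_lit 0) (nat_lit 608) xc100 xc101) (XT.nd (nat_lit 39858) (nat_lit 0) (nat_lit 304) xc102 xc103))) (XT.nd (nat_lit 160914) (nat_lit 0) (nat_lit 1064) (XT.nd (nat_lit 80184) (nat_lit 0) (nat_lit 684) (XT.nd (nat_lit 40014) (nat_lit 0) (nat_lit 304) xc104 xc105) (XT.nd (nat_lit 40326) (nat_lit 0) (nat_lit 380) xc106 xc107)) (XT.nd (nat_lit 81042) (nat_lit 0) (nat_lit 760) (XT.nd (nat_lit 40404) (nat_lit 0) (nat_lit 760) xc108 xc109) (XT.nd (nat_lit 40716) (nat_lit 0)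 (nat_lit 912) xc110 xc111)))) (XT.nd (nat_lit 368160) (nat_lit 0) (nat_lit 4712) (XT.nd (nat_lit 164346) (nat_lit 0) (nat_lit 2052) (XT.nd (nat_lit 81900) (nat_lit 0) (nat_lit 988) (XT.nd (nat_lit 40872) (nat_lit 0) (nat_lit 0) xc112 xc113) (XT.nd (nat_lit 41184) (nat_lit 0) (nat_lit 456) xc114 xc115)) (XT.nd (nat_lit 120276) (nat_lit 0) (nat_lit 1520) (XT.nd (nat_lit 41340) (nat_lit 0) (nat_lit 456) xc116 xc117) (XT.nd (nat_lit 41730) (nat_lit 0) (nat_lit 608) xc118 xc119))) (XT.nd (nat_lit 283452) (nat_lit 0) (nat_lit 5396) (XT.nd (nat_lit 159978) (nat_lit 0) (nat_lit 3192) (XT.nd (nat_lit 79716) (nat_lit 0) (nat_lit 1292) xc120 xc121) (XT.nd (nat_lit 42432) (nat_lit 0) (nat_lit 684) xc122 xc123)) (XT.nd (nat_lit 202644) (nat_lit 0) (nat_lit 4940) (XT.nd (nat_lit 81510) (nat_lit 0) (nat_lit 1520) xc124 xc125) (XT.nd (nat_lit 122226) (nat_lit 0) (nat_lit 912) xc126 xc127))))))) XT.nil))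

set_option maxRecDepth 10000000 in
noncomputable def Te : XT := XT.nil

set_option maxRecDepth 10000000 in
noncomputable def Tz : ZL := (ZL.cons (nat_lit 76) (nat_lit 6) (nat_lit 209402053385932031522) (ZL.cons (nat_lit 228) (nat_lit 3) (nat_lit 103261174007933612202) (ZL.cons (nat_lit 912) (nat_lit 3) (nat_lit 95187973938759045042) (ZL.cons (nat_lit 988) (nat_lit 6) (nat_lit 187866519862226928838) (ZL.cons (nat_lit 1064) (nat_lit 6) (nat_lit 185440651897175508952) (ZL.cons (nat_lit 1140) (nat_lit 3) (nat_lit 92681202083883696299) (ZL.cons (nat_lit 1216) (nat_lit 6) (nat_lit 182942007893172546468) (ZL.cons (nat_lit 1292) (nat_lit 6) (nat_lit 180603216129076239606) (ZL.cons (nat_lit 1368) (nat_lit 3) (nat_lit 90263623729873985653) (ZL.cons (nat_lit 1520) (nat_lit 6) (nat_lit 178194260612057043540) (ZL.cons (nat_lit 1596) (nat_lit 6) (nat_lit 175941008817902751688) (ZL.cons (nat_lit 1672) (nat_lit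 3) (nat_lit 87933626414131828123) (ZL.cons (nat_lit 1748) (nat_lit 6) (nat_lit 173765523216494087140) (ZL.cons (nat_lit 1824) (nat_lit 6) (nat_lit 173620159469923831076) (ZL.cons (nat_lit 1900) (nat_lit 6) (nat_lit 171451017057404067214) (ZL.cons (nat_lit 1976) (nat_lit 3) (nat_lit 85689704650236453296) (ZL.cons (nat_lit 2052) (nat_lit 6) (nat_lit 169357930223547793990) (ZL.cons (nat_lit 2128) (nat_lit 6) (nat_lit 169216800372508710436) (ZL.cons (nat_lit 2204) (nat_lit 6) (nat_lit 167130443027744671946) (ZL.cons (nat_lit 2280) (nat_lit 3) (nat_lit 83530460466818374507) (ZL.cons (nat_lit 2356) (nat_lit 6) (nat_lit 165118514235491191480) (ZL.cons (nat_lit 2432) (nat_lit 6) (nat_lit 164981494962637712304) (ZL.cons (nat_lit 2508) (nat_lit 6) (nat_lit 162976705485362183670) (ZL.cons (nat_lit 2584) (nat_lit 3) (nat_lit 81454604153308313713) (ZL.cons (nat_lit 2660) (nat_lit 6) (nat_lit 161044800744014485468)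 (ZL.cons (nat_lit 2736) (nat_lit 6) (nat_lit 160911772323768389178) (ZL.cons (nat_lit 2812) (nat_lit 6) (nat_lit 159184092666490527478) (ZL.cons (nat_lit 2888) (nat_lit 6) (nat_lit 158987441681680800076) (ZL.cons (nat_lit 2964) (nat_lit 3) (nat_lit 79460955220090130015) (ZL.cons (nat_lit 3040) (nat_lit 6) (nat_lit 157134534926394754456) (ZL.cons (nat_lit 3116) (nat_lit 6) (nat_lit 157005381120330583298) (ZL.cons (nat_lit 3192) (nat_lit 6) (nat_lit 155351433013172623734) (ZL.cons (nat_lit 3268) (nat_lit 6) (nat_lit 155160509726949587420) (ZL.cons (nat_lit 3344) (nat_lit 3) (nat_lit 77548443581192978154) (ZL.cons (nat_lit 3420) (nat_lit 6) (nat_lit 153385684236489657934) (ZL.cons (nat_lit 3496) (nat_lit 6) (nat_lit 153260292191767161666) (ZL.cons (nat_lit 3572) (nat_lit 6) (nat_lit 151679353830561072568) (ZL.cons (nat_lit 3648) (nat_lit 6) (nat_lit 151493991416752299450) (ZL.cons (nat_lit 3724) (nat_lit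 3) (nat_lit 75716110968296717147) (ZL.cons (nat_lit 3800) (nat_lit 6) (nat_lit 150040027540847971398) (ZL.cons (nat_lit 3876) (nat_lit 6) (nat_lit 149796441467732133376) (ZL.cons (nat_lit 3952) (nat_lit 6) (nat_lit 149674701618486991370) (ZL.cons (nat_lit 4028) (nat_lit 6) (nat_lit 148166159048634704074) (ZL.cons (nat_lit 4104) (nat_lit 6) (nat_lit 147986195540082497164) (ZL.cons (nat_lit 4180) (nat_lit 3) (nat_lit 73963112585498110157) (ZL.cons (nat_lit 4256) (nat_lit 6) (nat_lit 146601719640841382722) (ZL.cons (nat_lit 4332) (nat_lit 6) (nat_lit 146365228307719209886) (ZL.cons (nat_lit 4408) (nat_lit 6) (nat_lit 146247034279325868132) (ZL.cons (nat_lit 4484) (nat_lit 6) (nat_lit 144810383542262054820) (ZL.cons (nat_lit 4560) (nat_lit 6) (nat_lit 144635661689298747140) (ZL.cons (nat_lit 4636) (nat_lit 3) (nat_lit 72288719014995841118) (ZL.cons (nat_lit 4712) (nat_lit 6) (nat_lit 143320302641488787850)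 (ZL.cons (nat_lit 4788) (nat_lit 6) (nat_lit 143090699405447843348) (ZL.cons (nat_lit 4864) (nat_lit 6) (nat_lit 142975947921570812518) (ZL.cons (nat_lit 4940) (nat_lit 6) (nat_lit 141893683592961840102) (ZL.cons (nat_lit 5016) (nat_lit 6) (nat_lit 141610797460729015190) (ZL.cons (nat_lit 5092) (nat_lit 6) (nat_lit 141441164593774347538) (ZL.cons (nat_lit 5168) (nat_lit 3) (nat_lit 70692318384602190806) (ZL.cons (nat_lit 5244) (nat_lit 6) (nat_lit 140194662736938139420) (ZL.cons (nat_lit 5320) (nat_lit 6) (nat_lit 139971746973791591358) (ZL.cons (nat_lit 5396) (nat_lit 6) (nat_lit 139860337766143988610) (ZL.cons (nat_lit 5472) (nat_lit 6) (nat_lit 138841057834802000704) (ZL.cons (nat_lit 5548) (nat_lit 6) (nat_lit 138566411104478869722) (ZL.cons (nat_lit 5624) (nat_lit 6) (nat_lit 138401719000639386564) (ZL.cons (nat_lit 5700) (nat_lit 3) (nat_lit 69173418808780874871) (ZL.cons (nat_lit 5776) (nat_lit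 6) (nat_lit 137548799992755625720) (ZL.cons (nat_lit 5852) (nat_lit 6) (nat_lit 137223929022455229766) (ZL.cons (nat_lit 5928) (nat_lit 6) (nat_lit 137007505951439163688) (ZL.cons (nat_lit 6004) (nat_lit 6) (nat_lit 136899341672169646456) (ZL.cons (nat_lit 6080) (nat_lit 6) (nat_lit 135943127685124728506) (ZL.cons (nat_lit 6156) (nat_lit 6) (nat_lit 135676480374131397456) (ZL.cons (nat_lit 6232) (nat_lit 6) (nat_lit 135516585127685297304) (ZL.cons (nat_lit 6308) (nat_lit 3) (nat_lit 67731651115746708447) (ZL.cons (nat_lit 6384) (nat_lit 6) (nat_lit 134722887945687756764) (ZL.cons (nat_lit 6460) (nat_lit 6) (nat_lit 134407479236658246130) (ZL.cons (nat_lit 6536) (nat_lit 6) (nat_lit 134197359750234881006) (ZL.cons (nat_lit 6612) (nat_lit 6) (nat_lit 134092345886866417676) (ZL.cons (nat_lit 6688) (nat_lit 6) (nat_lit 133562143575245777382) (ZL.cons (nat_lit 6764) (nat_lit 6) (nat_lit 133199393703074344820)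 (ZL.cons (nat_lit 6840) (nat_lit 6) (nat_lit 132940512818614800112) (ZL.cons (nat_lit 6916) (nat_lit 6) (nat_lit 132785274715269071810) (ZL.cons (nat_lit 6992) (nat_lit 3) (nat_lit 66366771874046244445) (ZL.cons (nat_lit 7068) (nat_lit 6) (nat_lit 132051168164661027984) (ZL.cons (nat_lit 7144) (nat_lit 6) (nat_lit 131744946117059561348) (ZL.cons (nat_lit 7220) (nat_lit 6) (nat_lit 131540946615677653462) (ZL.cons (nat_lit 7296) (nat_lit 6) (nat_lit 131438991408523805570) (ZL.cons (nat_lit 7372) (nat_lit 6) (nat_lit 130961799317549779132) (ZL.cons (nat_lit 7448) (nat_lit 6) (nat_lit 130609614975635766934) (ZL.cons (nat_lit 7524) (nat_lit 6) (nat_lit 130358274311111937120) (ZL.cons (nat_lit 7600) (nat_lit 6) (nat_lit 130207557705921909644) (ZL.cons (nat_lit 7676) (nat_lit 3) (nat_lit 65078666732972322336) (ZL.cons (nat_lit 7752) (nat_lit 6) (nat_lit 129930335286048947652) (ZL.cons (nat_lit 7828) (nat_lit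 6) (nat_lit 129533527357423726176) (ZL.cons (nat_lit 7904) (nat_lit 6) (nat_lit 129236224398587350800) (ZL.cons (nat_lit 7980) (nat_lit 6) (nat_lit 129038166630255401396) (ZL.cons (nat_lit 8056) (nat_lit 6) (nat_lit 128939180992241956840) (ZL.cons (nat_lit 8132) (nat_lit 6) (nat_lit 128515742991689079034) (ZL.cons (nat_lit 8208) (nat_lit 6) (nat_lit 128173816446141494380) (ZL.cons (nat_lit 8284) (nat_lit 6) (nat_lit 127929796383496999414) (ZL.cons (nat_lit 8360) (nat_lit 6) (nat_lit 127783469582341632930) (ZL.cons (nat_lit 8436) (nat_lit 3) (nat_lit 63867354092152726673) (ZL.cons (nat_lit 8512) (nat_lit 6) (nat_lit 127555372552287008832) (ZL.cons (nat_lit 8588) (nat_lit 6) (nat_lit 127170122136146017106) (ZL.cons (nat_lit 8664) (nat_lit 6) (nat_lit 126881478486790312862) (ZL.cons (nat_lit 8740) (nat_lit 6) (nat_lit 126689189391322400816) (ZL.cons (nat_lit 8816) (nat_lit 6) (nat_lit 126593086830144299304)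 (ZL.cons (nat_lit 8892) (nat_lit 6) (nat_lit 126651576880581144824) (ZL.cons (nat_lit 8968) (nat_lit 6) (nat_lit 126224264454155291866) (ZL.cons (nat_lit 9044) (nat_lit 6) (nat_lit 125892296934206180550) (ZL.cons (nat_lit 9120) (nat_lit 6) (nat_lit 125655384252027059226) (ZL.cons (nat_lit 9196) (nat_lit 6) (nat_lit 125513319396536412152) (ZL.cons (nat_lit 9272) (nat_lit 3) (nat_lit 62732989116697245112) (ZL.cons (nat_lit 9348) (nat_lit 6) (nat_lit 125803566252198151792) (ZL.cons (nat_lit 9424) (nat_lit 6) (nat_lit 125335416922583113172) (ZL.cons (nat_lit 9500) (nat_lit 6) (nat_lit 124961387392349140624) (ZL.cons (nat_lit 9576) (nat_lit 6) (nat_lit 124681150839576612228) (ZL.cons (nat_lit 9652) (nat_lit 6) (nat_lit 124494462397374755876) (ZL.cons (nat_lit 9728) (nat_lit 6) (nat_lit 124401158939920288386) (ZL.cons (nat_lit 9804) (nat_lit 6) (nat_lit 124502802878537816010) (ZL.cons (nat_lit 9880)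 (nat_lit 6) (nat_lit 124087936445114657800) (ZL.cons (nat_lit 9956) (nat_lit 6) (nat_lit 123765637882057268172) (ZL.cons (nat_lit 10032) (nat_lit 6) (nat_lit 123535625569262004748) (ZL.cons (nat_lit 10108) (nat_lit 6) (nat_lit 123397698525096327980) (ZL.cons (nat_lit 10184) (nat_lit 3) (nat_lit 61675868115391891209) (ZL.cons (nat_lit 10260) (nat_lit 6) (nat_lit 123725694795184797698) (ZL.cons (nat_lit 10336) (nat_lit 6) (nat_lit 123271180882937187386) (ZL.cons (nat_lit 10412) (nat_lit 6) (nat_lit 122908045416690612096) (ZL.cons (nat_lit 10488) (nat_lit 6) (nat_lit 122635971093610487440) (ZL.cons (nat_lit 10564) (nat_lit 6) (nat_lit 122454720178851403600) (ZL.cons (nat_lit 10640) (nat_lit 6) (nat_lit 122364134297827648760) (ZL.cons (nat_lit 10716) (nat_lit 6) (nat_lit 123003413646043458508) (ZL.cons (nat_lit 10792) (nat_lit 6) (nat_lit 122510407035908030626) (ZL.cons (nat_lit 10868) (nat_lit 6)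 (nat_lit 122107624090837003234) (ZL.cons (nat_lit 10944) (nat_lit 6) (nat_lit 121794712864567692916) (ZL.cons (nat_lit 11020) (nat_lit 6) (nat_lit 121571399939523747844) (ZL.cons (nat_lit 11096) (nat_lit 6) (nat_lit 121437490187906585932) (ZL.cons (nat_lit 11172) (nat_lit 3) (nat_lit 60696433300597688327) (ZL.cons (nat_lit 11248) (nat_lit 6) (nat_lit 122335328311663092414) (ZL.cons (nat_lit 11324) (nat_lit 6) (nat_lit 121804950150180268830) (ZL.cons (nat_lit 11400) (nat_lit 6) (nat_lit 121363674507221423868) (ZL.cons (nat_lit 11476) (nat_lit 6) (nat_lit 121011115802127661448) (ZL.cons (nat_lit 11552) (nat_lit 6) (nat_lit 120746965973894530714) (ZL.cons (nat_lit 11628) (nat_lit 6) (nat_lit 120570994211992507570) (ZL.cons (nat_lit 11704) (nat_lit 6) (nat_lit 120483046754687891220) (ZL.cons (nat_lit 11780) (nat_lit 6) (nat_lit 121154193807115887458) (ZL.cons (nat_lit 11856) (nat_lit 6) (nat_lit 120675546612809646794)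 (ZL.cons (nat_lit 11932) (nat_lit 6) (nat_lit 120284495209828066804) (ZL.cons (nat_lit 12008) (nat_lit 6) (nat_lit 119980697902770483968) (ZL.cons (nat_lit 12084) (nat_lit 6) (nat_lit 119763889237679275162) (ZL.cons (nat_lit 12160) (nat_lit 6) (nat_lit 119633879770089797580) (ZL.cons (nat_lit 12236) (nat_lit 3) (nat_lit 59795277949748195254) (ZL.cons (nat_lit 12312) (nat_lit 6) (nat_lit 120557569384667548696) (ZL.cons (nat_lit 12388) (nat_lit 6) (nat_lit 120042639130800729680) (ZL.cons (nat_lit 12464) (nat_lit 6) (nat_lit 119614216176471753988) (ZL.cons (nat_lit 12540) (nat_lit 6) (nat_lit 119271926171526353582) (ZL.cons (nat_lit 12616) (nat_lit 6) (nat_lit 119015470027610692674) (ZL.cons (nat_lit 12692) (nat_lit 6) (nat_lit 118844623656832029430) (ZL.cons (nat_lit 12768) (nat_lit 6) (nat_lit 118759237775953761126) (ZL.cons (nat_lit 12844) (nat_lit 6) (nat_lit 120014555560524375358) (ZL.cons (nat_lit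 12920) (nat_lit 6) (nat_lit 119464399035239519108) (ZL.cons (nat_lit 12996) (nat_lit 6) (nat_lit 118999693021349965064) (ZL.cons (nat_lit 13072) (nat_lit 6) (nat_lit 118620031465057168956) (ZL.cons (nat_lit 13148) (nat_lit 6) (nat_lit 118325082623253690478) (ZL.cons (nat_lit 13224) (nat_lit 6) (nat_lit 118114588773650575132) (ZL.cons (nat_lit 13300) (nat_lit 6) (nat_lit 117988365989583121166) (ZL.cons (nat_lit 13376) (nat_lit 3) (nat_lit 58973151989649129967) (ZL.cons (nat_lit 13452) (nat_lit 6) (nat_lit 119524677856587601560) (ZL.cons (nat_lit 13528) (nat_lit 6) (nat_lit 118940321067790087802) (ZL.cons (nat_lit 13604) (nat_lit 6) (nat_lit 118440388782482496524) (ZL.cons (nat_lit 13680) (nat_lit 6) (nat_lit 118024444166629122064) (ZL.cons (nat_lit 13756) (nat_lit 6) (nat_lit 117692123773478247884) (ZL.cons (nat_lit 13832) (nat_lit 6) (nat_lit 117443137225987314968) (ZL.cons (nat_lit 13908) (nat_lit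 6) (nat_lit 117277266963095408900) (ZL.cons (nat_lit 13984) (nat_lit 6) (nat_lit 117194368049621362006) (ZL.cons (nat_lit 14060) (nat_lit 6) (nat_lit 118702664671013235236) (ZL.cons (nat_lit 14136) (nat_lit 6) (nat_lit 119087508224378059252) (ZL.cons (nat_lit 14212) (nat_lit 6) (nat_lit 118469947296247868300) (ZL.cons (nat_lit 14288) (nat_lit 6) (nat_lit 117935814747427619514) (ZL.cons (nat_lit 14364) (nat_lit 6) (nat_lit 117484643860156207820) (ZL.cons (nat_lit 14440) (nat_lit 6) (nat_lit 117116040407444755288) (ZL.cons (nat_lit 14516) (nat_lit 6) (nat_lit 116829682308606426670) (ZL.cons (nat_lit 14592) (nat_lit 6) (nat_lit 116625319347826703032) (ZL.cons (nat_lit 14668) (nat_lit 6) (nat_lit 116502772955528204036) (ZL.cons (nat_lit 14744) (nat_lit 3) (nat_lit 58230968026169509187) (ZL.cons (nat_lit 14820) (nat_lit 6) (nat_lit 116600694684562950272) (ZL.cons (nat_lit 14896) (nat_lit 6) (nat_lit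 116652354546737245160) (ZL.cons (nat_lit 14972) (nat_lit 6) (nat_lit 116755719410771229948) (ZL.cons (nat_lit 15048) (nat_lit 6) (nat_lit 116910879595478138218) (ZL.cons (nat_lit 15124) (nat_lit 6) (nat_lit 117117970677718393482) (ZL.cons (nat_lit 15200) (nat_lit 6) (nat_lit 117377173610864827030) (ZL.cons (nat_lit 15276) (nat_lit 6) (nat_lit 117688714882917275552) (ZL.cons (nat_lit 15352) (nat_lit 6) (nat_lit 118052866714404716914) (ZL.cons (nat_lit 15428) (nat_lit 6) (nat_lit 117485530026251790934) (ZL.cons (nat_lit 15504) (nat_lit 6) (nat_lit 117000158875467721732) (ZL.cons (nat_lit 15580) (nat_lit 6) (nat_lit 116596329151338231966) (ZL.cons (nat_lit 15656) (nat_lit 6) (nat_lit 116273687992939324996) (ZL.cons (nat_lit 15732) (nat_lit 6) (nat_lit 116031953480812205656) (ZL.cons (nat_lit 15808) (nat_lit 6) (nat_lit 115870914390625889090) (ZL.cons (nat_lit 15884) (nat_lit 6) (nat_lit 115790430008612251326)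 (ZL.cons (nat_lit 15960) (nat_lit 3) (nat_lit 57900137579438091228) (ZL.cons (nat_lit 16036) (nat_lit 6) (nat_lit 115826486813082844396) (ZL.cons (nat_lit 16112) (nat_lit 6) (nat_lit 115905144679090001078) (ZL.cons (nat_lit 16188) (nat_lit 6) (nat_lit 116036317487071833516) (ZL.cons (nat_lit 16264) (nat_lit 6) (nat_lit 116220119854045024868) (ZL.cons (nat_lit 16340) (nat_lit 6) (nat_lit 116456712384019551702) (ZL.cons (nat_lit 16416) (nat_lit 6) (nat_lit 116746301808332284968) (ZL.cons (nat_lit 16492) (nat_lit 6) (nat_lit 117089141166286022202) (ZL.cons (nat_lit 16568) (nat_lit 6) (nat_lit 116570565876169275806) (ZL.cons (nat_lit 16644) (nat_lit 6) (nat_lit 116132535888527128532) (ZL.cons (nat_lit 16720) (nat_lit 6) (nat_lit 115774668458710184328) (ZL.cons (nat_lit 16796) (nat_lit 6) (nat_lit 115496650887022486636) (ZL.cons (nat_lit 16872) (nat_lit 6) (nat_lit 115298240245488774368) (ZL.cons (nat_lit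 16948) (nat_lit 6) (nat_lit 115179263165587319034) (ZL.cons (nat_lit 17024) (nat_lit 3) (nat_lit 57569807843381433466) (ZL.cons (nat_lit 17100) (nat_lit 6) (nat_lit 115074828685432256164) (ZL.cons (nat_lit 17176) (nat_lit 6) (nat_lit 115128038343471779898) (ZL.cons (nat_lit 17252) (nat_lit 6) (nat_lit 115234504153426784230) (ZL.cons (nat_lit 17328) (nat_lit 6) (nat_lit 115394319143674899750) (ZL.cons (nat_lit 17404) (nat_lit 6) (nat_lit 115607622958382362672) (ZL.cons (nat_lit 17480) (nat_lit 6) (nat_lit 115874601979523189224) (ZL.cons (nat_lit 17556) (nat_lit 6) (nat_lit 116195489489737211202) (ZL.cons (nat_lit 17632) (nat_lit 6) (nat_lit 115724255362762386734) (ZL.cons (nat_lit 17708) (nat_lit 6) (nat_lit 115332187669432785022) (ZL.cons (nat_lit 17784) (nat_lit 6) (nat_lit 115018943826327050096) (ZL.cons (nat_lit 17860) (nat_lit 6) (nat_lit 114784250125232759476) (ZL.cons (nat_lit 17936) (nat_lit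 6) (nat_lit 114627901493983908440) (ZL.cons (nat_lit 18012) (nat_lit 6) (nat_lit 114549761317271638768) (ZL.cons (nat_lit 18088) (nat_lit 3) (nat_lit 57198361687565125900) (ZL.cons (nat_lit 18164) (nat_lit 6) (nat_lit 114423721378963113594) (ZL.cons (nat_lit 18240) (nat_lit 6) (nat_lit 114504738980950484978) (ZL.cons (nat_lit 18316) (nat_lit 6) (nat_lit 114639846973171772392) (ZL.cons (nat_lit 18392) (nat_lit 6) (nat_lit 114829163411154159482) (ZL.cons (nat_lit 18468) (nat_lit 6) (nat_lit 115072853717027922122) (ZL.cons (nat_lit 18544) (nat_lit 6) (nat_lit 115371130824070037386) (ZL.cons (nat_lit 18620) (nat_lit 6) (nat_lit 114945858991407758480) (ZL.cons (nat_lit 18696) (nat_lit 6) (nat_lit 114598414884789366046) (ZL.cons (nat_lit 18772) (nat_lit 6) (nat_lit 114328494912277038192) (ZL.cons (nat_lit 18848) (nat_lit 6) (nat_lit 114135863221467608804) (ZL.cons (nat_lit 18924) (nat_lit 6) (nat_lit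 114020351493407943430) (ZL.cons (nat_lit 19000) (nat_lit 3) (nat_lit 56990929397760062930) (ZL.cons (nat_lit 19076) (nat_lit 6) (nat_lit 113791578362973654792) (ZL.cons (nat_lit 19152) (nat_lit 6) (nat_lit 113846384310754364236) (ZL.cons (nat_lit 19228) (nat_lit 6) (nat_lit 113956044095008018702) (ZL.cons (nat_lit 19304) (nat_lit 6) (nat_lit 114120653534963577686) (ZL.cons (nat_lit 19380) (nat_lit 6) (nat_lit 114340356464112264494) (ZL.cons (nat_lit 19456) (nat_lit 6) (nat_lit 114615344855887315846) (ZL.cons (nat_lit 19532) (nat_lit 6) (nat_lit 114234696609936246218) (ZL.cons (nat_lit 19608) (nat_lit 6) (nat_lit 113930576373911260856) (ZL.cons (nat_lit 19684) (nat_lit 6) (nat_lit 113702718411683794234) (ZL.cons (nat_lit 19760) (nat_lit 6) (nat_lit 113550923624063550508) (ZL.cons (nat_lit 19836) (nat_lit 6) (nat_lit 113475059374828337236) (ZL.cons (nat_lit 19912) (nat_lit 3) (nat_lit 56615528468764133531)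 (ZL.cons (nat_lit 19988) (nat_lit 6) (nat_lit 113258864881476114712) (ZL.cons (nat_lit 20064) (nat_lit 6) (nat_lit 113342313011523107238) (ZL.cons (nat_lit 20140) (nat_lit 6) (nat_lit 113481474243511033274) (ZL.cons (nat_lit 20216) (nat_lit 6) (nat_lit 113676470174632891976) (ZL.cons (nat_lit 20292) (nat_lit 6) (nat_lit 113927471189682867496) (ZL.cons (nat_lit 20368) (nat_lit 6) (nat_lit 113590146814325204940) (ZL.cons (nat_lit 20444) (nat_lit 6) (nat_lit 113328088588585080810) (ZL.cons (nat_lit 20520) (nat_lit 6) (nat_lit 113141067529546799850) (ZL.cons (nat_lit 20596) (nat_lit 6) (nat_lit 113028920220751008226) (ZL.cons (nat_lit 20672) (nat_lit 3) (nat_lit 56495774334701806262) (ZL.cons (nat_lit 20748) (nat_lit 6) (nat_lit 112741667326624134054) (ZL.cons (nat_lit 20824) (nat_lit 6) (nat_lit 112798117452838264786) (ZL.cons (nat_lit 20900) (nat_lit 6) (nat_lit 112911067030619528882) (ZL.cons (nat_lit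 20976) (nat_lit 6) (nat_lit 113080614753773754636) (ZL.cons (nat_lit 21052) (nat_lit 6) (nat_lit 113306908770796902050) (ZL.cons (nat_lit 21128) (nat_lit 6) (nat_lit 113011646405724100726) (ZL.cons (nat_lit 21204) (nat_lit 6) (nat_lit 112790425083173162258) (ZL.cons (nat_lit 21280) (nat_lit 6) (nat_lit 112643051502959333400) (ZL.cons (nat_lit 21356) (nat_lit 6) (nat_lit 112569396892051359346) (ZL.cons (nat_lit 21432) (nat_lit 3) (nat_lit 56147169863002431139) (ZL.cons (nat_lit 21508) (nat_lit 6) (nat_lit 112322981908271145360) (ZL.cons (nat_lit 21584) (nat_lit 6) (nat_lit 112408933482219547662) (ZL.cons (nat_lit 21660) (nat_lit 6) (nat_lit 112552269551167111476) (ZL.cons (nat_lit 21736) (nat_lit 6) (nat_lit 112753115360222625942) (ZL.cons (nat_lit 21812) (nat_lit 6) (nat_lit 112498689898339010280) (ZL.cons (nat_lit 21888) (nat_lit 6) (nat_lit 112317116054612523914) (ZL.cons (nat_lit 21964) (nat_lit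 6) (nat_lit 112208235172286512626) (ZL.cons (nat_lit 22040) (nat_lit 3) (nat_lit 56085976056362967137) (ZL.cons (nat_lit 22116) (nat_lit 6) (nat_lit 111916491210841059246) (ZL.cons (nat_lit 22192) (nat_lit 6) (nat_lit 111974634840841613898) (ZL.cons (nat_lit 22268) (nat_lit 6) (nat_lit 112090972905956315918) (ZL.cons (nat_lit 22344) (nat_lit 6) (nat_lit 112265607060805168444) (ZL.cons (nat_lit 22420) (nat_lit 6) (nat_lit 112050829077746004884) (ZL.cons (nat_lit 22496) (nat_lit 6) (nat_lit 111907747931907336088) (ZL.cons (nat_lit 22572) (nat_lit 6) (nat_lit 111836238600928720502) (ZL.cons (nat_lit 22648) (nat_lit 3) (nat_lit 55789145087250854158) (ZL.cons (nat_lit 22724) (nat_lit 6) (nat_lit 111607791622235979886) (ZL.cons (nat_lit 22800) (nat_lit 6) (nat_lit 111696321743402834256) (ZL.cons (nat_lit 22876) (nat_lit 6) (nat_lit 111843957894418824988) (ZL.cons (nat_lit 22952) (nat_lit 6) (nat_lit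 111667672609247478998) (ZL.cons (nat_lit 23028) (nat_lit 6) (nat_lit 111561963014756205904) (ZL.cons (nat_lit 23104) (nat_lit 3) (nat_lit 55763368371669084335) (ZL.cons (nat_lit 23180) (nat_lit 6) (nat_lit 111308083283784446526) (ZL.cons (nat_lit 23256) (nat_lit 6) (nat_lit 111367971222685017814) (ZL.cons (nat_lit 23332) (nat_lit 6) (nat_lit 111487799429753160896) (ZL.cons (nat_lit 23408) (nat_lit 6) (nat_lit 111348885695929210608) (ZL.cons (nat_lit 23484) (nat_lit 6) (nat_lit 111279459160998515866) (ZL.cons (nat_lit 23560) (nat_lit 3) (nat_lit 55537623972207290219) (ZL.cons (nat_lit 23636) (nat_lit 6) (nat_lit 111105634435580880156) (ZL.cons (nat_lit 23712) (nat_lit 6) (nat_lit 111196820460382740156) (ZL.cons (nat_lit 23788) (nat_lit 6) (nat_lit 111094189786119368220) (ZL.cons (nat_lit 23864) (nat_lit 3) (nat_lit 55529994761303355356) (ZL.cons (nat_lit 23940) (nat_lit 6) (nat_lit 110909082155771592420)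 (ZL.cons (nat_lit 24016) (nat_lit 6) (nat_lit 110970766732839180850) (ZL.cons (nat_lit 24092) (nat_lit 6) (nat_lit 110903362329993846148) (ZL.cons (nat_lit 24168) (nat_lit 3) (nat_lit 55389071319273320818) (ZL.cons (nat_lit 24244) (nat_lit 6) (nat_lit 110809440724447930348) (ZL.cons (nat_lit 24320) (nat_lit 3) (nat_lit 55388118292557626577) (ZL.cons (nat_lit 24396) (nat_lit 6) (nat_lit 110712701470735637072) (ZL.cons (nat_lit 24472) (nat_lit 1) (nat_lit 18446744073709551617) ZL.nil))))))))))))))))))))))))))))))))))))))))))))))))))))))))))))))))))))))))))))))))))))))))))))))))))))))))))))))))))))))))))))))))))))))))))))))))))))))))))))))))))))))))))))))))))))))))))))))))))))))))))))))))))))))))))))))))))))))))))))))))))))))))))))))))))))))))))))))))))))))))))))))))))))))))))))))))))))))))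

noncomputable def vl : XL := ⟨(nat_lit 0), (nat_lit 76), (nat_lit 108849654), (nat_lit 152), (nat_lit 353089544), (nat_lit 76), (nat_lit 108849654), (nat_lit 1), (nat_lit 5), (nat_lit 2), (nat_lit 4), (nat_lit 1), (nat_lit 4), (nat_lit 0), (nat_lit 0), (nat_lit 0)⟩

noncomputable def cp0 : Nat := (nat_lit 2756204033072406334391566006712967582148581387081698705117489575943452013017387897055756296501368347245765569648007749060583329348180450774114294624940370583339365751884697690841710386331821785943041341841410775835756590665433710279274390218052281088045772990868311986342317995522387758186611452013377538489282149849700416259314824922806024614803090975184041486298872928166202512742288352991988633955079986879169039657572827093919596449843559574190131708904188224247489755791577295580190250222807905800209550051229716129241208503186832273759606846684124972616833984890895613962575893655674681629463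1336756094321191362425535578216377689745725111927618606983766519057714632189290639431255621310283109938164382464267271516621542590071155039506696221537968314128695760925903701579702421758061739297194234330430360283422582999168037791453933758866146600039560155308490677606825111262508785264521955262000648170812758078645818160703290335975509977532480893764369505603366341926863573172548811629676505237285063766301678050785678019789143490508704299091473112199482057961815068562869029759057619417088538133366093807238982830266025874169104667675370040510725103709215506847139255183227499613586594318982746913796815678446664187898692499698247763450523804780637861194492906158616444599313839147902262901342348352495136258157751896287204701210909362319548037861660030427507628751716477367957277770201673603446502981221160807448314195461538772831659269668382837758210422100629405618924191743355917828943905543971302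7428746603366781475821207352729833512644622732199067524714408496217897662022614523700807146967143300708215109152673271077839578023015003580185194475832897106170974832526993928402740333645795490564490558898132027639136544570256991104240719813873067496597443163346084821878038103284616464575341372787523311408386952794112202420547968696747548980292444222375641623199583667379466310730593386542402550569775858482604710422938884571677957831977201430791498233366200031367442838216388424228930764296627657743993361128502848597543974853596823879501879206253727628479605473429178585079959174580563567128332916293386013564518165730287955019547447105517159084916806368430744308555470488331386753822026858880263756630496324924802241011978579502424913140511997153878893437810802373344496725165211371382991113893053133018181276206088102688911123493823329482777663170430064202162592110843174284984096119783379409648970654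6657037630424006789269609722009653276755093081776481211482493414141749681465638002406623653693198523642548177567663066278542608370901483951383242853697100866078881881842090559851008811050725577320269070800631262656659356610018698989778084857028749189769799818254560982291578688327032039012926954015804415311943689437352005556337571116550041934815264929211731096253371075214131842265823158652632465710074491373950676420939658082809627399412171632771351906567275775881537901069288063042254740556361445361099099700566729013873346435443794355748752278657286708536634741270236830081149515401599390063130584733453101960148645475622424418399988255263200519317280982831705728853113435702393011730016236649292804256113100617563483737210771783577146033732029886032567645745586986860249602200978404780628824199495890096159335314489285792129953540833525333256801089615021516586791316747005005678859777682024140549368378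0411247005190502539132779136091376968402484184339978633067371467884515095474142679396981135116582330942476654962639641724688562716109285035351535310474899456069114865219277463202659280122051980914830149175147304119397333970180291370607115293563150958244485210101602369228862110000950859969935013732317213703219350083158968581905103134286826412643788195123799935765235686917524618791751323319631976417767782511883673567701343630408072863698532583639313230994134648084104773535595865132948442883284318620341569067891768778149909344460725134463554289597526490888343208375156319825560285205761772030425840765563287488549767251727161298601885923297763432754423825612768777020168076387942284823582764843683963452763072724799860787999179985213946464219305892392152779392845527172021016066139743293830458726951488681364478121345252403830634918794969425056890197833551918774926732427863661757280916234321351741526463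1825712002415082291446777246387417777792099611443007715895232796387801213101401706700452632030840197890431577599281749292606135471866804819513664185829753418902211167925493712711113874569527563394206046678986954729302123747086477108411032168148961715751366494729063093022798238801082280504015488072302232422664770836327400925245751234026490189918897549172104982326539093101904533822911246037575260833968070885395987221169357524345024209002841810220001419630418421169293976435851694569828654688691715204933845136905917636441679783641972041044924041184554972542891947976980303756440392106760536655293822276545080390128192051307508712855865768906522123301870536845721097112314316939084060213389640888257242772008931264579855555738958506155202415418392108931050990138779563206980334550765726012329925347521061211018633925877071211129175172641523641608296611040809117957687400406551385582367715103496153427017508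4059300516624060749510754283455502952073667724363848075705680889672564641070536413738897412271639084896558844689532802313685893219834671766075752645713189811201524558023748824533674089529747245634821467957687741120766887623241620272073275206668162255757503517311441872117894667607070203066795986221878283800280853882623496705493104712306387647794414285189142381443053619333474149194858226545376480370466044628699859189340951149235286487821046804060413909603302145093656818378320302660257197882025749385689171253294760349391114217767540488811867194674414943810792906193679362653211737900483428477956625141691014556138114794630440353205149192035970239799052507739711033359757667311419892099448439113779539575675953980907801733760336383153728460301923524075462112422088779915497125574277611965806878775827486655073945235509559518455349351253078050265001059865121843451614584720386509053939092687654328249923107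23769988636052294053921714477811160096207487286046777225395503149193184413281734462658485771115354661309652392546774993682708040549810960368409885018694933758898896301554424223396053762437694780449470788703130719452907740295346791242060095208482557047364817114272440103798701681604703397715494714345958986664181702350317340592076049890134422342025845746075461596750856768367753740484872878766189016157073508273560381614908385839283362776637132975928565972085005004440067411501302191855016458052733101042207190878903088790818963761592823681295211767109584371959362787727416177418079393228703394704489211597628774186587478789925742022045847878688204819979112107487272439086936138981196615937597955121953473615689592949180813776250071013766474662573833610182047975256657659636512964774311360849259005061425094140703078188253127148352790997322304440837589521713680486794879617271184915981262976689702119609063095998349688575381560640044431178204962366187055830100561929308822314960478082951264687125882695418648252202397290202659315362778500471422045421696894455691727519720689570520026380870225355062218427903820414881132864993802573764468480649991953916143257513781555948361657809834387143976732857030242443834682535763556196949986893826763936831555494755568790091739955354384692583010007039327514062039421191999182915090921550843174519617861189632)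

noncomputable def cp1 : Nat := (nat_lit 1520586293110326978481219936983868029542730561528797979283920308328683235513185191351962155384063514003053301942967496719398766092004916878052678970885753296797113062254881588848106434165455139346179599674160531209016837102800136074068150659385621430957964660122710899945627545827011187453892439060108866396377507692591125490235148110797721701222573288728782973613550631558649711236758884672529193031303859126481030674607144920030458775451927553880661198047388500103272611489085134693628805519554434465220625997776865286030992594499872527074149073691538665435986220056381054999382821635546686712106546502852301350094844970423492179390120536016316883807448292389442403129825890206373247822670568009993593831177288127019535828334399302292088228903422018059251679611207202852822471012903526356998250862258137808826870942933638272784185232949877846756002904430506642268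7372994032338717040864154508929505166873288218555486945665326670139972026118328209878537403527932525896233048427080884998072116939011111327818405044790298845347158634216901712925199899048575401177440658923867551182643009865129144533997205881633903762314117874520809300064237429895776209948719408627294666742938458878305237026472533301444996503427224622403189475380531534604312296654202072351598340813783734707735972058135562788926850600757003798426575854126811907120731542460827241996770034179930324233753304509253653173094618213809482295360029933807502637224018640119359358230058388214993236065430844760663113386716997798380893944051477410801441781381960469923140679126222886598037975247190525366125712567985398429132991161525079639628464634947634932965201033360226326958185057490968551007071608041025646456527550595569859870220720449498006603143697016641760912849372512302867902225399311359748698135246225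3102771572534542955951664277259391743554079156933615977222284502397464028516887977203759561720531719303307632383956092103616244494325261735995596052411192394434620754233637300216568756185407815283045934327268772977536820366334912477677264815555631367138141777278654672828760155098622762296682726970634670717154492228467129243793806216413657909437562551316989173387022060637636591967027160484680062939056918413329525947051702433531286713814936778042173877181403598881567595315374874574502587238306271897937463578069801240737192244219096400940044166807202309427625778492007203262787517515273764166747581163188213895893245734186273900103141539458265048221449082266626301690121026942914444457913107940850307406411002217913117312258437049879861501857419452878436346776999124726608617637444349464087764496183041643253736785446009570035858932261726423495589931022698751499381549817427427435921661734097506758428111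8364143962945789854948982530270573735278104897586960252558554460593883020991815404958914494451716591815037729546154650848814140875835343441174761254432862464433462813141323777563695161111348712477914201813703464871432909969377938140473245935192167193096742037718539907630682934272344543466024542497358775134158675225003587118156372039462005559222948097445545326835201691780379051497254946025800221550371825396841805001221513616874029633426613143443632349555359036551150241518469683926705347315896044614205253637090443571251648357282886201096725209848351228787465906720213846009039707440659487165893142869318313667172831544143563111067589416453892970268542628031529902550553497975468391180547807705386328813807131697379482428961726464840119352582935878892226622412238532622942957694159352628188917419882385499239435636848803660589711322433229655543776877457813320182690117381604657857789578218420874399560415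7303102022500017582356536452416058392198616389276714559786314176505199697654527354782104495168523282412935413425672082188120461467304999780851954164671648135029277829434329938574182948659816135890173623156569985791525233693681508249308772525013742294745970885542236278472353016304471365402505006575790162701854777347893117316128216797668890056495513225773133921719214535649957446412493171994924075349238622284657702489467086155514134137510171338984095613470680791219106381026968526341570332334005174911069375497658170340229048894757207936869134122812163748128988299386427317226075998019055478567562935354683794536348393172224334229673769765664500255613420027697346995668817268562582274146222915952377634604480317609622783973237979671467280420354169776663573849848897172759048016301678851911744972303582129428830416501372736247300037960397394077413174813361841123305369711199592422142479509382337305770974464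3259360660407515628475354258405537411110263584338417488414723097988234858427758972985228798065178077719719673589645006024440113340073769427605392206953880239307522768466920113904833319088292884381649248430225623727702092864685213645705666011224636083235705155251924989031541868010113657178010996958595894622141446434729970107346671723455041433102510314271672202099962057440080527450713655294391950217548796019320556578410188744971676494870269926436823426956182087981644016753254489618593689756517298638996205177195912591595657230677366973013391481687816137025227408192158416945183788073582397095743307397883699603044547367003345758507637421351642929435144405663208467147462693266937355912180850686786571864172358297974058202135228867845171919993604337001566361190692118133915122757371814931365621819834891750822560331247349247000632944540544787910489533518622025136861491510216878711769597736990805320557262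3513360002414261220913279511977599702954358029868351650705236536179225082214859845261642878498435167195593308660290979455152040696061449957137815643061042057431019121796342370286042525570805141434999125374712966525173826884683054888835226734568734568879835164092152466675424225409437165364871190827976416538890541109641063186593636251708211040794816293372836201333312294172992718327736959551796863818736046335100211758488641024351064747448720058348921740338064447634813118743618378090266820401005599594291743496820722086146025441863615706440954077438692951517034820181721793183246318298798539876482793982500277930593607168695695579767825763199558780417405182787685818977226187771977650856371316125474924849068117922327595698926339822249208883777884078204715592442978375741626895306566062798823528294956447014764864786449264361579029082951857583076459585041124413140621577236645879913677155031511069883289334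4086175099665552601388858353998173164993412026652476550204927847500002713166875048558673494816342623623433394812125620407102014052806875582690321182534862841610130480633208663369616482224695105823519796159566003709488737744878947025784425703093373301160010218854881547763615090953116644495017582948988105019197343722398973854647197554725652892383234459145032359845502397835405845098807559284857155840739950882723084334937325155433849743854446055554560412115659232537162668984433117798458463584833262728510894008359402440948543365883816068623593586425298211319478351499117872752395161265565256710331666763550984538215245824109808327471702931667219410875947247214604670699735928587979497681564455309432711439503957484201180153524188306785027242170947826906407687154502898077436855388950774417281991311855268096625195537353110700217382908585530094623408453366906226499615769884720620077925869328737018526859921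7285797556077121196760854238435377111981340822030140572754854005018337516363105565184531300273278491310060246324999510092507866306265513965861051043484048077872933781921128463407591638810665391065660439450580544028866865956179483423164576515930799745258710393456149685893512339576240141226664738197682272896311781828264082223520250078538812986267408822964204276711469872959050134761236111734184409358971858737251642677948483626726333018157080297932151643522174509426763694434283378984928294289009470601053221827279632454892507838471197966939563965814336563497093707185161204868052376652681724137607843297110471161981417319821692267386931726400525636757818123633091988799044332873153514849295785107791289775648903939248916881238909086398091780231339684442932012435001086786345212375510763302149212664438862278667509654954905776650073062832582245083384235900844672867536808221606587281720406702442324463397001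3350406229455982646647048595930462830223922418942217397518269354555810988668268061055099289994645235684633879369438474120008036512777527409748372540629208287864722595820164689509115395645549990609848547139073102457788143039569740769738900895164808800013847559267095024916289228339258472438956512129187563908976374677719823774456226526237601424172724456013856338714760341137432447927708615376524166104357832825159929841009448788760109718988885076442602781852485887227455812833035565139873396052344718739254283198000756520732336726325308052744028863454343381301000719314815850236907553941767741797743925612548500488870588604684531576429578608431353723026088841365649052617713149491757002484638500678915132594242907274265924622368988544559709803176819279615076309542343206523873376133964583825761670104804131547543229735025957782369650805766918571391436968924586058820380450750839654637413929560233234209423984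7833276649632051706470284592336510249323335075129971655129701764428407573007063577066301878665976257596839910759931801517703876728829997804042935929621092496596537513403873887050393855239412030913311809594472760727837648463582870161656669247862876796971298804471335111150712415200586949496366919671707693167296893357206195957119723655074899785731254680030741324382126081510536011656060034434444247237213444649745566114124984280312954244518251770001778504098838687891710969698067858178255370966921083911560515947625343285843418196738925319919998731189950959286295235738304668697784580389342868614221196898291419494280805328264749646284961676253657001340180118014383435932950942723080283671131669850497482030931725175685941966857410861359754111064646218332873369017599925762324851455876945137550591056487343444082711816865389852709717866273444779251089086839327511775276199464799966289343034738293572409861189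0514213925285805351320162712998214251107365401785870023596441040729638796969059605576126440349557738764105636606612581139849514655503834638649836700158570051599259119461997513804247332986740180320368740812699998192177192022034468119248303940024364887043562858523360041013974319799154283300759537687670059511266606674083147067967975736961874999487226817586986748927254647121497647828171022402215897881865184917356857150491356888580117023498038606028491022842024743252425925214675842865059443339657686589800224436084691098438322382820615596847373608453281034858782047819939950833693917015408115963523783987139513964269991047292470663803087064651706525607108652621306331474936292095082185268474589374175155736900149152992463415480045268346152516999679579734063280933955381341784339993407573145597684745514517466564730301166233211538362919765215527977810307465153413566811901757883608151218984569070370581266389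4025598371706491780581157857040293233520224015640937307567493471967761736031831024877679885595974060051045569549932151598356400046981024303744505824532283765133014440371858310724966379759517481442134664193065740954460841155735112965913099106714767000500625310265128447681247880642223546668644283075026601507910615031952461493953471344880190598323073157091680870615957268113580981157040888194191171201002373673086400122277059872692050047939706411010393239862367113467197213219028716483351034775787371871387463318172191042164980563309295772893422961786780594165180690097256176731284491257573046208043118866146051089907811124683457229847147999400786551702219978453009904575807202908571719802091812246695733689078373771234570344747422910433735998826786342632284148988937400162534111463140505329872286340471370316022470399336848384709489979080464344549830841321906463679205592307013293834710256922444856744721576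4727051276113708094685715513715972335325453699740026070350367829167270965641472400599800560219906645722772283670295008333608629426976981772101041033939889573151504928671022202178881386436609662238223259568428997947001718171174114129540254956699725635876515750717458392122207691324142073686566616844609842035784766362956704564881482910371042163437558253380240262975816960451731373426773351419250482856399538322531571919345673605281886625618662244862651746571316808160525692607000373687041237482282177353760154716355431008600507673457988743363211051036504631460652515858866963401157500644006079990205864389176102072523219455264221407524663459537863454728313807866841579638672564405545036299687713319972949270002014336931049408479352184160356559223770812578813612361008850448649719465557531870414602814677403589023032662402379750236037139865149887536942728846921900568791833331195461867289775076805043986290423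6713122836096878360560849903035969036535703331476441098265055835806332781583002437054762558351213636489974256687496462032429396977985598558852995772725506321102375049868162755620783786709976315043892567547267989534224540396875163799617604891927832946604605717190184865343410277839944082678604359720773691561315686458769557780383689034620276075933921880894166496591667124424038870295653019292109246913072177769841630529641509635130728035333410107038893084147670471457586156241737388387083817698717069417882397693210106157578505427582747778261029035214698233842333911556415690876912828128506587496222252740470051430477362972093888795087614395296086334447692363309458464296123654627110906980452402115446825322030767529764314780534869271043805574317815844138619270376918355456983577436468373444275015286844999413271551484987182290655083334748793216900439082720944027298798785689601913901354713985623487040768510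94742804919773533772111775596423583136094023695259199130350148929501389929982010791229766858628730638876924085394803680599770702821366680729603271650388489274783407266308672891429172086866590403420807312114840776883039390230463902731826799790121419566334928140387115799956028385496118933098562028363717223509324961696936928423783354858844338025372726160305692241973208453845929361071068513285616043898248339471484552262272670397265713672295048718512298823127364953076756522881790313505846701425284206581419311431087169937281706453585846629859867851276302257509051627468020439050310993903322316459492559639931139118169521723498050443351412054875561029041117055480548381803089994219823869728522028432854205817601479453614035608899204059766763223664675604058891407470311116559997152852932936212850401524355104126287271036373588661334500365143778063240428057955961594869985289152842185717639120137388989625240876124810980550059489710745756355372851503100610284216452559147669556359930852634040548994677782296609764962795266146062421013639939020733118398319482601407988888599092324309171324281241400981704194659350591509143343377834642827897938481406662442267582075337907515113536672178192252928)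

noncomputable def rc0 : Nat := (nat_lit 1520586293110326978481219936983868029542730561528797979283920308328683235513185191351962155384063514003053301942967496719398766092004916878052678970885753296797113062254881588848106434165455139346179599674160531209016837102800136074068150659385621430957964660122710899945627545827011187453892439060108866396377507692591125490235148110797721701222573288728782973613550631558649711236758884672529193031303859126481030674607144920030458775451927553880661198047388500103272611489085134693628805519554434465220625997776865286030992594499872527074149073691538665435986220056381054999382821635546686712106546502852301350094844970423492179390120536016316883807448292389442403129825890206373247822670568009993593831177288127019535828334399302292088228903422018059251679611207202852822471012903526356998250862258137808826870942933638272784185232949877846756002904430506642268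7372994032338717040864154508929505166873288218555486945665326670139972026118328209878537403527932525896233048427080884998072116939011111327818405044790298845347158634216901712925199899048575401177440658923867551182643009865129144533997205881633903762314117874520809300064237429895776209948719408627294666742938458878305237026472533301444996503427224622403189475380531534604312296654202072351598340813783734707735972058135562788926850600757003798426575854126811907120731542460827241996770034179930324233753304509253653173094618213809482295360029933807502637224018640119359358230058388214993236065430844760663113386716997798380893944051477410801441781381960469923140679126222886598037975247190525366125712567985398429132991161525079639628464634947634932965201033360226326958185057490968551007071608041025646456527550595569859870220720449498006603143697016641760912849372512302867902225399311359748698135246225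3102771572534542955951664277259391743554079156933615977222284502397464028516887977203759561720531719303307632383956092103616244494325261735995596052411192394434620754233637300216568756185407815283045934327268772977536820366334912477677264815555631367138141777278654672828760155098622762296682726970634670717154492228467129243793806216413657909437562551316989173387022060637636591967027160484680062939056918413329525947051702433531286713814936778042173877181403598881567595315374874574502587238306271897937463578069801240737192244219096400940044166807202309427625778492007203262787517515273764166747581163188213895893245734186273900103141539458265048221449082266626301690121026942914444457913107940850307406411002217913117312258437049879861501857419452878436346776999124726608617637444349464087764496183041643253736785446009570035858932261726423495589931022698751499381549817427427435921661734097506758428111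8364143962945789854948982530270573735278104897586960252558554460593883020991815404958914494451716591815037729546154650848814140875835343441174761254432862464433462813141323777563695161111348712477914201813703464871432909969377938140473245935192167193096742037718539907630682934272344543466024542497358775134158675225003587118156372039462005559222948097445545326835201691780379051497254946025800221550371825396841805001221513616874029633426613143443632349555359036551150241518469683926705347315896044614205253637090443571251648357282886201096725209848351228787465906720213846009039707440659487165893142869318313667172831544143563111067589416453892970268542628031529902550553497975468391180547807705386328813807131697379482428961726464840119352582935878892226622412238532622942957694159352628188917419882385499239435636848803660589711322433229655543776877457813320182690117381604657857789578218420874399560415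7303102022500017582356536452416058392198616389276714559786314176505199697654527354782104495168523282412935413425672082188120461467304999780851954164671648135029277829434329938574182948659816135890173623156569985791525233693681508249308772525013742294745970885542236278472353016304471365402505006575790162701854777347893117316128216797668890056495513225773133921719214535649957446412493171994924075349238622284657702489467086155514134137510171338984095613470680791219106381026968526341570332334005174911069375497658170340229048894757207936869134122812163748128988299386427317226075998019055478567562935354683794536348393172224334229673769765664500255613420027697346995668817268562582274146222915952377634604480317609622783973237979671467280420354169776663573849848897172759048016301678851911744972303582129428830416501372736247300037960397394077413174813361841123305369711199592422142479509382337305770974464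3259360660407515628475354258405537411110263584338417488414723097988234858427758972985228798065178077719719673589645006024440113340073769427605392206953880239307522768466920113904833319088292884381649248430225623727702092864685213645705666011224636083235705155251924989031541868010113657178010996958595894622141446434729970107346671723455041433102510314271672202099962057440080527450713655294391950217548796019320556578410188744971676494870269926436823426956182087981644016753254489618593689756517298638996205177195912591595657230677366973013391481687816137025227408192158416945183788073582397095743307397883699603044547367003345758507637421351642929435144405663208467147462693266937355912180850686786571864172358297974058202135228867845171919993604337001566361190692118133915122757371814931365621819834891750822560331247349247000632944540544787910489533518622025136861491510216878711769597736990805320557262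3513360002414261220913279511977599702954358029868351650705236536179225082214859845261642878498435167195593308660290979455152040696061449957137815643061042057431019121796342370286042525570805141434999125374712966525173826884683054888835226734568734568879835164092152466675424225409437165364871190827976416538890541109641063186593636251708211040794816293372836201333312294172992718327736959551796863818736046335100211758488641024351064747448720058348921740338064447634813118743618378090266820401005599594291743496820722086146025441863615706440954077438692951517034820181721793183246318298798539876482793982500277930593607168695695579767825763199558780417405182787685818977226187771977650856371316125474924849068117922327595698926339822249208883777884078204715592442978375741626895306566062798823528294956447014764864786449264361579029082951857583076459585041124413140621577236645879913677155031511069883289334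4086175099665552601388858353998173164993412026652476550204927847500002713166875048558673494816342623623433394812125620407102014052806875582690321182534862841610130480633208663369616482224695105823519796159566003709488737744878947025784425703093373301160010218854881547763615090953116644495017582948988105019197343722398973854647197554725652892383234459145032359845502397835405845098807559284857155840739950882723084334937325155433849743854446055554560412115659232537162668984433117798458463584833262728510894008359402440948543365883816068623593586425298211319478351499117872752395161265565256710331666763550984538215245824109808327471702931667219410875947247214604670699735928587979497681564455309432711439503957484201180153524188306785027242170947826906407687154502898077436855388950774417281991311855268096625195537353110700217382908585530094623408453366906226499615769884720620077925869328737018526859921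7285797556077121196760854238435377111981340822030140572754854005018337516363105565184531300273278491310060246324999510092507866306265513965861051043484048077872933781921128463407591638810665391065660439450580544028866865956179483423164576515930799745258710393456149685893512339576240141226664738197682272896311781828264082223520250078538812986267408822964204276711469872959050134761236111734184409358971858737251642677948483626726333018157080297932151643522174509426763694434283378984928294289009470601053221827279632454892507838471197966939563965814336563497093707185161204868052376652681724137607843297110471161981417319821692267386931726400525636757818123633091988799044332873153514849295785107791289775648903939248916881238909086398091780231339684442932012435001086786345212375510763302149212664438862278667509654954905776650073062832582245083384235900844672867536808221606587281720406702442324463397001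3350406229455982646647048595930462830223922418942217397518269354555810988668268061055099289994645235684633879369438474120008036512777527409748372540629208287864722595820164689509115395645549990609848547139073102457788143039569740769738900895164808800013847559267095024916289228339258472438956512129187563908976374677719823774456226526237601424172724456013856338714760341137432447927708615376524166104357832825159929841009448788760109718988885076442602781852485887227455812833035565139873396052344718739254283198000756520732336726325308052744028863454343381301000719314815850236907553941767741797743925612548500488870588604684531576429578608431353723026088841365649052617713149491757002484638500678915132594242907274265924622368988544559709803176819279615076309542343206523873376133964583825761670104804131547543229735025957782369650805766918571391436968924586058820380450750839654637413929560233234209423984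7833276649632051706470284592336510249323335075129971655129701764428407573007063577066301878665976257596839910759931801517703876728829997804042935929621092496596537513403873887050393855239412030913311809594472760727837648463582870161656669247862876796971298804471335111150712415200586949496366919671707693167296893357206195957119723655074899785731254680030741324382126081510536011656060034434444247237213444649745566114124984280312954244518251770001778504098838687891710969698067858178255370966921083911560515947625343285843418196738925319919998731189950959286295235738304668697784580389342868614221196898291419494280805328264749646284961676253657001340180118014383435932950942723080283671131669850497482030931725175685941966857410861359754111064646218332873369017599925762324851455876945137550591056487343444082711816865389852709717866273444779251089086839327511775276199464799966289343034738293572409861189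0514213925285805351320162712998214251107365401785870023596441040729638796969059605576126440349557738764105636606612581139849514655503834638649836700158570051599259119461997513804247332986740180320368740812699998192177192022034468119248303940024364887043562858523360041013974319799154283300759537687670059511266606674083147067967975736961874999487226817586986748927254647121497647828171022402215897881865184917356857150491356888580117023498038606028491022842024743252425925214675842865059443339657686589800224436084691098438322382820615596847373608453281034858782047819939950833693917015408115963523783987139513964269991047292470663803087064651706525607108652621306331474936292095082185268474589374175155736900149152992463415480045268346152516999679579734063280933955381341784339993407573145597684745514517466564730301166233211538362919765215527977810307465153413566811901757883608151218984569070370581266389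4025598371706491780581157857040293233520224015640937307567493471967761736031831024877679885595974060051045569549932151598356400046981024303744505824532283765133014440371858310724966379759517481442134664193065740954460841155735112965913099106714767000500625310265128447681247880642223546668644283075026601507910615031952461493953471344880190598323073157091680870615957268113580981157040888194191171201002373673086400122277059872692050047939706411010393239862367113467197213219028716483351034775787371871387463318172191042164980563309295772893422961786780594165180690097256176731284491257573046208043118866146051089907811124683457229847147999400786551702219978453009904575807202908571719802091812246695733689078373771234570344747422910433735998826786342632284148988937400162534111463140505329872286340471370316022470399336848384709489979080464344549830841321906463679205592307013293834710256922444856744721576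4727051276113708094685715513715972335325453699740026070350367829167270965641472400599800560219906645722772283670295008333608629426976981772101041033939889573151504928671022202178881386436609662238223259568428997947001718171174114129540254956699725635876515750717458392122207691324142073686566616844609842035784766362956704564881482910371042163437558253380240262975816960451731373426773351419250482856399538322531571919345673605281886625618662244862651746571316808160525692607000373687041237482282177353760154716355431008600507673457988743363211051036504631460652515858866963401157500644006079990205864389176102072523219455264221407524663459537863454728313807866841579638672564405545036299687713319972949270002014336931049408479352184160356559223770812578813612361008850448649719465557531870414602814677403589023032662402379750236037139865149887536942728846921900568791833331195461867289775076805043986290423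6713122836096878360560849903035969036535703331476441098265055835806332781583002437054762558351213636489974256687496462032429396977985598558852995772725506321102375049868162755620783786709976315043892567547267989534224540396875163799617604891927832946604605717190184865343410277839944082678604359720773691561315686458769557780383689034620276075933921880894166496591667124424038870295653019292109246913072177769841630529641509635130728035333410107038893084147670471457586156241737388387083817698717069417882397693210106157578505427582747778261029035214698233842333911556415690876912828128506587496222252740470051430477362972093888795087614395296086334447692363309458464296123654627110906980452402115446825322030767529764314780534869271043805574317815844138619270376918355456983577436468373444275015286844999413271551484987182290655083334748793216900439082720944027298798785689601913901354713985623487040768510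94742804919773533772111775596423583136094023695259199130350148929501389929982010791229766858628730638876924085394803680599770702821366680729603271650388489274783407266308672891429172086866590403420807312114840776883039390230463902731826799790121419566334928140387115799956028385496118933098562028363717223509324961696936928423783354858844338025372726160305692241973208453845929361071068513285616043898248339471484552262272670397265713672295048718512298823127364953076756522881790313505846701425284206581419311431087169937281706453585846629859867851276302257509051627468020439050310993903322316459492559639931139118169521723498050443351412054875561029041117055480548381803089994219823869728522028432854205817601479453614035608899204059766763223664675604058891407470311116559997152852932936212850401524355104126287271036373588661334500365143778063240428057955961594869985289152842185717639120137388989625240876124810980550059489710745756355372851503100610284216452559147669556359930852634040548994677782296609764962795266146062421013639939020733118398319482601407988888599092324309171324281241400981704194659350591509143343377834642827897938481406662442267582075337907515113536672178192252928)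

end Vale.Agent.Lib.P154.PChain.BN.S7
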